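import Vale.Agent.P348.G.A10_7

set_option maxRecDepth 1000000
set_option maxHeartbeats 0
set_option linter.all false

namespace Vale.Agent.P348.G10_7_0

noncomputable def sp0 : List Spec :=
  [Spec.mk (nat_lit 53) (nat_lit 6) [nat_lit 107, nat_lit 71, nat_lit 19735] (nat_lit 0) [] true,
   Spec.mk (nat_lit 71) (nat_lit 4) [nat_lit 125, nat_lit 53, nat_lit 77, nat_lit 19753] (nat_lit 0) [] true,
   Spec.mk (nat_lit 77) (nat_lit 4) [nat_lit 131, nat_lit 71, nat_lit 79, nat_lit 19759] (nat_lit 0) [] false,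
   Spec.mk (nat_lit 79) (nat_lit 6) [nat_lit 133, nat_lit 77, nat_lit 19761] (nat_lit 0) [] false,
   Spec.mk (nat_lit 107) (nat_lit 4) [nat_lit 269, nat_lit 53, nat_lit 125, nat_lit 19789] (nat_lit 0) [] true,
   Spec.mk (nat_lit 125) (nat_lit 4) [nat_lit 287, nat_lit 71, nat_lit 179, nat_lit 107, nat_lit 143, nat_lit 131, nat_lit 19807] (nat_lit 0) [] true,
   Spec.mk (nat_lit 131) (nat_lit 3) [nat_lit 293, nat_lit 77, nat_lit 185, nat_lit 149, nat_lit 125, nat_lit 133, nat_lit 19813] (nat_lit 0) [] true,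
   Spec.mk (nat_lit 133) (nat_lit 5) [nat_lit 295, nat_lit 79, nat_lit 187, nat_lit 151, nat_lit 131, nat_lit 19815] (nat_lit 0) [] true,
   Spec.mk (nat_lit 143) (nat_lit 2) [nat_lit 305, nat_lit 197, nat_lit 125, nat_lit 149, nat_lit 19825] (nat_lit 0) [] true,
   Spec.mk (nat_lit 149) (nat_lit 3) [nat_lit 311, nat_lit 203, nat_lit 131, nat_lit 143, nat_lit 155, nat_lit 151, nat_lit 19831] (nat_lit 0) [] true,
   Spec.mk (nat_lit 151) (nat_lit 4) [nat_lit 313, nat_lit 205, nat_lit 133, nat_lit 157, nat_lit 149, nat_lit 19833] (nat_lit 0) [] true,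
   Spec.mk (nat_lit 155) (nat_lit 2) [nat_lit 317, nat_lit 209, nat_lit 149, nat_lit 157, nat_lit 19837] (nat_lit 0) [] true,
   Spec.mk (nat_lit 157) (nat_lit 5) [nat_lit 319, nat_lit 211, nat_lit 151, nat_lit 155, nat_lit 159, nat_lit 19839] (nat_lit 0) [] false,
   Spec.mk (nat_lit 159) (nat_lit 6) [nat_lit 321, nat_lit 213, nat_lit 157] (nat_lit 0) [] false,
   Spec.mk (nat_lit 179) (nat_lit 2) [nat_lit 341, nat_lit 125, nat_lit 197, nat_lit 185, nat_lit 19861] (nat_lit 0) [] true,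
   Spec.mk (nat_lit 185) (nat_lit 0) [nat_lit 347, nat_lit 131, nat_lit 203, nat_lit 179, nat_lit 187, nat_lit 19867] (nat_lit 0) [] true,
   Spec.mk (nat_lit 187) (nat_lit 2) [nat_lit 349, nat_lit 133, nat_lit 205, nat_lit 185, nat_lit 19869] (nat_lit 0) [] false,
   Spec.mk (nat_lit 197) (nat_lit 2) [nat_lit 359, nat_lit 143, nat_lit 179, nat_lit 203, nat_lit 19879] (nat_lit 0) [] true,
   Spec.mk (nat_lit 203) (nat_lit 2) [nat_lit 365, nat_lit 149, nat_lit 185, nat_lit 221, nat_lit 197, nat_lit 209, nat_lit 205, nat_lit 19885] (nat_lit 0) [] true,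
   Spec.mk (nat_lit 205) (nat_lit 3) [nat_lit 367, nat_lit 151, nat_lit 187, nat_lit 223, nat_lit 211, nat_lit 203, nat_lit 19887] (nat_lit 0) [] false,
   Spec.mk (nat_lit 209) (nat_lit 0) [nat_lit 371, nat_lit 155, nat_lit 227, nat_lit 203, nat_lit 211, nat_lit 19891] (nat_lit 0) [] false,
   Spec.mk (nat_lit 211) (nat_lit 3) [nat_lit 373, nat_lit 157, nat_lit 229, nat_lit 205, nat_lit 209, nat_lit 213, nat_lit 19893] (nat_lit 0) [] false,
   Spec.mk (nat_lit 213) (nat_lit 4) [nat_lit 375, nat_lit 159, nat_lit 231, nat_lit 211] (nat_lit 0) [] false,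
   Spec.mk (nat_lit 221) (nat_lit 2) [nat_lit 383, nat_lit 203, nat_lit 227, nat_lit 223, nat_lit 19903] (nat_lit 0) [] false,
   Spec.mk (nat_lit 223) (nat_lit 2) [nat_lit 385, nat_lit 205, nat_lit 229, nat_lit 221, nat_lit 19905] (nat_lit 0) [] false,
   Spec.mk (nat_lit 227) (nat_lit 2) [nat_lit 389, nat_lit 209, nat_lit 221, nat_lit 229, nat_lit 19909] (nat_lit 0) [] false,
   Spec.mk (nat_lit 229) (nat_lit 4) [nat_lit 391, nat_lit 211, nat_lit 223, nat_lit 235, nat_lit 227, nat_lit 231, nat_lit 19911] (nat_lit 0) [] false,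
   Spec.mk (nat_lit 231) (nat_lit 4) [nat_lit 393, nat_lit 213, nat_lit 237, nat_lit 229] (nat_lit 0) [] false,
   Spec.mk (nat_lit 235) (nat_lit 4) [nat_lit 397, nat_lit 229, nat_lit 237, nat_lit 19917] (nat_lit 0) [] false,
   Spec.mk (nat_lit 237) (nat_lit 6) [nat_lit 399, nat_lit 231, nat_lit 235] (nat_lit 0) [] false,
   Spec.mk (nat_lit 269) (nat_lit 4) [nat_lit 755, nat_lit 107, nat_lit 287, nat_lit 19951] (nat_lit 0) [] true,
   Spec.mk (nat_lit 287) (nat_lit 3) [nat_lit 773, nat_lit 125, nat_lit 341, nat_lit 269, nat_lit 305, nat_lit 293, nat_lit 19969] (nat_lit 0) [] true,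
   Spec.mk (nat_lit 293) (nat_lit 2) [nat_lit 779, nat_lit 131, nat_lit 347, nat_lit 311, nat_lit 287, nat_lit 295, nat_lit 19975] (nat_lit 0) [] true,
   Spec.mk (nat_lit 295) (nat_lit 4) [nat_lit 781, nat_lit 133, nat_lit 349, nat_lit 313, nat_lit 293, nat_lit 19977] (nat_lit 0) [] true,
   Spec.mk (nat_lit 305) (nat_lit 0) [nat_lit 791, nat_lit 143, nat_lit 359, nat_lit 287, nat_lit 311, nat_lit 19987] (nat_lit 0) [] true,
   Spec.mk (nat_lit 311) (nat_lit 1) [nat_lit 797, nat_lit 149, nat_lit 365, nat_lit 293, nat_lit 305, nat_lit 317, nat_lit 313, nat_lit 19993] (nat_lit 0) [] true,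
   Spec.mk (nat_lit 313) (nat_lit 2) [nat_lit 799, nat_lit 151, nat_lit 367, nat_lit 295, nat_lit 319, nat_lit 311, nat_lit 19995] (nat_lit 0) [] true,
   Spec.mk (nat_lit 317) (nat_lit 0) [nat_lit 803, nat_lit 155, nat_lit 371, nat_lit 311, nat_lit 319, nat_lit 19999] (nat_lit 0) [] true,
   Spec.mk (nat_lit 319) (nat_lit 3) [nat_lit 805, nat_lit 157, nat_lit 373, nat_lit 313, nat_lit 317, nat_lit 321, nat_lit 20001] (nat_lit 0) [] true,
   Spec.mk (nat_lit 321) (nat_lit 4) [nat_lit 807, nat_lit 159, nat_lit 375, nat_lit 319] (nat_lit 0) [] false,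
   Spec.mk (nat_lit 341) (nat_lit 3) [nat_lit 827, nat_lit 179, nat_lit 503, nat_lit 287, nat_lit 359, nat_lit 347, nat_lit 20023] (nat_lit 0) [] true,
   Spec.mk (nat_lit 347) (nat_lit 1) [nat_lit 833, nat_lit 185, nat_lit 509, nat_lit 293, nat_lit 365, nat_lit 341, nat_lit 349, nat_lit 20029] (nat_lit 0) [] true,
   Spec.mk (nat_lit 349) (nat_lit 3) [nat_lit 835, nat_lit 187, nat_lit 511, nat_lit 295, nat_lit 367, nat_lit 347, nat_lit 20031] (nat_lit 0) [] true,
   Spec.mk (nat_lit 359) (nat_lit 2) [nat_lit 845, nat_lit 197, nat_lit 521, nat_lit 305, nat_lit 413, nat_lit 341, nat_lit 365, nat_lit 20041] (nat_lit 0) [] true,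
   Spec.mk (nat_lit 365) (nat_lit 2) [nat_lit 851, nat_lit 203, nat_lit 527, nat_lit 311, nat_lit 419, nat_lit 347, nat_lit 383, nat_lit 359, nat_lit 371, nat_lit 367, nat_lit 20047] (nat_lit 0) [] true,
   Spec.mk (nat_lit 367) (nat_lit 3) [nat_lit 853, nat_lit 205, nat_lit 529, nat_lit 313, nat_lit 421, nat_lit 349, nat_lit 385, nat_lit 373, nat_lit 365, nat_lit 20049] (nat_lit 0) [] true,
   Spec.mk (nat_lit 371) (nat_lit 0) [nat_lit 857, nat_lit 209, nat_lit 533, nat_lit 317, nat_lit 425, nat_lit 389, nat_lit 365, nat_lit 373, nat_lit 20053] (nat_lit 0) [] true,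
   Spec.mk (nat_lit 373) (nat_lit 3) [nat_lit 859, nat_lit 211, nat_lit 535, nat_lit 319, nat_lit 427, nat_lit 391, nat_lit 367, nat_lit 371, nat_lit 375, nat_lit 20055] (nat_lit 0) [] true,
   Spec.mk (nat_lit 375) (nat_lit 4) [nat_lit 861, nat_lit 213, nat_lit 537, nat_lit 321, nat_lit 429, nat_lit 393, nat_lit 373] (nat_lit 0) [] false,
   Spec.mk (nat_lit 383) (nat_lit 1) [nat_lit 869, nat_lit 221, nat_lit 545, nat_lit 437, nat_lit 365, nat_lit 389, nat_lit 385, nat_lit 20065] (nat_lit 0) [] true,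
   Spec.mk (nat_lit 385) (nat_lit 1) [nat_lit 871, nat_lit 223, nat_lit 547, nat_lit 439, nat_lit 367, nat_lit 391, nat_lit 383, nat_lit 20067] (nat_lit 0) [] true,
   Spec.mk (nat_lit 389) (nat_lit 1) [nat_lit 875, nat_lit 227, nat_lit 551, nat_lit 443, nat_lit 371, nat_lit 383, nat_lit 391, nat_lit 20071] (nat_lit 0) [] true,
   Spec.mk (nat_lit 391) (nat_lit 3) [nat_lit 877, nat_lit 229, nat_lit 553, nat_lit 445, nat_lit 373, nat_lit 385, nat_lit 397, nat_lit 389, nat_lit 393, nat_lit 20073] (nat_lit 0) [] false,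
   Spec.mk (nat_lit 393) (nat_lit 3) [nat_lit 879, nat_lit 231, nat_lit 555, nat_lit 447, nat_lit 375, nat_lit 399, nat_lit 391] (nat_lit 0) [] false,
   Spec.mk (nat_lit 397) (nat_lit 3) [nat_lit 883, nat_lit 235, nat_lit 559, nat_lit 451, nat_lit 391, nat_lit 399, nat_lit 20079] (nat_lit 0) [] false,
   Spec.mk (nat_lit 399) (nat_lit 5) [nat_lit 885, nat_lit 237, nat_lit 561, nat_lit 453, nat_lit 393, nat_lit 397] (nat_lit 0) [] false,
   Spec.mk (nat_lit 413) (nat_lit 2) [nat_lit 899, nat_lit 575, nat_lit 359, nat_lit 419, nat_lit 20095] (nat_lit 0) [] true,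
   Spec.mk (nat_lit 419) (nat_lit 1) [nat_lit 905, nat_lit 581, nat_lit 365, nat_lit 437, nat_lit 413, nat_lit 425, nat_lit 421, nat_lit 20101] (nat_lit 0) [] true,
   Spec.mk (nat_lit 421) (nat_lit 2) [nat_lit 907, nat_lit 583, nat_lit 367, nat_lit 439, nat_lit 427, nat_lit 419, nat_lit 20103] (nat_lit 0) [] true,
   Spec.mk (nat_lit 425) (nat_lit 0) [nat_lit 911, nat_lit 587, nat_lit 371, nat_lit 443, nat_lit 419, nat_lit 427, nat_lit 20107] (nat_lit 2) [] true]

noncomputable def sp1 : List Spec :=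
  [Spec.mk (nat_lit 427) (nat_lit 1) [nat_lit 913, nat_lit 589, nat_lit 373, nat_lit 445, nat_lit 421, nat_lit 425, nat_lit 429, nat_lit 20109] (nat_lit 0) [] false,
   Spec.mk (nat_lit 429) (nat_lit 2) [nat_lit 915, nat_lit 591, nat_lit 375, nat_lit 447, nat_lit 427] (nat_lit 0) [] false,
   Spec.mk (nat_lit 437) (nat_lit 2) [nat_lit 923, nat_lit 599, nat_lit 383, nat_lit 419, nat_lit 443, nat_lit 439, nat_lit 20119] (nat_lit 0) [] true,
   Spec.mk (nat_lit 439) (nat_lit 2) [nat_lit 925, nat_lit 601, nat_lit 385, nat_lit 421, nat_lit 445, nat_lit 437, nat_lit 20121] (nat_lit 0) [] false,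
   Spec.mk (nat_lit 443) (nat_lit 1) [nat_lit 929, nat_lit 605, nat_lit 389, nat_lit 425, nat_lit 461, nat_lit 437, nat_lit 445, nat_lit 20125] (nat_lit 0) [] true,
   Spec.mk (nat_lit 445) (nat_lit 3) [nat_lit 931, nat_lit 607, nat_lit 391, nat_lit 427, nat_lit 463, nat_lit 439, nat_lit 451, nat_lit 443, nat_lit 447, nat_lit 20127] (nat_lit 0) [] false,
   Spec.mk (nat_lit 447) (nat_lit 3) [nat_lit 933, nat_lit 609, nat_lit 393, nat_lit 429, nat_lit 465, nat_lit 453, nat_lit 445] (nat_lit 0) [] false,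
   Spec.mk (nat_lit 451) (nat_lit 2) [nat_lit 937, nat_lit 613, nat_lit 397, nat_lit 469, nat_lit 445, nat_lit 453, nat_lit 20133] (nat_lit 0) [] false,
   Spec.mk (nat_lit 453) (nat_lit 4) [nat_lit 939, nat_lit 615, nat_lit 399, nat_lit 471, nat_lit 447, nat_lit 451] (nat_lit 0) [] false,
   Spec.mk (nat_lit 461) (nat_lit 2) [nat_lit 947, nat_lit 623, nat_lit 443, nat_lit 463, nat_lit 20143] (nat_lit 0) [] true,
   Spec.mk (nat_lit 463) (nat_lit 3) [nat_lit 949, nat_lit 625, nat_lit 445, nat_lit 469, nat_lit 461, nat_lit 465, nat_lit 20145] (nat_lit 0) [] false,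
   Spec.mk (nat_lit 465) (nat_lit 2) [nat_lit 951, nat_lit 627, nat_lit 447, nat_lit 471, nat_lit 463] (nat_lit 0) [] false,
   Spec.mk (nat_lit 469) (nat_lit 4) [nat_lit 955, nat_lit 631, nat_lit 451, nat_lit 463, nat_lit 471, nat_lit 20151] (nat_lit 0) [] false,
   Spec.mk (nat_lit 471) (nat_lit 5) [nat_lit 957, nat_lit 633, nat_lit 453, nat_lit 465, nat_lit 477, nat_lit 469] (nat_lit 0) [] false,
   Spec.mk (nat_lit 477) (nat_lit 6) [nat_lit 963, nat_lit 639, nat_lit 471] (nat_lit 0) [] false,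
   Spec.mk (nat_lit 503) (nat_lit 2) [nat_lit 989, nat_lit 341, nat_lit 521, nat_lit 509, nat_lit 20185] (nat_lit 0) [] true,
   Spec.mk (nat_lit 509) (nat_lit 0) [nat_lit 995, nat_lit 347, nat_lit 527, nat_lit 503, nat_lit 511, nat_lit 20191] (nat_lit 0) [] true,
   Spec.mk (nat_lit 511) (nat_lit 2) [nat_lit 997, nat_lit 349, nat_lit 529, nat_lit 509, nat_lit 20193] (nat_lit 0) [] false,
   Spec.mk (nat_lit 521) (nat_lit 0) [nat_lit 1007, nat_lit 359, nat_lit 575, nat_lit 503, nat_lit 527, nat_lit 20203] (nat_lit 0) [] true,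
   Spec.mk (nat_lit 527) (nat_lit 0) [nat_lit 1013, nat_lit 365, nat_lit 581, nat_lit 509, nat_lit 545, nat_lit 521, nat_lit 533, nat_lit 529, nat_lit 20209] (nat_lit 0) [] true,
   Spec.mk (nat_lit 529) (nat_lit 1) [nat_lit 1015, nat_lit 367, nat_lit 583, nat_lit 511, nat_lit 547, nat_lit 535, nat_lit 527, nat_lit 20211] (nat_lit 0) [] false,
   Spec.mk (nat_lit 533) (nat_lit 0) [nat_lit 1019, nat_lit 371, nat_lit 587, nat_lit 551, nat_lit 527, nat_lit 535, nat_lit 20215] (nat_lit 2) [] true,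
   Spec.mk (nat_lit 535) (nat_lit 1) [nat_lit 1021, nat_lit 373, nat_lit 589, nat_lit 553, nat_lit 529, nat_lit 533, nat_lit 537, nat_lit 20217] (nat_lit 0) [] false,
   Spec.mk (nat_lit 537) (nat_lit 2) [nat_lit 1023, nat_lit 375, nat_lit 591, nat_lit 555, nat_lit 535] (nat_lit 0) [] false,
   Spec.mk (nat_lit 545) (nat_lit 0) [nat_lit 1031, nat_lit 383, nat_lit 599, nat_lit 527, nat_lit 551, nat_lit 547, nat_lit 20227] (nat_lit 2) [] true,
   Spec.mk (nat_lit 547) (nat_lit 0) [nat_lit 1033, nat_lit 385, nat_lit 601, nat_lit 529, nat_lit 553, nat_lit 545, nat_lit 20229] (nat_lit 2) [] false,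
   Spec.mk (nat_lit 551) (nat_lit 0) [nat_lit 1037, nat_lit 389, nat_lit 605, nat_lit 533, nat_lit 545, nat_lit 553, nat_lit 20233] (nat_lit 2) [] false,
   Spec.mk (nat_lit 553) (nat_lit 0) [nat_lit 1039, nat_lit 391, nat_lit 607, nat_lit 535, nat_lit 547, nat_lit 559, nat_lit 551, nat_lit 555, nat_lit 20235] (nat_lit 0) [] false,
   Spec.mk (nat_lit 555) (nat_lit 0) [nat_lit 1041, nat_lit 393, nat_lit 609, nat_lit 537, nat_lit 561, nat_lit 553] (nat_lit 0) [] false,
   Spec.mk (nat_lit 559) (nat_lit 0) [nat_lit 1045, nat_lit 397, nat_lit 613, nat_lit 553, nat_lit 561, nat_lit 20241] (nat_lit 0) [] false,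
   Spec.mk (nat_lit 561) (nat_lit 2) [nat_lit 1047, nat_lit 399, nat_lit 615, nat_lit 555, nat_lit 559] (nat_lit 0) [] false,
   Spec.mk (nat_lit 575) (nat_lit 2) [nat_lit 1061, nat_lit 413, nat_lit 521, nat_lit 581, nat_lit 20257] (nat_lit 0) [] true,
   Spec.mk (nat_lit 581) (nat_lit 1) [nat_lit 1067, nat_lit 419, nat_lit 527, nat_lit 599, nat_lit 575, nat_lit 587, nat_lit 583, nat_lit 20263] (nat_lit 0) [] true,
   Spec.mk (nat_lit 583) (nat_lit 2) [nat_lit 1069, nat_lit 421, nat_lit 529, nat_lit 601, nat_lit 589, nat_lit 581, nat_lit 20265] (nat_lit 0) [] false,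
   Spec.mk (nat_lit 587) (nat_lit 0) [nat_lit 1073, nat_lit 425, nat_lit 533, nat_lit 605, nat_lit 581, nat_lit 589, nat_lit 20269] (nat_lit 2) [] false,
   Spec.mk (nat_lit 589) (nat_lit 1) [nat_lit 1075, nat_lit 427, nat_lit 535, nat_lit 607, nat_lit 583, nat_lit 587, nat_lit 591, nat_lit 20271] (nat_lit 0) [] false,
   Spec.mk (nat_lit 591) (nat_lit 2) [nat_lit 1077, nat_lit 429, nat_lit 537, nat_lit 609, nat_lit 589] (nat_lit 0) [] false,
   Spec.mk (nat_lit 599) (nat_lit 1) [nat_lit 1085, nat_lit 437, nat_lit 545, nat_lit 653, nat_lit 581, nat_lit 605, nat_lit 601, nat_lit 20281] (nat_lit 0) [] false,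
   Spec.mk (nat_lit 601) (nat_lit 1) [nat_lit 1087, nat_lit 439, nat_lit 547, nat_lit 655, nat_lit 583, nat_lit 607, nat_lit 599, nat_lit 20283] (nat_lit 0) [] false,
   Spec.mk (nat_lit 605) (nat_lit 0) [nat_lit 1091, nat_lit 443, nat_lit 551, nat_lit 659, nat_lit 587, nat_lit 623, nat_lit 599, nat_lit 607, nat_lit 20287] (nat_lit 0) [] false,
   Spec.mk (nat_lit 607) (nat_lit 2) [nat_lit 1093, nat_lit 445, nat_lit 553, nat_lit 661, nat_lit 589, nat_lit 625, nat_lit 601, nat_lit 613, nat_lit 605, nat_lit 609, nat_lit 20289] (nat_lit 0) [] false,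
   Spec.mk (nat_lit 609) (nat_lit 2) [nat_lit 1095, nat_lit 447, nat_lit 555, nat_lit 663, nat_lit 591, nat_lit 627, nat_lit 615, nat_lit 607] (nat_lit 0) [] false,
   Spec.mk (nat_lit 613) (nat_lit 1) [nat_lit 1099, nat_lit 451, nat_lit 559, nat_lit 667, nat_lit 631, nat_lit 607, nat_lit 615, nat_lit 20295] (nat_lit 0) [] false,
   Spec.mk (nat_lit 615) (nat_lit 3) [nat_lit 1101, nat_lit 453, nat_lit 561, nat_lit 669, nat_lit 633, nat_lit 609, nat_lit 613] (nat_lit 0) [] false,
   Spec.mk (nat_lit 623) (nat_lit 0) [nat_lit 1109, nat_lit 461, nat_lit 677, nat_lit 605, nat_lit 625, nat_lit 20305] (nat_lit 0) [] false,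
   Spec.mk (nat_lit 625) (nat_lit 1) [nat_lit 1111, nat_lit 463, nat_lit 679, nat_lit 607, nat_lit 631, nat_lit 623, nat_lit 627, nat_lit 20307] (nat_lit 0) [] false,
   Spec.mk (nat_lit 627) (nat_lit 0) [nat_lit 1113, nat_lit 465, nat_lit 681, nat_lit 609, nat_lit 633, nat_lit 625] (nat_lit 0) [] false,
   Spec.mk (nat_lit 631) (nat_lit 2) [nat_lit 1117, nat_lit 469, nat_lit 685, nat_lit 613, nat_lit 625, nat_lit 633, nat_lit 20313] (nat_lit 0) [] false,
   Spec.mk (nat_lit 633) (nat_lit 3) [nat_lit 1119, nat_lit 471, nat_lit 687, nat_lit 615, nat_lit 627, nat_lit 639, nat_lit 631] (nat_lit 0) [] false,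
   Spec.mk (nat_lit 639) (nat_lit 4) [nat_lit 1125, nat_lit 477, nat_lit 693, nat_lit 633] (nat_lit 0) [] false,
   Spec.mk (nat_lit 653) (nat_lit 2) [nat_lit 1139, nat_lit 599, nat_lit 659, nat_lit 655, nat_lit 20335] (nat_lit 0) [] false,
   Spec.mk (nat_lit 655) (nat_lit 2) [nat_lit 1141, nat_lit 601, nat_lit 661, nat_lit 653, nat_lit 20337] (nat_lit 0) [] false,
   Spec.mk (nat_lit 659) (nat_lit 0) [nat_lit 1145, nat_lit 605, nat_lit 677, nat_lit 653, nat_lit 661, nat_lit 20341] (nat_lit 0) [] false,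
   Spec.mk (nat_lit 661) (nat_lit 2) [nat_lit 1147, nat_lit 607, nat_lit 679, nat_lit 655, nat_lit 667, nat_lit 659, nat_lit 663, nat_lit 20343] (nat_lit 0) [] false,
   Spec.mk (nat_lit 663) (nat_lit 2) [nat_lit 1149, nat_lit 609, nat_lit 681, nat_lit 669, nat_lit 661] (nat_lit 0) [] false,
   Spec.mk (nat_lit 667) (nat_lit 0) [nat_lit 1153, nat_lit 613, nat_lit 685, nat_lit 661, nat_lit 669, nat_lit 20349] (nat_lit 0) [] false,
   Spec.mk (nat_lit 669) (nat_lit 2) [nat_lit 1155, nat_lit 615, nat_lit 687, nat_lit 663, nat_lit 667] (nat_lit 0) [] false,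
   Spec.mk (nat_lit 677) (nat_lit 2) [nat_lit 1163, nat_lit 623, nat_lit 659, nat_lit 679, nat_lit 20359] (nat_lit 0) [] false,
   Spec.mk (nat_lit 679) (nat_lit 3) [nat_lit 1165, nat_lit 625, nat_lit 661, nat_lit 685, nat_lit 677, nat_lit 681, nat_lit 20361] (nat_lit 0) [] false,
   Spec.mk (nat_lit 681) (nat_lit 2) [nat_lit 1167, nat_lit 627, nat_lit 663, nat_lit 687, nat_lit 679] (nat_lit 0) [] false]

noncomputable def sp2 : List Spec :=
  [Spec.mk (nat_lit 685) (nat_lit 3) [nat_lit 1171, nat_lit 631, nat_lit 667, nat_lit 703, nat_lit 679, nat_lit 687, nat_lit 20367] (nat_lit 0) [] false,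
   Spec.mk (nat_lit 687) (nat_lit 4) [nat_lit 1173, nat_lit 633, nat_lit 669, nat_lit 705, nat_lit 681, nat_lit 693, nat_lit 685] (nat_lit 0) [] false,
   Spec.mk (nat_lit 693) (nat_lit 4) [nat_lit 1179, nat_lit 639, nat_lit 711, nat_lit 687] (nat_lit 0) [] false,
   Spec.mk (nat_lit 703) (nat_lit 4) [nat_lit 1189, nat_lit 685, nat_lit 705, nat_lit 20385] (nat_lit 0) [] false,
   Spec.mk (nat_lit 705) (nat_lit 4) [nat_lit 1191, nat_lit 687, nat_lit 711, nat_lit 703] (nat_lit 0) [] false,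
   Spec.mk (nat_lit 711) (nat_lit 6) [nat_lit 1197, nat_lit 693, nat_lit 705] (nat_lit 0) [] false,
   Spec.mk (nat_lit 755) (nat_lit 4) [nat_lit 2213, nat_lit 269, nat_lit 773, nat_lit 20437] (nat_lit 0) [] true,
   Spec.mk (nat_lit 773) (nat_lit 3) [nat_lit 2231, nat_lit 287, nat_lit 827, nat_lit 755, nat_lit 791, nat_lit 779, nat_lit 20455] (nat_lit 0) [] true,
   Spec.mk (nat_lit 779) (nat_lit 2) [nat_lit 2237, nat_lit 293, nat_lit 833, nat_lit 797, nat_lit 773, nat_lit 781, nat_lit 20461] (nat_lit 0) [] true,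
   Spec.mk (nat_lit 781) (nat_lit 4) [nat_lit 2239, nat_lit 295, nat_lit 835, nat_lit 799, nat_lit 779, nat_lit 20463] (nat_lit 0) [] true,
   Spec.mk (nat_lit 791) (nat_lit 0) [nat_lit 2249, nat_lit 305, nat_lit 845, nat_lit 773, nat_lit 797, nat_lit 20473] (nat_lit 0) [] true,
   Spec.mk (nat_lit 797) (nat_lit 1) [nat_lit 2255, nat_lit 311, nat_lit 851, nat_lit 779, nat_lit 791, nat_lit 803, nat_lit 799, nat_lit 20479] (nat_lit 0) [] true,
   Spec.mk (nat_lit 799) (nat_lit 2) [nat_lit 2257, nat_lit 313, nat_lit 853, nat_lit 781, nat_lit 805, nat_lit 797, nat_lit 20481] (nat_lit 0) [] true,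
   Spec.mk (nat_lit 803) (nat_lit 0) [nat_lit 2261, nat_lit 317, nat_lit 857, nat_lit 797, nat_lit 805, nat_lit 20485] (nat_lit 0) [] true,
   Spec.mk (nat_lit 805) (nat_lit 3) [nat_lit 2263, nat_lit 319, nat_lit 859, nat_lit 799, nat_lit 803, nat_lit 807, nat_lit 20487] (nat_lit 0) [] true,
   Spec.mk (nat_lit 807) (nat_lit 4) [nat_lit 2265, nat_lit 321, nat_lit 861, nat_lit 805] (nat_lit 0) [] false,
   Spec.mk (nat_lit 827) (nat_lit 2) [nat_lit 2285, nat_lit 341, nat_lit 989, nat_lit 773, nat_lit 845, nat_lit 833, nat_lit 20509] (nat_lit 0) [] true,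
   Spec.mk (nat_lit 833) (nat_lit 0) [nat_lit 2291, nat_lit 347, nat_lit 995, nat_lit 779, nat_lit 851, nat_lit 827, nat_lit 835, nat_lit 20515] (nat_lit 0) [] true,
   Spec.mk (nat_lit 835) (nat_lit 2) [nat_lit 2293, nat_lit 349, nat_lit 997, nat_lit 781, nat_lit 853, nat_lit 833, nat_lit 20517] (nat_lit 0) [] true,
   Spec.mk (nat_lit 845) (nat_lit 1) [nat_lit 2303, nat_lit 359, nat_lit 1007, nat_lit 791, nat_lit 899, nat_lit 827, nat_lit 851, nat_lit 20527] (nat_lit 0) [] true,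
   Spec.mk (nat_lit 851) (nat_lit 1) [nat_lit 2309, nat_lit 365, nat_lit 1013, nat_lit 797, nat_lit 905, nat_lit 833, nat_lit 869, nat_lit 845, nat_lit 857, nat_lit 853, nat_lit 20533] (nat_lit 0) [] true,
   Spec.mk (nat_lit 853) (nat_lit 2) [nat_lit 2311, nat_lit 367, nat_lit 1015, nat_lit 799, nat_lit 907, nat_lit 835, nat_lit 871, nat_lit 859, nat_lit 851, nat_lit 20535] (nat_lit 0) [] true,
   Spec.mk (nat_lit 857) (nat_lit 0) [nat_lit 2315, nat_lit 371, nat_lit 1019, nat_lit 803, nat_lit 911, nat_lit 875, nat_lit 851, nat_lit 859, nat_lit 20539] (nat_lit 1) [] true,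
   Spec.mk (nat_lit 859) (nat_lit 2) [nat_lit 2317, nat_lit 373, nat_lit 1021, nat_lit 805, nat_lit 913, nat_lit 877, nat_lit 853, nat_lit 857, nat_lit 861, nat_lit 20541] (nat_lit 0) [] true,
   Spec.mk (nat_lit 861) (nat_lit 3) [nat_lit 2319, nat_lit 375, nat_lit 1023, nat_lit 807, nat_lit 915, nat_lit 879, nat_lit 859] (nat_lit 0) [] false,
   Spec.mk (nat_lit 869) (nat_lit 0) [nat_lit 2327, nat_lit 383, nat_lit 1031, nat_lit 923, nat_lit 851, nat_lit 875, nat_lit 871, nat_lit 20551] (nat_lit 0) [] true,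
   Spec.mk (nat_lit 871) (nat_lit 0) [nat_lit 2329, nat_lit 385, nat_lit 1033, nat_lit 925, nat_lit 853, nat_lit 877, nat_lit 869, nat_lit 20553] (nat_lit 0) [] true,
   Spec.mk (nat_lit 875) (nat_lit 0) [nat_lit 2333, nat_lit 389, nat_lit 1037, nat_lit 929, nat_lit 857, nat_lit 869, nat_lit 877, nat_lit 20557] (nat_lit 0) [] true,
   Spec.mk (nat_lit 877) (nat_lit 2) [nat_lit 2335, nat_lit 391, nat_lit 1039, nat_lit 931, nat_lit 859, nat_lit 871, nat_lit 883, nat_lit 875, nat_lit 879, nat_lit 20559] (nat_lit 0) [] true,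
   Spec.mk (nat_lit 879) (nat_lit 2) [nat_lit 2337, nat_lit 393, nat_lit 1041, nat_lit 933, nat_lit 861, nat_lit 885, nat_lit 877] (nat_lit 0) [] false,
   Spec.mk (nat_lit 883) (nat_lit 2) [nat_lit 2341, nat_lit 397, nat_lit 1045, nat_lit 937, nat_lit 877, nat_lit 885, nat_lit 20565] (nat_lit 0) [] true,
   Spec.mk (nat_lit 885) (nat_lit 4) [nat_lit 2343, nat_lit 399, nat_lit 1047, nat_lit 939, nat_lit 879, nat_lit 883] (nat_lit 0) [] false,
   Spec.mk (nat_lit 899) (nat_lit 0) [nat_lit 2357, nat_lit 413, nat_lit 1061, nat_lit 845, nat_lit 905, nat_lit 20581] (nat_lit 0) [] true,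
   Spec.mk (nat_lit 905) (nat_lit 0) [nat_lit 2363, nat_lit 419, nat_lit 1067, nat_lit 851, nat_lit 923, nat_lit 899, nat_lit 911, nat_lit 907, nat_lit 20587] (nat_lit 1) [] true,
   Spec.mk (nat_lit 907) (nat_lit 0) [nat_lit 2365, nat_lit 421, nat_lit 1069, nat_lit 853, nat_lit 925, nat_lit 913, nat_lit 905, nat_lit 20589] (nat_lit 0) [] true,
   Spec.mk (nat_lit 911) (nat_lit 0) [nat_lit 2369, nat_lit 425, nat_lit 1073, nat_lit 857, nat_lit 929, nat_lit 905, nat_lit 913, nat_lit 20593] (nat_lit 4) [] true,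
   Spec.mk (nat_lit 913) (nat_lit 0) [nat_lit 2371, nat_lit 427, nat_lit 1075, nat_lit 859, nat_lit 931, nat_lit 907, nat_lit 911, nat_lit 915, nat_lit 20595] (nat_lit 1) [] true,
   Spec.mk (nat_lit 915) (nat_lit 0) [nat_lit 2373, nat_lit 429, nat_lit 1077, nat_lit 861, nat_lit 933, nat_lit 913] (nat_lit 0) [] false,
   Spec.mk (nat_lit 923) (nat_lit 0) [nat_lit 2381, nat_lit 437, nat_lit 1085, nat_lit 869, nat_lit 905, nat_lit 929, nat_lit 925, nat_lit 20605] (nat_lit 0) [] true,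
   Spec.mk (nat_lit 925) (nat_lit 0) [nat_lit 2383, nat_lit 439, nat_lit 1087, nat_lit 871, nat_lit 907, nat_lit 931, nat_lit 923, nat_lit 20607] (nat_lit 0) [] true,
   Spec.mk (nat_lit 929) (nat_lit 0) [nat_lit 2387, nat_lit 443, nat_lit 1091, nat_lit 875, nat_lit 911, nat_lit 947, nat_lit 923, nat_lit 931, nat_lit 20611] (nat_lit 1) [] true,
   Spec.mk (nat_lit 931) (nat_lit 1) [nat_lit 2389, nat_lit 445, nat_lit 1093, nat_lit 877, nat_lit 913, nat_lit 949, nat_lit 925, nat_lit 937, nat_lit 929, nat_lit 933, nat_lit 20613] (nat_lit 0) [] true,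
   Spec.mk (nat_lit 933) (nat_lit 1) [nat_lit 2391, nat_lit 447, nat_lit 1095, nat_lit 879, nat_lit 915, nat_lit 951, nat_lit 939, nat_lit 931] (nat_lit 0) [] false,
   Spec.mk (nat_lit 937) (nat_lit 0) [nat_lit 2395, nat_lit 451, nat_lit 1099, nat_lit 883, nat_lit 955, nat_lit 931, nat_lit 939, nat_lit 20619] (nat_lit 0) [] true,
   Spec.mk (nat_lit 939) (nat_lit 2) [nat_lit 2397, nat_lit 453, nat_lit 1101, nat_lit 885, nat_lit 957, nat_lit 933, nat_lit 937] (nat_lit 0) [] false,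
   Spec.mk (nat_lit 947) (nat_lit 0) [nat_lit 2405, nat_lit 461, nat_lit 1109, nat_lit 929, nat_lit 949, nat_lit 20629] (nat_lit 0) [] true,
   Spec.mk (nat_lit 949) (nat_lit 1) [nat_lit 2407, nat_lit 463, nat_lit 1111, nat_lit 931, nat_lit 955, nat_lit 947, nat_lit 951, nat_lit 20631] (nat_lit 0) [] true,
   Spec.mk (nat_lit 951) (nat_lit 0) [nat_lit 2409, nat_lit 465, nat_lit 1113, nat_lit 933, nat_lit 957, nat_lit 949] (nat_lit 0) [] false,
   Spec.mk (nat_lit 955) (nat_lit 2) [nat_lit 2413, nat_lit 469, nat_lit 1117, nat_lit 937, nat_lit 949, nat_lit 957, nat_lit 20637] (nat_lit 0) [] false,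
   Spec.mk (nat_lit 957) (nat_lit 3) [nat_lit 2415, nat_lit 471, nat_lit 1119, nat_lit 939, nat_lit 951, nat_lit 963, nat_lit 955] (nat_lit 0) [] false,
   Spec.mk (nat_lit 963) (nat_lit 4) [nat_lit 2421, nat_lit 477, nat_lit 1125, nat_lit 957] (nat_lit 0) [] false,
   Spec.mk (nat_lit 989) (nat_lit 3) [nat_lit 2447, nat_lit 503, nat_lit 1475, nat_lit 827, nat_lit 1007, nat_lit 995, nat_lit 20671] (nat_lit 0) [] true,
   Spec.mk (nat_lit 995) (nat_lit 1) [nat_lit 2453, nat_lit 509, nat_lit 1481, nat_lit 833, nat_lit 1013, nat_lit 989, nat_lit 997, nat_lit 20677] (nat_lit 0) [] true,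
   Spec.mk (nat_lit 997) (nat_lit 3) [nat_lit 2455, nat_lit 511, nat_lit 1483, nat_lit 835, nat_lit 1015, nat_lit 995, nat_lit 20679] (nat_lit 0) [] true,
   Spec.mk (nat_lit 1007) (nat_lit 1) [nat_lit 2465, nat_lit 521, nat_lit 1493, nat_lit 845, nat_lit 1061, nat_lit 989, nat_lit 1013, nat_lit 20689] (nat_lit 0) [] true,
   Spec.mk (nat_lit 1013) (nat_lit 1) [nat_lit 2471, nat_lit 527, nat_lit 1499, nat_lit 851, nat_lit 1067, nat_lit 995, nat_lit 1031, nat_lit 1007, nat_lit 1019, nat_lit 1015, nat_lit 20695] (nat_lit 0) [] true,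
   Spec.mk (nat_lit 1015) (nat_lit 2) [nat_lit 2473, nat_lit 529, nat_lit 1501, nat_lit 853, nat_lit 1069, nat_lit 997, nat_lit 1033, nat_lit 1021, nat_lit 1013, nat_lit 20697] (nat_lit 0) [] true,
   Spec.mk (nat_lit 1019) (nat_lit 0) [nat_lit 2477, nat_lit 533, nat_lit 1505, nat_lit 857, nat_lit 1073, nat_lit 1037, nat_lit 1013, nat_lit 1021, nat_lit 20701] (nat_lit 1) [] true,
   Spec.mk (nat_lit 1021) (nat_lit 2) [nat_lit 2479, nat_lit 535, nat_lit 1507, nat_lit 859, nat_lit 1075, nat_lit 1039, nat_lit 1015, nat_lit 1019, nat_lit 1023, nat_lit 20703] (nat_lit 0) [] true,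
   Spec.mk (nat_lit 1023) (nat_lit 3) [nat_lit 2481, nat_lit 537, nat_lit 1509, nat_lit 861, nat_lit 1077, nat_lit 1041, nat_lit 1021] (nat_lit 0) [] false]

noncomputable def sp3 : List Spec :=
  [Spec.mk (nat_lit 1031) (nat_lit 0) [nat_lit 2489, nat_lit 545, nat_lit 1517, nat_lit 869, nat_lit 1085, nat_lit 1013, nat_lit 1037, nat_lit 1033, nat_lit 20713] (nat_lit 1) [] true,
   Spec.mk (nat_lit 1033) (nat_lit 0) [nat_lit 2491, nat_lit 547, nat_lit 1519, nat_lit 871, nat_lit 1087, nat_lit 1015, nat_lit 1039, nat_lit 1031, nat_lit 20715] (nat_lit 1) [] true,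
   Spec.mk (nat_lit 1037) (nat_lit 0) [nat_lit 2495, nat_lit 551, nat_lit 1523, nat_lit 875, nat_lit 1091, nat_lit 1019, nat_lit 1031, nat_lit 1039, nat_lit 20719] (nat_lit 1) [] true,
   Spec.mk (nat_lit 1039) (nat_lit 1) [nat_lit 2497, nat_lit 553, nat_lit 1525, nat_lit 877, nat_lit 1093, nat_lit 1021, nat_lit 1033, nat_lit 1045, nat_lit 1037, nat_lit 1041, nat_lit 20721] (nat_lit 0) [] true,
   Spec.mk (nat_lit 1041) (nat_lit 1) [nat_lit 2499, nat_lit 555, nat_lit 1527, nat_lit 879, nat_lit 1095, nat_lit 1023, nat_lit 1047, nat_lit 1039] (nat_lit 0) [] false,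
   Spec.mk (nat_lit 1045) (nat_lit 1) [nat_lit 2503, nat_lit 559, nat_lit 1531, nat_lit 883, nat_lit 1099, nat_lit 1039, nat_lit 1047, nat_lit 20727] (nat_lit 0) [] false,
   Spec.mk (nat_lit 1047) (nat_lit 3) [nat_lit 2505, nat_lit 561, nat_lit 1533, nat_lit 885, nat_lit 1101, nat_lit 1041, nat_lit 1045] (nat_lit 0) [] false,
   Spec.mk (nat_lit 1061) (nat_lit 2) [nat_lit 2519, nat_lit 575, nat_lit 1547, nat_lit 899, nat_lit 1223, nat_lit 1007, nat_lit 1067, nat_lit 20743] (nat_lit 0) [] true,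
   Spec.mk (nat_lit 1067) (nat_lit 1) [nat_lit 2525, nat_lit 581, nat_lit 1553, nat_lit 905, nat_lit 1229, nat_lit 1013, nat_lit 1085, nat_lit 1061, nat_lit 1073, nat_lit 1069, nat_lit 20749] (nat_lit 0) [] true,
   Spec.mk (nat_lit 1069) (nat_lit 2) [nat_lit 2527, nat_lit 583, nat_lit 1555, nat_lit 907, nat_lit 1231, nat_lit 1015, nat_lit 1087, nat_lit 1075, nat_lit 1067, nat_lit 20751] (nat_lit 0) [] true,
   Spec.mk (nat_lit 1073) (nat_lit 0) [nat_lit 2531, nat_lit 587, nat_lit 1559, nat_lit 911, nat_lit 1235, nat_lit 1019, nat_lit 1091, nat_lit 1067, nat_lit 1075, nat_lit 20755] (nat_lit 2) [] true,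
   Spec.mk (nat_lit 1075) (nat_lit 1) [nat_lit 2533, nat_lit 589, nat_lit 1561, nat_lit 913, nat_lit 1237, nat_lit 1021, nat_lit 1093, nat_lit 1069, nat_lit 1073, nat_lit 1077, nat_lit 20757] (nat_lit 0) [] true,
   Spec.mk (nat_lit 1077) (nat_lit 2) [nat_lit 2535, nat_lit 591, nat_lit 1563, nat_lit 915, nat_lit 1239, nat_lit 1023, nat_lit 1095, nat_lit 1075] (nat_lit 0) [] false,
   Spec.mk (nat_lit 1085) (nat_lit 1) [nat_lit 2543, nat_lit 599, nat_lit 1571, nat_lit 923, nat_lit 1247, nat_lit 1031, nat_lit 1139, nat_lit 1067, nat_lit 1091, nat_lit 1087, nat_lit 20767] (nat_lit 0) [] true,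
   Spec.mk (nat_lit 1087) (nat_lit 1) [nat_lit 2545, nat_lit 601, nat_lit 1573, nat_lit 925, nat_lit 1249, nat_lit 1033, nat_lit 1141, nat_lit 1069, nat_lit 1093, nat_lit 1085, nat_lit 20769] (nat_lit 0) [] true,
   Spec.mk (nat_lit 1091) (nat_lit 0) [nat_lit 2549, nat_lit 605, nat_lit 1577, nat_lit 929, nat_lit 1253, nat_lit 1037, nat_lit 1145, nat_lit 1073, nat_lit 1109, nat_lit 1085, nat_lit 1093, nat_lit 20773] (nat_lit 0) [] true,
   Spec.mk (nat_lit 1093) (nat_lit 2) [nat_lit 2551, nat_lit 607, nat_lit 1579, nat_lit 931, nat_lit 1255, nat_lit 1039, nat_lit 1147, nat_lit 1075, nat_lit 1111, nat_lit 1087, nat_lit 1099, nat_lit 1091, nat_lit 1095, nat_lit 20775] (nat_lit 0) [] true,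
   Spec.mk (nat_lit 1095) (nat_lit 2) [nat_lit 2553, nat_lit 609, nat_lit 1581, nat_lit 933, nat_lit 1257, nat_lit 1041, nat_lit 1149, nat_lit 1077, nat_lit 1113, nat_lit 1101, nat_lit 1093] (nat_lit 0) [] false,
   Spec.mk (nat_lit 1099) (nat_lit 1) [nat_lit 2557, nat_lit 613, nat_lit 1585, nat_lit 937, nat_lit 1261, nat_lit 1045, nat_lit 1153, nat_lit 1117, nat_lit 1093, nat_lit 1101, nat_lit 20781] (nat_lit 0) [] false,
   Spec.mk (nat_lit 1101) (nat_lit 3) [nat_lit 2559, nat_lit 615, nat_lit 1587, nat_lit 939, nat_lit 1263, nat_lit 1047, nat_lit 1155, nat_lit 1119, nat_lit 1095, nat_lit 1099] (nat_lit 0) [] false,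
   Spec.mk (nat_lit 1109) (nat_lit 0) [nat_lit 2567, nat_lit 623, nat_lit 1595, nat_lit 947, nat_lit 1271, nat_lit 1163, nat_lit 1091, nat_lit 1111, nat_lit 20791] (nat_lit 0) [] true,
   Spec.mk (nat_lit 1111) (nat_lit 1) [nat_lit 2569, nat_lit 625, nat_lit 1597, nat_lit 949, nat_lit 1273, nat_lit 1165, nat_lit 1093, nat_lit 1117, nat_lit 1109, nat_lit 1113, nat_lit 20793] (nat_lit 0) [] false,
   Spec.mk (nat_lit 1113) (nat_lit 0) [nat_lit 2571, nat_lit 627, nat_lit 1599, nat_lit 951, nat_lit 1275, nat_lit 1167, nat_lit 1095, nat_lit 1119, nat_lit 1111] (nat_lit 0) [] false,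
   Spec.mk (nat_lit 1117) (nat_lit 2) [nat_lit 2575, nat_lit 631, nat_lit 1603, nat_lit 955, nat_lit 1279, nat_lit 1171, nat_lit 1099, nat_lit 1111, nat_lit 1119, nat_lit 20799] (nat_lit 0) [] false,
   Spec.mk (nat_lit 1119) (nat_lit 3) [nat_lit 2577, nat_lit 633, nat_lit 1605, nat_lit 957, nat_lit 1281, nat_lit 1173, nat_lit 1101, nat_lit 1113, nat_lit 1125, nat_lit 1117] (nat_lit 0) [] false,
   Spec.mk (nat_lit 1125) (nat_lit 4) [nat_lit 2583, nat_lit 639, nat_lit 1611, nat_lit 963, nat_lit 1287, nat_lit 1179, nat_lit 1119] (nat_lit 0) [] false,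
   Spec.mk (nat_lit 1139) (nat_lit 1) [nat_lit 2597, nat_lit 653, nat_lit 1625, nat_lit 1301, nat_lit 1085, nat_lit 1145, nat_lit 1141, nat_lit 20821] (nat_lit 0) [] true,
   Spec.mk (nat_lit 1141) (nat_lit 1) [nat_lit 2599, nat_lit 655, nat_lit 1627, nat_lit 1303, nat_lit 1087, nat_lit 1147, nat_lit 1139, nat_lit 20823] (nat_lit 0) [] true,
   Spec.mk (nat_lit 1145) (nat_lit 0) [nat_lit 2603, nat_lit 659, nat_lit 1631, nat_lit 1307, nat_lit 1091, nat_lit 1163, nat_lit 1139, nat_lit 1147, nat_lit 20827] (nat_lit 1) [] true,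
   Spec.mk (nat_lit 1147) (nat_lit 1) [nat_lit 2605, nat_lit 661, nat_lit 1633, nat_lit 1309, nat_lit 1093, nat_lit 1165, nat_lit 1141, nat_lit 1153, nat_lit 1145, nat_lit 1149, nat_lit 20829] (nat_lit 0) [] false,
   Spec.mk (nat_lit 1149) (nat_lit 1) [nat_lit 2607, nat_lit 663, nat_lit 1635, nat_lit 1311, nat_lit 1095, nat_lit 1167, nat_lit 1155, nat_lit 1147] (nat_lit 0) [] false,
   Spec.mk (nat_lit 1153) (nat_lit 0) [nat_lit 2611, nat_lit 667, nat_lit 1639, nat_lit 1315, nat_lit 1099, nat_lit 1171, nat_lit 1147, nat_lit 1155, nat_lit 20835] (nat_lit 1) [] false,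
   Spec.mk (nat_lit 1155) (nat_lit 1) [nat_lit 2613, nat_lit 669, nat_lit 1641, nat_lit 1317, nat_lit 1101, nat_lit 1173, nat_lit 1149, nat_lit 1153] (nat_lit 0) [] false,
   Spec.mk (nat_lit 1163) (nat_lit 1) [nat_lit 2621, nat_lit 677, nat_lit 1649, nat_lit 1325, nat_lit 1109, nat_lit 1145, nat_lit 1165, nat_lit 20845] (nat_lit 0) [] true,
   Spec.mk (nat_lit 1165) (nat_lit 2) [nat_lit 2623, nat_lit 679, nat_lit 1651, nat_lit 1327, nat_lit 1111, nat_lit 1147, nat_lit 1171, nat_lit 1163, nat_lit 1167, nat_lit 20847] (nat_lit 0) [] false,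
   Spec.mk (nat_lit 1167) (nat_lit 1) [nat_lit 2625, nat_lit 681, nat_lit 1653, nat_lit 1329, nat_lit 1113, nat_lit 1149, nat_lit 1173, nat_lit 1165] (nat_lit 0) [] false,
   Spec.mk (nat_lit 1171) (nat_lit 2) [nat_lit 2629, nat_lit 685, nat_lit 1657, nat_lit 1333, nat_lit 1117, nat_lit 1153, nat_lit 1189, nat_lit 1165, nat_lit 1173, nat_lit 20853] (nat_lit 0) [] false,
   Spec.mk (nat_lit 1173) (nat_lit 3) [nat_lit 2631, nat_lit 687, nat_lit 1659, nat_lit 1335, nat_lit 1119, nat_lit 1155, nat_lit 1191, nat_lit 1167, nat_lit 1179, nat_lit 1171] (nat_lit 0) [] false,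
   Spec.mk (nat_lit 1179) (nat_lit 3) [nat_lit 2637, nat_lit 693, nat_lit 1665, nat_lit 1341, nat_lit 1125, nat_lit 1197, nat_lit 1173] (nat_lit 0) [] false,
   Spec.mk (nat_lit 1189) (nat_lit 3) [nat_lit 2647, nat_lit 703, nat_lit 1675, nat_lit 1351, nat_lit 1171, nat_lit 1191, nat_lit 20871] (nat_lit 0) [] false,
   Spec.mk (nat_lit 1191) (nat_lit 3) [nat_lit 2649, nat_lit 705, nat_lit 1677, nat_lit 1353, nat_lit 1173, nat_lit 1197, nat_lit 1189] (nat_lit 0) [] false,
   Spec.mk (nat_lit 1197) (nat_lit 5) [nat_lit 2655, nat_lit 711, nat_lit 1683, nat_lit 1359, nat_lit 1179, nat_lit 1191] (nat_lit 0) [] false,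
   Spec.mk (nat_lit 1223) (nat_lit 2) [nat_lit 2681, nat_lit 1709, nat_lit 1061, nat_lit 1229, nat_lit 20905] (nat_lit 0) [] true,
   Spec.mk (nat_lit 1229) (nat_lit 1) [nat_lit 2687, nat_lit 1715, nat_lit 1067, nat_lit 1247, nat_lit 1223, nat_lit 1235, nat_lit 1231, nat_lit 20911] (nat_lit 0) [] true,
   Spec.mk (nat_lit 1231) (nat_lit 2) [nat_lit 2689, nat_lit 1717, nat_lit 1069, nat_lit 1249, nat_lit 1237, nat_lit 1229, nat_lit 20913] (nat_lit 0) [] true,
   Spec.mk (nat_lit 1235) (nat_lit 0) [nat_lit 2693, nat_lit 1721, nat_lit 1073, nat_lit 1253, nat_lit 1229, nat_lit 1237, nat_lit 20917] (nat_lit 2) [] true,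
   Spec.mk (nat_lit 1237) (nat_lit 1) [nat_lit 2695, nat_lit 1723, nat_lit 1075, nat_lit 1255, nat_lit 1231, nat_lit 1235, nat_lit 1239, nat_lit 20919] (nat_lit 0) [] false,
   Spec.mk (nat_lit 1239) (nat_lit 2) [nat_lit 2697, nat_lit 1725, nat_lit 1077, nat_lit 1257, nat_lit 1237] (nat_lit 0) [] false,
   Spec.mk (nat_lit 1247) (nat_lit 0) [nat_lit 2705, nat_lit 1733, nat_lit 1085, nat_lit 1301, nat_lit 1229, nat_lit 1253, nat_lit 1249, nat_lit 20929] (nat_lit 0) [] true,
   Spec.mk (nat_lit 1249) (nat_lit 0) [nat_lit 2707, nat_lit 1735, nat_lit 1087, nat_lit 1303, nat_lit 1231, nat_lit 1255, nat_lit 1247, nat_lit 20931] (nat_lit 0) [] true,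
   Spec.mk (nat_lit 1253) (nat_lit 0) [nat_lit 2711, nat_lit 1739, nat_lit 1091, nat_lit 1307, nat_lit 1235, nat_lit 1271, nat_lit 1247, nat_lit 1255, nat_lit 20935] (nat_lit 1) [] true,
   Spec.mk (nat_lit 1255) (nat_lit 1) [nat_lit 2713, nat_lit 1741, nat_lit 1093, nat_lit 1309, nat_lit 1237, nat_lit 1273, nat_lit 1249, nat_lit 1261, nat_lit 1253, nat_lit 1257, nat_lit 20937] (nat_lit 0) [] false,
   Spec.mk (nat_lit 1257) (nat_lit 1) [nat_lit 2715, nat_lit 1743, nat_lit 1095, nat_lit 1311, nat_lit 1239, nat_lit 1275, nat_lit 1263, nat_lit 1255] (nat_lit 0) [] false,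
   Spec.mk (nat_lit 1261) (nat_lit 0) [nat_lit 2719, nat_lit 1747, nat_lit 1099, nat_lit 1315, nat_lit 1279, nat_lit 1255, nat_lit 1263, nat_lit 20943] (nat_lit 0) [] false,
   Spec.mk (nat_lit 1263) (nat_lit 2) [nat_lit 2721, nat_lit 1749, nat_lit 1101, nat_lit 1317, nat_lit 1281, nat_lit 1257, nat_lit 1261] (nat_lit 0) [] false,
   Spec.mk (nat_lit 1271) (nat_lit 0) [nat_lit 2729, nat_lit 1757, nat_lit 1109, nat_lit 1325, nat_lit 1253, nat_lit 1273, nat_lit 20953] (nat_lit 2) [] true,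
   Spec.mk (nat_lit 1273) (nat_lit 0) [nat_lit 2731, nat_lit 1759, nat_lit 1111, nat_lit 1327, nat_lit 1255, nat_lit 1279, nat_lit 1271, nat_lit 1275, nat_lit 20955] (nat_lit 1) [] false,
   Spec.mk (nat_lit 1275) (nat_lit 0) [nat_lit 2733, nat_lit 1761, nat_lit 1113, nat_lit 1329, nat_lit 1257, nat_lit 1281, nat_lit 1273] (nat_lit 2) [] false,
   Spec.mk (nat_lit 1279) (nat_lit 0) [nat_lit 2737, nat_lit 1765, nat_lit 1117, nat_lit 1333, nat_lit 1261, nat_lit 1273, nat_lit 1281, nat_lit 20961] (nat_lit 0) [] false,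
   Spec.mk (nat_lit 1281) (nat_lit 1) [nat_lit 2739, nat_lit 1767, nat_lit 1119, nat_lit 1335, nat_lit 1263, nat_lit 1275, nat_lit 1287, nat_lit 1279] (nat_lit 0) [] false]

noncomputable def sp4 : List Spec :=
  [Spec.mk (nat_lit 1287) (nat_lit 2) [nat_lit 2745, nat_lit 1773, nat_lit 1125, nat_lit 1341, nat_lit 1281] (nat_lit 0) [] false,
   Spec.mk (nat_lit 1301) (nat_lit 2) [nat_lit 2759, nat_lit 1787, nat_lit 1139, nat_lit 1247, nat_lit 1307, nat_lit 1303, nat_lit 20983] (nat_lit 0) [] true,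
   Spec.mk (nat_lit 1303) (nat_lit 2) [nat_lit 2761, nat_lit 1789, nat_lit 1141, nat_lit 1249, nat_lit 1309, nat_lit 1301, nat_lit 20985] (nat_lit 0) [] false,
   Spec.mk (nat_lit 1307) (nat_lit 0) [nat_lit 2765, nat_lit 1793, nat_lit 1145, nat_lit 1253, nat_lit 1325, nat_lit 1301, nat_lit 1309, nat_lit 20989] (nat_lit 0) [] true,
   Spec.mk (nat_lit 1309) (nat_lit 2) [nat_lit 2767, nat_lit 1795, nat_lit 1147, nat_lit 1255, nat_lit 1327, nat_lit 1303, nat_lit 1315, nat_lit 1307, nat_lit 1311, nat_lit 20991] (nat_lit 0) [] false,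
   Spec.mk (nat_lit 1311) (nat_lit 2) [nat_lit 2769, nat_lit 1797, nat_lit 1149, nat_lit 1257, nat_lit 1329, nat_lit 1317, nat_lit 1309] (nat_lit 0) [] false,
   Spec.mk (nat_lit 1315) (nat_lit 0) [nat_lit 2773, nat_lit 1801, nat_lit 1153, nat_lit 1261, nat_lit 1333, nat_lit 1309, nat_lit 1317, nat_lit 20997] (nat_lit 0) [] false,
   Spec.mk (nat_lit 1317) (nat_lit 2) [nat_lit 2775, nat_lit 1803, nat_lit 1155, nat_lit 1263, nat_lit 1335, nat_lit 1311, nat_lit 1315] (nat_lit 0) [] false,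
   Spec.mk (nat_lit 1325) (nat_lit 1) [nat_lit 2783, nat_lit 1811, nat_lit 1163, nat_lit 1271, nat_lit 1379, nat_lit 1307, nat_lit 1327, nat_lit 21007] (nat_lit 0) [] true,
   Spec.mk (nat_lit 1327) (nat_lit 2) [nat_lit 2785, nat_lit 1813, nat_lit 1165, nat_lit 1273, nat_lit 1381, nat_lit 1309, nat_lit 1333, nat_lit 1325, nat_lit 1329, nat_lit 21009] (nat_lit 0) [] false,
   Spec.mk (nat_lit 1329) (nat_lit 1) [nat_lit 2787, nat_lit 1815, nat_lit 1167, nat_lit 1275, nat_lit 1383, nat_lit 1311, nat_lit 1335, nat_lit 1327] (nat_lit 0) [] false,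
   Spec.mk (nat_lit 1333) (nat_lit 2) [nat_lit 2791, nat_lit 1819, nat_lit 1171, nat_lit 1279, nat_lit 1387, nat_lit 1315, nat_lit 1351, nat_lit 1327, nat_lit 1335, nat_lit 21015] (nat_lit 0) [] false,
   Spec.mk (nat_lit 1335) (nat_lit 3) [nat_lit 2793, nat_lit 1821, nat_lit 1173, nat_lit 1281, nat_lit 1389, nat_lit 1317, nat_lit 1353, nat_lit 1329, nat_lit 1341, nat_lit 1333] (nat_lit 0) [] false,
   Spec.mk (nat_lit 1341) (nat_lit 3) [nat_lit 2799, nat_lit 1827, nat_lit 1179, nat_lit 1287, nat_lit 1395, nat_lit 1359, nat_lit 1335] (nat_lit 0) [] false,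
   Spec.mk (nat_lit 1351) (nat_lit 2) [nat_lit 2809, nat_lit 1837, nat_lit 1189, nat_lit 1405, nat_lit 1333, nat_lit 1353, nat_lit 21033] (nat_lit 0) [] false,
   Spec.mk (nat_lit 1353) (nat_lit 2) [nat_lit 2811, nat_lit 1839, nat_lit 1191, nat_lit 1407, nat_lit 1335, nat_lit 1359, nat_lit 1351] (nat_lit 0) [] false,
   Spec.mk (nat_lit 1359) (nat_lit 4) [nat_lit 2817, nat_lit 1845, nat_lit 1197, nat_lit 1413, nat_lit 1341, nat_lit 1353] (nat_lit 0) [] false,
   Spec.mk (nat_lit 1379) (nat_lit 2) [nat_lit 2837, nat_lit 1865, nat_lit 1325, nat_lit 1381, nat_lit 21061] (nat_lit 0) [] true,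
   Spec.mk (nat_lit 1381) (nat_lit 3) [nat_lit 2839, nat_lit 1867, nat_lit 1327, nat_lit 1387, nat_lit 1379, nat_lit 1383, nat_lit 21063] (nat_lit 0) [] false,
   Spec.mk (nat_lit 1383) (nat_lit 2) [nat_lit 2841, nat_lit 1869, nat_lit 1329, nat_lit 1389, nat_lit 1381] (nat_lit 0) [] false,
   Spec.mk (nat_lit 1387) (nat_lit 2) [nat_lit 2845, nat_lit 1873, nat_lit 1333, nat_lit 1405, nat_lit 1381, nat_lit 1389, nat_lit 21069] (nat_lit 0) [] false,
   Spec.mk (nat_lit 1389) (nat_lit 3) [nat_lit 2847, nat_lit 1875, nat_lit 1335, nat_lit 1407, nat_lit 1383, nat_lit 1395, nat_lit 1387] (nat_lit 0) [] false,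
   Spec.mk (nat_lit 1395) (nat_lit 2) [nat_lit 2853, nat_lit 1881, nat_lit 1341, nat_lit 1413, nat_lit 1389] (nat_lit 0) [] false,
   Spec.mk (nat_lit 1405) (nat_lit 4) [nat_lit 2863, nat_lit 1891, nat_lit 1351, nat_lit 1387, nat_lit 1407, nat_lit 21087] (nat_lit 0) [] false,
   Spec.mk (nat_lit 1407) (nat_lit 4) [nat_lit 2865, nat_lit 1893, nat_lit 1353, nat_lit 1389, nat_lit 1413, nat_lit 1405] (nat_lit 0) [] false,
   Spec.mk (nat_lit 1413) (nat_lit 5) [nat_lit 2871, nat_lit 1899, nat_lit 1359, nat_lit 1395, nat_lit 1431, nat_lit 1407] (nat_lit 0) [] false,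
   Spec.mk (nat_lit 1431) (nat_lit 6) [nat_lit 2889, nat_lit 1917, nat_lit 1413] (nat_lit 0) [] false,
   Spec.mk (nat_lit 1475) (nat_lit 2) [nat_lit 2933, nat_lit 989, nat_lit 1493, nat_lit 1481, nat_lit 21157] (nat_lit 0) [] false,
   Spec.mk (nat_lit 1481) (nat_lit 0) [nat_lit 2939, nat_lit 995, nat_lit 1499, nat_lit 1475, nat_lit 1483, nat_lit 21163] (nat_lit 0) [] true,
   Spec.mk (nat_lit 1483) (nat_lit 2) [nat_lit 2941, nat_lit 997, nat_lit 1501, nat_lit 1481, nat_lit 21165] (nat_lit 0) [] false,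
   Spec.mk (nat_lit 1493) (nat_lit 0) [nat_lit 2951, nat_lit 1007, nat_lit 1547, nat_lit 1475, nat_lit 1499, nat_lit 21175] (nat_lit 0) [] true,
   Spec.mk (nat_lit 1499) (nat_lit 0) [nat_lit 2957, nat_lit 1013, nat_lit 1553, nat_lit 1481, nat_lit 1517, nat_lit 1493, nat_lit 1505, nat_lit 1501, nat_lit 21181] (nat_lit 0) [] true,
   Spec.mk (nat_lit 1501) (nat_lit 1) [nat_lit 2959, nat_lit 1015, nat_lit 1555, nat_lit 1483, nat_lit 1519, nat_lit 1507, nat_lit 1499, nat_lit 21183] (nat_lit 0) [] false,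
   Spec.mk (nat_lit 1505) (nat_lit 0) [nat_lit 2963, nat_lit 1019, nat_lit 1559, nat_lit 1523, nat_lit 1499, nat_lit 1507, nat_lit 21187] (nat_lit 2) [] true,
   Spec.mk (nat_lit 1507) (nat_lit 1) [nat_lit 2965, nat_lit 1021, nat_lit 1561, nat_lit 1525, nat_lit 1501, nat_lit 1505, nat_lit 1509, nat_lit 21189] (nat_lit 0) [] false,
   Spec.mk (nat_lit 1509) (nat_lit 2) [nat_lit 2967, nat_lit 1023, nat_lit 1563, nat_lit 1527, nat_lit 1507] (nat_lit 0) [] false,
   Spec.mk (nat_lit 1517) (nat_lit 0) [nat_lit 2975, nat_lit 1031, nat_lit 1571, nat_lit 1499, nat_lit 1523, nat_lit 1519, nat_lit 21199] (nat_lit 2) [] true,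
   Spec.mk (nat_lit 1519) (nat_lit 0) [nat_lit 2977, nat_lit 1033, nat_lit 1573, nat_lit 1501, nat_lit 1525, nat_lit 1517, nat_lit 21201] (nat_lit 2) [] false,
   Spec.mk (nat_lit 1523) (nat_lit 0) [nat_lit 2981, nat_lit 1037, nat_lit 1577, nat_lit 1505, nat_lit 1517, nat_lit 1525, nat_lit 21205] (nat_lit 2) [] true,
   Spec.mk (nat_lit 1525) (nat_lit 0) [nat_lit 2983, nat_lit 1039, nat_lit 1579, nat_lit 1507, nat_lit 1519, nat_lit 1531, nat_lit 1523, nat_lit 1527, nat_lit 21207] (nat_lit 0) [] false,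
   Spec.mk (nat_lit 1527) (nat_lit 0) [nat_lit 2985, nat_lit 1041, nat_lit 1581, nat_lit 1509, nat_lit 1533, nat_lit 1525] (nat_lit 0) [] false,
   Spec.mk (nat_lit 1531) (nat_lit 0) [nat_lit 2989, nat_lit 1045, nat_lit 1585, nat_lit 1525, nat_lit 1533, nat_lit 21213] (nat_lit 0) [] false,
   Spec.mk (nat_lit 1533) (nat_lit 2) [nat_lit 2991, nat_lit 1047, nat_lit 1587, nat_lit 1527, nat_lit 1531] (nat_lit 0) [] false,
   Spec.mk (nat_lit 1547) (nat_lit 0) [nat_lit 3005, nat_lit 1061, nat_lit 1709, nat_lit 1493, nat_lit 1553, nat_lit 21229] (nat_lit 0) [] true,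
   Spec.mk (nat_lit 1553) (nat_lit 0) [nat_lit 3011, nat_lit 1067, nat_lit 1715, nat_lit 1499, nat_lit 1571, nat_lit 1547, nat_lit 1559, nat_lit 1555, nat_lit 21235] (nat_lit 1) [] true,
   Spec.mk (nat_lit 1555) (nat_lit 0) [nat_lit 3013, nat_lit 1069, nat_lit 1717, nat_lit 1501, nat_lit 1573, nat_lit 1561, nat_lit 1553, nat_lit 21237] (nat_lit 0) [] false,
   Spec.mk (nat_lit 1559) (nat_lit 0) [nat_lit 3017, nat_lit 1073, nat_lit 1721, nat_lit 1505, nat_lit 1577, nat_lit 1553, nat_lit 1561, nat_lit 21241] (nat_lit 4) [] true,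
   Spec.mk (nat_lit 1561) (nat_lit 0) [nat_lit 3019, nat_lit 1075, nat_lit 1723, nat_lit 1507, nat_lit 1579, nat_lit 1555, nat_lit 1559, nat_lit 1563, nat_lit 21243] (nat_lit 1) [] false,
   Spec.mk (nat_lit 1563) (nat_lit 0) [nat_lit 3021, nat_lit 1077, nat_lit 1725, nat_lit 1509, nat_lit 1581, nat_lit 1561] (nat_lit 0) [] false,
   Spec.mk (nat_lit 1571) (nat_lit 0) [nat_lit 3029, nat_lit 1085, nat_lit 1733, nat_lit 1517, nat_lit 1625, nat_lit 1553, nat_lit 1577, nat_lit 1573, nat_lit 21253] (nat_lit 1) [] true,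
   Spec.mk (nat_lit 1573) (nat_lit 0) [nat_lit 3031, nat_lit 1087, nat_lit 1735, nat_lit 1519, nat_lit 1627, nat_lit 1555, nat_lit 1579, nat_lit 1571, nat_lit 21255] (nat_lit 1) [] false,
   Spec.mk (nat_lit 1577) (nat_lit 0) [nat_lit 3035, nat_lit 1091, nat_lit 1739, nat_lit 1523, nat_lit 1631, nat_lit 1559, nat_lit 1595, nat_lit 1571, nat_lit 1579, nat_lit 21259] (nat_lit 2) [] true,
   Spec.mk (nat_lit 1579) (nat_lit 0) [nat_lit 3037, nat_lit 1093, nat_lit 1741, nat_lit 1525, nat_lit 1633, nat_lit 1561, nat_lit 1597, nat_lit 1573, nat_lit 1585, nat_lit 1577, nat_lit 1581, nat_lit 21261] (nat_lit 0) [] false,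
   Spec.mk (nat_lit 1581) (nat_lit 0) [nat_lit 3039, nat_lit 1095, nat_lit 1743, nat_lit 1527, nat_lit 1635, nat_lit 1563, nat_lit 1599, nat_lit 1587, nat_lit 1579] (nat_lit 0) [] false,
   Spec.mk (nat_lit 1585) (nat_lit 0) [nat_lit 3043, nat_lit 1099, nat_lit 1747, nat_lit 1531, nat_lit 1639, nat_lit 1603, nat_lit 1579, nat_lit 1587, nat_lit 21267] (nat_lit 1) [] false,
   Spec.mk (nat_lit 1587) (nat_lit 1) [nat_lit 3045, nat_lit 1101, nat_lit 1749, nat_lit 1533, nat_lit 1641, nat_lit 1605, nat_lit 1581, nat_lit 1585] (nat_lit 0) [] false,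
   Spec.mk (nat_lit 1595) (nat_lit 0) [nat_lit 3053, nat_lit 1109, nat_lit 1757, nat_lit 1649, nat_lit 1577, nat_lit 1597, nat_lit 21277] (nat_lit 2) [] false,
   Spec.mk (nat_lit 1597) (nat_lit 0) [nat_lit 3055, nat_lit 1111, nat_lit 1759, nat_lit 1651, nat_lit 1579, nat_lit 1603, nat_lit 1595, nat_lit 1599, nat_lit 21279] (nat_lit 1) [] false,
   Spec.mk (nat_lit 1599) (nat_lit 0) [nat_lit 3057, nat_lit 1113, nat_lit 1761, nat_lit 1653, nat_lit 1581, nat_lit 1605, nat_lit 1597] (nat_lit 2) [] false,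
   Spec.mk (nat_lit 1603) (nat_lit 0) [nat_lit 3061, nat_lit 1117, nat_lit 1765, nat_lit 1657, nat_lit 1585, nat_lit 1597, nat_lit 1605, nat_lit 21285] (nat_lit 0) [] false]

noncomputable def sp5 : List Spec :=
  [Spec.mk (nat_lit 1605) (nat_lit 1) [nat_lit 3063, nat_lit 1119, nat_lit 1767, nat_lit 1659, nat_lit 1587, nat_lit 1599, nat_lit 1611, nat_lit 1603] (nat_lit 0) [] false,
   Spec.mk (nat_lit 1611) (nat_lit 2) [nat_lit 3069, nat_lit 1125, nat_lit 1773, nat_lit 1665, nat_lit 1605] (nat_lit 0) [] false,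
   Spec.mk (nat_lit 1625) (nat_lit 0) [nat_lit 3083, nat_lit 1139, nat_lit 1787, nat_lit 1571, nat_lit 1631, nat_lit 1627, nat_lit 21307] (nat_lit 2) [] true,
   Spec.mk (nat_lit 1627) (nat_lit 0) [nat_lit 3085, nat_lit 1141, nat_lit 1789, nat_lit 1573, nat_lit 1633, nat_lit 1625, nat_lit 21309] (nat_lit 2) [] false,
   Spec.mk (nat_lit 1631) (nat_lit 0) [nat_lit 3089, nat_lit 1145, nat_lit 1793, nat_lit 1577, nat_lit 1649, nat_lit 1625, nat_lit 1633, nat_lit 21313] (nat_lit 4) [] false,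
   Spec.mk (nat_lit 1633) (nat_lit 0) [nat_lit 3091, nat_lit 1147, nat_lit 1795, nat_lit 1579, nat_lit 1651, nat_lit 1627, nat_lit 1639, nat_lit 1631, nat_lit 1635, nat_lit 21315] (nat_lit 2) [] false,
   Spec.mk (nat_lit 1635) (nat_lit 0) [nat_lit 3093, nat_lit 1149, nat_lit 1797, nat_lit 1581, nat_lit 1653, nat_lit 1641, nat_lit 1633] (nat_lit 2) [] false,
   Spec.mk (nat_lit 1639) (nat_lit 0) [nat_lit 3097, nat_lit 1153, nat_lit 1801, nat_lit 1585, nat_lit 1657, nat_lit 1633, nat_lit 1641, nat_lit 21321] (nat_lit 4) [] false,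
   Spec.mk (nat_lit 1641) (nat_lit 0) [nat_lit 3099, nat_lit 1155, nat_lit 1803, nat_lit 1587, nat_lit 1659, nat_lit 1635, nat_lit 1639] (nat_lit 2) [] false,
   Spec.mk (nat_lit 1649) (nat_lit 0) [nat_lit 3107, nat_lit 1163, nat_lit 1811, nat_lit 1595, nat_lit 1631, nat_lit 1651, nat_lit 21331] (nat_lit 2) [] false,
   Spec.mk (nat_lit 1651) (nat_lit 0) [nat_lit 3109, nat_lit 1165, nat_lit 1813, nat_lit 1597, nat_lit 1633, nat_lit 1657, nat_lit 1649, nat_lit 1653, nat_lit 21333] (nat_lit 1) [] false,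
   Spec.mk (nat_lit 1653) (nat_lit 0) [nat_lit 3111, nat_lit 1167, nat_lit 1815, nat_lit 1599, nat_lit 1635, nat_lit 1659, nat_lit 1651] (nat_lit 2) [] false,
   Spec.mk (nat_lit 1657) (nat_lit 0) [nat_lit 3115, nat_lit 1171, nat_lit 1819, nat_lit 1603, nat_lit 1639, nat_lit 1675, nat_lit 1651, nat_lit 1659, nat_lit 21339] (nat_lit 1) [] false,
   Spec.mk (nat_lit 1659) (nat_lit 0) [nat_lit 3117, nat_lit 1173, nat_lit 1821, nat_lit 1605, nat_lit 1641, nat_lit 1677, nat_lit 1653, nat_lit 1665, nat_lit 1657] (nat_lit 0) [] false,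
   Spec.mk (nat_lit 1665) (nat_lit 0) [nat_lit 3123, nat_lit 1179, nat_lit 1827, nat_lit 1611, nat_lit 1683, nat_lit 1659] (nat_lit 0) [] false,
   Spec.mk (nat_lit 1675) (nat_lit 0) [nat_lit 3133, nat_lit 1189, nat_lit 1837, nat_lit 1657, nat_lit 1677, nat_lit 21357] (nat_lit 0) [] false,
   Spec.mk (nat_lit 1677) (nat_lit 0) [nat_lit 3135, nat_lit 1191, nat_lit 1839, nat_lit 1659, nat_lit 1683, nat_lit 1675] (nat_lit 0) [] false,
   Spec.mk (nat_lit 1683) (nat_lit 2) [nat_lit 3141, nat_lit 1197, nat_lit 1845, nat_lit 1665, nat_lit 1677] (nat_lit 0) [] false,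
   Spec.mk (nat_lit 1709) (nat_lit 2) [nat_lit 3167, nat_lit 1223, nat_lit 1547, nat_lit 1715, nat_lit 21391] (nat_lit 0) [] false,
   Spec.mk (nat_lit 1715) (nat_lit 1) [nat_lit 3173, nat_lit 1229, nat_lit 1553, nat_lit 1733, nat_lit 1709, nat_lit 1721, nat_lit 1717, nat_lit 21397] (nat_lit 0) [] true,
   Spec.mk (nat_lit 1717) (nat_lit 2) [nat_lit 3175, nat_lit 1231, nat_lit 1555, nat_lit 1735, nat_lit 1723, nat_lit 1715, nat_lit 21399] (nat_lit 0) [] false,
   Spec.mk (nat_lit 1721) (nat_lit 0) [nat_lit 3179, nat_lit 1235, nat_lit 1559, nat_lit 1739, nat_lit 1715, nat_lit 1723, nat_lit 21403] (nat_lit 2) [] false,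
   Spec.mk (nat_lit 1723) (nat_lit 1) [nat_lit 3181, nat_lit 1237, nat_lit 1561, nat_lit 1741, nat_lit 1717, nat_lit 1721, nat_lit 1725, nat_lit 21405] (nat_lit 0) [] false,
   Spec.mk (nat_lit 1725) (nat_lit 2) [nat_lit 3183, nat_lit 1239, nat_lit 1563, nat_lit 1743, nat_lit 1723] (nat_lit 0) [] false,
   Spec.mk (nat_lit 1733) (nat_lit 0) [nat_lit 3191, nat_lit 1247, nat_lit 1571, nat_lit 1787, nat_lit 1715, nat_lit 1739, nat_lit 1735, nat_lit 21415] (nat_lit 0) [] true,
   Spec.mk (nat_lit 1735) (nat_lit 0) [nat_lit 3193, nat_lit 1249, nat_lit 1573, nat_lit 1789, nat_lit 1717, nat_lit 1741, nat_lit 1733, nat_lit 21417] (nat_lit 0) [] false,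
   Spec.mk (nat_lit 1739) (nat_lit 0) [nat_lit 3197, nat_lit 1253, nat_lit 1577, nat_lit 1793, nat_lit 1721, nat_lit 1757, nat_lit 1733, nat_lit 1741, nat_lit 21421] (nat_lit 1) [] false,
   Spec.mk (nat_lit 1741) (nat_lit 1) [nat_lit 3199, nat_lit 1255, nat_lit 1579, nat_lit 1795, nat_lit 1723, nat_lit 1759, nat_lit 1735, nat_lit 1747, nat_lit 1739, nat_lit 1743, nat_lit 21423] (nat_lit 0) [] false,
   Spec.mk (nat_lit 1743) (nat_lit 1) [nat_lit 3201, nat_lit 1257, nat_lit 1581, nat_lit 1797, nat_lit 1725, nat_lit 1761, nat_lit 1749, nat_lit 1741] (nat_lit 0) [] false,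
   Spec.mk (nat_lit 1747) (nat_lit 0) [nat_lit 3205, nat_lit 1261, nat_lit 1585, nat_lit 1801, nat_lit 1765, nat_lit 1741, nat_lit 1749, nat_lit 21429] (nat_lit 0) [] false,
   Spec.mk (nat_lit 1749) (nat_lit 2) [nat_lit 3207, nat_lit 1263, nat_lit 1587, nat_lit 1803, nat_lit 1767, nat_lit 1743, nat_lit 1747] (nat_lit 0) [] false,
   Spec.mk (nat_lit 1757) (nat_lit 0) [nat_lit 3215, nat_lit 1271, nat_lit 1595, nat_lit 1811, nat_lit 1739, nat_lit 1759, nat_lit 21439] (nat_lit 2) [] false,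
   Spec.mk (nat_lit 1759) (nat_lit 0) [nat_lit 3217, nat_lit 1273, nat_lit 1597, nat_lit 1813, nat_lit 1741, nat_lit 1765, nat_lit 1757, nat_lit 1761, nat_lit 21441] (nat_lit 1) [] false,
   Spec.mk (nat_lit 1761) (nat_lit 0) [nat_lit 3219, nat_lit 1275, nat_lit 1599, nat_lit 1815, nat_lit 1743, nat_lit 1767, nat_lit 1759] (nat_lit 2) [] false,
   Spec.mk (nat_lit 1765) (nat_lit 0) [nat_lit 3223, nat_lit 1279, nat_lit 1603, nat_lit 1819, nat_lit 1747, nat_lit 1759, nat_lit 1767, nat_lit 21447] (nat_lit 0) [] false,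
   Spec.mk (nat_lit 1767) (nat_lit 1) [nat_lit 3225, nat_lit 1281, nat_lit 1605, nat_lit 1821, nat_lit 1749, nat_lit 1761, nat_lit 1773, nat_lit 1765] (nat_lit 0) [] false,
   Spec.mk (nat_lit 1773) (nat_lit 2) [nat_lit 3231, nat_lit 1287, nat_lit 1611, nat_lit 1827, nat_lit 1767] (nat_lit 0) [] false,
   Spec.mk (nat_lit 1787) (nat_lit 1) [nat_lit 3245, nat_lit 1301, nat_lit 1625, nat_lit 1949, nat_lit 1733, nat_lit 1793, nat_lit 1789, nat_lit 21469] (nat_lit 0) [] false,
   Spec.mk (nat_lit 1789) (nat_lit 1) [nat_lit 3247, nat_lit 1303, nat_lit 1627, nat_lit 1951, nat_lit 1735, nat_lit 1795, nat_lit 1787, nat_lit 21471] (nat_lit 0) [] false,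
   Spec.mk (nat_lit 1793) (nat_lit 0) [nat_lit 3251, nat_lit 1307, nat_lit 1631, nat_lit 1955, nat_lit 1739, nat_lit 1811, nat_lit 1787, nat_lit 1795, nat_lit 21475] (nat_lit 1) [] false,
   Spec.mk (nat_lit 1795) (nat_lit 1) [nat_lit 3253, nat_lit 1309, nat_lit 1633, nat_lit 1957, nat_lit 1741, nat_lit 1813, nat_lit 1789, nat_lit 1801, nat_lit 1793, nat_lit 1797, nat_lit 21477] (nat_lit 0) [] false,
   Spec.mk (nat_lit 1797) (nat_lit 1) [nat_lit 3255, nat_lit 1311, nat_lit 1635, nat_lit 1959, nat_lit 1743, nat_lit 1815, nat_lit 1803, nat_lit 1795] (nat_lit 0) [] false,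
   Spec.mk (nat_lit 1801) (nat_lit 0) [nat_lit 3259, nat_lit 1315, nat_lit 1639, nat_lit 1963, nat_lit 1747, nat_lit 1819, nat_lit 1795, nat_lit 1803, nat_lit 21483] (nat_lit 1) [] false,
   Spec.mk (nat_lit 1803) (nat_lit 1) [nat_lit 3261, nat_lit 1317, nat_lit 1641, nat_lit 1965, nat_lit 1749, nat_lit 1821, nat_lit 1797, nat_lit 1801] (nat_lit 0) [] false,
   Spec.mk (nat_lit 1811) (nat_lit 0) [nat_lit 3269, nat_lit 1325, nat_lit 1649, nat_lit 1973, nat_lit 1757, nat_lit 1865, nat_lit 1793, nat_lit 1813, nat_lit 21493] (nat_lit 0) [] false,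
   Spec.mk (nat_lit 1813) (nat_lit 1) [nat_lit 3271, nat_lit 1327, nat_lit 1651, nat_lit 1975, nat_lit 1759, nat_lit 1867, nat_lit 1795, nat_lit 1819, nat_lit 1811, nat_lit 1815, nat_lit 21495] (nat_lit 0) [] false,
   Spec.mk (nat_lit 1815) (nat_lit 0) [nat_lit 3273, nat_lit 1329, nat_lit 1653, nat_lit 1977, nat_lit 1761, nat_lit 1869, nat_lit 1797, nat_lit 1821, nat_lit 1813] (nat_lit 0) [] false,
   Spec.mk (nat_lit 1819) (nat_lit 1) [nat_lit 3277, nat_lit 1333, nat_lit 1657, nat_lit 1981, nat_lit 1765, nat_lit 1873, nat_lit 1801, nat_lit 1837, nat_lit 1813, nat_lit 1821, nat_lit 21501] (nat_lit 0) [] false,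
   Spec.mk (nat_lit 1821) (nat_lit 2) [nat_lit 3279, nat_lit 1335, nat_lit 1659, nat_lit 1983, nat_lit 1767, nat_lit 1875, nat_lit 1803, nat_lit 1839, nat_lit 1815, nat_lit 1827, nat_lit 1819] (nat_lit 0) [] false,
   Spec.mk (nat_lit 1827) (nat_lit 2) [nat_lit 3285, nat_lit 1341, nat_lit 1665, nat_lit 1989, nat_lit 1773, nat_lit 1881, nat_lit 1845, nat_lit 1821] (nat_lit 0) [] false,
   Spec.mk (nat_lit 1837) (nat_lit 1) [nat_lit 3295, nat_lit 1351, nat_lit 1675, nat_lit 1999, nat_lit 1891, nat_lit 1819, nat_lit 1839, nat_lit 21519] (nat_lit 0) [] false,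
   Spec.mk (nat_lit 1839) (nat_lit 1) [nat_lit 3297, nat_lit 1353, nat_lit 1677, nat_lit 2001, nat_lit 1893, nat_lit 1821, nat_lit 1845, nat_lit 1837] (nat_lit 0) [] false,
   Spec.mk (nat_lit 1845) (nat_lit 3) [nat_lit 3303, nat_lit 1359, nat_lit 1683, nat_lit 2007, nat_lit 1899, nat_lit 1827, nat_lit 1839] (nat_lit 0) [] false,
   Spec.mk (nat_lit 1865) (nat_lit 0) [nat_lit 3323, nat_lit 1379, nat_lit 2027, nat_lit 1811, nat_lit 1867, nat_lit 21547] (nat_lit 0) [] false,
   Spec.mk (nat_lit 1867) (nat_lit 1) [nat_lit 3325, nat_lit 1381, nat_lit 2029, nat_lit 1813, nat_lit 1873, nat_lit 1865, nat_lit 1869, nat_lit 21549] (nat_lit 0) [] false,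
   Spec.mk (nat_lit 1869) (nat_lit 0) [nat_lit 3327, nat_lit 1383, nat_lit 2031, nat_lit 1815, nat_lit 1875, nat_lit 1867] (nat_lit 0) [] false,
   Spec.mk (nat_lit 1873) (nat_lit 0) [nat_lit 3331, nat_lit 1387, nat_lit 2035, nat_lit 1819, nat_lit 1891, nat_lit 1867, nat_lit 1875, nat_lit 21555] (nat_lit 0) [] false,
   Spec.mk (nat_lit 1875) (nat_lit 1) [nat_lit 3333, nat_lit 1389, nat_lit 2037, nat_lit 1821, nat_lit 1893, nat_lit 1869, nat_lit 1881, nat_lit 1873] (nat_lit 0) [] false,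
   Spec.mk (nat_lit 1881) (nat_lit 0) [nat_lit 3339, nat_lit 1395, nat_lit 2043, nat_lit 1827, nat_lit 1899, nat_lit 1875] (nat_lit 0) [] false,
   Spec.mk (nat_lit 1891) (nat_lit 2) [nat_lit 3349, nat_lit 1405, nat_lit 2053, nat_lit 1837, nat_lit 1873, nat_lit 1893, nat_lit 21573] (nat_lit 0) [] false]

noncomputable def sp6 : List Spec :=
  [Spec.mk (nat_lit 1893) (nat_lit 2) [nat_lit 3351, nat_lit 1407, nat_lit 2055, nat_lit 1839, nat_lit 1875, nat_lit 1899, nat_lit 1891] (nat_lit 0) [] false,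
   Spec.mk (nat_lit 1899) (nat_lit 3) [nat_lit 3357, nat_lit 1413, nat_lit 2061, nat_lit 1845, nat_lit 1881, nat_lit 1917, nat_lit 1893] (nat_lit 0) [] false,
   Spec.mk (nat_lit 1917) (nat_lit 4) [nat_lit 3375, nat_lit 1431, nat_lit 2079, nat_lit 1899] (nat_lit 0) [] false,
   Spec.mk (nat_lit 1949) (nat_lit 2) [nat_lit 3407, nat_lit 1787, nat_lit 1955, nat_lit 1951, nat_lit 21631] (nat_lit 0) [] false,
   Spec.mk (nat_lit 1951) (nat_lit 2) [nat_lit 3409, nat_lit 1789, nat_lit 1957, nat_lit 1949, nat_lit 21633] (nat_lit 0) [] false,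
   Spec.mk (nat_lit 1955) (nat_lit 0) [nat_lit 3413, nat_lit 1793, nat_lit 1973, nat_lit 1949, nat_lit 1957, nat_lit 21637] (nat_lit 0) [] false,
   Spec.mk (nat_lit 1957) (nat_lit 2) [nat_lit 3415, nat_lit 1795, nat_lit 1975, nat_lit 1951, nat_lit 1963, nat_lit 1955, nat_lit 1959, nat_lit 21639] (nat_lit 0) [] false,
   Spec.mk (nat_lit 1959) (nat_lit 2) [nat_lit 3417, nat_lit 1797, nat_lit 1977, nat_lit 1965, nat_lit 1957] (nat_lit 0) [] false,
   Spec.mk (nat_lit 1963) (nat_lit 0) [nat_lit 3421, nat_lit 1801, nat_lit 1981, nat_lit 1957, nat_lit 1965, nat_lit 21645] (nat_lit 0) [] false,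
   Spec.mk (nat_lit 1965) (nat_lit 2) [nat_lit 3423, nat_lit 1803, nat_lit 1983, nat_lit 1959, nat_lit 1963] (nat_lit 0) [] false,
   Spec.mk (nat_lit 1973) (nat_lit 0) [nat_lit 3431, nat_lit 1811, nat_lit 2027, nat_lit 1955, nat_lit 1975, nat_lit 21655] (nat_lit 0) [] false,
   Spec.mk (nat_lit 1975) (nat_lit 1) [nat_lit 3433, nat_lit 1813, nat_lit 2029, nat_lit 1957, nat_lit 1981, nat_lit 1973, nat_lit 1977, nat_lit 21657] (nat_lit 0) [] false,
   Spec.mk (nat_lit 1977) (nat_lit 0) [nat_lit 3435, nat_lit 1815, nat_lit 2031, nat_lit 1959, nat_lit 1983, nat_lit 1975] (nat_lit 0) [] false,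
   Spec.mk (nat_lit 1981) (nat_lit 1) [nat_lit 3439, nat_lit 1819, nat_lit 2035, nat_lit 1963, nat_lit 1999, nat_lit 1975, nat_lit 1983, nat_lit 21663] (nat_lit 0) [] false,
   Spec.mk (nat_lit 1983) (nat_lit 2) [nat_lit 3441, nat_lit 1821, nat_lit 2037, nat_lit 1965, nat_lit 2001, nat_lit 1977, nat_lit 1989, nat_lit 1981] (nat_lit 0) [] false,
   Spec.mk (nat_lit 1989) (nat_lit 2) [nat_lit 3447, nat_lit 1827, nat_lit 2043, nat_lit 2007, nat_lit 1983] (nat_lit 0) [] false,
   Spec.mk (nat_lit 1999) (nat_lit 0) [nat_lit 3457, nat_lit 1837, nat_lit 2053, nat_lit 1981, nat_lit 2001, nat_lit 21681] (nat_lit 0) [] false,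
   Spec.mk (nat_lit 2001) (nat_lit 0) [nat_lit 3459, nat_lit 1839, nat_lit 2055, nat_lit 1983, nat_lit 2007, nat_lit 1999] (nat_lit 0) [] false,
   Spec.mk (nat_lit 2007) (nat_lit 2) [nat_lit 3465, nat_lit 1845, nat_lit 2061, nat_lit 1989, nat_lit 2001] (nat_lit 0) [] false,
   Spec.mk (nat_lit 2027) (nat_lit 2) [nat_lit 3485, nat_lit 1865, nat_lit 1973, nat_lit 2029, nat_lit 21709] (nat_lit 0) [] false,
   Spec.mk (nat_lit 2029) (nat_lit 3) [nat_lit 3487, nat_lit 1867, nat_lit 1975, nat_lit 2035, nat_lit 2027, nat_lit 2031, nat_lit 21711] (nat_lit 0) [] false,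
   Spec.mk (nat_lit 2031) (nat_lit 2) [nat_lit 3489, nat_lit 1869, nat_lit 1977, nat_lit 2037, nat_lit 2029] (nat_lit 0) [] false,
   Spec.mk (nat_lit 2035) (nat_lit 2) [nat_lit 3493, nat_lit 1873, nat_lit 1981, nat_lit 2053, nat_lit 2029, nat_lit 2037, nat_lit 21717] (nat_lit 0) [] false,
   Spec.mk (nat_lit 2037) (nat_lit 3) [nat_lit 3495, nat_lit 1875, nat_lit 1983, nat_lit 2055, nat_lit 2031, nat_lit 2043, nat_lit 2035] (nat_lit 0) [] false,
   Spec.mk (nat_lit 2043) (nat_lit 2) [nat_lit 3501, nat_lit 1881, nat_lit 1989, nat_lit 2061, nat_lit 2037] (nat_lit 0) [] false,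
   Spec.mk (nat_lit 2053) (nat_lit 3) [nat_lit 3511, nat_lit 1891, nat_lit 1999, nat_lit 2107, nat_lit 2035, nat_lit 2055, nat_lit 21735] (nat_lit 0) [] false,
   Spec.mk (nat_lit 2055) (nat_lit 3) [nat_lit 3513, nat_lit 1893, nat_lit 2001, nat_lit 2109, nat_lit 2037, nat_lit 2061, nat_lit 2053] (nat_lit 0) [] false,
   Spec.mk (nat_lit 2061) (nat_lit 4) [nat_lit 3519, nat_lit 1899, nat_lit 2007, nat_lit 2115, nat_lit 2043, nat_lit 2079, nat_lit 2055] (nat_lit 0) [] false,
   Spec.mk (nat_lit 2079) (nat_lit 4) [nat_lit 3537, nat_lit 1917, nat_lit 2133, nat_lit 2061] (nat_lit 0) [] false,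
   Spec.mk (nat_lit 2107) (nat_lit 4) [nat_lit 3565, nat_lit 2053, nat_lit 2109, nat_lit 21789] (nat_lit 0) [] false,
   Spec.mk (nat_lit 2109) (nat_lit 4) [nat_lit 3567, nat_lit 2055, nat_lit 2115, nat_lit 2107] (nat_lit 0) [] false,
   Spec.mk (nat_lit 2115) (nat_lit 4) [nat_lit 3573, nat_lit 2061, nat_lit 2133, nat_lit 2109] (nat_lit 0) [] false,
   Spec.mk (nat_lit 2133) (nat_lit 6) [nat_lit 3591, nat_lit 2079, nat_lit 2115] (nat_lit 0) [] false,
   Spec.mk (nat_lit 2213) (nat_lit 4) [nat_lit 6587, nat_lit 755, nat_lit 2231, nat_lit 21895] (nat_lit 0) [] false,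
   Spec.mk (nat_lit 2231) (nat_lit 3) [nat_lit 6605, nat_lit 773, nat_lit 2285, nat_lit 2213, nat_lit 2249, nat_lit 2237, nat_lit 21913] (nat_lit 0) [] false,
   Spec.mk (nat_lit 2237) (nat_lit 2) [nat_lit 6611, nat_lit 779, nat_lit 2291, nat_lit 2255, nat_lit 2231, nat_lit 2239, nat_lit 21919] (nat_lit 0) [] false,
   Spec.mk (nat_lit 2239) (nat_lit 4) [nat_lit 6613, nat_lit 781, nat_lit 2293, nat_lit 2257, nat_lit 2237, nat_lit 21921] (nat_lit 0) [] false,
   Spec.mk (nat_lit 2249) (nat_lit 0) [nat_lit 6623, nat_lit 791, nat_lit 2303, nat_lit 2231, nat_lit 2255, nat_lit 21931] (nat_lit 0) [] false,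
   Spec.mk (nat_lit 2255) (nat_lit 1) [nat_lit 6629, nat_lit 797, nat_lit 2309, nat_lit 2237, nat_lit 2249, nat_lit 2261, nat_lit 2257, nat_lit 21937] (nat_lit 0) [] false,
   Spec.mk (nat_lit 2257) (nat_lit 2) [nat_lit 6631, nat_lit 799, nat_lit 2311, nat_lit 2239, nat_lit 2263, nat_lit 2255, nat_lit 21939] (nat_lit 0) [] false,
   Spec.mk (nat_lit 2261) (nat_lit 0) [nat_lit 6635, nat_lit 803, nat_lit 2315, nat_lit 2255, nat_lit 2263, nat_lit 21943] (nat_lit 0) [] false,
   Spec.mk (nat_lit 2263) (nat_lit 3) [nat_lit 6637, nat_lit 805, nat_lit 2317, nat_lit 2257, nat_lit 2261, nat_lit 2265, nat_lit 21945] (nat_lit 0) [] false,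
   Spec.mk (nat_lit 2265) (nat_lit 4) [nat_lit 6639, nat_lit 807, nat_lit 2319, nat_lit 2263] (nat_lit 0) [] false,
   Spec.mk (nat_lit 2285) (nat_lit 2) [nat_lit 6659, nat_lit 827, nat_lit 2447, nat_lit 2231, nat_lit 2303, nat_lit 2291, nat_lit 21967] (nat_lit 0) [] true,
   Spec.mk (nat_lit 2291) (nat_lit 0) [nat_lit 6665, nat_lit 833, nat_lit 2453, nat_lit 2237, nat_lit 2309, nat_lit 2285, nat_lit 2293, nat_lit 21973] (nat_lit 0) [] true,
   Spec.mk (nat_lit 2293) (nat_lit 2) [nat_lit 6667, nat_lit 835, nat_lit 2455, nat_lit 2239, nat_lit 2311, nat_lit 2291, nat_lit 21975] (nat_lit 0) [] true,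
   Spec.mk (nat_lit 2303) (nat_lit 1) [nat_lit 6677, nat_lit 845, nat_lit 2465, nat_lit 2249, nat_lit 2357, nat_lit 2285, nat_lit 2309, nat_lit 21985] (nat_lit 0) [] true,
   Spec.mk (nat_lit 2309) (nat_lit 1) [nat_lit 6683, nat_lit 851, nat_lit 2471, nat_lit 2255, nat_lit 2363, nat_lit 2291, nat_lit 2327, nat_lit 2303, nat_lit 2315, nat_lit 2311, nat_lit 21991] (nat_lit 0) [] true,
   Spec.mk (nat_lit 2311) (nat_lit 2) [nat_lit 6685, nat_lit 853, nat_lit 2473, nat_lit 2257, nat_lit 2365, nat_lit 2293, nat_lit 2329, nat_lit 2317, nat_lit 2309, nat_lit 21993] (nat_lit 0) [] true,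
   Spec.mk (nat_lit 2315) (nat_lit 0) [nat_lit 6689, nat_lit 857, nat_lit 2477, nat_lit 2261, nat_lit 2369, nat_lit 2333, nat_lit 2309, nat_lit 2317, nat_lit 21997] (nat_lit 1) [] true,
   Spec.mk (nat_lit 2317) (nat_lit 2) [nat_lit 6691, nat_lit 859, nat_lit 2479, nat_lit 2263, nat_lit 2371, nat_lit 2335, nat_lit 2311, nat_lit 2315, nat_lit 2319, nat_lit 21999] (nat_lit 0) [] true,
   Spec.mk (nat_lit 2319) (nat_lit 3) [nat_lit 6693, nat_lit 861, nat_lit 2481, nat_lit 2265, nat_lit 2373, nat_lit 2337, nat_lit 2317] (nat_lit 0) [] false,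
   Spec.mk (nat_lit 2327) (nat_lit 0) [nat_lit 6701, nat_lit 869, nat_lit 2489, nat_lit 2381, nat_lit 2309, nat_lit 2333, nat_lit 2329, nat_lit 22009] (nat_lit 0) [] true,
   Spec.mk (nat_lit 2329) (nat_lit 0) [nat_lit 6703, nat_lit 871, nat_lit 2491, nat_lit 2383, nat_lit 2311, nat_lit 2335, nat_lit 2327, nat_lit 22011] (nat_lit 0) [] true,
   Spec.mk (nat_lit 2333) (nat_lit 0) [nat_lit 6707, nat_lit 875, nat_lit 2495, nat_lit 2387, nat_lit 2315, nat_lit 2327, nat_lit 2335, nat_lit 22015] (nat_lit 0) [] true,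
   Spec.mk (nat_lit 2335) (nat_lit 2) [nat_lit 6709, nat_lit 877, nat_lit 2497, nat_lit 2389, nat_lit 2317, nat_lit 2329, nat_lit 2341, nat_lit 2333, nat_lit 2337, nat_lit 22017] (nat_lit 0) [] false,
   Spec.mk (nat_lit 2337) (nat_lit 2) [nat_lit 6711, nat_lit 879, nat_lit 2499, nat_lit 2391, nat_lit 2319, nat_lit 2343, nat_lit 2335] (nat_lit 0) [] false,
   Spec.mk (nat_lit 2341) (nat_lit 2) [nat_lit 6715, nat_lit 883, nat_lit 2503, nat_lit 2395, nat_lit 2335, nat_lit 2343, nat_lit 22023] (nat_lit 0) [] false,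
   Spec.mk (nat_lit 2343) (nat_lit 4) [nat_lit 6717, nat_lit 885, nat_lit 2505, nat_lit 2397, nat_lit 2337, nat_lit 2341] (nat_lit 0) [] false,
   Spec.mk (nat_lit 2357) (nat_lit 0) [nat_lit 6731, nat_lit 899, nat_lit 2519, nat_lit 2303, nat_lit 2363, nat_lit 22039] (nat_lit 0) [] true]

noncomputable def sp7 : List Spec :=
  [Spec.mk (nat_lit 2363) (nat_lit 0) [nat_lit 6737, nat_lit 905, nat_lit 2525, nat_lit 2309, nat_lit 2381, nat_lit 2357, nat_lit 2369, nat_lit 2365, nat_lit 22045] (nat_lit 1) [] true,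
   Spec.mk (nat_lit 2365) (nat_lit 0) [nat_lit 6739, nat_lit 907, nat_lit 2527, nat_lit 2311, nat_lit 2383, nat_lit 2371, nat_lit 2363, nat_lit 22047] (nat_lit 0) [] false,
   Spec.mk (nat_lit 2369) (nat_lit 0) [nat_lit 6743, nat_lit 911, nat_lit 2531, nat_lit 2315, nat_lit 2387, nat_lit 2363, nat_lit 2371, nat_lit 22051] (nat_lit 4) [] true,
   Spec.mk (nat_lit 2371) (nat_lit 0) [nat_lit 6745, nat_lit 913, nat_lit 2533, nat_lit 2317, nat_lit 2389, nat_lit 2365, nat_lit 2369, nat_lit 2373, nat_lit 22053] (nat_lit 1) [] false,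
   Spec.mk (nat_lit 2373) (nat_lit 0) [nat_lit 6747, nat_lit 915, nat_lit 2535, nat_lit 2319, nat_lit 2391, nat_lit 2371] (nat_lit 0) [] false,
   Spec.mk (nat_lit 2381) (nat_lit 0) [nat_lit 6755, nat_lit 923, nat_lit 2543, nat_lit 2327, nat_lit 2363, nat_lit 2387, nat_lit 2383, nat_lit 22063] (nat_lit 0) [] true,
   Spec.mk (nat_lit 2383) (nat_lit 0) [nat_lit 6757, nat_lit 925, nat_lit 2545, nat_lit 2329, nat_lit 2365, nat_lit 2389, nat_lit 2381, nat_lit 22065] (nat_lit 0) [] false,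
   Spec.mk (nat_lit 2387) (nat_lit 0) [nat_lit 6761, nat_lit 929, nat_lit 2549, nat_lit 2333, nat_lit 2369, nat_lit 2405, nat_lit 2381, nat_lit 2389, nat_lit 22069] (nat_lit 1) [] false,
   Spec.mk (nat_lit 2389) (nat_lit 1) [nat_lit 6763, nat_lit 931, nat_lit 2551, nat_lit 2335, nat_lit 2371, nat_lit 2407, nat_lit 2383, nat_lit 2395, nat_lit 2387, nat_lit 2391, nat_lit 22071] (nat_lit 0) [] false,
   Spec.mk (nat_lit 2391) (nat_lit 1) [nat_lit 6765, nat_lit 933, nat_lit 2553, nat_lit 2337, nat_lit 2373, nat_lit 2409, nat_lit 2397, nat_lit 2389] (nat_lit 0) [] false,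
   Spec.mk (nat_lit 2395) (nat_lit 0) [nat_lit 6769, nat_lit 937, nat_lit 2557, nat_lit 2341, nat_lit 2413, nat_lit 2389, nat_lit 2397, nat_lit 22077] (nat_lit 0) [] false,
   Spec.mk (nat_lit 2397) (nat_lit 2) [nat_lit 6771, nat_lit 939, nat_lit 2559, nat_lit 2343, nat_lit 2415, nat_lit 2391, nat_lit 2395] (nat_lit 0) [] false,
   Spec.mk (nat_lit 2405) (nat_lit 0) [nat_lit 6779, nat_lit 947, nat_lit 2567, nat_lit 2387, nat_lit 2407, nat_lit 22087] (nat_lit 0) [] false,
   Spec.mk (nat_lit 2407) (nat_lit 1) [nat_lit 6781, nat_lit 949, nat_lit 2569, nat_lit 2389, nat_lit 2413, nat_lit 2405, nat_lit 2409, nat_lit 22089] (nat_lit 0) [] false,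
   Spec.mk (nat_lit 2409) (nat_lit 0) [nat_lit 6783, nat_lit 951, nat_lit 2571, nat_lit 2391, nat_lit 2415, nat_lit 2407] (nat_lit 0) [] false,
   Spec.mk (nat_lit 2413) (nat_lit 2) [nat_lit 6787, nat_lit 955, nat_lit 2575, nat_lit 2395, nat_lit 2407, nat_lit 2415, nat_lit 22095] (nat_lit 0) [] false,
   Spec.mk (nat_lit 2415) (nat_lit 3) [nat_lit 6789, nat_lit 957, nat_lit 2577, nat_lit 2397, nat_lit 2409, nat_lit 2421, nat_lit 2413] (nat_lit 0) [] false,
   Spec.mk (nat_lit 2421) (nat_lit 4) [nat_lit 6795, nat_lit 963, nat_lit 2583, nat_lit 2415] (nat_lit 0) [] false,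
   Spec.mk (nat_lit 2447) (nat_lit 2) [nat_lit 6821, nat_lit 989, nat_lit 2933, nat_lit 2285, nat_lit 2465, nat_lit 2453, nat_lit 22129] (nat_lit 0) [] true,
   Spec.mk (nat_lit 2453) (nat_lit 0) [nat_lit 6827, nat_lit 995, nat_lit 2939, nat_lit 2291, nat_lit 2471, nat_lit 2447, nat_lit 2455, nat_lit 22135] (nat_lit 0) [] true,
   Spec.mk (nat_lit 2455) (nat_lit 2) [nat_lit 6829, nat_lit 997, nat_lit 2941, nat_lit 2293, nat_lit 2473, nat_lit 2453, nat_lit 22137] (nat_lit 0) [] false,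
   Spec.mk (nat_lit 2465) (nat_lit 0) [nat_lit 6839, nat_lit 1007, nat_lit 2951, nat_lit 2303, nat_lit 2519, nat_lit 2447, nat_lit 2471, nat_lit 22147] (nat_lit 0) [] true,
   Spec.mk (nat_lit 2471) (nat_lit 0) [nat_lit 6845, nat_lit 1013, nat_lit 2957, nat_lit 2309, nat_lit 2525, nat_lit 2453, nat_lit 2489, nat_lit 2465, nat_lit 2477, nat_lit 2473, nat_lit 22153] (nat_lit 0) [] true,
   Spec.mk (nat_lit 2473) (nat_lit 1) [nat_lit 6847, nat_lit 1015, nat_lit 2959, nat_lit 2311, nat_lit 2527, nat_lit 2455, nat_lit 2491, nat_lit 2479, nat_lit 2471, nat_lit 22155] (nat_lit 0) [] true,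
   Spec.mk (nat_lit 2477) (nat_lit 0) [nat_lit 6851, nat_lit 1019, nat_lit 2963, nat_lit 2315, nat_lit 2531, nat_lit 2495, nat_lit 2471, nat_lit 2479, nat_lit 22159] (nat_lit 2) [] true,
   Spec.mk (nat_lit 2479) (nat_lit 1) [nat_lit 6853, nat_lit 1021, nat_lit 2965, nat_lit 2317, nat_lit 2533, nat_lit 2497, nat_lit 2473, nat_lit 2477, nat_lit 2481, nat_lit 22161] (nat_lit 0) [] true,
   Spec.mk (nat_lit 2481) (nat_lit 2) [nat_lit 6855, nat_lit 1023, nat_lit 2967, nat_lit 2319, nat_lit 2535, nat_lit 2499, nat_lit 2479] (nat_lit 0) [] false,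
   Spec.mk (nat_lit 2489) (nat_lit 0) [nat_lit 6863, nat_lit 1031, nat_lit 2975, nat_lit 2327, nat_lit 2543, nat_lit 2471, nat_lit 2495, nat_lit 2491, nat_lit 22171] (nat_lit 2) [] true,
   Spec.mk (nat_lit 2491) (nat_lit 0) [nat_lit 6865, nat_lit 1033, nat_lit 2977, nat_lit 2329, nat_lit 2545, nat_lit 2473, nat_lit 2497, nat_lit 2489, nat_lit 22173] (nat_lit 2) [] true,
   Spec.mk (nat_lit 2495) (nat_lit 0) [nat_lit 6869, nat_lit 1037, nat_lit 2981, nat_lit 2333, nat_lit 2549, nat_lit 2477, nat_lit 2489, nat_lit 2497, nat_lit 22177] (nat_lit 2) [] true,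
   Spec.mk (nat_lit 2497) (nat_lit 0) [nat_lit 6871, nat_lit 1039, nat_lit 2983, nat_lit 2335, nat_lit 2551, nat_lit 2479, nat_lit 2491, nat_lit 2503, nat_lit 2495, nat_lit 2499, nat_lit 22179] (nat_lit 0) [] true,
   Spec.mk (nat_lit 2499) (nat_lit 0) [nat_lit 6873, nat_lit 1041, nat_lit 2985, nat_lit 2337, nat_lit 2553, nat_lit 2481, nat_lit 2505, nat_lit 2497] (nat_lit 0) [] false,
   Spec.mk (nat_lit 2503) (nat_lit 0) [nat_lit 6877, nat_lit 1045, nat_lit 2989, nat_lit 2341, nat_lit 2557, nat_lit 2497, nat_lit 2505, nat_lit 22185] (nat_lit 0) [] true,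
   Spec.mk (nat_lit 2505) (nat_lit 2) [nat_lit 6879, nat_lit 1047, nat_lit 2991, nat_lit 2343, nat_lit 2559, nat_lit 2499, nat_lit 2503] (nat_lit 0) [] false,
   Spec.mk (nat_lit 2519) (nat_lit 1) [nat_lit 6893, nat_lit 1061, nat_lit 3005, nat_lit 2357, nat_lit 2681, nat_lit 2465, nat_lit 2525, nat_lit 22201] (nat_lit 0) [] true,
   Spec.mk (nat_lit 2525) (nat_lit 0) [nat_lit 6899, nat_lit 1067, nat_lit 3011, nat_lit 2363, nat_lit 2687, nat_lit 2471, nat_lit 2543, nat_lit 2519, nat_lit 2531, nat_lit 2527, nat_lit 22207] (nat_lit 0) [] true,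
   Spec.mk (nat_lit 2527) (nat_lit 1) [nat_lit 6901, nat_lit 1069, nat_lit 3013, nat_lit 2365, nat_lit 2689, nat_lit 2473, nat_lit 2545, nat_lit 2533, nat_lit 2525, nat_lit 22209] (nat_lit 0) [] true,
   Spec.mk (nat_lit 2531) (nat_lit 0) [nat_lit 6905, nat_lit 1073, nat_lit 3017, nat_lit 2369, nat_lit 2693, nat_lit 2477, nat_lit 2549, nat_lit 2525, nat_lit 2533, nat_lit 22213] (nat_lit 3) [] true,
   Spec.mk (nat_lit 2533) (nat_lit 0) [nat_lit 6907, nat_lit 1075, nat_lit 3019, nat_lit 2371, nat_lit 2695, nat_lit 2479, nat_lit 2551, nat_lit 2527, nat_lit 2531, nat_lit 2535, nat_lit 22215] (nat_lit 0) [] true,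
   Spec.mk (nat_lit 2535) (nat_lit 1) [nat_lit 6909, nat_lit 1077, nat_lit 3021, nat_lit 2373, nat_lit 2697, nat_lit 2481, nat_lit 2553, nat_lit 2533] (nat_lit 0) [] false,
   Spec.mk (nat_lit 2543) (nat_lit 0) [nat_lit 6917, nat_lit 1085, nat_lit 3029, nat_lit 2381, nat_lit 2705, nat_lit 2489, nat_lit 2597, nat_lit 2525, nat_lit 2549, nat_lit 2545, nat_lit 22225] (nat_lit 0) [] true,
   Spec.mk (nat_lit 2545) (nat_lit 0) [nat_lit 6919, nat_lit 1087, nat_lit 3031, nat_lit 2383, nat_lit 2707, nat_lit 2491, nat_lit 2599, nat_lit 2527, nat_lit 2551, nat_lit 2543, nat_lit 22227] (nat_lit 0) [] true,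
   Spec.mk (nat_lit 2549) (nat_lit 0) [nat_lit 6923, nat_lit 1091, nat_lit 3035, nat_lit 2387, nat_lit 2711, nat_lit 2495, nat_lit 2603, nat_lit 2531, nat_lit 2567, nat_lit 2543, nat_lit 2551, nat_lit 22231] (nat_lit 1) [] true,
   Spec.mk (nat_lit 2551) (nat_lit 1) [nat_lit 6925, nat_lit 1093, nat_lit 3037, nat_lit 2389, nat_lit 2713, nat_lit 2497, nat_lit 2605, nat_lit 2533, nat_lit 2569, nat_lit 2545, nat_lit 2557, nat_lit 2549, nat_lit 2553, nat_lit 22233] (nat_lit 0) [] true,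
   Spec.mk (nat_lit 2553) (nat_lit 1) [nat_lit 6927, nat_lit 1095, nat_lit 3039, nat_lit 2391, nat_lit 2715, nat_lit 2499, nat_lit 2607, nat_lit 2535, nat_lit 2571, nat_lit 2559, nat_lit 2551] (nat_lit 0) [] false,
   Spec.mk (nat_lit 2557) (nat_lit 0) [nat_lit 6931, nat_lit 1099, nat_lit 3043, nat_lit 2395, nat_lit 2719, nat_lit 2503, nat_lit 2611, nat_lit 2575, nat_lit 2551, nat_lit 2559, nat_lit 22239] (nat_lit 0) [] true,
   Spec.mk (nat_lit 2559) (nat_lit 2) [nat_lit 6933, nat_lit 1101, nat_lit 3045, nat_lit 2397, nat_lit 2721, nat_lit 2505, nat_lit 2613, nat_lit 2577, nat_lit 2553, nat_lit 2557] (nat_lit 0) [] false,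
   Spec.mk (nat_lit 2567) (nat_lit 0) [nat_lit 6941, nat_lit 1109, nat_lit 3053, nat_lit 2405, nat_lit 2729, nat_lit 2621, nat_lit 2549, nat_lit 2569, nat_lit 22249] (nat_lit 1) [] true,
   Spec.mk (nat_lit 2569) (nat_lit 0) [nat_lit 6943, nat_lit 1111, nat_lit 3055, nat_lit 2407, nat_lit 2731, nat_lit 2623, nat_lit 2551, nat_lit 2575, nat_lit 2567, nat_lit 2571, nat_lit 22251] (nat_lit 0) [] true,
   Spec.mk (nat_lit 2571) (nat_lit 0) [nat_lit 6945, nat_lit 1113, nat_lit 3057, nat_lit 2409, nat_lit 2733, nat_lit 2625, nat_lit 2553, nat_lit 2577, nat_lit 2569] (nat_lit 1) [] false,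
   Spec.mk (nat_lit 2575) (nat_lit 1) [nat_lit 6949, nat_lit 1117, nat_lit 3061, nat_lit 2413, nat_lit 2737, nat_lit 2629, nat_lit 2557, nat_lit 2569, nat_lit 2577, nat_lit 22257] (nat_lit 0) [] true,
   Spec.mk (nat_lit 2577) (nat_lit 2) [nat_lit 6951, nat_lit 1119, nat_lit 3063, nat_lit 2415, nat_lit 2739, nat_lit 2631, nat_lit 2559, nat_lit 2571, nat_lit 2583, nat_lit 2575] (nat_lit 0) [] false,
   Spec.mk (nat_lit 2583) (nat_lit 3) [nat_lit 6957, nat_lit 1125, nat_lit 3069, nat_lit 2421, nat_lit 2745, nat_lit 2637, nat_lit 2577] (nat_lit 0) [] false,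
   Spec.mk (nat_lit 2597) (nat_lit 0) [nat_lit 6971, nat_lit 1139, nat_lit 3083, nat_lit 2759, nat_lit 2543, nat_lit 2603, nat_lit 2599, nat_lit 22279] (nat_lit 0) [] true,
   Spec.mk (nat_lit 2599) (nat_lit 0) [nat_lit 6973, nat_lit 1141, nat_lit 3085, nat_lit 2761, nat_lit 2545, nat_lit 2605, nat_lit 2597, nat_lit 22281] (nat_lit 0) [] true,
   Spec.mk (nat_lit 2603) (nat_lit 0) [nat_lit 6977, nat_lit 1145, nat_lit 3089, nat_lit 2765, nat_lit 2549, nat_lit 2621, nat_lit 2597, nat_lit 2605, nat_lit 22285] (nat_lit 2) [] true,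
   Spec.mk (nat_lit 2605) (nat_lit 0) [nat_lit 6979, nat_lit 1147, nat_lit 3091, nat_lit 2767, nat_lit 2551, nat_lit 2623, nat_lit 2599, nat_lit 2611, nat_lit 2603, nat_lit 2607, nat_lit 22287] (nat_lit 0) [] true,
   Spec.mk (nat_lit 2607) (nat_lit 0) [nat_lit 6981, nat_lit 1149, nat_lit 3093, nat_lit 2769, nat_lit 2553, nat_lit 2625, nat_lit 2613, nat_lit 2605] (nat_lit 0) [] false,
   Spec.mk (nat_lit 2611) (nat_lit 0) [nat_lit 6985, nat_lit 1153, nat_lit 3097, nat_lit 2773, nat_lit 2557, nat_lit 2629, nat_lit 2605, nat_lit 2613, nat_lit 22293] (nat_lit 2) [] true,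
   Spec.mk (nat_lit 2613) (nat_lit 0) [nat_lit 6987, nat_lit 1155, nat_lit 3099, nat_lit 2775, nat_lit 2559, nat_lit 2631, nat_lit 2607, nat_lit 2611] (nat_lit 0) [] false]

noncomputable def sp8 : List Spec :=
  [Spec.mk (nat_lit 2621) (nat_lit 0) [nat_lit 6995, nat_lit 1163, nat_lit 3107, nat_lit 2783, nat_lit 2567, nat_lit 2603, nat_lit 2623, nat_lit 22303] (nat_lit 0) [] true,
   Spec.mk (nat_lit 2623) (nat_lit 1) [nat_lit 6997, nat_lit 1165, nat_lit 3109, nat_lit 2785, nat_lit 2569, nat_lit 2605, nat_lit 2629, nat_lit 2621, nat_lit 2625, nat_lit 22305] (nat_lit 0) [] true,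
   Spec.mk (nat_lit 2625) (nat_lit 0) [nat_lit 6999, nat_lit 1167, nat_lit 3111, nat_lit 2787, nat_lit 2571, nat_lit 2607, nat_lit 2631, nat_lit 2623] (nat_lit 0) [] false,
   Spec.mk (nat_lit 2629) (nat_lit 1) [nat_lit 7003, nat_lit 1171, nat_lit 3115, nat_lit 2791, nat_lit 2575, nat_lit 2611, nat_lit 2647, nat_lit 2623, nat_lit 2631, nat_lit 22311] (nat_lit 0) [] false,
   Spec.mk (nat_lit 2631) (nat_lit 2) [nat_lit 7005, nat_lit 1173, nat_lit 3117, nat_lit 2793, nat_lit 2577, nat_lit 2613, nat_lit 2649, nat_lit 2625, nat_lit 2637, nat_lit 2629] (nat_lit 0) [] false,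
   Spec.mk (nat_lit 2637) (nat_lit 2) [nat_lit 7011, nat_lit 1179, nat_lit 3123, nat_lit 2799, nat_lit 2583, nat_lit 2655, nat_lit 2631] (nat_lit 0) [] false,
   Spec.mk (nat_lit 2647) (nat_lit 2) [nat_lit 7021, nat_lit 1189, nat_lit 3133, nat_lit 2809, nat_lit 2629, nat_lit 2649, nat_lit 22329] (nat_lit 0) [] false,
   Spec.mk (nat_lit 2649) (nat_lit 2) [nat_lit 7023, nat_lit 1191, nat_lit 3135, nat_lit 2811, nat_lit 2631, nat_lit 2655, nat_lit 2647] (nat_lit 0) [] false,
   Spec.mk (nat_lit 2655) (nat_lit 4) [nat_lit 7029, nat_lit 1197, nat_lit 3141, nat_lit 2817, nat_lit 2637, nat_lit 2649] (nat_lit 0) [] false,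
   Spec.mk (nat_lit 2681) (nat_lit 0) [nat_lit 7055, nat_lit 1223, nat_lit 3167, nat_lit 2519, nat_lit 2687, nat_lit 22363] (nat_lit 0) [] false,
   Spec.mk (nat_lit 2687) (nat_lit 0) [nat_lit 7061, nat_lit 1229, nat_lit 3173, nat_lit 2525, nat_lit 2705, nat_lit 2681, nat_lit 2693, nat_lit 2689, nat_lit 22369] (nat_lit 1) [] true,
   Spec.mk (nat_lit 2689) (nat_lit 0) [nat_lit 7063, nat_lit 1231, nat_lit 3175, nat_lit 2527, nat_lit 2707, nat_lit 2695, nat_lit 2687, nat_lit 22371] (nat_lit 0) [] true,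
   Spec.mk (nat_lit 2693) (nat_lit 0) [nat_lit 7067, nat_lit 1235, nat_lit 3179, nat_lit 2531, nat_lit 2711, nat_lit 2687, nat_lit 2695, nat_lit 22375] (nat_lit 4) [] true,
   Spec.mk (nat_lit 2695) (nat_lit 0) [nat_lit 7069, nat_lit 1237, nat_lit 3181, nat_lit 2533, nat_lit 2713, nat_lit 2689, nat_lit 2693, nat_lit 2697, nat_lit 22377] (nat_lit 1) [] true,
   Spec.mk (nat_lit 2697) (nat_lit 0) [nat_lit 7071, nat_lit 1239, nat_lit 3183, nat_lit 2535, nat_lit 2715, nat_lit 2695] (nat_lit 0) [] false,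
   Spec.mk (nat_lit 2705) (nat_lit 0) [nat_lit 7079, nat_lit 1247, nat_lit 3191, nat_lit 2543, nat_lit 2759, nat_lit 2687, nat_lit 2711, nat_lit 2707, nat_lit 22387] (nat_lit 2) [] true,
   Spec.mk (nat_lit 2707) (nat_lit 0) [nat_lit 7081, nat_lit 1249, nat_lit 3193, nat_lit 2545, nat_lit 2761, nat_lit 2689, nat_lit 2713, nat_lit 2705, nat_lit 22389] (nat_lit 2) [] true,
   Spec.mk (nat_lit 2711) (nat_lit 0) [nat_lit 7085, nat_lit 1253, nat_lit 3197, nat_lit 2549, nat_lit 2765, nat_lit 2693, nat_lit 2729, nat_lit 2705, nat_lit 2713, nat_lit 22393] (nat_lit 3) [] true,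
   Spec.mk (nat_lit 2713) (nat_lit 0) [nat_lit 7087, nat_lit 1255, nat_lit 3199, nat_lit 2551, nat_lit 2767, nat_lit 2695, nat_lit 2731, nat_lit 2707, nat_lit 2719, nat_lit 2711, nat_lit 2715, nat_lit 22395] (nat_lit 1) [] true,
   Spec.mk (nat_lit 2715) (nat_lit 0) [nat_lit 7089, nat_lit 1257, nat_lit 3201, nat_lit 2553, nat_lit 2769, nat_lit 2697, nat_lit 2733, nat_lit 2721, nat_lit 2713] (nat_lit 1) [] false,
   Spec.mk (nat_lit 2719) (nat_lit 0) [nat_lit 7093, nat_lit 1261, nat_lit 3205, nat_lit 2557, nat_lit 2773, nat_lit 2737, nat_lit 2713, nat_lit 2721, nat_lit 22401] (nat_lit 2) [] true,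
   Spec.mk (nat_lit 2721) (nat_lit 0) [nat_lit 7095, nat_lit 1263, nat_lit 3207, nat_lit 2559, nat_lit 2775, nat_lit 2739, nat_lit 2715, nat_lit 2719] (nat_lit 0) [] false,
   Spec.mk (nat_lit 2729) (nat_lit 0) [nat_lit 7103, nat_lit 1271, nat_lit 3215, nat_lit 2567, nat_lit 2783, nat_lit 2711, nat_lit 2731, nat_lit 22411] (nat_lit 4) [] true,
   Spec.mk (nat_lit 2731) (nat_lit 0) [nat_lit 7105, nat_lit 1273, nat_lit 3217, nat_lit 2569, nat_lit 2785, nat_lit 2713, nat_lit 2737, nat_lit 2729, nat_lit 2733, nat_lit 22413] (nat_lit 3) [] true,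
   Spec.mk (nat_lit 2733) (nat_lit 0) [nat_lit 7107, nat_lit 1275, nat_lit 3219, nat_lit 2571, nat_lit 2787, nat_lit 2715, nat_lit 2739, nat_lit 2731] (nat_lit 4) [] false,
   Spec.mk (nat_lit 2737) (nat_lit 0) [nat_lit 7111, nat_lit 1279, nat_lit 3223, nat_lit 2575, nat_lit 2791, nat_lit 2719, nat_lit 2731, nat_lit 2739, nat_lit 22419] (nat_lit 2) [] false,
   Spec.mk (nat_lit 2739) (nat_lit 0) [nat_lit 7113, nat_lit 1281, nat_lit 3225, nat_lit 2577, nat_lit 2793, nat_lit 2721, nat_lit 2733, nat_lit 2745, nat_lit 2737] (nat_lit 1) [] false,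
   Spec.mk (nat_lit 2745) (nat_lit 0) [nat_lit 7119, nat_lit 1287, nat_lit 3231, nat_lit 2583, nat_lit 2799, nat_lit 2739] (nat_lit 0) [] false,
   Spec.mk (nat_lit 2759) (nat_lit 0) [nat_lit 7133, nat_lit 1301, nat_lit 3245, nat_lit 2597, nat_lit 2705, nat_lit 2765, nat_lit 2761, nat_lit 22441] (nat_lit 0) [] true,
   Spec.mk (nat_lit 2761) (nat_lit 0) [nat_lit 7135, nat_lit 1303, nat_lit 3247, nat_lit 2599, nat_lit 2707, nat_lit 2767, nat_lit 2759, nat_lit 22443] (nat_lit 0) [] true,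
   Spec.mk (nat_lit 2765) (nat_lit 0) [nat_lit 7139, nat_lit 1307, nat_lit 3251, nat_lit 2603, nat_lit 2711, nat_lit 2783, nat_lit 2759, nat_lit 2767, nat_lit 22447] (nat_lit 2) [] true,
   Spec.mk (nat_lit 2767) (nat_lit 0) [nat_lit 7141, nat_lit 1309, nat_lit 3253, nat_lit 2605, nat_lit 2713, nat_lit 2785, nat_lit 2761, nat_lit 2773, nat_lit 2765, nat_lit 2769, nat_lit 22449] (nat_lit 0) [] true,
   Spec.mk (nat_lit 2769) (nat_lit 0) [nat_lit 7143, nat_lit 1311, nat_lit 3255, nat_lit 2607, nat_lit 2715, nat_lit 2787, nat_lit 2775, nat_lit 2767] (nat_lit 0) [] false,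
   Spec.mk (nat_lit 2773) (nat_lit 0) [nat_lit 7147, nat_lit 1315, nat_lit 3259, nat_lit 2611, nat_lit 2719, nat_lit 2791, nat_lit 2767, nat_lit 2775, nat_lit 22455] (nat_lit 2) [] false,
   Spec.mk (nat_lit 2775) (nat_lit 0) [nat_lit 7149, nat_lit 1317, nat_lit 3261, nat_lit 2613, nat_lit 2721, nat_lit 2793, nat_lit 2769, nat_lit 2773] (nat_lit 0) [] false,
   Spec.mk (nat_lit 2783) (nat_lit 0) [nat_lit 7157, nat_lit 1325, nat_lit 3269, nat_lit 2621, nat_lit 2729, nat_lit 2837, nat_lit 2765, nat_lit 2785, nat_lit 22465] (nat_lit 1) [] true,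
   Spec.mk (nat_lit 2785) (nat_lit 0) [nat_lit 7159, nat_lit 1327, nat_lit 3271, nat_lit 2623, nat_lit 2731, nat_lit 2839, nat_lit 2767, nat_lit 2791, nat_lit 2783, nat_lit 2787, nat_lit 22467] (nat_lit 0) [] true,
   Spec.mk (nat_lit 2787) (nat_lit 0) [nat_lit 7161, nat_lit 1329, nat_lit 3273, nat_lit 2625, nat_lit 2733, nat_lit 2841, nat_lit 2769, nat_lit 2793, nat_lit 2785] (nat_lit 1) [] false,
   Spec.mk (nat_lit 2791) (nat_lit 0) [nat_lit 7165, nat_lit 1333, nat_lit 3277, nat_lit 2629, nat_lit 2737, nat_lit 2845, nat_lit 2773, nat_lit 2809, nat_lit 2785, nat_lit 2793, nat_lit 22473] (nat_lit 0) [] false,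
   Spec.mk (nat_lit 2793) (nat_lit 1) [nat_lit 7167, nat_lit 1335, nat_lit 3279, nat_lit 2631, nat_lit 2739, nat_lit 2847, nat_lit 2775, nat_lit 2811, nat_lit 2787, nat_lit 2799, nat_lit 2791] (nat_lit 0) [] false,
   Spec.mk (nat_lit 2799) (nat_lit 1) [nat_lit 7173, nat_lit 1341, nat_lit 3285, nat_lit 2637, nat_lit 2745, nat_lit 2853, nat_lit 2817, nat_lit 2793] (nat_lit 0) [] false,
   Spec.mk (nat_lit 2809) (nat_lit 0) [nat_lit 7183, nat_lit 1351, nat_lit 3295, nat_lit 2647, nat_lit 2863, nat_lit 2791, nat_lit 2811, nat_lit 22491] (nat_lit 0) [] false,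
   Spec.mk (nat_lit 2811) (nat_lit 0) [nat_lit 7185, nat_lit 1353, nat_lit 3297, nat_lit 2649, nat_lit 2865, nat_lit 2793, nat_lit 2817, nat_lit 2809] (nat_lit 0) [] false,
   Spec.mk (nat_lit 2817) (nat_lit 2) [nat_lit 7191, nat_lit 1359, nat_lit 3303, nat_lit 2655, nat_lit 2871, nat_lit 2799, nat_lit 2811] (nat_lit 0) [] false,
   Spec.mk (nat_lit 2837) (nat_lit 0) [nat_lit 7211, nat_lit 1379, nat_lit 3323, nat_lit 2783, nat_lit 2839, nat_lit 22519] (nat_lit 0) [] false,
   Spec.mk (nat_lit 2839) (nat_lit 1) [nat_lit 7213, nat_lit 1381, nat_lit 3325, nat_lit 2785, nat_lit 2845, nat_lit 2837, nat_lit 2841, nat_lit 22521] (nat_lit 0) [] true,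
   Spec.mk (nat_lit 2841) (nat_lit 0) [nat_lit 7215, nat_lit 1383, nat_lit 3327, nat_lit 2787, nat_lit 2847, nat_lit 2839] (nat_lit 0) [] false,
   Spec.mk (nat_lit 2845) (nat_lit 0) [nat_lit 7219, nat_lit 1387, nat_lit 3331, nat_lit 2791, nat_lit 2863, nat_lit 2839, nat_lit 2847, nat_lit 22527] (nat_lit 0) [] false,
   Spec.mk (nat_lit 2847) (nat_lit 1) [nat_lit 7221, nat_lit 1389, nat_lit 3333, nat_lit 2793, nat_lit 2865, nat_lit 2841, nat_lit 2853, nat_lit 2845] (nat_lit 0) [] false,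
   Spec.mk (nat_lit 2853) (nat_lit 0) [nat_lit 7227, nat_lit 1395, nat_lit 3339, nat_lit 2799, nat_lit 2871, nat_lit 2847] (nat_lit 0) [] false,
   Spec.mk (nat_lit 2863) (nat_lit 2) [nat_lit 7237, nat_lit 1405, nat_lit 3349, nat_lit 2809, nat_lit 2845, nat_lit 2865, nat_lit 22545] (nat_lit 0) [] false,
   Spec.mk (nat_lit 2865) (nat_lit 2) [nat_lit 7239, nat_lit 1407, nat_lit 3351, nat_lit 2811, nat_lit 2847, nat_lit 2871, nat_lit 2863] (nat_lit 0) [] false,
   Spec.mk (nat_lit 2871) (nat_lit 3) [nat_lit 7245, nat_lit 1413, nat_lit 3357, nat_lit 2817, nat_lit 2853, nat_lit 2889, nat_lit 2865] (nat_lit 0) [] false,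
   Spec.mk (nat_lit 2889) (nat_lit 4) [nat_lit 7263, nat_lit 1431, nat_lit 3375, nat_lit 2871] (nat_lit 0) [] false,
   Spec.mk (nat_lit 2933) (nat_lit 3) [nat_lit 7307, nat_lit 1475, nat_lit 4391, nat_lit 2447, nat_lit 2951, nat_lit 2939, nat_lit 22615] (nat_lit 0) [] false,
   Spec.mk (nat_lit 2939) (nat_lit 1) [nat_lit 7313, nat_lit 1481, nat_lit 4397, nat_lit 2453, nat_lit 2957, nat_lit 2933, nat_lit 2941, nat_lit 22621] (nat_lit 0) [] false,
   Spec.mk (nat_lit 2941) (nat_lit 3) [nat_lit 7315, nat_lit 1483, nat_lit 4399, nat_lit 2455, nat_lit 2959, nat_lit 2939, nat_lit 22623] (nat_lit 0) [] false,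
   Spec.mk (nat_lit 2951) (nat_lit 1) [nat_lit 7325, nat_lit 1493, nat_lit 4409, nat_lit 2465, nat_lit 3005, nat_lit 2933, nat_lit 2957, nat_lit 22633] (nat_lit 0) [] false,
   Spec.mk (nat_lit 2957) (nat_lit 1) [nat_lit 7331, nat_lit 1499, nat_lit 4415, nat_lit 2471, nat_lit 3011, nat_lit 2939, nat_lit 2975, nat_lit 2951, nat_lit 2963, nat_lit 2959, nat_lit 22639] (nat_lit 0) [] true,
   Spec.mk (nat_lit 2959) (nat_lit 2) [nat_lit 7333, nat_lit 1501, nat_lit 4417, nat_lit 2473, nat_lit 3013, nat_lit 2941, nat_lit 2977, nat_lit 2965, nat_lit 2957, nat_lit 22641] (nat_lit 0) [] true]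

noncomputable def sp9 : List Spec :=
  [Spec.mk (nat_lit 2963) (nat_lit 0) [nat_lit 7337, nat_lit 1505, nat_lit 4421, nat_lit 2477, nat_lit 3017, nat_lit 2981, nat_lit 2957, nat_lit 2965, nat_lit 22645] (nat_lit 1) [] true,
   Spec.mk (nat_lit 2965) (nat_lit 2) [nat_lit 7339, nat_lit 1507, nat_lit 4423, nat_lit 2479, nat_lit 3019, nat_lit 2983, nat_lit 2959, nat_lit 2963, nat_lit 2967, nat_lit 22647] (nat_lit 0) [] false,
   Spec.mk (nat_lit 2967) (nat_lit 3) [nat_lit 7341, nat_lit 1509, nat_lit 4425, nat_lit 2481, nat_lit 3021, nat_lit 2985, nat_lit 2965] (nat_lit 0) [] false,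
   Spec.mk (nat_lit 2975) (nat_lit 0) [nat_lit 7349, nat_lit 1517, nat_lit 4433, nat_lit 2489, nat_lit 3029, nat_lit 2957, nat_lit 2981, nat_lit 2977, nat_lit 22657] (nat_lit 1) [] true,
   Spec.mk (nat_lit 2977) (nat_lit 0) [nat_lit 7351, nat_lit 1519, nat_lit 4435, nat_lit 2491, nat_lit 3031, nat_lit 2959, nat_lit 2983, nat_lit 2975, nat_lit 22659] (nat_lit 1) [] false,
   Spec.mk (nat_lit 2981) (nat_lit 0) [nat_lit 7355, nat_lit 1523, nat_lit 4439, nat_lit 2495, nat_lit 3035, nat_lit 2963, nat_lit 2975, nat_lit 2983, nat_lit 22663] (nat_lit 1) [] false,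
   Spec.mk (nat_lit 2983) (nat_lit 1) [nat_lit 7357, nat_lit 1525, nat_lit 4441, nat_lit 2497, nat_lit 3037, nat_lit 2965, nat_lit 2977, nat_lit 2989, nat_lit 2981, nat_lit 2985, nat_lit 22665] (nat_lit 0) [] false,
   Spec.mk (nat_lit 2985) (nat_lit 1) [nat_lit 7359, nat_lit 1527, nat_lit 4443, nat_lit 2499, nat_lit 3039, nat_lit 2967, nat_lit 2991, nat_lit 2983] (nat_lit 0) [] false,
   Spec.mk (nat_lit 2989) (nat_lit 1) [nat_lit 7363, nat_lit 1531, nat_lit 4447, nat_lit 2503, nat_lit 3043, nat_lit 2983, nat_lit 2991, nat_lit 22671] (nat_lit 0) [] false,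
   Spec.mk (nat_lit 2991) (nat_lit 3) [nat_lit 7365, nat_lit 1533, nat_lit 4449, nat_lit 2505, nat_lit 3045, nat_lit 2985, nat_lit 2989] (nat_lit 0) [] false,
   Spec.mk (nat_lit 3005) (nat_lit 1) [nat_lit 7379, nat_lit 1547, nat_lit 4463, nat_lit 2519, nat_lit 3167, nat_lit 2951, nat_lit 3011, nat_lit 22687] (nat_lit 0) [] false,
   Spec.mk (nat_lit 3011) (nat_lit 0) [nat_lit 7385, nat_lit 1553, nat_lit 4469, nat_lit 2525, nat_lit 3173, nat_lit 2957, nat_lit 3029, nat_lit 3005, nat_lit 3017, nat_lit 3013, nat_lit 22693] (nat_lit 0) [] true,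
   Spec.mk (nat_lit 3013) (nat_lit 1) [nat_lit 7387, nat_lit 1555, nat_lit 4471, nat_lit 2527, nat_lit 3175, nat_lit 2959, nat_lit 3031, nat_lit 3019, nat_lit 3011, nat_lit 22695] (nat_lit 0) [] true,
   Spec.mk (nat_lit 3017) (nat_lit 0) [nat_lit 7391, nat_lit 1559, nat_lit 4475, nat_lit 2531, nat_lit 3179, nat_lit 2963, nat_lit 3035, nat_lit 3011, nat_lit 3019, nat_lit 22699] (nat_lit 3) [] true,
   Spec.mk (nat_lit 3019) (nat_lit 0) [nat_lit 7393, nat_lit 1561, nat_lit 4477, nat_lit 2533, nat_lit 3181, nat_lit 2965, nat_lit 3037, nat_lit 3013, nat_lit 3017, nat_lit 3021, nat_lit 22701] (nat_lit 0) [] true,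
   Spec.mk (nat_lit 3021) (nat_lit 1) [nat_lit 7395, nat_lit 1563, nat_lit 4479, nat_lit 2535, nat_lit 3183, nat_lit 2967, nat_lit 3039, nat_lit 3019] (nat_lit 0) [] false,
   Spec.mk (nat_lit 3029) (nat_lit 0) [nat_lit 7403, nat_lit 1571, nat_lit 4487, nat_lit 2543, nat_lit 3191, nat_lit 2975, nat_lit 3083, nat_lit 3011, nat_lit 3035, nat_lit 3031, nat_lit 22711] (nat_lit 0) [] true,
   Spec.mk (nat_lit 3031) (nat_lit 0) [nat_lit 7405, nat_lit 1573, nat_lit 4489, nat_lit 2545, nat_lit 3193, nat_lit 2977, nat_lit 3085, nat_lit 3013, nat_lit 3037, nat_lit 3029, nat_lit 22713] (nat_lit 0) [] true,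
   Spec.mk (nat_lit 3035) (nat_lit 0) [nat_lit 7409, nat_lit 1577, nat_lit 4493, nat_lit 2549, nat_lit 3197, nat_lit 2981, nat_lit 3089, nat_lit 3017, nat_lit 3053, nat_lit 3029, nat_lit 3037, nat_lit 22717] (nat_lit 1) [] true,
   Spec.mk (nat_lit 3037) (nat_lit 1) [nat_lit 7411, nat_lit 1579, nat_lit 4495, nat_lit 2551, nat_lit 3199, nat_lit 2983, nat_lit 3091, nat_lit 3019, nat_lit 3055, nat_lit 3031, nat_lit 3043, nat_lit 3035, nat_lit 3039, nat_lit 22719] (nat_lit 0) [] true,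
   Spec.mk (nat_lit 3039) (nat_lit 1) [nat_lit 7413, nat_lit 1581, nat_lit 4497, nat_lit 2553, nat_lit 3201, nat_lit 2985, nat_lit 3093, nat_lit 3021, nat_lit 3057, nat_lit 3045, nat_lit 3037] (nat_lit 0) [] false,
   Spec.mk (nat_lit 3043) (nat_lit 0) [nat_lit 7417, nat_lit 1585, nat_lit 4501, nat_lit 2557, nat_lit 3205, nat_lit 2989, nat_lit 3097, nat_lit 3061, nat_lit 3037, nat_lit 3045, nat_lit 22725] (nat_lit 0) [] false,
   Spec.mk (nat_lit 3045) (nat_lit 2) [nat_lit 7419, nat_lit 1587, nat_lit 4503, nat_lit 2559, nat_lit 3207, nat_lit 2991, nat_lit 3099, nat_lit 3063, nat_lit 3039, nat_lit 3043] (nat_lit 0) [] false,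
   Spec.mk (nat_lit 3053) (nat_lit 0) [nat_lit 7427, nat_lit 1595, nat_lit 4511, nat_lit 2567, nat_lit 3215, nat_lit 3107, nat_lit 3035, nat_lit 3055, nat_lit 22735] (nat_lit 1) [] true,
   Spec.mk (nat_lit 3055) (nat_lit 0) [nat_lit 7429, nat_lit 1597, nat_lit 4513, nat_lit 2569, nat_lit 3217, nat_lit 3109, nat_lit 3037, nat_lit 3061, nat_lit 3053, nat_lit 3057, nat_lit 22737] (nat_lit 0) [] true,
   Spec.mk (nat_lit 3057) (nat_lit 0) [nat_lit 7431, nat_lit 1599, nat_lit 4515, nat_lit 2571, nat_lit 3219, nat_lit 3111, nat_lit 3039, nat_lit 3063, nat_lit 3055] (nat_lit 1) [] false,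
   Spec.mk (nat_lit 3061) (nat_lit 1) [nat_lit 7435, nat_lit 1603, nat_lit 4519, nat_lit 2575, nat_lit 3223, nat_lit 3115, nat_lit 3043, nat_lit 3055, nat_lit 3063, nat_lit 22743] (nat_lit 0) [] false,
   Spec.mk (nat_lit 3063) (nat_lit 2) [nat_lit 7437, nat_lit 1605, nat_lit 4521, nat_lit 2577, nat_lit 3225, nat_lit 3117, nat_lit 3045, nat_lit 3057, nat_lit 3069, nat_lit 3061] (nat_lit 0) [] false,
   Spec.mk (nat_lit 3069) (nat_lit 3) [nat_lit 7443, nat_lit 1611, nat_lit 4527, nat_lit 2583, nat_lit 3231, nat_lit 3123, nat_lit 3063] (nat_lit 0) [] false,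
   Spec.mk (nat_lit 3083) (nat_lit 0) [nat_lit 7457, nat_lit 1625, nat_lit 4541, nat_lit 2597, nat_lit 3245, nat_lit 3029, nat_lit 3089, nat_lit 3085, nat_lit 22765] (nat_lit 1) [] true,
   Spec.mk (nat_lit 3085) (nat_lit 0) [nat_lit 7459, nat_lit 1627, nat_lit 4543, nat_lit 2599, nat_lit 3247, nat_lit 3031, nat_lit 3091, nat_lit 3083, nat_lit 22767] (nat_lit 1) [] true,
   Spec.mk (nat_lit 3089) (nat_lit 0) [nat_lit 7463, nat_lit 1631, nat_lit 4547, nat_lit 2603, nat_lit 3251, nat_lit 3035, nat_lit 3107, nat_lit 3083, nat_lit 3091, nat_lit 22771] (nat_lit 3) [] true,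
   Spec.mk (nat_lit 3091) (nat_lit 0) [nat_lit 7465, nat_lit 1633, nat_lit 4549, nat_lit 2605, nat_lit 3253, nat_lit 3037, nat_lit 3109, nat_lit 3085, nat_lit 3097, nat_lit 3089, nat_lit 3093, nat_lit 22773] (nat_lit 1) [] true,
   Spec.mk (nat_lit 3093) (nat_lit 0) [nat_lit 7467, nat_lit 1635, nat_lit 4551, nat_lit 2607, nat_lit 3255, nat_lit 3039, nat_lit 3111, nat_lit 3099, nat_lit 3091] (nat_lit 1) [] false,
   Spec.mk (nat_lit 3097) (nat_lit 0) [nat_lit 7471, nat_lit 1639, nat_lit 4555, nat_lit 2611, nat_lit 3259, nat_lit 3043, nat_lit 3115, nat_lit 3091, nat_lit 3099, nat_lit 22779] (nat_lit 3) [] false,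
   Spec.mk (nat_lit 3099) (nat_lit 0) [nat_lit 7473, nat_lit 1641, nat_lit 4557, nat_lit 2613, nat_lit 3261, nat_lit 3045, nat_lit 3117, nat_lit 3093, nat_lit 3097] (nat_lit 1) [] false,
   Spec.mk (nat_lit 3107) (nat_lit 0) [nat_lit 7481, nat_lit 1649, nat_lit 4565, nat_lit 2621, nat_lit 3269, nat_lit 3053, nat_lit 3089, nat_lit 3109, nat_lit 22789] (nat_lit 1) [] true,
   Spec.mk (nat_lit 3109) (nat_lit 0) [nat_lit 7483, nat_lit 1651, nat_lit 4567, nat_lit 2623, nat_lit 3271, nat_lit 3055, nat_lit 3091, nat_lit 3115, nat_lit 3107, nat_lit 3111, nat_lit 22791] (nat_lit 0) [] false,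
   Spec.mk (nat_lit 3111) (nat_lit 0) [nat_lit 7485, nat_lit 1653, nat_lit 4569, nat_lit 2625, nat_lit 3273, nat_lit 3057, nat_lit 3093, nat_lit 3117, nat_lit 3109] (nat_lit 1) [] false,
   Spec.mk (nat_lit 3115) (nat_lit 0) [nat_lit 7489, nat_lit 1657, nat_lit 4573, nat_lit 2629, nat_lit 3277, nat_lit 3061, nat_lit 3097, nat_lit 3133, nat_lit 3109, nat_lit 3117, nat_lit 22797] (nat_lit 0) [] false,
   Spec.mk (nat_lit 3117) (nat_lit 1) [nat_lit 7491, nat_lit 1659, nat_lit 4575, nat_lit 2631, nat_lit 3279, nat_lit 3063, nat_lit 3099, nat_lit 3135, nat_lit 3111, nat_lit 3123, nat_lit 3115] (nat_lit 0) [] false,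
   Spec.mk (nat_lit 3123) (nat_lit 1) [nat_lit 7497, nat_lit 1665, nat_lit 4581, nat_lit 2637, nat_lit 3285, nat_lit 3069, nat_lit 3141, nat_lit 3117] (nat_lit 0) [] false,
   Spec.mk (nat_lit 3133) (nat_lit 1) [nat_lit 7507, nat_lit 1675, nat_lit 4591, nat_lit 2647, nat_lit 3295, nat_lit 3115, nat_lit 3135, nat_lit 22815] (nat_lit 0) [] false,
   Spec.mk (nat_lit 3135) (nat_lit 1) [nat_lit 7509, nat_lit 1677, nat_lit 4593, nat_lit 2649, nat_lit 3297, nat_lit 3117, nat_lit 3141, nat_lit 3133] (nat_lit 0) [] false,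
   Spec.mk (nat_lit 3141) (nat_lit 3) [nat_lit 7515, nat_lit 1683, nat_lit 4599, nat_lit 2655, nat_lit 3303, nat_lit 3123, nat_lit 3135] (nat_lit 0) [] false,
   Spec.mk (nat_lit 3167) (nat_lit 2) [nat_lit 7541, nat_lit 1709, nat_lit 4625, nat_lit 2681, nat_lit 3653, nat_lit 3005, nat_lit 3173, nat_lit 22849] (nat_lit 0) [] false,
   Spec.mk (nat_lit 3173) (nat_lit 1) [nat_lit 7547, nat_lit 1715, nat_lit 4631, nat_lit 2687, nat_lit 3659, nat_lit 3011, nat_lit 3191, nat_lit 3167, nat_lit 3179, nat_lit 3175, nat_lit 22855] (nat_lit 0) [] true,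
   Spec.mk (nat_lit 3175) (nat_lit 2) [nat_lit 7549, nat_lit 1717, nat_lit 4633, nat_lit 2689, nat_lit 3661, nat_lit 3013, nat_lit 3193, nat_lit 3181, nat_lit 3173, nat_lit 22857] (nat_lit 0) [] true,
   Spec.mk (nat_lit 3179) (nat_lit 0) [nat_lit 7553, nat_lit 1721, nat_lit 4637, nat_lit 2693, nat_lit 3665, nat_lit 3017, nat_lit 3197, nat_lit 3173, nat_lit 3181, nat_lit 22861] (nat_lit 2) [] true,
   Spec.mk (nat_lit 3181) (nat_lit 1) [nat_lit 7555, nat_lit 1723, nat_lit 4639, nat_lit 2695, nat_lit 3667, nat_lit 3019, nat_lit 3199, nat_lit 3175, nat_lit 3179, nat_lit 3183, nat_lit 22863] (nat_lit 0) [] false,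
   Spec.mk (nat_lit 3183) (nat_lit 2) [nat_lit 7557, nat_lit 1725, nat_lit 4641, nat_lit 2697, nat_lit 3669, nat_lit 3021, nat_lit 3201, nat_lit 3181] (nat_lit 0) [] false,
   Spec.mk (nat_lit 3191) (nat_lit 0) [nat_lit 7565, nat_lit 1733, nat_lit 4649, nat_lit 2705, nat_lit 3677, nat_lit 3029, nat_lit 3245, nat_lit 3173, nat_lit 3197, nat_lit 3193, nat_lit 22873] (nat_lit 0) [] true,
   Spec.mk (nat_lit 3193) (nat_lit 0) [nat_lit 7567, nat_lit 1735, nat_lit 4651, nat_lit 2707, nat_lit 3679, nat_lit 3031, nat_lit 3247, nat_lit 3175, nat_lit 3199, nat_lit 3191, nat_lit 22875] (nat_lit 0) [] true,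
   Spec.mk (nat_lit 3197) (nat_lit 0) [nat_lit 7571, nat_lit 1739, nat_lit 4655, nat_lit 2711, nat_lit 3683, nat_lit 3035, nat_lit 3251, nat_lit 3179, nat_lit 3215, nat_lit 3191, nat_lit 3199, nat_lit 22879] (nat_lit 1) [] true,
   Spec.mk (nat_lit 3199) (nat_lit 1) [nat_lit 7573, nat_lit 1741, nat_lit 4657, nat_lit 2713, nat_lit 3685, nat_lit 3037, nat_lit 3253, nat_lit 3181, nat_lit 3217, nat_lit 3193, nat_lit 3205, nat_lit 3197, nat_lit 3201, nat_lit 22881] (nat_lit 0) [] true,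
   Spec.mk (nat_lit 3201) (nat_lit 1) [nat_lit 7575, nat_lit 1743, nat_lit 4659, nat_lit 2715, nat_lit 3687, nat_lit 3039, nat_lit 3255, nat_lit 3183, nat_lit 3219, nat_lit 3207, nat_lit 3199] (nat_lit 0) [] false,
   Spec.mk (nat_lit 3205) (nat_lit 0) [nat_lit 7579, nat_lit 1747, nat_lit 4663, nat_lit 2719, nat_lit 3691, nat_lit 3043, nat_lit 3259, nat_lit 3223, nat_lit 3199, nat_lit 3207, nat_lit 22887] (nat_lit 0) [] false,
   Spec.mk (nat_lit 3207) (nat_lit 2) [nat_lit 7581, nat_lit 1749, nat_lit 4665, nat_lit 2721, nat_lit 3693, nat_lit 3045, nat_lit 3261, nat_lit 3225, nat_lit 3201, nat_lit 3205] (nat_lit 0) [] false,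
   Spec.mk (nat_lit 3215) (nat_lit 0) [nat_lit 7589, nat_lit 1757, nat_lit 4673, nat_lit 2729, nat_lit 3701, nat_lit 3053, nat_lit 3269, nat_lit 3197, nat_lit 3217, nat_lit 22897] (nat_lit 2) [] true,
   Spec.mk (nat_lit 3217) (nat_lit 0) [nat_lit 7591, nat_lit 1759, nat_lit 4675, nat_lit 2731, nat_lit 3703, nat_lit 3055, nat_lit 3271, nat_lit 3199, nat_lit 3223, nat_lit 3215, nat_lit 3219, nat_lit 22899] (nat_lit 1) [] false]

noncomputable def sp10 : List Spec :=
  [Spec.mk (nat_lit 3219) (nat_lit 0) [nat_lit 7593, nat_lit 1761, nat_lit 4677, nat_lit 2733, nat_lit 3705, nat_lit 3057, nat_lit 3273, nat_lit 3201, nat_lit 3225, nat_lit 3217] (nat_lit 2) [] false,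
   Spec.mk (nat_lit 3223) (nat_lit 0) [nat_lit 7597, nat_lit 1765, nat_lit 4681, nat_lit 2737, nat_lit 3709, nat_lit 3061, nat_lit 3277, nat_lit 3205, nat_lit 3217, nat_lit 3225, nat_lit 22905] (nat_lit 0) [] false,
   Spec.mk (nat_lit 3225) (nat_lit 1) [nat_lit 7599, nat_lit 1767, nat_lit 4683, nat_lit 2739, nat_lit 3711, nat_lit 3063, nat_lit 3279, nat_lit 3207, nat_lit 3219, nat_lit 3231, nat_lit 3223] (nat_lit 0) [] false,
   Spec.mk (nat_lit 3231) (nat_lit 2) [nat_lit 7605, nat_lit 1773, nat_lit 4689, nat_lit 2745, nat_lit 3717, nat_lit 3069, nat_lit 3285, nat_lit 3225] (nat_lit 0) [] false,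
   Spec.mk (nat_lit 3245) (nat_lit 1) [nat_lit 7619, nat_lit 1787, nat_lit 4703, nat_lit 2759, nat_lit 3731, nat_lit 3083, nat_lit 3407, nat_lit 3191, nat_lit 3251, nat_lit 3247, nat_lit 22927] (nat_lit 0) [] true,
   Spec.mk (nat_lit 3247) (nat_lit 1) [nat_lit 7621, nat_lit 1789, nat_lit 4705, nat_lit 2761, nat_lit 3733, nat_lit 3085, nat_lit 3409, nat_lit 3193, nat_lit 3253, nat_lit 3245, nat_lit 22929] (nat_lit 0) [] false,
   Spec.mk (nat_lit 3251) (nat_lit 0) [nat_lit 7625, nat_lit 1793, nat_lit 4709, nat_lit 2765, nat_lit 3737, nat_lit 3089, nat_lit 3413, nat_lit 3197, nat_lit 3269, nat_lit 3245, nat_lit 3253, nat_lit 22933] (nat_lit 1) [] true,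
   Spec.mk (nat_lit 3253) (nat_lit 1) [nat_lit 7627, nat_lit 1795, nat_lit 4711, nat_lit 2767, nat_lit 3739, nat_lit 3091, nat_lit 3415, nat_lit 3199, nat_lit 3271, nat_lit 3247, nat_lit 3259, nat_lit 3251, nat_lit 3255, nat_lit 22935] (nat_lit 0) [] false,
   Spec.mk (nat_lit 3255) (nat_lit 1) [nat_lit 7629, nat_lit 1797, nat_lit 4713, nat_lit 2769, nat_lit 3741, nat_lit 3093, nat_lit 3417, nat_lit 3201, nat_lit 3273, nat_lit 3261, nat_lit 3253] (nat_lit 0) [] false,
   Spec.mk (nat_lit 3259) (nat_lit 0) [nat_lit 7633, nat_lit 1801, nat_lit 4717, nat_lit 2773, nat_lit 3745, nat_lit 3097, nat_lit 3421, nat_lit 3205, nat_lit 3277, nat_lit 3253, nat_lit 3261, nat_lit 22941] (nat_lit 1) [] false,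
   Spec.mk (nat_lit 3261) (nat_lit 1) [nat_lit 7635, nat_lit 1803, nat_lit 4719, nat_lit 2775, nat_lit 3747, nat_lit 3099, nat_lit 3423, nat_lit 3207, nat_lit 3279, nat_lit 3255, nat_lit 3259] (nat_lit 0) [] false,
   Spec.mk (nat_lit 3269) (nat_lit 0) [nat_lit 7643, nat_lit 1811, nat_lit 4727, nat_lit 2783, nat_lit 3755, nat_lit 3107, nat_lit 3431, nat_lit 3215, nat_lit 3323, nat_lit 3251, nat_lit 3271, nat_lit 22951] (nat_lit 0) [] true,
   Spec.mk (nat_lit 3271) (nat_lit 1) [nat_lit 7645, nat_lit 1813, nat_lit 4729, nat_lit 2785, nat_lit 3757, nat_lit 3109, nat_lit 3433, nat_lit 3217, nat_lit 3325, nat_lit 3253, nat_lit 3277, nat_lit 3269, nat_lit 3273, nat_lit 22953] (nat_lit 0) [] false,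
   Spec.mk (nat_lit 3273) (nat_lit 0) [nat_lit 7647, nat_lit 1815, nat_lit 4731, nat_lit 2787, nat_lit 3759, nat_lit 3111, nat_lit 3435, nat_lit 3219, nat_lit 3327, nat_lit 3255, nat_lit 3279, nat_lit 3271] (nat_lit 0) [] false,
   Spec.mk (nat_lit 3277) (nat_lit 1) [nat_lit 7651, nat_lit 1819, nat_lit 4735, nat_lit 2791, nat_lit 3763, nat_lit 3115, nat_lit 3439, nat_lit 3223, nat_lit 3331, nat_lit 3259, nat_lit 3295, nat_lit 3271, nat_lit 3279, nat_lit 22959] (nat_lit 0) [] false,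
   Spec.mk (nat_lit 3279) (nat_lit 2) [nat_lit 7653, nat_lit 1821, nat_lit 4737, nat_lit 2793, nat_lit 3765, nat_lit 3117, nat_lit 3441, nat_lit 3225, nat_lit 3333, nat_lit 3261, nat_lit 3297, nat_lit 3273, nat_lit 3285, nat_lit 3277] (nat_lit 0) [] false,
   Spec.mk (nat_lit 3285) (nat_lit 2) [nat_lit 7659, nat_lit 1827, nat_lit 4743, nat_lit 2799, nat_lit 3771, nat_lit 3123, nat_lit 3447, nat_lit 3231, nat_lit 3339, nat_lit 3303, nat_lit 3279] (nat_lit 0) [] false,
   Spec.mk (nat_lit 3295) (nat_lit 1) [nat_lit 7669, nat_lit 1837, nat_lit 4753, nat_lit 2809, nat_lit 3781, nat_lit 3133, nat_lit 3457, nat_lit 3349, nat_lit 3277, nat_lit 3297, nat_lit 22977] (nat_lit 0) [] false,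
   Spec.mk (nat_lit 3297) (nat_lit 1) [nat_lit 7671, nat_lit 1839, nat_lit 4755, nat_lit 2811, nat_lit 3783, nat_lit 3135, nat_lit 3459, nat_lit 3351, nat_lit 3279, nat_lit 3303, nat_lit 3295] (nat_lit 0) [] false,
   Spec.mk (nat_lit 3303) (nat_lit 3) [nat_lit 7677, nat_lit 1845, nat_lit 4761, nat_lit 2817, nat_lit 3789, nat_lit 3141, nat_lit 3465, nat_lit 3357, nat_lit 3285, nat_lit 3297] (nat_lit 0) [] false,
   Spec.mk (nat_lit 3323) (nat_lit 0) [nat_lit 7697, nat_lit 1865, nat_lit 4781, nat_lit 2837, nat_lit 3809, nat_lit 3485, nat_lit 3269, nat_lit 3325, nat_lit 23005] (nat_lit 0) [] false,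
   Spec.mk (nat_lit 3325) (nat_lit 1) [nat_lit 7699, nat_lit 1867, nat_lit 4783, nat_lit 2839, nat_lit 3811, nat_lit 3487, nat_lit 3271, nat_lit 3331, nat_lit 3323, nat_lit 3327, nat_lit 23007] (nat_lit 0) [] false,
   Spec.mk (nat_lit 3327) (nat_lit 0) [nat_lit 7701, nat_lit 1869, nat_lit 4785, nat_lit 2841, nat_lit 3813, nat_lit 3489, nat_lit 3273, nat_lit 3333, nat_lit 3325] (nat_lit 0) [] false,
   Spec.mk (nat_lit 3331) (nat_lit 0) [nat_lit 7705, nat_lit 1873, nat_lit 4789, nat_lit 2845, nat_lit 3817, nat_lit 3493, nat_lit 3277, nat_lit 3349, nat_lit 3325, nat_lit 3333, nat_lit 23013] (nat_lit 0) [] false,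
   Spec.mk (nat_lit 3333) (nat_lit 1) [nat_lit 7707, nat_lit 1875, nat_lit 4791, nat_lit 2847, nat_lit 3819, nat_lit 3495, nat_lit 3279, nat_lit 3351, nat_lit 3327, nat_lit 3339, nat_lit 3331] (nat_lit 0) [] false,
   Spec.mk (nat_lit 3339) (nat_lit 0) [nat_lit 7713, nat_lit 1881, nat_lit 4797, nat_lit 2853, nat_lit 3825, nat_lit 3501, nat_lit 3285, nat_lit 3357, nat_lit 3333] (nat_lit 0) [] false,
   Spec.mk (nat_lit 3349) (nat_lit 2) [nat_lit 7723, nat_lit 1891, nat_lit 4807, nat_lit 2863, nat_lit 3835, nat_lit 3511, nat_lit 3295, nat_lit 3331, nat_lit 3351, nat_lit 23031] (nat_lit 0) [] false,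
   Spec.mk (nat_lit 3351) (nat_lit 2) [nat_lit 7725, nat_lit 1893, nat_lit 4809, nat_lit 2865, nat_lit 3837, nat_lit 3513, nat_lit 3297, nat_lit 3333, nat_lit 3357, nat_lit 3349] (nat_lit 0) [] false,
   Spec.mk (nat_lit 3357) (nat_lit 3) [nat_lit 7731, nat_lit 1899, nat_lit 4815, nat_lit 2871, nat_lit 3843, nat_lit 3519, nat_lit 3303, nat_lit 3339, nat_lit 3375, nat_lit 3351] (nat_lit 0) [] false,
   Spec.mk (nat_lit 3375) (nat_lit 4) [nat_lit 7749, nat_lit 1917, nat_lit 4833, nat_lit 2889, nat_lit 3861, nat_lit 3537, nat_lit 3357] (nat_lit 0) [] false,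
   Spec.mk (nat_lit 3407) (nat_lit 1) [nat_lit 7781, nat_lit 1949, nat_lit 4865, nat_lit 3893, nat_lit 3245, nat_lit 3413, nat_lit 3409, nat_lit 23089] (nat_lit 0) [] false,
   Spec.mk (nat_lit 3409) (nat_lit 1) [nat_lit 7783, nat_lit 1951, nat_lit 4867, nat_lit 3895, nat_lit 3247, nat_lit 3415, nat_lit 3407, nat_lit 23091] (nat_lit 0) [] false,
   Spec.mk (nat_lit 3413) (nat_lit 0) [nat_lit 7787, nat_lit 1955, nat_lit 4871, nat_lit 3899, nat_lit 3251, nat_lit 3431, nat_lit 3407, nat_lit 3415, nat_lit 23095] (nat_lit 1) [] false,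
   Spec.mk (nat_lit 3415) (nat_lit 1) [nat_lit 7789, nat_lit 1957, nat_lit 4873, nat_lit 3901, nat_lit 3253, nat_lit 3433, nat_lit 3409, nat_lit 3421, nat_lit 3413, nat_lit 3417, nat_lit 23097] (nat_lit 0) [] false,
   Spec.mk (nat_lit 3417) (nat_lit 1) [nat_lit 7791, nat_lit 1959, nat_lit 4875, nat_lit 3903, nat_lit 3255, nat_lit 3435, nat_lit 3423, nat_lit 3415] (nat_lit 0) [] false,
   Spec.mk (nat_lit 3421) (nat_lit 0) [nat_lit 7795, nat_lit 1963, nat_lit 4879, nat_lit 3907, nat_lit 3259, nat_lit 3439, nat_lit 3415, nat_lit 3423, nat_lit 23103] (nat_lit 1) [] false,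
   Spec.mk (nat_lit 3423) (nat_lit 1) [nat_lit 7797, nat_lit 1965, nat_lit 4881, nat_lit 3909, nat_lit 3261, nat_lit 3441, nat_lit 3417, nat_lit 3421] (nat_lit 0) [] false,
   Spec.mk (nat_lit 3431) (nat_lit 0) [nat_lit 7805, nat_lit 1973, nat_lit 4889, nat_lit 3917, nat_lit 3269, nat_lit 3485, nat_lit 3413, nat_lit 3433, nat_lit 23113] (nat_lit 1) [] false,
   Spec.mk (nat_lit 3433) (nat_lit 0) [nat_lit 7807, nat_lit 1975, nat_lit 4891, nat_lit 3919, nat_lit 3271, nat_lit 3487, nat_lit 3415, nat_lit 3439, nat_lit 3431, nat_lit 3435, nat_lit 23115] (nat_lit 0) [] false,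
   Spec.mk (nat_lit 3435) (nat_lit 0) [nat_lit 7809, nat_lit 1977, nat_lit 4893, nat_lit 3921, nat_lit 3273, nat_lit 3489, nat_lit 3417, nat_lit 3441, nat_lit 3433] (nat_lit 1) [] false,
   Spec.mk (nat_lit 3439) (nat_lit 0) [nat_lit 7813, nat_lit 1981, nat_lit 4897, nat_lit 3925, nat_lit 3277, nat_lit 3493, nat_lit 3421, nat_lit 3457, nat_lit 3433, nat_lit 3441, nat_lit 23121] (nat_lit 0) [] false,
   Spec.mk (nat_lit 3441) (nat_lit 1) [nat_lit 7815, nat_lit 1983, nat_lit 4899, nat_lit 3927, nat_lit 3279, nat_lit 3495, nat_lit 3423, nat_lit 3459, nat_lit 3435, nat_lit 3447, nat_lit 3439] (nat_lit 0) [] false,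
   Spec.mk (nat_lit 3447) (nat_lit 1) [nat_lit 7821, nat_lit 1989, nat_lit 4905, nat_lit 3933, nat_lit 3285, nat_lit 3501, nat_lit 3465, nat_lit 3441] (nat_lit 0) [] false,
   Spec.mk (nat_lit 3457) (nat_lit 0) [nat_lit 7831, nat_lit 1999, nat_lit 4915, nat_lit 3943, nat_lit 3295, nat_lit 3511, nat_lit 3439, nat_lit 3459, nat_lit 23139] (nat_lit 1) [] false,
   Spec.mk (nat_lit 3459) (nat_lit 0) [nat_lit 7833, nat_lit 2001, nat_lit 4917, nat_lit 3945, nat_lit 3297, nat_lit 3513, nat_lit 3441, nat_lit 3465, nat_lit 3457] (nat_lit 1) [] false,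
   Spec.mk (nat_lit 3465) (nat_lit 1) [nat_lit 7839, nat_lit 2007, nat_lit 4923, nat_lit 3951, nat_lit 3303, nat_lit 3519, nat_lit 3447, nat_lit 3459] (nat_lit 0) [] false,
   Spec.mk (nat_lit 3485) (nat_lit 1) [nat_lit 7859, nat_lit 2027, nat_lit 4943, nat_lit 3971, nat_lit 3323, nat_lit 3431, nat_lit 3487, nat_lit 23167] (nat_lit 0) [] false,
   Spec.mk (nat_lit 3487) (nat_lit 2) [nat_lit 7861, nat_lit 2029, nat_lit 4945, nat_lit 3973, nat_lit 3325, nat_lit 3433, nat_lit 3493, nat_lit 3485, nat_lit 3489, nat_lit 23169] (nat_lit 0) [] false,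
   Spec.mk (nat_lit 3489) (nat_lit 1) [nat_lit 7863, nat_lit 2031, nat_lit 4947, nat_lit 3975, nat_lit 3327, nat_lit 3435, nat_lit 3495, nat_lit 3487] (nat_lit 0) [] false,
   Spec.mk (nat_lit 3493) (nat_lit 1) [nat_lit 7867, nat_lit 2035, nat_lit 4951, nat_lit 3979, nat_lit 3331, nat_lit 3439, nat_lit 3511, nat_lit 3487, nat_lit 3495, nat_lit 23175] (nat_lit 0) [] false,
   Spec.mk (nat_lit 3495) (nat_lit 2) [nat_lit 7869, nat_lit 2037, nat_lit 4953, nat_lit 3981, nat_lit 3333, nat_lit 3441, nat_lit 3513, nat_lit 3489, nat_lit 3501, nat_lit 3493] (nat_lit 0) [] false,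
   Spec.mk (nat_lit 3501) (nat_lit 1) [nat_lit 7875, nat_lit 2043, nat_lit 4959, nat_lit 3987, nat_lit 3339, nat_lit 3447, nat_lit 3519, nat_lit 3495] (nat_lit 0) [] false,
   Spec.mk (nat_lit 3511) (nat_lit 2) [nat_lit 7885, nat_lit 2053, nat_lit 4969, nat_lit 3997, nat_lit 3349, nat_lit 3457, nat_lit 3565, nat_lit 3493, nat_lit 3513, nat_lit 23193] (nat_lit 0) [] false,
   Spec.mk (nat_lit 3513) (nat_lit 2) [nat_lit 7887, nat_lit 2055, nat_lit 4971, nat_lit 3999, nat_lit 3351, nat_lit 3459, nat_lit 3567, nat_lit 3495, nat_lit 3519, nat_lit 3511] (nat_lit 0) [] false,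
   Spec.mk (nat_lit 3519) (nat_lit 3) [nat_lit 7893, nat_lit 2061, nat_lit 4977, nat_lit 4005, nat_lit 3357, nat_lit 3465, nat_lit 3573, nat_lit 3501, nat_lit 3537, nat_lit 3513] (nat_lit 0) [] false,
   Spec.mk (nat_lit 3537) (nat_lit 3) [nat_lit 7911, nat_lit 2079, nat_lit 4995, nat_lit 4023, nat_lit 3375, nat_lit 3591, nat_lit 3519] (nat_lit 0) [] false,
   Spec.mk (nat_lit 3565) (nat_lit 3) [nat_lit 7939, nat_lit 2107, nat_lit 5023, nat_lit 4051, nat_lit 3511, nat_lit 3567, nat_lit 23247] (nat_lit 0) [] false,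
   Spec.mk (nat_lit 3567) (nat_lit 3) [nat_lit 7941, nat_lit 2109, nat_lit 5025, nat_lit 4053, nat_lit 3513, nat_lit 3573, nat_lit 3565] (nat_lit 0) [] false,
   Spec.mk (nat_lit 3573) (nat_lit 3) [nat_lit 7947, nat_lit 2115, nat_lit 5031, nat_lit 4059, nat_lit 3519, nat_lit 3591, nat_lit 3567] (nat_lit 0) [] false,
   Spec.mk (nat_lit 3591) (nat_lit 5) [nat_lit 7965, nat_lit 2133, nat_lit 5049, nat_lit 4077, nat_lit 3537, nat_lit 3573] (nat_lit 0) [] false]

noncomputable def sp11 : List Spec :=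
  [Spec.mk (nat_lit 3653) (nat_lit 2) [nat_lit 8027, nat_lit 5111, nat_lit 3167, nat_lit 3659, nat_lit 23335] (nat_lit 0) [] false,
   Spec.mk (nat_lit 3659) (nat_lit 1) [nat_lit 8033, nat_lit 5117, nat_lit 3173, nat_lit 3677, nat_lit 3653, nat_lit 3665, nat_lit 3661, nat_lit 23341] (nat_lit 0) [] false,
   Spec.mk (nat_lit 3661) (nat_lit 2) [nat_lit 8035, nat_lit 5119, nat_lit 3175, nat_lit 3679, nat_lit 3667, nat_lit 3659, nat_lit 23343] (nat_lit 0) [] false,
   Spec.mk (nat_lit 3665) (nat_lit 0) [nat_lit 8039, nat_lit 5123, nat_lit 3179, nat_lit 3683, nat_lit 3659, nat_lit 3667, nat_lit 23347] (nat_lit 2) [] false,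
   Spec.mk (nat_lit 3667) (nat_lit 1) [nat_lit 8041, nat_lit 5125, nat_lit 3181, nat_lit 3685, nat_lit 3661, nat_lit 3665, nat_lit 3669, nat_lit 23349] (nat_lit 0) [] false,
   Spec.mk (nat_lit 3669) (nat_lit 2) [nat_lit 8043, nat_lit 5127, nat_lit 3183, nat_lit 3687, nat_lit 3667] (nat_lit 0) [] false,
   Spec.mk (nat_lit 3677) (nat_lit 0) [nat_lit 8051, nat_lit 5135, nat_lit 3191, nat_lit 3731, nat_lit 3659, nat_lit 3683, nat_lit 3679, nat_lit 23359] (nat_lit 0) [] false,
   Spec.mk (nat_lit 3679) (nat_lit 0) [nat_lit 8053, nat_lit 5137, nat_lit 3193, nat_lit 3733, nat_lit 3661, nat_lit 3685, nat_lit 3677, nat_lit 23361] (nat_lit 0) [] false,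
   Spec.mk (nat_lit 3683) (nat_lit 0) [nat_lit 8057, nat_lit 5141, nat_lit 3197, nat_lit 3737, nat_lit 3665, nat_lit 3701, nat_lit 3677, nat_lit 3685, nat_lit 23365] (nat_lit 1) [] false,
   Spec.mk (nat_lit 3685) (nat_lit 1) [nat_lit 8059, nat_lit 5143, nat_lit 3199, nat_lit 3739, nat_lit 3667, nat_lit 3703, nat_lit 3679, nat_lit 3691, nat_lit 3683, nat_lit 3687, nat_lit 23367] (nat_lit 0) [] false,
   Spec.mk (nat_lit 3687) (nat_lit 1) [nat_lit 8061, nat_lit 5145, nat_lit 3201, nat_lit 3741, nat_lit 3669, nat_lit 3705, nat_lit 3693, nat_lit 3685] (nat_lit 0) [] false,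
   Spec.mk (nat_lit 3691) (nat_lit 0) [nat_lit 8065, nat_lit 5149, nat_lit 3205, nat_lit 3745, nat_lit 3709, nat_lit 3685, nat_lit 3693, nat_lit 23373] (nat_lit 0) [] false,
   Spec.mk (nat_lit 3693) (nat_lit 2) [nat_lit 8067, nat_lit 5151, nat_lit 3207, nat_lit 3747, nat_lit 3711, nat_lit 3687, nat_lit 3691] (nat_lit 0) [] false,
   Spec.mk (nat_lit 3701) (nat_lit 0) [nat_lit 8075, nat_lit 5159, nat_lit 3215, nat_lit 3755, nat_lit 3683, nat_lit 3703, nat_lit 23383] (nat_lit 2) [] true,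
   Spec.mk (nat_lit 3703) (nat_lit 0) [nat_lit 8077, nat_lit 5161, nat_lit 3217, nat_lit 3757, nat_lit 3685, nat_lit 3709, nat_lit 3701, nat_lit 3705, nat_lit 23385] (nat_lit 1) [] false,
   Spec.mk (nat_lit 3705) (nat_lit 0) [nat_lit 8079, nat_lit 5163, nat_lit 3219, nat_lit 3759, nat_lit 3687, nat_lit 3711, nat_lit 3703] (nat_lit 2) [] false,
   Spec.mk (nat_lit 3709) (nat_lit 0) [nat_lit 8083, nat_lit 5167, nat_lit 3223, nat_lit 3763, nat_lit 3691, nat_lit 3703, nat_lit 3711, nat_lit 23391] (nat_lit 0) [] false,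
   Spec.mk (nat_lit 3711) (nat_lit 1) [nat_lit 8085, nat_lit 5169, nat_lit 3225, nat_lit 3765, nat_lit 3693, nat_lit 3705, nat_lit 3717, nat_lit 3709] (nat_lit 0) [] false,
   Spec.mk (nat_lit 3717) (nat_lit 2) [nat_lit 8091, nat_lit 5175, nat_lit 3231, nat_lit 3771, nat_lit 3711] (nat_lit 0) [] false,
   Spec.mk (nat_lit 3731) (nat_lit 0) [nat_lit 8105, nat_lit 5189, nat_lit 3245, nat_lit 3893, nat_lit 3677, nat_lit 3737, nat_lit 3733, nat_lit 23413] (nat_lit 0) [] false,
   Spec.mk (nat_lit 3733) (nat_lit 0) [nat_lit 8107, nat_lit 5191, nat_lit 3247, nat_lit 3895, nat_lit 3679, nat_lit 3739, nat_lit 3731, nat_lit 23415] (nat_lit 0) [] false,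
   Spec.mk (nat_lit 3737) (nat_lit 0) [nat_lit 8111, nat_lit 5195, nat_lit 3251, nat_lit 3899, nat_lit 3683, nat_lit 3755, nat_lit 3731, nat_lit 3739, nat_lit 23419] (nat_lit 2) [] true,
   Spec.mk (nat_lit 3739) (nat_lit 0) [nat_lit 8113, nat_lit 5197, nat_lit 3253, nat_lit 3901, nat_lit 3685, nat_lit 3757, nat_lit 3733, nat_lit 3745, nat_lit 3737, nat_lit 3741, nat_lit 23421] (nat_lit 0) [] false,
   Spec.mk (nat_lit 3741) (nat_lit 0) [nat_lit 8115, nat_lit 5199, nat_lit 3255, nat_lit 3903, nat_lit 3687, nat_lit 3759, nat_lit 3747, nat_lit 3739] (nat_lit 0) [] false,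
   Spec.mk (nat_lit 3745) (nat_lit 0) [nat_lit 8119, nat_lit 5203, nat_lit 3259, nat_lit 3907, nat_lit 3691, nat_lit 3763, nat_lit 3739, nat_lit 3747, nat_lit 23427] (nat_lit 2) [] false,
   Spec.mk (nat_lit 3747) (nat_lit 0) [nat_lit 8121, nat_lit 5205, nat_lit 3261, nat_lit 3909, nat_lit 3693, nat_lit 3765, nat_lit 3741, nat_lit 3745] (nat_lit 0) [] false,
   Spec.mk (nat_lit 3755) (nat_lit 0) [nat_lit 8129, nat_lit 5213, nat_lit 3269, nat_lit 3917, nat_lit 3701, nat_lit 3809, nat_lit 3737, nat_lit 3757, nat_lit 23437] (nat_lit 1) [] false,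
   Spec.mk (nat_lit 3757) (nat_lit 0) [nat_lit 8131, nat_lit 5215, nat_lit 3271, nat_lit 3919, nat_lit 3703, nat_lit 3811, nat_lit 3739, nat_lit 3763, nat_lit 3755, nat_lit 3759, nat_lit 23439] (nat_lit 0) [] false,
   Spec.mk (nat_lit 3759) (nat_lit 0) [nat_lit 8133, nat_lit 5217, nat_lit 3273, nat_lit 3921, nat_lit 3705, nat_lit 3813, nat_lit 3741, nat_lit 3765, nat_lit 3757] (nat_lit 1) [] false,
   Spec.mk (nat_lit 3763) (nat_lit 0) [nat_lit 8137, nat_lit 5221, nat_lit 3277, nat_lit 3925, nat_lit 3709, nat_lit 3817, nat_lit 3745, nat_lit 3781, nat_lit 3757, nat_lit 3765, nat_lit 23445] (nat_lit 0) [] false,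
   Spec.mk (nat_lit 3765) (nat_lit 1) [nat_lit 8139, nat_lit 5223, nat_lit 3279, nat_lit 3927, nat_lit 3711, nat_lit 3819, nat_lit 3747, nat_lit 3783, nat_lit 3759, nat_lit 3771, nat_lit 3763] (nat_lit 0) [] false,
   Spec.mk (nat_lit 3771) (nat_lit 1) [nat_lit 8145, nat_lit 5229, nat_lit 3285, nat_lit 3933, nat_lit 3717, nat_lit 3825, nat_lit 3789, nat_lit 3765] (nat_lit 0) [] false,
   Spec.mk (nat_lit 3781) (nat_lit 0) [nat_lit 8155, nat_lit 5239, nat_lit 3295, nat_lit 3943, nat_lit 3835, nat_lit 3763, nat_lit 3783, nat_lit 23463] (nat_lit 0) [] false,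
   Spec.mk (nat_lit 3783) (nat_lit 0) [nat_lit 8157, nat_lit 5241, nat_lit 3297, nat_lit 3945, nat_lit 3837, nat_lit 3765, nat_lit 3789, nat_lit 3781] (nat_lit 0) [] false,
   Spec.mk (nat_lit 3789) (nat_lit 2) [nat_lit 8163, nat_lit 5247, nat_lit 3303, nat_lit 3951, nat_lit 3843, nat_lit 3771, nat_lit 3783] (nat_lit 0) [] false,
   Spec.mk (nat_lit 3809) (nat_lit 0) [nat_lit 8183, nat_lit 5267, nat_lit 3323, nat_lit 3971, nat_lit 3755, nat_lit 3811, nat_lit 23491] (nat_lit 2) [] false,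
   Spec.mk (nat_lit 3811) (nat_lit 0) [nat_lit 8185, nat_lit 5269, nat_lit 3325, nat_lit 3973, nat_lit 3757, nat_lit 3817, nat_lit 3809, nat_lit 3813, nat_lit 23493] (nat_lit 1) [] false,
   Spec.mk (nat_lit 3813) (nat_lit 0) [nat_lit 8187, nat_lit 5271, nat_lit 3327, nat_lit 3975, nat_lit 3759, nat_lit 3819, nat_lit 3811] (nat_lit 2) [] false,
   Spec.mk (nat_lit 3817) (nat_lit 0) [nat_lit 8191, nat_lit 5275, nat_lit 3331, nat_lit 3979, nat_lit 3763, nat_lit 3835, nat_lit 3811, nat_lit 3819, nat_lit 23499] (nat_lit 2) [] false,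
   Spec.mk (nat_lit 3819) (nat_lit 0) [nat_lit 8193, nat_lit 5277, nat_lit 3333, nat_lit 3981, nat_lit 3765, nat_lit 3837, nat_lit 3813, nat_lit 3825, nat_lit 3817] (nat_lit 1) [] false,
   Spec.mk (nat_lit 3825) (nat_lit 0) [nat_lit 8199, nat_lit 5283, nat_lit 3339, nat_lit 3987, nat_lit 3771, nat_lit 3843, nat_lit 3819] (nat_lit 2) [] false,
   Spec.mk (nat_lit 3835) (nat_lit 0) [nat_lit 8209, nat_lit 5293, nat_lit 3349, nat_lit 3997, nat_lit 3781, nat_lit 3817, nat_lit 3837, nat_lit 23517] (nat_lit 0) [] false,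
   Spec.mk (nat_lit 3837) (nat_lit 0) [nat_lit 8211, nat_lit 5295, nat_lit 3351, nat_lit 3999, nat_lit 3783, nat_lit 3819, nat_lit 3843, nat_lit 3835] (nat_lit 0) [] false,
   Spec.mk (nat_lit 3843) (nat_lit 1) [nat_lit 8217, nat_lit 5301, nat_lit 3357, nat_lit 4005, nat_lit 3789, nat_lit 3825, nat_lit 3861, nat_lit 3837] (nat_lit 0) [] false,
   Spec.mk (nat_lit 3861) (nat_lit 2) [nat_lit 8235, nat_lit 5319, nat_lit 3375, nat_lit 4023, nat_lit 3843] (nat_lit 0) [] false,
   Spec.mk (nat_lit 3893) (nat_lit 2) [nat_lit 8267, nat_lit 5351, nat_lit 3407, nat_lit 3731, nat_lit 3899, nat_lit 3895, nat_lit 23575] (nat_lit 0) [] false,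
   Spec.mk (nat_lit 3895) (nat_lit 2) [nat_lit 8269, nat_lit 5353, nat_lit 3409, nat_lit 3733, nat_lit 3901, nat_lit 3893, nat_lit 23577] (nat_lit 0) [] false,
   Spec.mk (nat_lit 3899) (nat_lit 0) [nat_lit 8273, nat_lit 5357, nat_lit 3413, nat_lit 3737, nat_lit 3917, nat_lit 3893, nat_lit 3901, nat_lit 23581] (nat_lit 0) [] false,
   Spec.mk (nat_lit 3901) (nat_lit 2) [nat_lit 8275, nat_lit 5359, nat_lit 3415, nat_lit 3739, nat_lit 3919, nat_lit 3895, nat_lit 3907, nat_lit 3899, nat_lit 3903, nat_lit 23583] (nat_lit 0) [] false,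
   Spec.mk (nat_lit 3903) (nat_lit 2) [nat_lit 8277, nat_lit 5361, nat_lit 3417, nat_lit 3741, nat_lit 3921, nat_lit 3909, nat_lit 3901] (nat_lit 0) [] false,
   Spec.mk (nat_lit 3907) (nat_lit 0) [nat_lit 8281, nat_lit 5365, nat_lit 3421, nat_lit 3745, nat_lit 3925, nat_lit 3901, nat_lit 3909, nat_lit 23589] (nat_lit 0) [] false,
   Spec.mk (nat_lit 3909) (nat_lit 2) [nat_lit 8283, nat_lit 5367, nat_lit 3423, nat_lit 3747, nat_lit 3927, nat_lit 3903, nat_lit 3907] (nat_lit 0) [] false,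
   Spec.mk (nat_lit 3917) (nat_lit 0) [nat_lit 8291, nat_lit 5375, nat_lit 3431, nat_lit 3755, nat_lit 3971, nat_lit 3899, nat_lit 3919, nat_lit 23599] (nat_lit 0) [] false,
   Spec.mk (nat_lit 3919) (nat_lit 1) [nat_lit 8293, nat_lit 5377, nat_lit 3433, nat_lit 3757, nat_lit 3973, nat_lit 3901, nat_lit 3925, nat_lit 3917, nat_lit 3921, nat_lit 23601] (nat_lit 0) [] false,
   Spec.mk (nat_lit 3921) (nat_lit 0) [nat_lit 8295, nat_lit 5379, nat_lit 3435, nat_lit 3759, nat_lit 3975, nat_lit 3903, nat_lit 3927, nat_lit 3919] (nat_lit 0) [] false,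
   Spec.mk (nat_lit 3925) (nat_lit 1) [nat_lit 8299, nat_lit 5383, nat_lit 3439, nat_lit 3763, nat_lit 3979, nat_lit 3907, nat_lit 3943, nat_lit 3919, nat_lit 3927, nat_lit 23607] (nat_lit 0) [] false,
   Spec.mk (nat_lit 3927) (nat_lit 2) [nat_lit 8301, nat_lit 5385, nat_lit 3441, nat_lit 3765, nat_lit 3981, nat_lit 3909, nat_lit 3945, nat_lit 3921, nat_lit 3933, nat_lit 3925] (nat_lit 0) [] false,
   Spec.mk (nat_lit 3933) (nat_lit 2) [nat_lit 8307, nat_lit 5391, nat_lit 3447, nat_lit 3771, nat_lit 3987, nat_lit 3951, nat_lit 3927] (nat_lit 0) [] false,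
   Spec.mk (nat_lit 3943) (nat_lit 0) [nat_lit 8317, nat_lit 5401, nat_lit 3457, nat_lit 3781, nat_lit 3997, nat_lit 3925, nat_lit 3945, nat_lit 23625] (nat_lit 0) [] false,
   Spec.mk (nat_lit 3945) (nat_lit 0) [nat_lit 8319, nat_lit 5403, nat_lit 3459, nat_lit 3783, nat_lit 3999, nat_lit 3927, nat_lit 3951, nat_lit 3943] (nat_lit 0) [] false]

noncomputable def sp12 : List Spec :=
  [Spec.mk (nat_lit 3951) (nat_lit 2) [nat_lit 8325, nat_lit 5409, nat_lit 3465, nat_lit 3789, nat_lit 4005, nat_lit 3933, nat_lit 3945] (nat_lit 0) [] false,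
   Spec.mk (nat_lit 3971) (nat_lit 1) [nat_lit 8345, nat_lit 5429, nat_lit 3485, nat_lit 3809, nat_lit 4133, nat_lit 3917, nat_lit 3973, nat_lit 23653] (nat_lit 0) [] false,
   Spec.mk (nat_lit 3973) (nat_lit 2) [nat_lit 8347, nat_lit 5431, nat_lit 3487, nat_lit 3811, nat_lit 4135, nat_lit 3919, nat_lit 3979, nat_lit 3971, nat_lit 3975, nat_lit 23655] (nat_lit 0) [] false,
   Spec.mk (nat_lit 3975) (nat_lit 1) [nat_lit 8349, nat_lit 5433, nat_lit 3489, nat_lit 3813, nat_lit 4137, nat_lit 3921, nat_lit 3981, nat_lit 3973] (nat_lit 0) [] false,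
   Spec.mk (nat_lit 3979) (nat_lit 1) [nat_lit 8353, nat_lit 5437, nat_lit 3493, nat_lit 3817, nat_lit 4141, nat_lit 3925, nat_lit 3997, nat_lit 3973, nat_lit 3981, nat_lit 23661] (nat_lit 0) [] false,
   Spec.mk (nat_lit 3981) (nat_lit 2) [nat_lit 8355, nat_lit 5439, nat_lit 3495, nat_lit 3819, nat_lit 4143, nat_lit 3927, nat_lit 3999, nat_lit 3975, nat_lit 3987, nat_lit 3979] (nat_lit 0) [] false,
   Spec.mk (nat_lit 3987) (nat_lit 1) [nat_lit 8361, nat_lit 5445, nat_lit 3501, nat_lit 3825, nat_lit 4149, nat_lit 3933, nat_lit 4005, nat_lit 3981] (nat_lit 0) [] false,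
   Spec.mk (nat_lit 3997) (nat_lit 2) [nat_lit 8371, nat_lit 5455, nat_lit 3511, nat_lit 3835, nat_lit 4159, nat_lit 3943, nat_lit 4051, nat_lit 3979, nat_lit 3999, nat_lit 23679] (nat_lit 0) [] false,
   Spec.mk (nat_lit 3999) (nat_lit 2) [nat_lit 8373, nat_lit 5457, nat_lit 3513, nat_lit 3837, nat_lit 4161, nat_lit 3945, nat_lit 4053, nat_lit 3981, nat_lit 4005, nat_lit 3997] (nat_lit 0) [] false,
   Spec.mk (nat_lit 4005) (nat_lit 3) [nat_lit 8379, nat_lit 5463, nat_lit 3519, nat_lit 3843, nat_lit 4167, nat_lit 3951, nat_lit 4059, nat_lit 3987, nat_lit 4023, nat_lit 3999] (nat_lit 0) [] false,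
   Spec.mk (nat_lit 4023) (nat_lit 3) [nat_lit 8397, nat_lit 5481, nat_lit 3537, nat_lit 3861, nat_lit 4185, nat_lit 4077, nat_lit 4005] (nat_lit 0) [] false,
   Spec.mk (nat_lit 4051) (nat_lit 2) [nat_lit 8425, nat_lit 5509, nat_lit 3565, nat_lit 4213, nat_lit 3997, nat_lit 4053, nat_lit 23733] (nat_lit 0) [] false,
   Spec.mk (nat_lit 4053) (nat_lit 2) [nat_lit 8427, nat_lit 5511, nat_lit 3567, nat_lit 4215, nat_lit 3999, nat_lit 4059, nat_lit 4051] (nat_lit 0) [] false,
   Spec.mk (nat_lit 4059) (nat_lit 2) [nat_lit 8433, nat_lit 5517, nat_lit 3573, nat_lit 4221, nat_lit 4005, nat_lit 4077, nat_lit 4053] (nat_lit 0) [] false,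
   Spec.mk (nat_lit 4077) (nat_lit 4) [nat_lit 8451, nat_lit 5535, nat_lit 3591, nat_lit 4239, nat_lit 4023, nat_lit 4059] (nat_lit 0) [] false,
   Spec.mk (nat_lit 4133) (nat_lit 2) [nat_lit 8507, nat_lit 5591, nat_lit 3971, nat_lit 4135, nat_lit 23815] (nat_lit 0) [] false,
   Spec.mk (nat_lit 4135) (nat_lit 3) [nat_lit 8509, nat_lit 5593, nat_lit 3973, nat_lit 4141, nat_lit 4133, nat_lit 4137, nat_lit 23817] (nat_lit 0) [] false,
   Spec.mk (nat_lit 4137) (nat_lit 2) [nat_lit 8511, nat_lit 5595, nat_lit 3975, nat_lit 4143, nat_lit 4135] (nat_lit 0) [] false,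
   Spec.mk (nat_lit 4141) (nat_lit 2) [nat_lit 8515, nat_lit 5599, nat_lit 3979, nat_lit 4159, nat_lit 4135, nat_lit 4143, nat_lit 23823] (nat_lit 0) [] false,
   Spec.mk (nat_lit 4143) (nat_lit 3) [nat_lit 8517, nat_lit 5601, nat_lit 3981, nat_lit 4161, nat_lit 4137, nat_lit 4149, nat_lit 4141] (nat_lit 0) [] false,
   Spec.mk (nat_lit 4149) (nat_lit 2) [nat_lit 8523, nat_lit 5607, nat_lit 3987, nat_lit 4167, nat_lit 4143] (nat_lit 0) [] false,
   Spec.mk (nat_lit 4159) (nat_lit 2) [nat_lit 8533, nat_lit 5617, nat_lit 3997, nat_lit 4213, nat_lit 4141, nat_lit 4161, nat_lit 23841] (nat_lit 0) [] false,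
   Spec.mk (nat_lit 4161) (nat_lit 2) [nat_lit 8535, nat_lit 5619, nat_lit 3999, nat_lit 4215, nat_lit 4143, nat_lit 4167, nat_lit 4159] (nat_lit 0) [] false,
   Spec.mk (nat_lit 4167) (nat_lit 3) [nat_lit 8541, nat_lit 5625, nat_lit 4005, nat_lit 4221, nat_lit 4149, nat_lit 4185, nat_lit 4161] (nat_lit 0) [] false,
   Spec.mk (nat_lit 4185) (nat_lit 2) [nat_lit 8559, nat_lit 5643, nat_lit 4023, nat_lit 4239, nat_lit 4167] (nat_lit 0) [] false,
   Spec.mk (nat_lit 4213) (nat_lit 4) [nat_lit 8587, nat_lit 5671, nat_lit 4051, nat_lit 4159, nat_lit 4215, nat_lit 23895] (nat_lit 0) [] false,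
   Spec.mk (nat_lit 4215) (nat_lit 4) [nat_lit 8589, nat_lit 5673, nat_lit 4053, nat_lit 4161, nat_lit 4221, nat_lit 4213] (nat_lit 0) [] false,
   Spec.mk (nat_lit 4221) (nat_lit 4) [nat_lit 8595, nat_lit 5679, nat_lit 4059, nat_lit 4167, nat_lit 4239, nat_lit 4215] (nat_lit 0) [] false,
   Spec.mk (nat_lit 4239) (nat_lit 5) [nat_lit 8613, nat_lit 5697, nat_lit 4077, nat_lit 4185, nat_lit 4293, nat_lit 4221] (nat_lit 0) [] false,
   Spec.mk (nat_lit 4293) (nat_lit 6) [nat_lit 8667, nat_lit 5751, nat_lit 4239] (nat_lit 0) [] false,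
   Spec.mk (nat_lit 4391) (nat_lit 2) [nat_lit 8765, nat_lit 2933, nat_lit 4409, nat_lit 4397, nat_lit 24073] (nat_lit 0) [] false,
   Spec.mk (nat_lit 4397) (nat_lit 0) [nat_lit 8771, nat_lit 2939, nat_lit 4415, nat_lit 4391, nat_lit 4399, nat_lit 24079] (nat_lit 0) [] false,
   Spec.mk (nat_lit 4399) (nat_lit 2) [nat_lit 8773, nat_lit 2941, nat_lit 4417, nat_lit 4397, nat_lit 24081] (nat_lit 0) [] false,
   Spec.mk (nat_lit 4409) (nat_lit 0) [nat_lit 8783, nat_lit 2951, nat_lit 4463, nat_lit 4391, nat_lit 4415, nat_lit 24091] (nat_lit 0) [] false,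
   Spec.mk (nat_lit 4415) (nat_lit 0) [nat_lit 8789, nat_lit 2957, nat_lit 4469, nat_lit 4397, nat_lit 4433, nat_lit 4409, nat_lit 4421, nat_lit 4417, nat_lit 24097] (nat_lit 0) [] false,
   Spec.mk (nat_lit 4417) (nat_lit 1) [nat_lit 8791, nat_lit 2959, nat_lit 4471, nat_lit 4399, nat_lit 4435, nat_lit 4423, nat_lit 4415, nat_lit 24099] (nat_lit 0) [] false,
   Spec.mk (nat_lit 4421) (nat_lit 0) [nat_lit 8795, nat_lit 2963, nat_lit 4475, nat_lit 4439, nat_lit 4415, nat_lit 4423, nat_lit 24103] (nat_lit 2) [] false,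
   Spec.mk (nat_lit 4423) (nat_lit 1) [nat_lit 8797, nat_lit 2965, nat_lit 4477, nat_lit 4441, nat_lit 4417, nat_lit 4421, nat_lit 4425, nat_lit 24105] (nat_lit 0) [] false,
   Spec.mk (nat_lit 4425) (nat_lit 2) [nat_lit 8799, nat_lit 2967, nat_lit 4479, nat_lit 4443, nat_lit 4423] (nat_lit 0) [] false,
   Spec.mk (nat_lit 4433) (nat_lit 0) [nat_lit 8807, nat_lit 2975, nat_lit 4487, nat_lit 4415, nat_lit 4439, nat_lit 4435, nat_lit 24115] (nat_lit 2) [] false,
   Spec.mk (nat_lit 4435) (nat_lit 0) [nat_lit 8809, nat_lit 2977, nat_lit 4489, nat_lit 4417, nat_lit 4441, nat_lit 4433, nat_lit 24117] (nat_lit 2) [] false,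
   Spec.mk (nat_lit 4439) (nat_lit 0) [nat_lit 8813, nat_lit 2981, nat_lit 4493, nat_lit 4421, nat_lit 4433, nat_lit 4441, nat_lit 24121] (nat_lit 2) [] false,
   Spec.mk (nat_lit 4441) (nat_lit 0) [nat_lit 8815, nat_lit 2983, nat_lit 4495, nat_lit 4423, nat_lit 4435, nat_lit 4447, nat_lit 4439, nat_lit 4443, nat_lit 24123] (nat_lit 0) [] false,
   Spec.mk (nat_lit 4443) (nat_lit 0) [nat_lit 8817, nat_lit 2985, nat_lit 4497, nat_lit 4425, nat_lit 4449, nat_lit 4441] (nat_lit 0) [] false,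
   Spec.mk (nat_lit 4447) (nat_lit 0) [nat_lit 8821, nat_lit 2989, nat_lit 4501, nat_lit 4441, nat_lit 4449, nat_lit 24129] (nat_lit 0) [] false,
   Spec.mk (nat_lit 4449) (nat_lit 2) [nat_lit 8823, nat_lit 2991, nat_lit 4503, nat_lit 4443, nat_lit 4447] (nat_lit 0) [] false,
   Spec.mk (nat_lit 4463) (nat_lit 0) [nat_lit 8837, nat_lit 3005, nat_lit 4625, nat_lit 4409, nat_lit 4469, nat_lit 24145] (nat_lit 0) [] false,
   Spec.mk (nat_lit 4469) (nat_lit 0) [nat_lit 8843, nat_lit 3011, nat_lit 4631, nat_lit 4415, nat_lit 4487, nat_lit 4463, nat_lit 4475, nat_lit 4471, nat_lit 24151] (nat_lit 1) [] false,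
   Spec.mk (nat_lit 4471) (nat_lit 0) [nat_lit 8845, nat_lit 3013, nat_lit 4633, nat_lit 4417, nat_lit 4489, nat_lit 4477, nat_lit 4469, nat_lit 24153] (nat_lit 0) [] false,
   Spec.mk (nat_lit 4475) (nat_lit 0) [nat_lit 8849, nat_lit 3017, nat_lit 4637, nat_lit 4421, nat_lit 4493, nat_lit 4469, nat_lit 4477, nat_lit 24157] (nat_lit 4) [] false,
   Spec.mk (nat_lit 4477) (nat_lit 0) [nat_lit 8851, nat_lit 3019, nat_lit 4639, nat_lit 4423, nat_lit 4495, nat_lit 4471, nat_lit 4475, nat_lit 4479, nat_lit 24159] (nat_lit 1) [] false,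
   Spec.mk (nat_lit 4479) (nat_lit 0) [nat_lit 8853, nat_lit 3021, nat_lit 4641, nat_lit 4425, nat_lit 4497, nat_lit 4477] (nat_lit 0) [] false,
   Spec.mk (nat_lit 4487) (nat_lit 0) [nat_lit 8861, nat_lit 3029, nat_lit 4649, nat_lit 4433, nat_lit 4541, nat_lit 4469, nat_lit 4493, nat_lit 4489, nat_lit 24169] (nat_lit 1) [] false,
   Spec.mk (nat_lit 4489) (nat_lit 0) [nat_lit 8863, nat_lit 3031, nat_lit 4651, nat_lit 4435, nat_lit 4543, nat_lit 4471, nat_lit 4495, nat_lit 4487, nat_lit 24171] (nat_lit 1) [] false,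
   Spec.mk (nat_lit 4493) (nat_lit 0) [nat_lit 8867, nat_lit 3035, nat_lit 4655, nat_lit 4439, nat_lit 4547, nat_lit 4475, nat_lit 4511, nat_lit 4487, nat_lit 4495, nat_lit 24175] (nat_lit 2) [] false,
   Spec.mk (nat_lit 4495) (nat_lit 0) [nat_lit 8869, nat_lit 3037, nat_lit 4657, nat_lit 4441, nat_lit 4549, nat_lit 4477, nat_lit 4513, nat_lit 4489, nat_lit 4501, nat_lit 4493, nat_lit 4497, nat_lit 24177] (nat_lit 0) [] false,
   Spec.mk (nat_lit 4497) (nat_lit 0) [nat_lit 8871, nat_lit 3039, nat_lit 4659, nat_lit 4443, nat_lit 4551, nat_lit 4479, nat_lit 4515, nat_lit 4503, nat_lit 4495] (nat_lit 0) [] false,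
   Spec.mk (nat_lit 4501) (nat_lit 0) [nat_lit 8875, nat_lit 3043, nat_lit 4663, nat_lit 4447, nat_lit 4555, nat_lit 4519, nat_lit 4495, nat_lit 4503, nat_lit 24183] (nat_lit 1) [] false,
   Spec.mk (nat_lit 4503) (nat_lit 1) [nat_lit 8877, nat_lit 3045, nat_lit 4665, nat_lit 4449, nat_lit 4557, nat_lit 4521, nat_lit 4497, nat_lit 4501] (nat_lit 0) [] false,
   Spec.mk (nat_lit 4511) (nat_lit 0) [nat_lit 8885, nat_lit 3053, nat_lit 4673, nat_lit 4565, nat_lit 4493, nat_lit 4513, nat_lit 24193] (nat_lit 2) [] false]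

noncomputable def sp13 : List Spec :=
  [Spec.mk (nat_lit 4513) (nat_lit 0) [nat_lit 8887, nat_lit 3055, nat_lit 4675, nat_lit 4567, nat_lit 4495, nat_lit 4519, nat_lit 4511, nat_lit 4515, nat_lit 24195] (nat_lit 1) [] false,
   Spec.mk (nat_lit 4515) (nat_lit 0) [nat_lit 8889, nat_lit 3057, nat_lit 4677, nat_lit 4569, nat_lit 4497, nat_lit 4521, nat_lit 4513] (nat_lit 2) [] false,
   Spec.mk (nat_lit 4519) (nat_lit 0) [nat_lit 8893, nat_lit 3061, nat_lit 4681, nat_lit 4573, nat_lit 4501, nat_lit 4513, nat_lit 4521, nat_lit 24201] (nat_lit 0) [] false,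
   Spec.mk (nat_lit 4521) (nat_lit 1) [nat_lit 8895, nat_lit 3063, nat_lit 4683, nat_lit 4575, nat_lit 4503, nat_lit 4515, nat_lit 4527, nat_lit 4519] (nat_lit 0) [] false,
   Spec.mk (nat_lit 4527) (nat_lit 2) [nat_lit 8901, nat_lit 3069, nat_lit 4689, nat_lit 4581, nat_lit 4521] (nat_lit 0) [] false,
   Spec.mk (nat_lit 4541) (nat_lit 0) [nat_lit 8915, nat_lit 3083, nat_lit 4703, nat_lit 4487, nat_lit 4547, nat_lit 4543, nat_lit 24223] (nat_lit 2) [] false,
   Spec.mk (nat_lit 4543) (nat_lit 0) [nat_lit 8917, nat_lit 3085, nat_lit 4705, nat_lit 4489, nat_lit 4549, nat_lit 4541, nat_lit 24225] (nat_lit 2) [] false,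
   Spec.mk (nat_lit 4547) (nat_lit 0) [nat_lit 8921, nat_lit 3089, nat_lit 4709, nat_lit 4493, nat_lit 4565, nat_lit 4541, nat_lit 4549, nat_lit 24229] (nat_lit 4) [] true,
   Spec.mk (nat_lit 4549) (nat_lit 0) [nat_lit 8923, nat_lit 3091, nat_lit 4711, nat_lit 4495, nat_lit 4567, nat_lit 4543, nat_lit 4555, nat_lit 4547, nat_lit 4551, nat_lit 24231] (nat_lit 2) [] false,
   Spec.mk (nat_lit 4551) (nat_lit 0) [nat_lit 8925, nat_lit 3093, nat_lit 4713, nat_lit 4497, nat_lit 4569, nat_lit 4557, nat_lit 4549] (nat_lit 2) [] false,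
   Spec.mk (nat_lit 4555) (nat_lit 0) [nat_lit 8929, nat_lit 3097, nat_lit 4717, nat_lit 4501, nat_lit 4573, nat_lit 4549, nat_lit 4557, nat_lit 24237] (nat_lit 4) [] false,
   Spec.mk (nat_lit 4557) (nat_lit 0) [nat_lit 8931, nat_lit 3099, nat_lit 4719, nat_lit 4503, nat_lit 4575, nat_lit 4551, nat_lit 4555] (nat_lit 2) [] false,
   Spec.mk (nat_lit 4565) (nat_lit 0) [nat_lit 8939, nat_lit 3107, nat_lit 4727, nat_lit 4511, nat_lit 4547, nat_lit 4567, nat_lit 24247] (nat_lit 2) [] false,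
   Spec.mk (nat_lit 4567) (nat_lit 0) [nat_lit 8941, nat_lit 3109, nat_lit 4729, nat_lit 4513, nat_lit 4549, nat_lit 4573, nat_lit 4565, nat_lit 4569, nat_lit 24249] (nat_lit 1) [] false,
   Spec.mk (nat_lit 4569) (nat_lit 0) [nat_lit 8943, nat_lit 3111, nat_lit 4731, nat_lit 4515, nat_lit 4551, nat_lit 4575, nat_lit 4567] (nat_lit 2) [] false,
   Spec.mk (nat_lit 4573) (nat_lit 0) [nat_lit 8947, nat_lit 3115, nat_lit 4735, nat_lit 4519, nat_lit 4555, nat_lit 4591, nat_lit 4567, nat_lit 4575, nat_lit 24255] (nat_lit 1) [] false,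
   Spec.mk (nat_lit 4575) (nat_lit 0) [nat_lit 8949, nat_lit 3117, nat_lit 4737, nat_lit 4521, nat_lit 4557, nat_lit 4593, nat_lit 4569, nat_lit 4581, nat_lit 4573] (nat_lit 0) [] false,
   Spec.mk (nat_lit 4581) (nat_lit 0) [nat_lit 8955, nat_lit 3123, nat_lit 4743, nat_lit 4527, nat_lit 4599, nat_lit 4575] (nat_lit 0) [] false,
   Spec.mk (nat_lit 4591) (nat_lit 0) [nat_lit 8965, nat_lit 3133, nat_lit 4753, nat_lit 4573, nat_lit 4593, nat_lit 24273] (nat_lit 0) [] false,
   Spec.mk (nat_lit 4593) (nat_lit 0) [nat_lit 8967, nat_lit 3135, nat_lit 4755, nat_lit 4575, nat_lit 4599, nat_lit 4591] (nat_lit 0) [] false,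
   Spec.mk (nat_lit 4599) (nat_lit 2) [nat_lit 8973, nat_lit 3141, nat_lit 4761, nat_lit 4581, nat_lit 4593] (nat_lit 0) [] false,
   Spec.mk (nat_lit 4625) (nat_lit 0) [nat_lit 8999, nat_lit 3167, nat_lit 5111, nat_lit 4463, nat_lit 4631, nat_lit 24307] (nat_lit 0) [] false,
   Spec.mk (nat_lit 4631) (nat_lit 0) [nat_lit 9005, nat_lit 3173, nat_lit 5117, nat_lit 4469, nat_lit 4649, nat_lit 4625, nat_lit 4637, nat_lit 4633, nat_lit 24313] (nat_lit 1) [] false,
   Spec.mk (nat_lit 4633) (nat_lit 0) [nat_lit 9007, nat_lit 3175, nat_lit 5119, nat_lit 4471, nat_lit 4651, nat_lit 4639, nat_lit 4631, nat_lit 24315] (nat_lit 0) [] false,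
   Spec.mk (nat_lit 4637) (nat_lit 0) [nat_lit 9011, nat_lit 3179, nat_lit 5123, nat_lit 4475, nat_lit 4655, nat_lit 4631, nat_lit 4639, nat_lit 24319] (nat_lit 4) [] false,
   Spec.mk (nat_lit 4639) (nat_lit 0) [nat_lit 9013, nat_lit 3181, nat_lit 5125, nat_lit 4477, nat_lit 4657, nat_lit 4633, nat_lit 4637, nat_lit 4641, nat_lit 24321] (nat_lit 1) [] false,
   Spec.mk (nat_lit 4641) (nat_lit 0) [nat_lit 9015, nat_lit 3183, nat_lit 5127, nat_lit 4479, nat_lit 4659, nat_lit 4639] (nat_lit 0) [] false,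
   Spec.mk (nat_lit 4649) (nat_lit 0) [nat_lit 9023, nat_lit 3191, nat_lit 5135, nat_lit 4487, nat_lit 4703, nat_lit 4631, nat_lit 4655, nat_lit 4651, nat_lit 24331] (nat_lit 2) [] true,
   Spec.mk (nat_lit 4651) (nat_lit 0) [nat_lit 9025, nat_lit 3193, nat_lit 5137, nat_lit 4489, nat_lit 4705, nat_lit 4633, nat_lit 4657, nat_lit 4649, nat_lit 24333] (nat_lit 2) [] false,
   Spec.mk (nat_lit 4655) (nat_lit 0) [nat_lit 9029, nat_lit 3197, nat_lit 5141, nat_lit 4493, nat_lit 4709, nat_lit 4637, nat_lit 4673, nat_lit 4649, nat_lit 4657, nat_lit 24337] (nat_lit 3) [] true,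
   Spec.mk (nat_lit 4657) (nat_lit 0) [nat_lit 9031, nat_lit 3199, nat_lit 5143, nat_lit 4495, nat_lit 4711, nat_lit 4639, nat_lit 4675, nat_lit 4651, nat_lit 4663, nat_lit 4655, nat_lit 4659, nat_lit 24339] (nat_lit 1) [] false,
   Spec.mk (nat_lit 4659) (nat_lit 0) [nat_lit 9033, nat_lit 3201, nat_lit 5145, nat_lit 4497, nat_lit 4713, nat_lit 4641, nat_lit 4677, nat_lit 4665, nat_lit 4657] (nat_lit 1) [] false,
   Spec.mk (nat_lit 4663) (nat_lit 0) [nat_lit 9037, nat_lit 3205, nat_lit 5149, nat_lit 4501, nat_lit 4717, nat_lit 4681, nat_lit 4657, nat_lit 4665, nat_lit 24345] (nat_lit 2) [] false,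
   Spec.mk (nat_lit 4665) (nat_lit 0) [nat_lit 9039, nat_lit 3207, nat_lit 5151, nat_lit 4503, nat_lit 4719, nat_lit 4683, nat_lit 4659, nat_lit 4663] (nat_lit 0) [] false,
   Spec.mk (nat_lit 4673) (nat_lit 0) [nat_lit 9047, nat_lit 3215, nat_lit 5159, nat_lit 4511, nat_lit 4727, nat_lit 4655, nat_lit 4675, nat_lit 24355] (nat_lit 4) [] false,
   Spec.mk (nat_lit 4675) (nat_lit 0) [nat_lit 9049, nat_lit 3217, nat_lit 5161, nat_lit 4513, nat_lit 4729, nat_lit 4657, nat_lit 4681, nat_lit 4673, nat_lit 4677, nat_lit 24357] (nat_lit 3) [] false,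
   Spec.mk (nat_lit 4677) (nat_lit 0) [nat_lit 9051, nat_lit 3219, nat_lit 5163, nat_lit 4515, nat_lit 4731, nat_lit 4659, nat_lit 4683, nat_lit 4675] (nat_lit 4) [] false,
   Spec.mk (nat_lit 4681) (nat_lit 0) [nat_lit 9055, nat_lit 3223, nat_lit 5167, nat_lit 4519, nat_lit 4735, nat_lit 4663, nat_lit 4675, nat_lit 4683, nat_lit 24363] (nat_lit 2) [] false,
   Spec.mk (nat_lit 4683) (nat_lit 0) [nat_lit 9057, nat_lit 3225, nat_lit 5169, nat_lit 4521, nat_lit 4737, nat_lit 4665, nat_lit 4677, nat_lit 4689, nat_lit 4681] (nat_lit 1) [] false,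
   Spec.mk (nat_lit 4689) (nat_lit 0) [nat_lit 9063, nat_lit 3231, nat_lit 5175, nat_lit 4527, nat_lit 4743, nat_lit 4683] (nat_lit 0) [] false,
   Spec.mk (nat_lit 4703) (nat_lit 0) [nat_lit 9077, nat_lit 3245, nat_lit 5189, nat_lit 4541, nat_lit 4865, nat_lit 4649, nat_lit 4709, nat_lit 4705, nat_lit 24385] (nat_lit 1) [] false,
   Spec.mk (nat_lit 4705) (nat_lit 0) [nat_lit 9079, nat_lit 3247, nat_lit 5191, nat_lit 4543, nat_lit 4867, nat_lit 4651, nat_lit 4711, nat_lit 4703, nat_lit 24387] (nat_lit 1) [] false,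
   Spec.mk (nat_lit 4709) (nat_lit 0) [nat_lit 9083, nat_lit 3251, nat_lit 5195, nat_lit 4547, nat_lit 4871, nat_lit 4655, nat_lit 4727, nat_lit 4703, nat_lit 4711, nat_lit 24391] (nat_lit 3) [] false,
   Spec.mk (nat_lit 4711) (nat_lit 0) [nat_lit 9085, nat_lit 3253, nat_lit 5197, nat_lit 4549, nat_lit 4873, nat_lit 4657, nat_lit 4729, nat_lit 4705, nat_lit 4717, nat_lit 4709, nat_lit 4713, nat_lit 24393] (nat_lit 1) [] false,
   Spec.mk (nat_lit 4713) (nat_lit 0) [nat_lit 9087, nat_lit 3255, nat_lit 5199, nat_lit 4551, nat_lit 4875, nat_lit 4659, nat_lit 4731, nat_lit 4719, nat_lit 4711] (nat_lit 1) [] false,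
   Spec.mk (nat_lit 4717) (nat_lit 0) [nat_lit 9091, nat_lit 3259, nat_lit 5203, nat_lit 4555, nat_lit 4879, nat_lit 4663, nat_lit 4735, nat_lit 4711, nat_lit 4719, nat_lit 24399] (nat_lit 3) [] false,
   Spec.mk (nat_lit 4719) (nat_lit 0) [nat_lit 9093, nat_lit 3261, nat_lit 5205, nat_lit 4557, nat_lit 4881, nat_lit 4665, nat_lit 4737, nat_lit 4713, nat_lit 4717] (nat_lit 1) [] false,
   Spec.mk (nat_lit 4727) (nat_lit 0) [nat_lit 9101, nat_lit 3269, nat_lit 5213, nat_lit 4565, nat_lit 4889, nat_lit 4673, nat_lit 4781, nat_lit 4709, nat_lit 4729, nat_lit 24409] (nat_lit 2) [] false,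
   Spec.mk (nat_lit 4729) (nat_lit 0) [nat_lit 9103, nat_lit 3271, nat_lit 5215, nat_lit 4567, nat_lit 4891, nat_lit 4675, nat_lit 4783, nat_lit 4711, nat_lit 4735, nat_lit 4727, nat_lit 4731, nat_lit 24411] (nat_lit 1) [] false,
   Spec.mk (nat_lit 4731) (nat_lit 0) [nat_lit 9105, nat_lit 3273, nat_lit 5217, nat_lit 4569, nat_lit 4893, nat_lit 4677, nat_lit 4785, nat_lit 4713, nat_lit 4737, nat_lit 4729] (nat_lit 2) [] false,
   Spec.mk (nat_lit 4735) (nat_lit 0) [nat_lit 9109, nat_lit 3277, nat_lit 5221, nat_lit 4573, nat_lit 4897, nat_lit 4681, nat_lit 4789, nat_lit 4717, nat_lit 4753, nat_lit 4729, nat_lit 4737, nat_lit 24417] (nat_lit 1) [] false,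
   Spec.mk (nat_lit 4737) (nat_lit 0) [nat_lit 9111, nat_lit 3279, nat_lit 5223, nat_lit 4575, nat_lit 4899, nat_lit 4683, nat_lit 4791, nat_lit 4719, nat_lit 4755, nat_lit 4731, nat_lit 4743, nat_lit 4735] (nat_lit 0) [] false,
   Spec.mk (nat_lit 4743) (nat_lit 0) [nat_lit 9117, nat_lit 3285, nat_lit 5229, nat_lit 4581, nat_lit 4905, nat_lit 4689, nat_lit 4797, nat_lit 4761, nat_lit 4737] (nat_lit 0) [] false,
   Spec.mk (nat_lit 4753) (nat_lit 0) [nat_lit 9127, nat_lit 3295, nat_lit 5239, nat_lit 4591, nat_lit 4915, nat_lit 4807, nat_lit 4735, nat_lit 4755, nat_lit 24435] (nat_lit 1) [] false,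
   Spec.mk (nat_lit 4755) (nat_lit 0) [nat_lit 9129, nat_lit 3297, nat_lit 5241, nat_lit 4593, nat_lit 4917, nat_lit 4809, nat_lit 4737, nat_lit 4761, nat_lit 4753] (nat_lit 1) [] false,
   Spec.mk (nat_lit 4761) (nat_lit 1) [nat_lit 9135, nat_lit 3303, nat_lit 5247, nat_lit 4599, nat_lit 4923, nat_lit 4815, nat_lit 4743, nat_lit 4755] (nat_lit 0) [] false,
   Spec.mk (nat_lit 4781) (nat_lit 0) [nat_lit 9155, nat_lit 3323, nat_lit 5267, nat_lit 4943, nat_lit 4727, nat_lit 4783, nat_lit 24463] (nat_lit 2) [] false,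
   Spec.mk (nat_lit 4783) (nat_lit 0) [nat_lit 9157, nat_lit 3325, nat_lit 5269, nat_lit 4945, nat_lit 4729, nat_lit 4789, nat_lit 4781, nat_lit 4785, nat_lit 24465] (nat_lit 1) [] false,
   Spec.mk (nat_lit 4785) (nat_lit 0) [nat_lit 9159, nat_lit 3327, nat_lit 5271, nat_lit 4947, nat_lit 4731, nat_lit 4791, nat_lit 4783] (nat_lit 2) [] false,
   Spec.mk (nat_lit 4789) (nat_lit 0) [nat_lit 9163, nat_lit 3331, nat_lit 5275, nat_lit 4951, nat_lit 4735, nat_lit 4807, nat_lit 4783, nat_lit 4791, nat_lit 24471] (nat_lit 2) [] false]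

noncomputable def sp14 : List Spec :=
  [Spec.mk (nat_lit 4791) (nat_lit 0) [nat_lit 9165, nat_lit 3333, nat_lit 5277, nat_lit 4953, nat_lit 4737, nat_lit 4809, nat_lit 4785, nat_lit 4797, nat_lit 4789] (nat_lit 1) [] false,
   Spec.mk (nat_lit 4797) (nat_lit 0) [nat_lit 9171, nat_lit 3339, nat_lit 5283, nat_lit 4959, nat_lit 4743, nat_lit 4815, nat_lit 4791] (nat_lit 2) [] false,
   Spec.mk (nat_lit 4807) (nat_lit 0) [nat_lit 9181, nat_lit 3349, nat_lit 5293, nat_lit 4969, nat_lit 4753, nat_lit 4789, nat_lit 4809, nat_lit 24489] (nat_lit 0) [] false,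
   Spec.mk (nat_lit 4809) (nat_lit 0) [nat_lit 9183, nat_lit 3351, nat_lit 5295, nat_lit 4971, nat_lit 4755, nat_lit 4791, nat_lit 4815, nat_lit 4807] (nat_lit 0) [] false,
   Spec.mk (nat_lit 4815) (nat_lit 1) [nat_lit 9189, nat_lit 3357, nat_lit 5301, nat_lit 4977, nat_lit 4761, nat_lit 4797, nat_lit 4833, nat_lit 4809] (nat_lit 0) [] false,
   Spec.mk (nat_lit 4833) (nat_lit 2) [nat_lit 9207, nat_lit 3375, nat_lit 5319, nat_lit 4995, nat_lit 4815] (nat_lit 0) [] false,
   Spec.mk (nat_lit 4865) (nat_lit 0) [nat_lit 9239, nat_lit 3407, nat_lit 5351, nat_lit 4703, nat_lit 4871, nat_lit 4867, nat_lit 24547] (nat_lit 2) [] false,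
   Spec.mk (nat_lit 4867) (nat_lit 0) [nat_lit 9241, nat_lit 3409, nat_lit 5353, nat_lit 4705, nat_lit 4873, nat_lit 4865, nat_lit 24549] (nat_lit 2) [] false,
   Spec.mk (nat_lit 4871) (nat_lit 0) [nat_lit 9245, nat_lit 3413, nat_lit 5357, nat_lit 4709, nat_lit 4889, nat_lit 4865, nat_lit 4873, nat_lit 24553] (nat_lit 4) [] false,
   Spec.mk (nat_lit 4873) (nat_lit 0) [nat_lit 9247, nat_lit 3415, nat_lit 5359, nat_lit 4711, nat_lit 4891, nat_lit 4867, nat_lit 4879, nat_lit 4871, nat_lit 4875, nat_lit 24555] (nat_lit 2) [] false,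
   Spec.mk (nat_lit 4875) (nat_lit 0) [nat_lit 9249, nat_lit 3417, nat_lit 5361, nat_lit 4713, nat_lit 4893, nat_lit 4881, nat_lit 4873] (nat_lit 2) [] false,
   Spec.mk (nat_lit 4879) (nat_lit 0) [nat_lit 9253, nat_lit 3421, nat_lit 5365, nat_lit 4717, nat_lit 4897, nat_lit 4873, nat_lit 4881, nat_lit 24561] (nat_lit 4) [] false,
   Spec.mk (nat_lit 4881) (nat_lit 0) [nat_lit 9255, nat_lit 3423, nat_lit 5367, nat_lit 4719, nat_lit 4899, nat_lit 4875, nat_lit 4879] (nat_lit 2) [] false,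
   Spec.mk (nat_lit 4889) (nat_lit 0) [nat_lit 9263, nat_lit 3431, nat_lit 5375, nat_lit 4727, nat_lit 4943, nat_lit 4871, nat_lit 4891, nat_lit 24571] (nat_lit 4) [] false,
   Spec.mk (nat_lit 4891) (nat_lit 0) [nat_lit 9265, nat_lit 3433, nat_lit 5377, nat_lit 4729, nat_lit 4945, nat_lit 4873, nat_lit 4897, nat_lit 4889, nat_lit 4893, nat_lit 24573] (nat_lit 3) [] false,
   Spec.mk (nat_lit 4893) (nat_lit 0) [nat_lit 9267, nat_lit 3435, nat_lit 5379, nat_lit 4731, nat_lit 4947, nat_lit 4875, nat_lit 4899, nat_lit 4891] (nat_lit 4) [] false,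
   Spec.mk (nat_lit 4897) (nat_lit 0) [nat_lit 9271, nat_lit 3439, nat_lit 5383, nat_lit 4735, nat_lit 4951, nat_lit 4879, nat_lit 4915, nat_lit 4891, nat_lit 4899, nat_lit 24579] (nat_lit 3) [] false,
   Spec.mk (nat_lit 4899) (nat_lit 0) [nat_lit 9273, nat_lit 3441, nat_lit 5385, nat_lit 4737, nat_lit 4953, nat_lit 4881, nat_lit 4917, nat_lit 4893, nat_lit 4905, nat_lit 4897] (nat_lit 2) [] false,
   Spec.mk (nat_lit 4905) (nat_lit 0) [nat_lit 9279, nat_lit 3447, nat_lit 5391, nat_lit 4743, nat_lit 4959, nat_lit 4923, nat_lit 4899] (nat_lit 2) [] false,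
   Spec.mk (nat_lit 4915) (nat_lit 0) [nat_lit 9289, nat_lit 3457, nat_lit 5401, nat_lit 4753, nat_lit 4969, nat_lit 4897, nat_lit 4917, nat_lit 24597] (nat_lit 4) [] false,
   Spec.mk (nat_lit 4917) (nat_lit 0) [nat_lit 9291, nat_lit 3459, nat_lit 5403, nat_lit 4755, nat_lit 4971, nat_lit 4899, nat_lit 4923, nat_lit 4915] (nat_lit 4) [] false,
   Spec.mk (nat_lit 4923) (nat_lit 0) [nat_lit 9297, nat_lit 3465, nat_lit 5409, nat_lit 4761, nat_lit 4977, nat_lit 4905, nat_lit 4917] (nat_lit 2) [] false,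
   Spec.mk (nat_lit 4943) (nat_lit 0) [nat_lit 9317, nat_lit 3485, nat_lit 5429, nat_lit 4781, nat_lit 4889, nat_lit 4945, nat_lit 24625] (nat_lit 2) [] false,
   Spec.mk (nat_lit 4945) (nat_lit 0) [nat_lit 9319, nat_lit 3487, nat_lit 5431, nat_lit 4783, nat_lit 4891, nat_lit 4951, nat_lit 4943, nat_lit 4947, nat_lit 24627] (nat_lit 1) [] false,
   Spec.mk (nat_lit 4947) (nat_lit 0) [nat_lit 9321, nat_lit 3489, nat_lit 5433, nat_lit 4785, nat_lit 4893, nat_lit 4953, nat_lit 4945] (nat_lit 2) [] false,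
   Spec.mk (nat_lit 4951) (nat_lit 0) [nat_lit 9325, nat_lit 3493, nat_lit 5437, nat_lit 4789, nat_lit 4897, nat_lit 4969, nat_lit 4945, nat_lit 4953, nat_lit 24633] (nat_lit 2) [] false,
   Spec.mk (nat_lit 4953) (nat_lit 0) [nat_lit 9327, nat_lit 3495, nat_lit 5439, nat_lit 4791, nat_lit 4899, nat_lit 4971, nat_lit 4947, nat_lit 4959, nat_lit 4951] (nat_lit 1) [] false,
   Spec.mk (nat_lit 4959) (nat_lit 0) [nat_lit 9333, nat_lit 3501, nat_lit 5445, nat_lit 4797, nat_lit 4905, nat_lit 4977, nat_lit 4953] (nat_lit 2) [] false,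
   Spec.mk (nat_lit 4969) (nat_lit 0) [nat_lit 9343, nat_lit 3511, nat_lit 5455, nat_lit 4807, nat_lit 4915, nat_lit 5023, nat_lit 4951, nat_lit 4971, nat_lit 24651] (nat_lit 1) [] false,
   Spec.mk (nat_lit 4971) (nat_lit 0) [nat_lit 9345, nat_lit 3513, nat_lit 5457, nat_lit 4809, nat_lit 4917, nat_lit 5025, nat_lit 4953, nat_lit 4977, nat_lit 4969] (nat_lit 1) [] false,
   Spec.mk (nat_lit 4977) (nat_lit 0) [nat_lit 9351, nat_lit 3519, nat_lit 5463, nat_lit 4815, nat_lit 4923, nat_lit 5031, nat_lit 4959, nat_lit 4995, nat_lit 4971] (nat_lit 0) [] false,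
   Spec.mk (nat_lit 4995) (nat_lit 0) [nat_lit 9369, nat_lit 3537, nat_lit 5481, nat_lit 4833, nat_lit 5049, nat_lit 4977] (nat_lit 0) [] false,
   Spec.mk (nat_lit 5023) (nat_lit 0) [nat_lit 9397, nat_lit 3565, nat_lit 5509, nat_lit 4969, nat_lit 5025, nat_lit 24705] (nat_lit 0) [] false,
   Spec.mk (nat_lit 5025) (nat_lit 0) [nat_lit 9399, nat_lit 3567, nat_lit 5511, nat_lit 4971, nat_lit 5031, nat_lit 5023] (nat_lit 0) [] false,
   Spec.mk (nat_lit 5031) (nat_lit 0) [nat_lit 9405, nat_lit 3573, nat_lit 5517, nat_lit 4977, nat_lit 5049, nat_lit 5025] (nat_lit 0) [] false,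
   Spec.mk (nat_lit 5049) (nat_lit 2) [nat_lit 9423, nat_lit 3591, nat_lit 5535, nat_lit 4995, nat_lit 5031] (nat_lit 0) [] false,
   Spec.mk (nat_lit 5111) (nat_lit 2) [nat_lit 9485, nat_lit 3653, nat_lit 4625, nat_lit 5117, nat_lit 24793] (nat_lit 0) [] false,
   Spec.mk (nat_lit 5117) (nat_lit 1) [nat_lit 9491, nat_lit 3659, nat_lit 4631, nat_lit 5135, nat_lit 5111, nat_lit 5123, nat_lit 5119, nat_lit 24799] (nat_lit 0) [] false,
   Spec.mk (nat_lit 5119) (nat_lit 2) [nat_lit 9493, nat_lit 3661, nat_lit 4633, nat_lit 5137, nat_lit 5125, nat_lit 5117, nat_lit 24801] (nat_lit 0) [] false,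
   Spec.mk (nat_lit 5123) (nat_lit 0) [nat_lit 9497, nat_lit 3665, nat_lit 4637, nat_lit 5141, nat_lit 5117, nat_lit 5125, nat_lit 24805] (nat_lit 2) [] false,
   Spec.mk (nat_lit 5125) (nat_lit 1) [nat_lit 9499, nat_lit 3667, nat_lit 4639, nat_lit 5143, nat_lit 5119, nat_lit 5123, nat_lit 5127, nat_lit 24807] (nat_lit 0) [] false,
   Spec.mk (nat_lit 5127) (nat_lit 2) [nat_lit 9501, nat_lit 3669, nat_lit 4641, nat_lit 5145, nat_lit 5125] (nat_lit 0) [] false,
   Spec.mk (nat_lit 5135) (nat_lit 0) [nat_lit 9509, nat_lit 3677, nat_lit 4649, nat_lit 5189, nat_lit 5117, nat_lit 5141, nat_lit 5137, nat_lit 24817] (nat_lit 0) [] false,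
   Spec.mk (nat_lit 5137) (nat_lit 0) [nat_lit 9511, nat_lit 3679, nat_lit 4651, nat_lit 5191, nat_lit 5119, nat_lit 5143, nat_lit 5135, nat_lit 24819] (nat_lit 0) [] false,
   Spec.mk (nat_lit 5141) (nat_lit 0) [nat_lit 9515, nat_lit 3683, nat_lit 4655, nat_lit 5195, nat_lit 5123, nat_lit 5159, nat_lit 5135, nat_lit 5143, nat_lit 24823] (nat_lit 1) [] false,
   Spec.mk (nat_lit 5143) (nat_lit 1) [nat_lit 9517, nat_lit 3685, nat_lit 4657, nat_lit 5197, nat_lit 5125, nat_lit 5161, nat_lit 5137, nat_lit 5149, nat_lit 5141, nat_lit 5145, nat_lit 24825] (nat_lit 0) [] false,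
   Spec.mk (nat_lit 5145) (nat_lit 1) [nat_lit 9519, nat_lit 3687, nat_lit 4659, nat_lit 5199, nat_lit 5127, nat_lit 5163, nat_lit 5151, nat_lit 5143] (nat_lit 0) [] false,
   Spec.mk (nat_lit 5149) (nat_lit 0) [nat_lit 9523, nat_lit 3691, nat_lit 4663, nat_lit 5203, nat_lit 5167, nat_lit 5143, nat_lit 5151, nat_lit 24831] (nat_lit 0) [] false,
   Spec.mk (nat_lit 5151) (nat_lit 2) [nat_lit 9525, nat_lit 3693, nat_lit 4665, nat_lit 5205, nat_lit 5169, nat_lit 5145, nat_lit 5149] (nat_lit 0) [] false,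
   Spec.mk (nat_lit 5159) (nat_lit 0) [nat_lit 9533, nat_lit 3701, nat_lit 4673, nat_lit 5213, nat_lit 5141, nat_lit 5161, nat_lit 24841] (nat_lit 2) [] false,
   Spec.mk (nat_lit 5161) (nat_lit 0) [nat_lit 9535, nat_lit 3703, nat_lit 4675, nat_lit 5215, nat_lit 5143, nat_lit 5167, nat_lit 5159, nat_lit 5163, nat_lit 24843] (nat_lit 1) [] false,
   Spec.mk (nat_lit 5163) (nat_lit 0) [nat_lit 9537, nat_lit 3705, nat_lit 4677, nat_lit 5217, nat_lit 5145, nat_lit 5169, nat_lit 5161] (nat_lit 2) [] false,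
   Spec.mk (nat_lit 5167) (nat_lit 0) [nat_lit 9541, nat_lit 3709, nat_lit 4681, nat_lit 5221, nat_lit 5149, nat_lit 5161, nat_lit 5169, nat_lit 24849] (nat_lit 0) [] false,
   Spec.mk (nat_lit 5169) (nat_lit 1) [nat_lit 9543, nat_lit 3711, nat_lit 4683, nat_lit 5223, nat_lit 5151, nat_lit 5163, nat_lit 5175, nat_lit 5167] (nat_lit 0) [] false,
   Spec.mk (nat_lit 5175) (nat_lit 2) [nat_lit 9549, nat_lit 3717, nat_lit 4689, nat_lit 5229, nat_lit 5169] (nat_lit 0) [] false,
   Spec.mk (nat_lit 5189) (nat_lit 0) [nat_lit 9563, nat_lit 3731, nat_lit 4703, nat_lit 5351, nat_lit 5135, nat_lit 5195, nat_lit 5191, nat_lit 24871] (nat_lit 0) [] false,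
   Spec.mk (nat_lit 5191) (nat_lit 0) [nat_lit 9565, nat_lit 3733, nat_lit 4705, nat_lit 5353, nat_lit 5137, nat_lit 5197, nat_lit 5189, nat_lit 24873] (nat_lit 0) [] false,
   Spec.mk (nat_lit 5195) (nat_lit 0) [nat_lit 9569, nat_lit 3737, nat_lit 4709, nat_lit 5357, nat_lit 5141, nat_lit 5213, nat_lit 5189, nat_lit 5197, nat_lit 24877] (nat_lit 2) [] false,
   Spec.mk (nat_lit 5197) (nat_lit 0) [nat_lit 9571, nat_lit 3739, nat_lit 4711, nat_lit 5359, nat_lit 5143, nat_lit 5215, nat_lit 5191, nat_lit 5203, nat_lit 5195, nat_lit 5199, nat_lit 24879] (nat_lit 0) [] false,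
   Spec.mk (nat_lit 5199) (nat_lit 0) [nat_lit 9573, nat_lit 3741, nat_lit 4713, nat_lit 5361, nat_lit 5145, nat_lit 5217, nat_lit 5205, nat_lit 5197] (nat_lit 0) [] false]

noncomputable def sp15 : List Spec :=
  [Spec.mk (nat_lit 5203) (nat_lit 0) [nat_lit 9577, nat_lit 3745, nat_lit 4717, nat_lit 5365, nat_lit 5149, nat_lit 5221, nat_lit 5197, nat_lit 5205, nat_lit 24885] (nat_lit 2) [] false,
   Spec.mk (nat_lit 5205) (nat_lit 0) [nat_lit 9579, nat_lit 3747, nat_lit 4719, nat_lit 5367, nat_lit 5151, nat_lit 5223, nat_lit 5199, nat_lit 5203] (nat_lit 0) [] false,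
   Spec.mk (nat_lit 5213) (nat_lit 0) [nat_lit 9587, nat_lit 3755, nat_lit 4727, nat_lit 5375, nat_lit 5159, nat_lit 5267, nat_lit 5195, nat_lit 5215, nat_lit 24895] (nat_lit 1) [] false,
   Spec.mk (nat_lit 5215) (nat_lit 0) [nat_lit 9589, nat_lit 3757, nat_lit 4729, nat_lit 5377, nat_lit 5161, nat_lit 5269, nat_lit 5197, nat_lit 5221, nat_lit 5213, nat_lit 5217, nat_lit 24897] (nat_lit 0) [] false,
   Spec.mk (nat_lit 5217) (nat_lit 0) [nat_lit 9591, nat_lit 3759, nat_lit 4731, nat_lit 5379, nat_lit 5163, nat_lit 5271, nat_lit 5199, nat_lit 5223, nat_lit 5215] (nat_lit 1) [] false,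
   Spec.mk (nat_lit 5221) (nat_lit 0) [nat_lit 9595, nat_lit 3763, nat_lit 4735, nat_lit 5383, nat_lit 5167, nat_lit 5275, nat_lit 5203, nat_lit 5239, nat_lit 5215, nat_lit 5223, nat_lit 24903] (nat_lit 0) [] false,
   Spec.mk (nat_lit 5223) (nat_lit 1) [nat_lit 9597, nat_lit 3765, nat_lit 4737, nat_lit 5385, nat_lit 5169, nat_lit 5277, nat_lit 5205, nat_lit 5241, nat_lit 5217, nat_lit 5229, nat_lit 5221] (nat_lit 0) [] false,
   Spec.mk (nat_lit 5229) (nat_lit 1) [nat_lit 9603, nat_lit 3771, nat_lit 4743, nat_lit 5391, nat_lit 5175, nat_lit 5283, nat_lit 5247, nat_lit 5223] (nat_lit 0) [] false,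
   Spec.mk (nat_lit 5239) (nat_lit 0) [nat_lit 9613, nat_lit 3781, nat_lit 4753, nat_lit 5401, nat_lit 5293, nat_lit 5221, nat_lit 5241, nat_lit 24921] (nat_lit 0) [] false,
   Spec.mk (nat_lit 5241) (nat_lit 0) [nat_lit 9615, nat_lit 3783, nat_lit 4755, nat_lit 5403, nat_lit 5295, nat_lit 5223, nat_lit 5247, nat_lit 5239] (nat_lit 0) [] false,
   Spec.mk (nat_lit 5247) (nat_lit 2) [nat_lit 9621, nat_lit 3789, nat_lit 4761, nat_lit 5409, nat_lit 5301, nat_lit 5229, nat_lit 5241] (nat_lit 0) [] false,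
   Spec.mk (nat_lit 5267) (nat_lit 0) [nat_lit 9641, nat_lit 3809, nat_lit 4781, nat_lit 5429, nat_lit 5213, nat_lit 5269, nat_lit 24949] (nat_lit 2) [] false,
   Spec.mk (nat_lit 5269) (nat_lit 0) [nat_lit 9643, nat_lit 3811, nat_lit 4783, nat_lit 5431, nat_lit 5215, nat_lit 5275, nat_lit 5267, nat_lit 5271, nat_lit 24951] (nat_lit 1) [] false,
   Spec.mk (nat_lit 5271) (nat_lit 0) [nat_lit 9645, nat_lit 3813, nat_lit 4785, nat_lit 5433, nat_lit 5217, nat_lit 5277, nat_lit 5269] (nat_lit 2) [] false,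
   Spec.mk (nat_lit 5275) (nat_lit 0) [nat_lit 9649, nat_lit 3817, nat_lit 4789, nat_lit 5437, nat_lit 5221, nat_lit 5293, nat_lit 5269, nat_lit 5277, nat_lit 24957] (nat_lit 2) [] false,
   Spec.mk (nat_lit 5277) (nat_lit 0) [nat_lit 9651, nat_lit 3819, nat_lit 4791, nat_lit 5439, nat_lit 5223, nat_lit 5295, nat_lit 5271, nat_lit 5283, nat_lit 5275] (nat_lit 1) [] false,
   Spec.mk (nat_lit 5283) (nat_lit 0) [nat_lit 9657, nat_lit 3825, nat_lit 4797, nat_lit 5445, nat_lit 5229, nat_lit 5301, nat_lit 5277] (nat_lit 2) [] false,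
   Spec.mk (nat_lit 5293) (nat_lit 0) [nat_lit 9667, nat_lit 3835, nat_lit 4807, nat_lit 5455, nat_lit 5239, nat_lit 5275, nat_lit 5295, nat_lit 24975] (nat_lit 0) [] false,
   Spec.mk (nat_lit 5295) (nat_lit 0) [nat_lit 9669, nat_lit 3837, nat_lit 4809, nat_lit 5457, nat_lit 5241, nat_lit 5277, nat_lit 5301, nat_lit 5293] (nat_lit 0) [] false,
   Spec.mk (nat_lit 5301) (nat_lit 1) [nat_lit 9675, nat_lit 3843, nat_lit 4815, nat_lit 5463, nat_lit 5247, nat_lit 5283, nat_lit 5319, nat_lit 5295] (nat_lit 0) [] false,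
   Spec.mk (nat_lit 5319) (nat_lit 2) [nat_lit 9693, nat_lit 3861, nat_lit 4833, nat_lit 5481, nat_lit 5301] (nat_lit 0) [] false,
   Spec.mk (nat_lit 5351) (nat_lit 1) [nat_lit 9725, nat_lit 3893, nat_lit 4865, nat_lit 5837, nat_lit 5189, nat_lit 5357, nat_lit 5353, nat_lit 25033] (nat_lit 0) [] false,
   Spec.mk (nat_lit 5353) (nat_lit 1) [nat_lit 9727, nat_lit 3895, nat_lit 4867, nat_lit 5839, nat_lit 5191, nat_lit 5359, nat_lit 5351, nat_lit 25035] (nat_lit 0) [] false,
   Spec.mk (nat_lit 5357) (nat_lit 0) [nat_lit 9731, nat_lit 3899, nat_lit 4871, nat_lit 5843, nat_lit 5195, nat_lit 5375, nat_lit 5351, nat_lit 5359, nat_lit 25039] (nat_lit 1) [] false,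
   Spec.mk (nat_lit 5359) (nat_lit 1) [nat_lit 9733, nat_lit 3901, nat_lit 4873, nat_lit 5845, nat_lit 5197, nat_lit 5377, nat_lit 5353, nat_lit 5365, nat_lit 5357, nat_lit 5361, nat_lit 25041] (nat_lit 0) [] false,
   Spec.mk (nat_lit 5361) (nat_lit 1) [nat_lit 9735, nat_lit 3903, nat_lit 4875, nat_lit 5847, nat_lit 5199, nat_lit 5379, nat_lit 5367, nat_lit 5359] (nat_lit 0) [] false,
   Spec.mk (nat_lit 5365) (nat_lit 0) [nat_lit 9739, nat_lit 3907, nat_lit 4879, nat_lit 5851, nat_lit 5203, nat_lit 5383, nat_lit 5359, nat_lit 5367, nat_lit 25047] (nat_lit 1) [] false,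
   Spec.mk (nat_lit 5367) (nat_lit 1) [nat_lit 9741, nat_lit 3909, nat_lit 4881, nat_lit 5853, nat_lit 5205, nat_lit 5385, nat_lit 5361, nat_lit 5365] (nat_lit 0) [] false,
   Spec.mk (nat_lit 5375) (nat_lit 0) [nat_lit 9749, nat_lit 3917, nat_lit 4889, nat_lit 5861, nat_lit 5213, nat_lit 5429, nat_lit 5357, nat_lit 5377, nat_lit 25057] (nat_lit 1) [] false,
   Spec.mk (nat_lit 5377) (nat_lit 0) [nat_lit 9751, nat_lit 3919, nat_lit 4891, nat_lit 5863, nat_lit 5215, nat_lit 5431, nat_lit 5359, nat_lit 5383, nat_lit 5375, nat_lit 5379, nat_lit 25059] (nat_lit 0) [] false,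
   Spec.mk (nat_lit 5379) (nat_lit 0) [nat_lit 9753, nat_lit 3921, nat_lit 4893, nat_lit 5865, nat_lit 5217, nat_lit 5433, nat_lit 5361, nat_lit 5385, nat_lit 5377] (nat_lit 1) [] false,
   Spec.mk (nat_lit 5383) (nat_lit 0) [nat_lit 9757, nat_lit 3925, nat_lit 4897, nat_lit 5869, nat_lit 5221, nat_lit 5437, nat_lit 5365, nat_lit 5401, nat_lit 5377, nat_lit 5385, nat_lit 25065] (nat_lit 0) [] false,
   Spec.mk (nat_lit 5385) (nat_lit 1) [nat_lit 9759, nat_lit 3927, nat_lit 4899, nat_lit 5871, nat_lit 5223, nat_lit 5439, nat_lit 5367, nat_lit 5403, nat_lit 5379, nat_lit 5391, nat_lit 5383] (nat_lit 0) [] false,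
   Spec.mk (nat_lit 5391) (nat_lit 1) [nat_lit 9765, nat_lit 3933, nat_lit 4905, nat_lit 5877, nat_lit 5229, nat_lit 5445, nat_lit 5409, nat_lit 5385] (nat_lit 0) [] false,
   Spec.mk (nat_lit 5401) (nat_lit 0) [nat_lit 9775, nat_lit 3943, nat_lit 4915, nat_lit 5887, nat_lit 5239, nat_lit 5455, nat_lit 5383, nat_lit 5403, nat_lit 25083] (nat_lit 1) [] false,
   Spec.mk (nat_lit 5403) (nat_lit 0) [nat_lit 9777, nat_lit 3945, nat_lit 4917, nat_lit 5889, nat_lit 5241, nat_lit 5457, nat_lit 5385, nat_lit 5409, nat_lit 5401] (nat_lit 1) [] false,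
   Spec.mk (nat_lit 5409) (nat_lit 1) [nat_lit 9783, nat_lit 3951, nat_lit 4923, nat_lit 5895, nat_lit 5247, nat_lit 5463, nat_lit 5391, nat_lit 5403] (nat_lit 0) [] false,
   Spec.mk (nat_lit 5429) (nat_lit 0) [nat_lit 9803, nat_lit 3971, nat_lit 4943, nat_lit 5915, nat_lit 5267, nat_lit 5591, nat_lit 5375, nat_lit 5431, nat_lit 25111] (nat_lit 0) [] false,
   Spec.mk (nat_lit 5431) (nat_lit 1) [nat_lit 9805, nat_lit 3973, nat_lit 4945, nat_lit 5917, nat_lit 5269, nat_lit 5593, nat_lit 5377, nat_lit 5437, nat_lit 5429, nat_lit 5433, nat_lit 25113] (nat_lit 0) [] false,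
   Spec.mk (nat_lit 5433) (nat_lit 0) [nat_lit 9807, nat_lit 3975, nat_lit 4947, nat_lit 5919, nat_lit 5271, nat_lit 5595, nat_lit 5379, nat_lit 5439, nat_lit 5431] (nat_lit 0) [] false,
   Spec.mk (nat_lit 5437) (nat_lit 0) [nat_lit 9811, nat_lit 3979, nat_lit 4951, nat_lit 5923, nat_lit 5275, nat_lit 5599, nat_lit 5383, nat_lit 5455, nat_lit 5431, nat_lit 5439, nat_lit 25119] (nat_lit 0) [] false,
   Spec.mk (nat_lit 5439) (nat_lit 1) [nat_lit 9813, nat_lit 3981, nat_lit 4953, nat_lit 5925, nat_lit 5277, nat_lit 5601, nat_lit 5385, nat_lit 5457, nat_lit 5433, nat_lit 5445, nat_lit 5437] (nat_lit 0) [] false,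
   Spec.mk (nat_lit 5445) (nat_lit 0) [nat_lit 9819, nat_lit 3987, nat_lit 4959, nat_lit 5931, nat_lit 5283, nat_lit 5607, nat_lit 5391, nat_lit 5463, nat_lit 5439] (nat_lit 0) [] false,
   Spec.mk (nat_lit 5455) (nat_lit 1) [nat_lit 9829, nat_lit 3997, nat_lit 4969, nat_lit 5941, nat_lit 5293, nat_lit 5617, nat_lit 5401, nat_lit 5509, nat_lit 5437, nat_lit 5457, nat_lit 25137] (nat_lit 0) [] false,
   Spec.mk (nat_lit 5457) (nat_lit 1) [nat_lit 9831, nat_lit 3999, nat_lit 4971, nat_lit 5943, nat_lit 5295, nat_lit 5619, nat_lit 5403, nat_lit 5511, nat_lit 5439, nat_lit 5463, nat_lit 5455] (nat_lit 0) [] false,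
   Spec.mk (nat_lit 5463) (nat_lit 2) [nat_lit 9837, nat_lit 4005, nat_lit 4977, nat_lit 5949, nat_lit 5301, nat_lit 5625, nat_lit 5409, nat_lit 5517, nat_lit 5445, nat_lit 5481, nat_lit 5457] (nat_lit 0) [] false,
   Spec.mk (nat_lit 5481) (nat_lit 2) [nat_lit 9855, nat_lit 4023, nat_lit 4995, nat_lit 5967, nat_lit 5319, nat_lit 5643, nat_lit 5535, nat_lit 5463] (nat_lit 0) [] false,
   Spec.mk (nat_lit 5509) (nat_lit 1) [nat_lit 9883, nat_lit 4051, nat_lit 5023, nat_lit 5995, nat_lit 5671, nat_lit 5455, nat_lit 5511, nat_lit 25191] (nat_lit 0) [] false,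
   Spec.mk (nat_lit 5511) (nat_lit 1) [nat_lit 9885, nat_lit 4053, nat_lit 5025, nat_lit 5997, nat_lit 5673, nat_lit 5457, nat_lit 5517, nat_lit 5509] (nat_lit 0) [] false,
   Spec.mk (nat_lit 5517) (nat_lit 1) [nat_lit 9891, nat_lit 4059, nat_lit 5031, nat_lit 6003, nat_lit 5679, nat_lit 5463, nat_lit 5535, nat_lit 5511] (nat_lit 0) [] false,
   Spec.mk (nat_lit 5535) (nat_lit 3) [nat_lit 9909, nat_lit 4077, nat_lit 5049, nat_lit 6021, nat_lit 5697, nat_lit 5481, nat_lit 5517] (nat_lit 0) [] false,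
   Spec.mk (nat_lit 5591) (nat_lit 0) [nat_lit 9965, nat_lit 4133, nat_lit 6077, nat_lit 5429, nat_lit 5593, nat_lit 25273] (nat_lit 0) [] false,
   Spec.mk (nat_lit 5593) (nat_lit 1) [nat_lit 9967, nat_lit 4135, nat_lit 6079, nat_lit 5431, nat_lit 5599, nat_lit 5591, nat_lit 5595, nat_lit 25275] (nat_lit 0) [] false,
   Spec.mk (nat_lit 5595) (nat_lit 0) [nat_lit 9969, nat_lit 4137, nat_lit 6081, nat_lit 5433, nat_lit 5601, nat_lit 5593] (nat_lit 0) [] false,
   Spec.mk (nat_lit 5599) (nat_lit 0) [nat_lit 9973, nat_lit 4141, nat_lit 6085, nat_lit 5437, nat_lit 5617, nat_lit 5593, nat_lit 5601, nat_lit 25281] (nat_lit 0) [] false,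
   Spec.mk (nat_lit 5601) (nat_lit 1) [nat_lit 9975, nat_lit 4143, nat_lit 6087, nat_lit 5439, nat_lit 5619, nat_lit 5595, nat_lit 5607, nat_lit 5599] (nat_lit 0) [] false,
   Spec.mk (nat_lit 5607) (nat_lit 0) [nat_lit 9981, nat_lit 4149, nat_lit 6093, nat_lit 5445, nat_lit 5625, nat_lit 5601] (nat_lit 0) [] false,
   Spec.mk (nat_lit 5617) (nat_lit 0) [nat_lit 9991, nat_lit 4159, nat_lit 6103, nat_lit 5455, nat_lit 5671, nat_lit 5599, nat_lit 5619, nat_lit 25299] (nat_lit 0) [] false,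
   Spec.mk (nat_lit 5619) (nat_lit 0) [nat_lit 9993, nat_lit 4161, nat_lit 6105, nat_lit 5457, nat_lit 5673, nat_lit 5601, nat_lit 5625, nat_lit 5617] (nat_lit 0) [] false,
   Spec.mk (nat_lit 5625) (nat_lit 1) [nat_lit 9999, nat_lit 4167, nat_lit 6111, nat_lit 5463, nat_lit 5679, nat_lit 5607, nat_lit 5643, nat_lit 5619] (nat_lit 0) [] false]

noncomputable def sp16 : List Spec :=
  [Spec.mk (nat_lit 5643) (nat_lit 0) [nat_lit 10017, nat_lit 4185, nat_lit 6129, nat_lit 5481, nat_lit 5697, nat_lit 5625] (nat_lit 0) [] false,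
   Spec.mk (nat_lit 5671) (nat_lit 2) [nat_lit 10045, nat_lit 4213, nat_lit 6157, nat_lit 5509, nat_lit 5617, nat_lit 5673, nat_lit 25353] (nat_lit 0) [] false,
   Spec.mk (nat_lit 5673) (nat_lit 2) [nat_lit 10047, nat_lit 4215, nat_lit 6159, nat_lit 5511, nat_lit 5619, nat_lit 5679, nat_lit 5671] (nat_lit 0) [] false,
   Spec.mk (nat_lit 5679) (nat_lit 2) [nat_lit 10053, nat_lit 4221, nat_lit 6165, nat_lit 5517, nat_lit 5625, nat_lit 5697, nat_lit 5673] (nat_lit 0) [] false,
   Spec.mk (nat_lit 5697) (nat_lit 3) [nat_lit 10071, nat_lit 4239, nat_lit 6183, nat_lit 5535, nat_lit 5643, nat_lit 5751, nat_lit 5679] (nat_lit 0) [] false,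
   Spec.mk (nat_lit 5751) (nat_lit 4) [nat_lit 10125, nat_lit 4293, nat_lit 6237, nat_lit 5697] (nat_lit 0) [] false,
   Spec.mk (nat_lit 5837) (nat_lit 2) [nat_lit 10211, nat_lit 5351, nat_lit 5843, nat_lit 5839, nat_lit 25519] (nat_lit 0) [] false,
   Spec.mk (nat_lit 5839) (nat_lit 2) [nat_lit 10213, nat_lit 5353, nat_lit 5845, nat_lit 5837, nat_lit 25521] (nat_lit 0) [] false,
   Spec.mk (nat_lit 5843) (nat_lit 0) [nat_lit 10217, nat_lit 5357, nat_lit 5861, nat_lit 5837, nat_lit 5845, nat_lit 25525] (nat_lit 0) [] false,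
   Spec.mk (nat_lit 5845) (nat_lit 2) [nat_lit 10219, nat_lit 5359, nat_lit 5863, nat_lit 5839, nat_lit 5851, nat_lit 5843, nat_lit 5847, nat_lit 25527] (nat_lit 0) [] false,
   Spec.mk (nat_lit 5847) (nat_lit 2) [nat_lit 10221, nat_lit 5361, nat_lit 5865, nat_lit 5853, nat_lit 5845] (nat_lit 0) [] false,
   Spec.mk (nat_lit 5851) (nat_lit 0) [nat_lit 10225, nat_lit 5365, nat_lit 5869, nat_lit 5845, nat_lit 5853, nat_lit 25533] (nat_lit 0) [] false,
   Spec.mk (nat_lit 5853) (nat_lit 2) [nat_lit 10227, nat_lit 5367, nat_lit 5871, nat_lit 5847, nat_lit 5851] (nat_lit 0) [] false,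
   Spec.mk (nat_lit 5861) (nat_lit 0) [nat_lit 10235, nat_lit 5375, nat_lit 5915, nat_lit 5843, nat_lit 5863, nat_lit 25543] (nat_lit 0) [] false,
   Spec.mk (nat_lit 5863) (nat_lit 1) [nat_lit 10237, nat_lit 5377, nat_lit 5917, nat_lit 5845, nat_lit 5869, nat_lit 5861, nat_lit 5865, nat_lit 25545] (nat_lit 0) [] false,
   Spec.mk (nat_lit 5865) (nat_lit 0) [nat_lit 10239, nat_lit 5379, nat_lit 5919, nat_lit 5847, nat_lit 5871, nat_lit 5863] (nat_lit 0) [] false,
   Spec.mk (nat_lit 5869) (nat_lit 1) [nat_lit 10243, nat_lit 5383, nat_lit 5923, nat_lit 5851, nat_lit 5887, nat_lit 5863, nat_lit 5871, nat_lit 25551] (nat_lit 0) [] false,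
   Spec.mk (nat_lit 5871) (nat_lit 2) [nat_lit 10245, nat_lit 5385, nat_lit 5925, nat_lit 5853, nat_lit 5889, nat_lit 5865, nat_lit 5877, nat_lit 5869] (nat_lit 0) [] false,
   Spec.mk (nat_lit 5877) (nat_lit 2) [nat_lit 10251, nat_lit 5391, nat_lit 5931, nat_lit 5895, nat_lit 5871] (nat_lit 0) [] false,
   Spec.mk (nat_lit 5887) (nat_lit 0) [nat_lit 10261, nat_lit 5401, nat_lit 5941, nat_lit 5869, nat_lit 5889, nat_lit 25569] (nat_lit 0) [] false,
   Spec.mk (nat_lit 5889) (nat_lit 0) [nat_lit 10263, nat_lit 5403, nat_lit 5943, nat_lit 5871, nat_lit 5895, nat_lit 5887] (nat_lit 0) [] false,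
   Spec.mk (nat_lit 5895) (nat_lit 2) [nat_lit 10269, nat_lit 5409, nat_lit 5949, nat_lit 5877, nat_lit 5889] (nat_lit 0) [] false,
   Spec.mk (nat_lit 5915) (nat_lit 0) [nat_lit 10289, nat_lit 5429, nat_lit 6077, nat_lit 5861, nat_lit 5917, nat_lit 25597] (nat_lit 0) [] false,
   Spec.mk (nat_lit 5917) (nat_lit 1) [nat_lit 10291, nat_lit 5431, nat_lit 6079, nat_lit 5863, nat_lit 5923, nat_lit 5915, nat_lit 5919, nat_lit 25599] (nat_lit 0) [] false,
   Spec.mk (nat_lit 5919) (nat_lit 0) [nat_lit 10293, nat_lit 5433, nat_lit 6081, nat_lit 5865, nat_lit 5925, nat_lit 5917] (nat_lit 0) [] false,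
   Spec.mk (nat_lit 5923) (nat_lit 0) [nat_lit 10297, nat_lit 5437, nat_lit 6085, nat_lit 5869, nat_lit 5941, nat_lit 5917, nat_lit 5925, nat_lit 25605] (nat_lit 0) [] false,
   Spec.mk (nat_lit 5925) (nat_lit 1) [nat_lit 10299, nat_lit 5439, nat_lit 6087, nat_lit 5871, nat_lit 5943, nat_lit 5919, nat_lit 5931, nat_lit 5923] (nat_lit 0) [] false,
   Spec.mk (nat_lit 5931) (nat_lit 0) [nat_lit 10305, nat_lit 5445, nat_lit 6093, nat_lit 5877, nat_lit 5949, nat_lit 5925] (nat_lit 0) [] false,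
   Spec.mk (nat_lit 5941) (nat_lit 1) [nat_lit 10315, nat_lit 5455, nat_lit 6103, nat_lit 5887, nat_lit 5995, nat_lit 5923, nat_lit 5943, nat_lit 25623] (nat_lit 0) [] false,
   Spec.mk (nat_lit 5943) (nat_lit 1) [nat_lit 10317, nat_lit 5457, nat_lit 6105, nat_lit 5889, nat_lit 5997, nat_lit 5925, nat_lit 5949, nat_lit 5941] (nat_lit 0) [] false,
   Spec.mk (nat_lit 5949) (nat_lit 2) [nat_lit 10323, nat_lit 5463, nat_lit 6111, nat_lit 5895, nat_lit 6003, nat_lit 5931, nat_lit 5967, nat_lit 5943] (nat_lit 0) [] false,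
   Spec.mk (nat_lit 5967) (nat_lit 2) [nat_lit 10341, nat_lit 5481, nat_lit 6129, nat_lit 6021, nat_lit 5949] (nat_lit 0) [] false,
   Spec.mk (nat_lit 5995) (nat_lit 0) [nat_lit 10369, nat_lit 5509, nat_lit 6157, nat_lit 5941, nat_lit 5997, nat_lit 25677] (nat_lit 0) [] false,
   Spec.mk (nat_lit 5997) (nat_lit 0) [nat_lit 10371, nat_lit 5511, nat_lit 6159, nat_lit 5943, nat_lit 6003, nat_lit 5995] (nat_lit 0) [] false,
   Spec.mk (nat_lit 6003) (nat_lit 0) [nat_lit 10377, nat_lit 5517, nat_lit 6165, nat_lit 5949, nat_lit 6021, nat_lit 5997] (nat_lit 0) [] false,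
   Spec.mk (nat_lit 6021) (nat_lit 2) [nat_lit 10395, nat_lit 5535, nat_lit 6183, nat_lit 5967, nat_lit 6003] (nat_lit 0) [] false,
   Spec.mk (nat_lit 6077) (nat_lit 2) [nat_lit 10451, nat_lit 5591, nat_lit 5915, nat_lit 6079, nat_lit 25759] (nat_lit 0) [] false,
   Spec.mk (nat_lit 6079) (nat_lit 3) [nat_lit 10453, nat_lit 5593, nat_lit 5917, nat_lit 6085, nat_lit 6077, nat_lit 6081, nat_lit 25761] (nat_lit 0) [] false,
   Spec.mk (nat_lit 6081) (nat_lit 2) [nat_lit 10455, nat_lit 5595, nat_lit 5919, nat_lit 6087, nat_lit 6079] (nat_lit 0) [] false,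
   Spec.mk (nat_lit 6085) (nat_lit 2) [nat_lit 10459, nat_lit 5599, nat_lit 5923, nat_lit 6103, nat_lit 6079, nat_lit 6087, nat_lit 25767] (nat_lit 0) [] false,
   Spec.mk (nat_lit 6087) (nat_lit 3) [nat_lit 10461, nat_lit 5601, nat_lit 5925, nat_lit 6105, nat_lit 6081, nat_lit 6093, nat_lit 6085] (nat_lit 0) [] false,
   Spec.mk (nat_lit 6093) (nat_lit 2) [nat_lit 10467, nat_lit 5607, nat_lit 5931, nat_lit 6111, nat_lit 6087] (nat_lit 0) [] false,
   Spec.mk (nat_lit 6103) (nat_lit 2) [nat_lit 10477, nat_lit 5617, nat_lit 5941, nat_lit 6157, nat_lit 6085, nat_lit 6105, nat_lit 25785] (nat_lit 0) [] false,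
   Spec.mk (nat_lit 6105) (nat_lit 2) [nat_lit 10479, nat_lit 5619, nat_lit 5943, nat_lit 6159, nat_lit 6087, nat_lit 6111, nat_lit 6103] (nat_lit 0) [] false,
   Spec.mk (nat_lit 6111) (nat_lit 3) [nat_lit 10485, nat_lit 5625, nat_lit 5949, nat_lit 6165, nat_lit 6093, nat_lit 6129, nat_lit 6105] (nat_lit 0) [] false,
   Spec.mk (nat_lit 6129) (nat_lit 2) [nat_lit 10503, nat_lit 5643, nat_lit 5967, nat_lit 6183, nat_lit 6111] (nat_lit 0) [] false,
   Spec.mk (nat_lit 6157) (nat_lit 3) [nat_lit 10531, nat_lit 5671, nat_lit 5995, nat_lit 6319, nat_lit 6103, nat_lit 6159, nat_lit 25839] (nat_lit 0) [] false,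
   Spec.mk (nat_lit 6159) (nat_lit 3) [nat_lit 10533, nat_lit 5673, nat_lit 5997, nat_lit 6321, nat_lit 6105, nat_lit 6165, nat_lit 6157] (nat_lit 0) [] false,
   Spec.mk (nat_lit 6165) (nat_lit 3) [nat_lit 10539, nat_lit 5679, nat_lit 6003, nat_lit 6327, nat_lit 6111, nat_lit 6183, nat_lit 6159] (nat_lit 0) [] false,
   Spec.mk (nat_lit 6183) (nat_lit 4) [nat_lit 10557, nat_lit 5697, nat_lit 6021, nat_lit 6345, nat_lit 6129, nat_lit 6237, nat_lit 6165] (nat_lit 0) [] false,
   Spec.mk (nat_lit 6237) (nat_lit 4) [nat_lit 10611, nat_lit 5751, nat_lit 6399, nat_lit 6183] (nat_lit 0) [] false,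
   Spec.mk (nat_lit 6319) (nat_lit 4) [nat_lit 10693, nat_lit 6157, nat_lit 6321, nat_lit 26001] (nat_lit 0) [] false,
   Spec.mk (nat_lit 6321) (nat_lit 4) [nat_lit 10695, nat_lit 6159, nat_lit 6327, nat_lit 6319] (nat_lit 0) [] false,
   Spec.mk (nat_lit 6327) (nat_lit 4) [nat_lit 10701, nat_lit 6165, nat_lit 6345, nat_lit 6321] (nat_lit 0) [] false,
   Spec.mk (nat_lit 6345) (nat_lit 4) [nat_lit 10719, nat_lit 6183, nat_lit 6399, nat_lit 6327] (nat_lit 0) [] false,
   Spec.mk (nat_lit 6399) (nat_lit 6) [nat_lit 10773, nat_lit 6237, nat_lit 6345] (nat_lit 0) [] false,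
   Spec.mk (nat_lit 6587) (nat_lit 4) [nat_lit 19709, nat_lit 2213, nat_lit 6605, nat_lit 26269] (nat_lit 0) [] false,
   Spec.mk (nat_lit 6605) (nat_lit 3) [nat_lit 19727, nat_lit 2231, nat_lit 6659, nat_lit 6587, nat_lit 6623, nat_lit 6611, nat_lit 26287] (nat_lit 0) [] false,
   Spec.mk (nat_lit 6611) (nat_lit 2) [nat_lit 19733, nat_lit 2237, nat_lit 6665, nat_lit 6629, nat_lit 6605, nat_lit 6613, nat_lit 26293] (nat_lit 0) [] false,
   Spec.mk (nat_lit 6613) (nat_lit 4) [nat_lit 19735, nat_lit 2239, nat_lit 6667, nat_lit 6631, nat_lit 6611, nat_lit 26295] (nat_lit 0) [] false]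

noncomputable def sp17 : List Spec :=
  [Spec.mk (nat_lit 6623) (nat_lit 0) [nat_lit 19745, nat_lit 2249, nat_lit 6677, nat_lit 6605, nat_lit 6629, nat_lit 26305] (nat_lit 0) [] false,
   Spec.mk (nat_lit 6629) (nat_lit 1) [nat_lit 19751, nat_lit 2255, nat_lit 6683, nat_lit 6611, nat_lit 6623, nat_lit 6635, nat_lit 6631, nat_lit 26311] (nat_lit 0) [] false,
   Spec.mk (nat_lit 6631) (nat_lit 2) [nat_lit 19753, nat_lit 2257, nat_lit 6685, nat_lit 6613, nat_lit 6637, nat_lit 6629, nat_lit 26313] (nat_lit 0) [] false,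
   Spec.mk (nat_lit 6635) (nat_lit 0) [nat_lit 19757, nat_lit 2261, nat_lit 6689, nat_lit 6629, nat_lit 6637, nat_lit 26317] (nat_lit 0) [] false,
   Spec.mk (nat_lit 6637) (nat_lit 3) [nat_lit 19759, nat_lit 2263, nat_lit 6691, nat_lit 6631, nat_lit 6635, nat_lit 6639, nat_lit 26319] (nat_lit 0) [] false,
   Spec.mk (nat_lit 6639) (nat_lit 4) [nat_lit 19761, nat_lit 2265, nat_lit 6693, nat_lit 6637] (nat_lit 0) [] false,
   Spec.mk (nat_lit 6659) (nat_lit 2) [nat_lit 19781, nat_lit 2285, nat_lit 6821, nat_lit 6605, nat_lit 6677, nat_lit 6665, nat_lit 26341] (nat_lit 0) [] false,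
   Spec.mk (nat_lit 6665) (nat_lit 0) [nat_lit 19787, nat_lit 2291, nat_lit 6827, nat_lit 6611, nat_lit 6683, nat_lit 6659, nat_lit 6667, nat_lit 26347] (nat_lit 0) [] false,
   Spec.mk (nat_lit 6667) (nat_lit 2) [nat_lit 19789, nat_lit 2293, nat_lit 6829, nat_lit 6613, nat_lit 6685, nat_lit 6665, nat_lit 26349] (nat_lit 0) [] false,
   Spec.mk (nat_lit 6677) (nat_lit 1) [nat_lit 19799, nat_lit 2303, nat_lit 6839, nat_lit 6623, nat_lit 6731, nat_lit 6659, nat_lit 6683, nat_lit 26359] (nat_lit 0) [] false,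
   Spec.mk (nat_lit 6683) (nat_lit 1) [nat_lit 19805, nat_lit 2309, nat_lit 6845, nat_lit 6629, nat_lit 6737, nat_lit 6665, nat_lit 6701, nat_lit 6677, nat_lit 6689, nat_lit 6685, nat_lit 26365] (nat_lit 0) [] false,
   Spec.mk (nat_lit 6685) (nat_lit 2) [nat_lit 19807, nat_lit 2311, nat_lit 6847, nat_lit 6631, nat_lit 6739, nat_lit 6667, nat_lit 6703, nat_lit 6691, nat_lit 6683, nat_lit 26367] (nat_lit 0) [] false,
   Spec.mk (nat_lit 6689) (nat_lit 0) [nat_lit 19811, nat_lit 2315, nat_lit 6851, nat_lit 6635, nat_lit 6743, nat_lit 6707, nat_lit 6683, nat_lit 6691, nat_lit 26371] (nat_lit 1) [] false,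
   Spec.mk (nat_lit 6691) (nat_lit 2) [nat_lit 19813, nat_lit 2317, nat_lit 6853, nat_lit 6637, nat_lit 6745, nat_lit 6709, nat_lit 6685, nat_lit 6689, nat_lit 6693, nat_lit 26373] (nat_lit 0) [] false,
   Spec.mk (nat_lit 6693) (nat_lit 3) [nat_lit 19815, nat_lit 2319, nat_lit 6855, nat_lit 6639, nat_lit 6747, nat_lit 6711, nat_lit 6691] (nat_lit 0) [] false,
   Spec.mk (nat_lit 6701) (nat_lit 0) [nat_lit 19823, nat_lit 2327, nat_lit 6863, nat_lit 6755, nat_lit 6683, nat_lit 6707, nat_lit 6703, nat_lit 26383] (nat_lit 0) [] false,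
   Spec.mk (nat_lit 6703) (nat_lit 0) [nat_lit 19825, nat_lit 2329, nat_lit 6865, nat_lit 6757, nat_lit 6685, nat_lit 6709, nat_lit 6701, nat_lit 26385] (nat_lit 0) [] false,
   Spec.mk (nat_lit 6707) (nat_lit 0) [nat_lit 19829, nat_lit 2333, nat_lit 6869, nat_lit 6761, nat_lit 6689, nat_lit 6701, nat_lit 6709, nat_lit 26389] (nat_lit 0) [] false,
   Spec.mk (nat_lit 6709) (nat_lit 2) [nat_lit 19831, nat_lit 2335, nat_lit 6871, nat_lit 6763, nat_lit 6691, nat_lit 6703, nat_lit 6715, nat_lit 6707, nat_lit 6711, nat_lit 26391] (nat_lit 0) [] false,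
   Spec.mk (nat_lit 6711) (nat_lit 2) [nat_lit 19833, nat_lit 2337, nat_lit 6873, nat_lit 6765, nat_lit 6693, nat_lit 6717, nat_lit 6709] (nat_lit 0) [] false,
   Spec.mk (nat_lit 6715) (nat_lit 2) [nat_lit 19837, nat_lit 2341, nat_lit 6877, nat_lit 6769, nat_lit 6709, nat_lit 6717, nat_lit 26397] (nat_lit 0) [] false,
   Spec.mk (nat_lit 6717) (nat_lit 4) [nat_lit 19839, nat_lit 2343, nat_lit 6879, nat_lit 6771, nat_lit 6711, nat_lit 6715] (nat_lit 0) [] false,
   Spec.mk (nat_lit 6731) (nat_lit 0) [nat_lit 19853, nat_lit 2357, nat_lit 6893, nat_lit 6677, nat_lit 6737, nat_lit 26413] (nat_lit 0) [] false,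
   Spec.mk (nat_lit 6737) (nat_lit 0) [nat_lit 19859, nat_lit 2363, nat_lit 6899, nat_lit 6683, nat_lit 6755, nat_lit 6731, nat_lit 6743, nat_lit 6739, nat_lit 26419] (nat_lit 1) [] false,
   Spec.mk (nat_lit 6739) (nat_lit 0) [nat_lit 19861, nat_lit 2365, nat_lit 6901, nat_lit 6685, nat_lit 6757, nat_lit 6745, nat_lit 6737, nat_lit 26421] (nat_lit 0) [] false,
   Spec.mk (nat_lit 6743) (nat_lit 0) [nat_lit 19865, nat_lit 2369, nat_lit 6905, nat_lit 6689, nat_lit 6761, nat_lit 6737, nat_lit 6745, nat_lit 26425] (nat_lit 4) [] false,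
   Spec.mk (nat_lit 6745) (nat_lit 0) [nat_lit 19867, nat_lit 2371, nat_lit 6907, nat_lit 6691, nat_lit 6763, nat_lit 6739, nat_lit 6743, nat_lit 6747, nat_lit 26427] (nat_lit 1) [] false,
   Spec.mk (nat_lit 6747) (nat_lit 0) [nat_lit 19869, nat_lit 2373, nat_lit 6909, nat_lit 6693, nat_lit 6765, nat_lit 6745] (nat_lit 0) [] false,
   Spec.mk (nat_lit 6755) (nat_lit 0) [nat_lit 19877, nat_lit 2381, nat_lit 6917, nat_lit 6701, nat_lit 6737, nat_lit 6761, nat_lit 6757, nat_lit 26437] (nat_lit 0) [] false,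
   Spec.mk (nat_lit 6757) (nat_lit 0) [nat_lit 19879, nat_lit 2383, nat_lit 6919, nat_lit 6703, nat_lit 6739, nat_lit 6763, nat_lit 6755, nat_lit 26439] (nat_lit 0) [] false,
   Spec.mk (nat_lit 6761) (nat_lit 0) [nat_lit 19883, nat_lit 2387, nat_lit 6923, nat_lit 6707, nat_lit 6743, nat_lit 6779, nat_lit 6755, nat_lit 6763, nat_lit 26443] (nat_lit 1) [] false,
   Spec.mk (nat_lit 6763) (nat_lit 1) [nat_lit 19885, nat_lit 2389, nat_lit 6925, nat_lit 6709, nat_lit 6745, nat_lit 6781, nat_lit 6757, nat_lit 6769, nat_lit 6761, nat_lit 6765, nat_lit 26445] (nat_lit 0) [] false,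
   Spec.mk (nat_lit 6765) (nat_lit 1) [nat_lit 19887, nat_lit 2391, nat_lit 6927, nat_lit 6711, nat_lit 6747, nat_lit 6783, nat_lit 6771, nat_lit 6763] (nat_lit 0) [] false,
   Spec.mk (nat_lit 6769) (nat_lit 0) [nat_lit 19891, nat_lit 2395, nat_lit 6931, nat_lit 6715, nat_lit 6787, nat_lit 6763, nat_lit 6771, nat_lit 26451] (nat_lit 0) [] false,
   Spec.mk (nat_lit 6771) (nat_lit 2) [nat_lit 19893, nat_lit 2397, nat_lit 6933, nat_lit 6717, nat_lit 6789, nat_lit 6765, nat_lit 6769] (nat_lit 0) [] false,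
   Spec.mk (nat_lit 6779) (nat_lit 0) [nat_lit 19901, nat_lit 2405, nat_lit 6941, nat_lit 6761, nat_lit 6781, nat_lit 26461] (nat_lit 0) [] false,
   Spec.mk (nat_lit 6781) (nat_lit 1) [nat_lit 19903, nat_lit 2407, nat_lit 6943, nat_lit 6763, nat_lit 6787, nat_lit 6779, nat_lit 6783, nat_lit 26463] (nat_lit 0) [] false,
   Spec.mk (nat_lit 6783) (nat_lit 0) [nat_lit 19905, nat_lit 2409, nat_lit 6945, nat_lit 6765, nat_lit 6789, nat_lit 6781] (nat_lit 0) [] false,
   Spec.mk (nat_lit 6787) (nat_lit 2) [nat_lit 19909, nat_lit 2413, nat_lit 6949, nat_lit 6769, nat_lit 6781, nat_lit 6789, nat_lit 26469] (nat_lit 0) [] false,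
   Spec.mk (nat_lit 6789) (nat_lit 3) [nat_lit 19911, nat_lit 2415, nat_lit 6951, nat_lit 6771, nat_lit 6783, nat_lit 6795, nat_lit 6787] (nat_lit 0) [] false,
   Spec.mk (nat_lit 6795) (nat_lit 4) [nat_lit 19917, nat_lit 2421, nat_lit 6957, nat_lit 6789] (nat_lit 0) [] false,
   Spec.mk (nat_lit 6821) (nat_lit 2) [nat_lit 19943, nat_lit 2447, nat_lit 7307, nat_lit 6659, nat_lit 6839, nat_lit 6827, nat_lit 26503] (nat_lit 0) [] false,
   Spec.mk (nat_lit 6827) (nat_lit 0) [nat_lit 19949, nat_lit 2453, nat_lit 7313, nat_lit 6665, nat_lit 6845, nat_lit 6821, nat_lit 6829, nat_lit 26509] (nat_lit 0) [] false,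
   Spec.mk (nat_lit 6829) (nat_lit 2) [nat_lit 19951, nat_lit 2455, nat_lit 7315, nat_lit 6667, nat_lit 6847, nat_lit 6827, nat_lit 26511] (nat_lit 0) [] false,
   Spec.mk (nat_lit 6839) (nat_lit 0) [nat_lit 19961, nat_lit 2465, nat_lit 7325, nat_lit 6677, nat_lit 6893, nat_lit 6821, nat_lit 6845, nat_lit 26521] (nat_lit 0) [] false,
   Spec.mk (nat_lit 6845) (nat_lit 0) [nat_lit 19967, nat_lit 2471, nat_lit 7331, nat_lit 6683, nat_lit 6899, nat_lit 6827, nat_lit 6863, nat_lit 6839, nat_lit 6851, nat_lit 6847, nat_lit 26527] (nat_lit 0) [] false,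
   Spec.mk (nat_lit 6847) (nat_lit 1) [nat_lit 19969, nat_lit 2473, nat_lit 7333, nat_lit 6685, nat_lit 6901, nat_lit 6829, nat_lit 6865, nat_lit 6853, nat_lit 6845, nat_lit 26529] (nat_lit 0) [] false,
   Spec.mk (nat_lit 6851) (nat_lit 0) [nat_lit 19973, nat_lit 2477, nat_lit 7337, nat_lit 6689, nat_lit 6905, nat_lit 6869, nat_lit 6845, nat_lit 6853, nat_lit 26533] (nat_lit 2) [] false,
   Spec.mk (nat_lit 6853) (nat_lit 1) [nat_lit 19975, nat_lit 2479, nat_lit 7339, nat_lit 6691, nat_lit 6907, nat_lit 6871, nat_lit 6847, nat_lit 6851, nat_lit 6855, nat_lit 26535] (nat_lit 0) [] false,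
   Spec.mk (nat_lit 6855) (nat_lit 2) [nat_lit 19977, nat_lit 2481, nat_lit 7341, nat_lit 6693, nat_lit 6909, nat_lit 6873, nat_lit 6853] (nat_lit 0) [] false,
   Spec.mk (nat_lit 6863) (nat_lit 0) [nat_lit 19985, nat_lit 2489, nat_lit 7349, nat_lit 6701, nat_lit 6917, nat_lit 6845, nat_lit 6869, nat_lit 6865, nat_lit 26545] (nat_lit 2) [] false,
   Spec.mk (nat_lit 6865) (nat_lit 0) [nat_lit 19987, nat_lit 2491, nat_lit 7351, nat_lit 6703, nat_lit 6919, nat_lit 6847, nat_lit 6871, nat_lit 6863, nat_lit 26547] (nat_lit 2) [] false,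
   Spec.mk (nat_lit 6869) (nat_lit 0) [nat_lit 19991, nat_lit 2495, nat_lit 7355, nat_lit 6707, nat_lit 6923, nat_lit 6851, nat_lit 6863, nat_lit 6871, nat_lit 26551] (nat_lit 2) [] false,
   Spec.mk (nat_lit 6871) (nat_lit 0) [nat_lit 19993, nat_lit 2497, nat_lit 7357, nat_lit 6709, nat_lit 6925, nat_lit 6853, nat_lit 6865, nat_lit 6877, nat_lit 6869, nat_lit 6873, nat_lit 26553] (nat_lit 0) [] false,
   Spec.mk (nat_lit 6873) (nat_lit 0) [nat_lit 19995, nat_lit 2499, nat_lit 7359, nat_lit 6711, nat_lit 6927, nat_lit 6855, nat_lit 6879, nat_lit 6871] (nat_lit 0) [] false,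
   Spec.mk (nat_lit 6877) (nat_lit 0) [nat_lit 19999, nat_lit 2503, nat_lit 7363, nat_lit 6715, nat_lit 6931, nat_lit 6871, nat_lit 6879, nat_lit 26559] (nat_lit 0) [] false,
   Spec.mk (nat_lit 6879) (nat_lit 2) [nat_lit 20001, nat_lit 2505, nat_lit 7365, nat_lit 6717, nat_lit 6933, nat_lit 6873, nat_lit 6877] (nat_lit 0) [] false,
   Spec.mk (nat_lit 6893) (nat_lit 1) [nat_lit 20015, nat_lit 2519, nat_lit 7379, nat_lit 6731, nat_lit 7055, nat_lit 6839, nat_lit 6899, nat_lit 26575] (nat_lit 0) [] false,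
   Spec.mk (nat_lit 6899) (nat_lit 0) [nat_lit 20021, nat_lit 2525, nat_lit 7385, nat_lit 6737, nat_lit 7061, nat_lit 6845, nat_lit 6917, nat_lit 6893, nat_lit 6905, nat_lit 6901, nat_lit 26581] (nat_lit 0) [] false,
   Spec.mk (nat_lit 6901) (nat_lit 1) [nat_lit 20023, nat_lit 2527, nat_lit 7387, nat_lit 6739, nat_lit 7063, nat_lit 6847, nat_lit 6919, nat_lit 6907, nat_lit 6899, nat_lit 26583] (nat_lit 0) [] false]

noncomputable def sp18 : List Spec :=
  [Spec.mk (nat_lit 6905) (nat_lit 0) [nat_lit 20027, nat_lit 2531, nat_lit 7391, nat_lit 6743, nat_lit 7067, nat_lit 6851, nat_lit 6923, nat_lit 6899, nat_lit 6907, nat_lit 26587] (nat_lit 3) [] false,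
   Spec.mk (nat_lit 6907) (nat_lit 0) [nat_lit 20029, nat_lit 2533, nat_lit 7393, nat_lit 6745, nat_lit 7069, nat_lit 6853, nat_lit 6925, nat_lit 6901, nat_lit 6905, nat_lit 6909, nat_lit 26589] (nat_lit 0) [] false,
   Spec.mk (nat_lit 6909) (nat_lit 1) [nat_lit 20031, nat_lit 2535, nat_lit 7395, nat_lit 6747, nat_lit 7071, nat_lit 6855, nat_lit 6927, nat_lit 6907] (nat_lit 0) [] false,
   Spec.mk (nat_lit 6917) (nat_lit 0) [nat_lit 20039, nat_lit 2543, nat_lit 7403, nat_lit 6755, nat_lit 7079, nat_lit 6863, nat_lit 6971, nat_lit 6899, nat_lit 6923, nat_lit 6919, nat_lit 26599] (nat_lit 0) [] false,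
   Spec.mk (nat_lit 6919) (nat_lit 0) [nat_lit 20041, nat_lit 2545, nat_lit 7405, nat_lit 6757, nat_lit 7081, nat_lit 6865, nat_lit 6973, nat_lit 6901, nat_lit 6925, nat_lit 6917, nat_lit 26601] (nat_lit 0) [] false,
   Spec.mk (nat_lit 6923) (nat_lit 0) [nat_lit 20045, nat_lit 2549, nat_lit 7409, nat_lit 6761, nat_lit 7085, nat_lit 6869, nat_lit 6977, nat_lit 6905, nat_lit 6941, nat_lit 6917, nat_lit 6925, nat_lit 26605] (nat_lit 1) [] false,
   Spec.mk (nat_lit 6925) (nat_lit 1) [nat_lit 20047, nat_lit 2551, nat_lit 7411, nat_lit 6763, nat_lit 7087, nat_lit 6871, nat_lit 6979, nat_lit 6907, nat_lit 6943, nat_lit 6919, nat_lit 6931, nat_lit 6923, nat_lit 6927, nat_lit 26607] (nat_lit 0) [] false,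
   Spec.mk (nat_lit 6927) (nat_lit 1) [nat_lit 20049, nat_lit 2553, nat_lit 7413, nat_lit 6765, nat_lit 7089, nat_lit 6873, nat_lit 6981, nat_lit 6909, nat_lit 6945, nat_lit 6933, nat_lit 6925] (nat_lit 0) [] false,
   Spec.mk (nat_lit 6931) (nat_lit 0) [nat_lit 20053, nat_lit 2557, nat_lit 7417, nat_lit 6769, nat_lit 7093, nat_lit 6877, nat_lit 6985, nat_lit 6949, nat_lit 6925, nat_lit 6933, nat_lit 26613] (nat_lit 0) [] false,
   Spec.mk (nat_lit 6933) (nat_lit 2) [nat_lit 20055, nat_lit 2559, nat_lit 7419, nat_lit 6771, nat_lit 7095, nat_lit 6879, nat_lit 6987, nat_lit 6951, nat_lit 6927, nat_lit 6931] (nat_lit 0) [] false,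
   Spec.mk (nat_lit 6941) (nat_lit 0) [nat_lit 20063, nat_lit 2567, nat_lit 7427, nat_lit 6779, nat_lit 7103, nat_lit 6995, nat_lit 6923, nat_lit 6943, nat_lit 26623] (nat_lit 1) [] false,
   Spec.mk (nat_lit 6943) (nat_lit 0) [nat_lit 20065, nat_lit 2569, nat_lit 7429, nat_lit 6781, nat_lit 7105, nat_lit 6997, nat_lit 6925, nat_lit 6949, nat_lit 6941, nat_lit 6945, nat_lit 26625] (nat_lit 0) [] false,
   Spec.mk (nat_lit 6945) (nat_lit 0) [nat_lit 20067, nat_lit 2571, nat_lit 7431, nat_lit 6783, nat_lit 7107, nat_lit 6999, nat_lit 6927, nat_lit 6951, nat_lit 6943] (nat_lit 1) [] false,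
   Spec.mk (nat_lit 6949) (nat_lit 1) [nat_lit 20071, nat_lit 2575, nat_lit 7435, nat_lit 6787, nat_lit 7111, nat_lit 7003, nat_lit 6931, nat_lit 6943, nat_lit 6951, nat_lit 26631] (nat_lit 0) [] false,
   Spec.mk (nat_lit 6951) (nat_lit 2) [nat_lit 20073, nat_lit 2577, nat_lit 7437, nat_lit 6789, nat_lit 7113, nat_lit 7005, nat_lit 6933, nat_lit 6945, nat_lit 6957, nat_lit 6949] (nat_lit 0) [] false,
   Spec.mk (nat_lit 6957) (nat_lit 3) [nat_lit 20079, nat_lit 2583, nat_lit 7443, nat_lit 6795, nat_lit 7119, nat_lit 7011, nat_lit 6951] (nat_lit 0) [] false,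
   Spec.mk (nat_lit 6971) (nat_lit 0) [nat_lit 20093, nat_lit 2597, nat_lit 7457, nat_lit 7133, nat_lit 6917, nat_lit 6977, nat_lit 6973, nat_lit 26653] (nat_lit 0) [] false,
   Spec.mk (nat_lit 6973) (nat_lit 0) [nat_lit 20095, nat_lit 2599, nat_lit 7459, nat_lit 7135, nat_lit 6919, nat_lit 6979, nat_lit 6971, nat_lit 26655] (nat_lit 0) [] false,
   Spec.mk (nat_lit 6977) (nat_lit 0) [nat_lit 20099, nat_lit 2603, nat_lit 7463, nat_lit 7139, nat_lit 6923, nat_lit 6995, nat_lit 6971, nat_lit 6979, nat_lit 26659] (nat_lit 2) [] false,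
   Spec.mk (nat_lit 6979) (nat_lit 0) [nat_lit 20101, nat_lit 2605, nat_lit 7465, nat_lit 7141, nat_lit 6925, nat_lit 6997, nat_lit 6973, nat_lit 6985, nat_lit 6977, nat_lit 6981, nat_lit 26661] (nat_lit 0) [] false,
   Spec.mk (nat_lit 6981) (nat_lit 0) [nat_lit 20103, nat_lit 2607, nat_lit 7467, nat_lit 7143, nat_lit 6927, nat_lit 6999, nat_lit 6987, nat_lit 6979] (nat_lit 0) [] false,
   Spec.mk (nat_lit 6985) (nat_lit 0) [nat_lit 20107, nat_lit 2611, nat_lit 7471, nat_lit 7147, nat_lit 6931, nat_lit 7003, nat_lit 6979, nat_lit 6987, nat_lit 26667] (nat_lit 2) [] false,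
   Spec.mk (nat_lit 6987) (nat_lit 0) [nat_lit 20109, nat_lit 2613, nat_lit 7473, nat_lit 7149, nat_lit 6933, nat_lit 7005, nat_lit 6981, nat_lit 6985] (nat_lit 0) [] false,
   Spec.mk (nat_lit 6995) (nat_lit 0) [nat_lit 20117, nat_lit 2621, nat_lit 7481, nat_lit 7157, nat_lit 6941, nat_lit 6977, nat_lit 6997, nat_lit 26677] (nat_lit 0) [] false,
   Spec.mk (nat_lit 6997) (nat_lit 1) [nat_lit 20119, nat_lit 2623, nat_lit 7483, nat_lit 7159, nat_lit 6943, nat_lit 6979, nat_lit 7003, nat_lit 6995, nat_lit 6999, nat_lit 26679] (nat_lit 0) [] false,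
   Spec.mk (nat_lit 6999) (nat_lit 0) [nat_lit 20121, nat_lit 2625, nat_lit 7485, nat_lit 7161, nat_lit 6945, nat_lit 6981, nat_lit 7005, nat_lit 6997] (nat_lit 0) [] false,
   Spec.mk (nat_lit 7003) (nat_lit 1) [nat_lit 20125, nat_lit 2629, nat_lit 7489, nat_lit 7165, nat_lit 6949, nat_lit 6985, nat_lit 7021, nat_lit 6997, nat_lit 7005, nat_lit 26685] (nat_lit 0) [] false,
   Spec.mk (nat_lit 7005) (nat_lit 2) [nat_lit 20127, nat_lit 2631, nat_lit 7491, nat_lit 7167, nat_lit 6951, nat_lit 6987, nat_lit 7023, nat_lit 6999, nat_lit 7011, nat_lit 7003] (nat_lit 0) [] false,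
   Spec.mk (nat_lit 7011) (nat_lit 2) [nat_lit 20133, nat_lit 2637, nat_lit 7497, nat_lit 7173, nat_lit 6957, nat_lit 7029, nat_lit 7005] (nat_lit 0) [] false,
   Spec.mk (nat_lit 7021) (nat_lit 2) [nat_lit 20143, nat_lit 2647, nat_lit 7507, nat_lit 7183, nat_lit 7003, nat_lit 7023, nat_lit 26703] (nat_lit 0) [] false,
   Spec.mk (nat_lit 7023) (nat_lit 2) [nat_lit 20145, nat_lit 2649, nat_lit 7509, nat_lit 7185, nat_lit 7005, nat_lit 7029, nat_lit 7021] (nat_lit 0) [] false,
   Spec.mk (nat_lit 7029) (nat_lit 4) [nat_lit 20151, nat_lit 2655, nat_lit 7515, nat_lit 7191, nat_lit 7011, nat_lit 7023] (nat_lit 0) [] false,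
   Spec.mk (nat_lit 7055) (nat_lit 0) [nat_lit 20177, nat_lit 2681, nat_lit 7541, nat_lit 6893, nat_lit 7061, nat_lit 26737] (nat_lit 0) [] false,
   Spec.mk (nat_lit 7061) (nat_lit 0) [nat_lit 20183, nat_lit 2687, nat_lit 7547, nat_lit 6899, nat_lit 7079, nat_lit 7055, nat_lit 7067, nat_lit 7063, nat_lit 26743] (nat_lit 1) [] false,
   Spec.mk (nat_lit 7063) (nat_lit 0) [nat_lit 20185, nat_lit 2689, nat_lit 7549, nat_lit 6901, nat_lit 7081, nat_lit 7069, nat_lit 7061, nat_lit 26745] (nat_lit 0) [] false,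
   Spec.mk (nat_lit 7067) (nat_lit 0) [nat_lit 20189, nat_lit 2693, nat_lit 7553, nat_lit 6905, nat_lit 7085, nat_lit 7061, nat_lit 7069, nat_lit 26749] (nat_lit 4) [] false,
   Spec.mk (nat_lit 7069) (nat_lit 0) [nat_lit 20191, nat_lit 2695, nat_lit 7555, nat_lit 6907, nat_lit 7087, nat_lit 7063, nat_lit 7067, nat_lit 7071, nat_lit 26751] (nat_lit 1) [] false,
   Spec.mk (nat_lit 7071) (nat_lit 0) [nat_lit 20193, nat_lit 2697, nat_lit 7557, nat_lit 6909, nat_lit 7089, nat_lit 7069] (nat_lit 0) [] false,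
   Spec.mk (nat_lit 7079) (nat_lit 0) [nat_lit 20201, nat_lit 2705, nat_lit 7565, nat_lit 6917, nat_lit 7133, nat_lit 7061, nat_lit 7085, nat_lit 7081, nat_lit 26761] (nat_lit 2) [] false,
   Spec.mk (nat_lit 7081) (nat_lit 0) [nat_lit 20203, nat_lit 2707, nat_lit 7567, nat_lit 6919, nat_lit 7135, nat_lit 7063, nat_lit 7087, nat_lit 7079, nat_lit 26763] (nat_lit 2) [] false,
   Spec.mk (nat_lit 7085) (nat_lit 0) [nat_lit 20207, nat_lit 2711, nat_lit 7571, nat_lit 6923, nat_lit 7139, nat_lit 7067, nat_lit 7103, nat_lit 7079, nat_lit 7087, nat_lit 26767] (nat_lit 3) [] false,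
   Spec.mk (nat_lit 7087) (nat_lit 0) [nat_lit 20209, nat_lit 2713, nat_lit 7573, nat_lit 6925, nat_lit 7141, nat_lit 7069, nat_lit 7105, nat_lit 7081, nat_lit 7093, nat_lit 7085, nat_lit 7089, nat_lit 26769] (nat_lit 1) [] false,
   Spec.mk (nat_lit 7089) (nat_lit 0) [nat_lit 20211, nat_lit 2715, nat_lit 7575, nat_lit 6927, nat_lit 7143, nat_lit 7071, nat_lit 7107, nat_lit 7095, nat_lit 7087] (nat_lit 1) [] false,
   Spec.mk (nat_lit 7093) (nat_lit 0) [nat_lit 20215, nat_lit 2719, nat_lit 7579, nat_lit 6931, nat_lit 7147, nat_lit 7111, nat_lit 7087, nat_lit 7095, nat_lit 26775] (nat_lit 2) [] false,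
   Spec.mk (nat_lit 7095) (nat_lit 0) [nat_lit 20217, nat_lit 2721, nat_lit 7581, nat_lit 6933, nat_lit 7149, nat_lit 7113, nat_lit 7089, nat_lit 7093] (nat_lit 0) [] false,
   Spec.mk (nat_lit 7103) (nat_lit 0) [nat_lit 20225, nat_lit 2729, nat_lit 7589, nat_lit 6941, nat_lit 7157, nat_lit 7085, nat_lit 7105, nat_lit 26785] (nat_lit 4) [] false,
   Spec.mk (nat_lit 7105) (nat_lit 0) [nat_lit 20227, nat_lit 2731, nat_lit 7591, nat_lit 6943, nat_lit 7159, nat_lit 7087, nat_lit 7111, nat_lit 7103, nat_lit 7107, nat_lit 26787] (nat_lit 3) [] false,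
   Spec.mk (nat_lit 7107) (nat_lit 0) [nat_lit 20229, nat_lit 2733, nat_lit 7593, nat_lit 6945, nat_lit 7161, nat_lit 7089, nat_lit 7113, nat_lit 7105] (nat_lit 4) [] false,
   Spec.mk (nat_lit 7111) (nat_lit 0) [nat_lit 20233, nat_lit 2737, nat_lit 7597, nat_lit 6949, nat_lit 7165, nat_lit 7093, nat_lit 7105, nat_lit 7113, nat_lit 26793] (nat_lit 2) [] false,
   Spec.mk (nat_lit 7113) (nat_lit 0) [nat_lit 20235, nat_lit 2739, nat_lit 7599, nat_lit 6951, nat_lit 7167, nat_lit 7095, nat_lit 7107, nat_lit 7119, nat_lit 7111] (nat_lit 1) [] false,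
   Spec.mk (nat_lit 7119) (nat_lit 0) [nat_lit 20241, nat_lit 2745, nat_lit 7605, nat_lit 6957, nat_lit 7173, nat_lit 7113] (nat_lit 0) [] false,
   Spec.mk (nat_lit 7133) (nat_lit 0) [nat_lit 20255, nat_lit 2759, nat_lit 7619, nat_lit 6971, nat_lit 7079, nat_lit 7139, nat_lit 7135, nat_lit 26815] (nat_lit 0) [] false,
   Spec.mk (nat_lit 7135) (nat_lit 0) [nat_lit 20257, nat_lit 2761, nat_lit 7621, nat_lit 6973, nat_lit 7081, nat_lit 7141, nat_lit 7133, nat_lit 26817] (nat_lit 0) [] false,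
   Spec.mk (nat_lit 7139) (nat_lit 0) [nat_lit 20261, nat_lit 2765, nat_lit 7625, nat_lit 6977, nat_lit 7085, nat_lit 7157, nat_lit 7133, nat_lit 7141, nat_lit 26821] (nat_lit 2) [] false,
   Spec.mk (nat_lit 7141) (nat_lit 0) [nat_lit 20263, nat_lit 2767, nat_lit 7627, nat_lit 6979, nat_lit 7087, nat_lit 7159, nat_lit 7135, nat_lit 7147, nat_lit 7139, nat_lit 7143, nat_lit 26823] (nat_lit 0) [] false,
   Spec.mk (nat_lit 7143) (nat_lit 0) [nat_lit 20265, nat_lit 2769, nat_lit 7629, nat_lit 6981, nat_lit 7089, nat_lit 7161, nat_lit 7149, nat_lit 7141] (nat_lit 0) [] false,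
   Spec.mk (nat_lit 7147) (nat_lit 0) [nat_lit 20269, nat_lit 2773, nat_lit 7633, nat_lit 6985, nat_lit 7093, nat_lit 7165, nat_lit 7141, nat_lit 7149, nat_lit 26829] (nat_lit 2) [] false,
   Spec.mk (nat_lit 7149) (nat_lit 0) [nat_lit 20271, nat_lit 2775, nat_lit 7635, nat_lit 6987, nat_lit 7095, nat_lit 7167, nat_lit 7143, nat_lit 7147] (nat_lit 0) [] false,
   Spec.mk (nat_lit 7157) (nat_lit 0) [nat_lit 20279, nat_lit 2783, nat_lit 7643, nat_lit 6995, nat_lit 7103, nat_lit 7211, nat_lit 7139, nat_lit 7159, nat_lit 26839] (nat_lit 1) [] false,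
   Spec.mk (nat_lit 7159) (nat_lit 0) [nat_lit 20281, nat_lit 2785, nat_lit 7645, nat_lit 6997, nat_lit 7105, nat_lit 7213, nat_lit 7141, nat_lit 7165, nat_lit 7157, nat_lit 7161, nat_lit 26841] (nat_lit 0) [] false]

noncomputable def sp19 : List Spec :=
  [Spec.mk (nat_lit 7161) (nat_lit 0) [nat_lit 20283, nat_lit 2787, nat_lit 7647, nat_lit 6999, nat_lit 7107, nat_lit 7215, nat_lit 7143, nat_lit 7167, nat_lit 7159] (nat_lit 1) [] false,
   Spec.mk (nat_lit 7165) (nat_lit 0) [nat_lit 20287, nat_lit 2791, nat_lit 7651, nat_lit 7003, nat_lit 7111, nat_lit 7219, nat_lit 7147, nat_lit 7183, nat_lit 7159, nat_lit 7167, nat_lit 26847] (nat_lit 0) [] false,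
   Spec.mk (nat_lit 7167) (nat_lit 1) [nat_lit 20289, nat_lit 2793, nat_lit 7653, nat_lit 7005, nat_lit 7113, nat_lit 7221, nat_lit 7149, nat_lit 7185, nat_lit 7161, nat_lit 7173, nat_lit 7165] (nat_lit 0) [] false,
   Spec.mk (nat_lit 7173) (nat_lit 1) [nat_lit 20295, nat_lit 2799, nat_lit 7659, nat_lit 7011, nat_lit 7119, nat_lit 7227, nat_lit 7191, nat_lit 7167] (nat_lit 0) [] false,
   Spec.mk (nat_lit 7183) (nat_lit 0) [nat_lit 20305, nat_lit 2809, nat_lit 7669, nat_lit 7021, nat_lit 7237, nat_lit 7165, nat_lit 7185, nat_lit 26865] (nat_lit 0) [] false,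
   Spec.mk (nat_lit 7185) (nat_lit 0) [nat_lit 20307, nat_lit 2811, nat_lit 7671, nat_lit 7023, nat_lit 7239, nat_lit 7167, nat_lit 7191, nat_lit 7183] (nat_lit 0) [] false,
   Spec.mk (nat_lit 7191) (nat_lit 2) [nat_lit 20313, nat_lit 2817, nat_lit 7677, nat_lit 7029, nat_lit 7245, nat_lit 7173, nat_lit 7185] (nat_lit 0) [] false,
   Spec.mk (nat_lit 7211) (nat_lit 0) [nat_lit 20333, nat_lit 2837, nat_lit 7697, nat_lit 7157, nat_lit 7213, nat_lit 26893] (nat_lit 0) [] false,
   Spec.mk (nat_lit 7213) (nat_lit 1) [nat_lit 20335, nat_lit 2839, nat_lit 7699, nat_lit 7159, nat_lit 7219, nat_lit 7211, nat_lit 7215, nat_lit 26895] (nat_lit 0) [] false,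
   Spec.mk (nat_lit 7215) (nat_lit 0) [nat_lit 20337, nat_lit 2841, nat_lit 7701, nat_lit 7161, nat_lit 7221, nat_lit 7213] (nat_lit 0) [] false,
   Spec.mk (nat_lit 7219) (nat_lit 0) [nat_lit 20341, nat_lit 2845, nat_lit 7705, nat_lit 7165, nat_lit 7237, nat_lit 7213, nat_lit 7221, nat_lit 26901] (nat_lit 0) [] false,
   Spec.mk (nat_lit 7221) (nat_lit 1) [nat_lit 20343, nat_lit 2847, nat_lit 7707, nat_lit 7167, nat_lit 7239, nat_lit 7215, nat_lit 7227, nat_lit 7219] (nat_lit 0) [] false,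
   Spec.mk (nat_lit 7227) (nat_lit 0) [nat_lit 20349, nat_lit 2853, nat_lit 7713, nat_lit 7173, nat_lit 7245, nat_lit 7221] (nat_lit 0) [] false,
   Spec.mk (nat_lit 7237) (nat_lit 2) [nat_lit 20359, nat_lit 2863, nat_lit 7723, nat_lit 7183, nat_lit 7219, nat_lit 7239, nat_lit 26919] (nat_lit 0) [] false,
   Spec.mk (nat_lit 7239) (nat_lit 2) [nat_lit 20361, nat_lit 2865, nat_lit 7725, nat_lit 7185, nat_lit 7221, nat_lit 7245, nat_lit 7237] (nat_lit 0) [] false,
   Spec.mk (nat_lit 7245) (nat_lit 3) [nat_lit 20367, nat_lit 2871, nat_lit 7731, nat_lit 7191, nat_lit 7227, nat_lit 7263, nat_lit 7239] (nat_lit 0) [] false,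
   Spec.mk (nat_lit 7263) (nat_lit 4) [nat_lit 20385, nat_lit 2889, nat_lit 7749, nat_lit 7245] (nat_lit 0) [] false,
   Spec.mk (nat_lit 7307) (nat_lit 2) [nat_lit 20429, nat_lit 2933, nat_lit 8765, nat_lit 6821, nat_lit 7325, nat_lit 7313, nat_lit 26989] (nat_lit 0) [] false,
   Spec.mk (nat_lit 7313) (nat_lit 0) [nat_lit 20435, nat_lit 2939, nat_lit 8771, nat_lit 6827, nat_lit 7331, nat_lit 7307, nat_lit 7315, nat_lit 26995] (nat_lit 0) [] false,
   Spec.mk (nat_lit 7315) (nat_lit 2) [nat_lit 20437, nat_lit 2941, nat_lit 8773, nat_lit 6829, nat_lit 7333, nat_lit 7313, nat_lit 26997] (nat_lit 0) [] false,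
   Spec.mk (nat_lit 7325) (nat_lit 0) [nat_lit 20447, nat_lit 2951, nat_lit 8783, nat_lit 6839, nat_lit 7379, nat_lit 7307, nat_lit 7331, nat_lit 27007] (nat_lit 0) [] false,
   Spec.mk (nat_lit 7331) (nat_lit 0) [nat_lit 20453, nat_lit 2957, nat_lit 8789, nat_lit 6845, nat_lit 7385, nat_lit 7313, nat_lit 7349, nat_lit 7325, nat_lit 7337, nat_lit 7333, nat_lit 27013] (nat_lit 0) [] false,
   Spec.mk (nat_lit 7333) (nat_lit 1) [nat_lit 20455, nat_lit 2959, nat_lit 8791, nat_lit 6847, nat_lit 7387, nat_lit 7315, nat_lit 7351, nat_lit 7339, nat_lit 7331, nat_lit 27015] (nat_lit 0) [] false,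
   Spec.mk (nat_lit 7337) (nat_lit 0) [nat_lit 20459, nat_lit 2963, nat_lit 8795, nat_lit 6851, nat_lit 7391, nat_lit 7355, nat_lit 7331, nat_lit 7339, nat_lit 27019] (nat_lit 2) [] false,
   Spec.mk (nat_lit 7339) (nat_lit 1) [nat_lit 20461, nat_lit 2965, nat_lit 8797, nat_lit 6853, nat_lit 7393, nat_lit 7357, nat_lit 7333, nat_lit 7337, nat_lit 7341, nat_lit 27021] (nat_lit 0) [] false,
   Spec.mk (nat_lit 7341) (nat_lit 2) [nat_lit 20463, nat_lit 2967, nat_lit 8799, nat_lit 6855, nat_lit 7395, nat_lit 7359, nat_lit 7339] (nat_lit 0) [] false,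
   Spec.mk (nat_lit 7349) (nat_lit 0) [nat_lit 20471, nat_lit 2975, nat_lit 8807, nat_lit 6863, nat_lit 7403, nat_lit 7331, nat_lit 7355, nat_lit 7351, nat_lit 27031] (nat_lit 2) [] false,
   Spec.mk (nat_lit 7351) (nat_lit 0) [nat_lit 20473, nat_lit 2977, nat_lit 8809, nat_lit 6865, nat_lit 7405, nat_lit 7333, nat_lit 7357, nat_lit 7349, nat_lit 27033] (nat_lit 2) [] false,
   Spec.mk (nat_lit 7355) (nat_lit 0) [nat_lit 20477, nat_lit 2981, nat_lit 8813, nat_lit 6869, nat_lit 7409, nat_lit 7337, nat_lit 7349, nat_lit 7357, nat_lit 27037] (nat_lit 2) [] false,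
   Spec.mk (nat_lit 7357) (nat_lit 0) [nat_lit 20479, nat_lit 2983, nat_lit 8815, nat_lit 6871, nat_lit 7411, nat_lit 7339, nat_lit 7351, nat_lit 7363, nat_lit 7355, nat_lit 7359, nat_lit 27039] (nat_lit 0) [] false,
   Spec.mk (nat_lit 7359) (nat_lit 0) [nat_lit 20481, nat_lit 2985, nat_lit 8817, nat_lit 6873, nat_lit 7413, nat_lit 7341, nat_lit 7365, nat_lit 7357] (nat_lit 0) [] false,
   Spec.mk (nat_lit 7363) (nat_lit 0) [nat_lit 20485, nat_lit 2989, nat_lit 8821, nat_lit 6877, nat_lit 7417, nat_lit 7357, nat_lit 7365, nat_lit 27045] (nat_lit 0) [] false,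
   Spec.mk (nat_lit 7365) (nat_lit 2) [nat_lit 20487, nat_lit 2991, nat_lit 8823, nat_lit 6879, nat_lit 7419, nat_lit 7359, nat_lit 7363] (nat_lit 0) [] false,
   Spec.mk (nat_lit 7379) (nat_lit 0) [nat_lit 20501, nat_lit 3005, nat_lit 8837, nat_lit 6893, nat_lit 7541, nat_lit 7325, nat_lit 7385, nat_lit 27061] (nat_lit 0) [] false,
   Spec.mk (nat_lit 7385) (nat_lit 0) [nat_lit 20507, nat_lit 3011, nat_lit 8843, nat_lit 6899, nat_lit 7547, nat_lit 7331, nat_lit 7403, nat_lit 7379, nat_lit 7391, nat_lit 7387, nat_lit 27067] (nat_lit 1) [] true,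
   Spec.mk (nat_lit 7387) (nat_lit 0) [nat_lit 20509, nat_lit 3013, nat_lit 8845, nat_lit 6901, nat_lit 7549, nat_lit 7333, nat_lit 7405, nat_lit 7393, nat_lit 7385, nat_lit 27069] (nat_lit 0) [] true,
   Spec.mk (nat_lit 7391) (nat_lit 0) [nat_lit 20513, nat_lit 3017, nat_lit 8849, nat_lit 6905, nat_lit 7553, nat_lit 7337, nat_lit 7409, nat_lit 7385, nat_lit 7393, nat_lit 27073] (nat_lit 4) [] true,
   Spec.mk (nat_lit 7393) (nat_lit 0) [nat_lit 20515, nat_lit 3019, nat_lit 8851, nat_lit 6907, nat_lit 7555, nat_lit 7339, nat_lit 7411, nat_lit 7387, nat_lit 7391, nat_lit 7395, nat_lit 27075] (nat_lit 1) [] false,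
   Spec.mk (nat_lit 7395) (nat_lit 0) [nat_lit 20517, nat_lit 3021, nat_lit 8853, nat_lit 6909, nat_lit 7557, nat_lit 7341, nat_lit 7413, nat_lit 7393] (nat_lit 0) [] false,
   Spec.mk (nat_lit 7403) (nat_lit 0) [nat_lit 20525, nat_lit 3029, nat_lit 8861, nat_lit 6917, nat_lit 7565, nat_lit 7349, nat_lit 7457, nat_lit 7385, nat_lit 7409, nat_lit 7405, nat_lit 27085] (nat_lit 1) [] true,
   Spec.mk (nat_lit 7405) (nat_lit 0) [nat_lit 20527, nat_lit 3031, nat_lit 8863, nat_lit 6919, nat_lit 7567, nat_lit 7351, nat_lit 7459, nat_lit 7387, nat_lit 7411, nat_lit 7403, nat_lit 27087] (nat_lit 1) [] true,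
   Spec.mk (nat_lit 7409) (nat_lit 0) [nat_lit 20531, nat_lit 3035, nat_lit 8867, nat_lit 6923, nat_lit 7571, nat_lit 7355, nat_lit 7463, nat_lit 7391, nat_lit 7427, nat_lit 7403, nat_lit 7411, nat_lit 27091] (nat_lit 2) [] true,
   Spec.mk (nat_lit 7411) (nat_lit 0) [nat_lit 20533, nat_lit 3037, nat_lit 8869, nat_lit 6925, nat_lit 7573, nat_lit 7357, nat_lit 7465, nat_lit 7393, nat_lit 7429, nat_lit 7405, nat_lit 7417, nat_lit 7409, nat_lit 7413, nat_lit 27093] (nat_lit 0) [] true,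
   Spec.mk (nat_lit 7413) (nat_lit 0) [nat_lit 20535, nat_lit 3039, nat_lit 8871, nat_lit 6927, nat_lit 7575, nat_lit 7359, nat_lit 7467, nat_lit 7395, nat_lit 7431, nat_lit 7419, nat_lit 7411] (nat_lit 0) [] false,
   Spec.mk (nat_lit 7417) (nat_lit 0) [nat_lit 20539, nat_lit 3043, nat_lit 8875, nat_lit 6931, nat_lit 7579, nat_lit 7363, nat_lit 7471, nat_lit 7435, nat_lit 7411, nat_lit 7419, nat_lit 27099] (nat_lit 1) [] false,
   Spec.mk (nat_lit 7419) (nat_lit 1) [nat_lit 20541, nat_lit 3045, nat_lit 8877, nat_lit 6933, nat_lit 7581, nat_lit 7365, nat_lit 7473, nat_lit 7437, nat_lit 7413, nat_lit 7417] (nat_lit 0) [] false,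
   Spec.mk (nat_lit 7427) (nat_lit 0) [nat_lit 20549, nat_lit 3053, nat_lit 8885, nat_lit 6941, nat_lit 7589, nat_lit 7481, nat_lit 7409, nat_lit 7429, nat_lit 27109] (nat_lit 2) [] false,
   Spec.mk (nat_lit 7429) (nat_lit 0) [nat_lit 20551, nat_lit 3055, nat_lit 8887, nat_lit 6943, nat_lit 7591, nat_lit 7483, nat_lit 7411, nat_lit 7435, nat_lit 7427, nat_lit 7431, nat_lit 27111] (nat_lit 1) [] false,
   Spec.mk (nat_lit 7431) (nat_lit 0) [nat_lit 20553, nat_lit 3057, nat_lit 8889, nat_lit 6945, nat_lit 7593, nat_lit 7485, nat_lit 7413, nat_lit 7437, nat_lit 7429] (nat_lit 2) [] false,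
   Spec.mk (nat_lit 7435) (nat_lit 0) [nat_lit 20557, nat_lit 3061, nat_lit 8893, nat_lit 6949, nat_lit 7597, nat_lit 7489, nat_lit 7417, nat_lit 7429, nat_lit 7437, nat_lit 27117] (nat_lit 0) [] false,
   Spec.mk (nat_lit 7437) (nat_lit 1) [nat_lit 20559, nat_lit 3063, nat_lit 8895, nat_lit 6951, nat_lit 7599, nat_lit 7491, nat_lit 7419, nat_lit 7431, nat_lit 7443, nat_lit 7435] (nat_lit 0) [] false,
   Spec.mk (nat_lit 7443) (nat_lit 2) [nat_lit 20565, nat_lit 3069, nat_lit 8901, nat_lit 6957, nat_lit 7605, nat_lit 7497, nat_lit 7437] (nat_lit 0) [] false,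
   Spec.mk (nat_lit 7457) (nat_lit 0) [nat_lit 20579, nat_lit 3083, nat_lit 8915, nat_lit 6971, nat_lit 7619, nat_lit 7403, nat_lit 7463, nat_lit 7459, nat_lit 27139] (nat_lit 2) [] false,
   Spec.mk (nat_lit 7459) (nat_lit 0) [nat_lit 20581, nat_lit 3085, nat_lit 8917, nat_lit 6973, nat_lit 7621, nat_lit 7405, nat_lit 7465, nat_lit 7457, nat_lit 27141] (nat_lit 2) [] false,
   Spec.mk (nat_lit 7463) (nat_lit 0) [nat_lit 20585, nat_lit 3089, nat_lit 8921, nat_lit 6977, nat_lit 7625, nat_lit 7409, nat_lit 7481, nat_lit 7457, nat_lit 7465, nat_lit 27145] (nat_lit 4) [] true,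
   Spec.mk (nat_lit 7465) (nat_lit 0) [nat_lit 20587, nat_lit 3091, nat_lit 8923, nat_lit 6979, nat_lit 7627, nat_lit 7411, nat_lit 7483, nat_lit 7459, nat_lit 7471, nat_lit 7463, nat_lit 7467, nat_lit 27147] (nat_lit 2) [] false,
   Spec.mk (nat_lit 7467) (nat_lit 0) [nat_lit 20589, nat_lit 3093, nat_lit 8925, nat_lit 6981, nat_lit 7629, nat_lit 7413, nat_lit 7485, nat_lit 7473, nat_lit 7465] (nat_lit 2) [] false,
   Spec.mk (nat_lit 7471) (nat_lit 0) [nat_lit 20593, nat_lit 3097, nat_lit 8929, nat_lit 6985, nat_lit 7633, nat_lit 7417, nat_lit 7489, nat_lit 7465, nat_lit 7473, nat_lit 27153] (nat_lit 4) [] false,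
   Spec.mk (nat_lit 7473) (nat_lit 0) [nat_lit 20595, nat_lit 3099, nat_lit 8931, nat_lit 6987, nat_lit 7635, nat_lit 7419, nat_lit 7491, nat_lit 7467, nat_lit 7471] (nat_lit 2) [] false,
   Spec.mk (nat_lit 7481) (nat_lit 0) [nat_lit 20603, nat_lit 3107, nat_lit 8939, nat_lit 6995, nat_lit 7643, nat_lit 7427, nat_lit 7463, nat_lit 7483, nat_lit 27163] (nat_lit 2) [] false]

noncomputable def sp20 : List Spec :=
  [Spec.mk (nat_lit 7483) (nat_lit 0) [nat_lit 20605, nat_lit 3109, nat_lit 8941, nat_lit 6997, nat_lit 7645, nat_lit 7429, nat_lit 7465, nat_lit 7489, nat_lit 7481, nat_lit 7485, nat_lit 27165] (nat_lit 1) [] false,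
   Spec.mk (nat_lit 7485) (nat_lit 0) [nat_lit 20607, nat_lit 3111, nat_lit 8943, nat_lit 6999, nat_lit 7647, nat_lit 7431, nat_lit 7467, nat_lit 7491, nat_lit 7483] (nat_lit 2) [] false,
   Spec.mk (nat_lit 7489) (nat_lit 0) [nat_lit 20611, nat_lit 3115, nat_lit 8947, nat_lit 7003, nat_lit 7651, nat_lit 7435, nat_lit 7471, nat_lit 7507, nat_lit 7483, nat_lit 7491, nat_lit 27171] (nat_lit 1) [] false,
   Spec.mk (nat_lit 7491) (nat_lit 0) [nat_lit 20613, nat_lit 3117, nat_lit 8949, nat_lit 7005, nat_lit 7653, nat_lit 7437, nat_lit 7473, nat_lit 7509, nat_lit 7485, nat_lit 7497, nat_lit 7489] (nat_lit 0) [] false,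
   Spec.mk (nat_lit 7497) (nat_lit 0) [nat_lit 20619, nat_lit 3123, nat_lit 8955, nat_lit 7011, nat_lit 7659, nat_lit 7443, nat_lit 7515, nat_lit 7491] (nat_lit 0) [] false,
   Spec.mk (nat_lit 7507) (nat_lit 0) [nat_lit 20629, nat_lit 3133, nat_lit 8965, nat_lit 7021, nat_lit 7669, nat_lit 7489, nat_lit 7509, nat_lit 27189] (nat_lit 0) [] false,
   Spec.mk (nat_lit 7509) (nat_lit 0) [nat_lit 20631, nat_lit 3135, nat_lit 8967, nat_lit 7023, nat_lit 7671, nat_lit 7491, nat_lit 7515, nat_lit 7507] (nat_lit 0) [] false,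
   Spec.mk (nat_lit 7515) (nat_lit 2) [nat_lit 20637, nat_lit 3141, nat_lit 8973, nat_lit 7029, nat_lit 7677, nat_lit 7497, nat_lit 7509] (nat_lit 0) [] false,
   Spec.mk (nat_lit 7541) (nat_lit 1) [nat_lit 20663, nat_lit 3167, nat_lit 8999, nat_lit 7055, nat_lit 8027, nat_lit 7379, nat_lit 7547, nat_lit 27223] (nat_lit 0) [] false,
   Spec.mk (nat_lit 7547) (nat_lit 0) [nat_lit 20669, nat_lit 3173, nat_lit 9005, nat_lit 7061, nat_lit 8033, nat_lit 7385, nat_lit 7565, nat_lit 7541, nat_lit 7553, nat_lit 7549, nat_lit 27229] (nat_lit 0) [] false,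
   Spec.mk (nat_lit 7549) (nat_lit 1) [nat_lit 20671, nat_lit 3175, nat_lit 9007, nat_lit 7063, nat_lit 8035, nat_lit 7387, nat_lit 7567, nat_lit 7555, nat_lit 7547, nat_lit 27231] (nat_lit 0) [] false,
   Spec.mk (nat_lit 7553) (nat_lit 0) [nat_lit 20675, nat_lit 3179, nat_lit 9011, nat_lit 7067, nat_lit 8039, nat_lit 7391, nat_lit 7571, nat_lit 7547, nat_lit 7555, nat_lit 27235] (nat_lit 3) [] false,
   Spec.mk (nat_lit 7555) (nat_lit 0) [nat_lit 20677, nat_lit 3181, nat_lit 9013, nat_lit 7069, nat_lit 8041, nat_lit 7393, nat_lit 7573, nat_lit 7549, nat_lit 7553, nat_lit 7557, nat_lit 27237] (nat_lit 0) [] false,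
   Spec.mk (nat_lit 7557) (nat_lit 1) [nat_lit 20679, nat_lit 3183, nat_lit 9015, nat_lit 7071, nat_lit 8043, nat_lit 7395, nat_lit 7575, nat_lit 7555] (nat_lit 0) [] false,
   Spec.mk (nat_lit 7565) (nat_lit 0) [nat_lit 20687, nat_lit 3191, nat_lit 9023, nat_lit 7079, nat_lit 8051, nat_lit 7403, nat_lit 7619, nat_lit 7547, nat_lit 7571, nat_lit 7567, nat_lit 27247] (nat_lit 1) [] true,
   Spec.mk (nat_lit 7567) (nat_lit 0) [nat_lit 20689, nat_lit 3193, nat_lit 9025, nat_lit 7081, nat_lit 8053, nat_lit 7405, nat_lit 7621, nat_lit 7549, nat_lit 7573, nat_lit 7565, nat_lit 27249] (nat_lit 1) [] false,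
   Spec.mk (nat_lit 7571) (nat_lit 0) [nat_lit 20693, nat_lit 3197, nat_lit 9029, nat_lit 7085, nat_lit 8057, nat_lit 7409, nat_lit 7625, nat_lit 7553, nat_lit 7589, nat_lit 7565, nat_lit 7573, nat_lit 27253] (nat_lit 2) [] true,
   Spec.mk (nat_lit 7573) (nat_lit 0) [nat_lit 20695, nat_lit 3199, nat_lit 9031, nat_lit 7087, nat_lit 8059, nat_lit 7411, nat_lit 7627, nat_lit 7555, nat_lit 7591, nat_lit 7567, nat_lit 7579, nat_lit 7571, nat_lit 7575, nat_lit 27255] (nat_lit 0) [] true,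
   Spec.mk (nat_lit 7575) (nat_lit 0) [nat_lit 20697, nat_lit 3201, nat_lit 9033, nat_lit 7089, nat_lit 8061, nat_lit 7413, nat_lit 7629, nat_lit 7557, nat_lit 7593, nat_lit 7581, nat_lit 7573] (nat_lit 0) [] false,
   Spec.mk (nat_lit 7579) (nat_lit 0) [nat_lit 20701, nat_lit 3205, nat_lit 9037, nat_lit 7093, nat_lit 8065, nat_lit 7417, nat_lit 7633, nat_lit 7597, nat_lit 7573, nat_lit 7581, nat_lit 27261] (nat_lit 1) [] false,
   Spec.mk (nat_lit 7581) (nat_lit 1) [nat_lit 20703, nat_lit 3207, nat_lit 9039, nat_lit 7095, nat_lit 8067, nat_lit 7419, nat_lit 7635, nat_lit 7599, nat_lit 7575, nat_lit 7579] (nat_lit 0) [] false,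
   Spec.mk (nat_lit 7589) (nat_lit 0) [nat_lit 20711, nat_lit 3215, nat_lit 9047, nat_lit 7103, nat_lit 8075, nat_lit 7427, nat_lit 7643, nat_lit 7571, nat_lit 7591, nat_lit 27271] (nat_lit 3) [] false,
   Spec.mk (nat_lit 7591) (nat_lit 0) [nat_lit 20713, nat_lit 3217, nat_lit 9049, nat_lit 7105, nat_lit 8077, nat_lit 7429, nat_lit 7645, nat_lit 7573, nat_lit 7597, nat_lit 7589, nat_lit 7593, nat_lit 27273] (nat_lit 2) [] true,
   Spec.mk (nat_lit 7593) (nat_lit 0) [nat_lit 20715, nat_lit 3219, nat_lit 9051, nat_lit 7107, nat_lit 8079, nat_lit 7431, nat_lit 7647, nat_lit 7575, nat_lit 7599, nat_lit 7591] (nat_lit 3) [] false,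
   Spec.mk (nat_lit 7597) (nat_lit 0) [nat_lit 20719, nat_lit 3223, nat_lit 9055, nat_lit 7111, nat_lit 8083, nat_lit 7435, nat_lit 7651, nat_lit 7579, nat_lit 7591, nat_lit 7599, nat_lit 27279] (nat_lit 1) [] false,
   Spec.mk (nat_lit 7599) (nat_lit 0) [nat_lit 20721, nat_lit 3225, nat_lit 9057, nat_lit 7113, nat_lit 8085, nat_lit 7437, nat_lit 7653, nat_lit 7581, nat_lit 7593, nat_lit 7605, nat_lit 7597] (nat_lit 0) [] false,
   Spec.mk (nat_lit 7605) (nat_lit 1) [nat_lit 20727, nat_lit 3231, nat_lit 9063, nat_lit 7119, nat_lit 8091, nat_lit 7443, nat_lit 7659, nat_lit 7599] (nat_lit 0) [] false,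
   Spec.mk (nat_lit 7619) (nat_lit 0) [nat_lit 20741, nat_lit 3245, nat_lit 9077, nat_lit 7133, nat_lit 8105, nat_lit 7457, nat_lit 7781, nat_lit 7565, nat_lit 7625, nat_lit 7621, nat_lit 27301] (nat_lit 0) [] false,
   Spec.mk (nat_lit 7621) (nat_lit 0) [nat_lit 20743, nat_lit 3247, nat_lit 9079, nat_lit 7135, nat_lit 8107, nat_lit 7459, nat_lit 7783, nat_lit 7567, nat_lit 7627, nat_lit 7619, nat_lit 27303] (nat_lit 0) [] false,
   Spec.mk (nat_lit 7625) (nat_lit 0) [nat_lit 20747, nat_lit 3251, nat_lit 9083, nat_lit 7139, nat_lit 8111, nat_lit 7463, nat_lit 7787, nat_lit 7571, nat_lit 7643, nat_lit 7619, nat_lit 7627, nat_lit 27307] (nat_lit 2) [] true,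
   Spec.mk (nat_lit 7627) (nat_lit 0) [nat_lit 20749, nat_lit 3253, nat_lit 9085, nat_lit 7141, nat_lit 8113, nat_lit 7465, nat_lit 7789, nat_lit 7573, nat_lit 7645, nat_lit 7621, nat_lit 7633, nat_lit 7625, nat_lit 7629, nat_lit 27309] (nat_lit 0) [] true,
   Spec.mk (nat_lit 7629) (nat_lit 0) [nat_lit 20751, nat_lit 3255, nat_lit 9087, nat_lit 7143, nat_lit 8115, nat_lit 7467, nat_lit 7791, nat_lit 7575, nat_lit 7647, nat_lit 7635, nat_lit 7627] (nat_lit 0) [] false,
   Spec.mk (nat_lit 7633) (nat_lit 0) [nat_lit 20755, nat_lit 3259, nat_lit 9091, nat_lit 7147, nat_lit 8119, nat_lit 7471, nat_lit 7795, nat_lit 7579, nat_lit 7651, nat_lit 7627, nat_lit 7635, nat_lit 27315] (nat_lit 2) [] false,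
   Spec.mk (nat_lit 7635) (nat_lit 0) [nat_lit 20757, nat_lit 3261, nat_lit 9093, nat_lit 7149, nat_lit 8121, nat_lit 7473, nat_lit 7797, nat_lit 7581, nat_lit 7653, nat_lit 7629, nat_lit 7633] (nat_lit 0) [] false,
   Spec.mk (nat_lit 7643) (nat_lit 0) [nat_lit 20765, nat_lit 3269, nat_lit 9101, nat_lit 7157, nat_lit 8129, nat_lit 7481, nat_lit 7805, nat_lit 7589, nat_lit 7697, nat_lit 7625, nat_lit 7645, nat_lit 27325] (nat_lit 1) [] false,
   Spec.mk (nat_lit 7645) (nat_lit 0) [nat_lit 20767, nat_lit 3271, nat_lit 9103, nat_lit 7159, nat_lit 8131, nat_lit 7483, nat_lit 7807, nat_lit 7591, nat_lit 7699, nat_lit 7627, nat_lit 7651, nat_lit 7643, nat_lit 7647, nat_lit 27327] (nat_lit 0) [] false,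
   Spec.mk (nat_lit 7647) (nat_lit 0) [nat_lit 20769, nat_lit 3273, nat_lit 9105, nat_lit 7161, nat_lit 8133, nat_lit 7485, nat_lit 7809, nat_lit 7593, nat_lit 7701, nat_lit 7629, nat_lit 7653, nat_lit 7645] (nat_lit 1) [] false,
   Spec.mk (nat_lit 7651) (nat_lit 0) [nat_lit 20773, nat_lit 3277, nat_lit 9109, nat_lit 7165, nat_lit 8137, nat_lit 7489, nat_lit 7813, nat_lit 7597, nat_lit 7705, nat_lit 7633, nat_lit 7669, nat_lit 7645, nat_lit 7653, nat_lit 27333] (nat_lit 0) [] false,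
   Spec.mk (nat_lit 7653) (nat_lit 1) [nat_lit 20775, nat_lit 3279, nat_lit 9111, nat_lit 7167, nat_lit 8139, nat_lit 7491, nat_lit 7815, nat_lit 7599, nat_lit 7707, nat_lit 7635, nat_lit 7671, nat_lit 7647, nat_lit 7659, nat_lit 7651] (nat_lit 0) [] false,
   Spec.mk (nat_lit 7659) (nat_lit 1) [nat_lit 20781, nat_lit 3285, nat_lit 9117, nat_lit 7173, nat_lit 8145, nat_lit 7497, nat_lit 7821, nat_lit 7605, nat_lit 7713, nat_lit 7677, nat_lit 7653] (nat_lit 0) [] false,
   Spec.mk (nat_lit 7669) (nat_lit 0) [nat_lit 20791, nat_lit 3295, nat_lit 9127, nat_lit 7183, nat_lit 8155, nat_lit 7507, nat_lit 7831, nat_lit 7723, nat_lit 7651, nat_lit 7671, nat_lit 27351] (nat_lit 0) [] false,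
   Spec.mk (nat_lit 7671) (nat_lit 0) [nat_lit 20793, nat_lit 3297, nat_lit 9129, nat_lit 7185, nat_lit 8157, nat_lit 7509, nat_lit 7833, nat_lit 7725, nat_lit 7653, nat_lit 7677, nat_lit 7669] (nat_lit 0) [] false,
   Spec.mk (nat_lit 7677) (nat_lit 2) [nat_lit 20799, nat_lit 3303, nat_lit 9135, nat_lit 7191, nat_lit 8163, nat_lit 7515, nat_lit 7839, nat_lit 7731, nat_lit 7659, nat_lit 7671] (nat_lit 0) [] false,
   Spec.mk (nat_lit 7697) (nat_lit 0) [nat_lit 20819, nat_lit 3323, nat_lit 9155, nat_lit 7211, nat_lit 8183, nat_lit 7859, nat_lit 7643, nat_lit 7699, nat_lit 27379] (nat_lit 1) [] false,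
   Spec.mk (nat_lit 7699) (nat_lit 0) [nat_lit 20821, nat_lit 3325, nat_lit 9157, nat_lit 7213, nat_lit 8185, nat_lit 7861, nat_lit 7645, nat_lit 7705, nat_lit 7697, nat_lit 7701, nat_lit 27381] (nat_lit 0) [] false,
   Spec.mk (nat_lit 7701) (nat_lit 0) [nat_lit 20823, nat_lit 3327, nat_lit 9159, nat_lit 7215, nat_lit 8187, nat_lit 7863, nat_lit 7647, nat_lit 7707, nat_lit 7699] (nat_lit 1) [] false,
   Spec.mk (nat_lit 7705) (nat_lit 0) [nat_lit 20827, nat_lit 3331, nat_lit 9163, nat_lit 7219, nat_lit 8191, nat_lit 7867, nat_lit 7651, nat_lit 7723, nat_lit 7699, nat_lit 7707, nat_lit 27387] (nat_lit 1) [] false,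
   Spec.mk (nat_lit 7707) (nat_lit 0) [nat_lit 20829, nat_lit 3333, nat_lit 9165, nat_lit 7221, nat_lit 8193, nat_lit 7869, nat_lit 7653, nat_lit 7725, nat_lit 7701, nat_lit 7713, nat_lit 7705] (nat_lit 0) [] false,
   Spec.mk (nat_lit 7713) (nat_lit 0) [nat_lit 20835, nat_lit 3339, nat_lit 9171, nat_lit 7227, nat_lit 8199, nat_lit 7875, nat_lit 7659, nat_lit 7731, nat_lit 7707] (nat_lit 1) [] false,
   Spec.mk (nat_lit 7723) (nat_lit 1) [nat_lit 20845, nat_lit 3349, nat_lit 9181, nat_lit 7237, nat_lit 8209, nat_lit 7885, nat_lit 7669, nat_lit 7705, nat_lit 7725, nat_lit 27405] (nat_lit 0) [] false,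
   Spec.mk (nat_lit 7725) (nat_lit 1) [nat_lit 20847, nat_lit 3351, nat_lit 9183, nat_lit 7239, nat_lit 8211, nat_lit 7887, nat_lit 7671, nat_lit 7707, nat_lit 7731, nat_lit 7723] (nat_lit 0) [] false,
   Spec.mk (nat_lit 7731) (nat_lit 2) [nat_lit 20853, nat_lit 3357, nat_lit 9189, nat_lit 7245, nat_lit 8217, nat_lit 7893, nat_lit 7677, nat_lit 7713, nat_lit 7749, nat_lit 7725] (nat_lit 0) [] false,
   Spec.mk (nat_lit 7749) (nat_lit 3) [nat_lit 20871, nat_lit 3375, nat_lit 9207, nat_lit 7263, nat_lit 8235, nat_lit 7911, nat_lit 7731] (nat_lit 0) [] false,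
   Spec.mk (nat_lit 7781) (nat_lit 0) [nat_lit 20903, nat_lit 3407, nat_lit 9239, nat_lit 8267, nat_lit 7619, nat_lit 7787, nat_lit 7783, nat_lit 27463] (nat_lit 0) [] false,
   Spec.mk (nat_lit 7783) (nat_lit 0) [nat_lit 20905, nat_lit 3409, nat_lit 9241, nat_lit 8269, nat_lit 7621, nat_lit 7789, nat_lit 7781, nat_lit 27465] (nat_lit 0) [] false,
   Spec.mk (nat_lit 7787) (nat_lit 0) [nat_lit 20909, nat_lit 3413, nat_lit 9245, nat_lit 8273, nat_lit 7625, nat_lit 7805, nat_lit 7781, nat_lit 7789, nat_lit 27469] (nat_lit 2) [] false,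
   Spec.mk (nat_lit 7789) (nat_lit 0) [nat_lit 20911, nat_lit 3415, nat_lit 9247, nat_lit 8275, nat_lit 7627, nat_lit 7807, nat_lit 7783, nat_lit 7795, nat_lit 7787, nat_lit 7791, nat_lit 27471] (nat_lit 0) [] false,
   Spec.mk (nat_lit 7791) (nat_lit 0) [nat_lit 20913, nat_lit 3417, nat_lit 9249, nat_lit 8277, nat_lit 7629, nat_lit 7809, nat_lit 7797, nat_lit 7789] (nat_lit 0) [] false,
   Spec.mk (nat_lit 7795) (nat_lit 0) [nat_lit 20917, nat_lit 3421, nat_lit 9253, nat_lit 8281, nat_lit 7633, nat_lit 7813, nat_lit 7789, nat_lit 7797, nat_lit 27477] (nat_lit 2) [] false,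
   Spec.mk (nat_lit 7797) (nat_lit 0) [nat_lit 20919, nat_lit 3423, nat_lit 9255, nat_lit 8283, nat_lit 7635, nat_lit 7815, nat_lit 7791, nat_lit 7795] (nat_lit 0) [] false]

noncomputable def sp21 : List Spec :=
  [Spec.mk (nat_lit 7805) (nat_lit 0) [nat_lit 20927, nat_lit 3431, nat_lit 9263, nat_lit 8291, nat_lit 7643, nat_lit 7859, nat_lit 7787, nat_lit 7807, nat_lit 27487] (nat_lit 2) [] false,
   Spec.mk (nat_lit 7807) (nat_lit 0) [nat_lit 20929, nat_lit 3433, nat_lit 9265, nat_lit 8293, nat_lit 7645, nat_lit 7861, nat_lit 7789, nat_lit 7813, nat_lit 7805, nat_lit 7809, nat_lit 27489] (nat_lit 1) [] false,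
   Spec.mk (nat_lit 7809) (nat_lit 0) [nat_lit 20931, nat_lit 3435, nat_lit 9267, nat_lit 8295, nat_lit 7647, nat_lit 7863, nat_lit 7791, nat_lit 7815, nat_lit 7807] (nat_lit 2) [] false,
   Spec.mk (nat_lit 7813) (nat_lit 0) [nat_lit 20935, nat_lit 3439, nat_lit 9271, nat_lit 8299, nat_lit 7651, nat_lit 7867, nat_lit 7795, nat_lit 7831, nat_lit 7807, nat_lit 7815, nat_lit 27495] (nat_lit 1) [] false,
   Spec.mk (nat_lit 7815) (nat_lit 0) [nat_lit 20937, nat_lit 3441, nat_lit 9273, nat_lit 8301, nat_lit 7653, nat_lit 7869, nat_lit 7797, nat_lit 7833, nat_lit 7809, nat_lit 7821, nat_lit 7813] (nat_lit 0) [] false,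
   Spec.mk (nat_lit 7821) (nat_lit 0) [nat_lit 20943, nat_lit 3447, nat_lit 9279, nat_lit 8307, nat_lit 7659, nat_lit 7875, nat_lit 7839, nat_lit 7815] (nat_lit 0) [] false,
   Spec.mk (nat_lit 7831) (nat_lit 0) [nat_lit 20953, nat_lit 3457, nat_lit 9289, nat_lit 8317, nat_lit 7669, nat_lit 7885, nat_lit 7813, nat_lit 7833, nat_lit 27513] (nat_lit 2) [] false,
   Spec.mk (nat_lit 7833) (nat_lit 0) [nat_lit 20955, nat_lit 3459, nat_lit 9291, nat_lit 8319, nat_lit 7671, nat_lit 7887, nat_lit 7815, nat_lit 7839, nat_lit 7831] (nat_lit 2) [] false,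
   Spec.mk (nat_lit 7839) (nat_lit 0) [nat_lit 20961, nat_lit 3465, nat_lit 9297, nat_lit 8325, nat_lit 7677, nat_lit 7893, nat_lit 7821, nat_lit 7833] (nat_lit 0) [] false,
   Spec.mk (nat_lit 7859) (nat_lit 0) [nat_lit 20981, nat_lit 3485, nat_lit 9317, nat_lit 8345, nat_lit 7697, nat_lit 7805, nat_lit 7861, nat_lit 27541] (nat_lit 0) [] false,
   Spec.mk (nat_lit 7861) (nat_lit 1) [nat_lit 20983, nat_lit 3487, nat_lit 9319, nat_lit 8347, nat_lit 7699, nat_lit 7807, nat_lit 7867, nat_lit 7859, nat_lit 7863, nat_lit 27543] (nat_lit 0) [] false,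
   Spec.mk (nat_lit 7863) (nat_lit 0) [nat_lit 20985, nat_lit 3489, nat_lit 9321, nat_lit 8349, nat_lit 7701, nat_lit 7809, nat_lit 7869, nat_lit 7861] (nat_lit 0) [] false,
   Spec.mk (nat_lit 7867) (nat_lit 0) [nat_lit 20989, nat_lit 3493, nat_lit 9325, nat_lit 8353, nat_lit 7705, nat_lit 7813, nat_lit 7885, nat_lit 7861, nat_lit 7869, nat_lit 27549] (nat_lit 0) [] false,
   Spec.mk (nat_lit 7869) (nat_lit 1) [nat_lit 20991, nat_lit 3495, nat_lit 9327, nat_lit 8355, nat_lit 7707, nat_lit 7815, nat_lit 7887, nat_lit 7863, nat_lit 7875, nat_lit 7867] (nat_lit 0) [] false,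
   Spec.mk (nat_lit 7875) (nat_lit 0) [nat_lit 20997, nat_lit 3501, nat_lit 9333, nat_lit 8361, nat_lit 7713, nat_lit 7821, nat_lit 7893, nat_lit 7869] (nat_lit 0) [] false,
   Spec.mk (nat_lit 7885) (nat_lit 1) [nat_lit 21007, nat_lit 3511, nat_lit 9343, nat_lit 8371, nat_lit 7723, nat_lit 7831, nat_lit 7939, nat_lit 7867, nat_lit 7887, nat_lit 27567] (nat_lit 0) [] false,
   Spec.mk (nat_lit 7887) (nat_lit 1) [nat_lit 21009, nat_lit 3513, nat_lit 9345, nat_lit 8373, nat_lit 7725, nat_lit 7833, nat_lit 7941, nat_lit 7869, nat_lit 7893, nat_lit 7885] (nat_lit 0) [] false,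
   Spec.mk (nat_lit 7893) (nat_lit 2) [nat_lit 21015, nat_lit 3519, nat_lit 9351, nat_lit 8379, nat_lit 7731, nat_lit 7839, nat_lit 7947, nat_lit 7875, nat_lit 7911, nat_lit 7887] (nat_lit 0) [] false,
   Spec.mk (nat_lit 7911) (nat_lit 2) [nat_lit 21033, nat_lit 3537, nat_lit 9369, nat_lit 8397, nat_lit 7749, nat_lit 7965, nat_lit 7893] (nat_lit 0) [] false,
   Spec.mk (nat_lit 7939) (nat_lit 2) [nat_lit 21061, nat_lit 3565, nat_lit 9397, nat_lit 8425, nat_lit 7885, nat_lit 7941, nat_lit 27621] (nat_lit 0) [] false,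
   Spec.mk (nat_lit 7941) (nat_lit 2) [nat_lit 21063, nat_lit 3567, nat_lit 9399, nat_lit 8427, nat_lit 7887, nat_lit 7947, nat_lit 7939] (nat_lit 0) [] false,
   Spec.mk (nat_lit 7947) (nat_lit 2) [nat_lit 21069, nat_lit 3573, nat_lit 9405, nat_lit 8433, nat_lit 7893, nat_lit 7965, nat_lit 7941] (nat_lit 0) [] false,
   Spec.mk (nat_lit 7965) (nat_lit 4) [nat_lit 21087, nat_lit 3591, nat_lit 9423, nat_lit 8451, nat_lit 7911, nat_lit 7947] (nat_lit 0) [] false,
   Spec.mk (nat_lit 8027) (nat_lit 0) [nat_lit 21149, nat_lit 3653, nat_lit 9485, nat_lit 7541, nat_lit 8033, nat_lit 27709] (nat_lit 0) [] false,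
   Spec.mk (nat_lit 8033) (nat_lit 0) [nat_lit 21155, nat_lit 3659, nat_lit 9491, nat_lit 7547, nat_lit 8051, nat_lit 8027, nat_lit 8039, nat_lit 8035, nat_lit 27715] (nat_lit 1) [] false,
   Spec.mk (nat_lit 8035) (nat_lit 0) [nat_lit 21157, nat_lit 3661, nat_lit 9493, nat_lit 7549, nat_lit 8053, nat_lit 8041, nat_lit 8033, nat_lit 27717] (nat_lit 0) [] false,
   Spec.mk (nat_lit 8039) (nat_lit 0) [nat_lit 21161, nat_lit 3665, nat_lit 9497, nat_lit 7553, nat_lit 8057, nat_lit 8033, nat_lit 8041, nat_lit 27721] (nat_lit 4) [] false,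
   Spec.mk (nat_lit 8041) (nat_lit 0) [nat_lit 21163, nat_lit 3667, nat_lit 9499, nat_lit 7555, nat_lit 8059, nat_lit 8035, nat_lit 8039, nat_lit 8043, nat_lit 27723] (nat_lit 1) [] false,
   Spec.mk (nat_lit 8043) (nat_lit 0) [nat_lit 21165, nat_lit 3669, nat_lit 9501, nat_lit 7557, nat_lit 8061, nat_lit 8041] (nat_lit 0) [] false,
   Spec.mk (nat_lit 8051) (nat_lit 0) [nat_lit 21173, nat_lit 3677, nat_lit 9509, nat_lit 7565, nat_lit 8105, nat_lit 8033, nat_lit 8057, nat_lit 8053, nat_lit 27733] (nat_lit 2) [] false,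
   Spec.mk (nat_lit 8053) (nat_lit 0) [nat_lit 21175, nat_lit 3679, nat_lit 9511, nat_lit 7567, nat_lit 8107, nat_lit 8035, nat_lit 8059, nat_lit 8051, nat_lit 27735] (nat_lit 2) [] false,
   Spec.mk (nat_lit 8057) (nat_lit 0) [nat_lit 21179, nat_lit 3683, nat_lit 9515, nat_lit 7571, nat_lit 8111, nat_lit 8039, nat_lit 8075, nat_lit 8051, nat_lit 8059, nat_lit 27739] (nat_lit 3) [] false,
   Spec.mk (nat_lit 8059) (nat_lit 0) [nat_lit 21181, nat_lit 3685, nat_lit 9517, nat_lit 7573, nat_lit 8113, nat_lit 8041, nat_lit 8077, nat_lit 8053, nat_lit 8065, nat_lit 8057, nat_lit 8061, nat_lit 27741] (nat_lit 1) [] false,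
   Spec.mk (nat_lit 8061) (nat_lit 0) [nat_lit 21183, nat_lit 3687, nat_lit 9519, nat_lit 7575, nat_lit 8115, nat_lit 8043, nat_lit 8079, nat_lit 8067, nat_lit 8059] (nat_lit 1) [] false,
   Spec.mk (nat_lit 8065) (nat_lit 0) [nat_lit 21187, nat_lit 3691, nat_lit 9523, nat_lit 7579, nat_lit 8119, nat_lit 8083, nat_lit 8059, nat_lit 8067, nat_lit 27747] (nat_lit 2) [] false,
   Spec.mk (nat_lit 8067) (nat_lit 0) [nat_lit 21189, nat_lit 3693, nat_lit 9525, nat_lit 7581, nat_lit 8121, nat_lit 8085, nat_lit 8061, nat_lit 8065] (nat_lit 0) [] false,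
   Spec.mk (nat_lit 8075) (nat_lit 0) [nat_lit 21197, nat_lit 3701, nat_lit 9533, nat_lit 7589, nat_lit 8129, nat_lit 8057, nat_lit 8077, nat_lit 27757] (nat_lit 4) [] false,
   Spec.mk (nat_lit 8077) (nat_lit 0) [nat_lit 21199, nat_lit 3703, nat_lit 9535, nat_lit 7591, nat_lit 8131, nat_lit 8059, nat_lit 8083, nat_lit 8075, nat_lit 8079, nat_lit 27759] (nat_lit 3) [] false,
   Spec.mk (nat_lit 8079) (nat_lit 0) [nat_lit 21201, nat_lit 3705, nat_lit 9537, nat_lit 7593, nat_lit 8133, nat_lit 8061, nat_lit 8085, nat_lit 8077] (nat_lit 4) [] false,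
   Spec.mk (nat_lit 8083) (nat_lit 0) [nat_lit 21205, nat_lit 3709, nat_lit 9541, nat_lit 7597, nat_lit 8137, nat_lit 8065, nat_lit 8077, nat_lit 8085, nat_lit 27765] (nat_lit 2) [] false,
   Spec.mk (nat_lit 8085) (nat_lit 0) [nat_lit 21207, nat_lit 3711, nat_lit 9543, nat_lit 7599, nat_lit 8139, nat_lit 8067, nat_lit 8079, nat_lit 8091, nat_lit 8083] (nat_lit 1) [] false,
   Spec.mk (nat_lit 8091) (nat_lit 0) [nat_lit 21213, nat_lit 3717, nat_lit 9549, nat_lit 7605, nat_lit 8145, nat_lit 8085] (nat_lit 0) [] false,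
   Spec.mk (nat_lit 8105) (nat_lit 0) [nat_lit 21227, nat_lit 3731, nat_lit 9563, nat_lit 7619, nat_lit 8267, nat_lit 8051, nat_lit 8111, nat_lit 8107, nat_lit 27787] (nat_lit 2) [] false,
   Spec.mk (nat_lit 8107) (nat_lit 0) [nat_lit 21229, nat_lit 3733, nat_lit 9565, nat_lit 7621, nat_lit 8269, nat_lit 8053, nat_lit 8113, nat_lit 8105, nat_lit 27789] (nat_lit 2) [] false,
   Spec.mk (nat_lit 8111) (nat_lit 0) [nat_lit 21233, nat_lit 3737, nat_lit 9569, nat_lit 7625, nat_lit 8273, nat_lit 8057, nat_lit 8129, nat_lit 8105, nat_lit 8113, nat_lit 27793] (nat_lit 4) [] false,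
   Spec.mk (nat_lit 8113) (nat_lit 0) [nat_lit 21235, nat_lit 3739, nat_lit 9571, nat_lit 7627, nat_lit 8275, nat_lit 8059, nat_lit 8131, nat_lit 8107, nat_lit 8119, nat_lit 8111, nat_lit 8115, nat_lit 27795] (nat_lit 2) [] false,
   Spec.mk (nat_lit 8115) (nat_lit 0) [nat_lit 21237, nat_lit 3741, nat_lit 9573, nat_lit 7629, nat_lit 8277, nat_lit 8061, nat_lit 8133, nat_lit 8121, nat_lit 8113] (nat_lit 2) [] false,
   Spec.mk (nat_lit 8119) (nat_lit 0) [nat_lit 21241, nat_lit 3745, nat_lit 9577, nat_lit 7633, nat_lit 8281, nat_lit 8065, nat_lit 8137, nat_lit 8113, nat_lit 8121, nat_lit 27801] (nat_lit 4) [] false,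
   Spec.mk (nat_lit 8121) (nat_lit 0) [nat_lit 21243, nat_lit 3747, nat_lit 9579, nat_lit 7635, nat_lit 8283, nat_lit 8067, nat_lit 8139, nat_lit 8115, nat_lit 8119] (nat_lit 2) [] false,
   Spec.mk (nat_lit 8129) (nat_lit 0) [nat_lit 21251, nat_lit 3755, nat_lit 9587, nat_lit 7643, nat_lit 8291, nat_lit 8075, nat_lit 8183, nat_lit 8111, nat_lit 8131, nat_lit 27811] (nat_lit 3) [] false,
   Spec.mk (nat_lit 8131) (nat_lit 0) [nat_lit 21253, nat_lit 3757, nat_lit 9589, nat_lit 7645, nat_lit 8293, nat_lit 8077, nat_lit 8185, nat_lit 8113, nat_lit 8137, nat_lit 8129, nat_lit 8133, nat_lit 27813] (nat_lit 2) [] false,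
   Spec.mk (nat_lit 8133) (nat_lit 0) [nat_lit 21255, nat_lit 3759, nat_lit 9591, nat_lit 7647, nat_lit 8295, nat_lit 8079, nat_lit 8187, nat_lit 8115, nat_lit 8139, nat_lit 8131] (nat_lit 3) [] false,
   Spec.mk (nat_lit 8137) (nat_lit 0) [nat_lit 21259, nat_lit 3763, nat_lit 9595, nat_lit 7651, nat_lit 8299, nat_lit 8083, nat_lit 8191, nat_lit 8119, nat_lit 8155, nat_lit 8131, nat_lit 8139, nat_lit 27819] (nat_lit 2) [] false,
   Spec.mk (nat_lit 8139) (nat_lit 0) [nat_lit 21261, nat_lit 3765, nat_lit 9597, nat_lit 7653, nat_lit 8301, nat_lit 8085, nat_lit 8193, nat_lit 8121, nat_lit 8157, nat_lit 8133, nat_lit 8145, nat_lit 8137] (nat_lit 1) [] false,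
   Spec.mk (nat_lit 8145) (nat_lit 0) [nat_lit 21267, nat_lit 3771, nat_lit 9603, nat_lit 7659, nat_lit 8307, nat_lit 8091, nat_lit 8199, nat_lit 8163, nat_lit 8139] (nat_lit 1) [] false,
   Spec.mk (nat_lit 8155) (nat_lit 0) [nat_lit 21277, nat_lit 3781, nat_lit 9613, nat_lit 7669, nat_lit 8317, nat_lit 8209, nat_lit 8137, nat_lit 8157, nat_lit 27837] (nat_lit 2) [] false,
   Spec.mk (nat_lit 8157) (nat_lit 0) [nat_lit 21279, nat_lit 3783, nat_lit 9615, nat_lit 7671, nat_lit 8319, nat_lit 8211, nat_lit 8139, nat_lit 8163, nat_lit 8155] (nat_lit 2) [] false,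
   Spec.mk (nat_lit 8163) (nat_lit 0) [nat_lit 21285, nat_lit 3789, nat_lit 9621, nat_lit 7677, nat_lit 8325, nat_lit 8217, nat_lit 8145, nat_lit 8157] (nat_lit 0) [] false,
   Spec.mk (nat_lit 8183) (nat_lit 0) [nat_lit 21305, nat_lit 3809, nat_lit 9641, nat_lit 7697, nat_lit 8345, nat_lit 8129, nat_lit 8185, nat_lit 27865] (nat_lit 4) [] false,
   Spec.mk (nat_lit 8185) (nat_lit 0) [nat_lit 21307, nat_lit 3811, nat_lit 9643, nat_lit 7699, nat_lit 8347, nat_lit 8131, nat_lit 8191, nat_lit 8183, nat_lit 8187, nat_lit 27867] (nat_lit 3) [] false]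

noncomputable def sp22 : List Spec :=
  [Spec.mk (nat_lit 8187) (nat_lit 0) [nat_lit 21309, nat_lit 3813, nat_lit 9645, nat_lit 7701, nat_lit 8349, nat_lit 8133, nat_lit 8193, nat_lit 8185] (nat_lit 4) [] false,
   Spec.mk (nat_lit 8191) (nat_lit 0) [nat_lit 21313, nat_lit 3817, nat_lit 9649, nat_lit 7705, nat_lit 8353, nat_lit 8137, nat_lit 8209, nat_lit 8185, nat_lit 8193, nat_lit 27873] (nat_lit 4) [] false,
   Spec.mk (nat_lit 8193) (nat_lit 0) [nat_lit 21315, nat_lit 3819, nat_lit 9651, nat_lit 7707, nat_lit 8355, nat_lit 8139, nat_lit 8211, nat_lit 8187, nat_lit 8199, nat_lit 8191] (nat_lit 3) [] false,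
   Spec.mk (nat_lit 8199) (nat_lit 0) [nat_lit 21321, nat_lit 3825, nat_lit 9657, nat_lit 7713, nat_lit 8361, nat_lit 8145, nat_lit 8217, nat_lit 8193] (nat_lit 4) [] false,
   Spec.mk (nat_lit 8209) (nat_lit 0) [nat_lit 21331, nat_lit 3835, nat_lit 9667, nat_lit 7723, nat_lit 8371, nat_lit 8155, nat_lit 8191, nat_lit 8211, nat_lit 27891] (nat_lit 2) [] false,
   Spec.mk (nat_lit 8211) (nat_lit 0) [nat_lit 21333, nat_lit 3837, nat_lit 9669, nat_lit 7725, nat_lit 8373, nat_lit 8157, nat_lit 8193, nat_lit 8217, nat_lit 8209] (nat_lit 2) [] false,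
   Spec.mk (nat_lit 8217) (nat_lit 0) [nat_lit 21339, nat_lit 3843, nat_lit 9675, nat_lit 7731, nat_lit 8379, nat_lit 8163, nat_lit 8199, nat_lit 8235, nat_lit 8211] (nat_lit 1) [] false,
   Spec.mk (nat_lit 8235) (nat_lit 0) [nat_lit 21357, nat_lit 3861, nat_lit 9693, nat_lit 7749, nat_lit 8397, nat_lit 8217] (nat_lit 0) [] false,
   Spec.mk (nat_lit 8267) (nat_lit 0) [nat_lit 21389, nat_lit 3893, nat_lit 9725, nat_lit 7781, nat_lit 8105, nat_lit 8273, nat_lit 8269, nat_lit 27949] (nat_lit 0) [] false,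
   Spec.mk (nat_lit 8269) (nat_lit 0) [nat_lit 21391, nat_lit 3895, nat_lit 9727, nat_lit 7783, nat_lit 8107, nat_lit 8275, nat_lit 8267, nat_lit 27951] (nat_lit 0) [] false,
   Spec.mk (nat_lit 8273) (nat_lit 0) [nat_lit 21395, nat_lit 3899, nat_lit 9731, nat_lit 7787, nat_lit 8111, nat_lit 8291, nat_lit 8267, nat_lit 8275, nat_lit 27955] (nat_lit 2) [] false,
   Spec.mk (nat_lit 8275) (nat_lit 0) [nat_lit 21397, nat_lit 3901, nat_lit 9733, nat_lit 7789, nat_lit 8113, nat_lit 8293, nat_lit 8269, nat_lit 8281, nat_lit 8273, nat_lit 8277, nat_lit 27957] (nat_lit 0) [] false,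
   Spec.mk (nat_lit 8277) (nat_lit 0) [nat_lit 21399, nat_lit 3903, nat_lit 9735, nat_lit 7791, nat_lit 8115, nat_lit 8295, nat_lit 8283, nat_lit 8275] (nat_lit 0) [] false,
   Spec.mk (nat_lit 8281) (nat_lit 0) [nat_lit 21403, nat_lit 3907, nat_lit 9739, nat_lit 7795, nat_lit 8119, nat_lit 8299, nat_lit 8275, nat_lit 8283, nat_lit 27963] (nat_lit 2) [] false,
   Spec.mk (nat_lit 8283) (nat_lit 0) [nat_lit 21405, nat_lit 3909, nat_lit 9741, nat_lit 7797, nat_lit 8121, nat_lit 8301, nat_lit 8277, nat_lit 8281] (nat_lit 0) [] false,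
   Spec.mk (nat_lit 8291) (nat_lit 0) [nat_lit 21413, nat_lit 3917, nat_lit 9749, nat_lit 7805, nat_lit 8129, nat_lit 8345, nat_lit 8273, nat_lit 8293, nat_lit 27973] (nat_lit 2) [] false,
   Spec.mk (nat_lit 8293) (nat_lit 0) [nat_lit 21415, nat_lit 3919, nat_lit 9751, nat_lit 7807, nat_lit 8131, nat_lit 8347, nat_lit 8275, nat_lit 8299, nat_lit 8291, nat_lit 8295, nat_lit 27975] (nat_lit 1) [] false,
   Spec.mk (nat_lit 8295) (nat_lit 0) [nat_lit 21417, nat_lit 3921, nat_lit 9753, nat_lit 7809, nat_lit 8133, nat_lit 8349, nat_lit 8277, nat_lit 8301, nat_lit 8293] (nat_lit 2) [] false,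
   Spec.mk (nat_lit 8299) (nat_lit 0) [nat_lit 21421, nat_lit 3925, nat_lit 9757, nat_lit 7813, nat_lit 8137, nat_lit 8353, nat_lit 8281, nat_lit 8317, nat_lit 8293, nat_lit 8301, nat_lit 27981] (nat_lit 1) [] false,
   Spec.mk (nat_lit 8301) (nat_lit 0) [nat_lit 21423, nat_lit 3927, nat_lit 9759, nat_lit 7815, nat_lit 8139, nat_lit 8355, nat_lit 8283, nat_lit 8319, nat_lit 8295, nat_lit 8307, nat_lit 8299] (nat_lit 0) [] false,
   Spec.mk (nat_lit 8307) (nat_lit 0) [nat_lit 21429, nat_lit 3933, nat_lit 9765, nat_lit 7821, nat_lit 8145, nat_lit 8361, nat_lit 8325, nat_lit 8301] (nat_lit 0) [] false,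
   Spec.mk (nat_lit 8317) (nat_lit 0) [nat_lit 21439, nat_lit 3943, nat_lit 9775, nat_lit 7831, nat_lit 8155, nat_lit 8371, nat_lit 8299, nat_lit 8319, nat_lit 27999] (nat_lit 2) [] false,
   Spec.mk (nat_lit 8319) (nat_lit 0) [nat_lit 21441, nat_lit 3945, nat_lit 9777, nat_lit 7833, nat_lit 8157, nat_lit 8373, nat_lit 8301, nat_lit 8325, nat_lit 8317] (nat_lit 2) [] false,
   Spec.mk (nat_lit 8325) (nat_lit 0) [nat_lit 21447, nat_lit 3951, nat_lit 9783, nat_lit 7839, nat_lit 8163, nat_lit 8379, nat_lit 8307, nat_lit 8319] (nat_lit 0) [] false,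
   Spec.mk (nat_lit 8345) (nat_lit 0) [nat_lit 21467, nat_lit 3971, nat_lit 9803, nat_lit 7859, nat_lit 8183, nat_lit 8507, nat_lit 8291, nat_lit 8347, nat_lit 28027] (nat_lit 1) [] false,
   Spec.mk (nat_lit 8347) (nat_lit 0) [nat_lit 21469, nat_lit 3973, nat_lit 9805, nat_lit 7861, nat_lit 8185, nat_lit 8509, nat_lit 8293, nat_lit 8353, nat_lit 8345, nat_lit 8349, nat_lit 28029] (nat_lit 0) [] false,
   Spec.mk (nat_lit 8349) (nat_lit 0) [nat_lit 21471, nat_lit 3975, nat_lit 9807, nat_lit 7863, nat_lit 8187, nat_lit 8511, nat_lit 8295, nat_lit 8355, nat_lit 8347] (nat_lit 1) [] false,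
   Spec.mk (nat_lit 8353) (nat_lit 0) [nat_lit 21475, nat_lit 3979, nat_lit 9811, nat_lit 7867, nat_lit 8191, nat_lit 8515, nat_lit 8299, nat_lit 8371, nat_lit 8347, nat_lit 8355, nat_lit 28035] (nat_lit 1) [] false,
   Spec.mk (nat_lit 8355) (nat_lit 0) [nat_lit 21477, nat_lit 3981, nat_lit 9813, nat_lit 7869, nat_lit 8193, nat_lit 8517, nat_lit 8301, nat_lit 8373, nat_lit 8349, nat_lit 8361, nat_lit 8353] (nat_lit 0) [] false,
   Spec.mk (nat_lit 8361) (nat_lit 0) [nat_lit 21483, nat_lit 3987, nat_lit 9819, nat_lit 7875, nat_lit 8199, nat_lit 8523, nat_lit 8307, nat_lit 8379, nat_lit 8355] (nat_lit 1) [] false,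
   Spec.mk (nat_lit 8371) (nat_lit 0) [nat_lit 21493, nat_lit 3997, nat_lit 9829, nat_lit 7885, nat_lit 8209, nat_lit 8533, nat_lit 8317, nat_lit 8425, nat_lit 8353, nat_lit 8373, nat_lit 28053] (nat_lit 0) [] false,
   Spec.mk (nat_lit 8373) (nat_lit 0) [nat_lit 21495, nat_lit 3999, nat_lit 9831, nat_lit 7887, nat_lit 8211, nat_lit 8535, nat_lit 8319, nat_lit 8427, nat_lit 8355, nat_lit 8379, nat_lit 8371] (nat_lit 0) [] false,
   Spec.mk (nat_lit 8379) (nat_lit 1) [nat_lit 21501, nat_lit 4005, nat_lit 9837, nat_lit 7893, nat_lit 8217, nat_lit 8541, nat_lit 8325, nat_lit 8433, nat_lit 8361, nat_lit 8397, nat_lit 8373] (nat_lit 0) [] false,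
   Spec.mk (nat_lit 8397) (nat_lit 1) [nat_lit 21519, nat_lit 4023, nat_lit 9855, nat_lit 7911, nat_lit 8235, nat_lit 8559, nat_lit 8451, nat_lit 8379] (nat_lit 0) [] false,
   Spec.mk (nat_lit 8425) (nat_lit 0) [nat_lit 21547, nat_lit 4051, nat_lit 9883, nat_lit 7939, nat_lit 8587, nat_lit 8371, nat_lit 8427, nat_lit 28107] (nat_lit 0) [] false,
   Spec.mk (nat_lit 8427) (nat_lit 0) [nat_lit 21549, nat_lit 4053, nat_lit 9885, nat_lit 7941, nat_lit 8589, nat_lit 8373, nat_lit 8433, nat_lit 8425] (nat_lit 0) [] false,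
   Spec.mk (nat_lit 8433) (nat_lit 0) [nat_lit 21555, nat_lit 4059, nat_lit 9891, nat_lit 7947, nat_lit 8595, nat_lit 8379, nat_lit 8451, nat_lit 8427] (nat_lit 0) [] false,
   Spec.mk (nat_lit 8451) (nat_lit 2) [nat_lit 21573, nat_lit 4077, nat_lit 9909, nat_lit 7965, nat_lit 8613, nat_lit 8397, nat_lit 8433] (nat_lit 0) [] false,
   Spec.mk (nat_lit 8507) (nat_lit 0) [nat_lit 21629, nat_lit 4133, nat_lit 9965, nat_lit 8345, nat_lit 8509, nat_lit 28189] (nat_lit 0) [] false,
   Spec.mk (nat_lit 8509) (nat_lit 1) [nat_lit 21631, nat_lit 4135, nat_lit 9967, nat_lit 8347, nat_lit 8515, nat_lit 8507, nat_lit 8511, nat_lit 28191] (nat_lit 0) [] false,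
   Spec.mk (nat_lit 8511) (nat_lit 0) [nat_lit 21633, nat_lit 4137, nat_lit 9969, nat_lit 8349, nat_lit 8517, nat_lit 8509] (nat_lit 0) [] false,
   Spec.mk (nat_lit 8515) (nat_lit 0) [nat_lit 21637, nat_lit 4141, nat_lit 9973, nat_lit 8353, nat_lit 8533, nat_lit 8509, nat_lit 8517, nat_lit 28197] (nat_lit 0) [] false,
   Spec.mk (nat_lit 8517) (nat_lit 1) [nat_lit 21639, nat_lit 4143, nat_lit 9975, nat_lit 8355, nat_lit 8535, nat_lit 8511, nat_lit 8523, nat_lit 8515] (nat_lit 0) [] false,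
   Spec.mk (nat_lit 8523) (nat_lit 0) [nat_lit 21645, nat_lit 4149, nat_lit 9981, nat_lit 8361, nat_lit 8541, nat_lit 8517] (nat_lit 0) [] false,
   Spec.mk (nat_lit 8533) (nat_lit 0) [nat_lit 21655, nat_lit 4159, nat_lit 9991, nat_lit 8371, nat_lit 8587, nat_lit 8515, nat_lit 8535, nat_lit 28215] (nat_lit 0) [] false,
   Spec.mk (nat_lit 8535) (nat_lit 0) [nat_lit 21657, nat_lit 4161, nat_lit 9993, nat_lit 8373, nat_lit 8589, nat_lit 8517, nat_lit 8541, nat_lit 8533] (nat_lit 0) [] false,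
   Spec.mk (nat_lit 8541) (nat_lit 1) [nat_lit 21663, nat_lit 4167, nat_lit 9999, nat_lit 8379, nat_lit 8595, nat_lit 8523, nat_lit 8559, nat_lit 8535] (nat_lit 0) [] false,
   Spec.mk (nat_lit 8559) (nat_lit 0) [nat_lit 21681, nat_lit 4185, nat_lit 10017, nat_lit 8397, nat_lit 8613, nat_lit 8541] (nat_lit 0) [] false,
   Spec.mk (nat_lit 8587) (nat_lit 2) [nat_lit 21709, nat_lit 4213, nat_lit 10045, nat_lit 8425, nat_lit 8533, nat_lit 8589, nat_lit 28269] (nat_lit 0) [] false,
   Spec.mk (nat_lit 8589) (nat_lit 2) [nat_lit 21711, nat_lit 4215, nat_lit 10047, nat_lit 8427, nat_lit 8535, nat_lit 8595, nat_lit 8587] (nat_lit 0) [] false,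
   Spec.mk (nat_lit 8595) (nat_lit 2) [nat_lit 21717, nat_lit 4221, nat_lit 10053, nat_lit 8433, nat_lit 8541, nat_lit 8613, nat_lit 8589] (nat_lit 0) [] false,
   Spec.mk (nat_lit 8613) (nat_lit 3) [nat_lit 21735, nat_lit 4239, nat_lit 10071, nat_lit 8451, nat_lit 8559, nat_lit 8667, nat_lit 8595] (nat_lit 0) [] false,
   Spec.mk (nat_lit 8667) (nat_lit 4) [nat_lit 21789, nat_lit 4293, nat_lit 10125, nat_lit 8613] (nat_lit 0) [] false,
   Spec.mk (nat_lit 8765) (nat_lit 3) [nat_lit 21887, nat_lit 4391, nat_lit 13139, nat_lit 7307, nat_lit 8783, nat_lit 8771, nat_lit 28447] (nat_lit 0) [] false,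
   Spec.mk (nat_lit 8771) (nat_lit 1) [nat_lit 21893, nat_lit 4397, nat_lit 13145, nat_lit 7313, nat_lit 8789, nat_lit 8765, nat_lit 8773, nat_lit 28453] (nat_lit 0) [] false,
   Spec.mk (nat_lit 8773) (nat_lit 3) [nat_lit 21895, nat_lit 4399, nat_lit 13147, nat_lit 7315, nat_lit 8791, nat_lit 8771, nat_lit 28455] (nat_lit 0) [] false,
   Spec.mk (nat_lit 8783) (nat_lit 1) [nat_lit 21905, nat_lit 4409, nat_lit 13157, nat_lit 7325, nat_lit 8837, nat_lit 8765, nat_lit 8789, nat_lit 28465] (nat_lit 0) [] false,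
   Spec.mk (nat_lit 8789) (nat_lit 1) [nat_lit 21911, nat_lit 4415, nat_lit 13163, nat_lit 7331, nat_lit 8843, nat_lit 8771, nat_lit 8807, nat_lit 8783, nat_lit 8795, nat_lit 8791, nat_lit 28471] (nat_lit 0) [] false,
   Spec.mk (nat_lit 8791) (nat_lit 2) [nat_lit 21913, nat_lit 4417, nat_lit 13165, nat_lit 7333, nat_lit 8845, nat_lit 8773, nat_lit 8809, nat_lit 8797, nat_lit 8789, nat_lit 28473] (nat_lit 0) [] false,
   Spec.mk (nat_lit 8795) (nat_lit 0) [nat_lit 21917, nat_lit 4421, nat_lit 13169, nat_lit 7337, nat_lit 8849, nat_lit 8813, nat_lit 8789, nat_lit 8797, nat_lit 28477] (nat_lit 1) [] false]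

noncomputable def sp23 : List Spec :=
  [Spec.mk (nat_lit 8797) (nat_lit 2) [nat_lit 21919, nat_lit 4423, nat_lit 13171, nat_lit 7339, nat_lit 8851, nat_lit 8815, nat_lit 8791, nat_lit 8795, nat_lit 8799, nat_lit 28479] (nat_lit 0) [] false,
   Spec.mk (nat_lit 8799) (nat_lit 3) [nat_lit 21921, nat_lit 4425, nat_lit 13173, nat_lit 7341, nat_lit 8853, nat_lit 8817, nat_lit 8797] (nat_lit 0) [] false,
   Spec.mk (nat_lit 8807) (nat_lit 0) [nat_lit 21929, nat_lit 4433, nat_lit 13181, nat_lit 7349, nat_lit 8861, nat_lit 8789, nat_lit 8813, nat_lit 8809, nat_lit 28489] (nat_lit 1) [] false,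
   Spec.mk (nat_lit 8809) (nat_lit 0) [nat_lit 21931, nat_lit 4435, nat_lit 13183, nat_lit 7351, nat_lit 8863, nat_lit 8791, nat_lit 8815, nat_lit 8807, nat_lit 28491] (nat_lit 1) [] false,
   Spec.mk (nat_lit 8813) (nat_lit 0) [nat_lit 21935, nat_lit 4439, nat_lit 13187, nat_lit 7355, nat_lit 8867, nat_lit 8795, nat_lit 8807, nat_lit 8815, nat_lit 28495] (nat_lit 1) [] false,
   Spec.mk (nat_lit 8815) (nat_lit 1) [nat_lit 21937, nat_lit 4441, nat_lit 13189, nat_lit 7357, nat_lit 8869, nat_lit 8797, nat_lit 8809, nat_lit 8821, nat_lit 8813, nat_lit 8817, nat_lit 28497] (nat_lit 0) [] false,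
   Spec.mk (nat_lit 8817) (nat_lit 1) [nat_lit 21939, nat_lit 4443, nat_lit 13191, nat_lit 7359, nat_lit 8871, nat_lit 8799, nat_lit 8823, nat_lit 8815] (nat_lit 0) [] false,
   Spec.mk (nat_lit 8821) (nat_lit 1) [nat_lit 21943, nat_lit 4447, nat_lit 13195, nat_lit 7363, nat_lit 8875, nat_lit 8815, nat_lit 8823, nat_lit 28503] (nat_lit 0) [] false,
   Spec.mk (nat_lit 8823) (nat_lit 3) [nat_lit 21945, nat_lit 4449, nat_lit 13197, nat_lit 7365, nat_lit 8877, nat_lit 8817, nat_lit 8821] (nat_lit 0) [] false,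
   Spec.mk (nat_lit 8837) (nat_lit 1) [nat_lit 21959, nat_lit 4463, nat_lit 13211, nat_lit 7379, nat_lit 8999, nat_lit 8783, nat_lit 8843, nat_lit 28519] (nat_lit 0) [] false,
   Spec.mk (nat_lit 8843) (nat_lit 0) [nat_lit 21965, nat_lit 4469, nat_lit 13217, nat_lit 7385, nat_lit 9005, nat_lit 8789, nat_lit 8861, nat_lit 8837, nat_lit 8849, nat_lit 8845, nat_lit 28525] (nat_lit 0) [] false,
   Spec.mk (nat_lit 8845) (nat_lit 1) [nat_lit 21967, nat_lit 4471, nat_lit 13219, nat_lit 7387, nat_lit 9007, nat_lit 8791, nat_lit 8863, nat_lit 8851, nat_lit 8843, nat_lit 28527] (nat_lit 0) [] false,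
   Spec.mk (nat_lit 8849) (nat_lit 0) [nat_lit 21971, nat_lit 4475, nat_lit 13223, nat_lit 7391, nat_lit 9011, nat_lit 8795, nat_lit 8867, nat_lit 8843, nat_lit 8851, nat_lit 28531] (nat_lit 3) [] false,
   Spec.mk (nat_lit 8851) (nat_lit 0) [nat_lit 21973, nat_lit 4477, nat_lit 13225, nat_lit 7393, nat_lit 9013, nat_lit 8797, nat_lit 8869, nat_lit 8845, nat_lit 8849, nat_lit 8853, nat_lit 28533] (nat_lit 0) [] false,
   Spec.mk (nat_lit 8853) (nat_lit 1) [nat_lit 21975, nat_lit 4479, nat_lit 13227, nat_lit 7395, nat_lit 9015, nat_lit 8799, nat_lit 8871, nat_lit 8851] (nat_lit 0) [] false,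
   Spec.mk (nat_lit 8861) (nat_lit 0) [nat_lit 21983, nat_lit 4487, nat_lit 13235, nat_lit 7403, nat_lit 9023, nat_lit 8807, nat_lit 8915, nat_lit 8843, nat_lit 8867, nat_lit 8863, nat_lit 28543] (nat_lit 0) [] false,
   Spec.mk (nat_lit 8863) (nat_lit 0) [nat_lit 21985, nat_lit 4489, nat_lit 13237, nat_lit 7405, nat_lit 9025, nat_lit 8809, nat_lit 8917, nat_lit 8845, nat_lit 8869, nat_lit 8861, nat_lit 28545] (nat_lit 0) [] false,
   Spec.mk (nat_lit 8867) (nat_lit 0) [nat_lit 21989, nat_lit 4493, nat_lit 13241, nat_lit 7409, nat_lit 9029, nat_lit 8813, nat_lit 8921, nat_lit 8849, nat_lit 8885, nat_lit 8861, nat_lit 8869, nat_lit 28549] (nat_lit 1) [] false,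
   Spec.mk (nat_lit 8869) (nat_lit 1) [nat_lit 21991, nat_lit 4495, nat_lit 13243, nat_lit 7411, nat_lit 9031, nat_lit 8815, nat_lit 8923, nat_lit 8851, nat_lit 8887, nat_lit 8863, nat_lit 8875, nat_lit 8867, nat_lit 8871, nat_lit 28551] (nat_lit 0) [] false,
   Spec.mk (nat_lit 8871) (nat_lit 1) [nat_lit 21993, nat_lit 4497, nat_lit 13245, nat_lit 7413, nat_lit 9033, nat_lit 8817, nat_lit 8925, nat_lit 8853, nat_lit 8889, nat_lit 8877, nat_lit 8869] (nat_lit 0) [] false,
   Spec.mk (nat_lit 8875) (nat_lit 0) [nat_lit 21997, nat_lit 4501, nat_lit 13249, nat_lit 7417, nat_lit 9037, nat_lit 8821, nat_lit 8929, nat_lit 8893, nat_lit 8869, nat_lit 8877, nat_lit 28557] (nat_lit 0) [] false,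
   Spec.mk (nat_lit 8877) (nat_lit 2) [nat_lit 21999, nat_lit 4503, nat_lit 13251, nat_lit 7419, nat_lit 9039, nat_lit 8823, nat_lit 8931, nat_lit 8895, nat_lit 8871, nat_lit 8875] (nat_lit 0) [] false,
   Spec.mk (nat_lit 8885) (nat_lit 0) [nat_lit 22007, nat_lit 4511, nat_lit 13259, nat_lit 7427, nat_lit 9047, nat_lit 8939, nat_lit 8867, nat_lit 8887, nat_lit 28567] (nat_lit 1) [] false,
   Spec.mk (nat_lit 8887) (nat_lit 0) [nat_lit 22009, nat_lit 4513, nat_lit 13261, nat_lit 7429, nat_lit 9049, nat_lit 8941, nat_lit 8869, nat_lit 8893, nat_lit 8885, nat_lit 8889, nat_lit 28569] (nat_lit 0) [] false,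
   Spec.mk (nat_lit 8889) (nat_lit 0) [nat_lit 22011, nat_lit 4515, nat_lit 13263, nat_lit 7431, nat_lit 9051, nat_lit 8943, nat_lit 8871, nat_lit 8895, nat_lit 8887] (nat_lit 1) [] false,
   Spec.mk (nat_lit 8893) (nat_lit 1) [nat_lit 22015, nat_lit 4519, nat_lit 13267, nat_lit 7435, nat_lit 9055, nat_lit 8947, nat_lit 8875, nat_lit 8887, nat_lit 8895, nat_lit 28575] (nat_lit 0) [] false,
   Spec.mk (nat_lit 8895) (nat_lit 2) [nat_lit 22017, nat_lit 4521, nat_lit 13269, nat_lit 7437, nat_lit 9057, nat_lit 8949, nat_lit 8877, nat_lit 8889, nat_lit 8901, nat_lit 8893] (nat_lit 0) [] false,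
   Spec.mk (nat_lit 8901) (nat_lit 3) [nat_lit 22023, nat_lit 4527, nat_lit 13275, nat_lit 7443, nat_lit 9063, nat_lit 8955, nat_lit 8895] (nat_lit 0) [] false,
   Spec.mk (nat_lit 8915) (nat_lit 0) [nat_lit 22037, nat_lit 4541, nat_lit 13289, nat_lit 7457, nat_lit 9077, nat_lit 8861, nat_lit 8921, nat_lit 8917, nat_lit 28597] (nat_lit 1) [] false,
   Spec.mk (nat_lit 8917) (nat_lit 0) [nat_lit 22039, nat_lit 4543, nat_lit 13291, nat_lit 7459, nat_lit 9079, nat_lit 8863, nat_lit 8923, nat_lit 8915, nat_lit 28599] (nat_lit 1) [] false,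
   Spec.mk (nat_lit 8921) (nat_lit 0) [nat_lit 22043, nat_lit 4547, nat_lit 13295, nat_lit 7463, nat_lit 9083, nat_lit 8867, nat_lit 8939, nat_lit 8915, nat_lit 8923, nat_lit 28603] (nat_lit 3) [] false,
   Spec.mk (nat_lit 8923) (nat_lit 0) [nat_lit 22045, nat_lit 4549, nat_lit 13297, nat_lit 7465, nat_lit 9085, nat_lit 8869, nat_lit 8941, nat_lit 8917, nat_lit 8929, nat_lit 8921, nat_lit 8925, nat_lit 28605] (nat_lit 1) [] false,
   Spec.mk (nat_lit 8925) (nat_lit 0) [nat_lit 22047, nat_lit 4551, nat_lit 13299, nat_lit 7467, nat_lit 9087, nat_lit 8871, nat_lit 8943, nat_lit 8931, nat_lit 8923] (nat_lit 1) [] false,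
   Spec.mk (nat_lit 8929) (nat_lit 0) [nat_lit 22051, nat_lit 4555, nat_lit 13303, nat_lit 7471, nat_lit 9091, nat_lit 8875, nat_lit 8947, nat_lit 8923, nat_lit 8931, nat_lit 28611] (nat_lit 3) [] false,
   Spec.mk (nat_lit 8931) (nat_lit 0) [nat_lit 22053, nat_lit 4557, nat_lit 13305, nat_lit 7473, nat_lit 9093, nat_lit 8877, nat_lit 8949, nat_lit 8925, nat_lit 8929] (nat_lit 1) [] false,
   Spec.mk (nat_lit 8939) (nat_lit 0) [nat_lit 22061, nat_lit 4565, nat_lit 13313, nat_lit 7481, nat_lit 9101, nat_lit 8885, nat_lit 8921, nat_lit 8941, nat_lit 28621] (nat_lit 1) [] false,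
   Spec.mk (nat_lit 8941) (nat_lit 0) [nat_lit 22063, nat_lit 4567, nat_lit 13315, nat_lit 7483, nat_lit 9103, nat_lit 8887, nat_lit 8923, nat_lit 8947, nat_lit 8939, nat_lit 8943, nat_lit 28623] (nat_lit 0) [] false,
   Spec.mk (nat_lit 8943) (nat_lit 0) [nat_lit 22065, nat_lit 4569, nat_lit 13317, nat_lit 7485, nat_lit 9105, nat_lit 8889, nat_lit 8925, nat_lit 8949, nat_lit 8941] (nat_lit 1) [] false,
   Spec.mk (nat_lit 8947) (nat_lit 0) [nat_lit 22069, nat_lit 4573, nat_lit 13321, nat_lit 7489, nat_lit 9109, nat_lit 8893, nat_lit 8929, nat_lit 8965, nat_lit 8941, nat_lit 8949, nat_lit 28629] (nat_lit 0) [] false,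
   Spec.mk (nat_lit 8949) (nat_lit 1) [nat_lit 22071, nat_lit 4575, nat_lit 13323, nat_lit 7491, nat_lit 9111, nat_lit 8895, nat_lit 8931, nat_lit 8967, nat_lit 8943, nat_lit 8955, nat_lit 8947] (nat_lit 0) [] false,
   Spec.mk (nat_lit 8955) (nat_lit 1) [nat_lit 22077, nat_lit 4581, nat_lit 13329, nat_lit 7497, nat_lit 9117, nat_lit 8901, nat_lit 8973, nat_lit 8949] (nat_lit 0) [] false,
   Spec.mk (nat_lit 8965) (nat_lit 1) [nat_lit 22087, nat_lit 4591, nat_lit 13339, nat_lit 7507, nat_lit 9127, nat_lit 8947, nat_lit 8967, nat_lit 28647] (nat_lit 0) [] false,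
   Spec.mk (nat_lit 8967) (nat_lit 1) [nat_lit 22089, nat_lit 4593, nat_lit 13341, nat_lit 7509, nat_lit 9129, nat_lit 8949, nat_lit 8973, nat_lit 8965] (nat_lit 0) [] false,
   Spec.mk (nat_lit 8973) (nat_lit 3) [nat_lit 22095, nat_lit 4599, nat_lit 13347, nat_lit 7515, nat_lit 9135, nat_lit 8955, nat_lit 8967] (nat_lit 0) [] false,
   Spec.mk (nat_lit 8999) (nat_lit 1) [nat_lit 22121, nat_lit 4625, nat_lit 13373, nat_lit 7541, nat_lit 9485, nat_lit 8837, nat_lit 9005, nat_lit 28681] (nat_lit 0) [] false,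
   Spec.mk (nat_lit 9005) (nat_lit 0) [nat_lit 22127, nat_lit 4631, nat_lit 13379, nat_lit 7547, nat_lit 9491, nat_lit 8843, nat_lit 9023, nat_lit 8999, nat_lit 9011, nat_lit 9007, nat_lit 28687] (nat_lit 0) [] false,
   Spec.mk (nat_lit 9007) (nat_lit 1) [nat_lit 22129, nat_lit 4633, nat_lit 13381, nat_lit 7549, nat_lit 9493, nat_lit 8845, nat_lit 9025, nat_lit 9013, nat_lit 9005, nat_lit 28689] (nat_lit 0) [] false,
   Spec.mk (nat_lit 9011) (nat_lit 0) [nat_lit 22133, nat_lit 4637, nat_lit 13385, nat_lit 7553, nat_lit 9497, nat_lit 8849, nat_lit 9029, nat_lit 9005, nat_lit 9013, nat_lit 28693] (nat_lit 3) [] false,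
   Spec.mk (nat_lit 9013) (nat_lit 0) [nat_lit 22135, nat_lit 4639, nat_lit 13387, nat_lit 7555, nat_lit 9499, nat_lit 8851, nat_lit 9031, nat_lit 9007, nat_lit 9011, nat_lit 9015, nat_lit 28695] (nat_lit 0) [] false,
   Spec.mk (nat_lit 9015) (nat_lit 1) [nat_lit 22137, nat_lit 4641, nat_lit 13389, nat_lit 7557, nat_lit 9501, nat_lit 8853, nat_lit 9033, nat_lit 9013] (nat_lit 0) [] false,
   Spec.mk (nat_lit 9023) (nat_lit 0) [nat_lit 22145, nat_lit 4649, nat_lit 13397, nat_lit 7565, nat_lit 9509, nat_lit 8861, nat_lit 9077, nat_lit 9005, nat_lit 9029, nat_lit 9025, nat_lit 28705] (nat_lit 1) [] false,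
   Spec.mk (nat_lit 9025) (nat_lit 0) [nat_lit 22147, nat_lit 4651, nat_lit 13399, nat_lit 7567, nat_lit 9511, nat_lit 8863, nat_lit 9079, nat_lit 9007, nat_lit 9031, nat_lit 9023, nat_lit 28707] (nat_lit 1) [] false,
   Spec.mk (nat_lit 9029) (nat_lit 0) [nat_lit 22151, nat_lit 4655, nat_lit 13403, nat_lit 7571, nat_lit 9515, nat_lit 8867, nat_lit 9083, nat_lit 9011, nat_lit 9047, nat_lit 9023, nat_lit 9031, nat_lit 28711] (nat_lit 2) [] false,
   Spec.mk (nat_lit 9031) (nat_lit 0) [nat_lit 22153, nat_lit 4657, nat_lit 13405, nat_lit 7573, nat_lit 9517, nat_lit 8869, nat_lit 9085, nat_lit 9013, nat_lit 9049, nat_lit 9025, nat_lit 9037, nat_lit 9029, nat_lit 9033, nat_lit 28713] (nat_lit 0) [] false,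
   Spec.mk (nat_lit 9033) (nat_lit 0) [nat_lit 22155, nat_lit 4659, nat_lit 13407, nat_lit 7575, nat_lit 9519, nat_lit 8871, nat_lit 9087, nat_lit 9015, nat_lit 9051, nat_lit 9039, nat_lit 9031] (nat_lit 0) [] false,
   Spec.mk (nat_lit 9037) (nat_lit 0) [nat_lit 22159, nat_lit 4663, nat_lit 13411, nat_lit 7579, nat_lit 9523, nat_lit 8875, nat_lit 9091, nat_lit 9055, nat_lit 9031, nat_lit 9039, nat_lit 28719] (nat_lit 1) [] false,
   Spec.mk (nat_lit 9039) (nat_lit 1) [nat_lit 22161, nat_lit 4665, nat_lit 13413, nat_lit 7581, nat_lit 9525, nat_lit 8877, nat_lit 9093, nat_lit 9057, nat_lit 9033, nat_lit 9037] (nat_lit 0) [] false,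
   Spec.mk (nat_lit 9047) (nat_lit 0) [nat_lit 22169, nat_lit 4673, nat_lit 13421, nat_lit 7589, nat_lit 9533, nat_lit 8885, nat_lit 9101, nat_lit 9029, nat_lit 9049, nat_lit 28729] (nat_lit 3) [] false,
   Spec.mk (nat_lit 9049) (nat_lit 0) [nat_lit 22171, nat_lit 4675, nat_lit 13423, nat_lit 7591, nat_lit 9535, nat_lit 8887, nat_lit 9103, nat_lit 9031, nat_lit 9055, nat_lit 9047, nat_lit 9051, nat_lit 28731] (nat_lit 2) [] false,
   Spec.mk (nat_lit 9051) (nat_lit 0) [nat_lit 22173, nat_lit 4677, nat_lit 13425, nat_lit 7593, nat_lit 9537, nat_lit 8889, nat_lit 9105, nat_lit 9033, nat_lit 9057, nat_lit 9049] (nat_lit 3) [] false]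

noncomputable def sp24 : List Spec :=
  [Spec.mk (nat_lit 9055) (nat_lit 0) [nat_lit 22177, nat_lit 4681, nat_lit 13429, nat_lit 7597, nat_lit 9541, nat_lit 8893, nat_lit 9109, nat_lit 9037, nat_lit 9049, nat_lit 9057, nat_lit 28737] (nat_lit 1) [] false,
   Spec.mk (nat_lit 9057) (nat_lit 0) [nat_lit 22179, nat_lit 4683, nat_lit 13431, nat_lit 7599, nat_lit 9543, nat_lit 8895, nat_lit 9111, nat_lit 9039, nat_lit 9051, nat_lit 9063, nat_lit 9055] (nat_lit 0) [] false,
   Spec.mk (nat_lit 9063) (nat_lit 1) [nat_lit 22185, nat_lit 4689, nat_lit 13437, nat_lit 7605, nat_lit 9549, nat_lit 8901, nat_lit 9117, nat_lit 9057] (nat_lit 0) [] false,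
   Spec.mk (nat_lit 9077) (nat_lit 0) [nat_lit 22199, nat_lit 4703, nat_lit 13451, nat_lit 7619, nat_lit 9563, nat_lit 8915, nat_lit 9239, nat_lit 9023, nat_lit 9083, nat_lit 9079, nat_lit 28759] (nat_lit 0) [] false,
   Spec.mk (nat_lit 9079) (nat_lit 0) [nat_lit 22201, nat_lit 4705, nat_lit 13453, nat_lit 7621, nat_lit 9565, nat_lit 8917, nat_lit 9241, nat_lit 9025, nat_lit 9085, nat_lit 9077, nat_lit 28761] (nat_lit 0) [] false,
   Spec.mk (nat_lit 9083) (nat_lit 0) [nat_lit 22205, nat_lit 4709, nat_lit 13457, nat_lit 7625, nat_lit 9569, nat_lit 8921, nat_lit 9245, nat_lit 9029, nat_lit 9101, nat_lit 9077, nat_lit 9085, nat_lit 28765] (nat_lit 2) [] false,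
   Spec.mk (nat_lit 9085) (nat_lit 0) [nat_lit 22207, nat_lit 4711, nat_lit 13459, nat_lit 7627, nat_lit 9571, nat_lit 8923, nat_lit 9247, nat_lit 9031, nat_lit 9103, nat_lit 9079, nat_lit 9091, nat_lit 9083, nat_lit 9087, nat_lit 28767] (nat_lit 0) [] true,
   Spec.mk (nat_lit 9087) (nat_lit 0) [nat_lit 22209, nat_lit 4713, nat_lit 13461, nat_lit 7629, nat_lit 9573, nat_lit 8925, nat_lit 9249, nat_lit 9033, nat_lit 9105, nat_lit 9093, nat_lit 9085] (nat_lit 0) [] false,
   Spec.mk (nat_lit 9091) (nat_lit 0) [nat_lit 22213, nat_lit 4717, nat_lit 13465, nat_lit 7633, nat_lit 9577, nat_lit 8929, nat_lit 9253, nat_lit 9037, nat_lit 9109, nat_lit 9085, nat_lit 9093, nat_lit 28773] (nat_lit 2) [] false,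
   Spec.mk (nat_lit 9093) (nat_lit 0) [nat_lit 22215, nat_lit 4719, nat_lit 13467, nat_lit 7635, nat_lit 9579, nat_lit 8931, nat_lit 9255, nat_lit 9039, nat_lit 9111, nat_lit 9087, nat_lit 9091] (nat_lit 0) [] false,
   Spec.mk (nat_lit 9101) (nat_lit 0) [nat_lit 22223, nat_lit 4727, nat_lit 13475, nat_lit 7643, nat_lit 9587, nat_lit 8939, nat_lit 9263, nat_lit 9047, nat_lit 9155, nat_lit 9083, nat_lit 9103, nat_lit 28783] (nat_lit 1) [] false,
   Spec.mk (nat_lit 9103) (nat_lit 0) [nat_lit 22225, nat_lit 4729, nat_lit 13477, nat_lit 7645, nat_lit 9589, nat_lit 8941, nat_lit 9265, nat_lit 9049, nat_lit 9157, nat_lit 9085, nat_lit 9109, nat_lit 9101, nat_lit 9105, nat_lit 28785] (nat_lit 0) [] false,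
   Spec.mk (nat_lit 9105) (nat_lit 0) [nat_lit 22227, nat_lit 4731, nat_lit 13479, nat_lit 7647, nat_lit 9591, nat_lit 8943, nat_lit 9267, nat_lit 9051, nat_lit 9159, nat_lit 9087, nat_lit 9111, nat_lit 9103] (nat_lit 1) [] false,
   Spec.mk (nat_lit 9109) (nat_lit 0) [nat_lit 22231, nat_lit 4735, nat_lit 13483, nat_lit 7651, nat_lit 9595, nat_lit 8947, nat_lit 9271, nat_lit 9055, nat_lit 9163, nat_lit 9091, nat_lit 9127, nat_lit 9103, nat_lit 9111, nat_lit 28791] (nat_lit 0) [] false,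
   Spec.mk (nat_lit 9111) (nat_lit 1) [nat_lit 22233, nat_lit 4737, nat_lit 13485, nat_lit 7653, nat_lit 9597, nat_lit 8949, nat_lit 9273, nat_lit 9057, nat_lit 9165, nat_lit 9093, nat_lit 9129, nat_lit 9105, nat_lit 9117, nat_lit 9109] (nat_lit 0) [] false,
   Spec.mk (nat_lit 9117) (nat_lit 1) [nat_lit 22239, nat_lit 4743, nat_lit 13491, nat_lit 7659, nat_lit 9603, nat_lit 8955, nat_lit 9279, nat_lit 9063, nat_lit 9171, nat_lit 9135, nat_lit 9111] (nat_lit 0) [] false,
   Spec.mk (nat_lit 9127) (nat_lit 0) [nat_lit 22249, nat_lit 4753, nat_lit 13501, nat_lit 7669, nat_lit 9613, nat_lit 8965, nat_lit 9289, nat_lit 9181, nat_lit 9109, nat_lit 9129, nat_lit 28809] (nat_lit 0) [] false,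
   Spec.mk (nat_lit 9129) (nat_lit 0) [nat_lit 22251, nat_lit 4755, nat_lit 13503, nat_lit 7671, nat_lit 9615, nat_lit 8967, nat_lit 9291, nat_lit 9183, nat_lit 9111, nat_lit 9135, nat_lit 9127] (nat_lit 0) [] false,
   Spec.mk (nat_lit 9135) (nat_lit 2) [nat_lit 22257, nat_lit 4761, nat_lit 13509, nat_lit 7677, nat_lit 9621, nat_lit 8973, nat_lit 9297, nat_lit 9189, nat_lit 9117, nat_lit 9129] (nat_lit 0) [] false,
   Spec.mk (nat_lit 9155) (nat_lit 0) [nat_lit 22277, nat_lit 4781, nat_lit 13529, nat_lit 7697, nat_lit 9641, nat_lit 9317, nat_lit 9101, nat_lit 9157, nat_lit 28837] (nat_lit 1) [] false,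
   Spec.mk (nat_lit 9157) (nat_lit 0) [nat_lit 22279, nat_lit 4783, nat_lit 13531, nat_lit 7699, nat_lit 9643, nat_lit 9319, nat_lit 9103, nat_lit 9163, nat_lit 9155, nat_lit 9159, nat_lit 28839] (nat_lit 0) [] false,
   Spec.mk (nat_lit 9159) (nat_lit 0) [nat_lit 22281, nat_lit 4785, nat_lit 13533, nat_lit 7701, nat_lit 9645, nat_lit 9321, nat_lit 9105, nat_lit 9165, nat_lit 9157] (nat_lit 1) [] false,
   Spec.mk (nat_lit 9163) (nat_lit 0) [nat_lit 22285, nat_lit 4789, nat_lit 13537, nat_lit 7705, nat_lit 9649, nat_lit 9325, nat_lit 9109, nat_lit 9181, nat_lit 9157, nat_lit 9165, nat_lit 28845] (nat_lit 1) [] false,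
   Spec.mk (nat_lit 9165) (nat_lit 0) [nat_lit 22287, nat_lit 4791, nat_lit 13539, nat_lit 7707, nat_lit 9651, nat_lit 9327, nat_lit 9111, nat_lit 9183, nat_lit 9159, nat_lit 9171, nat_lit 9163] (nat_lit 0) [] false,
   Spec.mk (nat_lit 9171) (nat_lit 0) [nat_lit 22293, nat_lit 4797, nat_lit 13545, nat_lit 7713, nat_lit 9657, nat_lit 9333, nat_lit 9117, nat_lit 9189, nat_lit 9165] (nat_lit 1) [] false,
   Spec.mk (nat_lit 9181) (nat_lit 1) [nat_lit 22303, nat_lit 4807, nat_lit 13555, nat_lit 7723, nat_lit 9667, nat_lit 9343, nat_lit 9127, nat_lit 9163, nat_lit 9183, nat_lit 28863] (nat_lit 0) [] false,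
   Spec.mk (nat_lit 9183) (nat_lit 1) [nat_lit 22305, nat_lit 4809, nat_lit 13557, nat_lit 7725, nat_lit 9669, nat_lit 9345, nat_lit 9129, nat_lit 9165, nat_lit 9189, nat_lit 9181] (nat_lit 0) [] false,
   Spec.mk (nat_lit 9189) (nat_lit 2) [nat_lit 22311, nat_lit 4815, nat_lit 13563, nat_lit 7731, nat_lit 9675, nat_lit 9351, nat_lit 9135, nat_lit 9171, nat_lit 9207, nat_lit 9183] (nat_lit 0) [] false,
   Spec.mk (nat_lit 9207) (nat_lit 3) [nat_lit 22329, nat_lit 4833, nat_lit 13581, nat_lit 7749, nat_lit 9693, nat_lit 9369, nat_lit 9189] (nat_lit 0) [] false,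
   Spec.mk (nat_lit 9239) (nat_lit 0) [nat_lit 22361, nat_lit 4865, nat_lit 13613, nat_lit 7781, nat_lit 9725, nat_lit 9077, nat_lit 9245, nat_lit 9241, nat_lit 28921] (nat_lit 1) [] false,
   Spec.mk (nat_lit 9241) (nat_lit 0) [nat_lit 22363, nat_lit 4867, nat_lit 13615, nat_lit 7783, nat_lit 9727, nat_lit 9079, nat_lit 9247, nat_lit 9239, nat_lit 28923] (nat_lit 1) [] false,
   Spec.mk (nat_lit 9245) (nat_lit 0) [nat_lit 22367, nat_lit 4871, nat_lit 13619, nat_lit 7787, nat_lit 9731, nat_lit 9083, nat_lit 9263, nat_lit 9239, nat_lit 9247, nat_lit 28927] (nat_lit 3) [] false,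
   Spec.mk (nat_lit 9247) (nat_lit 0) [nat_lit 22369, nat_lit 4873, nat_lit 13621, nat_lit 7789, nat_lit 9733, nat_lit 9085, nat_lit 9265, nat_lit 9241, nat_lit 9253, nat_lit 9245, nat_lit 9249, nat_lit 28929] (nat_lit 1) [] false,
   Spec.mk (nat_lit 9249) (nat_lit 0) [nat_lit 22371, nat_lit 4875, nat_lit 13623, nat_lit 7791, nat_lit 9735, nat_lit 9087, nat_lit 9267, nat_lit 9255, nat_lit 9247] (nat_lit 1) [] false,
   Spec.mk (nat_lit 9253) (nat_lit 0) [nat_lit 22375, nat_lit 4879, nat_lit 13627, nat_lit 7795, nat_lit 9739, nat_lit 9091, nat_lit 9271, nat_lit 9247, nat_lit 9255, nat_lit 28935] (nat_lit 3) [] false,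
   Spec.mk (nat_lit 9255) (nat_lit 0) [nat_lit 22377, nat_lit 4881, nat_lit 13629, nat_lit 7797, nat_lit 9741, nat_lit 9093, nat_lit 9273, nat_lit 9249, nat_lit 9253] (nat_lit 1) [] false,
   Spec.mk (nat_lit 9263) (nat_lit 0) [nat_lit 22385, nat_lit 4889, nat_lit 13637, nat_lit 7805, nat_lit 9749, nat_lit 9101, nat_lit 9317, nat_lit 9245, nat_lit 9265, nat_lit 28945] (nat_lit 3) [] false,
   Spec.mk (nat_lit 9265) (nat_lit 0) [nat_lit 22387, nat_lit 4891, nat_lit 13639, nat_lit 7807, nat_lit 9751, nat_lit 9103, nat_lit 9319, nat_lit 9247, nat_lit 9271, nat_lit 9263, nat_lit 9267, nat_lit 28947] (nat_lit 2) [] false,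
   Spec.mk (nat_lit 9267) (nat_lit 0) [nat_lit 22389, nat_lit 4893, nat_lit 13641, nat_lit 7809, nat_lit 9753, nat_lit 9105, nat_lit 9321, nat_lit 9249, nat_lit 9273, nat_lit 9265] (nat_lit 3) [] false,
   Spec.mk (nat_lit 9271) (nat_lit 0) [nat_lit 22393, nat_lit 4897, nat_lit 13645, nat_lit 7813, nat_lit 9757, nat_lit 9109, nat_lit 9325, nat_lit 9253, nat_lit 9289, nat_lit 9265, nat_lit 9273, nat_lit 28953] (nat_lit 2) [] false,
   Spec.mk (nat_lit 9273) (nat_lit 0) [nat_lit 22395, nat_lit 4899, nat_lit 13647, nat_lit 7815, nat_lit 9759, nat_lit 9111, nat_lit 9327, nat_lit 9255, nat_lit 9291, nat_lit 9267, nat_lit 9279, nat_lit 9271] (nat_lit 1) [] false,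
   Spec.mk (nat_lit 9279) (nat_lit 0) [nat_lit 22401, nat_lit 4905, nat_lit 13653, nat_lit 7821, nat_lit 9765, nat_lit 9117, nat_lit 9333, nat_lit 9297, nat_lit 9273] (nat_lit 1) [] false,
   Spec.mk (nat_lit 9289) (nat_lit 0) [nat_lit 22411, nat_lit 4915, nat_lit 13663, nat_lit 7831, nat_lit 9775, nat_lit 9127, nat_lit 9343, nat_lit 9271, nat_lit 9291, nat_lit 28971] (nat_lit 3) [] false,
   Spec.mk (nat_lit 9291) (nat_lit 0) [nat_lit 22413, nat_lit 4917, nat_lit 13665, nat_lit 7833, nat_lit 9777, nat_lit 9129, nat_lit 9345, nat_lit 9273, nat_lit 9297, nat_lit 9289] (nat_lit 3) [] false,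
   Spec.mk (nat_lit 9297) (nat_lit 0) [nat_lit 22419, nat_lit 4923, nat_lit 13671, nat_lit 7839, nat_lit 9783, nat_lit 9135, nat_lit 9351, nat_lit 9279, nat_lit 9291] (nat_lit 1) [] false,
   Spec.mk (nat_lit 9317) (nat_lit 0) [nat_lit 22439, nat_lit 4943, nat_lit 13691, nat_lit 7859, nat_lit 9803, nat_lit 9155, nat_lit 9263, nat_lit 9319, nat_lit 28999] (nat_lit 1) [] false,
   Spec.mk (nat_lit 9319) (nat_lit 0) [nat_lit 22441, nat_lit 4945, nat_lit 13693, nat_lit 7861, nat_lit 9805, nat_lit 9157, nat_lit 9265, nat_lit 9325, nat_lit 9317, nat_lit 9321, nat_lit 29001] (nat_lit 0) [] false,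
   Spec.mk (nat_lit 9321) (nat_lit 0) [nat_lit 22443, nat_lit 4947, nat_lit 13695, nat_lit 7863, nat_lit 9807, nat_lit 9159, nat_lit 9267, nat_lit 9327, nat_lit 9319] (nat_lit 1) [] false,
   Spec.mk (nat_lit 9325) (nat_lit 0) [nat_lit 22447, nat_lit 4951, nat_lit 13699, nat_lit 7867, nat_lit 9811, nat_lit 9163, nat_lit 9271, nat_lit 9343, nat_lit 9319, nat_lit 9327, nat_lit 29007] (nat_lit 1) [] false,
   Spec.mk (nat_lit 9327) (nat_lit 0) [nat_lit 22449, nat_lit 4953, nat_lit 13701, nat_lit 7869, nat_lit 9813, nat_lit 9165, nat_lit 9273, nat_lit 9345, nat_lit 9321, nat_lit 9333, nat_lit 9325] (nat_lit 0) [] false,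
   Spec.mk (nat_lit 9333) (nat_lit 0) [nat_lit 22455, nat_lit 4959, nat_lit 13707, nat_lit 7875, nat_lit 9819, nat_lit 9171, nat_lit 9279, nat_lit 9351, nat_lit 9327] (nat_lit 1) [] false,
   Spec.mk (nat_lit 9343) (nat_lit 0) [nat_lit 22465, nat_lit 4969, nat_lit 13717, nat_lit 7885, nat_lit 9829, nat_lit 9181, nat_lit 9289, nat_lit 9397, nat_lit 9325, nat_lit 9345, nat_lit 29025] (nat_lit 0) [] false,
   Spec.mk (nat_lit 9345) (nat_lit 0) [nat_lit 22467, nat_lit 4971, nat_lit 13719, nat_lit 7887, nat_lit 9831, nat_lit 9183, nat_lit 9291, nat_lit 9399, nat_lit 9327, nat_lit 9351, nat_lit 9343] (nat_lit 0) [] false,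
   Spec.mk (nat_lit 9351) (nat_lit 1) [nat_lit 22473, nat_lit 4977, nat_lit 13725, nat_lit 7893, nat_lit 9837, nat_lit 9189, nat_lit 9297, nat_lit 9405, nat_lit 9333, nat_lit 9369, nat_lit 9345] (nat_lit 0) [] false,
   Spec.mk (nat_lit 9369) (nat_lit 1) [nat_lit 22491, nat_lit 4995, nat_lit 13743, nat_lit 7911, nat_lit 9855, nat_lit 9207, nat_lit 9423, nat_lit 9351] (nat_lit 0) [] false,
   Spec.mk (nat_lit 9397) (nat_lit 1) [nat_lit 22519, nat_lit 5023, nat_lit 13771, nat_lit 7939, nat_lit 9883, nat_lit 9343, nat_lit 9399, nat_lit 29079] (nat_lit 0) [] false,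
   Spec.mk (nat_lit 9399) (nat_lit 1) [nat_lit 22521, nat_lit 5025, nat_lit 13773, nat_lit 7941, nat_lit 9885, nat_lit 9345, nat_lit 9405, nat_lit 9397] (nat_lit 0) [] false,
   Spec.mk (nat_lit 9405) (nat_lit 1) [nat_lit 22527, nat_lit 5031, nat_lit 13779, nat_lit 7947, nat_lit 9891, nat_lit 9351, nat_lit 9423, nat_lit 9399] (nat_lit 0) [] false,
   Spec.mk (nat_lit 9423) (nat_lit 3) [nat_lit 22545, nat_lit 5049, nat_lit 13797, nat_lit 7965, nat_lit 9909, nat_lit 9369, nat_lit 9405] (nat_lit 0) [] false,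
   Spec.mk (nat_lit 9485) (nat_lit 2) [nat_lit 22607, nat_lit 5111, nat_lit 13859, nat_lit 8027, nat_lit 10943, nat_lit 8999, nat_lit 9491, nat_lit 29167] (nat_lit 0) [] false]

noncomputable def sp25 : List Spec :=
  [Spec.mk (nat_lit 9491) (nat_lit 1) [nat_lit 22613, nat_lit 5117, nat_lit 13865, nat_lit 8033, nat_lit 10949, nat_lit 9005, nat_lit 9509, nat_lit 9485, nat_lit 9497, nat_lit 9493, nat_lit 29173] (nat_lit 0) [] false,
   Spec.mk (nat_lit 9493) (nat_lit 2) [nat_lit 22615, nat_lit 5119, nat_lit 13867, nat_lit 8035, nat_lit 10951, nat_lit 9007, nat_lit 9511, nat_lit 9499, nat_lit 9491, nat_lit 29175] (nat_lit 0) [] false,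
   Spec.mk (nat_lit 9497) (nat_lit 0) [nat_lit 22619, nat_lit 5123, nat_lit 13871, nat_lit 8039, nat_lit 10955, nat_lit 9011, nat_lit 9515, nat_lit 9491, nat_lit 9499, nat_lit 29179] (nat_lit 2) [] false,
   Spec.mk (nat_lit 9499) (nat_lit 1) [nat_lit 22621, nat_lit 5125, nat_lit 13873, nat_lit 8041, nat_lit 10957, nat_lit 9013, nat_lit 9517, nat_lit 9493, nat_lit 9497, nat_lit 9501, nat_lit 29181] (nat_lit 0) [] false,
   Spec.mk (nat_lit 9501) (nat_lit 2) [nat_lit 22623, nat_lit 5127, nat_lit 13875, nat_lit 8043, nat_lit 10959, nat_lit 9015, nat_lit 9519, nat_lit 9499] (nat_lit 0) [] false,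
   Spec.mk (nat_lit 9509) (nat_lit 0) [nat_lit 22631, nat_lit 5135, nat_lit 13883, nat_lit 8051, nat_lit 10967, nat_lit 9023, nat_lit 9563, nat_lit 9491, nat_lit 9515, nat_lit 9511, nat_lit 29191] (nat_lit 0) [] false,
   Spec.mk (nat_lit 9511) (nat_lit 0) [nat_lit 22633, nat_lit 5137, nat_lit 13885, nat_lit 8053, nat_lit 10969, nat_lit 9025, nat_lit 9565, nat_lit 9493, nat_lit 9517, nat_lit 9509, nat_lit 29193] (nat_lit 0) [] false,
   Spec.mk (nat_lit 9515) (nat_lit 0) [nat_lit 22637, nat_lit 5141, nat_lit 13889, nat_lit 8057, nat_lit 10973, nat_lit 9029, nat_lit 9569, nat_lit 9497, nat_lit 9533, nat_lit 9509, nat_lit 9517, nat_lit 29197] (nat_lit 1) [] false,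
   Spec.mk (nat_lit 9517) (nat_lit 1) [nat_lit 22639, nat_lit 5143, nat_lit 13891, nat_lit 8059, nat_lit 10975, nat_lit 9031, nat_lit 9571, nat_lit 9499, nat_lit 9535, nat_lit 9511, nat_lit 9523, nat_lit 9515, nat_lit 9519, nat_lit 29199] (nat_lit 0) [] false,
   Spec.mk (nat_lit 9519) (nat_lit 1) [nat_lit 22641, nat_lit 5145, nat_lit 13893, nat_lit 8061, nat_lit 10977, nat_lit 9033, nat_lit 9573, nat_lit 9501, nat_lit 9537, nat_lit 9525, nat_lit 9517] (nat_lit 0) [] false,
   Spec.mk (nat_lit 9523) (nat_lit 0) [nat_lit 22645, nat_lit 5149, nat_lit 13897, nat_lit 8065, nat_lit 10981, nat_lit 9037, nat_lit 9577, nat_lit 9541, nat_lit 9517, nat_lit 9525, nat_lit 29205] (nat_lit 0) [] false,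
   Spec.mk (nat_lit 9525) (nat_lit 2) [nat_lit 22647, nat_lit 5151, nat_lit 13899, nat_lit 8067, nat_lit 10983, nat_lit 9039, nat_lit 9579, nat_lit 9543, nat_lit 9519, nat_lit 9523] (nat_lit 0) [] false,
   Spec.mk (nat_lit 9533) (nat_lit 0) [nat_lit 22655, nat_lit 5159, nat_lit 13907, nat_lit 8075, nat_lit 10991, nat_lit 9047, nat_lit 9587, nat_lit 9515, nat_lit 9535, nat_lit 29215] (nat_lit 2) [] false,
   Spec.mk (nat_lit 9535) (nat_lit 0) [nat_lit 22657, nat_lit 5161, nat_lit 13909, nat_lit 8077, nat_lit 10993, nat_lit 9049, nat_lit 9589, nat_lit 9517, nat_lit 9541, nat_lit 9533, nat_lit 9537, nat_lit 29217] (nat_lit 1) [] false,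
   Spec.mk (nat_lit 9537) (nat_lit 0) [nat_lit 22659, nat_lit 5163, nat_lit 13911, nat_lit 8079, nat_lit 10995, nat_lit 9051, nat_lit 9591, nat_lit 9519, nat_lit 9543, nat_lit 9535] (nat_lit 2) [] false,
   Spec.mk (nat_lit 9541) (nat_lit 0) [nat_lit 22663, nat_lit 5167, nat_lit 13915, nat_lit 8083, nat_lit 10999, nat_lit 9055, nat_lit 9595, nat_lit 9523, nat_lit 9535, nat_lit 9543, nat_lit 29223] (nat_lit 0) [] false,
   Spec.mk (nat_lit 9543) (nat_lit 1) [nat_lit 22665, nat_lit 5169, nat_lit 13917, nat_lit 8085, nat_lit 11001, nat_lit 9057, nat_lit 9597, nat_lit 9525, nat_lit 9537, nat_lit 9549, nat_lit 9541] (nat_lit 0) [] false,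
   Spec.mk (nat_lit 9549) (nat_lit 2) [nat_lit 22671, nat_lit 5175, nat_lit 13923, nat_lit 8091, nat_lit 11007, nat_lit 9063, nat_lit 9603, nat_lit 9543] (nat_lit 0) [] false,
   Spec.mk (nat_lit 9563) (nat_lit 0) [nat_lit 22685, nat_lit 5189, nat_lit 13937, nat_lit 8105, nat_lit 11021, nat_lit 9077, nat_lit 9725, nat_lit 9509, nat_lit 9569, nat_lit 9565, nat_lit 29245] (nat_lit 0) [] false,
   Spec.mk (nat_lit 9565) (nat_lit 0) [nat_lit 22687, nat_lit 5191, nat_lit 13939, nat_lit 8107, nat_lit 11023, nat_lit 9079, nat_lit 9727, nat_lit 9511, nat_lit 9571, nat_lit 9563, nat_lit 29247] (nat_lit 0) [] false,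
   Spec.mk (nat_lit 9569) (nat_lit 0) [nat_lit 22691, nat_lit 5195, nat_lit 13943, nat_lit 8111, nat_lit 11027, nat_lit 9083, nat_lit 9731, nat_lit 9515, nat_lit 9587, nat_lit 9563, nat_lit 9571, nat_lit 29251] (nat_lit 2) [] false,
   Spec.mk (nat_lit 9571) (nat_lit 0) [nat_lit 22693, nat_lit 5197, nat_lit 13945, nat_lit 8113, nat_lit 11029, nat_lit 9085, nat_lit 9733, nat_lit 9517, nat_lit 9589, nat_lit 9565, nat_lit 9577, nat_lit 9569, nat_lit 9573, nat_lit 29253] (nat_lit 0) [] false,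
   Spec.mk (nat_lit 9573) (nat_lit 0) [nat_lit 22695, nat_lit 5199, nat_lit 13947, nat_lit 8115, nat_lit 11031, nat_lit 9087, nat_lit 9735, nat_lit 9519, nat_lit 9591, nat_lit 9579, nat_lit 9571] (nat_lit 0) [] false,
   Spec.mk (nat_lit 9577) (nat_lit 0) [nat_lit 22699, nat_lit 5203, nat_lit 13951, nat_lit 8119, nat_lit 11035, nat_lit 9091, nat_lit 9739, nat_lit 9523, nat_lit 9595, nat_lit 9571, nat_lit 9579, nat_lit 29259] (nat_lit 2) [] false,
   Spec.mk (nat_lit 9579) (nat_lit 0) [nat_lit 22701, nat_lit 5205, nat_lit 13953, nat_lit 8121, nat_lit 11037, nat_lit 9093, nat_lit 9741, nat_lit 9525, nat_lit 9597, nat_lit 9573, nat_lit 9577] (nat_lit 0) [] false,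
   Spec.mk (nat_lit 9587) (nat_lit 0) [nat_lit 22709, nat_lit 5213, nat_lit 13961, nat_lit 8129, nat_lit 11045, nat_lit 9101, nat_lit 9749, nat_lit 9533, nat_lit 9641, nat_lit 9569, nat_lit 9589, nat_lit 29269] (nat_lit 1) [] false,
   Spec.mk (nat_lit 9589) (nat_lit 0) [nat_lit 22711, nat_lit 5215, nat_lit 13963, nat_lit 8131, nat_lit 11047, nat_lit 9103, nat_lit 9751, nat_lit 9535, nat_lit 9643, nat_lit 9571, nat_lit 9595, nat_lit 9587, nat_lit 9591, nat_lit 29271] (nat_lit 0) [] false,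
   Spec.mk (nat_lit 9591) (nat_lit 0) [nat_lit 22713, nat_lit 5217, nat_lit 13965, nat_lit 8133, nat_lit 11049, nat_lit 9105, nat_lit 9753, nat_lit 9537, nat_lit 9645, nat_lit 9573, nat_lit 9597, nat_lit 9589] (nat_lit 1) [] false,
   Spec.mk (nat_lit 9595) (nat_lit 0) [nat_lit 22717, nat_lit 5221, nat_lit 13969, nat_lit 8137, nat_lit 11053, nat_lit 9109, nat_lit 9757, nat_lit 9541, nat_lit 9649, nat_lit 9577, nat_lit 9613, nat_lit 9589, nat_lit 9597, nat_lit 29277] (nat_lit 0) [] false,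
   Spec.mk (nat_lit 9597) (nat_lit 1) [nat_lit 22719, nat_lit 5223, nat_lit 13971, nat_lit 8139, nat_lit 11055, nat_lit 9111, nat_lit 9759, nat_lit 9543, nat_lit 9651, nat_lit 9579, nat_lit 9615, nat_lit 9591, nat_lit 9603, nat_lit 9595] (nat_lit 0) [] false,
   Spec.mk (nat_lit 9603) (nat_lit 1) [nat_lit 22725, nat_lit 5229, nat_lit 13977, nat_lit 8145, nat_lit 11061, nat_lit 9117, nat_lit 9765, nat_lit 9549, nat_lit 9657, nat_lit 9621, nat_lit 9597] (nat_lit 0) [] false,
   Spec.mk (nat_lit 9613) (nat_lit 0) [nat_lit 22735, nat_lit 5239, nat_lit 13987, nat_lit 8155, nat_lit 11071, nat_lit 9127, nat_lit 9775, nat_lit 9667, nat_lit 9595, nat_lit 9615, nat_lit 29295] (nat_lit 0) [] false,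
   Spec.mk (nat_lit 9615) (nat_lit 0) [nat_lit 22737, nat_lit 5241, nat_lit 13989, nat_lit 8157, nat_lit 11073, nat_lit 9129, nat_lit 9777, nat_lit 9669, nat_lit 9597, nat_lit 9621, nat_lit 9613] (nat_lit 0) [] false,
   Spec.mk (nat_lit 9621) (nat_lit 2) [nat_lit 22743, nat_lit 5247, nat_lit 13995, nat_lit 8163, nat_lit 11079, nat_lit 9135, nat_lit 9783, nat_lit 9675, nat_lit 9603, nat_lit 9615] (nat_lit 0) [] false,
   Spec.mk (nat_lit 9641) (nat_lit 0) [nat_lit 22763, nat_lit 5267, nat_lit 14015, nat_lit 8183, nat_lit 11099, nat_lit 9155, nat_lit 9803, nat_lit 9587, nat_lit 9643, nat_lit 29323] (nat_lit 2) [] false,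
   Spec.mk (nat_lit 9643) (nat_lit 0) [nat_lit 22765, nat_lit 5269, nat_lit 14017, nat_lit 8185, nat_lit 11101, nat_lit 9157, nat_lit 9805, nat_lit 9589, nat_lit 9649, nat_lit 9641, nat_lit 9645, nat_lit 29325] (nat_lit 1) [] false,
   Spec.mk (nat_lit 9645) (nat_lit 0) [nat_lit 22767, nat_lit 5271, nat_lit 14019, nat_lit 8187, nat_lit 11103, nat_lit 9159, nat_lit 9807, nat_lit 9591, nat_lit 9651, nat_lit 9643] (nat_lit 2) [] false,
   Spec.mk (nat_lit 9649) (nat_lit 0) [nat_lit 22771, nat_lit 5275, nat_lit 14023, nat_lit 8191, nat_lit 11107, nat_lit 9163, nat_lit 9811, nat_lit 9595, nat_lit 9667, nat_lit 9643, nat_lit 9651, nat_lit 29331] (nat_lit 2) [] false,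
   Spec.mk (nat_lit 9651) (nat_lit 0) [nat_lit 22773, nat_lit 5277, nat_lit 14025, nat_lit 8193, nat_lit 11109, nat_lit 9165, nat_lit 9813, nat_lit 9597, nat_lit 9669, nat_lit 9645, nat_lit 9657, nat_lit 9649] (nat_lit 1) [] false,
   Spec.mk (nat_lit 9657) (nat_lit 0) [nat_lit 22779, nat_lit 5283, nat_lit 14031, nat_lit 8199, nat_lit 11115, nat_lit 9171, nat_lit 9819, nat_lit 9603, nat_lit 9675, nat_lit 9651] (nat_lit 2) [] false,
   Spec.mk (nat_lit 9667) (nat_lit 0) [nat_lit 22789, nat_lit 5293, nat_lit 14041, nat_lit 8209, nat_lit 11125, nat_lit 9181, nat_lit 9829, nat_lit 9613, nat_lit 9649, nat_lit 9669, nat_lit 29349] (nat_lit 0) [] false,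
   Spec.mk (nat_lit 9669) (nat_lit 0) [nat_lit 22791, nat_lit 5295, nat_lit 14043, nat_lit 8211, nat_lit 11127, nat_lit 9183, nat_lit 9831, nat_lit 9615, nat_lit 9651, nat_lit 9675, nat_lit 9667] (nat_lit 0) [] false,
   Spec.mk (nat_lit 9675) (nat_lit 1) [nat_lit 22797, nat_lit 5301, nat_lit 14049, nat_lit 8217, nat_lit 11133, nat_lit 9189, nat_lit 9837, nat_lit 9621, nat_lit 9657, nat_lit 9693, nat_lit 9669] (nat_lit 0) [] false,
   Spec.mk (nat_lit 9693) (nat_lit 2) [nat_lit 22815, nat_lit 5319, nat_lit 14067, nat_lit 8235, nat_lit 11151, nat_lit 9207, nat_lit 9855, nat_lit 9675] (nat_lit 0) [] false,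
   Spec.mk (nat_lit 9725) (nat_lit 1) [nat_lit 22847, nat_lit 5351, nat_lit 14099, nat_lit 8267, nat_lit 11183, nat_lit 9239, nat_lit 10211, nat_lit 9563, nat_lit 9731, nat_lit 9727, nat_lit 29407] (nat_lit 0) [] false,
   Spec.mk (nat_lit 9727) (nat_lit 1) [nat_lit 22849, nat_lit 5353, nat_lit 14101, nat_lit 8269, nat_lit 11185, nat_lit 9241, nat_lit 10213, nat_lit 9565, nat_lit 9733, nat_lit 9725, nat_lit 29409] (nat_lit 0) [] false,
   Spec.mk (nat_lit 9731) (nat_lit 0) [nat_lit 22853, nat_lit 5357, nat_lit 14105, nat_lit 8273, nat_lit 11189, nat_lit 9245, nat_lit 10217, nat_lit 9569, nat_lit 9749, nat_lit 9725, nat_lit 9733, nat_lit 29413] (nat_lit 1) [] false,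
   Spec.mk (nat_lit 9733) (nat_lit 1) [nat_lit 22855, nat_lit 5359, nat_lit 14107, nat_lit 8275, nat_lit 11191, nat_lit 9247, nat_lit 10219, nat_lit 9571, nat_lit 9751, nat_lit 9727, nat_lit 9739, nat_lit 9731, nat_lit 9735, nat_lit 29415] (nat_lit 0) [] false,
   Spec.mk (nat_lit 9735) (nat_lit 1) [nat_lit 22857, nat_lit 5361, nat_lit 14109, nat_lit 8277, nat_lit 11193, nat_lit 9249, nat_lit 10221, nat_lit 9573, nat_lit 9753, nat_lit 9741, nat_lit 9733] (nat_lit 0) [] false,
   Spec.mk (nat_lit 9739) (nat_lit 0) [nat_lit 22861, nat_lit 5365, nat_lit 14113, nat_lit 8281, nat_lit 11197, nat_lit 9253, nat_lit 10225, nat_lit 9577, nat_lit 9757, nat_lit 9733, nat_lit 9741, nat_lit 29421] (nat_lit 1) [] false,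
   Spec.mk (nat_lit 9741) (nat_lit 1) [nat_lit 22863, nat_lit 5367, nat_lit 14115, nat_lit 8283, nat_lit 11199, nat_lit 9255, nat_lit 10227, nat_lit 9579, nat_lit 9759, nat_lit 9735, nat_lit 9739] (nat_lit 0) [] false,
   Spec.mk (nat_lit 9749) (nat_lit 0) [nat_lit 22871, nat_lit 5375, nat_lit 14123, nat_lit 8291, nat_lit 11207, nat_lit 9263, nat_lit 10235, nat_lit 9587, nat_lit 9803, nat_lit 9731, nat_lit 9751, nat_lit 29431] (nat_lit 1) [] false,
   Spec.mk (nat_lit 9751) (nat_lit 0) [nat_lit 22873, nat_lit 5377, nat_lit 14125, nat_lit 8293, nat_lit 11209, nat_lit 9265, nat_lit 10237, nat_lit 9589, nat_lit 9805, nat_lit 9733, nat_lit 9757, nat_lit 9749, nat_lit 9753, nat_lit 29433] (nat_lit 0) [] false,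
   Spec.mk (nat_lit 9753) (nat_lit 0) [nat_lit 22875, nat_lit 5379, nat_lit 14127, nat_lit 8295, nat_lit 11211, nat_lit 9267, nat_lit 10239, nat_lit 9591, nat_lit 9807, nat_lit 9735, nat_lit 9759, nat_lit 9751] (nat_lit 1) [] false,
   Spec.mk (nat_lit 9757) (nat_lit 0) [nat_lit 22879, nat_lit 5383, nat_lit 14131, nat_lit 8299, nat_lit 11215, nat_lit 9271, nat_lit 10243, nat_lit 9595, nat_lit 9811, nat_lit 9739, nat_lit 9775, nat_lit 9751, nat_lit 9759, nat_lit 29439] (nat_lit 0) [] false,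
   Spec.mk (nat_lit 9759) (nat_lit 1) [nat_lit 22881, nat_lit 5385, nat_lit 14133, nat_lit 8301, nat_lit 11217, nat_lit 9273, nat_lit 10245, nat_lit 9597, nat_lit 9813, nat_lit 9741, nat_lit 9777, nat_lit 9753, nat_lit 9765, nat_lit 9757] (nat_lit 0) [] false,
   Spec.mk (nat_lit 9765) (nat_lit 1) [nat_lit 22887, nat_lit 5391, nat_lit 14139, nat_lit 8307, nat_lit 11223, nat_lit 9279, nat_lit 10251, nat_lit 9603, nat_lit 9819, nat_lit 9783, nat_lit 9759] (nat_lit 0) [] false,
   Spec.mk (nat_lit 9775) (nat_lit 0) [nat_lit 22897, nat_lit 5401, nat_lit 14149, nat_lit 8317, nat_lit 11233, nat_lit 9289, nat_lit 10261, nat_lit 9613, nat_lit 9829, nat_lit 9757, nat_lit 9777, nat_lit 29457] (nat_lit 1) [] false,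
   Spec.mk (nat_lit 9777) (nat_lit 0) [nat_lit 22899, nat_lit 5403, nat_lit 14151, nat_lit 8319, nat_lit 11235, nat_lit 9291, nat_lit 10263, nat_lit 9615, nat_lit 9831, nat_lit 9759, nat_lit 9783, nat_lit 9775] (nat_lit 1) [] false,
   Spec.mk (nat_lit 9783) (nat_lit 1) [nat_lit 22905, nat_lit 5409, nat_lit 14157, nat_lit 8325, nat_lit 11241, nat_lit 9297, nat_lit 10269, nat_lit 9621, nat_lit 9837, nat_lit 9765, nat_lit 9777] (nat_lit 0) [] false]

noncomputable def sp26 : List Spec :=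
  [Spec.mk (nat_lit 9803) (nat_lit 0) [nat_lit 22925, nat_lit 5429, nat_lit 14177, nat_lit 8345, nat_lit 11261, nat_lit 9317, nat_lit 10289, nat_lit 9641, nat_lit 9965, nat_lit 9749, nat_lit 9805, nat_lit 29485] (nat_lit 0) [] false,
   Spec.mk (nat_lit 9805) (nat_lit 1) [nat_lit 22927, nat_lit 5431, nat_lit 14179, nat_lit 8347, nat_lit 11263, nat_lit 9319, nat_lit 10291, nat_lit 9643, nat_lit 9967, nat_lit 9751, nat_lit 9811, nat_lit 9803, nat_lit 9807, nat_lit 29487] (nat_lit 0) [] false,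
   Spec.mk (nat_lit 9807) (nat_lit 0) [nat_lit 22929, nat_lit 5433, nat_lit 14181, nat_lit 8349, nat_lit 11265, nat_lit 9321, nat_lit 10293, nat_lit 9645, nat_lit 9969, nat_lit 9753, nat_lit 9813, nat_lit 9805] (nat_lit 0) [] false,
   Spec.mk (nat_lit 9811) (nat_lit 0) [nat_lit 22933, nat_lit 5437, nat_lit 14185, nat_lit 8353, nat_lit 11269, nat_lit 9325, nat_lit 10297, nat_lit 9649, nat_lit 9973, nat_lit 9757, nat_lit 9829, nat_lit 9805, nat_lit 9813, nat_lit 29493] (nat_lit 0) [] false,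
   Spec.mk (nat_lit 9813) (nat_lit 1) [nat_lit 22935, nat_lit 5439, nat_lit 14187, nat_lit 8355, nat_lit 11271, nat_lit 9327, nat_lit 10299, nat_lit 9651, nat_lit 9975, nat_lit 9759, nat_lit 9831, nat_lit 9807, nat_lit 9819, nat_lit 9811] (nat_lit 0) [] false,
   Spec.mk (nat_lit 9819) (nat_lit 0) [nat_lit 22941, nat_lit 5445, nat_lit 14193, nat_lit 8361, nat_lit 11277, nat_lit 9333, nat_lit 10305, nat_lit 9657, nat_lit 9981, nat_lit 9765, nat_lit 9837, nat_lit 9813] (nat_lit 0) [] false,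
   Spec.mk (nat_lit 9829) (nat_lit 1) [nat_lit 22951, nat_lit 5455, nat_lit 14203, nat_lit 8371, nat_lit 11287, nat_lit 9343, nat_lit 10315, nat_lit 9667, nat_lit 9991, nat_lit 9775, nat_lit 9883, nat_lit 9811, nat_lit 9831, nat_lit 29511] (nat_lit 0) [] false,
   Spec.mk (nat_lit 9831) (nat_lit 1) [nat_lit 22953, nat_lit 5457, nat_lit 14205, nat_lit 8373, nat_lit 11289, nat_lit 9345, nat_lit 10317, nat_lit 9669, nat_lit 9993, nat_lit 9777, nat_lit 9885, nat_lit 9813, nat_lit 9837, nat_lit 9829] (nat_lit 0) [] false,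
   Spec.mk (nat_lit 9837) (nat_lit 2) [nat_lit 22959, nat_lit 5463, nat_lit 14211, nat_lit 8379, nat_lit 11295, nat_lit 9351, nat_lit 10323, nat_lit 9675, nat_lit 9999, nat_lit 9783, nat_lit 9891, nat_lit 9819, nat_lit 9855, nat_lit 9831] (nat_lit 0) [] false,
   Spec.mk (nat_lit 9855) (nat_lit 2) [nat_lit 22977, nat_lit 5481, nat_lit 14229, nat_lit 8397, nat_lit 11313, nat_lit 9369, nat_lit 10341, nat_lit 9693, nat_lit 10017, nat_lit 9909, nat_lit 9837] (nat_lit 0) [] false,
   Spec.mk (nat_lit 9883) (nat_lit 1) [nat_lit 23005, nat_lit 5509, nat_lit 14257, nat_lit 8425, nat_lit 11341, nat_lit 9397, nat_lit 10369, nat_lit 10045, nat_lit 9829, nat_lit 9885, nat_lit 29565] (nat_lit 0) [] false,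
   Spec.mk (nat_lit 9885) (nat_lit 1) [nat_lit 23007, nat_lit 5511, nat_lit 14259, nat_lit 8427, nat_lit 11343, nat_lit 9399, nat_lit 10371, nat_lit 10047, nat_lit 9831, nat_lit 9891, nat_lit 9883] (nat_lit 0) [] false,
   Spec.mk (nat_lit 9891) (nat_lit 1) [nat_lit 23013, nat_lit 5517, nat_lit 14265, nat_lit 8433, nat_lit 11349, nat_lit 9405, nat_lit 10377, nat_lit 10053, nat_lit 9837, nat_lit 9909, nat_lit 9885] (nat_lit 0) [] false,
   Spec.mk (nat_lit 9909) (nat_lit 3) [nat_lit 23031, nat_lit 5535, nat_lit 14283, nat_lit 8451, nat_lit 11367, nat_lit 9423, nat_lit 10395, nat_lit 10071, nat_lit 9855, nat_lit 9891] (nat_lit 0) [] false,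
   Spec.mk (nat_lit 9965) (nat_lit 0) [nat_lit 23087, nat_lit 5591, nat_lit 14339, nat_lit 8507, nat_lit 11423, nat_lit 10451, nat_lit 9803, nat_lit 9967, nat_lit 29647] (nat_lit 0) [] false,
   Spec.mk (nat_lit 9967) (nat_lit 1) [nat_lit 23089, nat_lit 5593, nat_lit 14341, nat_lit 8509, nat_lit 11425, nat_lit 10453, nat_lit 9805, nat_lit 9973, nat_lit 9965, nat_lit 9969, nat_lit 29649] (nat_lit 0) [] false,
   Spec.mk (nat_lit 9969) (nat_lit 0) [nat_lit 23091, nat_lit 5595, nat_lit 14343, nat_lit 8511, nat_lit 11427, nat_lit 10455, nat_lit 9807, nat_lit 9975, nat_lit 9967] (nat_lit 0) [] false,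
   Spec.mk (nat_lit 9973) (nat_lit 0) [nat_lit 23095, nat_lit 5599, nat_lit 14347, nat_lit 8515, nat_lit 11431, nat_lit 10459, nat_lit 9811, nat_lit 9991, nat_lit 9967, nat_lit 9975, nat_lit 29655] (nat_lit 0) [] false,
   Spec.mk (nat_lit 9975) (nat_lit 1) [nat_lit 23097, nat_lit 5601, nat_lit 14349, nat_lit 8517, nat_lit 11433, nat_lit 10461, nat_lit 9813, nat_lit 9993, nat_lit 9969, nat_lit 9981, nat_lit 9973] (nat_lit 0) [] false,
   Spec.mk (nat_lit 9981) (nat_lit 0) [nat_lit 23103, nat_lit 5607, nat_lit 14355, nat_lit 8523, nat_lit 11439, nat_lit 10467, nat_lit 9819, nat_lit 9999, nat_lit 9975] (nat_lit 0) [] false,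
   Spec.mk (nat_lit 9991) (nat_lit 0) [nat_lit 23113, nat_lit 5617, nat_lit 14365, nat_lit 8533, nat_lit 11449, nat_lit 10477, nat_lit 9829, nat_lit 10045, nat_lit 9973, nat_lit 9993, nat_lit 29673] (nat_lit 0) [] false,
   Spec.mk (nat_lit 9993) (nat_lit 0) [nat_lit 23115, nat_lit 5619, nat_lit 14367, nat_lit 8535, nat_lit 11451, nat_lit 10479, nat_lit 9831, nat_lit 10047, nat_lit 9975, nat_lit 9999, nat_lit 9991] (nat_lit 0) [] false,
   Spec.mk (nat_lit 9999) (nat_lit 1) [nat_lit 23121, nat_lit 5625, nat_lit 14373, nat_lit 8541, nat_lit 11457, nat_lit 10485, nat_lit 9837, nat_lit 10053, nat_lit 9981, nat_lit 10017, nat_lit 9993] (nat_lit 0) [] false,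
   Spec.mk (nat_lit 10017) (nat_lit 0) [nat_lit 23139, nat_lit 5643, nat_lit 14391, nat_lit 8559, nat_lit 11475, nat_lit 10503, nat_lit 9855, nat_lit 10071, nat_lit 9999] (nat_lit 0) [] false,
   Spec.mk (nat_lit 10045) (nat_lit 2) [nat_lit 23167, nat_lit 5671, nat_lit 14419, nat_lit 8587, nat_lit 11503, nat_lit 10531, nat_lit 9883, nat_lit 9991, nat_lit 10047, nat_lit 29727] (nat_lit 0) [] false,
   Spec.mk (nat_lit 10047) (nat_lit 2) [nat_lit 23169, nat_lit 5673, nat_lit 14421, nat_lit 8589, nat_lit 11505, nat_lit 10533, nat_lit 9885, nat_lit 9993, nat_lit 10053, nat_lit 10045] (nat_lit 0) [] false,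
   Spec.mk (nat_lit 10053) (nat_lit 2) [nat_lit 23175, nat_lit 5679, nat_lit 14427, nat_lit 8595, nat_lit 11511, nat_lit 10539, nat_lit 9891, nat_lit 9999, nat_lit 10071, nat_lit 10047] (nat_lit 0) [] false,
   Spec.mk (nat_lit 10071) (nat_lit 3) [nat_lit 23193, nat_lit 5697, nat_lit 14445, nat_lit 8613, nat_lit 11529, nat_lit 10557, nat_lit 9909, nat_lit 10017, nat_lit 10125, nat_lit 10053] (nat_lit 0) [] false,
   Spec.mk (nat_lit 10125) (nat_lit 4) [nat_lit 23247, nat_lit 5751, nat_lit 14499, nat_lit 8667, nat_lit 11583, nat_lit 10611, nat_lit 10071] (nat_lit 0) [] false,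
   Spec.mk (nat_lit 10211) (nat_lit 1) [nat_lit 23333, nat_lit 5837, nat_lit 14585, nat_lit 11669, nat_lit 9725, nat_lit 10217, nat_lit 10213, nat_lit 29893] (nat_lit 0) [] false,
   Spec.mk (nat_lit 10213) (nat_lit 1) [nat_lit 23335, nat_lit 5839, nat_lit 14587, nat_lit 11671, nat_lit 9727, nat_lit 10219, nat_lit 10211, nat_lit 29895] (nat_lit 0) [] false,
   Spec.mk (nat_lit 10217) (nat_lit 0) [nat_lit 23339, nat_lit 5843, nat_lit 14591, nat_lit 11675, nat_lit 9731, nat_lit 10235, nat_lit 10211, nat_lit 10219, nat_lit 29899] (nat_lit 1) [] false,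
   Spec.mk (nat_lit 10219) (nat_lit 1) [nat_lit 23341, nat_lit 5845, nat_lit 14593, nat_lit 11677, nat_lit 9733, nat_lit 10237, nat_lit 10213, nat_lit 10225, nat_lit 10217, nat_lit 10221, nat_lit 29901] (nat_lit 0) [] false,
   Spec.mk (nat_lit 10221) (nat_lit 1) [nat_lit 23343, nat_lit 5847, nat_lit 14595, nat_lit 11679, nat_lit 9735, nat_lit 10239, nat_lit 10227, nat_lit 10219] (nat_lit 0) [] false,
   Spec.mk (nat_lit 10225) (nat_lit 0) [nat_lit 23347, nat_lit 5851, nat_lit 14599, nat_lit 11683, nat_lit 9739, nat_lit 10243, nat_lit 10219, nat_lit 10227, nat_lit 29907] (nat_lit 1) [] false,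
   Spec.mk (nat_lit 10227) (nat_lit 1) [nat_lit 23349, nat_lit 5853, nat_lit 14601, nat_lit 11685, nat_lit 9741, nat_lit 10245, nat_lit 10221, nat_lit 10225] (nat_lit 0) [] false,
   Spec.mk (nat_lit 10235) (nat_lit 0) [nat_lit 23357, nat_lit 5861, nat_lit 14609, nat_lit 11693, nat_lit 9749, nat_lit 10289, nat_lit 10217, nat_lit 10237, nat_lit 29917] (nat_lit 1) [] false,
   Spec.mk (nat_lit 10237) (nat_lit 0) [nat_lit 23359, nat_lit 5863, nat_lit 14611, nat_lit 11695, nat_lit 9751, nat_lit 10291, nat_lit 10219, nat_lit 10243, nat_lit 10235, nat_lit 10239, nat_lit 29919] (nat_lit 0) [] false,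
   Spec.mk (nat_lit 10239) (nat_lit 0) [nat_lit 23361, nat_lit 5865, nat_lit 14613, nat_lit 11697, nat_lit 9753, nat_lit 10293, nat_lit 10221, nat_lit 10245, nat_lit 10237] (nat_lit 1) [] false,
   Spec.mk (nat_lit 10243) (nat_lit 0) [nat_lit 23365, nat_lit 5869, nat_lit 14617, nat_lit 11701, nat_lit 9757, nat_lit 10297, nat_lit 10225, nat_lit 10261, nat_lit 10237, nat_lit 10245, nat_lit 29925] (nat_lit 0) [] false,
   Spec.mk (nat_lit 10245) (nat_lit 1) [nat_lit 23367, nat_lit 5871, nat_lit 14619, nat_lit 11703, nat_lit 9759, nat_lit 10299, nat_lit 10227, nat_lit 10263, nat_lit 10239, nat_lit 10251, nat_lit 10243] (nat_lit 0) [] false,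
   Spec.mk (nat_lit 10251) (nat_lit 1) [nat_lit 23373, nat_lit 5877, nat_lit 14625, nat_lit 11709, nat_lit 9765, nat_lit 10305, nat_lit 10269, nat_lit 10245] (nat_lit 0) [] false,
   Spec.mk (nat_lit 10261) (nat_lit 0) [nat_lit 23383, nat_lit 5887, nat_lit 14635, nat_lit 11719, nat_lit 9775, nat_lit 10315, nat_lit 10243, nat_lit 10263, nat_lit 29943] (nat_lit 1) [] false,
   Spec.mk (nat_lit 10263) (nat_lit 0) [nat_lit 23385, nat_lit 5889, nat_lit 14637, nat_lit 11721, nat_lit 9777, nat_lit 10317, nat_lit 10245, nat_lit 10269, nat_lit 10261] (nat_lit 1) [] false,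
   Spec.mk (nat_lit 10269) (nat_lit 1) [nat_lit 23391, nat_lit 5895, nat_lit 14643, nat_lit 11727, nat_lit 9783, nat_lit 10323, nat_lit 10251, nat_lit 10263] (nat_lit 0) [] false,
   Spec.mk (nat_lit 10289) (nat_lit 0) [nat_lit 23411, nat_lit 5915, nat_lit 14663, nat_lit 11747, nat_lit 9803, nat_lit 10451, nat_lit 10235, nat_lit 10291, nat_lit 29971] (nat_lit 1) [] false,
   Spec.mk (nat_lit 10291) (nat_lit 0) [nat_lit 23413, nat_lit 5917, nat_lit 14665, nat_lit 11749, nat_lit 9805, nat_lit 10453, nat_lit 10237, nat_lit 10297, nat_lit 10289, nat_lit 10293, nat_lit 29973] (nat_lit 0) [] false,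
   Spec.mk (nat_lit 10293) (nat_lit 0) [nat_lit 23415, nat_lit 5919, nat_lit 14667, nat_lit 11751, nat_lit 9807, nat_lit 10455, nat_lit 10239, nat_lit 10299, nat_lit 10291] (nat_lit 1) [] false,
   Spec.mk (nat_lit 10297) (nat_lit 0) [nat_lit 23419, nat_lit 5923, nat_lit 14671, nat_lit 11755, nat_lit 9811, nat_lit 10459, nat_lit 10243, nat_lit 10315, nat_lit 10291, nat_lit 10299, nat_lit 29979] (nat_lit 1) [] false,
   Spec.mk (nat_lit 10299) (nat_lit 0) [nat_lit 23421, nat_lit 5925, nat_lit 14673, nat_lit 11757, nat_lit 9813, nat_lit 10461, nat_lit 10245, nat_lit 10317, nat_lit 10293, nat_lit 10305, nat_lit 10297] (nat_lit 0) [] false,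
   Spec.mk (nat_lit 10305) (nat_lit 0) [nat_lit 23427, nat_lit 5931, nat_lit 14679, nat_lit 11763, nat_lit 9819, nat_lit 10467, nat_lit 10251, nat_lit 10323, nat_lit 10299] (nat_lit 1) [] false,
   Spec.mk (nat_lit 10315) (nat_lit 0) [nat_lit 23437, nat_lit 5941, nat_lit 14689, nat_lit 11773, nat_lit 9829, nat_lit 10477, nat_lit 10261, nat_lit 10369, nat_lit 10297, nat_lit 10317, nat_lit 29997] (nat_lit 0) [] false,
   Spec.mk (nat_lit 10317) (nat_lit 0) [nat_lit 23439, nat_lit 5943, nat_lit 14691, nat_lit 11775, nat_lit 9831, nat_lit 10479, nat_lit 10263, nat_lit 10371, nat_lit 10299, nat_lit 10323, nat_lit 10315] (nat_lit 0) [] false,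
   Spec.mk (nat_lit 10323) (nat_lit 1) [nat_lit 23445, nat_lit 5949, nat_lit 14697, nat_lit 11781, nat_lit 9837, nat_lit 10485, nat_lit 10269, nat_lit 10377, nat_lit 10305, nat_lit 10341, nat_lit 10317] (nat_lit 0) [] false,
   Spec.mk (nat_lit 10341) (nat_lit 1) [nat_lit 23463, nat_lit 5967, nat_lit 14715, nat_lit 11799, nat_lit 9855, nat_lit 10503, nat_lit 10395, nat_lit 10323] (nat_lit 0) [] false,
   Spec.mk (nat_lit 10369) (nat_lit 0) [nat_lit 23491, nat_lit 5995, nat_lit 14743, nat_lit 11827, nat_lit 9883, nat_lit 10531, nat_lit 10315, nat_lit 10371, nat_lit 30051] (nat_lit 1) [] false,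
   Spec.mk (nat_lit 10371) (nat_lit 0) [nat_lit 23493, nat_lit 5997, nat_lit 14745, nat_lit 11829, nat_lit 9885, nat_lit 10533, nat_lit 10317, nat_lit 10377, nat_lit 10369] (nat_lit 1) [] false,
   Spec.mk (nat_lit 10377) (nat_lit 0) [nat_lit 23499, nat_lit 6003, nat_lit 14751, nat_lit 11835, nat_lit 9891, nat_lit 10539, nat_lit 10323, nat_lit 10395, nat_lit 10371] (nat_lit 1) [] false,
   Spec.mk (nat_lit 10395) (nat_lit 1) [nat_lit 23517, nat_lit 6021, nat_lit 14769, nat_lit 11853, nat_lit 9909, nat_lit 10557, nat_lit 10341, nat_lit 10377] (nat_lit 0) [] false,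
   Spec.mk (nat_lit 10451) (nat_lit 1) [nat_lit 23573, nat_lit 6077, nat_lit 14825, nat_lit 11909, nat_lit 9965, nat_lit 10289, nat_lit 10453, nat_lit 30133] (nat_lit 0) [] false]

noncomputable def sp27 : List Spec :=
  [Spec.mk (nat_lit 10453) (nat_lit 2) [nat_lit 23575, nat_lit 6079, nat_lit 14827, nat_lit 11911, nat_lit 9967, nat_lit 10291, nat_lit 10459, nat_lit 10451, nat_lit 10455, nat_lit 30135] (nat_lit 0) [] false,
   Spec.mk (nat_lit 10455) (nat_lit 1) [nat_lit 23577, nat_lit 6081, nat_lit 14829, nat_lit 11913, nat_lit 9969, nat_lit 10293, nat_lit 10461, nat_lit 10453] (nat_lit 0) [] false,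
   Spec.mk (nat_lit 10459) (nat_lit 1) [nat_lit 23581, nat_lit 6085, nat_lit 14833, nat_lit 11917, nat_lit 9973, nat_lit 10297, nat_lit 10477, nat_lit 10453, nat_lit 10461, nat_lit 30141] (nat_lit 0) [] false,
   Spec.mk (nat_lit 10461) (nat_lit 2) [nat_lit 23583, nat_lit 6087, nat_lit 14835, nat_lit 11919, nat_lit 9975, nat_lit 10299, nat_lit 10479, nat_lit 10455, nat_lit 10467, nat_lit 10459] (nat_lit 0) [] false,
   Spec.mk (nat_lit 10467) (nat_lit 1) [nat_lit 23589, nat_lit 6093, nat_lit 14841, nat_lit 11925, nat_lit 9981, nat_lit 10305, nat_lit 10485, nat_lit 10461] (nat_lit 0) [] false,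
   Spec.mk (nat_lit 10477) (nat_lit 1) [nat_lit 23599, nat_lit 6103, nat_lit 14851, nat_lit 11935, nat_lit 9991, nat_lit 10315, nat_lit 10531, nat_lit 10459, nat_lit 10479, nat_lit 30159] (nat_lit 0) [] false,
   Spec.mk (nat_lit 10479) (nat_lit 1) [nat_lit 23601, nat_lit 6105, nat_lit 14853, nat_lit 11937, nat_lit 9993, nat_lit 10317, nat_lit 10533, nat_lit 10461, nat_lit 10485, nat_lit 10477] (nat_lit 0) [] false,
   Spec.mk (nat_lit 10485) (nat_lit 2) [nat_lit 23607, nat_lit 6111, nat_lit 14859, nat_lit 11943, nat_lit 9999, nat_lit 10323, nat_lit 10539, nat_lit 10467, nat_lit 10503, nat_lit 10479] (nat_lit 0) [] false,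
   Spec.mk (nat_lit 10503) (nat_lit 1) [nat_lit 23625, nat_lit 6129, nat_lit 14877, nat_lit 11961, nat_lit 10017, nat_lit 10341, nat_lit 10557, nat_lit 10485] (nat_lit 0) [] false,
   Spec.mk (nat_lit 10531) (nat_lit 2) [nat_lit 23653, nat_lit 6157, nat_lit 14905, nat_lit 11989, nat_lit 10045, nat_lit 10369, nat_lit 10693, nat_lit 10477, nat_lit 10533, nat_lit 30213] (nat_lit 0) [] false,
   Spec.mk (nat_lit 10533) (nat_lit 2) [nat_lit 23655, nat_lit 6159, nat_lit 14907, nat_lit 11991, nat_lit 10047, nat_lit 10371, nat_lit 10695, nat_lit 10479, nat_lit 10539, nat_lit 10531] (nat_lit 0) [] false,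
   Spec.mk (nat_lit 10539) (nat_lit 2) [nat_lit 23661, nat_lit 6165, nat_lit 14913, nat_lit 11997, nat_lit 10053, nat_lit 10377, nat_lit 10701, nat_lit 10485, nat_lit 10557, nat_lit 10533] (nat_lit 0) [] false,
   Spec.mk (nat_lit 10557) (nat_lit 3) [nat_lit 23679, nat_lit 6183, nat_lit 14931, nat_lit 12015, nat_lit 10071, nat_lit 10395, nat_lit 10719, nat_lit 10503, nat_lit 10611, nat_lit 10539] (nat_lit 0) [] false,
   Spec.mk (nat_lit 10611) (nat_lit 3) [nat_lit 23733, nat_lit 6237, nat_lit 14985, nat_lit 12069, nat_lit 10125, nat_lit 10773, nat_lit 10557] (nat_lit 0) [] false,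
   Spec.mk (nat_lit 10693) (nat_lit 3) [nat_lit 23815, nat_lit 6319, nat_lit 15067, nat_lit 12151, nat_lit 10531, nat_lit 10695, nat_lit 30375] (nat_lit 0) [] false,
   Spec.mk (nat_lit 10695) (nat_lit 3) [nat_lit 23817, nat_lit 6321, nat_lit 15069, nat_lit 12153, nat_lit 10533, nat_lit 10701, nat_lit 10693] (nat_lit 0) [] false,
   Spec.mk (nat_lit 10701) (nat_lit 3) [nat_lit 23823, nat_lit 6327, nat_lit 15075, nat_lit 12159, nat_lit 10539, nat_lit 10719, nat_lit 10695] (nat_lit 0) [] false,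
   Spec.mk (nat_lit 10719) (nat_lit 3) [nat_lit 23841, nat_lit 6345, nat_lit 15093, nat_lit 12177, nat_lit 10557, nat_lit 10773, nat_lit 10701] (nat_lit 0) [] false,
   Spec.mk (nat_lit 10773) (nat_lit 5) [nat_lit 23895, nat_lit 6399, nat_lit 15147, nat_lit 12231, nat_lit 10611, nat_lit 10719] (nat_lit 0) [] false,
   Spec.mk (nat_lit 10943) (nat_lit 2) [nat_lit 24065, nat_lit 15317, nat_lit 9485, nat_lit 10949, nat_lit 30625] (nat_lit 0) [] false,
   Spec.mk (nat_lit 10949) (nat_lit 1) [nat_lit 24071, nat_lit 15323, nat_lit 9491, nat_lit 10967, nat_lit 10943, nat_lit 10955, nat_lit 10951, nat_lit 30631] (nat_lit 0) [] false,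
   Spec.mk (nat_lit 10951) (nat_lit 2) [nat_lit 24073, nat_lit 15325, nat_lit 9493, nat_lit 10969, nat_lit 10957, nat_lit 10949, nat_lit 30633] (nat_lit 0) [] false,
   Spec.mk (nat_lit 10955) (nat_lit 0) [nat_lit 24077, nat_lit 15329, nat_lit 9497, nat_lit 10973, nat_lit 10949, nat_lit 10957, nat_lit 30637] (nat_lit 2) [] false,
   Spec.mk (nat_lit 10957) (nat_lit 1) [nat_lit 24079, nat_lit 15331, nat_lit 9499, nat_lit 10975, nat_lit 10951, nat_lit 10955, nat_lit 10959, nat_lit 30639] (nat_lit 0) [] false,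
   Spec.mk (nat_lit 10959) (nat_lit 2) [nat_lit 24081, nat_lit 15333, nat_lit 9501, nat_lit 10977, nat_lit 10957] (nat_lit 0) [] false,
   Spec.mk (nat_lit 10967) (nat_lit 0) [nat_lit 24089, nat_lit 15341, nat_lit 9509, nat_lit 11021, nat_lit 10949, nat_lit 10973, nat_lit 10969, nat_lit 30649] (nat_lit 0) [] false,
   Spec.mk (nat_lit 10969) (nat_lit 0) [nat_lit 24091, nat_lit 15343, nat_lit 9511, nat_lit 11023, nat_lit 10951, nat_lit 10975, nat_lit 10967, nat_lit 30651] (nat_lit 0) [] false,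
   Spec.mk (nat_lit 10973) (nat_lit 0) [nat_lit 24095, nat_lit 15347, nat_lit 9515, nat_lit 11027, nat_lit 10955, nat_lit 10991, nat_lit 10967, nat_lit 10975, nat_lit 30655] (nat_lit 1) [] false,
   Spec.mk (nat_lit 10975) (nat_lit 1) [nat_lit 24097, nat_lit 15349, nat_lit 9517, nat_lit 11029, nat_lit 10957, nat_lit 10993, nat_lit 10969, nat_lit 10981, nat_lit 10973, nat_lit 10977, nat_lit 30657] (nat_lit 0) [] false,
   Spec.mk (nat_lit 10977) (nat_lit 1) [nat_lit 24099, nat_lit 15351, nat_lit 9519, nat_lit 11031, nat_lit 10959, nat_lit 10995, nat_lit 10983, nat_lit 10975] (nat_lit 0) [] false,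
   Spec.mk (nat_lit 10981) (nat_lit 0) [nat_lit 24103, nat_lit 15355, nat_lit 9523, nat_lit 11035, nat_lit 10999, nat_lit 10975, nat_lit 10983, nat_lit 30663] (nat_lit 0) [] false,
   Spec.mk (nat_lit 10983) (nat_lit 2) [nat_lit 24105, nat_lit 15357, nat_lit 9525, nat_lit 11037, nat_lit 11001, nat_lit 10977, nat_lit 10981] (nat_lit 0) [] false,
   Spec.mk (nat_lit 10991) (nat_lit 0) [nat_lit 24113, nat_lit 15365, nat_lit 9533, nat_lit 11045, nat_lit 10973, nat_lit 10993, nat_lit 30673] (nat_lit 2) [] false,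
   Spec.mk (nat_lit 10993) (nat_lit 0) [nat_lit 24115, nat_lit 15367, nat_lit 9535, nat_lit 11047, nat_lit 10975, nat_lit 10999, nat_lit 10991, nat_lit 10995, nat_lit 30675] (nat_lit 1) [] false,
   Spec.mk (nat_lit 10995) (nat_lit 0) [nat_lit 24117, nat_lit 15369, nat_lit 9537, nat_lit 11049, nat_lit 10977, nat_lit 11001, nat_lit 10993] (nat_lit 2) [] false,
   Spec.mk (nat_lit 10999) (nat_lit 0) [nat_lit 24121, nat_lit 15373, nat_lit 9541, nat_lit 11053, nat_lit 10981, nat_lit 10993, nat_lit 11001, nat_lit 30681] (nat_lit 0) [] false,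
   Spec.mk (nat_lit 11001) (nat_lit 1) [nat_lit 24123, nat_lit 15375, nat_lit 9543, nat_lit 11055, nat_lit 10983, nat_lit 10995, nat_lit 11007, nat_lit 10999] (nat_lit 0) [] false,
   Spec.mk (nat_lit 11007) (nat_lit 2) [nat_lit 24129, nat_lit 15381, nat_lit 9549, nat_lit 11061, nat_lit 11001] (nat_lit 0) [] false,
   Spec.mk (nat_lit 11021) (nat_lit 0) [nat_lit 24143, nat_lit 15395, nat_lit 9563, nat_lit 11183, nat_lit 10967, nat_lit 11027, nat_lit 11023, nat_lit 30703] (nat_lit 0) [] false,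
   Spec.mk (nat_lit 11023) (nat_lit 0) [nat_lit 24145, nat_lit 15397, nat_lit 9565, nat_lit 11185, nat_lit 10969, nat_lit 11029, nat_lit 11021, nat_lit 30705] (nat_lit 0) [] false,
   Spec.mk (nat_lit 11027) (nat_lit 0) [nat_lit 24149, nat_lit 15401, nat_lit 9569, nat_lit 11189, nat_lit 10973, nat_lit 11045, nat_lit 11021, nat_lit 11029, nat_lit 30709] (nat_lit 2) [] false,
   Spec.mk (nat_lit 11029) (nat_lit 0) [nat_lit 24151, nat_lit 15403, nat_lit 9571, nat_lit 11191, nat_lit 10975, nat_lit 11047, nat_lit 11023, nat_lit 11035, nat_lit 11027, nat_lit 11031, nat_lit 30711] (nat_lit 0) [] false,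
   Spec.mk (nat_lit 11031) (nat_lit 0) [nat_lit 24153, nat_lit 15405, nat_lit 9573, nat_lit 11193, nat_lit 10977, nat_lit 11049, nat_lit 11037, nat_lit 11029] (nat_lit 0) [] false,
   Spec.mk (nat_lit 11035) (nat_lit 0) [nat_lit 24157, nat_lit 15409, nat_lit 9577, nat_lit 11197, nat_lit 10981, nat_lit 11053, nat_lit 11029, nat_lit 11037, nat_lit 30717] (nat_lit 2) [] false,
   Spec.mk (nat_lit 11037) (nat_lit 0) [nat_lit 24159, nat_lit 15411, nat_lit 9579, nat_lit 11199, nat_lit 10983, nat_lit 11055, nat_lit 11031, nat_lit 11035] (nat_lit 0) [] false,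
   Spec.mk (nat_lit 11045) (nat_lit 0) [nat_lit 24167, nat_lit 15419, nat_lit 9587, nat_lit 11207, nat_lit 10991, nat_lit 11099, nat_lit 11027, nat_lit 11047, nat_lit 30727] (nat_lit 1) [] false,
   Spec.mk (nat_lit 11047) (nat_lit 0) [nat_lit 24169, nat_lit 15421, nat_lit 9589, nat_lit 11209, nat_lit 10993, nat_lit 11101, nat_lit 11029, nat_lit 11053, nat_lit 11045, nat_lit 11049, nat_lit 30729] (nat_lit 0) [] false,
   Spec.mk (nat_lit 11049) (nat_lit 0) [nat_lit 24171, nat_lit 15423, nat_lit 9591, nat_lit 11211, nat_lit 10995, nat_lit 11103, nat_lit 11031, nat_lit 11055, nat_lit 11047] (nat_lit 1) [] false,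
   Spec.mk (nat_lit 11053) (nat_lit 0) [nat_lit 24175, nat_lit 15427, nat_lit 9595, nat_lit 11215, nat_lit 10999, nat_lit 11107, nat_lit 11035, nat_lit 11071, nat_lit 11047, nat_lit 11055, nat_lit 30735] (nat_lit 0) [] false,
   Spec.mk (nat_lit 11055) (nat_lit 1) [nat_lit 24177, nat_lit 15429, nat_lit 9597, nat_lit 11217, nat_lit 11001, nat_lit 11109, nat_lit 11037, nat_lit 11073, nat_lit 11049, nat_lit 11061, nat_lit 11053] (nat_lit 0) [] false,
   Spec.mk (nat_lit 11061) (nat_lit 1) [nat_lit 24183, nat_lit 15435, nat_lit 9603, nat_lit 11223, nat_lit 11007, nat_lit 11115, nat_lit 11079, nat_lit 11055] (nat_lit 0) [] false,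
   Spec.mk (nat_lit 11071) (nat_lit 0) [nat_lit 24193, nat_lit 15445, nat_lit 9613, nat_lit 11233, nat_lit 11125, nat_lit 11053, nat_lit 11073, nat_lit 30753] (nat_lit 0) [] false,
   Spec.mk (nat_lit 11073) (nat_lit 0) [nat_lit 24195, nat_lit 15447, nat_lit 9615, nat_lit 11235, nat_lit 11127, nat_lit 11055, nat_lit 11079, nat_lit 11071] (nat_lit 0) [] false,
   Spec.mk (nat_lit 11079) (nat_lit 2) [nat_lit 24201, nat_lit 15453, nat_lit 9621, nat_lit 11241, nat_lit 11133, nat_lit 11061, nat_lit 11073] (nat_lit 0) [] false,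
   Spec.mk (nat_lit 11099) (nat_lit 0) [nat_lit 24221, nat_lit 15473, nat_lit 9641, nat_lit 11261, nat_lit 11045, nat_lit 11101, nat_lit 30781] (nat_lit 2) [] false,
   Spec.mk (nat_lit 11101) (nat_lit 0) [nat_lit 24223, nat_lit 15475, nat_lit 9643, nat_lit 11263, nat_lit 11047, nat_lit 11107, nat_lit 11099, nat_lit 11103, nat_lit 30783] (nat_lit 1) [] false,
   Spec.mk (nat_lit 11103) (nat_lit 0) [nat_lit 24225, nat_lit 15477, nat_lit 9645, nat_lit 11265, nat_lit 11049, nat_lit 11109, nat_lit 11101] (nat_lit 2) [] false,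
   Spec.mk (nat_lit 11107) (nat_lit 0) [nat_lit 24229, nat_lit 15481, nat_lit 9649, nat_lit 11269, nat_lit 11053, nat_lit 11125, nat_lit 11101, nat_lit 11109, nat_lit 30789] (nat_lit 2) [] false,
   Spec.mk (nat_lit 11109) (nat_lit 0) [nat_lit 24231, nat_lit 15483, nat_lit 9651, nat_lit 11271, nat_lit 11055, nat_lit 11127, nat_lit 11103, nat_lit 11115, nat_lit 11107] (nat_lit 1) [] false,
   Spec.mk (nat_lit 11115) (nat_lit 0) [nat_lit 24237, nat_lit 15489, nat_lit 9657, nat_lit 11277, nat_lit 11061, nat_lit 11133, nat_lit 11109] (nat_lit 2) [] false]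

noncomputable def sp28 : List Spec :=
  [Spec.mk (nat_lit 11125) (nat_lit 0) [nat_lit 24247, nat_lit 15499, nat_lit 9667, nat_lit 11287, nat_lit 11071, nat_lit 11107, nat_lit 11127, nat_lit 30807] (nat_lit 0) [] false,
   Spec.mk (nat_lit 11127) (nat_lit 0) [nat_lit 24249, nat_lit 15501, nat_lit 9669, nat_lit 11289, nat_lit 11073, nat_lit 11109, nat_lit 11133, nat_lit 11125] (nat_lit 0) [] false,
   Spec.mk (nat_lit 11133) (nat_lit 1) [nat_lit 24255, nat_lit 15507, nat_lit 9675, nat_lit 11295, nat_lit 11079, nat_lit 11115, nat_lit 11151, nat_lit 11127] (nat_lit 0) [] false,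
   Spec.mk (nat_lit 11151) (nat_lit 2) [nat_lit 24273, nat_lit 15525, nat_lit 9693, nat_lit 11313, nat_lit 11133] (nat_lit 0) [] false,
   Spec.mk (nat_lit 11183) (nat_lit 0) [nat_lit 24305, nat_lit 15557, nat_lit 9725, nat_lit 11669, nat_lit 11021, nat_lit 11189, nat_lit 11185, nat_lit 30865] (nat_lit 0) [] false,
   Spec.mk (nat_lit 11185) (nat_lit 0) [nat_lit 24307, nat_lit 15559, nat_lit 9727, nat_lit 11671, nat_lit 11023, nat_lit 11191, nat_lit 11183, nat_lit 30867] (nat_lit 0) [] false,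
   Spec.mk (nat_lit 11189) (nat_lit 0) [nat_lit 24311, nat_lit 15563, nat_lit 9731, nat_lit 11675, nat_lit 11027, nat_lit 11207, nat_lit 11183, nat_lit 11191, nat_lit 30871] (nat_lit 2) [] false,
   Spec.mk (nat_lit 11191) (nat_lit 0) [nat_lit 24313, nat_lit 15565, nat_lit 9733, nat_lit 11677, nat_lit 11029, nat_lit 11209, nat_lit 11185, nat_lit 11197, nat_lit 11189, nat_lit 11193, nat_lit 30873] (nat_lit 0) [] false,
   Spec.mk (nat_lit 11193) (nat_lit 0) [nat_lit 24315, nat_lit 15567, nat_lit 9735, nat_lit 11679, nat_lit 11031, nat_lit 11211, nat_lit 11199, nat_lit 11191] (nat_lit 0) [] false,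
   Spec.mk (nat_lit 11197) (nat_lit 0) [nat_lit 24319, nat_lit 15571, nat_lit 9739, nat_lit 11683, nat_lit 11035, nat_lit 11215, nat_lit 11191, nat_lit 11199, nat_lit 30879] (nat_lit 2) [] false,
   Spec.mk (nat_lit 11199) (nat_lit 0) [nat_lit 24321, nat_lit 15573, nat_lit 9741, nat_lit 11685, nat_lit 11037, nat_lit 11217, nat_lit 11193, nat_lit 11197] (nat_lit 0) [] false,
   Spec.mk (nat_lit 11207) (nat_lit 0) [nat_lit 24329, nat_lit 15581, nat_lit 9749, nat_lit 11693, nat_lit 11045, nat_lit 11261, nat_lit 11189, nat_lit 11209, nat_lit 30889] (nat_lit 2) [] false,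
   Spec.mk (nat_lit 11209) (nat_lit 0) [nat_lit 24331, nat_lit 15583, nat_lit 9751, nat_lit 11695, nat_lit 11047, nat_lit 11263, nat_lit 11191, nat_lit 11215, nat_lit 11207, nat_lit 11211, nat_lit 30891] (nat_lit 1) [] false,
   Spec.mk (nat_lit 11211) (nat_lit 0) [nat_lit 24333, nat_lit 15585, nat_lit 9753, nat_lit 11697, nat_lit 11049, nat_lit 11265, nat_lit 11193, nat_lit 11217, nat_lit 11209] (nat_lit 2) [] false,
   Spec.mk (nat_lit 11215) (nat_lit 0) [nat_lit 24337, nat_lit 15589, nat_lit 9757, nat_lit 11701, nat_lit 11053, nat_lit 11269, nat_lit 11197, nat_lit 11233, nat_lit 11209, nat_lit 11217, nat_lit 30897] (nat_lit 1) [] false,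
   Spec.mk (nat_lit 11217) (nat_lit 0) [nat_lit 24339, nat_lit 15591, nat_lit 9759, nat_lit 11703, nat_lit 11055, nat_lit 11271, nat_lit 11199, nat_lit 11235, nat_lit 11211, nat_lit 11223, nat_lit 11215] (nat_lit 0) [] false,
   Spec.mk (nat_lit 11223) (nat_lit 0) [nat_lit 24345, nat_lit 15597, nat_lit 9765, nat_lit 11709, nat_lit 11061, nat_lit 11277, nat_lit 11241, nat_lit 11217] (nat_lit 0) [] false,
   Spec.mk (nat_lit 11233) (nat_lit 0) [nat_lit 24355, nat_lit 15607, nat_lit 9775, nat_lit 11719, nat_lit 11071, nat_lit 11287, nat_lit 11215, nat_lit 11235, nat_lit 30915] (nat_lit 2) [] false,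
   Spec.mk (nat_lit 11235) (nat_lit 0) [nat_lit 24357, nat_lit 15609, nat_lit 9777, nat_lit 11721, nat_lit 11073, nat_lit 11289, nat_lit 11217, nat_lit 11241, nat_lit 11233] (nat_lit 2) [] false,
   Spec.mk (nat_lit 11241) (nat_lit 0) [nat_lit 24363, nat_lit 15615, nat_lit 9783, nat_lit 11727, nat_lit 11079, nat_lit 11295, nat_lit 11223, nat_lit 11235] (nat_lit 0) [] false,
   Spec.mk (nat_lit 11261) (nat_lit 0) [nat_lit 24383, nat_lit 15635, nat_lit 9803, nat_lit 11747, nat_lit 11099, nat_lit 11423, nat_lit 11207, nat_lit 11263, nat_lit 30943] (nat_lit 1) [] false,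
   Spec.mk (nat_lit 11263) (nat_lit 0) [nat_lit 24385, nat_lit 15637, nat_lit 9805, nat_lit 11749, nat_lit 11101, nat_lit 11425, nat_lit 11209, nat_lit 11269, nat_lit 11261, nat_lit 11265, nat_lit 30945] (nat_lit 0) [] false,
   Spec.mk (nat_lit 11265) (nat_lit 0) [nat_lit 24387, nat_lit 15639, nat_lit 9807, nat_lit 11751, nat_lit 11103, nat_lit 11427, nat_lit 11211, nat_lit 11271, nat_lit 11263] (nat_lit 1) [] false,
   Spec.mk (nat_lit 11269) (nat_lit 0) [nat_lit 24391, nat_lit 15643, nat_lit 9811, nat_lit 11755, nat_lit 11107, nat_lit 11431, nat_lit 11215, nat_lit 11287, nat_lit 11263, nat_lit 11271, nat_lit 30951] (nat_lit 1) [] false,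
   Spec.mk (nat_lit 11271) (nat_lit 0) [nat_lit 24393, nat_lit 15645, nat_lit 9813, nat_lit 11757, nat_lit 11109, nat_lit 11433, nat_lit 11217, nat_lit 11289, nat_lit 11265, nat_lit 11277, nat_lit 11269] (nat_lit 0) [] false,
   Spec.mk (nat_lit 11277) (nat_lit 0) [nat_lit 24399, nat_lit 15651, nat_lit 9819, nat_lit 11763, nat_lit 11115, nat_lit 11439, nat_lit 11223, nat_lit 11295, nat_lit 11271] (nat_lit 1) [] false,
   Spec.mk (nat_lit 11287) (nat_lit 0) [nat_lit 24409, nat_lit 15661, nat_lit 9829, nat_lit 11773, nat_lit 11125, nat_lit 11449, nat_lit 11233, nat_lit 11341, nat_lit 11269, nat_lit 11289, nat_lit 30969] (nat_lit 0) [] false,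
   Spec.mk (nat_lit 11289) (nat_lit 0) [nat_lit 24411, nat_lit 15663, nat_lit 9831, nat_lit 11775, nat_lit 11127, nat_lit 11451, nat_lit 11235, nat_lit 11343, nat_lit 11271, nat_lit 11295, nat_lit 11287] (nat_lit 0) [] false,
   Spec.mk (nat_lit 11295) (nat_lit 1) [nat_lit 24417, nat_lit 15669, nat_lit 9837, nat_lit 11781, nat_lit 11133, nat_lit 11457, nat_lit 11241, nat_lit 11349, nat_lit 11277, nat_lit 11313, nat_lit 11289] (nat_lit 0) [] false,
   Spec.mk (nat_lit 11313) (nat_lit 1) [nat_lit 24435, nat_lit 15687, nat_lit 9855, nat_lit 11799, nat_lit 11151, nat_lit 11475, nat_lit 11367, nat_lit 11295] (nat_lit 0) [] false,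
   Spec.mk (nat_lit 11341) (nat_lit 0) [nat_lit 24463, nat_lit 15715, nat_lit 9883, nat_lit 11827, nat_lit 11503, nat_lit 11287, nat_lit 11343, nat_lit 31023] (nat_lit 0) [] false,
   Spec.mk (nat_lit 11343) (nat_lit 0) [nat_lit 24465, nat_lit 15717, nat_lit 9885, nat_lit 11829, nat_lit 11505, nat_lit 11289, nat_lit 11349, nat_lit 11341] (nat_lit 0) [] false,
   Spec.mk (nat_lit 11349) (nat_lit 0) [nat_lit 24471, nat_lit 15723, nat_lit 9891, nat_lit 11835, nat_lit 11511, nat_lit 11295, nat_lit 11367, nat_lit 11343] (nat_lit 0) [] false,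
   Spec.mk (nat_lit 11367) (nat_lit 2) [nat_lit 24489, nat_lit 15741, nat_lit 9909, nat_lit 11853, nat_lit 11529, nat_lit 11313, nat_lit 11349] (nat_lit 0) [] false,
   Spec.mk (nat_lit 11423) (nat_lit 0) [nat_lit 24545, nat_lit 15797, nat_lit 9965, nat_lit 11909, nat_lit 11261, nat_lit 11425, nat_lit 31105] (nat_lit 2) [] false,
   Spec.mk (nat_lit 11425) (nat_lit 0) [nat_lit 24547, nat_lit 15799, nat_lit 9967, nat_lit 11911, nat_lit 11263, nat_lit 11431, nat_lit 11423, nat_lit 11427, nat_lit 31107] (nat_lit 1) [] false,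
   Spec.mk (nat_lit 11427) (nat_lit 0) [nat_lit 24549, nat_lit 15801, nat_lit 9969, nat_lit 11913, nat_lit 11265, nat_lit 11433, nat_lit 11425] (nat_lit 2) [] false,
   Spec.mk (nat_lit 11431) (nat_lit 0) [nat_lit 24553, nat_lit 15805, nat_lit 9973, nat_lit 11917, nat_lit 11269, nat_lit 11449, nat_lit 11425, nat_lit 11433, nat_lit 31113] (nat_lit 2) [] false,
   Spec.mk (nat_lit 11433) (nat_lit 0) [nat_lit 24555, nat_lit 15807, nat_lit 9975, nat_lit 11919, nat_lit 11271, nat_lit 11451, nat_lit 11427, nat_lit 11439, nat_lit 11431] (nat_lit 1) [] false,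
   Spec.mk (nat_lit 11439) (nat_lit 0) [nat_lit 24561, nat_lit 15813, nat_lit 9981, nat_lit 11925, nat_lit 11277, nat_lit 11457, nat_lit 11433] (nat_lit 2) [] false,
   Spec.mk (nat_lit 11449) (nat_lit 0) [nat_lit 24571, nat_lit 15823, nat_lit 9991, nat_lit 11935, nat_lit 11287, nat_lit 11503, nat_lit 11431, nat_lit 11451, nat_lit 31131] (nat_lit 2) [] false,
   Spec.mk (nat_lit 11451) (nat_lit 0) [nat_lit 24573, nat_lit 15825, nat_lit 9993, nat_lit 11937, nat_lit 11289, nat_lit 11505, nat_lit 11433, nat_lit 11457, nat_lit 11449] (nat_lit 2) [] false,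
   Spec.mk (nat_lit 11457) (nat_lit 0) [nat_lit 24579, nat_lit 15831, nat_lit 9999, nat_lit 11943, nat_lit 11295, nat_lit 11511, nat_lit 11439, nat_lit 11475, nat_lit 11451] (nat_lit 1) [] false,
   Spec.mk (nat_lit 11475) (nat_lit 0) [nat_lit 24597, nat_lit 15849, nat_lit 10017, nat_lit 11961, nat_lit 11313, nat_lit 11529, nat_lit 11457] (nat_lit 2) [] false,
   Spec.mk (nat_lit 11503) (nat_lit 0) [nat_lit 24625, nat_lit 15877, nat_lit 10045, nat_lit 11989, nat_lit 11341, nat_lit 11449, nat_lit 11505, nat_lit 31185] (nat_lit 0) [] false,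
   Spec.mk (nat_lit 11505) (nat_lit 0) [nat_lit 24627, nat_lit 15879, nat_lit 10047, nat_lit 11991, nat_lit 11343, nat_lit 11451, nat_lit 11511, nat_lit 11503] (nat_lit 0) [] false,
   Spec.mk (nat_lit 11511) (nat_lit 0) [nat_lit 24633, nat_lit 15885, nat_lit 10053, nat_lit 11997, nat_lit 11349, nat_lit 11457, nat_lit 11529, nat_lit 11505] (nat_lit 0) [] false,
   Spec.mk (nat_lit 11529) (nat_lit 1) [nat_lit 24651, nat_lit 15903, nat_lit 10071, nat_lit 12015, nat_lit 11367, nat_lit 11475, nat_lit 11583, nat_lit 11511] (nat_lit 0) [] false,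
   Spec.mk (nat_lit 11583) (nat_lit 2) [nat_lit 24705, nat_lit 15957, nat_lit 10125, nat_lit 12069, nat_lit 11529] (nat_lit 0) [] false,
   Spec.mk (nat_lit 11669) (nat_lit 2) [nat_lit 24791, nat_lit 16043, nat_lit 10211, nat_lit 11183, nat_lit 11675, nat_lit 11671, nat_lit 31351] (nat_lit 0) [] false,
   Spec.mk (nat_lit 11671) (nat_lit 2) [nat_lit 24793, nat_lit 16045, nat_lit 10213, nat_lit 11185, nat_lit 11677, nat_lit 11669, nat_lit 31353] (nat_lit 0) [] false,
   Spec.mk (nat_lit 11675) (nat_lit 0) [nat_lit 24797, nat_lit 16049, nat_lit 10217, nat_lit 11189, nat_lit 11693, nat_lit 11669, nat_lit 11677, nat_lit 31357] (nat_lit 0) [] false,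
   Spec.mk (nat_lit 11677) (nat_lit 2) [nat_lit 24799, nat_lit 16051, nat_lit 10219, nat_lit 11191, nat_lit 11695, nat_lit 11671, nat_lit 11683, nat_lit 11675, nat_lit 11679, nat_lit 31359] (nat_lit 0) [] false,
   Spec.mk (nat_lit 11679) (nat_lit 2) [nat_lit 24801, nat_lit 16053, nat_lit 10221, nat_lit 11193, nat_lit 11697, nat_lit 11685, nat_lit 11677] (nat_lit 0) [] false,
   Spec.mk (nat_lit 11683) (nat_lit 0) [nat_lit 24805, nat_lit 16057, nat_lit 10225, nat_lit 11197, nat_lit 11701, nat_lit 11677, nat_lit 11685, nat_lit 31365] (nat_lit 0) [] false,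
   Spec.mk (nat_lit 11685) (nat_lit 2) [nat_lit 24807, nat_lit 16059, nat_lit 10227, nat_lit 11199, nat_lit 11703, nat_lit 11679, nat_lit 11683] (nat_lit 0) [] false,
   Spec.mk (nat_lit 11693) (nat_lit 0) [nat_lit 24815, nat_lit 16067, nat_lit 10235, nat_lit 11207, nat_lit 11747, nat_lit 11675, nat_lit 11695, nat_lit 31375] (nat_lit 0) [] false,
   Spec.mk (nat_lit 11695) (nat_lit 1) [nat_lit 24817, nat_lit 16069, nat_lit 10237, nat_lit 11209, nat_lit 11749, nat_lit 11677, nat_lit 11701, nat_lit 11693, nat_lit 11697, nat_lit 31377] (nat_lit 0) [] false,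
   Spec.mk (nat_lit 11697) (nat_lit 0) [nat_lit 24819, nat_lit 16071, nat_lit 10239, nat_lit 11211, nat_lit 11751, nat_lit 11679, nat_lit 11703, nat_lit 11695] (nat_lit 0) [] false,
   Spec.mk (nat_lit 11701) (nat_lit 1) [nat_lit 24823, nat_lit 16075, nat_lit 10243, nat_lit 11215, nat_lit 11755, nat_lit 11683, nat_lit 11719, nat_lit 11695, nat_lit 11703, nat_lit 31383] (nat_lit 0) [] false]

noncomputable def sp29 : List Spec :=
  [Spec.mk (nat_lit 11703) (nat_lit 2) [nat_lit 24825, nat_lit 16077, nat_lit 10245, nat_lit 11217, nat_lit 11757, nat_lit 11685, nat_lit 11721, nat_lit 11697, nat_lit 11709, nat_lit 11701] (nat_lit 0) [] false,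
   Spec.mk (nat_lit 11709) (nat_lit 2) [nat_lit 24831, nat_lit 16083, nat_lit 10251, nat_lit 11223, nat_lit 11763, nat_lit 11727, nat_lit 11703] (nat_lit 0) [] false,
   Spec.mk (nat_lit 11719) (nat_lit 0) [nat_lit 24841, nat_lit 16093, nat_lit 10261, nat_lit 11233, nat_lit 11773, nat_lit 11701, nat_lit 11721, nat_lit 31401] (nat_lit 0) [] false,
   Spec.mk (nat_lit 11721) (nat_lit 0) [nat_lit 24843, nat_lit 16095, nat_lit 10263, nat_lit 11235, nat_lit 11775, nat_lit 11703, nat_lit 11727, nat_lit 11719] (nat_lit 0) [] false,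
   Spec.mk (nat_lit 11727) (nat_lit 2) [nat_lit 24849, nat_lit 16101, nat_lit 10269, nat_lit 11241, nat_lit 11781, nat_lit 11709, nat_lit 11721] (nat_lit 0) [] false,
   Spec.mk (nat_lit 11747) (nat_lit 0) [nat_lit 24869, nat_lit 16121, nat_lit 10289, nat_lit 11261, nat_lit 11909, nat_lit 11693, nat_lit 11749, nat_lit 31429] (nat_lit 0) [] false,
   Spec.mk (nat_lit 11749) (nat_lit 1) [nat_lit 24871, nat_lit 16123, nat_lit 10291, nat_lit 11263, nat_lit 11911, nat_lit 11695, nat_lit 11755, nat_lit 11747, nat_lit 11751, nat_lit 31431] (nat_lit 0) [] false,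
   Spec.mk (nat_lit 11751) (nat_lit 0) [nat_lit 24873, nat_lit 16125, nat_lit 10293, nat_lit 11265, nat_lit 11913, nat_lit 11697, nat_lit 11757, nat_lit 11749] (nat_lit 0) [] false,
   Spec.mk (nat_lit 11755) (nat_lit 0) [nat_lit 24877, nat_lit 16129, nat_lit 10297, nat_lit 11269, nat_lit 11917, nat_lit 11701, nat_lit 11773, nat_lit 11749, nat_lit 11757, nat_lit 31437] (nat_lit 0) [] false,
   Spec.mk (nat_lit 11757) (nat_lit 1) [nat_lit 24879, nat_lit 16131, nat_lit 10299, nat_lit 11271, nat_lit 11919, nat_lit 11703, nat_lit 11775, nat_lit 11751, nat_lit 11763, nat_lit 11755] (nat_lit 0) [] false,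
   Spec.mk (nat_lit 11763) (nat_lit 0) [nat_lit 24885, nat_lit 16137, nat_lit 10305, nat_lit 11277, nat_lit 11925, nat_lit 11709, nat_lit 11781, nat_lit 11757] (nat_lit 0) [] false,
   Spec.mk (nat_lit 11773) (nat_lit 1) [nat_lit 24895, nat_lit 16147, nat_lit 10315, nat_lit 11287, nat_lit 11935, nat_lit 11719, nat_lit 11827, nat_lit 11755, nat_lit 11775, nat_lit 31455] (nat_lit 0) [] false,
   Spec.mk (nat_lit 11775) (nat_lit 1) [nat_lit 24897, nat_lit 16149, nat_lit 10317, nat_lit 11289, nat_lit 11937, nat_lit 11721, nat_lit 11829, nat_lit 11757, nat_lit 11781, nat_lit 11773] (nat_lit 0) [] false,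
   Spec.mk (nat_lit 11781) (nat_lit 2) [nat_lit 24903, nat_lit 16155, nat_lit 10323, nat_lit 11295, nat_lit 11943, nat_lit 11727, nat_lit 11835, nat_lit 11763, nat_lit 11799, nat_lit 11775] (nat_lit 0) [] false,
   Spec.mk (nat_lit 11799) (nat_lit 2) [nat_lit 24921, nat_lit 16173, nat_lit 10341, nat_lit 11313, nat_lit 11961, nat_lit 11853, nat_lit 11781] (nat_lit 0) [] false,
   Spec.mk (nat_lit 11827) (nat_lit 0) [nat_lit 24949, nat_lit 16201, nat_lit 10369, nat_lit 11341, nat_lit 11989, nat_lit 11773, nat_lit 11829, nat_lit 31509] (nat_lit 0) [] false,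
   Spec.mk (nat_lit 11829) (nat_lit 0) [nat_lit 24951, nat_lit 16203, nat_lit 10371, nat_lit 11343, nat_lit 11991, nat_lit 11775, nat_lit 11835, nat_lit 11827] (nat_lit 0) [] false,
   Spec.mk (nat_lit 11835) (nat_lit 0) [nat_lit 24957, nat_lit 16209, nat_lit 10377, nat_lit 11349, nat_lit 11997, nat_lit 11781, nat_lit 11853, nat_lit 11829] (nat_lit 0) [] false,
   Spec.mk (nat_lit 11853) (nat_lit 2) [nat_lit 24975, nat_lit 16227, nat_lit 10395, nat_lit 11367, nat_lit 12015, nat_lit 11799, nat_lit 11835] (nat_lit 0) [] false,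
   Spec.mk (nat_lit 11909) (nat_lit 1) [nat_lit 25031, nat_lit 16283, nat_lit 10451, nat_lit 11423, nat_lit 12395, nat_lit 11747, nat_lit 11911, nat_lit 31591] (nat_lit 0) [] false,
   Spec.mk (nat_lit 11911) (nat_lit 2) [nat_lit 25033, nat_lit 16285, nat_lit 10453, nat_lit 11425, nat_lit 12397, nat_lit 11749, nat_lit 11917, nat_lit 11909, nat_lit 11913, nat_lit 31593] (nat_lit 0) [] false,
   Spec.mk (nat_lit 11913) (nat_lit 1) [nat_lit 25035, nat_lit 16287, nat_lit 10455, nat_lit 11427, nat_lit 12399, nat_lit 11751, nat_lit 11919, nat_lit 11911] (nat_lit 0) [] false,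
   Spec.mk (nat_lit 11917) (nat_lit 1) [nat_lit 25039, nat_lit 16291, nat_lit 10459, nat_lit 11431, nat_lit 12403, nat_lit 11755, nat_lit 11935, nat_lit 11911, nat_lit 11919, nat_lit 31599] (nat_lit 0) [] false,
   Spec.mk (nat_lit 11919) (nat_lit 2) [nat_lit 25041, nat_lit 16293, nat_lit 10461, nat_lit 11433, nat_lit 12405, nat_lit 11757, nat_lit 11937, nat_lit 11913, nat_lit 11925, nat_lit 11917] (nat_lit 0) [] false,
   Spec.mk (nat_lit 11925) (nat_lit 1) [nat_lit 25047, nat_lit 16299, nat_lit 10467, nat_lit 11439, nat_lit 12411, nat_lit 11763, nat_lit 11943, nat_lit 11919] (nat_lit 0) [] false,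
   Spec.mk (nat_lit 11935) (nat_lit 1) [nat_lit 25057, nat_lit 16309, nat_lit 10477, nat_lit 11449, nat_lit 12421, nat_lit 11773, nat_lit 11989, nat_lit 11917, nat_lit 11937, nat_lit 31617] (nat_lit 0) [] false,
   Spec.mk (nat_lit 11937) (nat_lit 1) [nat_lit 25059, nat_lit 16311, nat_lit 10479, nat_lit 11451, nat_lit 12423, nat_lit 11775, nat_lit 11991, nat_lit 11919, nat_lit 11943, nat_lit 11935] (nat_lit 0) [] false,
   Spec.mk (nat_lit 11943) (nat_lit 2) [nat_lit 25065, nat_lit 16317, nat_lit 10485, nat_lit 11457, nat_lit 12429, nat_lit 11781, nat_lit 11997, nat_lit 11925, nat_lit 11961, nat_lit 11937] (nat_lit 0) [] false,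
   Spec.mk (nat_lit 11961) (nat_lit 1) [nat_lit 25083, nat_lit 16335, nat_lit 10503, nat_lit 11475, nat_lit 12447, nat_lit 11799, nat_lit 12015, nat_lit 11943] (nat_lit 0) [] false,
   Spec.mk (nat_lit 11989) (nat_lit 2) [nat_lit 25111, nat_lit 16363, nat_lit 10531, nat_lit 11503, nat_lit 12475, nat_lit 11827, nat_lit 12151, nat_lit 11935, nat_lit 11991, nat_lit 31671] (nat_lit 0) [] false,
   Spec.mk (nat_lit 11991) (nat_lit 2) [nat_lit 25113, nat_lit 16365, nat_lit 10533, nat_lit 11505, nat_lit 12477, nat_lit 11829, nat_lit 12153, nat_lit 11937, nat_lit 11997, nat_lit 11989] (nat_lit 0) [] false,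
   Spec.mk (nat_lit 11997) (nat_lit 2) [nat_lit 25119, nat_lit 16371, nat_lit 10539, nat_lit 11511, nat_lit 12483, nat_lit 11835, nat_lit 12159, nat_lit 11943, nat_lit 12015, nat_lit 11991] (nat_lit 0) [] false,
   Spec.mk (nat_lit 12015) (nat_lit 3) [nat_lit 25137, nat_lit 16389, nat_lit 10557, nat_lit 11529, nat_lit 12501, nat_lit 11853, nat_lit 12177, nat_lit 11961, nat_lit 12069, nat_lit 11997] (nat_lit 0) [] false,
   Spec.mk (nat_lit 12069) (nat_lit 3) [nat_lit 25191, nat_lit 16443, nat_lit 10611, nat_lit 11583, nat_lit 12555, nat_lit 12231, nat_lit 12015] (nat_lit 0) [] false,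
   Spec.mk (nat_lit 12151) (nat_lit 2) [nat_lit 25273, nat_lit 16525, nat_lit 10693, nat_lit 12637, nat_lit 11989, nat_lit 12153, nat_lit 31833] (nat_lit 0) [] false,
   Spec.mk (nat_lit 12153) (nat_lit 2) [nat_lit 25275, nat_lit 16527, nat_lit 10695, nat_lit 12639, nat_lit 11991, nat_lit 12159, nat_lit 12151] (nat_lit 0) [] false,
   Spec.mk (nat_lit 12159) (nat_lit 2) [nat_lit 25281, nat_lit 16533, nat_lit 10701, nat_lit 12645, nat_lit 11997, nat_lit 12177, nat_lit 12153] (nat_lit 0) [] false,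
   Spec.mk (nat_lit 12177) (nat_lit 2) [nat_lit 25299, nat_lit 16551, nat_lit 10719, nat_lit 12663, nat_lit 12015, nat_lit 12231, nat_lit 12159] (nat_lit 0) [] false,
   Spec.mk (nat_lit 12231) (nat_lit 4) [nat_lit 25353, nat_lit 16605, nat_lit 10773, nat_lit 12717, nat_lit 12069, nat_lit 12177] (nat_lit 0) [] false,
   Spec.mk (nat_lit 12395) (nat_lit 2) [nat_lit 25517, nat_lit 16769, nat_lit 11909, nat_lit 12397, nat_lit 32077] (nat_lit 0) [] false,
   Spec.mk (nat_lit 12397) (nat_lit 3) [nat_lit 25519, nat_lit 16771, nat_lit 11911, nat_lit 12403, nat_lit 12395, nat_lit 12399, nat_lit 32079] (nat_lit 0) [] false,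
   Spec.mk (nat_lit 12399) (nat_lit 2) [nat_lit 25521, nat_lit 16773, nat_lit 11913, nat_lit 12405, nat_lit 12397] (nat_lit 0) [] false,
   Spec.mk (nat_lit 12403) (nat_lit 2) [nat_lit 25525, nat_lit 16777, nat_lit 11917, nat_lit 12421, nat_lit 12397, nat_lit 12405, nat_lit 32085] (nat_lit 0) [] false,
   Spec.mk (nat_lit 12405) (nat_lit 3) [nat_lit 25527, nat_lit 16779, nat_lit 11919, nat_lit 12423, nat_lit 12399, nat_lit 12411, nat_lit 12403] (nat_lit 0) [] false,
   Spec.mk (nat_lit 12411) (nat_lit 2) [nat_lit 25533, nat_lit 16785, nat_lit 11925, nat_lit 12429, nat_lit 12405] (nat_lit 0) [] false,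
   Spec.mk (nat_lit 12421) (nat_lit 2) [nat_lit 25543, nat_lit 16795, nat_lit 11935, nat_lit 12475, nat_lit 12403, nat_lit 12423, nat_lit 32103] (nat_lit 0) [] false,
   Spec.mk (nat_lit 12423) (nat_lit 2) [nat_lit 25545, nat_lit 16797, nat_lit 11937, nat_lit 12477, nat_lit 12405, nat_lit 12429, nat_lit 12421] (nat_lit 0) [] false,
   Spec.mk (nat_lit 12429) (nat_lit 3) [nat_lit 25551, nat_lit 16803, nat_lit 11943, nat_lit 12483, nat_lit 12411, nat_lit 12447, nat_lit 12423] (nat_lit 0) [] false,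
   Spec.mk (nat_lit 12447) (nat_lit 2) [nat_lit 25569, nat_lit 16821, nat_lit 11961, nat_lit 12501, nat_lit 12429] (nat_lit 0) [] false,
   Spec.mk (nat_lit 12475) (nat_lit 2) [nat_lit 25597, nat_lit 16849, nat_lit 11989, nat_lit 12637, nat_lit 12421, nat_lit 12477, nat_lit 32157] (nat_lit 0) [] false,
   Spec.mk (nat_lit 12477) (nat_lit 2) [nat_lit 25599, nat_lit 16851, nat_lit 11991, nat_lit 12639, nat_lit 12423, nat_lit 12483, nat_lit 12475] (nat_lit 0) [] false,
   Spec.mk (nat_lit 12483) (nat_lit 2) [nat_lit 25605, nat_lit 16857, nat_lit 11997, nat_lit 12645, nat_lit 12429, nat_lit 12501, nat_lit 12477] (nat_lit 0) [] false,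
   Spec.mk (nat_lit 12501) (nat_lit 3) [nat_lit 25623, nat_lit 16875, nat_lit 12015, nat_lit 12663, nat_lit 12447, nat_lit 12555, nat_lit 12483] (nat_lit 0) [] false,
   Spec.mk (nat_lit 12555) (nat_lit 2) [nat_lit 25677, nat_lit 16929, nat_lit 12069, nat_lit 12717, nat_lit 12501] (nat_lit 0) [] false,
   Spec.mk (nat_lit 12637) (nat_lit 4) [nat_lit 25759, nat_lit 17011, nat_lit 12151, nat_lit 12475, nat_lit 12639, nat_lit 32319] (nat_lit 0) [] false,
   Spec.mk (nat_lit 12639) (nat_lit 4) [nat_lit 25761, nat_lit 17013, nat_lit 12153, nat_lit 12477, nat_lit 12645, nat_lit 12637] (nat_lit 0) [] false,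
   Spec.mk (nat_lit 12645) (nat_lit 4) [nat_lit 25767, nat_lit 17019, nat_lit 12159, nat_lit 12483, nat_lit 12663, nat_lit 12639] (nat_lit 0) [] false,
   Spec.mk (nat_lit 12663) (nat_lit 4) [nat_lit 25785, nat_lit 17037, nat_lit 12177, nat_lit 12501, nat_lit 12717, nat_lit 12645] (nat_lit 0) [] false,
   Spec.mk (nat_lit 12717) (nat_lit 5) [nat_lit 25839, nat_lit 17091, nat_lit 12231, nat_lit 12555, nat_lit 12879, nat_lit 12663] (nat_lit 0) [] false,
   Spec.mk (nat_lit 12879) (nat_lit 6) [nat_lit 26001, nat_lit 17253, nat_lit 12717] (nat_lit 0) [] false]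

noncomputable def sp30 : List Spec :=
  [Spec.mk (nat_lit 13139) (nat_lit 2) [nat_lit 26261, nat_lit 8765, nat_lit 13157, nat_lit 13145, nat_lit 32821] (nat_lit 0) [] false,
   Spec.mk (nat_lit 13145) (nat_lit 0) [nat_lit 26267, nat_lit 8771, nat_lit 13163, nat_lit 13139, nat_lit 13147, nat_lit 32827] (nat_lit 0) [] false,
   Spec.mk (nat_lit 13147) (nat_lit 2) [nat_lit 26269, nat_lit 8773, nat_lit 13165, nat_lit 13145, nat_lit 32829] (nat_lit 0) [] false,
   Spec.mk (nat_lit 13157) (nat_lit 0) [nat_lit 26279, nat_lit 8783, nat_lit 13211, nat_lit 13139, nat_lit 13163, nat_lit 32839] (nat_lit 0) [] false,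
   Spec.mk (nat_lit 13163) (nat_lit 0) [nat_lit 26285, nat_lit 8789, nat_lit 13217, nat_lit 13145, nat_lit 13181, nat_lit 13157, nat_lit 13169, nat_lit 13165, nat_lit 32845] (nat_lit 0) [] false,
   Spec.mk (nat_lit 13165) (nat_lit 1) [nat_lit 26287, nat_lit 8791, nat_lit 13219, nat_lit 13147, nat_lit 13183, nat_lit 13171, nat_lit 13163, nat_lit 32847] (nat_lit 0) [] false,
   Spec.mk (nat_lit 13169) (nat_lit 0) [nat_lit 26291, nat_lit 8795, nat_lit 13223, nat_lit 13187, nat_lit 13163, nat_lit 13171, nat_lit 32851] (nat_lit 2) [] false,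
   Spec.mk (nat_lit 13171) (nat_lit 1) [nat_lit 26293, nat_lit 8797, nat_lit 13225, nat_lit 13189, nat_lit 13165, nat_lit 13169, nat_lit 13173, nat_lit 32853] (nat_lit 0) [] false,
   Spec.mk (nat_lit 13173) (nat_lit 2) [nat_lit 26295, nat_lit 8799, nat_lit 13227, nat_lit 13191, nat_lit 13171] (nat_lit 0) [] false,
   Spec.mk (nat_lit 13181) (nat_lit 0) [nat_lit 26303, nat_lit 8807, nat_lit 13235, nat_lit 13163, nat_lit 13187, nat_lit 13183, nat_lit 32863] (nat_lit 2) [] false,
   Spec.mk (nat_lit 13183) (nat_lit 0) [nat_lit 26305, nat_lit 8809, nat_lit 13237, nat_lit 13165, nat_lit 13189, nat_lit 13181, nat_lit 32865] (nat_lit 2) [] false,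
   Spec.mk (nat_lit 13187) (nat_lit 0) [nat_lit 26309, nat_lit 8813, nat_lit 13241, nat_lit 13169, nat_lit 13181, nat_lit 13189, nat_lit 32869] (nat_lit 2) [] false,
   Spec.mk (nat_lit 13189) (nat_lit 0) [nat_lit 26311, nat_lit 8815, nat_lit 13243, nat_lit 13171, nat_lit 13183, nat_lit 13195, nat_lit 13187, nat_lit 13191, nat_lit 32871] (nat_lit 0) [] false,
   Spec.mk (nat_lit 13191) (nat_lit 0) [nat_lit 26313, nat_lit 8817, nat_lit 13245, nat_lit 13173, nat_lit 13197, nat_lit 13189] (nat_lit 0) [] false,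
   Spec.mk (nat_lit 13195) (nat_lit 0) [nat_lit 26317, nat_lit 8821, nat_lit 13249, nat_lit 13189, nat_lit 13197, nat_lit 32877] (nat_lit 0) [] false,
   Spec.mk (nat_lit 13197) (nat_lit 2) [nat_lit 26319, nat_lit 8823, nat_lit 13251, nat_lit 13191, nat_lit 13195] (nat_lit 0) [] false,
   Spec.mk (nat_lit 13211) (nat_lit 0) [nat_lit 26333, nat_lit 8837, nat_lit 13373, nat_lit 13157, nat_lit 13217, nat_lit 32893] (nat_lit 0) [] false,
   Spec.mk (nat_lit 13217) (nat_lit 0) [nat_lit 26339, nat_lit 8843, nat_lit 13379, nat_lit 13163, nat_lit 13235, nat_lit 13211, nat_lit 13223, nat_lit 13219, nat_lit 32899] (nat_lit 1) [] false,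
   Spec.mk (nat_lit 13219) (nat_lit 0) [nat_lit 26341, nat_lit 8845, nat_lit 13381, nat_lit 13165, nat_lit 13237, nat_lit 13225, nat_lit 13217, nat_lit 32901] (nat_lit 0) [] false,
   Spec.mk (nat_lit 13223) (nat_lit 0) [nat_lit 26345, nat_lit 8849, nat_lit 13385, nat_lit 13169, nat_lit 13241, nat_lit 13217, nat_lit 13225, nat_lit 32905] (nat_lit 4) [] false,
   Spec.mk (nat_lit 13225) (nat_lit 0) [nat_lit 26347, nat_lit 8851, nat_lit 13387, nat_lit 13171, nat_lit 13243, nat_lit 13219, nat_lit 13223, nat_lit 13227, nat_lit 32907] (nat_lit 1) [] false,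
   Spec.mk (nat_lit 13227) (nat_lit 0) [nat_lit 26349, nat_lit 8853, nat_lit 13389, nat_lit 13173, nat_lit 13245, nat_lit 13225] (nat_lit 0) [] false,
   Spec.mk (nat_lit 13235) (nat_lit 0) [nat_lit 26357, nat_lit 8861, nat_lit 13397, nat_lit 13181, nat_lit 13289, nat_lit 13217, nat_lit 13241, nat_lit 13237, nat_lit 32917] (nat_lit 1) [] false,
   Spec.mk (nat_lit 13237) (nat_lit 0) [nat_lit 26359, nat_lit 8863, nat_lit 13399, nat_lit 13183, nat_lit 13291, nat_lit 13219, nat_lit 13243, nat_lit 13235, nat_lit 32919] (nat_lit 1) [] false,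
   Spec.mk (nat_lit 13241) (nat_lit 0) [nat_lit 26363, nat_lit 8867, nat_lit 13403, nat_lit 13187, nat_lit 13295, nat_lit 13223, nat_lit 13259, nat_lit 13235, nat_lit 13243, nat_lit 32923] (nat_lit 2) [] false,
   Spec.mk (nat_lit 13243) (nat_lit 0) [nat_lit 26365, nat_lit 8869, nat_lit 13405, nat_lit 13189, nat_lit 13297, nat_lit 13225, nat_lit 13261, nat_lit 13237, nat_lit 13249, nat_lit 13241, nat_lit 13245, nat_lit 32925] (nat_lit 0) [] false,
   Spec.mk (nat_lit 13245) (nat_lit 0) [nat_lit 26367, nat_lit 8871, nat_lit 13407, nat_lit 13191, nat_lit 13299, nat_lit 13227, nat_lit 13263, nat_lit 13251, nat_lit 13243] (nat_lit 0) [] false,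
   Spec.mk (nat_lit 13249) (nat_lit 0) [nat_lit 26371, nat_lit 8875, nat_lit 13411, nat_lit 13195, nat_lit 13303, nat_lit 13267, nat_lit 13243, nat_lit 13251, nat_lit 32931] (nat_lit 1) [] false,
   Spec.mk (nat_lit 13251) (nat_lit 1) [nat_lit 26373, nat_lit 8877, nat_lit 13413, nat_lit 13197, nat_lit 13305, nat_lit 13269, nat_lit 13245, nat_lit 13249] (nat_lit 0) [] false,
   Spec.mk (nat_lit 13259) (nat_lit 0) [nat_lit 26381, nat_lit 8885, nat_lit 13421, nat_lit 13313, nat_lit 13241, nat_lit 13261, nat_lit 32941] (nat_lit 2) [] false,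
   Spec.mk (nat_lit 13261) (nat_lit 0) [nat_lit 26383, nat_lit 8887, nat_lit 13423, nat_lit 13315, nat_lit 13243, nat_lit 13267, nat_lit 13259, nat_lit 13263, nat_lit 32943] (nat_lit 1) [] false,
   Spec.mk (nat_lit 13263) (nat_lit 0) [nat_lit 26385, nat_lit 8889, nat_lit 13425, nat_lit 13317, nat_lit 13245, nat_lit 13269, nat_lit 13261] (nat_lit 2) [] false,
   Spec.mk (nat_lit 13267) (nat_lit 0) [nat_lit 26389, nat_lit 8893, nat_lit 13429, nat_lit 13321, nat_lit 13249, nat_lit 13261, nat_lit 13269, nat_lit 32949] (nat_lit 0) [] false,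
   Spec.mk (nat_lit 13269) (nat_lit 1) [nat_lit 26391, nat_lit 8895, nat_lit 13431, nat_lit 13323, nat_lit 13251, nat_lit 13263, nat_lit 13275, nat_lit 13267] (nat_lit 0) [] false,
   Spec.mk (nat_lit 13275) (nat_lit 2) [nat_lit 26397, nat_lit 8901, nat_lit 13437, nat_lit 13329, nat_lit 13269] (nat_lit 0) [] false,
   Spec.mk (nat_lit 13289) (nat_lit 0) [nat_lit 26411, nat_lit 8915, nat_lit 13451, nat_lit 13235, nat_lit 13295, nat_lit 13291, nat_lit 32971] (nat_lit 2) [] false,
   Spec.mk (nat_lit 13291) (nat_lit 0) [nat_lit 26413, nat_lit 8917, nat_lit 13453, nat_lit 13237, nat_lit 13297, nat_lit 13289, nat_lit 32973] (nat_lit 2) [] false,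
   Spec.mk (nat_lit 13295) (nat_lit 0) [nat_lit 26417, nat_lit 8921, nat_lit 13457, nat_lit 13241, nat_lit 13313, nat_lit 13289, nat_lit 13297, nat_lit 32977] (nat_lit 4) [] false,
   Spec.mk (nat_lit 13297) (nat_lit 0) [nat_lit 26419, nat_lit 8923, nat_lit 13459, nat_lit 13243, nat_lit 13315, nat_lit 13291, nat_lit 13303, nat_lit 13295, nat_lit 13299, nat_lit 32979] (nat_lit 2) [] false,
   Spec.mk (nat_lit 13299) (nat_lit 0) [nat_lit 26421, nat_lit 8925, nat_lit 13461, nat_lit 13245, nat_lit 13317, nat_lit 13305, nat_lit 13297] (nat_lit 2) [] false,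
   Spec.mk (nat_lit 13303) (nat_lit 0) [nat_lit 26425, nat_lit 8929, nat_lit 13465, nat_lit 13249, nat_lit 13321, nat_lit 13297, nat_lit 13305, nat_lit 32985] (nat_lit 4) [] false,
   Spec.mk (nat_lit 13305) (nat_lit 0) [nat_lit 26427, nat_lit 8931, nat_lit 13467, nat_lit 13251, nat_lit 13323, nat_lit 13299, nat_lit 13303] (nat_lit 2) [] false,
   Spec.mk (nat_lit 13313) (nat_lit 0) [nat_lit 26435, nat_lit 8939, nat_lit 13475, nat_lit 13259, nat_lit 13295, nat_lit 13315, nat_lit 32995] (nat_lit 2) [] false,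
   Spec.mk (nat_lit 13315) (nat_lit 0) [nat_lit 26437, nat_lit 8941, nat_lit 13477, nat_lit 13261, nat_lit 13297, nat_lit 13321, nat_lit 13313, nat_lit 13317, nat_lit 32997] (nat_lit 1) [] false,
   Spec.mk (nat_lit 13317) (nat_lit 0) [nat_lit 26439, nat_lit 8943, nat_lit 13479, nat_lit 13263, nat_lit 13299, nat_lit 13323, nat_lit 13315] (nat_lit 2) [] false,
   Spec.mk (nat_lit 13321) (nat_lit 0) [nat_lit 26443, nat_lit 8947, nat_lit 13483, nat_lit 13267, nat_lit 13303, nat_lit 13339, nat_lit 13315, nat_lit 13323, nat_lit 33003] (nat_lit 1) [] false,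
   Spec.mk (nat_lit 13323) (nat_lit 0) [nat_lit 26445, nat_lit 8949, nat_lit 13485, nat_lit 13269, nat_lit 13305, nat_lit 13341, nat_lit 13317, nat_lit 13329, nat_lit 13321] (nat_lit 0) [] false,
   Spec.mk (nat_lit 13329) (nat_lit 0) [nat_lit 26451, nat_lit 8955, nat_lit 13491, nat_lit 13275, nat_lit 13347, nat_lit 13323] (nat_lit 0) [] false,
   Spec.mk (nat_lit 13339) (nat_lit 0) [nat_lit 26461, nat_lit 8965, nat_lit 13501, nat_lit 13321, nat_lit 13341, nat_lit 33021] (nat_lit 0) [] false,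
   Spec.mk (nat_lit 13341) (nat_lit 0) [nat_lit 26463, nat_lit 8967, nat_lit 13503, nat_lit 13323, nat_lit 13347, nat_lit 13339] (nat_lit 0) [] false,
   Spec.mk (nat_lit 13347) (nat_lit 2) [nat_lit 26469, nat_lit 8973, nat_lit 13509, nat_lit 13329, nat_lit 13341] (nat_lit 0) [] false,
   Spec.mk (nat_lit 13373) (nat_lit 0) [nat_lit 26495, nat_lit 8999, nat_lit 13859, nat_lit 13211, nat_lit 13379, nat_lit 33055] (nat_lit 0) [] false,
   Spec.mk (nat_lit 13379) (nat_lit 0) [nat_lit 26501, nat_lit 9005, nat_lit 13865, nat_lit 13217, nat_lit 13397, nat_lit 13373, nat_lit 13385, nat_lit 13381, nat_lit 33061] (nat_lit 1) [] false,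
   Spec.mk (nat_lit 13381) (nat_lit 0) [nat_lit 26503, nat_lit 9007, nat_lit 13867, nat_lit 13219, nat_lit 13399, nat_lit 13387, nat_lit 13379, nat_lit 33063] (nat_lit 0) [] false,
   Spec.mk (nat_lit 13385) (nat_lit 0) [nat_lit 26507, nat_lit 9011, nat_lit 13871, nat_lit 13223, nat_lit 13403, nat_lit 13379, nat_lit 13387, nat_lit 33067] (nat_lit 4) [] false,
   Spec.mk (nat_lit 13387) (nat_lit 0) [nat_lit 26509, nat_lit 9013, nat_lit 13873, nat_lit 13225, nat_lit 13405, nat_lit 13381, nat_lit 13385, nat_lit 13389, nat_lit 33069] (nat_lit 1) [] false,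
   Spec.mk (nat_lit 13389) (nat_lit 0) [nat_lit 26511, nat_lit 9015, nat_lit 13875, nat_lit 13227, nat_lit 13407, nat_lit 13387] (nat_lit 0) [] false,
   Spec.mk (nat_lit 13397) (nat_lit 0) [nat_lit 26519, nat_lit 9023, nat_lit 13883, nat_lit 13235, nat_lit 13451, nat_lit 13379, nat_lit 13403, nat_lit 13399, nat_lit 33079] (nat_lit 2) [] false,
   Spec.mk (nat_lit 13399) (nat_lit 0) [nat_lit 26521, nat_lit 9025, nat_lit 13885, nat_lit 13237, nat_lit 13453, nat_lit 13381, nat_lit 13405, nat_lit 13397, nat_lit 33081] (nat_lit 2) [] false,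
   Spec.mk (nat_lit 13403) (nat_lit 0) [nat_lit 26525, nat_lit 9029, nat_lit 13889, nat_lit 13241, nat_lit 13457, nat_lit 13385, nat_lit 13421, nat_lit 13397, nat_lit 13405, nat_lit 33085] (nat_lit 3) [] false]

noncomputable def sp31 : List Spec :=
  [Spec.mk (nat_lit 13405) (nat_lit 0) [nat_lit 26527, nat_lit 9031, nat_lit 13891, nat_lit 13243, nat_lit 13459, nat_lit 13387, nat_lit 13423, nat_lit 13399, nat_lit 13411, nat_lit 13403, nat_lit 13407, nat_lit 33087] (nat_lit 1) [] false,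
   Spec.mk (nat_lit 13407) (nat_lit 0) [nat_lit 26529, nat_lit 9033, nat_lit 13893, nat_lit 13245, nat_lit 13461, nat_lit 13389, nat_lit 13425, nat_lit 13413, nat_lit 13405] (nat_lit 1) [] false,
   Spec.mk (nat_lit 13411) (nat_lit 0) [nat_lit 26533, nat_lit 9037, nat_lit 13897, nat_lit 13249, nat_lit 13465, nat_lit 13429, nat_lit 13405, nat_lit 13413, nat_lit 33093] (nat_lit 2) [] false,
   Spec.mk (nat_lit 13413) (nat_lit 0) [nat_lit 26535, nat_lit 9039, nat_lit 13899, nat_lit 13251, nat_lit 13467, nat_lit 13431, nat_lit 13407, nat_lit 13411] (nat_lit 0) [] false,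
   Spec.mk (nat_lit 13421) (nat_lit 0) [nat_lit 26543, nat_lit 9047, nat_lit 13907, nat_lit 13259, nat_lit 13475, nat_lit 13403, nat_lit 13423, nat_lit 33103] (nat_lit 4) [] false,
   Spec.mk (nat_lit 13423) (nat_lit 0) [nat_lit 26545, nat_lit 9049, nat_lit 13909, nat_lit 13261, nat_lit 13477, nat_lit 13405, nat_lit 13429, nat_lit 13421, nat_lit 13425, nat_lit 33105] (nat_lit 3) [] false,
   Spec.mk (nat_lit 13425) (nat_lit 0) [nat_lit 26547, nat_lit 9051, nat_lit 13911, nat_lit 13263, nat_lit 13479, nat_lit 13407, nat_lit 13431, nat_lit 13423] (nat_lit 4) [] false,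
   Spec.mk (nat_lit 13429) (nat_lit 0) [nat_lit 26551, nat_lit 9055, nat_lit 13915, nat_lit 13267, nat_lit 13483, nat_lit 13411, nat_lit 13423, nat_lit 13431, nat_lit 33111] (nat_lit 2) [] false,
   Spec.mk (nat_lit 13431) (nat_lit 0) [nat_lit 26553, nat_lit 9057, nat_lit 13917, nat_lit 13269, nat_lit 13485, nat_lit 13413, nat_lit 13425, nat_lit 13437, nat_lit 13429] (nat_lit 1) [] false,
   Spec.mk (nat_lit 13437) (nat_lit 0) [nat_lit 26559, nat_lit 9063, nat_lit 13923, nat_lit 13275, nat_lit 13491, nat_lit 13431] (nat_lit 0) [] false,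
   Spec.mk (nat_lit 13451) (nat_lit 0) [nat_lit 26573, nat_lit 9077, nat_lit 13937, nat_lit 13289, nat_lit 13613, nat_lit 13397, nat_lit 13457, nat_lit 13453, nat_lit 33133] (nat_lit 1) [] false,
   Spec.mk (nat_lit 13453) (nat_lit 0) [nat_lit 26575, nat_lit 9079, nat_lit 13939, nat_lit 13291, nat_lit 13615, nat_lit 13399, nat_lit 13459, nat_lit 13451, nat_lit 33135] (nat_lit 1) [] false,
   Spec.mk (nat_lit 13457) (nat_lit 0) [nat_lit 26579, nat_lit 9083, nat_lit 13943, nat_lit 13295, nat_lit 13619, nat_lit 13403, nat_lit 13475, nat_lit 13451, nat_lit 13459, nat_lit 33139] (nat_lit 3) [] false,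
   Spec.mk (nat_lit 13459) (nat_lit 0) [nat_lit 26581, nat_lit 9085, nat_lit 13945, nat_lit 13297, nat_lit 13621, nat_lit 13405, nat_lit 13477, nat_lit 13453, nat_lit 13465, nat_lit 13457, nat_lit 13461, nat_lit 33141] (nat_lit 1) [] false,
   Spec.mk (nat_lit 13461) (nat_lit 0) [nat_lit 26583, nat_lit 9087, nat_lit 13947, nat_lit 13299, nat_lit 13623, nat_lit 13407, nat_lit 13479, nat_lit 13467, nat_lit 13459] (nat_lit 1) [] false,
   Spec.mk (nat_lit 13465) (nat_lit 0) [nat_lit 26587, nat_lit 9091, nat_lit 13951, nat_lit 13303, nat_lit 13627, nat_lit 13411, nat_lit 13483, nat_lit 13459, nat_lit 13467, nat_lit 33147] (nat_lit 3) [] false,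
   Spec.mk (nat_lit 13467) (nat_lit 0) [nat_lit 26589, nat_lit 9093, nat_lit 13953, nat_lit 13305, nat_lit 13629, nat_lit 13413, nat_lit 13485, nat_lit 13461, nat_lit 13465] (nat_lit 1) [] false,
   Spec.mk (nat_lit 13475) (nat_lit 0) [nat_lit 26597, nat_lit 9101, nat_lit 13961, nat_lit 13313, nat_lit 13637, nat_lit 13421, nat_lit 13529, nat_lit 13457, nat_lit 13477, nat_lit 33157] (nat_lit 2) [] false,
   Spec.mk (nat_lit 13477) (nat_lit 0) [nat_lit 26599, nat_lit 9103, nat_lit 13963, nat_lit 13315, nat_lit 13639, nat_lit 13423, nat_lit 13531, nat_lit 13459, nat_lit 13483, nat_lit 13475, nat_lit 13479, nat_lit 33159] (nat_lit 1) [] false,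
   Spec.mk (nat_lit 13479) (nat_lit 0) [nat_lit 26601, nat_lit 9105, nat_lit 13965, nat_lit 13317, nat_lit 13641, nat_lit 13425, nat_lit 13533, nat_lit 13461, nat_lit 13485, nat_lit 13477] (nat_lit 2) [] false,
   Spec.mk (nat_lit 13483) (nat_lit 0) [nat_lit 26605, nat_lit 9109, nat_lit 13969, nat_lit 13321, nat_lit 13645, nat_lit 13429, nat_lit 13537, nat_lit 13465, nat_lit 13501, nat_lit 13477, nat_lit 13485, nat_lit 33165] (nat_lit 1) [] false,
   Spec.mk (nat_lit 13485) (nat_lit 0) [nat_lit 26607, nat_lit 9111, nat_lit 13971, nat_lit 13323, nat_lit 13647, nat_lit 13431, nat_lit 13539, nat_lit 13467, nat_lit 13503, nat_lit 13479, nat_lit 13491, nat_lit 13483] (nat_lit 0) [] false,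
   Spec.mk (nat_lit 13491) (nat_lit 0) [nat_lit 26613, nat_lit 9117, nat_lit 13977, nat_lit 13329, nat_lit 13653, nat_lit 13437, nat_lit 13545, nat_lit 13509, nat_lit 13485] (nat_lit 0) [] false,
   Spec.mk (nat_lit 13501) (nat_lit 0) [nat_lit 26623, nat_lit 9127, nat_lit 13987, nat_lit 13339, nat_lit 13663, nat_lit 13555, nat_lit 13483, nat_lit 13503, nat_lit 33183] (nat_lit 1) [] false,
   Spec.mk (nat_lit 13503) (nat_lit 0) [nat_lit 26625, nat_lit 9129, nat_lit 13989, nat_lit 13341, nat_lit 13665, nat_lit 13557, nat_lit 13485, nat_lit 13509, nat_lit 13501] (nat_lit 1) [] false,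
   Spec.mk (nat_lit 13509) (nat_lit 1) [nat_lit 26631, nat_lit 9135, nat_lit 13995, nat_lit 13347, nat_lit 13671, nat_lit 13563, nat_lit 13491, nat_lit 13503] (nat_lit 0) [] false,
   Spec.mk (nat_lit 13529) (nat_lit 0) [nat_lit 26651, nat_lit 9155, nat_lit 14015, nat_lit 13691, nat_lit 13475, nat_lit 13531, nat_lit 33211] (nat_lit 2) [] false,
   Spec.mk (nat_lit 13531) (nat_lit 0) [nat_lit 26653, nat_lit 9157, nat_lit 14017, nat_lit 13693, nat_lit 13477, nat_lit 13537, nat_lit 13529, nat_lit 13533, nat_lit 33213] (nat_lit 1) [] false,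
   Spec.mk (nat_lit 13533) (nat_lit 0) [nat_lit 26655, nat_lit 9159, nat_lit 14019, nat_lit 13695, nat_lit 13479, nat_lit 13539, nat_lit 13531] (nat_lit 2) [] false,
   Spec.mk (nat_lit 13537) (nat_lit 0) [nat_lit 26659, nat_lit 9163, nat_lit 14023, nat_lit 13699, nat_lit 13483, nat_lit 13555, nat_lit 13531, nat_lit 13539, nat_lit 33219] (nat_lit 2) [] false,
   Spec.mk (nat_lit 13539) (nat_lit 0) [nat_lit 26661, nat_lit 9165, nat_lit 14025, nat_lit 13701, nat_lit 13485, nat_lit 13557, nat_lit 13533, nat_lit 13545, nat_lit 13537] (nat_lit 1) [] false,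
   Spec.mk (nat_lit 13545) (nat_lit 0) [nat_lit 26667, nat_lit 9171, nat_lit 14031, nat_lit 13707, nat_lit 13491, nat_lit 13563, nat_lit 13539] (nat_lit 2) [] false,
   Spec.mk (nat_lit 13555) (nat_lit 0) [nat_lit 26677, nat_lit 9181, nat_lit 14041, nat_lit 13717, nat_lit 13501, nat_lit 13537, nat_lit 13557, nat_lit 33237] (nat_lit 0) [] false,
   Spec.mk (nat_lit 13557) (nat_lit 0) [nat_lit 26679, nat_lit 9183, nat_lit 14043, nat_lit 13719, nat_lit 13503, nat_lit 13539, nat_lit 13563, nat_lit 13555] (nat_lit 0) [] false,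
   Spec.mk (nat_lit 13563) (nat_lit 1) [nat_lit 26685, nat_lit 9189, nat_lit 14049, nat_lit 13725, nat_lit 13509, nat_lit 13545, nat_lit 13581, nat_lit 13557] (nat_lit 0) [] false,
   Spec.mk (nat_lit 13581) (nat_lit 2) [nat_lit 26703, nat_lit 9207, nat_lit 14067, nat_lit 13743, nat_lit 13563] (nat_lit 0) [] false,
   Spec.mk (nat_lit 13613) (nat_lit 0) [nat_lit 26735, nat_lit 9239, nat_lit 14099, nat_lit 13451, nat_lit 13619, nat_lit 13615, nat_lit 33295] (nat_lit 2) [] false,
   Spec.mk (nat_lit 13615) (nat_lit 0) [nat_lit 26737, nat_lit 9241, nat_lit 14101, nat_lit 13453, nat_lit 13621, nat_lit 13613, nat_lit 33297] (nat_lit 2) [] false,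
   Spec.mk (nat_lit 13619) (nat_lit 0) [nat_lit 26741, nat_lit 9245, nat_lit 14105, nat_lit 13457, nat_lit 13637, nat_lit 13613, nat_lit 13621, nat_lit 33301] (nat_lit 4) [] false,
   Spec.mk (nat_lit 13621) (nat_lit 0) [nat_lit 26743, nat_lit 9247, nat_lit 14107, nat_lit 13459, nat_lit 13639, nat_lit 13615, nat_lit 13627, nat_lit 13619, nat_lit 13623, nat_lit 33303] (nat_lit 2) [] false,
   Spec.mk (nat_lit 13623) (nat_lit 0) [nat_lit 26745, nat_lit 9249, nat_lit 14109, nat_lit 13461, nat_lit 13641, nat_lit 13629, nat_lit 13621] (nat_lit 2) [] false,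
   Spec.mk (nat_lit 13627) (nat_lit 0) [nat_lit 26749, nat_lit 9253, nat_lit 14113, nat_lit 13465, nat_lit 13645, nat_lit 13621, nat_lit 13629, nat_lit 33309] (nat_lit 4) [] false,
   Spec.mk (nat_lit 13629) (nat_lit 0) [nat_lit 26751, nat_lit 9255, nat_lit 14115, nat_lit 13467, nat_lit 13647, nat_lit 13623, nat_lit 13627] (nat_lit 2) [] false,
   Spec.mk (nat_lit 13637) (nat_lit 0) [nat_lit 26759, nat_lit 9263, nat_lit 14123, nat_lit 13475, nat_lit 13691, nat_lit 13619, nat_lit 13639, nat_lit 33319] (nat_lit 4) [] false,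
   Spec.mk (nat_lit 13639) (nat_lit 0) [nat_lit 26761, nat_lit 9265, nat_lit 14125, nat_lit 13477, nat_lit 13693, nat_lit 13621, nat_lit 13645, nat_lit 13637, nat_lit 13641, nat_lit 33321] (nat_lit 3) [] false,
   Spec.mk (nat_lit 13641) (nat_lit 0) [nat_lit 26763, nat_lit 9267, nat_lit 14127, nat_lit 13479, nat_lit 13695, nat_lit 13623, nat_lit 13647, nat_lit 13639] (nat_lit 4) [] false,
   Spec.mk (nat_lit 13645) (nat_lit 0) [nat_lit 26767, nat_lit 9271, nat_lit 14131, nat_lit 13483, nat_lit 13699, nat_lit 13627, nat_lit 13663, nat_lit 13639, nat_lit 13647, nat_lit 33327] (nat_lit 3) [] false,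
   Spec.mk (nat_lit 13647) (nat_lit 0) [nat_lit 26769, nat_lit 9273, nat_lit 14133, nat_lit 13485, nat_lit 13701, nat_lit 13629, nat_lit 13665, nat_lit 13641, nat_lit 13653, nat_lit 13645] (nat_lit 2) [] false,
   Spec.mk (nat_lit 13653) (nat_lit 0) [nat_lit 26775, nat_lit 9279, nat_lit 14139, nat_lit 13491, nat_lit 13707, nat_lit 13671, nat_lit 13647] (nat_lit 2) [] false,
   Spec.mk (nat_lit 13663) (nat_lit 0) [nat_lit 26785, nat_lit 9289, nat_lit 14149, nat_lit 13501, nat_lit 13717, nat_lit 13645, nat_lit 13665, nat_lit 33345] (nat_lit 4) [] false,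
   Spec.mk (nat_lit 13665) (nat_lit 0) [nat_lit 26787, nat_lit 9291, nat_lit 14151, nat_lit 13503, nat_lit 13719, nat_lit 13647, nat_lit 13671, nat_lit 13663] (nat_lit 4) [] false,
   Spec.mk (nat_lit 13671) (nat_lit 0) [nat_lit 26793, nat_lit 9297, nat_lit 14157, nat_lit 13509, nat_lit 13725, nat_lit 13653, nat_lit 13665] (nat_lit 2) [] false,
   Spec.mk (nat_lit 13691) (nat_lit 0) [nat_lit 26813, nat_lit 9317, nat_lit 14177, nat_lit 13529, nat_lit 13637, nat_lit 13693, nat_lit 33373] (nat_lit 2) [] false,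
   Spec.mk (nat_lit 13693) (nat_lit 0) [nat_lit 26815, nat_lit 9319, nat_lit 14179, nat_lit 13531, nat_lit 13639, nat_lit 13699, nat_lit 13691, nat_lit 13695, nat_lit 33375] (nat_lit 1) [] false,
   Spec.mk (nat_lit 13695) (nat_lit 0) [nat_lit 26817, nat_lit 9321, nat_lit 14181, nat_lit 13533, nat_lit 13641, nat_lit 13701, nat_lit 13693] (nat_lit 2) [] false,
   Spec.mk (nat_lit 13699) (nat_lit 0) [nat_lit 26821, nat_lit 9325, nat_lit 14185, nat_lit 13537, nat_lit 13645, nat_lit 13717, nat_lit 13693, nat_lit 13701, nat_lit 33381] (nat_lit 2) [] false,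
   Spec.mk (nat_lit 13701) (nat_lit 0) [nat_lit 26823, nat_lit 9327, nat_lit 14187, nat_lit 13539, nat_lit 13647, nat_lit 13719, nat_lit 13695, nat_lit 13707, nat_lit 13699] (nat_lit 1) [] false,
   Spec.mk (nat_lit 13707) (nat_lit 0) [nat_lit 26829, nat_lit 9333, nat_lit 14193, nat_lit 13545, nat_lit 13653, nat_lit 13725, nat_lit 13701] (nat_lit 2) [] false,
   Spec.mk (nat_lit 13717) (nat_lit 0) [nat_lit 26839, nat_lit 9343, nat_lit 14203, nat_lit 13555, nat_lit 13663, nat_lit 13771, nat_lit 13699, nat_lit 13719, nat_lit 33399] (nat_lit 1) [] false,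
   Spec.mk (nat_lit 13719) (nat_lit 0) [nat_lit 26841, nat_lit 9345, nat_lit 14205, nat_lit 13557, nat_lit 13665, nat_lit 13773, nat_lit 13701, nat_lit 13725, nat_lit 13717] (nat_lit 1) [] false]

noncomputable def sp32 : List Spec :=
  [Spec.mk (nat_lit 13725) (nat_lit 0) [nat_lit 26847, nat_lit 9351, nat_lit 14211, nat_lit 13563, nat_lit 13671, nat_lit 13779, nat_lit 13707, nat_lit 13743, nat_lit 13719] (nat_lit 0) [] false,
   Spec.mk (nat_lit 13743) (nat_lit 0) [nat_lit 26865, nat_lit 9369, nat_lit 14229, nat_lit 13581, nat_lit 13797, nat_lit 13725] (nat_lit 0) [] false,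
   Spec.mk (nat_lit 13771) (nat_lit 0) [nat_lit 26893, nat_lit 9397, nat_lit 14257, nat_lit 13717, nat_lit 13773, nat_lit 33453] (nat_lit 0) [] false,
   Spec.mk (nat_lit 13773) (nat_lit 0) [nat_lit 26895, nat_lit 9399, nat_lit 14259, nat_lit 13719, nat_lit 13779, nat_lit 13771] (nat_lit 0) [] false,
   Spec.mk (nat_lit 13779) (nat_lit 0) [nat_lit 26901, nat_lit 9405, nat_lit 14265, nat_lit 13725, nat_lit 13797, nat_lit 13773] (nat_lit 0) [] false,
   Spec.mk (nat_lit 13797) (nat_lit 2) [nat_lit 26919, nat_lit 9423, nat_lit 14283, nat_lit 13743, nat_lit 13779] (nat_lit 0) [] false,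
   Spec.mk (nat_lit 13859) (nat_lit 0) [nat_lit 26981, nat_lit 9485, nat_lit 15317, nat_lit 13373, nat_lit 13865, nat_lit 33541] (nat_lit 0) [] false,
   Spec.mk (nat_lit 13865) (nat_lit 0) [nat_lit 26987, nat_lit 9491, nat_lit 15323, nat_lit 13379, nat_lit 13883, nat_lit 13859, nat_lit 13871, nat_lit 13867, nat_lit 33547] (nat_lit 1) [] false,
   Spec.mk (nat_lit 13867) (nat_lit 0) [nat_lit 26989, nat_lit 9493, nat_lit 15325, nat_lit 13381, nat_lit 13885, nat_lit 13873, nat_lit 13865, nat_lit 33549] (nat_lit 0) [] false,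
   Spec.mk (nat_lit 13871) (nat_lit 0) [nat_lit 26993, nat_lit 9497, nat_lit 15329, nat_lit 13385, nat_lit 13889, nat_lit 13865, nat_lit 13873, nat_lit 33553] (nat_lit 4) [] false,
   Spec.mk (nat_lit 13873) (nat_lit 0) [nat_lit 26995, nat_lit 9499, nat_lit 15331, nat_lit 13387, nat_lit 13891, nat_lit 13867, nat_lit 13871, nat_lit 13875, nat_lit 33555] (nat_lit 1) [] false,
   Spec.mk (nat_lit 13875) (nat_lit 0) [nat_lit 26997, nat_lit 9501, nat_lit 15333, nat_lit 13389, nat_lit 13893, nat_lit 13873] (nat_lit 0) [] false,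
   Spec.mk (nat_lit 13883) (nat_lit 0) [nat_lit 27005, nat_lit 9509, nat_lit 15341, nat_lit 13397, nat_lit 13937, nat_lit 13865, nat_lit 13889, nat_lit 13885, nat_lit 33565] (nat_lit 2) [] false,
   Spec.mk (nat_lit 13885) (nat_lit 0) [nat_lit 27007, nat_lit 9511, nat_lit 15343, nat_lit 13399, nat_lit 13939, nat_lit 13867, nat_lit 13891, nat_lit 13883, nat_lit 33567] (nat_lit 2) [] false,
   Spec.mk (nat_lit 13889) (nat_lit 0) [nat_lit 27011, nat_lit 9515, nat_lit 15347, nat_lit 13403, nat_lit 13943, nat_lit 13871, nat_lit 13907, nat_lit 13883, nat_lit 13891, nat_lit 33571] (nat_lit 3) [] false,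
   Spec.mk (nat_lit 13891) (nat_lit 0) [nat_lit 27013, nat_lit 9517, nat_lit 15349, nat_lit 13405, nat_lit 13945, nat_lit 13873, nat_lit 13909, nat_lit 13885, nat_lit 13897, nat_lit 13889, nat_lit 13893, nat_lit 33573] (nat_lit 1) [] false,
   Spec.mk (nat_lit 13893) (nat_lit 0) [nat_lit 27015, nat_lit 9519, nat_lit 15351, nat_lit 13407, nat_lit 13947, nat_lit 13875, nat_lit 13911, nat_lit 13899, nat_lit 13891] (nat_lit 1) [] false,
   Spec.mk (nat_lit 13897) (nat_lit 0) [nat_lit 27019, nat_lit 9523, nat_lit 15355, nat_lit 13411, nat_lit 13951, nat_lit 13915, nat_lit 13891, nat_lit 13899, nat_lit 33579] (nat_lit 2) [] false,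
   Spec.mk (nat_lit 13899) (nat_lit 0) [nat_lit 27021, nat_lit 9525, nat_lit 15357, nat_lit 13413, nat_lit 13953, nat_lit 13917, nat_lit 13893, nat_lit 13897] (nat_lit 0) [] false,
   Spec.mk (nat_lit 13907) (nat_lit 0) [nat_lit 27029, nat_lit 9533, nat_lit 15365, nat_lit 13421, nat_lit 13961, nat_lit 13889, nat_lit 13909, nat_lit 33589] (nat_lit 4) [] false,
   Spec.mk (nat_lit 13909) (nat_lit 0) [nat_lit 27031, nat_lit 9535, nat_lit 15367, nat_lit 13423, nat_lit 13963, nat_lit 13891, nat_lit 13915, nat_lit 13907, nat_lit 13911, nat_lit 33591] (nat_lit 3) [] false,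
   Spec.mk (nat_lit 13911) (nat_lit 0) [nat_lit 27033, nat_lit 9537, nat_lit 15369, nat_lit 13425, nat_lit 13965, nat_lit 13893, nat_lit 13917, nat_lit 13909] (nat_lit 4) [] false,
   Spec.mk (nat_lit 13915) (nat_lit 0) [nat_lit 27037, nat_lit 9541, nat_lit 15373, nat_lit 13429, nat_lit 13969, nat_lit 13897, nat_lit 13909, nat_lit 13917, nat_lit 33597] (nat_lit 2) [] false,
   Spec.mk (nat_lit 13917) (nat_lit 0) [nat_lit 27039, nat_lit 9543, nat_lit 15375, nat_lit 13431, nat_lit 13971, nat_lit 13899, nat_lit 13911, nat_lit 13923, nat_lit 13915] (nat_lit 1) [] false,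
   Spec.mk (nat_lit 13923) (nat_lit 0) [nat_lit 27045, nat_lit 9549, nat_lit 15381, nat_lit 13437, nat_lit 13977, nat_lit 13917] (nat_lit 0) [] false,
   Spec.mk (nat_lit 13937) (nat_lit 0) [nat_lit 27059, nat_lit 9563, nat_lit 15395, nat_lit 13451, nat_lit 14099, nat_lit 13883, nat_lit 13943, nat_lit 13939, nat_lit 33619] (nat_lit 2) [] false,
   Spec.mk (nat_lit 13939) (nat_lit 0) [nat_lit 27061, nat_lit 9565, nat_lit 15397, nat_lit 13453, nat_lit 14101, nat_lit 13885, nat_lit 13945, nat_lit 13937, nat_lit 33621] (nat_lit 2) [] false,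
   Spec.mk (nat_lit 13943) (nat_lit 0) [nat_lit 27065, nat_lit 9569, nat_lit 15401, nat_lit 13457, nat_lit 14105, nat_lit 13889, nat_lit 13961, nat_lit 13937, nat_lit 13945, nat_lit 33625] (nat_lit 4) [] false,
   Spec.mk (nat_lit 13945) (nat_lit 0) [nat_lit 27067, nat_lit 9571, nat_lit 15403, nat_lit 13459, nat_lit 14107, nat_lit 13891, nat_lit 13963, nat_lit 13939, nat_lit 13951, nat_lit 13943, nat_lit 13947, nat_lit 33627] (nat_lit 2) [] false,
   Spec.mk (nat_lit 13947) (nat_lit 0) [nat_lit 27069, nat_lit 9573, nat_lit 15405, nat_lit 13461, nat_lit 14109, nat_lit 13893, nat_lit 13965, nat_lit 13953, nat_lit 13945] (nat_lit 2) [] false,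
   Spec.mk (nat_lit 13951) (nat_lit 0) [nat_lit 27073, nat_lit 9577, nat_lit 15409, nat_lit 13465, nat_lit 14113, nat_lit 13897, nat_lit 13969, nat_lit 13945, nat_lit 13953, nat_lit 33633] (nat_lit 4) [] false,
   Spec.mk (nat_lit 13953) (nat_lit 0) [nat_lit 27075, nat_lit 9579, nat_lit 15411, nat_lit 13467, nat_lit 14115, nat_lit 13899, nat_lit 13971, nat_lit 13947, nat_lit 13951] (nat_lit 2) [] false,
   Spec.mk (nat_lit 13961) (nat_lit 0) [nat_lit 27083, nat_lit 9587, nat_lit 15419, nat_lit 13475, nat_lit 14123, nat_lit 13907, nat_lit 14015, nat_lit 13943, nat_lit 13963, nat_lit 33643] (nat_lit 3) [] false,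
   Spec.mk (nat_lit 13963) (nat_lit 0) [nat_lit 27085, nat_lit 9589, nat_lit 15421, nat_lit 13477, nat_lit 14125, nat_lit 13909, nat_lit 14017, nat_lit 13945, nat_lit 13969, nat_lit 13961, nat_lit 13965, nat_lit 33645] (nat_lit 2) [] false,
   Spec.mk (nat_lit 13965) (nat_lit 0) [nat_lit 27087, nat_lit 9591, nat_lit 15423, nat_lit 13479, nat_lit 14127, nat_lit 13911, nat_lit 14019, nat_lit 13947, nat_lit 13971, nat_lit 13963] (nat_lit 3) [] false,
   Spec.mk (nat_lit 13969) (nat_lit 0) [nat_lit 27091, nat_lit 9595, nat_lit 15427, nat_lit 13483, nat_lit 14131, nat_lit 13915, nat_lit 14023, nat_lit 13951, nat_lit 13987, nat_lit 13963, nat_lit 13971, nat_lit 33651] (nat_lit 2) [] false,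
   Spec.mk (nat_lit 13971) (nat_lit 0) [nat_lit 27093, nat_lit 9597, nat_lit 15429, nat_lit 13485, nat_lit 14133, nat_lit 13917, nat_lit 14025, nat_lit 13953, nat_lit 13989, nat_lit 13965, nat_lit 13977, nat_lit 13969] (nat_lit 1) [] false,
   Spec.mk (nat_lit 13977) (nat_lit 0) [nat_lit 27099, nat_lit 9603, nat_lit 15435, nat_lit 13491, nat_lit 14139, nat_lit 13923, nat_lit 14031, nat_lit 13995, nat_lit 13971] (nat_lit 1) [] false,
   Spec.mk (nat_lit 13987) (nat_lit 0) [nat_lit 27109, nat_lit 9613, nat_lit 15445, nat_lit 13501, nat_lit 14149, nat_lit 14041, nat_lit 13969, nat_lit 13989, nat_lit 33669] (nat_lit 2) [] false,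
   Spec.mk (nat_lit 13989) (nat_lit 0) [nat_lit 27111, nat_lit 9615, nat_lit 15447, nat_lit 13503, nat_lit 14151, nat_lit 14043, nat_lit 13971, nat_lit 13995, nat_lit 13987] (nat_lit 2) [] false,
   Spec.mk (nat_lit 13995) (nat_lit 0) [nat_lit 27117, nat_lit 9621, nat_lit 15453, nat_lit 13509, nat_lit 14157, nat_lit 14049, nat_lit 13977, nat_lit 13989] (nat_lit 0) [] false,
   Spec.mk (nat_lit 14015) (nat_lit 0) [nat_lit 27137, nat_lit 9641, nat_lit 15473, nat_lit 13529, nat_lit 14177, nat_lit 13961, nat_lit 14017, nat_lit 33697] (nat_lit 4) [] false,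
   Spec.mk (nat_lit 14017) (nat_lit 0) [nat_lit 27139, nat_lit 9643, nat_lit 15475, nat_lit 13531, nat_lit 14179, nat_lit 13963, nat_lit 14023, nat_lit 14015, nat_lit 14019, nat_lit 33699] (nat_lit 3) [] false,
   Spec.mk (nat_lit 14019) (nat_lit 0) [nat_lit 27141, nat_lit 9645, nat_lit 15477, nat_lit 13533, nat_lit 14181, nat_lit 13965, nat_lit 14025, nat_lit 14017] (nat_lit 4) [] false,
   Spec.mk (nat_lit 14023) (nat_lit 0) [nat_lit 27145, nat_lit 9649, nat_lit 15481, nat_lit 13537, nat_lit 14185, nat_lit 13969, nat_lit 14041, nat_lit 14017, nat_lit 14025, nat_lit 33705] (nat_lit 4) [] false,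
   Spec.mk (nat_lit 14025) (nat_lit 0) [nat_lit 27147, nat_lit 9651, nat_lit 15483, nat_lit 13539, nat_lit 14187, nat_lit 13971, nat_lit 14043, nat_lit 14019, nat_lit 14031, nat_lit 14023] (nat_lit 3) [] false,
   Spec.mk (nat_lit 14031) (nat_lit 0) [nat_lit 27153, nat_lit 9657, nat_lit 15489, nat_lit 13545, nat_lit 14193, nat_lit 13977, nat_lit 14049, nat_lit 14025] (nat_lit 4) [] false,
   Spec.mk (nat_lit 14041) (nat_lit 0) [nat_lit 27163, nat_lit 9667, nat_lit 15499, nat_lit 13555, nat_lit 14203, nat_lit 13987, nat_lit 14023, nat_lit 14043, nat_lit 33723] (nat_lit 2) [] false,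
   Spec.mk (nat_lit 14043) (nat_lit 0) [nat_lit 27165, nat_lit 9669, nat_lit 15501, nat_lit 13557, nat_lit 14205, nat_lit 13989, nat_lit 14025, nat_lit 14049, nat_lit 14041] (nat_lit 2) [] false,
   Spec.mk (nat_lit 14049) (nat_lit 0) [nat_lit 27171, nat_lit 9675, nat_lit 15507, nat_lit 13563, nat_lit 14211, nat_lit 13995, nat_lit 14031, nat_lit 14067, nat_lit 14043] (nat_lit 1) [] false,
   Spec.mk (nat_lit 14067) (nat_lit 0) [nat_lit 27189, nat_lit 9693, nat_lit 15525, nat_lit 13581, nat_lit 14229, nat_lit 14049] (nat_lit 0) [] false,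
   Spec.mk (nat_lit 14099) (nat_lit 0) [nat_lit 27221, nat_lit 9725, nat_lit 15557, nat_lit 13613, nat_lit 14585, nat_lit 13937, nat_lit 14105, nat_lit 14101, nat_lit 33781] (nat_lit 1) [] false,
   Spec.mk (nat_lit 14101) (nat_lit 0) [nat_lit 27223, nat_lit 9727, nat_lit 15559, nat_lit 13615, nat_lit 14587, nat_lit 13939, nat_lit 14107, nat_lit 14099, nat_lit 33783] (nat_lit 1) [] false,
   Spec.mk (nat_lit 14105) (nat_lit 0) [nat_lit 27227, nat_lit 9731, nat_lit 15563, nat_lit 13619, nat_lit 14591, nat_lit 13943, nat_lit 14123, nat_lit 14099, nat_lit 14107, nat_lit 33787] (nat_lit 3) [] false,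
   Spec.mk (nat_lit 14107) (nat_lit 0) [nat_lit 27229, nat_lit 9733, nat_lit 15565, nat_lit 13621, nat_lit 14593, nat_lit 13945, nat_lit 14125, nat_lit 14101, nat_lit 14113, nat_lit 14105, nat_lit 14109, nat_lit 33789] (nat_lit 1) [] false,
   Spec.mk (nat_lit 14109) (nat_lit 0) [nat_lit 27231, nat_lit 9735, nat_lit 15567, nat_lit 13623, nat_lit 14595, nat_lit 13947, nat_lit 14127, nat_lit 14115, nat_lit 14107] (nat_lit 1) [] false,
   Spec.mk (nat_lit 14113) (nat_lit 0) [nat_lit 27235, nat_lit 9739, nat_lit 15571, nat_lit 13627, nat_lit 14599, nat_lit 13951, nat_lit 14131, nat_lit 14107, nat_lit 14115, nat_lit 33795] (nat_lit 3) [] false,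
   Spec.mk (nat_lit 14115) (nat_lit 0) [nat_lit 27237, nat_lit 9741, nat_lit 15573, nat_lit 13629, nat_lit 14601, nat_lit 13953, nat_lit 14133, nat_lit 14109, nat_lit 14113] (nat_lit 1) [] false,
   Spec.mk (nat_lit 14123) (nat_lit 0) [nat_lit 27245, nat_lit 9749, nat_lit 15581, nat_lit 13637, nat_lit 14609, nat_lit 13961, nat_lit 14177, nat_lit 14105, nat_lit 14125, nat_lit 33805] (nat_lit 3) [] false,
   Spec.mk (nat_lit 14125) (nat_lit 0) [nat_lit 27247, nat_lit 9751, nat_lit 15583, nat_lit 13639, nat_lit 14611, nat_lit 13963, nat_lit 14179, nat_lit 14107, nat_lit 14131, nat_lit 14123, nat_lit 14127, nat_lit 33807] (nat_lit 2) [] false]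

noncomputable def sp33 : List Spec :=
  [Spec.mk (nat_lit 14127) (nat_lit 0) [nat_lit 27249, nat_lit 9753, nat_lit 15585, nat_lit 13641, nat_lit 14613, nat_lit 13965, nat_lit 14181, nat_lit 14109, nat_lit 14133, nat_lit 14125] (nat_lit 3) [] false,
   Spec.mk (nat_lit 14131) (nat_lit 0) [nat_lit 27253, nat_lit 9757, nat_lit 15589, nat_lit 13645, nat_lit 14617, nat_lit 13969, nat_lit 14185, nat_lit 14113, nat_lit 14149, nat_lit 14125, nat_lit 14133, nat_lit 33813] (nat_lit 2) [] false,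
   Spec.mk (nat_lit 14133) (nat_lit 0) [nat_lit 27255, nat_lit 9759, nat_lit 15591, nat_lit 13647, nat_lit 14619, nat_lit 13971, nat_lit 14187, nat_lit 14115, nat_lit 14151, nat_lit 14127, nat_lit 14139, nat_lit 14131] (nat_lit 1) [] false,
   Spec.mk (nat_lit 14139) (nat_lit 0) [nat_lit 27261, nat_lit 9765, nat_lit 15597, nat_lit 13653, nat_lit 14625, nat_lit 13977, nat_lit 14193, nat_lit 14157, nat_lit 14133] (nat_lit 1) [] false,
   Spec.mk (nat_lit 14149) (nat_lit 0) [nat_lit 27271, nat_lit 9775, nat_lit 15607, nat_lit 13663, nat_lit 14635, nat_lit 13987, nat_lit 14203, nat_lit 14131, nat_lit 14151, nat_lit 33831] (nat_lit 3) [] false,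
   Spec.mk (nat_lit 14151) (nat_lit 0) [nat_lit 27273, nat_lit 9777, nat_lit 15609, nat_lit 13665, nat_lit 14637, nat_lit 13989, nat_lit 14205, nat_lit 14133, nat_lit 14157, nat_lit 14149] (nat_lit 3) [] false,
   Spec.mk (nat_lit 14157) (nat_lit 0) [nat_lit 27279, nat_lit 9783, nat_lit 15615, nat_lit 13671, nat_lit 14643, nat_lit 13995, nat_lit 14211, nat_lit 14139, nat_lit 14151] (nat_lit 1) [] false,
   Spec.mk (nat_lit 14177) (nat_lit 0) [nat_lit 27299, nat_lit 9803, nat_lit 15635, nat_lit 13691, nat_lit 14663, nat_lit 14015, nat_lit 14339, nat_lit 14123, nat_lit 14179, nat_lit 33859] (nat_lit 2) [] false,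
   Spec.mk (nat_lit 14179) (nat_lit 0) [nat_lit 27301, nat_lit 9805, nat_lit 15637, nat_lit 13693, nat_lit 14665, nat_lit 14017, nat_lit 14341, nat_lit 14125, nat_lit 14185, nat_lit 14177, nat_lit 14181, nat_lit 33861] (nat_lit 1) [] false,
   Spec.mk (nat_lit 14181) (nat_lit 0) [nat_lit 27303, nat_lit 9807, nat_lit 15639, nat_lit 13695, nat_lit 14667, nat_lit 14019, nat_lit 14343, nat_lit 14127, nat_lit 14187, nat_lit 14179] (nat_lit 2) [] false,
   Spec.mk (nat_lit 14185) (nat_lit 0) [nat_lit 27307, nat_lit 9811, nat_lit 15643, nat_lit 13699, nat_lit 14671, nat_lit 14023, nat_lit 14347, nat_lit 14131, nat_lit 14203, nat_lit 14179, nat_lit 14187, nat_lit 33867] (nat_lit 2) [] false,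
   Spec.mk (nat_lit 14187) (nat_lit 0) [nat_lit 27309, nat_lit 9813, nat_lit 15645, nat_lit 13701, nat_lit 14673, nat_lit 14025, nat_lit 14349, nat_lit 14133, nat_lit 14205, nat_lit 14181, nat_lit 14193, nat_lit 14185] (nat_lit 1) [] false,
   Spec.mk (nat_lit 14193) (nat_lit 0) [nat_lit 27315, nat_lit 9819, nat_lit 15651, nat_lit 13707, nat_lit 14679, nat_lit 14031, nat_lit 14355, nat_lit 14139, nat_lit 14211, nat_lit 14187] (nat_lit 2) [] false,
   Spec.mk (nat_lit 14203) (nat_lit 0) [nat_lit 27325, nat_lit 9829, nat_lit 15661, nat_lit 13717, nat_lit 14689, nat_lit 14041, nat_lit 14365, nat_lit 14149, nat_lit 14257, nat_lit 14185, nat_lit 14205, nat_lit 33885] (nat_lit 1) [] false,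
   Spec.mk (nat_lit 14205) (nat_lit 0) [nat_lit 27327, nat_lit 9831, nat_lit 15663, nat_lit 13719, nat_lit 14691, nat_lit 14043, nat_lit 14367, nat_lit 14151, nat_lit 14259, nat_lit 14187, nat_lit 14211, nat_lit 14203] (nat_lit 1) [] false,
   Spec.mk (nat_lit 14211) (nat_lit 0) [nat_lit 27333, nat_lit 9837, nat_lit 15669, nat_lit 13725, nat_lit 14697, nat_lit 14049, nat_lit 14373, nat_lit 14157, nat_lit 14265, nat_lit 14193, nat_lit 14229, nat_lit 14205] (nat_lit 0) [] false,
   Spec.mk (nat_lit 14229) (nat_lit 0) [nat_lit 27351, nat_lit 9855, nat_lit 15687, nat_lit 13743, nat_lit 14715, nat_lit 14067, nat_lit 14391, nat_lit 14283, nat_lit 14211] (nat_lit 0) [] false,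
   Spec.mk (nat_lit 14257) (nat_lit 0) [nat_lit 27379, nat_lit 9883, nat_lit 15715, nat_lit 13771, nat_lit 14743, nat_lit 14419, nat_lit 14203, nat_lit 14259, nat_lit 33939] (nat_lit 1) [] false,
   Spec.mk (nat_lit 14259) (nat_lit 0) [nat_lit 27381, nat_lit 9885, nat_lit 15717, nat_lit 13773, nat_lit 14745, nat_lit 14421, nat_lit 14205, nat_lit 14265, nat_lit 14257] (nat_lit 1) [] false,
   Spec.mk (nat_lit 14265) (nat_lit 0) [nat_lit 27387, nat_lit 9891, nat_lit 15723, nat_lit 13779, nat_lit 14751, nat_lit 14427, nat_lit 14211, nat_lit 14283, nat_lit 14259] (nat_lit 1) [] false,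
   Spec.mk (nat_lit 14283) (nat_lit 1) [nat_lit 27405, nat_lit 9909, nat_lit 15741, nat_lit 13797, nat_lit 14769, nat_lit 14445, nat_lit 14229, nat_lit 14265] (nat_lit 0) [] false,
   Spec.mk (nat_lit 14339) (nat_lit 0) [nat_lit 27461, nat_lit 9965, nat_lit 15797, nat_lit 14825, nat_lit 14177, nat_lit 14341, nat_lit 34021] (nat_lit 2) [] false,
   Spec.mk (nat_lit 14341) (nat_lit 0) [nat_lit 27463, nat_lit 9967, nat_lit 15799, nat_lit 14827, nat_lit 14179, nat_lit 14347, nat_lit 14339, nat_lit 14343, nat_lit 34023] (nat_lit 1) [] false,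
   Spec.mk (nat_lit 14343) (nat_lit 0) [nat_lit 27465, nat_lit 9969, nat_lit 15801, nat_lit 14829, nat_lit 14181, nat_lit 14349, nat_lit 14341] (nat_lit 2) [] false,
   Spec.mk (nat_lit 14347) (nat_lit 0) [nat_lit 27469, nat_lit 9973, nat_lit 15805, nat_lit 14833, nat_lit 14185, nat_lit 14365, nat_lit 14341, nat_lit 14349, nat_lit 34029] (nat_lit 2) [] false,
   Spec.mk (nat_lit 14349) (nat_lit 0) [nat_lit 27471, nat_lit 9975, nat_lit 15807, nat_lit 14835, nat_lit 14187, nat_lit 14367, nat_lit 14343, nat_lit 14355, nat_lit 14347] (nat_lit 1) [] false,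
   Spec.mk (nat_lit 14355) (nat_lit 0) [nat_lit 27477, nat_lit 9981, nat_lit 15813, nat_lit 14841, nat_lit 14193, nat_lit 14373, nat_lit 14349] (nat_lit 2) [] false,
   Spec.mk (nat_lit 14365) (nat_lit 0) [nat_lit 27487, nat_lit 9991, nat_lit 15823, nat_lit 14851, nat_lit 14203, nat_lit 14419, nat_lit 14347, nat_lit 14367, nat_lit 34047] (nat_lit 2) [] false,
   Spec.mk (nat_lit 14367) (nat_lit 0) [nat_lit 27489, nat_lit 9993, nat_lit 15825, nat_lit 14853, nat_lit 14205, nat_lit 14421, nat_lit 14349, nat_lit 14373, nat_lit 14365] (nat_lit 2) [] false,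
   Spec.mk (nat_lit 14373) (nat_lit 0) [nat_lit 27495, nat_lit 9999, nat_lit 15831, nat_lit 14859, nat_lit 14211, nat_lit 14427, nat_lit 14355, nat_lit 14391, nat_lit 14367] (nat_lit 1) [] false,
   Spec.mk (nat_lit 14391) (nat_lit 0) [nat_lit 27513, nat_lit 10017, nat_lit 15849, nat_lit 14877, nat_lit 14229, nat_lit 14445, nat_lit 14373] (nat_lit 2) [] false,
   Spec.mk (nat_lit 14419) (nat_lit 0) [nat_lit 27541, nat_lit 10045, nat_lit 15877, nat_lit 14905, nat_lit 14257, nat_lit 14365, nat_lit 14421, nat_lit 34101] (nat_lit 0) [] false,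
   Spec.mk (nat_lit 14421) (nat_lit 0) [nat_lit 27543, nat_lit 10047, nat_lit 15879, nat_lit 14907, nat_lit 14259, nat_lit 14367, nat_lit 14427, nat_lit 14419] (nat_lit 0) [] false,
   Spec.mk (nat_lit 14427) (nat_lit 0) [nat_lit 27549, nat_lit 10053, nat_lit 15885, nat_lit 14913, nat_lit 14265, nat_lit 14373, nat_lit 14445, nat_lit 14421] (nat_lit 0) [] false,
   Spec.mk (nat_lit 14445) (nat_lit 1) [nat_lit 27567, nat_lit 10071, nat_lit 15903, nat_lit 14931, nat_lit 14283, nat_lit 14391, nat_lit 14499, nat_lit 14427] (nat_lit 0) [] false,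
   Spec.mk (nat_lit 14499) (nat_lit 2) [nat_lit 27621, nat_lit 10125, nat_lit 15957, nat_lit 14985, nat_lit 14445] (nat_lit 0) [] false,
   Spec.mk (nat_lit 14585) (nat_lit 0) [nat_lit 27707, nat_lit 10211, nat_lit 16043, nat_lit 14099, nat_lit 14591, nat_lit 14587, nat_lit 34267] (nat_lit 2) [] false,
   Spec.mk (nat_lit 14587) (nat_lit 0) [nat_lit 27709, nat_lit 10213, nat_lit 16045, nat_lit 14101, nat_lit 14593, nat_lit 14585, nat_lit 34269] (nat_lit 2) [] false,
   Spec.mk (nat_lit 14591) (nat_lit 0) [nat_lit 27713, nat_lit 10217, nat_lit 16049, nat_lit 14105, nat_lit 14609, nat_lit 14585, nat_lit 14593, nat_lit 34273] (nat_lit 4) [] false,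
   Spec.mk (nat_lit 14593) (nat_lit 0) [nat_lit 27715, nat_lit 10219, nat_lit 16051, nat_lit 14107, nat_lit 14611, nat_lit 14587, nat_lit 14599, nat_lit 14591, nat_lit 14595, nat_lit 34275] (nat_lit 2) [] false,
   Spec.mk (nat_lit 14595) (nat_lit 0) [nat_lit 27717, nat_lit 10221, nat_lit 16053, nat_lit 14109, nat_lit 14613, nat_lit 14601, nat_lit 14593] (nat_lit 2) [] false,
   Spec.mk (nat_lit 14599) (nat_lit 0) [nat_lit 27721, nat_lit 10225, nat_lit 16057, nat_lit 14113, nat_lit 14617, nat_lit 14593, nat_lit 14601, nat_lit 34281] (nat_lit 4) [] false,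
   Spec.mk (nat_lit 14601) (nat_lit 0) [nat_lit 27723, nat_lit 10227, nat_lit 16059, nat_lit 14115, nat_lit 14619, nat_lit 14595, nat_lit 14599] (nat_lit 2) [] false,
   Spec.mk (nat_lit 14609) (nat_lit 0) [nat_lit 27731, nat_lit 10235, nat_lit 16067, nat_lit 14123, nat_lit 14663, nat_lit 14591, nat_lit 14611, nat_lit 34291] (nat_lit 4) [] false,
   Spec.mk (nat_lit 14611) (nat_lit 0) [nat_lit 27733, nat_lit 10237, nat_lit 16069, nat_lit 14125, nat_lit 14665, nat_lit 14593, nat_lit 14617, nat_lit 14609, nat_lit 14613, nat_lit 34293] (nat_lit 3) [] false,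
   Spec.mk (nat_lit 14613) (nat_lit 0) [nat_lit 27735, nat_lit 10239, nat_lit 16071, nat_lit 14127, nat_lit 14667, nat_lit 14595, nat_lit 14619, nat_lit 14611] (nat_lit 4) [] false,
   Spec.mk (nat_lit 14617) (nat_lit 0) [nat_lit 27739, nat_lit 10243, nat_lit 16075, nat_lit 14131, nat_lit 14671, nat_lit 14599, nat_lit 14635, nat_lit 14611, nat_lit 14619, nat_lit 34299] (nat_lit 3) [] false,
   Spec.mk (nat_lit 14619) (nat_lit 0) [nat_lit 27741, nat_lit 10245, nat_lit 16077, nat_lit 14133, nat_lit 14673, nat_lit 14601, nat_lit 14637, nat_lit 14613, nat_lit 14625, nat_lit 14617] (nat_lit 2) [] false,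
   Spec.mk (nat_lit 14625) (nat_lit 0) [nat_lit 27747, nat_lit 10251, nat_lit 16083, nat_lit 14139, nat_lit 14679, nat_lit 14643, nat_lit 14619] (nat_lit 2) [] false,
   Spec.mk (nat_lit 14635) (nat_lit 0) [nat_lit 27757, nat_lit 10261, nat_lit 16093, nat_lit 14149, nat_lit 14689, nat_lit 14617, nat_lit 14637, nat_lit 34317] (nat_lit 4) [] false,
   Spec.mk (nat_lit 14637) (nat_lit 0) [nat_lit 27759, nat_lit 10263, nat_lit 16095, nat_lit 14151, nat_lit 14691, nat_lit 14619, nat_lit 14643, nat_lit 14635] (nat_lit 4) [] false,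
   Spec.mk (nat_lit 14643) (nat_lit 0) [nat_lit 27765, nat_lit 10269, nat_lit 16101, nat_lit 14157, nat_lit 14697, nat_lit 14625, nat_lit 14637] (nat_lit 2) [] false,
   Spec.mk (nat_lit 14663) (nat_lit 0) [nat_lit 27785, nat_lit 10289, nat_lit 16121, nat_lit 14177, nat_lit 14825, nat_lit 14609, nat_lit 14665, nat_lit 34345] (nat_lit 4) [] false,
   Spec.mk (nat_lit 14665) (nat_lit 0) [nat_lit 27787, nat_lit 10291, nat_lit 16123, nat_lit 14179, nat_lit 14827, nat_lit 14611, nat_lit 14671, nat_lit 14663, nat_lit 14667, nat_lit 34347] (nat_lit 3) [] false,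
   Spec.mk (nat_lit 14667) (nat_lit 0) [nat_lit 27789, nat_lit 10293, nat_lit 16125, nat_lit 14181, nat_lit 14829, nat_lit 14613, nat_lit 14673, nat_lit 14665] (nat_lit 4) [] false,
   Spec.mk (nat_lit 14671) (nat_lit 0) [nat_lit 27793, nat_lit 10297, nat_lit 16129, nat_lit 14185, nat_lit 14833, nat_lit 14617, nat_lit 14689, nat_lit 14665, nat_lit 14673, nat_lit 34353] (nat_lit 4) [] false,
   Spec.mk (nat_lit 14673) (nat_lit 0) [nat_lit 27795, nat_lit 10299, nat_lit 16131, nat_lit 14187, nat_lit 14835, nat_lit 14619, nat_lit 14691, nat_lit 14667, nat_lit 14679, nat_lit 14671] (nat_lit 3) [] false,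
   Spec.mk (nat_lit 14679) (nat_lit 0) [nat_lit 27801, nat_lit 10305, nat_lit 16137, nat_lit 14193, nat_lit 14841, nat_lit 14625, nat_lit 14697, nat_lit 14673] (nat_lit 4) [] false,
   Spec.mk (nat_lit 14689) (nat_lit 0) [nat_lit 27811, nat_lit 10315, nat_lit 16147, nat_lit 14203, nat_lit 14851, nat_lit 14635, nat_lit 14743, nat_lit 14671, nat_lit 14691, nat_lit 34371] (nat_lit 3) [] false,
   Spec.mk (nat_lit 14691) (nat_lit 0) [nat_lit 27813, nat_lit 10317, nat_lit 16149, nat_lit 14205, nat_lit 14853, nat_lit 14637, nat_lit 14745, nat_lit 14673, nat_lit 14697, nat_lit 14689] (nat_lit 3) [] false]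

noncomputable def sp34 : List Spec :=
  [Spec.mk (nat_lit 14697) (nat_lit 0) [nat_lit 27819, nat_lit 10323, nat_lit 16155, nat_lit 14211, nat_lit 14859, nat_lit 14643, nat_lit 14751, nat_lit 14679, nat_lit 14715, nat_lit 14691] (nat_lit 2) [] false,
   Spec.mk (nat_lit 14715) (nat_lit 0) [nat_lit 27837, nat_lit 10341, nat_lit 16173, nat_lit 14229, nat_lit 14877, nat_lit 14769, nat_lit 14697] (nat_lit 2) [] false,
   Spec.mk (nat_lit 14743) (nat_lit 0) [nat_lit 27865, nat_lit 10369, nat_lit 16201, nat_lit 14257, nat_lit 14905, nat_lit 14689, nat_lit 14745, nat_lit 34425] (nat_lit 4) [] false,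
   Spec.mk (nat_lit 14745) (nat_lit 0) [nat_lit 27867, nat_lit 10371, nat_lit 16203, nat_lit 14259, nat_lit 14907, nat_lit 14691, nat_lit 14751, nat_lit 14743] (nat_lit 4) [] false,
   Spec.mk (nat_lit 14751) (nat_lit 0) [nat_lit 27873, nat_lit 10377, nat_lit 16209, nat_lit 14265, nat_lit 14913, nat_lit 14697, nat_lit 14769, nat_lit 14745] (nat_lit 4) [] false,
   Spec.mk (nat_lit 14769) (nat_lit 0) [nat_lit 27891, nat_lit 10395, nat_lit 16227, nat_lit 14283, nat_lit 14931, nat_lit 14715, nat_lit 14751] (nat_lit 2) [] false,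
   Spec.mk (nat_lit 14825) (nat_lit 0) [nat_lit 27947, nat_lit 10451, nat_lit 16283, nat_lit 14339, nat_lit 14663, nat_lit 14827, nat_lit 34507] (nat_lit 2) [] false,
   Spec.mk (nat_lit 14827) (nat_lit 0) [nat_lit 27949, nat_lit 10453, nat_lit 16285, nat_lit 14341, nat_lit 14665, nat_lit 14833, nat_lit 14825, nat_lit 14829, nat_lit 34509] (nat_lit 1) [] false,
   Spec.mk (nat_lit 14829) (nat_lit 0) [nat_lit 27951, nat_lit 10455, nat_lit 16287, nat_lit 14343, nat_lit 14667, nat_lit 14835, nat_lit 14827] (nat_lit 2) [] false,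
   Spec.mk (nat_lit 14833) (nat_lit 0) [nat_lit 27955, nat_lit 10459, nat_lit 16291, nat_lit 14347, nat_lit 14671, nat_lit 14851, nat_lit 14827, nat_lit 14835, nat_lit 34515] (nat_lit 2) [] false,
   Spec.mk (nat_lit 14835) (nat_lit 0) [nat_lit 27957, nat_lit 10461, nat_lit 16293, nat_lit 14349, nat_lit 14673, nat_lit 14853, nat_lit 14829, nat_lit 14841, nat_lit 14833] (nat_lit 1) [] false,
   Spec.mk (nat_lit 14841) (nat_lit 0) [nat_lit 27963, nat_lit 10467, nat_lit 16299, nat_lit 14355, nat_lit 14679, nat_lit 14859, nat_lit 14835] (nat_lit 2) [] false,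
   Spec.mk (nat_lit 14851) (nat_lit 0) [nat_lit 27973, nat_lit 10477, nat_lit 16309, nat_lit 14365, nat_lit 14689, nat_lit 14905, nat_lit 14833, nat_lit 14853, nat_lit 34533] (nat_lit 2) [] false,
   Spec.mk (nat_lit 14853) (nat_lit 0) [nat_lit 27975, nat_lit 10479, nat_lit 16311, nat_lit 14367, nat_lit 14691, nat_lit 14907, nat_lit 14835, nat_lit 14859, nat_lit 14851] (nat_lit 2) [] false,
   Spec.mk (nat_lit 14859) (nat_lit 0) [nat_lit 27981, nat_lit 10485, nat_lit 16317, nat_lit 14373, nat_lit 14697, nat_lit 14913, nat_lit 14841, nat_lit 14877, nat_lit 14853] (nat_lit 1) [] false,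
   Spec.mk (nat_lit 14877) (nat_lit 0) [nat_lit 27999, nat_lit 10503, nat_lit 16335, nat_lit 14391, nat_lit 14715, nat_lit 14931, nat_lit 14859] (nat_lit 2) [] false,
   Spec.mk (nat_lit 14905) (nat_lit 0) [nat_lit 28027, nat_lit 10531, nat_lit 16363, nat_lit 14419, nat_lit 14743, nat_lit 15067, nat_lit 14851, nat_lit 14907, nat_lit 34587] (nat_lit 1) [] false,
   Spec.mk (nat_lit 14907) (nat_lit 0) [nat_lit 28029, nat_lit 10533, nat_lit 16365, nat_lit 14421, nat_lit 14745, nat_lit 15069, nat_lit 14853, nat_lit 14913, nat_lit 14905] (nat_lit 1) [] false,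
   Spec.mk (nat_lit 14913) (nat_lit 0) [nat_lit 28035, nat_lit 10539, nat_lit 16371, nat_lit 14427, nat_lit 14751, nat_lit 15075, nat_lit 14859, nat_lit 14931, nat_lit 14907] (nat_lit 1) [] false,
   Spec.mk (nat_lit 14931) (nat_lit 0) [nat_lit 28053, nat_lit 10557, nat_lit 16389, nat_lit 14445, nat_lit 14769, nat_lit 15093, nat_lit 14877, nat_lit 14985, nat_lit 14913] (nat_lit 0) [] false,
   Spec.mk (nat_lit 14985) (nat_lit 0) [nat_lit 28107, nat_lit 10611, nat_lit 16443, nat_lit 14499, nat_lit 15147, nat_lit 14931] (nat_lit 0) [] false,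
   Spec.mk (nat_lit 15067) (nat_lit 0) [nat_lit 28189, nat_lit 10693, nat_lit 16525, nat_lit 14905, nat_lit 15069, nat_lit 34749] (nat_lit 0) [] false,
   Spec.mk (nat_lit 15069) (nat_lit 0) [nat_lit 28191, nat_lit 10695, nat_lit 16527, nat_lit 14907, nat_lit 15075, nat_lit 15067] (nat_lit 0) [] false,
   Spec.mk (nat_lit 15075) (nat_lit 0) [nat_lit 28197, nat_lit 10701, nat_lit 16533, nat_lit 14913, nat_lit 15093, nat_lit 15069] (nat_lit 0) [] false,
   Spec.mk (nat_lit 15093) (nat_lit 0) [nat_lit 28215, nat_lit 10719, nat_lit 16551, nat_lit 14931, nat_lit 15147, nat_lit 15075] (nat_lit 0) [] false,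
   Spec.mk (nat_lit 15147) (nat_lit 2) [nat_lit 28269, nat_lit 10773, nat_lit 16605, nat_lit 14985, nat_lit 15093] (nat_lit 0) [] false,
   Spec.mk (nat_lit 15317) (nat_lit 2) [nat_lit 28439, nat_lit 10943, nat_lit 13859, nat_lit 15323, nat_lit 34999] (nat_lit 0) [] false,
   Spec.mk (nat_lit 15323) (nat_lit 1) [nat_lit 28445, nat_lit 10949, nat_lit 13865, nat_lit 15341, nat_lit 15317, nat_lit 15329, nat_lit 15325, nat_lit 35005] (nat_lit 0) [] false,
   Spec.mk (nat_lit 15325) (nat_lit 2) [nat_lit 28447, nat_lit 10951, nat_lit 13867, nat_lit 15343, nat_lit 15331, nat_lit 15323, nat_lit 35007] (nat_lit 0) [] false,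
   Spec.mk (nat_lit 15329) (nat_lit 0) [nat_lit 28451, nat_lit 10955, nat_lit 13871, nat_lit 15347, nat_lit 15323, nat_lit 15331, nat_lit 35011] (nat_lit 2) [] false,
   Spec.mk (nat_lit 15331) (nat_lit 1) [nat_lit 28453, nat_lit 10957, nat_lit 13873, nat_lit 15349, nat_lit 15325, nat_lit 15329, nat_lit 15333, nat_lit 35013] (nat_lit 0) [] false,
   Spec.mk (nat_lit 15333) (nat_lit 2) [nat_lit 28455, nat_lit 10959, nat_lit 13875, nat_lit 15351, nat_lit 15331] (nat_lit 0) [] false,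
   Spec.mk (nat_lit 15341) (nat_lit 0) [nat_lit 28463, nat_lit 10967, nat_lit 13883, nat_lit 15395, nat_lit 15323, nat_lit 15347, nat_lit 15343, nat_lit 35023] (nat_lit 0) [] false,
   Spec.mk (nat_lit 15343) (nat_lit 0) [nat_lit 28465, nat_lit 10969, nat_lit 13885, nat_lit 15397, nat_lit 15325, nat_lit 15349, nat_lit 15341, nat_lit 35025] (nat_lit 0) [] false,
   Spec.mk (nat_lit 15347) (nat_lit 0) [nat_lit 28469, nat_lit 10973, nat_lit 13889, nat_lit 15401, nat_lit 15329, nat_lit 15365, nat_lit 15341, nat_lit 15349, nat_lit 35029] (nat_lit 1) [] false,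
   Spec.mk (nat_lit 15349) (nat_lit 1) [nat_lit 28471, nat_lit 10975, nat_lit 13891, nat_lit 15403, nat_lit 15331, nat_lit 15367, nat_lit 15343, nat_lit 15355, nat_lit 15347, nat_lit 15351, nat_lit 35031] (nat_lit 0) [] false,
   Spec.mk (nat_lit 15351) (nat_lit 1) [nat_lit 28473, nat_lit 10977, nat_lit 13893, nat_lit 15405, nat_lit 15333, nat_lit 15369, nat_lit 15357, nat_lit 15349] (nat_lit 0) [] false,
   Spec.mk (nat_lit 15355) (nat_lit 0) [nat_lit 28477, nat_lit 10981, nat_lit 13897, nat_lit 15409, nat_lit 15373, nat_lit 15349, nat_lit 15357, nat_lit 35037] (nat_lit 0) [] false,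
   Spec.mk (nat_lit 15357) (nat_lit 2) [nat_lit 28479, nat_lit 10983, nat_lit 13899, nat_lit 15411, nat_lit 15375, nat_lit 15351, nat_lit 15355] (nat_lit 0) [] false,
   Spec.mk (nat_lit 15365) (nat_lit 0) [nat_lit 28487, nat_lit 10991, nat_lit 13907, nat_lit 15419, nat_lit 15347, nat_lit 15367, nat_lit 35047] (nat_lit 2) [] false,
   Spec.mk (nat_lit 15367) (nat_lit 0) [nat_lit 28489, nat_lit 10993, nat_lit 13909, nat_lit 15421, nat_lit 15349, nat_lit 15373, nat_lit 15365, nat_lit 15369, nat_lit 35049] (nat_lit 1) [] false,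
   Spec.mk (nat_lit 15369) (nat_lit 0) [nat_lit 28491, nat_lit 10995, nat_lit 13911, nat_lit 15423, nat_lit 15351, nat_lit 15375, nat_lit 15367] (nat_lit 2) [] false,
   Spec.mk (nat_lit 15373) (nat_lit 0) [nat_lit 28495, nat_lit 10999, nat_lit 13915, nat_lit 15427, nat_lit 15355, nat_lit 15367, nat_lit 15375, nat_lit 35055] (nat_lit 0) [] false,
   Spec.mk (nat_lit 15375) (nat_lit 1) [nat_lit 28497, nat_lit 11001, nat_lit 13917, nat_lit 15429, nat_lit 15357, nat_lit 15369, nat_lit 15381, nat_lit 15373] (nat_lit 0) [] false,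
   Spec.mk (nat_lit 15381) (nat_lit 2) [nat_lit 28503, nat_lit 11007, nat_lit 13923, nat_lit 15435, nat_lit 15375] (nat_lit 0) [] false,
   Spec.mk (nat_lit 15395) (nat_lit 0) [nat_lit 28517, nat_lit 11021, nat_lit 13937, nat_lit 15557, nat_lit 15341, nat_lit 15401, nat_lit 15397, nat_lit 35077] (nat_lit 0) [] false,
   Spec.mk (nat_lit 15397) (nat_lit 0) [nat_lit 28519, nat_lit 11023, nat_lit 13939, nat_lit 15559, nat_lit 15343, nat_lit 15403, nat_lit 15395, nat_lit 35079] (nat_lit 0) [] false,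
   Spec.mk (nat_lit 15401) (nat_lit 0) [nat_lit 28523, nat_lit 11027, nat_lit 13943, nat_lit 15563, nat_lit 15347, nat_lit 15419, nat_lit 15395, nat_lit 15403, nat_lit 35083] (nat_lit 2) [] false,
   Spec.mk (nat_lit 15403) (nat_lit 0) [nat_lit 28525, nat_lit 11029, nat_lit 13945, nat_lit 15565, nat_lit 15349, nat_lit 15421, nat_lit 15397, nat_lit 15409, nat_lit 15401, nat_lit 15405, nat_lit 35085] (nat_lit 0) [] false,
   Spec.mk (nat_lit 15405) (nat_lit 0) [nat_lit 28527, nat_lit 11031, nat_lit 13947, nat_lit 15567, nat_lit 15351, nat_lit 15423, nat_lit 15411, nat_lit 15403] (nat_lit 0) [] false,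
   Spec.mk (nat_lit 15409) (nat_lit 0) [nat_lit 28531, nat_lit 11035, nat_lit 13951, nat_lit 15571, nat_lit 15355, nat_lit 15427, nat_lit 15403, nat_lit 15411, nat_lit 35091] (nat_lit 2) [] false,
   Spec.mk (nat_lit 15411) (nat_lit 0) [nat_lit 28533, nat_lit 11037, nat_lit 13953, nat_lit 15573, nat_lit 15357, nat_lit 15429, nat_lit 15405, nat_lit 15409] (nat_lit 0) [] false,
   Spec.mk (nat_lit 15419) (nat_lit 0) [nat_lit 28541, nat_lit 11045, nat_lit 13961, nat_lit 15581, nat_lit 15365, nat_lit 15473, nat_lit 15401, nat_lit 15421, nat_lit 35101] (nat_lit 1) [] false,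
   Spec.mk (nat_lit 15421) (nat_lit 0) [nat_lit 28543, nat_lit 11047, nat_lit 13963, nat_lit 15583, nat_lit 15367, nat_lit 15475, nat_lit 15403, nat_lit 15427, nat_lit 15419, nat_lit 15423, nat_lit 35103] (nat_lit 0) [] false,
   Spec.mk (nat_lit 15423) (nat_lit 0) [nat_lit 28545, nat_lit 11049, nat_lit 13965, nat_lit 15585, nat_lit 15369, nat_lit 15477, nat_lit 15405, nat_lit 15429, nat_lit 15421] (nat_lit 1) [] false,
   Spec.mk (nat_lit 15427) (nat_lit 0) [nat_lit 28549, nat_lit 11053, nat_lit 13969, nat_lit 15589, nat_lit 15373, nat_lit 15481, nat_lit 15409, nat_lit 15445, nat_lit 15421, nat_lit 15429, nat_lit 35109] (nat_lit 0) [] false,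
   Spec.mk (nat_lit 15429) (nat_lit 1) [nat_lit 28551, nat_lit 11055, nat_lit 13971, nat_lit 15591, nat_lit 15375, nat_lit 15483, nat_lit 15411, nat_lit 15447, nat_lit 15423, nat_lit 15435, nat_lit 15427] (nat_lit 0) [] false,
   Spec.mk (nat_lit 15435) (nat_lit 1) [nat_lit 28557, nat_lit 11061, nat_lit 13977, nat_lit 15597, nat_lit 15381, nat_lit 15489, nat_lit 15453, nat_lit 15429] (nat_lit 0) [] false,
   Spec.mk (nat_lit 15445) (nat_lit 0) [nat_lit 28567, nat_lit 11071, nat_lit 13987, nat_lit 15607, nat_lit 15499, nat_lit 15427, nat_lit 15447, nat_lit 35127] (nat_lit 0) [] false,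
   Spec.mk (nat_lit 15447) (nat_lit 0) [nat_lit 28569, nat_lit 11073, nat_lit 13989, nat_lit 15609, nat_lit 15501, nat_lit 15429, nat_lit 15453, nat_lit 15445] (nat_lit 0) [] false]

noncomputable def sp35 : List Spec :=
  [Spec.mk (nat_lit 15453) (nat_lit 2) [nat_lit 28575, nat_lit 11079, nat_lit 13995, nat_lit 15615, nat_lit 15507, nat_lit 15435, nat_lit 15447] (nat_lit 0) [] false,
   Spec.mk (nat_lit 15473) (nat_lit 0) [nat_lit 28595, nat_lit 11099, nat_lit 14015, nat_lit 15635, nat_lit 15419, nat_lit 15475, nat_lit 35155] (nat_lit 2) [] false,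
   Spec.mk (nat_lit 15475) (nat_lit 0) [nat_lit 28597, nat_lit 11101, nat_lit 14017, nat_lit 15637, nat_lit 15421, nat_lit 15481, nat_lit 15473, nat_lit 15477, nat_lit 35157] (nat_lit 1) [] false,
   Spec.mk (nat_lit 15477) (nat_lit 0) [nat_lit 28599, nat_lit 11103, nat_lit 14019, nat_lit 15639, nat_lit 15423, nat_lit 15483, nat_lit 15475] (nat_lit 2) [] false,
   Spec.mk (nat_lit 15481) (nat_lit 0) [nat_lit 28603, nat_lit 11107, nat_lit 14023, nat_lit 15643, nat_lit 15427, nat_lit 15499, nat_lit 15475, nat_lit 15483, nat_lit 35163] (nat_lit 2) [] false,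
   Spec.mk (nat_lit 15483) (nat_lit 0) [nat_lit 28605, nat_lit 11109, nat_lit 14025, nat_lit 15645, nat_lit 15429, nat_lit 15501, nat_lit 15477, nat_lit 15489, nat_lit 15481] (nat_lit 1) [] false,
   Spec.mk (nat_lit 15489) (nat_lit 0) [nat_lit 28611, nat_lit 11115, nat_lit 14031, nat_lit 15651, nat_lit 15435, nat_lit 15507, nat_lit 15483] (nat_lit 2) [] false,
   Spec.mk (nat_lit 15499) (nat_lit 0) [nat_lit 28621, nat_lit 11125, nat_lit 14041, nat_lit 15661, nat_lit 15445, nat_lit 15481, nat_lit 15501, nat_lit 35181] (nat_lit 0) [] false,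
   Spec.mk (nat_lit 15501) (nat_lit 0) [nat_lit 28623, nat_lit 11127, nat_lit 14043, nat_lit 15663, nat_lit 15447, nat_lit 15483, nat_lit 15507, nat_lit 15499] (nat_lit 0) [] false,
   Spec.mk (nat_lit 15507) (nat_lit 1) [nat_lit 28629, nat_lit 11133, nat_lit 14049, nat_lit 15669, nat_lit 15453, nat_lit 15489, nat_lit 15525, nat_lit 15501] (nat_lit 0) [] false,
   Spec.mk (nat_lit 15525) (nat_lit 2) [nat_lit 28647, nat_lit 11151, nat_lit 14067, nat_lit 15687, nat_lit 15507] (nat_lit 0) [] false,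
   Spec.mk (nat_lit 15557) (nat_lit 0) [nat_lit 28679, nat_lit 11183, nat_lit 14099, nat_lit 16043, nat_lit 15395, nat_lit 15563, nat_lit 15559, nat_lit 35239] (nat_lit 0) [] false,
   Spec.mk (nat_lit 15559) (nat_lit 0) [nat_lit 28681, nat_lit 11185, nat_lit 14101, nat_lit 16045, nat_lit 15397, nat_lit 15565, nat_lit 15557, nat_lit 35241] (nat_lit 0) [] false,
   Spec.mk (nat_lit 15563) (nat_lit 0) [nat_lit 28685, nat_lit 11189, nat_lit 14105, nat_lit 16049, nat_lit 15401, nat_lit 15581, nat_lit 15557, nat_lit 15565, nat_lit 35245] (nat_lit 2) [] false,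
   Spec.mk (nat_lit 15565) (nat_lit 0) [nat_lit 28687, nat_lit 11191, nat_lit 14107, nat_lit 16051, nat_lit 15403, nat_lit 15583, nat_lit 15559, nat_lit 15571, nat_lit 15563, nat_lit 15567, nat_lit 35247] (nat_lit 0) [] false,
   Spec.mk (nat_lit 15567) (nat_lit 0) [nat_lit 28689, nat_lit 11193, nat_lit 14109, nat_lit 16053, nat_lit 15405, nat_lit 15585, nat_lit 15573, nat_lit 15565] (nat_lit 0) [] false,
   Spec.mk (nat_lit 15571) (nat_lit 0) [nat_lit 28693, nat_lit 11197, nat_lit 14113, nat_lit 16057, nat_lit 15409, nat_lit 15589, nat_lit 15565, nat_lit 15573, nat_lit 35253] (nat_lit 2) [] false,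
   Spec.mk (nat_lit 15573) (nat_lit 0) [nat_lit 28695, nat_lit 11199, nat_lit 14115, nat_lit 16059, nat_lit 15411, nat_lit 15591, nat_lit 15567, nat_lit 15571] (nat_lit 0) [] false,
   Spec.mk (nat_lit 15581) (nat_lit 0) [nat_lit 28703, nat_lit 11207, nat_lit 14123, nat_lit 16067, nat_lit 15419, nat_lit 15635, nat_lit 15563, nat_lit 15583, nat_lit 35263] (nat_lit 2) [] false,
   Spec.mk (nat_lit 15583) (nat_lit 0) [nat_lit 28705, nat_lit 11209, nat_lit 14125, nat_lit 16069, nat_lit 15421, nat_lit 15637, nat_lit 15565, nat_lit 15589, nat_lit 15581, nat_lit 15585, nat_lit 35265] (nat_lit 1) [] false,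
   Spec.mk (nat_lit 15585) (nat_lit 0) [nat_lit 28707, nat_lit 11211, nat_lit 14127, nat_lit 16071, nat_lit 15423, nat_lit 15639, nat_lit 15567, nat_lit 15591, nat_lit 15583] (nat_lit 2) [] false,
   Spec.mk (nat_lit 15589) (nat_lit 0) [nat_lit 28711, nat_lit 11215, nat_lit 14131, nat_lit 16075, nat_lit 15427, nat_lit 15643, nat_lit 15571, nat_lit 15607, nat_lit 15583, nat_lit 15591, nat_lit 35271] (nat_lit 1) [] false,
   Spec.mk (nat_lit 15591) (nat_lit 0) [nat_lit 28713, nat_lit 11217, nat_lit 14133, nat_lit 16077, nat_lit 15429, nat_lit 15645, nat_lit 15573, nat_lit 15609, nat_lit 15585, nat_lit 15597, nat_lit 15589] (nat_lit 0) [] false,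
   Spec.mk (nat_lit 15597) (nat_lit 0) [nat_lit 28719, nat_lit 11223, nat_lit 14139, nat_lit 16083, nat_lit 15435, nat_lit 15651, nat_lit 15615, nat_lit 15591] (nat_lit 0) [] false,
   Spec.mk (nat_lit 15607) (nat_lit 0) [nat_lit 28729, nat_lit 11233, nat_lit 14149, nat_lit 16093, nat_lit 15445, nat_lit 15661, nat_lit 15589, nat_lit 15609, nat_lit 35289] (nat_lit 2) [] false,
   Spec.mk (nat_lit 15609) (nat_lit 0) [nat_lit 28731, nat_lit 11235, nat_lit 14151, nat_lit 16095, nat_lit 15447, nat_lit 15663, nat_lit 15591, nat_lit 15615, nat_lit 15607] (nat_lit 2) [] false,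
   Spec.mk (nat_lit 15615) (nat_lit 0) [nat_lit 28737, nat_lit 11241, nat_lit 14157, nat_lit 16101, nat_lit 15453, nat_lit 15669, nat_lit 15597, nat_lit 15609] (nat_lit 0) [] false,
   Spec.mk (nat_lit 15635) (nat_lit 0) [nat_lit 28757, nat_lit 11261, nat_lit 14177, nat_lit 16121, nat_lit 15473, nat_lit 15797, nat_lit 15581, nat_lit 15637, nat_lit 35317] (nat_lit 1) [] false,
   Spec.mk (nat_lit 15637) (nat_lit 0) [nat_lit 28759, nat_lit 11263, nat_lit 14179, nat_lit 16123, nat_lit 15475, nat_lit 15799, nat_lit 15583, nat_lit 15643, nat_lit 15635, nat_lit 15639, nat_lit 35319] (nat_lit 0) [] false,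
   Spec.mk (nat_lit 15639) (nat_lit 0) [nat_lit 28761, nat_lit 11265, nat_lit 14181, nat_lit 16125, nat_lit 15477, nat_lit 15801, nat_lit 15585, nat_lit 15645, nat_lit 15637] (nat_lit 1) [] false,
   Spec.mk (nat_lit 15643) (nat_lit 0) [nat_lit 28765, nat_lit 11269, nat_lit 14185, nat_lit 16129, nat_lit 15481, nat_lit 15805, nat_lit 15589, nat_lit 15661, nat_lit 15637, nat_lit 15645, nat_lit 35325] (nat_lit 1) [] false,
   Spec.mk (nat_lit 15645) (nat_lit 0) [nat_lit 28767, nat_lit 11271, nat_lit 14187, nat_lit 16131, nat_lit 15483, nat_lit 15807, nat_lit 15591, nat_lit 15663, nat_lit 15639, nat_lit 15651, nat_lit 15643] (nat_lit 0) [] false,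
   Spec.mk (nat_lit 15651) (nat_lit 0) [nat_lit 28773, nat_lit 11277, nat_lit 14193, nat_lit 16137, nat_lit 15489, nat_lit 15813, nat_lit 15597, nat_lit 15669, nat_lit 15645] (nat_lit 1) [] false,
   Spec.mk (nat_lit 15661) (nat_lit 0) [nat_lit 28783, nat_lit 11287, nat_lit 14203, nat_lit 16147, nat_lit 15499, nat_lit 15823, nat_lit 15607, nat_lit 15715, nat_lit 15643, nat_lit 15663, nat_lit 35343] (nat_lit 0) [] false,
   Spec.mk (nat_lit 15663) (nat_lit 0) [nat_lit 28785, nat_lit 11289, nat_lit 14205, nat_lit 16149, nat_lit 15501, nat_lit 15825, nat_lit 15609, nat_lit 15717, nat_lit 15645, nat_lit 15669, nat_lit 15661] (nat_lit 0) [] false,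
   Spec.mk (nat_lit 15669) (nat_lit 1) [nat_lit 28791, nat_lit 11295, nat_lit 14211, nat_lit 16155, nat_lit 15507, nat_lit 15831, nat_lit 15615, nat_lit 15723, nat_lit 15651, nat_lit 15687, nat_lit 15663] (nat_lit 0) [] false,
   Spec.mk (nat_lit 15687) (nat_lit 1) [nat_lit 28809, nat_lit 11313, nat_lit 14229, nat_lit 16173, nat_lit 15525, nat_lit 15849, nat_lit 15741, nat_lit 15669] (nat_lit 0) [] false,
   Spec.mk (nat_lit 15715) (nat_lit 0) [nat_lit 28837, nat_lit 11341, nat_lit 14257, nat_lit 16201, nat_lit 15877, nat_lit 15661, nat_lit 15717, nat_lit 35397] (nat_lit 0) [] false,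
   Spec.mk (nat_lit 15717) (nat_lit 0) [nat_lit 28839, nat_lit 11343, nat_lit 14259, nat_lit 16203, nat_lit 15879, nat_lit 15663, nat_lit 15723, nat_lit 15715] (nat_lit 0) [] false,
   Spec.mk (nat_lit 15723) (nat_lit 0) [nat_lit 28845, nat_lit 11349, nat_lit 14265, nat_lit 16209, nat_lit 15885, nat_lit 15669, nat_lit 15741, nat_lit 15717] (nat_lit 0) [] false,
   Spec.mk (nat_lit 15741) (nat_lit 2) [nat_lit 28863, nat_lit 11367, nat_lit 14283, nat_lit 16227, nat_lit 15903, nat_lit 15687, nat_lit 15723] (nat_lit 0) [] false,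
   Spec.mk (nat_lit 15797) (nat_lit 0) [nat_lit 28919, nat_lit 11423, nat_lit 14339, nat_lit 16283, nat_lit 15635, nat_lit 15799, nat_lit 35479] (nat_lit 2) [] false,
   Spec.mk (nat_lit 15799) (nat_lit 0) [nat_lit 28921, nat_lit 11425, nat_lit 14341, nat_lit 16285, nat_lit 15637, nat_lit 15805, nat_lit 15797, nat_lit 15801, nat_lit 35481] (nat_lit 1) [] false,
   Spec.mk (nat_lit 15801) (nat_lit 0) [nat_lit 28923, nat_lit 11427, nat_lit 14343, nat_lit 16287, nat_lit 15639, nat_lit 15807, nat_lit 15799] (nat_lit 2) [] false,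
   Spec.mk (nat_lit 15805) (nat_lit 0) [nat_lit 28927, nat_lit 11431, nat_lit 14347, nat_lit 16291, nat_lit 15643, nat_lit 15823, nat_lit 15799, nat_lit 15807, nat_lit 35487] (nat_lit 2) [] false,
   Spec.mk (nat_lit 15807) (nat_lit 0) [nat_lit 28929, nat_lit 11433, nat_lit 14349, nat_lit 16293, nat_lit 15645, nat_lit 15825, nat_lit 15801, nat_lit 15813, nat_lit 15805] (nat_lit 1) [] false,
   Spec.mk (nat_lit 15813) (nat_lit 0) [nat_lit 28935, nat_lit 11439, nat_lit 14355, nat_lit 16299, nat_lit 15651, nat_lit 15831, nat_lit 15807] (nat_lit 2) [] false,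
   Spec.mk (nat_lit 15823) (nat_lit 0) [nat_lit 28945, nat_lit 11449, nat_lit 14365, nat_lit 16309, nat_lit 15661, nat_lit 15877, nat_lit 15805, nat_lit 15825, nat_lit 35505] (nat_lit 2) [] false,
   Spec.mk (nat_lit 15825) (nat_lit 0) [nat_lit 28947, nat_lit 11451, nat_lit 14367, nat_lit 16311, nat_lit 15663, nat_lit 15879, nat_lit 15807, nat_lit 15831, nat_lit 15823] (nat_lit 2) [] false,
   Spec.mk (nat_lit 15831) (nat_lit 0) [nat_lit 28953, nat_lit 11457, nat_lit 14373, nat_lit 16317, nat_lit 15669, nat_lit 15885, nat_lit 15813, nat_lit 15849, nat_lit 15825] (nat_lit 1) [] false,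
   Spec.mk (nat_lit 15849) (nat_lit 0) [nat_lit 28971, nat_lit 11475, nat_lit 14391, nat_lit 16335, nat_lit 15687, nat_lit 15903, nat_lit 15831] (nat_lit 2) [] false,
   Spec.mk (nat_lit 15877) (nat_lit 0) [nat_lit 28999, nat_lit 11503, nat_lit 14419, nat_lit 16363, nat_lit 15715, nat_lit 15823, nat_lit 15879, nat_lit 35559] (nat_lit 0) [] false,
   Spec.mk (nat_lit 15879) (nat_lit 0) [nat_lit 29001, nat_lit 11505, nat_lit 14421, nat_lit 16365, nat_lit 15717, nat_lit 15825, nat_lit 15885, nat_lit 15877] (nat_lit 0) [] false,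
   Spec.mk (nat_lit 15885) (nat_lit 0) [nat_lit 29007, nat_lit 11511, nat_lit 14427, nat_lit 16371, nat_lit 15723, nat_lit 15831, nat_lit 15903, nat_lit 15879] (nat_lit 0) [] false,
   Spec.mk (nat_lit 15903) (nat_lit 1) [nat_lit 29025, nat_lit 11529, nat_lit 14445, nat_lit 16389, nat_lit 15741, nat_lit 15849, nat_lit 15957, nat_lit 15885] (nat_lit 0) [] false,
   Spec.mk (nat_lit 15957) (nat_lit 2) [nat_lit 29079, nat_lit 11583, nat_lit 14499, nat_lit 16443, nat_lit 15903] (nat_lit 0) [] false,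
   Spec.mk (nat_lit 16043) (nat_lit 1) [nat_lit 29165, nat_lit 11669, nat_lit 14585, nat_lit 17501, nat_lit 15557, nat_lit 16049, nat_lit 16045, nat_lit 35725] (nat_lit 0) [] false,
   Spec.mk (nat_lit 16045) (nat_lit 1) [nat_lit 29167, nat_lit 11671, nat_lit 14587, nat_lit 17503, nat_lit 15559, nat_lit 16051, nat_lit 16043, nat_lit 35727] (nat_lit 0) [] false,
   Spec.mk (nat_lit 16049) (nat_lit 0) [nat_lit 29171, nat_lit 11675, nat_lit 14591, nat_lit 17507, nat_lit 15563, nat_lit 16067, nat_lit 16043, nat_lit 16051, nat_lit 35731] (nat_lit 1) [] false,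
   Spec.mk (nat_lit 16051) (nat_lit 1) [nat_lit 29173, nat_lit 11677, nat_lit 14593, nat_lit 17509, nat_lit 15565, nat_lit 16069, nat_lit 16045, nat_lit 16057, nat_lit 16049, nat_lit 16053, nat_lit 35733] (nat_lit 0) [] false]

noncomputable def sp36 : List Spec :=
  [Spec.mk (nat_lit 16053) (nat_lit 1) [nat_lit 29175, nat_lit 11679, nat_lit 14595, nat_lit 17511, nat_lit 15567, nat_lit 16071, nat_lit 16059, nat_lit 16051] (nat_lit 0) [] false,
   Spec.mk (nat_lit 16057) (nat_lit 0) [nat_lit 29179, nat_lit 11683, nat_lit 14599, nat_lit 17515, nat_lit 15571, nat_lit 16075, nat_lit 16051, nat_lit 16059, nat_lit 35739] (nat_lit 1) [] false,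
   Spec.mk (nat_lit 16059) (nat_lit 1) [nat_lit 29181, nat_lit 11685, nat_lit 14601, nat_lit 17517, nat_lit 15573, nat_lit 16077, nat_lit 16053, nat_lit 16057] (nat_lit 0) [] false,
   Spec.mk (nat_lit 16067) (nat_lit 0) [nat_lit 29189, nat_lit 11693, nat_lit 14609, nat_lit 17525, nat_lit 15581, nat_lit 16121, nat_lit 16049, nat_lit 16069, nat_lit 35749] (nat_lit 1) [] false,
   Spec.mk (nat_lit 16069) (nat_lit 0) [nat_lit 29191, nat_lit 11695, nat_lit 14611, nat_lit 17527, nat_lit 15583, nat_lit 16123, nat_lit 16051, nat_lit 16075, nat_lit 16067, nat_lit 16071, nat_lit 35751] (nat_lit 0) [] false,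
   Spec.mk (nat_lit 16071) (nat_lit 0) [nat_lit 29193, nat_lit 11697, nat_lit 14613, nat_lit 17529, nat_lit 15585, nat_lit 16125, nat_lit 16053, nat_lit 16077, nat_lit 16069] (nat_lit 1) [] false,
   Spec.mk (nat_lit 16075) (nat_lit 0) [nat_lit 29197, nat_lit 11701, nat_lit 14617, nat_lit 17533, nat_lit 15589, nat_lit 16129, nat_lit 16057, nat_lit 16093, nat_lit 16069, nat_lit 16077, nat_lit 35757] (nat_lit 0) [] false,
   Spec.mk (nat_lit 16077) (nat_lit 1) [nat_lit 29199, nat_lit 11703, nat_lit 14619, nat_lit 17535, nat_lit 15591, nat_lit 16131, nat_lit 16059, nat_lit 16095, nat_lit 16071, nat_lit 16083, nat_lit 16075] (nat_lit 0) [] false,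
   Spec.mk (nat_lit 16083) (nat_lit 1) [nat_lit 29205, nat_lit 11709, nat_lit 14625, nat_lit 17541, nat_lit 15597, nat_lit 16137, nat_lit 16101, nat_lit 16077] (nat_lit 0) [] false,
   Spec.mk (nat_lit 16093) (nat_lit 0) [nat_lit 29215, nat_lit 11719, nat_lit 14635, nat_lit 17551, nat_lit 15607, nat_lit 16147, nat_lit 16075, nat_lit 16095, nat_lit 35775] (nat_lit 1) [] false,
   Spec.mk (nat_lit 16095) (nat_lit 0) [nat_lit 29217, nat_lit 11721, nat_lit 14637, nat_lit 17553, nat_lit 15609, nat_lit 16149, nat_lit 16077, nat_lit 16101, nat_lit 16093] (nat_lit 1) [] false,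
   Spec.mk (nat_lit 16101) (nat_lit 1) [nat_lit 29223, nat_lit 11727, nat_lit 14643, nat_lit 17559, nat_lit 15615, nat_lit 16155, nat_lit 16083, nat_lit 16095] (nat_lit 0) [] false,
   Spec.mk (nat_lit 16121) (nat_lit 0) [nat_lit 29243, nat_lit 11747, nat_lit 14663, nat_lit 17579, nat_lit 15635, nat_lit 16283, nat_lit 16067, nat_lit 16123, nat_lit 35803] (nat_lit 1) [] false,
   Spec.mk (nat_lit 16123) (nat_lit 0) [nat_lit 29245, nat_lit 11749, nat_lit 14665, nat_lit 17581, nat_lit 15637, nat_lit 16285, nat_lit 16069, nat_lit 16129, nat_lit 16121, nat_lit 16125, nat_lit 35805] (nat_lit 0) [] false,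
   Spec.mk (nat_lit 16125) (nat_lit 0) [nat_lit 29247, nat_lit 11751, nat_lit 14667, nat_lit 17583, nat_lit 15639, nat_lit 16287, nat_lit 16071, nat_lit 16131, nat_lit 16123] (nat_lit 1) [] false,
   Spec.mk (nat_lit 16129) (nat_lit 0) [nat_lit 29251, nat_lit 11755, nat_lit 14671, nat_lit 17587, nat_lit 15643, nat_lit 16291, nat_lit 16075, nat_lit 16147, nat_lit 16123, nat_lit 16131, nat_lit 35811] (nat_lit 1) [] false,
   Spec.mk (nat_lit 16131) (nat_lit 0) [nat_lit 29253, nat_lit 11757, nat_lit 14673, nat_lit 17589, nat_lit 15645, nat_lit 16293, nat_lit 16077, nat_lit 16149, nat_lit 16125, nat_lit 16137, nat_lit 16129] (nat_lit 0) [] false,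
   Spec.mk (nat_lit 16137) (nat_lit 0) [nat_lit 29259, nat_lit 11763, nat_lit 14679, nat_lit 17595, nat_lit 15651, nat_lit 16299, nat_lit 16083, nat_lit 16155, nat_lit 16131] (nat_lit 1) [] false,
   Spec.mk (nat_lit 16147) (nat_lit 0) [nat_lit 29269, nat_lit 11773, nat_lit 14689, nat_lit 17605, nat_lit 15661, nat_lit 16309, nat_lit 16093, nat_lit 16201, nat_lit 16129, nat_lit 16149, nat_lit 35829] (nat_lit 0) [] false,
   Spec.mk (nat_lit 16149) (nat_lit 0) [nat_lit 29271, nat_lit 11775, nat_lit 14691, nat_lit 17607, nat_lit 15663, nat_lit 16311, nat_lit 16095, nat_lit 16203, nat_lit 16131, nat_lit 16155, nat_lit 16147] (nat_lit 0) [] false,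
   Spec.mk (nat_lit 16155) (nat_lit 1) [nat_lit 29277, nat_lit 11781, nat_lit 14697, nat_lit 17613, nat_lit 15669, nat_lit 16317, nat_lit 16101, nat_lit 16209, nat_lit 16137, nat_lit 16173, nat_lit 16149] (nat_lit 0) [] false,
   Spec.mk (nat_lit 16173) (nat_lit 1) [nat_lit 29295, nat_lit 11799, nat_lit 14715, nat_lit 17631, nat_lit 15687, nat_lit 16335, nat_lit 16227, nat_lit 16155] (nat_lit 0) [] false,
   Spec.mk (nat_lit 16201) (nat_lit 0) [nat_lit 29323, nat_lit 11827, nat_lit 14743, nat_lit 17659, nat_lit 15715, nat_lit 16363, nat_lit 16147, nat_lit 16203, nat_lit 35883] (nat_lit 1) [] false,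
   Spec.mk (nat_lit 16203) (nat_lit 0) [nat_lit 29325, nat_lit 11829, nat_lit 14745, nat_lit 17661, nat_lit 15717, nat_lit 16365, nat_lit 16149, nat_lit 16209, nat_lit 16201] (nat_lit 1) [] false,
   Spec.mk (nat_lit 16209) (nat_lit 0) [nat_lit 29331, nat_lit 11835, nat_lit 14751, nat_lit 17667, nat_lit 15723, nat_lit 16371, nat_lit 16155, nat_lit 16227, nat_lit 16203] (nat_lit 1) [] false,
   Spec.mk (nat_lit 16227) (nat_lit 1) [nat_lit 29349, nat_lit 11853, nat_lit 14769, nat_lit 17685, nat_lit 15741, nat_lit 16389, nat_lit 16173, nat_lit 16209] (nat_lit 0) [] false,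
   Spec.mk (nat_lit 16283) (nat_lit 0) [nat_lit 29405, nat_lit 11909, nat_lit 14825, nat_lit 17741, nat_lit 15797, nat_lit 16769, nat_lit 16121, nat_lit 16285, nat_lit 35965] (nat_lit 0) [] false,
   Spec.mk (nat_lit 16285) (nat_lit 1) [nat_lit 29407, nat_lit 11911, nat_lit 14827, nat_lit 17743, nat_lit 15799, nat_lit 16771, nat_lit 16123, nat_lit 16291, nat_lit 16283, nat_lit 16287, nat_lit 35967] (nat_lit 0) [] false,
   Spec.mk (nat_lit 16287) (nat_lit 0) [nat_lit 29409, nat_lit 11913, nat_lit 14829, nat_lit 17745, nat_lit 15801, nat_lit 16773, nat_lit 16125, nat_lit 16293, nat_lit 16285] (nat_lit 0) [] false,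
   Spec.mk (nat_lit 16291) (nat_lit 0) [nat_lit 29413, nat_lit 11917, nat_lit 14833, nat_lit 17749, nat_lit 15805, nat_lit 16777, nat_lit 16129, nat_lit 16309, nat_lit 16285, nat_lit 16293, nat_lit 35973] (nat_lit 0) [] false,
   Spec.mk (nat_lit 16293) (nat_lit 1) [nat_lit 29415, nat_lit 11919, nat_lit 14835, nat_lit 17751, nat_lit 15807, nat_lit 16779, nat_lit 16131, nat_lit 16311, nat_lit 16287, nat_lit 16299, nat_lit 16291] (nat_lit 0) [] false,
   Spec.mk (nat_lit 16299) (nat_lit 0) [nat_lit 29421, nat_lit 11925, nat_lit 14841, nat_lit 17757, nat_lit 15813, nat_lit 16785, nat_lit 16137, nat_lit 16317, nat_lit 16293] (nat_lit 0) [] false,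
   Spec.mk (nat_lit 16309) (nat_lit 0) [nat_lit 29431, nat_lit 11935, nat_lit 14851, nat_lit 17767, nat_lit 15823, nat_lit 16795, nat_lit 16147, nat_lit 16363, nat_lit 16291, nat_lit 16311, nat_lit 35991] (nat_lit 0) [] false,
   Spec.mk (nat_lit 16311) (nat_lit 0) [nat_lit 29433, nat_lit 11937, nat_lit 14853, nat_lit 17769, nat_lit 15825, nat_lit 16797, nat_lit 16149, nat_lit 16365, nat_lit 16293, nat_lit 16317, nat_lit 16309] (nat_lit 0) [] false,
   Spec.mk (nat_lit 16317) (nat_lit 1) [nat_lit 29439, nat_lit 11943, nat_lit 14859, nat_lit 17775, nat_lit 15831, nat_lit 16803, nat_lit 16155, nat_lit 16371, nat_lit 16299, nat_lit 16335, nat_lit 16311] (nat_lit 0) [] false,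
   Spec.mk (nat_lit 16335) (nat_lit 0) [nat_lit 29457, nat_lit 11961, nat_lit 14877, nat_lit 17793, nat_lit 15849, nat_lit 16821, nat_lit 16173, nat_lit 16389, nat_lit 16317] (nat_lit 0) [] false,
   Spec.mk (nat_lit 16363) (nat_lit 1) [nat_lit 29485, nat_lit 11989, nat_lit 14905, nat_lit 17821, nat_lit 15877, nat_lit 16849, nat_lit 16201, nat_lit 16525, nat_lit 16309, nat_lit 16365, nat_lit 36045] (nat_lit 0) [] false,
   Spec.mk (nat_lit 16365) (nat_lit 1) [nat_lit 29487, nat_lit 11991, nat_lit 14907, nat_lit 17823, nat_lit 15879, nat_lit 16851, nat_lit 16203, nat_lit 16527, nat_lit 16311, nat_lit 16371, nat_lit 16363] (nat_lit 0) [] false,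
   Spec.mk (nat_lit 16371) (nat_lit 1) [nat_lit 29493, nat_lit 11997, nat_lit 14913, nat_lit 17829, nat_lit 15885, nat_lit 16857, nat_lit 16209, nat_lit 16533, nat_lit 16317, nat_lit 16389, nat_lit 16365] (nat_lit 0) [] false,
   Spec.mk (nat_lit 16389) (nat_lit 2) [nat_lit 29511, nat_lit 12015, nat_lit 14931, nat_lit 17847, nat_lit 15903, nat_lit 16875, nat_lit 16227, nat_lit 16551, nat_lit 16335, nat_lit 16443, nat_lit 16371] (nat_lit 0) [] false,
   Spec.mk (nat_lit 16443) (nat_lit 2) [nat_lit 29565, nat_lit 12069, nat_lit 14985, nat_lit 17901, nat_lit 15957, nat_lit 16929, nat_lit 16605, nat_lit 16389] (nat_lit 0) [] false,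
   Spec.mk (nat_lit 16525) (nat_lit 1) [nat_lit 29647, nat_lit 12151, nat_lit 15067, nat_lit 17983, nat_lit 17011, nat_lit 16363, nat_lit 16527, nat_lit 36207] (nat_lit 0) [] false,
   Spec.mk (nat_lit 16527) (nat_lit 1) [nat_lit 29649, nat_lit 12153, nat_lit 15069, nat_lit 17985, nat_lit 17013, nat_lit 16365, nat_lit 16533, nat_lit 16525] (nat_lit 0) [] false,
   Spec.mk (nat_lit 16533) (nat_lit 1) [nat_lit 29655, nat_lit 12159, nat_lit 15075, nat_lit 17991, nat_lit 17019, nat_lit 16371, nat_lit 16551, nat_lit 16527] (nat_lit 0) [] false,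
   Spec.mk (nat_lit 16551) (nat_lit 1) [nat_lit 29673, nat_lit 12177, nat_lit 15093, nat_lit 18009, nat_lit 17037, nat_lit 16389, nat_lit 16605, nat_lit 16533] (nat_lit 0) [] false,
   Spec.mk (nat_lit 16605) (nat_lit 3) [nat_lit 29727, nat_lit 12231, nat_lit 15147, nat_lit 18063, nat_lit 17091, nat_lit 16443, nat_lit 16551] (nat_lit 0) [] false,
   Spec.mk (nat_lit 16769) (nat_lit 0) [nat_lit 29891, nat_lit 12395, nat_lit 18227, nat_lit 16283, nat_lit 16771, nat_lit 36451] (nat_lit 0) [] false,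
   Spec.mk (nat_lit 16771) (nat_lit 1) [nat_lit 29893, nat_lit 12397, nat_lit 18229, nat_lit 16285, nat_lit 16777, nat_lit 16769, nat_lit 16773, nat_lit 36453] (nat_lit 0) [] false,
   Spec.mk (nat_lit 16773) (nat_lit 0) [nat_lit 29895, nat_lit 12399, nat_lit 18231, nat_lit 16287, nat_lit 16779, nat_lit 16771] (nat_lit 0) [] false,
   Spec.mk (nat_lit 16777) (nat_lit 0) [nat_lit 29899, nat_lit 12403, nat_lit 18235, nat_lit 16291, nat_lit 16795, nat_lit 16771, nat_lit 16779, nat_lit 36459] (nat_lit 0) [] false,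
   Spec.mk (nat_lit 16779) (nat_lit 1) [nat_lit 29901, nat_lit 12405, nat_lit 18237, nat_lit 16293, nat_lit 16797, nat_lit 16773, nat_lit 16785, nat_lit 16777] (nat_lit 0) [] false,
   Spec.mk (nat_lit 16785) (nat_lit 0) [nat_lit 29907, nat_lit 12411, nat_lit 18243, nat_lit 16299, nat_lit 16803, nat_lit 16779] (nat_lit 0) [] false,
   Spec.mk (nat_lit 16795) (nat_lit 0) [nat_lit 29917, nat_lit 12421, nat_lit 18253, nat_lit 16309, nat_lit 16849, nat_lit 16777, nat_lit 16797, nat_lit 36477] (nat_lit 0) [] false,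
   Spec.mk (nat_lit 16797) (nat_lit 0) [nat_lit 29919, nat_lit 12423, nat_lit 18255, nat_lit 16311, nat_lit 16851, nat_lit 16779, nat_lit 16803, nat_lit 16795] (nat_lit 0) [] false,
   Spec.mk (nat_lit 16803) (nat_lit 1) [nat_lit 29925, nat_lit 12429, nat_lit 18261, nat_lit 16317, nat_lit 16857, nat_lit 16785, nat_lit 16821, nat_lit 16797] (nat_lit 0) [] false,
   Spec.mk (nat_lit 16821) (nat_lit 0) [nat_lit 29943, nat_lit 12447, nat_lit 18279, nat_lit 16335, nat_lit 16875, nat_lit 16803] (nat_lit 0) [] false,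
   Spec.mk (nat_lit 16849) (nat_lit 0) [nat_lit 29971, nat_lit 12475, nat_lit 18307, nat_lit 16363, nat_lit 17011, nat_lit 16795, nat_lit 16851, nat_lit 36531] (nat_lit 0) [] false,
   Spec.mk (nat_lit 16851) (nat_lit 0) [nat_lit 29973, nat_lit 12477, nat_lit 18309, nat_lit 16365, nat_lit 17013, nat_lit 16797, nat_lit 16857, nat_lit 16849] (nat_lit 0) [] false,
   Spec.mk (nat_lit 16857) (nat_lit 0) [nat_lit 29979, nat_lit 12483, nat_lit 18315, nat_lit 16371, nat_lit 17019, nat_lit 16803, nat_lit 16875, nat_lit 16851] (nat_lit 0) [] false,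
   Spec.mk (nat_lit 16875) (nat_lit 1) [nat_lit 29997, nat_lit 12501, nat_lit 18333, nat_lit 16389, nat_lit 17037, nat_lit 16821, nat_lit 16929, nat_lit 16857] (nat_lit 0) [] false]

noncomputable def sp37 : List Spec :=
  [Spec.mk (nat_lit 16929) (nat_lit 0) [nat_lit 30051, nat_lit 12555, nat_lit 18387, nat_lit 16443, nat_lit 17091, nat_lit 16875] (nat_lit 0) [] false,
   Spec.mk (nat_lit 17011) (nat_lit 2) [nat_lit 30133, nat_lit 12637, nat_lit 18469, nat_lit 16525, nat_lit 16849, nat_lit 17013, nat_lit 36693] (nat_lit 0) [] false,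
   Spec.mk (nat_lit 17013) (nat_lit 2) [nat_lit 30135, nat_lit 12639, nat_lit 18471, nat_lit 16527, nat_lit 16851, nat_lit 17019, nat_lit 17011] (nat_lit 0) [] false,
   Spec.mk (nat_lit 17019) (nat_lit 2) [nat_lit 30141, nat_lit 12645, nat_lit 18477, nat_lit 16533, nat_lit 16857, nat_lit 17037, nat_lit 17013] (nat_lit 0) [] false,
   Spec.mk (nat_lit 17037) (nat_lit 2) [nat_lit 30159, nat_lit 12663, nat_lit 18495, nat_lit 16551, nat_lit 16875, nat_lit 17091, nat_lit 17019] (nat_lit 0) [] false,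
   Spec.mk (nat_lit 17091) (nat_lit 3) [nat_lit 30213, nat_lit 12717, nat_lit 18549, nat_lit 16605, nat_lit 16929, nat_lit 17253, nat_lit 17037] (nat_lit 0) [] false,
   Spec.mk (nat_lit 17253) (nat_lit 4) [nat_lit 30375, nat_lit 12879, nat_lit 18711, nat_lit 17091] (nat_lit 0) [] false,
   Spec.mk (nat_lit 17501) (nat_lit 2) [nat_lit 30623, nat_lit 16043, nat_lit 17507, nat_lit 17503, nat_lit 37183] (nat_lit 0) [] false,
   Spec.mk (nat_lit 17503) (nat_lit 2) [nat_lit 30625, nat_lit 16045, nat_lit 17509, nat_lit 17501, nat_lit 37185] (nat_lit 0) [] false,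
   Spec.mk (nat_lit 17507) (nat_lit 0) [nat_lit 30629, nat_lit 16049, nat_lit 17525, nat_lit 17501, nat_lit 17509, nat_lit 37189] (nat_lit 0) [] false,
   Spec.mk (nat_lit 17509) (nat_lit 2) [nat_lit 30631, nat_lit 16051, nat_lit 17527, nat_lit 17503, nat_lit 17515, nat_lit 17507, nat_lit 17511, nat_lit 37191] (nat_lit 0) [] false,
   Spec.mk (nat_lit 17511) (nat_lit 2) [nat_lit 30633, nat_lit 16053, nat_lit 17529, nat_lit 17517, nat_lit 17509] (nat_lit 0) [] false,
   Spec.mk (nat_lit 17515) (nat_lit 0) [nat_lit 30637, nat_lit 16057, nat_lit 17533, nat_lit 17509, nat_lit 17517, nat_lit 37197] (nat_lit 0) [] false,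
   Spec.mk (nat_lit 17517) (nat_lit 2) [nat_lit 30639, nat_lit 16059, nat_lit 17535, nat_lit 17511, nat_lit 17515] (nat_lit 0) [] false,
   Spec.mk (nat_lit 17525) (nat_lit 0) [nat_lit 30647, nat_lit 16067, nat_lit 17579, nat_lit 17507, nat_lit 17527, nat_lit 37207] (nat_lit 0) [] false,
   Spec.mk (nat_lit 17527) (nat_lit 1) [nat_lit 30649, nat_lit 16069, nat_lit 17581, nat_lit 17509, nat_lit 17533, nat_lit 17525, nat_lit 17529, nat_lit 37209] (nat_lit 0) [] false,
   Spec.mk (nat_lit 17529) (nat_lit 0) [nat_lit 30651, nat_lit 16071, nat_lit 17583, nat_lit 17511, nat_lit 17535, nat_lit 17527] (nat_lit 0) [] false,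
   Spec.mk (nat_lit 17533) (nat_lit 1) [nat_lit 30655, nat_lit 16075, nat_lit 17587, nat_lit 17515, nat_lit 17551, nat_lit 17527, nat_lit 17535, nat_lit 37215] (nat_lit 0) [] false,
   Spec.mk (nat_lit 17535) (nat_lit 2) [nat_lit 30657, nat_lit 16077, nat_lit 17589, nat_lit 17517, nat_lit 17553, nat_lit 17529, nat_lit 17541, nat_lit 17533] (nat_lit 0) [] false,
   Spec.mk (nat_lit 17541) (nat_lit 2) [nat_lit 30663, nat_lit 16083, nat_lit 17595, nat_lit 17559, nat_lit 17535] (nat_lit 0) [] false,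
   Spec.mk (nat_lit 17551) (nat_lit 0) [nat_lit 30673, nat_lit 16093, nat_lit 17605, nat_lit 17533, nat_lit 17553, nat_lit 37233] (nat_lit 0) [] false,
   Spec.mk (nat_lit 17553) (nat_lit 0) [nat_lit 30675, nat_lit 16095, nat_lit 17607, nat_lit 17535, nat_lit 17559, nat_lit 17551] (nat_lit 0) [] false,
   Spec.mk (nat_lit 17559) (nat_lit 2) [nat_lit 30681, nat_lit 16101, nat_lit 17613, nat_lit 17541, nat_lit 17553] (nat_lit 0) [] false,
   Spec.mk (nat_lit 17579) (nat_lit 0) [nat_lit 30701, nat_lit 16121, nat_lit 17741, nat_lit 17525, nat_lit 17581, nat_lit 37261] (nat_lit 0) [] false,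
   Spec.mk (nat_lit 17581) (nat_lit 1) [nat_lit 30703, nat_lit 16123, nat_lit 17743, nat_lit 17527, nat_lit 17587, nat_lit 17579, nat_lit 17583, nat_lit 37263] (nat_lit 0) [] false,
   Spec.mk (nat_lit 17583) (nat_lit 0) [nat_lit 30705, nat_lit 16125, nat_lit 17745, nat_lit 17529, nat_lit 17589, nat_lit 17581] (nat_lit 0) [] false,
   Spec.mk (nat_lit 17587) (nat_lit 0) [nat_lit 30709, nat_lit 16129, nat_lit 17749, nat_lit 17533, nat_lit 17605, nat_lit 17581, nat_lit 17589, nat_lit 37269] (nat_lit 0) [] false,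
   Spec.mk (nat_lit 17589) (nat_lit 1) [nat_lit 30711, nat_lit 16131, nat_lit 17751, nat_lit 17535, nat_lit 17607, nat_lit 17583, nat_lit 17595, nat_lit 17587] (nat_lit 0) [] false,
   Spec.mk (nat_lit 17595) (nat_lit 0) [nat_lit 30717, nat_lit 16137, nat_lit 17757, nat_lit 17541, nat_lit 17613, nat_lit 17589] (nat_lit 0) [] false,
   Spec.mk (nat_lit 17605) (nat_lit 1) [nat_lit 30727, nat_lit 16147, nat_lit 17767, nat_lit 17551, nat_lit 17659, nat_lit 17587, nat_lit 17607, nat_lit 37287] (nat_lit 0) [] false,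
   Spec.mk (nat_lit 17607) (nat_lit 1) [nat_lit 30729, nat_lit 16149, nat_lit 17769, nat_lit 17553, nat_lit 17661, nat_lit 17589, nat_lit 17613, nat_lit 17605] (nat_lit 0) [] false,
   Spec.mk (nat_lit 17613) (nat_lit 2) [nat_lit 30735, nat_lit 16155, nat_lit 17775, nat_lit 17559, nat_lit 17667, nat_lit 17595, nat_lit 17631, nat_lit 17607] (nat_lit 0) [] false,
   Spec.mk (nat_lit 17631) (nat_lit 2) [nat_lit 30753, nat_lit 16173, nat_lit 17793, nat_lit 17685, nat_lit 17613] (nat_lit 0) [] false,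
   Spec.mk (nat_lit 17659) (nat_lit 0) [nat_lit 30781, nat_lit 16201, nat_lit 17821, nat_lit 17605, nat_lit 17661, nat_lit 37341] (nat_lit 0) [] false,
   Spec.mk (nat_lit 17661) (nat_lit 0) [nat_lit 30783, nat_lit 16203, nat_lit 17823, nat_lit 17607, nat_lit 17667, nat_lit 17659] (nat_lit 0) [] false,
   Spec.mk (nat_lit 17667) (nat_lit 0) [nat_lit 30789, nat_lit 16209, nat_lit 17829, nat_lit 17613, nat_lit 17685, nat_lit 17661] (nat_lit 0) [] false,
   Spec.mk (nat_lit 17685) (nat_lit 2) [nat_lit 30807, nat_lit 16227, nat_lit 17847, nat_lit 17631, nat_lit 17667] (nat_lit 0) [] false,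
   Spec.mk (nat_lit 17741) (nat_lit 0) [nat_lit 30863, nat_lit 16283, nat_lit 18227, nat_lit 17579, nat_lit 17743, nat_lit 37423] (nat_lit 0) [] false,
   Spec.mk (nat_lit 17743) (nat_lit 1) [nat_lit 30865, nat_lit 16285, nat_lit 18229, nat_lit 17581, nat_lit 17749, nat_lit 17741, nat_lit 17745, nat_lit 37425] (nat_lit 0) [] false,
   Spec.mk (nat_lit 17745) (nat_lit 0) [nat_lit 30867, nat_lit 16287, nat_lit 18231, nat_lit 17583, nat_lit 17751, nat_lit 17743] (nat_lit 0) [] false,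
   Spec.mk (nat_lit 17749) (nat_lit 0) [nat_lit 30871, nat_lit 16291, nat_lit 18235, nat_lit 17587, nat_lit 17767, nat_lit 17743, nat_lit 17751, nat_lit 37431] (nat_lit 0) [] false,
   Spec.mk (nat_lit 17751) (nat_lit 1) [nat_lit 30873, nat_lit 16293, nat_lit 18237, nat_lit 17589, nat_lit 17769, nat_lit 17745, nat_lit 17757, nat_lit 17749] (nat_lit 0) [] false,
   Spec.mk (nat_lit 17757) (nat_lit 0) [nat_lit 30879, nat_lit 16299, nat_lit 18243, nat_lit 17595, nat_lit 17775, nat_lit 17751] (nat_lit 0) [] false,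
   Spec.mk (nat_lit 17767) (nat_lit 0) [nat_lit 30889, nat_lit 16309, nat_lit 18253, nat_lit 17605, nat_lit 17821, nat_lit 17749, nat_lit 17769, nat_lit 37449] (nat_lit 0) [] false,
   Spec.mk (nat_lit 17769) (nat_lit 0) [nat_lit 30891, nat_lit 16311, nat_lit 18255, nat_lit 17607, nat_lit 17823, nat_lit 17751, nat_lit 17775, nat_lit 17767] (nat_lit 0) [] false,
   Spec.mk (nat_lit 17775) (nat_lit 1) [nat_lit 30897, nat_lit 16317, nat_lit 18261, nat_lit 17613, nat_lit 17829, nat_lit 17757, nat_lit 17793, nat_lit 17769] (nat_lit 0) [] false,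
   Spec.mk (nat_lit 17793) (nat_lit 0) [nat_lit 30915, nat_lit 16335, nat_lit 18279, nat_lit 17631, nat_lit 17847, nat_lit 17775] (nat_lit 0) [] false,
   Spec.mk (nat_lit 17821) (nat_lit 1) [nat_lit 30943, nat_lit 16363, nat_lit 18307, nat_lit 17659, nat_lit 17983, nat_lit 17767, nat_lit 17823, nat_lit 37503] (nat_lit 0) [] false,
   Spec.mk (nat_lit 17823) (nat_lit 1) [nat_lit 30945, nat_lit 16365, nat_lit 18309, nat_lit 17661, nat_lit 17985, nat_lit 17769, nat_lit 17829, nat_lit 17821] (nat_lit 0) [] false,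
   Spec.mk (nat_lit 17829) (nat_lit 1) [nat_lit 30951, nat_lit 16371, nat_lit 18315, nat_lit 17667, nat_lit 17991, nat_lit 17775, nat_lit 17847, nat_lit 17823] (nat_lit 0) [] false,
   Spec.mk (nat_lit 17847) (nat_lit 2) [nat_lit 30969, nat_lit 16389, nat_lit 18333, nat_lit 17685, nat_lit 18009, nat_lit 17793, nat_lit 17901, nat_lit 17829] (nat_lit 0) [] false,
   Spec.mk (nat_lit 17901) (nat_lit 2) [nat_lit 31023, nat_lit 16443, nat_lit 18387, nat_lit 18063, nat_lit 17847] (nat_lit 0) [] false,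
   Spec.mk (nat_lit 17983) (nat_lit 0) [nat_lit 31105, nat_lit 16525, nat_lit 18469, nat_lit 17821, nat_lit 17985, nat_lit 37665] (nat_lit 0) [] false,
   Spec.mk (nat_lit 17985) (nat_lit 0) [nat_lit 31107, nat_lit 16527, nat_lit 18471, nat_lit 17823, nat_lit 17991, nat_lit 17983] (nat_lit 0) [] false,
   Spec.mk (nat_lit 17991) (nat_lit 0) [nat_lit 31113, nat_lit 16533, nat_lit 18477, nat_lit 17829, nat_lit 18009, nat_lit 17985] (nat_lit 0) [] false,
   Spec.mk (nat_lit 18009) (nat_lit 0) [nat_lit 31131, nat_lit 16551, nat_lit 18495, nat_lit 17847, nat_lit 18063, nat_lit 17991] (nat_lit 0) [] false,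
   Spec.mk (nat_lit 18063) (nat_lit 2) [nat_lit 31185, nat_lit 16605, nat_lit 18549, nat_lit 17901, nat_lit 18009] (nat_lit 0) [] false,
   Spec.mk (nat_lit 18227) (nat_lit 2) [nat_lit 31349, nat_lit 16769, nat_lit 17741, nat_lit 18229, nat_lit 37909] (nat_lit 0) [] false,
   Spec.mk (nat_lit 18229) (nat_lit 3) [nat_lit 31351, nat_lit 16771, nat_lit 17743, nat_lit 18235, nat_lit 18227, nat_lit 18231, nat_lit 37911] (nat_lit 0) [] false,
   Spec.mk (nat_lit 18231) (nat_lit 2) [nat_lit 31353, nat_lit 16773, nat_lit 17745, nat_lit 18237, nat_lit 18229] (nat_lit 0) [] false]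

noncomputable def sp38 : List Spec :=
  [Spec.mk (nat_lit 18235) (nat_lit 2) [nat_lit 31357, nat_lit 16777, nat_lit 17749, nat_lit 18253, nat_lit 18229, nat_lit 18237, nat_lit 37917] (nat_lit 0) [] false,
   Spec.mk (nat_lit 18237) (nat_lit 3) [nat_lit 31359, nat_lit 16779, nat_lit 17751, nat_lit 18255, nat_lit 18231, nat_lit 18243, nat_lit 18235] (nat_lit 0) [] false,
   Spec.mk (nat_lit 18243) (nat_lit 2) [nat_lit 31365, nat_lit 16785, nat_lit 17757, nat_lit 18261, nat_lit 18237] (nat_lit 0) [] false,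
   Spec.mk (nat_lit 18253) (nat_lit 2) [nat_lit 31375, nat_lit 16795, nat_lit 17767, nat_lit 18307, nat_lit 18235, nat_lit 18255, nat_lit 37935] (nat_lit 0) [] false,
   Spec.mk (nat_lit 18255) (nat_lit 2) [nat_lit 31377, nat_lit 16797, nat_lit 17769, nat_lit 18309, nat_lit 18237, nat_lit 18261, nat_lit 18253] (nat_lit 0) [] false,
   Spec.mk (nat_lit 18261) (nat_lit 3) [nat_lit 31383, nat_lit 16803, nat_lit 17775, nat_lit 18315, nat_lit 18243, nat_lit 18279, nat_lit 18255] (nat_lit 0) [] false,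
   Spec.mk (nat_lit 18279) (nat_lit 2) [nat_lit 31401, nat_lit 16821, nat_lit 17793, nat_lit 18333, nat_lit 18261] (nat_lit 0) [] false,
   Spec.mk (nat_lit 18307) (nat_lit 2) [nat_lit 31429, nat_lit 16849, nat_lit 17821, nat_lit 18469, nat_lit 18253, nat_lit 18309, nat_lit 37989] (nat_lit 0) [] false,
   Spec.mk (nat_lit 18309) (nat_lit 2) [nat_lit 31431, nat_lit 16851, nat_lit 17823, nat_lit 18471, nat_lit 18255, nat_lit 18315, nat_lit 18307] (nat_lit 0) [] false,
   Spec.mk (nat_lit 18315) (nat_lit 2) [nat_lit 31437, nat_lit 16857, nat_lit 17829, nat_lit 18477, nat_lit 18261, nat_lit 18333, nat_lit 18309] (nat_lit 0) [] false,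
   Spec.mk (nat_lit 18333) (nat_lit 3) [nat_lit 31455, nat_lit 16875, nat_lit 17847, nat_lit 18495, nat_lit 18279, nat_lit 18387, nat_lit 18315] (nat_lit 0) [] false,
   Spec.mk (nat_lit 18387) (nat_lit 2) [nat_lit 31509, nat_lit 16929, nat_lit 17901, nat_lit 18549, nat_lit 18333] (nat_lit 0) [] false,
   Spec.mk (nat_lit 18469) (nat_lit 3) [nat_lit 31591, nat_lit 17011, nat_lit 17983, nat_lit 18955, nat_lit 18307, nat_lit 18471, nat_lit 38151] (nat_lit 0) [] false,
   Spec.mk (nat_lit 18471) (nat_lit 3) [nat_lit 31593, nat_lit 17013, nat_lit 17985, nat_lit 18957, nat_lit 18309, nat_lit 18477, nat_lit 18469] (nat_lit 0) [] false,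
   Spec.mk (nat_lit 18477) (nat_lit 3) [nat_lit 31599, nat_lit 17019, nat_lit 17991, nat_lit 18963, nat_lit 18315, nat_lit 18495, nat_lit 18471] (nat_lit 0) [] false,
   Spec.mk (nat_lit 18495) (nat_lit 3) [nat_lit 31617, nat_lit 17037, nat_lit 18009, nat_lit 18981, nat_lit 18333, nat_lit 18549, nat_lit 18477] (nat_lit 0) [] false,
   Spec.mk (nat_lit 18549) (nat_lit 4) [nat_lit 31671, nat_lit 17091, nat_lit 18063, nat_lit 19035, nat_lit 18387, nat_lit 18711, nat_lit 18495] (nat_lit 0) [] false,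
   Spec.mk (nat_lit 18711) (nat_lit 4) [nat_lit 31833, nat_lit 17253, nat_lit 19197, nat_lit 18549] (nat_lit 0) [] false,
   Spec.mk (nat_lit 18955) (nat_lit 4) [nat_lit 32077, nat_lit 18469, nat_lit 18957, nat_lit 38637] (nat_lit 0) [] false,
   Spec.mk (nat_lit 18957) (nat_lit 4) [nat_lit 32079, nat_lit 18471, nat_lit 18963, nat_lit 18955] (nat_lit 0) [] false,
   Spec.mk (nat_lit 18963) (nat_lit 4) [nat_lit 32085, nat_lit 18477, nat_lit 18981, nat_lit 18957] (nat_lit 0) [] false,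
   Spec.mk (nat_lit 18981) (nat_lit 4) [nat_lit 32103, nat_lit 18495, nat_lit 19035, nat_lit 18963] (nat_lit 0) [] false,
   Spec.mk (nat_lit 19035) (nat_lit 4) [nat_lit 32157, nat_lit 18549, nat_lit 19197, nat_lit 18981] (nat_lit 0) [] false,
   Spec.mk (nat_lit 19197) (nat_lit 6) [nat_lit 32319, nat_lit 18711, nat_lit 19035] (nat_lit 0) [] false,
   Spec.mk (nat_lit 19709) (nat_lit 6) [nat_lit 6587, nat_lit 19727, nat_lit 39391] (nat_lit 0) [] false,
   Spec.mk (nat_lit 19727) (nat_lit 5) [nat_lit 6605, nat_lit 19781, nat_lit 19709, nat_lit 19745, nat_lit 19733, nat_lit 39409] (nat_lit 0) [] false,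
   Spec.mk (nat_lit 19733) (nat_lit 4) [nat_lit 6611, nat_lit 19787, nat_lit 19751, nat_lit 19727, nat_lit 19735, nat_lit 39415] (nat_lit 0) [] false,
   Spec.mk (nat_lit 19735) (nat_lit 5) [nat_lit 6613, nat_lit 19789, nat_lit 19753, nat_lit 19733, nat_lit 39417, nat_lit 53] (nat_lit 0) [] false,
   Spec.mk (nat_lit 19745) (nat_lit 2) [nat_lit 6623, nat_lit 19799, nat_lit 19727, nat_lit 19751, nat_lit 39427] (nat_lit 0) [] false,
   Spec.mk (nat_lit 19751) (nat_lit 3) [nat_lit 6629, nat_lit 19805, nat_lit 19733, nat_lit 19745, nat_lit 19757, nat_lit 19753, nat_lit 39433] (nat_lit 0) [] false,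
   Spec.mk (nat_lit 19753) (nat_lit 3) [nat_lit 6631, nat_lit 19807, nat_lit 19735, nat_lit 19759, nat_lit 19751, nat_lit 39435, nat_lit 71] (nat_lit 0) [] false,
   Spec.mk (nat_lit 19757) (nat_lit 2) [nat_lit 6635, nat_lit 19811, nat_lit 19751, nat_lit 19759, nat_lit 39439] (nat_lit 0) [] false,
   Spec.mk (nat_lit 19759) (nat_lit 4) [nat_lit 6637, nat_lit 19813, nat_lit 19753, nat_lit 19757, nat_lit 19761, nat_lit 39441, nat_lit 77] (nat_lit 0) [] false,
   Spec.mk (nat_lit 19761) (nat_lit 4) [nat_lit 6639, nat_lit 19815, nat_lit 19759, nat_lit 79] (nat_lit 0) [] false,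
   Spec.mk (nat_lit 19781) (nat_lit 4) [nat_lit 6659, nat_lit 19943, nat_lit 19727, nat_lit 19799, nat_lit 19787, nat_lit 39463] (nat_lit 0) [] false,
   Spec.mk (nat_lit 19787) (nat_lit 2) [nat_lit 6665, nat_lit 19949, nat_lit 19733, nat_lit 19805, nat_lit 19781, nat_lit 19789, nat_lit 39469] (nat_lit 0) [] false,
   Spec.mk (nat_lit 19789) (nat_lit 3) [nat_lit 6667, nat_lit 19951, nat_lit 19735, nat_lit 19807, nat_lit 19787, nat_lit 39471, nat_lit 107] (nat_lit 0) [] false,
   Spec.mk (nat_lit 19799) (nat_lit 3) [nat_lit 6677, nat_lit 19961, nat_lit 19745, nat_lit 19853, nat_lit 19781, nat_lit 19805, nat_lit 39481] (nat_lit 0) [] false,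
   Spec.mk (nat_lit 19805) (nat_lit 3) [nat_lit 6683, nat_lit 19967, nat_lit 19751, nat_lit 19859, nat_lit 19787, nat_lit 19823, nat_lit 19799, nat_lit 19811, nat_lit 19807, nat_lit 39487] (nat_lit 0) [] false,
   Spec.mk (nat_lit 19807) (nat_lit 3) [nat_lit 6685, nat_lit 19969, nat_lit 19753, nat_lit 19861, nat_lit 19789, nat_lit 19825, nat_lit 19813, nat_lit 19805, nat_lit 39489, nat_lit 125] (nat_lit 0) [] false,
   Spec.mk (nat_lit 19811) (nat_lit 1) [nat_lit 6689, nat_lit 19973, nat_lit 19757, nat_lit 19865, nat_lit 19829, nat_lit 19805, nat_lit 19813, nat_lit 39493] (nat_lit 0) [] false,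
   Spec.mk (nat_lit 19813) (nat_lit 3) [nat_lit 6691, nat_lit 19975, nat_lit 19759, nat_lit 19867, nat_lit 19831, nat_lit 19807, nat_lit 19811, nat_lit 19815, nat_lit 39495, nat_lit 131] (nat_lit 0) [] false,
   Spec.mk (nat_lit 19815) (nat_lit 3) [nat_lit 6693, nat_lit 19977, nat_lit 19761, nat_lit 19869, nat_lit 19833, nat_lit 19813, nat_lit 133] (nat_lit 0) [] false,
   Spec.mk (nat_lit 19823) (nat_lit 2) [nat_lit 6701, nat_lit 19985, nat_lit 19877, nat_lit 19805, nat_lit 19829, nat_lit 19825, nat_lit 39505] (nat_lit 0) [] false,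
   Spec.mk (nat_lit 19825) (nat_lit 1) [nat_lit 6703, nat_lit 19987, nat_lit 19879, nat_lit 19807, nat_lit 19831, nat_lit 19823, nat_lit 39507, nat_lit 143] (nat_lit 0) [] false,
   Spec.mk (nat_lit 19829) (nat_lit 2) [nat_lit 6707, nat_lit 19991, nat_lit 19883, nat_lit 19811, nat_lit 19823, nat_lit 19831, nat_lit 39511] (nat_lit 0) [] false,
   Spec.mk (nat_lit 19831) (nat_lit 3) [nat_lit 6709, nat_lit 19993, nat_lit 19885, nat_lit 19813, nat_lit 19825, nat_lit 19837, nat_lit 19829, nat_lit 19833, nat_lit 39513, nat_lit 149] (nat_lit 0) [] false,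
   Spec.mk (nat_lit 19833) (nat_lit 2) [nat_lit 6711, nat_lit 19995, nat_lit 19887, nat_lit 19815, nat_lit 19839, nat_lit 19831, nat_lit 151] (nat_lit 0) [] false,
   Spec.mk (nat_lit 19837) (nat_lit 3) [nat_lit 6715, nat_lit 19999, nat_lit 19891, nat_lit 19831, nat_lit 19839, nat_lit 39519, nat_lit 155] (nat_lit 0) [] false,
   Spec.mk (nat_lit 19839) (nat_lit 4) [nat_lit 6717, nat_lit 20001, nat_lit 19893, nat_lit 19833, nat_lit 19837, nat_lit 157] (nat_lit 0) [] false,
   Spec.mk (nat_lit 19853) (nat_lit 2) [nat_lit 6731, nat_lit 20015, nat_lit 19799, nat_lit 19859, nat_lit 39535] (nat_lit 0) [] false,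
   Spec.mk (nat_lit 19859) (nat_lit 1) [nat_lit 6737, nat_lit 20021, nat_lit 19805, nat_lit 19877, nat_lit 19853, nat_lit 19865, nat_lit 19861, nat_lit 39541] (nat_lit 0) [] false,
   Spec.mk (nat_lit 19861) (nat_lit 1) [nat_lit 6739, nat_lit 20023, nat_lit 19807, nat_lit 19879, nat_lit 19867, nat_lit 19859, nat_lit 39543, nat_lit 179] (nat_lit 0) [] false,
   Spec.mk (nat_lit 19865) (nat_lit 0) [nat_lit 6743, nat_lit 20027, nat_lit 19811, nat_lit 19883, nat_lit 19859, nat_lit 19867, nat_lit 39547] (nat_lit 2) [] false,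
   Spec.mk (nat_lit 19867) (nat_lit 0) [nat_lit 6745, nat_lit 20029, nat_lit 19813, nat_lit 19885, nat_lit 19861, nat_lit 19865, nat_lit 19869, nat_lit 39549, nat_lit 185] (nat_lit 0) [] false,
   Spec.mk (nat_lit 19869) (nat_lit 0) [nat_lit 6747, nat_lit 20031, nat_lit 19815, nat_lit 19887, nat_lit 19867, nat_lit 187] (nat_lit 0) [] false,
   Spec.mk (nat_lit 19877) (nat_lit 2) [nat_lit 6755, nat_lit 20039, nat_lit 19823, nat_lit 19859, nat_lit 19883, nat_lit 19879, nat_lit 39559] (nat_lit 0) [] false,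
   Spec.mk (nat_lit 19879) (nat_lit 1) [nat_lit 6757, nat_lit 20041, nat_lit 19825, nat_lit 19861, nat_lit 19885, nat_lit 19877, nat_lit 39561, nat_lit 197] (nat_lit 0) [] false,
   Spec.mk (nat_lit 19883) (nat_lit 1) [nat_lit 6761, nat_lit 20045, nat_lit 19829, nat_lit 19865, nat_lit 19901, nat_lit 19877, nat_lit 19885, nat_lit 39565] (nat_lit 0) [] false,
   Spec.mk (nat_lit 19885) (nat_lit 2) [nat_lit 6763, nat_lit 20047, nat_lit 19831, nat_lit 19867, nat_lit 19903, nat_lit 19879, nat_lit 19891, nat_lit 19883, nat_lit 19887, nat_lit 39567, nat_lit 203] (nat_lit 0) [] false]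

noncomputable def sp39 : List Spec :=
  [Spec.mk (nat_lit 19887) (nat_lit 1) [nat_lit 6765, nat_lit 20049, nat_lit 19833, nat_lit 19869, nat_lit 19905, nat_lit 19893, nat_lit 19885, nat_lit 205] (nat_lit 0) [] false,
   Spec.mk (nat_lit 19891) (nat_lit 1) [nat_lit 6769, nat_lit 20053, nat_lit 19837, nat_lit 19909, nat_lit 19885, nat_lit 19893, nat_lit 39573, nat_lit 209] (nat_lit 0) [] false,
   Spec.mk (nat_lit 19893) (nat_lit 2) [nat_lit 6771, nat_lit 20055, nat_lit 19839, nat_lit 19911, nat_lit 19887, nat_lit 19891, nat_lit 211] (nat_lit 0) [] false,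
   Spec.mk (nat_lit 19901) (nat_lit 2) [nat_lit 6779, nat_lit 20063, nat_lit 19883, nat_lit 19903, nat_lit 39583] (nat_lit 0) [] false,
   Spec.mk (nat_lit 19903) (nat_lit 2) [nat_lit 6781, nat_lit 20065, nat_lit 19885, nat_lit 19909, nat_lit 19901, nat_lit 19905, nat_lit 39585, nat_lit 221] (nat_lit 0) [] false,
   Spec.mk (nat_lit 19905) (nat_lit 0) [nat_lit 6783, nat_lit 20067, nat_lit 19887, nat_lit 19911, nat_lit 19903, nat_lit 223] (nat_lit 0) [] false,
   Spec.mk (nat_lit 19909) (nat_lit 3) [nat_lit 6787, nat_lit 20071, nat_lit 19891, nat_lit 19903, nat_lit 19911, nat_lit 39591, nat_lit 227] (nat_lit 0) [] false,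
   Spec.mk (nat_lit 19911) (nat_lit 3) [nat_lit 6789, nat_lit 20073, nat_lit 19893, nat_lit 19905, nat_lit 19917, nat_lit 19909, nat_lit 229] (nat_lit 0) [] false,
   Spec.mk (nat_lit 19917) (nat_lit 4) [nat_lit 6795, nat_lit 20079, nat_lit 19911, nat_lit 235] (nat_lit 0) [] false,
   Spec.mk (nat_lit 19943) (nat_lit 4) [nat_lit 6821, nat_lit 20429, nat_lit 19781, nat_lit 19961, nat_lit 19949, nat_lit 39625] (nat_lit 0) [] false,
   Spec.mk (nat_lit 19949) (nat_lit 2) [nat_lit 6827, nat_lit 20435, nat_lit 19787, nat_lit 19967, nat_lit 19943, nat_lit 19951, nat_lit 39631] (nat_lit 0) [] false,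
   Spec.mk (nat_lit 19951) (nat_lit 3) [nat_lit 6829, nat_lit 20437, nat_lit 19789, nat_lit 19969, nat_lit 19949, nat_lit 39633, nat_lit 269] (nat_lit 0) [] false,
   Spec.mk (nat_lit 19961) (nat_lit 2) [nat_lit 6839, nat_lit 20447, nat_lit 19799, nat_lit 20015, nat_lit 19943, nat_lit 19967, nat_lit 39643] (nat_lit 0) [] false,
   Spec.mk (nat_lit 19967) (nat_lit 2) [nat_lit 6845, nat_lit 20453, nat_lit 19805, nat_lit 20021, nat_lit 19949, nat_lit 19985, nat_lit 19961, nat_lit 19973, nat_lit 19969, nat_lit 39649] (nat_lit 0) [] false,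
   Spec.mk (nat_lit 19969) (nat_lit 2) [nat_lit 6847, nat_lit 20455, nat_lit 19807, nat_lit 20023, nat_lit 19951, nat_lit 19987, nat_lit 19975, nat_lit 19967, nat_lit 39651, nat_lit 287] (nat_lit 0) [] false,
   Spec.mk (nat_lit 19973) (nat_lit 0) [nat_lit 6851, nat_lit 20459, nat_lit 19811, nat_lit 20027, nat_lit 19991, nat_lit 19967, nat_lit 19975, nat_lit 39655] (nat_lit 0) [] false,
   Spec.mk (nat_lit 19975) (nat_lit 2) [nat_lit 6853, nat_lit 20461, nat_lit 19813, nat_lit 20029, nat_lit 19993, nat_lit 19969, nat_lit 19973, nat_lit 19977, nat_lit 39657, nat_lit 293] (nat_lit 0) [] false,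
   Spec.mk (nat_lit 19977) (nat_lit 2) [nat_lit 6855, nat_lit 20463, nat_lit 19815, nat_lit 20031, nat_lit 19995, nat_lit 19975, nat_lit 295] (nat_lit 0) [] false,
   Spec.mk (nat_lit 19985) (nat_lit 0) [nat_lit 6863, nat_lit 20471, nat_lit 19823, nat_lit 20039, nat_lit 19967, nat_lit 19991, nat_lit 19987, nat_lit 39667] (nat_lit 0) [] false,
   Spec.mk (nat_lit 19987) (nat_lit 0) [nat_lit 6865, nat_lit 20473, nat_lit 19825, nat_lit 20041, nat_lit 19969, nat_lit 19993, nat_lit 19985, nat_lit 39669, nat_lit 305] (nat_lit 1) [] false,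
   Spec.mk (nat_lit 19991) (nat_lit 0) [nat_lit 6869, nat_lit 20477, nat_lit 19829, nat_lit 20045, nat_lit 19973, nat_lit 19985, nat_lit 19993, nat_lit 39673] (nat_lit 0) [] false,
   Spec.mk (nat_lit 19993) (nat_lit 1) [nat_lit 6871, nat_lit 20479, nat_lit 19831, nat_lit 20047, nat_lit 19975, nat_lit 19987, nat_lit 19999, nat_lit 19991, nat_lit 19995, nat_lit 39675, nat_lit 311] (nat_lit 0) [] false,
   Spec.mk (nat_lit 19995) (nat_lit 0) [nat_lit 6873, nat_lit 20481, nat_lit 19833, nat_lit 20049, nat_lit 19977, nat_lit 20001, nat_lit 19993, nat_lit 313] (nat_lit 0) [] false,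
   Spec.mk (nat_lit 19999) (nat_lit 1) [nat_lit 6877, nat_lit 20485, nat_lit 19837, nat_lit 20053, nat_lit 19993, nat_lit 20001, nat_lit 39681, nat_lit 317] (nat_lit 0) [] false,
   Spec.mk (nat_lit 20001) (nat_lit 2) [nat_lit 6879, nat_lit 20487, nat_lit 19839, nat_lit 20055, nat_lit 19995, nat_lit 19999, nat_lit 319] (nat_lit 0) [] false,
   Spec.mk (nat_lit 20015) (nat_lit 3) [nat_lit 6893, nat_lit 20501, nat_lit 19853, nat_lit 20177, nat_lit 19961, nat_lit 20021, nat_lit 39697] (nat_lit 0) [] false,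
   Spec.mk (nat_lit 20021) (nat_lit 2) [nat_lit 6899, nat_lit 20507, nat_lit 19859, nat_lit 20183, nat_lit 19967, nat_lit 20039, nat_lit 20015, nat_lit 20027, nat_lit 20023, nat_lit 39703] (nat_lit 0) [] false,
   Spec.mk (nat_lit 20023) (nat_lit 2) [nat_lit 6901, nat_lit 20509, nat_lit 19861, nat_lit 20185, nat_lit 19969, nat_lit 20041, nat_lit 20029, nat_lit 20021, nat_lit 39705, nat_lit 341] (nat_lit 0) [] false,
   Spec.mk (nat_lit 20027) (nat_lit 0) [nat_lit 6905, nat_lit 20513, nat_lit 19865, nat_lit 20189, nat_lit 19973, nat_lit 20045, nat_lit 20021, nat_lit 20029, nat_lit 39709] (nat_lit 1) [] false,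
   Spec.mk (nat_lit 20029) (nat_lit 1) [nat_lit 6907, nat_lit 20515, nat_lit 19867, nat_lit 20191, nat_lit 19975, nat_lit 20047, nat_lit 20023, nat_lit 20027, nat_lit 20031, nat_lit 39711, nat_lit 347] (nat_lit 0) [] false,
   Spec.mk (nat_lit 20031) (nat_lit 1) [nat_lit 6909, nat_lit 20517, nat_lit 19869, nat_lit 20193, nat_lit 19977, nat_lit 20049, nat_lit 20029, nat_lit 349] (nat_lit 0) [] false,
   Spec.mk (nat_lit 20039) (nat_lit 2) [nat_lit 6917, nat_lit 20525, nat_lit 19877, nat_lit 20201, nat_lit 19985, nat_lit 20093, nat_lit 20021, nat_lit 20045, nat_lit 20041, nat_lit 39721] (nat_lit 0) [] false,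
   Spec.mk (nat_lit 20041) (nat_lit 1) [nat_lit 6919, nat_lit 20527, nat_lit 19879, nat_lit 20203, nat_lit 19987, nat_lit 20095, nat_lit 20023, nat_lit 20047, nat_lit 20039, nat_lit 39723, nat_lit 359] (nat_lit 0) [] false,
   Spec.mk (nat_lit 20045) (nat_lit 1) [nat_lit 6923, nat_lit 20531, nat_lit 19883, nat_lit 20207, nat_lit 19991, nat_lit 20099, nat_lit 20027, nat_lit 20063, nat_lit 20039, nat_lit 20047, nat_lit 39727] (nat_lit 0) [] false,
   Spec.mk (nat_lit 20047) (nat_lit 2) [nat_lit 6925, nat_lit 20533, nat_lit 19885, nat_lit 20209, nat_lit 19993, nat_lit 20101, nat_lit 20029, nat_lit 20065, nat_lit 20041, nat_lit 20053, nat_lit 20045, nat_lit 20049, nat_lit 39729, nat_lit 365] (nat_lit 0) [] false,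
   Spec.mk (nat_lit 20049) (nat_lit 1) [nat_lit 6927, nat_lit 20535, nat_lit 19887, nat_lit 20211, nat_lit 19995, nat_lit 20103, nat_lit 20031, nat_lit 20067, nat_lit 20055, nat_lit 20047, nat_lit 367] (nat_lit 0) [] false,
   Spec.mk (nat_lit 20053) (nat_lit 1) [nat_lit 6931, nat_lit 20539, nat_lit 19891, nat_lit 20215, nat_lit 19999, nat_lit 20107, nat_lit 20071, nat_lit 20047, nat_lit 20055, nat_lit 39735, nat_lit 371] (nat_lit 0) [] false,
   Spec.mk (nat_lit 20055) (nat_lit 2) [nat_lit 6933, nat_lit 20541, nat_lit 19893, nat_lit 20217, nat_lit 20001, nat_lit 20109, nat_lit 20073, nat_lit 20049, nat_lit 20053, nat_lit 373] (nat_lit 0) [] false,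
   Spec.mk (nat_lit 20063) (nat_lit 1) [nat_lit 6941, nat_lit 20549, nat_lit 19901, nat_lit 20225, nat_lit 20117, nat_lit 20045, nat_lit 20065, nat_lit 39745] (nat_lit 0) [] false,
   Spec.mk (nat_lit 20065) (nat_lit 1) [nat_lit 6943, nat_lit 20551, nat_lit 19903, nat_lit 20227, nat_lit 20119, nat_lit 20047, nat_lit 20071, nat_lit 20063, nat_lit 20067, nat_lit 39747, nat_lit 383] (nat_lit 0) [] false,
   Spec.mk (nat_lit 20067) (nat_lit 0) [nat_lit 6945, nat_lit 20553, nat_lit 19905, nat_lit 20229, nat_lit 20121, nat_lit 20049, nat_lit 20073, nat_lit 20065, nat_lit 385] (nat_lit 1) [] false,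
   Spec.mk (nat_lit 20071) (nat_lit 2) [nat_lit 6949, nat_lit 20557, nat_lit 19909, nat_lit 20233, nat_lit 20125, nat_lit 20053, nat_lit 20065, nat_lit 20073, nat_lit 39753, nat_lit 389] (nat_lit 0) [] false,
   Spec.mk (nat_lit 20073) (nat_lit 2) [nat_lit 6951, nat_lit 20559, nat_lit 19911, nat_lit 20235, nat_lit 20127, nat_lit 20055, nat_lit 20067, nat_lit 20079, nat_lit 20071, nat_lit 391] (nat_lit 0) [] false,
   Spec.mk (nat_lit 20079) (nat_lit 3) [nat_lit 6957, nat_lit 20565, nat_lit 19917, nat_lit 20241, nat_lit 20133, nat_lit 20073, nat_lit 397] (nat_lit 0) [] false,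
   Spec.mk (nat_lit 20093) (nat_lit 2) [nat_lit 6971, nat_lit 20579, nat_lit 20255, nat_lit 20039, nat_lit 20099, nat_lit 20095, nat_lit 39775] (nat_lit 0) [] false,
   Spec.mk (nat_lit 20095) (nat_lit 1) [nat_lit 6973, nat_lit 20581, nat_lit 20257, nat_lit 20041, nat_lit 20101, nat_lit 20093, nat_lit 39777, nat_lit 413] (nat_lit 0) [] false,
   Spec.mk (nat_lit 20099) (nat_lit 0) [nat_lit 6977, nat_lit 20585, nat_lit 20261, nat_lit 20045, nat_lit 20117, nat_lit 20093, nat_lit 20101, nat_lit 39781] (nat_lit 0) [] false,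
   Spec.mk (nat_lit 20101) (nat_lit 1) [nat_lit 6979, nat_lit 20587, nat_lit 20263, nat_lit 20047, nat_lit 20119, nat_lit 20095, nat_lit 20107, nat_lit 20099, nat_lit 20103, nat_lit 39783, nat_lit 419] (nat_lit 0) [] false,
   Spec.mk (nat_lit 20103) (nat_lit 0) [nat_lit 6981, nat_lit 20589, nat_lit 20265, nat_lit 20049, nat_lit 20121, nat_lit 20109, nat_lit 20101, nat_lit 421] (nat_lit 0) [] false,
   Spec.mk (nat_lit 20107) (nat_lit 0) [nat_lit 6985, nat_lit 20593, nat_lit 20269, nat_lit 20053, nat_lit 20125, nat_lit 20101, nat_lit 20109, nat_lit 39789, nat_lit 425] (nat_lit 1) [] false,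
   Spec.mk (nat_lit 20109) (nat_lit 0) [nat_lit 6987, nat_lit 20595, nat_lit 20271, nat_lit 20055, nat_lit 20127, nat_lit 20103, nat_lit 20107, nat_lit 427] (nat_lit 0) [] false,
   Spec.mk (nat_lit 20117) (nat_lit 2) [nat_lit 6995, nat_lit 20603, nat_lit 20279, nat_lit 20063, nat_lit 20099, nat_lit 20119, nat_lit 39799] (nat_lit 0) [] false,
   Spec.mk (nat_lit 20119) (nat_lit 2) [nat_lit 6997, nat_lit 20605, nat_lit 20281, nat_lit 20065, nat_lit 20101, nat_lit 20125, nat_lit 20117, nat_lit 20121, nat_lit 39801, nat_lit 437] (nat_lit 0) [] false,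
   Spec.mk (nat_lit 20121) (nat_lit 0) [nat_lit 6999, nat_lit 20607, nat_lit 20283, nat_lit 20067, nat_lit 20103, nat_lit 20127, nat_lit 20119, nat_lit 439] (nat_lit 0) [] false,
   Spec.mk (nat_lit 20125) (nat_lit 2) [nat_lit 7003, nat_lit 20611, nat_lit 20287, nat_lit 20071, nat_lit 20107, nat_lit 20143, nat_lit 20119, nat_lit 20127, nat_lit 39807, nat_lit 443] (nat_lit 0) [] false,
   Spec.mk (nat_lit 20127) (nat_lit 2) [nat_lit 7005, nat_lit 20613, nat_lit 20289, nat_lit 20073, nat_lit 20109, nat_lit 20145, nat_lit 20121, nat_lit 20133, nat_lit 20125, nat_lit 445] (nat_lit 0) [] false,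
   Spec.mk (nat_lit 20133) (nat_lit 2) [nat_lit 7011, nat_lit 20619, nat_lit 20295, nat_lit 20079, nat_lit 20151, nat_lit 20127, nat_lit 451] (nat_lit 0) [] false,
   Spec.mk (nat_lit 20143) (nat_lit 3) [nat_lit 7021, nat_lit 20629, nat_lit 20305, nat_lit 20125, nat_lit 20145, nat_lit 39825, nat_lit 461] (nat_lit 0) [] false,
   Spec.mk (nat_lit 20145) (nat_lit 2) [nat_lit 7023, nat_lit 20631, nat_lit 20307, nat_lit 20127, nat_lit 20151, nat_lit 20143, nat_lit 463] (nat_lit 0) [] false,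
   Spec.mk (nat_lit 20151) (nat_lit 4) [nat_lit 7029, nat_lit 20637, nat_lit 20313, nat_lit 20133, nat_lit 20145, nat_lit 469] (nat_lit 0) [] false]

noncomputable def sp40 : List Spec :=
  [Spec.mk (nat_lit 20177) (nat_lit 2) [nat_lit 7055, nat_lit 20663, nat_lit 20015, nat_lit 20183, nat_lit 39859] (nat_lit 0) [] false,
   Spec.mk (nat_lit 20183) (nat_lit 1) [nat_lit 7061, nat_lit 20669, nat_lit 20021, nat_lit 20201, nat_lit 20177, nat_lit 20189, nat_lit 20185, nat_lit 39865] (nat_lit 0) [] false,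
   Spec.mk (nat_lit 20185) (nat_lit 1) [nat_lit 7063, nat_lit 20671, nat_lit 20023, nat_lit 20203, nat_lit 20191, nat_lit 20183, nat_lit 39867, nat_lit 503] (nat_lit 0) [] false,
   Spec.mk (nat_lit 20189) (nat_lit 0) [nat_lit 7067, nat_lit 20675, nat_lit 20027, nat_lit 20207, nat_lit 20183, nat_lit 20191, nat_lit 39871] (nat_lit 2) [] false,
   Spec.mk (nat_lit 20191) (nat_lit 0) [nat_lit 7069, nat_lit 20677, nat_lit 20029, nat_lit 20209, nat_lit 20185, nat_lit 20189, nat_lit 20193, nat_lit 39873, nat_lit 509] (nat_lit 0) [] false,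
   Spec.mk (nat_lit 20193) (nat_lit 0) [nat_lit 7071, nat_lit 20679, nat_lit 20031, nat_lit 20211, nat_lit 20191, nat_lit 511] (nat_lit 0) [] false,
   Spec.mk (nat_lit 20201) (nat_lit 0) [nat_lit 7079, nat_lit 20687, nat_lit 20039, nat_lit 20255, nat_lit 20183, nat_lit 20207, nat_lit 20203, nat_lit 39883] (nat_lit 0) [] false,
   Spec.mk (nat_lit 20203) (nat_lit 0) [nat_lit 7081, nat_lit 20689, nat_lit 20041, nat_lit 20257, nat_lit 20185, nat_lit 20209, nat_lit 20201, nat_lit 39885, nat_lit 521] (nat_lit 1) [] false,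
   Spec.mk (nat_lit 20207) (nat_lit 0) [nat_lit 7085, nat_lit 20693, nat_lit 20045, nat_lit 20261, nat_lit 20189, nat_lit 20225, nat_lit 20201, nat_lit 20209, nat_lit 39889] (nat_lit 1) [] false,
   Spec.mk (nat_lit 20209) (nat_lit 0) [nat_lit 7087, nat_lit 20695, nat_lit 20047, nat_lit 20263, nat_lit 20191, nat_lit 20227, nat_lit 20203, nat_lit 20215, nat_lit 20207, nat_lit 20211, nat_lit 39891, nat_lit 527] (nat_lit 0) [] false,
   Spec.mk (nat_lit 20211) (nat_lit 0) [nat_lit 7089, nat_lit 20697, nat_lit 20049, nat_lit 20265, nat_lit 20193, nat_lit 20229, nat_lit 20217, nat_lit 20209, nat_lit 529] (nat_lit 1) [] false,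
   Spec.mk (nat_lit 20215) (nat_lit 0) [nat_lit 7093, nat_lit 20701, nat_lit 20053, nat_lit 20269, nat_lit 20233, nat_lit 20209, nat_lit 20217, nat_lit 39897, nat_lit 533] (nat_lit 1) [] false,
   Spec.mk (nat_lit 20217) (nat_lit 0) [nat_lit 7095, nat_lit 20703, nat_lit 20055, nat_lit 20271, nat_lit 20235, nat_lit 20211, nat_lit 20215, nat_lit 535] (nat_lit 0) [] false,
   Spec.mk (nat_lit 20225) (nat_lit 0) [nat_lit 7103, nat_lit 20711, nat_lit 20063, nat_lit 20279, nat_lit 20207, nat_lit 20227, nat_lit 39907] (nat_lit 2) [] false,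
   Spec.mk (nat_lit 20227) (nat_lit 0) [nat_lit 7105, nat_lit 20713, nat_lit 20065, nat_lit 20281, nat_lit 20209, nat_lit 20233, nat_lit 20225, nat_lit 20229, nat_lit 39909, nat_lit 545] (nat_lit 2) [] false,
   Spec.mk (nat_lit 20229) (nat_lit 0) [nat_lit 7107, nat_lit 20715, nat_lit 20067, nat_lit 20283, nat_lit 20211, nat_lit 20235, nat_lit 20227, nat_lit 547] (nat_lit 4) [] false,
   Spec.mk (nat_lit 20233) (nat_lit 0) [nat_lit 7111, nat_lit 20719, nat_lit 20071, nat_lit 20287, nat_lit 20215, nat_lit 20227, nat_lit 20235, nat_lit 39915, nat_lit 551] (nat_lit 1) [] false,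
   Spec.mk (nat_lit 20235) (nat_lit 0) [nat_lit 7113, nat_lit 20721, nat_lit 20073, nat_lit 20289, nat_lit 20217, nat_lit 20229, nat_lit 20241, nat_lit 20233, nat_lit 553] (nat_lit 1) [] false,
   Spec.mk (nat_lit 20241) (nat_lit 0) [nat_lit 7119, nat_lit 20727, nat_lit 20079, nat_lit 20295, nat_lit 20235, nat_lit 559] (nat_lit 0) [] false,
   Spec.mk (nat_lit 20255) (nat_lit 2) [nat_lit 7133, nat_lit 20741, nat_lit 20093, nat_lit 20201, nat_lit 20261, nat_lit 20257, nat_lit 39937] (nat_lit 0) [] false,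
   Spec.mk (nat_lit 20257) (nat_lit 1) [nat_lit 7135, nat_lit 20743, nat_lit 20095, nat_lit 20203, nat_lit 20263, nat_lit 20255, nat_lit 39939, nat_lit 575] (nat_lit 0) [] false,
   Spec.mk (nat_lit 20261) (nat_lit 0) [nat_lit 7139, nat_lit 20747, nat_lit 20099, nat_lit 20207, nat_lit 20279, nat_lit 20255, nat_lit 20263, nat_lit 39943] (nat_lit 0) [] false,
   Spec.mk (nat_lit 20263) (nat_lit 1) [nat_lit 7141, nat_lit 20749, nat_lit 20101, nat_lit 20209, nat_lit 20281, nat_lit 20257, nat_lit 20269, nat_lit 20261, nat_lit 20265, nat_lit 39945, nat_lit 581] (nat_lit 0) [] false,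
   Spec.mk (nat_lit 20265) (nat_lit 0) [nat_lit 7143, nat_lit 20751, nat_lit 20103, nat_lit 20211, nat_lit 20283, nat_lit 20271, nat_lit 20263, nat_lit 583] (nat_lit 0) [] false,
   Spec.mk (nat_lit 20269) (nat_lit 0) [nat_lit 7147, nat_lit 20755, nat_lit 20107, nat_lit 20215, nat_lit 20287, nat_lit 20263, nat_lit 20271, nat_lit 39951, nat_lit 587] (nat_lit 1) [] false,
   Spec.mk (nat_lit 20271) (nat_lit 0) [nat_lit 7149, nat_lit 20757, nat_lit 20109, nat_lit 20217, nat_lit 20289, nat_lit 20265, nat_lit 20269, nat_lit 589] (nat_lit 0) [] false,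
   Spec.mk (nat_lit 20279) (nat_lit 1) [nat_lit 7157, nat_lit 20765, nat_lit 20117, nat_lit 20225, nat_lit 20333, nat_lit 20261, nat_lit 20281, nat_lit 39961] (nat_lit 0) [] false,
   Spec.mk (nat_lit 20281) (nat_lit 1) [nat_lit 7159, nat_lit 20767, nat_lit 20119, nat_lit 20227, nat_lit 20335, nat_lit 20263, nat_lit 20287, nat_lit 20279, nat_lit 20283, nat_lit 39963, nat_lit 599] (nat_lit 0) [] false,
   Spec.mk (nat_lit 20283) (nat_lit 0) [nat_lit 7161, nat_lit 20769, nat_lit 20121, nat_lit 20229, nat_lit 20337, nat_lit 20265, nat_lit 20289, nat_lit 20281, nat_lit 601] (nat_lit 1) [] false,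
   Spec.mk (nat_lit 20287) (nat_lit 1) [nat_lit 7165, nat_lit 20773, nat_lit 20125, nat_lit 20233, nat_lit 20341, nat_lit 20269, nat_lit 20305, nat_lit 20281, nat_lit 20289, nat_lit 39969, nat_lit 605] (nat_lit 0) [] false,
   Spec.mk (nat_lit 20289) (nat_lit 1) [nat_lit 7167, nat_lit 20775, nat_lit 20127, nat_lit 20235, nat_lit 20343, nat_lit 20271, nat_lit 20307, nat_lit 20283, nat_lit 20295, nat_lit 20287, nat_lit 607] (nat_lit 0) [] false,
   Spec.mk (nat_lit 20295) (nat_lit 1) [nat_lit 7173, nat_lit 20781, nat_lit 20133, nat_lit 20241, nat_lit 20349, nat_lit 20313, nat_lit 20289, nat_lit 613] (nat_lit 0) [] false,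
   Spec.mk (nat_lit 20305) (nat_lit 1) [nat_lit 7183, nat_lit 20791, nat_lit 20143, nat_lit 20359, nat_lit 20287, nat_lit 20307, nat_lit 39987, nat_lit 623] (nat_lit 0) [] false,
   Spec.mk (nat_lit 20307) (nat_lit 0) [nat_lit 7185, nat_lit 20793, nat_lit 20145, nat_lit 20361, nat_lit 20289, nat_lit 20313, nat_lit 20305, nat_lit 625] (nat_lit 0) [] false,
   Spec.mk (nat_lit 20313) (nat_lit 2) [nat_lit 7191, nat_lit 20799, nat_lit 20151, nat_lit 20367, nat_lit 20295, nat_lit 20307, nat_lit 631] (nat_lit 0) [] false,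
   Spec.mk (nat_lit 20333) (nat_lit 2) [nat_lit 7211, nat_lit 20819, nat_lit 20279, nat_lit 20335, nat_lit 40015] (nat_lit 0) [] false,
   Spec.mk (nat_lit 20335) (nat_lit 2) [nat_lit 7213, nat_lit 20821, nat_lit 20281, nat_lit 20341, nat_lit 20333, nat_lit 20337, nat_lit 40017, nat_lit 653] (nat_lit 0) [] false,
   Spec.mk (nat_lit 20337) (nat_lit 0) [nat_lit 7215, nat_lit 20823, nat_lit 20283, nat_lit 20343, nat_lit 20335, nat_lit 655] (nat_lit 0) [] false,
   Spec.mk (nat_lit 20341) (nat_lit 1) [nat_lit 7219, nat_lit 20827, nat_lit 20287, nat_lit 20359, nat_lit 20335, nat_lit 20343, nat_lit 40023, nat_lit 659] (nat_lit 0) [] false,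
   Spec.mk (nat_lit 20343) (nat_lit 1) [nat_lit 7221, nat_lit 20829, nat_lit 20289, nat_lit 20361, nat_lit 20337, nat_lit 20349, nat_lit 20341, nat_lit 661] (nat_lit 0) [] false,
   Spec.mk (nat_lit 20349) (nat_lit 0) [nat_lit 7227, nat_lit 20835, nat_lit 20295, nat_lit 20367, nat_lit 20343, nat_lit 667] (nat_lit 0) [] false,
   Spec.mk (nat_lit 20359) (nat_lit 3) [nat_lit 7237, nat_lit 20845, nat_lit 20305, nat_lit 20341, nat_lit 20361, nat_lit 40041, nat_lit 677] (nat_lit 0) [] false,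
   Spec.mk (nat_lit 20361) (nat_lit 2) [nat_lit 7239, nat_lit 20847, nat_lit 20307, nat_lit 20343, nat_lit 20367, nat_lit 20359, nat_lit 679] (nat_lit 0) [] false,
   Spec.mk (nat_lit 20367) (nat_lit 3) [nat_lit 7245, nat_lit 20853, nat_lit 20313, nat_lit 20349, nat_lit 20385, nat_lit 20361, nat_lit 685] (nat_lit 0) [] false,
   Spec.mk (nat_lit 20385) (nat_lit 4) [nat_lit 7263, nat_lit 20871, nat_lit 20367, nat_lit 703] (nat_lit 0) [] false,
   Spec.mk (nat_lit 20429) (nat_lit 4) [nat_lit 7307, nat_lit 21887, nat_lit 19943, nat_lit 20447, nat_lit 20435, nat_lit 40111] (nat_lit 0) [] false,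
   Spec.mk (nat_lit 20435) (nat_lit 2) [nat_lit 7313, nat_lit 21893, nat_lit 19949, nat_lit 20453, nat_lit 20429, nat_lit 20437, nat_lit 40117] (nat_lit 0) [] false,
   Spec.mk (nat_lit 20437) (nat_lit 3) [nat_lit 7315, nat_lit 21895, nat_lit 19951, nat_lit 20455, nat_lit 20435, nat_lit 40119, nat_lit 755] (nat_lit 0) [] false,
   Spec.mk (nat_lit 20447) (nat_lit 2) [nat_lit 7325, nat_lit 21905, nat_lit 19961, nat_lit 20501, nat_lit 20429, nat_lit 20453, nat_lit 40129] (nat_lit 0) [] false,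
   Spec.mk (nat_lit 20453) (nat_lit 2) [nat_lit 7331, nat_lit 21911, nat_lit 19967, nat_lit 20507, nat_lit 20435, nat_lit 20471, nat_lit 20447, nat_lit 20459, nat_lit 20455, nat_lit 40135] (nat_lit 0) [] false,
   Spec.mk (nat_lit 20455) (nat_lit 2) [nat_lit 7333, nat_lit 21913, nat_lit 19969, nat_lit 20509, nat_lit 20437, nat_lit 20473, nat_lit 20461, nat_lit 20453, nat_lit 40137, nat_lit 773] (nat_lit 0) [] false,
   Spec.mk (nat_lit 20459) (nat_lit 0) [nat_lit 7337, nat_lit 21917, nat_lit 19973, nat_lit 20513, nat_lit 20477, nat_lit 20453, nat_lit 20461, nat_lit 40141] (nat_lit 0) [] false,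
   Spec.mk (nat_lit 20461) (nat_lit 2) [nat_lit 7339, nat_lit 21919, nat_lit 19975, nat_lit 20515, nat_lit 20479, nat_lit 20455, nat_lit 20459, nat_lit 20463, nat_lit 40143, nat_lit 779] (nat_lit 0) [] false,
   Spec.mk (nat_lit 20463) (nat_lit 2) [nat_lit 7341, nat_lit 21921, nat_lit 19977, nat_lit 20517, nat_lit 20481, nat_lit 20461, nat_lit 781] (nat_lit 0) [] false,
   Spec.mk (nat_lit 20471) (nat_lit 0) [nat_lit 7349, nat_lit 21929, nat_lit 19985, nat_lit 20525, nat_lit 20453, nat_lit 20477, nat_lit 20473, nat_lit 40153] (nat_lit 0) [] false,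
   Spec.mk (nat_lit 20473) (nat_lit 0) [nat_lit 7351, nat_lit 21931, nat_lit 19987, nat_lit 20527, nat_lit 20455, nat_lit 20479, nat_lit 20471, nat_lit 40155, nat_lit 791] (nat_lit 1) [] false,
   Spec.mk (nat_lit 20477) (nat_lit 0) [nat_lit 7355, nat_lit 21935, nat_lit 19991, nat_lit 20531, nat_lit 20459, nat_lit 20471, nat_lit 20479, nat_lit 40159] (nat_lit 0) [] false,
   Spec.mk (nat_lit 20479) (nat_lit 1) [nat_lit 7357, nat_lit 21937, nat_lit 19993, nat_lit 20533, nat_lit 20461, nat_lit 20473, nat_lit 20485, nat_lit 20477, nat_lit 20481, nat_lit 40161, nat_lit 797] (nat_lit 0) [] false,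
   Spec.mk (nat_lit 20481) (nat_lit 0) [nat_lit 7359, nat_lit 21939, nat_lit 19995, nat_lit 20535, nat_lit 20463, nat_lit 20487, nat_lit 20479, nat_lit 799] (nat_lit 0) [] false,
   Spec.mk (nat_lit 20485) (nat_lit 1) [nat_lit 7363, nat_lit 21943, nat_lit 19999, nat_lit 20539, nat_lit 20479, nat_lit 20487, nat_lit 40167, nat_lit 803] (nat_lit 0) [] false]

noncomputable def sp41 : List Spec :=
  [Spec.mk (nat_lit 20487) (nat_lit 2) [nat_lit 7365, nat_lit 21945, nat_lit 20001, nat_lit 20541, nat_lit 20481, nat_lit 20485, nat_lit 805] (nat_lit 0) [] false,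
   Spec.mk (nat_lit 20501) (nat_lit 2) [nat_lit 7379, nat_lit 21959, nat_lit 20015, nat_lit 20663, nat_lit 20447, nat_lit 20507, nat_lit 40183] (nat_lit 0) [] false,
   Spec.mk (nat_lit 20507) (nat_lit 1) [nat_lit 7385, nat_lit 21965, nat_lit 20021, nat_lit 20669, nat_lit 20453, nat_lit 20525, nat_lit 20501, nat_lit 20513, nat_lit 20509, nat_lit 40189] (nat_lit 0) [] false,
   Spec.mk (nat_lit 20509) (nat_lit 1) [nat_lit 7387, nat_lit 21967, nat_lit 20023, nat_lit 20671, nat_lit 20455, nat_lit 20527, nat_lit 20515, nat_lit 20507, nat_lit 40191, nat_lit 827] (nat_lit 0) [] false,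
   Spec.mk (nat_lit 20513) (nat_lit 0) [nat_lit 7391, nat_lit 21971, nat_lit 20027, nat_lit 20675, nat_lit 20459, nat_lit 20531, nat_lit 20507, nat_lit 20515, nat_lit 40195] (nat_lit 2) [] false,
   Spec.mk (nat_lit 20515) (nat_lit 0) [nat_lit 7393, nat_lit 21973, nat_lit 20029, nat_lit 20677, nat_lit 20461, nat_lit 20533, nat_lit 20509, nat_lit 20513, nat_lit 20517, nat_lit 40197, nat_lit 833] (nat_lit 0) [] false,
   Spec.mk (nat_lit 20517) (nat_lit 0) [nat_lit 7395, nat_lit 21975, nat_lit 20031, nat_lit 20679, nat_lit 20463, nat_lit 20535, nat_lit 20515, nat_lit 835] (nat_lit 0) [] false,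
   Spec.mk (nat_lit 20525) (nat_lit 1) [nat_lit 7403, nat_lit 21983, nat_lit 20039, nat_lit 20687, nat_lit 20471, nat_lit 20579, nat_lit 20507, nat_lit 20531, nat_lit 20527, nat_lit 40207] (nat_lit 0) [] false,
   Spec.mk (nat_lit 20527) (nat_lit 0) [nat_lit 7405, nat_lit 21985, nat_lit 20041, nat_lit 20689, nat_lit 20473, nat_lit 20581, nat_lit 20509, nat_lit 20533, nat_lit 20525, nat_lit 40209, nat_lit 845] (nat_lit 0) [] false,
   Spec.mk (nat_lit 20531) (nat_lit 0) [nat_lit 7409, nat_lit 21989, nat_lit 20045, nat_lit 20693, nat_lit 20477, nat_lit 20585, nat_lit 20513, nat_lit 20549, nat_lit 20525, nat_lit 20533, nat_lit 40213] (nat_lit 0) [] false,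
   Spec.mk (nat_lit 20533) (nat_lit 1) [nat_lit 7411, nat_lit 21991, nat_lit 20047, nat_lit 20695, nat_lit 20479, nat_lit 20587, nat_lit 20515, nat_lit 20551, nat_lit 20527, nat_lit 20539, nat_lit 20531, nat_lit 20535, nat_lit 40215, nat_lit 851] (nat_lit 0) [] false,
   Spec.mk (nat_lit 20535) (nat_lit 0) [nat_lit 7413, nat_lit 21993, nat_lit 20049, nat_lit 20697, nat_lit 20481, nat_lit 20589, nat_lit 20517, nat_lit 20553, nat_lit 20541, nat_lit 20533, nat_lit 853] (nat_lit 0) [] false,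
   Spec.mk (nat_lit 20539) (nat_lit 0) [nat_lit 7417, nat_lit 21997, nat_lit 20053, nat_lit 20701, nat_lit 20485, nat_lit 20593, nat_lit 20557, nat_lit 20533, nat_lit 20541, nat_lit 40221, nat_lit 857] (nat_lit 0) [] false,
   Spec.mk (nat_lit 20541) (nat_lit 1) [nat_lit 7419, nat_lit 21999, nat_lit 20055, nat_lit 20703, nat_lit 20487, nat_lit 20595, nat_lit 20559, nat_lit 20535, nat_lit 20539, nat_lit 859] (nat_lit 0) [] false,
   Spec.mk (nat_lit 20549) (nat_lit 0) [nat_lit 7427, nat_lit 22007, nat_lit 20063, nat_lit 20711, nat_lit 20603, nat_lit 20531, nat_lit 20551, nat_lit 40231] (nat_lit 0) [] false,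
   Spec.mk (nat_lit 20551) (nat_lit 0) [nat_lit 7429, nat_lit 22009, nat_lit 20065, nat_lit 20713, nat_lit 20605, nat_lit 20533, nat_lit 20557, nat_lit 20549, nat_lit 20553, nat_lit 40233, nat_lit 869] (nat_lit 0) [] false,
   Spec.mk (nat_lit 20553) (nat_lit 0) [nat_lit 7431, nat_lit 22011, nat_lit 20067, nat_lit 20715, nat_lit 20607, nat_lit 20535, nat_lit 20559, nat_lit 20551, nat_lit 871] (nat_lit 2) [] false,
   Spec.mk (nat_lit 20557) (nat_lit 1) [nat_lit 7435, nat_lit 22015, nat_lit 20071, nat_lit 20719, nat_lit 20611, nat_lit 20539, nat_lit 20551, nat_lit 20559, nat_lit 40239, nat_lit 875] (nat_lit 0) [] false,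
   Spec.mk (nat_lit 20559) (nat_lit 1) [nat_lit 7437, nat_lit 22017, nat_lit 20073, nat_lit 20721, nat_lit 20613, nat_lit 20541, nat_lit 20553, nat_lit 20565, nat_lit 20557, nat_lit 877] (nat_lit 0) [] false,
   Spec.mk (nat_lit 20565) (nat_lit 2) [nat_lit 7443, nat_lit 22023, nat_lit 20079, nat_lit 20727, nat_lit 20619, nat_lit 20559, nat_lit 883] (nat_lit 0) [] false,
   Spec.mk (nat_lit 20579) (nat_lit 0) [nat_lit 7457, nat_lit 22037, nat_lit 20093, nat_lit 20741, nat_lit 20525, nat_lit 20585, nat_lit 20581, nat_lit 40261] (nat_lit 0) [] false,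
   Spec.mk (nat_lit 20581) (nat_lit 0) [nat_lit 7459, nat_lit 22039, nat_lit 20095, nat_lit 20743, nat_lit 20527, nat_lit 20587, nat_lit 20579, nat_lit 40263, nat_lit 899] (nat_lit 1) [] false,
   Spec.mk (nat_lit 20585) (nat_lit 0) [nat_lit 7463, nat_lit 22043, nat_lit 20099, nat_lit 20747, nat_lit 20531, nat_lit 20603, nat_lit 20579, nat_lit 20587, nat_lit 40267] (nat_lit 2) [] false,
   Spec.mk (nat_lit 20587) (nat_lit 0) [nat_lit 7465, nat_lit 22045, nat_lit 20101, nat_lit 20749, nat_lit 20533, nat_lit 20605, nat_lit 20581, nat_lit 20593, nat_lit 20585, nat_lit 20589, nat_lit 40269, nat_lit 905] (nat_lit 1) [] false,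
   Spec.mk (nat_lit 20589) (nat_lit 0) [nat_lit 7467, nat_lit 22047, nat_lit 20103, nat_lit 20751, nat_lit 20535, nat_lit 20607, nat_lit 20595, nat_lit 20587, nat_lit 907] (nat_lit 2) [] false,
   Spec.mk (nat_lit 20593) (nat_lit 0) [nat_lit 7471, nat_lit 22051, nat_lit 20107, nat_lit 20755, nat_lit 20539, nat_lit 20611, nat_lit 20587, nat_lit 20595, nat_lit 40275, nat_lit 911] (nat_lit 3) [] false,
   Spec.mk (nat_lit 20595) (nat_lit 0) [nat_lit 7473, nat_lit 22053, nat_lit 20109, nat_lit 20757, nat_lit 20541, nat_lit 20613, nat_lit 20589, nat_lit 20593, nat_lit 913] (nat_lit 2) [] false,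
   Spec.mk (nat_lit 20603) (nat_lit 0) [nat_lit 7481, nat_lit 22061, nat_lit 20117, nat_lit 20765, nat_lit 20549, nat_lit 20585, nat_lit 20605, nat_lit 40285] (nat_lit 0) [] false,
   Spec.mk (nat_lit 20605) (nat_lit 0) [nat_lit 7483, nat_lit 22063, nat_lit 20119, nat_lit 20767, nat_lit 20551, nat_lit 20587, nat_lit 20611, nat_lit 20603, nat_lit 20607, nat_lit 40287, nat_lit 923] (nat_lit 0) [] false,
   Spec.mk (nat_lit 20607) (nat_lit 0) [nat_lit 7485, nat_lit 22065, nat_lit 20121, nat_lit 20769, nat_lit 20553, nat_lit 20589, nat_lit 20613, nat_lit 20605, nat_lit 925] (nat_lit 2) [] false,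
   Spec.mk (nat_lit 20611) (nat_lit 0) [nat_lit 7489, nat_lit 22069, nat_lit 20125, nat_lit 20773, nat_lit 20557, nat_lit 20593, nat_lit 20629, nat_lit 20605, nat_lit 20613, nat_lit 40293, nat_lit 929] (nat_lit 0) [] false,
   Spec.mk (nat_lit 20613) (nat_lit 0) [nat_lit 7491, nat_lit 22071, nat_lit 20127, nat_lit 20775, nat_lit 20559, nat_lit 20595, nat_lit 20631, nat_lit 20607, nat_lit 20619, nat_lit 20611, nat_lit 931] (nat_lit 0) [] false,
   Spec.mk (nat_lit 20619) (nat_lit 0) [nat_lit 7497, nat_lit 22077, nat_lit 20133, nat_lit 20781, nat_lit 20565, nat_lit 20637, nat_lit 20613, nat_lit 937] (nat_lit 0) [] false,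
   Spec.mk (nat_lit 20629) (nat_lit 1) [nat_lit 7507, nat_lit 22087, nat_lit 20143, nat_lit 20791, nat_lit 20611, nat_lit 20631, nat_lit 40311, nat_lit 947] (nat_lit 0) [] false,
   Spec.mk (nat_lit 20631) (nat_lit 0) [nat_lit 7509, nat_lit 22089, nat_lit 20145, nat_lit 20793, nat_lit 20613, nat_lit 20637, nat_lit 20629, nat_lit 949] (nat_lit 0) [] false,
   Spec.mk (nat_lit 20637) (nat_lit 2) [nat_lit 7515, nat_lit 22095, nat_lit 20151, nat_lit 20799, nat_lit 20619, nat_lit 20631, nat_lit 955] (nat_lit 0) [] false,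
   Spec.mk (nat_lit 20663) (nat_lit 3) [nat_lit 7541, nat_lit 22121, nat_lit 20177, nat_lit 21149, nat_lit 20501, nat_lit 20669, nat_lit 40345] (nat_lit 0) [] false,
   Spec.mk (nat_lit 20669) (nat_lit 2) [nat_lit 7547, nat_lit 22127, nat_lit 20183, nat_lit 21155, nat_lit 20507, nat_lit 20687, nat_lit 20663, nat_lit 20675, nat_lit 20671, nat_lit 40351] (nat_lit 0) [] false,
   Spec.mk (nat_lit 20671) (nat_lit 2) [nat_lit 7549, nat_lit 22129, nat_lit 20185, nat_lit 21157, nat_lit 20509, nat_lit 20689, nat_lit 20677, nat_lit 20669, nat_lit 40353, nat_lit 989] (nat_lit 0) [] false,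
   Spec.mk (nat_lit 20675) (nat_lit 0) [nat_lit 7553, nat_lit 22133, nat_lit 20189, nat_lit 21161, nat_lit 20513, nat_lit 20693, nat_lit 20669, nat_lit 20677, nat_lit 40357] (nat_lit 1) [] false,
   Spec.mk (nat_lit 20677) (nat_lit 1) [nat_lit 7555, nat_lit 22135, nat_lit 20191, nat_lit 21163, nat_lit 20515, nat_lit 20695, nat_lit 20671, nat_lit 20675, nat_lit 20679, nat_lit 40359, nat_lit 995] (nat_lit 0) [] false,
   Spec.mk (nat_lit 20679) (nat_lit 1) [nat_lit 7557, nat_lit 22137, nat_lit 20193, nat_lit 21165, nat_lit 20517, nat_lit 20697, nat_lit 20677, nat_lit 997] (nat_lit 0) [] false,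
   Spec.mk (nat_lit 20687) (nat_lit 1) [nat_lit 7565, nat_lit 22145, nat_lit 20201, nat_lit 21173, nat_lit 20525, nat_lit 20741, nat_lit 20669, nat_lit 20693, nat_lit 20689, nat_lit 40369] (nat_lit 0) [] false,
   Spec.mk (nat_lit 20689) (nat_lit 0) [nat_lit 7567, nat_lit 22147, nat_lit 20203, nat_lit 21175, nat_lit 20527, nat_lit 20743, nat_lit 20671, nat_lit 20695, nat_lit 20687, nat_lit 40371, nat_lit 1007] (nat_lit 0) [] false,
   Spec.mk (nat_lit 20693) (nat_lit 0) [nat_lit 7571, nat_lit 22151, nat_lit 20207, nat_lit 21179, nat_lit 20531, nat_lit 20747, nat_lit 20675, nat_lit 20711, nat_lit 20687, nat_lit 20695, nat_lit 40375] (nat_lit 0) [] false,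
   Spec.mk (nat_lit 20695) (nat_lit 1) [nat_lit 7573, nat_lit 22153, nat_lit 20209, nat_lit 21181, nat_lit 20533, nat_lit 20749, nat_lit 20677, nat_lit 20713, nat_lit 20689, nat_lit 20701, nat_lit 20693, nat_lit 20697, nat_lit 40377, nat_lit 1013] (nat_lit 0) [] false,
   Spec.mk (nat_lit 20697) (nat_lit 0) [nat_lit 7575, nat_lit 22155, nat_lit 20211, nat_lit 21183, nat_lit 20535, nat_lit 20751, nat_lit 20679, nat_lit 20715, nat_lit 20703, nat_lit 20695, nat_lit 1015] (nat_lit 0) [] false,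
   Spec.mk (nat_lit 20701) (nat_lit 0) [nat_lit 7579, nat_lit 22159, nat_lit 20215, nat_lit 21187, nat_lit 20539, nat_lit 20755, nat_lit 20719, nat_lit 20695, nat_lit 20703, nat_lit 40383, nat_lit 1019] (nat_lit 0) [] false,
   Spec.mk (nat_lit 20703) (nat_lit 1) [nat_lit 7581, nat_lit 22161, nat_lit 20217, nat_lit 21189, nat_lit 20541, nat_lit 20757, nat_lit 20721, nat_lit 20697, nat_lit 20701, nat_lit 1021] (nat_lit 0) [] false,
   Spec.mk (nat_lit 20711) (nat_lit 0) [nat_lit 7589, nat_lit 22169, nat_lit 20225, nat_lit 21197, nat_lit 20549, nat_lit 20765, nat_lit 20693, nat_lit 20713, nat_lit 40393] (nat_lit 1) [] false,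
   Spec.mk (nat_lit 20713) (nat_lit 0) [nat_lit 7591, nat_lit 22171, nat_lit 20227, nat_lit 21199, nat_lit 20551, nat_lit 20767, nat_lit 20695, nat_lit 20719, nat_lit 20711, nat_lit 20715, nat_lit 40395, nat_lit 1031] (nat_lit 1) [] false,
   Spec.mk (nat_lit 20715) (nat_lit 0) [nat_lit 7593, nat_lit 22173, nat_lit 20229, nat_lit 21201, nat_lit 20553, nat_lit 20769, nat_lit 20697, nat_lit 20721, nat_lit 20713, nat_lit 1033] (nat_lit 3) [] false,
   Spec.mk (nat_lit 20719) (nat_lit 0) [nat_lit 7597, nat_lit 22177, nat_lit 20233, nat_lit 21205, nat_lit 20557, nat_lit 20773, nat_lit 20701, nat_lit 20713, nat_lit 20721, nat_lit 40401, nat_lit 1037] (nat_lit 0) [] false,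
   Spec.mk (nat_lit 20721) (nat_lit 0) [nat_lit 7599, nat_lit 22179, nat_lit 20235, nat_lit 21207, nat_lit 20559, nat_lit 20775, nat_lit 20703, nat_lit 20715, nat_lit 20727, nat_lit 20719, nat_lit 1039] (nat_lit 0) [] false,
   Spec.mk (nat_lit 20727) (nat_lit 1) [nat_lit 7605, nat_lit 22185, nat_lit 20241, nat_lit 21213, nat_lit 20565, nat_lit 20781, nat_lit 20721, nat_lit 1045] (nat_lit 0) [] false,
   Spec.mk (nat_lit 20741) (nat_lit 2) [nat_lit 7619, nat_lit 22199, nat_lit 20255, nat_lit 21227, nat_lit 20579, nat_lit 20903, nat_lit 20687, nat_lit 20747, nat_lit 20743, nat_lit 40423] (nat_lit 0) [] false,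
   Spec.mk (nat_lit 20743) (nat_lit 1) [nat_lit 7621, nat_lit 22201, nat_lit 20257, nat_lit 21229, nat_lit 20581, nat_lit 20905, nat_lit 20689, nat_lit 20749, nat_lit 20741, nat_lit 40425, nat_lit 1061] (nat_lit 0) [] false,
   Spec.mk (nat_lit 20747) (nat_lit 0) [nat_lit 7625, nat_lit 22205, nat_lit 20261, nat_lit 21233, nat_lit 20585, nat_lit 20909, nat_lit 20693, nat_lit 20765, nat_lit 20741, nat_lit 20749, nat_lit 40429] (nat_lit 0) [] false,
   Spec.mk (nat_lit 20749) (nat_lit 1) [nat_lit 7627, nat_lit 22207, nat_lit 20263, nat_lit 21235, nat_lit 20587, nat_lit 20911, nat_lit 20695, nat_lit 20767, nat_lit 20743, nat_lit 20755, nat_lit 20747, nat_lit 20751, nat_lit 40431, nat_lit 1067] (nat_lit 0) [] false,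
   Spec.mk (nat_lit 20751) (nat_lit 0) [nat_lit 7629, nat_lit 22209, nat_lit 20265, nat_lit 21237, nat_lit 20589, nat_lit 20913, nat_lit 20697, nat_lit 20769, nat_lit 20757, nat_lit 20749, nat_lit 1069] (nat_lit 0) [] false]

noncomputable def sp42 : List Spec :=
  [Spec.mk (nat_lit 20755) (nat_lit 0) [nat_lit 7633, nat_lit 22213, nat_lit 20269, nat_lit 21241, nat_lit 20593, nat_lit 20917, nat_lit 20701, nat_lit 20773, nat_lit 20749, nat_lit 20757, nat_lit 40437, nat_lit 1073] (nat_lit 1) [] false,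
   Spec.mk (nat_lit 20757) (nat_lit 0) [nat_lit 7635, nat_lit 22215, nat_lit 20271, nat_lit 21243, nat_lit 20595, nat_lit 20919, nat_lit 20703, nat_lit 20775, nat_lit 20751, nat_lit 20755, nat_lit 1075] (nat_lit 0) [] false,
   Spec.mk (nat_lit 20765) (nat_lit 1) [nat_lit 7643, nat_lit 22223, nat_lit 20279, nat_lit 21251, nat_lit 20603, nat_lit 20927, nat_lit 20711, nat_lit 20819, nat_lit 20747, nat_lit 20767, nat_lit 40447] (nat_lit 0) [] false,
   Spec.mk (nat_lit 20767) (nat_lit 1) [nat_lit 7645, nat_lit 22225, nat_lit 20281, nat_lit 21253, nat_lit 20605, nat_lit 20929, nat_lit 20713, nat_lit 20821, nat_lit 20749, nat_lit 20773, nat_lit 20765, nat_lit 20769, nat_lit 40449, nat_lit 1085] (nat_lit 0) [] false,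
   Spec.mk (nat_lit 20769) (nat_lit 0) [nat_lit 7647, nat_lit 22227, nat_lit 20283, nat_lit 21255, nat_lit 20607, nat_lit 20931, nat_lit 20715, nat_lit 20823, nat_lit 20751, nat_lit 20775, nat_lit 20767, nat_lit 1087] (nat_lit 1) [] false,
   Spec.mk (nat_lit 20773) (nat_lit 1) [nat_lit 7651, nat_lit 22231, nat_lit 20287, nat_lit 21259, nat_lit 20611, nat_lit 20935, nat_lit 20719, nat_lit 20827, nat_lit 20755, nat_lit 20791, nat_lit 20767, nat_lit 20775, nat_lit 40455, nat_lit 1091] (nat_lit 0) [] false,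
   Spec.mk (nat_lit 20775) (nat_lit 1) [nat_lit 7653, nat_lit 22233, nat_lit 20289, nat_lit 21261, nat_lit 20613, nat_lit 20937, nat_lit 20721, nat_lit 20829, nat_lit 20757, nat_lit 20793, nat_lit 20769, nat_lit 20781, nat_lit 20773, nat_lit 1093] (nat_lit 0) [] false,
   Spec.mk (nat_lit 20781) (nat_lit 1) [nat_lit 7659, nat_lit 22239, nat_lit 20295, nat_lit 21267, nat_lit 20619, nat_lit 20943, nat_lit 20727, nat_lit 20835, nat_lit 20799, nat_lit 20775, nat_lit 1099] (nat_lit 0) [] false,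
   Spec.mk (nat_lit 20791) (nat_lit 1) [nat_lit 7669, nat_lit 22249, nat_lit 20305, nat_lit 21277, nat_lit 20629, nat_lit 20953, nat_lit 20845, nat_lit 20773, nat_lit 20793, nat_lit 40473, nat_lit 1109] (nat_lit 0) [] false,
   Spec.mk (nat_lit 20793) (nat_lit 0) [nat_lit 7671, nat_lit 22251, nat_lit 20307, nat_lit 21279, nat_lit 20631, nat_lit 20955, nat_lit 20847, nat_lit 20775, nat_lit 20799, nat_lit 20791, nat_lit 1111] (nat_lit 0) [] false,
   Spec.mk (nat_lit 20799) (nat_lit 2) [nat_lit 7677, nat_lit 22257, nat_lit 20313, nat_lit 21285, nat_lit 20637, nat_lit 20961, nat_lit 20853, nat_lit 20781, nat_lit 20793, nat_lit 1117] (nat_lit 0) [] false,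
   Spec.mk (nat_lit 20819) (nat_lit 1) [nat_lit 7697, nat_lit 22277, nat_lit 20333, nat_lit 21305, nat_lit 20981, nat_lit 20765, nat_lit 20821, nat_lit 40501] (nat_lit 0) [] false,
   Spec.mk (nat_lit 20821) (nat_lit 1) [nat_lit 7699, nat_lit 22279, nat_lit 20335, nat_lit 21307, nat_lit 20983, nat_lit 20767, nat_lit 20827, nat_lit 20819, nat_lit 20823, nat_lit 40503, nat_lit 1139] (nat_lit 0) [] false,
   Spec.mk (nat_lit 20823) (nat_lit 0) [nat_lit 7701, nat_lit 22281, nat_lit 20337, nat_lit 21309, nat_lit 20985, nat_lit 20769, nat_lit 20829, nat_lit 20821, nat_lit 1141] (nat_lit 1) [] false,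
   Spec.mk (nat_lit 20827) (nat_lit 0) [nat_lit 7705, nat_lit 22285, nat_lit 20341, nat_lit 21313, nat_lit 20989, nat_lit 20773, nat_lit 20845, nat_lit 20821, nat_lit 20829, nat_lit 40509, nat_lit 1145] (nat_lit 0) [] false,
   Spec.mk (nat_lit 20829) (nat_lit 0) [nat_lit 7707, nat_lit 22287, nat_lit 20343, nat_lit 21315, nat_lit 20991, nat_lit 20775, nat_lit 20847, nat_lit 20823, nat_lit 20835, nat_lit 20827, nat_lit 1147] (nat_lit 0) [] false,
   Spec.mk (nat_lit 20835) (nat_lit 0) [nat_lit 7713, nat_lit 22293, nat_lit 20349, nat_lit 21321, nat_lit 20997, nat_lit 20781, nat_lit 20853, nat_lit 20829, nat_lit 1153] (nat_lit 1) [] false,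
   Spec.mk (nat_lit 20845) (nat_lit 2) [nat_lit 7723, nat_lit 22303, nat_lit 20359, nat_lit 21331, nat_lit 21007, nat_lit 20791, nat_lit 20827, nat_lit 20847, nat_lit 40527, nat_lit 1163] (nat_lit 0) [] false,
   Spec.mk (nat_lit 20847) (nat_lit 1) [nat_lit 7725, nat_lit 22305, nat_lit 20361, nat_lit 21333, nat_lit 21009, nat_lit 20793, nat_lit 20829, nat_lit 20853, nat_lit 20845, nat_lit 1165] (nat_lit 0) [] false,
   Spec.mk (nat_lit 20853) (nat_lit 2) [nat_lit 7731, nat_lit 22311, nat_lit 20367, nat_lit 21339, nat_lit 21015, nat_lit 20799, nat_lit 20835, nat_lit 20871, nat_lit 20847, nat_lit 1171] (nat_lit 0) [] false,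
   Spec.mk (nat_lit 20871) (nat_lit 3) [nat_lit 7749, nat_lit 22329, nat_lit 20385, nat_lit 21357, nat_lit 21033, nat_lit 20853, nat_lit 1189] (nat_lit 0) [] false,
   Spec.mk (nat_lit 20903) (nat_lit 2) [nat_lit 7781, nat_lit 22361, nat_lit 21389, nat_lit 20741, nat_lit 20909, nat_lit 20905, nat_lit 40585] (nat_lit 0) [] false,
   Spec.mk (nat_lit 20905) (nat_lit 1) [nat_lit 7783, nat_lit 22363, nat_lit 21391, nat_lit 20743, nat_lit 20911, nat_lit 20903, nat_lit 40587, nat_lit 1223] (nat_lit 0) [] false,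
   Spec.mk (nat_lit 20909) (nat_lit 0) [nat_lit 7787, nat_lit 22367, nat_lit 21395, nat_lit 20747, nat_lit 20927, nat_lit 20903, nat_lit 20911, nat_lit 40591] (nat_lit 0) [] false,
   Spec.mk (nat_lit 20911) (nat_lit 1) [nat_lit 7789, nat_lit 22369, nat_lit 21397, nat_lit 20749, nat_lit 20929, nat_lit 20905, nat_lit 20917, nat_lit 20909, nat_lit 20913, nat_lit 40593, nat_lit 1229] (nat_lit 0) [] false,
   Spec.mk (nat_lit 20913) (nat_lit 0) [nat_lit 7791, nat_lit 22371, nat_lit 21399, nat_lit 20751, nat_lit 20931, nat_lit 20919, nat_lit 20911, nat_lit 1231] (nat_lit 0) [] false,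
   Spec.mk (nat_lit 20917) (nat_lit 0) [nat_lit 7795, nat_lit 22375, nat_lit 21403, nat_lit 20755, nat_lit 20935, nat_lit 20911, nat_lit 20919, nat_lit 40599, nat_lit 1235] (nat_lit 1) [] false,
   Spec.mk (nat_lit 20919) (nat_lit 0) [nat_lit 7797, nat_lit 22377, nat_lit 21405, nat_lit 20757, nat_lit 20937, nat_lit 20913, nat_lit 20917, nat_lit 1237] (nat_lit 0) [] false,
   Spec.mk (nat_lit 20927) (nat_lit 0) [nat_lit 7805, nat_lit 22385, nat_lit 21413, nat_lit 20765, nat_lit 20981, nat_lit 20909, nat_lit 20929, nat_lit 40609] (nat_lit 0) [] false,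
   Spec.mk (nat_lit 20929) (nat_lit 0) [nat_lit 7807, nat_lit 22387, nat_lit 21415, nat_lit 20767, nat_lit 20983, nat_lit 20911, nat_lit 20935, nat_lit 20927, nat_lit 20931, nat_lit 40611, nat_lit 1247] (nat_lit 0) [] false,
   Spec.mk (nat_lit 20931) (nat_lit 0) [nat_lit 7809, nat_lit 22389, nat_lit 21417, nat_lit 20769, nat_lit 20985, nat_lit 20913, nat_lit 20937, nat_lit 20929, nat_lit 1249] (nat_lit 2) [] false,
   Spec.mk (nat_lit 20935) (nat_lit 0) [nat_lit 7813, nat_lit 22393, nat_lit 21421, nat_lit 20773, nat_lit 20989, nat_lit 20917, nat_lit 20953, nat_lit 20929, nat_lit 20937, nat_lit 40617, nat_lit 1253] (nat_lit 0) [] false,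
   Spec.mk (nat_lit 20937) (nat_lit 0) [nat_lit 7815, nat_lit 22395, nat_lit 21423, nat_lit 20775, nat_lit 20991, nat_lit 20919, nat_lit 20955, nat_lit 20931, nat_lit 20943, nat_lit 20935, nat_lit 1255] (nat_lit 0) [] false,
   Spec.mk (nat_lit 20943) (nat_lit 0) [nat_lit 7821, nat_lit 22401, nat_lit 21429, nat_lit 20781, nat_lit 20997, nat_lit 20961, nat_lit 20937, nat_lit 1261] (nat_lit 0) [] false,
   Spec.mk (nat_lit 20953) (nat_lit 0) [nat_lit 7831, nat_lit 22411, nat_lit 21439, nat_lit 20791, nat_lit 21007, nat_lit 20935, nat_lit 20955, nat_lit 40635, nat_lit 1271] (nat_lit 1) [] false,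
   Spec.mk (nat_lit 20955) (nat_lit 0) [nat_lit 7833, nat_lit 22413, nat_lit 21441, nat_lit 20793, nat_lit 21009, nat_lit 20937, nat_lit 20961, nat_lit 20953, nat_lit 1273] (nat_lit 2) [] false,
   Spec.mk (nat_lit 20961) (nat_lit 0) [nat_lit 7839, nat_lit 22419, nat_lit 21447, nat_lit 20799, nat_lit 21015, nat_lit 20943, nat_lit 20955, nat_lit 1279] (nat_lit 0) [] false,
   Spec.mk (nat_lit 20981) (nat_lit 2) [nat_lit 7859, nat_lit 22439, nat_lit 21467, nat_lit 20819, nat_lit 20927, nat_lit 20983, nat_lit 40663] (nat_lit 0) [] false,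
   Spec.mk (nat_lit 20983) (nat_lit 2) [nat_lit 7861, nat_lit 22441, nat_lit 21469, nat_lit 20821, nat_lit 20929, nat_lit 20989, nat_lit 20981, nat_lit 20985, nat_lit 40665, nat_lit 1301] (nat_lit 0) [] false,
   Spec.mk (nat_lit 20985) (nat_lit 0) [nat_lit 7863, nat_lit 22443, nat_lit 21471, nat_lit 20823, nat_lit 20931, nat_lit 20991, nat_lit 20983, nat_lit 1303] (nat_lit 0) [] false,
   Spec.mk (nat_lit 20989) (nat_lit 1) [nat_lit 7867, nat_lit 22447, nat_lit 21475, nat_lit 20827, nat_lit 20935, nat_lit 21007, nat_lit 20983, nat_lit 20991, nat_lit 40671, nat_lit 1307] (nat_lit 0) [] false,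
   Spec.mk (nat_lit 20991) (nat_lit 1) [nat_lit 7869, nat_lit 22449, nat_lit 21477, nat_lit 20829, nat_lit 20937, nat_lit 21009, nat_lit 20985, nat_lit 20997, nat_lit 20989, nat_lit 1309] (nat_lit 0) [] false,
   Spec.mk (nat_lit 20997) (nat_lit 0) [nat_lit 7875, nat_lit 22455, nat_lit 21483, nat_lit 20835, nat_lit 20943, nat_lit 21015, nat_lit 20991, nat_lit 1315] (nat_lit 0) [] false,
   Spec.mk (nat_lit 21007) (nat_lit 2) [nat_lit 7885, nat_lit 22465, nat_lit 21493, nat_lit 20845, nat_lit 20953, nat_lit 21061, nat_lit 20989, nat_lit 21009, nat_lit 40689, nat_lit 1325] (nat_lit 0) [] false,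
   Spec.mk (nat_lit 21009) (nat_lit 1) [nat_lit 7887, nat_lit 22467, nat_lit 21495, nat_lit 20847, nat_lit 20955, nat_lit 21063, nat_lit 20991, nat_lit 21015, nat_lit 21007, nat_lit 1327] (nat_lit 0) [] false,
   Spec.mk (nat_lit 21015) (nat_lit 2) [nat_lit 7893, nat_lit 22473, nat_lit 21501, nat_lit 20853, nat_lit 20961, nat_lit 21069, nat_lit 20997, nat_lit 21033, nat_lit 21009, nat_lit 1333] (nat_lit 0) [] false,
   Spec.mk (nat_lit 21033) (nat_lit 2) [nat_lit 7911, nat_lit 22491, nat_lit 21519, nat_lit 20871, nat_lit 21087, nat_lit 21015, nat_lit 1351] (nat_lit 0) [] false,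
   Spec.mk (nat_lit 21061) (nat_lit 3) [nat_lit 7939, nat_lit 22519, nat_lit 21547, nat_lit 21007, nat_lit 21063, nat_lit 40743, nat_lit 1379] (nat_lit 0) [] false,
   Spec.mk (nat_lit 21063) (nat_lit 2) [nat_lit 7941, nat_lit 22521, nat_lit 21549, nat_lit 21009, nat_lit 21069, nat_lit 21061, nat_lit 1381] (nat_lit 0) [] false,
   Spec.mk (nat_lit 21069) (nat_lit 2) [nat_lit 7947, nat_lit 22527, nat_lit 21555, nat_lit 21015, nat_lit 21087, nat_lit 21063, nat_lit 1387] (nat_lit 0) [] false,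
   Spec.mk (nat_lit 21087) (nat_lit 4) [nat_lit 7965, nat_lit 22545, nat_lit 21573, nat_lit 21033, nat_lit 21069, nat_lit 1405] (nat_lit 0) [] false,
   Spec.mk (nat_lit 21149) (nat_lit 2) [nat_lit 8027, nat_lit 22607, nat_lit 20663, nat_lit 21155, nat_lit 40831] (nat_lit 0) [] false,
   Spec.mk (nat_lit 21155) (nat_lit 1) [nat_lit 8033, nat_lit 22613, nat_lit 20669, nat_lit 21173, nat_lit 21149, nat_lit 21161, nat_lit 21157, nat_lit 40837] (nat_lit 0) [] false,
   Spec.mk (nat_lit 21157) (nat_lit 1) [nat_lit 8035, nat_lit 22615, nat_lit 20671, nat_lit 21175, nat_lit 21163, nat_lit 21155, nat_lit 40839, nat_lit 1475] (nat_lit 0) [] false,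
   Spec.mk (nat_lit 21161) (nat_lit 0) [nat_lit 8039, nat_lit 22619, nat_lit 20675, nat_lit 21179, nat_lit 21155, nat_lit 21163, nat_lit 40843] (nat_lit 2) [] false,
   Spec.mk (nat_lit 21163) (nat_lit 0) [nat_lit 8041, nat_lit 22621, nat_lit 20677, nat_lit 21181, nat_lit 21157, nat_lit 21161, nat_lit 21165, nat_lit 40845, nat_lit 1481] (nat_lit 0) [] false,
   Spec.mk (nat_lit 21165) (nat_lit 0) [nat_lit 8043, nat_lit 22623, nat_lit 20679, nat_lit 21183, nat_lit 21163, nat_lit 1483] (nat_lit 0) [] false,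
   Spec.mk (nat_lit 21173) (nat_lit 0) [nat_lit 8051, nat_lit 22631, nat_lit 20687, nat_lit 21227, nat_lit 21155, nat_lit 21179, nat_lit 21175, nat_lit 40855] (nat_lit 0) [] false,
   Spec.mk (nat_lit 21175) (nat_lit 0) [nat_lit 8053, nat_lit 22633, nat_lit 20689, nat_lit 21229, nat_lit 21157, nat_lit 21181, nat_lit 21173, nat_lit 40857, nat_lit 1493] (nat_lit 1) [] false,
   Spec.mk (nat_lit 21179) (nat_lit 0) [nat_lit 8057, nat_lit 22637, nat_lit 20693, nat_lit 21233, nat_lit 21161, nat_lit 21197, nat_lit 21173, nat_lit 21181, nat_lit 40861] (nat_lit 1) [] false]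

noncomputable def sp43 : List Spec :=
  [Spec.mk (nat_lit 21181) (nat_lit 0) [nat_lit 8059, nat_lit 22639, nat_lit 20695, nat_lit 21235, nat_lit 21163, nat_lit 21199, nat_lit 21175, nat_lit 21187, nat_lit 21179, nat_lit 21183, nat_lit 40863, nat_lit 1499] (nat_lit 0) [] false,
   Spec.mk (nat_lit 21183) (nat_lit 0) [nat_lit 8061, nat_lit 22641, nat_lit 20697, nat_lit 21237, nat_lit 21165, nat_lit 21201, nat_lit 21189, nat_lit 21181, nat_lit 1501] (nat_lit 1) [] false,
   Spec.mk (nat_lit 21187) (nat_lit 0) [nat_lit 8065, nat_lit 22645, nat_lit 20701, nat_lit 21241, nat_lit 21205, nat_lit 21181, nat_lit 21189, nat_lit 40869, nat_lit 1505] (nat_lit 1) [] false,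
   Spec.mk (nat_lit 21189) (nat_lit 0) [nat_lit 8067, nat_lit 22647, nat_lit 20703, nat_lit 21243, nat_lit 21207, nat_lit 21183, nat_lit 21187, nat_lit 1507] (nat_lit 0) [] false,
   Spec.mk (nat_lit 21197) (nat_lit 0) [nat_lit 8075, nat_lit 22655, nat_lit 20711, nat_lit 21251, nat_lit 21179, nat_lit 21199, nat_lit 40879] (nat_lit 2) [] false,
   Spec.mk (nat_lit 21199) (nat_lit 0) [nat_lit 8077, nat_lit 22657, nat_lit 20713, nat_lit 21253, nat_lit 21181, nat_lit 21205, nat_lit 21197, nat_lit 21201, nat_lit 40881, nat_lit 1517] (nat_lit 2) [] false,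
   Spec.mk (nat_lit 21201) (nat_lit 0) [nat_lit 8079, nat_lit 22659, nat_lit 20715, nat_lit 21255, nat_lit 21183, nat_lit 21207, nat_lit 21199, nat_lit 1519] (nat_lit 4) [] false,
   Spec.mk (nat_lit 21205) (nat_lit 0) [nat_lit 8083, nat_lit 22663, nat_lit 20719, nat_lit 21259, nat_lit 21187, nat_lit 21199, nat_lit 21207, nat_lit 40887, nat_lit 1523] (nat_lit 1) [] false,
   Spec.mk (nat_lit 21207) (nat_lit 0) [nat_lit 8085, nat_lit 22665, nat_lit 20721, nat_lit 21261, nat_lit 21189, nat_lit 21201, nat_lit 21213, nat_lit 21205, nat_lit 1525] (nat_lit 1) [] false,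
   Spec.mk (nat_lit 21213) (nat_lit 0) [nat_lit 8091, nat_lit 22671, nat_lit 20727, nat_lit 21267, nat_lit 21207, nat_lit 1531] (nat_lit 0) [] false,
   Spec.mk (nat_lit 21227) (nat_lit 0) [nat_lit 8105, nat_lit 22685, nat_lit 20741, nat_lit 21389, nat_lit 21173, nat_lit 21233, nat_lit 21229, nat_lit 40909] (nat_lit 0) [] false,
   Spec.mk (nat_lit 21229) (nat_lit 0) [nat_lit 8107, nat_lit 22687, nat_lit 20743, nat_lit 21391, nat_lit 21175, nat_lit 21235, nat_lit 21227, nat_lit 40911, nat_lit 1547] (nat_lit 1) [] false,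
   Spec.mk (nat_lit 21233) (nat_lit 0) [nat_lit 8111, nat_lit 22691, nat_lit 20747, nat_lit 21395, nat_lit 21179, nat_lit 21251, nat_lit 21227, nat_lit 21235, nat_lit 40915] (nat_lit 2) [] false,
   Spec.mk (nat_lit 21235) (nat_lit 0) [nat_lit 8113, nat_lit 22693, nat_lit 20749, nat_lit 21397, nat_lit 21181, nat_lit 21253, nat_lit 21229, nat_lit 21241, nat_lit 21233, nat_lit 21237, nat_lit 40917, nat_lit 1553] (nat_lit 1) [] false,
   Spec.mk (nat_lit 21237) (nat_lit 0) [nat_lit 8115, nat_lit 22695, nat_lit 20751, nat_lit 21399, nat_lit 21183, nat_lit 21255, nat_lit 21243, nat_lit 21235, nat_lit 1555] (nat_lit 2) [] false,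
   Spec.mk (nat_lit 21241) (nat_lit 0) [nat_lit 8119, nat_lit 22699, nat_lit 20755, nat_lit 21403, nat_lit 21187, nat_lit 21259, nat_lit 21235, nat_lit 21243, nat_lit 40923, nat_lit 1559] (nat_lit 3) [] false,
   Spec.mk (nat_lit 21243) (nat_lit 0) [nat_lit 8121, nat_lit 22701, nat_lit 20757, nat_lit 21405, nat_lit 21189, nat_lit 21261, nat_lit 21237, nat_lit 21241, nat_lit 1561] (nat_lit 2) [] false,
   Spec.mk (nat_lit 21251) (nat_lit 0) [nat_lit 8129, nat_lit 22709, nat_lit 20765, nat_lit 21413, nat_lit 21197, nat_lit 21305, nat_lit 21233, nat_lit 21253, nat_lit 40933] (nat_lit 1) [] false,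
   Spec.mk (nat_lit 21253) (nat_lit 0) [nat_lit 8131, nat_lit 22711, nat_lit 20767, nat_lit 21415, nat_lit 21199, nat_lit 21307, nat_lit 21235, nat_lit 21259, nat_lit 21251, nat_lit 21255, nat_lit 40935, nat_lit 1571] (nat_lit 1) [] false,
   Spec.mk (nat_lit 21255) (nat_lit 0) [nat_lit 8133, nat_lit 22713, nat_lit 20769, nat_lit 21417, nat_lit 21201, nat_lit 21309, nat_lit 21237, nat_lit 21261, nat_lit 21253, nat_lit 1573] (nat_lit 3) [] false,
   Spec.mk (nat_lit 21259) (nat_lit 0) [nat_lit 8137, nat_lit 22717, nat_lit 20773, nat_lit 21421, nat_lit 21205, nat_lit 21313, nat_lit 21241, nat_lit 21277, nat_lit 21253, nat_lit 21261, nat_lit 40941, nat_lit 1577] (nat_lit 1) [] false,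
   Spec.mk (nat_lit 21261) (nat_lit 0) [nat_lit 8139, nat_lit 22719, nat_lit 20775, nat_lit 21423, nat_lit 21207, nat_lit 21315, nat_lit 21243, nat_lit 21279, nat_lit 21255, nat_lit 21267, nat_lit 21259, nat_lit 1579] (nat_lit 1) [] false,
   Spec.mk (nat_lit 21267) (nat_lit 0) [nat_lit 8145, nat_lit 22725, nat_lit 20781, nat_lit 21429, nat_lit 21213, nat_lit 21321, nat_lit 21285, nat_lit 21261, nat_lit 1585] (nat_lit 1) [] false,
   Spec.mk (nat_lit 21277) (nat_lit 0) [nat_lit 8155, nat_lit 22735, nat_lit 20791, nat_lit 21439, nat_lit 21331, nat_lit 21259, nat_lit 21279, nat_lit 40959, nat_lit 1595] (nat_lit 1) [] false,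
   Spec.mk (nat_lit 21279) (nat_lit 0) [nat_lit 8157, nat_lit 22737, nat_lit 20793, nat_lit 21441, nat_lit 21333, nat_lit 21261, nat_lit 21285, nat_lit 21277, nat_lit 1597] (nat_lit 2) [] false,
   Spec.mk (nat_lit 21285) (nat_lit 0) [nat_lit 8163, nat_lit 22743, nat_lit 20799, nat_lit 21447, nat_lit 21339, nat_lit 21267, nat_lit 21279, nat_lit 1603] (nat_lit 0) [] false,
   Spec.mk (nat_lit 21305) (nat_lit 0) [nat_lit 8183, nat_lit 22763, nat_lit 20819, nat_lit 21467, nat_lit 21251, nat_lit 21307, nat_lit 40987] (nat_lit 2) [] false,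
   Spec.mk (nat_lit 21307) (nat_lit 0) [nat_lit 8185, nat_lit 22765, nat_lit 20821, nat_lit 21469, nat_lit 21253, nat_lit 21313, nat_lit 21305, nat_lit 21309, nat_lit 40989, nat_lit 1625] (nat_lit 2) [] false,
   Spec.mk (nat_lit 21309) (nat_lit 0) [nat_lit 8187, nat_lit 22767, nat_lit 20823, nat_lit 21471, nat_lit 21255, nat_lit 21315, nat_lit 21307, nat_lit 1627] (nat_lit 4) [] false,
   Spec.mk (nat_lit 21313) (nat_lit 0) [nat_lit 8191, nat_lit 22771, nat_lit 20827, nat_lit 21475, nat_lit 21259, nat_lit 21331, nat_lit 21307, nat_lit 21315, nat_lit 40995, nat_lit 1631] (nat_lit 3) [] false,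
   Spec.mk (nat_lit 21315) (nat_lit 0) [nat_lit 8193, nat_lit 22773, nat_lit 20829, nat_lit 21477, nat_lit 21261, nat_lit 21333, nat_lit 21309, nat_lit 21321, nat_lit 21313, nat_lit 1633] (nat_lit 3) [] false,
   Spec.mk (nat_lit 21321) (nat_lit 0) [nat_lit 8199, nat_lit 22779, nat_lit 20835, nat_lit 21483, nat_lit 21267, nat_lit 21339, nat_lit 21315, nat_lit 1639] (nat_lit 4) [] false,
   Spec.mk (nat_lit 21331) (nat_lit 0) [nat_lit 8209, nat_lit 22789, nat_lit 20845, nat_lit 21493, nat_lit 21277, nat_lit 21313, nat_lit 21333, nat_lit 41013, nat_lit 1649] (nat_lit 1) [] false,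
   Spec.mk (nat_lit 21333) (nat_lit 0) [nat_lit 8211, nat_lit 22791, nat_lit 20847, nat_lit 21495, nat_lit 21279, nat_lit 21315, nat_lit 21339, nat_lit 21331, nat_lit 1651] (nat_lit 2) [] false,
   Spec.mk (nat_lit 21339) (nat_lit 0) [nat_lit 8217, nat_lit 22797, nat_lit 20853, nat_lit 21501, nat_lit 21285, nat_lit 21321, nat_lit 21357, nat_lit 21333, nat_lit 1657] (nat_lit 1) [] false,
   Spec.mk (nat_lit 21357) (nat_lit 0) [nat_lit 8235, nat_lit 22815, nat_lit 20871, nat_lit 21519, nat_lit 21339, nat_lit 1675] (nat_lit 0) [] false,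
   Spec.mk (nat_lit 21389) (nat_lit 2) [nat_lit 8267, nat_lit 22847, nat_lit 20903, nat_lit 21227, nat_lit 21395, nat_lit 21391, nat_lit 41071] (nat_lit 0) [] false,
   Spec.mk (nat_lit 21391) (nat_lit 1) [nat_lit 8269, nat_lit 22849, nat_lit 20905, nat_lit 21229, nat_lit 21397, nat_lit 21389, nat_lit 41073, nat_lit 1709] (nat_lit 0) [] false,
   Spec.mk (nat_lit 21395) (nat_lit 0) [nat_lit 8273, nat_lit 22853, nat_lit 20909, nat_lit 21233, nat_lit 21413, nat_lit 21389, nat_lit 21397, nat_lit 41077] (nat_lit 0) [] false,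
   Spec.mk (nat_lit 21397) (nat_lit 1) [nat_lit 8275, nat_lit 22855, nat_lit 20911, nat_lit 21235, nat_lit 21415, nat_lit 21391, nat_lit 21403, nat_lit 21395, nat_lit 21399, nat_lit 41079, nat_lit 1715] (nat_lit 0) [] false,
   Spec.mk (nat_lit 21399) (nat_lit 0) [nat_lit 8277, nat_lit 22857, nat_lit 20913, nat_lit 21237, nat_lit 21417, nat_lit 21405, nat_lit 21397, nat_lit 1717] (nat_lit 0) [] false,
   Spec.mk (nat_lit 21403) (nat_lit 0) [nat_lit 8281, nat_lit 22861, nat_lit 20917, nat_lit 21241, nat_lit 21421, nat_lit 21397, nat_lit 21405, nat_lit 41085, nat_lit 1721] (nat_lit 1) [] false,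
   Spec.mk (nat_lit 21405) (nat_lit 0) [nat_lit 8283, nat_lit 22863, nat_lit 20919, nat_lit 21243, nat_lit 21423, nat_lit 21399, nat_lit 21403, nat_lit 1723] (nat_lit 0) [] false,
   Spec.mk (nat_lit 21413) (nat_lit 0) [nat_lit 8291, nat_lit 22871, nat_lit 20927, nat_lit 21251, nat_lit 21467, nat_lit 21395, nat_lit 21415, nat_lit 41095] (nat_lit 0) [] false,
   Spec.mk (nat_lit 21415) (nat_lit 0) [nat_lit 8293, nat_lit 22873, nat_lit 20929, nat_lit 21253, nat_lit 21469, nat_lit 21397, nat_lit 21421, nat_lit 21413, nat_lit 21417, nat_lit 41097, nat_lit 1733] (nat_lit 0) [] false,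
   Spec.mk (nat_lit 21417) (nat_lit 0) [nat_lit 8295, nat_lit 22875, nat_lit 20931, nat_lit 21255, nat_lit 21471, nat_lit 21399, nat_lit 21423, nat_lit 21415, nat_lit 1735] (nat_lit 2) [] false,
   Spec.mk (nat_lit 21421) (nat_lit 0) [nat_lit 8299, nat_lit 22879, nat_lit 20935, nat_lit 21259, nat_lit 21475, nat_lit 21403, nat_lit 21439, nat_lit 21415, nat_lit 21423, nat_lit 41103, nat_lit 1739] (nat_lit 0) [] false,
   Spec.mk (nat_lit 21423) (nat_lit 0) [nat_lit 8301, nat_lit 22881, nat_lit 20937, nat_lit 21261, nat_lit 21477, nat_lit 21405, nat_lit 21441, nat_lit 21417, nat_lit 21429, nat_lit 21421, nat_lit 1741] (nat_lit 0) [] false,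
   Spec.mk (nat_lit 21429) (nat_lit 0) [nat_lit 8307, nat_lit 22887, nat_lit 20943, nat_lit 21267, nat_lit 21483, nat_lit 21447, nat_lit 21423, nat_lit 1747] (nat_lit 0) [] false,
   Spec.mk (nat_lit 21439) (nat_lit 0) [nat_lit 8317, nat_lit 22897, nat_lit 20953, nat_lit 21277, nat_lit 21493, nat_lit 21421, nat_lit 21441, nat_lit 41121, nat_lit 1757] (nat_lit 1) [] false,
   Spec.mk (nat_lit 21441) (nat_lit 0) [nat_lit 8319, nat_lit 22899, nat_lit 20955, nat_lit 21279, nat_lit 21495, nat_lit 21423, nat_lit 21447, nat_lit 21439, nat_lit 1759] (nat_lit 2) [] false,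
   Spec.mk (nat_lit 21447) (nat_lit 0) [nat_lit 8325, nat_lit 22905, nat_lit 20961, nat_lit 21285, nat_lit 21501, nat_lit 21429, nat_lit 21441, nat_lit 1765] (nat_lit 0) [] false,
   Spec.mk (nat_lit 21467) (nat_lit 1) [nat_lit 8345, nat_lit 22925, nat_lit 20981, nat_lit 21305, nat_lit 21629, nat_lit 21413, nat_lit 21469, nat_lit 41149] (nat_lit 0) [] false,
   Spec.mk (nat_lit 21469) (nat_lit 1) [nat_lit 8347, nat_lit 22927, nat_lit 20983, nat_lit 21307, nat_lit 21631, nat_lit 21415, nat_lit 21475, nat_lit 21467, nat_lit 21471, nat_lit 41151, nat_lit 1787] (nat_lit 0) [] false,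
   Spec.mk (nat_lit 21471) (nat_lit 0) [nat_lit 8349, nat_lit 22929, nat_lit 20985, nat_lit 21309, nat_lit 21633, nat_lit 21417, nat_lit 21477, nat_lit 21469, nat_lit 1789] (nat_lit 1) [] false,
   Spec.mk (nat_lit 21475) (nat_lit 0) [nat_lit 8353, nat_lit 22933, nat_lit 20989, nat_lit 21313, nat_lit 21637, nat_lit 21421, nat_lit 21493, nat_lit 21469, nat_lit 21477, nat_lit 41157, nat_lit 1793] (nat_lit 0) [] false,
   Spec.mk (nat_lit 21477) (nat_lit 0) [nat_lit 8355, nat_lit 22935, nat_lit 20991, nat_lit 21315, nat_lit 21639, nat_lit 21423, nat_lit 21495, nat_lit 21471, nat_lit 21483, nat_lit 21475, nat_lit 1795] (nat_lit 0) [] false,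
   Spec.mk (nat_lit 21483) (nat_lit 0) [nat_lit 8361, nat_lit 22941, nat_lit 20997, nat_lit 21321, nat_lit 21645, nat_lit 21429, nat_lit 21501, nat_lit 21477, nat_lit 1801] (nat_lit 1) [] false,
   Spec.mk (nat_lit 21493) (nat_lit 1) [nat_lit 8371, nat_lit 22951, nat_lit 21007, nat_lit 21331, nat_lit 21655, nat_lit 21439, nat_lit 21547, nat_lit 21475, nat_lit 21495, nat_lit 41175, nat_lit 1811] (nat_lit 0) [] false,
   Spec.mk (nat_lit 21495) (nat_lit 0) [nat_lit 8373, nat_lit 22953, nat_lit 21009, nat_lit 21333, nat_lit 21657, nat_lit 21441, nat_lit 21549, nat_lit 21477, nat_lit 21501, nat_lit 21493, nat_lit 1813] (nat_lit 0) [] false]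

noncomputable def sp44 : List Spec :=
  [Spec.mk (nat_lit 21501) (nat_lit 1) [nat_lit 8379, nat_lit 22959, nat_lit 21015, nat_lit 21339, nat_lit 21663, nat_lit 21447, nat_lit 21555, nat_lit 21483, nat_lit 21519, nat_lit 21495, nat_lit 1819] (nat_lit 0) [] false,
   Spec.mk (nat_lit 21519) (nat_lit 1) [nat_lit 8397, nat_lit 22977, nat_lit 21033, nat_lit 21357, nat_lit 21681, nat_lit 21573, nat_lit 21501, nat_lit 1837] (nat_lit 0) [] false,
   Spec.mk (nat_lit 21547) (nat_lit 1) [nat_lit 8425, nat_lit 23005, nat_lit 21061, nat_lit 21709, nat_lit 21493, nat_lit 21549, nat_lit 41229, nat_lit 1865] (nat_lit 0) [] false,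
   Spec.mk (nat_lit 21549) (nat_lit 0) [nat_lit 8427, nat_lit 23007, nat_lit 21063, nat_lit 21711, nat_lit 21495, nat_lit 21555, nat_lit 21547, nat_lit 1867] (nat_lit 0) [] false,
   Spec.mk (nat_lit 21555) (nat_lit 0) [nat_lit 8433, nat_lit 23013, nat_lit 21069, nat_lit 21717, nat_lit 21501, nat_lit 21573, nat_lit 21549, nat_lit 1873] (nat_lit 0) [] false,
   Spec.mk (nat_lit 21573) (nat_lit 2) [nat_lit 8451, nat_lit 23031, nat_lit 21087, nat_lit 21735, nat_lit 21519, nat_lit 21555, nat_lit 1891] (nat_lit 0) [] false,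
   Spec.mk (nat_lit 21629) (nat_lit 2) [nat_lit 8507, nat_lit 23087, nat_lit 21467, nat_lit 21631, nat_lit 41311] (nat_lit 0) [] false,
   Spec.mk (nat_lit 21631) (nat_lit 2) [nat_lit 8509, nat_lit 23089, nat_lit 21469, nat_lit 21637, nat_lit 21629, nat_lit 21633, nat_lit 41313, nat_lit 1949] (nat_lit 0) [] false,
   Spec.mk (nat_lit 21633) (nat_lit 0) [nat_lit 8511, nat_lit 23091, nat_lit 21471, nat_lit 21639, nat_lit 21631, nat_lit 1951] (nat_lit 0) [] false,
   Spec.mk (nat_lit 21637) (nat_lit 1) [nat_lit 8515, nat_lit 23095, nat_lit 21475, nat_lit 21655, nat_lit 21631, nat_lit 21639, nat_lit 41319, nat_lit 1955] (nat_lit 0) [] false,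
   Spec.mk (nat_lit 21639) (nat_lit 1) [nat_lit 8517, nat_lit 23097, nat_lit 21477, nat_lit 21657, nat_lit 21633, nat_lit 21645, nat_lit 21637, nat_lit 1957] (nat_lit 0) [] false,
   Spec.mk (nat_lit 21645) (nat_lit 0) [nat_lit 8523, nat_lit 23103, nat_lit 21483, nat_lit 21663, nat_lit 21639, nat_lit 1963] (nat_lit 0) [] false,
   Spec.mk (nat_lit 21655) (nat_lit 1) [nat_lit 8533, nat_lit 23113, nat_lit 21493, nat_lit 21709, nat_lit 21637, nat_lit 21657, nat_lit 41337, nat_lit 1973] (nat_lit 0) [] false,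
   Spec.mk (nat_lit 21657) (nat_lit 0) [nat_lit 8535, nat_lit 23115, nat_lit 21495, nat_lit 21711, nat_lit 21639, nat_lit 21663, nat_lit 21655, nat_lit 1975] (nat_lit 0) [] false,
   Spec.mk (nat_lit 21663) (nat_lit 1) [nat_lit 8541, nat_lit 23121, nat_lit 21501, nat_lit 21717, nat_lit 21645, nat_lit 21681, nat_lit 21657, nat_lit 1981] (nat_lit 0) [] false,
   Spec.mk (nat_lit 21681) (nat_lit 0) [nat_lit 8559, nat_lit 23139, nat_lit 21519, nat_lit 21735, nat_lit 21663, nat_lit 1999] (nat_lit 0) [] false,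
   Spec.mk (nat_lit 21709) (nat_lit 3) [nat_lit 8587, nat_lit 23167, nat_lit 21547, nat_lit 21655, nat_lit 21711, nat_lit 41391, nat_lit 2027] (nat_lit 0) [] false,
   Spec.mk (nat_lit 21711) (nat_lit 2) [nat_lit 8589, nat_lit 23169, nat_lit 21549, nat_lit 21657, nat_lit 21717, nat_lit 21709, nat_lit 2029] (nat_lit 0) [] false,
   Spec.mk (nat_lit 21717) (nat_lit 2) [nat_lit 8595, nat_lit 23175, nat_lit 21555, nat_lit 21663, nat_lit 21735, nat_lit 21711, nat_lit 2035] (nat_lit 0) [] false,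
   Spec.mk (nat_lit 21735) (nat_lit 3) [nat_lit 8613, nat_lit 23193, nat_lit 21573, nat_lit 21681, nat_lit 21789, nat_lit 21717, nat_lit 2053] (nat_lit 0) [] false,
   Spec.mk (nat_lit 21789) (nat_lit 4) [nat_lit 8667, nat_lit 23247, nat_lit 21735, nat_lit 2107] (nat_lit 0) [] false,
   Spec.mk (nat_lit 21887) (nat_lit 4) [nat_lit 8765, nat_lit 26261, nat_lit 20429, nat_lit 21905, nat_lit 21893, nat_lit 41569] (nat_lit 0) [] false,
   Spec.mk (nat_lit 21893) (nat_lit 2) [nat_lit 8771, nat_lit 26267, nat_lit 20435, nat_lit 21911, nat_lit 21887, nat_lit 21895, nat_lit 41575] (nat_lit 0) [] false,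
   Spec.mk (nat_lit 21895) (nat_lit 3) [nat_lit 8773, nat_lit 26269, nat_lit 20437, nat_lit 21913, nat_lit 21893, nat_lit 41577, nat_lit 2213] (nat_lit 0) [] false,
   Spec.mk (nat_lit 21905) (nat_lit 2) [nat_lit 8783, nat_lit 26279, nat_lit 20447, nat_lit 21959, nat_lit 21887, nat_lit 21911, nat_lit 41587] (nat_lit 0) [] false,
   Spec.mk (nat_lit 21911) (nat_lit 2) [nat_lit 8789, nat_lit 26285, nat_lit 20453, nat_lit 21965, nat_lit 21893, nat_lit 21929, nat_lit 21905, nat_lit 21917, nat_lit 21913, nat_lit 41593] (nat_lit 0) [] false,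
   Spec.mk (nat_lit 21913) (nat_lit 2) [nat_lit 8791, nat_lit 26287, nat_lit 20455, nat_lit 21967, nat_lit 21895, nat_lit 21931, nat_lit 21919, nat_lit 21911, nat_lit 41595, nat_lit 2231] (nat_lit 0) [] false,
   Spec.mk (nat_lit 21917) (nat_lit 0) [nat_lit 8795, nat_lit 26291, nat_lit 20459, nat_lit 21971, nat_lit 21935, nat_lit 21911, nat_lit 21919, nat_lit 41599] (nat_lit 0) [] false,
   Spec.mk (nat_lit 21919) (nat_lit 2) [nat_lit 8797, nat_lit 26293, nat_lit 20461, nat_lit 21973, nat_lit 21937, nat_lit 21913, nat_lit 21917, nat_lit 21921, nat_lit 41601, nat_lit 2237] (nat_lit 0) [] false,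
   Spec.mk (nat_lit 21921) (nat_lit 2) [nat_lit 8799, nat_lit 26295, nat_lit 20463, nat_lit 21975, nat_lit 21939, nat_lit 21919, nat_lit 2239] (nat_lit 0) [] false,
   Spec.mk (nat_lit 21929) (nat_lit 0) [nat_lit 8807, nat_lit 26303, nat_lit 20471, nat_lit 21983, nat_lit 21911, nat_lit 21935, nat_lit 21931, nat_lit 41611] (nat_lit 0) [] false,
   Spec.mk (nat_lit 21931) (nat_lit 0) [nat_lit 8809, nat_lit 26305, nat_lit 20473, nat_lit 21985, nat_lit 21913, nat_lit 21937, nat_lit 21929, nat_lit 41613, nat_lit 2249] (nat_lit 1) [] false,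
   Spec.mk (nat_lit 21935) (nat_lit 0) [nat_lit 8813, nat_lit 26309, nat_lit 20477, nat_lit 21989, nat_lit 21917, nat_lit 21929, nat_lit 21937, nat_lit 41617] (nat_lit 0) [] false,
   Spec.mk (nat_lit 21937) (nat_lit 1) [nat_lit 8815, nat_lit 26311, nat_lit 20479, nat_lit 21991, nat_lit 21919, nat_lit 21931, nat_lit 21943, nat_lit 21935, nat_lit 21939, nat_lit 41619, nat_lit 2255] (nat_lit 0) [] false,
   Spec.mk (nat_lit 21939) (nat_lit 0) [nat_lit 8817, nat_lit 26313, nat_lit 20481, nat_lit 21993, nat_lit 21921, nat_lit 21945, nat_lit 21937, nat_lit 2257] (nat_lit 0) [] false,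
   Spec.mk (nat_lit 21943) (nat_lit 1) [nat_lit 8821, nat_lit 26317, nat_lit 20485, nat_lit 21997, nat_lit 21937, nat_lit 21945, nat_lit 41625, nat_lit 2261] (nat_lit 0) [] false,
   Spec.mk (nat_lit 21945) (nat_lit 2) [nat_lit 8823, nat_lit 26319, nat_lit 20487, nat_lit 21999, nat_lit 21939, nat_lit 21943, nat_lit 2263] (nat_lit 0) [] false,
   Spec.mk (nat_lit 21959) (nat_lit 2) [nat_lit 8837, nat_lit 26333, nat_lit 20501, nat_lit 22121, nat_lit 21905, nat_lit 21965, nat_lit 41641] (nat_lit 0) [] false,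
   Spec.mk (nat_lit 21965) (nat_lit 1) [nat_lit 8843, nat_lit 26339, nat_lit 20507, nat_lit 22127, nat_lit 21911, nat_lit 21983, nat_lit 21959, nat_lit 21971, nat_lit 21967, nat_lit 41647] (nat_lit 0) [] false,
   Spec.mk (nat_lit 21967) (nat_lit 1) [nat_lit 8845, nat_lit 26341, nat_lit 20509, nat_lit 22129, nat_lit 21913, nat_lit 21985, nat_lit 21973, nat_lit 21965, nat_lit 41649, nat_lit 2285] (nat_lit 0) [] false,
   Spec.mk (nat_lit 21971) (nat_lit 0) [nat_lit 8849, nat_lit 26345, nat_lit 20513, nat_lit 22133, nat_lit 21917, nat_lit 21989, nat_lit 21965, nat_lit 21973, nat_lit 41653] (nat_lit 2) [] false,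
   Spec.mk (nat_lit 21973) (nat_lit 0) [nat_lit 8851, nat_lit 26347, nat_lit 20515, nat_lit 22135, nat_lit 21919, nat_lit 21991, nat_lit 21967, nat_lit 21971, nat_lit 21975, nat_lit 41655, nat_lit 2291] (nat_lit 0) [] false,
   Spec.mk (nat_lit 21975) (nat_lit 0) [nat_lit 8853, nat_lit 26349, nat_lit 20517, nat_lit 22137, nat_lit 21921, nat_lit 21993, nat_lit 21973, nat_lit 2293] (nat_lit 0) [] false,
   Spec.mk (nat_lit 21983) (nat_lit 1) [nat_lit 8861, nat_lit 26357, nat_lit 20525, nat_lit 22145, nat_lit 21929, nat_lit 22037, nat_lit 21965, nat_lit 21989, nat_lit 21985, nat_lit 41665] (nat_lit 0) [] false,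
   Spec.mk (nat_lit 21985) (nat_lit 0) [nat_lit 8863, nat_lit 26359, nat_lit 20527, nat_lit 22147, nat_lit 21931, nat_lit 22039, nat_lit 21967, nat_lit 21991, nat_lit 21983, nat_lit 41667, nat_lit 2303] (nat_lit 0) [] false,
   Spec.mk (nat_lit 21989) (nat_lit 0) [nat_lit 8867, nat_lit 26363, nat_lit 20531, nat_lit 22151, nat_lit 21935, nat_lit 22043, nat_lit 21971, nat_lit 22007, nat_lit 21983, nat_lit 21991, nat_lit 41671] (nat_lit 0) [] false,
   Spec.mk (nat_lit 21991) (nat_lit 1) [nat_lit 8869, nat_lit 26365, nat_lit 20533, nat_lit 22153, nat_lit 21937, nat_lit 22045, nat_lit 21973, nat_lit 22009, nat_lit 21985, nat_lit 21997, nat_lit 21989, nat_lit 21993, nat_lit 41673, nat_lit 2309] (nat_lit 0) [] false,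
   Spec.mk (nat_lit 21993) (nat_lit 0) [nat_lit 8871, nat_lit 26367, nat_lit 20535, nat_lit 22155, nat_lit 21939, nat_lit 22047, nat_lit 21975, nat_lit 22011, nat_lit 21999, nat_lit 21991, nat_lit 2311] (nat_lit 0) [] false,
   Spec.mk (nat_lit 21997) (nat_lit 0) [nat_lit 8875, nat_lit 26371, nat_lit 20539, nat_lit 22159, nat_lit 21943, nat_lit 22051, nat_lit 22015, nat_lit 21991, nat_lit 21999, nat_lit 41679, nat_lit 2315] (nat_lit 0) [] false,
   Spec.mk (nat_lit 21999) (nat_lit 1) [nat_lit 8877, nat_lit 26373, nat_lit 20541, nat_lit 22161, nat_lit 21945, nat_lit 22053, nat_lit 22017, nat_lit 21993, nat_lit 21997, nat_lit 2317] (nat_lit 0) [] false,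
   Spec.mk (nat_lit 22007) (nat_lit 0) [nat_lit 8885, nat_lit 26381, nat_lit 20549, nat_lit 22169, nat_lit 22061, nat_lit 21989, nat_lit 22009, nat_lit 41689] (nat_lit 0) [] false,
   Spec.mk (nat_lit 22009) (nat_lit 0) [nat_lit 8887, nat_lit 26383, nat_lit 20551, nat_lit 22171, nat_lit 22063, nat_lit 21991, nat_lit 22015, nat_lit 22007, nat_lit 22011, nat_lit 41691, nat_lit 2327] (nat_lit 0) [] false,
   Spec.mk (nat_lit 22011) (nat_lit 0) [nat_lit 8889, nat_lit 26385, nat_lit 20553, nat_lit 22173, nat_lit 22065, nat_lit 21993, nat_lit 22017, nat_lit 22009, nat_lit 2329] (nat_lit 2) [] false,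
   Spec.mk (nat_lit 22015) (nat_lit 1) [nat_lit 8893, nat_lit 26389, nat_lit 20557, nat_lit 22177, nat_lit 22069, nat_lit 21997, nat_lit 22009, nat_lit 22017, nat_lit 41697, nat_lit 2333] (nat_lit 0) [] false,
   Spec.mk (nat_lit 22017) (nat_lit 1) [nat_lit 8895, nat_lit 26391, nat_lit 20559, nat_lit 22179, nat_lit 22071, nat_lit 21999, nat_lit 22011, nat_lit 22023, nat_lit 22015, nat_lit 2335] (nat_lit 0) [] false,
   Spec.mk (nat_lit 22023) (nat_lit 2) [nat_lit 8901, nat_lit 26397, nat_lit 20565, nat_lit 22185, nat_lit 22077, nat_lit 22017, nat_lit 2341] (nat_lit 0) [] false,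
   Spec.mk (nat_lit 22037) (nat_lit 0) [nat_lit 8915, nat_lit 26411, nat_lit 20579, nat_lit 22199, nat_lit 21983, nat_lit 22043, nat_lit 22039, nat_lit 41719] (nat_lit 0) [] false,
   Spec.mk (nat_lit 22039) (nat_lit 0) [nat_lit 8917, nat_lit 26413, nat_lit 20581, nat_lit 22201, nat_lit 21985, nat_lit 22045, nat_lit 22037, nat_lit 41721, nat_lit 2357] (nat_lit 1) [] false,
   Spec.mk (nat_lit 22043) (nat_lit 0) [nat_lit 8921, nat_lit 26417, nat_lit 20585, nat_lit 22205, nat_lit 21989, nat_lit 22061, nat_lit 22037, nat_lit 22045, nat_lit 41725] (nat_lit 2) [] false,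
   Spec.mk (nat_lit 22045) (nat_lit 0) [nat_lit 8923, nat_lit 26419, nat_lit 20587, nat_lit 22207, nat_lit 21991, nat_lit 22063, nat_lit 22039, nat_lit 22051, nat_lit 22043, nat_lit 22047, nat_lit 41727, nat_lit 2363] (nat_lit 1) [] false]

noncomputable def sp45 : List Spec :=
  [Spec.mk (nat_lit 22047) (nat_lit 0) [nat_lit 8925, nat_lit 26421, nat_lit 20589, nat_lit 22209, nat_lit 21993, nat_lit 22065, nat_lit 22053, nat_lit 22045, nat_lit 2365] (nat_lit 2) [] false,
   Spec.mk (nat_lit 22051) (nat_lit 0) [nat_lit 8929, nat_lit 26425, nat_lit 20593, nat_lit 22213, nat_lit 21997, nat_lit 22069, nat_lit 22045, nat_lit 22053, nat_lit 41733, nat_lit 2369] (nat_lit 3) [] false,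
   Spec.mk (nat_lit 22053) (nat_lit 0) [nat_lit 8931, nat_lit 26427, nat_lit 20595, nat_lit 22215, nat_lit 21999, nat_lit 22071, nat_lit 22047, nat_lit 22051, nat_lit 2371] (nat_lit 2) [] false,
   Spec.mk (nat_lit 22061) (nat_lit 0) [nat_lit 8939, nat_lit 26435, nat_lit 20603, nat_lit 22223, nat_lit 22007, nat_lit 22043, nat_lit 22063, nat_lit 41743] (nat_lit 0) [] false,
   Spec.mk (nat_lit 22063) (nat_lit 0) [nat_lit 8941, nat_lit 26437, nat_lit 20605, nat_lit 22225, nat_lit 22009, nat_lit 22045, nat_lit 22069, nat_lit 22061, nat_lit 22065, nat_lit 41745, nat_lit 2381] (nat_lit 0) [] false,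
   Spec.mk (nat_lit 22065) (nat_lit 0) [nat_lit 8943, nat_lit 26439, nat_lit 20607, nat_lit 22227, nat_lit 22011, nat_lit 22047, nat_lit 22071, nat_lit 22063, nat_lit 2383] (nat_lit 2) [] false,
   Spec.mk (nat_lit 22069) (nat_lit 0) [nat_lit 8947, nat_lit 26443, nat_lit 20611, nat_lit 22231, nat_lit 22015, nat_lit 22051, nat_lit 22087, nat_lit 22063, nat_lit 22071, nat_lit 41751, nat_lit 2387] (nat_lit 0) [] false,
   Spec.mk (nat_lit 22071) (nat_lit 0) [nat_lit 8949, nat_lit 26445, nat_lit 20613, nat_lit 22233, nat_lit 22017, nat_lit 22053, nat_lit 22089, nat_lit 22065, nat_lit 22077, nat_lit 22069, nat_lit 2389] (nat_lit 0) [] false,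
   Spec.mk (nat_lit 22077) (nat_lit 0) [nat_lit 8955, nat_lit 26451, nat_lit 20619, nat_lit 22239, nat_lit 22023, nat_lit 22095, nat_lit 22071, nat_lit 2395] (nat_lit 0) [] false,
   Spec.mk (nat_lit 22087) (nat_lit 1) [nat_lit 8965, nat_lit 26461, nat_lit 20629, nat_lit 22249, nat_lit 22069, nat_lit 22089, nat_lit 41769, nat_lit 2405] (nat_lit 0) [] false,
   Spec.mk (nat_lit 22089) (nat_lit 0) [nat_lit 8967, nat_lit 26463, nat_lit 20631, nat_lit 22251, nat_lit 22071, nat_lit 22095, nat_lit 22087, nat_lit 2407] (nat_lit 0) [] false,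
   Spec.mk (nat_lit 22095) (nat_lit 2) [nat_lit 8973, nat_lit 26469, nat_lit 20637, nat_lit 22257, nat_lit 22077, nat_lit 22089, nat_lit 2413] (nat_lit 0) [] false,
   Spec.mk (nat_lit 22121) (nat_lit 2) [nat_lit 8999, nat_lit 26495, nat_lit 20663, nat_lit 22607, nat_lit 21959, nat_lit 22127, nat_lit 41803] (nat_lit 0) [] false,
   Spec.mk (nat_lit 22127) (nat_lit 1) [nat_lit 9005, nat_lit 26501, nat_lit 20669, nat_lit 22613, nat_lit 21965, nat_lit 22145, nat_lit 22121, nat_lit 22133, nat_lit 22129, nat_lit 41809] (nat_lit 0) [] false,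
   Spec.mk (nat_lit 22129) (nat_lit 1) [nat_lit 9007, nat_lit 26503, nat_lit 20671, nat_lit 22615, nat_lit 21967, nat_lit 22147, nat_lit 22135, nat_lit 22127, nat_lit 41811, nat_lit 2447] (nat_lit 0) [] false,
   Spec.mk (nat_lit 22133) (nat_lit 0) [nat_lit 9011, nat_lit 26507, nat_lit 20675, nat_lit 22619, nat_lit 21971, nat_lit 22151, nat_lit 22127, nat_lit 22135, nat_lit 41815] (nat_lit 2) [] false,
   Spec.mk (nat_lit 22135) (nat_lit 0) [nat_lit 9013, nat_lit 26509, nat_lit 20677, nat_lit 22621, nat_lit 21973, nat_lit 22153, nat_lit 22129, nat_lit 22133, nat_lit 22137, nat_lit 41817, nat_lit 2453] (nat_lit 0) [] false,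
   Spec.mk (nat_lit 22137) (nat_lit 0) [nat_lit 9015, nat_lit 26511, nat_lit 20679, nat_lit 22623, nat_lit 21975, nat_lit 22155, nat_lit 22135, nat_lit 2455] (nat_lit 0) [] false,
   Spec.mk (nat_lit 22145) (nat_lit 0) [nat_lit 9023, nat_lit 26519, nat_lit 20687, nat_lit 22631, nat_lit 21983, nat_lit 22199, nat_lit 22127, nat_lit 22151, nat_lit 22147, nat_lit 41827] (nat_lit 0) [] false,
   Spec.mk (nat_lit 22147) (nat_lit 0) [nat_lit 9025, nat_lit 26521, nat_lit 20689, nat_lit 22633, nat_lit 21985, nat_lit 22201, nat_lit 22129, nat_lit 22153, nat_lit 22145, nat_lit 41829, nat_lit 2465] (nat_lit 1) [] false,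
   Spec.mk (nat_lit 22151) (nat_lit 0) [nat_lit 9029, nat_lit 26525, nat_lit 20693, nat_lit 22637, nat_lit 21989, nat_lit 22205, nat_lit 22133, nat_lit 22169, nat_lit 22145, nat_lit 22153, nat_lit 41833] (nat_lit 1) [] false,
   Spec.mk (nat_lit 22153) (nat_lit 0) [nat_lit 9031, nat_lit 26527, nat_lit 20695, nat_lit 22639, nat_lit 21991, nat_lit 22207, nat_lit 22135, nat_lit 22171, nat_lit 22147, nat_lit 22159, nat_lit 22151, nat_lit 22155, nat_lit 41835, nat_lit 2471] (nat_lit 0) [] false,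
   Spec.mk (nat_lit 22155) (nat_lit 0) [nat_lit 9033, nat_lit 26529, nat_lit 20697, nat_lit 22641, nat_lit 21993, nat_lit 22209, nat_lit 22137, nat_lit 22173, nat_lit 22161, nat_lit 22153, nat_lit 2473] (nat_lit 1) [] false,
   Spec.mk (nat_lit 22159) (nat_lit 0) [nat_lit 9037, nat_lit 26533, nat_lit 20701, nat_lit 22645, nat_lit 21997, nat_lit 22213, nat_lit 22177, nat_lit 22153, nat_lit 22161, nat_lit 41841, nat_lit 2477] (nat_lit 1) [] false,
   Spec.mk (nat_lit 22161) (nat_lit 0) [nat_lit 9039, nat_lit 26535, nat_lit 20703, nat_lit 22647, nat_lit 21999, nat_lit 22215, nat_lit 22179, nat_lit 22155, nat_lit 22159, nat_lit 2479] (nat_lit 0) [] false,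
   Spec.mk (nat_lit 22169) (nat_lit 0) [nat_lit 9047, nat_lit 26543, nat_lit 20711, nat_lit 22655, nat_lit 22007, nat_lit 22223, nat_lit 22151, nat_lit 22171, nat_lit 41851] (nat_lit 2) [] false,
   Spec.mk (nat_lit 22171) (nat_lit 0) [nat_lit 9049, nat_lit 26545, nat_lit 20713, nat_lit 22657, nat_lit 22009, nat_lit 22225, nat_lit 22153, nat_lit 22177, nat_lit 22169, nat_lit 22173, nat_lit 41853, nat_lit 2489] (nat_lit 2) [] false,
   Spec.mk (nat_lit 22173) (nat_lit 0) [nat_lit 9051, nat_lit 26547, nat_lit 20715, nat_lit 22659, nat_lit 22011, nat_lit 22227, nat_lit 22155, nat_lit 22179, nat_lit 22171, nat_lit 2491] (nat_lit 4) [] false,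
   Spec.mk (nat_lit 22177) (nat_lit 0) [nat_lit 9055, nat_lit 26551, nat_lit 20719, nat_lit 22663, nat_lit 22015, nat_lit 22231, nat_lit 22159, nat_lit 22171, nat_lit 22179, nat_lit 41859, nat_lit 2495] (nat_lit 1) [] false,
   Spec.mk (nat_lit 22179) (nat_lit 0) [nat_lit 9057, nat_lit 26553, nat_lit 20721, nat_lit 22665, nat_lit 22017, nat_lit 22233, nat_lit 22161, nat_lit 22173, nat_lit 22185, nat_lit 22177, nat_lit 2497] (nat_lit 1) [] false,
   Spec.mk (nat_lit 22185) (nat_lit 0) [nat_lit 9063, nat_lit 26559, nat_lit 20727, nat_lit 22671, nat_lit 22023, nat_lit 22239, nat_lit 22179, nat_lit 2503] (nat_lit 0) [] false,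
   Spec.mk (nat_lit 22199) (nat_lit 1) [nat_lit 9077, nat_lit 26573, nat_lit 20741, nat_lit 22685, nat_lit 22037, nat_lit 22361, nat_lit 22145, nat_lit 22205, nat_lit 22201, nat_lit 41881] (nat_lit 0) [] false,
   Spec.mk (nat_lit 22201) (nat_lit 0) [nat_lit 9079, nat_lit 26575, nat_lit 20743, nat_lit 22687, nat_lit 22039, nat_lit 22363, nat_lit 22147, nat_lit 22207, nat_lit 22199, nat_lit 41883, nat_lit 2519] (nat_lit 0) [] false,
   Spec.mk (nat_lit 22205) (nat_lit 0) [nat_lit 9083, nat_lit 26579, nat_lit 20747, nat_lit 22691, nat_lit 22043, nat_lit 22367, nat_lit 22151, nat_lit 22223, nat_lit 22199, nat_lit 22207, nat_lit 41887] (nat_lit 1) [] false,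
   Spec.mk (nat_lit 22207) (nat_lit 0) [nat_lit 9085, nat_lit 26581, nat_lit 20749, nat_lit 22693, nat_lit 22045, nat_lit 22369, nat_lit 22153, nat_lit 22225, nat_lit 22201, nat_lit 22213, nat_lit 22205, nat_lit 22209, nat_lit 41889, nat_lit 2525] (nat_lit 0) [] false,
   Spec.mk (nat_lit 22209) (nat_lit 0) [nat_lit 9087, nat_lit 26583, nat_lit 20751, nat_lit 22695, nat_lit 22047, nat_lit 22371, nat_lit 22155, nat_lit 22227, nat_lit 22215, nat_lit 22207, nat_lit 2527] (nat_lit 1) [] false,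
   Spec.mk (nat_lit 22213) (nat_lit 0) [nat_lit 9091, nat_lit 26587, nat_lit 20755, nat_lit 22699, nat_lit 22051, nat_lit 22375, nat_lit 22159, nat_lit 22231, nat_lit 22207, nat_lit 22215, nat_lit 41895, nat_lit 2531] (nat_lit 2) [] false,
   Spec.mk (nat_lit 22215) (nat_lit 0) [nat_lit 9093, nat_lit 26589, nat_lit 20757, nat_lit 22701, nat_lit 22053, nat_lit 22377, nat_lit 22161, nat_lit 22233, nat_lit 22209, nat_lit 22213, nat_lit 2533] (nat_lit 1) [] false,
   Spec.mk (nat_lit 22223) (nat_lit 0) [nat_lit 9101, nat_lit 26597, nat_lit 20765, nat_lit 22709, nat_lit 22061, nat_lit 22385, nat_lit 22169, nat_lit 22277, nat_lit 22205, nat_lit 22225, nat_lit 41905] (nat_lit 0) [] false,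
   Spec.mk (nat_lit 22225) (nat_lit 0) [nat_lit 9103, nat_lit 26599, nat_lit 20767, nat_lit 22711, nat_lit 22063, nat_lit 22387, nat_lit 22171, nat_lit 22279, nat_lit 22207, nat_lit 22231, nat_lit 22223, nat_lit 22227, nat_lit 41907, nat_lit 2543] (nat_lit 0) [] false,
   Spec.mk (nat_lit 22227) (nat_lit 0) [nat_lit 9105, nat_lit 26601, nat_lit 20769, nat_lit 22713, nat_lit 22065, nat_lit 22389, nat_lit 22173, nat_lit 22281, nat_lit 22209, nat_lit 22233, nat_lit 22225, nat_lit 2545] (nat_lit 2) [] false,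
   Spec.mk (nat_lit 22231) (nat_lit 0) [nat_lit 9109, nat_lit 26605, nat_lit 20773, nat_lit 22717, nat_lit 22069, nat_lit 22393, nat_lit 22177, nat_lit 22285, nat_lit 22213, nat_lit 22249, nat_lit 22225, nat_lit 22233, nat_lit 41913, nat_lit 2549] (nat_lit 0) [] false,
   Spec.mk (nat_lit 22233) (nat_lit 0) [nat_lit 9111, nat_lit 26607, nat_lit 20775, nat_lit 22719, nat_lit 22071, nat_lit 22395, nat_lit 22179, nat_lit 22287, nat_lit 22215, nat_lit 22251, nat_lit 22227, nat_lit 22239, nat_lit 22231, nat_lit 2551] (nat_lit 0) [] false,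
   Spec.mk (nat_lit 22239) (nat_lit 0) [nat_lit 9117, nat_lit 26613, nat_lit 20781, nat_lit 22725, nat_lit 22077, nat_lit 22401, nat_lit 22185, nat_lit 22293, nat_lit 22257, nat_lit 22233, nat_lit 2557] (nat_lit 0) [] false,
   Spec.mk (nat_lit 22249) (nat_lit 0) [nat_lit 9127, nat_lit 26623, nat_lit 20791, nat_lit 22735, nat_lit 22087, nat_lit 22411, nat_lit 22303, nat_lit 22231, nat_lit 22251, nat_lit 41931, nat_lit 2567] (nat_lit 0) [] false,
   Spec.mk (nat_lit 22251) (nat_lit 0) [nat_lit 9129, nat_lit 26625, nat_lit 20793, nat_lit 22737, nat_lit 22089, nat_lit 22413, nat_lit 22305, nat_lit 22233, nat_lit 22257, nat_lit 22249, nat_lit 2569] (nat_lit 1) [] false,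
   Spec.mk (nat_lit 22257) (nat_lit 1) [nat_lit 9135, nat_lit 26631, nat_lit 20799, nat_lit 22743, nat_lit 22095, nat_lit 22419, nat_lit 22311, nat_lit 22239, nat_lit 22251, nat_lit 2575] (nat_lit 0) [] false,
   Spec.mk (nat_lit 22277) (nat_lit 0) [nat_lit 9155, nat_lit 26651, nat_lit 20819, nat_lit 22763, nat_lit 22439, nat_lit 22223, nat_lit 22279, nat_lit 41959] (nat_lit 0) [] false,
   Spec.mk (nat_lit 22279) (nat_lit 0) [nat_lit 9157, nat_lit 26653, nat_lit 20821, nat_lit 22765, nat_lit 22441, nat_lit 22225, nat_lit 22285, nat_lit 22277, nat_lit 22281, nat_lit 41961, nat_lit 2597] (nat_lit 0) [] false,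
   Spec.mk (nat_lit 22281) (nat_lit 0) [nat_lit 9159, nat_lit 26655, nat_lit 20823, nat_lit 22767, nat_lit 22443, nat_lit 22227, nat_lit 22287, nat_lit 22279, nat_lit 2599] (nat_lit 2) [] false,
   Spec.mk (nat_lit 22285) (nat_lit 0) [nat_lit 9163, nat_lit 26659, nat_lit 20827, nat_lit 22771, nat_lit 22447, nat_lit 22231, nat_lit 22303, nat_lit 22279, nat_lit 22287, nat_lit 41967, nat_lit 2603] (nat_lit 1) [] false,
   Spec.mk (nat_lit 22287) (nat_lit 0) [nat_lit 9165, nat_lit 26661, nat_lit 20829, nat_lit 22773, nat_lit 22449, nat_lit 22233, nat_lit 22305, nat_lit 22281, nat_lit 22293, nat_lit 22285, nat_lit 2605] (nat_lit 1) [] false,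
   Spec.mk (nat_lit 22293) (nat_lit 0) [nat_lit 9171, nat_lit 26667, nat_lit 20835, nat_lit 22779, nat_lit 22455, nat_lit 22239, nat_lit 22311, nat_lit 22287, nat_lit 2611] (nat_lit 2) [] false,
   Spec.mk (nat_lit 22303) (nat_lit 1) [nat_lit 9181, nat_lit 26677, nat_lit 20845, nat_lit 22789, nat_lit 22465, nat_lit 22249, nat_lit 22285, nat_lit 22305, nat_lit 41985, nat_lit 2621] (nat_lit 0) [] false,
   Spec.mk (nat_lit 22305) (nat_lit 0) [nat_lit 9183, nat_lit 26679, nat_lit 20847, nat_lit 22791, nat_lit 22467, nat_lit 22251, nat_lit 22287, nat_lit 22311, nat_lit 22303, nat_lit 2623] (nat_lit 0) [] false,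
   Spec.mk (nat_lit 22311) (nat_lit 1) [nat_lit 9189, nat_lit 26685, nat_lit 20853, nat_lit 22797, nat_lit 22473, nat_lit 22257, nat_lit 22293, nat_lit 22329, nat_lit 22305, nat_lit 2629] (nat_lit 0) [] false,
   Spec.mk (nat_lit 22329) (nat_lit 2) [nat_lit 9207, nat_lit 26703, nat_lit 20871, nat_lit 22815, nat_lit 22491, nat_lit 22311, nat_lit 2647] (nat_lit 0) [] false,
   Spec.mk (nat_lit 22361) (nat_lit 0) [nat_lit 9239, nat_lit 26735, nat_lit 20903, nat_lit 22847, nat_lit 22199, nat_lit 22367, nat_lit 22363, nat_lit 42043] (nat_lit 0) [] false,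
   Spec.mk (nat_lit 22363) (nat_lit 0) [nat_lit 9241, nat_lit 26737, nat_lit 20905, nat_lit 22849, nat_lit 22201, nat_lit 22369, nat_lit 22361, nat_lit 42045, nat_lit 2681] (nat_lit 1) [] false,
   Spec.mk (nat_lit 22367) (nat_lit 0) [nat_lit 9245, nat_lit 26741, nat_lit 20909, nat_lit 22853, nat_lit 22205, nat_lit 22385, nat_lit 22361, nat_lit 22369, nat_lit 42049] (nat_lit 2) [] false]

noncomputable def sp46 : List Spec :=
  [Spec.mk (nat_lit 22369) (nat_lit 0) [nat_lit 9247, nat_lit 26743, nat_lit 20911, nat_lit 22855, nat_lit 22207, nat_lit 22387, nat_lit 22363, nat_lit 22375, nat_lit 22367, nat_lit 22371, nat_lit 42051, nat_lit 2687] (nat_lit 1) [] false,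
   Spec.mk (nat_lit 22371) (nat_lit 0) [nat_lit 9249, nat_lit 26745, nat_lit 20913, nat_lit 22857, nat_lit 22209, nat_lit 22389, nat_lit 22377, nat_lit 22369, nat_lit 2689] (nat_lit 2) [] false,
   Spec.mk (nat_lit 22375) (nat_lit 0) [nat_lit 9253, nat_lit 26749, nat_lit 20917, nat_lit 22861, nat_lit 22213, nat_lit 22393, nat_lit 22369, nat_lit 22377, nat_lit 42057, nat_lit 2693] (nat_lit 3) [] false,
   Spec.mk (nat_lit 22377) (nat_lit 0) [nat_lit 9255, nat_lit 26751, nat_lit 20919, nat_lit 22863, nat_lit 22215, nat_lit 22395, nat_lit 22371, nat_lit 22375, nat_lit 2695] (nat_lit 2) [] false,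
   Spec.mk (nat_lit 22385) (nat_lit 0) [nat_lit 9263, nat_lit 26759, nat_lit 20927, nat_lit 22871, nat_lit 22223, nat_lit 22439, nat_lit 22367, nat_lit 22387, nat_lit 42067] (nat_lit 2) [] false,
   Spec.mk (nat_lit 22387) (nat_lit 0) [nat_lit 9265, nat_lit 26761, nat_lit 20929, nat_lit 22873, nat_lit 22225, nat_lit 22441, nat_lit 22369, nat_lit 22393, nat_lit 22385, nat_lit 22389, nat_lit 42069, nat_lit 2705] (nat_lit 2) [] false,
   Spec.mk (nat_lit 22389) (nat_lit 0) [nat_lit 9267, nat_lit 26763, nat_lit 20931, nat_lit 22875, nat_lit 22227, nat_lit 22443, nat_lit 22371, nat_lit 22395, nat_lit 22387, nat_lit 2707] (nat_lit 4) [] false,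
   Spec.mk (nat_lit 22393) (nat_lit 0) [nat_lit 9271, nat_lit 26767, nat_lit 20935, nat_lit 22879, nat_lit 22231, nat_lit 22447, nat_lit 22375, nat_lit 22411, nat_lit 22387, nat_lit 22395, nat_lit 42075, nat_lit 2711] (nat_lit 2) [] false,
   Spec.mk (nat_lit 22395) (nat_lit 0) [nat_lit 9273, nat_lit 26769, nat_lit 20937, nat_lit 22881, nat_lit 22233, nat_lit 22449, nat_lit 22377, nat_lit 22413, nat_lit 22389, nat_lit 22401, nat_lit 22393, nat_lit 2713] (nat_lit 2) [] false,
   Spec.mk (nat_lit 22401) (nat_lit 0) [nat_lit 9279, nat_lit 26775, nat_lit 20943, nat_lit 22887, nat_lit 22239, nat_lit 22455, nat_lit 22419, nat_lit 22395, nat_lit 2719] (nat_lit 2) [] false,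
   Spec.mk (nat_lit 22411) (nat_lit 0) [nat_lit 9289, nat_lit 26785, nat_lit 20953, nat_lit 22897, nat_lit 22249, nat_lit 22465, nat_lit 22393, nat_lit 22413, nat_lit 42093, nat_lit 2729] (nat_lit 3) [] false,
   Spec.mk (nat_lit 22413) (nat_lit 0) [nat_lit 9291, nat_lit 26787, nat_lit 20955, nat_lit 22899, nat_lit 22251, nat_lit 22467, nat_lit 22395, nat_lit 22419, nat_lit 22411, nat_lit 2731] (nat_lit 4) [] false,
   Spec.mk (nat_lit 22419) (nat_lit 0) [nat_lit 9297, nat_lit 26793, nat_lit 20961, nat_lit 22905, nat_lit 22257, nat_lit 22473, nat_lit 22401, nat_lit 22413, nat_lit 2737] (nat_lit 2) [] false,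
   Spec.mk (nat_lit 22439) (nat_lit 0) [nat_lit 9317, nat_lit 26813, nat_lit 20981, nat_lit 22925, nat_lit 22277, nat_lit 22385, nat_lit 22441, nat_lit 42121] (nat_lit 0) [] false,
   Spec.mk (nat_lit 22441) (nat_lit 0) [nat_lit 9319, nat_lit 26815, nat_lit 20983, nat_lit 22927, nat_lit 22279, nat_lit 22387, nat_lit 22447, nat_lit 22439, nat_lit 22443, nat_lit 42123, nat_lit 2759] (nat_lit 0) [] false,
   Spec.mk (nat_lit 22443) (nat_lit 0) [nat_lit 9321, nat_lit 26817, nat_lit 20985, nat_lit 22929, nat_lit 22281, nat_lit 22389, nat_lit 22449, nat_lit 22441, nat_lit 2761] (nat_lit 2) [] false,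
   Spec.mk (nat_lit 22447) (nat_lit 0) [nat_lit 9325, nat_lit 26821, nat_lit 20989, nat_lit 22933, nat_lit 22285, nat_lit 22393, nat_lit 22465, nat_lit 22441, nat_lit 22449, nat_lit 42129, nat_lit 2765] (nat_lit 1) [] false,
   Spec.mk (nat_lit 22449) (nat_lit 0) [nat_lit 9327, nat_lit 26823, nat_lit 20991, nat_lit 22935, nat_lit 22287, nat_lit 22395, nat_lit 22467, nat_lit 22443, nat_lit 22455, nat_lit 22447, nat_lit 2767] (nat_lit 1) [] false,
   Spec.mk (nat_lit 22455) (nat_lit 0) [nat_lit 9333, nat_lit 26829, nat_lit 20997, nat_lit 22941, nat_lit 22293, nat_lit 22401, nat_lit 22473, nat_lit 22449, nat_lit 2773] (nat_lit 2) [] false,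
   Spec.mk (nat_lit 22465) (nat_lit 0) [nat_lit 9343, nat_lit 26839, nat_lit 21007, nat_lit 22951, nat_lit 22303, nat_lit 22411, nat_lit 22519, nat_lit 22447, nat_lit 22467, nat_lit 42147, nat_lit 2783] (nat_lit 0) [] false,
   Spec.mk (nat_lit 22467) (nat_lit 0) [nat_lit 9345, nat_lit 26841, nat_lit 21009, nat_lit 22953, nat_lit 22305, nat_lit 22413, nat_lit 22521, nat_lit 22449, nat_lit 22473, nat_lit 22465, nat_lit 2785] (nat_lit 1) [] false,
   Spec.mk (nat_lit 22473) (nat_lit 0) [nat_lit 9351, nat_lit 26847, nat_lit 21015, nat_lit 22959, nat_lit 22311, nat_lit 22419, nat_lit 22527, nat_lit 22455, nat_lit 22491, nat_lit 22467, nat_lit 2791] (nat_lit 0) [] false,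
   Spec.mk (nat_lit 22491) (nat_lit 0) [nat_lit 9369, nat_lit 26865, nat_lit 21033, nat_lit 22977, nat_lit 22329, nat_lit 22545, nat_lit 22473, nat_lit 2809] (nat_lit 0) [] false,
   Spec.mk (nat_lit 22519) (nat_lit 1) [nat_lit 9397, nat_lit 26893, nat_lit 21061, nat_lit 23005, nat_lit 22465, nat_lit 22521, nat_lit 42201, nat_lit 2837] (nat_lit 0) [] false,
   Spec.mk (nat_lit 22521) (nat_lit 0) [nat_lit 9399, nat_lit 26895, nat_lit 21063, nat_lit 23007, nat_lit 22467, nat_lit 22527, nat_lit 22519, nat_lit 2839] (nat_lit 0) [] false,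
   Spec.mk (nat_lit 22527) (nat_lit 0) [nat_lit 9405, nat_lit 26901, nat_lit 21069, nat_lit 23013, nat_lit 22473, nat_lit 22545, nat_lit 22521, nat_lit 2845] (nat_lit 0) [] false,
   Spec.mk (nat_lit 22545) (nat_lit 2) [nat_lit 9423, nat_lit 26919, nat_lit 21087, nat_lit 23031, nat_lit 22491, nat_lit 22527, nat_lit 2863] (nat_lit 0) [] false,
   Spec.mk (nat_lit 22607) (nat_lit 3) [nat_lit 9485, nat_lit 26981, nat_lit 21149, nat_lit 24065, nat_lit 22121, nat_lit 22613, nat_lit 42289] (nat_lit 0) [] false,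
   Spec.mk (nat_lit 22613) (nat_lit 2) [nat_lit 9491, nat_lit 26987, nat_lit 21155, nat_lit 24071, nat_lit 22127, nat_lit 22631, nat_lit 22607, nat_lit 22619, nat_lit 22615, nat_lit 42295] (nat_lit 0) [] false,
   Spec.mk (nat_lit 22615) (nat_lit 2) [nat_lit 9493, nat_lit 26989, nat_lit 21157, nat_lit 24073, nat_lit 22129, nat_lit 22633, nat_lit 22621, nat_lit 22613, nat_lit 42297, nat_lit 2933] (nat_lit 0) [] false,
   Spec.mk (nat_lit 22619) (nat_lit 0) [nat_lit 9497, nat_lit 26993, nat_lit 21161, nat_lit 24077, nat_lit 22133, nat_lit 22637, nat_lit 22613, nat_lit 22621, nat_lit 42301] (nat_lit 1) [] false,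
   Spec.mk (nat_lit 22621) (nat_lit 1) [nat_lit 9499, nat_lit 26995, nat_lit 21163, nat_lit 24079, nat_lit 22135, nat_lit 22639, nat_lit 22615, nat_lit 22619, nat_lit 22623, nat_lit 42303, nat_lit 2939] (nat_lit 0) [] false,
   Spec.mk (nat_lit 22623) (nat_lit 1) [nat_lit 9501, nat_lit 26997, nat_lit 21165, nat_lit 24081, nat_lit 22137, nat_lit 22641, nat_lit 22621, nat_lit 2941] (nat_lit 0) [] false,
   Spec.mk (nat_lit 22631) (nat_lit 1) [nat_lit 9509, nat_lit 27005, nat_lit 21173, nat_lit 24089, nat_lit 22145, nat_lit 22685, nat_lit 22613, nat_lit 22637, nat_lit 22633, nat_lit 42313] (nat_lit 0) [] false,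
   Spec.mk (nat_lit 22633) (nat_lit 0) [nat_lit 9511, nat_lit 27007, nat_lit 21175, nat_lit 24091, nat_lit 22147, nat_lit 22687, nat_lit 22615, nat_lit 22639, nat_lit 22631, nat_lit 42315, nat_lit 2951] (nat_lit 0) [] false,
   Spec.mk (nat_lit 22637) (nat_lit 0) [nat_lit 9515, nat_lit 27011, nat_lit 21179, nat_lit 24095, nat_lit 22151, nat_lit 22691, nat_lit 22619, nat_lit 22655, nat_lit 22631, nat_lit 22639, nat_lit 42319] (nat_lit 0) [] false,
   Spec.mk (nat_lit 22639) (nat_lit 1) [nat_lit 9517, nat_lit 27013, nat_lit 21181, nat_lit 24097, nat_lit 22153, nat_lit 22693, nat_lit 22621, nat_lit 22657, nat_lit 22633, nat_lit 22645, nat_lit 22637, nat_lit 22641, nat_lit 42321, nat_lit 2957] (nat_lit 0) [] false,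
   Spec.mk (nat_lit 22641) (nat_lit 0) [nat_lit 9519, nat_lit 27015, nat_lit 21183, nat_lit 24099, nat_lit 22155, nat_lit 22695, nat_lit 22623, nat_lit 22659, nat_lit 22647, nat_lit 22639, nat_lit 2959] (nat_lit 0) [] false,
   Spec.mk (nat_lit 22645) (nat_lit 0) [nat_lit 9523, nat_lit 27019, nat_lit 21187, nat_lit 24103, nat_lit 22159, nat_lit 22699, nat_lit 22663, nat_lit 22639, nat_lit 22647, nat_lit 42327, nat_lit 2963] (nat_lit 0) [] false,
   Spec.mk (nat_lit 22647) (nat_lit 1) [nat_lit 9525, nat_lit 27021, nat_lit 21189, nat_lit 24105, nat_lit 22161, nat_lit 22701, nat_lit 22665, nat_lit 22641, nat_lit 22645, nat_lit 2965] (nat_lit 0) [] false,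
   Spec.mk (nat_lit 22655) (nat_lit 0) [nat_lit 9533, nat_lit 27029, nat_lit 21197, nat_lit 24113, nat_lit 22169, nat_lit 22709, nat_lit 22637, nat_lit 22657, nat_lit 42337] (nat_lit 1) [] false,
   Spec.mk (nat_lit 22657) (nat_lit 0) [nat_lit 9535, nat_lit 27031, nat_lit 21199, nat_lit 24115, nat_lit 22171, nat_lit 22711, nat_lit 22639, nat_lit 22663, nat_lit 22655, nat_lit 22659, nat_lit 42339, nat_lit 2975] (nat_lit 1) [] false,
   Spec.mk (nat_lit 22659) (nat_lit 0) [nat_lit 9537, nat_lit 27033, nat_lit 21201, nat_lit 24117, nat_lit 22173, nat_lit 22713, nat_lit 22641, nat_lit 22665, nat_lit 22657, nat_lit 2977] (nat_lit 3) [] false,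
   Spec.mk (nat_lit 22663) (nat_lit 0) [nat_lit 9541, nat_lit 27037, nat_lit 21205, nat_lit 24121, nat_lit 22177, nat_lit 22717, nat_lit 22645, nat_lit 22657, nat_lit 22665, nat_lit 42345, nat_lit 2981] (nat_lit 0) [] false,
   Spec.mk (nat_lit 22665) (nat_lit 0) [nat_lit 9543, nat_lit 27039, nat_lit 21207, nat_lit 24123, nat_lit 22179, nat_lit 22719, nat_lit 22647, nat_lit 22659, nat_lit 22671, nat_lit 22663, nat_lit 2983] (nat_lit 0) [] false,
   Spec.mk (nat_lit 22671) (nat_lit 1) [nat_lit 9549, nat_lit 27045, nat_lit 21213, nat_lit 24129, nat_lit 22185, nat_lit 22725, nat_lit 22665, nat_lit 2989] (nat_lit 0) [] false,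
   Spec.mk (nat_lit 22685) (nat_lit 1) [nat_lit 9563, nat_lit 27059, nat_lit 21227, nat_lit 24143, nat_lit 22199, nat_lit 22847, nat_lit 22631, nat_lit 22691, nat_lit 22687, nat_lit 42367] (nat_lit 0) [] false,
   Spec.mk (nat_lit 22687) (nat_lit 0) [nat_lit 9565, nat_lit 27061, nat_lit 21229, nat_lit 24145, nat_lit 22201, nat_lit 22849, nat_lit 22633, nat_lit 22693, nat_lit 22685, nat_lit 42369, nat_lit 3005] (nat_lit 0) [] false,
   Spec.mk (nat_lit 22691) (nat_lit 0) [nat_lit 9569, nat_lit 27065, nat_lit 21233, nat_lit 24149, nat_lit 22205, nat_lit 22853, nat_lit 22637, nat_lit 22709, nat_lit 22685, nat_lit 22693, nat_lit 42373] (nat_lit 1) [] false,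
   Spec.mk (nat_lit 22693) (nat_lit 0) [nat_lit 9571, nat_lit 27067, nat_lit 21235, nat_lit 24151, nat_lit 22207, nat_lit 22855, nat_lit 22639, nat_lit 22711, nat_lit 22687, nat_lit 22699, nat_lit 22691, nat_lit 22695, nat_lit 42375, nat_lit 3011] (nat_lit 0) [] false,
   Spec.mk (nat_lit 22695) (nat_lit 0) [nat_lit 9573, nat_lit 27069, nat_lit 21237, nat_lit 24153, nat_lit 22209, nat_lit 22857, nat_lit 22641, nat_lit 22713, nat_lit 22701, nat_lit 22693, nat_lit 3013] (nat_lit 1) [] false,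
   Spec.mk (nat_lit 22699) (nat_lit 0) [nat_lit 9577, nat_lit 27073, nat_lit 21241, nat_lit 24157, nat_lit 22213, nat_lit 22861, nat_lit 22645, nat_lit 22717, nat_lit 22693, nat_lit 22701, nat_lit 42381, nat_lit 3017] (nat_lit 2) [] false,
   Spec.mk (nat_lit 22701) (nat_lit 0) [nat_lit 9579, nat_lit 27075, nat_lit 21243, nat_lit 24159, nat_lit 22215, nat_lit 22863, nat_lit 22647, nat_lit 22719, nat_lit 22695, nat_lit 22699, nat_lit 3019] (nat_lit 1) [] false,
   Spec.mk (nat_lit 22709) (nat_lit 0) [nat_lit 9587, nat_lit 27083, nat_lit 21251, nat_lit 24167, nat_lit 22223, nat_lit 22871, nat_lit 22655, nat_lit 22763, nat_lit 22691, nat_lit 22711, nat_lit 42391] (nat_lit 0) [] false,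
   Spec.mk (nat_lit 22711) (nat_lit 0) [nat_lit 9589, nat_lit 27085, nat_lit 21253, nat_lit 24169, nat_lit 22225, nat_lit 22873, nat_lit 22657, nat_lit 22765, nat_lit 22693, nat_lit 22717, nat_lit 22709, nat_lit 22713, nat_lit 42393, nat_lit 3029] (nat_lit 0) [] false,
   Spec.mk (nat_lit 22713) (nat_lit 0) [nat_lit 9591, nat_lit 27087, nat_lit 21255, nat_lit 24171, nat_lit 22227, nat_lit 22875, nat_lit 22659, nat_lit 22767, nat_lit 22695, nat_lit 22719, nat_lit 22711, nat_lit 3031] (nat_lit 2) [] false,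
   Spec.mk (nat_lit 22717) (nat_lit 0) [nat_lit 9595, nat_lit 27091, nat_lit 21259, nat_lit 24175, nat_lit 22231, nat_lit 22879, nat_lit 22663, nat_lit 22771, nat_lit 22699, nat_lit 22735, nat_lit 22711, nat_lit 22719, nat_lit 42399, nat_lit 3035] (nat_lit 0) [] false,
   Spec.mk (nat_lit 22719) (nat_lit 0) [nat_lit 9597, nat_lit 27093, nat_lit 21261, nat_lit 24177, nat_lit 22233, nat_lit 22881, nat_lit 22665, nat_lit 22773, nat_lit 22701, nat_lit 22737, nat_lit 22713, nat_lit 22725, nat_lit 22717, nat_lit 3037] (nat_lit 0) [] false,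
   Spec.mk (nat_lit 22725) (nat_lit 0) [nat_lit 9603, nat_lit 27099, nat_lit 21267, nat_lit 24183, nat_lit 22239, nat_lit 22887, nat_lit 22671, nat_lit 22779, nat_lit 22743, nat_lit 22719, nat_lit 3043] (nat_lit 0) [] false,
   Spec.mk (nat_lit 22735) (nat_lit 0) [nat_lit 9613, nat_lit 27109, nat_lit 21277, nat_lit 24193, nat_lit 22249, nat_lit 22897, nat_lit 22789, nat_lit 22717, nat_lit 22737, nat_lit 42417, nat_lit 3053] (nat_lit 0) [] false]

noncomputable def sp47 : List Spec :=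
  [Spec.mk (nat_lit 22737) (nat_lit 0) [nat_lit 9615, nat_lit 27111, nat_lit 21279, nat_lit 24195, nat_lit 22251, nat_lit 22899, nat_lit 22791, nat_lit 22719, nat_lit 22743, nat_lit 22735, nat_lit 3055] (nat_lit 1) [] false,
   Spec.mk (nat_lit 22743) (nat_lit 1) [nat_lit 9621, nat_lit 27117, nat_lit 21285, nat_lit 24201, nat_lit 22257, nat_lit 22905, nat_lit 22797, nat_lit 22725, nat_lit 22737, nat_lit 3061] (nat_lit 0) [] false,
   Spec.mk (nat_lit 22763) (nat_lit 0) [nat_lit 9641, nat_lit 27137, nat_lit 21305, nat_lit 24221, nat_lit 22277, nat_lit 22925, nat_lit 22709, nat_lit 22765, nat_lit 42445] (nat_lit 1) [] false,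
   Spec.mk (nat_lit 22765) (nat_lit 0) [nat_lit 9643, nat_lit 27139, nat_lit 21307, nat_lit 24223, nat_lit 22279, nat_lit 22927, nat_lit 22711, nat_lit 22771, nat_lit 22763, nat_lit 22767, nat_lit 42447, nat_lit 3083] (nat_lit 1) [] false,
   Spec.mk (nat_lit 22767) (nat_lit 0) [nat_lit 9645, nat_lit 27141, nat_lit 21309, nat_lit 24225, nat_lit 22281, nat_lit 22929, nat_lit 22713, nat_lit 22773, nat_lit 22765, nat_lit 3085] (nat_lit 3) [] false,
   Spec.mk (nat_lit 22771) (nat_lit 0) [nat_lit 9649, nat_lit 27145, nat_lit 21313, nat_lit 24229, nat_lit 22285, nat_lit 22933, nat_lit 22717, nat_lit 22789, nat_lit 22765, nat_lit 22773, nat_lit 42453, nat_lit 3089] (nat_lit 2) [] false,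
   Spec.mk (nat_lit 22773) (nat_lit 0) [nat_lit 9651, nat_lit 27147, nat_lit 21315, nat_lit 24231, nat_lit 22287, nat_lit 22935, nat_lit 22719, nat_lit 22791, nat_lit 22767, nat_lit 22779, nat_lit 22771, nat_lit 3091] (nat_lit 2) [] false,
   Spec.mk (nat_lit 22779) (nat_lit 0) [nat_lit 9657, nat_lit 27153, nat_lit 21321, nat_lit 24237, nat_lit 22293, nat_lit 22941, nat_lit 22725, nat_lit 22797, nat_lit 22773, nat_lit 3097] (nat_lit 3) [] false,
   Spec.mk (nat_lit 22789) (nat_lit 0) [nat_lit 9667, nat_lit 27163, nat_lit 21331, nat_lit 24247, nat_lit 22303, nat_lit 22951, nat_lit 22735, nat_lit 22771, nat_lit 22791, nat_lit 42471, nat_lit 3107] (nat_lit 0) [] false,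
   Spec.mk (nat_lit 22791) (nat_lit 0) [nat_lit 9669, nat_lit 27165, nat_lit 21333, nat_lit 24249, nat_lit 22305, nat_lit 22953, nat_lit 22737, nat_lit 22773, nat_lit 22797, nat_lit 22789, nat_lit 3109] (nat_lit 1) [] false,
   Spec.mk (nat_lit 22797) (nat_lit 0) [nat_lit 9675, nat_lit 27171, nat_lit 21339, nat_lit 24255, nat_lit 22311, nat_lit 22959, nat_lit 22743, nat_lit 22779, nat_lit 22815, nat_lit 22791, nat_lit 3115] (nat_lit 0) [] false,
   Spec.mk (nat_lit 22815) (nat_lit 1) [nat_lit 9693, nat_lit 27189, nat_lit 21357, nat_lit 24273, nat_lit 22329, nat_lit 22977, nat_lit 22797, nat_lit 3133] (nat_lit 0) [] false,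
   Spec.mk (nat_lit 22847) (nat_lit 2) [nat_lit 9725, nat_lit 27221, nat_lit 21389, nat_lit 24305, nat_lit 22361, nat_lit 23333, nat_lit 22685, nat_lit 22853, nat_lit 22849, nat_lit 42529] (nat_lit 0) [] false,
   Spec.mk (nat_lit 22849) (nat_lit 1) [nat_lit 9727, nat_lit 27223, nat_lit 21391, nat_lit 24307, nat_lit 22363, nat_lit 23335, nat_lit 22687, nat_lit 22855, nat_lit 22847, nat_lit 42531, nat_lit 3167] (nat_lit 0) [] false,
   Spec.mk (nat_lit 22853) (nat_lit 0) [nat_lit 9731, nat_lit 27227, nat_lit 21395, nat_lit 24311, nat_lit 22367, nat_lit 23339, nat_lit 22691, nat_lit 22871, nat_lit 22847, nat_lit 22855, nat_lit 42535] (nat_lit 0) [] false,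
   Spec.mk (nat_lit 22855) (nat_lit 1) [nat_lit 9733, nat_lit 27229, nat_lit 21397, nat_lit 24313, nat_lit 22369, nat_lit 23341, nat_lit 22693, nat_lit 22873, nat_lit 22849, nat_lit 22861, nat_lit 22853, nat_lit 22857, nat_lit 42537, nat_lit 3173] (nat_lit 0) [] false,
   Spec.mk (nat_lit 22857) (nat_lit 0) [nat_lit 9735, nat_lit 27231, nat_lit 21399, nat_lit 24315, nat_lit 22371, nat_lit 23343, nat_lit 22695, nat_lit 22875, nat_lit 22863, nat_lit 22855, nat_lit 3175] (nat_lit 0) [] false,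
   Spec.mk (nat_lit 22861) (nat_lit 0) [nat_lit 9739, nat_lit 27235, nat_lit 21403, nat_lit 24319, nat_lit 22375, nat_lit 23347, nat_lit 22699, nat_lit 22879, nat_lit 22855, nat_lit 22863, nat_lit 42543, nat_lit 3179] (nat_lit 1) [] false,
   Spec.mk (nat_lit 22863) (nat_lit 0) [nat_lit 9741, nat_lit 27237, nat_lit 21405, nat_lit 24321, nat_lit 22377, nat_lit 23349, nat_lit 22701, nat_lit 22881, nat_lit 22857, nat_lit 22861, nat_lit 3181] (nat_lit 0) [] false,
   Spec.mk (nat_lit 22871) (nat_lit 0) [nat_lit 9749, nat_lit 27245, nat_lit 21413, nat_lit 24329, nat_lit 22385, nat_lit 23357, nat_lit 22709, nat_lit 22925, nat_lit 22853, nat_lit 22873, nat_lit 42553] (nat_lit 0) [] false,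
   Spec.mk (nat_lit 22873) (nat_lit 0) [nat_lit 9751, nat_lit 27247, nat_lit 21415, nat_lit 24331, nat_lit 22387, nat_lit 23359, nat_lit 22711, nat_lit 22927, nat_lit 22855, nat_lit 22879, nat_lit 22871, nat_lit 22875, nat_lit 42555, nat_lit 3191] (nat_lit 0) [] false,
   Spec.mk (nat_lit 22875) (nat_lit 0) [nat_lit 9753, nat_lit 27249, nat_lit 21417, nat_lit 24333, nat_lit 22389, nat_lit 23361, nat_lit 22713, nat_lit 22929, nat_lit 22857, nat_lit 22881, nat_lit 22873, nat_lit 3193] (nat_lit 2) [] false,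
   Spec.mk (nat_lit 22879) (nat_lit 0) [nat_lit 9757, nat_lit 27253, nat_lit 21421, nat_lit 24337, nat_lit 22393, nat_lit 23365, nat_lit 22717, nat_lit 22933, nat_lit 22861, nat_lit 22897, nat_lit 22873, nat_lit 22881, nat_lit 42561, nat_lit 3197] (nat_lit 0) [] false,
   Spec.mk (nat_lit 22881) (nat_lit 0) [nat_lit 9759, nat_lit 27255, nat_lit 21423, nat_lit 24339, nat_lit 22395, nat_lit 23367, nat_lit 22719, nat_lit 22935, nat_lit 22863, nat_lit 22899, nat_lit 22875, nat_lit 22887, nat_lit 22879, nat_lit 3199] (nat_lit 0) [] false,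
   Spec.mk (nat_lit 22887) (nat_lit 0) [nat_lit 9765, nat_lit 27261, nat_lit 21429, nat_lit 24345, nat_lit 22401, nat_lit 23373, nat_lit 22725, nat_lit 22941, nat_lit 22905, nat_lit 22881, nat_lit 3205] (nat_lit 0) [] false,
   Spec.mk (nat_lit 22897) (nat_lit 0) [nat_lit 9775, nat_lit 27271, nat_lit 21439, nat_lit 24355, nat_lit 22411, nat_lit 23383, nat_lit 22735, nat_lit 22951, nat_lit 22879, nat_lit 22899, nat_lit 42579, nat_lit 3215] (nat_lit 1) [] false,
   Spec.mk (nat_lit 22899) (nat_lit 0) [nat_lit 9777, nat_lit 27273, nat_lit 21441, nat_lit 24357, nat_lit 22413, nat_lit 23385, nat_lit 22737, nat_lit 22953, nat_lit 22881, nat_lit 22905, nat_lit 22897, nat_lit 3217] (nat_lit 2) [] false,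
   Spec.mk (nat_lit 22905) (nat_lit 0) [nat_lit 9783, nat_lit 27279, nat_lit 21447, nat_lit 24363, nat_lit 22419, nat_lit 23391, nat_lit 22743, nat_lit 22959, nat_lit 22887, nat_lit 22899, nat_lit 3223] (nat_lit 0) [] false,
   Spec.mk (nat_lit 22925) (nat_lit 1) [nat_lit 9803, nat_lit 27299, nat_lit 21467, nat_lit 24383, nat_lit 22439, nat_lit 23411, nat_lit 22763, nat_lit 23087, nat_lit 22871, nat_lit 22927, nat_lit 42607] (nat_lit 0) [] false,
   Spec.mk (nat_lit 22927) (nat_lit 1) [nat_lit 9805, nat_lit 27301, nat_lit 21469, nat_lit 24385, nat_lit 22441, nat_lit 23413, nat_lit 22765, nat_lit 23089, nat_lit 22873, nat_lit 22933, nat_lit 22925, nat_lit 22929, nat_lit 42609, nat_lit 3245] (nat_lit 0) [] false,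
   Spec.mk (nat_lit 22929) (nat_lit 0) [nat_lit 9807, nat_lit 27303, nat_lit 21471, nat_lit 24387, nat_lit 22443, nat_lit 23415, nat_lit 22767, nat_lit 23091, nat_lit 22875, nat_lit 22935, nat_lit 22927, nat_lit 3247] (nat_lit 1) [] false,
   Spec.mk (nat_lit 22933) (nat_lit 0) [nat_lit 9811, nat_lit 27307, nat_lit 21475, nat_lit 24391, nat_lit 22447, nat_lit 23419, nat_lit 22771, nat_lit 23095, nat_lit 22879, nat_lit 22951, nat_lit 22927, nat_lit 22935, nat_lit 42615, nat_lit 3251] (nat_lit 0) [] false,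
   Spec.mk (nat_lit 22935) (nat_lit 0) [nat_lit 9813, nat_lit 27309, nat_lit 21477, nat_lit 24393, nat_lit 22449, nat_lit 23421, nat_lit 22773, nat_lit 23097, nat_lit 22881, nat_lit 22953, nat_lit 22929, nat_lit 22941, nat_lit 22933, nat_lit 3253] (nat_lit 0) [] false,
   Spec.mk (nat_lit 22941) (nat_lit 0) [nat_lit 9819, nat_lit 27315, nat_lit 21483, nat_lit 24399, nat_lit 22455, nat_lit 23427, nat_lit 22779, nat_lit 23103, nat_lit 22887, nat_lit 22959, nat_lit 22935, nat_lit 3259] (nat_lit 1) [] false,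
   Spec.mk (nat_lit 22951) (nat_lit 1) [nat_lit 9829, nat_lit 27325, nat_lit 21493, nat_lit 24409, nat_lit 22465, nat_lit 23437, nat_lit 22789, nat_lit 23113, nat_lit 22897, nat_lit 23005, nat_lit 22933, nat_lit 22953, nat_lit 42633, nat_lit 3269] (nat_lit 0) [] false,
   Spec.mk (nat_lit 22953) (nat_lit 0) [nat_lit 9831, nat_lit 27327, nat_lit 21495, nat_lit 24411, nat_lit 22467, nat_lit 23439, nat_lit 22791, nat_lit 23115, nat_lit 22899, nat_lit 23007, nat_lit 22935, nat_lit 22959, nat_lit 22951, nat_lit 3271] (nat_lit 0) [] false,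
   Spec.mk (nat_lit 22959) (nat_lit 1) [nat_lit 9837, nat_lit 27333, nat_lit 21501, nat_lit 24417, nat_lit 22473, nat_lit 23445, nat_lit 22797, nat_lit 23121, nat_lit 22905, nat_lit 23013, nat_lit 22941, nat_lit 22977, nat_lit 22953, nat_lit 3277] (nat_lit 0) [] false,
   Spec.mk (nat_lit 22977) (nat_lit 1) [nat_lit 9855, nat_lit 27351, nat_lit 21519, nat_lit 24435, nat_lit 22491, nat_lit 23463, nat_lit 22815, nat_lit 23139, nat_lit 23031, nat_lit 22959, nat_lit 3295] (nat_lit 0) [] false,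
   Spec.mk (nat_lit 23005) (nat_lit 1) [nat_lit 9883, nat_lit 27379, nat_lit 21547, nat_lit 24463, nat_lit 22519, nat_lit 23491, nat_lit 23167, nat_lit 22951, nat_lit 23007, nat_lit 42687, nat_lit 3323] (nat_lit 0) [] false,
   Spec.mk (nat_lit 23007) (nat_lit 0) [nat_lit 9885, nat_lit 27381, nat_lit 21549, nat_lit 24465, nat_lit 22521, nat_lit 23493, nat_lit 23169, nat_lit 22953, nat_lit 23013, nat_lit 23005, nat_lit 3325] (nat_lit 0) [] false,
   Spec.mk (nat_lit 23013) (nat_lit 0) [nat_lit 9891, nat_lit 27387, nat_lit 21555, nat_lit 24471, nat_lit 22527, nat_lit 23499, nat_lit 23175, nat_lit 22959, nat_lit 23031, nat_lit 23007, nat_lit 3331] (nat_lit 0) [] false,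
   Spec.mk (nat_lit 23031) (nat_lit 2) [nat_lit 9909, nat_lit 27405, nat_lit 21573, nat_lit 24489, nat_lit 22545, nat_lit 23517, nat_lit 23193, nat_lit 22977, nat_lit 23013, nat_lit 3349] (nat_lit 0) [] false,
   Spec.mk (nat_lit 23087) (nat_lit 1) [nat_lit 9965, nat_lit 27461, nat_lit 21629, nat_lit 24545, nat_lit 23573, nat_lit 22925, nat_lit 23089, nat_lit 42769] (nat_lit 0) [] false,
   Spec.mk (nat_lit 23089) (nat_lit 1) [nat_lit 9967, nat_lit 27463, nat_lit 21631, nat_lit 24547, nat_lit 23575, nat_lit 22927, nat_lit 23095, nat_lit 23087, nat_lit 23091, nat_lit 42771, nat_lit 3407] (nat_lit 0) [] false,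
   Spec.mk (nat_lit 23091) (nat_lit 0) [nat_lit 9969, nat_lit 27465, nat_lit 21633, nat_lit 24549, nat_lit 23577, nat_lit 22929, nat_lit 23097, nat_lit 23089, nat_lit 3409] (nat_lit 1) [] false,
   Spec.mk (nat_lit 23095) (nat_lit 0) [nat_lit 9973, nat_lit 27469, nat_lit 21637, nat_lit 24553, nat_lit 23581, nat_lit 22933, nat_lit 23113, nat_lit 23089, nat_lit 23097, nat_lit 42777, nat_lit 3413] (nat_lit 0) [] false,
   Spec.mk (nat_lit 23097) (nat_lit 0) [nat_lit 9975, nat_lit 27471, nat_lit 21639, nat_lit 24555, nat_lit 23583, nat_lit 22935, nat_lit 23115, nat_lit 23091, nat_lit 23103, nat_lit 23095, nat_lit 3415] (nat_lit 0) [] false,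
   Spec.mk (nat_lit 23103) (nat_lit 0) [nat_lit 9981, nat_lit 27477, nat_lit 21645, nat_lit 24561, nat_lit 23589, nat_lit 22941, nat_lit 23121, nat_lit 23097, nat_lit 3421] (nat_lit 1) [] false,
   Spec.mk (nat_lit 23113) (nat_lit 0) [nat_lit 9991, nat_lit 27487, nat_lit 21655, nat_lit 24571, nat_lit 23599, nat_lit 22951, nat_lit 23167, nat_lit 23095, nat_lit 23115, nat_lit 42795, nat_lit 3431] (nat_lit 0) [] false,
   Spec.mk (nat_lit 23115) (nat_lit 0) [nat_lit 9993, nat_lit 27489, nat_lit 21657, nat_lit 24573, nat_lit 23601, nat_lit 22953, nat_lit 23169, nat_lit 23097, nat_lit 23121, nat_lit 23113, nat_lit 3433] (nat_lit 1) [] false,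
   Spec.mk (nat_lit 23121) (nat_lit 0) [nat_lit 9999, nat_lit 27495, nat_lit 21663, nat_lit 24579, nat_lit 23607, nat_lit 22959, nat_lit 23175, nat_lit 23103, nat_lit 23139, nat_lit 23115, nat_lit 3439] (nat_lit 0) [] false,
   Spec.mk (nat_lit 23139) (nat_lit 0) [nat_lit 10017, nat_lit 27513, nat_lit 21681, nat_lit 24597, nat_lit 23625, nat_lit 22977, nat_lit 23193, nat_lit 23121, nat_lit 3457] (nat_lit 1) [] false,
   Spec.mk (nat_lit 23167) (nat_lit 2) [nat_lit 10045, nat_lit 27541, nat_lit 21709, nat_lit 24625, nat_lit 23653, nat_lit 23005, nat_lit 23113, nat_lit 23169, nat_lit 42849, nat_lit 3485] (nat_lit 0) [] false,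
   Spec.mk (nat_lit 23169) (nat_lit 1) [nat_lit 10047, nat_lit 27543, nat_lit 21711, nat_lit 24627, nat_lit 23655, nat_lit 23007, nat_lit 23115, nat_lit 23175, nat_lit 23167, nat_lit 3487] (nat_lit 0) [] false,
   Spec.mk (nat_lit 23175) (nat_lit 1) [nat_lit 10053, nat_lit 27549, nat_lit 21717, nat_lit 24633, nat_lit 23661, nat_lit 23013, nat_lit 23121, nat_lit 23193, nat_lit 23169, nat_lit 3493] (nat_lit 0) [] false,
   Spec.mk (nat_lit 23193) (nat_lit 2) [nat_lit 10071, nat_lit 27567, nat_lit 21735, nat_lit 24651, nat_lit 23679, nat_lit 23031, nat_lit 23139, nat_lit 23247, nat_lit 23175, nat_lit 3511] (nat_lit 0) [] false,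
   Spec.mk (nat_lit 23247) (nat_lit 3) [nat_lit 10125, nat_lit 27621, nat_lit 21789, nat_lit 24705, nat_lit 23733, nat_lit 23193, nat_lit 3565] (nat_lit 0) [] false,
   Spec.mk (nat_lit 23333) (nat_lit 2) [nat_lit 10211, nat_lit 27707, nat_lit 24791, nat_lit 22847, nat_lit 23339, nat_lit 23335, nat_lit 43015] (nat_lit 0) [] false,
   Spec.mk (nat_lit 23335) (nat_lit 1) [nat_lit 10213, nat_lit 27709, nat_lit 24793, nat_lit 22849, nat_lit 23341, nat_lit 23333, nat_lit 43017, nat_lit 3653] (nat_lit 0) [] false,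
   Spec.mk (nat_lit 23339) (nat_lit 0) [nat_lit 10217, nat_lit 27713, nat_lit 24797, nat_lit 22853, nat_lit 23357, nat_lit 23333, nat_lit 23341, nat_lit 43021] (nat_lit 0) [] false]

noncomputable def sp48 : List Spec :=
  [Spec.mk (nat_lit 23341) (nat_lit 1) [nat_lit 10219, nat_lit 27715, nat_lit 24799, nat_lit 22855, nat_lit 23359, nat_lit 23335, nat_lit 23347, nat_lit 23339, nat_lit 23343, nat_lit 43023, nat_lit 3659] (nat_lit 0) [] false,
   Spec.mk (nat_lit 23343) (nat_lit 0) [nat_lit 10221, nat_lit 27717, nat_lit 24801, nat_lit 22857, nat_lit 23361, nat_lit 23349, nat_lit 23341, nat_lit 3661] (nat_lit 0) [] false,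
   Spec.mk (nat_lit 23347) (nat_lit 0) [nat_lit 10225, nat_lit 27721, nat_lit 24805, nat_lit 22861, nat_lit 23365, nat_lit 23341, nat_lit 23349, nat_lit 43029, nat_lit 3665] (nat_lit 1) [] false,
   Spec.mk (nat_lit 23349) (nat_lit 0) [nat_lit 10227, nat_lit 27723, nat_lit 24807, nat_lit 22863, nat_lit 23367, nat_lit 23343, nat_lit 23347, nat_lit 3667] (nat_lit 0) [] false,
   Spec.mk (nat_lit 23357) (nat_lit 0) [nat_lit 10235, nat_lit 27731, nat_lit 24815, nat_lit 22871, nat_lit 23411, nat_lit 23339, nat_lit 23359, nat_lit 43039] (nat_lit 0) [] false,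
   Spec.mk (nat_lit 23359) (nat_lit 0) [nat_lit 10237, nat_lit 27733, nat_lit 24817, nat_lit 22873, nat_lit 23413, nat_lit 23341, nat_lit 23365, nat_lit 23357, nat_lit 23361, nat_lit 43041, nat_lit 3677] (nat_lit 0) [] false,
   Spec.mk (nat_lit 23361) (nat_lit 0) [nat_lit 10239, nat_lit 27735, nat_lit 24819, nat_lit 22875, nat_lit 23415, nat_lit 23343, nat_lit 23367, nat_lit 23359, nat_lit 3679] (nat_lit 2) [] false,
   Spec.mk (nat_lit 23365) (nat_lit 0) [nat_lit 10243, nat_lit 27739, nat_lit 24823, nat_lit 22879, nat_lit 23419, nat_lit 23347, nat_lit 23383, nat_lit 23359, nat_lit 23367, nat_lit 43047, nat_lit 3683] (nat_lit 0) [] false,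
   Spec.mk (nat_lit 23367) (nat_lit 0) [nat_lit 10245, nat_lit 27741, nat_lit 24825, nat_lit 22881, nat_lit 23421, nat_lit 23349, nat_lit 23385, nat_lit 23361, nat_lit 23373, nat_lit 23365, nat_lit 3685] (nat_lit 0) [] false,
   Spec.mk (nat_lit 23373) (nat_lit 0) [nat_lit 10251, nat_lit 27747, nat_lit 24831, nat_lit 22887, nat_lit 23427, nat_lit 23391, nat_lit 23367, nat_lit 3691] (nat_lit 0) [] false,
   Spec.mk (nat_lit 23383) (nat_lit 0) [nat_lit 10261, nat_lit 27757, nat_lit 24841, nat_lit 22897, nat_lit 23437, nat_lit 23365, nat_lit 23385, nat_lit 43065, nat_lit 3701] (nat_lit 1) [] false,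
   Spec.mk (nat_lit 23385) (nat_lit 0) [nat_lit 10263, nat_lit 27759, nat_lit 24843, nat_lit 22899, nat_lit 23439, nat_lit 23367, nat_lit 23391, nat_lit 23383, nat_lit 3703] (nat_lit 2) [] false,
   Spec.mk (nat_lit 23391) (nat_lit 0) [nat_lit 10269, nat_lit 27765, nat_lit 24849, nat_lit 22905, nat_lit 23445, nat_lit 23373, nat_lit 23385, nat_lit 3709] (nat_lit 0) [] false,
   Spec.mk (nat_lit 23411) (nat_lit 0) [nat_lit 10289, nat_lit 27785, nat_lit 24869, nat_lit 22925, nat_lit 23573, nat_lit 23357, nat_lit 23413, nat_lit 43093] (nat_lit 0) [] false,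
   Spec.mk (nat_lit 23413) (nat_lit 0) [nat_lit 10291, nat_lit 27787, nat_lit 24871, nat_lit 22927, nat_lit 23575, nat_lit 23359, nat_lit 23419, nat_lit 23411, nat_lit 23415, nat_lit 43095, nat_lit 3731] (nat_lit 0) [] false,
   Spec.mk (nat_lit 23415) (nat_lit 0) [nat_lit 10293, nat_lit 27789, nat_lit 24873, nat_lit 22929, nat_lit 23577, nat_lit 23361, nat_lit 23421, nat_lit 23413, nat_lit 3733] (nat_lit 2) [] false,
   Spec.mk (nat_lit 23419) (nat_lit 0) [nat_lit 10297, nat_lit 27793, nat_lit 24877, nat_lit 22933, nat_lit 23581, nat_lit 23365, nat_lit 23437, nat_lit 23413, nat_lit 23421, nat_lit 43101, nat_lit 3737] (nat_lit 1) [] false,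
   Spec.mk (nat_lit 23421) (nat_lit 0) [nat_lit 10299, nat_lit 27795, nat_lit 24879, nat_lit 22935, nat_lit 23583, nat_lit 23367, nat_lit 23439, nat_lit 23415, nat_lit 23427, nat_lit 23419, nat_lit 3739] (nat_lit 1) [] false,
   Spec.mk (nat_lit 23427) (nat_lit 0) [nat_lit 10305, nat_lit 27801, nat_lit 24885, nat_lit 22941, nat_lit 23589, nat_lit 23373, nat_lit 23445, nat_lit 23421, nat_lit 3745] (nat_lit 2) [] false,
   Spec.mk (nat_lit 23437) (nat_lit 0) [nat_lit 10315, nat_lit 27811, nat_lit 24895, nat_lit 22951, nat_lit 23599, nat_lit 23383, nat_lit 23491, nat_lit 23419, nat_lit 23439, nat_lit 43119, nat_lit 3755] (nat_lit 0) [] false,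
   Spec.mk (nat_lit 23439) (nat_lit 0) [nat_lit 10317, nat_lit 27813, nat_lit 24897, nat_lit 22953, nat_lit 23601, nat_lit 23385, nat_lit 23493, nat_lit 23421, nat_lit 23445, nat_lit 23437, nat_lit 3757] (nat_lit 1) [] false,
   Spec.mk (nat_lit 23445) (nat_lit 0) [nat_lit 10323, nat_lit 27819, nat_lit 24903, nat_lit 22959, nat_lit 23607, nat_lit 23391, nat_lit 23499, nat_lit 23427, nat_lit 23463, nat_lit 23439, nat_lit 3763] (nat_lit 0) [] false,
   Spec.mk (nat_lit 23463) (nat_lit 0) [nat_lit 10341, nat_lit 27837, nat_lit 24921, nat_lit 22977, nat_lit 23625, nat_lit 23517, nat_lit 23445, nat_lit 3781] (nat_lit 0) [] false,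
   Spec.mk (nat_lit 23491) (nat_lit 0) [nat_lit 10369, nat_lit 27865, nat_lit 24949, nat_lit 23005, nat_lit 23653, nat_lit 23437, nat_lit 23493, nat_lit 43173, nat_lit 3809] (nat_lit 1) [] false,
   Spec.mk (nat_lit 23493) (nat_lit 0) [nat_lit 10371, nat_lit 27867, nat_lit 24951, nat_lit 23007, nat_lit 23655, nat_lit 23439, nat_lit 23499, nat_lit 23491, nat_lit 3811] (nat_lit 2) [] false,
   Spec.mk (nat_lit 23499) (nat_lit 0) [nat_lit 10377, nat_lit 27873, nat_lit 24957, nat_lit 23013, nat_lit 23661, nat_lit 23445, nat_lit 23517, nat_lit 23493, nat_lit 3817] (nat_lit 2) [] false,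
   Spec.mk (nat_lit 23517) (nat_lit 0) [nat_lit 10395, nat_lit 27891, nat_lit 24975, nat_lit 23031, nat_lit 23679, nat_lit 23463, nat_lit 23499, nat_lit 3835] (nat_lit 0) [] false,
   Spec.mk (nat_lit 23573) (nat_lit 2) [nat_lit 10451, nat_lit 27947, nat_lit 25031, nat_lit 23087, nat_lit 23411, nat_lit 23575, nat_lit 43255] (nat_lit 0) [] false,
   Spec.mk (nat_lit 23575) (nat_lit 2) [nat_lit 10453, nat_lit 27949, nat_lit 25033, nat_lit 23089, nat_lit 23413, nat_lit 23581, nat_lit 23573, nat_lit 23577, nat_lit 43257, nat_lit 3893] (nat_lit 0) [] false,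
   Spec.mk (nat_lit 23577) (nat_lit 0) [nat_lit 10455, nat_lit 27951, nat_lit 25035, nat_lit 23091, nat_lit 23415, nat_lit 23583, nat_lit 23575, nat_lit 3895] (nat_lit 0) [] false,
   Spec.mk (nat_lit 23581) (nat_lit 1) [nat_lit 10459, nat_lit 27955, nat_lit 25039, nat_lit 23095, nat_lit 23419, nat_lit 23599, nat_lit 23575, nat_lit 23583, nat_lit 43263, nat_lit 3899] (nat_lit 0) [] false,
   Spec.mk (nat_lit 23583) (nat_lit 1) [nat_lit 10461, nat_lit 27957, nat_lit 25041, nat_lit 23097, nat_lit 23421, nat_lit 23601, nat_lit 23577, nat_lit 23589, nat_lit 23581, nat_lit 3901] (nat_lit 0) [] false,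
   Spec.mk (nat_lit 23589) (nat_lit 0) [nat_lit 10467, nat_lit 27963, nat_lit 25047, nat_lit 23103, nat_lit 23427, nat_lit 23607, nat_lit 23583, nat_lit 3907] (nat_lit 0) [] false,
   Spec.mk (nat_lit 23599) (nat_lit 1) [nat_lit 10477, nat_lit 27973, nat_lit 25057, nat_lit 23113, nat_lit 23437, nat_lit 23653, nat_lit 23581, nat_lit 23601, nat_lit 43281, nat_lit 3917] (nat_lit 0) [] false,
   Spec.mk (nat_lit 23601) (nat_lit 0) [nat_lit 10479, nat_lit 27975, nat_lit 25059, nat_lit 23115, nat_lit 23439, nat_lit 23655, nat_lit 23583, nat_lit 23607, nat_lit 23599, nat_lit 3919] (nat_lit 0) [] false,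
   Spec.mk (nat_lit 23607) (nat_lit 1) [nat_lit 10485, nat_lit 27981, nat_lit 25065, nat_lit 23121, nat_lit 23445, nat_lit 23661, nat_lit 23589, nat_lit 23625, nat_lit 23601, nat_lit 3925] (nat_lit 0) [] false,
   Spec.mk (nat_lit 23625) (nat_lit 0) [nat_lit 10503, nat_lit 27999, nat_lit 25083, nat_lit 23139, nat_lit 23463, nat_lit 23679, nat_lit 23607, nat_lit 3943] (nat_lit 0) [] false,
   Spec.mk (nat_lit 23653) (nat_lit 2) [nat_lit 10531, nat_lit 28027, nat_lit 25111, nat_lit 23167, nat_lit 23491, nat_lit 23815, nat_lit 23599, nat_lit 23655, nat_lit 43335, nat_lit 3971] (nat_lit 0) [] false,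
   Spec.mk (nat_lit 23655) (nat_lit 1) [nat_lit 10533, nat_lit 28029, nat_lit 25113, nat_lit 23169, nat_lit 23493, nat_lit 23817, nat_lit 23601, nat_lit 23661, nat_lit 23653, nat_lit 3973] (nat_lit 0) [] false,
   Spec.mk (nat_lit 23661) (nat_lit 1) [nat_lit 10539, nat_lit 28035, nat_lit 25119, nat_lit 23175, nat_lit 23499, nat_lit 23823, nat_lit 23607, nat_lit 23679, nat_lit 23655, nat_lit 3979] (nat_lit 0) [] false,
   Spec.mk (nat_lit 23679) (nat_lit 2) [nat_lit 10557, nat_lit 28053, nat_lit 25137, nat_lit 23193, nat_lit 23517, nat_lit 23841, nat_lit 23625, nat_lit 23733, nat_lit 23661, nat_lit 3997] (nat_lit 0) [] false,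
   Spec.mk (nat_lit 23733) (nat_lit 2) [nat_lit 10611, nat_lit 28107, nat_lit 25191, nat_lit 23247, nat_lit 23895, nat_lit 23679, nat_lit 4051] (nat_lit 0) [] false,
   Spec.mk (nat_lit 23815) (nat_lit 3) [nat_lit 10693, nat_lit 28189, nat_lit 25273, nat_lit 23653, nat_lit 23817, nat_lit 43497, nat_lit 4133] (nat_lit 0) [] false,
   Spec.mk (nat_lit 23817) (nat_lit 2) [nat_lit 10695, nat_lit 28191, nat_lit 25275, nat_lit 23655, nat_lit 23823, nat_lit 23815, nat_lit 4135] (nat_lit 0) [] false,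
   Spec.mk (nat_lit 23823) (nat_lit 2) [nat_lit 10701, nat_lit 28197, nat_lit 25281, nat_lit 23661, nat_lit 23841, nat_lit 23817, nat_lit 4141] (nat_lit 0) [] false,
   Spec.mk (nat_lit 23841) (nat_lit 2) [nat_lit 10719, nat_lit 28215, nat_lit 25299, nat_lit 23679, nat_lit 23895, nat_lit 23823, nat_lit 4159] (nat_lit 0) [] false,
   Spec.mk (nat_lit 23895) (nat_lit 4) [nat_lit 10773, nat_lit 28269, nat_lit 25353, nat_lit 23733, nat_lit 23841, nat_lit 4213] (nat_lit 0) [] false,
   Spec.mk (nat_lit 24065) (nat_lit 2) [nat_lit 10943, nat_lit 28439, nat_lit 22607, nat_lit 24071, nat_lit 43747] (nat_lit 0) [] false,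
   Spec.mk (nat_lit 24071) (nat_lit 1) [nat_lit 10949, nat_lit 28445, nat_lit 22613, nat_lit 24089, nat_lit 24065, nat_lit 24077, nat_lit 24073, nat_lit 43753] (nat_lit 0) [] false,
   Spec.mk (nat_lit 24073) (nat_lit 1) [nat_lit 10951, nat_lit 28447, nat_lit 22615, nat_lit 24091, nat_lit 24079, nat_lit 24071, nat_lit 43755, nat_lit 4391] (nat_lit 0) [] false,
   Spec.mk (nat_lit 24077) (nat_lit 0) [nat_lit 10955, nat_lit 28451, nat_lit 22619, nat_lit 24095, nat_lit 24071, nat_lit 24079, nat_lit 43759] (nat_lit 2) [] false,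
   Spec.mk (nat_lit 24079) (nat_lit 0) [nat_lit 10957, nat_lit 28453, nat_lit 22621, nat_lit 24097, nat_lit 24073, nat_lit 24077, nat_lit 24081, nat_lit 43761, nat_lit 4397] (nat_lit 0) [] false,
   Spec.mk (nat_lit 24081) (nat_lit 0) [nat_lit 10959, nat_lit 28455, nat_lit 22623, nat_lit 24099, nat_lit 24079, nat_lit 4399] (nat_lit 0) [] false,
   Spec.mk (nat_lit 24089) (nat_lit 0) [nat_lit 10967, nat_lit 28463, nat_lit 22631, nat_lit 24143, nat_lit 24071, nat_lit 24095, nat_lit 24091, nat_lit 43771] (nat_lit 0) [] false,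
   Spec.mk (nat_lit 24091) (nat_lit 0) [nat_lit 10969, nat_lit 28465, nat_lit 22633, nat_lit 24145, nat_lit 24073, nat_lit 24097, nat_lit 24089, nat_lit 43773, nat_lit 4409] (nat_lit 1) [] false,
   Spec.mk (nat_lit 24095) (nat_lit 0) [nat_lit 10973, nat_lit 28469, nat_lit 22637, nat_lit 24149, nat_lit 24077, nat_lit 24113, nat_lit 24089, nat_lit 24097, nat_lit 43777] (nat_lit 1) [] false,
   Spec.mk (nat_lit 24097) (nat_lit 0) [nat_lit 10975, nat_lit 28471, nat_lit 22639, nat_lit 24151, nat_lit 24079, nat_lit 24115, nat_lit 24091, nat_lit 24103, nat_lit 24095, nat_lit 24099, nat_lit 43779, nat_lit 4415] (nat_lit 0) [] false,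
   Spec.mk (nat_lit 24099) (nat_lit 0) [nat_lit 10977, nat_lit 28473, nat_lit 22641, nat_lit 24153, nat_lit 24081, nat_lit 24117, nat_lit 24105, nat_lit 24097, nat_lit 4417] (nat_lit 1) [] false,
   Spec.mk (nat_lit 24103) (nat_lit 0) [nat_lit 10981, nat_lit 28477, nat_lit 22645, nat_lit 24157, nat_lit 24121, nat_lit 24097, nat_lit 24105, nat_lit 43785, nat_lit 4421] (nat_lit 1) [] false,
   Spec.mk (nat_lit 24105) (nat_lit 0) [nat_lit 10983, nat_lit 28479, nat_lit 22647, nat_lit 24159, nat_lit 24123, nat_lit 24099, nat_lit 24103, nat_lit 4423] (nat_lit 0) [] false]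

noncomputable def sp49 : List Spec :=
  [Spec.mk (nat_lit 24113) (nat_lit 0) [nat_lit 10991, nat_lit 28487, nat_lit 22655, nat_lit 24167, nat_lit 24095, nat_lit 24115, nat_lit 43795] (nat_lit 2) [] false,
   Spec.mk (nat_lit 24115) (nat_lit 0) [nat_lit 10993, nat_lit 28489, nat_lit 22657, nat_lit 24169, nat_lit 24097, nat_lit 24121, nat_lit 24113, nat_lit 24117, nat_lit 43797, nat_lit 4433] (nat_lit 2) [] false,
   Spec.mk (nat_lit 24117) (nat_lit 0) [nat_lit 10995, nat_lit 28491, nat_lit 22659, nat_lit 24171, nat_lit 24099, nat_lit 24123, nat_lit 24115, nat_lit 4435] (nat_lit 4) [] false,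
   Spec.mk (nat_lit 24121) (nat_lit 0) [nat_lit 10999, nat_lit 28495, nat_lit 22663, nat_lit 24175, nat_lit 24103, nat_lit 24115, nat_lit 24123, nat_lit 43803, nat_lit 4439] (nat_lit 1) [] false,
   Spec.mk (nat_lit 24123) (nat_lit 0) [nat_lit 11001, nat_lit 28497, nat_lit 22665, nat_lit 24177, nat_lit 24105, nat_lit 24117, nat_lit 24129, nat_lit 24121, nat_lit 4441] (nat_lit 1) [] false,
   Spec.mk (nat_lit 24129) (nat_lit 0) [nat_lit 11007, nat_lit 28503, nat_lit 22671, nat_lit 24183, nat_lit 24123, nat_lit 4447] (nat_lit 0) [] false,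
   Spec.mk (nat_lit 24143) (nat_lit 0) [nat_lit 11021, nat_lit 28517, nat_lit 22685, nat_lit 24305, nat_lit 24089, nat_lit 24149, nat_lit 24145, nat_lit 43825] (nat_lit 0) [] false,
   Spec.mk (nat_lit 24145) (nat_lit 0) [nat_lit 11023, nat_lit 28519, nat_lit 22687, nat_lit 24307, nat_lit 24091, nat_lit 24151, nat_lit 24143, nat_lit 43827, nat_lit 4463] (nat_lit 1) [] false,
   Spec.mk (nat_lit 24149) (nat_lit 0) [nat_lit 11027, nat_lit 28523, nat_lit 22691, nat_lit 24311, nat_lit 24095, nat_lit 24167, nat_lit 24143, nat_lit 24151, nat_lit 43831] (nat_lit 2) [] false,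
   Spec.mk (nat_lit 24151) (nat_lit 0) [nat_lit 11029, nat_lit 28525, nat_lit 22693, nat_lit 24313, nat_lit 24097, nat_lit 24169, nat_lit 24145, nat_lit 24157, nat_lit 24149, nat_lit 24153, nat_lit 43833, nat_lit 4469] (nat_lit 1) [] false,
   Spec.mk (nat_lit 24153) (nat_lit 0) [nat_lit 11031, nat_lit 28527, nat_lit 22695, nat_lit 24315, nat_lit 24099, nat_lit 24171, nat_lit 24159, nat_lit 24151, nat_lit 4471] (nat_lit 2) [] false,
   Spec.mk (nat_lit 24157) (nat_lit 0) [nat_lit 11035, nat_lit 28531, nat_lit 22699, nat_lit 24319, nat_lit 24103, nat_lit 24175, nat_lit 24151, nat_lit 24159, nat_lit 43839, nat_lit 4475] (nat_lit 3) [] false,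
   Spec.mk (nat_lit 24159) (nat_lit 0) [nat_lit 11037, nat_lit 28533, nat_lit 22701, nat_lit 24321, nat_lit 24105, nat_lit 24177, nat_lit 24153, nat_lit 24157, nat_lit 4477] (nat_lit 2) [] false,
   Spec.mk (nat_lit 24167) (nat_lit 0) [nat_lit 11045, nat_lit 28541, nat_lit 22709, nat_lit 24329, nat_lit 24113, nat_lit 24221, nat_lit 24149, nat_lit 24169, nat_lit 43849] (nat_lit 1) [] false,
   Spec.mk (nat_lit 24169) (nat_lit 0) [nat_lit 11047, nat_lit 28543, nat_lit 22711, nat_lit 24331, nat_lit 24115, nat_lit 24223, nat_lit 24151, nat_lit 24175, nat_lit 24167, nat_lit 24171, nat_lit 43851, nat_lit 4487] (nat_lit 1) [] false,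
   Spec.mk (nat_lit 24171) (nat_lit 0) [nat_lit 11049, nat_lit 28545, nat_lit 22713, nat_lit 24333, nat_lit 24117, nat_lit 24225, nat_lit 24153, nat_lit 24177, nat_lit 24169, nat_lit 4489] (nat_lit 3) [] false,
   Spec.mk (nat_lit 24175) (nat_lit 0) [nat_lit 11053, nat_lit 28549, nat_lit 22717, nat_lit 24337, nat_lit 24121, nat_lit 24229, nat_lit 24157, nat_lit 24193, nat_lit 24169, nat_lit 24177, nat_lit 43857, nat_lit 4493] (nat_lit 1) [] false,
   Spec.mk (nat_lit 24177) (nat_lit 0) [nat_lit 11055, nat_lit 28551, nat_lit 22719, nat_lit 24339, nat_lit 24123, nat_lit 24231, nat_lit 24159, nat_lit 24195, nat_lit 24171, nat_lit 24183, nat_lit 24175, nat_lit 4495] (nat_lit 1) [] false,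
   Spec.mk (nat_lit 24183) (nat_lit 0) [nat_lit 11061, nat_lit 28557, nat_lit 22725, nat_lit 24345, nat_lit 24129, nat_lit 24237, nat_lit 24201, nat_lit 24177, nat_lit 4501] (nat_lit 1) [] false,
   Spec.mk (nat_lit 24193) (nat_lit 0) [nat_lit 11071, nat_lit 28567, nat_lit 22735, nat_lit 24355, nat_lit 24247, nat_lit 24175, nat_lit 24195, nat_lit 43875, nat_lit 4511] (nat_lit 1) [] false,
   Spec.mk (nat_lit 24195) (nat_lit 0) [nat_lit 11073, nat_lit 28569, nat_lit 22737, nat_lit 24357, nat_lit 24249, nat_lit 24177, nat_lit 24201, nat_lit 24193, nat_lit 4513] (nat_lit 2) [] false,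
   Spec.mk (nat_lit 24201) (nat_lit 0) [nat_lit 11079, nat_lit 28575, nat_lit 22743, nat_lit 24363, nat_lit 24255, nat_lit 24183, nat_lit 24195, nat_lit 4519] (nat_lit 0) [] false,
   Spec.mk (nat_lit 24221) (nat_lit 0) [nat_lit 11099, nat_lit 28595, nat_lit 22763, nat_lit 24383, nat_lit 24167, nat_lit 24223, nat_lit 43903] (nat_lit 2) [] false,
   Spec.mk (nat_lit 24223) (nat_lit 0) [nat_lit 11101, nat_lit 28597, nat_lit 22765, nat_lit 24385, nat_lit 24169, nat_lit 24229, nat_lit 24221, nat_lit 24225, nat_lit 43905, nat_lit 4541] (nat_lit 2) [] false,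
   Spec.mk (nat_lit 24225) (nat_lit 0) [nat_lit 11103, nat_lit 28599, nat_lit 22767, nat_lit 24387, nat_lit 24171, nat_lit 24231, nat_lit 24223, nat_lit 4543] (nat_lit 4) [] false,
   Spec.mk (nat_lit 24229) (nat_lit 0) [nat_lit 11107, nat_lit 28603, nat_lit 22771, nat_lit 24391, nat_lit 24175, nat_lit 24247, nat_lit 24223, nat_lit 24231, nat_lit 43911, nat_lit 4547] (nat_lit 3) [] false,
   Spec.mk (nat_lit 24231) (nat_lit 0) [nat_lit 11109, nat_lit 28605, nat_lit 22773, nat_lit 24393, nat_lit 24177, nat_lit 24249, nat_lit 24225, nat_lit 24237, nat_lit 24229, nat_lit 4549] (nat_lit 3) [] false,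
   Spec.mk (nat_lit 24237) (nat_lit 0) [nat_lit 11115, nat_lit 28611, nat_lit 22779, nat_lit 24399, nat_lit 24183, nat_lit 24255, nat_lit 24231, nat_lit 4555] (nat_lit 4) [] false,
   Spec.mk (nat_lit 24247) (nat_lit 0) [nat_lit 11125, nat_lit 28621, nat_lit 22789, nat_lit 24409, nat_lit 24193, nat_lit 24229, nat_lit 24249, nat_lit 43929, nat_lit 4565] (nat_lit 1) [] false,
   Spec.mk (nat_lit 24249) (nat_lit 0) [nat_lit 11127, nat_lit 28623, nat_lit 22791, nat_lit 24411, nat_lit 24195, nat_lit 24231, nat_lit 24255, nat_lit 24247, nat_lit 4567] (nat_lit 2) [] false,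
   Spec.mk (nat_lit 24255) (nat_lit 0) [nat_lit 11133, nat_lit 28629, nat_lit 22797, nat_lit 24417, nat_lit 24201, nat_lit 24237, nat_lit 24273, nat_lit 24249, nat_lit 4573] (nat_lit 1) [] false,
   Spec.mk (nat_lit 24273) (nat_lit 0) [nat_lit 11151, nat_lit 28647, nat_lit 22815, nat_lit 24435, nat_lit 24255, nat_lit 4591] (nat_lit 0) [] false,
   Spec.mk (nat_lit 24305) (nat_lit 0) [nat_lit 11183, nat_lit 28679, nat_lit 22847, nat_lit 24791, nat_lit 24143, nat_lit 24311, nat_lit 24307, nat_lit 43987] (nat_lit 0) [] false,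
   Spec.mk (nat_lit 24307) (nat_lit 0) [nat_lit 11185, nat_lit 28681, nat_lit 22849, nat_lit 24793, nat_lit 24145, nat_lit 24313, nat_lit 24305, nat_lit 43989, nat_lit 4625] (nat_lit 1) [] false,
   Spec.mk (nat_lit 24311) (nat_lit 0) [nat_lit 11189, nat_lit 28685, nat_lit 22853, nat_lit 24797, nat_lit 24149, nat_lit 24329, nat_lit 24305, nat_lit 24313, nat_lit 43993] (nat_lit 2) [] false,
   Spec.mk (nat_lit 24313) (nat_lit 0) [nat_lit 11191, nat_lit 28687, nat_lit 22855, nat_lit 24799, nat_lit 24151, nat_lit 24331, nat_lit 24307, nat_lit 24319, nat_lit 24311, nat_lit 24315, nat_lit 43995, nat_lit 4631] (nat_lit 1) [] false,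
   Spec.mk (nat_lit 24315) (nat_lit 0) [nat_lit 11193, nat_lit 28689, nat_lit 22857, nat_lit 24801, nat_lit 24153, nat_lit 24333, nat_lit 24321, nat_lit 24313, nat_lit 4633] (nat_lit 2) [] false,
   Spec.mk (nat_lit 24319) (nat_lit 0) [nat_lit 11197, nat_lit 28693, nat_lit 22861, nat_lit 24805, nat_lit 24157, nat_lit 24337, nat_lit 24313, nat_lit 24321, nat_lit 44001, nat_lit 4637] (nat_lit 3) [] false,
   Spec.mk (nat_lit 24321) (nat_lit 0) [nat_lit 11199, nat_lit 28695, nat_lit 22863, nat_lit 24807, nat_lit 24159, nat_lit 24339, nat_lit 24315, nat_lit 24319, nat_lit 4639] (nat_lit 2) [] false,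
   Spec.mk (nat_lit 24329) (nat_lit 0) [nat_lit 11207, nat_lit 28703, nat_lit 22871, nat_lit 24815, nat_lit 24167, nat_lit 24383, nat_lit 24311, nat_lit 24331, nat_lit 44011] (nat_lit 2) [] false,
   Spec.mk (nat_lit 24331) (nat_lit 0) [nat_lit 11209, nat_lit 28705, nat_lit 22873, nat_lit 24817, nat_lit 24169, nat_lit 24385, nat_lit 24313, nat_lit 24337, nat_lit 24329, nat_lit 24333, nat_lit 44013, nat_lit 4649] (nat_lit 2) [] false,
   Spec.mk (nat_lit 24333) (nat_lit 0) [nat_lit 11211, nat_lit 28707, nat_lit 22875, nat_lit 24819, nat_lit 24171, nat_lit 24387, nat_lit 24315, nat_lit 24339, nat_lit 24331, nat_lit 4651] (nat_lit 4) [] false,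
   Spec.mk (nat_lit 24337) (nat_lit 0) [nat_lit 11215, nat_lit 28711, nat_lit 22879, nat_lit 24823, nat_lit 24175, nat_lit 24391, nat_lit 24319, nat_lit 24355, nat_lit 24331, nat_lit 24339, nat_lit 44019, nat_lit 4655] (nat_lit 2) [] false,
   Spec.mk (nat_lit 24339) (nat_lit 0) [nat_lit 11217, nat_lit 28713, nat_lit 22881, nat_lit 24825, nat_lit 24177, nat_lit 24393, nat_lit 24321, nat_lit 24357, nat_lit 24333, nat_lit 24345, nat_lit 24337, nat_lit 4657] (nat_lit 2) [] false,
   Spec.mk (nat_lit 24345) (nat_lit 0) [nat_lit 11223, nat_lit 28719, nat_lit 22887, nat_lit 24831, nat_lit 24183, nat_lit 24399, nat_lit 24363, nat_lit 24339, nat_lit 4663] (nat_lit 2) [] false,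
   Spec.mk (nat_lit 24355) (nat_lit 0) [nat_lit 11233, nat_lit 28729, nat_lit 22897, nat_lit 24841, nat_lit 24193, nat_lit 24409, nat_lit 24337, nat_lit 24357, nat_lit 44037, nat_lit 4673] (nat_lit 3) [] false,
   Spec.mk (nat_lit 24357) (nat_lit 0) [nat_lit 11235, nat_lit 28731, nat_lit 22899, nat_lit 24843, nat_lit 24195, nat_lit 24411, nat_lit 24339, nat_lit 24363, nat_lit 24355, nat_lit 4675] (nat_lit 4) [] false,
   Spec.mk (nat_lit 24363) (nat_lit 0) [nat_lit 11241, nat_lit 28737, nat_lit 22905, nat_lit 24849, nat_lit 24201, nat_lit 24417, nat_lit 24345, nat_lit 24357, nat_lit 4681] (nat_lit 2) [] false,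
   Spec.mk (nat_lit 24383) (nat_lit 0) [nat_lit 11261, nat_lit 28757, nat_lit 22925, nat_lit 24869, nat_lit 24221, nat_lit 24545, nat_lit 24329, nat_lit 24385, nat_lit 44065] (nat_lit 1) [] false,
   Spec.mk (nat_lit 24385) (nat_lit 0) [nat_lit 11263, nat_lit 28759, nat_lit 22927, nat_lit 24871, nat_lit 24223, nat_lit 24547, nat_lit 24331, nat_lit 24391, nat_lit 24383, nat_lit 24387, nat_lit 44067, nat_lit 4703] (nat_lit 1) [] false,
   Spec.mk (nat_lit 24387) (nat_lit 0) [nat_lit 11265, nat_lit 28761, nat_lit 22929, nat_lit 24873, nat_lit 24225, nat_lit 24549, nat_lit 24333, nat_lit 24393, nat_lit 24385, nat_lit 4705] (nat_lit 3) [] false,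
   Spec.mk (nat_lit 24391) (nat_lit 0) [nat_lit 11269, nat_lit 28765, nat_lit 22933, nat_lit 24877, nat_lit 24229, nat_lit 24553, nat_lit 24337, nat_lit 24409, nat_lit 24385, nat_lit 24393, nat_lit 44073, nat_lit 4709] (nat_lit 2) [] false,
   Spec.mk (nat_lit 24393) (nat_lit 0) [nat_lit 11271, nat_lit 28767, nat_lit 22935, nat_lit 24879, nat_lit 24231, nat_lit 24555, nat_lit 24339, nat_lit 24411, nat_lit 24387, nat_lit 24399, nat_lit 24391, nat_lit 4711] (nat_lit 2) [] false,
   Spec.mk (nat_lit 24399) (nat_lit 0) [nat_lit 11277, nat_lit 28773, nat_lit 22941, nat_lit 24885, nat_lit 24237, nat_lit 24561, nat_lit 24345, nat_lit 24417, nat_lit 24393, nat_lit 4717] (nat_lit 3) [] false,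
   Spec.mk (nat_lit 24409) (nat_lit 0) [nat_lit 11287, nat_lit 28783, nat_lit 22951, nat_lit 24895, nat_lit 24247, nat_lit 24571, nat_lit 24355, nat_lit 24463, nat_lit 24391, nat_lit 24411, nat_lit 44091, nat_lit 4727] (nat_lit 1) [] false,
   Spec.mk (nat_lit 24411) (nat_lit 0) [nat_lit 11289, nat_lit 28785, nat_lit 22953, nat_lit 24897, nat_lit 24249, nat_lit 24573, nat_lit 24357, nat_lit 24465, nat_lit 24393, nat_lit 24417, nat_lit 24409, nat_lit 4729] (nat_lit 2) [] false,
   Spec.mk (nat_lit 24417) (nat_lit 0) [nat_lit 11295, nat_lit 28791, nat_lit 22959, nat_lit 24903, nat_lit 24255, nat_lit 24579, nat_lit 24363, nat_lit 24471, nat_lit 24399, nat_lit 24435, nat_lit 24411, nat_lit 4735] (nat_lit 1) [] false,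
   Spec.mk (nat_lit 24435) (nat_lit 0) [nat_lit 11313, nat_lit 28809, nat_lit 22977, nat_lit 24921, nat_lit 24273, nat_lit 24597, nat_lit 24489, nat_lit 24417, nat_lit 4753] (nat_lit 1) [] false,
   Spec.mk (nat_lit 24463) (nat_lit 0) [nat_lit 11341, nat_lit 28837, nat_lit 23005, nat_lit 24949, nat_lit 24625, nat_lit 24409, nat_lit 24465, nat_lit 44145, nat_lit 4781] (nat_lit 1) [] false,
   Spec.mk (nat_lit 24465) (nat_lit 0) [nat_lit 11343, nat_lit 28839, nat_lit 23007, nat_lit 24951, nat_lit 24627, nat_lit 24411, nat_lit 24471, nat_lit 24463, nat_lit 4783] (nat_lit 2) [] false]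

noncomputable def sp50 : List Spec :=
  [Spec.mk (nat_lit 24471) (nat_lit 0) [nat_lit 11349, nat_lit 28845, nat_lit 23013, nat_lit 24957, nat_lit 24633, nat_lit 24417, nat_lit 24489, nat_lit 24465, nat_lit 4789] (nat_lit 2) [] false,
   Spec.mk (nat_lit 24489) (nat_lit 0) [nat_lit 11367, nat_lit 28863, nat_lit 23031, nat_lit 24975, nat_lit 24651, nat_lit 24435, nat_lit 24471, nat_lit 4807] (nat_lit 0) [] false,
   Spec.mk (nat_lit 24545) (nat_lit 0) [nat_lit 11423, nat_lit 28919, nat_lit 23087, nat_lit 25031, nat_lit 24383, nat_lit 24547, nat_lit 44227] (nat_lit 2) [] false,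
   Spec.mk (nat_lit 24547) (nat_lit 0) [nat_lit 11425, nat_lit 28921, nat_lit 23089, nat_lit 25033, nat_lit 24385, nat_lit 24553, nat_lit 24545, nat_lit 24549, nat_lit 44229, nat_lit 4865] (nat_lit 2) [] false,
   Spec.mk (nat_lit 24549) (nat_lit 0) [nat_lit 11427, nat_lit 28923, nat_lit 23091, nat_lit 25035, nat_lit 24387, nat_lit 24555, nat_lit 24547, nat_lit 4867] (nat_lit 4) [] false,
   Spec.mk (nat_lit 24553) (nat_lit 0) [nat_lit 11431, nat_lit 28927, nat_lit 23095, nat_lit 25039, nat_lit 24391, nat_lit 24571, nat_lit 24547, nat_lit 24555, nat_lit 44235, nat_lit 4871] (nat_lit 3) [] false,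
   Spec.mk (nat_lit 24555) (nat_lit 0) [nat_lit 11433, nat_lit 28929, nat_lit 23097, nat_lit 25041, nat_lit 24393, nat_lit 24573, nat_lit 24549, nat_lit 24561, nat_lit 24553, nat_lit 4873] (nat_lit 3) [] false,
   Spec.mk (nat_lit 24561) (nat_lit 0) [nat_lit 11439, nat_lit 28935, nat_lit 23103, nat_lit 25047, nat_lit 24399, nat_lit 24579, nat_lit 24555, nat_lit 4879] (nat_lit 4) [] false,
   Spec.mk (nat_lit 24571) (nat_lit 0) [nat_lit 11449, nat_lit 28945, nat_lit 23113, nat_lit 25057, nat_lit 24409, nat_lit 24625, nat_lit 24553, nat_lit 24573, nat_lit 44253, nat_lit 4889] (nat_lit 3) [] false,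
   Spec.mk (nat_lit 24573) (nat_lit 0) [nat_lit 11451, nat_lit 28947, nat_lit 23115, nat_lit 25059, nat_lit 24411, nat_lit 24627, nat_lit 24555, nat_lit 24579, nat_lit 24571, nat_lit 4891] (nat_lit 4) [] false,
   Spec.mk (nat_lit 24579) (nat_lit 0) [nat_lit 11457, nat_lit 28953, nat_lit 23121, nat_lit 25065, nat_lit 24417, nat_lit 24633, nat_lit 24561, nat_lit 24597, nat_lit 24573, nat_lit 4897] (nat_lit 3) [] false,
   Spec.mk (nat_lit 24597) (nat_lit 0) [nat_lit 11475, nat_lit 28971, nat_lit 23139, nat_lit 25083, nat_lit 24435, nat_lit 24651, nat_lit 24579, nat_lit 4915] (nat_lit 4) [] false,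
   Spec.mk (nat_lit 24625) (nat_lit 0) [nat_lit 11503, nat_lit 28999, nat_lit 23167, nat_lit 25111, nat_lit 24463, nat_lit 24571, nat_lit 24627, nat_lit 44307, nat_lit 4943] (nat_lit 1) [] false,
   Spec.mk (nat_lit 24627) (nat_lit 0) [nat_lit 11505, nat_lit 29001, nat_lit 23169, nat_lit 25113, nat_lit 24465, nat_lit 24573, nat_lit 24633, nat_lit 24625, nat_lit 4945] (nat_lit 2) [] false,
   Spec.mk (nat_lit 24633) (nat_lit 0) [nat_lit 11511, nat_lit 29007, nat_lit 23175, nat_lit 25119, nat_lit 24471, nat_lit 24579, nat_lit 24651, nat_lit 24627, nat_lit 4951] (nat_lit 2) [] false,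
   Spec.mk (nat_lit 24651) (nat_lit 0) [nat_lit 11529, nat_lit 29025, nat_lit 23193, nat_lit 25137, nat_lit 24489, nat_lit 24597, nat_lit 24705, nat_lit 24633, nat_lit 4969] (nat_lit 1) [] false,
   Spec.mk (nat_lit 24705) (nat_lit 0) [nat_lit 11583, nat_lit 29079, nat_lit 23247, nat_lit 25191, nat_lit 24651, nat_lit 5023] (nat_lit 0) [] false,
   Spec.mk (nat_lit 24791) (nat_lit 2) [nat_lit 11669, nat_lit 29165, nat_lit 23333, nat_lit 24305, nat_lit 24797, nat_lit 24793, nat_lit 44473] (nat_lit 0) [] false,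
   Spec.mk (nat_lit 24793) (nat_lit 1) [nat_lit 11671, nat_lit 29167, nat_lit 23335, nat_lit 24307, nat_lit 24799, nat_lit 24791, nat_lit 44475, nat_lit 5111] (nat_lit 0) [] false,
   Spec.mk (nat_lit 24797) (nat_lit 0) [nat_lit 11675, nat_lit 29171, nat_lit 23339, nat_lit 24311, nat_lit 24815, nat_lit 24791, nat_lit 24799, nat_lit 44479] (nat_lit 0) [] false,
   Spec.mk (nat_lit 24799) (nat_lit 1) [nat_lit 11677, nat_lit 29173, nat_lit 23341, nat_lit 24313, nat_lit 24817, nat_lit 24793, nat_lit 24805, nat_lit 24797, nat_lit 24801, nat_lit 44481, nat_lit 5117] (nat_lit 0) [] false,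
   Spec.mk (nat_lit 24801) (nat_lit 0) [nat_lit 11679, nat_lit 29175, nat_lit 23343, nat_lit 24315, nat_lit 24819, nat_lit 24807, nat_lit 24799, nat_lit 5119] (nat_lit 0) [] false,
   Spec.mk (nat_lit 24805) (nat_lit 0) [nat_lit 11683, nat_lit 29179, nat_lit 23347, nat_lit 24319, nat_lit 24823, nat_lit 24799, nat_lit 24807, nat_lit 44487, nat_lit 5123] (nat_lit 1) [] false,
   Spec.mk (nat_lit 24807) (nat_lit 0) [nat_lit 11685, nat_lit 29181, nat_lit 23349, nat_lit 24321, nat_lit 24825, nat_lit 24801, nat_lit 24805, nat_lit 5125] (nat_lit 0) [] false,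
   Spec.mk (nat_lit 24815) (nat_lit 0) [nat_lit 11693, nat_lit 29189, nat_lit 23357, nat_lit 24329, nat_lit 24869, nat_lit 24797, nat_lit 24817, nat_lit 44497] (nat_lit 0) [] false,
   Spec.mk (nat_lit 24817) (nat_lit 0) [nat_lit 11695, nat_lit 29191, nat_lit 23359, nat_lit 24331, nat_lit 24871, nat_lit 24799, nat_lit 24823, nat_lit 24815, nat_lit 24819, nat_lit 44499, nat_lit 5135] (nat_lit 0) [] false,
   Spec.mk (nat_lit 24819) (nat_lit 0) [nat_lit 11697, nat_lit 29193, nat_lit 23361, nat_lit 24333, nat_lit 24873, nat_lit 24801, nat_lit 24825, nat_lit 24817, nat_lit 5137] (nat_lit 2) [] false,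
   Spec.mk (nat_lit 24823) (nat_lit 0) [nat_lit 11701, nat_lit 29197, nat_lit 23365, nat_lit 24337, nat_lit 24877, nat_lit 24805, nat_lit 24841, nat_lit 24817, nat_lit 24825, nat_lit 44505, nat_lit 5141] (nat_lit 0) [] false,
   Spec.mk (nat_lit 24825) (nat_lit 0) [nat_lit 11703, nat_lit 29199, nat_lit 23367, nat_lit 24339, nat_lit 24879, nat_lit 24807, nat_lit 24843, nat_lit 24819, nat_lit 24831, nat_lit 24823, nat_lit 5143] (nat_lit 0) [] false,
   Spec.mk (nat_lit 24831) (nat_lit 0) [nat_lit 11709, nat_lit 29205, nat_lit 23373, nat_lit 24345, nat_lit 24885, nat_lit 24849, nat_lit 24825, nat_lit 5149] (nat_lit 0) [] false,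
   Spec.mk (nat_lit 24841) (nat_lit 0) [nat_lit 11719, nat_lit 29215, nat_lit 23383, nat_lit 24355, nat_lit 24895, nat_lit 24823, nat_lit 24843, nat_lit 44523, nat_lit 5159] (nat_lit 1) [] false,
   Spec.mk (nat_lit 24843) (nat_lit 0) [nat_lit 11721, nat_lit 29217, nat_lit 23385, nat_lit 24357, nat_lit 24897, nat_lit 24825, nat_lit 24849, nat_lit 24841, nat_lit 5161] (nat_lit 2) [] false,
   Spec.mk (nat_lit 24849) (nat_lit 0) [nat_lit 11727, nat_lit 29223, nat_lit 23391, nat_lit 24363, nat_lit 24903, nat_lit 24831, nat_lit 24843, nat_lit 5167] (nat_lit 0) [] false,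
   Spec.mk (nat_lit 24869) (nat_lit 0) [nat_lit 11747, nat_lit 29243, nat_lit 23411, nat_lit 24383, nat_lit 25031, nat_lit 24815, nat_lit 24871, nat_lit 44551] (nat_lit 0) [] false,
   Spec.mk (nat_lit 24871) (nat_lit 0) [nat_lit 11749, nat_lit 29245, nat_lit 23413, nat_lit 24385, nat_lit 25033, nat_lit 24817, nat_lit 24877, nat_lit 24869, nat_lit 24873, nat_lit 44553, nat_lit 5189] (nat_lit 0) [] false,
   Spec.mk (nat_lit 24873) (nat_lit 0) [nat_lit 11751, nat_lit 29247, nat_lit 23415, nat_lit 24387, nat_lit 25035, nat_lit 24819, nat_lit 24879, nat_lit 24871, nat_lit 5191] (nat_lit 2) [] false,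
   Spec.mk (nat_lit 24877) (nat_lit 0) [nat_lit 11755, nat_lit 29251, nat_lit 23419, nat_lit 24391, nat_lit 25039, nat_lit 24823, nat_lit 24895, nat_lit 24871, nat_lit 24879, nat_lit 44559, nat_lit 5195] (nat_lit 1) [] false,
   Spec.mk (nat_lit 24879) (nat_lit 0) [nat_lit 11757, nat_lit 29253, nat_lit 23421, nat_lit 24393, nat_lit 25041, nat_lit 24825, nat_lit 24897, nat_lit 24873, nat_lit 24885, nat_lit 24877, nat_lit 5197] (nat_lit 1) [] false,
   Spec.mk (nat_lit 24885) (nat_lit 0) [nat_lit 11763, nat_lit 29259, nat_lit 23427, nat_lit 24399, nat_lit 25047, nat_lit 24831, nat_lit 24903, nat_lit 24879, nat_lit 5203] (nat_lit 2) [] false,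
   Spec.mk (nat_lit 24895) (nat_lit 0) [nat_lit 11773, nat_lit 29269, nat_lit 23437, nat_lit 24409, nat_lit 25057, nat_lit 24841, nat_lit 24949, nat_lit 24877, nat_lit 24897, nat_lit 44577, nat_lit 5213] (nat_lit 0) [] false,
   Spec.mk (nat_lit 24897) (nat_lit 0) [nat_lit 11775, nat_lit 29271, nat_lit 23439, nat_lit 24411, nat_lit 25059, nat_lit 24843, nat_lit 24951, nat_lit 24879, nat_lit 24903, nat_lit 24895, nat_lit 5215] (nat_lit 1) [] false,
   Spec.mk (nat_lit 24903) (nat_lit 0) [nat_lit 11781, nat_lit 29277, nat_lit 23445, nat_lit 24417, nat_lit 25065, nat_lit 24849, nat_lit 24957, nat_lit 24885, nat_lit 24921, nat_lit 24897, nat_lit 5221] (nat_lit 0) [] false,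
   Spec.mk (nat_lit 24921) (nat_lit 0) [nat_lit 11799, nat_lit 29295, nat_lit 23463, nat_lit 24435, nat_lit 25083, nat_lit 24975, nat_lit 24903, nat_lit 5239] (nat_lit 0) [] false,
   Spec.mk (nat_lit 24949) (nat_lit 0) [nat_lit 11827, nat_lit 29323, nat_lit 23491, nat_lit 24463, nat_lit 25111, nat_lit 24895, nat_lit 24951, nat_lit 44631, nat_lit 5267] (nat_lit 1) [] false,
   Spec.mk (nat_lit 24951) (nat_lit 0) [nat_lit 11829, nat_lit 29325, nat_lit 23493, nat_lit 24465, nat_lit 25113, nat_lit 24897, nat_lit 24957, nat_lit 24949, nat_lit 5269] (nat_lit 2) [] false,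
   Spec.mk (nat_lit 24957) (nat_lit 0) [nat_lit 11835, nat_lit 29331, nat_lit 23499, nat_lit 24471, nat_lit 25119, nat_lit 24903, nat_lit 24975, nat_lit 24951, nat_lit 5275] (nat_lit 2) [] false,
   Spec.mk (nat_lit 24975) (nat_lit 0) [nat_lit 11853, nat_lit 29349, nat_lit 23517, nat_lit 24489, nat_lit 25137, nat_lit 24921, nat_lit 24957, nat_lit 5293] (nat_lit 0) [] false,
   Spec.mk (nat_lit 25031) (nat_lit 1) [nat_lit 11909, nat_lit 29405, nat_lit 23573, nat_lit 24545, nat_lit 25517, nat_lit 24869, nat_lit 25033, nat_lit 44713] (nat_lit 0) [] false,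
   Spec.mk (nat_lit 25033) (nat_lit 1) [nat_lit 11911, nat_lit 29407, nat_lit 23575, nat_lit 24547, nat_lit 25519, nat_lit 24871, nat_lit 25039, nat_lit 25031, nat_lit 25035, nat_lit 44715, nat_lit 5351] (nat_lit 0) [] false,
   Spec.mk (nat_lit 25035) (nat_lit 0) [nat_lit 11913, nat_lit 29409, nat_lit 23577, nat_lit 24549, nat_lit 25521, nat_lit 24873, nat_lit 25041, nat_lit 25033, nat_lit 5353] (nat_lit 1) [] false,
   Spec.mk (nat_lit 25039) (nat_lit 0) [nat_lit 11917, nat_lit 29413, nat_lit 23581, nat_lit 24553, nat_lit 25525, nat_lit 24877, nat_lit 25057, nat_lit 25033, nat_lit 25041, nat_lit 44721, nat_lit 5357] (nat_lit 0) [] false,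
   Spec.mk (nat_lit 25041) (nat_lit 0) [nat_lit 11919, nat_lit 29415, nat_lit 23583, nat_lit 24555, nat_lit 25527, nat_lit 24879, nat_lit 25059, nat_lit 25035, nat_lit 25047, nat_lit 25039, nat_lit 5359] (nat_lit 0) [] false,
   Spec.mk (nat_lit 25047) (nat_lit 0) [nat_lit 11925, nat_lit 29421, nat_lit 23589, nat_lit 24561, nat_lit 25533, nat_lit 24885, nat_lit 25065, nat_lit 25041, nat_lit 5365] (nat_lit 1) [] false,
   Spec.mk (nat_lit 25057) (nat_lit 0) [nat_lit 11935, nat_lit 29431, nat_lit 23599, nat_lit 24571, nat_lit 25543, nat_lit 24895, nat_lit 25111, nat_lit 25039, nat_lit 25059, nat_lit 44739, nat_lit 5375] (nat_lit 0) [] false,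
   Spec.mk (nat_lit 25059) (nat_lit 0) [nat_lit 11937, nat_lit 29433, nat_lit 23601, nat_lit 24573, nat_lit 25545, nat_lit 24897, nat_lit 25113, nat_lit 25041, nat_lit 25065, nat_lit 25057, nat_lit 5377] (nat_lit 1) [] false,
   Spec.mk (nat_lit 25065) (nat_lit 0) [nat_lit 11943, nat_lit 29439, nat_lit 23607, nat_lit 24579, nat_lit 25551, nat_lit 24903, nat_lit 25119, nat_lit 25047, nat_lit 25083, nat_lit 25059, nat_lit 5383] (nat_lit 0) [] false,
   Spec.mk (nat_lit 25083) (nat_lit 0) [nat_lit 11961, nat_lit 29457, nat_lit 23625, nat_lit 24597, nat_lit 25569, nat_lit 24921, nat_lit 25137, nat_lit 25065, nat_lit 5401] (nat_lit 1) [] false,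
   Spec.mk (nat_lit 25111) (nat_lit 1) [nat_lit 11989, nat_lit 29485, nat_lit 23653, nat_lit 24625, nat_lit 25597, nat_lit 24949, nat_lit 25273, nat_lit 25057, nat_lit 25113, nat_lit 44793, nat_lit 5429] (nat_lit 0) [] false,
   Spec.mk (nat_lit 25113) (nat_lit 0) [nat_lit 11991, nat_lit 29487, nat_lit 23655, nat_lit 24627, nat_lit 25599, nat_lit 24951, nat_lit 25275, nat_lit 25059, nat_lit 25119, nat_lit 25111, nat_lit 5431] (nat_lit 0) [] false,
   Spec.mk (nat_lit 25119) (nat_lit 0) [nat_lit 11997, nat_lit 29493, nat_lit 23661, nat_lit 24633, nat_lit 25605, nat_lit 24957, nat_lit 25281, nat_lit 25065, nat_lit 25137, nat_lit 25113, nat_lit 5437] (nat_lit 0) [] false]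

noncomputable def sp51 : List Spec :=
  [Spec.mk (nat_lit 25137) (nat_lit 1) [nat_lit 12015, nat_lit 29511, nat_lit 23679, nat_lit 24651, nat_lit 25623, nat_lit 24975, nat_lit 25299, nat_lit 25083, nat_lit 25191, nat_lit 25119, nat_lit 5455] (nat_lit 0) [] false,
   Spec.mk (nat_lit 25191) (nat_lit 1) [nat_lit 12069, nat_lit 29565, nat_lit 23733, nat_lit 24705, nat_lit 25677, nat_lit 25353, nat_lit 25137, nat_lit 5509] (nat_lit 0) [] false,
   Spec.mk (nat_lit 25273) (nat_lit 1) [nat_lit 12151, nat_lit 29647, nat_lit 23815, nat_lit 25759, nat_lit 25111, nat_lit 25275, nat_lit 44955, nat_lit 5591] (nat_lit 0) [] false,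
   Spec.mk (nat_lit 25275) (nat_lit 0) [nat_lit 12153, nat_lit 29649, nat_lit 23817, nat_lit 25761, nat_lit 25113, nat_lit 25281, nat_lit 25273, nat_lit 5593] (nat_lit 0) [] false,
   Spec.mk (nat_lit 25281) (nat_lit 0) [nat_lit 12159, nat_lit 29655, nat_lit 23823, nat_lit 25767, nat_lit 25119, nat_lit 25299, nat_lit 25275, nat_lit 5599] (nat_lit 0) [] false,
   Spec.mk (nat_lit 25299) (nat_lit 0) [nat_lit 12177, nat_lit 29673, nat_lit 23841, nat_lit 25785, nat_lit 25137, nat_lit 25353, nat_lit 25281, nat_lit 5617] (nat_lit 0) [] false,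
   Spec.mk (nat_lit 25353) (nat_lit 2) [nat_lit 12231, nat_lit 29727, nat_lit 23895, nat_lit 25839, nat_lit 25191, nat_lit 25299, nat_lit 5671] (nat_lit 0) [] false,
   Spec.mk (nat_lit 25517) (nat_lit 2) [nat_lit 12395, nat_lit 29891, nat_lit 25031, nat_lit 25519, nat_lit 45199] (nat_lit 0) [] false,
   Spec.mk (nat_lit 25519) (nat_lit 2) [nat_lit 12397, nat_lit 29893, nat_lit 25033, nat_lit 25525, nat_lit 25517, nat_lit 25521, nat_lit 45201, nat_lit 5837] (nat_lit 0) [] false,
   Spec.mk (nat_lit 25521) (nat_lit 0) [nat_lit 12399, nat_lit 29895, nat_lit 25035, nat_lit 25527, nat_lit 25519, nat_lit 5839] (nat_lit 0) [] false,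
   Spec.mk (nat_lit 25525) (nat_lit 1) [nat_lit 12403, nat_lit 29899, nat_lit 25039, nat_lit 25543, nat_lit 25519, nat_lit 25527, nat_lit 45207, nat_lit 5843] (nat_lit 0) [] false,
   Spec.mk (nat_lit 25527) (nat_lit 1) [nat_lit 12405, nat_lit 29901, nat_lit 25041, nat_lit 25545, nat_lit 25521, nat_lit 25533, nat_lit 25525, nat_lit 5845] (nat_lit 0) [] false,
   Spec.mk (nat_lit 25533) (nat_lit 0) [nat_lit 12411, nat_lit 29907, nat_lit 25047, nat_lit 25551, nat_lit 25527, nat_lit 5851] (nat_lit 0) [] false,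
   Spec.mk (nat_lit 25543) (nat_lit 1) [nat_lit 12421, nat_lit 29917, nat_lit 25057, nat_lit 25597, nat_lit 25525, nat_lit 25545, nat_lit 45225, nat_lit 5861] (nat_lit 0) [] false,
   Spec.mk (nat_lit 25545) (nat_lit 0) [nat_lit 12423, nat_lit 29919, nat_lit 25059, nat_lit 25599, nat_lit 25527, nat_lit 25551, nat_lit 25543, nat_lit 5863] (nat_lit 0) [] false,
   Spec.mk (nat_lit 25551) (nat_lit 1) [nat_lit 12429, nat_lit 29925, nat_lit 25065, nat_lit 25605, nat_lit 25533, nat_lit 25569, nat_lit 25545, nat_lit 5869] (nat_lit 0) [] false,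
   Spec.mk (nat_lit 25569) (nat_lit 0) [nat_lit 12447, nat_lit 29943, nat_lit 25083, nat_lit 25623, nat_lit 25551, nat_lit 5887] (nat_lit 0) [] false,
   Spec.mk (nat_lit 25597) (nat_lit 1) [nat_lit 12475, nat_lit 29971, nat_lit 25111, nat_lit 25759, nat_lit 25543, nat_lit 25599, nat_lit 45279, nat_lit 5915] (nat_lit 0) [] false,
   Spec.mk (nat_lit 25599) (nat_lit 0) [nat_lit 12477, nat_lit 29973, nat_lit 25113, nat_lit 25761, nat_lit 25545, nat_lit 25605, nat_lit 25597, nat_lit 5917] (nat_lit 0) [] false,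
   Spec.mk (nat_lit 25605) (nat_lit 0) [nat_lit 12483, nat_lit 29979, nat_lit 25119, nat_lit 25767, nat_lit 25551, nat_lit 25623, nat_lit 25599, nat_lit 5923] (nat_lit 0) [] false,
   Spec.mk (nat_lit 25623) (nat_lit 1) [nat_lit 12501, nat_lit 29997, nat_lit 25137, nat_lit 25785, nat_lit 25569, nat_lit 25677, nat_lit 25605, nat_lit 5941] (nat_lit 0) [] false,
   Spec.mk (nat_lit 25677) (nat_lit 0) [nat_lit 12555, nat_lit 30051, nat_lit 25191, nat_lit 25839, nat_lit 25623, nat_lit 5995] (nat_lit 0) [] false,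
   Spec.mk (nat_lit 25759) (nat_lit 3) [nat_lit 12637, nat_lit 30133, nat_lit 25273, nat_lit 25597, nat_lit 25761, nat_lit 45441, nat_lit 6077] (nat_lit 0) [] false,
   Spec.mk (nat_lit 25761) (nat_lit 2) [nat_lit 12639, nat_lit 30135, nat_lit 25275, nat_lit 25599, nat_lit 25767, nat_lit 25759, nat_lit 6079] (nat_lit 0) [] false,
   Spec.mk (nat_lit 25767) (nat_lit 2) [nat_lit 12645, nat_lit 30141, nat_lit 25281, nat_lit 25605, nat_lit 25785, nat_lit 25761, nat_lit 6085] (nat_lit 0) [] false,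
   Spec.mk (nat_lit 25785) (nat_lit 2) [nat_lit 12663, nat_lit 30159, nat_lit 25299, nat_lit 25623, nat_lit 25839, nat_lit 25767, nat_lit 6103] (nat_lit 0) [] false,
   Spec.mk (nat_lit 25839) (nat_lit 3) [nat_lit 12717, nat_lit 30213, nat_lit 25353, nat_lit 25677, nat_lit 26001, nat_lit 25785, nat_lit 6157] (nat_lit 0) [] false,
   Spec.mk (nat_lit 26001) (nat_lit 4) [nat_lit 12879, nat_lit 30375, nat_lit 25839, nat_lit 6319] (nat_lit 0) [] false,
   Spec.mk (nat_lit 26261) (nat_lit 5) [nat_lit 13139, nat_lit 39383, nat_lit 21887, nat_lit 26279, nat_lit 26267, nat_lit 45943] (nat_lit 0) [] false,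
   Spec.mk (nat_lit 26267) (nat_lit 3) [nat_lit 13145, nat_lit 39389, nat_lit 21893, nat_lit 26285, nat_lit 26261, nat_lit 26269, nat_lit 45949] (nat_lit 0) [] false,
   Spec.mk (nat_lit 26269) (nat_lit 4) [nat_lit 13147, nat_lit 39391, nat_lit 21895, nat_lit 26287, nat_lit 26267, nat_lit 45951, nat_lit 6587] (nat_lit 0) [] false,
   Spec.mk (nat_lit 26279) (nat_lit 3) [nat_lit 13157, nat_lit 39401, nat_lit 21905, nat_lit 26333, nat_lit 26261, nat_lit 26285, nat_lit 45961] (nat_lit 0) [] false,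
   Spec.mk (nat_lit 26285) (nat_lit 3) [nat_lit 13163, nat_lit 39407, nat_lit 21911, nat_lit 26339, nat_lit 26267, nat_lit 26303, nat_lit 26279, nat_lit 26291, nat_lit 26287, nat_lit 45967] (nat_lit 0) [] false,
   Spec.mk (nat_lit 26287) (nat_lit 3) [nat_lit 13165, nat_lit 39409, nat_lit 21913, nat_lit 26341, nat_lit 26269, nat_lit 26305, nat_lit 26293, nat_lit 26285, nat_lit 45969, nat_lit 6605] (nat_lit 0) [] false,
   Spec.mk (nat_lit 26291) (nat_lit 1) [nat_lit 13169, nat_lit 39413, nat_lit 21917, nat_lit 26345, nat_lit 26309, nat_lit 26285, nat_lit 26293, nat_lit 45973] (nat_lit 0) [] false,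
   Spec.mk (nat_lit 26293) (nat_lit 3) [nat_lit 13171, nat_lit 39415, nat_lit 21919, nat_lit 26347, nat_lit 26311, nat_lit 26287, nat_lit 26291, nat_lit 26295, nat_lit 45975, nat_lit 6611] (nat_lit 0) [] false,
   Spec.mk (nat_lit 26295) (nat_lit 3) [nat_lit 13173, nat_lit 39417, nat_lit 21921, nat_lit 26349, nat_lit 26313, nat_lit 26293, nat_lit 6613] (nat_lit 0) [] false,
   Spec.mk (nat_lit 26303) (nat_lit 1) [nat_lit 13181, nat_lit 39425, nat_lit 21929, nat_lit 26357, nat_lit 26285, nat_lit 26309, nat_lit 26305, nat_lit 45985] (nat_lit 0) [] false,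
   Spec.mk (nat_lit 26305) (nat_lit 0) [nat_lit 13183, nat_lit 39427, nat_lit 21931, nat_lit 26359, nat_lit 26287, nat_lit 26311, nat_lit 26303, nat_lit 45987, nat_lit 6623] (nat_lit 0) [] false,
   Spec.mk (nat_lit 26309) (nat_lit 1) [nat_lit 13187, nat_lit 39431, nat_lit 21935, nat_lit 26363, nat_lit 26291, nat_lit 26303, nat_lit 26311, nat_lit 45991] (nat_lit 0) [] false,
   Spec.mk (nat_lit 26311) (nat_lit 2) [nat_lit 13189, nat_lit 39433, nat_lit 21937, nat_lit 26365, nat_lit 26293, nat_lit 26305, nat_lit 26317, nat_lit 26309, nat_lit 26313, nat_lit 45993, nat_lit 6629] (nat_lit 0) [] false,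
   Spec.mk (nat_lit 26313) (nat_lit 1) [nat_lit 13191, nat_lit 39435, nat_lit 21939, nat_lit 26367, nat_lit 26295, nat_lit 26319, nat_lit 26311, nat_lit 6631] (nat_lit 0) [] false,
   Spec.mk (nat_lit 26317) (nat_lit 2) [nat_lit 13195, nat_lit 39439, nat_lit 21943, nat_lit 26371, nat_lit 26311, nat_lit 26319, nat_lit 45999, nat_lit 6635] (nat_lit 0) [] false,
   Spec.mk (nat_lit 26319) (nat_lit 3) [nat_lit 13197, nat_lit 39441, nat_lit 21945, nat_lit 26373, nat_lit 26313, nat_lit 26317, nat_lit 6637] (nat_lit 0) [] false,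
   Spec.mk (nat_lit 26333) (nat_lit 3) [nat_lit 13211, nat_lit 39455, nat_lit 21959, nat_lit 26495, nat_lit 26279, nat_lit 26339, nat_lit 46015] (nat_lit 0) [] false,
   Spec.mk (nat_lit 26339) (nat_lit 2) [nat_lit 13217, nat_lit 39461, nat_lit 21965, nat_lit 26501, nat_lit 26285, nat_lit 26357, nat_lit 26333, nat_lit 26345, nat_lit 26341, nat_lit 46021] (nat_lit 0) [] false,
   Spec.mk (nat_lit 26341) (nat_lit 2) [nat_lit 13219, nat_lit 39463, nat_lit 21967, nat_lit 26503, nat_lit 26287, nat_lit 26359, nat_lit 26347, nat_lit 26339, nat_lit 46023, nat_lit 6659] (nat_lit 0) [] false,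
   Spec.mk (nat_lit 26345) (nat_lit 0) [nat_lit 13223, nat_lit 39467, nat_lit 21971, nat_lit 26507, nat_lit 26291, nat_lit 26363, nat_lit 26339, nat_lit 26347, nat_lit 46027] (nat_lit 1) [] false,
   Spec.mk (nat_lit 26347) (nat_lit 1) [nat_lit 13225, nat_lit 39469, nat_lit 21973, nat_lit 26509, nat_lit 26293, nat_lit 26365, nat_lit 26341, nat_lit 26345, nat_lit 26349, nat_lit 46029, nat_lit 6665] (nat_lit 0) [] false,
   Spec.mk (nat_lit 26349) (nat_lit 1) [nat_lit 13227, nat_lit 39471, nat_lit 21975, nat_lit 26511, nat_lit 26295, nat_lit 26367, nat_lit 26347, nat_lit 6667] (nat_lit 0) [] false,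
   Spec.mk (nat_lit 26357) (nat_lit 2) [nat_lit 13235, nat_lit 39479, nat_lit 21983, nat_lit 26519, nat_lit 26303, nat_lit 26411, nat_lit 26339, nat_lit 26363, nat_lit 26359, nat_lit 46039] (nat_lit 0) [] false,
   Spec.mk (nat_lit 26359) (nat_lit 1) [nat_lit 13237, nat_lit 39481, nat_lit 21985, nat_lit 26521, nat_lit 26305, nat_lit 26413, nat_lit 26341, nat_lit 26365, nat_lit 26357, nat_lit 46041, nat_lit 6677] (nat_lit 0) [] false,
   Spec.mk (nat_lit 26363) (nat_lit 1) [nat_lit 13241, nat_lit 39485, nat_lit 21989, nat_lit 26525, nat_lit 26309, nat_lit 26417, nat_lit 26345, nat_lit 26381, nat_lit 26357, nat_lit 26365, nat_lit 46045] (nat_lit 0) [] false,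
   Spec.mk (nat_lit 26365) (nat_lit 2) [nat_lit 13243, nat_lit 39487, nat_lit 21991, nat_lit 26527, nat_lit 26311, nat_lit 26419, nat_lit 26347, nat_lit 26383, nat_lit 26359, nat_lit 26371, nat_lit 26363, nat_lit 26367, nat_lit 46047, nat_lit 6683] (nat_lit 0) [] false,
   Spec.mk (nat_lit 26367) (nat_lit 1) [nat_lit 13245, nat_lit 39489, nat_lit 21993, nat_lit 26529, nat_lit 26313, nat_lit 26421, nat_lit 26349, nat_lit 26385, nat_lit 26373, nat_lit 26365, nat_lit 6685] (nat_lit 0) [] false,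
   Spec.mk (nat_lit 26371) (nat_lit 1) [nat_lit 13249, nat_lit 39493, nat_lit 21997, nat_lit 26533, nat_lit 26317, nat_lit 26425, nat_lit 26389, nat_lit 26365, nat_lit 26373, nat_lit 46053, nat_lit 6689] (nat_lit 0) [] false,
   Spec.mk (nat_lit 26373) (nat_lit 2) [nat_lit 13251, nat_lit 39495, nat_lit 21999, nat_lit 26535, nat_lit 26319, nat_lit 26427, nat_lit 26391, nat_lit 26367, nat_lit 26371, nat_lit 6691] (nat_lit 0) [] false,
   Spec.mk (nat_lit 26381) (nat_lit 1) [nat_lit 13259, nat_lit 39503, nat_lit 22007, nat_lit 26543, nat_lit 26435, nat_lit 26363, nat_lit 26383, nat_lit 46063] (nat_lit 0) [] false,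
   Spec.mk (nat_lit 26383) (nat_lit 1) [nat_lit 13261, nat_lit 39505, nat_lit 22009, nat_lit 26545, nat_lit 26437, nat_lit 26365, nat_lit 26389, nat_lit 26381, nat_lit 26385, nat_lit 46065, nat_lit 6701] (nat_lit 0) [] false,
   Spec.mk (nat_lit 26385) (nat_lit 0) [nat_lit 13263, nat_lit 39507, nat_lit 22011, nat_lit 26547, nat_lit 26439, nat_lit 26367, nat_lit 26391, nat_lit 26383, nat_lit 6703] (nat_lit 1) [] false]

noncomputable def sp52 : List Spec :=
  [Spec.mk (nat_lit 26389) (nat_lit 2) [nat_lit 13267, nat_lit 39511, nat_lit 22015, nat_lit 26551, nat_lit 26443, nat_lit 26371, nat_lit 26383, nat_lit 26391, nat_lit 46071, nat_lit 6707] (nat_lit 0) [] false,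
   Spec.mk (nat_lit 26391) (nat_lit 2) [nat_lit 13269, nat_lit 39513, nat_lit 22017, nat_lit 26553, nat_lit 26445, nat_lit 26373, nat_lit 26385, nat_lit 26397, nat_lit 26389, nat_lit 6709] (nat_lit 0) [] false,
   Spec.mk (nat_lit 26397) (nat_lit 3) [nat_lit 13275, nat_lit 39519, nat_lit 22023, nat_lit 26559, nat_lit 26451, nat_lit 26391, nat_lit 6715] (nat_lit 0) [] false,
   Spec.mk (nat_lit 26411) (nat_lit 1) [nat_lit 13289, nat_lit 39533, nat_lit 22037, nat_lit 26573, nat_lit 26357, nat_lit 26417, nat_lit 26413, nat_lit 46093] (nat_lit 0) [] false,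
   Spec.mk (nat_lit 26413) (nat_lit 0) [nat_lit 13291, nat_lit 39535, nat_lit 22039, nat_lit 26575, nat_lit 26359, nat_lit 26419, nat_lit 26411, nat_lit 46095, nat_lit 6731] (nat_lit 0) [] false,
   Spec.mk (nat_lit 26417) (nat_lit 0) [nat_lit 13295, nat_lit 39539, nat_lit 22043, nat_lit 26579, nat_lit 26363, nat_lit 26435, nat_lit 26411, nat_lit 26419, nat_lit 46099] (nat_lit 1) [] false,
   Spec.mk (nat_lit 26419) (nat_lit 0) [nat_lit 13297, nat_lit 39541, nat_lit 22045, nat_lit 26581, nat_lit 26365, nat_lit 26437, nat_lit 26413, nat_lit 26425, nat_lit 26417, nat_lit 26421, nat_lit 46101, nat_lit 6737] (nat_lit 0) [] false,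
   Spec.mk (nat_lit 26421) (nat_lit 0) [nat_lit 13299, nat_lit 39543, nat_lit 22047, nat_lit 26583, nat_lit 26367, nat_lit 26439, nat_lit 26427, nat_lit 26419, nat_lit 6739] (nat_lit 1) [] false,
   Spec.mk (nat_lit 26425) (nat_lit 0) [nat_lit 13303, nat_lit 39547, nat_lit 22051, nat_lit 26587, nat_lit 26371, nat_lit 26443, nat_lit 26419, nat_lit 26427, nat_lit 46107, nat_lit 6743] (nat_lit 2) [] false,
   Spec.mk (nat_lit 26427) (nat_lit 0) [nat_lit 13305, nat_lit 39549, nat_lit 22053, nat_lit 26589, nat_lit 26373, nat_lit 26445, nat_lit 26421, nat_lit 26425, nat_lit 6745] (nat_lit 1) [] false,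
   Spec.mk (nat_lit 26435) (nat_lit 1) [nat_lit 13313, nat_lit 39557, nat_lit 22061, nat_lit 26597, nat_lit 26381, nat_lit 26417, nat_lit 26437, nat_lit 46117] (nat_lit 0) [] false,
   Spec.mk (nat_lit 26437) (nat_lit 1) [nat_lit 13315, nat_lit 39559, nat_lit 22063, nat_lit 26599, nat_lit 26383, nat_lit 26419, nat_lit 26443, nat_lit 26435, nat_lit 26439, nat_lit 46119, nat_lit 6755] (nat_lit 0) [] false,
   Spec.mk (nat_lit 26439) (nat_lit 0) [nat_lit 13317, nat_lit 39561, nat_lit 22065, nat_lit 26601, nat_lit 26385, nat_lit 26421, nat_lit 26445, nat_lit 26437, nat_lit 6757] (nat_lit 1) [] false,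
   Spec.mk (nat_lit 26443) (nat_lit 1) [nat_lit 13321, nat_lit 39565, nat_lit 22069, nat_lit 26605, nat_lit 26389, nat_lit 26425, nat_lit 26461, nat_lit 26437, nat_lit 26445, nat_lit 46125, nat_lit 6761] (nat_lit 0) [] false,
   Spec.mk (nat_lit 26445) (nat_lit 1) [nat_lit 13323, nat_lit 39567, nat_lit 22071, nat_lit 26607, nat_lit 26391, nat_lit 26427, nat_lit 26463, nat_lit 26439, nat_lit 26451, nat_lit 26443, nat_lit 6763] (nat_lit 0) [] false,
   Spec.mk (nat_lit 26451) (nat_lit 1) [nat_lit 13329, nat_lit 39573, nat_lit 22077, nat_lit 26613, nat_lit 26397, nat_lit 26469, nat_lit 26445, nat_lit 6769] (nat_lit 0) [] false,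
   Spec.mk (nat_lit 26461) (nat_lit 2) [nat_lit 13339, nat_lit 39583, nat_lit 22087, nat_lit 26623, nat_lit 26443, nat_lit 26463, nat_lit 46143, nat_lit 6779] (nat_lit 0) [] false,
   Spec.mk (nat_lit 26463) (nat_lit 1) [nat_lit 13341, nat_lit 39585, nat_lit 22089, nat_lit 26625, nat_lit 26445, nat_lit 26469, nat_lit 26461, nat_lit 6781] (nat_lit 0) [] false,
   Spec.mk (nat_lit 26469) (nat_lit 3) [nat_lit 13347, nat_lit 39591, nat_lit 22095, nat_lit 26631, nat_lit 26451, nat_lit 26463, nat_lit 6787] (nat_lit 0) [] false,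
   Spec.mk (nat_lit 26495) (nat_lit 3) [nat_lit 13373, nat_lit 39617, nat_lit 22121, nat_lit 26981, nat_lit 26333, nat_lit 26501, nat_lit 46177] (nat_lit 0) [] false,
   Spec.mk (nat_lit 26501) (nat_lit 2) [nat_lit 13379, nat_lit 39623, nat_lit 22127, nat_lit 26987, nat_lit 26339, nat_lit 26519, nat_lit 26495, nat_lit 26507, nat_lit 26503, nat_lit 46183] (nat_lit 0) [] false,
   Spec.mk (nat_lit 26503) (nat_lit 2) [nat_lit 13381, nat_lit 39625, nat_lit 22129, nat_lit 26989, nat_lit 26341, nat_lit 26521, nat_lit 26509, nat_lit 26501, nat_lit 46185, nat_lit 6821] (nat_lit 0) [] false,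
   Spec.mk (nat_lit 26507) (nat_lit 0) [nat_lit 13385, nat_lit 39629, nat_lit 22133, nat_lit 26993, nat_lit 26345, nat_lit 26525, nat_lit 26501, nat_lit 26509, nat_lit 46189] (nat_lit 1) [] false,
   Spec.mk (nat_lit 26509) (nat_lit 1) [nat_lit 13387, nat_lit 39631, nat_lit 22135, nat_lit 26995, nat_lit 26347, nat_lit 26527, nat_lit 26503, nat_lit 26507, nat_lit 26511, nat_lit 46191, nat_lit 6827] (nat_lit 0) [] false,
   Spec.mk (nat_lit 26511) (nat_lit 1) [nat_lit 13389, nat_lit 39633, nat_lit 22137, nat_lit 26997, nat_lit 26349, nat_lit 26529, nat_lit 26509, nat_lit 6829] (nat_lit 0) [] false,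
   Spec.mk (nat_lit 26519) (nat_lit 1) [nat_lit 13397, nat_lit 39641, nat_lit 22145, nat_lit 27005, nat_lit 26357, nat_lit 26573, nat_lit 26501, nat_lit 26525, nat_lit 26521, nat_lit 46201] (nat_lit 0) [] false,
   Spec.mk (nat_lit 26521) (nat_lit 0) [nat_lit 13399, nat_lit 39643, nat_lit 22147, nat_lit 27007, nat_lit 26359, nat_lit 26575, nat_lit 26503, nat_lit 26527, nat_lit 26519, nat_lit 46203, nat_lit 6839] (nat_lit 0) [] false,
   Spec.mk (nat_lit 26525) (nat_lit 0) [nat_lit 13403, nat_lit 39647, nat_lit 22151, nat_lit 27011, nat_lit 26363, nat_lit 26579, nat_lit 26507, nat_lit 26543, nat_lit 26519, nat_lit 26527, nat_lit 46207] (nat_lit 0) [] false,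
   Spec.mk (nat_lit 26527) (nat_lit 1) [nat_lit 13405, nat_lit 39649, nat_lit 22153, nat_lit 27013, nat_lit 26365, nat_lit 26581, nat_lit 26509, nat_lit 26545, nat_lit 26521, nat_lit 26533, nat_lit 26525, nat_lit 26529, nat_lit 46209, nat_lit 6845] (nat_lit 0) [] false,
   Spec.mk (nat_lit 26529) (nat_lit 0) [nat_lit 13407, nat_lit 39651, nat_lit 22155, nat_lit 27015, nat_lit 26367, nat_lit 26583, nat_lit 26511, nat_lit 26547, nat_lit 26535, nat_lit 26527, nat_lit 6847] (nat_lit 0) [] false,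
   Spec.mk (nat_lit 26533) (nat_lit 0) [nat_lit 13411, nat_lit 39655, nat_lit 22159, nat_lit 27019, nat_lit 26371, nat_lit 26587, nat_lit 26551, nat_lit 26527, nat_lit 26535, nat_lit 46215, nat_lit 6851] (nat_lit 0) [] false,
   Spec.mk (nat_lit 26535) (nat_lit 1) [nat_lit 13413, nat_lit 39657, nat_lit 22161, nat_lit 27021, nat_lit 26373, nat_lit 26589, nat_lit 26553, nat_lit 26529, nat_lit 26533, nat_lit 6853] (nat_lit 0) [] false,
   Spec.mk (nat_lit 26543) (nat_lit 0) [nat_lit 13421, nat_lit 39665, nat_lit 22169, nat_lit 27029, nat_lit 26381, nat_lit 26597, nat_lit 26525, nat_lit 26545, nat_lit 46225] (nat_lit 1) [] false,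
   Spec.mk (nat_lit 26545) (nat_lit 0) [nat_lit 13423, nat_lit 39667, nat_lit 22171, nat_lit 27031, nat_lit 26383, nat_lit 26599, nat_lit 26527, nat_lit 26551, nat_lit 26543, nat_lit 26547, nat_lit 46227, nat_lit 6863] (nat_lit 1) [] false,
   Spec.mk (nat_lit 26547) (nat_lit 0) [nat_lit 13425, nat_lit 39669, nat_lit 22173, nat_lit 27033, nat_lit 26385, nat_lit 26601, nat_lit 26529, nat_lit 26553, nat_lit 26545, nat_lit 6865] (nat_lit 3) [] false,
   Spec.mk (nat_lit 26551) (nat_lit 0) [nat_lit 13429, nat_lit 39673, nat_lit 22177, nat_lit 27037, nat_lit 26389, nat_lit 26605, nat_lit 26533, nat_lit 26545, nat_lit 26553, nat_lit 46233, nat_lit 6869] (nat_lit 0) [] false,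
   Spec.mk (nat_lit 26553) (nat_lit 0) [nat_lit 13431, nat_lit 39675, nat_lit 22179, nat_lit 27039, nat_lit 26391, nat_lit 26607, nat_lit 26535, nat_lit 26547, nat_lit 26559, nat_lit 26551, nat_lit 6871] (nat_lit 0) [] false,
   Spec.mk (nat_lit 26559) (nat_lit 1) [nat_lit 13437, nat_lit 39681, nat_lit 22185, nat_lit 27045, nat_lit 26397, nat_lit 26613, nat_lit 26553, nat_lit 6877] (nat_lit 0) [] false,
   Spec.mk (nat_lit 26573) (nat_lit 2) [nat_lit 13451, nat_lit 39695, nat_lit 22199, nat_lit 27059, nat_lit 26411, nat_lit 26735, nat_lit 26519, nat_lit 26579, nat_lit 26575, nat_lit 46255] (nat_lit 0) [] false,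
   Spec.mk (nat_lit 26575) (nat_lit 1) [nat_lit 13453, nat_lit 39697, nat_lit 22201, nat_lit 27061, nat_lit 26413, nat_lit 26737, nat_lit 26521, nat_lit 26581, nat_lit 26573, nat_lit 46257, nat_lit 6893] (nat_lit 0) [] false,
   Spec.mk (nat_lit 26579) (nat_lit 0) [nat_lit 13457, nat_lit 39701, nat_lit 22205, nat_lit 27065, nat_lit 26417, nat_lit 26741, nat_lit 26525, nat_lit 26597, nat_lit 26573, nat_lit 26581, nat_lit 46261] (nat_lit 0) [] false,
   Spec.mk (nat_lit 26581) (nat_lit 1) [nat_lit 13459, nat_lit 39703, nat_lit 22207, nat_lit 27067, nat_lit 26419, nat_lit 26743, nat_lit 26527, nat_lit 26599, nat_lit 26575, nat_lit 26587, nat_lit 26579, nat_lit 26583, nat_lit 46263, nat_lit 6899] (nat_lit 0) [] false,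
   Spec.mk (nat_lit 26583) (nat_lit 0) [nat_lit 13461, nat_lit 39705, nat_lit 22209, nat_lit 27069, nat_lit 26421, nat_lit 26745, nat_lit 26529, nat_lit 26601, nat_lit 26589, nat_lit 26581, nat_lit 6901] (nat_lit 0) [] false,
   Spec.mk (nat_lit 26587) (nat_lit 0) [nat_lit 13465, nat_lit 39709, nat_lit 22213, nat_lit 27073, nat_lit 26425, nat_lit 26749, nat_lit 26533, nat_lit 26605, nat_lit 26581, nat_lit 26589, nat_lit 46269, nat_lit 6905] (nat_lit 1) [] false,
   Spec.mk (nat_lit 26589) (nat_lit 0) [nat_lit 13467, nat_lit 39711, nat_lit 22215, nat_lit 27075, nat_lit 26427, nat_lit 26751, nat_lit 26535, nat_lit 26607, nat_lit 26583, nat_lit 26587, nat_lit 6907] (nat_lit 0) [] false,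
   Spec.mk (nat_lit 26597) (nat_lit 1) [nat_lit 13475, nat_lit 39719, nat_lit 22223, nat_lit 27083, nat_lit 26435, nat_lit 26759, nat_lit 26543, nat_lit 26651, nat_lit 26579, nat_lit 26599, nat_lit 46279] (nat_lit 0) [] false,
   Spec.mk (nat_lit 26599) (nat_lit 1) [nat_lit 13477, nat_lit 39721, nat_lit 22225, nat_lit 27085, nat_lit 26437, nat_lit 26761, nat_lit 26545, nat_lit 26653, nat_lit 26581, nat_lit 26605, nat_lit 26597, nat_lit 26601, nat_lit 46281, nat_lit 6917] (nat_lit 0) [] false,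
   Spec.mk (nat_lit 26601) (nat_lit 0) [nat_lit 13479, nat_lit 39723, nat_lit 22227, nat_lit 27087, nat_lit 26439, nat_lit 26763, nat_lit 26547, nat_lit 26655, nat_lit 26583, nat_lit 26607, nat_lit 26599, nat_lit 6919] (nat_lit 1) [] false,
   Spec.mk (nat_lit 26605) (nat_lit 1) [nat_lit 13483, nat_lit 39727, nat_lit 22231, nat_lit 27091, nat_lit 26443, nat_lit 26767, nat_lit 26551, nat_lit 26659, nat_lit 26587, nat_lit 26623, nat_lit 26599, nat_lit 26607, nat_lit 46287, nat_lit 6923] (nat_lit 0) [] false,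
   Spec.mk (nat_lit 26607) (nat_lit 1) [nat_lit 13485, nat_lit 39729, nat_lit 22233, nat_lit 27093, nat_lit 26445, nat_lit 26769, nat_lit 26553, nat_lit 26661, nat_lit 26589, nat_lit 26625, nat_lit 26601, nat_lit 26613, nat_lit 26605, nat_lit 6925] (nat_lit 0) [] false,
   Spec.mk (nat_lit 26613) (nat_lit 1) [nat_lit 13491, nat_lit 39735, nat_lit 22239, nat_lit 27099, nat_lit 26451, nat_lit 26775, nat_lit 26559, nat_lit 26667, nat_lit 26631, nat_lit 26607, nat_lit 6931] (nat_lit 0) [] false,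
   Spec.mk (nat_lit 26623) (nat_lit 1) [nat_lit 13501, nat_lit 39745, nat_lit 22249, nat_lit 27109, nat_lit 26461, nat_lit 26785, nat_lit 26677, nat_lit 26605, nat_lit 26625, nat_lit 46305, nat_lit 6941] (nat_lit 0) [] false,
   Spec.mk (nat_lit 26625) (nat_lit 0) [nat_lit 13503, nat_lit 39747, nat_lit 22251, nat_lit 27111, nat_lit 26463, nat_lit 26787, nat_lit 26679, nat_lit 26607, nat_lit 26631, nat_lit 26623, nat_lit 6943] (nat_lit 0) [] false,
   Spec.mk (nat_lit 26631) (nat_lit 2) [nat_lit 13509, nat_lit 39753, nat_lit 22257, nat_lit 27117, nat_lit 26469, nat_lit 26793, nat_lit 26685, nat_lit 26613, nat_lit 26625, nat_lit 6949] (nat_lit 0) [] false,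
   Spec.mk (nat_lit 26651) (nat_lit 1) [nat_lit 13529, nat_lit 39773, nat_lit 22277, nat_lit 27137, nat_lit 26813, nat_lit 26597, nat_lit 26653, nat_lit 46333] (nat_lit 0) [] false,
   Spec.mk (nat_lit 26653) (nat_lit 1) [nat_lit 13531, nat_lit 39775, nat_lit 22279, nat_lit 27139, nat_lit 26815, nat_lit 26599, nat_lit 26659, nat_lit 26651, nat_lit 26655, nat_lit 46335, nat_lit 6971] (nat_lit 0) [] false,
   Spec.mk (nat_lit 26655) (nat_lit 0) [nat_lit 13533, nat_lit 39777, nat_lit 22281, nat_lit 27141, nat_lit 26817, nat_lit 26601, nat_lit 26661, nat_lit 26653, nat_lit 6973] (nat_lit 1) [] false,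
   Spec.mk (nat_lit 26659) (nat_lit 0) [nat_lit 13537, nat_lit 39781, nat_lit 22285, nat_lit 27145, nat_lit 26821, nat_lit 26605, nat_lit 26677, nat_lit 26653, nat_lit 26661, nat_lit 46341, nat_lit 6977] (nat_lit 0) [] false,
   Spec.mk (nat_lit 26661) (nat_lit 0) [nat_lit 13539, nat_lit 39783, nat_lit 22287, nat_lit 27147, nat_lit 26823, nat_lit 26607, nat_lit 26679, nat_lit 26655, nat_lit 26667, nat_lit 26659, nat_lit 6979] (nat_lit 0) [] false,
   Spec.mk (nat_lit 26667) (nat_lit 0) [nat_lit 13545, nat_lit 39789, nat_lit 22293, nat_lit 27153, nat_lit 26829, nat_lit 26613, nat_lit 26685, nat_lit 26661, nat_lit 6985] (nat_lit 1) [] false]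

noncomputable def sp53 : List Spec :=
  [Spec.mk (nat_lit 26677) (nat_lit 2) [nat_lit 13555, nat_lit 39799, nat_lit 22303, nat_lit 27163, nat_lit 26839, nat_lit 26623, nat_lit 26659, nat_lit 26679, nat_lit 46359, nat_lit 6995] (nat_lit 0) [] false,
   Spec.mk (nat_lit 26679) (nat_lit 1) [nat_lit 13557, nat_lit 39801, nat_lit 22305, nat_lit 27165, nat_lit 26841, nat_lit 26625, nat_lit 26661, nat_lit 26685, nat_lit 26677, nat_lit 6997] (nat_lit 0) [] false,
   Spec.mk (nat_lit 26685) (nat_lit 2) [nat_lit 13563, nat_lit 39807, nat_lit 22311, nat_lit 27171, nat_lit 26847, nat_lit 26631, nat_lit 26667, nat_lit 26703, nat_lit 26679, nat_lit 7003] (nat_lit 0) [] false,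
   Spec.mk (nat_lit 26703) (nat_lit 3) [nat_lit 13581, nat_lit 39825, nat_lit 22329, nat_lit 27189, nat_lit 26865, nat_lit 26685, nat_lit 7021] (nat_lit 0) [] false,
   Spec.mk (nat_lit 26735) (nat_lit 1) [nat_lit 13613, nat_lit 39857, nat_lit 22361, nat_lit 27221, nat_lit 26573, nat_lit 26741, nat_lit 26737, nat_lit 46417] (nat_lit 0) [] false,
   Spec.mk (nat_lit 26737) (nat_lit 0) [nat_lit 13615, nat_lit 39859, nat_lit 22363, nat_lit 27223, nat_lit 26575, nat_lit 26743, nat_lit 26735, nat_lit 46419, nat_lit 7055] (nat_lit 0) [] false,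
   Spec.mk (nat_lit 26741) (nat_lit 0) [nat_lit 13619, nat_lit 39863, nat_lit 22367, nat_lit 27227, nat_lit 26579, nat_lit 26759, nat_lit 26735, nat_lit 26743, nat_lit 46423] (nat_lit 1) [] false,
   Spec.mk (nat_lit 26743) (nat_lit 0) [nat_lit 13621, nat_lit 39865, nat_lit 22369, nat_lit 27229, nat_lit 26581, nat_lit 26761, nat_lit 26737, nat_lit 26749, nat_lit 26741, nat_lit 26745, nat_lit 46425, nat_lit 7061] (nat_lit 0) [] false,
   Spec.mk (nat_lit 26745) (nat_lit 0) [nat_lit 13623, nat_lit 39867, nat_lit 22371, nat_lit 27231, nat_lit 26583, nat_lit 26763, nat_lit 26751, nat_lit 26743, nat_lit 7063] (nat_lit 1) [] false,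
   Spec.mk (nat_lit 26749) (nat_lit 0) [nat_lit 13627, nat_lit 39871, nat_lit 22375, nat_lit 27235, nat_lit 26587, nat_lit 26767, nat_lit 26743, nat_lit 26751, nat_lit 46431, nat_lit 7067] (nat_lit 2) [] false,
   Spec.mk (nat_lit 26751) (nat_lit 0) [nat_lit 13629, nat_lit 39873, nat_lit 22377, nat_lit 27237, nat_lit 26589, nat_lit 26769, nat_lit 26745, nat_lit 26749, nat_lit 7069] (nat_lit 1) [] false,
   Spec.mk (nat_lit 26759) (nat_lit 0) [nat_lit 13637, nat_lit 39881, nat_lit 22385, nat_lit 27245, nat_lit 26597, nat_lit 26813, nat_lit 26741, nat_lit 26761, nat_lit 46441] (nat_lit 1) [] false,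
   Spec.mk (nat_lit 26761) (nat_lit 0) [nat_lit 13639, nat_lit 39883, nat_lit 22387, nat_lit 27247, nat_lit 26599, nat_lit 26815, nat_lit 26743, nat_lit 26767, nat_lit 26759, nat_lit 26763, nat_lit 46443, nat_lit 7079] (nat_lit 1) [] false,
   Spec.mk (nat_lit 26763) (nat_lit 0) [nat_lit 13641, nat_lit 39885, nat_lit 22389, nat_lit 27249, nat_lit 26601, nat_lit 26817, nat_lit 26745, nat_lit 26769, nat_lit 26761, nat_lit 7081] (nat_lit 3) [] false,
   Spec.mk (nat_lit 26767) (nat_lit 0) [nat_lit 13645, nat_lit 39889, nat_lit 22393, nat_lit 27253, nat_lit 26605, nat_lit 26821, nat_lit 26749, nat_lit 26785, nat_lit 26761, nat_lit 26769, nat_lit 46449, nat_lit 7085] (nat_lit 1) [] false,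
   Spec.mk (nat_lit 26769) (nat_lit 0) [nat_lit 13647, nat_lit 39891, nat_lit 22395, nat_lit 27255, nat_lit 26607, nat_lit 26823, nat_lit 26751, nat_lit 26787, nat_lit 26763, nat_lit 26775, nat_lit 26767, nat_lit 7087] (nat_lit 1) [] false,
   Spec.mk (nat_lit 26775) (nat_lit 0) [nat_lit 13653, nat_lit 39897, nat_lit 22401, nat_lit 27261, nat_lit 26613, nat_lit 26829, nat_lit 26793, nat_lit 26769, nat_lit 7093] (nat_lit 1) [] false,
   Spec.mk (nat_lit 26785) (nat_lit 0) [nat_lit 13663, nat_lit 39907, nat_lit 22411, nat_lit 27271, nat_lit 26623, nat_lit 26839, nat_lit 26767, nat_lit 26787, nat_lit 46467, nat_lit 7103] (nat_lit 2) [] false,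
   Spec.mk (nat_lit 26787) (nat_lit 0) [nat_lit 13665, nat_lit 39909, nat_lit 22413, nat_lit 27273, nat_lit 26625, nat_lit 26841, nat_lit 26769, nat_lit 26793, nat_lit 26785, nat_lit 7105] (nat_lit 3) [] false,
   Spec.mk (nat_lit 26793) (nat_lit 0) [nat_lit 13671, nat_lit 39915, nat_lit 22419, nat_lit 27279, nat_lit 26631, nat_lit 26847, nat_lit 26775, nat_lit 26787, nat_lit 7111] (nat_lit 1) [] false,
   Spec.mk (nat_lit 26813) (nat_lit 1) [nat_lit 13691, nat_lit 39935, nat_lit 22439, nat_lit 27299, nat_lit 26651, nat_lit 26759, nat_lit 26815, nat_lit 46495] (nat_lit 0) [] false,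
   Spec.mk (nat_lit 26815) (nat_lit 1) [nat_lit 13693, nat_lit 39937, nat_lit 22441, nat_lit 27301, nat_lit 26653, nat_lit 26761, nat_lit 26821, nat_lit 26813, nat_lit 26817, nat_lit 46497, nat_lit 7133] (nat_lit 0) [] false,
   Spec.mk (nat_lit 26817) (nat_lit 0) [nat_lit 13695, nat_lit 39939, nat_lit 22443, nat_lit 27303, nat_lit 26655, nat_lit 26763, nat_lit 26823, nat_lit 26815, nat_lit 7135] (nat_lit 1) [] false,
   Spec.mk (nat_lit 26821) (nat_lit 0) [nat_lit 13699, nat_lit 39943, nat_lit 22447, nat_lit 27307, nat_lit 26659, nat_lit 26767, nat_lit 26839, nat_lit 26815, nat_lit 26823, nat_lit 46503, nat_lit 7139] (nat_lit 0) [] false,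
   Spec.mk (nat_lit 26823) (nat_lit 0) [nat_lit 13701, nat_lit 39945, nat_lit 22449, nat_lit 27309, nat_lit 26661, nat_lit 26769, nat_lit 26841, nat_lit 26817, nat_lit 26829, nat_lit 26821, nat_lit 7141] (nat_lit 0) [] false,
   Spec.mk (nat_lit 26829) (nat_lit 0) [nat_lit 13707, nat_lit 39951, nat_lit 22455, nat_lit 27315, nat_lit 26667, nat_lit 26775, nat_lit 26847, nat_lit 26823, nat_lit 7147] (nat_lit 1) [] false,
   Spec.mk (nat_lit 26839) (nat_lit 1) [nat_lit 13717, nat_lit 39961, nat_lit 22465, nat_lit 27325, nat_lit 26677, nat_lit 26785, nat_lit 26893, nat_lit 26821, nat_lit 26841, nat_lit 46521, nat_lit 7157] (nat_lit 0) [] false,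
   Spec.mk (nat_lit 26841) (nat_lit 0) [nat_lit 13719, nat_lit 39963, nat_lit 22467, nat_lit 27327, nat_lit 26679, nat_lit 26787, nat_lit 26895, nat_lit 26823, nat_lit 26847, nat_lit 26839, nat_lit 7159] (nat_lit 0) [] false,
   Spec.mk (nat_lit 26847) (nat_lit 1) [nat_lit 13725, nat_lit 39969, nat_lit 22473, nat_lit 27333, nat_lit 26685, nat_lit 26793, nat_lit 26901, nat_lit 26829, nat_lit 26865, nat_lit 26841, nat_lit 7165] (nat_lit 0) [] false,
   Spec.mk (nat_lit 26865) (nat_lit 1) [nat_lit 13743, nat_lit 39987, nat_lit 22491, nat_lit 27351, nat_lit 26703, nat_lit 26919, nat_lit 26847, nat_lit 7183] (nat_lit 0) [] false,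
   Spec.mk (nat_lit 26893) (nat_lit 2) [nat_lit 13771, nat_lit 40015, nat_lit 22519, nat_lit 27379, nat_lit 26839, nat_lit 26895, nat_lit 46575, nat_lit 7211] (nat_lit 0) [] false,
   Spec.mk (nat_lit 26895) (nat_lit 1) [nat_lit 13773, nat_lit 40017, nat_lit 22521, nat_lit 27381, nat_lit 26841, nat_lit 26901, nat_lit 26893, nat_lit 7213] (nat_lit 0) [] false,
   Spec.mk (nat_lit 26901) (nat_lit 1) [nat_lit 13779, nat_lit 40023, nat_lit 22527, nat_lit 27387, nat_lit 26847, nat_lit 26919, nat_lit 26895, nat_lit 7219] (nat_lit 0) [] false,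
   Spec.mk (nat_lit 26919) (nat_lit 3) [nat_lit 13797, nat_lit 40041, nat_lit 22545, nat_lit 27405, nat_lit 26865, nat_lit 26901, nat_lit 7237] (nat_lit 0) [] false,
   Spec.mk (nat_lit 26981) (nat_lit 3) [nat_lit 13859, nat_lit 40103, nat_lit 22607, nat_lit 28439, nat_lit 26495, nat_lit 26987, nat_lit 46663] (nat_lit 0) [] false,
   Spec.mk (nat_lit 26987) (nat_lit 2) [nat_lit 13865, nat_lit 40109, nat_lit 22613, nat_lit 28445, nat_lit 26501, nat_lit 27005, nat_lit 26981, nat_lit 26993, nat_lit 26989, nat_lit 46669] (nat_lit 0) [] false,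
   Spec.mk (nat_lit 26989) (nat_lit 2) [nat_lit 13867, nat_lit 40111, nat_lit 22615, nat_lit 28447, nat_lit 26503, nat_lit 27007, nat_lit 26995, nat_lit 26987, nat_lit 46671, nat_lit 7307] (nat_lit 0) [] false,
   Spec.mk (nat_lit 26993) (nat_lit 0) [nat_lit 13871, nat_lit 40115, nat_lit 22619, nat_lit 28451, nat_lit 26507, nat_lit 27011, nat_lit 26987, nat_lit 26995, nat_lit 46675] (nat_lit 1) [] false,
   Spec.mk (nat_lit 26995) (nat_lit 1) [nat_lit 13873, nat_lit 40117, nat_lit 22621, nat_lit 28453, nat_lit 26509, nat_lit 27013, nat_lit 26989, nat_lit 26993, nat_lit 26997, nat_lit 46677, nat_lit 7313] (nat_lit 0) [] false,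
   Spec.mk (nat_lit 26997) (nat_lit 1) [nat_lit 13875, nat_lit 40119, nat_lit 22623, nat_lit 28455, nat_lit 26511, nat_lit 27015, nat_lit 26995, nat_lit 7315] (nat_lit 0) [] false,
   Spec.mk (nat_lit 27005) (nat_lit 1) [nat_lit 13883, nat_lit 40127, nat_lit 22631, nat_lit 28463, nat_lit 26519, nat_lit 27059, nat_lit 26987, nat_lit 27011, nat_lit 27007, nat_lit 46687] (nat_lit 0) [] false,
   Spec.mk (nat_lit 27007) (nat_lit 0) [nat_lit 13885, nat_lit 40129, nat_lit 22633, nat_lit 28465, nat_lit 26521, nat_lit 27061, nat_lit 26989, nat_lit 27013, nat_lit 27005, nat_lit 46689, nat_lit 7325] (nat_lit 0) [] false,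
   Spec.mk (nat_lit 27011) (nat_lit 0) [nat_lit 13889, nat_lit 40133, nat_lit 22637, nat_lit 28469, nat_lit 26525, nat_lit 27065, nat_lit 26993, nat_lit 27029, nat_lit 27005, nat_lit 27013, nat_lit 46693] (nat_lit 0) [] false,
   Spec.mk (nat_lit 27013) (nat_lit 1) [nat_lit 13891, nat_lit 40135, nat_lit 22639, nat_lit 28471, nat_lit 26527, nat_lit 27067, nat_lit 26995, nat_lit 27031, nat_lit 27007, nat_lit 27019, nat_lit 27011, nat_lit 27015, nat_lit 46695, nat_lit 7331] (nat_lit 0) [] false,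
   Spec.mk (nat_lit 27015) (nat_lit 0) [nat_lit 13893, nat_lit 40137, nat_lit 22641, nat_lit 28473, nat_lit 26529, nat_lit 27069, nat_lit 26997, nat_lit 27033, nat_lit 27021, nat_lit 27013, nat_lit 7333] (nat_lit 0) [] false,
   Spec.mk (nat_lit 27019) (nat_lit 0) [nat_lit 13897, nat_lit 40141, nat_lit 22645, nat_lit 28477, nat_lit 26533, nat_lit 27073, nat_lit 27037, nat_lit 27013, nat_lit 27021, nat_lit 46701, nat_lit 7337] (nat_lit 0) [] false,
   Spec.mk (nat_lit 27021) (nat_lit 1) [nat_lit 13899, nat_lit 40143, nat_lit 22647, nat_lit 28479, nat_lit 26535, nat_lit 27075, nat_lit 27039, nat_lit 27015, nat_lit 27019, nat_lit 7339] (nat_lit 0) [] false,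
   Spec.mk (nat_lit 27029) (nat_lit 0) [nat_lit 13907, nat_lit 40151, nat_lit 22655, nat_lit 28487, nat_lit 26543, nat_lit 27083, nat_lit 27011, nat_lit 27031, nat_lit 46711] (nat_lit 1) [] false,
   Spec.mk (nat_lit 27031) (nat_lit 0) [nat_lit 13909, nat_lit 40153, nat_lit 22657, nat_lit 28489, nat_lit 26545, nat_lit 27085, nat_lit 27013, nat_lit 27037, nat_lit 27029, nat_lit 27033, nat_lit 46713, nat_lit 7349] (nat_lit 1) [] false,
   Spec.mk (nat_lit 27033) (nat_lit 0) [nat_lit 13911, nat_lit 40155, nat_lit 22659, nat_lit 28491, nat_lit 26547, nat_lit 27087, nat_lit 27015, nat_lit 27039, nat_lit 27031, nat_lit 7351] (nat_lit 3) [] false,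
   Spec.mk (nat_lit 27037) (nat_lit 0) [nat_lit 13915, nat_lit 40159, nat_lit 22663, nat_lit 28495, nat_lit 26551, nat_lit 27091, nat_lit 27019, nat_lit 27031, nat_lit 27039, nat_lit 46719, nat_lit 7355] (nat_lit 0) [] false,
   Spec.mk (nat_lit 27039) (nat_lit 0) [nat_lit 13917, nat_lit 40161, nat_lit 22665, nat_lit 28497, nat_lit 26553, nat_lit 27093, nat_lit 27021, nat_lit 27033, nat_lit 27045, nat_lit 27037, nat_lit 7357] (nat_lit 0) [] false,
   Spec.mk (nat_lit 27045) (nat_lit 1) [nat_lit 13923, nat_lit 40167, nat_lit 22671, nat_lit 28503, nat_lit 26559, nat_lit 27099, nat_lit 27039, nat_lit 7363] (nat_lit 0) [] false,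
   Spec.mk (nat_lit 27059) (nat_lit 1) [nat_lit 13937, nat_lit 40181, nat_lit 22685, nat_lit 28517, nat_lit 26573, nat_lit 27221, nat_lit 27005, nat_lit 27065, nat_lit 27061, nat_lit 46741] (nat_lit 0) [] false,
   Spec.mk (nat_lit 27061) (nat_lit 0) [nat_lit 13939, nat_lit 40183, nat_lit 22687, nat_lit 28519, nat_lit 26575, nat_lit 27223, nat_lit 27007, nat_lit 27067, nat_lit 27059, nat_lit 46743, nat_lit 7379] (nat_lit 0) [] false,
   Spec.mk (nat_lit 27065) (nat_lit 0) [nat_lit 13943, nat_lit 40187, nat_lit 22691, nat_lit 28523, nat_lit 26579, nat_lit 27227, nat_lit 27011, nat_lit 27083, nat_lit 27059, nat_lit 27067, nat_lit 46747] (nat_lit 1) [] false,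
   Spec.mk (nat_lit 27067) (nat_lit 0) [nat_lit 13945, nat_lit 40189, nat_lit 22693, nat_lit 28525, nat_lit 26581, nat_lit 27229, nat_lit 27013, nat_lit 27085, nat_lit 27061, nat_lit 27073, nat_lit 27065, nat_lit 27069, nat_lit 46749, nat_lit 7385] (nat_lit 0) [] false,
   Spec.mk (nat_lit 27069) (nat_lit 0) [nat_lit 13947, nat_lit 40191, nat_lit 22695, nat_lit 28527, nat_lit 26583, nat_lit 27231, nat_lit 27015, nat_lit 27087, nat_lit 27075, nat_lit 27067, nat_lit 7387] (nat_lit 1) [] false,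
   Spec.mk (nat_lit 27073) (nat_lit 0) [nat_lit 13951, nat_lit 40195, nat_lit 22699, nat_lit 28531, nat_lit 26587, nat_lit 27235, nat_lit 27019, nat_lit 27091, nat_lit 27067, nat_lit 27075, nat_lit 46755, nat_lit 7391] (nat_lit 2) [] false,
   Spec.mk (nat_lit 27075) (nat_lit 0) [nat_lit 13953, nat_lit 40197, nat_lit 22701, nat_lit 28533, nat_lit 26589, nat_lit 27237, nat_lit 27021, nat_lit 27093, nat_lit 27069, nat_lit 27073, nat_lit 7393] (nat_lit 1) [] false]

noncomputable def sp54 : List Spec :=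
  [Spec.mk (nat_lit 27083) (nat_lit 0) [nat_lit 13961, nat_lit 40205, nat_lit 22709, nat_lit 28541, nat_lit 26597, nat_lit 27245, nat_lit 27029, nat_lit 27137, nat_lit 27065, nat_lit 27085, nat_lit 46765] (nat_lit 0) [] false,
   Spec.mk (nat_lit 27085) (nat_lit 0) [nat_lit 13963, nat_lit 40207, nat_lit 22711, nat_lit 28543, nat_lit 26599, nat_lit 27247, nat_lit 27031, nat_lit 27139, nat_lit 27067, nat_lit 27091, nat_lit 27083, nat_lit 27087, nat_lit 46767, nat_lit 7403] (nat_lit 0) [] false,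
   Spec.mk (nat_lit 27087) (nat_lit 0) [nat_lit 13965, nat_lit 40209, nat_lit 22713, nat_lit 28545, nat_lit 26601, nat_lit 27249, nat_lit 27033, nat_lit 27141, nat_lit 27069, nat_lit 27093, nat_lit 27085, nat_lit 7405] (nat_lit 2) [] false,
   Spec.mk (nat_lit 27091) (nat_lit 0) [nat_lit 13969, nat_lit 40213, nat_lit 22717, nat_lit 28549, nat_lit 26605, nat_lit 27253, nat_lit 27037, nat_lit 27145, nat_lit 27073, nat_lit 27109, nat_lit 27085, nat_lit 27093, nat_lit 46773, nat_lit 7409] (nat_lit 0) [] false,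
   Spec.mk (nat_lit 27093) (nat_lit 0) [nat_lit 13971, nat_lit 40215, nat_lit 22719, nat_lit 28551, nat_lit 26607, nat_lit 27255, nat_lit 27039, nat_lit 27147, nat_lit 27075, nat_lit 27111, nat_lit 27087, nat_lit 27099, nat_lit 27091, nat_lit 7411] (nat_lit 0) [] false,
   Spec.mk (nat_lit 27099) (nat_lit 0) [nat_lit 13977, nat_lit 40221, nat_lit 22725, nat_lit 28557, nat_lit 26613, nat_lit 27261, nat_lit 27045, nat_lit 27153, nat_lit 27117, nat_lit 27093, nat_lit 7417] (nat_lit 0) [] false,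
   Spec.mk (nat_lit 27109) (nat_lit 0) [nat_lit 13987, nat_lit 40231, nat_lit 22735, nat_lit 28567, nat_lit 26623, nat_lit 27271, nat_lit 27163, nat_lit 27091, nat_lit 27111, nat_lit 46791, nat_lit 7427] (nat_lit 0) [] false,
   Spec.mk (nat_lit 27111) (nat_lit 0) [nat_lit 13989, nat_lit 40233, nat_lit 22737, nat_lit 28569, nat_lit 26625, nat_lit 27273, nat_lit 27165, nat_lit 27093, nat_lit 27117, nat_lit 27109, nat_lit 7429] (nat_lit 1) [] false,
   Spec.mk (nat_lit 27117) (nat_lit 1) [nat_lit 13995, nat_lit 40239, nat_lit 22743, nat_lit 28575, nat_lit 26631, nat_lit 27279, nat_lit 27171, nat_lit 27099, nat_lit 27111, nat_lit 7435] (nat_lit 0) [] false,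
   Spec.mk (nat_lit 27137) (nat_lit 0) [nat_lit 14015, nat_lit 40259, nat_lit 22763, nat_lit 28595, nat_lit 26651, nat_lit 27299, nat_lit 27083, nat_lit 27139, nat_lit 46819] (nat_lit 1) [] false,
   Spec.mk (nat_lit 27139) (nat_lit 0) [nat_lit 14017, nat_lit 40261, nat_lit 22765, nat_lit 28597, nat_lit 26653, nat_lit 27301, nat_lit 27085, nat_lit 27145, nat_lit 27137, nat_lit 27141, nat_lit 46821, nat_lit 7457] (nat_lit 1) [] false,
   Spec.mk (nat_lit 27141) (nat_lit 0) [nat_lit 14019, nat_lit 40263, nat_lit 22767, nat_lit 28599, nat_lit 26655, nat_lit 27303, nat_lit 27087, nat_lit 27147, nat_lit 27139, nat_lit 7459] (nat_lit 3) [] false,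
   Spec.mk (nat_lit 27145) (nat_lit 0) [nat_lit 14023, nat_lit 40267, nat_lit 22771, nat_lit 28603, nat_lit 26659, nat_lit 27307, nat_lit 27091, nat_lit 27163, nat_lit 27139, nat_lit 27147, nat_lit 46827, nat_lit 7463] (nat_lit 2) [] false,
   Spec.mk (nat_lit 27147) (nat_lit 0) [nat_lit 14025, nat_lit 40269, nat_lit 22773, nat_lit 28605, nat_lit 26661, nat_lit 27309, nat_lit 27093, nat_lit 27165, nat_lit 27141, nat_lit 27153, nat_lit 27145, nat_lit 7465] (nat_lit 2) [] false,
   Spec.mk (nat_lit 27153) (nat_lit 0) [nat_lit 14031, nat_lit 40275, nat_lit 22779, nat_lit 28611, nat_lit 26667, nat_lit 27315, nat_lit 27099, nat_lit 27171, nat_lit 27147, nat_lit 7471] (nat_lit 3) [] false,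
   Spec.mk (nat_lit 27163) (nat_lit 0) [nat_lit 14041, nat_lit 40285, nat_lit 22789, nat_lit 28621, nat_lit 26677, nat_lit 27325, nat_lit 27109, nat_lit 27145, nat_lit 27165, nat_lit 46845, nat_lit 7481] (nat_lit 0) [] false,
   Spec.mk (nat_lit 27165) (nat_lit 0) [nat_lit 14043, nat_lit 40287, nat_lit 22791, nat_lit 28623, nat_lit 26679, nat_lit 27327, nat_lit 27111, nat_lit 27147, nat_lit 27171, nat_lit 27163, nat_lit 7483] (nat_lit 1) [] false,
   Spec.mk (nat_lit 27171) (nat_lit 0) [nat_lit 14049, nat_lit 40293, nat_lit 22797, nat_lit 28629, nat_lit 26685, nat_lit 27333, nat_lit 27117, nat_lit 27153, nat_lit 27189, nat_lit 27165, nat_lit 7489] (nat_lit 0) [] false,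
   Spec.mk (nat_lit 27189) (nat_lit 1) [nat_lit 14067, nat_lit 40311, nat_lit 22815, nat_lit 28647, nat_lit 26703, nat_lit 27351, nat_lit 27171, nat_lit 7507] (nat_lit 0) [] false,
   Spec.mk (nat_lit 27221) (nat_lit 2) [nat_lit 14099, nat_lit 40343, nat_lit 22847, nat_lit 28679, nat_lit 26735, nat_lit 27707, nat_lit 27059, nat_lit 27227, nat_lit 27223, nat_lit 46903] (nat_lit 0) [] false,
   Spec.mk (nat_lit 27223) (nat_lit 1) [nat_lit 14101, nat_lit 40345, nat_lit 22849, nat_lit 28681, nat_lit 26737, nat_lit 27709, nat_lit 27061, nat_lit 27229, nat_lit 27221, nat_lit 46905, nat_lit 7541] (nat_lit 0) [] false,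
   Spec.mk (nat_lit 27227) (nat_lit 0) [nat_lit 14105, nat_lit 40349, nat_lit 22853, nat_lit 28685, nat_lit 26741, nat_lit 27713, nat_lit 27065, nat_lit 27245, nat_lit 27221, nat_lit 27229, nat_lit 46909] (nat_lit 0) [] false,
   Spec.mk (nat_lit 27229) (nat_lit 1) [nat_lit 14107, nat_lit 40351, nat_lit 22855, nat_lit 28687, nat_lit 26743, nat_lit 27715, nat_lit 27067, nat_lit 27247, nat_lit 27223, nat_lit 27235, nat_lit 27227, nat_lit 27231, nat_lit 46911, nat_lit 7547] (nat_lit 0) [] false,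
   Spec.mk (nat_lit 27231) (nat_lit 0) [nat_lit 14109, nat_lit 40353, nat_lit 22857, nat_lit 28689, nat_lit 26745, nat_lit 27717, nat_lit 27069, nat_lit 27249, nat_lit 27237, nat_lit 27229, nat_lit 7549] (nat_lit 0) [] false,
   Spec.mk (nat_lit 27235) (nat_lit 0) [nat_lit 14113, nat_lit 40357, nat_lit 22861, nat_lit 28693, nat_lit 26749, nat_lit 27721, nat_lit 27073, nat_lit 27253, nat_lit 27229, nat_lit 27237, nat_lit 46917, nat_lit 7553] (nat_lit 1) [] false,
   Spec.mk (nat_lit 27237) (nat_lit 0) [nat_lit 14115, nat_lit 40359, nat_lit 22863, nat_lit 28695, nat_lit 26751, nat_lit 27723, nat_lit 27075, nat_lit 27255, nat_lit 27231, nat_lit 27235, nat_lit 7555] (nat_lit 0) [] false,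
   Spec.mk (nat_lit 27245) (nat_lit 0) [nat_lit 14123, nat_lit 40367, nat_lit 22871, nat_lit 28703, nat_lit 26759, nat_lit 27731, nat_lit 27083, nat_lit 27299, nat_lit 27227, nat_lit 27247, nat_lit 46927] (nat_lit 0) [] false,
   Spec.mk (nat_lit 27247) (nat_lit 0) [nat_lit 14125, nat_lit 40369, nat_lit 22873, nat_lit 28705, nat_lit 26761, nat_lit 27733, nat_lit 27085, nat_lit 27301, nat_lit 27229, nat_lit 27253, nat_lit 27245, nat_lit 27249, nat_lit 46929, nat_lit 7565] (nat_lit 0) [] false,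
   Spec.mk (nat_lit 27249) (nat_lit 0) [nat_lit 14127, nat_lit 40371, nat_lit 22875, nat_lit 28707, nat_lit 26763, nat_lit 27735, nat_lit 27087, nat_lit 27303, nat_lit 27231, nat_lit 27255, nat_lit 27247, nat_lit 7567] (nat_lit 2) [] false,
   Spec.mk (nat_lit 27253) (nat_lit 0) [nat_lit 14131, nat_lit 40375, nat_lit 22879, nat_lit 28711, nat_lit 26767, nat_lit 27739, nat_lit 27091, nat_lit 27307, nat_lit 27235, nat_lit 27271, nat_lit 27247, nat_lit 27255, nat_lit 46935, nat_lit 7571] (nat_lit 0) [] false,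
   Spec.mk (nat_lit 27255) (nat_lit 0) [nat_lit 14133, nat_lit 40377, nat_lit 22881, nat_lit 28713, nat_lit 26769, nat_lit 27741, nat_lit 27093, nat_lit 27309, nat_lit 27237, nat_lit 27273, nat_lit 27249, nat_lit 27261, nat_lit 27253, nat_lit 7573] (nat_lit 0) [] false,
   Spec.mk (nat_lit 27261) (nat_lit 0) [nat_lit 14139, nat_lit 40383, nat_lit 22887, nat_lit 28719, nat_lit 26775, nat_lit 27747, nat_lit 27099, nat_lit 27315, nat_lit 27279, nat_lit 27255, nat_lit 7579] (nat_lit 0) [] false,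
   Spec.mk (nat_lit 27271) (nat_lit 0) [nat_lit 14149, nat_lit 40393, nat_lit 22897, nat_lit 28729, nat_lit 26785, nat_lit 27757, nat_lit 27109, nat_lit 27325, nat_lit 27253, nat_lit 27273, nat_lit 46953, nat_lit 7589] (nat_lit 1) [] false,
   Spec.mk (nat_lit 27273) (nat_lit 0) [nat_lit 14151, nat_lit 40395, nat_lit 22899, nat_lit 28731, nat_lit 26787, nat_lit 27759, nat_lit 27111, nat_lit 27327, nat_lit 27255, nat_lit 27279, nat_lit 27271, nat_lit 7591] (nat_lit 2) [] false,
   Spec.mk (nat_lit 27279) (nat_lit 0) [nat_lit 14157, nat_lit 40401, nat_lit 22905, nat_lit 28737, nat_lit 26793, nat_lit 27765, nat_lit 27117, nat_lit 27333, nat_lit 27261, nat_lit 27273, nat_lit 7597] (nat_lit 0) [] false,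
   Spec.mk (nat_lit 27299) (nat_lit 1) [nat_lit 14177, nat_lit 40421, nat_lit 22925, nat_lit 28757, nat_lit 26813, nat_lit 27785, nat_lit 27137, nat_lit 27461, nat_lit 27245, nat_lit 27301, nat_lit 46981] (nat_lit 0) [] false,
   Spec.mk (nat_lit 27301) (nat_lit 1) [nat_lit 14179, nat_lit 40423, nat_lit 22927, nat_lit 28759, nat_lit 26815, nat_lit 27787, nat_lit 27139, nat_lit 27463, nat_lit 27247, nat_lit 27307, nat_lit 27299, nat_lit 27303, nat_lit 46983, nat_lit 7619] (nat_lit 0) [] false,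
   Spec.mk (nat_lit 27303) (nat_lit 0) [nat_lit 14181, nat_lit 40425, nat_lit 22929, nat_lit 28761, nat_lit 26817, nat_lit 27789, nat_lit 27141, nat_lit 27465, nat_lit 27249, nat_lit 27309, nat_lit 27301, nat_lit 7621] (nat_lit 1) [] false,
   Spec.mk (nat_lit 27307) (nat_lit 0) [nat_lit 14185, nat_lit 40429, nat_lit 22933, nat_lit 28765, nat_lit 26821, nat_lit 27793, nat_lit 27145, nat_lit 27469, nat_lit 27253, nat_lit 27325, nat_lit 27301, nat_lit 27309, nat_lit 46989, nat_lit 7625] (nat_lit 0) [] false,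
   Spec.mk (nat_lit 27309) (nat_lit 0) [nat_lit 14187, nat_lit 40431, nat_lit 22935, nat_lit 28767, nat_lit 26823, nat_lit 27795, nat_lit 27147, nat_lit 27471, nat_lit 27255, nat_lit 27327, nat_lit 27303, nat_lit 27315, nat_lit 27307, nat_lit 7627] (nat_lit 0) [] false,
   Spec.mk (nat_lit 27315) (nat_lit 0) [nat_lit 14193, nat_lit 40437, nat_lit 22941, nat_lit 28773, nat_lit 26829, nat_lit 27801, nat_lit 27153, nat_lit 27477, nat_lit 27261, nat_lit 27333, nat_lit 27309, nat_lit 7633] (nat_lit 1) [] false,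
   Spec.mk (nat_lit 27325) (nat_lit 1) [nat_lit 14203, nat_lit 40447, nat_lit 22951, nat_lit 28783, nat_lit 26839, nat_lit 27811, nat_lit 27163, nat_lit 27487, nat_lit 27271, nat_lit 27379, nat_lit 27307, nat_lit 27327, nat_lit 47007, nat_lit 7643] (nat_lit 0) [] false,
   Spec.mk (nat_lit 27327) (nat_lit 0) [nat_lit 14205, nat_lit 40449, nat_lit 22953, nat_lit 28785, nat_lit 26841, nat_lit 27813, nat_lit 27165, nat_lit 27489, nat_lit 27273, nat_lit 27381, nat_lit 27309, nat_lit 27333, nat_lit 27325, nat_lit 7645] (nat_lit 0) [] false,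
   Spec.mk (nat_lit 27333) (nat_lit 1) [nat_lit 14211, nat_lit 40455, nat_lit 22959, nat_lit 28791, nat_lit 26847, nat_lit 27819, nat_lit 27171, nat_lit 27495, nat_lit 27279, nat_lit 27387, nat_lit 27315, nat_lit 27351, nat_lit 27327, nat_lit 7651] (nat_lit 0) [] false,
   Spec.mk (nat_lit 27351) (nat_lit 1) [nat_lit 14229, nat_lit 40473, nat_lit 22977, nat_lit 28809, nat_lit 26865, nat_lit 27837, nat_lit 27189, nat_lit 27513, nat_lit 27405, nat_lit 27333, nat_lit 7669] (nat_lit 0) [] false,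
   Spec.mk (nat_lit 27379) (nat_lit 1) [nat_lit 14257, nat_lit 40501, nat_lit 23005, nat_lit 28837, nat_lit 26893, nat_lit 27865, nat_lit 27541, nat_lit 27325, nat_lit 27381, nat_lit 47061, nat_lit 7697] (nat_lit 0) [] false,
   Spec.mk (nat_lit 27381) (nat_lit 0) [nat_lit 14259, nat_lit 40503, nat_lit 23007, nat_lit 28839, nat_lit 26895, nat_lit 27867, nat_lit 27543, nat_lit 27327, nat_lit 27387, nat_lit 27379, nat_lit 7699] (nat_lit 0) [] false,
   Spec.mk (nat_lit 27387) (nat_lit 0) [nat_lit 14265, nat_lit 40509, nat_lit 23013, nat_lit 28845, nat_lit 26901, nat_lit 27873, nat_lit 27549, nat_lit 27333, nat_lit 27405, nat_lit 27381, nat_lit 7705] (nat_lit 0) [] false,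
   Spec.mk (nat_lit 27405) (nat_lit 2) [nat_lit 14283, nat_lit 40527, nat_lit 23031, nat_lit 28863, nat_lit 26919, nat_lit 27891, nat_lit 27567, nat_lit 27351, nat_lit 27387, nat_lit 7723] (nat_lit 0) [] false,
   Spec.mk (nat_lit 27461) (nat_lit 1) [nat_lit 14339, nat_lit 40583, nat_lit 23087, nat_lit 28919, nat_lit 27947, nat_lit 27299, nat_lit 27463, nat_lit 47143] (nat_lit 0) [] false,
   Spec.mk (nat_lit 27463) (nat_lit 1) [nat_lit 14341, nat_lit 40585, nat_lit 23089, nat_lit 28921, nat_lit 27949, nat_lit 27301, nat_lit 27469, nat_lit 27461, nat_lit 27465, nat_lit 47145, nat_lit 7781] (nat_lit 0) [] false,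
   Spec.mk (nat_lit 27465) (nat_lit 0) [nat_lit 14343, nat_lit 40587, nat_lit 23091, nat_lit 28923, nat_lit 27951, nat_lit 27303, nat_lit 27471, nat_lit 27463, nat_lit 7783] (nat_lit 1) [] false,
   Spec.mk (nat_lit 27469) (nat_lit 0) [nat_lit 14347, nat_lit 40591, nat_lit 23095, nat_lit 28927, nat_lit 27955, nat_lit 27307, nat_lit 27487, nat_lit 27463, nat_lit 27471, nat_lit 47151, nat_lit 7787] (nat_lit 0) [] false,
   Spec.mk (nat_lit 27471) (nat_lit 0) [nat_lit 14349, nat_lit 40593, nat_lit 23097, nat_lit 28929, nat_lit 27957, nat_lit 27309, nat_lit 27489, nat_lit 27465, nat_lit 27477, nat_lit 27469, nat_lit 7789] (nat_lit 0) [] false,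
   Spec.mk (nat_lit 27477) (nat_lit 0) [nat_lit 14355, nat_lit 40599, nat_lit 23103, nat_lit 28935, nat_lit 27963, nat_lit 27315, nat_lit 27495, nat_lit 27471, nat_lit 7795] (nat_lit 1) [] false,
   Spec.mk (nat_lit 27487) (nat_lit 0) [nat_lit 14365, nat_lit 40609, nat_lit 23113, nat_lit 28945, nat_lit 27973, nat_lit 27325, nat_lit 27541, nat_lit 27469, nat_lit 27489, nat_lit 47169, nat_lit 7805] (nat_lit 0) [] false,
   Spec.mk (nat_lit 27489) (nat_lit 0) [nat_lit 14367, nat_lit 40611, nat_lit 23115, nat_lit 28947, nat_lit 27975, nat_lit 27327, nat_lit 27543, nat_lit 27471, nat_lit 27495, nat_lit 27487, nat_lit 7807] (nat_lit 1) [] false,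
   Spec.mk (nat_lit 27495) (nat_lit 0) [nat_lit 14373, nat_lit 40617, nat_lit 23121, nat_lit 28953, nat_lit 27981, nat_lit 27333, nat_lit 27549, nat_lit 27477, nat_lit 27513, nat_lit 27489, nat_lit 7813] (nat_lit 0) [] false,
   Spec.mk (nat_lit 27513) (nat_lit 0) [nat_lit 14391, nat_lit 40635, nat_lit 23139, nat_lit 28971, nat_lit 27999, nat_lit 27351, nat_lit 27567, nat_lit 27495, nat_lit 7831] (nat_lit 1) [] false,
   Spec.mk (nat_lit 27541) (nat_lit 2) [nat_lit 14419, nat_lit 40663, nat_lit 23167, nat_lit 28999, nat_lit 28027, nat_lit 27379, nat_lit 27487, nat_lit 27543, nat_lit 47223, nat_lit 7859] (nat_lit 0) [] false]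

noncomputable def sp55 : List Spec :=
  [Spec.mk (nat_lit 27543) (nat_lit 1) [nat_lit 14421, nat_lit 40665, nat_lit 23169, nat_lit 29001, nat_lit 28029, nat_lit 27381, nat_lit 27489, nat_lit 27549, nat_lit 27541, nat_lit 7861] (nat_lit 0) [] false,
   Spec.mk (nat_lit 27549) (nat_lit 1) [nat_lit 14427, nat_lit 40671, nat_lit 23175, nat_lit 29007, nat_lit 28035, nat_lit 27387, nat_lit 27495, nat_lit 27567, nat_lit 27543, nat_lit 7867] (nat_lit 0) [] false,
   Spec.mk (nat_lit 27567) (nat_lit 2) [nat_lit 14445, nat_lit 40689, nat_lit 23193, nat_lit 29025, nat_lit 28053, nat_lit 27405, nat_lit 27513, nat_lit 27621, nat_lit 27549, nat_lit 7885] (nat_lit 0) [] false,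
   Spec.mk (nat_lit 27621) (nat_lit 3) [nat_lit 14499, nat_lit 40743, nat_lit 23247, nat_lit 29079, nat_lit 28107, nat_lit 27567, nat_lit 7939] (nat_lit 0) [] false,
   Spec.mk (nat_lit 27707) (nat_lit 1) [nat_lit 14585, nat_lit 40829, nat_lit 23333, nat_lit 29165, nat_lit 27221, nat_lit 27713, nat_lit 27709, nat_lit 47389] (nat_lit 0) [] false,
   Spec.mk (nat_lit 27709) (nat_lit 0) [nat_lit 14587, nat_lit 40831, nat_lit 23335, nat_lit 29167, nat_lit 27223, nat_lit 27715, nat_lit 27707, nat_lit 47391, nat_lit 8027] (nat_lit 0) [] false,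
   Spec.mk (nat_lit 27713) (nat_lit 0) [nat_lit 14591, nat_lit 40835, nat_lit 23339, nat_lit 29171, nat_lit 27227, nat_lit 27731, nat_lit 27707, nat_lit 27715, nat_lit 47395] (nat_lit 1) [] false,
   Spec.mk (nat_lit 27715) (nat_lit 0) [nat_lit 14593, nat_lit 40837, nat_lit 23341, nat_lit 29173, nat_lit 27229, nat_lit 27733, nat_lit 27709, nat_lit 27721, nat_lit 27713, nat_lit 27717, nat_lit 47397, nat_lit 8033] (nat_lit 0) [] false,
   Spec.mk (nat_lit 27717) (nat_lit 0) [nat_lit 14595, nat_lit 40839, nat_lit 23343, nat_lit 29175, nat_lit 27231, nat_lit 27735, nat_lit 27723, nat_lit 27715, nat_lit 8035] (nat_lit 1) [] false,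
   Spec.mk (nat_lit 27721) (nat_lit 0) [nat_lit 14599, nat_lit 40843, nat_lit 23347, nat_lit 29179, nat_lit 27235, nat_lit 27739, nat_lit 27715, nat_lit 27723, nat_lit 47403, nat_lit 8039] (nat_lit 2) [] false,
   Spec.mk (nat_lit 27723) (nat_lit 0) [nat_lit 14601, nat_lit 40845, nat_lit 23349, nat_lit 29181, nat_lit 27237, nat_lit 27741, nat_lit 27717, nat_lit 27721, nat_lit 8041] (nat_lit 1) [] false,
   Spec.mk (nat_lit 27731) (nat_lit 0) [nat_lit 14609, nat_lit 40853, nat_lit 23357, nat_lit 29189, nat_lit 27245, nat_lit 27785, nat_lit 27713, nat_lit 27733, nat_lit 47413] (nat_lit 1) [] false,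
   Spec.mk (nat_lit 27733) (nat_lit 0) [nat_lit 14611, nat_lit 40855, nat_lit 23359, nat_lit 29191, nat_lit 27247, nat_lit 27787, nat_lit 27715, nat_lit 27739, nat_lit 27731, nat_lit 27735, nat_lit 47415, nat_lit 8051] (nat_lit 1) [] false,
   Spec.mk (nat_lit 27735) (nat_lit 0) [nat_lit 14613, nat_lit 40857, nat_lit 23361, nat_lit 29193, nat_lit 27249, nat_lit 27789, nat_lit 27717, nat_lit 27741, nat_lit 27733, nat_lit 8053] (nat_lit 3) [] false,
   Spec.mk (nat_lit 27739) (nat_lit 0) [nat_lit 14617, nat_lit 40861, nat_lit 23365, nat_lit 29197, nat_lit 27253, nat_lit 27793, nat_lit 27721, nat_lit 27757, nat_lit 27733, nat_lit 27741, nat_lit 47421, nat_lit 8057] (nat_lit 1) [] false,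
   Spec.mk (nat_lit 27741) (nat_lit 0) [nat_lit 14619, nat_lit 40863, nat_lit 23367, nat_lit 29199, nat_lit 27255, nat_lit 27795, nat_lit 27723, nat_lit 27759, nat_lit 27735, nat_lit 27747, nat_lit 27739, nat_lit 8059] (nat_lit 1) [] false,
   Spec.mk (nat_lit 27747) (nat_lit 0) [nat_lit 14625, nat_lit 40869, nat_lit 23373, nat_lit 29205, nat_lit 27261, nat_lit 27801, nat_lit 27765, nat_lit 27741, nat_lit 8065] (nat_lit 1) [] false,
   Spec.mk (nat_lit 27757) (nat_lit 0) [nat_lit 14635, nat_lit 40879, nat_lit 23383, nat_lit 29215, nat_lit 27271, nat_lit 27811, nat_lit 27739, nat_lit 27759, nat_lit 47439, nat_lit 8075] (nat_lit 2) [] false,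
   Spec.mk (nat_lit 27759) (nat_lit 0) [nat_lit 14637, nat_lit 40881, nat_lit 23385, nat_lit 29217, nat_lit 27273, nat_lit 27813, nat_lit 27741, nat_lit 27765, nat_lit 27757, nat_lit 8077] (nat_lit 3) [] false,
   Spec.mk (nat_lit 27765) (nat_lit 0) [nat_lit 14643, nat_lit 40887, nat_lit 23391, nat_lit 29223, nat_lit 27279, nat_lit 27819, nat_lit 27747, nat_lit 27759, nat_lit 8083] (nat_lit 1) [] false,
   Spec.mk (nat_lit 27785) (nat_lit 0) [nat_lit 14663, nat_lit 40907, nat_lit 23411, nat_lit 29243, nat_lit 27299, nat_lit 27947, nat_lit 27731, nat_lit 27787, nat_lit 47467] (nat_lit 1) [] false,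
   Spec.mk (nat_lit 27787) (nat_lit 0) [nat_lit 14665, nat_lit 40909, nat_lit 23413, nat_lit 29245, nat_lit 27301, nat_lit 27949, nat_lit 27733, nat_lit 27793, nat_lit 27785, nat_lit 27789, nat_lit 47469, nat_lit 8105] (nat_lit 1) [] false,
   Spec.mk (nat_lit 27789) (nat_lit 0) [nat_lit 14667, nat_lit 40911, nat_lit 23415, nat_lit 29247, nat_lit 27303, nat_lit 27951, nat_lit 27735, nat_lit 27795, nat_lit 27787, nat_lit 8107] (nat_lit 3) [] false,
   Spec.mk (nat_lit 27793) (nat_lit 0) [nat_lit 14671, nat_lit 40915, nat_lit 23419, nat_lit 29251, nat_lit 27307, nat_lit 27955, nat_lit 27739, nat_lit 27811, nat_lit 27787, nat_lit 27795, nat_lit 47475, nat_lit 8111] (nat_lit 2) [] false,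
   Spec.mk (nat_lit 27795) (nat_lit 0) [nat_lit 14673, nat_lit 40917, nat_lit 23421, nat_lit 29253, nat_lit 27309, nat_lit 27957, nat_lit 27741, nat_lit 27813, nat_lit 27789, nat_lit 27801, nat_lit 27793, nat_lit 8113] (nat_lit 2) [] false,
   Spec.mk (nat_lit 27801) (nat_lit 0) [nat_lit 14679, nat_lit 40923, nat_lit 23427, nat_lit 29259, nat_lit 27315, nat_lit 27963, nat_lit 27747, nat_lit 27819, nat_lit 27795, nat_lit 8119] (nat_lit 3) [] false,
   Spec.mk (nat_lit 27811) (nat_lit 0) [nat_lit 14689, nat_lit 40933, nat_lit 23437, nat_lit 29269, nat_lit 27325, nat_lit 27973, nat_lit 27757, nat_lit 27865, nat_lit 27793, nat_lit 27813, nat_lit 47493, nat_lit 8129] (nat_lit 1) [] false,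
   Spec.mk (nat_lit 27813) (nat_lit 0) [nat_lit 14691, nat_lit 40935, nat_lit 23439, nat_lit 29271, nat_lit 27327, nat_lit 27975, nat_lit 27759, nat_lit 27867, nat_lit 27795, nat_lit 27819, nat_lit 27811, nat_lit 8131] (nat_lit 2) [] false,
   Spec.mk (nat_lit 27819) (nat_lit 0) [nat_lit 14697, nat_lit 40941, nat_lit 23445, nat_lit 29277, nat_lit 27333, nat_lit 27981, nat_lit 27765, nat_lit 27873, nat_lit 27801, nat_lit 27837, nat_lit 27813, nat_lit 8137] (nat_lit 1) [] false,
   Spec.mk (nat_lit 27837) (nat_lit 0) [nat_lit 14715, nat_lit 40959, nat_lit 23463, nat_lit 29295, nat_lit 27351, nat_lit 27999, nat_lit 27891, nat_lit 27819, nat_lit 8155] (nat_lit 1) [] false,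
   Spec.mk (nat_lit 27865) (nat_lit 0) [nat_lit 14743, nat_lit 40987, nat_lit 23491, nat_lit 29323, nat_lit 27379, nat_lit 28027, nat_lit 27811, nat_lit 27867, nat_lit 47547, nat_lit 8183] (nat_lit 2) [] false,
   Spec.mk (nat_lit 27867) (nat_lit 0) [nat_lit 14745, nat_lit 40989, nat_lit 23493, nat_lit 29325, nat_lit 27381, nat_lit 28029, nat_lit 27813, nat_lit 27873, nat_lit 27865, nat_lit 8185] (nat_lit 3) [] false,
   Spec.mk (nat_lit 27873) (nat_lit 0) [nat_lit 14751, nat_lit 40995, nat_lit 23499, nat_lit 29331, nat_lit 27387, nat_lit 28035, nat_lit 27819, nat_lit 27891, nat_lit 27867, nat_lit 8191] (nat_lit 3) [] false,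
   Spec.mk (nat_lit 27891) (nat_lit 0) [nat_lit 14769, nat_lit 41013, nat_lit 23517, nat_lit 29349, nat_lit 27405, nat_lit 28053, nat_lit 27837, nat_lit 27873, nat_lit 8209] (nat_lit 1) [] false,
   Spec.mk (nat_lit 27947) (nat_lit 1) [nat_lit 14825, nat_lit 41069, nat_lit 23573, nat_lit 29405, nat_lit 27461, nat_lit 27785, nat_lit 27949, nat_lit 47629] (nat_lit 0) [] false,
   Spec.mk (nat_lit 27949) (nat_lit 1) [nat_lit 14827, nat_lit 41071, nat_lit 23575, nat_lit 29407, nat_lit 27463, nat_lit 27787, nat_lit 27955, nat_lit 27947, nat_lit 27951, nat_lit 47631, nat_lit 8267] (nat_lit 0) [] false,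
   Spec.mk (nat_lit 27951) (nat_lit 0) [nat_lit 14829, nat_lit 41073, nat_lit 23577, nat_lit 29409, nat_lit 27465, nat_lit 27789, nat_lit 27957, nat_lit 27949, nat_lit 8269] (nat_lit 1) [] false,
   Spec.mk (nat_lit 27955) (nat_lit 0) [nat_lit 14833, nat_lit 41077, nat_lit 23581, nat_lit 29413, nat_lit 27469, nat_lit 27793, nat_lit 27973, nat_lit 27949, nat_lit 27957, nat_lit 47637, nat_lit 8273] (nat_lit 0) [] false,
   Spec.mk (nat_lit 27957) (nat_lit 0) [nat_lit 14835, nat_lit 41079, nat_lit 23583, nat_lit 29415, nat_lit 27471, nat_lit 27795, nat_lit 27975, nat_lit 27951, nat_lit 27963, nat_lit 27955, nat_lit 8275] (nat_lit 0) [] false,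
   Spec.mk (nat_lit 27963) (nat_lit 0) [nat_lit 14841, nat_lit 41085, nat_lit 23589, nat_lit 29421, nat_lit 27477, nat_lit 27801, nat_lit 27981, nat_lit 27957, nat_lit 8281] (nat_lit 1) [] false,
   Spec.mk (nat_lit 27973) (nat_lit 0) [nat_lit 14851, nat_lit 41095, nat_lit 23599, nat_lit 29431, nat_lit 27487, nat_lit 27811, nat_lit 28027, nat_lit 27955, nat_lit 27975, nat_lit 47655, nat_lit 8291] (nat_lit 0) [] false,
   Spec.mk (nat_lit 27975) (nat_lit 0) [nat_lit 14853, nat_lit 41097, nat_lit 23601, nat_lit 29433, nat_lit 27489, nat_lit 27813, nat_lit 28029, nat_lit 27957, nat_lit 27981, nat_lit 27973, nat_lit 8293] (nat_lit 1) [] false,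
   Spec.mk (nat_lit 27981) (nat_lit 0) [nat_lit 14859, nat_lit 41103, nat_lit 23607, nat_lit 29439, nat_lit 27495, nat_lit 27819, nat_lit 28035, nat_lit 27963, nat_lit 27999, nat_lit 27975, nat_lit 8299] (nat_lit 0) [] false,
   Spec.mk (nat_lit 27999) (nat_lit 0) [nat_lit 14877, nat_lit 41121, nat_lit 23625, nat_lit 29457, nat_lit 27513, nat_lit 27837, nat_lit 28053, nat_lit 27981, nat_lit 8317] (nat_lit 1) [] false,
   Spec.mk (nat_lit 28027) (nat_lit 1) [nat_lit 14905, nat_lit 41149, nat_lit 23653, nat_lit 29485, nat_lit 27541, nat_lit 27865, nat_lit 28189, nat_lit 27973, nat_lit 28029, nat_lit 47709, nat_lit 8345] (nat_lit 0) [] false,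
   Spec.mk (nat_lit 28029) (nat_lit 0) [nat_lit 14907, nat_lit 41151, nat_lit 23655, nat_lit 29487, nat_lit 27543, nat_lit 27867, nat_lit 28191, nat_lit 27975, nat_lit 28035, nat_lit 28027, nat_lit 8347] (nat_lit 0) [] false,
   Spec.mk (nat_lit 28035) (nat_lit 0) [nat_lit 14913, nat_lit 41157, nat_lit 23661, nat_lit 29493, nat_lit 27549, nat_lit 27873, nat_lit 28197, nat_lit 27981, nat_lit 28053, nat_lit 28029, nat_lit 8353] (nat_lit 0) [] false,
   Spec.mk (nat_lit 28053) (nat_lit 1) [nat_lit 14931, nat_lit 41175, nat_lit 23679, nat_lit 29511, nat_lit 27567, nat_lit 27891, nat_lit 28215, nat_lit 27999, nat_lit 28107, nat_lit 28035, nat_lit 8371] (nat_lit 0) [] false,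
   Spec.mk (nat_lit 28107) (nat_lit 1) [nat_lit 14985, nat_lit 41229, nat_lit 23733, nat_lit 29565, nat_lit 27621, nat_lit 28269, nat_lit 28053, nat_lit 8425] (nat_lit 0) [] false,
   Spec.mk (nat_lit 28189) (nat_lit 2) [nat_lit 15067, nat_lit 41311, nat_lit 23815, nat_lit 29647, nat_lit 28027, nat_lit 28191, nat_lit 47871, nat_lit 8507] (nat_lit 0) [] false,
   Spec.mk (nat_lit 28191) (nat_lit 1) [nat_lit 15069, nat_lit 41313, nat_lit 23817, nat_lit 29649, nat_lit 28029, nat_lit 28197, nat_lit 28189, nat_lit 8509] (nat_lit 0) [] false,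
   Spec.mk (nat_lit 28197) (nat_lit 1) [nat_lit 15075, nat_lit 41319, nat_lit 23823, nat_lit 29655, nat_lit 28035, nat_lit 28215, nat_lit 28191, nat_lit 8515] (nat_lit 0) [] false,
   Spec.mk (nat_lit 28215) (nat_lit 1) [nat_lit 15093, nat_lit 41337, nat_lit 23841, nat_lit 29673, nat_lit 28053, nat_lit 28269, nat_lit 28197, nat_lit 8533] (nat_lit 0) [] false,
   Spec.mk (nat_lit 28269) (nat_lit 3) [nat_lit 15147, nat_lit 41391, nat_lit 23895, nat_lit 29727, nat_lit 28107, nat_lit 28215, nat_lit 8587] (nat_lit 0) [] false,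
   Spec.mk (nat_lit 28439) (nat_lit 4) [nat_lit 15317, nat_lit 41561, nat_lit 24065, nat_lit 32813, nat_lit 26981, nat_lit 28445, nat_lit 48121] (nat_lit 0) [] false,
   Spec.mk (nat_lit 28445) (nat_lit 3) [nat_lit 15323, nat_lit 41567, nat_lit 24071, nat_lit 32819, nat_lit 26987, nat_lit 28463, nat_lit 28439, nat_lit 28451, nat_lit 28447, nat_lit 48127] (nat_lit 0) [] false,
   Spec.mk (nat_lit 28447) (nat_lit 3) [nat_lit 15325, nat_lit 41569, nat_lit 24073, nat_lit 32821, nat_lit 26989, nat_lit 28465, nat_lit 28453, nat_lit 28445, nat_lit 48129, nat_lit 8765] (nat_lit 0) [] false,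
   Spec.mk (nat_lit 28451) (nat_lit 0) [nat_lit 15329, nat_lit 41573, nat_lit 24077, nat_lit 32825, nat_lit 26993, nat_lit 28469, nat_lit 28445, nat_lit 28453, nat_lit 48133] (nat_lit 0) [] false,
   Spec.mk (nat_lit 28453) (nat_lit 2) [nat_lit 15331, nat_lit 41575, nat_lit 24079, nat_lit 32827, nat_lit 26995, nat_lit 28471, nat_lit 28447, nat_lit 28451, nat_lit 28455, nat_lit 48135, nat_lit 8771] (nat_lit 0) [] false,
   Spec.mk (nat_lit 28455) (nat_lit 2) [nat_lit 15333, nat_lit 41577, nat_lit 24081, nat_lit 32829, nat_lit 26997, nat_lit 28473, nat_lit 28453, nat_lit 8773] (nat_lit 0) [] false]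

noncomputable def sp56 : List Spec :=
  [Spec.mk (nat_lit 28463) (nat_lit 2) [nat_lit 15341, nat_lit 41585, nat_lit 24089, nat_lit 32837, nat_lit 27005, nat_lit 28517, nat_lit 28445, nat_lit 28469, nat_lit 28465, nat_lit 48145] (nat_lit 0) [] false,
   Spec.mk (nat_lit 28465) (nat_lit 1) [nat_lit 15343, nat_lit 41587, nat_lit 24091, nat_lit 32839, nat_lit 27007, nat_lit 28519, nat_lit 28447, nat_lit 28471, nat_lit 28463, nat_lit 48147, nat_lit 8783] (nat_lit 0) [] false,
   Spec.mk (nat_lit 28469) (nat_lit 1) [nat_lit 15347, nat_lit 41591, nat_lit 24095, nat_lit 32843, nat_lit 27011, nat_lit 28523, nat_lit 28451, nat_lit 28487, nat_lit 28463, nat_lit 28471, nat_lit 48151] (nat_lit 0) [] false,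
   Spec.mk (nat_lit 28471) (nat_lit 2) [nat_lit 15349, nat_lit 41593, nat_lit 24097, nat_lit 32845, nat_lit 27013, nat_lit 28525, nat_lit 28453, nat_lit 28489, nat_lit 28465, nat_lit 28477, nat_lit 28469, nat_lit 28473, nat_lit 48153, nat_lit 8789] (nat_lit 0) [] false,
   Spec.mk (nat_lit 28473) (nat_lit 1) [nat_lit 15351, nat_lit 41595, nat_lit 24099, nat_lit 32847, nat_lit 27015, nat_lit 28527, nat_lit 28455, nat_lit 28491, nat_lit 28479, nat_lit 28471, nat_lit 8791] (nat_lit 0) [] false,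
   Spec.mk (nat_lit 28477) (nat_lit 1) [nat_lit 15355, nat_lit 41599, nat_lit 24103, nat_lit 32851, nat_lit 27019, nat_lit 28531, nat_lit 28495, nat_lit 28471, nat_lit 28479, nat_lit 48159, nat_lit 8795] (nat_lit 0) [] false,
   Spec.mk (nat_lit 28479) (nat_lit 2) [nat_lit 15357, nat_lit 41601, nat_lit 24105, nat_lit 32853, nat_lit 27021, nat_lit 28533, nat_lit 28497, nat_lit 28473, nat_lit 28477, nat_lit 8797] (nat_lit 0) [] false,
   Spec.mk (nat_lit 28487) (nat_lit 0) [nat_lit 15365, nat_lit 41609, nat_lit 24113, nat_lit 32861, nat_lit 27029, nat_lit 28541, nat_lit 28469, nat_lit 28489, nat_lit 48169] (nat_lit 0) [] false,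
   Spec.mk (nat_lit 28489) (nat_lit 0) [nat_lit 15367, nat_lit 41611, nat_lit 24115, nat_lit 32863, nat_lit 27031, nat_lit 28543, nat_lit 28471, nat_lit 28495, nat_lit 28487, nat_lit 28491, nat_lit 48171, nat_lit 8807] (nat_lit 0) [] false,
   Spec.mk (nat_lit 28491) (nat_lit 0) [nat_lit 15369, nat_lit 41613, nat_lit 24117, nat_lit 32865, nat_lit 27033, nat_lit 28545, nat_lit 28473, nat_lit 28497, nat_lit 28489, nat_lit 8809] (nat_lit 2) [] false,
   Spec.mk (nat_lit 28495) (nat_lit 1) [nat_lit 15373, nat_lit 41617, nat_lit 24121, nat_lit 32869, nat_lit 27037, nat_lit 28549, nat_lit 28477, nat_lit 28489, nat_lit 28497, nat_lit 48177, nat_lit 8813] (nat_lit 0) [] false,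
   Spec.mk (nat_lit 28497) (nat_lit 1) [nat_lit 15375, nat_lit 41619, nat_lit 24123, nat_lit 32871, nat_lit 27039, nat_lit 28551, nat_lit 28479, nat_lit 28491, nat_lit 28503, nat_lit 28495, nat_lit 8815] (nat_lit 0) [] false,
   Spec.mk (nat_lit 28503) (nat_lit 2) [nat_lit 15381, nat_lit 41625, nat_lit 24129, nat_lit 32877, nat_lit 27045, nat_lit 28557, nat_lit 28497, nat_lit 8821] (nat_lit 0) [] false,
   Spec.mk (nat_lit 28517) (nat_lit 2) [nat_lit 15395, nat_lit 41639, nat_lit 24143, nat_lit 32891, nat_lit 27059, nat_lit 28679, nat_lit 28463, nat_lit 28523, nat_lit 28519, nat_lit 48199] (nat_lit 0) [] false,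
   Spec.mk (nat_lit 28519) (nat_lit 1) [nat_lit 15397, nat_lit 41641, nat_lit 24145, nat_lit 32893, nat_lit 27061, nat_lit 28681, nat_lit 28465, nat_lit 28525, nat_lit 28517, nat_lit 48201, nat_lit 8837] (nat_lit 0) [] false,
   Spec.mk (nat_lit 28523) (nat_lit 0) [nat_lit 15401, nat_lit 41645, nat_lit 24149, nat_lit 32897, nat_lit 27065, nat_lit 28685, nat_lit 28469, nat_lit 28541, nat_lit 28517, nat_lit 28525, nat_lit 48205] (nat_lit 0) [] false,
   Spec.mk (nat_lit 28525) (nat_lit 1) [nat_lit 15403, nat_lit 41647, nat_lit 24151, nat_lit 32899, nat_lit 27067, nat_lit 28687, nat_lit 28471, nat_lit 28543, nat_lit 28519, nat_lit 28531, nat_lit 28523, nat_lit 28527, nat_lit 48207, nat_lit 8843] (nat_lit 0) [] false,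
   Spec.mk (nat_lit 28527) (nat_lit 0) [nat_lit 15405, nat_lit 41649, nat_lit 24153, nat_lit 32901, nat_lit 27069, nat_lit 28689, nat_lit 28473, nat_lit 28545, nat_lit 28533, nat_lit 28525, nat_lit 8845] (nat_lit 0) [] false,
   Spec.mk (nat_lit 28531) (nat_lit 0) [nat_lit 15409, nat_lit 41653, nat_lit 24157, nat_lit 32905, nat_lit 27073, nat_lit 28693, nat_lit 28477, nat_lit 28549, nat_lit 28525, nat_lit 28533, nat_lit 48213, nat_lit 8849] (nat_lit 1) [] false,
   Spec.mk (nat_lit 28533) (nat_lit 0) [nat_lit 15411, nat_lit 41655, nat_lit 24159, nat_lit 32907, nat_lit 27075, nat_lit 28695, nat_lit 28479, nat_lit 28551, nat_lit 28527, nat_lit 28531, nat_lit 8851] (nat_lit 0) [] false,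
   Spec.mk (nat_lit 28541) (nat_lit 1) [nat_lit 15419, nat_lit 41663, nat_lit 24167, nat_lit 32915, nat_lit 27083, nat_lit 28703, nat_lit 28487, nat_lit 28595, nat_lit 28523, nat_lit 28543, nat_lit 48223] (nat_lit 0) [] false,
   Spec.mk (nat_lit 28543) (nat_lit 1) [nat_lit 15421, nat_lit 41665, nat_lit 24169, nat_lit 32917, nat_lit 27085, nat_lit 28705, nat_lit 28489, nat_lit 28597, nat_lit 28525, nat_lit 28549, nat_lit 28541, nat_lit 28545, nat_lit 48225, nat_lit 8861] (nat_lit 0) [] false,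
   Spec.mk (nat_lit 28545) (nat_lit 0) [nat_lit 15423, nat_lit 41667, nat_lit 24171, nat_lit 32919, nat_lit 27087, nat_lit 28707, nat_lit 28491, nat_lit 28599, nat_lit 28527, nat_lit 28551, nat_lit 28543, nat_lit 8863] (nat_lit 1) [] false,
   Spec.mk (nat_lit 28549) (nat_lit 1) [nat_lit 15427, nat_lit 41671, nat_lit 24175, nat_lit 32923, nat_lit 27091, nat_lit 28711, nat_lit 28495, nat_lit 28603, nat_lit 28531, nat_lit 28567, nat_lit 28543, nat_lit 28551, nat_lit 48231, nat_lit 8867] (nat_lit 0) [] false,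
   Spec.mk (nat_lit 28551) (nat_lit 1) [nat_lit 15429, nat_lit 41673, nat_lit 24177, nat_lit 32925, nat_lit 27093, nat_lit 28713, nat_lit 28497, nat_lit 28605, nat_lit 28533, nat_lit 28569, nat_lit 28545, nat_lit 28557, nat_lit 28549, nat_lit 8869] (nat_lit 0) [] false,
   Spec.mk (nat_lit 28557) (nat_lit 1) [nat_lit 15435, nat_lit 41679, nat_lit 24183, nat_lit 32931, nat_lit 27099, nat_lit 28719, nat_lit 28503, nat_lit 28611, nat_lit 28575, nat_lit 28551, nat_lit 8875] (nat_lit 0) [] false,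
   Spec.mk (nat_lit 28567) (nat_lit 1) [nat_lit 15445, nat_lit 41689, nat_lit 24193, nat_lit 32941, nat_lit 27109, nat_lit 28729, nat_lit 28621, nat_lit 28549, nat_lit 28569, nat_lit 48249, nat_lit 8885] (nat_lit 0) [] false,
   Spec.mk (nat_lit 28569) (nat_lit 0) [nat_lit 15447, nat_lit 41691, nat_lit 24195, nat_lit 32943, nat_lit 27111, nat_lit 28731, nat_lit 28623, nat_lit 28551, nat_lit 28575, nat_lit 28567, nat_lit 8887] (nat_lit 0) [] false,
   Spec.mk (nat_lit 28575) (nat_lit 2) [nat_lit 15453, nat_lit 41697, nat_lit 24201, nat_lit 32949, nat_lit 27117, nat_lit 28737, nat_lit 28629, nat_lit 28557, nat_lit 28569, nat_lit 8893] (nat_lit 0) [] false,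
   Spec.mk (nat_lit 28595) (nat_lit 0) [nat_lit 15473, nat_lit 41717, nat_lit 24221, nat_lit 32969, nat_lit 27137, nat_lit 28757, nat_lit 28541, nat_lit 28597, nat_lit 48277] (nat_lit 0) [] false,
   Spec.mk (nat_lit 28597) (nat_lit 0) [nat_lit 15475, nat_lit 41719, nat_lit 24223, nat_lit 32971, nat_lit 27139, nat_lit 28759, nat_lit 28543, nat_lit 28603, nat_lit 28595, nat_lit 28599, nat_lit 48279, nat_lit 8915] (nat_lit 0) [] false,
   Spec.mk (nat_lit 28599) (nat_lit 0) [nat_lit 15477, nat_lit 41721, nat_lit 24225, nat_lit 32973, nat_lit 27141, nat_lit 28761, nat_lit 28545, nat_lit 28605, nat_lit 28597, nat_lit 8917] (nat_lit 2) [] false,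
   Spec.mk (nat_lit 28603) (nat_lit 0) [nat_lit 15481, nat_lit 41725, nat_lit 24229, nat_lit 32977, nat_lit 27145, nat_lit 28765, nat_lit 28549, nat_lit 28621, nat_lit 28597, nat_lit 28605, nat_lit 48285, nat_lit 8921] (nat_lit 1) [] false,
   Spec.mk (nat_lit 28605) (nat_lit 0) [nat_lit 15483, nat_lit 41727, nat_lit 24231, nat_lit 32979, nat_lit 27147, nat_lit 28767, nat_lit 28551, nat_lit 28623, nat_lit 28599, nat_lit 28611, nat_lit 28603, nat_lit 8923] (nat_lit 1) [] false,
   Spec.mk (nat_lit 28611) (nat_lit 0) [nat_lit 15489, nat_lit 41733, nat_lit 24237, nat_lit 32985, nat_lit 27153, nat_lit 28773, nat_lit 28557, nat_lit 28629, nat_lit 28605, nat_lit 8929] (nat_lit 2) [] false,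
   Spec.mk (nat_lit 28621) (nat_lit 1) [nat_lit 15499, nat_lit 41743, nat_lit 24247, nat_lit 32995, nat_lit 27163, nat_lit 28783, nat_lit 28567, nat_lit 28603, nat_lit 28623, nat_lit 48303, nat_lit 8939] (nat_lit 0) [] false,
   Spec.mk (nat_lit 28623) (nat_lit 0) [nat_lit 15501, nat_lit 41745, nat_lit 24249, nat_lit 32997, nat_lit 27165, nat_lit 28785, nat_lit 28569, nat_lit 28605, nat_lit 28629, nat_lit 28621, nat_lit 8941] (nat_lit 0) [] false,
   Spec.mk (nat_lit 28629) (nat_lit 1) [nat_lit 15507, nat_lit 41751, nat_lit 24255, nat_lit 33003, nat_lit 27171, nat_lit 28791, nat_lit 28575, nat_lit 28611, nat_lit 28647, nat_lit 28623, nat_lit 8947] (nat_lit 0) [] false,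
   Spec.mk (nat_lit 28647) (nat_lit 2) [nat_lit 15525, nat_lit 41769, nat_lit 24273, nat_lit 33021, nat_lit 27189, nat_lit 28809, nat_lit 28629, nat_lit 8965] (nat_lit 0) [] false,
   Spec.mk (nat_lit 28679) (nat_lit 2) [nat_lit 15557, nat_lit 41801, nat_lit 24305, nat_lit 33053, nat_lit 27221, nat_lit 29165, nat_lit 28517, nat_lit 28685, nat_lit 28681, nat_lit 48361] (nat_lit 0) [] false,
   Spec.mk (nat_lit 28681) (nat_lit 1) [nat_lit 15559, nat_lit 41803, nat_lit 24307, nat_lit 33055, nat_lit 27223, nat_lit 29167, nat_lit 28519, nat_lit 28687, nat_lit 28679, nat_lit 48363, nat_lit 8999] (nat_lit 0) [] false,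
   Spec.mk (nat_lit 28685) (nat_lit 0) [nat_lit 15563, nat_lit 41807, nat_lit 24311, nat_lit 33059, nat_lit 27227, nat_lit 29171, nat_lit 28523, nat_lit 28703, nat_lit 28679, nat_lit 28687, nat_lit 48367] (nat_lit 0) [] false,
   Spec.mk (nat_lit 28687) (nat_lit 1) [nat_lit 15565, nat_lit 41809, nat_lit 24313, nat_lit 33061, nat_lit 27229, nat_lit 29173, nat_lit 28525, nat_lit 28705, nat_lit 28681, nat_lit 28693, nat_lit 28685, nat_lit 28689, nat_lit 48369, nat_lit 9005] (nat_lit 0) [] false,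
   Spec.mk (nat_lit 28689) (nat_lit 0) [nat_lit 15567, nat_lit 41811, nat_lit 24315, nat_lit 33063, nat_lit 27231, nat_lit 29175, nat_lit 28527, nat_lit 28707, nat_lit 28695, nat_lit 28687, nat_lit 9007] (nat_lit 0) [] false,
   Spec.mk (nat_lit 28693) (nat_lit 0) [nat_lit 15571, nat_lit 41815, nat_lit 24319, nat_lit 33067, nat_lit 27235, nat_lit 29179, nat_lit 28531, nat_lit 28711, nat_lit 28687, nat_lit 28695, nat_lit 48375, nat_lit 9011] (nat_lit 1) [] false,
   Spec.mk (nat_lit 28695) (nat_lit 0) [nat_lit 15573, nat_lit 41817, nat_lit 24321, nat_lit 33069, nat_lit 27237, nat_lit 29181, nat_lit 28533, nat_lit 28713, nat_lit 28689, nat_lit 28693, nat_lit 9013] (nat_lit 0) [] false,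
   Spec.mk (nat_lit 28703) (nat_lit 0) [nat_lit 15581, nat_lit 41825, nat_lit 24329, nat_lit 33077, nat_lit 27245, nat_lit 29189, nat_lit 28541, nat_lit 28757, nat_lit 28685, nat_lit 28705, nat_lit 48385] (nat_lit 0) [] false,
   Spec.mk (nat_lit 28705) (nat_lit 0) [nat_lit 15583, nat_lit 41827, nat_lit 24331, nat_lit 33079, nat_lit 27247, nat_lit 29191, nat_lit 28543, nat_lit 28759, nat_lit 28687, nat_lit 28711, nat_lit 28703, nat_lit 28707, nat_lit 48387, nat_lit 9023] (nat_lit 0) [] false,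
   Spec.mk (nat_lit 28707) (nat_lit 0) [nat_lit 15585, nat_lit 41829, nat_lit 24333, nat_lit 33081, nat_lit 27249, nat_lit 29193, nat_lit 28545, nat_lit 28761, nat_lit 28689, nat_lit 28713, nat_lit 28705, nat_lit 9025] (nat_lit 2) [] false,
   Spec.mk (nat_lit 28711) (nat_lit 0) [nat_lit 15589, nat_lit 41833, nat_lit 24337, nat_lit 33085, nat_lit 27253, nat_lit 29197, nat_lit 28549, nat_lit 28765, nat_lit 28693, nat_lit 28729, nat_lit 28705, nat_lit 28713, nat_lit 48393, nat_lit 9029] (nat_lit 0) [] false,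
   Spec.mk (nat_lit 28713) (nat_lit 0) [nat_lit 15591, nat_lit 41835, nat_lit 24339, nat_lit 33087, nat_lit 27255, nat_lit 29199, nat_lit 28551, nat_lit 28767, nat_lit 28695, nat_lit 28731, nat_lit 28707, nat_lit 28719, nat_lit 28711, nat_lit 9031] (nat_lit 0) [] false,
   Spec.mk (nat_lit 28719) (nat_lit 0) [nat_lit 15597, nat_lit 41841, nat_lit 24345, nat_lit 33093, nat_lit 27261, nat_lit 29205, nat_lit 28557, nat_lit 28773, nat_lit 28737, nat_lit 28713, nat_lit 9037] (nat_lit 0) [] false,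
   Spec.mk (nat_lit 28729) (nat_lit 0) [nat_lit 15607, nat_lit 41851, nat_lit 24355, nat_lit 33103, nat_lit 27271, nat_lit 29215, nat_lit 28567, nat_lit 28783, nat_lit 28711, nat_lit 28731, nat_lit 48411, nat_lit 9047] (nat_lit 1) [] false,
   Spec.mk (nat_lit 28731) (nat_lit 0) [nat_lit 15609, nat_lit 41853, nat_lit 24357, nat_lit 33105, nat_lit 27273, nat_lit 29217, nat_lit 28569, nat_lit 28785, nat_lit 28713, nat_lit 28737, nat_lit 28729, nat_lit 9049] (nat_lit 2) [] false,
   Spec.mk (nat_lit 28737) (nat_lit 0) [nat_lit 15615, nat_lit 41859, nat_lit 24363, nat_lit 33111, nat_lit 27279, nat_lit 29223, nat_lit 28575, nat_lit 28791, nat_lit 28719, nat_lit 28731, nat_lit 9055] (nat_lit 0) [] false,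
   Spec.mk (nat_lit 28757) (nat_lit 1) [nat_lit 15635, nat_lit 41879, nat_lit 24383, nat_lit 33131, nat_lit 27299, nat_lit 29243, nat_lit 28595, nat_lit 28919, nat_lit 28703, nat_lit 28759, nat_lit 48439] (nat_lit 0) [] false,
   Spec.mk (nat_lit 28759) (nat_lit 1) [nat_lit 15637, nat_lit 41881, nat_lit 24385, nat_lit 33133, nat_lit 27301, nat_lit 29245, nat_lit 28597, nat_lit 28921, nat_lit 28705, nat_lit 28765, nat_lit 28757, nat_lit 28761, nat_lit 48441, nat_lit 9077] (nat_lit 0) [] false,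
   Spec.mk (nat_lit 28761) (nat_lit 0) [nat_lit 15639, nat_lit 41883, nat_lit 24387, nat_lit 33135, nat_lit 27303, nat_lit 29247, nat_lit 28599, nat_lit 28923, nat_lit 28707, nat_lit 28767, nat_lit 28759, nat_lit 9079] (nat_lit 1) [] false,
   Spec.mk (nat_lit 28765) (nat_lit 0) [nat_lit 15643, nat_lit 41887, nat_lit 24391, nat_lit 33139, nat_lit 27307, nat_lit 29251, nat_lit 28603, nat_lit 28927, nat_lit 28711, nat_lit 28783, nat_lit 28759, nat_lit 28767, nat_lit 48447, nat_lit 9083] (nat_lit 0) [] false,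
   Spec.mk (nat_lit 28767) (nat_lit 0) [nat_lit 15645, nat_lit 41889, nat_lit 24393, nat_lit 33141, nat_lit 27309, nat_lit 29253, nat_lit 28605, nat_lit 28929, nat_lit 28713, nat_lit 28785, nat_lit 28761, nat_lit 28773, nat_lit 28765, nat_lit 9085] (nat_lit 0) [] false]

noncomputable def sp57 : List Spec :=
  [Spec.mk (nat_lit 28773) (nat_lit 0) [nat_lit 15651, nat_lit 41895, nat_lit 24399, nat_lit 33147, nat_lit 27315, nat_lit 29259, nat_lit 28611, nat_lit 28935, nat_lit 28719, nat_lit 28791, nat_lit 28767, nat_lit 9091] (nat_lit 1) [] false,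
   Spec.mk (nat_lit 28783) (nat_lit 1) [nat_lit 15661, nat_lit 41905, nat_lit 24409, nat_lit 33157, nat_lit 27325, nat_lit 29269, nat_lit 28621, nat_lit 28945, nat_lit 28729, nat_lit 28837, nat_lit 28765, nat_lit 28785, nat_lit 48465, nat_lit 9101] (nat_lit 0) [] false,
   Spec.mk (nat_lit 28785) (nat_lit 0) [nat_lit 15663, nat_lit 41907, nat_lit 24411, nat_lit 33159, nat_lit 27327, nat_lit 29271, nat_lit 28623, nat_lit 28947, nat_lit 28731, nat_lit 28839, nat_lit 28767, nat_lit 28791, nat_lit 28783, nat_lit 9103] (nat_lit 0) [] false,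
   Spec.mk (nat_lit 28791) (nat_lit 1) [nat_lit 15669, nat_lit 41913, nat_lit 24417, nat_lit 33165, nat_lit 27333, nat_lit 29277, nat_lit 28629, nat_lit 28953, nat_lit 28737, nat_lit 28845, nat_lit 28773, nat_lit 28809, nat_lit 28785, nat_lit 9109] (nat_lit 0) [] false,
   Spec.mk (nat_lit 28809) (nat_lit 1) [nat_lit 15687, nat_lit 41931, nat_lit 24435, nat_lit 33183, nat_lit 27351, nat_lit 29295, nat_lit 28647, nat_lit 28971, nat_lit 28863, nat_lit 28791, nat_lit 9127] (nat_lit 0) [] false,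
   Spec.mk (nat_lit 28837) (nat_lit 1) [nat_lit 15715, nat_lit 41959, nat_lit 24463, nat_lit 33211, nat_lit 27379, nat_lit 29323, nat_lit 28999, nat_lit 28783, nat_lit 28839, nat_lit 48519, nat_lit 9155] (nat_lit 0) [] false,
   Spec.mk (nat_lit 28839) (nat_lit 0) [nat_lit 15717, nat_lit 41961, nat_lit 24465, nat_lit 33213, nat_lit 27381, nat_lit 29325, nat_lit 29001, nat_lit 28785, nat_lit 28845, nat_lit 28837, nat_lit 9157] (nat_lit 0) [] false,
   Spec.mk (nat_lit 28845) (nat_lit 0) [nat_lit 15723, nat_lit 41967, nat_lit 24471, nat_lit 33219, nat_lit 27387, nat_lit 29331, nat_lit 29007, nat_lit 28791, nat_lit 28863, nat_lit 28839, nat_lit 9163] (nat_lit 0) [] false,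
   Spec.mk (nat_lit 28863) (nat_lit 2) [nat_lit 15741, nat_lit 41985, nat_lit 24489, nat_lit 33237, nat_lit 27405, nat_lit 29349, nat_lit 29025, nat_lit 28809, nat_lit 28845, nat_lit 9181] (nat_lit 0) [] false,
   Spec.mk (nat_lit 28919) (nat_lit 0) [nat_lit 15797, nat_lit 42041, nat_lit 24545, nat_lit 33293, nat_lit 27461, nat_lit 29405, nat_lit 28757, nat_lit 28921, nat_lit 48601] (nat_lit 0) [] false,
   Spec.mk (nat_lit 28921) (nat_lit 0) [nat_lit 15799, nat_lit 42043, nat_lit 24547, nat_lit 33295, nat_lit 27463, nat_lit 29407, nat_lit 28759, nat_lit 28927, nat_lit 28919, nat_lit 28923, nat_lit 48603, nat_lit 9239] (nat_lit 0) [] false,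
   Spec.mk (nat_lit 28923) (nat_lit 0) [nat_lit 15801, nat_lit 42045, nat_lit 24549, nat_lit 33297, nat_lit 27465, nat_lit 29409, nat_lit 28761, nat_lit 28929, nat_lit 28921, nat_lit 9241] (nat_lit 2) [] false,
   Spec.mk (nat_lit 28927) (nat_lit 0) [nat_lit 15805, nat_lit 42049, nat_lit 24553, nat_lit 33301, nat_lit 27469, nat_lit 29413, nat_lit 28765, nat_lit 28945, nat_lit 28921, nat_lit 28929, nat_lit 48609, nat_lit 9245] (nat_lit 1) [] false,
   Spec.mk (nat_lit 28929) (nat_lit 0) [nat_lit 15807, nat_lit 42051, nat_lit 24555, nat_lit 33303, nat_lit 27471, nat_lit 29415, nat_lit 28767, nat_lit 28947, nat_lit 28923, nat_lit 28935, nat_lit 28927, nat_lit 9247] (nat_lit 1) [] false,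
   Spec.mk (nat_lit 28935) (nat_lit 0) [nat_lit 15813, nat_lit 42057, nat_lit 24561, nat_lit 33309, nat_lit 27477, nat_lit 29421, nat_lit 28773, nat_lit 28953, nat_lit 28929, nat_lit 9253] (nat_lit 2) [] false,
   Spec.mk (nat_lit 28945) (nat_lit 0) [nat_lit 15823, nat_lit 42067, nat_lit 24571, nat_lit 33319, nat_lit 27487, nat_lit 29431, nat_lit 28783, nat_lit 28999, nat_lit 28927, nat_lit 28947, nat_lit 48627, nat_lit 9263] (nat_lit 1) [] false,
   Spec.mk (nat_lit 28947) (nat_lit 0) [nat_lit 15825, nat_lit 42069, nat_lit 24573, nat_lit 33321, nat_lit 27489, nat_lit 29433, nat_lit 28785, nat_lit 29001, nat_lit 28929, nat_lit 28953, nat_lit 28945, nat_lit 9265] (nat_lit 2) [] false,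
   Spec.mk (nat_lit 28953) (nat_lit 0) [nat_lit 15831, nat_lit 42075, nat_lit 24579, nat_lit 33327, nat_lit 27495, nat_lit 29439, nat_lit 28791, nat_lit 29007, nat_lit 28935, nat_lit 28971, nat_lit 28947, nat_lit 9271] (nat_lit 1) [] false,
   Spec.mk (nat_lit 28971) (nat_lit 0) [nat_lit 15849, nat_lit 42093, nat_lit 24597, nat_lit 33345, nat_lit 27513, nat_lit 29457, nat_lit 28809, nat_lit 29025, nat_lit 28953, nat_lit 9289] (nat_lit 2) [] false,
   Spec.mk (nat_lit 28999) (nat_lit 1) [nat_lit 15877, nat_lit 42121, nat_lit 24625, nat_lit 33373, nat_lit 27541, nat_lit 29485, nat_lit 28837, nat_lit 28945, nat_lit 29001, nat_lit 48681, nat_lit 9317] (nat_lit 0) [] false,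
   Spec.mk (nat_lit 29001) (nat_lit 0) [nat_lit 15879, nat_lit 42123, nat_lit 24627, nat_lit 33375, nat_lit 27543, nat_lit 29487, nat_lit 28839, nat_lit 28947, nat_lit 29007, nat_lit 28999, nat_lit 9319] (nat_lit 0) [] false,
   Spec.mk (nat_lit 29007) (nat_lit 0) [nat_lit 15885, nat_lit 42129, nat_lit 24633, nat_lit 33381, nat_lit 27549, nat_lit 29493, nat_lit 28845, nat_lit 28953, nat_lit 29025, nat_lit 29001, nat_lit 9325] (nat_lit 0) [] false,
   Spec.mk (nat_lit 29025) (nat_lit 1) [nat_lit 15903, nat_lit 42147, nat_lit 24651, nat_lit 33399, nat_lit 27567, nat_lit 29511, nat_lit 28863, nat_lit 28971, nat_lit 29079, nat_lit 29007, nat_lit 9343] (nat_lit 0) [] false,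
   Spec.mk (nat_lit 29079) (nat_lit 2) [nat_lit 15957, nat_lit 42201, nat_lit 24705, nat_lit 33453, nat_lit 27621, nat_lit 29565, nat_lit 29025, nat_lit 9397] (nat_lit 0) [] false,
   Spec.mk (nat_lit 29165) (nat_lit 3) [nat_lit 16043, nat_lit 42287, nat_lit 24791, nat_lit 33539, nat_lit 27707, nat_lit 30623, nat_lit 28679, nat_lit 29171, nat_lit 29167, nat_lit 48847] (nat_lit 0) [] false,
   Spec.mk (nat_lit 29167) (nat_lit 2) [nat_lit 16045, nat_lit 42289, nat_lit 24793, nat_lit 33541, nat_lit 27709, nat_lit 30625, nat_lit 28681, nat_lit 29173, nat_lit 29165, nat_lit 48849, nat_lit 9485] (nat_lit 0) [] false,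
   Spec.mk (nat_lit 29171) (nat_lit 1) [nat_lit 16049, nat_lit 42293, nat_lit 24797, nat_lit 33545, nat_lit 27713, nat_lit 30629, nat_lit 28685, nat_lit 29189, nat_lit 29165, nat_lit 29173, nat_lit 48853] (nat_lit 0) [] false,
   Spec.mk (nat_lit 29173) (nat_lit 2) [nat_lit 16051, nat_lit 42295, nat_lit 24799, nat_lit 33547, nat_lit 27715, nat_lit 30631, nat_lit 28687, nat_lit 29191, nat_lit 29167, nat_lit 29179, nat_lit 29171, nat_lit 29175, nat_lit 48855, nat_lit 9491] (nat_lit 0) [] false,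
   Spec.mk (nat_lit 29175) (nat_lit 1) [nat_lit 16053, nat_lit 42297, nat_lit 24801, nat_lit 33549, nat_lit 27717, nat_lit 30633, nat_lit 28689, nat_lit 29193, nat_lit 29181, nat_lit 29173, nat_lit 9493] (nat_lit 0) [] false,
   Spec.mk (nat_lit 29179) (nat_lit 0) [nat_lit 16057, nat_lit 42301, nat_lit 24805, nat_lit 33553, nat_lit 27721, nat_lit 30637, nat_lit 28693, nat_lit 29197, nat_lit 29173, nat_lit 29181, nat_lit 48861, nat_lit 9497] (nat_lit 0) [] false,
   Spec.mk (nat_lit 29181) (nat_lit 1) [nat_lit 16059, nat_lit 42303, nat_lit 24807, nat_lit 33555, nat_lit 27723, nat_lit 30639, nat_lit 28695, nat_lit 29199, nat_lit 29175, nat_lit 29179, nat_lit 9499] (nat_lit 0) [] false,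
   Spec.mk (nat_lit 29189) (nat_lit 1) [nat_lit 16067, nat_lit 42311, nat_lit 24815, nat_lit 33563, nat_lit 27731, nat_lit 30647, nat_lit 28703, nat_lit 29243, nat_lit 29171, nat_lit 29191, nat_lit 48871] (nat_lit 0) [] false,
   Spec.mk (nat_lit 29191) (nat_lit 1) [nat_lit 16069, nat_lit 42313, nat_lit 24817, nat_lit 33565, nat_lit 27733, nat_lit 30649, nat_lit 28705, nat_lit 29245, nat_lit 29173, nat_lit 29197, nat_lit 29189, nat_lit 29193, nat_lit 48873, nat_lit 9509] (nat_lit 0) [] false,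
   Spec.mk (nat_lit 29193) (nat_lit 0) [nat_lit 16071, nat_lit 42315, nat_lit 24819, nat_lit 33567, nat_lit 27735, nat_lit 30651, nat_lit 28707, nat_lit 29247, nat_lit 29175, nat_lit 29199, nat_lit 29191, nat_lit 9511] (nat_lit 1) [] false,
   Spec.mk (nat_lit 29197) (nat_lit 1) [nat_lit 16075, nat_lit 42319, nat_lit 24823, nat_lit 33571, nat_lit 27739, nat_lit 30655, nat_lit 28711, nat_lit 29251, nat_lit 29179, nat_lit 29215, nat_lit 29191, nat_lit 29199, nat_lit 48879, nat_lit 9515] (nat_lit 0) [] false,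
   Spec.mk (nat_lit 29199) (nat_lit 1) [nat_lit 16077, nat_lit 42321, nat_lit 24825, nat_lit 33573, nat_lit 27741, nat_lit 30657, nat_lit 28713, nat_lit 29253, nat_lit 29181, nat_lit 29217, nat_lit 29193, nat_lit 29205, nat_lit 29197, nat_lit 9517] (nat_lit 0) [] false,
   Spec.mk (nat_lit 29205) (nat_lit 1) [nat_lit 16083, nat_lit 42327, nat_lit 24831, nat_lit 33579, nat_lit 27747, nat_lit 30663, nat_lit 28719, nat_lit 29259, nat_lit 29223, nat_lit 29199, nat_lit 9523] (nat_lit 0) [] false,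
   Spec.mk (nat_lit 29215) (nat_lit 0) [nat_lit 16093, nat_lit 42337, nat_lit 24841, nat_lit 33589, nat_lit 27757, nat_lit 30673, nat_lit 28729, nat_lit 29269, nat_lit 29197, nat_lit 29217, nat_lit 48897, nat_lit 9533] (nat_lit 0) [] false,
   Spec.mk (nat_lit 29217) (nat_lit 0) [nat_lit 16095, nat_lit 42339, nat_lit 24843, nat_lit 33591, nat_lit 27759, nat_lit 30675, nat_lit 28731, nat_lit 29271, nat_lit 29199, nat_lit 29223, nat_lit 29215, nat_lit 9535] (nat_lit 1) [] false,
   Spec.mk (nat_lit 29223) (nat_lit 1) [nat_lit 16101, nat_lit 42345, nat_lit 24849, nat_lit 33597, nat_lit 27765, nat_lit 30681, nat_lit 28737, nat_lit 29277, nat_lit 29205, nat_lit 29217, nat_lit 9541] (nat_lit 0) [] false,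
   Spec.mk (nat_lit 29243) (nat_lit 1) [nat_lit 16121, nat_lit 42365, nat_lit 24869, nat_lit 33617, nat_lit 27785, nat_lit 30701, nat_lit 28757, nat_lit 29405, nat_lit 29189, nat_lit 29245, nat_lit 48925] (nat_lit 0) [] false,
   Spec.mk (nat_lit 29245) (nat_lit 1) [nat_lit 16123, nat_lit 42367, nat_lit 24871, nat_lit 33619, nat_lit 27787, nat_lit 30703, nat_lit 28759, nat_lit 29407, nat_lit 29191, nat_lit 29251, nat_lit 29243, nat_lit 29247, nat_lit 48927, nat_lit 9563] (nat_lit 0) [] false,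
   Spec.mk (nat_lit 29247) (nat_lit 0) [nat_lit 16125, nat_lit 42369, nat_lit 24873, nat_lit 33621, nat_lit 27789, nat_lit 30705, nat_lit 28761, nat_lit 29409, nat_lit 29193, nat_lit 29253, nat_lit 29245, nat_lit 9565] (nat_lit 1) [] false,
   Spec.mk (nat_lit 29251) (nat_lit 0) [nat_lit 16129, nat_lit 42373, nat_lit 24877, nat_lit 33625, nat_lit 27793, nat_lit 30709, nat_lit 28765, nat_lit 29413, nat_lit 29197, nat_lit 29269, nat_lit 29245, nat_lit 29253, nat_lit 48933, nat_lit 9569] (nat_lit 0) [] false,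
   Spec.mk (nat_lit 29253) (nat_lit 0) [nat_lit 16131, nat_lit 42375, nat_lit 24879, nat_lit 33627, nat_lit 27795, nat_lit 30711, nat_lit 28767, nat_lit 29415, nat_lit 29199, nat_lit 29271, nat_lit 29247, nat_lit 29259, nat_lit 29251, nat_lit 9571] (nat_lit 0) [] false,
   Spec.mk (nat_lit 29259) (nat_lit 0) [nat_lit 16137, nat_lit 42381, nat_lit 24885, nat_lit 33633, nat_lit 27801, nat_lit 30717, nat_lit 28773, nat_lit 29421, nat_lit 29205, nat_lit 29277, nat_lit 29253, nat_lit 9577] (nat_lit 1) [] false,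
   Spec.mk (nat_lit 29269) (nat_lit 1) [nat_lit 16147, nat_lit 42391, nat_lit 24895, nat_lit 33643, nat_lit 27811, nat_lit 30727, nat_lit 28783, nat_lit 29431, nat_lit 29215, nat_lit 29323, nat_lit 29251, nat_lit 29271, nat_lit 48951, nat_lit 9587] (nat_lit 0) [] false,
   Spec.mk (nat_lit 29271) (nat_lit 0) [nat_lit 16149, nat_lit 42393, nat_lit 24897, nat_lit 33645, nat_lit 27813, nat_lit 30729, nat_lit 28785, nat_lit 29433, nat_lit 29217, nat_lit 29325, nat_lit 29253, nat_lit 29277, nat_lit 29269, nat_lit 9589] (nat_lit 0) [] false,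
   Spec.mk (nat_lit 29277) (nat_lit 1) [nat_lit 16155, nat_lit 42399, nat_lit 24903, nat_lit 33651, nat_lit 27819, nat_lit 30735, nat_lit 28791, nat_lit 29439, nat_lit 29223, nat_lit 29331, nat_lit 29259, nat_lit 29295, nat_lit 29271, nat_lit 9595] (nat_lit 0) [] false,
   Spec.mk (nat_lit 29295) (nat_lit 1) [nat_lit 16173, nat_lit 42417, nat_lit 24921, nat_lit 33669, nat_lit 27837, nat_lit 30753, nat_lit 28809, nat_lit 29457, nat_lit 29349, nat_lit 29277, nat_lit 9613] (nat_lit 0) [] false,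
   Spec.mk (nat_lit 29323) (nat_lit 0) [nat_lit 16201, nat_lit 42445, nat_lit 24949, nat_lit 33697, nat_lit 27865, nat_lit 30781, nat_lit 28837, nat_lit 29485, nat_lit 29269, nat_lit 29325, nat_lit 49005, nat_lit 9641] (nat_lit 0) [] false,
   Spec.mk (nat_lit 29325) (nat_lit 0) [nat_lit 16203, nat_lit 42447, nat_lit 24951, nat_lit 33699, nat_lit 27867, nat_lit 30783, nat_lit 28839, nat_lit 29487, nat_lit 29271, nat_lit 29331, nat_lit 29323, nat_lit 9643] (nat_lit 1) [] false,
   Spec.mk (nat_lit 29331) (nat_lit 0) [nat_lit 16209, nat_lit 42453, nat_lit 24957, nat_lit 33705, nat_lit 27873, nat_lit 30789, nat_lit 28845, nat_lit 29493, nat_lit 29277, nat_lit 29349, nat_lit 29325, nat_lit 9649] (nat_lit 1) [] false,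
   Spec.mk (nat_lit 29349) (nat_lit 1) [nat_lit 16227, nat_lit 42471, nat_lit 24975, nat_lit 33723, nat_lit 27891, nat_lit 30807, nat_lit 28863, nat_lit 29511, nat_lit 29295, nat_lit 29331, nat_lit 9667] (nat_lit 0) [] false,
   Spec.mk (nat_lit 29405) (nat_lit 2) [nat_lit 16283, nat_lit 42527, nat_lit 25031, nat_lit 33779, nat_lit 27947, nat_lit 30863, nat_lit 28919, nat_lit 29891, nat_lit 29243, nat_lit 29407, nat_lit 49087] (nat_lit 0) [] false,
   Spec.mk (nat_lit 29407) (nat_lit 2) [nat_lit 16285, nat_lit 42529, nat_lit 25033, nat_lit 33781, nat_lit 27949, nat_lit 30865, nat_lit 28921, nat_lit 29893, nat_lit 29245, nat_lit 29413, nat_lit 29405, nat_lit 29409, nat_lit 49089, nat_lit 9725] (nat_lit 0) [] false,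
   Spec.mk (nat_lit 29409) (nat_lit 0) [nat_lit 16287, nat_lit 42531, nat_lit 25035, nat_lit 33783, nat_lit 27951, nat_lit 30867, nat_lit 28923, nat_lit 29895, nat_lit 29247, nat_lit 29415, nat_lit 29407, nat_lit 9727] (nat_lit 0) [] false,
   Spec.mk (nat_lit 29413) (nat_lit 1) [nat_lit 16291, nat_lit 42535, nat_lit 25039, nat_lit 33787, nat_lit 27955, nat_lit 30871, nat_lit 28927, nat_lit 29899, nat_lit 29251, nat_lit 29431, nat_lit 29407, nat_lit 29415, nat_lit 49095, nat_lit 9731] (nat_lit 0) [] false,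
   Spec.mk (nat_lit 29415) (nat_lit 1) [nat_lit 16293, nat_lit 42537, nat_lit 25041, nat_lit 33789, nat_lit 27957, nat_lit 30873, nat_lit 28929, nat_lit 29901, nat_lit 29253, nat_lit 29433, nat_lit 29409, nat_lit 29421, nat_lit 29413, nat_lit 9733] (nat_lit 0) [] false,
   Spec.mk (nat_lit 29421) (nat_lit 0) [nat_lit 16299, nat_lit 42543, nat_lit 25047, nat_lit 33795, nat_lit 27963, nat_lit 30879, nat_lit 28935, nat_lit 29907, nat_lit 29259, nat_lit 29439, nat_lit 29415, nat_lit 9739] (nat_lit 0) [] false]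

noncomputable def sp58 : List Spec :=
  [Spec.mk (nat_lit 29431) (nat_lit 1) [nat_lit 16309, nat_lit 42553, nat_lit 25057, nat_lit 33805, nat_lit 27973, nat_lit 30889, nat_lit 28945, nat_lit 29917, nat_lit 29269, nat_lit 29485, nat_lit 29413, nat_lit 29433, nat_lit 49113, nat_lit 9749] (nat_lit 0) [] false,
   Spec.mk (nat_lit 29433) (nat_lit 0) [nat_lit 16311, nat_lit 42555, nat_lit 25059, nat_lit 33807, nat_lit 27975, nat_lit 30891, nat_lit 28947, nat_lit 29919, nat_lit 29271, nat_lit 29487, nat_lit 29415, nat_lit 29439, nat_lit 29431, nat_lit 9751] (nat_lit 0) [] false,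
   Spec.mk (nat_lit 29439) (nat_lit 1) [nat_lit 16317, nat_lit 42561, nat_lit 25065, nat_lit 33813, nat_lit 27981, nat_lit 30897, nat_lit 28953, nat_lit 29925, nat_lit 29277, nat_lit 29493, nat_lit 29421, nat_lit 29457, nat_lit 29433, nat_lit 9757] (nat_lit 0) [] false,
   Spec.mk (nat_lit 29457) (nat_lit 0) [nat_lit 16335, nat_lit 42579, nat_lit 25083, nat_lit 33831, nat_lit 27999, nat_lit 30915, nat_lit 28971, nat_lit 29943, nat_lit 29295, nat_lit 29511, nat_lit 29439, nat_lit 9775] (nat_lit 0) [] false,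
   Spec.mk (nat_lit 29485) (nat_lit 2) [nat_lit 16363, nat_lit 42607, nat_lit 25111, nat_lit 33859, nat_lit 28027, nat_lit 30943, nat_lit 28999, nat_lit 29971, nat_lit 29323, nat_lit 29647, nat_lit 29431, nat_lit 29487, nat_lit 49167, nat_lit 9803] (nat_lit 0) [] false,
   Spec.mk (nat_lit 29487) (nat_lit 1) [nat_lit 16365, nat_lit 42609, nat_lit 25113, nat_lit 33861, nat_lit 28029, nat_lit 30945, nat_lit 29001, nat_lit 29973, nat_lit 29325, nat_lit 29649, nat_lit 29433, nat_lit 29493, nat_lit 29485, nat_lit 9805] (nat_lit 0) [] false,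
   Spec.mk (nat_lit 29493) (nat_lit 1) [nat_lit 16371, nat_lit 42615, nat_lit 25119, nat_lit 33867, nat_lit 28035, nat_lit 30951, nat_lit 29007, nat_lit 29979, nat_lit 29331, nat_lit 29655, nat_lit 29439, nat_lit 29511, nat_lit 29487, nat_lit 9811] (nat_lit 0) [] false,
   Spec.mk (nat_lit 29511) (nat_lit 2) [nat_lit 16389, nat_lit 42633, nat_lit 25137, nat_lit 33885, nat_lit 28053, nat_lit 30969, nat_lit 29025, nat_lit 29997, nat_lit 29349, nat_lit 29673, nat_lit 29457, nat_lit 29565, nat_lit 29493, nat_lit 9829] (nat_lit 0) [] false,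
   Spec.mk (nat_lit 29565) (nat_lit 2) [nat_lit 16443, nat_lit 42687, nat_lit 25191, nat_lit 33939, nat_lit 28107, nat_lit 31023, nat_lit 29079, nat_lit 30051, nat_lit 29727, nat_lit 29511, nat_lit 9883] (nat_lit 0) [] false,
   Spec.mk (nat_lit 29647) (nat_lit 2) [nat_lit 16525, nat_lit 42769, nat_lit 25273, nat_lit 34021, nat_lit 28189, nat_lit 31105, nat_lit 30133, nat_lit 29485, nat_lit 29649, nat_lit 49329, nat_lit 9965] (nat_lit 0) [] false,
   Spec.mk (nat_lit 29649) (nat_lit 1) [nat_lit 16527, nat_lit 42771, nat_lit 25275, nat_lit 34023, nat_lit 28191, nat_lit 31107, nat_lit 30135, nat_lit 29487, nat_lit 29655, nat_lit 29647, nat_lit 9967] (nat_lit 0) [] false,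
   Spec.mk (nat_lit 29655) (nat_lit 1) [nat_lit 16533, nat_lit 42777, nat_lit 25281, nat_lit 34029, nat_lit 28197, nat_lit 31113, nat_lit 30141, nat_lit 29493, nat_lit 29673, nat_lit 29649, nat_lit 9973] (nat_lit 0) [] false,
   Spec.mk (nat_lit 29673) (nat_lit 1) [nat_lit 16551, nat_lit 42795, nat_lit 25299, nat_lit 34047, nat_lit 28215, nat_lit 31131, nat_lit 30159, nat_lit 29511, nat_lit 29727, nat_lit 29655, nat_lit 9991] (nat_lit 0) [] false,
   Spec.mk (nat_lit 29727) (nat_lit 3) [nat_lit 16605, nat_lit 42849, nat_lit 25353, nat_lit 34101, nat_lit 28269, nat_lit 31185, nat_lit 30213, nat_lit 29565, nat_lit 29673, nat_lit 10045] (nat_lit 0) [] false,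
   Spec.mk (nat_lit 29891) (nat_lit 2) [nat_lit 16769, nat_lit 43013, nat_lit 25517, nat_lit 34265, nat_lit 31349, nat_lit 29405, nat_lit 29893, nat_lit 49573] (nat_lit 0) [] false,
   Spec.mk (nat_lit 29893) (nat_lit 2) [nat_lit 16771, nat_lit 43015, nat_lit 25519, nat_lit 34267, nat_lit 31351, nat_lit 29407, nat_lit 29899, nat_lit 29891, nat_lit 29895, nat_lit 49575, nat_lit 10211] (nat_lit 0) [] false,
   Spec.mk (nat_lit 29895) (nat_lit 0) [nat_lit 16773, nat_lit 43017, nat_lit 25521, nat_lit 34269, nat_lit 31353, nat_lit 29409, nat_lit 29901, nat_lit 29893, nat_lit 10213] (nat_lit 0) [] false,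
   Spec.mk (nat_lit 29899) (nat_lit 1) [nat_lit 16777, nat_lit 43021, nat_lit 25525, nat_lit 34273, nat_lit 31357, nat_lit 29413, nat_lit 29917, nat_lit 29893, nat_lit 29901, nat_lit 49581, nat_lit 10217] (nat_lit 0) [] false,
   Spec.mk (nat_lit 29901) (nat_lit 1) [nat_lit 16779, nat_lit 43023, nat_lit 25527, nat_lit 34275, nat_lit 31359, nat_lit 29415, nat_lit 29919, nat_lit 29895, nat_lit 29907, nat_lit 29899, nat_lit 10219] (nat_lit 0) [] false,
   Spec.mk (nat_lit 29907) (nat_lit 0) [nat_lit 16785, nat_lit 43029, nat_lit 25533, nat_lit 34281, nat_lit 31365, nat_lit 29421, nat_lit 29925, nat_lit 29901, nat_lit 10225] (nat_lit 0) [] false,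
   Spec.mk (nat_lit 29917) (nat_lit 1) [nat_lit 16795, nat_lit 43039, nat_lit 25543, nat_lit 34291, nat_lit 31375, nat_lit 29431, nat_lit 29971, nat_lit 29899, nat_lit 29919, nat_lit 49599, nat_lit 10235] (nat_lit 0) [] false,
   Spec.mk (nat_lit 29919) (nat_lit 0) [nat_lit 16797, nat_lit 43041, nat_lit 25545, nat_lit 34293, nat_lit 31377, nat_lit 29433, nat_lit 29973, nat_lit 29901, nat_lit 29925, nat_lit 29917, nat_lit 10237] (nat_lit 0) [] false,
   Spec.mk (nat_lit 29925) (nat_lit 1) [nat_lit 16803, nat_lit 43047, nat_lit 25551, nat_lit 34299, nat_lit 31383, nat_lit 29439, nat_lit 29979, nat_lit 29907, nat_lit 29943, nat_lit 29919, nat_lit 10243] (nat_lit 0) [] false,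
   Spec.mk (nat_lit 29943) (nat_lit 0) [nat_lit 16821, nat_lit 43065, nat_lit 25569, nat_lit 34317, nat_lit 31401, nat_lit 29457, nat_lit 29997, nat_lit 29925, nat_lit 10261] (nat_lit 0) [] false,
   Spec.mk (nat_lit 29971) (nat_lit 1) [nat_lit 16849, nat_lit 43093, nat_lit 25597, nat_lit 34345, nat_lit 31429, nat_lit 29485, nat_lit 30133, nat_lit 29917, nat_lit 29973, nat_lit 49653, nat_lit 10289] (nat_lit 0) [] false,
   Spec.mk (nat_lit 29973) (nat_lit 0) [nat_lit 16851, nat_lit 43095, nat_lit 25599, nat_lit 34347, nat_lit 31431, nat_lit 29487, nat_lit 30135, nat_lit 29919, nat_lit 29979, nat_lit 29971, nat_lit 10291] (nat_lit 0) [] false,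
   Spec.mk (nat_lit 29979) (nat_lit 0) [nat_lit 16857, nat_lit 43101, nat_lit 25605, nat_lit 34353, nat_lit 31437, nat_lit 29493, nat_lit 30141, nat_lit 29925, nat_lit 29997, nat_lit 29973, nat_lit 10297] (nat_lit 0) [] false,
   Spec.mk (nat_lit 29997) (nat_lit 1) [nat_lit 16875, nat_lit 43119, nat_lit 25623, nat_lit 34371, nat_lit 31455, nat_lit 29511, nat_lit 30159, nat_lit 29943, nat_lit 30051, nat_lit 29979, nat_lit 10315] (nat_lit 0) [] false,
   Spec.mk (nat_lit 30051) (nat_lit 0) [nat_lit 16929, nat_lit 43173, nat_lit 25677, nat_lit 34425, nat_lit 31509, nat_lit 29565, nat_lit 30213, nat_lit 29997, nat_lit 10369] (nat_lit 0) [] false,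
   Spec.mk (nat_lit 30133) (nat_lit 3) [nat_lit 17011, nat_lit 43255, nat_lit 25759, nat_lit 34507, nat_lit 31591, nat_lit 29647, nat_lit 29971, nat_lit 30135, nat_lit 49815, nat_lit 10451] (nat_lit 0) [] false,
   Spec.mk (nat_lit 30135) (nat_lit 2) [nat_lit 17013, nat_lit 43257, nat_lit 25761, nat_lit 34509, nat_lit 31593, nat_lit 29649, nat_lit 29973, nat_lit 30141, nat_lit 30133, nat_lit 10453] (nat_lit 0) [] false,
   Spec.mk (nat_lit 30141) (nat_lit 2) [nat_lit 17019, nat_lit 43263, nat_lit 25767, nat_lit 34515, nat_lit 31599, nat_lit 29655, nat_lit 29979, nat_lit 30159, nat_lit 30135, nat_lit 10459] (nat_lit 0) [] false,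
   Spec.mk (nat_lit 30159) (nat_lit 2) [nat_lit 17037, nat_lit 43281, nat_lit 25785, nat_lit 34533, nat_lit 31617, nat_lit 29673, nat_lit 29997, nat_lit 30213, nat_lit 30141, nat_lit 10477] (nat_lit 0) [] false,
   Spec.mk (nat_lit 30213) (nat_lit 3) [nat_lit 17091, nat_lit 43335, nat_lit 25839, nat_lit 34587, nat_lit 31671, nat_lit 29727, nat_lit 30051, nat_lit 30375, nat_lit 30159, nat_lit 10531] (nat_lit 0) [] false,
   Spec.mk (nat_lit 30375) (nat_lit 4) [nat_lit 17253, nat_lit 43497, nat_lit 26001, nat_lit 34749, nat_lit 31833, nat_lit 30213, nat_lit 10693] (nat_lit 0) [] false,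
   Spec.mk (nat_lit 30623) (nat_lit 3) [nat_lit 17501, nat_lit 43745, nat_lit 34997, nat_lit 29165, nat_lit 30629, nat_lit 30625, nat_lit 50305] (nat_lit 0) [] false,
   Spec.mk (nat_lit 30625) (nat_lit 2) [nat_lit 17503, nat_lit 43747, nat_lit 34999, nat_lit 29167, nat_lit 30631, nat_lit 30623, nat_lit 50307, nat_lit 10943] (nat_lit 0) [] false,
   Spec.mk (nat_lit 30629) (nat_lit 1) [nat_lit 17507, nat_lit 43751, nat_lit 35003, nat_lit 29171, nat_lit 30647, nat_lit 30623, nat_lit 30631, nat_lit 50311] (nat_lit 0) [] false,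
   Spec.mk (nat_lit 30631) (nat_lit 2) [nat_lit 17509, nat_lit 43753, nat_lit 35005, nat_lit 29173, nat_lit 30649, nat_lit 30625, nat_lit 30637, nat_lit 30629, nat_lit 30633, nat_lit 50313, nat_lit 10949] (nat_lit 0) [] false,
   Spec.mk (nat_lit 30633) (nat_lit 1) [nat_lit 17511, nat_lit 43755, nat_lit 35007, nat_lit 29175, nat_lit 30651, nat_lit 30639, nat_lit 30631, nat_lit 10951] (nat_lit 0) [] false,
   Spec.mk (nat_lit 30637) (nat_lit 0) [nat_lit 17515, nat_lit 43759, nat_lit 35011, nat_lit 29179, nat_lit 30655, nat_lit 30631, nat_lit 30639, nat_lit 50319, nat_lit 10955] (nat_lit 0) [] false,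
   Spec.mk (nat_lit 30639) (nat_lit 1) [nat_lit 17517, nat_lit 43761, nat_lit 35013, nat_lit 29181, nat_lit 30657, nat_lit 30633, nat_lit 30637, nat_lit 10957] (nat_lit 0) [] false,
   Spec.mk (nat_lit 30647) (nat_lit 1) [nat_lit 17525, nat_lit 43769, nat_lit 35021, nat_lit 29189, nat_lit 30701, nat_lit 30629, nat_lit 30649, nat_lit 50329] (nat_lit 0) [] false,
   Spec.mk (nat_lit 30649) (nat_lit 1) [nat_lit 17527, nat_lit 43771, nat_lit 35023, nat_lit 29191, nat_lit 30703, nat_lit 30631, nat_lit 30655, nat_lit 30647, nat_lit 30651, nat_lit 50331, nat_lit 10967] (nat_lit 0) [] false,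
   Spec.mk (nat_lit 30651) (nat_lit 0) [nat_lit 17529, nat_lit 43773, nat_lit 35025, nat_lit 29193, nat_lit 30705, nat_lit 30633, nat_lit 30657, nat_lit 30649, nat_lit 10969] (nat_lit 1) [] false,
   Spec.mk (nat_lit 30655) (nat_lit 1) [nat_lit 17533, nat_lit 43777, nat_lit 35029, nat_lit 29197, nat_lit 30709, nat_lit 30637, nat_lit 30673, nat_lit 30649, nat_lit 30657, nat_lit 50337, nat_lit 10973] (nat_lit 0) [] false,
   Spec.mk (nat_lit 30657) (nat_lit 1) [nat_lit 17535, nat_lit 43779, nat_lit 35031, nat_lit 29199, nat_lit 30711, nat_lit 30639, nat_lit 30675, nat_lit 30651, nat_lit 30663, nat_lit 30655, nat_lit 10975] (nat_lit 0) [] false,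
   Spec.mk (nat_lit 30663) (nat_lit 1) [nat_lit 17541, nat_lit 43785, nat_lit 35037, nat_lit 29205, nat_lit 30717, nat_lit 30681, nat_lit 30657, nat_lit 10981] (nat_lit 0) [] false,
   Spec.mk (nat_lit 30673) (nat_lit 0) [nat_lit 17551, nat_lit 43795, nat_lit 35047, nat_lit 29215, nat_lit 30727, nat_lit 30655, nat_lit 30675, nat_lit 50355, nat_lit 10991] (nat_lit 0) [] false,
   Spec.mk (nat_lit 30675) (nat_lit 0) [nat_lit 17553, nat_lit 43797, nat_lit 35049, nat_lit 29217, nat_lit 30729, nat_lit 30657, nat_lit 30681, nat_lit 30673, nat_lit 10993] (nat_lit 1) [] false,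
   Spec.mk (nat_lit 30681) (nat_lit 1) [nat_lit 17559, nat_lit 43803, nat_lit 35055, nat_lit 29223, nat_lit 30735, nat_lit 30663, nat_lit 30675, nat_lit 10999] (nat_lit 0) [] false,
   Spec.mk (nat_lit 30701) (nat_lit 1) [nat_lit 17579, nat_lit 43823, nat_lit 35075, nat_lit 29243, nat_lit 30863, nat_lit 30647, nat_lit 30703, nat_lit 50383] (nat_lit 0) [] false,
   Spec.mk (nat_lit 30703) (nat_lit 1) [nat_lit 17581, nat_lit 43825, nat_lit 35077, nat_lit 29245, nat_lit 30865, nat_lit 30649, nat_lit 30709, nat_lit 30701, nat_lit 30705, nat_lit 50385, nat_lit 11021] (nat_lit 0) [] false,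
   Spec.mk (nat_lit 30705) (nat_lit 0) [nat_lit 17583, nat_lit 43827, nat_lit 35079, nat_lit 29247, nat_lit 30867, nat_lit 30651, nat_lit 30711, nat_lit 30703, nat_lit 11023] (nat_lit 1) [] false,
   Spec.mk (nat_lit 30709) (nat_lit 0) [nat_lit 17587, nat_lit 43831, nat_lit 35083, nat_lit 29251, nat_lit 30871, nat_lit 30655, nat_lit 30727, nat_lit 30703, nat_lit 30711, nat_lit 50391, nat_lit 11027] (nat_lit 0) [] false,
   Spec.mk (nat_lit 30711) (nat_lit 0) [nat_lit 17589, nat_lit 43833, nat_lit 35085, nat_lit 29253, nat_lit 30873, nat_lit 30657, nat_lit 30729, nat_lit 30705, nat_lit 30717, nat_lit 30709, nat_lit 11029] (nat_lit 0) [] false,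
   Spec.mk (nat_lit 30717) (nat_lit 0) [nat_lit 17595, nat_lit 43839, nat_lit 35091, nat_lit 29259, nat_lit 30879, nat_lit 30663, nat_lit 30735, nat_lit 30711, nat_lit 11035] (nat_lit 1) [] false,
   Spec.mk (nat_lit 30727) (nat_lit 1) [nat_lit 17605, nat_lit 43849, nat_lit 35101, nat_lit 29269, nat_lit 30889, nat_lit 30673, nat_lit 30781, nat_lit 30709, nat_lit 30729, nat_lit 50409, nat_lit 11045] (nat_lit 0) [] false,
   Spec.mk (nat_lit 30729) (nat_lit 0) [nat_lit 17607, nat_lit 43851, nat_lit 35103, nat_lit 29271, nat_lit 30891, nat_lit 30675, nat_lit 30783, nat_lit 30711, nat_lit 30735, nat_lit 30727, nat_lit 11047] (nat_lit 0) [] false,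
   Spec.mk (nat_lit 30735) (nat_lit 1) [nat_lit 17613, nat_lit 43857, nat_lit 35109, nat_lit 29277, nat_lit 30897, nat_lit 30681, nat_lit 30789, nat_lit 30717, nat_lit 30753, nat_lit 30729, nat_lit 11053] (nat_lit 0) [] false]

noncomputable def sp59 : List Spec :=
  [Spec.mk (nat_lit 30753) (nat_lit 1) [nat_lit 17631, nat_lit 43875, nat_lit 35127, nat_lit 29295, nat_lit 30915, nat_lit 30807, nat_lit 30735, nat_lit 11071] (nat_lit 0) [] false,
   Spec.mk (nat_lit 30781) (nat_lit 0) [nat_lit 17659, nat_lit 43903, nat_lit 35155, nat_lit 29323, nat_lit 30943, nat_lit 30727, nat_lit 30783, nat_lit 50463, nat_lit 11099] (nat_lit 0) [] false,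
   Spec.mk (nat_lit 30783) (nat_lit 0) [nat_lit 17661, nat_lit 43905, nat_lit 35157, nat_lit 29325, nat_lit 30945, nat_lit 30729, nat_lit 30789, nat_lit 30781, nat_lit 11101] (nat_lit 1) [] false,
   Spec.mk (nat_lit 30789) (nat_lit 0) [nat_lit 17667, nat_lit 43911, nat_lit 35163, nat_lit 29331, nat_lit 30951, nat_lit 30735, nat_lit 30807, nat_lit 30783, nat_lit 11107] (nat_lit 1) [] false,
   Spec.mk (nat_lit 30807) (nat_lit 1) [nat_lit 17685, nat_lit 43929, nat_lit 35181, nat_lit 29349, nat_lit 30969, nat_lit 30753, nat_lit 30789, nat_lit 11125] (nat_lit 0) [] false,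
   Spec.mk (nat_lit 30863) (nat_lit 1) [nat_lit 17741, nat_lit 43985, nat_lit 35237, nat_lit 29405, nat_lit 31349, nat_lit 30701, nat_lit 30865, nat_lit 50545] (nat_lit 0) [] false,
   Spec.mk (nat_lit 30865) (nat_lit 1) [nat_lit 17743, nat_lit 43987, nat_lit 35239, nat_lit 29407, nat_lit 31351, nat_lit 30703, nat_lit 30871, nat_lit 30863, nat_lit 30867, nat_lit 50547, nat_lit 11183] (nat_lit 0) [] false,
   Spec.mk (nat_lit 30867) (nat_lit 0) [nat_lit 17745, nat_lit 43989, nat_lit 35241, nat_lit 29409, nat_lit 31353, nat_lit 30705, nat_lit 30873, nat_lit 30865, nat_lit 11185] (nat_lit 1) [] false,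
   Spec.mk (nat_lit 30871) (nat_lit 0) [nat_lit 17749, nat_lit 43993, nat_lit 35245, nat_lit 29413, nat_lit 31357, nat_lit 30709, nat_lit 30889, nat_lit 30865, nat_lit 30873, nat_lit 50553, nat_lit 11189] (nat_lit 0) [] false,
   Spec.mk (nat_lit 30873) (nat_lit 0) [nat_lit 17751, nat_lit 43995, nat_lit 35247, nat_lit 29415, nat_lit 31359, nat_lit 30711, nat_lit 30891, nat_lit 30867, nat_lit 30879, nat_lit 30871, nat_lit 11191] (nat_lit 0) [] false,
   Spec.mk (nat_lit 30879) (nat_lit 0) [nat_lit 17757, nat_lit 44001, nat_lit 35253, nat_lit 29421, nat_lit 31365, nat_lit 30717, nat_lit 30897, nat_lit 30873, nat_lit 11197] (nat_lit 1) [] false,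
   Spec.mk (nat_lit 30889) (nat_lit 0) [nat_lit 17767, nat_lit 44011, nat_lit 35263, nat_lit 29431, nat_lit 31375, nat_lit 30727, nat_lit 30943, nat_lit 30871, nat_lit 30891, nat_lit 50571, nat_lit 11207] (nat_lit 0) [] false,
   Spec.mk (nat_lit 30891) (nat_lit 0) [nat_lit 17769, nat_lit 44013, nat_lit 35265, nat_lit 29433, nat_lit 31377, nat_lit 30729, nat_lit 30945, nat_lit 30873, nat_lit 30897, nat_lit 30889, nat_lit 11209] (nat_lit 1) [] false,
   Spec.mk (nat_lit 30897) (nat_lit 0) [nat_lit 17775, nat_lit 44019, nat_lit 35271, nat_lit 29439, nat_lit 31383, nat_lit 30735, nat_lit 30951, nat_lit 30879, nat_lit 30915, nat_lit 30891, nat_lit 11215] (nat_lit 0) [] false,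
   Spec.mk (nat_lit 30915) (nat_lit 0) [nat_lit 17793, nat_lit 44037, nat_lit 35289, nat_lit 29457, nat_lit 31401, nat_lit 30753, nat_lit 30969, nat_lit 30897, nat_lit 11233] (nat_lit 1) [] false,
   Spec.mk (nat_lit 30943) (nat_lit 1) [nat_lit 17821, nat_lit 44065, nat_lit 35317, nat_lit 29485, nat_lit 31429, nat_lit 30781, nat_lit 31105, nat_lit 30889, nat_lit 30945, nat_lit 50625, nat_lit 11261] (nat_lit 0) [] false,
   Spec.mk (nat_lit 30945) (nat_lit 0) [nat_lit 17823, nat_lit 44067, nat_lit 35319, nat_lit 29487, nat_lit 31431, nat_lit 30783, nat_lit 31107, nat_lit 30891, nat_lit 30951, nat_lit 30943, nat_lit 11263] (nat_lit 0) [] false,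
   Spec.mk (nat_lit 30951) (nat_lit 0) [nat_lit 17829, nat_lit 44073, nat_lit 35325, nat_lit 29493, nat_lit 31437, nat_lit 30789, nat_lit 31113, nat_lit 30897, nat_lit 30969, nat_lit 30945, nat_lit 11269] (nat_lit 0) [] false,
   Spec.mk (nat_lit 30969) (nat_lit 1) [nat_lit 17847, nat_lit 44091, nat_lit 35343, nat_lit 29511, nat_lit 31455, nat_lit 30807, nat_lit 31131, nat_lit 30915, nat_lit 31023, nat_lit 30951, nat_lit 11287] (nat_lit 0) [] false,
   Spec.mk (nat_lit 31023) (nat_lit 1) [nat_lit 17901, nat_lit 44145, nat_lit 35397, nat_lit 29565, nat_lit 31509, nat_lit 31185, nat_lit 30969, nat_lit 11341] (nat_lit 0) [] false,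
   Spec.mk (nat_lit 31105) (nat_lit 0) [nat_lit 17983, nat_lit 44227, nat_lit 35479, nat_lit 29647, nat_lit 31591, nat_lit 30943, nat_lit 31107, nat_lit 50787, nat_lit 11423] (nat_lit 0) [] false,
   Spec.mk (nat_lit 31107) (nat_lit 0) [nat_lit 17985, nat_lit 44229, nat_lit 35481, nat_lit 29649, nat_lit 31593, nat_lit 30945, nat_lit 31113, nat_lit 31105, nat_lit 11425] (nat_lit 1) [] false,
   Spec.mk (nat_lit 31113) (nat_lit 0) [nat_lit 17991, nat_lit 44235, nat_lit 35487, nat_lit 29655, nat_lit 31599, nat_lit 30951, nat_lit 31131, nat_lit 31107, nat_lit 11431] (nat_lit 1) [] false,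
   Spec.mk (nat_lit 31131) (nat_lit 0) [nat_lit 18009, nat_lit 44253, nat_lit 35505, nat_lit 29673, nat_lit 31617, nat_lit 30969, nat_lit 31185, nat_lit 31113, nat_lit 11449] (nat_lit 1) [] false,
   Spec.mk (nat_lit 31185) (nat_lit 1) [nat_lit 18063, nat_lit 44307, nat_lit 35559, nat_lit 29727, nat_lit 31671, nat_lit 31023, nat_lit 31131, nat_lit 11503] (nat_lit 0) [] false,
   Spec.mk (nat_lit 31349) (nat_lit 3) [nat_lit 18227, nat_lit 44471, nat_lit 35723, nat_lit 29891, nat_lit 30863, nat_lit 31351, nat_lit 51031] (nat_lit 0) [] false,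
   Spec.mk (nat_lit 31351) (nat_lit 3) [nat_lit 18229, nat_lit 44473, nat_lit 35725, nat_lit 29893, nat_lit 30865, nat_lit 31357, nat_lit 31349, nat_lit 31353, nat_lit 51033, nat_lit 11669] (nat_lit 0) [] false,
   Spec.mk (nat_lit 31353) (nat_lit 1) [nat_lit 18231, nat_lit 44475, nat_lit 35727, nat_lit 29895, nat_lit 30867, nat_lit 31359, nat_lit 31351, nat_lit 11671] (nat_lit 0) [] false,
   Spec.mk (nat_lit 31357) (nat_lit 2) [nat_lit 18235, nat_lit 44479, nat_lit 35731, nat_lit 29899, nat_lit 30871, nat_lit 31375, nat_lit 31351, nat_lit 31359, nat_lit 51039, nat_lit 11675] (nat_lit 0) [] false,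
   Spec.mk (nat_lit 31359) (nat_lit 2) [nat_lit 18237, nat_lit 44481, nat_lit 35733, nat_lit 29901, nat_lit 30873, nat_lit 31377, nat_lit 31353, nat_lit 31365, nat_lit 31357, nat_lit 11677] (nat_lit 0) [] false,
   Spec.mk (nat_lit 31365) (nat_lit 1) [nat_lit 18243, nat_lit 44487, nat_lit 35739, nat_lit 29907, nat_lit 30879, nat_lit 31383, nat_lit 31359, nat_lit 11683] (nat_lit 0) [] false,
   Spec.mk (nat_lit 31375) (nat_lit 2) [nat_lit 18253, nat_lit 44497, nat_lit 35749, nat_lit 29917, nat_lit 30889, nat_lit 31429, nat_lit 31357, nat_lit 31377, nat_lit 51057, nat_lit 11693] (nat_lit 0) [] false,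
   Spec.mk (nat_lit 31377) (nat_lit 1) [nat_lit 18255, nat_lit 44499, nat_lit 35751, nat_lit 29919, nat_lit 30891, nat_lit 31431, nat_lit 31359, nat_lit 31383, nat_lit 31375, nat_lit 11695] (nat_lit 0) [] false,
   Spec.mk (nat_lit 31383) (nat_lit 2) [nat_lit 18261, nat_lit 44505, nat_lit 35757, nat_lit 29925, nat_lit 30897, nat_lit 31437, nat_lit 31365, nat_lit 31401, nat_lit 31377, nat_lit 11701] (nat_lit 0) [] false,
   Spec.mk (nat_lit 31401) (nat_lit 1) [nat_lit 18279, nat_lit 44523, nat_lit 35775, nat_lit 29943, nat_lit 30915, nat_lit 31455, nat_lit 31383, nat_lit 11719] (nat_lit 0) [] false,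
   Spec.mk (nat_lit 31429) (nat_lit 2) [nat_lit 18307, nat_lit 44551, nat_lit 35803, nat_lit 29971, nat_lit 30943, nat_lit 31591, nat_lit 31375, nat_lit 31431, nat_lit 51111, nat_lit 11747] (nat_lit 0) [] false,
   Spec.mk (nat_lit 31431) (nat_lit 1) [nat_lit 18309, nat_lit 44553, nat_lit 35805, nat_lit 29973, nat_lit 30945, nat_lit 31593, nat_lit 31377, nat_lit 31437, nat_lit 31429, nat_lit 11749] (nat_lit 0) [] false,
   Spec.mk (nat_lit 31437) (nat_lit 1) [nat_lit 18315, nat_lit 44559, nat_lit 35811, nat_lit 29979, nat_lit 30951, nat_lit 31599, nat_lit 31383, nat_lit 31455, nat_lit 31431, nat_lit 11755] (nat_lit 0) [] false,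
   Spec.mk (nat_lit 31455) (nat_lit 2) [nat_lit 18333, nat_lit 44577, nat_lit 35829, nat_lit 29997, nat_lit 30969, nat_lit 31617, nat_lit 31401, nat_lit 31509, nat_lit 31437, nat_lit 11773] (nat_lit 0) [] false,
   Spec.mk (nat_lit 31509) (nat_lit 1) [nat_lit 18387, nat_lit 44631, nat_lit 35883, nat_lit 30051, nat_lit 31023, nat_lit 31671, nat_lit 31455, nat_lit 11827] (nat_lit 0) [] false,
   Spec.mk (nat_lit 31591) (nat_lit 3) [nat_lit 18469, nat_lit 44713, nat_lit 35965, nat_lit 30133, nat_lit 31105, nat_lit 32077, nat_lit 31429, nat_lit 31593, nat_lit 51273, nat_lit 11909] (nat_lit 0) [] false,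
   Spec.mk (nat_lit 31593) (nat_lit 2) [nat_lit 18471, nat_lit 44715, nat_lit 35967, nat_lit 30135, nat_lit 31107, nat_lit 32079, nat_lit 31431, nat_lit 31599, nat_lit 31591, nat_lit 11911] (nat_lit 0) [] false,
   Spec.mk (nat_lit 31599) (nat_lit 2) [nat_lit 18477, nat_lit 44721, nat_lit 35973, nat_lit 30141, nat_lit 31113, nat_lit 32085, nat_lit 31437, nat_lit 31617, nat_lit 31593, nat_lit 11917] (nat_lit 0) [] false,
   Spec.mk (nat_lit 31617) (nat_lit 2) [nat_lit 18495, nat_lit 44739, nat_lit 35991, nat_lit 30159, nat_lit 31131, nat_lit 32103, nat_lit 31455, nat_lit 31671, nat_lit 31599, nat_lit 11935] (nat_lit 0) [] false,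
   Spec.mk (nat_lit 31671) (nat_lit 3) [nat_lit 18549, nat_lit 44793, nat_lit 36045, nat_lit 30213, nat_lit 31185, nat_lit 32157, nat_lit 31509, nat_lit 31833, nat_lit 31617, nat_lit 11989] (nat_lit 0) [] false,
   Spec.mk (nat_lit 31833) (nat_lit 3) [nat_lit 18711, nat_lit 44955, nat_lit 36207, nat_lit 30375, nat_lit 32319, nat_lit 31671, nat_lit 12151] (nat_lit 0) [] false,
   Spec.mk (nat_lit 32077) (nat_lit 4) [nat_lit 18955, nat_lit 45199, nat_lit 36451, nat_lit 31591, nat_lit 32079, nat_lit 51759, nat_lit 12395] (nat_lit 0) [] false,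
   Spec.mk (nat_lit 32079) (nat_lit 3) [nat_lit 18957, nat_lit 45201, nat_lit 36453, nat_lit 31593, nat_lit 32085, nat_lit 32077, nat_lit 12397] (nat_lit 0) [] false,
   Spec.mk (nat_lit 32085) (nat_lit 3) [nat_lit 18963, nat_lit 45207, nat_lit 36459, nat_lit 31599, nat_lit 32103, nat_lit 32079, nat_lit 12403] (nat_lit 0) [] false,
   Spec.mk (nat_lit 32103) (nat_lit 3) [nat_lit 18981, nat_lit 45225, nat_lit 36477, nat_lit 31617, nat_lit 32157, nat_lit 32085, nat_lit 12421] (nat_lit 0) [] false,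
   Spec.mk (nat_lit 32157) (nat_lit 3) [nat_lit 19035, nat_lit 45279, nat_lit 36531, nat_lit 31671, nat_lit 32319, nat_lit 32103, nat_lit 12475] (nat_lit 0) [] false,
   Spec.mk (nat_lit 32319) (nat_lit 5) [nat_lit 19197, nat_lit 45441, nat_lit 36693, nat_lit 31833, nat_lit 32157, nat_lit 12637] (nat_lit 0) [] false,
   Spec.mk (nat_lit 32813) (nat_lit 4) [nat_lit 45935, nat_lit 28439, nat_lit 32819, nat_lit 52495] (nat_lit 0) [] false,
   Spec.mk (nat_lit 32819) (nat_lit 3) [nat_lit 45941, nat_lit 28445, nat_lit 32837, nat_lit 32813, nat_lit 32825, nat_lit 32821, nat_lit 52501] (nat_lit 0) [] false,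
   Spec.mk (nat_lit 32821) (nat_lit 3) [nat_lit 45943, nat_lit 28447, nat_lit 32839, nat_lit 32827, nat_lit 32819, nat_lit 52503, nat_lit 13139] (nat_lit 0) [] false,
   Spec.mk (nat_lit 32825) (nat_lit 0) [nat_lit 45947, nat_lit 28451, nat_lit 32843, nat_lit 32819, nat_lit 32827, nat_lit 52507] (nat_lit 0) [] false,
   Spec.mk (nat_lit 32827) (nat_lit 2) [nat_lit 45949, nat_lit 28453, nat_lit 32845, nat_lit 32821, nat_lit 32825, nat_lit 32829, nat_lit 52509, nat_lit 13145] (nat_lit 0) [] false,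
   Spec.mk (nat_lit 32829) (nat_lit 2) [nat_lit 45951, nat_lit 28455, nat_lit 32847, nat_lit 32827, nat_lit 13147] (nat_lit 0) [] false,
   Spec.mk (nat_lit 32837) (nat_lit 2) [nat_lit 45959, nat_lit 28463, nat_lit 32891, nat_lit 32819, nat_lit 32843, nat_lit 32839, nat_lit 52519] (nat_lit 0) [] false,
   Spec.mk (nat_lit 32839) (nat_lit 1) [nat_lit 45961, nat_lit 28465, nat_lit 32893, nat_lit 32821, nat_lit 32845, nat_lit 32837, nat_lit 52521, nat_lit 13157] (nat_lit 0) [] false]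

noncomputable def sp60 : List Spec :=
  [Spec.mk (nat_lit 32843) (nat_lit 1) [nat_lit 45965, nat_lit 28469, nat_lit 32897, nat_lit 32825, nat_lit 32861, nat_lit 32837, nat_lit 32845, nat_lit 52525] (nat_lit 0) [] false,
   Spec.mk (nat_lit 32845) (nat_lit 2) [nat_lit 45967, nat_lit 28471, nat_lit 32899, nat_lit 32827, nat_lit 32863, nat_lit 32839, nat_lit 32851, nat_lit 32843, nat_lit 32847, nat_lit 52527, nat_lit 13163] (nat_lit 0) [] false,
   Spec.mk (nat_lit 32847) (nat_lit 1) [nat_lit 45969, nat_lit 28473, nat_lit 32901, nat_lit 32829, nat_lit 32865, nat_lit 32853, nat_lit 32845, nat_lit 13165] (nat_lit 0) [] false,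
   Spec.mk (nat_lit 32851) (nat_lit 1) [nat_lit 45973, nat_lit 28477, nat_lit 32905, nat_lit 32869, nat_lit 32845, nat_lit 32853, nat_lit 52533, nat_lit 13169] (nat_lit 0) [] false,
   Spec.mk (nat_lit 32853) (nat_lit 2) [nat_lit 45975, nat_lit 28479, nat_lit 32907, nat_lit 32871, nat_lit 32847, nat_lit 32851, nat_lit 13171] (nat_lit 0) [] false,
   Spec.mk (nat_lit 32861) (nat_lit 0) [nat_lit 45983, nat_lit 28487, nat_lit 32915, nat_lit 32843, nat_lit 32863, nat_lit 52543] (nat_lit 0) [] false,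
   Spec.mk (nat_lit 32863) (nat_lit 0) [nat_lit 45985, nat_lit 28489, nat_lit 32917, nat_lit 32845, nat_lit 32869, nat_lit 32861, nat_lit 32865, nat_lit 52545, nat_lit 13181] (nat_lit 0) [] false,
   Spec.mk (nat_lit 32865) (nat_lit 0) [nat_lit 45987, nat_lit 28491, nat_lit 32919, nat_lit 32847, nat_lit 32871, nat_lit 32863, nat_lit 13183] (nat_lit 2) [] false,
   Spec.mk (nat_lit 32869) (nat_lit 1) [nat_lit 45991, nat_lit 28495, nat_lit 32923, nat_lit 32851, nat_lit 32863, nat_lit 32871, nat_lit 52551, nat_lit 13187] (nat_lit 0) [] false,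
   Spec.mk (nat_lit 32871) (nat_lit 1) [nat_lit 45993, nat_lit 28497, nat_lit 32925, nat_lit 32853, nat_lit 32865, nat_lit 32877, nat_lit 32869, nat_lit 13189] (nat_lit 0) [] false,
   Spec.mk (nat_lit 32877) (nat_lit 2) [nat_lit 45999, nat_lit 28503, nat_lit 32931, nat_lit 32871, nat_lit 13195] (nat_lit 0) [] false,
   Spec.mk (nat_lit 32891) (nat_lit 2) [nat_lit 46013, nat_lit 28517, nat_lit 33053, nat_lit 32837, nat_lit 32897, nat_lit 32893, nat_lit 52573] (nat_lit 0) [] false,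
   Spec.mk (nat_lit 32893) (nat_lit 1) [nat_lit 46015, nat_lit 28519, nat_lit 33055, nat_lit 32839, nat_lit 32899, nat_lit 32891, nat_lit 52575, nat_lit 13211] (nat_lit 0) [] false,
   Spec.mk (nat_lit 32897) (nat_lit 0) [nat_lit 46019, nat_lit 28523, nat_lit 33059, nat_lit 32843, nat_lit 32915, nat_lit 32891, nat_lit 32899, nat_lit 52579] (nat_lit 0) [] false,
   Spec.mk (nat_lit 32899) (nat_lit 1) [nat_lit 46021, nat_lit 28525, nat_lit 33061, nat_lit 32845, nat_lit 32917, nat_lit 32893, nat_lit 32905, nat_lit 32897, nat_lit 32901, nat_lit 52581, nat_lit 13217] (nat_lit 0) [] false,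
   Spec.mk (nat_lit 32901) (nat_lit 0) [nat_lit 46023, nat_lit 28527, nat_lit 33063, nat_lit 32847, nat_lit 32919, nat_lit 32907, nat_lit 32899, nat_lit 13219] (nat_lit 0) [] false,
   Spec.mk (nat_lit 32905) (nat_lit 0) [nat_lit 46027, nat_lit 28531, nat_lit 33067, nat_lit 32851, nat_lit 32923, nat_lit 32899, nat_lit 32907, nat_lit 52587, nat_lit 13223] (nat_lit 1) [] false,
   Spec.mk (nat_lit 32907) (nat_lit 0) [nat_lit 46029, nat_lit 28533, nat_lit 33069, nat_lit 32853, nat_lit 32925, nat_lit 32901, nat_lit 32905, nat_lit 13225] (nat_lit 0) [] false,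
   Spec.mk (nat_lit 32915) (nat_lit 1) [nat_lit 46037, nat_lit 28541, nat_lit 33077, nat_lit 32861, nat_lit 32969, nat_lit 32897, nat_lit 32917, nat_lit 52597] (nat_lit 0) [] false,
   Spec.mk (nat_lit 32917) (nat_lit 1) [nat_lit 46039, nat_lit 28543, nat_lit 33079, nat_lit 32863, nat_lit 32971, nat_lit 32899, nat_lit 32923, nat_lit 32915, nat_lit 32919, nat_lit 52599, nat_lit 13235] (nat_lit 0) [] false,
   Spec.mk (nat_lit 32919) (nat_lit 0) [nat_lit 46041, nat_lit 28545, nat_lit 33081, nat_lit 32865, nat_lit 32973, nat_lit 32901, nat_lit 32925, nat_lit 32917, nat_lit 13237] (nat_lit 1) [] false,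
   Spec.mk (nat_lit 32923) (nat_lit 1) [nat_lit 46045, nat_lit 28549, nat_lit 33085, nat_lit 32869, nat_lit 32977, nat_lit 32905, nat_lit 32941, nat_lit 32917, nat_lit 32925, nat_lit 52605, nat_lit 13241] (nat_lit 0) [] false,
   Spec.mk (nat_lit 32925) (nat_lit 1) [nat_lit 46047, nat_lit 28551, nat_lit 33087, nat_lit 32871, nat_lit 32979, nat_lit 32907, nat_lit 32943, nat_lit 32919, nat_lit 32931, nat_lit 32923, nat_lit 13243] (nat_lit 0) [] false,
   Spec.mk (nat_lit 32931) (nat_lit 1) [nat_lit 46053, nat_lit 28557, nat_lit 33093, nat_lit 32877, nat_lit 32985, nat_lit 32949, nat_lit 32925, nat_lit 13249] (nat_lit 0) [] false,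
   Spec.mk (nat_lit 32941) (nat_lit 1) [nat_lit 46063, nat_lit 28567, nat_lit 33103, nat_lit 32995, nat_lit 32923, nat_lit 32943, nat_lit 52623, nat_lit 13259] (nat_lit 0) [] false,
   Spec.mk (nat_lit 32943) (nat_lit 0) [nat_lit 46065, nat_lit 28569, nat_lit 33105, nat_lit 32997, nat_lit 32925, nat_lit 32949, nat_lit 32941, nat_lit 13261] (nat_lit 0) [] false,
   Spec.mk (nat_lit 32949) (nat_lit 2) [nat_lit 46071, nat_lit 28575, nat_lit 33111, nat_lit 33003, nat_lit 32931, nat_lit 32943, nat_lit 13267] (nat_lit 0) [] false,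
   Spec.mk (nat_lit 32969) (nat_lit 0) [nat_lit 46091, nat_lit 28595, nat_lit 33131, nat_lit 32915, nat_lit 32971, nat_lit 52651] (nat_lit 0) [] false,
   Spec.mk (nat_lit 32971) (nat_lit 0) [nat_lit 46093, nat_lit 28597, nat_lit 33133, nat_lit 32917, nat_lit 32977, nat_lit 32969, nat_lit 32973, nat_lit 52653, nat_lit 13289] (nat_lit 0) [] false,
   Spec.mk (nat_lit 32973) (nat_lit 0) [nat_lit 46095, nat_lit 28599, nat_lit 33135, nat_lit 32919, nat_lit 32979, nat_lit 32971, nat_lit 13291] (nat_lit 2) [] false,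
   Spec.mk (nat_lit 32977) (nat_lit 0) [nat_lit 46099, nat_lit 28603, nat_lit 33139, nat_lit 32923, nat_lit 32995, nat_lit 32971, nat_lit 32979, nat_lit 52659, nat_lit 13295] (nat_lit 1) [] false,
   Spec.mk (nat_lit 32979) (nat_lit 0) [nat_lit 46101, nat_lit 28605, nat_lit 33141, nat_lit 32925, nat_lit 32997, nat_lit 32973, nat_lit 32985, nat_lit 32977, nat_lit 13297] (nat_lit 1) [] false,
   Spec.mk (nat_lit 32985) (nat_lit 0) [nat_lit 46107, nat_lit 28611, nat_lit 33147, nat_lit 32931, nat_lit 33003, nat_lit 32979, nat_lit 13303] (nat_lit 2) [] false,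
   Spec.mk (nat_lit 32995) (nat_lit 1) [nat_lit 46117, nat_lit 28621, nat_lit 33157, nat_lit 32941, nat_lit 32977, nat_lit 32997, nat_lit 52677, nat_lit 13313] (nat_lit 0) [] false,
   Spec.mk (nat_lit 32997) (nat_lit 0) [nat_lit 46119, nat_lit 28623, nat_lit 33159, nat_lit 32943, nat_lit 32979, nat_lit 33003, nat_lit 32995, nat_lit 13315] (nat_lit 0) [] false,
   Spec.mk (nat_lit 33003) (nat_lit 1) [nat_lit 46125, nat_lit 28629, nat_lit 33165, nat_lit 32949, nat_lit 32985, nat_lit 33021, nat_lit 32997, nat_lit 13321] (nat_lit 0) [] false,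
   Spec.mk (nat_lit 33021) (nat_lit 2) [nat_lit 46143, nat_lit 28647, nat_lit 33183, nat_lit 33003, nat_lit 13339] (nat_lit 0) [] false,
   Spec.mk (nat_lit 33053) (nat_lit 2) [nat_lit 46175, nat_lit 28679, nat_lit 33539, nat_lit 32891, nat_lit 33059, nat_lit 33055, nat_lit 52735] (nat_lit 0) [] false,
   Spec.mk (nat_lit 33055) (nat_lit 1) [nat_lit 46177, nat_lit 28681, nat_lit 33541, nat_lit 32893, nat_lit 33061, nat_lit 33053, nat_lit 52737, nat_lit 13373] (nat_lit 0) [] false,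
   Spec.mk (nat_lit 33059) (nat_lit 0) [nat_lit 46181, nat_lit 28685, nat_lit 33545, nat_lit 32897, nat_lit 33077, nat_lit 33053, nat_lit 33061, nat_lit 52741] (nat_lit 0) [] false,
   Spec.mk (nat_lit 33061) (nat_lit 1) [nat_lit 46183, nat_lit 28687, nat_lit 33547, nat_lit 32899, nat_lit 33079, nat_lit 33055, nat_lit 33067, nat_lit 33059, nat_lit 33063, nat_lit 52743, nat_lit 13379] (nat_lit 0) [] false,
   Spec.mk (nat_lit 33063) (nat_lit 0) [nat_lit 46185, nat_lit 28689, nat_lit 33549, nat_lit 32901, nat_lit 33081, nat_lit 33069, nat_lit 33061, nat_lit 13381] (nat_lit 0) [] false,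
   Spec.mk (nat_lit 33067) (nat_lit 0) [nat_lit 46189, nat_lit 28693, nat_lit 33553, nat_lit 32905, nat_lit 33085, nat_lit 33061, nat_lit 33069, nat_lit 52749, nat_lit 13385] (nat_lit 1) [] false,
   Spec.mk (nat_lit 33069) (nat_lit 0) [nat_lit 46191, nat_lit 28695, nat_lit 33555, nat_lit 32907, nat_lit 33087, nat_lit 33063, nat_lit 33067, nat_lit 13387] (nat_lit 0) [] false,
   Spec.mk (nat_lit 33077) (nat_lit 0) [nat_lit 46199, nat_lit 28703, nat_lit 33563, nat_lit 32915, nat_lit 33131, nat_lit 33059, nat_lit 33079, nat_lit 52759] (nat_lit 0) [] false,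
   Spec.mk (nat_lit 33079) (nat_lit 0) [nat_lit 46201, nat_lit 28705, nat_lit 33565, nat_lit 32917, nat_lit 33133, nat_lit 33061, nat_lit 33085, nat_lit 33077, nat_lit 33081, nat_lit 52761, nat_lit 13397] (nat_lit 0) [] false,
   Spec.mk (nat_lit 33081) (nat_lit 0) [nat_lit 46203, nat_lit 28707, nat_lit 33567, nat_lit 32919, nat_lit 33135, nat_lit 33063, nat_lit 33087, nat_lit 33079, nat_lit 13399] (nat_lit 2) [] false,
   Spec.mk (nat_lit 33085) (nat_lit 0) [nat_lit 46207, nat_lit 28711, nat_lit 33571, nat_lit 32923, nat_lit 33139, nat_lit 33067, nat_lit 33103, nat_lit 33079, nat_lit 33087, nat_lit 52767, nat_lit 13403] (nat_lit 0) [] false,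
   Spec.mk (nat_lit 33087) (nat_lit 0) [nat_lit 46209, nat_lit 28713, nat_lit 33573, nat_lit 32925, nat_lit 33141, nat_lit 33069, nat_lit 33105, nat_lit 33081, nat_lit 33093, nat_lit 33085, nat_lit 13405] (nat_lit 0) [] false,
   Spec.mk (nat_lit 33093) (nat_lit 0) [nat_lit 46215, nat_lit 28719, nat_lit 33579, nat_lit 32931, nat_lit 33147, nat_lit 33111, nat_lit 33087, nat_lit 13411] (nat_lit 0) [] false,
   Spec.mk (nat_lit 33103) (nat_lit 0) [nat_lit 46225, nat_lit 28729, nat_lit 33589, nat_lit 32941, nat_lit 33157, nat_lit 33085, nat_lit 33105, nat_lit 52785, nat_lit 13421] (nat_lit 1) [] false,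
   Spec.mk (nat_lit 33105) (nat_lit 0) [nat_lit 46227, nat_lit 28731, nat_lit 33591, nat_lit 32943, nat_lit 33159, nat_lit 33087, nat_lit 33111, nat_lit 33103, nat_lit 13423] (nat_lit 2) [] false,
   Spec.mk (nat_lit 33111) (nat_lit 0) [nat_lit 46233, nat_lit 28737, nat_lit 33597, nat_lit 32949, nat_lit 33165, nat_lit 33093, nat_lit 33105, nat_lit 13429] (nat_lit 0) [] false,
   Spec.mk (nat_lit 33131) (nat_lit 1) [nat_lit 46253, nat_lit 28757, nat_lit 33617, nat_lit 32969, nat_lit 33293, nat_lit 33077, nat_lit 33133, nat_lit 52813] (nat_lit 0) [] false,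
   Spec.mk (nat_lit 33133) (nat_lit 1) [nat_lit 46255, nat_lit 28759, nat_lit 33619, nat_lit 32971, nat_lit 33295, nat_lit 33079, nat_lit 33139, nat_lit 33131, nat_lit 33135, nat_lit 52815, nat_lit 13451] (nat_lit 0) [] false,
   Spec.mk (nat_lit 33135) (nat_lit 0) [nat_lit 46257, nat_lit 28761, nat_lit 33621, nat_lit 32973, nat_lit 33297, nat_lit 33081, nat_lit 33141, nat_lit 33133, nat_lit 13453] (nat_lit 1) [] false,
   Spec.mk (nat_lit 33139) (nat_lit 0) [nat_lit 46261, nat_lit 28765, nat_lit 33625, nat_lit 32977, nat_lit 33301, nat_lit 33085, nat_lit 33157, nat_lit 33133, nat_lit 33141, nat_lit 52821, nat_lit 13457] (nat_lit 0) [] false,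
   Spec.mk (nat_lit 33141) (nat_lit 0) [nat_lit 46263, nat_lit 28767, nat_lit 33627, nat_lit 32979, nat_lit 33303, nat_lit 33087, nat_lit 33159, nat_lit 33135, nat_lit 33147, nat_lit 33139, nat_lit 13459] (nat_lit 0) [] false,
   Spec.mk (nat_lit 33147) (nat_lit 0) [nat_lit 46269, nat_lit 28773, nat_lit 33633, nat_lit 32985, nat_lit 33309, nat_lit 33093, nat_lit 33165, nat_lit 33141, nat_lit 13465] (nat_lit 1) [] false,
   Spec.mk (nat_lit 33157) (nat_lit 1) [nat_lit 46279, nat_lit 28783, nat_lit 33643, nat_lit 32995, nat_lit 33319, nat_lit 33103, nat_lit 33211, nat_lit 33139, nat_lit 33159, nat_lit 52839, nat_lit 13475] (nat_lit 0) [] false]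

noncomputable def sp61 : List Spec :=
  [Spec.mk (nat_lit 33159) (nat_lit 0) [nat_lit 46281, nat_lit 28785, nat_lit 33645, nat_lit 32997, nat_lit 33321, nat_lit 33105, nat_lit 33213, nat_lit 33141, nat_lit 33165, nat_lit 33157, nat_lit 13477] (nat_lit 0) [] false,
   Spec.mk (nat_lit 33165) (nat_lit 1) [nat_lit 46287, nat_lit 28791, nat_lit 33651, nat_lit 33003, nat_lit 33327, nat_lit 33111, nat_lit 33219, nat_lit 33147, nat_lit 33183, nat_lit 33159, nat_lit 13483] (nat_lit 0) [] false,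
   Spec.mk (nat_lit 33183) (nat_lit 1) [nat_lit 46305, nat_lit 28809, nat_lit 33669, nat_lit 33021, nat_lit 33345, nat_lit 33237, nat_lit 33165, nat_lit 13501] (nat_lit 0) [] false,
   Spec.mk (nat_lit 33211) (nat_lit 1) [nat_lit 46333, nat_lit 28837, nat_lit 33697, nat_lit 33373, nat_lit 33157, nat_lit 33213, nat_lit 52893, nat_lit 13529] (nat_lit 0) [] false,
   Spec.mk (nat_lit 33213) (nat_lit 0) [nat_lit 46335, nat_lit 28839, nat_lit 33699, nat_lit 33375, nat_lit 33159, nat_lit 33219, nat_lit 33211, nat_lit 13531] (nat_lit 0) [] false,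
   Spec.mk (nat_lit 33219) (nat_lit 0) [nat_lit 46341, nat_lit 28845, nat_lit 33705, nat_lit 33381, nat_lit 33165, nat_lit 33237, nat_lit 33213, nat_lit 13537] (nat_lit 0) [] false,
   Spec.mk (nat_lit 33237) (nat_lit 2) [nat_lit 46359, nat_lit 28863, nat_lit 33723, nat_lit 33399, nat_lit 33183, nat_lit 33219, nat_lit 13555] (nat_lit 0) [] false,
   Spec.mk (nat_lit 33293) (nat_lit 0) [nat_lit 46415, nat_lit 28919, nat_lit 33779, nat_lit 33131, nat_lit 33295, nat_lit 52975] (nat_lit 0) [] false,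
   Spec.mk (nat_lit 33295) (nat_lit 0) [nat_lit 46417, nat_lit 28921, nat_lit 33781, nat_lit 33133, nat_lit 33301, nat_lit 33293, nat_lit 33297, nat_lit 52977, nat_lit 13613] (nat_lit 0) [] false,
   Spec.mk (nat_lit 33297) (nat_lit 0) [nat_lit 46419, nat_lit 28923, nat_lit 33783, nat_lit 33135, nat_lit 33303, nat_lit 33295, nat_lit 13615] (nat_lit 2) [] false,
   Spec.mk (nat_lit 33301) (nat_lit 0) [nat_lit 46423, nat_lit 28927, nat_lit 33787, nat_lit 33139, nat_lit 33319, nat_lit 33295, nat_lit 33303, nat_lit 52983, nat_lit 13619] (nat_lit 1) [] false,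
   Spec.mk (nat_lit 33303) (nat_lit 0) [nat_lit 46425, nat_lit 28929, nat_lit 33789, nat_lit 33141, nat_lit 33321, nat_lit 33297, nat_lit 33309, nat_lit 33301, nat_lit 13621] (nat_lit 1) [] false,
   Spec.mk (nat_lit 33309) (nat_lit 0) [nat_lit 46431, nat_lit 28935, nat_lit 33795, nat_lit 33147, nat_lit 33327, nat_lit 33303, nat_lit 13627] (nat_lit 2) [] false,
   Spec.mk (nat_lit 33319) (nat_lit 0) [nat_lit 46441, nat_lit 28945, nat_lit 33805, nat_lit 33157, nat_lit 33373, nat_lit 33301, nat_lit 33321, nat_lit 53001, nat_lit 13637] (nat_lit 1) [] false,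
   Spec.mk (nat_lit 33321) (nat_lit 0) [nat_lit 46443, nat_lit 28947, nat_lit 33807, nat_lit 33159, nat_lit 33375, nat_lit 33303, nat_lit 33327, nat_lit 33319, nat_lit 13639] (nat_lit 2) [] false,
   Spec.mk (nat_lit 33327) (nat_lit 0) [nat_lit 46449, nat_lit 28953, nat_lit 33813, nat_lit 33165, nat_lit 33381, nat_lit 33309, nat_lit 33345, nat_lit 33321, nat_lit 13645] (nat_lit 1) [] false,
   Spec.mk (nat_lit 33345) (nat_lit 0) [nat_lit 46467, nat_lit 28971, nat_lit 33831, nat_lit 33183, nat_lit 33399, nat_lit 33327, nat_lit 13663] (nat_lit 2) [] false,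
   Spec.mk (nat_lit 33373) (nat_lit 1) [nat_lit 46495, nat_lit 28999, nat_lit 33859, nat_lit 33211, nat_lit 33319, nat_lit 33375, nat_lit 53055, nat_lit 13691] (nat_lit 0) [] false,
   Spec.mk (nat_lit 33375) (nat_lit 0) [nat_lit 46497, nat_lit 29001, nat_lit 33861, nat_lit 33213, nat_lit 33321, nat_lit 33381, nat_lit 33373, nat_lit 13693] (nat_lit 0) [] false,
   Spec.mk (nat_lit 33381) (nat_lit 0) [nat_lit 46503, nat_lit 29007, nat_lit 33867, nat_lit 33219, nat_lit 33327, nat_lit 33399, nat_lit 33375, nat_lit 13699] (nat_lit 0) [] false,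
   Spec.mk (nat_lit 33399) (nat_lit 1) [nat_lit 46521, nat_lit 29025, nat_lit 33885, nat_lit 33237, nat_lit 33345, nat_lit 33453, nat_lit 33381, nat_lit 13717] (nat_lit 0) [] false,
   Spec.mk (nat_lit 33453) (nat_lit 2) [nat_lit 46575, nat_lit 29079, nat_lit 33939, nat_lit 33399, nat_lit 13771] (nat_lit 0) [] false,
   Spec.mk (nat_lit 33539) (nat_lit 2) [nat_lit 46661, nat_lit 29165, nat_lit 34997, nat_lit 33053, nat_lit 33545, nat_lit 33541, nat_lit 53221] (nat_lit 0) [] false,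
   Spec.mk (nat_lit 33541) (nat_lit 1) [nat_lit 46663, nat_lit 29167, nat_lit 34999, nat_lit 33055, nat_lit 33547, nat_lit 33539, nat_lit 53223, nat_lit 13859] (nat_lit 0) [] false,
   Spec.mk (nat_lit 33545) (nat_lit 0) [nat_lit 46667, nat_lit 29171, nat_lit 35003, nat_lit 33059, nat_lit 33563, nat_lit 33539, nat_lit 33547, nat_lit 53227] (nat_lit 0) [] false,
   Spec.mk (nat_lit 33547) (nat_lit 1) [nat_lit 46669, nat_lit 29173, nat_lit 35005, nat_lit 33061, nat_lit 33565, nat_lit 33541, nat_lit 33553, nat_lit 33545, nat_lit 33549, nat_lit 53229, nat_lit 13865] (nat_lit 0) [] false,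
   Spec.mk (nat_lit 33549) (nat_lit 0) [nat_lit 46671, nat_lit 29175, nat_lit 35007, nat_lit 33063, nat_lit 33567, nat_lit 33555, nat_lit 33547, nat_lit 13867] (nat_lit 0) [] false,
   Spec.mk (nat_lit 33553) (nat_lit 0) [nat_lit 46675, nat_lit 29179, nat_lit 35011, nat_lit 33067, nat_lit 33571, nat_lit 33547, nat_lit 33555, nat_lit 53235, nat_lit 13871] (nat_lit 1) [] false,
   Spec.mk (nat_lit 33555) (nat_lit 0) [nat_lit 46677, nat_lit 29181, nat_lit 35013, nat_lit 33069, nat_lit 33573, nat_lit 33549, nat_lit 33553, nat_lit 13873] (nat_lit 0) [] false,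
   Spec.mk (nat_lit 33563) (nat_lit 0) [nat_lit 46685, nat_lit 29189, nat_lit 35021, nat_lit 33077, nat_lit 33617, nat_lit 33545, nat_lit 33565, nat_lit 53245] (nat_lit 0) [] false,
   Spec.mk (nat_lit 33565) (nat_lit 0) [nat_lit 46687, nat_lit 29191, nat_lit 35023, nat_lit 33079, nat_lit 33619, nat_lit 33547, nat_lit 33571, nat_lit 33563, nat_lit 33567, nat_lit 53247, nat_lit 13883] (nat_lit 0) [] false,
   Spec.mk (nat_lit 33567) (nat_lit 0) [nat_lit 46689, nat_lit 29193, nat_lit 35025, nat_lit 33081, nat_lit 33621, nat_lit 33549, nat_lit 33573, nat_lit 33565, nat_lit 13885] (nat_lit 2) [] false,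
   Spec.mk (nat_lit 33571) (nat_lit 0) [nat_lit 46693, nat_lit 29197, nat_lit 35029, nat_lit 33085, nat_lit 33625, nat_lit 33553, nat_lit 33589, nat_lit 33565, nat_lit 33573, nat_lit 53253, nat_lit 13889] (nat_lit 0) [] false,
   Spec.mk (nat_lit 33573) (nat_lit 0) [nat_lit 46695, nat_lit 29199, nat_lit 35031, nat_lit 33087, nat_lit 33627, nat_lit 33555, nat_lit 33591, nat_lit 33567, nat_lit 33579, nat_lit 33571, nat_lit 13891] (nat_lit 0) [] false,
   Spec.mk (nat_lit 33579) (nat_lit 0) [nat_lit 46701, nat_lit 29205, nat_lit 35037, nat_lit 33093, nat_lit 33633, nat_lit 33597, nat_lit 33573, nat_lit 13897] (nat_lit 0) [] false,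
   Spec.mk (nat_lit 33589) (nat_lit 0) [nat_lit 46711, nat_lit 29215, nat_lit 35047, nat_lit 33103, nat_lit 33643, nat_lit 33571, nat_lit 33591, nat_lit 53271, nat_lit 13907] (nat_lit 1) [] false,
   Spec.mk (nat_lit 33591) (nat_lit 0) [nat_lit 46713, nat_lit 29217, nat_lit 35049, nat_lit 33105, nat_lit 33645, nat_lit 33573, nat_lit 33597, nat_lit 33589, nat_lit 13909] (nat_lit 2) [] false,
   Spec.mk (nat_lit 33597) (nat_lit 0) [nat_lit 46719, nat_lit 29223, nat_lit 35055, nat_lit 33111, nat_lit 33651, nat_lit 33579, nat_lit 33591, nat_lit 13915] (nat_lit 0) [] false,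
   Spec.mk (nat_lit 33617) (nat_lit 0) [nat_lit 46739, nat_lit 29243, nat_lit 35075, nat_lit 33131, nat_lit 33779, nat_lit 33563, nat_lit 33619, nat_lit 53299] (nat_lit 0) [] false,
   Spec.mk (nat_lit 33619) (nat_lit 0) [nat_lit 46741, nat_lit 29245, nat_lit 35077, nat_lit 33133, nat_lit 33781, nat_lit 33565, nat_lit 33625, nat_lit 33617, nat_lit 33621, nat_lit 53301, nat_lit 13937] (nat_lit 0) [] false,
   Spec.mk (nat_lit 33621) (nat_lit 0) [nat_lit 46743, nat_lit 29247, nat_lit 35079, nat_lit 33135, nat_lit 33783, nat_lit 33567, nat_lit 33627, nat_lit 33619, nat_lit 13939] (nat_lit 2) [] false,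
   Spec.mk (nat_lit 33625) (nat_lit 0) [nat_lit 46747, nat_lit 29251, nat_lit 35083, nat_lit 33139, nat_lit 33787, nat_lit 33571, nat_lit 33643, nat_lit 33619, nat_lit 33627, nat_lit 53307, nat_lit 13943] (nat_lit 1) [] false,
   Spec.mk (nat_lit 33627) (nat_lit 0) [nat_lit 46749, nat_lit 29253, nat_lit 35085, nat_lit 33141, nat_lit 33789, nat_lit 33573, nat_lit 33645, nat_lit 33621, nat_lit 33633, nat_lit 33625, nat_lit 13945] (nat_lit 1) [] false,
   Spec.mk (nat_lit 33633) (nat_lit 0) [nat_lit 46755, nat_lit 29259, nat_lit 35091, nat_lit 33147, nat_lit 33795, nat_lit 33579, nat_lit 33651, nat_lit 33627, nat_lit 13951] (nat_lit 2) [] false,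
   Spec.mk (nat_lit 33643) (nat_lit 0) [nat_lit 46765, nat_lit 29269, nat_lit 35101, nat_lit 33157, nat_lit 33805, nat_lit 33589, nat_lit 33697, nat_lit 33625, nat_lit 33645, nat_lit 53325, nat_lit 13961] (nat_lit 0) [] false,
   Spec.mk (nat_lit 33645) (nat_lit 0) [nat_lit 46767, nat_lit 29271, nat_lit 35103, nat_lit 33159, nat_lit 33807, nat_lit 33591, nat_lit 33699, nat_lit 33627, nat_lit 33651, nat_lit 33643, nat_lit 13963] (nat_lit 1) [] false,
   Spec.mk (nat_lit 33651) (nat_lit 0) [nat_lit 46773, nat_lit 29277, nat_lit 35109, nat_lit 33165, nat_lit 33813, nat_lit 33597, nat_lit 33705, nat_lit 33633, nat_lit 33669, nat_lit 33645, nat_lit 13969] (nat_lit 0) [] false,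
   Spec.mk (nat_lit 33669) (nat_lit 0) [nat_lit 46791, nat_lit 29295, nat_lit 35127, nat_lit 33183, nat_lit 33831, nat_lit 33723, nat_lit 33651, nat_lit 13987] (nat_lit 0) [] false,
   Spec.mk (nat_lit 33697) (nat_lit 0) [nat_lit 46819, nat_lit 29323, nat_lit 35155, nat_lit 33211, nat_lit 33859, nat_lit 33643, nat_lit 33699, nat_lit 53379, nat_lit 14015] (nat_lit 1) [] false,
   Spec.mk (nat_lit 33699) (nat_lit 0) [nat_lit 46821, nat_lit 29325, nat_lit 35157, nat_lit 33213, nat_lit 33861, nat_lit 33645, nat_lit 33705, nat_lit 33697, nat_lit 14017] (nat_lit 2) [] false,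
   Spec.mk (nat_lit 33705) (nat_lit 0) [nat_lit 46827, nat_lit 29331, nat_lit 35163, nat_lit 33219, nat_lit 33867, nat_lit 33651, nat_lit 33723, nat_lit 33699, nat_lit 14023] (nat_lit 2) [] false,
   Spec.mk (nat_lit 33723) (nat_lit 0) [nat_lit 46845, nat_lit 29349, nat_lit 35181, nat_lit 33237, nat_lit 33885, nat_lit 33669, nat_lit 33705, nat_lit 14041] (nat_lit 0) [] false,
   Spec.mk (nat_lit 33779) (nat_lit 1) [nat_lit 46901, nat_lit 29405, nat_lit 35237, nat_lit 33293, nat_lit 34265, nat_lit 33617, nat_lit 33781, nat_lit 53461] (nat_lit 0) [] false,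
   Spec.mk (nat_lit 33781) (nat_lit 1) [nat_lit 46903, nat_lit 29407, nat_lit 35239, nat_lit 33295, nat_lit 34267, nat_lit 33619, nat_lit 33787, nat_lit 33779, nat_lit 33783, nat_lit 53463, nat_lit 14099] (nat_lit 0) [] false,
   Spec.mk (nat_lit 33783) (nat_lit 0) [nat_lit 46905, nat_lit 29409, nat_lit 35241, nat_lit 33297, nat_lit 34269, nat_lit 33621, nat_lit 33789, nat_lit 33781, nat_lit 14101] (nat_lit 1) [] false,
   Spec.mk (nat_lit 33787) (nat_lit 0) [nat_lit 46909, nat_lit 29413, nat_lit 35245, nat_lit 33301, nat_lit 34273, nat_lit 33625, nat_lit 33805, nat_lit 33781, nat_lit 33789, nat_lit 53469, nat_lit 14105] (nat_lit 0) [] false,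
   Spec.mk (nat_lit 33789) (nat_lit 0) [nat_lit 46911, nat_lit 29415, nat_lit 35247, nat_lit 33303, nat_lit 34275, nat_lit 33627, nat_lit 33807, nat_lit 33783, nat_lit 33795, nat_lit 33787, nat_lit 14107] (nat_lit 0) [] false,
   Spec.mk (nat_lit 33795) (nat_lit 0) [nat_lit 46917, nat_lit 29421, nat_lit 35253, nat_lit 33309, nat_lit 34281, nat_lit 33633, nat_lit 33813, nat_lit 33789, nat_lit 14113] (nat_lit 1) [] false,
   Spec.mk (nat_lit 33805) (nat_lit 0) [nat_lit 46927, nat_lit 29431, nat_lit 35263, nat_lit 33319, nat_lit 34291, nat_lit 33643, nat_lit 33859, nat_lit 33787, nat_lit 33807, nat_lit 53487, nat_lit 14123] (nat_lit 0) [] false,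
   Spec.mk (nat_lit 33807) (nat_lit 0) [nat_lit 46929, nat_lit 29433, nat_lit 35265, nat_lit 33321, nat_lit 34293, nat_lit 33645, nat_lit 33861, nat_lit 33789, nat_lit 33813, nat_lit 33805, nat_lit 14125] (nat_lit 1) [] false]

noncomputable def sp62 : List Spec :=
  [Spec.mk (nat_lit 33813) (nat_lit 0) [nat_lit 46935, nat_lit 29439, nat_lit 35271, nat_lit 33327, nat_lit 34299, nat_lit 33651, nat_lit 33867, nat_lit 33795, nat_lit 33831, nat_lit 33807, nat_lit 14131] (nat_lit 0) [] false,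
   Spec.mk (nat_lit 33831) (nat_lit 0) [nat_lit 46953, nat_lit 29457, nat_lit 35289, nat_lit 33345, nat_lit 34317, nat_lit 33669, nat_lit 33885, nat_lit 33813, nat_lit 14149] (nat_lit 1) [] false,
   Spec.mk (nat_lit 33859) (nat_lit 1) [nat_lit 46981, nat_lit 29485, nat_lit 35317, nat_lit 33373, nat_lit 34345, nat_lit 33697, nat_lit 34021, nat_lit 33805, nat_lit 33861, nat_lit 53541, nat_lit 14177] (nat_lit 0) [] false,
   Spec.mk (nat_lit 33861) (nat_lit 0) [nat_lit 46983, nat_lit 29487, nat_lit 35319, nat_lit 33375, nat_lit 34347, nat_lit 33699, nat_lit 34023, nat_lit 33807, nat_lit 33867, nat_lit 33859, nat_lit 14179] (nat_lit 0) [] false,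
   Spec.mk (nat_lit 33867) (nat_lit 0) [nat_lit 46989, nat_lit 29493, nat_lit 35325, nat_lit 33381, nat_lit 34353, nat_lit 33705, nat_lit 34029, nat_lit 33813, nat_lit 33885, nat_lit 33861, nat_lit 14185] (nat_lit 0) [] false,
   Spec.mk (nat_lit 33885) (nat_lit 1) [nat_lit 47007, nat_lit 29511, nat_lit 35343, nat_lit 33399, nat_lit 34371, nat_lit 33723, nat_lit 34047, nat_lit 33831, nat_lit 33939, nat_lit 33867, nat_lit 14203] (nat_lit 0) [] false,
   Spec.mk (nat_lit 33939) (nat_lit 1) [nat_lit 47061, nat_lit 29565, nat_lit 35397, nat_lit 33453, nat_lit 34425, nat_lit 34101, nat_lit 33885, nat_lit 14257] (nat_lit 0) [] false,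
   Spec.mk (nat_lit 34021) (nat_lit 1) [nat_lit 47143, nat_lit 29647, nat_lit 35479, nat_lit 34507, nat_lit 33859, nat_lit 34023, nat_lit 53703, nat_lit 14339] (nat_lit 0) [] false,
   Spec.mk (nat_lit 34023) (nat_lit 0) [nat_lit 47145, nat_lit 29649, nat_lit 35481, nat_lit 34509, nat_lit 33861, nat_lit 34029, nat_lit 34021, nat_lit 14341] (nat_lit 0) [] false,
   Spec.mk (nat_lit 34029) (nat_lit 0) [nat_lit 47151, nat_lit 29655, nat_lit 35487, nat_lit 34515, nat_lit 33867, nat_lit 34047, nat_lit 34023, nat_lit 14347] (nat_lit 0) [] false,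
   Spec.mk (nat_lit 34047) (nat_lit 0) [nat_lit 47169, nat_lit 29673, nat_lit 35505, nat_lit 34533, nat_lit 33885, nat_lit 34101, nat_lit 34029, nat_lit 14365] (nat_lit 0) [] false,
   Spec.mk (nat_lit 34101) (nat_lit 2) [nat_lit 47223, nat_lit 29727, nat_lit 35559, nat_lit 34587, nat_lit 33939, nat_lit 34047, nat_lit 14419] (nat_lit 0) [] false,
   Spec.mk (nat_lit 34265) (nat_lit 0) [nat_lit 47387, nat_lit 29891, nat_lit 35723, nat_lit 33779, nat_lit 34267, nat_lit 53947] (nat_lit 0) [] false,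
   Spec.mk (nat_lit 34267) (nat_lit 0) [nat_lit 47389, nat_lit 29893, nat_lit 35725, nat_lit 33781, nat_lit 34273, nat_lit 34265, nat_lit 34269, nat_lit 53949, nat_lit 14585] (nat_lit 0) [] false,
   Spec.mk (nat_lit 34269) (nat_lit 0) [nat_lit 47391, nat_lit 29895, nat_lit 35727, nat_lit 33783, nat_lit 34275, nat_lit 34267, nat_lit 14587] (nat_lit 2) [] false,
   Spec.mk (nat_lit 34273) (nat_lit 0) [nat_lit 47395, nat_lit 29899, nat_lit 35731, nat_lit 33787, nat_lit 34291, nat_lit 34267, nat_lit 34275, nat_lit 53955, nat_lit 14591] (nat_lit 1) [] false,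
   Spec.mk (nat_lit 34275) (nat_lit 0) [nat_lit 47397, nat_lit 29901, nat_lit 35733, nat_lit 33789, nat_lit 34293, nat_lit 34269, nat_lit 34281, nat_lit 34273, nat_lit 14593] (nat_lit 1) [] false,
   Spec.mk (nat_lit 34281) (nat_lit 0) [nat_lit 47403, nat_lit 29907, nat_lit 35739, nat_lit 33795, nat_lit 34299, nat_lit 34275, nat_lit 14599] (nat_lit 2) [] false,
   Spec.mk (nat_lit 34291) (nat_lit 0) [nat_lit 47413, nat_lit 29917, nat_lit 35749, nat_lit 33805, nat_lit 34345, nat_lit 34273, nat_lit 34293, nat_lit 53973, nat_lit 14609] (nat_lit 1) [] false,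
   Spec.mk (nat_lit 34293) (nat_lit 0) [nat_lit 47415, nat_lit 29919, nat_lit 35751, nat_lit 33807, nat_lit 34347, nat_lit 34275, nat_lit 34299, nat_lit 34291, nat_lit 14611] (nat_lit 2) [] false,
   Spec.mk (nat_lit 34299) (nat_lit 0) [nat_lit 47421, nat_lit 29925, nat_lit 35757, nat_lit 33813, nat_lit 34353, nat_lit 34281, nat_lit 34317, nat_lit 34293, nat_lit 14617] (nat_lit 1) [] false,
   Spec.mk (nat_lit 34317) (nat_lit 0) [nat_lit 47439, nat_lit 29943, nat_lit 35775, nat_lit 33831, nat_lit 34371, nat_lit 34299, nat_lit 14635] (nat_lit 2) [] false,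
   Spec.mk (nat_lit 34345) (nat_lit 0) [nat_lit 47467, nat_lit 29971, nat_lit 35803, nat_lit 33859, nat_lit 34507, nat_lit 34291, nat_lit 34347, nat_lit 54027, nat_lit 14663] (nat_lit 1) [] false,
   Spec.mk (nat_lit 34347) (nat_lit 0) [nat_lit 47469, nat_lit 29973, nat_lit 35805, nat_lit 33861, nat_lit 34509, nat_lit 34293, nat_lit 34353, nat_lit 34345, nat_lit 14665] (nat_lit 2) [] false,
   Spec.mk (nat_lit 34353) (nat_lit 0) [nat_lit 47475, nat_lit 29979, nat_lit 35811, nat_lit 33867, nat_lit 34515, nat_lit 34299, nat_lit 34371, nat_lit 34347, nat_lit 14671] (nat_lit 2) [] false,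
   Spec.mk (nat_lit 34371) (nat_lit 0) [nat_lit 47493, nat_lit 29997, nat_lit 35829, nat_lit 33885, nat_lit 34533, nat_lit 34317, nat_lit 34425, nat_lit 34353, nat_lit 14689] (nat_lit 1) [] false,
   Spec.mk (nat_lit 34425) (nat_lit 0) [nat_lit 47547, nat_lit 30051, nat_lit 35883, nat_lit 33939, nat_lit 34587, nat_lit 34371, nat_lit 14743] (nat_lit 2) [] false,
   Spec.mk (nat_lit 34507) (nat_lit 1) [nat_lit 47629, nat_lit 30133, nat_lit 35965, nat_lit 34021, nat_lit 34345, nat_lit 34509, nat_lit 54189, nat_lit 14825] (nat_lit 0) [] false,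
   Spec.mk (nat_lit 34509) (nat_lit 0) [nat_lit 47631, nat_lit 30135, nat_lit 35967, nat_lit 34023, nat_lit 34347, nat_lit 34515, nat_lit 34507, nat_lit 14827] (nat_lit 0) [] false,
   Spec.mk (nat_lit 34515) (nat_lit 0) [nat_lit 47637, nat_lit 30141, nat_lit 35973, nat_lit 34029, nat_lit 34353, nat_lit 34533, nat_lit 34509, nat_lit 14833] (nat_lit 0) [] false,
   Spec.mk (nat_lit 34533) (nat_lit 0) [nat_lit 47655, nat_lit 30159, nat_lit 35991, nat_lit 34047, nat_lit 34371, nat_lit 34587, nat_lit 34515, nat_lit 14851] (nat_lit 0) [] false,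
   Spec.mk (nat_lit 34587) (nat_lit 1) [nat_lit 47709, nat_lit 30213, nat_lit 36045, nat_lit 34101, nat_lit 34425, nat_lit 34749, nat_lit 34533, nat_lit 14905] (nat_lit 0) [] false,
   Spec.mk (nat_lit 34749) (nat_lit 2) [nat_lit 47871, nat_lit 30375, nat_lit 36207, nat_lit 34587, nat_lit 15067] (nat_lit 0) [] false,
   Spec.mk (nat_lit 34997) (nat_lit 4) [nat_lit 48119, nat_lit 30623, nat_lit 33539, nat_lit 35003, nat_lit 34999, nat_lit 54679] (nat_lit 0) [] false,
   Spec.mk (nat_lit 34999) (nat_lit 3) [nat_lit 48121, nat_lit 30625, nat_lit 33541, nat_lit 35005, nat_lit 34997, nat_lit 54681, nat_lit 15317] (nat_lit 0) [] false,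
   Spec.mk (nat_lit 35003) (nat_lit 2) [nat_lit 48125, nat_lit 30629, nat_lit 33545, nat_lit 35021, nat_lit 34997, nat_lit 35005, nat_lit 54685] (nat_lit 0) [] false,
   Spec.mk (nat_lit 35005) (nat_lit 3) [nat_lit 48127, nat_lit 30631, nat_lit 33547, nat_lit 35023, nat_lit 34999, nat_lit 35011, nat_lit 35003, nat_lit 35007, nat_lit 54687, nat_lit 15323] (nat_lit 0) [] false,
   Spec.mk (nat_lit 35007) (nat_lit 2) [nat_lit 48129, nat_lit 30633, nat_lit 33549, nat_lit 35025, nat_lit 35013, nat_lit 35005, nat_lit 15325] (nat_lit 0) [] false,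
   Spec.mk (nat_lit 35011) (nat_lit 1) [nat_lit 48133, nat_lit 30637, nat_lit 33553, nat_lit 35029, nat_lit 35005, nat_lit 35013, nat_lit 54693, nat_lit 15329] (nat_lit 0) [] false,
   Spec.mk (nat_lit 35013) (nat_lit 2) [nat_lit 48135, nat_lit 30639, nat_lit 33555, nat_lit 35031, nat_lit 35007, nat_lit 35011, nat_lit 15331] (nat_lit 0) [] false,
   Spec.mk (nat_lit 35021) (nat_lit 2) [nat_lit 48143, nat_lit 30647, nat_lit 33563, nat_lit 35075, nat_lit 35003, nat_lit 35023, nat_lit 54703] (nat_lit 0) [] false,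
   Spec.mk (nat_lit 35023) (nat_lit 2) [nat_lit 48145, nat_lit 30649, nat_lit 33565, nat_lit 35077, nat_lit 35005, nat_lit 35029, nat_lit 35021, nat_lit 35025, nat_lit 54705, nat_lit 15341] (nat_lit 0) [] false,
   Spec.mk (nat_lit 35025) (nat_lit 0) [nat_lit 48147, nat_lit 30651, nat_lit 33567, nat_lit 35079, nat_lit 35007, nat_lit 35031, nat_lit 35023, nat_lit 15343] (nat_lit 0) [] false,
   Spec.mk (nat_lit 35029) (nat_lit 2) [nat_lit 48151, nat_lit 30655, nat_lit 33571, nat_lit 35083, nat_lit 35011, nat_lit 35047, nat_lit 35023, nat_lit 35031, nat_lit 54711, nat_lit 15347] (nat_lit 0) [] false,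
   Spec.mk (nat_lit 35031) (nat_lit 2) [nat_lit 48153, nat_lit 30657, nat_lit 33573, nat_lit 35085, nat_lit 35013, nat_lit 35049, nat_lit 35025, nat_lit 35037, nat_lit 35029, nat_lit 15349] (nat_lit 0) [] false,
   Spec.mk (nat_lit 35037) (nat_lit 2) [nat_lit 48159, nat_lit 30663, nat_lit 33579, nat_lit 35091, nat_lit 35055, nat_lit 35031, nat_lit 15355] (nat_lit 0) [] false,
   Spec.mk (nat_lit 35047) (nat_lit 1) [nat_lit 48169, nat_lit 30673, nat_lit 33589, nat_lit 35101, nat_lit 35029, nat_lit 35049, nat_lit 54729, nat_lit 15365] (nat_lit 0) [] false,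
   Spec.mk (nat_lit 35049) (nat_lit 0) [nat_lit 48171, nat_lit 30675, nat_lit 33591, nat_lit 35103, nat_lit 35031, nat_lit 35055, nat_lit 35047, nat_lit 15367] (nat_lit 0) [] false,
   Spec.mk (nat_lit 35055) (nat_lit 2) [nat_lit 48177, nat_lit 30681, nat_lit 33597, nat_lit 35109, nat_lit 35037, nat_lit 35049, nat_lit 15373] (nat_lit 0) [] false,
   Spec.mk (nat_lit 35075) (nat_lit 2) [nat_lit 48197, nat_lit 30701, nat_lit 33617, nat_lit 35237, nat_lit 35021, nat_lit 35077, nat_lit 54757] (nat_lit 0) [] false,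
   Spec.mk (nat_lit 35077) (nat_lit 2) [nat_lit 48199, nat_lit 30703, nat_lit 33619, nat_lit 35239, nat_lit 35023, nat_lit 35083, nat_lit 35075, nat_lit 35079, nat_lit 54759, nat_lit 15395] (nat_lit 0) [] false,
   Spec.mk (nat_lit 35079) (nat_lit 0) [nat_lit 48201, nat_lit 30705, nat_lit 33621, nat_lit 35241, nat_lit 35025, nat_lit 35085, nat_lit 35077, nat_lit 15397] (nat_lit 0) [] false,
   Spec.mk (nat_lit 35083) (nat_lit 1) [nat_lit 48205, nat_lit 30709, nat_lit 33625, nat_lit 35245, nat_lit 35029, nat_lit 35101, nat_lit 35077, nat_lit 35085, nat_lit 54765, nat_lit 15401] (nat_lit 0) [] false,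
   Spec.mk (nat_lit 35085) (nat_lit 1) [nat_lit 48207, nat_lit 30711, nat_lit 33627, nat_lit 35247, nat_lit 35031, nat_lit 35103, nat_lit 35079, nat_lit 35091, nat_lit 35083, nat_lit 15403] (nat_lit 0) [] false,
   Spec.mk (nat_lit 35091) (nat_lit 0) [nat_lit 48213, nat_lit 30717, nat_lit 33633, nat_lit 35253, nat_lit 35037, nat_lit 35109, nat_lit 35085, nat_lit 15409] (nat_lit 0) [] false,
   Spec.mk (nat_lit 35101) (nat_lit 2) [nat_lit 48223, nat_lit 30727, nat_lit 33643, nat_lit 35263, nat_lit 35047, nat_lit 35155, nat_lit 35083, nat_lit 35103, nat_lit 54783, nat_lit 15419] (nat_lit 0) [] false,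
   Spec.mk (nat_lit 35103) (nat_lit 1) [nat_lit 48225, nat_lit 30729, nat_lit 33645, nat_lit 35265, nat_lit 35049, nat_lit 35157, nat_lit 35085, nat_lit 35109, nat_lit 35101, nat_lit 15421] (nat_lit 0) [] false,
   Spec.mk (nat_lit 35109) (nat_lit 2) [nat_lit 48231, nat_lit 30735, nat_lit 33651, nat_lit 35271, nat_lit 35055, nat_lit 35163, nat_lit 35091, nat_lit 35127, nat_lit 35103, nat_lit 15427] (nat_lit 0) [] false,
   Spec.mk (nat_lit 35127) (nat_lit 2) [nat_lit 48249, nat_lit 30753, nat_lit 33669, nat_lit 35289, nat_lit 35181, nat_lit 35109, nat_lit 15445] (nat_lit 0) [] false,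
   Spec.mk (nat_lit 35155) (nat_lit 1) [nat_lit 48277, nat_lit 30781, nat_lit 33697, nat_lit 35317, nat_lit 35101, nat_lit 35157, nat_lit 54837, nat_lit 15473] (nat_lit 0) [] false]

noncomputable def sp63 : List Spec :=
  [Spec.mk (nat_lit 35157) (nat_lit 0) [nat_lit 48279, nat_lit 30783, nat_lit 33699, nat_lit 35319, nat_lit 35103, nat_lit 35163, nat_lit 35155, nat_lit 15475] (nat_lit 0) [] false,
   Spec.mk (nat_lit 35163) (nat_lit 0) [nat_lit 48285, nat_lit 30789, nat_lit 33705, nat_lit 35325, nat_lit 35109, nat_lit 35181, nat_lit 35157, nat_lit 15481] (nat_lit 0) [] false,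
   Spec.mk (nat_lit 35181) (nat_lit 2) [nat_lit 48303, nat_lit 30807, nat_lit 33723, nat_lit 35343, nat_lit 35127, nat_lit 35163, nat_lit 15499] (nat_lit 0) [] false,
   Spec.mk (nat_lit 35237) (nat_lit 2) [nat_lit 48359, nat_lit 30863, nat_lit 33779, nat_lit 35723, nat_lit 35075, nat_lit 35239, nat_lit 54919] (nat_lit 0) [] false,
   Spec.mk (nat_lit 35239) (nat_lit 2) [nat_lit 48361, nat_lit 30865, nat_lit 33781, nat_lit 35725, nat_lit 35077, nat_lit 35245, nat_lit 35237, nat_lit 35241, nat_lit 54921, nat_lit 15557] (nat_lit 0) [] false,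
   Spec.mk (nat_lit 35241) (nat_lit 0) [nat_lit 48363, nat_lit 30867, nat_lit 33783, nat_lit 35727, nat_lit 35079, nat_lit 35247, nat_lit 35239, nat_lit 15559] (nat_lit 0) [] false,
   Spec.mk (nat_lit 35245) (nat_lit 1) [nat_lit 48367, nat_lit 30871, nat_lit 33787, nat_lit 35731, nat_lit 35083, nat_lit 35263, nat_lit 35239, nat_lit 35247, nat_lit 54927, nat_lit 15563] (nat_lit 0) [] false,
   Spec.mk (nat_lit 35247) (nat_lit 1) [nat_lit 48369, nat_lit 30873, nat_lit 33789, nat_lit 35733, nat_lit 35085, nat_lit 35265, nat_lit 35241, nat_lit 35253, nat_lit 35245, nat_lit 15565] (nat_lit 0) [] false,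
   Spec.mk (nat_lit 35253) (nat_lit 0) [nat_lit 48375, nat_lit 30879, nat_lit 33795, nat_lit 35739, nat_lit 35091, nat_lit 35271, nat_lit 35247, nat_lit 15571] (nat_lit 0) [] false,
   Spec.mk (nat_lit 35263) (nat_lit 1) [nat_lit 48385, nat_lit 30889, nat_lit 33805, nat_lit 35749, nat_lit 35101, nat_lit 35317, nat_lit 35245, nat_lit 35265, nat_lit 54945, nat_lit 15581] (nat_lit 0) [] false,
   Spec.mk (nat_lit 35265) (nat_lit 0) [nat_lit 48387, nat_lit 30891, nat_lit 33807, nat_lit 35751, nat_lit 35103, nat_lit 35319, nat_lit 35247, nat_lit 35271, nat_lit 35263, nat_lit 15583] (nat_lit 0) [] false,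
   Spec.mk (nat_lit 35271) (nat_lit 1) [nat_lit 48393, nat_lit 30897, nat_lit 33813, nat_lit 35757, nat_lit 35109, nat_lit 35325, nat_lit 35253, nat_lit 35289, nat_lit 35265, nat_lit 15589] (nat_lit 0) [] false,
   Spec.mk (nat_lit 35289) (nat_lit 0) [nat_lit 48411, nat_lit 30915, nat_lit 33831, nat_lit 35775, nat_lit 35127, nat_lit 35343, nat_lit 35271, nat_lit 15607] (nat_lit 0) [] false,
   Spec.mk (nat_lit 35317) (nat_lit 2) [nat_lit 48439, nat_lit 30943, nat_lit 33859, nat_lit 35803, nat_lit 35155, nat_lit 35479, nat_lit 35263, nat_lit 35319, nat_lit 54999, nat_lit 15635] (nat_lit 0) [] false,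
   Spec.mk (nat_lit 35319) (nat_lit 1) [nat_lit 48441, nat_lit 30945, nat_lit 33861, nat_lit 35805, nat_lit 35157, nat_lit 35481, nat_lit 35265, nat_lit 35325, nat_lit 35317, nat_lit 15637] (nat_lit 0) [] false,
   Spec.mk (nat_lit 35325) (nat_lit 1) [nat_lit 48447, nat_lit 30951, nat_lit 33867, nat_lit 35811, nat_lit 35163, nat_lit 35487, nat_lit 35271, nat_lit 35343, nat_lit 35319, nat_lit 15643] (nat_lit 0) [] false,
   Spec.mk (nat_lit 35343) (nat_lit 2) [nat_lit 48465, nat_lit 30969, nat_lit 33885, nat_lit 35829, nat_lit 35181, nat_lit 35505, nat_lit 35289, nat_lit 35397, nat_lit 35325, nat_lit 15661] (nat_lit 0) [] false,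
   Spec.mk (nat_lit 35397) (nat_lit 2) [nat_lit 48519, nat_lit 31023, nat_lit 33939, nat_lit 35883, nat_lit 35559, nat_lit 35343, nat_lit 15715] (nat_lit 0) [] false,
   Spec.mk (nat_lit 35479) (nat_lit 1) [nat_lit 48601, nat_lit 31105, nat_lit 34021, nat_lit 35965, nat_lit 35317, nat_lit 35481, nat_lit 55161, nat_lit 15797] (nat_lit 0) [] false,
   Spec.mk (nat_lit 35481) (nat_lit 0) [nat_lit 48603, nat_lit 31107, nat_lit 34023, nat_lit 35967, nat_lit 35319, nat_lit 35487, nat_lit 35479, nat_lit 15799] (nat_lit 0) [] false,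
   Spec.mk (nat_lit 35487) (nat_lit 0) [nat_lit 48609, nat_lit 31113, nat_lit 34029, nat_lit 35973, nat_lit 35325, nat_lit 35505, nat_lit 35481, nat_lit 15805] (nat_lit 0) [] false,
   Spec.mk (nat_lit 35505) (nat_lit 0) [nat_lit 48627, nat_lit 31131, nat_lit 34047, nat_lit 35991, nat_lit 35343, nat_lit 35559, nat_lit 35487, nat_lit 15823] (nat_lit 0) [] false,
   Spec.mk (nat_lit 35559) (nat_lit 2) [nat_lit 48681, nat_lit 31185, nat_lit 34101, nat_lit 36045, nat_lit 35397, nat_lit 35505, nat_lit 15877] (nat_lit 0) [] false,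
   Spec.mk (nat_lit 35723) (nat_lit 3) [nat_lit 48845, nat_lit 31349, nat_lit 34265, nat_lit 37181, nat_lit 35237, nat_lit 35725, nat_lit 55405] (nat_lit 0) [] false,
   Spec.mk (nat_lit 35725) (nat_lit 3) [nat_lit 48847, nat_lit 31351, nat_lit 34267, nat_lit 37183, nat_lit 35239, nat_lit 35731, nat_lit 35723, nat_lit 35727, nat_lit 55407, nat_lit 16043] (nat_lit 0) [] false,
   Spec.mk (nat_lit 35727) (nat_lit 1) [nat_lit 48849, nat_lit 31353, nat_lit 34269, nat_lit 37185, nat_lit 35241, nat_lit 35733, nat_lit 35725, nat_lit 16045] (nat_lit 0) [] false,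
   Spec.mk (nat_lit 35731) (nat_lit 2) [nat_lit 48853, nat_lit 31357, nat_lit 34273, nat_lit 37189, nat_lit 35245, nat_lit 35749, nat_lit 35725, nat_lit 35733, nat_lit 55413, nat_lit 16049] (nat_lit 0) [] false,
   Spec.mk (nat_lit 35733) (nat_lit 2) [nat_lit 48855, nat_lit 31359, nat_lit 34275, nat_lit 37191, nat_lit 35247, nat_lit 35751, nat_lit 35727, nat_lit 35739, nat_lit 35731, nat_lit 16051] (nat_lit 0) [] false,
   Spec.mk (nat_lit 35739) (nat_lit 1) [nat_lit 48861, nat_lit 31365, nat_lit 34281, nat_lit 37197, nat_lit 35253, nat_lit 35757, nat_lit 35733, nat_lit 16057] (nat_lit 0) [] false,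
   Spec.mk (nat_lit 35749) (nat_lit 2) [nat_lit 48871, nat_lit 31375, nat_lit 34291, nat_lit 37207, nat_lit 35263, nat_lit 35803, nat_lit 35731, nat_lit 35751, nat_lit 55431, nat_lit 16067] (nat_lit 0) [] false,
   Spec.mk (nat_lit 35751) (nat_lit 1) [nat_lit 48873, nat_lit 31377, nat_lit 34293, nat_lit 37209, nat_lit 35265, nat_lit 35805, nat_lit 35733, nat_lit 35757, nat_lit 35749, nat_lit 16069] (nat_lit 0) [] false,
   Spec.mk (nat_lit 35757) (nat_lit 2) [nat_lit 48879, nat_lit 31383, nat_lit 34299, nat_lit 37215, nat_lit 35271, nat_lit 35811, nat_lit 35739, nat_lit 35775, nat_lit 35751, nat_lit 16075] (nat_lit 0) [] false,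
   Spec.mk (nat_lit 35775) (nat_lit 1) [nat_lit 48897, nat_lit 31401, nat_lit 34317, nat_lit 37233, nat_lit 35289, nat_lit 35829, nat_lit 35757, nat_lit 16093] (nat_lit 0) [] false,
   Spec.mk (nat_lit 35803) (nat_lit 2) [nat_lit 48925, nat_lit 31429, nat_lit 34345, nat_lit 37261, nat_lit 35317, nat_lit 35965, nat_lit 35749, nat_lit 35805, nat_lit 55485, nat_lit 16121] (nat_lit 0) [] false,
   Spec.mk (nat_lit 35805) (nat_lit 1) [nat_lit 48927, nat_lit 31431, nat_lit 34347, nat_lit 37263, nat_lit 35319, nat_lit 35967, nat_lit 35751, nat_lit 35811, nat_lit 35803, nat_lit 16123] (nat_lit 0) [] false,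
   Spec.mk (nat_lit 35811) (nat_lit 1) [nat_lit 48933, nat_lit 31437, nat_lit 34353, nat_lit 37269, nat_lit 35325, nat_lit 35973, nat_lit 35757, nat_lit 35829, nat_lit 35805, nat_lit 16129] (nat_lit 0) [] false,
   Spec.mk (nat_lit 35829) (nat_lit 2) [nat_lit 48951, nat_lit 31455, nat_lit 34371, nat_lit 37287, nat_lit 35343, nat_lit 35991, nat_lit 35775, nat_lit 35883, nat_lit 35811, nat_lit 16147] (nat_lit 0) [] false,
   Spec.mk (nat_lit 35883) (nat_lit 1) [nat_lit 49005, nat_lit 31509, nat_lit 34425, nat_lit 37341, nat_lit 35397, nat_lit 36045, nat_lit 35829, nat_lit 16201] (nat_lit 0) [] false,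
   Spec.mk (nat_lit 35965) (nat_lit 3) [nat_lit 49087, nat_lit 31591, nat_lit 34507, nat_lit 37423, nat_lit 35479, nat_lit 36451, nat_lit 35803, nat_lit 35967, nat_lit 55647, nat_lit 16283] (nat_lit 0) [] false,
   Spec.mk (nat_lit 35967) (nat_lit 2) [nat_lit 49089, nat_lit 31593, nat_lit 34509, nat_lit 37425, nat_lit 35481, nat_lit 36453, nat_lit 35805, nat_lit 35973, nat_lit 35965, nat_lit 16285] (nat_lit 0) [] false,
   Spec.mk (nat_lit 35973) (nat_lit 2) [nat_lit 49095, nat_lit 31599, nat_lit 34515, nat_lit 37431, nat_lit 35487, nat_lit 36459, nat_lit 35811, nat_lit 35991, nat_lit 35967, nat_lit 16291] (nat_lit 0) [] false,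
   Spec.mk (nat_lit 35991) (nat_lit 2) [nat_lit 49113, nat_lit 31617, nat_lit 34533, nat_lit 37449, nat_lit 35505, nat_lit 36477, nat_lit 35829, nat_lit 36045, nat_lit 35973, nat_lit 16309] (nat_lit 0) [] false,
   Spec.mk (nat_lit 36045) (nat_lit 3) [nat_lit 49167, nat_lit 31671, nat_lit 34587, nat_lit 37503, nat_lit 35559, nat_lit 36531, nat_lit 35883, nat_lit 36207, nat_lit 35991, nat_lit 16363] (nat_lit 0) [] false,
   Spec.mk (nat_lit 36207) (nat_lit 3) [nat_lit 49329, nat_lit 31833, nat_lit 34749, nat_lit 37665, nat_lit 36693, nat_lit 36045, nat_lit 16525] (nat_lit 0) [] false,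
   Spec.mk (nat_lit 36451) (nat_lit 3) [nat_lit 49573, nat_lit 32077, nat_lit 37909, nat_lit 35965, nat_lit 36453, nat_lit 56133, nat_lit 16769] (nat_lit 0) [] false,
   Spec.mk (nat_lit 36453) (nat_lit 2) [nat_lit 49575, nat_lit 32079, nat_lit 37911, nat_lit 35967, nat_lit 36459, nat_lit 36451, nat_lit 16771] (nat_lit 0) [] false,
   Spec.mk (nat_lit 36459) (nat_lit 2) [nat_lit 49581, nat_lit 32085, nat_lit 37917, nat_lit 35973, nat_lit 36477, nat_lit 36453, nat_lit 16777] (nat_lit 0) [] false,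
   Spec.mk (nat_lit 36477) (nat_lit 2) [nat_lit 49599, nat_lit 32103, nat_lit 37935, nat_lit 35991, nat_lit 36531, nat_lit 36459, nat_lit 16795] (nat_lit 0) [] false,
   Spec.mk (nat_lit 36531) (nat_lit 2) [nat_lit 49653, nat_lit 32157, nat_lit 37989, nat_lit 36045, nat_lit 36693, nat_lit 36477, nat_lit 16849] (nat_lit 0) [] false,
   Spec.mk (nat_lit 36693) (nat_lit 4) [nat_lit 49815, nat_lit 32319, nat_lit 38151, nat_lit 36207, nat_lit 36531, nat_lit 17011] (nat_lit 0) [] false,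
   Spec.mk (nat_lit 37181) (nat_lit 4) [nat_lit 50303, nat_lit 35723, nat_lit 37183, nat_lit 56863] (nat_lit 0) [] false,
   Spec.mk (nat_lit 37183) (nat_lit 4) [nat_lit 50305, nat_lit 35725, nat_lit 37189, nat_lit 37181, nat_lit 37185, nat_lit 56865, nat_lit 17501] (nat_lit 0) [] false,
   Spec.mk (nat_lit 37185) (nat_lit 2) [nat_lit 50307, nat_lit 35727, nat_lit 37191, nat_lit 37183, nat_lit 17503] (nat_lit 0) [] false,
   Spec.mk (nat_lit 37189) (nat_lit 3) [nat_lit 50311, nat_lit 35731, nat_lit 37207, nat_lit 37183, nat_lit 37191, nat_lit 56871, nat_lit 17507] (nat_lit 0) [] false,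
   Spec.mk (nat_lit 37191) (nat_lit 3) [nat_lit 50313, nat_lit 35733, nat_lit 37209, nat_lit 37185, nat_lit 37197, nat_lit 37189, nat_lit 17509] (nat_lit 0) [] false,
   Spec.mk (nat_lit 37197) (nat_lit 2) [nat_lit 50319, nat_lit 35739, nat_lit 37215, nat_lit 37191, nat_lit 17515] (nat_lit 0) [] false,
   Spec.mk (nat_lit 37207) (nat_lit 3) [nat_lit 50329, nat_lit 35749, nat_lit 37261, nat_lit 37189, nat_lit 37209, nat_lit 56889, nat_lit 17525] (nat_lit 0) [] false,
   Spec.mk (nat_lit 37209) (nat_lit 2) [nat_lit 50331, nat_lit 35751, nat_lit 37263, nat_lit 37191, nat_lit 37215, nat_lit 37207, nat_lit 17527] (nat_lit 0) [] false,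
   Spec.mk (nat_lit 37215) (nat_lit 3) [nat_lit 50337, nat_lit 35757, nat_lit 37269, nat_lit 37197, nat_lit 37233, nat_lit 37209, nat_lit 17533] (nat_lit 0) [] false,
   Spec.mk (nat_lit 37233) (nat_lit 2) [nat_lit 50355, nat_lit 35775, nat_lit 37287, nat_lit 37215, nat_lit 17551] (nat_lit 0) [] false]

noncomputable def sp64 : List Spec :=
  [Spec.mk (nat_lit 37261) (nat_lit 3) [nat_lit 50383, nat_lit 35803, nat_lit 37423, nat_lit 37207, nat_lit 37263, nat_lit 56943, nat_lit 17579] (nat_lit 0) [] false,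
   Spec.mk (nat_lit 37263) (nat_lit 2) [nat_lit 50385, nat_lit 35805, nat_lit 37425, nat_lit 37209, nat_lit 37269, nat_lit 37261, nat_lit 17581] (nat_lit 0) [] false,
   Spec.mk (nat_lit 37269) (nat_lit 2) [nat_lit 50391, nat_lit 35811, nat_lit 37431, nat_lit 37215, nat_lit 37287, nat_lit 37263, nat_lit 17587] (nat_lit 0) [] false,
   Spec.mk (nat_lit 37287) (nat_lit 3) [nat_lit 50409, nat_lit 35829, nat_lit 37449, nat_lit 37233, nat_lit 37341, nat_lit 37269, nat_lit 17605] (nat_lit 0) [] false,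
   Spec.mk (nat_lit 37341) (nat_lit 2) [nat_lit 50463, nat_lit 35883, nat_lit 37503, nat_lit 37287, nat_lit 17659] (nat_lit 0) [] false,
   Spec.mk (nat_lit 37423) (nat_lit 3) [nat_lit 50545, nat_lit 35965, nat_lit 37909, nat_lit 37261, nat_lit 37425, nat_lit 57105, nat_lit 17741] (nat_lit 0) [] false,
   Spec.mk (nat_lit 37425) (nat_lit 2) [nat_lit 50547, nat_lit 35967, nat_lit 37911, nat_lit 37263, nat_lit 37431, nat_lit 37423, nat_lit 17743] (nat_lit 0) [] false,
   Spec.mk (nat_lit 37431) (nat_lit 2) [nat_lit 50553, nat_lit 35973, nat_lit 37917, nat_lit 37269, nat_lit 37449, nat_lit 37425, nat_lit 17749] (nat_lit 0) [] false,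
   Spec.mk (nat_lit 37449) (nat_lit 2) [nat_lit 50571, nat_lit 35991, nat_lit 37935, nat_lit 37287, nat_lit 37503, nat_lit 37431, nat_lit 17767] (nat_lit 0) [] false,
   Spec.mk (nat_lit 37503) (nat_lit 3) [nat_lit 50625, nat_lit 36045, nat_lit 37989, nat_lit 37341, nat_lit 37665, nat_lit 37449, nat_lit 17821] (nat_lit 0) [] false,
   Spec.mk (nat_lit 37665) (nat_lit 2) [nat_lit 50787, nat_lit 36207, nat_lit 38151, nat_lit 37503, nat_lit 17983] (nat_lit 0) [] false,
   Spec.mk (nat_lit 37909) (nat_lit 5) [nat_lit 51031, nat_lit 36451, nat_lit 37423, nat_lit 37911, nat_lit 57591, nat_lit 18227] (nat_lit 0) [] false,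
   Spec.mk (nat_lit 37911) (nat_lit 4) [nat_lit 51033, nat_lit 36453, nat_lit 37425, nat_lit 37917, nat_lit 37909, nat_lit 18229] (nat_lit 0) [] false,
   Spec.mk (nat_lit 37917) (nat_lit 4) [nat_lit 51039, nat_lit 36459, nat_lit 37431, nat_lit 37935, nat_lit 37911, nat_lit 18235] (nat_lit 0) [] false,
   Spec.mk (nat_lit 37935) (nat_lit 4) [nat_lit 51057, nat_lit 36477, nat_lit 37449, nat_lit 37989, nat_lit 37917, nat_lit 18253] (nat_lit 0) [] false,
   Spec.mk (nat_lit 37989) (nat_lit 4) [nat_lit 51111, nat_lit 36531, nat_lit 37503, nat_lit 38151, nat_lit 37935, nat_lit 18307] (nat_lit 0) [] false,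
   Spec.mk (nat_lit 38151) (nat_lit 5) [nat_lit 51273, nat_lit 36693, nat_lit 37665, nat_lit 38637, nat_lit 37989, nat_lit 18469] (nat_lit 0) [] false,
   Spec.mk (nat_lit 38637) (nat_lit 6) [nat_lit 51759, nat_lit 38151, nat_lit 18955] (nat_lit 0) [] false,
   Spec.mk (nat_lit 39383) (nat_lit 6) [nat_lit 26261, nat_lit 39401, nat_lit 39389] (nat_lit 0) [] false,
   Spec.mk (nat_lit 39389) (nat_lit 4) [nat_lit 26267, nat_lit 39407, nat_lit 39383, nat_lit 39391] (nat_lit 0) [] false,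
   Spec.mk (nat_lit 39391) (nat_lit 4) [nat_lit 26269, nat_lit 39409, nat_lit 39389, nat_lit 19709] (nat_lit 0) [] false,
   Spec.mk (nat_lit 39401) (nat_lit 4) [nat_lit 26279, nat_lit 39455, nat_lit 39383, nat_lit 39407] (nat_lit 0) [] false,
   Spec.mk (nat_lit 39407) (nat_lit 4) [nat_lit 26285, nat_lit 39461, nat_lit 39389, nat_lit 39425, nat_lit 39401, nat_lit 39413, nat_lit 39409] (nat_lit 0) [] false,
   Spec.mk (nat_lit 39409) (nat_lit 3) [nat_lit 26287, nat_lit 39463, nat_lit 39391, nat_lit 39427, nat_lit 39415, nat_lit 39407, nat_lit 19727] (nat_lit 0) [] false,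
   Spec.mk (nat_lit 39413) (nat_lit 2) [nat_lit 26291, nat_lit 39467, nat_lit 39431, nat_lit 39407, nat_lit 39415] (nat_lit 0) [] false,
   Spec.mk (nat_lit 39415) (nat_lit 3) [nat_lit 26293, nat_lit 39469, nat_lit 39433, nat_lit 39409, nat_lit 39413, nat_lit 39417, nat_lit 19733] (nat_lit 0) [] false,
   Spec.mk (nat_lit 39417) (nat_lit 2) [nat_lit 26295, nat_lit 39471, nat_lit 39435, nat_lit 39415, nat_lit 19735] (nat_lit 0) [] false,
   Spec.mk (nat_lit 39425) (nat_lit 2) [nat_lit 26303, nat_lit 39479, nat_lit 39407, nat_lit 39431, nat_lit 39427] (nat_lit 0) [] false,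
   Spec.mk (nat_lit 39427) (nat_lit 0) [nat_lit 26305, nat_lit 39481, nat_lit 39409, nat_lit 39433, nat_lit 39425, nat_lit 19745] (nat_lit 0) [] false,
   Spec.mk (nat_lit 39431) (nat_lit 2) [nat_lit 26309, nat_lit 39485, nat_lit 39413, nat_lit 39425, nat_lit 39433] (nat_lit 0) [] false,
   Spec.mk (nat_lit 39433) (nat_lit 2) [nat_lit 26311, nat_lit 39487, nat_lit 39415, nat_lit 39427, nat_lit 39439, nat_lit 39431, nat_lit 39435, nat_lit 19751] (nat_lit 0) [] false,
   Spec.mk (nat_lit 39435) (nat_lit 0) [nat_lit 26313, nat_lit 39489, nat_lit 39417, nat_lit 39441, nat_lit 39433, nat_lit 19753] (nat_lit 0) [] false,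
   Spec.mk (nat_lit 39439) (nat_lit 2) [nat_lit 26317, nat_lit 39493, nat_lit 39433, nat_lit 39441, nat_lit 19757] (nat_lit 0) [] false,
   Spec.mk (nat_lit 39441) (nat_lit 2) [nat_lit 26319, nat_lit 39495, nat_lit 39435, nat_lit 39439, nat_lit 19759] (nat_lit 0) [] false,
   Spec.mk (nat_lit 39455) (nat_lit 4) [nat_lit 26333, nat_lit 39617, nat_lit 39401, nat_lit 39461] (nat_lit 0) [] false,
   Spec.mk (nat_lit 39461) (nat_lit 3) [nat_lit 26339, nat_lit 39623, nat_lit 39407, nat_lit 39479, nat_lit 39455, nat_lit 39467, nat_lit 39463] (nat_lit 0) [] false,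
   Spec.mk (nat_lit 39463) (nat_lit 2) [nat_lit 26341, nat_lit 39625, nat_lit 39409, nat_lit 39481, nat_lit 39469, nat_lit 39461, nat_lit 19781] (nat_lit 0) [] false,
   Spec.mk (nat_lit 39467) (nat_lit 0) [nat_lit 26345, nat_lit 39629, nat_lit 39413, nat_lit 39485, nat_lit 39461, nat_lit 39469] (nat_lit 0) [] false,
   Spec.mk (nat_lit 39469) (nat_lit 1) [nat_lit 26347, nat_lit 39631, nat_lit 39415, nat_lit 39487, nat_lit 39463, nat_lit 39467, nat_lit 39471, nat_lit 19787] (nat_lit 0) [] false,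
   Spec.mk (nat_lit 39471) (nat_lit 0) [nat_lit 26349, nat_lit 39633, nat_lit 39417, nat_lit 39489, nat_lit 39469, nat_lit 19789] (nat_lit 0) [] false,
   Spec.mk (nat_lit 39479) (nat_lit 3) [nat_lit 26357, nat_lit 39641, nat_lit 39425, nat_lit 39533, nat_lit 39461, nat_lit 39485, nat_lit 39481] (nat_lit 0) [] false,
   Spec.mk (nat_lit 39481) (nat_lit 1) [nat_lit 26359, nat_lit 39643, nat_lit 39427, nat_lit 39535, nat_lit 39463, nat_lit 39487, nat_lit 39479, nat_lit 19799] (nat_lit 0) [] false,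
   Spec.mk (nat_lit 39485) (nat_lit 2) [nat_lit 26363, nat_lit 39647, nat_lit 39431, nat_lit 39539, nat_lit 39467, nat_lit 39503, nat_lit 39479, nat_lit 39487] (nat_lit 0) [] false,
   Spec.mk (nat_lit 39487) (nat_lit 2) [nat_lit 26365, nat_lit 39649, nat_lit 39433, nat_lit 39541, nat_lit 39469, nat_lit 39505, nat_lit 39481, nat_lit 39493, nat_lit 39485, nat_lit 39489, nat_lit 19805] (nat_lit 0) [] false,
   Spec.mk (nat_lit 39489) (nat_lit 0) [nat_lit 26367, nat_lit 39651, nat_lit 39435, nat_lit 39543, nat_lit 39471, nat_lit 39507, nat_lit 39495, nat_lit 39487, nat_lit 19807] (nat_lit 0) [] false,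
   Spec.mk (nat_lit 39493) (nat_lit 1) [nat_lit 26371, nat_lit 39655, nat_lit 39439, nat_lit 39547, nat_lit 39511, nat_lit 39487, nat_lit 39495, nat_lit 19811] (nat_lit 0) [] false,
   Spec.mk (nat_lit 39495) (nat_lit 1) [nat_lit 26373, nat_lit 39657, nat_lit 39441, nat_lit 39549, nat_lit 39513, nat_lit 39489, nat_lit 39493, nat_lit 19813] (nat_lit 0) [] false,
   Spec.mk (nat_lit 39503) (nat_lit 2) [nat_lit 26381, nat_lit 39665, nat_lit 39557, nat_lit 39485, nat_lit 39505] (nat_lit 0) [] false,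
   Spec.mk (nat_lit 39505) (nat_lit 1) [nat_lit 26383, nat_lit 39667, nat_lit 39559, nat_lit 39487, nat_lit 39511, nat_lit 39503, nat_lit 39507, nat_lit 19823] (nat_lit 0) [] false,
   Spec.mk (nat_lit 39507) (nat_lit 0) [nat_lit 26385, nat_lit 39669, nat_lit 39561, nat_lit 39489, nat_lit 39513, nat_lit 39505, nat_lit 19825] (nat_lit 2) [] false,
   Spec.mk (nat_lit 39511) (nat_lit 2) [nat_lit 26389, nat_lit 39673, nat_lit 39565, nat_lit 39493, nat_lit 39505, nat_lit 39513, nat_lit 19829] (nat_lit 0) [] false,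
   Spec.mk (nat_lit 39513) (nat_lit 1) [nat_lit 26391, nat_lit 39675, nat_lit 39567, nat_lit 39495, nat_lit 39507, nat_lit 39519, nat_lit 39511, nat_lit 19831] (nat_lit 0) [] false,
   Spec.mk (nat_lit 39519) (nat_lit 2) [nat_lit 26397, nat_lit 39681, nat_lit 39573, nat_lit 39513, nat_lit 19837] (nat_lit 0) [] false,
   Spec.mk (nat_lit 39533) (nat_lit 2) [nat_lit 26411, nat_lit 39695, nat_lit 39479, nat_lit 39539, nat_lit 39535] (nat_lit 0) [] false,
   Spec.mk (nat_lit 39535) (nat_lit 0) [nat_lit 26413, nat_lit 39697, nat_lit 39481, nat_lit 39541, nat_lit 39533, nat_lit 19853] (nat_lit 0) [] false,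
   Spec.mk (nat_lit 39539) (nat_lit 0) [nat_lit 26417, nat_lit 39701, nat_lit 39485, nat_lit 39557, nat_lit 39533, nat_lit 39541] (nat_lit 0) [] false,
   Spec.mk (nat_lit 39541) (nat_lit 0) [nat_lit 26419, nat_lit 39703, nat_lit 39487, nat_lit 39559, nat_lit 39535, nat_lit 39547, nat_lit 39539, nat_lit 39543, nat_lit 19859] (nat_lit 0) [] false,
   Spec.mk (nat_lit 39543) (nat_lit 0) [nat_lit 26421, nat_lit 39705, nat_lit 39489, nat_lit 39561, nat_lit 39549, nat_lit 39541, nat_lit 19861] (nat_lit 2) [] false,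
   Spec.mk (nat_lit 39547) (nat_lit 0) [nat_lit 26425, nat_lit 39709, nat_lit 39493, nat_lit 39565, nat_lit 39541, nat_lit 39549, nat_lit 19865] (nat_lit 2) [] false,
   Spec.mk (nat_lit 39549) (nat_lit 0) [nat_lit 26427, nat_lit 39711, nat_lit 39495, nat_lit 39567, nat_lit 39543, nat_lit 39547, nat_lit 19867] (nat_lit 2) [] false]

noncomputable def sp65 : List Spec :=
  [Spec.mk (nat_lit 39557) (nat_lit 2) [nat_lit 26435, nat_lit 39719, nat_lit 39503, nat_lit 39539, nat_lit 39559] (nat_lit 0) [] false,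
   Spec.mk (nat_lit 39559) (nat_lit 1) [nat_lit 26437, nat_lit 39721, nat_lit 39505, nat_lit 39541, nat_lit 39565, nat_lit 39557, nat_lit 39561, nat_lit 19877] (nat_lit 0) [] false,
   Spec.mk (nat_lit 39561) (nat_lit 0) [nat_lit 26439, nat_lit 39723, nat_lit 39507, nat_lit 39543, nat_lit 39567, nat_lit 39559, nat_lit 19879] (nat_lit 2) [] false,
   Spec.mk (nat_lit 39565) (nat_lit 1) [nat_lit 26443, nat_lit 39727, nat_lit 39511, nat_lit 39547, nat_lit 39583, nat_lit 39559, nat_lit 39567, nat_lit 19883] (nat_lit 0) [] false,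
   Spec.mk (nat_lit 39567) (nat_lit 0) [nat_lit 26445, nat_lit 39729, nat_lit 39513, nat_lit 39549, nat_lit 39585, nat_lit 39561, nat_lit 39573, nat_lit 39565, nat_lit 19885] (nat_lit 0) [] false,
   Spec.mk (nat_lit 39573) (nat_lit 0) [nat_lit 26451, nat_lit 39735, nat_lit 39519, nat_lit 39591, nat_lit 39567, nat_lit 19891] (nat_lit 0) [] false,
   Spec.mk (nat_lit 39583) (nat_lit 2) [nat_lit 26461, nat_lit 39745, nat_lit 39565, nat_lit 39585, nat_lit 19901] (nat_lit 0) [] false,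
   Spec.mk (nat_lit 39585) (nat_lit 0) [nat_lit 26463, nat_lit 39747, nat_lit 39567, nat_lit 39591, nat_lit 39583, nat_lit 19903] (nat_lit 0) [] false,
   Spec.mk (nat_lit 39591) (nat_lit 2) [nat_lit 26469, nat_lit 39753, nat_lit 39573, nat_lit 39585, nat_lit 19909] (nat_lit 0) [] false,
   Spec.mk (nat_lit 39617) (nat_lit 4) [nat_lit 26495, nat_lit 40103, nat_lit 39455, nat_lit 39623] (nat_lit 0) [] false,
   Spec.mk (nat_lit 39623) (nat_lit 3) [nat_lit 26501, nat_lit 40109, nat_lit 39461, nat_lit 39641, nat_lit 39617, nat_lit 39629, nat_lit 39625] (nat_lit 0) [] false,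
   Spec.mk (nat_lit 39625) (nat_lit 2) [nat_lit 26503, nat_lit 40111, nat_lit 39463, nat_lit 39643, nat_lit 39631, nat_lit 39623, nat_lit 19943] (nat_lit 0) [] false,
   Spec.mk (nat_lit 39629) (nat_lit 0) [nat_lit 26507, nat_lit 40115, nat_lit 39467, nat_lit 39647, nat_lit 39623, nat_lit 39631] (nat_lit 0) [] false,
   Spec.mk (nat_lit 39631) (nat_lit 1) [nat_lit 26509, nat_lit 40117, nat_lit 39469, nat_lit 39649, nat_lit 39625, nat_lit 39629, nat_lit 39633, nat_lit 19949] (nat_lit 0) [] false,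
   Spec.mk (nat_lit 39633) (nat_lit 0) [nat_lit 26511, nat_lit 40119, nat_lit 39471, nat_lit 39651, nat_lit 39631, nat_lit 19951] (nat_lit 0) [] false,
   Spec.mk (nat_lit 39641) (nat_lit 2) [nat_lit 26519, nat_lit 40127, nat_lit 39479, nat_lit 39695, nat_lit 39623, nat_lit 39647, nat_lit 39643] (nat_lit 0) [] false,
   Spec.mk (nat_lit 39643) (nat_lit 0) [nat_lit 26521, nat_lit 40129, nat_lit 39481, nat_lit 39697, nat_lit 39625, nat_lit 39649, nat_lit 39641, nat_lit 19961] (nat_lit 0) [] false,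
   Spec.mk (nat_lit 39647) (nat_lit 1) [nat_lit 26525, nat_lit 40133, nat_lit 39485, nat_lit 39701, nat_lit 39629, nat_lit 39665, nat_lit 39641, nat_lit 39649] (nat_lit 0) [] false,
   Spec.mk (nat_lit 39649) (nat_lit 1) [nat_lit 26527, nat_lit 40135, nat_lit 39487, nat_lit 39703, nat_lit 39631, nat_lit 39667, nat_lit 39643, nat_lit 39655, nat_lit 39647, nat_lit 39651, nat_lit 19967] (nat_lit 0) [] false,
   Spec.mk (nat_lit 39651) (nat_lit 0) [nat_lit 26529, nat_lit 40137, nat_lit 39489, nat_lit 39705, nat_lit 39633, nat_lit 39669, nat_lit 39657, nat_lit 39649, nat_lit 19969] (nat_lit 1) [] false,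
   Spec.mk (nat_lit 39655) (nat_lit 0) [nat_lit 26533, nat_lit 40141, nat_lit 39493, nat_lit 39709, nat_lit 39673, nat_lit 39649, nat_lit 39657, nat_lit 19973] (nat_lit 0) [] false,
   Spec.mk (nat_lit 39657) (nat_lit 0) [nat_lit 26535, nat_lit 40143, nat_lit 39495, nat_lit 39711, nat_lit 39675, nat_lit 39651, nat_lit 39655, nat_lit 19975] (nat_lit 0) [] false,
   Spec.mk (nat_lit 39665) (nat_lit 0) [nat_lit 26543, nat_lit 40151, nat_lit 39503, nat_lit 39719, nat_lit 39647, nat_lit 39667] (nat_lit 0) [] false,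
   Spec.mk (nat_lit 39667) (nat_lit 0) [nat_lit 26545, nat_lit 40153, nat_lit 39505, nat_lit 39721, nat_lit 39649, nat_lit 39673, nat_lit 39665, nat_lit 39669, nat_lit 19985] (nat_lit 1) [] false,
   Spec.mk (nat_lit 39669) (nat_lit 0) [nat_lit 26547, nat_lit 40155, nat_lit 39507, nat_lit 39723, nat_lit 39651, nat_lit 39675, nat_lit 39667, nat_lit 19987] (nat_lit 4) [] false,
   Spec.mk (nat_lit 39673) (nat_lit 0) [nat_lit 26551, nat_lit 40159, nat_lit 39511, nat_lit 39727, nat_lit 39655, nat_lit 39667, nat_lit 39675, nat_lit 19991] (nat_lit 0) [] false,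
   Spec.mk (nat_lit 39675) (nat_lit 0) [nat_lit 26553, nat_lit 40161, nat_lit 39513, nat_lit 39729, nat_lit 39657, nat_lit 39669, nat_lit 39681, nat_lit 39673, nat_lit 19993] (nat_lit 1) [] false,
   Spec.mk (nat_lit 39681) (nat_lit 0) [nat_lit 26559, nat_lit 40167, nat_lit 39519, nat_lit 39735, nat_lit 39675, nat_lit 19999] (nat_lit 0) [] false,
   Spec.mk (nat_lit 39695) (nat_lit 3) [nat_lit 26573, nat_lit 40181, nat_lit 39533, nat_lit 39857, nat_lit 39641, nat_lit 39701, nat_lit 39697] (nat_lit 0) [] false,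
   Spec.mk (nat_lit 39697) (nat_lit 1) [nat_lit 26575, nat_lit 40183, nat_lit 39535, nat_lit 39859, nat_lit 39643, nat_lit 39703, nat_lit 39695, nat_lit 20015] (nat_lit 0) [] false,
   Spec.mk (nat_lit 39701) (nat_lit 1) [nat_lit 26579, nat_lit 40187, nat_lit 39539, nat_lit 39863, nat_lit 39647, nat_lit 39719, nat_lit 39695, nat_lit 39703] (nat_lit 0) [] false,
   Spec.mk (nat_lit 39703) (nat_lit 1) [nat_lit 26581, nat_lit 40189, nat_lit 39541, nat_lit 39865, nat_lit 39649, nat_lit 39721, nat_lit 39697, nat_lit 39709, nat_lit 39701, nat_lit 39705, nat_lit 20021] (nat_lit 0) [] false,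
   Spec.mk (nat_lit 39705) (nat_lit 0) [nat_lit 26583, nat_lit 40191, nat_lit 39543, nat_lit 39867, nat_lit 39651, nat_lit 39723, nat_lit 39711, nat_lit 39703, nat_lit 20023] (nat_lit 1) [] false,
   Spec.mk (nat_lit 39709) (nat_lit 0) [nat_lit 26587, nat_lit 40195, nat_lit 39547, nat_lit 39871, nat_lit 39655, nat_lit 39727, nat_lit 39703, nat_lit 39711, nat_lit 20027] (nat_lit 1) [] false,
   Spec.mk (nat_lit 39711) (nat_lit 0) [nat_lit 26589, nat_lit 40197, nat_lit 39549, nat_lit 39873, nat_lit 39657, nat_lit 39729, nat_lit 39705, nat_lit 39709, nat_lit 20029] (nat_lit 1) [] false,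
   Spec.mk (nat_lit 39719) (nat_lit 2) [nat_lit 26597, nat_lit 40205, nat_lit 39557, nat_lit 39881, nat_lit 39665, nat_lit 39773, nat_lit 39701, nat_lit 39721] (nat_lit 0) [] false,
   Spec.mk (nat_lit 39721) (nat_lit 1) [nat_lit 26599, nat_lit 40207, nat_lit 39559, nat_lit 39883, nat_lit 39667, nat_lit 39775, nat_lit 39703, nat_lit 39727, nat_lit 39719, nat_lit 39723, nat_lit 20039] (nat_lit 0) [] false,
   Spec.mk (nat_lit 39723) (nat_lit 0) [nat_lit 26601, nat_lit 40209, nat_lit 39561, nat_lit 39885, nat_lit 39669, nat_lit 39777, nat_lit 39705, nat_lit 39729, nat_lit 39721, nat_lit 20041] (nat_lit 2) [] false,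
   Spec.mk (nat_lit 39727) (nat_lit 1) [nat_lit 26605, nat_lit 40213, nat_lit 39565, nat_lit 39889, nat_lit 39673, nat_lit 39781, nat_lit 39709, nat_lit 39745, nat_lit 39721, nat_lit 39729, nat_lit 20045] (nat_lit 0) [] false,
   Spec.mk (nat_lit 39729) (nat_lit 0) [nat_lit 26607, nat_lit 40215, nat_lit 39567, nat_lit 39891, nat_lit 39675, nat_lit 39783, nat_lit 39711, nat_lit 39747, nat_lit 39723, nat_lit 39735, nat_lit 39727, nat_lit 20047] (nat_lit 0) [] false,
   Spec.mk (nat_lit 39735) (nat_lit 0) [nat_lit 26613, nat_lit 40221, nat_lit 39573, nat_lit 39897, nat_lit 39681, nat_lit 39789, nat_lit 39753, nat_lit 39729, nat_lit 20053] (nat_lit 0) [] false,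
   Spec.mk (nat_lit 39745) (nat_lit 1) [nat_lit 26623, nat_lit 40231, nat_lit 39583, nat_lit 39907, nat_lit 39799, nat_lit 39727, nat_lit 39747, nat_lit 20063] (nat_lit 0) [] false,
   Spec.mk (nat_lit 39747) (nat_lit 0) [nat_lit 26625, nat_lit 40233, nat_lit 39585, nat_lit 39909, nat_lit 39801, nat_lit 39729, nat_lit 39753, nat_lit 39745, nat_lit 20065] (nat_lit 1) [] false,
   Spec.mk (nat_lit 39753) (nat_lit 1) [nat_lit 26631, nat_lit 40239, nat_lit 39591, nat_lit 39915, nat_lit 39807, nat_lit 39735, nat_lit 39747, nat_lit 20071] (nat_lit 0) [] false,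
   Spec.mk (nat_lit 39773) (nat_lit 2) [nat_lit 26651, nat_lit 40259, nat_lit 39935, nat_lit 39719, nat_lit 39775] (nat_lit 0) [] false,
   Spec.mk (nat_lit 39775) (nat_lit 1) [nat_lit 26653, nat_lit 40261, nat_lit 39937, nat_lit 39721, nat_lit 39781, nat_lit 39773, nat_lit 39777, nat_lit 20093] (nat_lit 0) [] false,
   Spec.mk (nat_lit 39777) (nat_lit 0) [nat_lit 26655, nat_lit 40263, nat_lit 39939, nat_lit 39723, nat_lit 39783, nat_lit 39775, nat_lit 20095] (nat_lit 2) [] false,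
   Spec.mk (nat_lit 39781) (nat_lit 0) [nat_lit 26659, nat_lit 40267, nat_lit 39943, nat_lit 39727, nat_lit 39799, nat_lit 39775, nat_lit 39783, nat_lit 20099] (nat_lit 0) [] false,
   Spec.mk (nat_lit 39783) (nat_lit 0) [nat_lit 26661, nat_lit 40269, nat_lit 39945, nat_lit 39729, nat_lit 39801, nat_lit 39777, nat_lit 39789, nat_lit 39781, nat_lit 20101] (nat_lit 1) [] false,
   Spec.mk (nat_lit 39789) (nat_lit 0) [nat_lit 26667, nat_lit 40275, nat_lit 39951, nat_lit 39735, nat_lit 39807, nat_lit 39783, nat_lit 20107] (nat_lit 2) [] false,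
   Spec.mk (nat_lit 39799) (nat_lit 2) [nat_lit 26677, nat_lit 40285, nat_lit 39961, nat_lit 39745, nat_lit 39781, nat_lit 39801, nat_lit 20117] (nat_lit 0) [] false,
   Spec.mk (nat_lit 39801) (nat_lit 0) [nat_lit 26679, nat_lit 40287, nat_lit 39963, nat_lit 39747, nat_lit 39783, nat_lit 39807, nat_lit 39799, nat_lit 20119] (nat_lit 0) [] false,
   Spec.mk (nat_lit 39807) (nat_lit 1) [nat_lit 26685, nat_lit 40293, nat_lit 39969, nat_lit 39753, nat_lit 39789, nat_lit 39825, nat_lit 39801, nat_lit 20125] (nat_lit 0) [] false,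
   Spec.mk (nat_lit 39825) (nat_lit 2) [nat_lit 26703, nat_lit 40311, nat_lit 39987, nat_lit 39807, nat_lit 20143] (nat_lit 0) [] false,
   Spec.mk (nat_lit 39857) (nat_lit 2) [nat_lit 26735, nat_lit 40343, nat_lit 39695, nat_lit 39863, nat_lit 39859] (nat_lit 0) [] false,
   Spec.mk (nat_lit 39859) (nat_lit 0) [nat_lit 26737, nat_lit 40345, nat_lit 39697, nat_lit 39865, nat_lit 39857, nat_lit 20177] (nat_lit 0) [] false,
   Spec.mk (nat_lit 39863) (nat_lit 0) [nat_lit 26741, nat_lit 40349, nat_lit 39701, nat_lit 39881, nat_lit 39857, nat_lit 39865] (nat_lit 0) [] false,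
   Spec.mk (nat_lit 39865) (nat_lit 0) [nat_lit 26743, nat_lit 40351, nat_lit 39703, nat_lit 39883, nat_lit 39859, nat_lit 39871, nat_lit 39863, nat_lit 39867, nat_lit 20183] (nat_lit 0) [] false,
   Spec.mk (nat_lit 39867) (nat_lit 0) [nat_lit 26745, nat_lit 40353, nat_lit 39705, nat_lit 39885, nat_lit 39873, nat_lit 39865, nat_lit 20185] (nat_lit 2) [] false,
   Spec.mk (nat_lit 39871) (nat_lit 0) [nat_lit 26749, nat_lit 40357, nat_lit 39709, nat_lit 39889, nat_lit 39865, nat_lit 39873, nat_lit 20189] (nat_lit 2) [] false]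

noncomputable def sp66 : List Spec :=
  [Spec.mk (nat_lit 39873) (nat_lit 0) [nat_lit 26751, nat_lit 40359, nat_lit 39711, nat_lit 39891, nat_lit 39867, nat_lit 39871, nat_lit 20191] (nat_lit 2) [] false,
   Spec.mk (nat_lit 39881) (nat_lit 0) [nat_lit 26759, nat_lit 40367, nat_lit 39719, nat_lit 39935, nat_lit 39863, nat_lit 39883] (nat_lit 0) [] false,
   Spec.mk (nat_lit 39883) (nat_lit 0) [nat_lit 26761, nat_lit 40369, nat_lit 39721, nat_lit 39937, nat_lit 39865, nat_lit 39889, nat_lit 39881, nat_lit 39885, nat_lit 20201] (nat_lit 1) [] false,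
   Spec.mk (nat_lit 39885) (nat_lit 0) [nat_lit 26763, nat_lit 40371, nat_lit 39723, nat_lit 39939, nat_lit 39867, nat_lit 39891, nat_lit 39883, nat_lit 20203] (nat_lit 4) [] false,
   Spec.mk (nat_lit 39889) (nat_lit 0) [nat_lit 26767, nat_lit 40375, nat_lit 39727, nat_lit 39943, nat_lit 39871, nat_lit 39907, nat_lit 39883, nat_lit 39891, nat_lit 20207] (nat_lit 1) [] false,
   Spec.mk (nat_lit 39891) (nat_lit 0) [nat_lit 26769, nat_lit 40377, nat_lit 39729, nat_lit 39945, nat_lit 39873, nat_lit 39909, nat_lit 39885, nat_lit 39897, nat_lit 39889, nat_lit 20209] (nat_lit 2) [] false,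
   Spec.mk (nat_lit 39897) (nat_lit 0) [nat_lit 26775, nat_lit 40383, nat_lit 39735, nat_lit 39951, nat_lit 39915, nat_lit 39891, nat_lit 20215] (nat_lit 2) [] false,
   Spec.mk (nat_lit 39907) (nat_lit 0) [nat_lit 26785, nat_lit 40393, nat_lit 39745, nat_lit 39961, nat_lit 39889, nat_lit 39909, nat_lit 20225] (nat_lit 2) [] false,
   Spec.mk (nat_lit 39909) (nat_lit 0) [nat_lit 26787, nat_lit 40395, nat_lit 39747, nat_lit 39963, nat_lit 39891, nat_lit 39915, nat_lit 39907, nat_lit 20227] (nat_lit 4) [] false,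
   Spec.mk (nat_lit 39915) (nat_lit 0) [nat_lit 26793, nat_lit 40401, nat_lit 39753, nat_lit 39969, nat_lit 39897, nat_lit 39909, nat_lit 20233] (nat_lit 2) [] false,
   Spec.mk (nat_lit 39935) (nat_lit 2) [nat_lit 26813, nat_lit 40421, nat_lit 39773, nat_lit 39881, nat_lit 39937] (nat_lit 0) [] false,
   Spec.mk (nat_lit 39937) (nat_lit 1) [nat_lit 26815, nat_lit 40423, nat_lit 39775, nat_lit 39883, nat_lit 39943, nat_lit 39935, nat_lit 39939, nat_lit 20255] (nat_lit 0) [] false,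
   Spec.mk (nat_lit 39939) (nat_lit 0) [nat_lit 26817, nat_lit 40425, nat_lit 39777, nat_lit 39885, nat_lit 39945, nat_lit 39937, nat_lit 20257] (nat_lit 2) [] false,
   Spec.mk (nat_lit 39943) (nat_lit 0) [nat_lit 26821, nat_lit 40429, nat_lit 39781, nat_lit 39889, nat_lit 39961, nat_lit 39937, nat_lit 39945, nat_lit 20261] (nat_lit 0) [] false,
   Spec.mk (nat_lit 39945) (nat_lit 0) [nat_lit 26823, nat_lit 40431, nat_lit 39783, nat_lit 39891, nat_lit 39963, nat_lit 39939, nat_lit 39951, nat_lit 39943, nat_lit 20263] (nat_lit 1) [] false,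
   Spec.mk (nat_lit 39951) (nat_lit 0) [nat_lit 26829, nat_lit 40437, nat_lit 39789, nat_lit 39897, nat_lit 39969, nat_lit 39945, nat_lit 20269] (nat_lit 2) [] false,
   Spec.mk (nat_lit 39961) (nat_lit 1) [nat_lit 26839, nat_lit 40447, nat_lit 39799, nat_lit 39907, nat_lit 40015, nat_lit 39943, nat_lit 39963, nat_lit 20279] (nat_lit 0) [] false,
   Spec.mk (nat_lit 39963) (nat_lit 0) [nat_lit 26841, nat_lit 40449, nat_lit 39801, nat_lit 39909, nat_lit 40017, nat_lit 39945, nat_lit 39969, nat_lit 39961, nat_lit 20281] (nat_lit 1) [] false,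
   Spec.mk (nat_lit 39969) (nat_lit 0) [nat_lit 26847, nat_lit 40455, nat_lit 39807, nat_lit 39915, nat_lit 40023, nat_lit 39951, nat_lit 39987, nat_lit 39963, nat_lit 20287] (nat_lit 0) [] false,
   Spec.mk (nat_lit 39987) (nat_lit 0) [nat_lit 26865, nat_lit 40473, nat_lit 39825, nat_lit 40041, nat_lit 39969, nat_lit 20305] (nat_lit 0) [] false,
   Spec.mk (nat_lit 40015) (nat_lit 2) [nat_lit 26893, nat_lit 40501, nat_lit 39961, nat_lit 40017, nat_lit 20333] (nat_lit 0) [] false,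
   Spec.mk (nat_lit 40017) (nat_lit 0) [nat_lit 26895, nat_lit 40503, nat_lit 39963, nat_lit 40023, nat_lit 40015, nat_lit 20335] (nat_lit 0) [] false,
   Spec.mk (nat_lit 40023) (nat_lit 0) [nat_lit 26901, nat_lit 40509, nat_lit 39969, nat_lit 40041, nat_lit 40017, nat_lit 20341] (nat_lit 0) [] false,
   Spec.mk (nat_lit 40041) (nat_lit 2) [nat_lit 26919, nat_lit 40527, nat_lit 39987, nat_lit 40023, nat_lit 20359] (nat_lit 0) [] false,
   Spec.mk (nat_lit 40103) (nat_lit 4) [nat_lit 26981, nat_lit 41561, nat_lit 39617, nat_lit 40109] (nat_lit 0) [] false,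
   Spec.mk (nat_lit 40109) (nat_lit 3) [nat_lit 26987, nat_lit 41567, nat_lit 39623, nat_lit 40127, nat_lit 40103, nat_lit 40115, nat_lit 40111] (nat_lit 0) [] false,
   Spec.mk (nat_lit 40111) (nat_lit 2) [nat_lit 26989, nat_lit 41569, nat_lit 39625, nat_lit 40129, nat_lit 40117, nat_lit 40109, nat_lit 20429] (nat_lit 0) [] false,
   Spec.mk (nat_lit 40115) (nat_lit 0) [nat_lit 26993, nat_lit 41573, nat_lit 39629, nat_lit 40133, nat_lit 40109, nat_lit 40117] (nat_lit 0) [] false,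
   Spec.mk (nat_lit 40117) (nat_lit 1) [nat_lit 26995, nat_lit 41575, nat_lit 39631, nat_lit 40135, nat_lit 40111, nat_lit 40115, nat_lit 40119, nat_lit 20435] (nat_lit 0) [] false,
   Spec.mk (nat_lit 40119) (nat_lit 0) [nat_lit 26997, nat_lit 41577, nat_lit 39633, nat_lit 40137, nat_lit 40117, nat_lit 20437] (nat_lit 0) [] false,
   Spec.mk (nat_lit 40127) (nat_lit 2) [nat_lit 27005, nat_lit 41585, nat_lit 39641, nat_lit 40181, nat_lit 40109, nat_lit 40133, nat_lit 40129] (nat_lit 0) [] false,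
   Spec.mk (nat_lit 40129) (nat_lit 0) [nat_lit 27007, nat_lit 41587, nat_lit 39643, nat_lit 40183, nat_lit 40111, nat_lit 40135, nat_lit 40127, nat_lit 20447] (nat_lit 0) [] false,
   Spec.mk (nat_lit 40133) (nat_lit 1) [nat_lit 27011, nat_lit 41591, nat_lit 39647, nat_lit 40187, nat_lit 40115, nat_lit 40151, nat_lit 40127, nat_lit 40135] (nat_lit 0) [] false,
   Spec.mk (nat_lit 40135) (nat_lit 1) [nat_lit 27013, nat_lit 41593, nat_lit 39649, nat_lit 40189, nat_lit 40117, nat_lit 40153, nat_lit 40129, nat_lit 40141, nat_lit 40133, nat_lit 40137, nat_lit 20453] (nat_lit 0) [] false,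
   Spec.mk (nat_lit 40137) (nat_lit 0) [nat_lit 27015, nat_lit 41595, nat_lit 39651, nat_lit 40191, nat_lit 40119, nat_lit 40155, nat_lit 40143, nat_lit 40135, nat_lit 20455] (nat_lit 1) [] false,
   Spec.mk (nat_lit 40141) (nat_lit 0) [nat_lit 27019, nat_lit 41599, nat_lit 39655, nat_lit 40195, nat_lit 40159, nat_lit 40135, nat_lit 40143, nat_lit 20459] (nat_lit 0) [] false,
   Spec.mk (nat_lit 40143) (nat_lit 0) [nat_lit 27021, nat_lit 41601, nat_lit 39657, nat_lit 40197, nat_lit 40161, nat_lit 40137, nat_lit 40141, nat_lit 20461] (nat_lit 0) [] false,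
   Spec.mk (nat_lit 40151) (nat_lit 0) [nat_lit 27029, nat_lit 41609, nat_lit 39665, nat_lit 40205, nat_lit 40133, nat_lit 40153] (nat_lit 0) [] false,
   Spec.mk (nat_lit 40153) (nat_lit 0) [nat_lit 27031, nat_lit 41611, nat_lit 39667, nat_lit 40207, nat_lit 40135, nat_lit 40159, nat_lit 40151, nat_lit 40155, nat_lit 20471] (nat_lit 1) [] false,
   Spec.mk (nat_lit 40155) (nat_lit 0) [nat_lit 27033, nat_lit 41613, nat_lit 39669, nat_lit 40209, nat_lit 40137, nat_lit 40161, nat_lit 40153, nat_lit 20473] (nat_lit 4) [] false,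
   Spec.mk (nat_lit 40159) (nat_lit 0) [nat_lit 27037, nat_lit 41617, nat_lit 39673, nat_lit 40213, nat_lit 40141, nat_lit 40153, nat_lit 40161, nat_lit 20477] (nat_lit 0) [] false,
   Spec.mk (nat_lit 40161) (nat_lit 0) [nat_lit 27039, nat_lit 41619, nat_lit 39675, nat_lit 40215, nat_lit 40143, nat_lit 40155, nat_lit 40167, nat_lit 40159, nat_lit 20479] (nat_lit 1) [] false,
   Spec.mk (nat_lit 40167) (nat_lit 0) [nat_lit 27045, nat_lit 41625, nat_lit 39681, nat_lit 40221, nat_lit 40161, nat_lit 20485] (nat_lit 0) [] false,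
   Spec.mk (nat_lit 40181) (nat_lit 2) [nat_lit 27059, nat_lit 41639, nat_lit 39695, nat_lit 40343, nat_lit 40127, nat_lit 40187, nat_lit 40183] (nat_lit 0) [] false,
   Spec.mk (nat_lit 40183) (nat_lit 0) [nat_lit 27061, nat_lit 41641, nat_lit 39697, nat_lit 40345, nat_lit 40129, nat_lit 40189, nat_lit 40181, nat_lit 20501] (nat_lit 0) [] false,
   Spec.mk (nat_lit 40187) (nat_lit 0) [nat_lit 27065, nat_lit 41645, nat_lit 39701, nat_lit 40349, nat_lit 40133, nat_lit 40205, nat_lit 40181, nat_lit 40189] (nat_lit 0) [] false,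
   Spec.mk (nat_lit 40189) (nat_lit 0) [nat_lit 27067, nat_lit 41647, nat_lit 39703, nat_lit 40351, nat_lit 40135, nat_lit 40207, nat_lit 40183, nat_lit 40195, nat_lit 40187, nat_lit 40191, nat_lit 20507] (nat_lit 0) [] false,
   Spec.mk (nat_lit 40191) (nat_lit 0) [nat_lit 27069, nat_lit 41649, nat_lit 39705, nat_lit 40353, nat_lit 40137, nat_lit 40209, nat_lit 40197, nat_lit 40189, nat_lit 20509] (nat_lit 2) [] false,
   Spec.mk (nat_lit 40195) (nat_lit 0) [nat_lit 27073, nat_lit 41653, nat_lit 39709, nat_lit 40357, nat_lit 40141, nat_lit 40213, nat_lit 40189, nat_lit 40197, nat_lit 20513] (nat_lit 2) [] false,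
   Spec.mk (nat_lit 40197) (nat_lit 0) [nat_lit 27075, nat_lit 41655, nat_lit 39711, nat_lit 40359, nat_lit 40143, nat_lit 40215, nat_lit 40191, nat_lit 40195, nat_lit 20515] (nat_lit 2) [] false,
   Spec.mk (nat_lit 40205) (nat_lit 1) [nat_lit 27083, nat_lit 41663, nat_lit 39719, nat_lit 40367, nat_lit 40151, nat_lit 40259, nat_lit 40187, nat_lit 40207] (nat_lit 0) [] false,
   Spec.mk (nat_lit 40207) (nat_lit 0) [nat_lit 27085, nat_lit 41665, nat_lit 39721, nat_lit 40369, nat_lit 40153, nat_lit 40261, nat_lit 40189, nat_lit 40213, nat_lit 40205, nat_lit 40209, nat_lit 20525] (nat_lit 0) [] false,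
   Spec.mk (nat_lit 40209) (nat_lit 0) [nat_lit 27087, nat_lit 41667, nat_lit 39723, nat_lit 40371, nat_lit 40155, nat_lit 40263, nat_lit 40191, nat_lit 40215, nat_lit 40207, nat_lit 20527] (nat_lit 3) [] false,
   Spec.mk (nat_lit 40213) (nat_lit 0) [nat_lit 27091, nat_lit 41671, nat_lit 39727, nat_lit 40375, nat_lit 40159, nat_lit 40267, nat_lit 40195, nat_lit 40231, nat_lit 40207, nat_lit 40215, nat_lit 20531] (nat_lit 0) [] false,
   Spec.mk (nat_lit 40215) (nat_lit 0) [nat_lit 27093, nat_lit 41673, nat_lit 39729, nat_lit 40377, nat_lit 40161, nat_lit 40269, nat_lit 40197, nat_lit 40233, nat_lit 40209, nat_lit 40221, nat_lit 40213, nat_lit 20533] (nat_lit 1) [] false,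
   Spec.mk (nat_lit 40221) (nat_lit 0) [nat_lit 27099, nat_lit 41679, nat_lit 39735, nat_lit 40383, nat_lit 40167, nat_lit 40275, nat_lit 40239, nat_lit 40215, nat_lit 20539] (nat_lit 1) [] false,
   Spec.mk (nat_lit 40231) (nat_lit 0) [nat_lit 27109, nat_lit 41689, nat_lit 39745, nat_lit 40393, nat_lit 40285, nat_lit 40213, nat_lit 40233, nat_lit 20549] (nat_lit 0) [] false,
   Spec.mk (nat_lit 40233) (nat_lit 0) [nat_lit 27111, nat_lit 41691, nat_lit 39747, nat_lit 40395, nat_lit 40287, nat_lit 40215, nat_lit 40239, nat_lit 40231, nat_lit 20551] (nat_lit 2) [] false,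
   Spec.mk (nat_lit 40239) (nat_lit 0) [nat_lit 27117, nat_lit 41697, nat_lit 39753, nat_lit 40401, nat_lit 40293, nat_lit 40221, nat_lit 40233, nat_lit 20557] (nat_lit 0) [] false,
   Spec.mk (nat_lit 40259) (nat_lit 0) [nat_lit 27137, nat_lit 41717, nat_lit 39773, nat_lit 40421, nat_lit 40205, nat_lit 40261] (nat_lit 0) [] false]

noncomputable def sp67 : List Spec :=
  [Spec.mk (nat_lit 40261) (nat_lit 0) [nat_lit 27139, nat_lit 41719, nat_lit 39775, nat_lit 40423, nat_lit 40207, nat_lit 40267, nat_lit 40259, nat_lit 40263, nat_lit 20579] (nat_lit 1) [] false,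
   Spec.mk (nat_lit 40263) (nat_lit 0) [nat_lit 27141, nat_lit 41721, nat_lit 39777, nat_lit 40425, nat_lit 40209, nat_lit 40269, nat_lit 40261, nat_lit 20581] (nat_lit 4) [] false,
   Spec.mk (nat_lit 40267) (nat_lit 0) [nat_lit 27145, nat_lit 41725, nat_lit 39781, nat_lit 40429, nat_lit 40213, nat_lit 40285, nat_lit 40261, nat_lit 40269, nat_lit 20585] (nat_lit 2) [] false,
   Spec.mk (nat_lit 40269) (nat_lit 0) [nat_lit 27147, nat_lit 41727, nat_lit 39783, nat_lit 40431, nat_lit 40215, nat_lit 40287, nat_lit 40263, nat_lit 40275, nat_lit 40267, nat_lit 20587] (nat_lit 3) [] false,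
   Spec.mk (nat_lit 40275) (nat_lit 0) [nat_lit 27153, nat_lit 41733, nat_lit 39789, nat_lit 40437, nat_lit 40221, nat_lit 40293, nat_lit 40269, nat_lit 20593] (nat_lit 4) [] false,
   Spec.mk (nat_lit 40285) (nat_lit 0) [nat_lit 27163, nat_lit 41743, nat_lit 39799, nat_lit 40447, nat_lit 40231, nat_lit 40267, nat_lit 40287, nat_lit 20603] (nat_lit 0) [] false,
   Spec.mk (nat_lit 40287) (nat_lit 0) [nat_lit 27165, nat_lit 41745, nat_lit 39801, nat_lit 40449, nat_lit 40233, nat_lit 40269, nat_lit 40293, nat_lit 40285, nat_lit 20605] (nat_lit 2) [] false,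
   Spec.mk (nat_lit 40293) (nat_lit 0) [nat_lit 27171, nat_lit 41751, nat_lit 39807, nat_lit 40455, nat_lit 40239, nat_lit 40275, nat_lit 40311, nat_lit 40287, nat_lit 20611] (nat_lit 1) [] false,
   Spec.mk (nat_lit 40311) (nat_lit 0) [nat_lit 27189, nat_lit 41769, nat_lit 39825, nat_lit 40473, nat_lit 40293, nat_lit 20629] (nat_lit 0) [] false,
   Spec.mk (nat_lit 40343) (nat_lit 3) [nat_lit 27221, nat_lit 41801, nat_lit 39857, nat_lit 40829, nat_lit 40181, nat_lit 40349, nat_lit 40345] (nat_lit 0) [] false,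
   Spec.mk (nat_lit 40345) (nat_lit 1) [nat_lit 27223, nat_lit 41803, nat_lit 39859, nat_lit 40831, nat_lit 40183, nat_lit 40351, nat_lit 40343, nat_lit 20663] (nat_lit 0) [] false,
   Spec.mk (nat_lit 40349) (nat_lit 1) [nat_lit 27227, nat_lit 41807, nat_lit 39863, nat_lit 40835, nat_lit 40187, nat_lit 40367, nat_lit 40343, nat_lit 40351] (nat_lit 0) [] false,
   Spec.mk (nat_lit 40351) (nat_lit 1) [nat_lit 27229, nat_lit 41809, nat_lit 39865, nat_lit 40837, nat_lit 40189, nat_lit 40369, nat_lit 40345, nat_lit 40357, nat_lit 40349, nat_lit 40353, nat_lit 20669] (nat_lit 0) [] false,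
   Spec.mk (nat_lit 40353) (nat_lit 0) [nat_lit 27231, nat_lit 41811, nat_lit 39867, nat_lit 40839, nat_lit 40191, nat_lit 40371, nat_lit 40359, nat_lit 40351, nat_lit 20671] (nat_lit 1) [] false,
   Spec.mk (nat_lit 40357) (nat_lit 0) [nat_lit 27235, nat_lit 41815, nat_lit 39871, nat_lit 40843, nat_lit 40195, nat_lit 40375, nat_lit 40351, nat_lit 40359, nat_lit 20675] (nat_lit 1) [] false,
   Spec.mk (nat_lit 40359) (nat_lit 0) [nat_lit 27237, nat_lit 41817, nat_lit 39873, nat_lit 40845, nat_lit 40197, nat_lit 40377, nat_lit 40353, nat_lit 40357, nat_lit 20677] (nat_lit 1) [] false,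
   Spec.mk (nat_lit 40367) (nat_lit 1) [nat_lit 27245, nat_lit 41825, nat_lit 39881, nat_lit 40853, nat_lit 40205, nat_lit 40421, nat_lit 40349, nat_lit 40369] (nat_lit 0) [] false,
   Spec.mk (nat_lit 40369) (nat_lit 0) [nat_lit 27247, nat_lit 41827, nat_lit 39883, nat_lit 40855, nat_lit 40207, nat_lit 40423, nat_lit 40351, nat_lit 40375, nat_lit 40367, nat_lit 40371, nat_lit 20687] (nat_lit 0) [] false,
   Spec.mk (nat_lit 40371) (nat_lit 0) [nat_lit 27249, nat_lit 41829, nat_lit 39885, nat_lit 40857, nat_lit 40209, nat_lit 40425, nat_lit 40353, nat_lit 40377, nat_lit 40369, nat_lit 20689] (nat_lit 3) [] false,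
   Spec.mk (nat_lit 40375) (nat_lit 0) [nat_lit 27253, nat_lit 41833, nat_lit 39889, nat_lit 40861, nat_lit 40213, nat_lit 40429, nat_lit 40357, nat_lit 40393, nat_lit 40369, nat_lit 40377, nat_lit 20693] (nat_lit 0) [] false,
   Spec.mk (nat_lit 40377) (nat_lit 0) [nat_lit 27255, nat_lit 41835, nat_lit 39891, nat_lit 40863, nat_lit 40215, nat_lit 40431, nat_lit 40359, nat_lit 40395, nat_lit 40371, nat_lit 40383, nat_lit 40375, nat_lit 20695] (nat_lit 1) [] false,
   Spec.mk (nat_lit 40383) (nat_lit 0) [nat_lit 27261, nat_lit 41841, nat_lit 39897, nat_lit 40869, nat_lit 40221, nat_lit 40437, nat_lit 40401, nat_lit 40377, nat_lit 20701] (nat_lit 1) [] false,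
   Spec.mk (nat_lit 40393) (nat_lit 0) [nat_lit 27271, nat_lit 41851, nat_lit 39907, nat_lit 40879, nat_lit 40231, nat_lit 40447, nat_lit 40375, nat_lit 40395, nat_lit 20711] (nat_lit 1) [] false,
   Spec.mk (nat_lit 40395) (nat_lit 0) [nat_lit 27273, nat_lit 41853, nat_lit 39909, nat_lit 40881, nat_lit 40233, nat_lit 40449, nat_lit 40377, nat_lit 40401, nat_lit 40393, nat_lit 20713] (nat_lit 3) [] false,
   Spec.mk (nat_lit 40401) (nat_lit 0) [nat_lit 27279, nat_lit 41859, nat_lit 39915, nat_lit 40887, nat_lit 40239, nat_lit 40455, nat_lit 40383, nat_lit 40395, nat_lit 20719] (nat_lit 1) [] false,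
   Spec.mk (nat_lit 40421) (nat_lit 2) [nat_lit 27299, nat_lit 41879, nat_lit 39935, nat_lit 40907, nat_lit 40259, nat_lit 40583, nat_lit 40367, nat_lit 40423] (nat_lit 0) [] false,
   Spec.mk (nat_lit 40423) (nat_lit 1) [nat_lit 27301, nat_lit 41881, nat_lit 39937, nat_lit 40909, nat_lit 40261, nat_lit 40585, nat_lit 40369, nat_lit 40429, nat_lit 40421, nat_lit 40425, nat_lit 20741] (nat_lit 0) [] false,
   Spec.mk (nat_lit 40425) (nat_lit 0) [nat_lit 27303, nat_lit 41883, nat_lit 39939, nat_lit 40911, nat_lit 40263, nat_lit 40587, nat_lit 40371, nat_lit 40431, nat_lit 40423, nat_lit 20743] (nat_lit 2) [] false,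
   Spec.mk (nat_lit 40429) (nat_lit 0) [nat_lit 27307, nat_lit 41887, nat_lit 39943, nat_lit 40915, nat_lit 40267, nat_lit 40591, nat_lit 40375, nat_lit 40447, nat_lit 40423, nat_lit 40431, nat_lit 20747] (nat_lit 0) [] false,
   Spec.mk (nat_lit 40431) (nat_lit 0) [nat_lit 27309, nat_lit 41889, nat_lit 39945, nat_lit 40917, nat_lit 40269, nat_lit 40593, nat_lit 40377, nat_lit 40449, nat_lit 40425, nat_lit 40437, nat_lit 40429, nat_lit 20749] (nat_lit 1) [] false,
   Spec.mk (nat_lit 40437) (nat_lit 0) [nat_lit 27315, nat_lit 41895, nat_lit 39951, nat_lit 40923, nat_lit 40275, nat_lit 40599, nat_lit 40383, nat_lit 40455, nat_lit 40431, nat_lit 20755] (nat_lit 2) [] false,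
   Spec.mk (nat_lit 40447) (nat_lit 1) [nat_lit 27325, nat_lit 41905, nat_lit 39961, nat_lit 40933, nat_lit 40285, nat_lit 40609, nat_lit 40393, nat_lit 40501, nat_lit 40429, nat_lit 40449, nat_lit 20765] (nat_lit 0) [] false,
   Spec.mk (nat_lit 40449) (nat_lit 0) [nat_lit 27327, nat_lit 41907, nat_lit 39963, nat_lit 40935, nat_lit 40287, nat_lit 40611, nat_lit 40395, nat_lit 40503, nat_lit 40431, nat_lit 40455, nat_lit 40447, nat_lit 20767] (nat_lit 1) [] false,
   Spec.mk (nat_lit 40455) (nat_lit 0) [nat_lit 27333, nat_lit 41913, nat_lit 39969, nat_lit 40941, nat_lit 40293, nat_lit 40617, nat_lit 40401, nat_lit 40509, nat_lit 40437, nat_lit 40473, nat_lit 40449, nat_lit 20773] (nat_lit 0) [] false,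
   Spec.mk (nat_lit 40473) (nat_lit 0) [nat_lit 27351, nat_lit 41931, nat_lit 39987, nat_lit 40959, nat_lit 40311, nat_lit 40635, nat_lit 40527, nat_lit 40455, nat_lit 20791] (nat_lit 0) [] false,
   Spec.mk (nat_lit 40501) (nat_lit 1) [nat_lit 27379, nat_lit 41959, nat_lit 40015, nat_lit 40987, nat_lit 40663, nat_lit 40447, nat_lit 40503, nat_lit 20819] (nat_lit 0) [] false,
   Spec.mk (nat_lit 40503) (nat_lit 0) [nat_lit 27381, nat_lit 41961, nat_lit 40017, nat_lit 40989, nat_lit 40665, nat_lit 40449, nat_lit 40509, nat_lit 40501, nat_lit 20821] (nat_lit 1) [] false,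
   Spec.mk (nat_lit 40509) (nat_lit 0) [nat_lit 27387, nat_lit 41967, nat_lit 40023, nat_lit 40995, nat_lit 40671, nat_lit 40455, nat_lit 40527, nat_lit 40503, nat_lit 20827] (nat_lit 1) [] false,
   Spec.mk (nat_lit 40527) (nat_lit 1) [nat_lit 27405, nat_lit 41985, nat_lit 40041, nat_lit 41013, nat_lit 40689, nat_lit 40473, nat_lit 40509, nat_lit 20845] (nat_lit 0) [] false,
   Spec.mk (nat_lit 40583) (nat_lit 2) [nat_lit 27461, nat_lit 42041, nat_lit 41069, nat_lit 40421, nat_lit 40585] (nat_lit 0) [] false,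
   Spec.mk (nat_lit 40585) (nat_lit 1) [nat_lit 27463, nat_lit 42043, nat_lit 41071, nat_lit 40423, nat_lit 40591, nat_lit 40583, nat_lit 40587, nat_lit 20903] (nat_lit 0) [] false,
   Spec.mk (nat_lit 40587) (nat_lit 0) [nat_lit 27465, nat_lit 42045, nat_lit 41073, nat_lit 40425, nat_lit 40593, nat_lit 40585, nat_lit 20905] (nat_lit 2) [] false,
   Spec.mk (nat_lit 40591) (nat_lit 0) [nat_lit 27469, nat_lit 42049, nat_lit 41077, nat_lit 40429, nat_lit 40609, nat_lit 40585, nat_lit 40593, nat_lit 20909] (nat_lit 0) [] false,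
   Spec.mk (nat_lit 40593) (nat_lit 0) [nat_lit 27471, nat_lit 42051, nat_lit 41079, nat_lit 40431, nat_lit 40611, nat_lit 40587, nat_lit 40599, nat_lit 40591, nat_lit 20911] (nat_lit 1) [] false,
   Spec.mk (nat_lit 40599) (nat_lit 0) [nat_lit 27477, nat_lit 42057, nat_lit 41085, nat_lit 40437, nat_lit 40617, nat_lit 40593, nat_lit 20917] (nat_lit 2) [] false,
   Spec.mk (nat_lit 40609) (nat_lit 0) [nat_lit 27487, nat_lit 42067, nat_lit 41095, nat_lit 40447, nat_lit 40663, nat_lit 40591, nat_lit 40611, nat_lit 20927] (nat_lit 0) [] false,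
   Spec.mk (nat_lit 40611) (nat_lit 0) [nat_lit 27489, nat_lit 42069, nat_lit 41097, nat_lit 40449, nat_lit 40665, nat_lit 40593, nat_lit 40617, nat_lit 40609, nat_lit 20929] (nat_lit 2) [] false,
   Spec.mk (nat_lit 40617) (nat_lit 0) [nat_lit 27495, nat_lit 42075, nat_lit 41103, nat_lit 40455, nat_lit 40671, nat_lit 40599, nat_lit 40635, nat_lit 40611, nat_lit 20935] (nat_lit 1) [] false,
   Spec.mk (nat_lit 40635) (nat_lit 0) [nat_lit 27513, nat_lit 42093, nat_lit 41121, nat_lit 40473, nat_lit 40689, nat_lit 40617, nat_lit 20953] (nat_lit 2) [] false,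
   Spec.mk (nat_lit 40663) (nat_lit 2) [nat_lit 27541, nat_lit 42121, nat_lit 41149, nat_lit 40501, nat_lit 40609, nat_lit 40665, nat_lit 20981] (nat_lit 0) [] false,
   Spec.mk (nat_lit 40665) (nat_lit 0) [nat_lit 27543, nat_lit 42123, nat_lit 41151, nat_lit 40503, nat_lit 40611, nat_lit 40671, nat_lit 40663, nat_lit 20983] (nat_lit 0) [] false,
   Spec.mk (nat_lit 40671) (nat_lit 0) [nat_lit 27549, nat_lit 42129, nat_lit 41157, nat_lit 40509, nat_lit 40617, nat_lit 40689, nat_lit 40665, nat_lit 20989] (nat_lit 0) [] false,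
   Spec.mk (nat_lit 40689) (nat_lit 1) [nat_lit 27567, nat_lit 42147, nat_lit 41175, nat_lit 40527, nat_lit 40635, nat_lit 40743, nat_lit 40671, nat_lit 21007] (nat_lit 0) [] false,
   Spec.mk (nat_lit 40743) (nat_lit 2) [nat_lit 27621, nat_lit 42201, nat_lit 41229, nat_lit 40689, nat_lit 21061] (nat_lit 0) [] false,
   Spec.mk (nat_lit 40829) (nat_lit 2) [nat_lit 27707, nat_lit 42287, nat_lit 40343, nat_lit 40835, nat_lit 40831] (nat_lit 0) [] false,
   Spec.mk (nat_lit 40831) (nat_lit 0) [nat_lit 27709, nat_lit 42289, nat_lit 40345, nat_lit 40837, nat_lit 40829, nat_lit 21149] (nat_lit 0) [] false,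
   Spec.mk (nat_lit 40835) (nat_lit 0) [nat_lit 27713, nat_lit 42293, nat_lit 40349, nat_lit 40853, nat_lit 40829, nat_lit 40837] (nat_lit 0) [] false,
   Spec.mk (nat_lit 40837) (nat_lit 0) [nat_lit 27715, nat_lit 42295, nat_lit 40351, nat_lit 40855, nat_lit 40831, nat_lit 40843, nat_lit 40835, nat_lit 40839, nat_lit 21155] (nat_lit 0) [] false,
   Spec.mk (nat_lit 40839) (nat_lit 0) [nat_lit 27717, nat_lit 42297, nat_lit 40353, nat_lit 40857, nat_lit 40845, nat_lit 40837, nat_lit 21157] (nat_lit 2) [] false,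
   Spec.mk (nat_lit 40843) (nat_lit 0) [nat_lit 27721, nat_lit 42301, nat_lit 40357, nat_lit 40861, nat_lit 40837, nat_lit 40845, nat_lit 21161] (nat_lit 2) [] false]

noncomputable def sp68 : List Spec :=
  [Spec.mk (nat_lit 40845) (nat_lit 0) [nat_lit 27723, nat_lit 42303, nat_lit 40359, nat_lit 40863, nat_lit 40839, nat_lit 40843, nat_lit 21163] (nat_lit 2) [] false,
   Spec.mk (nat_lit 40853) (nat_lit 0) [nat_lit 27731, nat_lit 42311, nat_lit 40367, nat_lit 40907, nat_lit 40835, nat_lit 40855] (nat_lit 0) [] false,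
   Spec.mk (nat_lit 40855) (nat_lit 0) [nat_lit 27733, nat_lit 42313, nat_lit 40369, nat_lit 40909, nat_lit 40837, nat_lit 40861, nat_lit 40853, nat_lit 40857, nat_lit 21173] (nat_lit 1) [] false,
   Spec.mk (nat_lit 40857) (nat_lit 0) [nat_lit 27735, nat_lit 42315, nat_lit 40371, nat_lit 40911, nat_lit 40839, nat_lit 40863, nat_lit 40855, nat_lit 21175] (nat_lit 4) [] false,
   Spec.mk (nat_lit 40861) (nat_lit 0) [nat_lit 27739, nat_lit 42319, nat_lit 40375, nat_lit 40915, nat_lit 40843, nat_lit 40879, nat_lit 40855, nat_lit 40863, nat_lit 21179] (nat_lit 1) [] false,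
   Spec.mk (nat_lit 40863) (nat_lit 0) [nat_lit 27741, nat_lit 42321, nat_lit 40377, nat_lit 40917, nat_lit 40845, nat_lit 40881, nat_lit 40857, nat_lit 40869, nat_lit 40861, nat_lit 21181] (nat_lit 2) [] false,
   Spec.mk (nat_lit 40869) (nat_lit 0) [nat_lit 27747, nat_lit 42327, nat_lit 40383, nat_lit 40923, nat_lit 40887, nat_lit 40863, nat_lit 21187] (nat_lit 2) [] false,
   Spec.mk (nat_lit 40879) (nat_lit 0) [nat_lit 27757, nat_lit 42337, nat_lit 40393, nat_lit 40933, nat_lit 40861, nat_lit 40881, nat_lit 21197] (nat_lit 2) [] false,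
   Spec.mk (nat_lit 40881) (nat_lit 0) [nat_lit 27759, nat_lit 42339, nat_lit 40395, nat_lit 40935, nat_lit 40863, nat_lit 40887, nat_lit 40879, nat_lit 21199] (nat_lit 4) [] false,
   Spec.mk (nat_lit 40887) (nat_lit 0) [nat_lit 27765, nat_lit 42345, nat_lit 40401, nat_lit 40941, nat_lit 40869, nat_lit 40881, nat_lit 21205] (nat_lit 2) [] false,
   Spec.mk (nat_lit 40907) (nat_lit 0) [nat_lit 27785, nat_lit 42365, nat_lit 40421, nat_lit 41069, nat_lit 40853, nat_lit 40909] (nat_lit 0) [] false,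
   Spec.mk (nat_lit 40909) (nat_lit 0) [nat_lit 27787, nat_lit 42367, nat_lit 40423, nat_lit 41071, nat_lit 40855, nat_lit 40915, nat_lit 40907, nat_lit 40911, nat_lit 21227] (nat_lit 1) [] false,
   Spec.mk (nat_lit 40911) (nat_lit 0) [nat_lit 27789, nat_lit 42369, nat_lit 40425, nat_lit 41073, nat_lit 40857, nat_lit 40917, nat_lit 40909, nat_lit 21229] (nat_lit 4) [] false,
   Spec.mk (nat_lit 40915) (nat_lit 0) [nat_lit 27793, nat_lit 42373, nat_lit 40429, nat_lit 41077, nat_lit 40861, nat_lit 40933, nat_lit 40909, nat_lit 40917, nat_lit 21233] (nat_lit 2) [] false,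
   Spec.mk (nat_lit 40917) (nat_lit 0) [nat_lit 27795, nat_lit 42375, nat_lit 40431, nat_lit 41079, nat_lit 40863, nat_lit 40935, nat_lit 40911, nat_lit 40923, nat_lit 40915, nat_lit 21235] (nat_lit 3) [] false,
   Spec.mk (nat_lit 40923) (nat_lit 0) [nat_lit 27801, nat_lit 42381, nat_lit 40437, nat_lit 41085, nat_lit 40869, nat_lit 40941, nat_lit 40917, nat_lit 21241] (nat_lit 4) [] false,
   Spec.mk (nat_lit 40933) (nat_lit 0) [nat_lit 27811, nat_lit 42391, nat_lit 40447, nat_lit 41095, nat_lit 40879, nat_lit 40987, nat_lit 40915, nat_lit 40935, nat_lit 21251] (nat_lit 1) [] false,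
   Spec.mk (nat_lit 40935) (nat_lit 0) [nat_lit 27813, nat_lit 42393, nat_lit 40449, nat_lit 41097, nat_lit 40881, nat_lit 40989, nat_lit 40917, nat_lit 40941, nat_lit 40933, nat_lit 21253] (nat_lit 3) [] false,
   Spec.mk (nat_lit 40941) (nat_lit 0) [nat_lit 27819, nat_lit 42399, nat_lit 40455, nat_lit 41103, nat_lit 40887, nat_lit 40995, nat_lit 40923, nat_lit 40959, nat_lit 40935, nat_lit 21259] (nat_lit 2) [] false,
   Spec.mk (nat_lit 40959) (nat_lit 0) [nat_lit 27837, nat_lit 42417, nat_lit 40473, nat_lit 41121, nat_lit 41013, nat_lit 40941, nat_lit 21277] (nat_lit 2) [] false,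
   Spec.mk (nat_lit 40987) (nat_lit 0) [nat_lit 27865, nat_lit 42445, nat_lit 40501, nat_lit 41149, nat_lit 40933, nat_lit 40989, nat_lit 21305] (nat_lit 2) [] false,
   Spec.mk (nat_lit 40989) (nat_lit 0) [nat_lit 27867, nat_lit 42447, nat_lit 40503, nat_lit 41151, nat_lit 40935, nat_lit 40995, nat_lit 40987, nat_lit 21307] (nat_lit 4) [] false,
   Spec.mk (nat_lit 40995) (nat_lit 0) [nat_lit 27873, nat_lit 42453, nat_lit 40509, nat_lit 41157, nat_lit 40941, nat_lit 41013, nat_lit 40989, nat_lit 21313] (nat_lit 4) [] false,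
   Spec.mk (nat_lit 41013) (nat_lit 0) [nat_lit 27891, nat_lit 42471, nat_lit 40527, nat_lit 41175, nat_lit 40959, nat_lit 40995, nat_lit 21331] (nat_lit 2) [] false,
   Spec.mk (nat_lit 41069) (nat_lit 2) [nat_lit 27947, nat_lit 42527, nat_lit 40583, nat_lit 40907, nat_lit 41071] (nat_lit 0) [] false,
   Spec.mk (nat_lit 41071) (nat_lit 1) [nat_lit 27949, nat_lit 42529, nat_lit 40585, nat_lit 40909, nat_lit 41077, nat_lit 41069, nat_lit 41073, nat_lit 21389] (nat_lit 0) [] false,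
   Spec.mk (nat_lit 41073) (nat_lit 0) [nat_lit 27951, nat_lit 42531, nat_lit 40587, nat_lit 40911, nat_lit 41079, nat_lit 41071, nat_lit 21391] (nat_lit 2) [] false,
   Spec.mk (nat_lit 41077) (nat_lit 0) [nat_lit 27955, nat_lit 42535, nat_lit 40591, nat_lit 40915, nat_lit 41095, nat_lit 41071, nat_lit 41079, nat_lit 21395] (nat_lit 0) [] false,
   Spec.mk (nat_lit 41079) (nat_lit 0) [nat_lit 27957, nat_lit 42537, nat_lit 40593, nat_lit 40917, nat_lit 41097, nat_lit 41073, nat_lit 41085, nat_lit 41077, nat_lit 21397] (nat_lit 1) [] false,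
   Spec.mk (nat_lit 41085) (nat_lit 0) [nat_lit 27963, nat_lit 42543, nat_lit 40599, nat_lit 40923, nat_lit 41103, nat_lit 41079, nat_lit 21403] (nat_lit 2) [] false,
   Spec.mk (nat_lit 41095) (nat_lit 0) [nat_lit 27973, nat_lit 42553, nat_lit 40609, nat_lit 40933, nat_lit 41149, nat_lit 41077, nat_lit 41097, nat_lit 21413] (nat_lit 0) [] false,
   Spec.mk (nat_lit 41097) (nat_lit 0) [nat_lit 27975, nat_lit 42555, nat_lit 40611, nat_lit 40935, nat_lit 41151, nat_lit 41079, nat_lit 41103, nat_lit 41095, nat_lit 21415] (nat_lit 2) [] false,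
   Spec.mk (nat_lit 41103) (nat_lit 0) [nat_lit 27981, nat_lit 42561, nat_lit 40617, nat_lit 40941, nat_lit 41157, nat_lit 41085, nat_lit 41121, nat_lit 41097, nat_lit 21421] (nat_lit 1) [] false,
   Spec.mk (nat_lit 41121) (nat_lit 0) [nat_lit 27999, nat_lit 42579, nat_lit 40635, nat_lit 40959, nat_lit 41175, nat_lit 41103, nat_lit 21439] (nat_lit 2) [] false,
   Spec.mk (nat_lit 41149) (nat_lit 1) [nat_lit 28027, nat_lit 42607, nat_lit 40663, nat_lit 40987, nat_lit 41311, nat_lit 41095, nat_lit 41151, nat_lit 21467] (nat_lit 0) [] false,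
   Spec.mk (nat_lit 41151) (nat_lit 0) [nat_lit 28029, nat_lit 42609, nat_lit 40665, nat_lit 40989, nat_lit 41313, nat_lit 41097, nat_lit 41157, nat_lit 41149, nat_lit 21469] (nat_lit 1) [] false,
   Spec.mk (nat_lit 41157) (nat_lit 0) [nat_lit 28035, nat_lit 42615, nat_lit 40671, nat_lit 40995, nat_lit 41319, nat_lit 41103, nat_lit 41175, nat_lit 41151, nat_lit 21475] (nat_lit 1) [] false,
   Spec.mk (nat_lit 41175) (nat_lit 0) [nat_lit 28053, nat_lit 42633, nat_lit 40689, nat_lit 41013, nat_lit 41337, nat_lit 41121, nat_lit 41229, nat_lit 41157, nat_lit 21493] (nat_lit 0) [] false,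
   Spec.mk (nat_lit 41229) (nat_lit 0) [nat_lit 28107, nat_lit 42687, nat_lit 40743, nat_lit 41391, nat_lit 41175, nat_lit 21547] (nat_lit 0) [] false,
   Spec.mk (nat_lit 41311) (nat_lit 2) [nat_lit 28189, nat_lit 42769, nat_lit 41149, nat_lit 41313, nat_lit 21629] (nat_lit 0) [] false,
   Spec.mk (nat_lit 41313) (nat_lit 0) [nat_lit 28191, nat_lit 42771, nat_lit 41151, nat_lit 41319, nat_lit 41311, nat_lit 21631] (nat_lit 0) [] false,
   Spec.mk (nat_lit 41319) (nat_lit 0) [nat_lit 28197, nat_lit 42777, nat_lit 41157, nat_lit 41337, nat_lit 41313, nat_lit 21637] (nat_lit 0) [] false,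
   Spec.mk (nat_lit 41337) (nat_lit 0) [nat_lit 28215, nat_lit 42795, nat_lit 41175, nat_lit 41391, nat_lit 41319, nat_lit 21655] (nat_lit 0) [] false,
   Spec.mk (nat_lit 41391) (nat_lit 2) [nat_lit 28269, nat_lit 42849, nat_lit 41229, nat_lit 41337, nat_lit 21709] (nat_lit 0) [] false,
   Spec.mk (nat_lit 41561) (nat_lit 4) [nat_lit 28439, nat_lit 45935, nat_lit 40103, nat_lit 41567] (nat_lit 0) [] false,
   Spec.mk (nat_lit 41567) (nat_lit 3) [nat_lit 28445, nat_lit 45941, nat_lit 40109, nat_lit 41585, nat_lit 41561, nat_lit 41573, nat_lit 41569] (nat_lit 0) [] false,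
   Spec.mk (nat_lit 41569) (nat_lit 2) [nat_lit 28447, nat_lit 45943, nat_lit 40111, nat_lit 41587, nat_lit 41575, nat_lit 41567, nat_lit 21887] (nat_lit 0) [] false,
   Spec.mk (nat_lit 41573) (nat_lit 0) [nat_lit 28451, nat_lit 45947, nat_lit 40115, nat_lit 41591, nat_lit 41567, nat_lit 41575] (nat_lit 0) [] false,
   Spec.mk (nat_lit 41575) (nat_lit 1) [nat_lit 28453, nat_lit 45949, nat_lit 40117, nat_lit 41593, nat_lit 41569, nat_lit 41573, nat_lit 41577, nat_lit 21893] (nat_lit 0) [] false,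
   Spec.mk (nat_lit 41577) (nat_lit 0) [nat_lit 28455, nat_lit 45951, nat_lit 40119, nat_lit 41595, nat_lit 41575, nat_lit 21895] (nat_lit 0) [] false,
   Spec.mk (nat_lit 41585) (nat_lit 2) [nat_lit 28463, nat_lit 45959, nat_lit 40127, nat_lit 41639, nat_lit 41567, nat_lit 41591, nat_lit 41587] (nat_lit 0) [] false,
   Spec.mk (nat_lit 41587) (nat_lit 0) [nat_lit 28465, nat_lit 45961, nat_lit 40129, nat_lit 41641, nat_lit 41569, nat_lit 41593, nat_lit 41585, nat_lit 21905] (nat_lit 0) [] false,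
   Spec.mk (nat_lit 41591) (nat_lit 1) [nat_lit 28469, nat_lit 45965, nat_lit 40133, nat_lit 41645, nat_lit 41573, nat_lit 41609, nat_lit 41585, nat_lit 41593] (nat_lit 0) [] false,
   Spec.mk (nat_lit 41593) (nat_lit 1) [nat_lit 28471, nat_lit 45967, nat_lit 40135, nat_lit 41647, nat_lit 41575, nat_lit 41611, nat_lit 41587, nat_lit 41599, nat_lit 41591, nat_lit 41595, nat_lit 21911] (nat_lit 0) [] false,
   Spec.mk (nat_lit 41595) (nat_lit 0) [nat_lit 28473, nat_lit 45969, nat_lit 40137, nat_lit 41649, nat_lit 41577, nat_lit 41613, nat_lit 41601, nat_lit 41593, nat_lit 21913] (nat_lit 1) [] false,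
   Spec.mk (nat_lit 41599) (nat_lit 0) [nat_lit 28477, nat_lit 45973, nat_lit 40141, nat_lit 41653, nat_lit 41617, nat_lit 41593, nat_lit 41601, nat_lit 21917] (nat_lit 0) [] false,
   Spec.mk (nat_lit 41601) (nat_lit 0) [nat_lit 28479, nat_lit 45975, nat_lit 40143, nat_lit 41655, nat_lit 41619, nat_lit 41595, nat_lit 41599, nat_lit 21919] (nat_lit 0) [] false,
   Spec.mk (nat_lit 41609) (nat_lit 0) [nat_lit 28487, nat_lit 45983, nat_lit 40151, nat_lit 41663, nat_lit 41591, nat_lit 41611] (nat_lit 0) [] false,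
   Spec.mk (nat_lit 41611) (nat_lit 0) [nat_lit 28489, nat_lit 45985, nat_lit 40153, nat_lit 41665, nat_lit 41593, nat_lit 41617, nat_lit 41609, nat_lit 41613, nat_lit 21929] (nat_lit 1) [] false,
   Spec.mk (nat_lit 41613) (nat_lit 0) [nat_lit 28491, nat_lit 45987, nat_lit 40155, nat_lit 41667, nat_lit 41595, nat_lit 41619, nat_lit 41611, nat_lit 21931] (nat_lit 4) [] false]

noncomputable def sp69 : List Spec :=
  [Spec.mk (nat_lit 41617) (nat_lit 0) [nat_lit 28495, nat_lit 45991, nat_lit 40159, nat_lit 41671, nat_lit 41599, nat_lit 41611, nat_lit 41619, nat_lit 21935] (nat_lit 0) [] false,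
   Spec.mk (nat_lit 41619) (nat_lit 0) [nat_lit 28497, nat_lit 45993, nat_lit 40161, nat_lit 41673, nat_lit 41601, nat_lit 41613, nat_lit 41625, nat_lit 41617, nat_lit 21937] (nat_lit 1) [] false,
   Spec.mk (nat_lit 41625) (nat_lit 0) [nat_lit 28503, nat_lit 45999, nat_lit 40167, nat_lit 41679, nat_lit 41619, nat_lit 21943] (nat_lit 0) [] false,
   Spec.mk (nat_lit 41639) (nat_lit 2) [nat_lit 28517, nat_lit 46013, nat_lit 40181, nat_lit 41801, nat_lit 41585, nat_lit 41645, nat_lit 41641] (nat_lit 0) [] false,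
   Spec.mk (nat_lit 41641) (nat_lit 0) [nat_lit 28519, nat_lit 46015, nat_lit 40183, nat_lit 41803, nat_lit 41587, nat_lit 41647, nat_lit 41639, nat_lit 21959] (nat_lit 0) [] false,
   Spec.mk (nat_lit 41645) (nat_lit 0) [nat_lit 28523, nat_lit 46019, nat_lit 40187, nat_lit 41807, nat_lit 41591, nat_lit 41663, nat_lit 41639, nat_lit 41647] (nat_lit 0) [] false,
   Spec.mk (nat_lit 41647) (nat_lit 0) [nat_lit 28525, nat_lit 46021, nat_lit 40189, nat_lit 41809, nat_lit 41593, nat_lit 41665, nat_lit 41641, nat_lit 41653, nat_lit 41645, nat_lit 41649, nat_lit 21965] (nat_lit 0) [] false,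
   Spec.mk (nat_lit 41649) (nat_lit 0) [nat_lit 28527, nat_lit 46023, nat_lit 40191, nat_lit 41811, nat_lit 41595, nat_lit 41667, nat_lit 41655, nat_lit 41647, nat_lit 21967] (nat_lit 2) [] false,
   Spec.mk (nat_lit 41653) (nat_lit 0) [nat_lit 28531, nat_lit 46027, nat_lit 40195, nat_lit 41815, nat_lit 41599, nat_lit 41671, nat_lit 41647, nat_lit 41655, nat_lit 21971] (nat_lit 2) [] false,
   Spec.mk (nat_lit 41655) (nat_lit 0) [nat_lit 28533, nat_lit 46029, nat_lit 40197, nat_lit 41817, nat_lit 41601, nat_lit 41673, nat_lit 41649, nat_lit 41653, nat_lit 21973] (nat_lit 2) [] false,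
   Spec.mk (nat_lit 41663) (nat_lit 1) [nat_lit 28541, nat_lit 46037, nat_lit 40205, nat_lit 41825, nat_lit 41609, nat_lit 41717, nat_lit 41645, nat_lit 41665] (nat_lit 0) [] false,
   Spec.mk (nat_lit 41665) (nat_lit 0) [nat_lit 28543, nat_lit 46039, nat_lit 40207, nat_lit 41827, nat_lit 41611, nat_lit 41719, nat_lit 41647, nat_lit 41671, nat_lit 41663, nat_lit 41667, nat_lit 21983] (nat_lit 0) [] false,
   Spec.mk (nat_lit 41667) (nat_lit 0) [nat_lit 28545, nat_lit 46041, nat_lit 40209, nat_lit 41829, nat_lit 41613, nat_lit 41721, nat_lit 41649, nat_lit 41673, nat_lit 41665, nat_lit 21985] (nat_lit 3) [] false,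
   Spec.mk (nat_lit 41671) (nat_lit 0) [nat_lit 28549, nat_lit 46045, nat_lit 40213, nat_lit 41833, nat_lit 41617, nat_lit 41725, nat_lit 41653, nat_lit 41689, nat_lit 41665, nat_lit 41673, nat_lit 21989] (nat_lit 0) [] false,
   Spec.mk (nat_lit 41673) (nat_lit 0) [nat_lit 28551, nat_lit 46047, nat_lit 40215, nat_lit 41835, nat_lit 41619, nat_lit 41727, nat_lit 41655, nat_lit 41691, nat_lit 41667, nat_lit 41679, nat_lit 41671, nat_lit 21991] (nat_lit 1) [] false,
   Spec.mk (nat_lit 41679) (nat_lit 0) [nat_lit 28557, nat_lit 46053, nat_lit 40221, nat_lit 41841, nat_lit 41625, nat_lit 41733, nat_lit 41697, nat_lit 41673, nat_lit 21997] (nat_lit 1) [] false,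
   Spec.mk (nat_lit 41689) (nat_lit 0) [nat_lit 28567, nat_lit 46063, nat_lit 40231, nat_lit 41851, nat_lit 41743, nat_lit 41671, nat_lit 41691, nat_lit 22007] (nat_lit 0) [] false,
   Spec.mk (nat_lit 41691) (nat_lit 0) [nat_lit 28569, nat_lit 46065, nat_lit 40233, nat_lit 41853, nat_lit 41745, nat_lit 41673, nat_lit 41697, nat_lit 41689, nat_lit 22009] (nat_lit 2) [] false,
   Spec.mk (nat_lit 41697) (nat_lit 0) [nat_lit 28575, nat_lit 46071, nat_lit 40239, nat_lit 41859, nat_lit 41751, nat_lit 41679, nat_lit 41691, nat_lit 22015] (nat_lit 0) [] false,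
   Spec.mk (nat_lit 41717) (nat_lit 0) [nat_lit 28595, nat_lit 46091, nat_lit 40259, nat_lit 41879, nat_lit 41663, nat_lit 41719] (nat_lit 0) [] false,
   Spec.mk (nat_lit 41719) (nat_lit 0) [nat_lit 28597, nat_lit 46093, nat_lit 40261, nat_lit 41881, nat_lit 41665, nat_lit 41725, nat_lit 41717, nat_lit 41721, nat_lit 22037] (nat_lit 1) [] false,
   Spec.mk (nat_lit 41721) (nat_lit 0) [nat_lit 28599, nat_lit 46095, nat_lit 40263, nat_lit 41883, nat_lit 41667, nat_lit 41727, nat_lit 41719, nat_lit 22039] (nat_lit 4) [] false,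
   Spec.mk (nat_lit 41725) (nat_lit 0) [nat_lit 28603, nat_lit 46099, nat_lit 40267, nat_lit 41887, nat_lit 41671, nat_lit 41743, nat_lit 41719, nat_lit 41727, nat_lit 22043] (nat_lit 2) [] false,
   Spec.mk (nat_lit 41727) (nat_lit 0) [nat_lit 28605, nat_lit 46101, nat_lit 40269, nat_lit 41889, nat_lit 41673, nat_lit 41745, nat_lit 41721, nat_lit 41733, nat_lit 41725, nat_lit 22045] (nat_lit 3) [] false,
   Spec.mk (nat_lit 41733) (nat_lit 0) [nat_lit 28611, nat_lit 46107, nat_lit 40275, nat_lit 41895, nat_lit 41679, nat_lit 41751, nat_lit 41727, nat_lit 22051] (nat_lit 4) [] false,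
   Spec.mk (nat_lit 41743) (nat_lit 0) [nat_lit 28621, nat_lit 46117, nat_lit 40285, nat_lit 41905, nat_lit 41689, nat_lit 41725, nat_lit 41745, nat_lit 22061] (nat_lit 0) [] false,
   Spec.mk (nat_lit 41745) (nat_lit 0) [nat_lit 28623, nat_lit 46119, nat_lit 40287, nat_lit 41907, nat_lit 41691, nat_lit 41727, nat_lit 41751, nat_lit 41743, nat_lit 22063] (nat_lit 2) [] false,
   Spec.mk (nat_lit 41751) (nat_lit 0) [nat_lit 28629, nat_lit 46125, nat_lit 40293, nat_lit 41913, nat_lit 41697, nat_lit 41733, nat_lit 41769, nat_lit 41745, nat_lit 22069] (nat_lit 1) [] false,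
   Spec.mk (nat_lit 41769) (nat_lit 0) [nat_lit 28647, nat_lit 46143, nat_lit 40311, nat_lit 41931, nat_lit 41751, nat_lit 22087] (nat_lit 0) [] false,
   Spec.mk (nat_lit 41801) (nat_lit 2) [nat_lit 28679, nat_lit 46175, nat_lit 40343, nat_lit 42287, nat_lit 41639, nat_lit 41807, nat_lit 41803] (nat_lit 0) [] false,
   Spec.mk (nat_lit 41803) (nat_lit 0) [nat_lit 28681, nat_lit 46177, nat_lit 40345, nat_lit 42289, nat_lit 41641, nat_lit 41809, nat_lit 41801, nat_lit 22121] (nat_lit 0) [] false,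
   Spec.mk (nat_lit 41807) (nat_lit 0) [nat_lit 28685, nat_lit 46181, nat_lit 40349, nat_lit 42293, nat_lit 41645, nat_lit 41825, nat_lit 41801, nat_lit 41809] (nat_lit 0) [] false,
   Spec.mk (nat_lit 41809) (nat_lit 0) [nat_lit 28687, nat_lit 46183, nat_lit 40351, nat_lit 42295, nat_lit 41647, nat_lit 41827, nat_lit 41803, nat_lit 41815, nat_lit 41807, nat_lit 41811, nat_lit 22127] (nat_lit 0) [] false,
   Spec.mk (nat_lit 41811) (nat_lit 0) [nat_lit 28689, nat_lit 46185, nat_lit 40353, nat_lit 42297, nat_lit 41649, nat_lit 41829, nat_lit 41817, nat_lit 41809, nat_lit 22129] (nat_lit 2) [] false,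
   Spec.mk (nat_lit 41815) (nat_lit 0) [nat_lit 28693, nat_lit 46189, nat_lit 40357, nat_lit 42301, nat_lit 41653, nat_lit 41833, nat_lit 41809, nat_lit 41817, nat_lit 22133] (nat_lit 2) [] false,
   Spec.mk (nat_lit 41817) (nat_lit 0) [nat_lit 28695, nat_lit 46191, nat_lit 40359, nat_lit 42303, nat_lit 41655, nat_lit 41835, nat_lit 41811, nat_lit 41815, nat_lit 22135] (nat_lit 2) [] false,
   Spec.mk (nat_lit 41825) (nat_lit 0) [nat_lit 28703, nat_lit 46199, nat_lit 40367, nat_lit 42311, nat_lit 41663, nat_lit 41879, nat_lit 41807, nat_lit 41827] (nat_lit 0) [] false,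
   Spec.mk (nat_lit 41827) (nat_lit 0) [nat_lit 28705, nat_lit 46201, nat_lit 40369, nat_lit 42313, nat_lit 41665, nat_lit 41881, nat_lit 41809, nat_lit 41833, nat_lit 41825, nat_lit 41829, nat_lit 22145] (nat_lit 1) [] false,
   Spec.mk (nat_lit 41829) (nat_lit 0) [nat_lit 28707, nat_lit 46203, nat_lit 40371, nat_lit 42315, nat_lit 41667, nat_lit 41883, nat_lit 41811, nat_lit 41835, nat_lit 41827, nat_lit 22147] (nat_lit 4) [] false,
   Spec.mk (nat_lit 41833) (nat_lit 0) [nat_lit 28711, nat_lit 46207, nat_lit 40375, nat_lit 42319, nat_lit 41671, nat_lit 41887, nat_lit 41815, nat_lit 41851, nat_lit 41827, nat_lit 41835, nat_lit 22151] (nat_lit 1) [] false,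
   Spec.mk (nat_lit 41835) (nat_lit 0) [nat_lit 28713, nat_lit 46209, nat_lit 40377, nat_lit 42321, nat_lit 41673, nat_lit 41889, nat_lit 41817, nat_lit 41853, nat_lit 41829, nat_lit 41841, nat_lit 41833, nat_lit 22153] (nat_lit 2) [] false,
   Spec.mk (nat_lit 41841) (nat_lit 0) [nat_lit 28719, nat_lit 46215, nat_lit 40383, nat_lit 42327, nat_lit 41679, nat_lit 41895, nat_lit 41859, nat_lit 41835, nat_lit 22159] (nat_lit 2) [] false,
   Spec.mk (nat_lit 41851) (nat_lit 0) [nat_lit 28729, nat_lit 46225, nat_lit 40393, nat_lit 42337, nat_lit 41689, nat_lit 41905, nat_lit 41833, nat_lit 41853, nat_lit 22169] (nat_lit 2) [] false,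
   Spec.mk (nat_lit 41853) (nat_lit 0) [nat_lit 28731, nat_lit 46227, nat_lit 40395, nat_lit 42339, nat_lit 41691, nat_lit 41907, nat_lit 41835, nat_lit 41859, nat_lit 41851, nat_lit 22171] (nat_lit 4) [] false,
   Spec.mk (nat_lit 41859) (nat_lit 0) [nat_lit 28737, nat_lit 46233, nat_lit 40401, nat_lit 42345, nat_lit 41697, nat_lit 41913, nat_lit 41841, nat_lit 41853, nat_lit 22177] (nat_lit 2) [] false,
   Spec.mk (nat_lit 41879) (nat_lit 1) [nat_lit 28757, nat_lit 46253, nat_lit 40421, nat_lit 42365, nat_lit 41717, nat_lit 42041, nat_lit 41825, nat_lit 41881] (nat_lit 0) [] false,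
   Spec.mk (nat_lit 41881) (nat_lit 0) [nat_lit 28759, nat_lit 46255, nat_lit 40423, nat_lit 42367, nat_lit 41719, nat_lit 42043, nat_lit 41827, nat_lit 41887, nat_lit 41879, nat_lit 41883, nat_lit 22199] (nat_lit 0) [] false,
   Spec.mk (nat_lit 41883) (nat_lit 0) [nat_lit 28761, nat_lit 46257, nat_lit 40425, nat_lit 42369, nat_lit 41721, nat_lit 42045, nat_lit 41829, nat_lit 41889, nat_lit 41881, nat_lit 22201] (nat_lit 3) [] false,
   Spec.mk (nat_lit 41887) (nat_lit 0) [nat_lit 28765, nat_lit 46261, nat_lit 40429, nat_lit 42373, nat_lit 41725, nat_lit 42049, nat_lit 41833, nat_lit 41905, nat_lit 41881, nat_lit 41889, nat_lit 22205] (nat_lit 1) [] false,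
   Spec.mk (nat_lit 41889) (nat_lit 0) [nat_lit 28767, nat_lit 46263, nat_lit 40431, nat_lit 42375, nat_lit 41727, nat_lit 42051, nat_lit 41835, nat_lit 41907, nat_lit 41883, nat_lit 41895, nat_lit 41887, nat_lit 22207] (nat_lit 2) [] false,
   Spec.mk (nat_lit 41895) (nat_lit 0) [nat_lit 28773, nat_lit 46269, nat_lit 40437, nat_lit 42381, nat_lit 41733, nat_lit 42057, nat_lit 41841, nat_lit 41913, nat_lit 41889, nat_lit 22213] (nat_lit 3) [] false,
   Spec.mk (nat_lit 41905) (nat_lit 0) [nat_lit 28783, nat_lit 46279, nat_lit 40447, nat_lit 42391, nat_lit 41743, nat_lit 42067, nat_lit 41851, nat_lit 41959, nat_lit 41887, nat_lit 41907, nat_lit 22223] (nat_lit 0) [] false,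
   Spec.mk (nat_lit 41907) (nat_lit 0) [nat_lit 28785, nat_lit 46281, nat_lit 40449, nat_lit 42393, nat_lit 41745, nat_lit 42069, nat_lit 41853, nat_lit 41961, nat_lit 41889, nat_lit 41913, nat_lit 41905, nat_lit 22225] (nat_lit 2) [] false,
   Spec.mk (nat_lit 41913) (nat_lit 0) [nat_lit 28791, nat_lit 46287, nat_lit 40455, nat_lit 42399, nat_lit 41751, nat_lit 42075, nat_lit 41859, nat_lit 41967, nat_lit 41895, nat_lit 41931, nat_lit 41907, nat_lit 22231] (nat_lit 1) [] false,
   Spec.mk (nat_lit 41931) (nat_lit 0) [nat_lit 28809, nat_lit 46305, nat_lit 40473, nat_lit 42417, nat_lit 41769, nat_lit 42093, nat_lit 41985, nat_lit 41913, nat_lit 22249] (nat_lit 1) [] false,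
   Spec.mk (nat_lit 41959) (nat_lit 0) [nat_lit 28837, nat_lit 46333, nat_lit 40501, nat_lit 42445, nat_lit 42121, nat_lit 41905, nat_lit 41961, nat_lit 22277] (nat_lit 0) [] false,
   Spec.mk (nat_lit 41961) (nat_lit 0) [nat_lit 28839, nat_lit 46335, nat_lit 40503, nat_lit 42447, nat_lit 42123, nat_lit 41907, nat_lit 41967, nat_lit 41959, nat_lit 22279] (nat_lit 2) [] false,
   Spec.mk (nat_lit 41967) (nat_lit 0) [nat_lit 28845, nat_lit 46341, nat_lit 40509, nat_lit 42453, nat_lit 42129, nat_lit 41913, nat_lit 41985, nat_lit 41961, nat_lit 22285] (nat_lit 2) [] false,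
   Spec.mk (nat_lit 41985) (nat_lit 0) [nat_lit 28863, nat_lit 46359, nat_lit 40527, nat_lit 42471, nat_lit 42147, nat_lit 41931, nat_lit 41967, nat_lit 22303] (nat_lit 0) [] false,
   Spec.mk (nat_lit 42041) (nat_lit 0) [nat_lit 28919, nat_lit 46415, nat_lit 40583, nat_lit 42527, nat_lit 41879, nat_lit 42043] (nat_lit 0) [] false]

noncomputable def sp70 : List Spec :=
  [Spec.mk (nat_lit 42043) (nat_lit 0) [nat_lit 28921, nat_lit 46417, nat_lit 40585, nat_lit 42529, nat_lit 41881, nat_lit 42049, nat_lit 42041, nat_lit 42045, nat_lit 22361] (nat_lit 1) [] false,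
   Spec.mk (nat_lit 42045) (nat_lit 0) [nat_lit 28923, nat_lit 46419, nat_lit 40587, nat_lit 42531, nat_lit 41883, nat_lit 42051, nat_lit 42043, nat_lit 22363] (nat_lit 4) [] false,
   Spec.mk (nat_lit 42049) (nat_lit 0) [nat_lit 28927, nat_lit 46423, nat_lit 40591, nat_lit 42535, nat_lit 41887, nat_lit 42067, nat_lit 42043, nat_lit 42051, nat_lit 22367] (nat_lit 2) [] false,
   Spec.mk (nat_lit 42051) (nat_lit 0) [nat_lit 28929, nat_lit 46425, nat_lit 40593, nat_lit 42537, nat_lit 41889, nat_lit 42069, nat_lit 42045, nat_lit 42057, nat_lit 42049, nat_lit 22369] (nat_lit 3) [] false,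
   Spec.mk (nat_lit 42057) (nat_lit 0) [nat_lit 28935, nat_lit 46431, nat_lit 40599, nat_lit 42543, nat_lit 41895, nat_lit 42075, nat_lit 42051, nat_lit 22375] (nat_lit 4) [] false,
   Spec.mk (nat_lit 42067) (nat_lit 0) [nat_lit 28945, nat_lit 46441, nat_lit 40609, nat_lit 42553, nat_lit 41905, nat_lit 42121, nat_lit 42049, nat_lit 42069, nat_lit 22385] (nat_lit 2) [] false,
   Spec.mk (nat_lit 42069) (nat_lit 0) [nat_lit 28947, nat_lit 46443, nat_lit 40611, nat_lit 42555, nat_lit 41907, nat_lit 42123, nat_lit 42051, nat_lit 42075, nat_lit 42067, nat_lit 22387] (nat_lit 4) [] false,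
   Spec.mk (nat_lit 42075) (nat_lit 0) [nat_lit 28953, nat_lit 46449, nat_lit 40617, nat_lit 42561, nat_lit 41913, nat_lit 42129, nat_lit 42057, nat_lit 42093, nat_lit 42069, nat_lit 22393] (nat_lit 3) [] false,
   Spec.mk (nat_lit 42093) (nat_lit 0) [nat_lit 28971, nat_lit 46467, nat_lit 40635, nat_lit 42579, nat_lit 41931, nat_lit 42147, nat_lit 42075, nat_lit 22411] (nat_lit 4) [] false,
   Spec.mk (nat_lit 42121) (nat_lit 0) [nat_lit 28999, nat_lit 46495, nat_lit 40663, nat_lit 42607, nat_lit 41959, nat_lit 42067, nat_lit 42123, nat_lit 22439] (nat_lit 0) [] false,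
   Spec.mk (nat_lit 42123) (nat_lit 0) [nat_lit 29001, nat_lit 46497, nat_lit 40665, nat_lit 42609, nat_lit 41961, nat_lit 42069, nat_lit 42129, nat_lit 42121, nat_lit 22441] (nat_lit 2) [] false,
   Spec.mk (nat_lit 42129) (nat_lit 0) [nat_lit 29007, nat_lit 46503, nat_lit 40671, nat_lit 42615, nat_lit 41967, nat_lit 42075, nat_lit 42147, nat_lit 42123, nat_lit 22447] (nat_lit 2) [] false,
   Spec.mk (nat_lit 42147) (nat_lit 0) [nat_lit 29025, nat_lit 46521, nat_lit 40689, nat_lit 42633, nat_lit 41985, nat_lit 42093, nat_lit 42201, nat_lit 42129, nat_lit 22465] (nat_lit 1) [] false,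
   Spec.mk (nat_lit 42201) (nat_lit 0) [nat_lit 29079, nat_lit 46575, nat_lit 40743, nat_lit 42687, nat_lit 42147, nat_lit 22519] (nat_lit 0) [] false,
   Spec.mk (nat_lit 42287) (nat_lit 3) [nat_lit 29165, nat_lit 46661, nat_lit 40829, nat_lit 43745, nat_lit 41801, nat_lit 42293, nat_lit 42289] (nat_lit 0) [] false,
   Spec.mk (nat_lit 42289) (nat_lit 1) [nat_lit 29167, nat_lit 46663, nat_lit 40831, nat_lit 43747, nat_lit 41803, nat_lit 42295, nat_lit 42287, nat_lit 22607] (nat_lit 0) [] false,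
   Spec.mk (nat_lit 42293) (nat_lit 1) [nat_lit 29171, nat_lit 46667, nat_lit 40835, nat_lit 43751, nat_lit 41807, nat_lit 42311, nat_lit 42287, nat_lit 42295] (nat_lit 0) [] false,
   Spec.mk (nat_lit 42295) (nat_lit 1) [nat_lit 29173, nat_lit 46669, nat_lit 40837, nat_lit 43753, nat_lit 41809, nat_lit 42313, nat_lit 42289, nat_lit 42301, nat_lit 42293, nat_lit 42297, nat_lit 22613] (nat_lit 0) [] false,
   Spec.mk (nat_lit 42297) (nat_lit 0) [nat_lit 29175, nat_lit 46671, nat_lit 40839, nat_lit 43755, nat_lit 41811, nat_lit 42315, nat_lit 42303, nat_lit 42295, nat_lit 22615] (nat_lit 1) [] false,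
   Spec.mk (nat_lit 42301) (nat_lit 0) [nat_lit 29179, nat_lit 46675, nat_lit 40843, nat_lit 43759, nat_lit 41815, nat_lit 42319, nat_lit 42295, nat_lit 42303, nat_lit 22619] (nat_lit 1) [] false,
   Spec.mk (nat_lit 42303) (nat_lit 0) [nat_lit 29181, nat_lit 46677, nat_lit 40845, nat_lit 43761, nat_lit 41817, nat_lit 42321, nat_lit 42297, nat_lit 42301, nat_lit 22621] (nat_lit 1) [] false,
   Spec.mk (nat_lit 42311) (nat_lit 1) [nat_lit 29189, nat_lit 46685, nat_lit 40853, nat_lit 43769, nat_lit 41825, nat_lit 42365, nat_lit 42293, nat_lit 42313] (nat_lit 0) [] false,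
   Spec.mk (nat_lit 42313) (nat_lit 0) [nat_lit 29191, nat_lit 46687, nat_lit 40855, nat_lit 43771, nat_lit 41827, nat_lit 42367, nat_lit 42295, nat_lit 42319, nat_lit 42311, nat_lit 42315, nat_lit 22631] (nat_lit 0) [] false,
   Spec.mk (nat_lit 42315) (nat_lit 0) [nat_lit 29193, nat_lit 46689, nat_lit 40857, nat_lit 43773, nat_lit 41829, nat_lit 42369, nat_lit 42297, nat_lit 42321, nat_lit 42313, nat_lit 22633] (nat_lit 3) [] false,
   Spec.mk (nat_lit 42319) (nat_lit 0) [nat_lit 29197, nat_lit 46693, nat_lit 40861, nat_lit 43777, nat_lit 41833, nat_lit 42373, nat_lit 42301, nat_lit 42337, nat_lit 42313, nat_lit 42321, nat_lit 22637] (nat_lit 0) [] false,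
   Spec.mk (nat_lit 42321) (nat_lit 0) [nat_lit 29199, nat_lit 46695, nat_lit 40863, nat_lit 43779, nat_lit 41835, nat_lit 42375, nat_lit 42303, nat_lit 42339, nat_lit 42315, nat_lit 42327, nat_lit 42319, nat_lit 22639] (nat_lit 1) [] false,
   Spec.mk (nat_lit 42327) (nat_lit 0) [nat_lit 29205, nat_lit 46701, nat_lit 40869, nat_lit 43785, nat_lit 41841, nat_lit 42381, nat_lit 42345, nat_lit 42321, nat_lit 22645] (nat_lit 1) [] false,
   Spec.mk (nat_lit 42337) (nat_lit 0) [nat_lit 29215, nat_lit 46711, nat_lit 40879, nat_lit 43795, nat_lit 41851, nat_lit 42391, nat_lit 42319, nat_lit 42339, nat_lit 22655] (nat_lit 1) [] false,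
   Spec.mk (nat_lit 42339) (nat_lit 0) [nat_lit 29217, nat_lit 46713, nat_lit 40881, nat_lit 43797, nat_lit 41853, nat_lit 42393, nat_lit 42321, nat_lit 42345, nat_lit 42337, nat_lit 22657] (nat_lit 3) [] false,
   Spec.mk (nat_lit 42345) (nat_lit 0) [nat_lit 29223, nat_lit 46719, nat_lit 40887, nat_lit 43803, nat_lit 41859, nat_lit 42399, nat_lit 42327, nat_lit 42339, nat_lit 22663] (nat_lit 1) [] false,
   Spec.mk (nat_lit 42365) (nat_lit 1) [nat_lit 29243, nat_lit 46739, nat_lit 40907, nat_lit 43823, nat_lit 41879, nat_lit 42527, nat_lit 42311, nat_lit 42367] (nat_lit 0) [] false,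
   Spec.mk (nat_lit 42367) (nat_lit 0) [nat_lit 29245, nat_lit 46741, nat_lit 40909, nat_lit 43825, nat_lit 41881, nat_lit 42529, nat_lit 42313, nat_lit 42373, nat_lit 42365, nat_lit 42369, nat_lit 22685] (nat_lit 0) [] false,
   Spec.mk (nat_lit 42369) (nat_lit 0) [nat_lit 29247, nat_lit 46743, nat_lit 40911, nat_lit 43827, nat_lit 41883, nat_lit 42531, nat_lit 42315, nat_lit 42375, nat_lit 42367, nat_lit 22687] (nat_lit 3) [] false,
   Spec.mk (nat_lit 42373) (nat_lit 0) [nat_lit 29251, nat_lit 46747, nat_lit 40915, nat_lit 43831, nat_lit 41887, nat_lit 42535, nat_lit 42319, nat_lit 42391, nat_lit 42367, nat_lit 42375, nat_lit 22691] (nat_lit 1) [] false,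
   Spec.mk (nat_lit 42375) (nat_lit 0) [nat_lit 29253, nat_lit 46749, nat_lit 40917, nat_lit 43833, nat_lit 41889, nat_lit 42537, nat_lit 42321, nat_lit 42393, nat_lit 42369, nat_lit 42381, nat_lit 42373, nat_lit 22693] (nat_lit 2) [] false,
   Spec.mk (nat_lit 42381) (nat_lit 0) [nat_lit 29259, nat_lit 46755, nat_lit 40923, nat_lit 43839, nat_lit 41895, nat_lit 42543, nat_lit 42327, nat_lit 42399, nat_lit 42375, nat_lit 22699] (nat_lit 3) [] false,
   Spec.mk (nat_lit 42391) (nat_lit 0) [nat_lit 29269, nat_lit 46765, nat_lit 40933, nat_lit 43849, nat_lit 41905, nat_lit 42553, nat_lit 42337, nat_lit 42445, nat_lit 42373, nat_lit 42393, nat_lit 22709] (nat_lit 0) [] false,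
   Spec.mk (nat_lit 42393) (nat_lit 0) [nat_lit 29271, nat_lit 46767, nat_lit 40935, nat_lit 43851, nat_lit 41907, nat_lit 42555, nat_lit 42339, nat_lit 42447, nat_lit 42375, nat_lit 42399, nat_lit 42391, nat_lit 22711] (nat_lit 2) [] false,
   Spec.mk (nat_lit 42399) (nat_lit 0) [nat_lit 29277, nat_lit 46773, nat_lit 40941, nat_lit 43857, nat_lit 41913, nat_lit 42561, nat_lit 42345, nat_lit 42453, nat_lit 42381, nat_lit 42417, nat_lit 42393, nat_lit 22717] (nat_lit 1) [] false,
   Spec.mk (nat_lit 42417) (nat_lit 0) [nat_lit 29295, nat_lit 46791, nat_lit 40959, nat_lit 43875, nat_lit 41931, nat_lit 42579, nat_lit 42471, nat_lit 42399, nat_lit 22735] (nat_lit 1) [] false,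
   Spec.mk (nat_lit 42445) (nat_lit 0) [nat_lit 29323, nat_lit 46819, nat_lit 40987, nat_lit 43903, nat_lit 41959, nat_lit 42607, nat_lit 42391, nat_lit 42447, nat_lit 22763] (nat_lit 1) [] false,
   Spec.mk (nat_lit 42447) (nat_lit 0) [nat_lit 29325, nat_lit 46821, nat_lit 40989, nat_lit 43905, nat_lit 41961, nat_lit 42609, nat_lit 42393, nat_lit 42453, nat_lit 42445, nat_lit 22765] (nat_lit 3) [] false,
   Spec.mk (nat_lit 42453) (nat_lit 0) [nat_lit 29331, nat_lit 46827, nat_lit 40995, nat_lit 43911, nat_lit 41967, nat_lit 42615, nat_lit 42399, nat_lit 42471, nat_lit 42447, nat_lit 22771] (nat_lit 3) [] false,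
   Spec.mk (nat_lit 42471) (nat_lit 0) [nat_lit 29349, nat_lit 46845, nat_lit 41013, nat_lit 43929, nat_lit 41985, nat_lit 42633, nat_lit 42417, nat_lit 42453, nat_lit 22789] (nat_lit 1) [] false,
   Spec.mk (nat_lit 42527) (nat_lit 2) [nat_lit 29405, nat_lit 46901, nat_lit 41069, nat_lit 43985, nat_lit 42041, nat_lit 43013, nat_lit 42365, nat_lit 42529] (nat_lit 0) [] false,
   Spec.mk (nat_lit 42529) (nat_lit 1) [nat_lit 29407, nat_lit 46903, nat_lit 41071, nat_lit 43987, nat_lit 42043, nat_lit 43015, nat_lit 42367, nat_lit 42535, nat_lit 42527, nat_lit 42531, nat_lit 22847] (nat_lit 0) [] false,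
   Spec.mk (nat_lit 42531) (nat_lit 0) [nat_lit 29409, nat_lit 46905, nat_lit 41073, nat_lit 43989, nat_lit 42045, nat_lit 43017, nat_lit 42369, nat_lit 42537, nat_lit 42529, nat_lit 22849] (nat_lit 2) [] false,
   Spec.mk (nat_lit 42535) (nat_lit 0) [nat_lit 29413, nat_lit 46909, nat_lit 41077, nat_lit 43993, nat_lit 42049, nat_lit 43021, nat_lit 42373, nat_lit 42553, nat_lit 42529, nat_lit 42537, nat_lit 22853] (nat_lit 0) [] false,
   Spec.mk (nat_lit 42537) (nat_lit 0) [nat_lit 29415, nat_lit 46911, nat_lit 41079, nat_lit 43995, nat_lit 42051, nat_lit 43023, nat_lit 42375, nat_lit 42555, nat_lit 42531, nat_lit 42543, nat_lit 42535, nat_lit 22855] (nat_lit 1) [] false,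
   Spec.mk (nat_lit 42543) (nat_lit 0) [nat_lit 29421, nat_lit 46917, nat_lit 41085, nat_lit 44001, nat_lit 42057, nat_lit 43029, nat_lit 42381, nat_lit 42561, nat_lit 42537, nat_lit 22861] (nat_lit 2) [] false,
   Spec.mk (nat_lit 42553) (nat_lit 0) [nat_lit 29431, nat_lit 46927, nat_lit 41095, nat_lit 44011, nat_lit 42067, nat_lit 43039, nat_lit 42391, nat_lit 42607, nat_lit 42535, nat_lit 42555, nat_lit 22871] (nat_lit 0) [] false,
   Spec.mk (nat_lit 42555) (nat_lit 0) [nat_lit 29433, nat_lit 46929, nat_lit 41097, nat_lit 44013, nat_lit 42069, nat_lit 43041, nat_lit 42393, nat_lit 42609, nat_lit 42537, nat_lit 42561, nat_lit 42553, nat_lit 22873] (nat_lit 2) [] false,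
   Spec.mk (nat_lit 42561) (nat_lit 0) [nat_lit 29439, nat_lit 46935, nat_lit 41103, nat_lit 44019, nat_lit 42075, nat_lit 43047, nat_lit 42399, nat_lit 42615, nat_lit 42543, nat_lit 42579, nat_lit 42555, nat_lit 22879] (nat_lit 1) [] false,
   Spec.mk (nat_lit 42579) (nat_lit 0) [nat_lit 29457, nat_lit 46953, nat_lit 41121, nat_lit 44037, nat_lit 42093, nat_lit 43065, nat_lit 42417, nat_lit 42633, nat_lit 42561, nat_lit 22897] (nat_lit 2) [] false,
   Spec.mk (nat_lit 42607) (nat_lit 1) [nat_lit 29485, nat_lit 46981, nat_lit 41149, nat_lit 44065, nat_lit 42121, nat_lit 43093, nat_lit 42445, nat_lit 42769, nat_lit 42553, nat_lit 42609, nat_lit 22925] (nat_lit 0) [] false,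
   Spec.mk (nat_lit 42609) (nat_lit 0) [nat_lit 29487, nat_lit 46983, nat_lit 41151, nat_lit 44067, nat_lit 42123, nat_lit 43095, nat_lit 42447, nat_lit 42771, nat_lit 42555, nat_lit 42615, nat_lit 42607, nat_lit 22927] (nat_lit 1) [] false,
   Spec.mk (nat_lit 42615) (nat_lit 0) [nat_lit 29493, nat_lit 46989, nat_lit 41157, nat_lit 44073, nat_lit 42129, nat_lit 43101, nat_lit 42453, nat_lit 42777, nat_lit 42561, nat_lit 42633, nat_lit 42609, nat_lit 22933] (nat_lit 1) [] false,
   Spec.mk (nat_lit 42633) (nat_lit 0) [nat_lit 29511, nat_lit 47007, nat_lit 41175, nat_lit 44091, nat_lit 42147, nat_lit 43119, nat_lit 42471, nat_lit 42795, nat_lit 42579, nat_lit 42687, nat_lit 42615, nat_lit 22951] (nat_lit 0) [] false,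
   Spec.mk (nat_lit 42687) (nat_lit 0) [nat_lit 29565, nat_lit 47061, nat_lit 41229, nat_lit 44145, nat_lit 42201, nat_lit 43173, nat_lit 42849, nat_lit 42633, nat_lit 23005] (nat_lit 0) [] false,
   Spec.mk (nat_lit 42769) (nat_lit 1) [nat_lit 29647, nat_lit 47143, nat_lit 41311, nat_lit 44227, nat_lit 43255, nat_lit 42607, nat_lit 42771, nat_lit 23087] (nat_lit 0) [] false]

noncomputable def sp71 : List Spec :=
  [Spec.mk (nat_lit 42771) (nat_lit 0) [nat_lit 29649, nat_lit 47145, nat_lit 41313, nat_lit 44229, nat_lit 43257, nat_lit 42609, nat_lit 42777, nat_lit 42769, nat_lit 23089] (nat_lit 1) [] false,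
   Spec.mk (nat_lit 42777) (nat_lit 0) [nat_lit 29655, nat_lit 47151, nat_lit 41319, nat_lit 44235, nat_lit 43263, nat_lit 42615, nat_lit 42795, nat_lit 42771, nat_lit 23095] (nat_lit 1) [] false,
   Spec.mk (nat_lit 42795) (nat_lit 0) [nat_lit 29673, nat_lit 47169, nat_lit 41337, nat_lit 44253, nat_lit 43281, nat_lit 42633, nat_lit 42849, nat_lit 42777, nat_lit 23113] (nat_lit 1) [] false,
   Spec.mk (nat_lit 42849) (nat_lit 1) [nat_lit 29727, nat_lit 47223, nat_lit 41391, nat_lit 44307, nat_lit 43335, nat_lit 42687, nat_lit 42795, nat_lit 23167] (nat_lit 0) [] false,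
   Spec.mk (nat_lit 43013) (nat_lit 2) [nat_lit 29891, nat_lit 47387, nat_lit 44471, nat_lit 42527, nat_lit 43015] (nat_lit 0) [] false,
   Spec.mk (nat_lit 43015) (nat_lit 1) [nat_lit 29893, nat_lit 47389, nat_lit 44473, nat_lit 42529, nat_lit 43021, nat_lit 43013, nat_lit 43017, nat_lit 23333] (nat_lit 0) [] false,
   Spec.mk (nat_lit 43017) (nat_lit 0) [nat_lit 29895, nat_lit 47391, nat_lit 44475, nat_lit 42531, nat_lit 43023, nat_lit 43015, nat_lit 23335] (nat_lit 2) [] false,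
   Spec.mk (nat_lit 43021) (nat_lit 0) [nat_lit 29899, nat_lit 47395, nat_lit 44479, nat_lit 42535, nat_lit 43039, nat_lit 43015, nat_lit 43023, nat_lit 23339] (nat_lit 0) [] false,
   Spec.mk (nat_lit 43023) (nat_lit 0) [nat_lit 29901, nat_lit 47397, nat_lit 44481, nat_lit 42537, nat_lit 43041, nat_lit 43017, nat_lit 43029, nat_lit 43021, nat_lit 23341] (nat_lit 1) [] false,
   Spec.mk (nat_lit 43029) (nat_lit 0) [nat_lit 29907, nat_lit 47403, nat_lit 44487, nat_lit 42543, nat_lit 43047, nat_lit 43023, nat_lit 23347] (nat_lit 2) [] false,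
   Spec.mk (nat_lit 43039) (nat_lit 0) [nat_lit 29917, nat_lit 47413, nat_lit 44497, nat_lit 42553, nat_lit 43093, nat_lit 43021, nat_lit 43041, nat_lit 23357] (nat_lit 0) [] false,
   Spec.mk (nat_lit 43041) (nat_lit 0) [nat_lit 29919, nat_lit 47415, nat_lit 44499, nat_lit 42555, nat_lit 43095, nat_lit 43023, nat_lit 43047, nat_lit 43039, nat_lit 23359] (nat_lit 2) [] false,
   Spec.mk (nat_lit 43047) (nat_lit 0) [nat_lit 29925, nat_lit 47421, nat_lit 44505, nat_lit 42561, nat_lit 43101, nat_lit 43029, nat_lit 43065, nat_lit 43041, nat_lit 23365] (nat_lit 1) [] false,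
   Spec.mk (nat_lit 43065) (nat_lit 0) [nat_lit 29943, nat_lit 47439, nat_lit 44523, nat_lit 42579, nat_lit 43119, nat_lit 43047, nat_lit 23383] (nat_lit 2) [] false,
   Spec.mk (nat_lit 43093) (nat_lit 0) [nat_lit 29971, nat_lit 47467, nat_lit 44551, nat_lit 42607, nat_lit 43255, nat_lit 43039, nat_lit 43095, nat_lit 23411] (nat_lit 0) [] false,
   Spec.mk (nat_lit 43095) (nat_lit 0) [nat_lit 29973, nat_lit 47469, nat_lit 44553, nat_lit 42609, nat_lit 43257, nat_lit 43041, nat_lit 43101, nat_lit 43093, nat_lit 23413] (nat_lit 2) [] false,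
   Spec.mk (nat_lit 43101) (nat_lit 0) [nat_lit 29979, nat_lit 47475, nat_lit 44559, nat_lit 42615, nat_lit 43263, nat_lit 43047, nat_lit 43119, nat_lit 43095, nat_lit 23419] (nat_lit 2) [] false,
   Spec.mk (nat_lit 43119) (nat_lit 0) [nat_lit 29997, nat_lit 47493, nat_lit 44577, nat_lit 42633, nat_lit 43281, nat_lit 43065, nat_lit 43173, nat_lit 43101, nat_lit 23437] (nat_lit 1) [] false,
   Spec.mk (nat_lit 43173) (nat_lit 0) [nat_lit 30051, nat_lit 47547, nat_lit 44631, nat_lit 42687, nat_lit 43335, nat_lit 43119, nat_lit 23491] (nat_lit 2) [] false,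
   Spec.mk (nat_lit 43255) (nat_lit 2) [nat_lit 30133, nat_lit 47629, nat_lit 44713, nat_lit 42769, nat_lit 43093, nat_lit 43257, nat_lit 23573] (nat_lit 0) [] false,
   Spec.mk (nat_lit 43257) (nat_lit 0) [nat_lit 30135, nat_lit 47631, nat_lit 44715, nat_lit 42771, nat_lit 43095, nat_lit 43263, nat_lit 43255, nat_lit 23575] (nat_lit 0) [] false,
   Spec.mk (nat_lit 43263) (nat_lit 0) [nat_lit 30141, nat_lit 47637, nat_lit 44721, nat_lit 42777, nat_lit 43101, nat_lit 43281, nat_lit 43257, nat_lit 23581] (nat_lit 0) [] false,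
   Spec.mk (nat_lit 43281) (nat_lit 0) [nat_lit 30159, nat_lit 47655, nat_lit 44739, nat_lit 42795, nat_lit 43119, nat_lit 43335, nat_lit 43263, nat_lit 23599] (nat_lit 0) [] false,
   Spec.mk (nat_lit 43335) (nat_lit 1) [nat_lit 30213, nat_lit 47709, nat_lit 44793, nat_lit 42849, nat_lit 43173, nat_lit 43497, nat_lit 43281, nat_lit 23653] (nat_lit 0) [] false,
   Spec.mk (nat_lit 43497) (nat_lit 2) [nat_lit 30375, nat_lit 47871, nat_lit 44955, nat_lit 43335, nat_lit 23815] (nat_lit 0) [] false,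
   Spec.mk (nat_lit 43745) (nat_lit 2) [nat_lit 30623, nat_lit 48119, nat_lit 42287, nat_lit 43751, nat_lit 43747] (nat_lit 0) [] false,
   Spec.mk (nat_lit 43747) (nat_lit 0) [nat_lit 30625, nat_lit 48121, nat_lit 42289, nat_lit 43753, nat_lit 43745, nat_lit 24065] (nat_lit 0) [] false,
   Spec.mk (nat_lit 43751) (nat_lit 0) [nat_lit 30629, nat_lit 48125, nat_lit 42293, nat_lit 43769, nat_lit 43745, nat_lit 43753] (nat_lit 0) [] false,
   Spec.mk (nat_lit 43753) (nat_lit 0) [nat_lit 30631, nat_lit 48127, nat_lit 42295, nat_lit 43771, nat_lit 43747, nat_lit 43759, nat_lit 43751, nat_lit 43755, nat_lit 24071] (nat_lit 0) [] false,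
   Spec.mk (nat_lit 43755) (nat_lit 0) [nat_lit 30633, nat_lit 48129, nat_lit 42297, nat_lit 43773, nat_lit 43761, nat_lit 43753, nat_lit 24073] (nat_lit 2) [] false,
   Spec.mk (nat_lit 43759) (nat_lit 0) [nat_lit 30637, nat_lit 48133, nat_lit 42301, nat_lit 43777, nat_lit 43753, nat_lit 43761, nat_lit 24077] (nat_lit 2) [] false,
   Spec.mk (nat_lit 43761) (nat_lit 0) [nat_lit 30639, nat_lit 48135, nat_lit 42303, nat_lit 43779, nat_lit 43755, nat_lit 43759, nat_lit 24079] (nat_lit 2) [] false,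
   Spec.mk (nat_lit 43769) (nat_lit 0) [nat_lit 30647, nat_lit 48143, nat_lit 42311, nat_lit 43823, nat_lit 43751, nat_lit 43771] (nat_lit 0) [] false,
   Spec.mk (nat_lit 43771) (nat_lit 0) [nat_lit 30649, nat_lit 48145, nat_lit 42313, nat_lit 43825, nat_lit 43753, nat_lit 43777, nat_lit 43769, nat_lit 43773, nat_lit 24089] (nat_lit 1) [] false,
   Spec.mk (nat_lit 43773) (nat_lit 0) [nat_lit 30651, nat_lit 48147, nat_lit 42315, nat_lit 43827, nat_lit 43755, nat_lit 43779, nat_lit 43771, nat_lit 24091] (nat_lit 4) [] false,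
   Spec.mk (nat_lit 43777) (nat_lit 0) [nat_lit 30655, nat_lit 48151, nat_lit 42319, nat_lit 43831, nat_lit 43759, nat_lit 43795, nat_lit 43771, nat_lit 43779, nat_lit 24095] (nat_lit 1) [] false,
   Spec.mk (nat_lit 43779) (nat_lit 0) [nat_lit 30657, nat_lit 48153, nat_lit 42321, nat_lit 43833, nat_lit 43761, nat_lit 43797, nat_lit 43773, nat_lit 43785, nat_lit 43777, nat_lit 24097] (nat_lit 2) [] false,
   Spec.mk (nat_lit 43785) (nat_lit 0) [nat_lit 30663, nat_lit 48159, nat_lit 42327, nat_lit 43839, nat_lit 43803, nat_lit 43779, nat_lit 24103] (nat_lit 2) [] false,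
   Spec.mk (nat_lit 43795) (nat_lit 0) [nat_lit 30673, nat_lit 48169, nat_lit 42337, nat_lit 43849, nat_lit 43777, nat_lit 43797, nat_lit 24113] (nat_lit 2) [] false,
   Spec.mk (nat_lit 43797) (nat_lit 0) [nat_lit 30675, nat_lit 48171, nat_lit 42339, nat_lit 43851, nat_lit 43779, nat_lit 43803, nat_lit 43795, nat_lit 24115] (nat_lit 4) [] false,
   Spec.mk (nat_lit 43803) (nat_lit 0) [nat_lit 30681, nat_lit 48177, nat_lit 42345, nat_lit 43857, nat_lit 43785, nat_lit 43797, nat_lit 24121] (nat_lit 2) [] false,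
   Spec.mk (nat_lit 43823) (nat_lit 0) [nat_lit 30701, nat_lit 48197, nat_lit 42365, nat_lit 43985, nat_lit 43769, nat_lit 43825] (nat_lit 0) [] false,
   Spec.mk (nat_lit 43825) (nat_lit 0) [nat_lit 30703, nat_lit 48199, nat_lit 42367, nat_lit 43987, nat_lit 43771, nat_lit 43831, nat_lit 43823, nat_lit 43827, nat_lit 24143] (nat_lit 1) [] false,
   Spec.mk (nat_lit 43827) (nat_lit 0) [nat_lit 30705, nat_lit 48201, nat_lit 42369, nat_lit 43989, nat_lit 43773, nat_lit 43833, nat_lit 43825, nat_lit 24145] (nat_lit 4) [] false,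
   Spec.mk (nat_lit 43831) (nat_lit 0) [nat_lit 30709, nat_lit 48205, nat_lit 42373, nat_lit 43993, nat_lit 43777, nat_lit 43849, nat_lit 43825, nat_lit 43833, nat_lit 24149] (nat_lit 2) [] false,
   Spec.mk (nat_lit 43833) (nat_lit 0) [nat_lit 30711, nat_lit 48207, nat_lit 42375, nat_lit 43995, nat_lit 43779, nat_lit 43851, nat_lit 43827, nat_lit 43839, nat_lit 43831, nat_lit 24151] (nat_lit 3) [] false,
   Spec.mk (nat_lit 43839) (nat_lit 0) [nat_lit 30717, nat_lit 48213, nat_lit 42381, nat_lit 44001, nat_lit 43785, nat_lit 43857, nat_lit 43833, nat_lit 24157] (nat_lit 4) [] false,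
   Spec.mk (nat_lit 43849) (nat_lit 0) [nat_lit 30727, nat_lit 48223, nat_lit 42391, nat_lit 44011, nat_lit 43795, nat_lit 43903, nat_lit 43831, nat_lit 43851, nat_lit 24167] (nat_lit 1) [] false,
   Spec.mk (nat_lit 43851) (nat_lit 0) [nat_lit 30729, nat_lit 48225, nat_lit 42393, nat_lit 44013, nat_lit 43797, nat_lit 43905, nat_lit 43833, nat_lit 43857, nat_lit 43849, nat_lit 24169] (nat_lit 3) [] false,
   Spec.mk (nat_lit 43857) (nat_lit 0) [nat_lit 30735, nat_lit 48231, nat_lit 42399, nat_lit 44019, nat_lit 43803, nat_lit 43911, nat_lit 43839, nat_lit 43875, nat_lit 43851, nat_lit 24175] (nat_lit 2) [] false,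
   Spec.mk (nat_lit 43875) (nat_lit 0) [nat_lit 30753, nat_lit 48249, nat_lit 42417, nat_lit 44037, nat_lit 43929, nat_lit 43857, nat_lit 24193] (nat_lit 2) [] false,
   Spec.mk (nat_lit 43903) (nat_lit 0) [nat_lit 30781, nat_lit 48277, nat_lit 42445, nat_lit 44065, nat_lit 43849, nat_lit 43905, nat_lit 24221] (nat_lit 2) [] false,
   Spec.mk (nat_lit 43905) (nat_lit 0) [nat_lit 30783, nat_lit 48279, nat_lit 42447, nat_lit 44067, nat_lit 43851, nat_lit 43911, nat_lit 43903, nat_lit 24223] (nat_lit 4) [] false,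
   Spec.mk (nat_lit 43911) (nat_lit 0) [nat_lit 30789, nat_lit 48285, nat_lit 42453, nat_lit 44073, nat_lit 43857, nat_lit 43929, nat_lit 43905, nat_lit 24229] (nat_lit 4) [] false,
   Spec.mk (nat_lit 43929) (nat_lit 0) [nat_lit 30807, nat_lit 48303, nat_lit 42471, nat_lit 44091, nat_lit 43875, nat_lit 43911, nat_lit 24247] (nat_lit 2) [] false,
   Spec.mk (nat_lit 43985) (nat_lit 0) [nat_lit 30863, nat_lit 48359, nat_lit 42527, nat_lit 44471, nat_lit 43823, nat_lit 43987] (nat_lit 0) [] false,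
   Spec.mk (nat_lit 43987) (nat_lit 0) [nat_lit 30865, nat_lit 48361, nat_lit 42529, nat_lit 44473, nat_lit 43825, nat_lit 43993, nat_lit 43985, nat_lit 43989, nat_lit 24305] (nat_lit 1) [] false,
   Spec.mk (nat_lit 43989) (nat_lit 0) [nat_lit 30867, nat_lit 48363, nat_lit 42531, nat_lit 44475, nat_lit 43827, nat_lit 43995, nat_lit 43987, nat_lit 24307] (nat_lit 4) [] false,
   Spec.mk (nat_lit 43993) (nat_lit 0) [nat_lit 30871, nat_lit 48367, nat_lit 42535, nat_lit 44479, nat_lit 43831, nat_lit 44011, nat_lit 43987, nat_lit 43995, nat_lit 24311] (nat_lit 2) [] false,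
   Spec.mk (nat_lit 43995) (nat_lit 0) [nat_lit 30873, nat_lit 48369, nat_lit 42537, nat_lit 44481, nat_lit 43833, nat_lit 44013, nat_lit 43989, nat_lit 44001, nat_lit 43993, nat_lit 24313] (nat_lit 3) [] false]

noncomputable def sp72 : List Spec :=
  [Spec.mk (nat_lit 44001) (nat_lit 0) [nat_lit 30879, nat_lit 48375, nat_lit 42543, nat_lit 44487, nat_lit 43839, nat_lit 44019, nat_lit 43995, nat_lit 24319] (nat_lit 4) [] false,
   Spec.mk (nat_lit 44011) (nat_lit 0) [nat_lit 30889, nat_lit 48385, nat_lit 42553, nat_lit 44497, nat_lit 43849, nat_lit 44065, nat_lit 43993, nat_lit 44013, nat_lit 24329] (nat_lit 2) [] false,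
   Spec.mk (nat_lit 44013) (nat_lit 0) [nat_lit 30891, nat_lit 48387, nat_lit 42555, nat_lit 44499, nat_lit 43851, nat_lit 44067, nat_lit 43995, nat_lit 44019, nat_lit 44011, nat_lit 24331] (nat_lit 4) [] false,
   Spec.mk (nat_lit 44019) (nat_lit 0) [nat_lit 30897, nat_lit 48393, nat_lit 42561, nat_lit 44505, nat_lit 43857, nat_lit 44073, nat_lit 44001, nat_lit 44037, nat_lit 44013, nat_lit 24337] (nat_lit 3) [] false,
   Spec.mk (nat_lit 44037) (nat_lit 0) [nat_lit 30915, nat_lit 48411, nat_lit 42579, nat_lit 44523, nat_lit 43875, nat_lit 44091, nat_lit 44019, nat_lit 24355] (nat_lit 4) [] false,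
   Spec.mk (nat_lit 44065) (nat_lit 0) [nat_lit 30943, nat_lit 48439, nat_lit 42607, nat_lit 44551, nat_lit 43903, nat_lit 44227, nat_lit 44011, nat_lit 44067, nat_lit 24383] (nat_lit 1) [] false,
   Spec.mk (nat_lit 44067) (nat_lit 0) [nat_lit 30945, nat_lit 48441, nat_lit 42609, nat_lit 44553, nat_lit 43905, nat_lit 44229, nat_lit 44013, nat_lit 44073, nat_lit 44065, nat_lit 24385] (nat_lit 3) [] false,
   Spec.mk (nat_lit 44073) (nat_lit 0) [nat_lit 30951, nat_lit 48447, nat_lit 42615, nat_lit 44559, nat_lit 43911, nat_lit 44235, nat_lit 44019, nat_lit 44091, nat_lit 44067, nat_lit 24391] (nat_lit 3) [] false,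
   Spec.mk (nat_lit 44091) (nat_lit 0) [nat_lit 30969, nat_lit 48465, nat_lit 42633, nat_lit 44577, nat_lit 43929, nat_lit 44253, nat_lit 44037, nat_lit 44145, nat_lit 44073, nat_lit 24409] (nat_lit 2) [] false,
   Spec.mk (nat_lit 44145) (nat_lit 0) [nat_lit 31023, nat_lit 48519, nat_lit 42687, nat_lit 44631, nat_lit 44307, nat_lit 44091, nat_lit 24463] (nat_lit 2) [] false,
   Spec.mk (nat_lit 44227) (nat_lit 0) [nat_lit 31105, nat_lit 48601, nat_lit 42769, nat_lit 44713, nat_lit 44065, nat_lit 44229, nat_lit 24545] (nat_lit 2) [] false,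
   Spec.mk (nat_lit 44229) (nat_lit 0) [nat_lit 31107, nat_lit 48603, nat_lit 42771, nat_lit 44715, nat_lit 44067, nat_lit 44235, nat_lit 44227, nat_lit 24547] (nat_lit 4) [] false,
   Spec.mk (nat_lit 44235) (nat_lit 0) [nat_lit 31113, nat_lit 48609, nat_lit 42777, nat_lit 44721, nat_lit 44073, nat_lit 44253, nat_lit 44229, nat_lit 24553] (nat_lit 4) [] false,
   Spec.mk (nat_lit 44253) (nat_lit 0) [nat_lit 31131, nat_lit 48627, nat_lit 42795, nat_lit 44739, nat_lit 44091, nat_lit 44307, nat_lit 44235, nat_lit 24571] (nat_lit 4) [] false,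
   Spec.mk (nat_lit 44307) (nat_lit 0) [nat_lit 31185, nat_lit 48681, nat_lit 42849, nat_lit 44793, nat_lit 44145, nat_lit 44253, nat_lit 24625] (nat_lit 2) [] false,
   Spec.mk (nat_lit 44471) (nat_lit 2) [nat_lit 31349, nat_lit 48845, nat_lit 43013, nat_lit 43985, nat_lit 44473] (nat_lit 0) [] false,
   Spec.mk (nat_lit 44473) (nat_lit 1) [nat_lit 31351, nat_lit 48847, nat_lit 43015, nat_lit 43987, nat_lit 44479, nat_lit 44471, nat_lit 44475, nat_lit 24791] (nat_lit 0) [] false,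
   Spec.mk (nat_lit 44475) (nat_lit 0) [nat_lit 31353, nat_lit 48849, nat_lit 43017, nat_lit 43989, nat_lit 44481, nat_lit 44473, nat_lit 24793] (nat_lit 2) [] false,
   Spec.mk (nat_lit 44479) (nat_lit 0) [nat_lit 31357, nat_lit 48853, nat_lit 43021, nat_lit 43993, nat_lit 44497, nat_lit 44473, nat_lit 44481, nat_lit 24797] (nat_lit 0) [] false,
   Spec.mk (nat_lit 44481) (nat_lit 0) [nat_lit 31359, nat_lit 48855, nat_lit 43023, nat_lit 43995, nat_lit 44499, nat_lit 44475, nat_lit 44487, nat_lit 44479, nat_lit 24799] (nat_lit 1) [] false,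
   Spec.mk (nat_lit 44487) (nat_lit 0) [nat_lit 31365, nat_lit 48861, nat_lit 43029, nat_lit 44001, nat_lit 44505, nat_lit 44481, nat_lit 24805] (nat_lit 2) [] false,
   Spec.mk (nat_lit 44497) (nat_lit 0) [nat_lit 31375, nat_lit 48871, nat_lit 43039, nat_lit 44011, nat_lit 44551, nat_lit 44479, nat_lit 44499, nat_lit 24815] (nat_lit 0) [] false,
   Spec.mk (nat_lit 44499) (nat_lit 0) [nat_lit 31377, nat_lit 48873, nat_lit 43041, nat_lit 44013, nat_lit 44553, nat_lit 44481, nat_lit 44505, nat_lit 44497, nat_lit 24817] (nat_lit 2) [] false,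
   Spec.mk (nat_lit 44505) (nat_lit 0) [nat_lit 31383, nat_lit 48879, nat_lit 43047, nat_lit 44019, nat_lit 44559, nat_lit 44487, nat_lit 44523, nat_lit 44499, nat_lit 24823] (nat_lit 1) [] false,
   Spec.mk (nat_lit 44523) (nat_lit 0) [nat_lit 31401, nat_lit 48897, nat_lit 43065, nat_lit 44037, nat_lit 44577, nat_lit 44505, nat_lit 24841] (nat_lit 2) [] false,
   Spec.mk (nat_lit 44551) (nat_lit 0) [nat_lit 31429, nat_lit 48925, nat_lit 43093, nat_lit 44065, nat_lit 44713, nat_lit 44497, nat_lit 44553, nat_lit 24869] (nat_lit 0) [] false,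
   Spec.mk (nat_lit 44553) (nat_lit 0) [nat_lit 31431, nat_lit 48927, nat_lit 43095, nat_lit 44067, nat_lit 44715, nat_lit 44499, nat_lit 44559, nat_lit 44551, nat_lit 24871] (nat_lit 2) [] false,
   Spec.mk (nat_lit 44559) (nat_lit 0) [nat_lit 31437, nat_lit 48933, nat_lit 43101, nat_lit 44073, nat_lit 44721, nat_lit 44505, nat_lit 44577, nat_lit 44553, nat_lit 24877] (nat_lit 2) [] false,
   Spec.mk (nat_lit 44577) (nat_lit 0) [nat_lit 31455, nat_lit 48951, nat_lit 43119, nat_lit 44091, nat_lit 44739, nat_lit 44523, nat_lit 44631, nat_lit 44559, nat_lit 24895] (nat_lit 1) [] false,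
   Spec.mk (nat_lit 44631) (nat_lit 0) [nat_lit 31509, nat_lit 49005, nat_lit 43173, nat_lit 44145, nat_lit 44793, nat_lit 44577, nat_lit 24949] (nat_lit 2) [] false,
   Spec.mk (nat_lit 44713) (nat_lit 1) [nat_lit 31591, nat_lit 49087, nat_lit 43255, nat_lit 44227, nat_lit 45199, nat_lit 44551, nat_lit 44715, nat_lit 25031] (nat_lit 0) [] false,
   Spec.mk (nat_lit 44715) (nat_lit 0) [nat_lit 31593, nat_lit 49089, nat_lit 43257, nat_lit 44229, nat_lit 45201, nat_lit 44553, nat_lit 44721, nat_lit 44713, nat_lit 25033] (nat_lit 1) [] false,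
   Spec.mk (nat_lit 44721) (nat_lit 0) [nat_lit 31599, nat_lit 49095, nat_lit 43263, nat_lit 44235, nat_lit 45207, nat_lit 44559, nat_lit 44739, nat_lit 44715, nat_lit 25039] (nat_lit 1) [] false,
   Spec.mk (nat_lit 44739) (nat_lit 0) [nat_lit 31617, nat_lit 49113, nat_lit 43281, nat_lit 44253, nat_lit 45225, nat_lit 44577, nat_lit 44793, nat_lit 44721, nat_lit 25057] (nat_lit 1) [] false,
   Spec.mk (nat_lit 44793) (nat_lit 0) [nat_lit 31671, nat_lit 49167, nat_lit 43335, nat_lit 44307, nat_lit 45279, nat_lit 44631, nat_lit 44955, nat_lit 44739, nat_lit 25111] (nat_lit 0) [] false,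
   Spec.mk (nat_lit 44955) (nat_lit 0) [nat_lit 31833, nat_lit 49329, nat_lit 43497, nat_lit 45441, nat_lit 44793, nat_lit 25273] (nat_lit 0) [] false,
   Spec.mk (nat_lit 45199) (nat_lit 2) [nat_lit 32077, nat_lit 49573, nat_lit 44713, nat_lit 45201, nat_lit 25517] (nat_lit 0) [] false,
   Spec.mk (nat_lit 45201) (nat_lit 0) [nat_lit 32079, nat_lit 49575, nat_lit 44715, nat_lit 45207, nat_lit 45199, nat_lit 25519] (nat_lit 0) [] false,
   Spec.mk (nat_lit 45207) (nat_lit 0) [nat_lit 32085, nat_lit 49581, nat_lit 44721, nat_lit 45225, nat_lit 45201, nat_lit 25525] (nat_lit 0) [] false,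
   Spec.mk (nat_lit 45225) (nat_lit 0) [nat_lit 32103, nat_lit 49599, nat_lit 44739, nat_lit 45279, nat_lit 45207, nat_lit 25543] (nat_lit 0) [] false,
   Spec.mk (nat_lit 45279) (nat_lit 0) [nat_lit 32157, nat_lit 49653, nat_lit 44793, nat_lit 45441, nat_lit 45225, nat_lit 25597] (nat_lit 0) [] false,
   Spec.mk (nat_lit 45441) (nat_lit 2) [nat_lit 32319, nat_lit 49815, nat_lit 44955, nat_lit 45279, nat_lit 25759] (nat_lit 0) [] false,
   Spec.mk (nat_lit 45935) (nat_lit 6) [nat_lit 32813, nat_lit 41561, nat_lit 45941] (nat_lit 0) [] false,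
   Spec.mk (nat_lit 45941) (nat_lit 5) [nat_lit 32819, nat_lit 41567, nat_lit 45959, nat_lit 45935, nat_lit 45947, nat_lit 45943] (nat_lit 0) [] false,
   Spec.mk (nat_lit 45943) (nat_lit 4) [nat_lit 32821, nat_lit 41569, nat_lit 45961, nat_lit 45949, nat_lit 45941, nat_lit 26261] (nat_lit 0) [] false,
   Spec.mk (nat_lit 45947) (nat_lit 2) [nat_lit 32825, nat_lit 41573, nat_lit 45965, nat_lit 45941, nat_lit 45949] (nat_lit 0) [] false,
   Spec.mk (nat_lit 45949) (nat_lit 3) [nat_lit 32827, nat_lit 41575, nat_lit 45967, nat_lit 45943, nat_lit 45947, nat_lit 45951, nat_lit 26267] (nat_lit 0) [] false,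
   Spec.mk (nat_lit 45951) (nat_lit 2) [nat_lit 32829, nat_lit 41577, nat_lit 45969, nat_lit 45949, nat_lit 26269] (nat_lit 0) [] false,
   Spec.mk (nat_lit 45959) (nat_lit 4) [nat_lit 32837, nat_lit 41585, nat_lit 46013, nat_lit 45941, nat_lit 45965, nat_lit 45961] (nat_lit 0) [] false,
   Spec.mk (nat_lit 45961) (nat_lit 2) [nat_lit 32839, nat_lit 41587, nat_lit 46015, nat_lit 45943, nat_lit 45967, nat_lit 45959, nat_lit 26279] (nat_lit 0) [] false,
   Spec.mk (nat_lit 45965) (nat_lit 3) [nat_lit 32843, nat_lit 41591, nat_lit 46019, nat_lit 45947, nat_lit 45983, nat_lit 45959, nat_lit 45967] (nat_lit 0) [] false,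
   Spec.mk (nat_lit 45967) (nat_lit 3) [nat_lit 32845, nat_lit 41593, nat_lit 46021, nat_lit 45949, nat_lit 45985, nat_lit 45961, nat_lit 45973, nat_lit 45965, nat_lit 45969, nat_lit 26285] (nat_lit 0) [] false,
   Spec.mk (nat_lit 45969) (nat_lit 1) [nat_lit 32847, nat_lit 41595, nat_lit 46023, nat_lit 45951, nat_lit 45987, nat_lit 45975, nat_lit 45967, nat_lit 26287] (nat_lit 0) [] false,
   Spec.mk (nat_lit 45973) (nat_lit 2) [nat_lit 32851, nat_lit 41599, nat_lit 46027, nat_lit 45991, nat_lit 45967, nat_lit 45975, nat_lit 26291] (nat_lit 0) [] false,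
   Spec.mk (nat_lit 45975) (nat_lit 2) [nat_lit 32853, nat_lit 41601, nat_lit 46029, nat_lit 45993, nat_lit 45969, nat_lit 45973, nat_lit 26293] (nat_lit 0) [] false,
   Spec.mk (nat_lit 45983) (nat_lit 2) [nat_lit 32861, nat_lit 41609, nat_lit 46037, nat_lit 45965, nat_lit 45985] (nat_lit 0) [] false,
   Spec.mk (nat_lit 45985) (nat_lit 1) [nat_lit 32863, nat_lit 41611, nat_lit 46039, nat_lit 45967, nat_lit 45991, nat_lit 45983, nat_lit 45987, nat_lit 26303] (nat_lit 0) [] false,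
   Spec.mk (nat_lit 45987) (nat_lit 0) [nat_lit 32865, nat_lit 41613, nat_lit 46041, nat_lit 45969, nat_lit 45993, nat_lit 45985, nat_lit 26305] (nat_lit 2) [] false,
   Spec.mk (nat_lit 45991) (nat_lit 2) [nat_lit 32869, nat_lit 41617, nat_lit 46045, nat_lit 45973, nat_lit 45985, nat_lit 45993, nat_lit 26309] (nat_lit 0) [] false,
   Spec.mk (nat_lit 45993) (nat_lit 1) [nat_lit 32871, nat_lit 41619, nat_lit 46047, nat_lit 45975, nat_lit 45987, nat_lit 45999, nat_lit 45991, nat_lit 26311] (nat_lit 0) [] false]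

noncomputable def sp73 : List Spec :=
  [Spec.mk (nat_lit 45999) (nat_lit 2) [nat_lit 32877, nat_lit 41625, nat_lit 46053, nat_lit 45993, nat_lit 26317] (nat_lit 0) [] false,
   Spec.mk (nat_lit 46013) (nat_lit 4) [nat_lit 32891, nat_lit 41639, nat_lit 46175, nat_lit 45959, nat_lit 46019, nat_lit 46015] (nat_lit 0) [] false,
   Spec.mk (nat_lit 46015) (nat_lit 2) [nat_lit 32893, nat_lit 41641, nat_lit 46177, nat_lit 45961, nat_lit 46021, nat_lit 46013, nat_lit 26333] (nat_lit 0) [] false,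
   Spec.mk (nat_lit 46019) (nat_lit 2) [nat_lit 32897, nat_lit 41645, nat_lit 46181, nat_lit 45965, nat_lit 46037, nat_lit 46013, nat_lit 46021] (nat_lit 0) [] false,
   Spec.mk (nat_lit 46021) (nat_lit 2) [nat_lit 32899, nat_lit 41647, nat_lit 46183, nat_lit 45967, nat_lit 46039, nat_lit 46015, nat_lit 46027, nat_lit 46019, nat_lit 46023, nat_lit 26339] (nat_lit 0) [] false,
   Spec.mk (nat_lit 46023) (nat_lit 0) [nat_lit 32901, nat_lit 41649, nat_lit 46185, nat_lit 45969, nat_lit 46041, nat_lit 46029, nat_lit 46021, nat_lit 26341] (nat_lit 0) [] false,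
   Spec.mk (nat_lit 46027) (nat_lit 0) [nat_lit 32905, nat_lit 41653, nat_lit 46189, nat_lit 45973, nat_lit 46045, nat_lit 46021, nat_lit 46029, nat_lit 26345] (nat_lit 0) [] false,
   Spec.mk (nat_lit 46029) (nat_lit 0) [nat_lit 32907, nat_lit 41655, nat_lit 46191, nat_lit 45975, nat_lit 46047, nat_lit 46023, nat_lit 46027, nat_lit 26347] (nat_lit 0) [] false,
   Spec.mk (nat_lit 46037) (nat_lit 3) [nat_lit 32915, nat_lit 41663, nat_lit 46199, nat_lit 45983, nat_lit 46091, nat_lit 46019, nat_lit 46039] (nat_lit 0) [] false,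
   Spec.mk (nat_lit 46039) (nat_lit 2) [nat_lit 32917, nat_lit 41665, nat_lit 46201, nat_lit 45985, nat_lit 46093, nat_lit 46021, nat_lit 46045, nat_lit 46037, nat_lit 46041, nat_lit 26357] (nat_lit 0) [] false,
   Spec.mk (nat_lit 46041) (nat_lit 0) [nat_lit 32919, nat_lit 41667, nat_lit 46203, nat_lit 45987, nat_lit 46095, nat_lit 46023, nat_lit 46047, nat_lit 46039, nat_lit 26359] (nat_lit 1) [] false,
   Spec.mk (nat_lit 46045) (nat_lit 2) [nat_lit 32923, nat_lit 41671, nat_lit 46207, nat_lit 45991, nat_lit 46099, nat_lit 46027, nat_lit 46063, nat_lit 46039, nat_lit 46047, nat_lit 26363] (nat_lit 0) [] false,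
   Spec.mk (nat_lit 46047) (nat_lit 1) [nat_lit 32925, nat_lit 41673, nat_lit 46209, nat_lit 45993, nat_lit 46101, nat_lit 46029, nat_lit 46065, nat_lit 46041, nat_lit 46053, nat_lit 46045, nat_lit 26365] (nat_lit 0) [] false,
   Spec.mk (nat_lit 46053) (nat_lit 1) [nat_lit 32931, nat_lit 41679, nat_lit 46215, nat_lit 45999, nat_lit 46107, nat_lit 46071, nat_lit 46047, nat_lit 26371] (nat_lit 0) [] false,
   Spec.mk (nat_lit 46063) (nat_lit 2) [nat_lit 32941, nat_lit 41689, nat_lit 46225, nat_lit 46117, nat_lit 46045, nat_lit 46065, nat_lit 26381] (nat_lit 0) [] false,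
   Spec.mk (nat_lit 46065) (nat_lit 0) [nat_lit 32943, nat_lit 41691, nat_lit 46227, nat_lit 46119, nat_lit 46047, nat_lit 46071, nat_lit 46063, nat_lit 26383] (nat_lit 0) [] false,
   Spec.mk (nat_lit 46071) (nat_lit 2) [nat_lit 32949, nat_lit 41697, nat_lit 46233, nat_lit 46125, nat_lit 46053, nat_lit 46065, nat_lit 26389] (nat_lit 0) [] false,
   Spec.mk (nat_lit 46091) (nat_lit 2) [nat_lit 32969, nat_lit 41717, nat_lit 46253, nat_lit 46037, nat_lit 46093] (nat_lit 0) [] false,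
   Spec.mk (nat_lit 46093) (nat_lit 1) [nat_lit 32971, nat_lit 41719, nat_lit 46255, nat_lit 46039, nat_lit 46099, nat_lit 46091, nat_lit 46095, nat_lit 26411] (nat_lit 0) [] false,
   Spec.mk (nat_lit 46095) (nat_lit 0) [nat_lit 32973, nat_lit 41721, nat_lit 46257, nat_lit 46041, nat_lit 46101, nat_lit 46093, nat_lit 26413] (nat_lit 2) [] false,
   Spec.mk (nat_lit 46099) (nat_lit 0) [nat_lit 32977, nat_lit 41725, nat_lit 46261, nat_lit 46045, nat_lit 46117, nat_lit 46093, nat_lit 46101, nat_lit 26417] (nat_lit 0) [] false,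
   Spec.mk (nat_lit 46101) (nat_lit 0) [nat_lit 32979, nat_lit 41727, nat_lit 46263, nat_lit 46047, nat_lit 46119, nat_lit 46095, nat_lit 46107, nat_lit 46099, nat_lit 26419] (nat_lit 1) [] false,
   Spec.mk (nat_lit 46107) (nat_lit 0) [nat_lit 32985, nat_lit 41733, nat_lit 46269, nat_lit 46053, nat_lit 46125, nat_lit 46101, nat_lit 26425] (nat_lit 2) [] false,
   Spec.mk (nat_lit 46117) (nat_lit 2) [nat_lit 32995, nat_lit 41743, nat_lit 46279, nat_lit 46063, nat_lit 46099, nat_lit 46119, nat_lit 26435] (nat_lit 0) [] false,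
   Spec.mk (nat_lit 46119) (nat_lit 0) [nat_lit 32997, nat_lit 41745, nat_lit 46281, nat_lit 46065, nat_lit 46101, nat_lit 46125, nat_lit 46117, nat_lit 26437] (nat_lit 0) [] false,
   Spec.mk (nat_lit 46125) (nat_lit 1) [nat_lit 33003, nat_lit 41751, nat_lit 46287, nat_lit 46071, nat_lit 46107, nat_lit 46143, nat_lit 46119, nat_lit 26443] (nat_lit 0) [] false,
   Spec.mk (nat_lit 46143) (nat_lit 2) [nat_lit 33021, nat_lit 41769, nat_lit 46305, nat_lit 46125, nat_lit 26461] (nat_lit 0) [] false,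
   Spec.mk (nat_lit 46175) (nat_lit 4) [nat_lit 33053, nat_lit 41801, nat_lit 46661, nat_lit 46013, nat_lit 46181, nat_lit 46177] (nat_lit 0) [] false,
   Spec.mk (nat_lit 46177) (nat_lit 2) [nat_lit 33055, nat_lit 41803, nat_lit 46663, nat_lit 46015, nat_lit 46183, nat_lit 46175, nat_lit 26495] (nat_lit 0) [] false,
   Spec.mk (nat_lit 46181) (nat_lit 2) [nat_lit 33059, nat_lit 41807, nat_lit 46667, nat_lit 46019, nat_lit 46199, nat_lit 46175, nat_lit 46183] (nat_lit 0) [] false,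
   Spec.mk (nat_lit 46183) (nat_lit 2) [nat_lit 33061, nat_lit 41809, nat_lit 46669, nat_lit 46021, nat_lit 46201, nat_lit 46177, nat_lit 46189, nat_lit 46181, nat_lit 46185, nat_lit 26501] (nat_lit 0) [] false,
   Spec.mk (nat_lit 46185) (nat_lit 0) [nat_lit 33063, nat_lit 41811, nat_lit 46671, nat_lit 46023, nat_lit 46203, nat_lit 46191, nat_lit 46183, nat_lit 26503] (nat_lit 0) [] false,
   Spec.mk (nat_lit 46189) (nat_lit 0) [nat_lit 33067, nat_lit 41815, nat_lit 46675, nat_lit 46027, nat_lit 46207, nat_lit 46183, nat_lit 46191, nat_lit 26507] (nat_lit 0) [] false,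
   Spec.mk (nat_lit 46191) (nat_lit 0) [nat_lit 33069, nat_lit 41817, nat_lit 46677, nat_lit 46029, nat_lit 46209, nat_lit 46185, nat_lit 46189, nat_lit 26509] (nat_lit 0) [] false,
   Spec.mk (nat_lit 46199) (nat_lit 2) [nat_lit 33077, nat_lit 41825, nat_lit 46685, nat_lit 46037, nat_lit 46253, nat_lit 46181, nat_lit 46201] (nat_lit 0) [] false,
   Spec.mk (nat_lit 46201) (nat_lit 1) [nat_lit 33079, nat_lit 41827, nat_lit 46687, nat_lit 46039, nat_lit 46255, nat_lit 46183, nat_lit 46207, nat_lit 46199, nat_lit 46203, nat_lit 26519] (nat_lit 0) [] false,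
   Spec.mk (nat_lit 46203) (nat_lit 0) [nat_lit 33081, nat_lit 41829, nat_lit 46689, nat_lit 46041, nat_lit 46257, nat_lit 46185, nat_lit 46209, nat_lit 46201, nat_lit 26521] (nat_lit 2) [] false,
   Spec.mk (nat_lit 46207) (nat_lit 1) [nat_lit 33085, nat_lit 41833, nat_lit 46693, nat_lit 46045, nat_lit 46261, nat_lit 46189, nat_lit 46225, nat_lit 46201, nat_lit 46209, nat_lit 26525] (nat_lit 0) [] false,
   Spec.mk (nat_lit 46209) (nat_lit 0) [nat_lit 33087, nat_lit 41835, nat_lit 46695, nat_lit 46047, nat_lit 46263, nat_lit 46191, nat_lit 46227, nat_lit 46203, nat_lit 46215, nat_lit 46207, nat_lit 26527] (nat_lit 0) [] false,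
   Spec.mk (nat_lit 46215) (nat_lit 0) [nat_lit 33093, nat_lit 41841, nat_lit 46701, nat_lit 46053, nat_lit 46269, nat_lit 46233, nat_lit 46209, nat_lit 26533] (nat_lit 0) [] false,
   Spec.mk (nat_lit 46225) (nat_lit 0) [nat_lit 33103, nat_lit 41851, nat_lit 46711, nat_lit 46063, nat_lit 46279, nat_lit 46207, nat_lit 46227, nat_lit 26543] (nat_lit 0) [] false,
   Spec.mk (nat_lit 46227) (nat_lit 0) [nat_lit 33105, nat_lit 41853, nat_lit 46713, nat_lit 46065, nat_lit 46281, nat_lit 46209, nat_lit 46233, nat_lit 46225, nat_lit 26545] (nat_lit 2) [] false,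
   Spec.mk (nat_lit 46233) (nat_lit 0) [nat_lit 33111, nat_lit 41859, nat_lit 46719, nat_lit 46071, nat_lit 46287, nat_lit 46215, nat_lit 46227, nat_lit 26551] (nat_lit 0) [] false,
   Spec.mk (nat_lit 46253) (nat_lit 3) [nat_lit 33131, nat_lit 41879, nat_lit 46739, nat_lit 46091, nat_lit 46415, nat_lit 46199, nat_lit 46255] (nat_lit 0) [] false,
   Spec.mk (nat_lit 46255) (nat_lit 2) [nat_lit 33133, nat_lit 41881, nat_lit 46741, nat_lit 46093, nat_lit 46417, nat_lit 46201, nat_lit 46261, nat_lit 46253, nat_lit 46257, nat_lit 26573] (nat_lit 0) [] false,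
   Spec.mk (nat_lit 46257) (nat_lit 0) [nat_lit 33135, nat_lit 41883, nat_lit 46743, nat_lit 46095, nat_lit 46419, nat_lit 46203, nat_lit 46263, nat_lit 46255, nat_lit 26575] (nat_lit 1) [] false,
   Spec.mk (nat_lit 46261) (nat_lit 1) [nat_lit 33139, nat_lit 41887, nat_lit 46747, nat_lit 46099, nat_lit 46423, nat_lit 46207, nat_lit 46279, nat_lit 46255, nat_lit 46263, nat_lit 26579] (nat_lit 0) [] false,
   Spec.mk (nat_lit 46263) (nat_lit 0) [nat_lit 33141, nat_lit 41889, nat_lit 46749, nat_lit 46101, nat_lit 46425, nat_lit 46209, nat_lit 46281, nat_lit 46257, nat_lit 46269, nat_lit 46261, nat_lit 26581] (nat_lit 0) [] false,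
   Spec.mk (nat_lit 46269) (nat_lit 0) [nat_lit 33147, nat_lit 41895, nat_lit 46755, nat_lit 46107, nat_lit 46431, nat_lit 46215, nat_lit 46287, nat_lit 46263, nat_lit 26587] (nat_lit 1) [] false,
   Spec.mk (nat_lit 46279) (nat_lit 2) [nat_lit 33157, nat_lit 41905, nat_lit 46765, nat_lit 46117, nat_lit 46441, nat_lit 46225, nat_lit 46333, nat_lit 46261, nat_lit 46281, nat_lit 26597] (nat_lit 0) [] false,
   Spec.mk (nat_lit 46281) (nat_lit 0) [nat_lit 33159, nat_lit 41907, nat_lit 46767, nat_lit 46119, nat_lit 46443, nat_lit 46227, nat_lit 46335, nat_lit 46263, nat_lit 46287, nat_lit 46279, nat_lit 26599] (nat_lit 0) [] false,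
   Spec.mk (nat_lit 46287) (nat_lit 1) [nat_lit 33165, nat_lit 41913, nat_lit 46773, nat_lit 46125, nat_lit 46449, nat_lit 46233, nat_lit 46341, nat_lit 46269, nat_lit 46305, nat_lit 46281, nat_lit 26605] (nat_lit 0) [] false,
   Spec.mk (nat_lit 46305) (nat_lit 1) [nat_lit 33183, nat_lit 41931, nat_lit 46791, nat_lit 46143, nat_lit 46467, nat_lit 46359, nat_lit 46287, nat_lit 26623] (nat_lit 0) [] false,
   Spec.mk (nat_lit 46333) (nat_lit 2) [nat_lit 33211, nat_lit 41959, nat_lit 46819, nat_lit 46495, nat_lit 46279, nat_lit 46335, nat_lit 26651] (nat_lit 0) [] false,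
   Spec.mk (nat_lit 46335) (nat_lit 0) [nat_lit 33213, nat_lit 41961, nat_lit 46821, nat_lit 46497, nat_lit 46281, nat_lit 46341, nat_lit 46333, nat_lit 26653] (nat_lit 0) [] false,
   Spec.mk (nat_lit 46341) (nat_lit 0) [nat_lit 33219, nat_lit 41967, nat_lit 46827, nat_lit 46503, nat_lit 46287, nat_lit 46359, nat_lit 46335, nat_lit 26659] (nat_lit 0) [] false,
   Spec.mk (nat_lit 46359) (nat_lit 2) [nat_lit 33237, nat_lit 41985, nat_lit 46845, nat_lit 46521, nat_lit 46305, nat_lit 46341, nat_lit 26677] (nat_lit 0) [] false,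
   Spec.mk (nat_lit 46415) (nat_lit 2) [nat_lit 33293, nat_lit 42041, nat_lit 46901, nat_lit 46253, nat_lit 46417] (nat_lit 0) [] false,
   Spec.mk (nat_lit 46417) (nat_lit 1) [nat_lit 33295, nat_lit 42043, nat_lit 46903, nat_lit 46255, nat_lit 46423, nat_lit 46415, nat_lit 46419, nat_lit 26735] (nat_lit 0) [] false,
   Spec.mk (nat_lit 46419) (nat_lit 0) [nat_lit 33297, nat_lit 42045, nat_lit 46905, nat_lit 46257, nat_lit 46425, nat_lit 46417, nat_lit 26737] (nat_lit 2) [] false]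

noncomputable def sp74 : List Spec :=
  [Spec.mk (nat_lit 46423) (nat_lit 0) [nat_lit 33301, nat_lit 42049, nat_lit 46909, nat_lit 46261, nat_lit 46441, nat_lit 46417, nat_lit 46425, nat_lit 26741] (nat_lit 0) [] false,
   Spec.mk (nat_lit 46425) (nat_lit 0) [nat_lit 33303, nat_lit 42051, nat_lit 46911, nat_lit 46263, nat_lit 46443, nat_lit 46419, nat_lit 46431, nat_lit 46423, nat_lit 26743] (nat_lit 1) [] false,
   Spec.mk (nat_lit 46431) (nat_lit 0) [nat_lit 33309, nat_lit 42057, nat_lit 46917, nat_lit 46269, nat_lit 46449, nat_lit 46425, nat_lit 26749] (nat_lit 2) [] false,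
   Spec.mk (nat_lit 46441) (nat_lit 0) [nat_lit 33319, nat_lit 42067, nat_lit 46927, nat_lit 46279, nat_lit 46495, nat_lit 46423, nat_lit 46443, nat_lit 26759] (nat_lit 0) [] false,
   Spec.mk (nat_lit 46443) (nat_lit 0) [nat_lit 33321, nat_lit 42069, nat_lit 46929, nat_lit 46281, nat_lit 46497, nat_lit 46425, nat_lit 46449, nat_lit 46441, nat_lit 26761] (nat_lit 2) [] false,
   Spec.mk (nat_lit 46449) (nat_lit 0) [nat_lit 33327, nat_lit 42075, nat_lit 46935, nat_lit 46287, nat_lit 46503, nat_lit 46431, nat_lit 46467, nat_lit 46443, nat_lit 26767] (nat_lit 1) [] false,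
   Spec.mk (nat_lit 46467) (nat_lit 0) [nat_lit 33345, nat_lit 42093, nat_lit 46953, nat_lit 46305, nat_lit 46521, nat_lit 46449, nat_lit 26785] (nat_lit 2) [] false,
   Spec.mk (nat_lit 46495) (nat_lit 2) [nat_lit 33373, nat_lit 42121, nat_lit 46981, nat_lit 46333, nat_lit 46441, nat_lit 46497, nat_lit 26813] (nat_lit 0) [] false,
   Spec.mk (nat_lit 46497) (nat_lit 0) [nat_lit 33375, nat_lit 42123, nat_lit 46983, nat_lit 46335, nat_lit 46443, nat_lit 46503, nat_lit 46495, nat_lit 26815] (nat_lit 0) [] false,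
   Spec.mk (nat_lit 46503) (nat_lit 0) [nat_lit 33381, nat_lit 42129, nat_lit 46989, nat_lit 46341, nat_lit 46449, nat_lit 46521, nat_lit 46497, nat_lit 26821] (nat_lit 0) [] false,
   Spec.mk (nat_lit 46521) (nat_lit 1) [nat_lit 33399, nat_lit 42147, nat_lit 47007, nat_lit 46359, nat_lit 46467, nat_lit 46575, nat_lit 46503, nat_lit 26839] (nat_lit 0) [] false,
   Spec.mk (nat_lit 46575) (nat_lit 2) [nat_lit 33453, nat_lit 42201, nat_lit 47061, nat_lit 46521, nat_lit 26893] (nat_lit 0) [] false,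
   Spec.mk (nat_lit 46661) (nat_lit 4) [nat_lit 33539, nat_lit 42287, nat_lit 48119, nat_lit 46175, nat_lit 46667, nat_lit 46663] (nat_lit 0) [] false,
   Spec.mk (nat_lit 46663) (nat_lit 2) [nat_lit 33541, nat_lit 42289, nat_lit 48121, nat_lit 46177, nat_lit 46669, nat_lit 46661, nat_lit 26981] (nat_lit 0) [] false,
   Spec.mk (nat_lit 46667) (nat_lit 2) [nat_lit 33545, nat_lit 42293, nat_lit 48125, nat_lit 46181, nat_lit 46685, nat_lit 46661, nat_lit 46669] (nat_lit 0) [] false,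
   Spec.mk (nat_lit 46669) (nat_lit 2) [nat_lit 33547, nat_lit 42295, nat_lit 48127, nat_lit 46183, nat_lit 46687, nat_lit 46663, nat_lit 46675, nat_lit 46667, nat_lit 46671, nat_lit 26987] (nat_lit 0) [] false,
   Spec.mk (nat_lit 46671) (nat_lit 0) [nat_lit 33549, nat_lit 42297, nat_lit 48129, nat_lit 46185, nat_lit 46689, nat_lit 46677, nat_lit 46669, nat_lit 26989] (nat_lit 0) [] false,
   Spec.mk (nat_lit 46675) (nat_lit 0) [nat_lit 33553, nat_lit 42301, nat_lit 48133, nat_lit 46189, nat_lit 46693, nat_lit 46669, nat_lit 46677, nat_lit 26993] (nat_lit 0) [] false,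
   Spec.mk (nat_lit 46677) (nat_lit 0) [nat_lit 33555, nat_lit 42303, nat_lit 48135, nat_lit 46191, nat_lit 46695, nat_lit 46671, nat_lit 46675, nat_lit 26995] (nat_lit 0) [] false,
   Spec.mk (nat_lit 46685) (nat_lit 2) [nat_lit 33563, nat_lit 42311, nat_lit 48143, nat_lit 46199, nat_lit 46739, nat_lit 46667, nat_lit 46687] (nat_lit 0) [] false,
   Spec.mk (nat_lit 46687) (nat_lit 1) [nat_lit 33565, nat_lit 42313, nat_lit 48145, nat_lit 46201, nat_lit 46741, nat_lit 46669, nat_lit 46693, nat_lit 46685, nat_lit 46689, nat_lit 27005] (nat_lit 0) [] false,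
   Spec.mk (nat_lit 46689) (nat_lit 0) [nat_lit 33567, nat_lit 42315, nat_lit 48147, nat_lit 46203, nat_lit 46743, nat_lit 46671, nat_lit 46695, nat_lit 46687, nat_lit 27007] (nat_lit 2) [] false,
   Spec.mk (nat_lit 46693) (nat_lit 1) [nat_lit 33571, nat_lit 42319, nat_lit 48151, nat_lit 46207, nat_lit 46747, nat_lit 46675, nat_lit 46711, nat_lit 46687, nat_lit 46695, nat_lit 27011] (nat_lit 0) [] false,
   Spec.mk (nat_lit 46695) (nat_lit 0) [nat_lit 33573, nat_lit 42321, nat_lit 48153, nat_lit 46209, nat_lit 46749, nat_lit 46677, nat_lit 46713, nat_lit 46689, nat_lit 46701, nat_lit 46693, nat_lit 27013] (nat_lit 0) [] false,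
   Spec.mk (nat_lit 46701) (nat_lit 0) [nat_lit 33579, nat_lit 42327, nat_lit 48159, nat_lit 46215, nat_lit 46755, nat_lit 46719, nat_lit 46695, nat_lit 27019] (nat_lit 0) [] false,
   Spec.mk (nat_lit 46711) (nat_lit 0) [nat_lit 33589, nat_lit 42337, nat_lit 48169, nat_lit 46225, nat_lit 46765, nat_lit 46693, nat_lit 46713, nat_lit 27029] (nat_lit 0) [] false,
   Spec.mk (nat_lit 46713) (nat_lit 0) [nat_lit 33591, nat_lit 42339, nat_lit 48171, nat_lit 46227, nat_lit 46767, nat_lit 46695, nat_lit 46719, nat_lit 46711, nat_lit 27031] (nat_lit 2) [] false,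
   Spec.mk (nat_lit 46719) (nat_lit 0) [nat_lit 33597, nat_lit 42345, nat_lit 48177, nat_lit 46233, nat_lit 46773, nat_lit 46701, nat_lit 46713, nat_lit 27037] (nat_lit 0) [] false,
   Spec.mk (nat_lit 46739) (nat_lit 2) [nat_lit 33617, nat_lit 42365, nat_lit 48197, nat_lit 46253, nat_lit 46901, nat_lit 46685, nat_lit 46741] (nat_lit 0) [] false,
   Spec.mk (nat_lit 46741) (nat_lit 1) [nat_lit 33619, nat_lit 42367, nat_lit 48199, nat_lit 46255, nat_lit 46903, nat_lit 46687, nat_lit 46747, nat_lit 46739, nat_lit 46743, nat_lit 27059] (nat_lit 0) [] false,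
   Spec.mk (nat_lit 46743) (nat_lit 0) [nat_lit 33621, nat_lit 42369, nat_lit 48201, nat_lit 46257, nat_lit 46905, nat_lit 46689, nat_lit 46749, nat_lit 46741, nat_lit 27061] (nat_lit 2) [] false,
   Spec.mk (nat_lit 46747) (nat_lit 0) [nat_lit 33625, nat_lit 42373, nat_lit 48205, nat_lit 46261, nat_lit 46909, nat_lit 46693, nat_lit 46765, nat_lit 46741, nat_lit 46749, nat_lit 27065] (nat_lit 0) [] false,
   Spec.mk (nat_lit 46749) (nat_lit 0) [nat_lit 33627, nat_lit 42375, nat_lit 48207, nat_lit 46263, nat_lit 46911, nat_lit 46695, nat_lit 46767, nat_lit 46743, nat_lit 46755, nat_lit 46747, nat_lit 27067] (nat_lit 1) [] false,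
   Spec.mk (nat_lit 46755) (nat_lit 0) [nat_lit 33633, nat_lit 42381, nat_lit 48213, nat_lit 46269, nat_lit 46917, nat_lit 46701, nat_lit 46773, nat_lit 46749, nat_lit 27073] (nat_lit 2) [] false,
   Spec.mk (nat_lit 46765) (nat_lit 1) [nat_lit 33643, nat_lit 42391, nat_lit 48223, nat_lit 46279, nat_lit 46927, nat_lit 46711, nat_lit 46819, nat_lit 46747, nat_lit 46767, nat_lit 27083] (nat_lit 0) [] false,
   Spec.mk (nat_lit 46767) (nat_lit 0) [nat_lit 33645, nat_lit 42393, nat_lit 48225, nat_lit 46281, nat_lit 46929, nat_lit 46713, nat_lit 46821, nat_lit 46749, nat_lit 46773, nat_lit 46765, nat_lit 27085] (nat_lit 1) [] false,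
   Spec.mk (nat_lit 46773) (nat_lit 0) [nat_lit 33651, nat_lit 42399, nat_lit 48231, nat_lit 46287, nat_lit 46935, nat_lit 46719, nat_lit 46827, nat_lit 46755, nat_lit 46791, nat_lit 46767, nat_lit 27091] (nat_lit 0) [] false,
   Spec.mk (nat_lit 46791) (nat_lit 0) [nat_lit 33669, nat_lit 42417, nat_lit 48249, nat_lit 46305, nat_lit 46953, nat_lit 46845, nat_lit 46773, nat_lit 27109] (nat_lit 0) [] false,
   Spec.mk (nat_lit 46819) (nat_lit 0) [nat_lit 33697, nat_lit 42445, nat_lit 48277, nat_lit 46333, nat_lit 46981, nat_lit 46765, nat_lit 46821, nat_lit 27137] (nat_lit 0) [] false,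
   Spec.mk (nat_lit 46821) (nat_lit 0) [nat_lit 33699, nat_lit 42447, nat_lit 48279, nat_lit 46335, nat_lit 46983, nat_lit 46767, nat_lit 46827, nat_lit 46819, nat_lit 27139] (nat_lit 2) [] false,
   Spec.mk (nat_lit 46827) (nat_lit 0) [nat_lit 33705, nat_lit 42453, nat_lit 48285, nat_lit 46341, nat_lit 46989, nat_lit 46773, nat_lit 46845, nat_lit 46821, nat_lit 27145] (nat_lit 2) [] false,
   Spec.mk (nat_lit 46845) (nat_lit 0) [nat_lit 33723, nat_lit 42471, nat_lit 48303, nat_lit 46359, nat_lit 47007, nat_lit 46791, nat_lit 46827, nat_lit 27163] (nat_lit 0) [] false,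
   Spec.mk (nat_lit 46901) (nat_lit 3) [nat_lit 33779, nat_lit 42527, nat_lit 48359, nat_lit 46415, nat_lit 47387, nat_lit 46739, nat_lit 46903] (nat_lit 0) [] false,
   Spec.mk (nat_lit 46903) (nat_lit 2) [nat_lit 33781, nat_lit 42529, nat_lit 48361, nat_lit 46417, nat_lit 47389, nat_lit 46741, nat_lit 46909, nat_lit 46901, nat_lit 46905, nat_lit 27221] (nat_lit 0) [] false,
   Spec.mk (nat_lit 46905) (nat_lit 0) [nat_lit 33783, nat_lit 42531, nat_lit 48363, nat_lit 46419, nat_lit 47391, nat_lit 46743, nat_lit 46911, nat_lit 46903, nat_lit 27223] (nat_lit 1) [] false,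
   Spec.mk (nat_lit 46909) (nat_lit 1) [nat_lit 33787, nat_lit 42535, nat_lit 48367, nat_lit 46423, nat_lit 47395, nat_lit 46747, nat_lit 46927, nat_lit 46903, nat_lit 46911, nat_lit 27227] (nat_lit 0) [] false,
   Spec.mk (nat_lit 46911) (nat_lit 0) [nat_lit 33789, nat_lit 42537, nat_lit 48369, nat_lit 46425, nat_lit 47397, nat_lit 46749, nat_lit 46929, nat_lit 46905, nat_lit 46917, nat_lit 46909, nat_lit 27229] (nat_lit 0) [] false,
   Spec.mk (nat_lit 46917) (nat_lit 0) [nat_lit 33795, nat_lit 42543, nat_lit 48375, nat_lit 46431, nat_lit 47403, nat_lit 46755, nat_lit 46935, nat_lit 46911, nat_lit 27235] (nat_lit 1) [] false,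
   Spec.mk (nat_lit 46927) (nat_lit 1) [nat_lit 33805, nat_lit 42553, nat_lit 48385, nat_lit 46441, nat_lit 47413, nat_lit 46765, nat_lit 46981, nat_lit 46909, nat_lit 46929, nat_lit 27245] (nat_lit 0) [] false,
   Spec.mk (nat_lit 46929) (nat_lit 0) [nat_lit 33807, nat_lit 42555, nat_lit 48387, nat_lit 46443, nat_lit 47415, nat_lit 46767, nat_lit 46983, nat_lit 46911, nat_lit 46935, nat_lit 46927, nat_lit 27247] (nat_lit 1) [] false,
   Spec.mk (nat_lit 46935) (nat_lit 0) [nat_lit 33813, nat_lit 42561, nat_lit 48393, nat_lit 46449, nat_lit 47421, nat_lit 46773, nat_lit 46989, nat_lit 46917, nat_lit 46953, nat_lit 46929, nat_lit 27253] (nat_lit 0) [] false,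
   Spec.mk (nat_lit 46953) (nat_lit 0) [nat_lit 33831, nat_lit 42579, nat_lit 48411, nat_lit 46467, nat_lit 47439, nat_lit 46791, nat_lit 47007, nat_lit 46935, nat_lit 27271] (nat_lit 1) [] false,
   Spec.mk (nat_lit 46981) (nat_lit 2) [nat_lit 33859, nat_lit 42607, nat_lit 48439, nat_lit 46495, nat_lit 47467, nat_lit 46819, nat_lit 47143, nat_lit 46927, nat_lit 46983, nat_lit 27299] (nat_lit 0) [] false,
   Spec.mk (nat_lit 46983) (nat_lit 0) [nat_lit 33861, nat_lit 42609, nat_lit 48441, nat_lit 46497, nat_lit 47469, nat_lit 46821, nat_lit 47145, nat_lit 46929, nat_lit 46989, nat_lit 46981, nat_lit 27301] (nat_lit 0) [] false,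
   Spec.mk (nat_lit 46989) (nat_lit 0) [nat_lit 33867, nat_lit 42615, nat_lit 48447, nat_lit 46503, nat_lit 47475, nat_lit 46827, nat_lit 47151, nat_lit 46935, nat_lit 47007, nat_lit 46983, nat_lit 27307] (nat_lit 0) [] false,
   Spec.mk (nat_lit 47007) (nat_lit 1) [nat_lit 33885, nat_lit 42633, nat_lit 48465, nat_lit 46521, nat_lit 47493, nat_lit 46845, nat_lit 47169, nat_lit 46953, nat_lit 47061, nat_lit 46989, nat_lit 27325] (nat_lit 0) [] false,
   Spec.mk (nat_lit 47061) (nat_lit 1) [nat_lit 33939, nat_lit 42687, nat_lit 48519, nat_lit 46575, nat_lit 47547, nat_lit 47223, nat_lit 47007, nat_lit 27379] (nat_lit 0) [] false,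
   Spec.mk (nat_lit 47143) (nat_lit 2) [nat_lit 34021, nat_lit 42769, nat_lit 48601, nat_lit 47629, nat_lit 46981, nat_lit 47145, nat_lit 27461] (nat_lit 0) [] false,
   Spec.mk (nat_lit 47145) (nat_lit 0) [nat_lit 34023, nat_lit 42771, nat_lit 48603, nat_lit 47631, nat_lit 46983, nat_lit 47151, nat_lit 47143, nat_lit 27463] (nat_lit 0) [] false,
   Spec.mk (nat_lit 47151) (nat_lit 0) [nat_lit 34029, nat_lit 42777, nat_lit 48609, nat_lit 47637, nat_lit 46989, nat_lit 47169, nat_lit 47145, nat_lit 27469] (nat_lit 0) [] false]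

noncomputable def sp75 : List Spec :=
  [Spec.mk (nat_lit 47169) (nat_lit 0) [nat_lit 34047, nat_lit 42795, nat_lit 48627, nat_lit 47655, nat_lit 47007, nat_lit 47223, nat_lit 47151, nat_lit 27487] (nat_lit 0) [] false,
   Spec.mk (nat_lit 47223) (nat_lit 2) [nat_lit 34101, nat_lit 42849, nat_lit 48681, nat_lit 47709, nat_lit 47061, nat_lit 47169, nat_lit 27541] (nat_lit 0) [] false,
   Spec.mk (nat_lit 47387) (nat_lit 2) [nat_lit 34265, nat_lit 43013, nat_lit 48845, nat_lit 46901, nat_lit 47389] (nat_lit 0) [] false,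
   Spec.mk (nat_lit 47389) (nat_lit 1) [nat_lit 34267, nat_lit 43015, nat_lit 48847, nat_lit 46903, nat_lit 47395, nat_lit 47387, nat_lit 47391, nat_lit 27707] (nat_lit 0) [] false,
   Spec.mk (nat_lit 47391) (nat_lit 0) [nat_lit 34269, nat_lit 43017, nat_lit 48849, nat_lit 46905, nat_lit 47397, nat_lit 47389, nat_lit 27709] (nat_lit 2) [] false,
   Spec.mk (nat_lit 47395) (nat_lit 0) [nat_lit 34273, nat_lit 43021, nat_lit 48853, nat_lit 46909, nat_lit 47413, nat_lit 47389, nat_lit 47397, nat_lit 27713] (nat_lit 0) [] false,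
   Spec.mk (nat_lit 47397) (nat_lit 0) [nat_lit 34275, nat_lit 43023, nat_lit 48855, nat_lit 46911, nat_lit 47415, nat_lit 47391, nat_lit 47403, nat_lit 47395, nat_lit 27715] (nat_lit 1) [] false,
   Spec.mk (nat_lit 47403) (nat_lit 0) [nat_lit 34281, nat_lit 43029, nat_lit 48861, nat_lit 46917, nat_lit 47421, nat_lit 47397, nat_lit 27721] (nat_lit 2) [] false,
   Spec.mk (nat_lit 47413) (nat_lit 0) [nat_lit 34291, nat_lit 43039, nat_lit 48871, nat_lit 46927, nat_lit 47467, nat_lit 47395, nat_lit 47415, nat_lit 27731] (nat_lit 0) [] false,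
   Spec.mk (nat_lit 47415) (nat_lit 0) [nat_lit 34293, nat_lit 43041, nat_lit 48873, nat_lit 46929, nat_lit 47469, nat_lit 47397, nat_lit 47421, nat_lit 47413, nat_lit 27733] (nat_lit 2) [] false,
   Spec.mk (nat_lit 47421) (nat_lit 0) [nat_lit 34299, nat_lit 43047, nat_lit 48879, nat_lit 46935, nat_lit 47475, nat_lit 47403, nat_lit 47439, nat_lit 47415, nat_lit 27739] (nat_lit 1) [] false,
   Spec.mk (nat_lit 47439) (nat_lit 0) [nat_lit 34317, nat_lit 43065, nat_lit 48897, nat_lit 46953, nat_lit 47493, nat_lit 47421, nat_lit 27757] (nat_lit 2) [] false,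
   Spec.mk (nat_lit 47467) (nat_lit 0) [nat_lit 34345, nat_lit 43093, nat_lit 48925, nat_lit 46981, nat_lit 47629, nat_lit 47413, nat_lit 47469, nat_lit 27785] (nat_lit 0) [] false,
   Spec.mk (nat_lit 47469) (nat_lit 0) [nat_lit 34347, nat_lit 43095, nat_lit 48927, nat_lit 46983, nat_lit 47631, nat_lit 47415, nat_lit 47475, nat_lit 47467, nat_lit 27787] (nat_lit 2) [] false,
   Spec.mk (nat_lit 47475) (nat_lit 0) [nat_lit 34353, nat_lit 43101, nat_lit 48933, nat_lit 46989, nat_lit 47637, nat_lit 47421, nat_lit 47493, nat_lit 47469, nat_lit 27793] (nat_lit 2) [] false,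
   Spec.mk (nat_lit 47493) (nat_lit 0) [nat_lit 34371, nat_lit 43119, nat_lit 48951, nat_lit 47007, nat_lit 47655, nat_lit 47439, nat_lit 47547, nat_lit 47475, nat_lit 27811] (nat_lit 1) [] false,
   Spec.mk (nat_lit 47547) (nat_lit 0) [nat_lit 34425, nat_lit 43173, nat_lit 49005, nat_lit 47061, nat_lit 47709, nat_lit 47493, nat_lit 27865] (nat_lit 2) [] false,
   Spec.mk (nat_lit 47629) (nat_lit 2) [nat_lit 34507, nat_lit 43255, nat_lit 49087, nat_lit 47143, nat_lit 47467, nat_lit 47631, nat_lit 27947] (nat_lit 0) [] false,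
   Spec.mk (nat_lit 47631) (nat_lit 0) [nat_lit 34509, nat_lit 43257, nat_lit 49089, nat_lit 47145, nat_lit 47469, nat_lit 47637, nat_lit 47629, nat_lit 27949] (nat_lit 0) [] false,
   Spec.mk (nat_lit 47637) (nat_lit 0) [nat_lit 34515, nat_lit 43263, nat_lit 49095, nat_lit 47151, nat_lit 47475, nat_lit 47655, nat_lit 47631, nat_lit 27955] (nat_lit 0) [] false,
   Spec.mk (nat_lit 47655) (nat_lit 0) [nat_lit 34533, nat_lit 43281, nat_lit 49113, nat_lit 47169, nat_lit 47493, nat_lit 47709, nat_lit 47637, nat_lit 27973] (nat_lit 0) [] false,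
   Spec.mk (nat_lit 47709) (nat_lit 1) [nat_lit 34587, nat_lit 43335, nat_lit 49167, nat_lit 47223, nat_lit 47547, nat_lit 47871, nat_lit 47655, nat_lit 28027] (nat_lit 0) [] false,
   Spec.mk (nat_lit 47871) (nat_lit 2) [nat_lit 34749, nat_lit 43497, nat_lit 49329, nat_lit 47709, nat_lit 28189] (nat_lit 0) [] false,
   Spec.mk (nat_lit 48119) (nat_lit 5) [nat_lit 34997, nat_lit 43745, nat_lit 52493, nat_lit 46661, nat_lit 48125, nat_lit 48121] (nat_lit 0) [] false,
   Spec.mk (nat_lit 48121) (nat_lit 3) [nat_lit 34999, nat_lit 43747, nat_lit 52495, nat_lit 46663, nat_lit 48127, nat_lit 48119, nat_lit 28439] (nat_lit 0) [] false,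
   Spec.mk (nat_lit 48125) (nat_lit 3) [nat_lit 35003, nat_lit 43751, nat_lit 52499, nat_lit 46667, nat_lit 48143, nat_lit 48119, nat_lit 48127] (nat_lit 0) [] false,
   Spec.mk (nat_lit 48127) (nat_lit 3) [nat_lit 35005, nat_lit 43753, nat_lit 52501, nat_lit 46669, nat_lit 48145, nat_lit 48121, nat_lit 48133, nat_lit 48125, nat_lit 48129, nat_lit 28445] (nat_lit 0) [] false,
   Spec.mk (nat_lit 48129) (nat_lit 1) [nat_lit 35007, nat_lit 43755, nat_lit 52503, nat_lit 46671, nat_lit 48147, nat_lit 48135, nat_lit 48127, nat_lit 28447] (nat_lit 0) [] false,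
   Spec.mk (nat_lit 48133) (nat_lit 1) [nat_lit 35011, nat_lit 43759, nat_lit 52507, nat_lit 46675, nat_lit 48151, nat_lit 48127, nat_lit 48135, nat_lit 28451] (nat_lit 0) [] false,
   Spec.mk (nat_lit 48135) (nat_lit 1) [nat_lit 35013, nat_lit 43761, nat_lit 52509, nat_lit 46677, nat_lit 48153, nat_lit 48129, nat_lit 48133, nat_lit 28453] (nat_lit 0) [] false,
   Spec.mk (nat_lit 48143) (nat_lit 3) [nat_lit 35021, nat_lit 43769, nat_lit 52517, nat_lit 46685, nat_lit 48197, nat_lit 48125, nat_lit 48145] (nat_lit 0) [] false,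
   Spec.mk (nat_lit 48145) (nat_lit 2) [nat_lit 35023, nat_lit 43771, nat_lit 52519, nat_lit 46687, nat_lit 48199, nat_lit 48127, nat_lit 48151, nat_lit 48143, nat_lit 48147, nat_lit 28463] (nat_lit 0) [] false,
   Spec.mk (nat_lit 48147) (nat_lit 0) [nat_lit 35025, nat_lit 43773, nat_lit 52521, nat_lit 46689, nat_lit 48201, nat_lit 48129, nat_lit 48153, nat_lit 48145, nat_lit 28465] (nat_lit 1) [] false,
   Spec.mk (nat_lit 48151) (nat_lit 2) [nat_lit 35029, nat_lit 43777, nat_lit 52525, nat_lit 46693, nat_lit 48205, nat_lit 48133, nat_lit 48169, nat_lit 48145, nat_lit 48153, nat_lit 28469] (nat_lit 0) [] false,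
   Spec.mk (nat_lit 48153) (nat_lit 1) [nat_lit 35031, nat_lit 43779, nat_lit 52527, nat_lit 46695, nat_lit 48207, nat_lit 48135, nat_lit 48171, nat_lit 48147, nat_lit 48159, nat_lit 48151, nat_lit 28471] (nat_lit 0) [] false,
   Spec.mk (nat_lit 48159) (nat_lit 1) [nat_lit 35037, nat_lit 43785, nat_lit 52533, nat_lit 46701, nat_lit 48213, nat_lit 48177, nat_lit 48153, nat_lit 28477] (nat_lit 0) [] false,
   Spec.mk (nat_lit 48169) (nat_lit 1) [nat_lit 35047, nat_lit 43795, nat_lit 52543, nat_lit 46711, nat_lit 48223, nat_lit 48151, nat_lit 48171, nat_lit 28487] (nat_lit 0) [] false,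
   Spec.mk (nat_lit 48171) (nat_lit 0) [nat_lit 35049, nat_lit 43797, nat_lit 52545, nat_lit 46713, nat_lit 48225, nat_lit 48153, nat_lit 48177, nat_lit 48169, nat_lit 28489] (nat_lit 1) [] false,
   Spec.mk (nat_lit 48177) (nat_lit 1) [nat_lit 35055, nat_lit 43803, nat_lit 52551, nat_lit 46719, nat_lit 48231, nat_lit 48159, nat_lit 48171, nat_lit 28495] (nat_lit 0) [] false,
   Spec.mk (nat_lit 48197) (nat_lit 3) [nat_lit 35075, nat_lit 43823, nat_lit 52571, nat_lit 46739, nat_lit 48359, nat_lit 48143, nat_lit 48199] (nat_lit 0) [] false,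
   Spec.mk (nat_lit 48199) (nat_lit 2) [nat_lit 35077, nat_lit 43825, nat_lit 52573, nat_lit 46741, nat_lit 48361, nat_lit 48145, nat_lit 48205, nat_lit 48197, nat_lit 48201, nat_lit 28517] (nat_lit 0) [] false,
   Spec.mk (nat_lit 48201) (nat_lit 0) [nat_lit 35079, nat_lit 43827, nat_lit 52575, nat_lit 46743, nat_lit 48363, nat_lit 48147, nat_lit 48207, nat_lit 48199, nat_lit 28519] (nat_lit 1) [] false,
   Spec.mk (nat_lit 48205) (nat_lit 1) [nat_lit 35083, nat_lit 43831, nat_lit 52579, nat_lit 46747, nat_lit 48367, nat_lit 48151, nat_lit 48223, nat_lit 48199, nat_lit 48207, nat_lit 28523] (nat_lit 0) [] false,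
   Spec.mk (nat_lit 48207) (nat_lit 0) [nat_lit 35085, nat_lit 43833, nat_lit 52581, nat_lit 46749, nat_lit 48369, nat_lit 48153, nat_lit 48225, nat_lit 48201, nat_lit 48213, nat_lit 48205, nat_lit 28525] (nat_lit 0) [] false,
   Spec.mk (nat_lit 48213) (nat_lit 0) [nat_lit 35091, nat_lit 43839, nat_lit 52587, nat_lit 46755, nat_lit 48375, nat_lit 48159, nat_lit 48231, nat_lit 48207, nat_lit 28531] (nat_lit 1) [] false,
   Spec.mk (nat_lit 48223) (nat_lit 2) [nat_lit 35101, nat_lit 43849, nat_lit 52597, nat_lit 46765, nat_lit 48385, nat_lit 48169, nat_lit 48277, nat_lit 48205, nat_lit 48225, nat_lit 28541] (nat_lit 0) [] false,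
   Spec.mk (nat_lit 48225) (nat_lit 0) [nat_lit 35103, nat_lit 43851, nat_lit 52599, nat_lit 46767, nat_lit 48387, nat_lit 48171, nat_lit 48279, nat_lit 48207, nat_lit 48231, nat_lit 48223, nat_lit 28543] (nat_lit 0) [] false,
   Spec.mk (nat_lit 48231) (nat_lit 1) [nat_lit 35109, nat_lit 43857, nat_lit 52605, nat_lit 46773, nat_lit 48393, nat_lit 48177, nat_lit 48285, nat_lit 48213, nat_lit 48249, nat_lit 48225, nat_lit 28549] (nat_lit 0) [] false,
   Spec.mk (nat_lit 48249) (nat_lit 1) [nat_lit 35127, nat_lit 43875, nat_lit 52623, nat_lit 46791, nat_lit 48411, nat_lit 48303, nat_lit 48231, nat_lit 28567] (nat_lit 0) [] false,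
   Spec.mk (nat_lit 48277) (nat_lit 1) [nat_lit 35155, nat_lit 43903, nat_lit 52651, nat_lit 46819, nat_lit 48439, nat_lit 48223, nat_lit 48279, nat_lit 28595] (nat_lit 0) [] false,
   Spec.mk (nat_lit 48279) (nat_lit 0) [nat_lit 35157, nat_lit 43905, nat_lit 52653, nat_lit 46821, nat_lit 48441, nat_lit 48225, nat_lit 48285, nat_lit 48277, nat_lit 28597] (nat_lit 1) [] false,
   Spec.mk (nat_lit 48285) (nat_lit 0) [nat_lit 35163, nat_lit 43911, nat_lit 52659, nat_lit 46827, nat_lit 48447, nat_lit 48231, nat_lit 48303, nat_lit 48279, nat_lit 28603] (nat_lit 1) [] false,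
   Spec.mk (nat_lit 48303) (nat_lit 1) [nat_lit 35181, nat_lit 43929, nat_lit 52677, nat_lit 46845, nat_lit 48465, nat_lit 48249, nat_lit 48285, nat_lit 28621] (nat_lit 0) [] false,
   Spec.mk (nat_lit 48359) (nat_lit 3) [nat_lit 35237, nat_lit 43985, nat_lit 52733, nat_lit 46901, nat_lit 48845, nat_lit 48197, nat_lit 48361] (nat_lit 0) [] false,
   Spec.mk (nat_lit 48361) (nat_lit 2) [nat_lit 35239, nat_lit 43987, nat_lit 52735, nat_lit 46903, nat_lit 48847, nat_lit 48199, nat_lit 48367, nat_lit 48359, nat_lit 48363, nat_lit 28679] (nat_lit 0) [] false,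
   Spec.mk (nat_lit 48363) (nat_lit 0) [nat_lit 35241, nat_lit 43989, nat_lit 52737, nat_lit 46905, nat_lit 48849, nat_lit 48201, nat_lit 48369, nat_lit 48361, nat_lit 28681] (nat_lit 1) [] false,
   Spec.mk (nat_lit 48367) (nat_lit 1) [nat_lit 35245, nat_lit 43993, nat_lit 52741, nat_lit 46909, nat_lit 48853, nat_lit 48205, nat_lit 48385, nat_lit 48361, nat_lit 48369, nat_lit 28685] (nat_lit 0) [] false,
   Spec.mk (nat_lit 48369) (nat_lit 0) [nat_lit 35247, nat_lit 43995, nat_lit 52743, nat_lit 46911, nat_lit 48855, nat_lit 48207, nat_lit 48387, nat_lit 48363, nat_lit 48375, nat_lit 48367, nat_lit 28687] (nat_lit 0) [] false,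
   Spec.mk (nat_lit 48375) (nat_lit 0) [nat_lit 35253, nat_lit 44001, nat_lit 52749, nat_lit 46917, nat_lit 48861, nat_lit 48213, nat_lit 48393, nat_lit 48369, nat_lit 28693] (nat_lit 1) [] false,
   Spec.mk (nat_lit 48385) (nat_lit 1) [nat_lit 35263, nat_lit 44011, nat_lit 52759, nat_lit 46927, nat_lit 48871, nat_lit 48223, nat_lit 48439, nat_lit 48367, nat_lit 48387, nat_lit 28703] (nat_lit 0) [] false]

noncomputable def sp76 : List Spec :=
  [Spec.mk (nat_lit 48387) (nat_lit 0) [nat_lit 35265, nat_lit 44013, nat_lit 52761, nat_lit 46929, nat_lit 48873, nat_lit 48225, nat_lit 48441, nat_lit 48369, nat_lit 48393, nat_lit 48385, nat_lit 28705] (nat_lit 1) [] false,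
   Spec.mk (nat_lit 48393) (nat_lit 0) [nat_lit 35271, nat_lit 44019, nat_lit 52767, nat_lit 46935, nat_lit 48879, nat_lit 48231, nat_lit 48447, nat_lit 48375, nat_lit 48411, nat_lit 48387, nat_lit 28711] (nat_lit 0) [] false,
   Spec.mk (nat_lit 48411) (nat_lit 0) [nat_lit 35289, nat_lit 44037, nat_lit 52785, nat_lit 46953, nat_lit 48897, nat_lit 48249, nat_lit 48465, nat_lit 48393, nat_lit 28729] (nat_lit 1) [] false,
   Spec.mk (nat_lit 48439) (nat_lit 2) [nat_lit 35317, nat_lit 44065, nat_lit 52813, nat_lit 46981, nat_lit 48925, nat_lit 48277, nat_lit 48601, nat_lit 48385, nat_lit 48441, nat_lit 28757] (nat_lit 0) [] false,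
   Spec.mk (nat_lit 48441) (nat_lit 0) [nat_lit 35319, nat_lit 44067, nat_lit 52815, nat_lit 46983, nat_lit 48927, nat_lit 48279, nat_lit 48603, nat_lit 48387, nat_lit 48447, nat_lit 48439, nat_lit 28759] (nat_lit 0) [] false,
   Spec.mk (nat_lit 48447) (nat_lit 0) [nat_lit 35325, nat_lit 44073, nat_lit 52821, nat_lit 46989, nat_lit 48933, nat_lit 48285, nat_lit 48609, nat_lit 48393, nat_lit 48465, nat_lit 48441, nat_lit 28765] (nat_lit 0) [] false,
   Spec.mk (nat_lit 48465) (nat_lit 1) [nat_lit 35343, nat_lit 44091, nat_lit 52839, nat_lit 47007, nat_lit 48951, nat_lit 48303, nat_lit 48627, nat_lit 48411, nat_lit 48519, nat_lit 48447, nat_lit 28783] (nat_lit 0) [] false,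
   Spec.mk (nat_lit 48519) (nat_lit 1) [nat_lit 35397, nat_lit 44145, nat_lit 52893, nat_lit 47061, nat_lit 49005, nat_lit 48681, nat_lit 48465, nat_lit 28837] (nat_lit 0) [] false,
   Spec.mk (nat_lit 48601) (nat_lit 1) [nat_lit 35479, nat_lit 44227, nat_lit 52975, nat_lit 47143, nat_lit 49087, nat_lit 48439, nat_lit 48603, nat_lit 28919] (nat_lit 0) [] false,
   Spec.mk (nat_lit 48603) (nat_lit 0) [nat_lit 35481, nat_lit 44229, nat_lit 52977, nat_lit 47145, nat_lit 49089, nat_lit 48441, nat_lit 48609, nat_lit 48601, nat_lit 28921] (nat_lit 1) [] false,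
   Spec.mk (nat_lit 48609) (nat_lit 0) [nat_lit 35487, nat_lit 44235, nat_lit 52983, nat_lit 47151, nat_lit 49095, nat_lit 48447, nat_lit 48627, nat_lit 48603, nat_lit 28927] (nat_lit 1) [] false,
   Spec.mk (nat_lit 48627) (nat_lit 0) [nat_lit 35505, nat_lit 44253, nat_lit 53001, nat_lit 47169, nat_lit 49113, nat_lit 48465, nat_lit 48681, nat_lit 48609, nat_lit 28945] (nat_lit 1) [] false,
   Spec.mk (nat_lit 48681) (nat_lit 1) [nat_lit 35559, nat_lit 44307, nat_lit 53055, nat_lit 47223, nat_lit 49167, nat_lit 48519, nat_lit 48627, nat_lit 28999] (nat_lit 0) [] false,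
   Spec.mk (nat_lit 48845) (nat_lit 4) [nat_lit 35723, nat_lit 44471, nat_lit 53219, nat_lit 47387, nat_lit 50303, nat_lit 48359, nat_lit 48847] (nat_lit 0) [] false,
   Spec.mk (nat_lit 48847) (nat_lit 3) [nat_lit 35725, nat_lit 44473, nat_lit 53221, nat_lit 47389, nat_lit 50305, nat_lit 48361, nat_lit 48853, nat_lit 48845, nat_lit 48849, nat_lit 29165] (nat_lit 0) [] false,
   Spec.mk (nat_lit 48849) (nat_lit 0) [nat_lit 35727, nat_lit 44475, nat_lit 53223, nat_lit 47391, nat_lit 50307, nat_lit 48363, nat_lit 48855, nat_lit 48847, nat_lit 29167] (nat_lit 0) [] false,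
   Spec.mk (nat_lit 48853) (nat_lit 2) [nat_lit 35731, nat_lit 44479, nat_lit 53227, nat_lit 47395, nat_lit 50311, nat_lit 48367, nat_lit 48871, nat_lit 48847, nat_lit 48855, nat_lit 29171] (nat_lit 0) [] false,
   Spec.mk (nat_lit 48855) (nat_lit 1) [nat_lit 35733, nat_lit 44481, nat_lit 53229, nat_lit 47397, nat_lit 50313, nat_lit 48369, nat_lit 48873, nat_lit 48849, nat_lit 48861, nat_lit 48853, nat_lit 29173] (nat_lit 0) [] false,
   Spec.mk (nat_lit 48861) (nat_lit 0) [nat_lit 35739, nat_lit 44487, nat_lit 53235, nat_lit 47403, nat_lit 50319, nat_lit 48375, nat_lit 48879, nat_lit 48855, nat_lit 29179] (nat_lit 0) [] false,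
   Spec.mk (nat_lit 48871) (nat_lit 2) [nat_lit 35749, nat_lit 44497, nat_lit 53245, nat_lit 47413, nat_lit 50329, nat_lit 48385, nat_lit 48925, nat_lit 48853, nat_lit 48873, nat_lit 29189] (nat_lit 0) [] false,
   Spec.mk (nat_lit 48873) (nat_lit 0) [nat_lit 35751, nat_lit 44499, nat_lit 53247, nat_lit 47415, nat_lit 50331, nat_lit 48387, nat_lit 48927, nat_lit 48855, nat_lit 48879, nat_lit 48871, nat_lit 29191] (nat_lit 0) [] false,
   Spec.mk (nat_lit 48879) (nat_lit 1) [nat_lit 35757, nat_lit 44505, nat_lit 53253, nat_lit 47421, nat_lit 50337, nat_lit 48393, nat_lit 48933, nat_lit 48861, nat_lit 48897, nat_lit 48873, nat_lit 29197] (nat_lit 0) [] false,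
   Spec.mk (nat_lit 48897) (nat_lit 0) [nat_lit 35775, nat_lit 44523, nat_lit 53271, nat_lit 47439, nat_lit 50355, nat_lit 48411, nat_lit 48951, nat_lit 48879, nat_lit 29215] (nat_lit 0) [] false,
   Spec.mk (nat_lit 48925) (nat_lit 2) [nat_lit 35803, nat_lit 44551, nat_lit 53299, nat_lit 47467, nat_lit 50383, nat_lit 48439, nat_lit 49087, nat_lit 48871, nat_lit 48927, nat_lit 29243] (nat_lit 0) [] false,
   Spec.mk (nat_lit 48927) (nat_lit 0) [nat_lit 35805, nat_lit 44553, nat_lit 53301, nat_lit 47469, nat_lit 50385, nat_lit 48441, nat_lit 49089, nat_lit 48873, nat_lit 48933, nat_lit 48925, nat_lit 29245] (nat_lit 0) [] false,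
   Spec.mk (nat_lit 48933) (nat_lit 0) [nat_lit 35811, nat_lit 44559, nat_lit 53307, nat_lit 47475, nat_lit 50391, nat_lit 48447, nat_lit 49095, nat_lit 48879, nat_lit 48951, nat_lit 48927, nat_lit 29251] (nat_lit 0) [] false,
   Spec.mk (nat_lit 48951) (nat_lit 1) [nat_lit 35829, nat_lit 44577, nat_lit 53325, nat_lit 47493, nat_lit 50409, nat_lit 48465, nat_lit 49113, nat_lit 48897, nat_lit 49005, nat_lit 48933, nat_lit 29269] (nat_lit 0) [] false,
   Spec.mk (nat_lit 49005) (nat_lit 0) [nat_lit 35883, nat_lit 44631, nat_lit 53379, nat_lit 47547, nat_lit 50463, nat_lit 48519, nat_lit 49167, nat_lit 48951, nat_lit 29323] (nat_lit 0) [] false,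
   Spec.mk (nat_lit 49087) (nat_lit 3) [nat_lit 35965, nat_lit 44713, nat_lit 53461, nat_lit 47629, nat_lit 50545, nat_lit 48601, nat_lit 49573, nat_lit 48925, nat_lit 49089, nat_lit 29405] (nat_lit 0) [] false,
   Spec.mk (nat_lit 49089) (nat_lit 1) [nat_lit 35967, nat_lit 44715, nat_lit 53463, nat_lit 47631, nat_lit 50547, nat_lit 48603, nat_lit 49575, nat_lit 48927, nat_lit 49095, nat_lit 49087, nat_lit 29407] (nat_lit 0) [] false,
   Spec.mk (nat_lit 49095) (nat_lit 1) [nat_lit 35973, nat_lit 44721, nat_lit 53469, nat_lit 47637, nat_lit 50553, nat_lit 48609, nat_lit 49581, nat_lit 48933, nat_lit 49113, nat_lit 49089, nat_lit 29413] (nat_lit 0) [] false,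
   Spec.mk (nat_lit 49113) (nat_lit 1) [nat_lit 35991, nat_lit 44739, nat_lit 53487, nat_lit 47655, nat_lit 50571, nat_lit 48627, nat_lit 49599, nat_lit 48951, nat_lit 49167, nat_lit 49095, nat_lit 29431] (nat_lit 0) [] false,
   Spec.mk (nat_lit 49167) (nat_lit 2) [nat_lit 36045, nat_lit 44793, nat_lit 53541, nat_lit 47709, nat_lit 50625, nat_lit 48681, nat_lit 49653, nat_lit 49005, nat_lit 49329, nat_lit 49113, nat_lit 29485] (nat_lit 0) [] false,
   Spec.mk (nat_lit 49329) (nat_lit 2) [nat_lit 36207, nat_lit 44955, nat_lit 53703, nat_lit 47871, nat_lit 50787, nat_lit 49815, nat_lit 49167, nat_lit 29647] (nat_lit 0) [] false,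
   Spec.mk (nat_lit 49573) (nat_lit 3) [nat_lit 36451, nat_lit 45199, nat_lit 53947, nat_lit 51031, nat_lit 49087, nat_lit 49575, nat_lit 29891] (nat_lit 0) [] false,
   Spec.mk (nat_lit 49575) (nat_lit 1) [nat_lit 36453, nat_lit 45201, nat_lit 53949, nat_lit 51033, nat_lit 49089, nat_lit 49581, nat_lit 49573, nat_lit 29893] (nat_lit 0) [] false,
   Spec.mk (nat_lit 49581) (nat_lit 1) [nat_lit 36459, nat_lit 45207, nat_lit 53955, nat_lit 51039, nat_lit 49095, nat_lit 49599, nat_lit 49575, nat_lit 29899] (nat_lit 0) [] false,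
   Spec.mk (nat_lit 49599) (nat_lit 1) [nat_lit 36477, nat_lit 45225, nat_lit 53973, nat_lit 51057, nat_lit 49113, nat_lit 49653, nat_lit 49581, nat_lit 29917] (nat_lit 0) [] false,
   Spec.mk (nat_lit 49653) (nat_lit 1) [nat_lit 36531, nat_lit 45279, nat_lit 54027, nat_lit 51111, nat_lit 49167, nat_lit 49815, nat_lit 49599, nat_lit 29971] (nat_lit 0) [] false,
   Spec.mk (nat_lit 49815) (nat_lit 3) [nat_lit 36693, nat_lit 45441, nat_lit 54189, nat_lit 51273, nat_lit 49329, nat_lit 49653, nat_lit 30133] (nat_lit 0) [] false,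
   Spec.mk (nat_lit 50303) (nat_lit 4) [nat_lit 37181, nat_lit 54677, nat_lit 48845, nat_lit 50305] (nat_lit 0) [] false,
   Spec.mk (nat_lit 50305) (nat_lit 3) [nat_lit 37183, nat_lit 54679, nat_lit 48847, nat_lit 50311, nat_lit 50303, nat_lit 50307, nat_lit 30623] (nat_lit 0) [] false,
   Spec.mk (nat_lit 50307) (nat_lit 0) [nat_lit 37185, nat_lit 54681, nat_lit 48849, nat_lit 50313, nat_lit 50305, nat_lit 30625] (nat_lit 0) [] false,
   Spec.mk (nat_lit 50311) (nat_lit 2) [nat_lit 37189, nat_lit 54685, nat_lit 48853, nat_lit 50329, nat_lit 50305, nat_lit 50313, nat_lit 30629] (nat_lit 0) [] false,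
   Spec.mk (nat_lit 50313) (nat_lit 1) [nat_lit 37191, nat_lit 54687, nat_lit 48855, nat_lit 50331, nat_lit 50307, nat_lit 50319, nat_lit 50311, nat_lit 30631] (nat_lit 0) [] false,
   Spec.mk (nat_lit 50319) (nat_lit 0) [nat_lit 37197, nat_lit 54693, nat_lit 48861, nat_lit 50337, nat_lit 50313, nat_lit 30637] (nat_lit 0) [] false,
   Spec.mk (nat_lit 50329) (nat_lit 2) [nat_lit 37207, nat_lit 54703, nat_lit 48871, nat_lit 50383, nat_lit 50311, nat_lit 50331, nat_lit 30647] (nat_lit 0) [] false,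
   Spec.mk (nat_lit 50331) (nat_lit 0) [nat_lit 37209, nat_lit 54705, nat_lit 48873, nat_lit 50385, nat_lit 50313, nat_lit 50337, nat_lit 50329, nat_lit 30649] (nat_lit 0) [] false,
   Spec.mk (nat_lit 50337) (nat_lit 1) [nat_lit 37215, nat_lit 54711, nat_lit 48879, nat_lit 50391, nat_lit 50319, nat_lit 50355, nat_lit 50331, nat_lit 30655] (nat_lit 0) [] false,
   Spec.mk (nat_lit 50355) (nat_lit 0) [nat_lit 37233, nat_lit 54729, nat_lit 48897, nat_lit 50409, nat_lit 50337, nat_lit 30673] (nat_lit 0) [] false,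
   Spec.mk (nat_lit 50383) (nat_lit 2) [nat_lit 37261, nat_lit 54757, nat_lit 48925, nat_lit 50545, nat_lit 50329, nat_lit 50385, nat_lit 30701] (nat_lit 0) [] false,
   Spec.mk (nat_lit 50385) (nat_lit 0) [nat_lit 37263, nat_lit 54759, nat_lit 48927, nat_lit 50547, nat_lit 50331, nat_lit 50391, nat_lit 50383, nat_lit 30703] (nat_lit 0) [] false,
   Spec.mk (nat_lit 50391) (nat_lit 0) [nat_lit 37269, nat_lit 54765, nat_lit 48933, nat_lit 50553, nat_lit 50337, nat_lit 50409, nat_lit 50385, nat_lit 30709] (nat_lit 0) [] false,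
   Spec.mk (nat_lit 50409) (nat_lit 1) [nat_lit 37287, nat_lit 54783, nat_lit 48951, nat_lit 50571, nat_lit 50355, nat_lit 50463, nat_lit 50391, nat_lit 30727] (nat_lit 0) [] false,
   Spec.mk (nat_lit 50463) (nat_lit 0) [nat_lit 37341, nat_lit 54837, nat_lit 49005, nat_lit 50625, nat_lit 50409, nat_lit 30781] (nat_lit 0) [] false,
   Spec.mk (nat_lit 50545) (nat_lit 2) [nat_lit 37423, nat_lit 54919, nat_lit 49087, nat_lit 51031, nat_lit 50383, nat_lit 50547, nat_lit 30863] (nat_lit 0) [] false,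
   Spec.mk (nat_lit 50547) (nat_lit 0) [nat_lit 37425, nat_lit 54921, nat_lit 49089, nat_lit 51033, nat_lit 50385, nat_lit 50553, nat_lit 50545, nat_lit 30865] (nat_lit 0) [] false,
   Spec.mk (nat_lit 50553) (nat_lit 0) [nat_lit 37431, nat_lit 54927, nat_lit 49095, nat_lit 51039, nat_lit 50391, nat_lit 50571, nat_lit 50547, nat_lit 30871] (nat_lit 0) [] false,
   Spec.mk (nat_lit 50571) (nat_lit 0) [nat_lit 37449, nat_lit 54945, nat_lit 49113, nat_lit 51057, nat_lit 50409, nat_lit 50625, nat_lit 50553, nat_lit 30889] (nat_lit 0) [] false,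
   Spec.mk (nat_lit 50625) (nat_lit 1) [nat_lit 37503, nat_lit 54999, nat_lit 49167, nat_lit 51111, nat_lit 50463, nat_lit 50787, nat_lit 50571, nat_lit 30943] (nat_lit 0) [] false]

noncomputable def sp77 : List Spec :=
  [Spec.mk (nat_lit 50787) (nat_lit 0) [nat_lit 37665, nat_lit 55161, nat_lit 49329, nat_lit 51273, nat_lit 50625, nat_lit 31105] (nat_lit 0) [] false,
   Spec.mk (nat_lit 51031) (nat_lit 4) [nat_lit 37909, nat_lit 55405, nat_lit 49573, nat_lit 50545, nat_lit 51033, nat_lit 31349] (nat_lit 0) [] false,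
   Spec.mk (nat_lit 51033) (nat_lit 2) [nat_lit 37911, nat_lit 55407, nat_lit 49575, nat_lit 50547, nat_lit 51039, nat_lit 51031, nat_lit 31351] (nat_lit 0) [] false,
   Spec.mk (nat_lit 51039) (nat_lit 2) [nat_lit 37917, nat_lit 55413, nat_lit 49581, nat_lit 50553, nat_lit 51057, nat_lit 51033, nat_lit 31357] (nat_lit 0) [] false,
   Spec.mk (nat_lit 51057) (nat_lit 2) [nat_lit 37935, nat_lit 55431, nat_lit 49599, nat_lit 50571, nat_lit 51111, nat_lit 51039, nat_lit 31375] (nat_lit 0) [] false,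
   Spec.mk (nat_lit 51111) (nat_lit 2) [nat_lit 37989, nat_lit 55485, nat_lit 49653, nat_lit 50625, nat_lit 51273, nat_lit 51057, nat_lit 31429] (nat_lit 0) [] false,
   Spec.mk (nat_lit 51273) (nat_lit 3) [nat_lit 38151, nat_lit 55647, nat_lit 49815, nat_lit 50787, nat_lit 51759, nat_lit 51111, nat_lit 31591] (nat_lit 0) [] false,
   Spec.mk (nat_lit 51759) (nat_lit 4) [nat_lit 38637, nat_lit 56133, nat_lit 51273, nat_lit 32077] (nat_lit 0) [] false,
   Spec.mk (nat_lit 52493) (nat_lit 6) [nat_lit 48119, nat_lit 52499, nat_lit 52495] (nat_lit 0) [] false,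
   Spec.mk (nat_lit 52495) (nat_lit 4) [nat_lit 48121, nat_lit 52501, nat_lit 52493, nat_lit 32813] (nat_lit 0) [] false,
   Spec.mk (nat_lit 52499) (nat_lit 4) [nat_lit 48125, nat_lit 52517, nat_lit 52493, nat_lit 52501] (nat_lit 0) [] false,
   Spec.mk (nat_lit 52501) (nat_lit 4) [nat_lit 48127, nat_lit 52519, nat_lit 52495, nat_lit 52507, nat_lit 52499, nat_lit 52503, nat_lit 32819] (nat_lit 0) [] false,
   Spec.mk (nat_lit 52503) (nat_lit 2) [nat_lit 48129, nat_lit 52521, nat_lit 52509, nat_lit 52501, nat_lit 32821] (nat_lit 0) [] false,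
   Spec.mk (nat_lit 52507) (nat_lit 2) [nat_lit 48133, nat_lit 52525, nat_lit 52501, nat_lit 52509, nat_lit 32825] (nat_lit 0) [] false,
   Spec.mk (nat_lit 52509) (nat_lit 2) [nat_lit 48135, nat_lit 52527, nat_lit 52503, nat_lit 52507, nat_lit 32827] (nat_lit 0) [] false,
   Spec.mk (nat_lit 52517) (nat_lit 4) [nat_lit 48143, nat_lit 52571, nat_lit 52499, nat_lit 52519] (nat_lit 0) [] false,
   Spec.mk (nat_lit 52519) (nat_lit 3) [nat_lit 48145, nat_lit 52573, nat_lit 52501, nat_lit 52525, nat_lit 52517, nat_lit 52521, nat_lit 32837] (nat_lit 0) [] false,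
   Spec.mk (nat_lit 52521) (nat_lit 0) [nat_lit 48147, nat_lit 52575, nat_lit 52503, nat_lit 52527, nat_lit 52519, nat_lit 32839] (nat_lit 0) [] false,
   Spec.mk (nat_lit 52525) (nat_lit 3) [nat_lit 48151, nat_lit 52579, nat_lit 52507, nat_lit 52543, nat_lit 52519, nat_lit 52527, nat_lit 32843] (nat_lit 0) [] false,
   Spec.mk (nat_lit 52527) (nat_lit 2) [nat_lit 48153, nat_lit 52581, nat_lit 52509, nat_lit 52545, nat_lit 52521, nat_lit 52533, nat_lit 52525, nat_lit 32845] (nat_lit 0) [] false,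
   Spec.mk (nat_lit 52533) (nat_lit 2) [nat_lit 48159, nat_lit 52587, nat_lit 52551, nat_lit 52527, nat_lit 32851] (nat_lit 0) [] false,
   Spec.mk (nat_lit 52543) (nat_lit 2) [nat_lit 48169, nat_lit 52597, nat_lit 52525, nat_lit 52545, nat_lit 32861] (nat_lit 0) [] false,
   Spec.mk (nat_lit 52545) (nat_lit 0) [nat_lit 48171, nat_lit 52599, nat_lit 52527, nat_lit 52551, nat_lit 52543, nat_lit 32863] (nat_lit 0) [] false,
   Spec.mk (nat_lit 52551) (nat_lit 2) [nat_lit 48177, nat_lit 52605, nat_lit 52533, nat_lit 52545, nat_lit 32869] (nat_lit 0) [] false,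
   Spec.mk (nat_lit 52571) (nat_lit 4) [nat_lit 48197, nat_lit 52733, nat_lit 52517, nat_lit 52573] (nat_lit 0) [] false,
   Spec.mk (nat_lit 52573) (nat_lit 3) [nat_lit 48199, nat_lit 52735, nat_lit 52519, nat_lit 52579, nat_lit 52571, nat_lit 52575, nat_lit 32891] (nat_lit 0) [] false,
   Spec.mk (nat_lit 52575) (nat_lit 0) [nat_lit 48201, nat_lit 52737, nat_lit 52521, nat_lit 52581, nat_lit 52573, nat_lit 32893] (nat_lit 0) [] false,
   Spec.mk (nat_lit 52579) (nat_lit 2) [nat_lit 48205, nat_lit 52741, nat_lit 52525, nat_lit 52597, nat_lit 52573, nat_lit 52581, nat_lit 32897] (nat_lit 0) [] false,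
   Spec.mk (nat_lit 52581) (nat_lit 1) [nat_lit 48207, nat_lit 52743, nat_lit 52527, nat_lit 52599, nat_lit 52575, nat_lit 52587, nat_lit 52579, nat_lit 32899] (nat_lit 0) [] false,
   Spec.mk (nat_lit 52587) (nat_lit 0) [nat_lit 48213, nat_lit 52749, nat_lit 52533, nat_lit 52605, nat_lit 52581, nat_lit 32905] (nat_lit 0) [] false,
   Spec.mk (nat_lit 52597) (nat_lit 3) [nat_lit 48223, nat_lit 52759, nat_lit 52543, nat_lit 52651, nat_lit 52579, nat_lit 52599, nat_lit 32915] (nat_lit 0) [] false,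
   Spec.mk (nat_lit 52599) (nat_lit 1) [nat_lit 48225, nat_lit 52761, nat_lit 52545, nat_lit 52653, nat_lit 52581, nat_lit 52605, nat_lit 52597, nat_lit 32917] (nat_lit 0) [] false,
   Spec.mk (nat_lit 52605) (nat_lit 2) [nat_lit 48231, nat_lit 52767, nat_lit 52551, nat_lit 52659, nat_lit 52587, nat_lit 52623, nat_lit 52599, nat_lit 32923] (nat_lit 0) [] false,
   Spec.mk (nat_lit 52623) (nat_lit 2) [nat_lit 48249, nat_lit 52785, nat_lit 52677, nat_lit 52605, nat_lit 32941] (nat_lit 0) [] false,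
   Spec.mk (nat_lit 52651) (nat_lit 2) [nat_lit 48277, nat_lit 52813, nat_lit 52597, nat_lit 52653, nat_lit 32969] (nat_lit 0) [] false,
   Spec.mk (nat_lit 52653) (nat_lit 0) [nat_lit 48279, nat_lit 52815, nat_lit 52599, nat_lit 52659, nat_lit 52651, nat_lit 32971] (nat_lit 0) [] false,
   Spec.mk (nat_lit 52659) (nat_lit 0) [nat_lit 48285, nat_lit 52821, nat_lit 52605, nat_lit 52677, nat_lit 52653, nat_lit 32977] (nat_lit 0) [] false,
   Spec.mk (nat_lit 52677) (nat_lit 2) [nat_lit 48303, nat_lit 52839, nat_lit 52623, nat_lit 52659, nat_lit 32995] (nat_lit 0) [] false,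
   Spec.mk (nat_lit 52733) (nat_lit 4) [nat_lit 48359, nat_lit 53219, nat_lit 52571, nat_lit 52735] (nat_lit 0) [] false,
   Spec.mk (nat_lit 52735) (nat_lit 3) [nat_lit 48361, nat_lit 53221, nat_lit 52573, nat_lit 52741, nat_lit 52733, nat_lit 52737, nat_lit 33053] (nat_lit 0) [] false,
   Spec.mk (nat_lit 52737) (nat_lit 0) [nat_lit 48363, nat_lit 53223, nat_lit 52575, nat_lit 52743, nat_lit 52735, nat_lit 33055] (nat_lit 0) [] false,
   Spec.mk (nat_lit 52741) (nat_lit 2) [nat_lit 48367, nat_lit 53227, nat_lit 52579, nat_lit 52759, nat_lit 52735, nat_lit 52743, nat_lit 33059] (nat_lit 0) [] false,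
   Spec.mk (nat_lit 52743) (nat_lit 1) [nat_lit 48369, nat_lit 53229, nat_lit 52581, nat_lit 52761, nat_lit 52737, nat_lit 52749, nat_lit 52741, nat_lit 33061] (nat_lit 0) [] false,
   Spec.mk (nat_lit 52749) (nat_lit 0) [nat_lit 48375, nat_lit 53235, nat_lit 52587, nat_lit 52767, nat_lit 52743, nat_lit 33067] (nat_lit 0) [] false,
   Spec.mk (nat_lit 52759) (nat_lit 2) [nat_lit 48385, nat_lit 53245, nat_lit 52597, nat_lit 52813, nat_lit 52741, nat_lit 52761, nat_lit 33077] (nat_lit 0) [] false,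
   Spec.mk (nat_lit 52761) (nat_lit 0) [nat_lit 48387, nat_lit 53247, nat_lit 52599, nat_lit 52815, nat_lit 52743, nat_lit 52767, nat_lit 52759, nat_lit 33079] (nat_lit 0) [] false,
   Spec.mk (nat_lit 52767) (nat_lit 1) [nat_lit 48393, nat_lit 53253, nat_lit 52605, nat_lit 52821, nat_lit 52749, nat_lit 52785, nat_lit 52761, nat_lit 33085] (nat_lit 0) [] false,
   Spec.mk (nat_lit 52785) (nat_lit 0) [nat_lit 48411, nat_lit 53271, nat_lit 52623, nat_lit 52839, nat_lit 52767, nat_lit 33103] (nat_lit 0) [] false,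
   Spec.mk (nat_lit 52813) (nat_lit 3) [nat_lit 48439, nat_lit 53299, nat_lit 52651, nat_lit 52975, nat_lit 52759, nat_lit 52815, nat_lit 33131] (nat_lit 0) [] false,
   Spec.mk (nat_lit 52815) (nat_lit 1) [nat_lit 48441, nat_lit 53301, nat_lit 52653, nat_lit 52977, nat_lit 52761, nat_lit 52821, nat_lit 52813, nat_lit 33133] (nat_lit 0) [] false,
   Spec.mk (nat_lit 52821) (nat_lit 1) [nat_lit 48447, nat_lit 53307, nat_lit 52659, nat_lit 52983, nat_lit 52767, nat_lit 52839, nat_lit 52815, nat_lit 33139] (nat_lit 0) [] false,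
   Spec.mk (nat_lit 52839) (nat_lit 2) [nat_lit 48465, nat_lit 53325, nat_lit 52677, nat_lit 53001, nat_lit 52785, nat_lit 52893, nat_lit 52821, nat_lit 33157] (nat_lit 0) [] false,
   Spec.mk (nat_lit 52893) (nat_lit 2) [nat_lit 48519, nat_lit 53379, nat_lit 53055, nat_lit 52839, nat_lit 33211] (nat_lit 0) [] false,
   Spec.mk (nat_lit 52975) (nat_lit 2) [nat_lit 48601, nat_lit 53461, nat_lit 52813, nat_lit 52977, nat_lit 33293] (nat_lit 0) [] false,
   Spec.mk (nat_lit 52977) (nat_lit 0) [nat_lit 48603, nat_lit 53463, nat_lit 52815, nat_lit 52983, nat_lit 52975, nat_lit 33295] (nat_lit 0) [] false,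
   Spec.mk (nat_lit 52983) (nat_lit 0) [nat_lit 48609, nat_lit 53469, nat_lit 52821, nat_lit 53001, nat_lit 52977, nat_lit 33301] (nat_lit 0) [] false,
   Spec.mk (nat_lit 53001) (nat_lit 0) [nat_lit 48627, nat_lit 53487, nat_lit 52839, nat_lit 53055, nat_lit 52983, nat_lit 33319] (nat_lit 0) [] false,
   Spec.mk (nat_lit 53055) (nat_lit 2) [nat_lit 48681, nat_lit 53541, nat_lit 52893, nat_lit 53001, nat_lit 33373] (nat_lit 0) [] false,
   Spec.mk (nat_lit 53219) (nat_lit 4) [nat_lit 48845, nat_lit 54677, nat_lit 52733, nat_lit 53221] (nat_lit 0) [] false,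
   Spec.mk (nat_lit 53221) (nat_lit 3) [nat_lit 48847, nat_lit 54679, nat_lit 52735, nat_lit 53227, nat_lit 53219, nat_lit 53223, nat_lit 33539] (nat_lit 0) [] false]

noncomputable def sp78 : List Spec :=
  [Spec.mk (nat_lit 53223) (nat_lit 0) [nat_lit 48849, nat_lit 54681, nat_lit 52737, nat_lit 53229, nat_lit 53221, nat_lit 33541] (nat_lit 0) [] false,
   Spec.mk (nat_lit 53227) (nat_lit 2) [nat_lit 48853, nat_lit 54685, nat_lit 52741, nat_lit 53245, nat_lit 53221, nat_lit 53229, nat_lit 33545] (nat_lit 0) [] false,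
   Spec.mk (nat_lit 53229) (nat_lit 1) [nat_lit 48855, nat_lit 54687, nat_lit 52743, nat_lit 53247, nat_lit 53223, nat_lit 53235, nat_lit 53227, nat_lit 33547] (nat_lit 0) [] false,
   Spec.mk (nat_lit 53235) (nat_lit 0) [nat_lit 48861, nat_lit 54693, nat_lit 52749, nat_lit 53253, nat_lit 53229, nat_lit 33553] (nat_lit 0) [] false,
   Spec.mk (nat_lit 53245) (nat_lit 2) [nat_lit 48871, nat_lit 54703, nat_lit 52759, nat_lit 53299, nat_lit 53227, nat_lit 53247, nat_lit 33563] (nat_lit 0) [] false,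
   Spec.mk (nat_lit 53247) (nat_lit 0) [nat_lit 48873, nat_lit 54705, nat_lit 52761, nat_lit 53301, nat_lit 53229, nat_lit 53253, nat_lit 53245, nat_lit 33565] (nat_lit 0) [] false,
   Spec.mk (nat_lit 53253) (nat_lit 1) [nat_lit 48879, nat_lit 54711, nat_lit 52767, nat_lit 53307, nat_lit 53235, nat_lit 53271, nat_lit 53247, nat_lit 33571] (nat_lit 0) [] false,
   Spec.mk (nat_lit 53271) (nat_lit 0) [nat_lit 48897, nat_lit 54729, nat_lit 52785, nat_lit 53325, nat_lit 53253, nat_lit 33589] (nat_lit 0) [] false,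
   Spec.mk (nat_lit 53299) (nat_lit 2) [nat_lit 48925, nat_lit 54757, nat_lit 52813, nat_lit 53461, nat_lit 53245, nat_lit 53301, nat_lit 33617] (nat_lit 0) [] false,
   Spec.mk (nat_lit 53301) (nat_lit 0) [nat_lit 48927, nat_lit 54759, nat_lit 52815, nat_lit 53463, nat_lit 53247, nat_lit 53307, nat_lit 53299, nat_lit 33619] (nat_lit 0) [] false,
   Spec.mk (nat_lit 53307) (nat_lit 0) [nat_lit 48933, nat_lit 54765, nat_lit 52821, nat_lit 53469, nat_lit 53253, nat_lit 53325, nat_lit 53301, nat_lit 33625] (nat_lit 0) [] false,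
   Spec.mk (nat_lit 53325) (nat_lit 1) [nat_lit 48951, nat_lit 54783, nat_lit 52839, nat_lit 53487, nat_lit 53271, nat_lit 53379, nat_lit 53307, nat_lit 33643] (nat_lit 0) [] false,
   Spec.mk (nat_lit 53379) (nat_lit 0) [nat_lit 49005, nat_lit 54837, nat_lit 52893, nat_lit 53541, nat_lit 53325, nat_lit 33697] (nat_lit 0) [] false,
   Spec.mk (nat_lit 53461) (nat_lit 3) [nat_lit 49087, nat_lit 54919, nat_lit 52975, nat_lit 53947, nat_lit 53299, nat_lit 53463, nat_lit 33779] (nat_lit 0) [] false,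
   Spec.mk (nat_lit 53463) (nat_lit 1) [nat_lit 49089, nat_lit 54921, nat_lit 52977, nat_lit 53949, nat_lit 53301, nat_lit 53469, nat_lit 53461, nat_lit 33781] (nat_lit 0) [] false,
   Spec.mk (nat_lit 53469) (nat_lit 1) [nat_lit 49095, nat_lit 54927, nat_lit 52983, nat_lit 53955, nat_lit 53307, nat_lit 53487, nat_lit 53463, nat_lit 33787] (nat_lit 0) [] false,
   Spec.mk (nat_lit 53487) (nat_lit 1) [nat_lit 49113, nat_lit 54945, nat_lit 53001, nat_lit 53973, nat_lit 53325, nat_lit 53541, nat_lit 53469, nat_lit 33805] (nat_lit 0) [] false,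
   Spec.mk (nat_lit 53541) (nat_lit 2) [nat_lit 49167, nat_lit 54999, nat_lit 53055, nat_lit 54027, nat_lit 53379, nat_lit 53703, nat_lit 53487, nat_lit 33859] (nat_lit 0) [] false,
   Spec.mk (nat_lit 53703) (nat_lit 2) [nat_lit 49329, nat_lit 55161, nat_lit 54189, nat_lit 53541, nat_lit 34021] (nat_lit 0) [] false,
   Spec.mk (nat_lit 53947) (nat_lit 2) [nat_lit 49573, nat_lit 55405, nat_lit 53461, nat_lit 53949, nat_lit 34265] (nat_lit 0) [] false,
   Spec.mk (nat_lit 53949) (nat_lit 0) [nat_lit 49575, nat_lit 55407, nat_lit 53463, nat_lit 53955, nat_lit 53947, nat_lit 34267] (nat_lit 0) [] false,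
   Spec.mk (nat_lit 53955) (nat_lit 0) [nat_lit 49581, nat_lit 55413, nat_lit 53469, nat_lit 53973, nat_lit 53949, nat_lit 34273] (nat_lit 0) [] false,
   Spec.mk (nat_lit 53973) (nat_lit 0) [nat_lit 49599, nat_lit 55431, nat_lit 53487, nat_lit 54027, nat_lit 53955, nat_lit 34291] (nat_lit 0) [] false,
   Spec.mk (nat_lit 54027) (nat_lit 0) [nat_lit 49653, nat_lit 55485, nat_lit 53541, nat_lit 54189, nat_lit 53973, nat_lit 34345] (nat_lit 0) [] false,
   Spec.mk (nat_lit 54189) (nat_lit 2) [nat_lit 49815, nat_lit 55647, nat_lit 53703, nat_lit 54027, nat_lit 34507] (nat_lit 0) [] false,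
   Spec.mk (nat_lit 54677) (nat_lit 6) [nat_lit 50303, nat_lit 53219, nat_lit 54679] (nat_lit 0) [] false,
   Spec.mk (nat_lit 54679) (nat_lit 5) [nat_lit 50305, nat_lit 53221, nat_lit 54685, nat_lit 54677, nat_lit 54681, nat_lit 34997] (nat_lit 0) [] false,
   Spec.mk (nat_lit 54681) (nat_lit 2) [nat_lit 50307, nat_lit 53223, nat_lit 54687, nat_lit 54679, nat_lit 34999] (nat_lit 0) [] false,
   Spec.mk (nat_lit 54685) (nat_lit 4) [nat_lit 50311, nat_lit 53227, nat_lit 54703, nat_lit 54679, nat_lit 54687, nat_lit 35003] (nat_lit 0) [] false,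
   Spec.mk (nat_lit 54687) (nat_lit 3) [nat_lit 50313, nat_lit 53229, nat_lit 54705, nat_lit 54681, nat_lit 54693, nat_lit 54685, nat_lit 35005] (nat_lit 0) [] false,
   Spec.mk (nat_lit 54693) (nat_lit 2) [nat_lit 50319, nat_lit 53235, nat_lit 54711, nat_lit 54687, nat_lit 35011] (nat_lit 0) [] false,
   Spec.mk (nat_lit 54703) (nat_lit 4) [nat_lit 50329, nat_lit 53245, nat_lit 54757, nat_lit 54685, nat_lit 54705, nat_lit 35021] (nat_lit 0) [] false,
   Spec.mk (nat_lit 54705) (nat_lit 2) [nat_lit 50331, nat_lit 53247, nat_lit 54759, nat_lit 54687, nat_lit 54711, nat_lit 54703, nat_lit 35023] (nat_lit 0) [] false,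
   Spec.mk (nat_lit 54711) (nat_lit 3) [nat_lit 50337, nat_lit 53253, nat_lit 54765, nat_lit 54693, nat_lit 54729, nat_lit 54705, nat_lit 35029] (nat_lit 0) [] false,
   Spec.mk (nat_lit 54729) (nat_lit 2) [nat_lit 50355, nat_lit 53271, nat_lit 54783, nat_lit 54711, nat_lit 35047] (nat_lit 0) [] false,
   Spec.mk (nat_lit 54757) (nat_lit 4) [nat_lit 50383, nat_lit 53299, nat_lit 54919, nat_lit 54703, nat_lit 54759, nat_lit 35075] (nat_lit 0) [] false,
   Spec.mk (nat_lit 54759) (nat_lit 2) [nat_lit 50385, nat_lit 53301, nat_lit 54921, nat_lit 54705, nat_lit 54765, nat_lit 54757, nat_lit 35077] (nat_lit 0) [] false,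
   Spec.mk (nat_lit 54765) (nat_lit 2) [nat_lit 50391, nat_lit 53307, nat_lit 54927, nat_lit 54711, nat_lit 54783, nat_lit 54759, nat_lit 35083] (nat_lit 0) [] false,
   Spec.mk (nat_lit 54783) (nat_lit 3) [nat_lit 50409, nat_lit 53325, nat_lit 54945, nat_lit 54729, nat_lit 54837, nat_lit 54765, nat_lit 35101] (nat_lit 0) [] false,
   Spec.mk (nat_lit 54837) (nat_lit 2) [nat_lit 50463, nat_lit 53379, nat_lit 54999, nat_lit 54783, nat_lit 35155] (nat_lit 0) [] false,
   Spec.mk (nat_lit 54919) (nat_lit 4) [nat_lit 50545, nat_lit 53461, nat_lit 55405, nat_lit 54757, nat_lit 54921, nat_lit 35237] (nat_lit 0) [] false,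
   Spec.mk (nat_lit 54921) (nat_lit 2) [nat_lit 50547, nat_lit 53463, nat_lit 55407, nat_lit 54759, nat_lit 54927, nat_lit 54919, nat_lit 35239] (nat_lit 0) [] false,
   Spec.mk (nat_lit 54927) (nat_lit 2) [nat_lit 50553, nat_lit 53469, nat_lit 55413, nat_lit 54765, nat_lit 54945, nat_lit 54921, nat_lit 35245] (nat_lit 0) [] false,
   Spec.mk (nat_lit 54945) (nat_lit 2) [nat_lit 50571, nat_lit 53487, nat_lit 55431, nat_lit 54783, nat_lit 54999, nat_lit 54927, nat_lit 35263] (nat_lit 0) [] false,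
   Spec.mk (nat_lit 54999) (nat_lit 3) [nat_lit 50625, nat_lit 53541, nat_lit 55485, nat_lit 54837, nat_lit 55161, nat_lit 54945, nat_lit 35317] (nat_lit 0) [] false,
   Spec.mk (nat_lit 55161) (nat_lit 2) [nat_lit 50787, nat_lit 53703, nat_lit 55647, nat_lit 54999, nat_lit 35479] (nat_lit 0) [] false,
   Spec.mk (nat_lit 55405) (nat_lit 5) [nat_lit 51031, nat_lit 53947, nat_lit 56863, nat_lit 54919, nat_lit 55407, nat_lit 35723] (nat_lit 0) [] false,
   Spec.mk (nat_lit 55407) (nat_lit 3) [nat_lit 51033, nat_lit 53949, nat_lit 56865, nat_lit 54921, nat_lit 55413, nat_lit 55405, nat_lit 35725] (nat_lit 0) [] false,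
   Spec.mk (nat_lit 55413) (nat_lit 3) [nat_lit 51039, nat_lit 53955, nat_lit 56871, nat_lit 54927, nat_lit 55431, nat_lit 55407, nat_lit 35731] (nat_lit 0) [] false,
   Spec.mk (nat_lit 55431) (nat_lit 3) [nat_lit 51057, nat_lit 53973, nat_lit 56889, nat_lit 54945, nat_lit 55485, nat_lit 55413, nat_lit 35749] (nat_lit 0) [] false,
   Spec.mk (nat_lit 55485) (nat_lit 3) [nat_lit 51111, nat_lit 54027, nat_lit 56943, nat_lit 54999, nat_lit 55647, nat_lit 55431, nat_lit 35803] (nat_lit 0) [] false,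
   Spec.mk (nat_lit 55647) (nat_lit 4) [nat_lit 51273, nat_lit 54189, nat_lit 57105, nat_lit 55161, nat_lit 56133, nat_lit 55485, nat_lit 35965] (nat_lit 0) [] false,
   Spec.mk (nat_lit 56133) (nat_lit 4) [nat_lit 51759, nat_lit 57591, nat_lit 55647, nat_lit 36451] (nat_lit 0) [] false,
   Spec.mk (nat_lit 56863) (nat_lit 6) [nat_lit 55405, nat_lit 56865, nat_lit 37181] (nat_lit 0) [] false,
   Spec.mk (nat_lit 56865) (nat_lit 4) [nat_lit 55407, nat_lit 56871, nat_lit 56863, nat_lit 37183] (nat_lit 0) [] false,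
   Spec.mk (nat_lit 56871) (nat_lit 4) [nat_lit 55413, nat_lit 56889, nat_lit 56865, nat_lit 37189] (nat_lit 0) [] false,
   Spec.mk (nat_lit 56889) (nat_lit 4) [nat_lit 55431, nat_lit 56943, nat_lit 56871, nat_lit 37207] (nat_lit 0) [] false,
   Spec.mk (nat_lit 56943) (nat_lit 4) [nat_lit 55485, nat_lit 57105, nat_lit 56889, nat_lit 37261] (nat_lit 0) [] false,
   Spec.mk (nat_lit 57105) (nat_lit 4) [nat_lit 55647, nat_lit 57591, nat_lit 56943, nat_lit 37423] (nat_lit 0) [] false,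
   Spec.mk (nat_lit 57591) (nat_lit 6) [nat_lit 56133, nat_lit 57105, nat_lit 37909] (nat_lit 0) [] false]

noncomputable def specs : List (List Spec) :=
    sp0 :: sp1 :: sp2 :: sp3 :: sp4 :: sp5 :: sp6 :: sp7 :: sp8 :: sp9 :: sp10 :: sp11 :: sp12 ::
    sp13 :: sp14 :: sp15 :: sp16 :: sp17 :: sp18 :: sp19 :: sp20 :: sp21 :: sp22 :: sp23 :: sp24 ::
    sp25 :: sp26 :: sp27 :: sp28 :: sp29 :: sp30 :: sp31 :: sp32 :: sp33 :: sp34 :: sp35 :: sp36 ::
    sp37 :: sp38 :: sp39 :: sp40 :: sp41 :: sp42 :: sp43 :: sp44 :: sp45 :: sp46 :: sp47 :: sp48 ::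
    sp49 :: sp50 :: sp51 :: sp52 :: sp53 :: sp54 :: sp55 :: sp56 :: sp57 :: sp58 :: sp59 :: sp60 ::
    sp61 :: sp62 :: sp63 :: sp64 :: sp65 :: sp66 :: sp67 :: sp68 :: sp69 :: sp70 :: sp71 :: sp72 ::
    sp73 :: sp74 :: sp75 :: sp76 :: sp77 :: sp78 :: []

noncomputable def step (e : Nat → Nat) (C ap an : Nat) (k :
    Nat → Nat → Nat → Nat → Nat → Nat → Nat → Nat → Nat → Nat → Nat → Nat → Nat → Nat → Nat → Nat →
    Nat → Nat → Nat → Nat → Nat → Nat → Nat → Nat → Nat → Nat → Nat → Nat → Nat → Nat → Nat → Nat →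
    Nat → Nat → Nat → Nat → Nat → Nat → Nat → Nat → Nat → Nat → Nat → Nat → Nat → Nat → Nat → Nat →
    Nat → Nat → Nat → Nat → Nat → Nat → Nat → Nat → Nat → Nat → Nat → Nat → Nat → Nat → Nat → Nat →
    Nat → Nat → Nat → Nat → Nat → Nat → Nat → Nat → Nat → Nat → Nat → Nat → Nat → Nat → Nat → Nat →
    Nat → Nat → Nat → Nat → Nat → Nat → Nat → Nat → Nat → Nat → Nat → Nat → Nat → Nat → Nat → Nat →
    Nat → Nat → Nat → Nat → Nat → Nat → Nat → Nat → Nat → Nat → Nat → Nat → Nat → Nat → Nat → Nat →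
    Nat → Nat → Nat → Nat → Nat → Nat → Nat → Nat → Nat → Nat → Nat → Nat → Nat → Nat → Nat → Nat →
    Nat → Nat → Nat → Nat → Nat → Nat → Nat → Nat → Nat → Nat → Nat → Nat → Nat → Nat → Nat → Nat →
    Nat → Nat → Nat → Nat → Nat → Nat → Nat → Nat → Nat → Nat → Nat → Nat → Nat → Nat → Nat → Nat →
    Nat → Nat → Nat → Nat → Nat → Nat → Nat → Nat → Nat → Nat → Nat → Nat → Nat → Nat → Nat → Nat →
    Nat → Nat → Nat → Nat → Nat → Nat → Nat → Nat → Nat → Nat → Nat → Nat → Nat → Nat → Nat → Nat →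
    Nat → Nat → Nat → Nat → Nat → Nat → Nat → Nat → Nat → Nat → Nat → Nat → Nat → Nat → Nat → Nat →
    Nat → Nat → Nat → Nat → Nat → Nat → Nat → Nat → Nat → Nat → Nat → Nat → Nat → Nat → Nat → Nat →
    Nat → Nat → Nat → Nat → Nat → Nat → Nat → Nat → Nat → Nat → Nat → Nat → Nat → Nat → Nat → Nat →
    Nat → Nat → Nat → Nat → Nat → Nat → Nat → Nat → Nat → Nat → Nat → Nat → Nat → Nat → Nat → Nat →
    Nat → Nat → Nat → Nat → Nat → Nat → Nat → Nat → Nat → Nat → Nat → Nat → Nat → Nat → Nat → Nat →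
    Nat → Nat → Nat → Nat → Nat → Nat → Nat → Nat → Nat → Nat → Nat → Nat → Nat → Nat → Nat → Nat →
    Nat → Nat → Nat → Nat → Nat → Nat → Nat → Nat → Nat → Nat → Nat → Nat → Nat → Nat → Nat → Nat →
    Nat → Nat → Nat → Nat → Nat → Nat → Nat → Nat → Nat → Nat → Nat → Nat → Nat → Nat → Nat → Nat →
    Nat → Nat → Nat → Nat → Nat → Nat → Nat → Nat → Nat → Nat → Nat → Nat → Nat → Nat → Nat → Nat →
    Nat → Nat → Nat → Nat → Nat → Nat → Nat → Nat → Nat → Nat → Nat → Nat → Nat → Nat → Nat → Nat →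
    Nat → Nat → Nat → Nat → Nat → Nat → Nat → Nat → Nat → Nat → Nat → Nat → Nat → Nat → Nat → Nat →
    Nat → Nat → Nat → Nat → Nat → Nat → Nat → Nat → Nat → Nat → Nat → Nat → Nat → Nat → Nat → Nat →
    Nat → Nat → Nat → Nat → Nat → Nat → Nat → Nat → Nat → Nat → Nat → Nat → Nat → Nat → Nat → Nat →
    Nat → Nat → Nat → Nat → Nat → Nat → Nat → Nat → Nat → Nat → Nat → Nat → Nat → Nat → Nat → Nat →
    Nat → Nat → Nat → Nat → Nat → Nat → Nat → Nat → Nat → Nat → Nat → Nat → Nat → Nat → Nat → Nat →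
    Nat → Nat → Nat → Nat → Nat → Nat → Nat → Nat → Nat → Nat → Nat → Nat → Nat → Nat → Nat → Nat →
    Nat → Nat → Nat → Nat → Nat → Nat → Nat → Nat → Nat → Nat → Nat → Nat → Nat → Nat → Nat → Nat →
    Nat → Nat → Nat → Nat → Nat → Nat → Nat → Nat → Nat → Nat → Nat → Nat → Nat → Nat → Nat → Nat →
    Nat → Nat → Nat → Nat → Nat → Nat → Nat → Nat → Nat → Nat → Nat → Nat → Nat → Nat → Nat → Nat →
    Nat → Nat → Nat → Nat → Nat → Nat → Nat → Nat → Nat → Nat → Nat → Nat → Nat → Nat → Nat → Nat →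
    Nat → Nat → Nat → Nat → Nat → Nat → Nat → Nat → Nat → Nat → Nat → Nat → Nat → Nat → Nat → Nat →
    Nat → Nat → Nat → Nat → Nat → Nat → Nat → Nat → Nat → Nat → Nat → Nat → Nat → Nat → Nat → Nat →
    Nat → Nat → Nat → Nat → Nat → Nat → Nat → Nat → Nat → Nat → Nat → Nat → Nat → Nat → Nat → Nat →
    Nat → Nat → Nat → Nat → Nat → Nat → Nat → Nat → Nat → Nat → Nat → Nat → Nat → Nat → Nat → Nat →
    Nat → Nat → Nat → Nat → Nat → Nat → Nat → Nat → Nat → Nat → Nat → Nat → Nat → Nat → Nat → Nat →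
    Nat → Nat → Nat → Nat → Nat → Nat → Nat → Nat → Nat → Nat → Nat → Nat → Nat → Nat → Nat → Nat →
    Nat → Nat → Nat → Nat → Nat → Nat → Nat → Nat → Nat → Nat → Nat → Nat → Nat → Nat → Nat → Nat →
    Nat → Nat → Nat → Nat → Nat → Nat → Nat → Nat → Nat → Nat → Nat → Nat → Nat → Nat → Nat → Nat →
    Nat → Nat → Nat → Nat → Nat → Nat → Nat → Nat → Nat → Nat → Nat → Nat → Nat → Nat → Nat → Nat →
    Nat → Nat → Nat → Nat → Nat → Nat → Nat → Nat → Nat → Nat → Nat → Nat → Nat → Nat → Nat → Nat →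
    Nat → Nat → Nat → Nat → Nat → Nat → Nat → Nat → Nat → Nat → Nat → Nat → Nat → Nat → Nat → Nat →
    Nat → Nat → Nat → Nat → Nat → Nat → Nat → Nat → Nat → Nat → Nat → Nat → Nat → Nat → Nat → Nat →
    Nat → Nat → Nat → Nat → Nat → Nat → Nat → Nat → Nat → Nat → Nat → Nat → Nat → Nat → Nat → Nat →
    Nat → Nat → Nat → Nat → Nat → Nat → Nat → Nat → Nat → Nat → Nat → Nat → Nat → Nat → Nat → Nat →
    Nat → Nat → Nat → Nat → Nat → Nat → Nat → Nat → Nat → Nat → Nat → Nat → Nat → Nat → Nat → Nat →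
    Nat → Nat → Nat → Nat → Nat → Nat → Nat → Nat → Nat → Nat → Nat → Nat → Nat → Nat → Nat → Nat →
    Nat → Nat → Nat → Nat → Nat → Nat → Nat → Nat → Nat → Nat → Nat → Nat → Nat → Nat → Nat → Nat →
    Nat → Nat → Nat → Nat → Nat → Nat → Nat → Nat → Nat → Nat → Nat → Nat → Nat → Nat → Nat → Nat →
    Nat → Nat → Nat → Nat → Nat → Nat → Nat → Nat → Nat → Nat → Nat → Nat → Nat → Nat → Nat → Nat →
    Nat → Nat → Nat → Nat → Nat → Nat → Nat → Nat → Nat → Nat → Nat → Nat → Nat → Nat → Nat → Nat →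
    Nat → Nat → Nat → Nat → Nat → Nat → Nat → Nat → Nat → Nat → Nat → Nat → Nat → Nat → Nat → Nat →
    Nat → Nat → Nat → Nat → Nat → Nat → Nat → Nat → Nat → Nat → Nat → Nat → Nat → Nat → Nat → Nat →
    Nat → Nat → Nat → Nat → Nat → Nat → Nat → Nat → Nat → Nat → Nat → Nat → Nat → Nat → Nat → Nat →
    Nat → Nat → Nat → Nat → Nat → Nat → Nat → Nat → Nat → Nat → Nat → Nat → Nat → Nat → Nat → Nat →
    Nat → Nat → Nat → Nat → Nat → Nat → Nat → Nat → Nat → Nat → Nat → Nat → Nat → Nat → Nat → Nat →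
    Nat → Nat → Nat → Nat → Nat → Nat → Nat → Nat → Nat → Nat → Nat → Nat → Nat → Nat → Nat → Nat →
    Nat → Nat → Nat → Nat → Nat → Nat → Nat → Nat → Nat → Nat → Nat → Nat → Nat → Nat → Nat → Nat →
    Nat → Nat → Nat → Nat → Nat → Nat → Nat → Nat → Nat → Nat → Nat → Nat → Nat → Nat → Nat → Nat →
    Nat → Nat → Nat → Nat → Nat → Nat → Nat → Nat → Nat → Nat → Nat → Nat → Nat → Nat → Nat → Nat →
    Nat → Nat → Nat → Nat → Nat → Nat → Nat → Nat → Nat → Nat → Nat → Nat → Nat → Nat → Nat → Nat →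
    Nat → Nat → Nat → Nat → Nat → Nat → Nat → Nat → Nat → Nat → Nat → Nat → Nat → Nat → Nat → Nat →
    Nat → Nat → Nat → Nat → Nat → Nat → Nat → Nat → Nat → Nat → Nat → Nat → Nat → Nat → Nat → Nat →
    Nat → Nat → Nat → Nat → Nat → Nat → Nat → Nat → Nat → Nat → Nat → Nat → Nat → Nat → Nat → Nat →
    Nat → Nat → Nat → Nat → Nat → Nat → Nat → Nat → Nat → Nat → Nat → Nat → Nat → Nat → Nat → Nat →
    Nat → Nat → Nat → Nat → Nat → Nat → Nat → Nat → Nat → Nat → Nat → Nat → Nat → Nat → Nat → Nat →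
    Nat → Nat → Nat → Nat → Nat → Nat → Nat → Nat → Nat → Nat → Nat → Nat → Nat → Nat → Nat → Nat →
    Nat → Nat → Nat → Nat → Nat → Nat → Nat → Nat → Nat → Nat → Nat → Nat → Nat → Nat → Nat → Nat →
    Nat → Nat → Nat → Nat → Nat → Nat → Nat → Nat → Nat → Nat → Nat → Nat → Nat → Nat → Nat → Nat →
    Nat → Nat → Nat → Nat → Nat → Nat → Nat → Nat → Nat → Nat → Nat → Nat → Nat → Nat → Nat → Nat →
    Nat → Nat → Nat → Nat → Nat → Nat → Nat → Nat → Nat → Nat → Nat → Nat → Nat → Nat → Nat → Nat →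
    Nat → Nat → Nat → Nat → Nat → Nat → Nat → Nat → Nat → Nat → Nat → Nat → Nat → Nat → Nat → Nat →
    Nat → Nat → Nat → Nat → Nat → Nat → Nat → Nat → Nat → Nat → Nat → Nat → Nat → Nat → Nat → Nat →
    Nat → Nat → Nat → Nat → Nat → Nat → Nat → Nat → Nat → Nat → Nat → Nat → Nat → Nat → Nat → Nat →
    Nat → Nat → Nat → Nat → Nat → Nat → Nat → Nat → Nat → Nat → Nat → Nat → Nat → Nat → Nat → Nat →
    Nat → Nat → Nat → Nat → Nat → Nat → Nat → Nat → Nat → Nat → Nat → Nat → Nat → Nat → Nat → Nat →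
    Nat → Nat → Nat → Nat → Nat → Nat → Nat → Nat → Nat → Nat → Nat → Nat → Nat → Nat → Nat → Nat →
    Nat → Nat → Nat → Nat → Nat → Nat → Nat → Nat → Nat → Nat → Nat → Nat → Nat → Nat → Nat → Nat →
    Nat → Nat → Nat → Nat → Nat → Nat → Nat → Nat → Nat → Nat → Nat → Nat → Nat → Nat → Nat → Nat →
    Nat → Nat → Nat → Nat → Nat → Nat → Nat → Nat → Nat → Nat → Nat → Nat → Nat → Nat → Nat → Nat →
    Nat → Nat → Nat → Nat → Nat → Nat → Nat → Nat → Nat → Nat → Nat → Nat → Nat → Nat → Nat → Nat →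
    Nat → Nat → Nat → Nat → Nat → Nat → Nat → Nat → Nat → Nat → Nat → Nat → Nat → Nat → Nat → Nat →
    Nat → Nat → Nat → Nat → Nat → Nat → Nat → Nat → Nat → Nat → Nat → Nat → Nat → Nat → Nat → Nat →
    Nat → Nat → Nat → Nat → Nat → Nat → Nat → Nat → Nat → Nat → Nat → Nat → Nat → Nat → Nat → Nat →
    Nat → Nat → Nat → Nat → Nat → Nat → Nat → Nat → Nat → Nat → Nat → Nat → Nat → Nat → Nat → Nat →
    Nat → Nat → Nat → Nat → Nat → Nat → Nat → Nat → Nat → Nat → Nat → Nat → Nat → Nat → Nat → Nat →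
    Nat → Nat → Nat → Nat → Nat → Nat → Nat → Nat → Nat → Nat → Nat → Nat → Nat → Nat → Nat → Nat →
    Nat → Nat → Nat → Nat → Nat → Nat → Nat → Nat → Nat → Nat → Nat → Nat → Nat → Nat → Nat → Nat →
    Nat → Nat → Nat → Nat → Nat → Nat → Nat → Nat → Nat → Nat → Nat → Nat → Nat → Nat → Nat → Nat →
    Nat → Nat → Nat → Nat → Nat → Nat → Nat → Nat → Nat → Nat → Nat → Nat → Nat → Nat → Nat → Nat →
    Nat → Nat → Nat → Nat → Nat → Nat → Nat → Nat → Nat → Nat → Nat → Nat → Nat → Nat → Nat → Nat →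
    Nat → Nat → Nat → Nat → Nat → Nat → Nat → Nat → Nat → Nat → Nat → Nat → Nat → Nat → Nat → Nat →
    Nat → Nat → Nat → Nat → Nat → Nat → Nat → Nat → Nat → Nat → Nat → Nat → Nat → Nat → Nat → Nat →
    Nat → Nat → Nat → Nat → Nat → Nat → Nat → Nat → Nat → Nat → Nat → Nat → Nat → Nat → Nat → Nat →
    Nat → Nat → Nat → Nat → Nat → Nat → Nat → Nat → Nat → Nat → Nat → Nat → Nat → Nat → Nat → Nat →
    Nat → Nat → Nat → Nat → Nat → Nat → Nat → Nat → Nat → Nat → Nat → Nat → Nat → Nat → Nat → Nat →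
    Nat → Nat → Nat → Nat → Nat → Nat → Nat → Nat → Nat → Nat → Nat → Nat → Nat → Nat → Nat → Nat →
    Nat → Nat → Nat → Nat → Nat → Nat → Nat → Nat → Nat → Nat → Nat → Nat → Nat → Nat → Nat → Nat →
    Nat → Nat → Nat → Nat → Nat → Nat → Nat → Nat → Nat → Nat → Nat → Nat → Nat → Nat → Nat → Nat →
    Nat → Nat → Nat → Nat → Nat → Nat → Nat → Nat → Nat → Nat → Nat → Nat → Nat → Nat → Nat → Nat →
    Nat → Nat → Nat → Nat → Nat → Nat → Nat → Nat → Nat → Nat → Nat → Nat → Nat → Nat → Nat → Nat →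
    Nat → Nat → Nat → Nat → Nat → Nat → Nat → Nat → Nat → Nat → Nat → Nat → Nat → Nat → Nat → Nat →
    Nat → Nat → Nat → Nat → Nat → Nat → Nat → Nat → Nat → Nat → Nat → Nat → Nat → Nat → Nat → Nat →
    Nat → Nat → Nat → Nat → Nat → Nat → Nat → Nat → Nat → Nat → Nat → Nat → Nat → Nat → Nat → Nat →
    Nat → Nat → Nat → Nat → Nat → Nat → Nat → Nat → Nat → Nat → Nat → Nat → Nat → Nat → Nat → Nat →
    Nat → Nat → Nat → Nat → Nat → Nat → Nat → Nat → Nat → Nat → Nat → Nat → Nat → Nat → Nat → Nat →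
    Nat → Nat → Nat → Nat → Nat → Nat → Nat → Nat → Nat → Nat → Nat → Nat → Nat → Nat → Nat → Nat →
    Nat → Nat → Nat → Nat → Nat → Nat → Nat → Nat → Nat → Nat → Nat → Nat → Nat → Nat → Nat → Nat →
    Nat → Nat → Nat → Nat → Nat → Nat → Nat → Nat → Nat → Nat → Nat → Nat → Nat → Nat → Nat → Nat →
    Nat → Nat → Nat → Nat → Nat → Nat → Nat → Nat → Nat → Nat → Nat → Nat → Nat → Nat → Nat → Nat →
    Nat → Nat → Nat → Nat → Nat → Nat → Nat → Nat → Nat → Nat → Nat → Nat → Nat → Nat → Nat → Nat →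
    Nat → Nat → Nat → Nat → Nat → Nat → Nat → Nat → Nat → Nat → Nat → Nat → Nat → Nat → Nat → Nat →
    Nat → Nat → Nat → Nat → Nat → Nat → Nat → Nat → Nat → Nat → Nat → Nat → Nat → Nat → Nat → Nat →
    Nat → Nat → Nat → Nat → Nat → Nat → Nat → Nat → Nat → Nat → Nat → Nat → Nat → Nat → Nat → Nat →
    Nat → Nat → Nat → Nat → Nat → Nat → Nat → Nat → Nat → Nat → Nat → Nat → Nat → Nat → Nat → Nat →
    Nat → Nat → Nat → Nat → Nat → Nat → Nat → Nat → Nat → Nat → Nat → Nat → Nat → Nat → Nat → Nat →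
    Nat → Nat → Nat → Nat → Nat → Nat → Nat → Nat → Nat → Nat → Nat → Nat → Nat → Nat → Nat → Nat →
    Nat → Nat → Nat → Nat → Nat → Nat → Nat → Nat → Nat → Nat → Nat → Nat → Nat → Nat → Nat → Nat →
    Nat → Nat → Nat → Nat → Nat → Nat → Nat → Nat → Nat → Nat → Nat → Nat → Nat → Nat → Nat → Nat →
    Nat → Nat → Nat → Nat → Nat → Nat → Nat → Nat → Nat → Nat → Nat → Nat → Nat → Nat → Nat → Nat →
    Nat → Nat → Nat → Nat → Nat → Nat → Nat → Nat → Nat → Nat → Nat → Nat → Nat → Nat → Nat → Nat →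
    Nat → Nat → Nat → Nat → Nat → Nat → Nat → Nat → Nat → Nat → Nat → Nat → Nat → Nat → Nat → Nat →
    Nat → Nat → Nat → Nat → Nat → Nat → Nat → Nat → Nat → Nat → Nat → Nat → Nat → Nat → Nat → Nat →
    Nat → Nat → Nat → Nat → Nat → Nat → Nat → Nat → Nat → Nat → Nat → Nat → Nat → Nat → Nat → Nat →
    Nat → Nat → Nat → Nat → Nat → Nat → Nat → Nat → Nat → Nat → Nat → Nat → Nat → Nat → Nat → Nat →
    Nat → Nat → Nat → Nat → Nat → Nat → Nat → Nat → Nat → Nat → Nat → Nat → Nat → Nat → Nat → Nat →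
    Nat → Nat → Nat → Nat → Nat → Nat → Nat → Nat → Nat → Nat → Nat → Nat → Nat → Nat → Nat → Nat →
    Nat → Nat → Nat → Nat → Nat → Nat → Nat → Nat → Nat → Nat → Nat → Nat → Nat → Nat → Nat → Nat →
    Nat → Nat → Nat → Nat → Nat → Nat → Nat → Nat → Nat → Nat → Nat → Nat → Nat → Nat → Nat → Nat →
    Nat → Nat → Nat → Nat → Nat → Nat → Nat → Nat → Nat → Nat → Nat → Nat → Nat → Nat → Nat → Nat →
    Nat → Nat → Nat → Nat → Nat → Nat → Nat → Nat → Nat → Nat → Nat → Nat → Nat → Nat → Nat → Nat →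
    Nat → Nat → Nat → Nat → Nat → Nat → Nat → Nat → Nat → Nat → Nat → Nat → Nat → Nat → Nat → Nat →
    Nat → Nat → Nat → Nat → Nat → Nat → Nat → Nat → Nat → Nat → Nat → Nat → Nat → Nat → Nat → Nat →
    Nat → Nat → Nat → Nat → Nat → Nat → Nat → Nat → Nat → Nat → Nat → Nat → Nat → Nat → Nat → Nat →
    Nat → Nat → Nat → Nat → Nat → Nat → Nat → Nat → Nat → Nat → Nat → Nat → Nat → Nat → Nat → Nat →
    Nat → Nat → Nat → Nat → Nat → Nat → Nat → Nat → Nat → Nat → Nat → Nat → Nat → Nat → Nat → Nat →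
    Nat → Nat → Nat → Nat → Nat → Nat → Nat → Nat → Nat → Nat → Nat → Nat → Nat → Nat → Nat → Nat →
    Nat → Nat → Nat → Nat → Nat → Nat → Nat → Nat → Nat → Nat → Nat → Nat → Nat → Nat → Nat → Nat →
    Nat → Nat → Nat → Nat → Nat → Nat → Nat → Nat → Nat → Nat → Nat → Nat → Nat → Nat → Nat → Nat →
    Nat → Nat → Nat → Nat → Nat → Nat → Nat → Nat → Nat → Nat → Nat → Nat → Nat → Nat → Nat → Nat →
    Nat → Nat → Nat → Nat → Nat → Nat → Nat → Nat → Nat → Nat → Nat → Nat → Nat → Nat → Nat → Nat →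
    Nat → Nat → Nat → Nat → Nat → Nat → Nat → Nat → Nat → Nat → Nat → Nat → Nat → Nat → Nat → Nat →
    Nat → Nat → Nat → Nat → Nat → Nat → Nat → Nat → Nat → Nat → Nat → Nat → Nat → Nat → Nat → Nat →
    Nat → Nat → Nat → Nat → Nat → Nat → Nat → Nat → Nat → Nat → Nat → Nat → Nat → Nat → Nat → Nat →
    Nat → Nat → Nat → Nat → Nat → Nat → Nat → Nat → Nat → Nat → Nat → Nat → Nat → Nat → Nat → Nat →
    Nat → Nat → Nat → Nat → Nat → Nat → Nat → Nat → Nat → Nat → Nat → Nat → Nat → Nat → Nat → Nat →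
    Nat → Nat → Nat → Nat → Nat → Nat → Nat → Nat → Nat → Nat → Nat → Nat → Nat → Nat → Nat → Nat →
    Nat → Nat → Nat → Nat → Nat → Nat → Nat → Nat → Nat → Nat → Nat → Nat → Nat → Nat → Nat → Nat →
    Nat → Nat → Nat → Nat → Nat → Nat → Nat → Nat → Nat → Nat → Nat → Nat → Nat → Nat → Nat → Nat →
    Nat → Nat → Nat → Nat → Nat → Nat → Nat → Nat → Nat → Nat → Nat → Nat → Nat → Nat → Nat → Nat →
    Nat → Nat → Nat → Nat → Nat → Nat → Nat → Nat → Nat → Nat → Nat → Nat → Nat → Nat → Nat → Nat →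
    Nat → Nat → Nat → Nat → Nat → Nat → Nat → Nat → Nat → Nat → Nat → Nat → Nat → Nat → Nat → Nat →
    Nat → Nat → Nat → Nat → Nat → Nat → Nat → Nat → Nat → Nat → Nat → Nat → Nat → Nat → Nat → Nat →
    Nat → Nat → Nat → Nat → Nat → Nat → Nat → Nat → Nat → Nat → Nat → Nat → Nat → Nat → Nat → Nat →
    Nat → Nat → Nat → Nat → Nat → Nat → Nat → Nat → Nat → Nat → Nat → Nat → Nat → Nat → Nat → Nat →
    Nat → Nat → Nat → Nat → Nat → Nat → Nat → Nat → Nat → Nat → Nat → Nat → Nat → Nat → Nat → Nat →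
    Nat → Nat → Nat → Nat → Nat → Nat → Nat → Nat → Nat → Nat → Nat → Nat → Nat → Nat → Nat → Nat →
    Nat → Nat → Nat → Nat → Nat → Nat → Nat → Nat → Nat → Nat → Nat → Nat → Nat → Nat → Nat → Nat →
    Nat → Nat → Nat → Nat → Nat → Nat → Nat → Nat → Nat → Nat → Nat → Nat → Nat → Nat → Nat → Nat →
    Nat → Nat → Nat → Nat → Nat → Nat → Nat → Nat → Nat → Nat → Nat → Nat → Nat → Nat → Nat → Nat →
    Nat → Nat → Nat → Nat → Nat → Nat → Nat → Nat → Nat → Nat → Nat → Nat → Nat → Nat → Nat → Nat →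
    Nat → Nat → Nat → Nat → Nat → Nat → Nat → Nat → Nat → Nat → Nat → Nat → Nat → Nat → Nat → Nat →
    Nat → Nat → Nat → Nat → Nat → Nat → Nat → Nat → Nat → Nat → Nat → Nat → Nat → Nat → Nat → Nat →
    Nat → Nat → Nat → Nat → Nat → Nat → Nat → Nat → Nat → Nat → Nat → Nat → Nat → Nat → Nat → Nat →
    Nat → Nat → Nat → Nat → Nat → Nat → Nat → Nat → Nat → Nat → Nat → Nat → Nat → Nat → Nat → Nat →
    Nat → Nat → Nat → Nat → Nat → Nat → Nat → Nat → Nat → Nat → Nat → Nat → Nat → Nat → Nat → Nat →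
    Nat → Nat → Nat → Nat → Nat → Nat → Nat → Nat → Nat → Nat → Nat → Nat → Nat → Nat → Nat → Nat →
    Nat → Nat → Nat → Nat → Nat → Nat → Nat → Nat → Nat → Nat → Nat → Nat → Nat → Nat → Nat → Nat →
    Nat → Nat → Nat → Nat → Nat → Nat → Nat → Nat → Nat → Nat → Nat → Nat → Nat → Nat → Nat → Nat →
    Nat → Nat → Nat → Nat → Nat → Nat → Nat → Nat → Nat → Nat → Nat → Nat → Nat → Nat → Nat → Nat →
    Nat → Nat → Nat → Nat → Nat → Nat → Nat → Nat → Nat → Nat → Nat → Nat → Nat → Nat → Nat → Nat →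
    Nat → Nat → Nat → Nat → Nat → Nat → Nat → Nat → Nat → Nat → Nat → Nat → Nat → Nat → Nat → Nat →
    Nat → Nat → Nat → Nat → Nat → Nat → Nat → Nat → Nat → Nat → Nat → Nat → Nat → Nat → Nat → Nat →
    Nat → Nat → Nat → Nat → Nat → Nat → Nat → Nat → Nat → Nat → Nat → Nat → Nat → Nat → Nat → Nat →
    Nat → Nat → Nat → Nat → Nat → Nat → Nat → Nat → Nat → Nat → Nat → Nat → Nat → Nat → Nat → Nat →
    Nat → Nat → Nat → Nat → Nat → Nat → Nat → Nat → Nat → Nat → Nat → Nat → Nat → Nat → Nat → Nat →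
    Nat → Nat → Nat → Nat → Nat → Nat → Nat → Nat → Nat → Nat → Nat → Nat → Nat → Nat → Nat → Nat →
    Nat → Nat → Nat → Nat → Nat → Nat → Nat → Nat → Nat → Nat → Nat → Nat → Nat → Nat → Nat → Nat →
    Nat → Nat → Nat → Nat → Nat → Nat → Nat → Nat → Nat → Nat → Nat → Nat → Nat → Nat → Nat → Nat →
    Nat → Nat → Nat → Nat → Nat → Nat → Nat → Nat → Nat → Nat → Nat → Nat → Nat → Nat → Nat → Nat →
    Nat → Nat → Nat → Nat → Nat → Nat → Nat → Nat → Nat → Nat → Nat → Nat → Nat → Nat → Nat → Nat →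
    Nat → Nat → Nat → Nat → Nat → Nat → Nat → Nat → Nat → Nat → Nat → Nat → Nat → Nat → Nat → Nat →
    Nat → Nat → Nat → Nat → Nat → Nat → Nat → Nat → Nat → Nat → Nat → Nat → Nat → Nat → Nat → Nat →
    Nat → Nat → Nat → Nat → Nat → Nat → Nat → Nat → Nat → Nat → Nat → Nat → Nat → Nat → Nat → Nat →
    Nat → Nat → Nat → Nat → Nat → Nat → Nat → Nat → Nat → Nat → Nat → Nat → Nat → Nat → Nat → Nat →
    Nat → Nat → Nat → Nat → Nat → Nat → Nat → Nat → Nat → Nat → Nat → Nat → Nat → Nat → Nat → Nat →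
    Nat → Nat → Nat → Nat → Nat → Nat → Nat → Nat → Nat → Nat → Nat → Nat → Nat → Nat → Nat → Nat →
    Nat → Nat → Nat → Nat → Nat → Nat → Nat → Nat → Nat → Nat → Nat → Nat → Nat → Nat → Nat → Nat →
    Nat → Nat → Nat → Nat → Nat → Nat → Nat → Nat → Nat → Nat → Nat → Nat → Nat → Nat → Nat → Nat →
    Nat → Nat → Nat → Nat → Nat → Nat → Nat → Nat → Nat → Nat → Nat → Nat → Nat → Nat → Nat → Nat →
    Nat → Nat → Nat → Nat → Nat → Nat → Nat → Nat → Nat → Nat → Nat → Nat → Nat → Nat → Nat → Nat →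
    Nat → Nat → Nat → Nat → Nat → Nat → Nat → Nat → Nat → Nat → Nat → Nat → Nat → Nat → Nat → Nat →
    Nat → Nat → Nat → Nat → Nat → Nat → Nat → Nat → Nat → Nat → Nat → Nat → Nat → Nat → Nat → Nat →
    Nat → Nat → Nat → Nat → Nat → Nat → Nat → Nat → Nat → Nat → Nat → Nat → Nat → Nat → Nat → Nat →
    Nat → Nat → Nat → Nat → Nat → Nat → Nat → Nat → Nat → Nat → Nat → Nat → Nat → Nat → Nat → Nat →
    Nat → Nat → Nat → Nat → Nat → Nat → Nat → Nat → Nat → Nat → Nat → Nat → Nat → Nat → Nat → Nat →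
    Nat → Nat → Nat → Nat → Nat → Nat → Nat → Nat → Nat → Nat → Nat → Nat → Nat → Nat → Nat → Nat →
    Nat → Nat → Nat → Nat → Nat → Nat → Nat → Nat → Nat → Nat → Nat → Nat → Nat → Nat → Nat → Nat →
    Nat → Nat → Nat → Nat → Nat → Nat → Nat → Nat → Nat → Nat → Nat → Nat → Nat → Nat → Nat → Nat →
    Nat → Nat → Nat → Nat → Nat → Nat → Nat → Nat → Nat → Nat → Nat → Nat → Nat → Nat → Nat → Nat →
    Nat → Nat → Nat → Nat → Nat → Nat → Nat → Nat → Nat → Nat → Nat → Nat → Nat → Nat → Nat → Nat →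
    Nat → Nat → Nat → Nat → Nat → Nat → Nat → Nat → Nat → Nat → Nat → Nat → Nat → Nat → Nat → Nat →
    Nat → Nat → Nat → Nat → Nat → Nat → Nat → Nat → Nat → Nat → Nat → Nat → Nat → Nat → Nat → Nat →
    Nat → Nat → Nat → Nat → Nat → Nat → Nat → Nat → Nat → Nat → Nat → Nat → Nat → Nat → Nat → Nat →
    Nat → Nat → Nat → Nat → Nat → Nat → Nat → Nat → Nat → Nat → Nat → Nat → Nat → Nat → Nat → Nat →
    Nat → Nat → Nat → Nat → Nat → Nat → Nat → Nat → Nat → Nat → Nat → Nat → Nat → Nat → Nat → Nat →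
    Nat → Nat → Nat → Nat → Nat → Nat → Nat → Nat → Nat → Nat → Nat → Nat → Nat → Nat → Nat → Nat →
    Nat → Nat → Nat → Nat → Nat → Nat → Nat → Nat → Nat → Nat → Nat → Nat → Nat → Nat → Nat → Nat →
    Nat → Nat → Nat → Nat → Nat → Nat → Nat → Nat → Nat → Nat → Nat → Nat → Nat → Nat → Nat → Nat →
    Nat → Nat → Nat → Nat → Nat → Nat → Nat → Nat → Nat → Nat → Nat → Nat → Nat → Nat → Nat → Nat →
    Nat → Nat → Nat → Nat → Nat → Nat → Nat → Nat → Nat → Nat → Nat → Nat → Nat → Nat → Nat → Nat →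
    Nat → Nat → Nat → Nat → Nat → Nat → Nat → Nat → Nat → Nat → Nat → Nat → Nat → Nat → Nat → Nat →
    Nat → Nat → Nat → Nat → Nat → Nat → Nat → Nat → Nat → Nat → Nat → Nat → Nat → Nat → Nat → Nat →
    Nat → Nat → Nat → Nat → Nat → Nat → Nat → Nat → Nat → Nat → Nat → Nat → Nat → Nat → Nat → Nat →
    Nat → Nat → Nat → Nat → Nat → Nat → Nat → Nat → Nat → Nat → Nat → Nat → Nat → Nat → Nat → Nat →
    Nat → Nat → Nat → Nat → Nat → Nat → Nat → Nat → Nat → Nat → Nat → Nat → Nat → Nat → Nat → Nat →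
    Nat → Nat → Nat → Nat → Nat → Nat → Nat → Nat → Nat → Nat → Nat → Nat → Nat → Nat → Nat → Nat →
    Nat → Nat → Nat → Nat → Nat → Nat → Nat → Nat → Nat → Nat → Nat → Nat → Nat → Nat → Nat → Nat →
    Nat → Nat → Nat → Nat → Nat → Nat → Nat → Nat → Nat → Nat → Nat → Nat → Nat → Nat → Nat → Nat →
    Nat → Nat → Nat → Nat → Nat → Nat → Nat → Nat → Nat → Nat → Nat → Nat → Nat → Nat → Nat → Nat →
    Nat → Nat → Nat → Nat → Nat → Nat → Nat → Nat → Nat → Nat → Nat → Nat → Nat → Nat → Nat → Nat →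
    Nat → Nat → Nat → Nat → Nat → Nat → Nat → Nat → Nat → Nat → Nat → Nat → Nat → Nat → Nat → Nat →
    Nat → Nat → Nat → Nat → Nat → Nat → Nat → Nat → Nat → Nat → Nat → Nat → Nat → Nat → Nat → Nat →
    Nat → Nat → Nat → Nat → Nat → Nat → Nat → Nat → Nat → Nat → Nat → Nat → Nat → Nat → Nat → Nat →
    Nat → Nat → Nat → Nat → Nat → Nat → Nat → Nat → Nat → Nat → Nat → Nat → Nat → Nat → Nat → Nat →
    Nat → Nat → Nat → Nat → Nat → Nat → Nat → Nat → Nat → Nat → Nat → Nat → Nat → Nat → Nat → Nat →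
    Nat → Nat → Nat → Nat → Nat → Nat → Nat → Nat → Nat → Nat → Nat → Nat → Nat → Nat → Nat → Nat →
    Nat → Nat → Nat → Nat → Nat → Nat → Nat → Nat → Nat → Nat → Nat → Nat → Nat → Nat → Nat → Nat →
    Nat → Nat → Nat → Nat → Nat → Nat → Nat → Nat → Nat → Nat → Nat → Nat → Nat → Nat → Nat → Nat →
    Nat → Nat → Nat → Nat → Nat → Nat → Nat → Nat → Nat → Nat → Nat → Nat → Nat → Nat → Nat → Nat →
    Nat → Nat → Nat → Nat → Nat → Nat → Nat → Nat → Nat → Nat → Nat → Nat → Nat → Nat → Nat → Nat →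
    Nat → Nat → Nat → Nat → Nat → Nat → Nat → Nat → Nat → Nat → Nat → Nat → Nat → Nat → Nat → Nat →
    Nat → Nat → Nat → Nat → Nat → Nat → Nat → Nat → Nat → Nat → Nat → Nat → Nat → Nat → Nat → Nat →
    Nat → Nat → Nat → Nat → Nat → Nat → Nat → Nat → Nat → Nat → Nat → Nat → Nat → Nat → Nat → Nat →
    Nat → Nat → Nat → Nat → Nat → Nat → Nat → Nat → Nat → Nat → Nat → Nat → Nat → Nat → Nat → Nat →
    Nat → Nat → Nat → Nat → Nat → Nat → Nat → Nat → Nat → Nat → Nat → Nat → Nat → Nat → Nat → Nat →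
    Nat → Nat → Nat → Nat → Nat → Nat → Nat → Nat → Nat → Nat → Nat → Nat → Nat → Nat → Nat → Nat →
    Nat → Nat → Nat → Nat → Nat → Nat → Nat → Nat → Nat → Nat → Nat → Nat → Nat → Nat → Nat → Nat →
    Nat → Nat → Nat → Nat → Nat → Nat → Nat → Nat → Nat → Nat → Nat → Nat → Nat → Nat → Nat → Nat →
    Nat → Nat → Nat → Nat → Nat → Nat → Nat → Nat → Nat → Nat → Nat → Nat → Nat → Nat → Nat → Nat →
    Nat → Nat → Nat → Nat → Nat → Nat → Nat → Nat → Nat → Nat → Nat → Nat → Nat → Nat → Nat → Nat →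
    Nat → Nat → Nat → Nat → Nat → Nat → Nat → Nat → Nat → Nat → Nat → Nat → Nat → Nat → Nat → Nat →
    Nat → Nat → Nat → Nat → Nat → Nat → Nat → Nat → Nat → Nat → Nat → Nat → Nat → Nat → Nat → Nat →
    Nat → Nat → Nat → Nat → Nat → Nat → Nat → Nat → Nat → Nat → Nat → Nat → Nat → Nat → Nat → Nat →
    Nat → Nat → Nat → Nat → Nat → Nat → Nat → Nat → Nat → Nat → Nat → Nat → Nat → Nat → Nat → Nat →
    Nat → Nat → Nat → Nat → Nat → Nat → Nat → Nat → Nat → Nat → Nat → Nat → Nat → Nat → Nat → Nat →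
    Nat → Nat → Nat → Nat → Nat → Nat → Nat → Nat → Nat → Nat → Nat → Nat → Nat → Nat → Nat → Nat →
    Nat → Nat → Nat → Nat → Nat → Nat → Nat → Nat → Nat → Nat → Nat → Nat → Nat → Nat → Nat → Nat →
    Nat → Nat → Nat → Nat → Nat → Nat → Nat → Nat → Nat → Nat → Nat → Nat → Nat → Nat → Nat → Nat →
    Nat → Nat → Nat → Nat → Nat → Nat → Nat → Nat → Nat → Nat → Nat → Nat → Nat → Nat → Nat → Nat →
    Nat → Nat → Nat → Nat → Nat → Nat → Nat → Nat → Nat → Nat → Nat → Nat → Nat → Nat → Nat → Nat →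
    Nat → Nat → Nat → Nat → Nat → Nat → Nat → Nat → Nat → Nat → Nat → Nat → Nat → Nat → Nat → Nat →
    Nat → Nat → Nat → Nat → Nat → Nat → Nat → Nat → Nat → Nat → Nat → Nat → Nat → Nat → Nat → Nat →
    Nat → Nat → Nat → Nat → Nat → Nat → Nat → Nat → Nat → Nat → Nat → Nat → Nat → Nat → Nat → Nat →
    Nat → Nat → Nat → Nat → Nat → Nat → Nat → Nat → Nat → Nat → Nat → Nat → Nat → Nat → Nat → Nat →
    Nat → Nat → Nat → Nat → Nat → Nat → Nat → Nat → Nat → Nat → Nat → Nat → Nat → Nat → Nat → Nat →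
    Nat → Nat → Nat → Nat → Nat → Nat → Nat → Nat → Nat → Nat → Nat → Nat → Nat → Nat → Nat → Nat →
    Nat → Nat → Nat → Nat → Nat → Nat → Nat → Nat → Nat → Nat → Nat → Nat → Nat → Nat → Nat → Nat →
    Nat → Nat → Nat → Nat → Nat → Nat → Nat → Nat → Nat → Nat → Nat → Nat → Nat → Nat → Nat → Nat →
    Nat → Nat → Nat → Nat → Nat → Nat → Nat → Nat → Nat → Nat → Nat → Nat → Nat → Nat → Nat → Nat →
    Nat → Nat → Nat → Nat → Nat → Nat → Nat → Nat → Nat → Nat → Nat → Nat → Nat → Nat → Nat → Nat →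
    Nat → Nat → Nat → Nat → Nat → Nat → Nat → Nat → Nat → Nat → Nat → Nat → Nat → Nat → Nat → Nat →
    Nat → Nat → Nat → Nat → Nat → Nat → Nat → Nat → Nat → Nat → Nat → Nat → Nat → Nat → Nat → Nat →
    Nat → Nat → Nat → Nat → Nat → Nat → Nat → Nat → Nat → Nat → Nat → Nat → Nat → Nat → Nat → Nat →
    Nat → Nat → Nat → Nat → Nat → Nat → Nat → Nat → Nat → Nat → Nat → Nat → Nat → Nat → Nat → Nat →
    Nat → Nat → Nat → Nat → Nat → Nat → Nat → Nat → Nat → Nat → Nat → Nat → Nat → Nat → Nat → Nat →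
    Nat → Nat → Nat → Nat → Nat → Nat → Nat → Nat → Nat → Nat → Nat → Nat → Nat → Nat → Nat → Nat →
    Nat → Nat → Nat → Nat → Nat → Nat → Nat → Nat → Nat → Nat → Nat → Nat → Nat → Nat → Nat → Nat →
    Nat → Nat → Nat → Nat → Nat → Nat → Nat → Nat → Nat → Nat → Nat → Nat → Nat → Nat → Nat → Nat →
    Nat → Nat → Nat → Nat → Nat → Nat → Nat → Nat → Nat → Nat → Nat → Nat → Nat → Nat → Nat → Nat →
    Nat → Nat → Nat → Nat → Nat → Nat → Nat → Nat → Nat → Nat → Nat → Nat → Nat → Nat → Nat → Nat →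
    Nat → Nat → Nat → Nat → Nat → Nat → Nat → Nat → Nat → Nat → Nat → Nat → Nat → Nat → Nat → Nat →
    Nat → Nat → Nat → Nat → Nat → Nat → Nat → Nat → Nat → Nat → Nat → Nat → Nat → Nat → Nat → Nat →
    Nat → Nat → Nat → Nat → Nat → Nat → Nat → Nat → Nat → Nat → Nat → Nat → Nat → Nat → Nat → Nat →
    Nat → Nat → Nat → Nat → Nat → Nat → Nat → Nat → Nat → Nat → Nat → Nat → Nat → Nat → Nat → Nat →
    Nat → Nat → Nat → Nat → Nat → Nat → Nat → Nat → Nat → Nat → Nat → Nat → Nat → Nat → Nat → Nat →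
    Nat → Nat → Nat → Nat → Nat → Nat → Nat → Nat → Nat → Nat → Nat → Nat → Nat → Nat → Nat → Nat →
    Nat → Nat → Nat → Nat → Nat → Nat → Nat → Nat → Nat → Nat → Nat → Nat → Nat → Nat → Nat → Nat →
    Nat → Nat → Nat → Nat → Nat → Nat → Nat → Nat → Nat → Nat → Nat → Nat → Nat → Nat → Nat → Nat →
    Nat → Nat → Nat → Nat → Nat → Nat → Nat → Nat → Nat → Nat → Nat → Nat → Nat → Nat → Nat → Nat →
    Nat → Nat → Nat → Nat → Nat → Nat → Nat → Nat → Nat → Nat → Nat → Nat → Nat → Nat → Nat → Nat →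
    Nat → Nat → Nat → Nat → Nat → Nat → Nat → Nat → Nat → Nat → Nat → Nat → Nat → Nat → Nat → Nat →
    Nat → Nat → Nat → Nat → Nat → Nat → Nat → Nat → Nat → Nat → Nat → Nat → Nat → Nat → Nat → Nat →
    Nat → Nat → Nat → Nat → Nat → Nat → Nat → Nat → Nat → Nat → Nat → Nat → Nat → Nat → Nat → Nat →
    Nat → Nat → Nat → Nat → Nat → Nat → Nat → Nat → Nat → Nat → Nat → Nat → Nat → Nat → Nat → Nat →
    Nat → Nat → Nat → Nat → Nat → Nat → Nat → Nat → Nat → Nat → Nat → Nat → Nat → Nat → Nat → Nat →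
    Nat → Nat → Nat → Nat → Nat → Nat → Nat → Nat → Nat → Nat → Nat → Nat → Nat → Nat → Nat → Nat →
    Nat → Nat → Nat → Nat → Nat → Nat → Nat → Nat → Nat → Nat → Nat → Nat → Nat → Nat → Nat → Nat →
    Nat → Nat → Nat → Nat → Nat → Nat → Nat → Nat → Nat → Nat → Nat → Nat → Nat → Nat → Nat → Nat →
    Nat → Nat → Nat → Nat → Nat → Nat → Nat → Nat → Nat → Nat → Nat → Nat → Nat → Nat → Nat → Nat →
    Nat → Nat → Nat → Nat → Nat → Nat → Nat → Nat → Nat → Nat → Nat → Nat → Nat → Nat → Nat → Nat →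
    Nat → Nat → Nat → Nat → Nat → Nat → Nat → Nat → Nat → Nat → Nat → Nat → Nat → Nat → Nat → Nat →
    Nat → Nat → Nat → Nat → Nat → Nat → Nat → Nat → Nat → Nat → Nat → Nat → Nat → Nat → Nat → Nat →
    Nat → Nat → Nat → Nat → Nat → Nat → Nat → Nat → Nat → Nat → Nat → Nat → Nat → Nat → Nat → Nat →
    Nat → Nat → Nat → Nat → Nat → Nat → Nat → Nat → Nat → Nat → Nat → Nat → Nat → Nat → Nat → Nat →
    Nat → Nat → Nat → Nat → Bool)
  (
    x53 x71 x77 x79 x107 x125 x131 x133 x143 x149 x151 x155 x157 x159 x179 x185 x187 x197 x203 x205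
    x209 x211 x213 x221 x223 x227 x229 x231 x235 x237 x269 x287 x293 x295 x305 x311 x313 x317 x319
    x321 x341 x347 x349 x359 x365 x367 x371 x373 x375 x383 x385 x389 x391 x393 x397 x399 x413 x419
    x421 x425 x427 x429 x437 x439 x443 x445 x447 x451 x453 x461 x463 x465 x469 x471 x477 x503 x509
    x511 x521 x527 x529 x533 x535 x537 x545 x547 x551 x553 x555 x559 x561 x575 x581 x583 x587 x589
    x591 x599 x601 x605 x607 x609 x613 x615 x623 x625 x627 x631 x633 x639 x653 x655 x659 x661 x663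
    x667 x669 x677 x679 x681 x685 x687 x693 x703 x705 x711 x755 x773 x779 x781 x791 x797 x799 x803
    x805 x807 x827 x833 x835 x845 x851 x853 x857 x859 x861 x869 x871 x875 x877 x879 x883 x885 x899
    x905 x907 x911 x913 x915 x923 x925 x929 x931 x933 x937 x939 x947 x949 x951 x955 x957 x963 x989
    x995 x997 x1007 x1013 x1015 x1019 x1021 x1023 x1031 x1033 x1037 x1039 x1041 x1045 x1047 x1061
    x1067 x1069 x1073 x1075 x1077 x1085 x1087 x1091 x1093 x1095 x1099 x1101 x1109 x1111 x1113 x1117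
    x1119 x1125 x1139 x1141 x1145 x1147 x1149 x1153 x1155 x1163 x1165 x1167 x1171 x1173 x1179 x1189
    x1191 x1197 x1223 x1229 x1231 x1235 x1237 x1239 x1247 x1249 x1253 x1255 x1257 x1261 x1263 x1271
    x1273 x1275 x1279 x1281 x1287 x1301 x1303 x1307 x1309 x1311 x1315 x1317 x1325 x1327 x1329 x1333
    x1335 x1341 x1351 x1353 x1359 x1379 x1381 x1383 x1387 x1389 x1395 x1405 x1407 x1413 x1431 x1475
    x1481 x1483 x1493 x1499 x1501 x1505 x1507 x1509 x1517 x1519 x1523 x1525 x1527 x1531 x1533 x1547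
    x1553 x1555 x1559 x1561 x1563 x1571 x1573 x1577 x1579 x1581 x1585 x1587 x1595 x1597 x1599 x1603
    x1605 x1611 x1625 x1627 x1631 x1633 x1635 x1639 x1641 x1649 x1651 x1653 x1657 x1659 x1665 x1675
    x1677 x1683 x1709 x1715 x1717 x1721 x1723 x1725 x1733 x1735 x1739 x1741 x1743 x1747 x1749 x1757
    x1759 x1761 x1765 x1767 x1773 x1787 x1789 x1793 x1795 x1797 x1801 x1803 x1811 x1813 x1815 x1819
    x1821 x1827 x1837 x1839 x1845 x1865 x1867 x1869 x1873 x1875 x1881 x1891 x1893 x1899 x1917 x1949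
    x1951 x1955 x1957 x1959 x1963 x1965 x1973 x1975 x1977 x1981 x1983 x1989 x1999 x2001 x2007 x2027
    x2029 x2031 x2035 x2037 x2043 x2053 x2055 x2061 x2079 x2107 x2109 x2115 x2133 x2213 x2231 x2237
    x2239 x2249 x2255 x2257 x2261 x2263 x2265 x2285 x2291 x2293 x2303 x2309 x2311 x2315 x2317 x2319
    x2327 x2329 x2333 x2335 x2337 x2341 x2343 x2357 x2363 x2365 x2369 x2371 x2373 x2381 x2383 x2387
    x2389 x2391 x2395 x2397 x2405 x2407 x2409 x2413 x2415 x2421 x2447 x2453 x2455 x2465 x2471 x2473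
    x2477 x2479 x2481 x2489 x2491 x2495 x2497 x2499 x2503 x2505 x2519 x2525 x2527 x2531 x2533 x2535
    x2543 x2545 x2549 x2551 x2553 x2557 x2559 x2567 x2569 x2571 x2575 x2577 x2583 x2597 x2599 x2603
    x2605 x2607 x2611 x2613 x2621 x2623 x2625 x2629 x2631 x2637 x2647 x2649 x2655 x2681 x2687 x2689
    x2693 x2695 x2697 x2705 x2707 x2711 x2713 x2715 x2719 x2721 x2729 x2731 x2733 x2737 x2739 x2745
    x2759 x2761 x2765 x2767 x2769 x2773 x2775 x2783 x2785 x2787 x2791 x2793 x2799 x2809 x2811 x2817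
    x2837 x2839 x2841 x2845 x2847 x2853 x2863 x2865 x2871 x2889 x2933 x2939 x2941 x2951 x2957 x2959
    x2963 x2965 x2967 x2975 x2977 x2981 x2983 x2985 x2989 x2991 x3005 x3011 x3013 x3017 x3019 x3021
    x3029 x3031 x3035 x3037 x3039 x3043 x3045 x3053 x3055 x3057 x3061 x3063 x3069 x3083 x3085 x3089
    x3091 x3093 x3097 x3099 x3107 x3109 x3111 x3115 x3117 x3123 x3133 x3135 x3141 x3167 x3173 x3175
    x3179 x3181 x3183 x3191 x3193 x3197 x3199 x3201 x3205 x3207 x3215 x3217 x3219 x3223 x3225 x3231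
    x3245 x3247 x3251 x3253 x3255 x3259 x3261 x3269 x3271 x3273 x3277 x3279 x3285 x3295 x3297 x3303
    x3323 x3325 x3327 x3331 x3333 x3339 x3349 x3351 x3357 x3375 x3407 x3409 x3413 x3415 x3417 x3421
    x3423 x3431 x3433 x3435 x3439 x3441 x3447 x3457 x3459 x3465 x3485 x3487 x3489 x3493 x3495 x3501
    x3511 x3513 x3519 x3537 x3565 x3567 x3573 x3591 x3653 x3659 x3661 x3665 x3667 x3669 x3677 x3679
    x3683 x3685 x3687 x3691 x3693 x3701 x3703 x3705 x3709 x3711 x3717 x3731 x3733 x3737 x3739 x3741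
    x3745 x3747 x3755 x3757 x3759 x3763 x3765 x3771 x3781 x3783 x3789 x3809 x3811 x3813 x3817 x3819
    x3825 x3835 x3837 x3843 x3861 x3893 x3895 x3899 x3901 x3903 x3907 x3909 x3917 x3919 x3921 x3925
    x3927 x3933 x3943 x3945 x3951 x3971 x3973 x3975 x3979 x3981 x3987 x3997 x3999 x4005 x4023 x4051
    x4053 x4059 x4077 x4133 x4135 x4137 x4141 x4143 x4149 x4159 x4161 x4167 x4185 x4213 x4215 x4221
    x4239 x4293 x4391 x4397 x4399 x4409 x4415 x4417 x4421 x4423 x4425 x4433 x4435 x4439 x4441 x4443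
    x4447 x4449 x4463 x4469 x4471 x4475 x4477 x4479 x4487 x4489 x4493 x4495 x4497 x4501 x4503 x4511
    x4513 x4515 x4519 x4521 x4527 x4541 x4543 x4547 x4549 x4551 x4555 x4557 x4565 x4567 x4569 x4573
    x4575 x4581 x4591 x4593 x4599 x4625 x4631 x4633 x4637 x4639 x4641 x4649 x4651 x4655 x4657 x4659
    x4663 x4665 x4673 x4675 x4677 x4681 x4683 x4689 x4703 x4705 x4709 x4711 x4713 x4717 x4719 x4727
    x4729 x4731 x4735 x4737 x4743 x4753 x4755 x4761 x4781 x4783 x4785 x4789 x4791 x4797 x4807 x4809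
    x4815 x4833 x4865 x4867 x4871 x4873 x4875 x4879 x4881 x4889 x4891 x4893 x4897 x4899 x4905 x4915
    x4917 x4923 x4943 x4945 x4947 x4951 x4953 x4959 x4969 x4971 x4977 x4995 x5023 x5025 x5031 x5049
    x5111 x5117 x5119 x5123 x5125 x5127 x5135 x5137 x5141 x5143 x5145 x5149 x5151 x5159 x5161 x5163
    x5167 x5169 x5175 x5189 x5191 x5195 x5197 x5199 x5203 x5205 x5213 x5215 x5217 x5221 x5223 x5229
    x5239 x5241 x5247 x5267 x5269 x5271 x5275 x5277 x5283 x5293 x5295 x5301 x5319 x5351 x5353 x5357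
    x5359 x5361 x5365 x5367 x5375 x5377 x5379 x5383 x5385 x5391 x5401 x5403 x5409 x5429 x5431 x5433
    x5437 x5439 x5445 x5455 x5457 x5463 x5481 x5509 x5511 x5517 x5535 x5591 x5593 x5595 x5599 x5601
    x5607 x5617 x5619 x5625 x5643 x5671 x5673 x5679 x5697 x5751 x5837 x5839 x5843 x5845 x5847 x5851
    x5853 x5861 x5863 x5865 x5869 x5871 x5877 x5887 x5889 x5895 x5915 x5917 x5919 x5923 x5925 x5931
    x5941 x5943 x5949 x5967 x5995 x5997 x6003 x6021 x6077 x6079 x6081 x6085 x6087 x6093 x6103 x6105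
    x6111 x6129 x6157 x6159 x6165 x6183 x6237 x6319 x6321 x6327 x6345 x6399 x6587 x6605 x6611 x6613
    x6623 x6629 x6631 x6635 x6637 x6639 x6659 x6665 x6667 x6677 x6683 x6685 x6689 x6691 x6693 x6701
    x6703 x6707 x6709 x6711 x6715 x6717 x6731 x6737 x6739 x6743 x6745 x6747 x6755 x6757 x6761 x6763
    x6765 x6769 x6771 x6779 x6781 x6783 x6787 x6789 x6795 x6821 x6827 x6829 x6839 x6845 x6847 x6851
    x6853 x6855 x6863 x6865 x6869 x6871 x6873 x6877 x6879 x6893 x6899 x6901 x6905 x6907 x6909 x6917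
    x6919 x6923 x6925 x6927 x6931 x6933 x6941 x6943 x6945 x6949 x6951 x6957 x6971 x6973 x6977 x6979
    x6981 x6985 x6987 x6995 x6997 x6999 x7003 x7005 x7011 x7021 x7023 x7029 x7055 x7061 x7063 x7067
    x7069 x7071 x7079 x7081 x7085 x7087 x7089 x7093 x7095 x7103 x7105 x7107 x7111 x7113 x7119 x7133
    x7135 x7139 x7141 x7143 x7147 x7149 x7157 x7159 x7161 x7165 x7167 x7173 x7183 x7185 x7191 x7211
    x7213 x7215 x7219 x7221 x7227 x7237 x7239 x7245 x7263 x7307 x7313 x7315 x7325 x7331 x7333 x7337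
    x7339 x7341 x7349 x7351 x7355 x7357 x7359 x7363 x7365 x7379 x7385 x7387 x7391 x7393 x7395 x7403
    x7405 x7409 x7411 x7413 x7417 x7419 x7427 x7429 x7431 x7435 x7437 x7443 x7457 x7459 x7463 x7465
    x7467 x7471 x7473 x7481 x7483 x7485 x7489 x7491 x7497 x7507 x7509 x7515 x7541 x7547 x7549 x7553
    x7555 x7557 x7565 x7567 x7571 x7573 x7575 x7579 x7581 x7589 x7591 x7593 x7597 x7599 x7605 x7619
    x7621 x7625 x7627 x7629 x7633 x7635 x7643 x7645 x7647 x7651 x7653 x7659 x7669 x7671 x7677 x7697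
    x7699 x7701 x7705 x7707 x7713 x7723 x7725 x7731 x7749 x7781 x7783 x7787 x7789 x7791 x7795 x7797
    x7805 x7807 x7809 x7813 x7815 x7821 x7831 x7833 x7839 x7859 x7861 x7863 x7867 x7869 x7875 x7885
    x7887 x7893 x7911 x7939 x7941 x7947 x7965 x8027 x8033 x8035 x8039 x8041 x8043 x8051 x8053 x8057
    x8059 x8061 x8065 x8067 x8075 x8077 x8079 x8083 x8085 x8091 x8105 x8107 x8111 x8113 x8115 x8119
    x8121 x8129 x8131 x8133 x8137 x8139 x8145 x8155 x8157 x8163 x8183 x8185 x8187 x8191 x8193 x8199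
    x8209 x8211 x8217 x8235 x8267 x8269 x8273 x8275 x8277 x8281 x8283 x8291 x8293 x8295 x8299 x8301
    x8307 x8317 x8319 x8325 x8345 x8347 x8349 x8353 x8355 x8361 x8371 x8373 x8379 x8397 x8425 x8427
    x8433 x8451 x8507 x8509 x8511 x8515 x8517 x8523 x8533 x8535 x8541 x8559 x8587 x8589 x8595 x8613
    x8667 x8765 x8771 x8773 x8783 x8789 x8791 x8795 x8797 x8799 x8807 x8809 x8813 x8815 x8817 x8821
    x8823 x8837 x8843 x8845 x8849 x8851 x8853 x8861 x8863 x8867 x8869 x8871 x8875 x8877 x8885 x8887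
    x8889 x8893 x8895 x8901 x8915 x8917 x8921 x8923 x8925 x8929 x8931 x8939 x8941 x8943 x8947 x8949
    x8955 x8965 x8967 x8973 x8999 x9005 x9007 x9011 x9013 x9015 x9023 x9025 x9029 x9031 x9033 x9037
    x9039 x9047 x9049 x9051 x9055 x9057 x9063 x9077 x9079 x9083 x9085 x9087 x9091 x9093 x9101 x9103
    x9105 x9109 x9111 x9117 x9127 x9129 x9135 x9155 x9157 x9159 x9163 x9165 x9171 x9181 x9183 x9189
    x9207 x9239 x9241 x9245 x9247 x9249 x9253 x9255 x9263 x9265 x9267 x9271 x9273 x9279 x9289 x9291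
    x9297 x9317 x9319 x9321 x9325 x9327 x9333 x9343 x9345 x9351 x9369 x9397 x9399 x9405 x9423 x9485
    x9491 x9493 x9497 x9499 x9501 x9509 x9511 x9515 x9517 x9519 x9523 x9525 x9533 x9535 x9537 x9541
    x9543 x9549 x9563 x9565 x9569 x9571 x9573 x9577 x9579 x9587 x9589 x9591 x9595 x9597 x9603 x9613
    x9615 x9621 x9641 x9643 x9645 x9649 x9651 x9657 x9667 x9669 x9675 x9693 x9725 x9727 x9731 x9733
    x9735 x9739 x9741 x9749 x9751 x9753 x9757 x9759 x9765 x9775 x9777 x9783 x9803 x9805 x9807 x9811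
    x9813 x9819 x9829 x9831 x9837 x9855 x9883 x9885 x9891 x9909 x9965 x9967 x9969 x9973 x9975 x9981
    x9991 x9993 x9999 x10017 x10045 x10047 x10053 x10071 x10125 x10211 x10213 x10217 x10219 x10221
    x10225 x10227 x10235 x10237 x10239 x10243 x10245 x10251 x10261 x10263 x10269 x10289 x10291
    x10293 x10297 x10299 x10305 x10315 x10317 x10323 x10341 x10369 x10371 x10377 x10395 x10451
    x10453 x10455 x10459 x10461 x10467 x10477 x10479 x10485 x10503 x10531 x10533 x10539 x10557
    x10611 x10693 x10695 x10701 x10719 x10773 x10943 x10949 x10951 x10955 x10957 x10959 x10967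
    x10969 x10973 x10975 x10977 x10981 x10983 x10991 x10993 x10995 x10999 x11001 x11007 x11021
    x11023 x11027 x11029 x11031 x11035 x11037 x11045 x11047 x11049 x11053 x11055 x11061 x11071
    x11073 x11079 x11099 x11101 x11103 x11107 x11109 x11115 x11125 x11127 x11133 x11151 x11183
    x11185 x11189 x11191 x11193 x11197 x11199 x11207 x11209 x11211 x11215 x11217 x11223 x11233
    x11235 x11241 x11261 x11263 x11265 x11269 x11271 x11277 x11287 x11289 x11295 x11313 x11341
    x11343 x11349 x11367 x11423 x11425 x11427 x11431 x11433 x11439 x11449 x11451 x11457 x11475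
    x11503 x11505 x11511 x11529 x11583 x11669 x11671 x11675 x11677 x11679 x11683 x11685 x11693
    x11695 x11697 x11701 x11703 x11709 x11719 x11721 x11727 x11747 x11749 x11751 x11755 x11757
    x11763 x11773 x11775 x11781 x11799 x11827 x11829 x11835 x11853 x11909 x11911 x11913 x11917
    x11919 x11925 x11935 x11937 x11943 x11961 x11989 x11991 x11997 x12015 x12069 x12151 x12153
    x12159 x12177 x12231 x12395 x12397 x12399 x12403 x12405 x12411 x12421 x12423 x12429 x12447
    x12475 x12477 x12483 x12501 x12555 x12637 x12639 x12645 x12663 x12717 x12879 x13139 x13145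
    x13147 x13157 x13163 x13165 x13169 x13171 x13173 x13181 x13183 x13187 x13189 x13191 x13195
    x13197 x13211 x13217 x13219 x13223 x13225 x13227 x13235 x13237 x13241 x13243 x13245 x13249
    x13251 x13259 x13261 x13263 x13267 x13269 x13275 x13289 x13291 x13295 x13297 x13299 x13303
    x13305 x13313 x13315 x13317 x13321 x13323 x13329 x13339 x13341 x13347 x13373 x13379 x13381
    x13385 x13387 x13389 x13397 x13399 x13403 x13405 x13407 x13411 x13413 x13421 x13423 x13425
    x13429 x13431 x13437 x13451 x13453 x13457 x13459 x13461 x13465 x13467 x13475 x13477 x13479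
    x13483 x13485 x13491 x13501 x13503 x13509 x13529 x13531 x13533 x13537 x13539 x13545 x13555
    x13557 x13563 x13581 x13613 x13615 x13619 x13621 x13623 x13627 x13629 x13637 x13639 x13641
    x13645 x13647 x13653 x13663 x13665 x13671 x13691 x13693 x13695 x13699 x13701 x13707 x13717
    x13719 x13725 x13743 x13771 x13773 x13779 x13797 x13859 x13865 x13867 x13871 x13873 x13875
    x13883 x13885 x13889 x13891 x13893 x13897 x13899 x13907 x13909 x13911 x13915 x13917 x13923
    x13937 x13939 x13943 x13945 x13947 x13951 x13953 x13961 x13963 x13965 x13969 x13971 x13977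
    x13987 x13989 x13995 x14015 x14017 x14019 x14023 x14025 x14031 x14041 x14043 x14049 x14067
    x14099 x14101 x14105 x14107 x14109 x14113 x14115 x14123 x14125 x14127 x14131 x14133 x14139
    x14149 x14151 x14157 x14177 x14179 x14181 x14185 x14187 x14193 x14203 x14205 x14211 x14229
    x14257 x14259 x14265 x14283 x14339 x14341 x14343 x14347 x14349 x14355 x14365 x14367 x14373
    x14391 x14419 x14421 x14427 x14445 x14499 x14585 x14587 x14591 x14593 x14595 x14599 x14601
    x14609 x14611 x14613 x14617 x14619 x14625 x14635 x14637 x14643 x14663 x14665 x14667 x14671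
    x14673 x14679 x14689 x14691 x14697 x14715 x14743 x14745 x14751 x14769 x14825 x14827 x14829
    x14833 x14835 x14841 x14851 x14853 x14859 x14877 x14905 x14907 x14913 x14931 x14985 x15067
    x15069 x15075 x15093 x15147 x15317 x15323 x15325 x15329 x15331 x15333 x15341 x15343 x15347
    x15349 x15351 x15355 x15357 x15365 x15367 x15369 x15373 x15375 x15381 x15395 x15397 x15401
    x15403 x15405 x15409 x15411 x15419 x15421 x15423 x15427 x15429 x15435 x15445 x15447 x15453
    x15473 x15475 x15477 x15481 x15483 x15489 x15499 x15501 x15507 x15525 x15557 x15559 x15563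
    x15565 x15567 x15571 x15573 x15581 x15583 x15585 x15589 x15591 x15597 x15607 x15609 x15615
    x15635 x15637 x15639 x15643 x15645 x15651 x15661 x15663 x15669 x15687 x15715 x15717 x15723
    x15741 x15797 x15799 x15801 x15805 x15807 x15813 x15823 x15825 x15831 x15849 x15877 x15879
    x15885 x15903 x15957 x16043 x16045 x16049 x16051 x16053 x16057 x16059 x16067 x16069 x16071
    x16075 x16077 x16083 x16093 x16095 x16101 x16121 x16123 x16125 x16129 x16131 x16137 x16147
    x16149 x16155 x16173 x16201 x16203 x16209 x16227 x16283 x16285 x16287 x16291 x16293 x16299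
    x16309 x16311 x16317 x16335 x16363 x16365 x16371 x16389 x16443 x16525 x16527 x16533 x16551
    x16605 x16769 x16771 x16773 x16777 x16779 x16785 x16795 x16797 x16803 x16821 x16849 x16851
    x16857 x16875 x16929 x17011 x17013 x17019 x17037 x17091 x17253 x17501 x17503 x17507 x17509
    x17511 x17515 x17517 x17525 x17527 x17529 x17533 x17535 x17541 x17551 x17553 x17559 x17579
    x17581 x17583 x17587 x17589 x17595 x17605 x17607 x17613 x17631 x17659 x17661 x17667 x17685
    x17741 x17743 x17745 x17749 x17751 x17757 x17767 x17769 x17775 x17793 x17821 x17823 x17829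
    x17847 x17901 x17983 x17985 x17991 x18009 x18063 x18227 x18229 x18231 x18235 x18237 x18243
    x18253 x18255 x18261 x18279 x18307 x18309 x18315 x18333 x18387 x18469 x18471 x18477 x18495
    x18549 x18711 x18955 x18957 x18963 x18981 x19035 x19197 x19709 x19727 x19733 x19735 x19745
    x19751 x19753 x19757 x19759 x19761 x19781 x19787 x19789 x19799 x19805 x19807 x19811 x19813
    x19815 x19823 x19825 x19829 x19831 x19833 x19837 x19839 x19853 x19859 x19861 x19865 x19867
    x19869 x19877 x19879 x19883 x19885 x19887 x19891 x19893 x19901 x19903 x19905 x19909 x19911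
    x19917 x19943 x19949 x19951 x19961 x19967 x19969 x19973 x19975 x19977 x19985 x19987 x19991
    x19993 x19995 x19999 x20001 x20015 x20021 x20023 x20027 x20029 x20031 x20039 x20041 x20045
    x20047 x20049 x20053 x20055 x20063 x20065 x20067 x20071 x20073 x20079 x20093 x20095 x20099
    x20101 x20103 x20107 x20109 x20117 x20119 x20121 x20125 x20127 x20133 x20143 x20145 x20151
    x20177 x20183 x20185 x20189 x20191 x20193 x20201 x20203 x20207 x20209 x20211 x20215 x20217
    x20225 x20227 x20229 x20233 x20235 x20241 x20255 x20257 x20261 x20263 x20265 x20269 x20271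
    x20279 x20281 x20283 x20287 x20289 x20295 x20305 x20307 x20313 x20333 x20335 x20337 x20341
    x20343 x20349 x20359 x20361 x20367 x20385 x20429 x20435 x20437 x20447 x20453 x20455 x20459
    x20461 x20463 x20471 x20473 x20477 x20479 x20481 x20485 x20487 x20501 x20507 x20509 x20513
    x20515 x20517 x20525 x20527 x20531 x20533 x20535 x20539 x20541 x20549 x20551 x20553 x20557
    x20559 x20565 x20579 x20581 x20585 x20587 x20589 x20593 x20595 x20603 x20605 x20607 x20611
    x20613 x20619 x20629 x20631 x20637 x20663 x20669 x20671 x20675 x20677 x20679 x20687 x20689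
    x20693 x20695 x20697 x20701 x20703 x20711 x20713 x20715 x20719 x20721 x20727 x20741 x20743
    x20747 x20749 x20751 x20755 x20757 x20765 x20767 x20769 x20773 x20775 x20781 x20791 x20793
    x20799 x20819 x20821 x20823 x20827 x20829 x20835 x20845 x20847 x20853 x20871 x20903 x20905
    x20909 x20911 x20913 x20917 x20919 x20927 x20929 x20931 x20935 x20937 x20943 x20953 x20955
    x20961 x20981 x20983 x20985 x20989 x20991 x20997 x21007 x21009 x21015 x21033 x21061 x21063
    x21069 x21087 x21149 x21155 x21157 x21161 x21163 x21165 x21173 x21175 x21179 x21181 x21183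
    x21187 x21189 x21197 x21199 x21201 x21205 x21207 x21213 x21227 x21229 x21233 x21235 x21237
    x21241 x21243 x21251 x21253 x21255 x21259 x21261 x21267 x21277 x21279 x21285 x21305 x21307
    x21309 x21313 x21315 x21321 x21331 x21333 x21339 x21357 x21389 x21391 x21395 x21397 x21399
    x21403 x21405 x21413 x21415 x21417 x21421 x21423 x21429 x21439 x21441 x21447 x21467 x21469
    x21471 x21475 x21477 x21483 x21493 x21495 x21501 x21519 x21547 x21549 x21555 x21573 x21629
    x21631 x21633 x21637 x21639 x21645 x21655 x21657 x21663 x21681 x21709 x21711 x21717 x21735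
    x21789 x21887 x21893 x21895 x21905 x21911 x21913 x21917 x21919 x21921 x21929 x21931 x21935
    x21937 x21939 x21943 x21945 x21959 x21965 x21967 x21971 x21973 x21975 x21983 x21985 x21989
    x21991 x21993 x21997 x21999 x22007 x22009 x22011 x22015 x22017 x22023 x22037 x22039 x22043
    x22045 x22047 x22051 x22053 x22061 x22063 x22065 x22069 x22071 x22077 x22087 x22089 x22095
    x22121 x22127 x22129 x22133 x22135 x22137 x22145 x22147 x22151 x22153 x22155 x22159 x22161
    x22169 x22171 x22173 x22177 x22179 x22185 x22199 x22201 x22205 x22207 x22209 x22213 x22215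
    x22223 x22225 x22227 x22231 x22233 x22239 x22249 x22251 x22257 x22277 x22279 x22281 x22285
    x22287 x22293 x22303 x22305 x22311 x22329 x22361 x22363 x22367 x22369 x22371 x22375 x22377
    x22385 x22387 x22389 x22393 x22395 x22401 x22411 x22413 x22419 x22439 x22441 x22443 x22447
    x22449 x22455 x22465 x22467 x22473 x22491 x22519 x22521 x22527 x22545 x22607 x22613 x22615
    x22619 x22621 x22623 x22631 x22633 x22637 x22639 x22641 x22645 x22647 x22655 x22657 x22659
    x22663 x22665 x22671 x22685 x22687 x22691 x22693 x22695 x22699 x22701 x22709 x22711 x22713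
    x22717 x22719 x22725 x22735 x22737 x22743 x22763 x22765 x22767 x22771 x22773 x22779 x22789
    x22791 x22797 x22815 x22847 x22849 x22853 x22855 x22857 x22861 x22863 x22871 x22873 x22875
    x22879 x22881 x22887 x22897 x22899 x22905 x22925 x22927 x22929 x22933 x22935 x22941 x22951
    x22953 x22959 x22977 x23005 x23007 x23013 x23031 x23087 x23089 x23091 x23095 x23097 x23103
    x23113 x23115 x23121 x23139 x23167 x23169 x23175 x23193 x23247 x23333 x23335 x23339 x23341
    x23343 x23347 x23349 x23357 x23359 x23361 x23365 x23367 x23373 x23383 x23385 x23391 x23411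
    x23413 x23415 x23419 x23421 x23427 x23437 x23439 x23445 x23463 x23491 x23493 x23499 x23517
    x23573 x23575 x23577 x23581 x23583 x23589 x23599 x23601 x23607 x23625 x23653 x23655 x23661
    x23679 x23733 x23815 x23817 x23823 x23841 x23895 x24065 x24071 x24073 x24077 x24079 x24081
    x24089 x24091 x24095 x24097 x24099 x24103 x24105 x24113 x24115 x24117 x24121 x24123 x24129
    x24143 x24145 x24149 x24151 x24153 x24157 x24159 x24167 x24169 x24171 x24175 x24177 x24183
    x24193 x24195 x24201 x24221 x24223 x24225 x24229 x24231 x24237 x24247 x24249 x24255 x24273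
    x24305 x24307 x24311 x24313 x24315 x24319 x24321 x24329 x24331 x24333 x24337 x24339 x24345
    x24355 x24357 x24363 x24383 x24385 x24387 x24391 x24393 x24399 x24409 x24411 x24417 x24435
    x24463 x24465 x24471 x24489 x24545 x24547 x24549 x24553 x24555 x24561 x24571 x24573 x24579
    x24597 x24625 x24627 x24633 x24651 x24705 x24791 x24793 x24797 x24799 x24801 x24805 x24807
    x24815 x24817 x24819 x24823 x24825 x24831 x24841 x24843 x24849 x24869 x24871 x24873 x24877
    x24879 x24885 x24895 x24897 x24903 x24921 x24949 x24951 x24957 x24975 x25031 x25033 x25035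
    x25039 x25041 x25047 x25057 x25059 x25065 x25083 x25111 x25113 x25119 x25137 x25191 x25273
    x25275 x25281 x25299 x25353 x25517 x25519 x25521 x25525 x25527 x25533 x25543 x25545 x25551
    x25569 x25597 x25599 x25605 x25623 x25677 x25759 x25761 x25767 x25785 x25839 x26001 x26261
    x26267 x26269 x26279 x26285 x26287 x26291 x26293 x26295 x26303 x26305 x26309 x26311 x26313
    x26317 x26319 x26333 x26339 x26341 x26345 x26347 x26349 x26357 x26359 x26363 x26365 x26367
    x26371 x26373 x26381 x26383 x26385 x26389 x26391 x26397 x26411 x26413 x26417 x26419 x26421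
    x26425 x26427 x26435 x26437 x26439 x26443 x26445 x26451 x26461 x26463 x26469 x26495 x26501
    x26503 x26507 x26509 x26511 x26519 x26521 x26525 x26527 x26529 x26533 x26535 x26543 x26545
    x26547 x26551 x26553 x26559 x26573 x26575 x26579 x26581 x26583 x26587 x26589 x26597 x26599
    x26601 x26605 x26607 x26613 x26623 x26625 x26631 x26651 x26653 x26655 x26659 x26661 x26667
    x26677 x26679 x26685 x26703 x26735 x26737 x26741 x26743 x26745 x26749 x26751 x26759 x26761
    x26763 x26767 x26769 x26775 x26785 x26787 x26793 x26813 x26815 x26817 x26821 x26823 x26829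
    x26839 x26841 x26847 x26865 x26893 x26895 x26901 x26919 x26981 x26987 x26989 x26993 x26995
    x26997 x27005 x27007 x27011 x27013 x27015 x27019 x27021 x27029 x27031 x27033 x27037 x27039
    x27045 x27059 x27061 x27065 x27067 x27069 x27073 x27075 x27083 x27085 x27087 x27091 x27093
    x27099 x27109 x27111 x27117 x27137 x27139 x27141 x27145 x27147 x27153 x27163 x27165 x27171
    x27189 x27221 x27223 x27227 x27229 x27231 x27235 x27237 x27245 x27247 x27249 x27253 x27255
    x27261 x27271 x27273 x27279 x27299 x27301 x27303 x27307 x27309 x27315 x27325 x27327 x27333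
    x27351 x27379 x27381 x27387 x27405 x27461 x27463 x27465 x27469 x27471 x27477 x27487 x27489
    x27495 x27513 x27541 x27543 x27549 x27567 x27621 x27707 x27709 x27713 x27715 x27717 x27721
    x27723 x27731 x27733 x27735 x27739 x27741 x27747 x27757 x27759 x27765 x27785 x27787 x27789
    x27793 x27795 x27801 x27811 x27813 x27819 x27837 x27865 x27867 x27873 x27891 x27947 x27949
    x27951 x27955 x27957 x27963 x27973 x27975 x27981 x27999 x28027 x28029 x28035 x28053 x28107
    x28189 x28191 x28197 x28215 x28269 x28439 x28445 x28447 x28451 x28453 x28455 x28463 x28465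
    x28469 x28471 x28473 x28477 x28479 x28487 x28489 x28491 x28495 x28497 x28503 x28517 x28519
    x28523 x28525 x28527 x28531 x28533 x28541 x28543 x28545 x28549 x28551 x28557 x28567 x28569
    x28575 x28595 x28597 x28599 x28603 x28605 x28611 x28621 x28623 x28629 x28647 x28679 x28681
    x28685 x28687 x28689 x28693 x28695 x28703 x28705 x28707 x28711 x28713 x28719 x28729 x28731
    x28737 x28757 x28759 x28761 x28765 x28767 x28773 x28783 x28785 x28791 x28809 x28837 x28839
    x28845 x28863 x28919 x28921 x28923 x28927 x28929 x28935 x28945 x28947 x28953 x28971 x28999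
    x29001 x29007 x29025 x29079 x29165 x29167 x29171 x29173 x29175 x29179 x29181 x29189 x29191
    x29193 x29197 x29199 x29205 x29215 x29217 x29223 x29243 x29245 x29247 x29251 x29253 x29259
    x29269 x29271 x29277 x29295 x29323 x29325 x29331 x29349 x29405 x29407 x29409 x29413 x29415
    x29421 x29431 x29433 x29439 x29457 x29485 x29487 x29493 x29511 x29565 x29647 x29649 x29655
    x29673 x29727 x29891 x29893 x29895 x29899 x29901 x29907 x29917 x29919 x29925 x29943 x29971
    x29973 x29979 x29997 x30051 x30133 x30135 x30141 x30159 x30213 x30375 x30623 x30625 x30629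
    x30631 x30633 x30637 x30639 x30647 x30649 x30651 x30655 x30657 x30663 x30673 x30675 x30681
    x30701 x30703 x30705 x30709 x30711 x30717 x30727 x30729 x30735 x30753 x30781 x30783 x30789
    x30807 x30863 x30865 x30867 x30871 x30873 x30879 x30889 x30891 x30897 x30915 x30943 x30945
    x30951 x30969 x31023 x31105 x31107 x31113 x31131 x31185 x31349 x31351 x31353 x31357 x31359
    x31365 x31375 x31377 x31383 x31401 x31429 x31431 x31437 x31455 x31509 x31591 x31593 x31599
    x31617 x31671 x31833 x32077 x32079 x32085 x32103 x32157 x32319 x32813 x32819 x32821 x32825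
    x32827 x32829 x32837 x32839 x32843 x32845 x32847 x32851 x32853 x32861 x32863 x32865 x32869
    x32871 x32877 x32891 x32893 x32897 x32899 x32901 x32905 x32907 x32915 x32917 x32919 x32923
    x32925 x32931 x32941 x32943 x32949 x32969 x32971 x32973 x32977 x32979 x32985 x32995 x32997
    x33003 x33021 x33053 x33055 x33059 x33061 x33063 x33067 x33069 x33077 x33079 x33081 x33085
    x33087 x33093 x33103 x33105 x33111 x33131 x33133 x33135 x33139 x33141 x33147 x33157 x33159
    x33165 x33183 x33211 x33213 x33219 x33237 x33293 x33295 x33297 x33301 x33303 x33309 x33319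
    x33321 x33327 x33345 x33373 x33375 x33381 x33399 x33453 x33539 x33541 x33545 x33547 x33549
    x33553 x33555 x33563 x33565 x33567 x33571 x33573 x33579 x33589 x33591 x33597 x33617 x33619
    x33621 x33625 x33627 x33633 x33643 x33645 x33651 x33669 x33697 x33699 x33705 x33723 x33779
    x33781 x33783 x33787 x33789 x33795 x33805 x33807 x33813 x33831 x33859 x33861 x33867 x33885
    x33939 x34021 x34023 x34029 x34047 x34101 x34265 x34267 x34269 x34273 x34275 x34281 x34291
    x34293 x34299 x34317 x34345 x34347 x34353 x34371 x34425 x34507 x34509 x34515 x34533 x34587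
    x34749 x34997 x34999 x35003 x35005 x35007 x35011 x35013 x35021 x35023 x35025 x35029 x35031
    x35037 x35047 x35049 x35055 x35075 x35077 x35079 x35083 x35085 x35091 x35101 x35103 x35109
    x35127 x35155 x35157 x35163 x35181 x35237 x35239 x35241 x35245 x35247 x35253 x35263 x35265
    x35271 x35289 x35317 x35319 x35325 x35343 x35397 x35479 x35481 x35487 x35505 x35559 x35723
    x35725 x35727 x35731 x35733 x35739 x35749 x35751 x35757 x35775 x35803 x35805 x35811 x35829
    x35883 x35965 x35967 x35973 x35991 x36045 x36207 x36451 x36453 x36459 x36477 x36531 x36693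
    x37181 x37183 x37185 x37189 x37191 x37197 x37207 x37209 x37215 x37233 x37261 x37263 x37269
    x37287 x37341 x37423 x37425 x37431 x37449 x37503 x37665 x37909 x37911 x37917 x37935 x37989
    x38151 x38637 x39383 x39389 x39391 x39401 x39407 x39409 x39413 x39415 x39417 x39425 x39427
    x39431 x39433 x39435 x39439 x39441 x39455 x39461 x39463 x39467 x39469 x39471 x39479 x39481
    x39485 x39487 x39489 x39493 x39495 x39503 x39505 x39507 x39511 x39513 x39519 x39533 x39535
    x39539 x39541 x39543 x39547 x39549 x39557 x39559 x39561 x39565 x39567 x39573 x39583 x39585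
    x39591 x39617 x39623 x39625 x39629 x39631 x39633 x39641 x39643 x39647 x39649 x39651 x39655
    x39657 x39665 x39667 x39669 x39673 x39675 x39681 x39695 x39697 x39701 x39703 x39705 x39709
    x39711 x39719 x39721 x39723 x39727 x39729 x39735 x39745 x39747 x39753 x39773 x39775 x39777
    x39781 x39783 x39789 x39799 x39801 x39807 x39825 x39857 x39859 x39863 x39865 x39867 x39871
    x39873 x39881 x39883 x39885 x39889 x39891 x39897 x39907 x39909 x39915 x39935 x39937 x39939
    x39943 x39945 x39951 x39961 x39963 x39969 x39987 x40015 x40017 x40023 x40041 x40103 x40109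
    x40111 x40115 x40117 x40119 x40127 x40129 x40133 x40135 x40137 x40141 x40143 x40151 x40153
    x40155 x40159 x40161 x40167 x40181 x40183 x40187 x40189 x40191 x40195 x40197 x40205 x40207
    x40209 x40213 x40215 x40221 x40231 x40233 x40239 x40259 x40261 x40263 x40267 x40269 x40275
    x40285 x40287 x40293 x40311 x40343 x40345 x40349 x40351 x40353 x40357 x40359 x40367 x40369
    x40371 x40375 x40377 x40383 x40393 x40395 x40401 x40421 x40423 x40425 x40429 x40431 x40437
    x40447 x40449 x40455 x40473 x40501 x40503 x40509 x40527 x40583 x40585 x40587 x40591 x40593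
    x40599 x40609 x40611 x40617 x40635 x40663 x40665 x40671 x40689 x40743 x40829 x40831 x40835
    x40837 x40839 x40843 x40845 x40853 x40855 x40857 x40861 x40863 x40869 x40879 x40881 x40887
    x40907 x40909 x40911 x40915 x40917 x40923 x40933 x40935 x40941 x40959 x40987 x40989 x40995
    x41013 x41069 x41071 x41073 x41077 x41079 x41085 x41095 x41097 x41103 x41121 x41149 x41151
    x41157 x41175 x41229 x41311 x41313 x41319 x41337 x41391 x41561 x41567 x41569 x41573 x41575
    x41577 x41585 x41587 x41591 x41593 x41595 x41599 x41601 x41609 x41611 x41613 x41617 x41619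
    x41625 x41639 x41641 x41645 x41647 x41649 x41653 x41655 x41663 x41665 x41667 x41671 x41673
    x41679 x41689 x41691 x41697 x41717 x41719 x41721 x41725 x41727 x41733 x41743 x41745 x41751
    x41769 x41801 x41803 x41807 x41809 x41811 x41815 x41817 x41825 x41827 x41829 x41833 x41835
    x41841 x41851 x41853 x41859 x41879 x41881 x41883 x41887 x41889 x41895 x41905 x41907 x41913
    x41931 x41959 x41961 x41967 x41985 x42041 x42043 x42045 x42049 x42051 x42057 x42067 x42069
    x42075 x42093 x42121 x42123 x42129 x42147 x42201 x42287 x42289 x42293 x42295 x42297 x42301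
    x42303 x42311 x42313 x42315 x42319 x42321 x42327 x42337 x42339 x42345 x42365 x42367 x42369
    x42373 x42375 x42381 x42391 x42393 x42399 x42417 x42445 x42447 x42453 x42471 x42527 x42529
    x42531 x42535 x42537 x42543 x42553 x42555 x42561 x42579 x42607 x42609 x42615 x42633 x42687
    x42769 x42771 x42777 x42795 x42849 x43013 x43015 x43017 x43021 x43023 x43029 x43039 x43041
    x43047 x43065 x43093 x43095 x43101 x43119 x43173 x43255 x43257 x43263 x43281 x43335 x43497
    x43745 x43747 x43751 x43753 x43755 x43759 x43761 x43769 x43771 x43773 x43777 x43779 x43785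
    x43795 x43797 x43803 x43823 x43825 x43827 x43831 x43833 x43839 x43849 x43851 x43857 x43875
    x43903 x43905 x43911 x43929 x43985 x43987 x43989 x43993 x43995 x44001 x44011 x44013 x44019
    x44037 x44065 x44067 x44073 x44091 x44145 x44227 x44229 x44235 x44253 x44307 x44471 x44473
    x44475 x44479 x44481 x44487 x44497 x44499 x44505 x44523 x44551 x44553 x44559 x44577 x44631
    x44713 x44715 x44721 x44739 x44793 x44955 x45199 x45201 x45207 x45225 x45279 x45441 x45935
    x45941 x45943 x45947 x45949 x45951 x45959 x45961 x45965 x45967 x45969 x45973 x45975 x45983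
    x45985 x45987 x45991 x45993 x45999 x46013 x46015 x46019 x46021 x46023 x46027 x46029 x46037
    x46039 x46041 x46045 x46047 x46053 x46063 x46065 x46071 x46091 x46093 x46095 x46099 x46101
    x46107 x46117 x46119 x46125 x46143 x46175 x46177 x46181 x46183 x46185 x46189 x46191 x46199
    x46201 x46203 x46207 x46209 x46215 x46225 x46227 x46233 x46253 x46255 x46257 x46261 x46263
    x46269 x46279 x46281 x46287 x46305 x46333 x46335 x46341 x46359 x46415 x46417 x46419 x46423
    x46425 x46431 x46441 x46443 x46449 x46467 x46495 x46497 x46503 x46521 x46575 x46661 x46663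
    x46667 x46669 x46671 x46675 x46677 x46685 x46687 x46689 x46693 x46695 x46701 x46711 x46713
    x46719 x46739 x46741 x46743 x46747 x46749 x46755 x46765 x46767 x46773 x46791 x46819 x46821
    x46827 x46845 x46901 x46903 x46905 x46909 x46911 x46917 x46927 x46929 x46935 x46953 x46981
    x46983 x46989 x47007 x47061 x47143 x47145 x47151 x47169 x47223 x47387 x47389 x47391 x47395
    x47397 x47403 x47413 x47415 x47421 x47439 x47467 x47469 x47475 x47493 x47547 x47629 x47631
    x47637 x47655 x47709 x47871 x48119 x48121 x48125 x48127 x48129 x48133 x48135 x48143 x48145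
    x48147 x48151 x48153 x48159 x48169 x48171 x48177 x48197 x48199 x48201 x48205 x48207 x48213
    x48223 x48225 x48231 x48249 x48277 x48279 x48285 x48303 x48359 x48361 x48363 x48367 x48369
    x48375 x48385 x48387 x48393 x48411 x48439 x48441 x48447 x48465 x48519 x48601 x48603 x48609
    x48627 x48681 x48845 x48847 x48849 x48853 x48855 x48861 x48871 x48873 x48879 x48897 x48925
    x48927 x48933 x48951 x49005 x49087 x49089 x49095 x49113 x49167 x49329 x49573 x49575 x49581
    x49599 x49653 x49815 x50303 x50305 x50307 x50311 x50313 x50319 x50329 x50331 x50337 x50355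
    x50383 x50385 x50391 x50409 x50463 x50545 x50547 x50553 x50571 x50625 x50787 x51031 x51033
    x51039 x51057 x51111 x51273 x51759 x52493 x52495 x52499 x52501 x52503 x52507 x52509 x52517
    x52519 x52521 x52525 x52527 x52533 x52543 x52545 x52551 x52571 x52573 x52575 x52579 x52581
    x52587 x52597 x52599 x52605 x52623 x52651 x52653 x52659 x52677 x52733 x52735 x52737 x52741
    x52743 x52749 x52759 x52761 x52767 x52785 x52813 x52815 x52821 x52839 x52893 x52975 x52977
    x52983 x53001 x53055 x53219 x53221 x53223 x53227 x53229 x53235 x53245 x53247 x53253 x53271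
    x53299 x53301 x53307 x53325 x53379 x53461 x53463 x53469 x53487 x53541 x53703 x53947 x53949
    x53955 x53973 x54027 x54189 x54677 x54679 x54681 x54685 x54687 x54693 x54703 x54705 x54711
    x54729 x54757 x54759 x54765 x54783 x54837 x54919 x54921 x54927 x54945 x54999 x55161 x55405
    x55407 x55413 x55431 x55485 x55647 x56133 x56863 x56865 x56871 x56889 x56943 x57105 x57591 : Nat) : Bool :=
  k
    (Nat.sub (Nat.add (Nat.add (Nat.add (Nat.add (Nat.add C (Nat.mul x53 (nat_lit 6))) x107) x71) x19735) (Nat.mul (e (nat_lit 53)) ap)) (Nat.mul (e (nat_lit 53)) an))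
    (Nat.sub (Nat.add (Nat.add (Nat.add (Nat.add (Nat.add (Nat.add C (Nat.mul x71 (nat_lit 4))) x125) x53) x77) x19753) (Nat.mul (e (nat_lit 71)) ap)) (Nat.mul (e (nat_lit 71)) an))
    (Nat.add (Nat.add (Nat.add (Nat.add (Nat.add C (Nat.mul x77 (nat_lit 4))) x131) x71) x79) x19759)
    (Nat.add (Nat.add (Nat.add (Nat.add C (Nat.mul x79 (nat_lit 6))) x133) x77) x19761)
    (Nat.sub (Nat.add (Nat.add (Nat.add (Nat.add (Nat.add (Nat.add C (Nat.mul x107 (nat_lit 4))) x269) x53) x125) x19789) (Nat.mul (e (nat_lit 107)) ap)) (Nat.mul (e (nat_lit 107)) an))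
    (Nat.sub (Nat.add (Nat.add (Nat.add (Nat.add (Nat.add (Nat.add (Nat.add (Nat.add (Nat.add C (Nat.mul x125 (nat_lit 4))) x287) x71) x179) x107) x143) x131) x19807) (Nat.mul (e (nat_lit 125)) ap)) (Nat.mul (e (nat_lit 125)) an))
    (Nat.sub (Nat.add (Nat.add (Nat.add (Nat.add (Nat.add (Nat.add (Nat.add (Nat.add (Nat.add C (Nat.mul x131 (nat_lit 3))) x293) x77) x185) x149) x125) x133) x19813) (Nat.mul (e (nat_lit 131)) ap)) (Nat.mul (e (nat_lit 131)) an))
    (Nat.sub (Nat.add (Nat.add (Nat.add (Nat.add (Nat.add (Nat.add (Nat.add (Nat.add C (Nat.mul x133 (nat_lit 5))) x295) x79) x187) x151) x131) x19815) (Nat.mul (e (nat_lit 133)) ap)) (Nat.mul (e (nat_lit 133)) an))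
    (Nat.sub (Nat.add (Nat.add (Nat.add (Nat.add (Nat.add (Nat.add (Nat.add C (Nat.mul x143 (nat_lit 2))) x305) x197) x125) x149) x19825) (Nat.mul (e (nat_lit 143)) ap)) (Nat.mul (e (nat_lit 143)) an))
    (Nat.sub (Nat.add (Nat.add (Nat.add (Nat.add (Nat.add (Nat.add (Nat.add (Nat.add (Nat.add C (Nat.mul x149 (nat_lit 3))) x311) x203) x131) x143) x155) x151) x19831) (Nat.mul (e (nat_lit 149)) ap)) (Nat.mul (e (nat_lit 149)) an))
    (Nat.sub (Nat.add (Nat.add (Nat.add (Nat.add (Nat.add (Nat.add (Nat.add (Nat.add C (Nat.mul x151 (nat_lit 4))) x313) x205) x133) x157) x149) x19833) (Nat.mul (e (nat_lit 151)) ap)) (Nat.mul (e (nat_lit 151)) an))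
    (Nat.sub (Nat.add (Nat.add (Nat.add (Nat.add (Nat.add (Nat.add (Nat.add C (Nat.mul x155 (nat_lit 2))) x317) x209) x149) x157) x19837) (Nat.mul (e (nat_lit 155)) ap)) (Nat.mul (e (nat_lit 155)) an))
    (Nat.add (Nat.add (Nat.add (Nat.add (Nat.add (Nat.add (Nat.add C (Nat.mul x157 (nat_lit 5))) x319) x211) x151) x155) x159) x19839)
    (Nat.add (Nat.add (Nat.add (Nat.add C (Nat.mul x159 (nat_lit 6))) x321) x213) x157)
    (Nat.sub (Nat.add (Nat.add (Nat.add (Nat.add (Nat.add (Nat.add (Nat.add C (Nat.mul x179 (nat_lit 2))) x341) x125) x197) x185) x19861) (Nat.mul (e (nat_lit 179)) ap)) (Nat.mul (e (nat_lit 179)) an))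
    (Nat.sub (Nat.add (Nat.add (Nat.add (Nat.add (Nat.add (Nat.add (Nat.add C x347) x131) x203) x179) x187) x19867) (Nat.mul (e (nat_lit 185)) ap)) (Nat.mul (e (nat_lit 185)) an))
    (Nat.add (Nat.add (Nat.add (Nat.add (Nat.add (Nat.add C (Nat.mul x187 (nat_lit 2))) x349) x133) x205) x185) x19869)
    (Nat.sub (Nat.add (Nat.add (Nat.add (Nat.add (Nat.add (Nat.add (Nat.add C (Nat.mul x197 (nat_lit 2))) x359) x143) x179) x203) x19879) (Nat.mul (e (nat_lit 197)) ap)) (Nat.mul (e (nat_lit 197)) an))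
    (Nat.sub (Nat.add (Nat.add (Nat.add (Nat.add (Nat.add (Nat.add (Nat.add (Nat.add (Nat.add (Nat.add C (Nat.mul x203 (nat_lit 2))) x365) x149) x185) x221) x197) x209) x205) x19885) (Nat.mul (e (nat_lit 203)) ap)) (Nat.mul (e (nat_lit 203)) an))
    (Nat.add (Nat.add (Nat.add (Nat.add (Nat.add (Nat.add (Nat.add (Nat.add C (Nat.mul x205 (nat_lit 3))) x367) x151) x187) x223) x211) x203) x19887)
    (Nat.add (Nat.add (Nat.add (Nat.add (Nat.add (Nat.add C x371) x155) x227) x203) x211) x19891)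
    (Nat.add (Nat.add (Nat.add (Nat.add (Nat.add (Nat.add (Nat.add (Nat.add C (Nat.mul x211 (nat_lit 3))) x373) x157) x229) x205) x209) x213) x19893)
    (Nat.add (Nat.add (Nat.add (Nat.add (Nat.add C (Nat.mul x213 (nat_lit 4))) x375) x159) x231) x211)
    (Nat.add (Nat.add (Nat.add (Nat.add (Nat.add (Nat.add C (Nat.mul x221 (nat_lit 2))) x383) x203) x227) x223) x19903)
    (Nat.add (Nat.add (Nat.add (Nat.add (Nat.add (Nat.add C (Nat.mul x223 (nat_lit 2))) x385) x205) x229) x221) x19905)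
    (Nat.add (Nat.add (Nat.add (Nat.add (Nat.add (Nat.add C (Nat.mul x227 (nat_lit 2))) x389) x209) x221) x229) x19909)
    (Nat.add (Nat.add (Nat.add (Nat.add (Nat.add (Nat.add (Nat.add (Nat.add C (Nat.mul x229 (nat_lit 4))) x391) x211) x223) x235) x227) x231) x19911)
    (Nat.add (Nat.add (Nat.add (Nat.add (Nat.add C (Nat.mul x231 (nat_lit 4))) x393) x213) x237) x229)
    (Nat.add (Nat.add (Nat.add (Nat.add (Nat.add C (Nat.mul x235 (nat_lit 4))) x397) x229) x237) x19917)
    (Nat.add (Nat.add (Nat.add (Nat.add C (Nat.mul x237 (nat_lit 6))) x399) x231) x235)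
    (Nat.sub (Nat.add (Nat.add (Nat.add (Nat.add (Nat.add (Nat.add C (Nat.mul x269 (nat_lit 4))) x755) x107) x287) x19951) (Nat.mul (e (nat_lit 269)) ap)) (Nat.mul (e (nat_lit 269)) an))
    (Nat.sub (Nat.add (Nat.add (Nat.add (Nat.add (Nat.add (Nat.add (Nat.add (Nat.add (Nat.add C (Nat.mul x287 (nat_lit 3))) x773) x125) x341) x269) x305) x293) x19969) (Nat.mul (e (nat_lit 287)) ap)) (Nat.mul (e (nat_lit 287)) an))
    (Nat.sub (Nat.add (Nat.add (Nat.add (Nat.add (Nat.add (Nat.add (Nat.add (Nat.add (Nat.add C (Nat.mul x293 (nat_lit 2))) x779) x131) x347) x311) x287) x295) x19975) (Nat.mul (e (nat_lit 293)) ap)) (Nat.mul (e (nat_lit 293)) an))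
    (Nat.sub (Nat.add (Nat.add (Nat.add (Nat.add (Nat.add (Nat.add (Nat.add (Nat.add C (Nat.mul x295 (nat_lit 4))) x781) x133) x349) x313) x293) x19977) (Nat.mul (e (nat_lit 295)) ap)) (Nat.mul (e (nat_lit 295)) an))
    (Nat.sub (Nat.add (Nat.add (Nat.add (Nat.add (Nat.add (Nat.add (Nat.add C x791) x143) x359) x287) x311) x19987) (Nat.mul (e (nat_lit 305)) ap)) (Nat.mul (e (nat_lit 305)) an))
    (Nat.sub (Nat.add (Nat.add (Nat.add (Nat.add (Nat.add (Nat.add (Nat.add (Nat.add (Nat.add (Nat.add C x311) x797) x149) x365) x293) x305) x317) x313) x19993) (Nat.mul (e (nat_lit 311)) ap)) (Nat.mul (e (nat_lit 311)) an))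
    (Nat.sub (Nat.add (Nat.add (Nat.add (Nat.add (Nat.add (Nat.add (Nat.add (Nat.add (Nat.add C (Nat.mul x313 (nat_lit 2))) x799) x151) x367) x295) x319) x311) x19995) (Nat.mul (e (nat_lit 313)) ap)) (Nat.mul (e (nat_lit 313)) an))
    (Nat.sub (Nat.add (Nat.add (Nat.add (Nat.add (Nat.add (Nat.add (Nat.add C x803) x155) x371) x311) x319) x19999) (Nat.mul (e (nat_lit 317)) ap)) (Nat.mul (e (nat_lit 317)) an))
    (Nat.sub (Nat.add (Nat.add (Nat.add (Nat.add (Nat.add (Nat.add (Nat.add (Nat.add (Nat.add C (Nat.mul x319 (nat_lit 3))) x805) x157) x373) x313) x317) x321) x20001) (Nat.mul (e (nat_lit 319)) ap)) (Nat.mul (e (nat_lit 319)) an))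
    (Nat.add (Nat.add (Nat.add (Nat.add (Nat.add C (Nat.mul x321 (nat_lit 4))) x807) x159) x375) x319)
    (Nat.sub (Nat.add (Nat.add (Nat.add (Nat.add (Nat.add (Nat.add (Nat.add (Nat.add (Nat.add C (Nat.mul x341 (nat_lit 3))) x827) x179) x503) x287) x359) x347) x20023) (Nat.mul (e (nat_lit 341)) ap)) (Nat.mul (e (nat_lit 341)) an))
    (Nat.sub (Nat.add (Nat.add (Nat.add (Nat.add (Nat.add (Nat.add (Nat.add (Nat.add (Nat.add (Nat.add C x347) x833) x185) x509) x293) x365) x341) x349) x20029) (Nat.mul (e (nat_lit 347)) ap)) (Nat.mul (e (nat_lit 347)) an))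
    (Nat.sub (Nat.add (Nat.add (Nat.add (Nat.add (Nat.add (Nat.add (Nat.add (Nat.add (Nat.add C (Nat.mul x349 (nat_lit 3))) x835) x187) x511) x295) x367) x347) x20031) (Nat.mul (e (nat_lit 349)) ap)) (Nat.mul (e (nat_lit 349)) an))
    (Nat.sub (Nat.add (Nat.add (Nat.add (Nat.add (Nat.add (Nat.add (Nat.add (Nat.add (Nat.add (Nat.add C (Nat.mul x359 (nat_lit 2))) x845) x197) x521) x305) x413) x341) x365) x20041) (Nat.mul (e (nat_lit 359)) ap)) (Nat.mul (e (nat_lit 359)) an))
    (Nat.sub (Nat.add (Nat.add (Nat.add (Nat.add (Nat.add (Nat.add (Nat.add (Nat.add (Nat.add (Nat.add (Nat.add (Nat.add (Nat.add C (Nat.mul x365 (nat_lit 2))) x851) x203) x527) x311) x419) x347) x383) x359) x371) x367) x20047) (Nat.mul (e (nat_lit 365)) ap)) (Nat.mul (e (nat_lit 365)) an))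
    (Nat.sub (Nat.add (Nat.add (Nat.add (Nat.add (Nat.add (Nat.add (Nat.add (Nat.add (Nat.add (Nat.add (Nat.add (Nat.add C (Nat.mul x367 (nat_lit 3))) x853) x205) x529) x313) x421) x349) x385) x373) x365) x20049) (Nat.mul (e (nat_lit 367)) ap)) (Nat.mul (e (nat_lit 367)) an))
    (Nat.sub (Nat.add (Nat.add (Nat.add (Nat.add (Nat.add (Nat.add (Nat.add (Nat.add (Nat.add (Nat.add C x857) x209) x533) x317) x425) x389) x365) x373) x20053) (Nat.mul (e (nat_lit 371)) ap)) (Nat.mul (e (nat_lit 371)) an))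
    (Nat.sub (Nat.add (Nat.add (Nat.add (Nat.add (Nat.add (Nat.add (Nat.add (Nat.add (Nat.add (Nat.add (Nat.add (Nat.add C (Nat.mul x373 (nat_lit 3))) x859) x211) x535) x319) x427) x391) x367) x371) x375) x20055) (Nat.mul (e (nat_lit 373)) ap)) (Nat.mul (e (nat_lit 373)) an))
    (Nat.add (Nat.add (Nat.add (Nat.add (Nat.add (Nat.add (Nat.add (Nat.add C (Nat.mul x375 (nat_lit 4))) x861) x213) x537) x321) x429) x393) x373)
    (Nat.sub (Nat.add (Nat.add (Nat.add (Nat.add (Nat.add (Nat.add (Nat.add (Nat.add (Nat.add (Nat.add C x383) x869) x221) x545) x437) x365) x389) x385) x20065) (Nat.mul (e (nat_lit 383)) ap)) (Nat.mul (e (nat_lit 383)) an))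
    (Nat.sub (Nat.add (Nat.add (Nat.add (Nat.add (Nat.add (Nat.add (Nat.add (Nat.add (Nat.add (Nat.add C x385) x871) x223) x547) x439) x367) x391) x383) x20067) (Nat.mul (e (nat_lit 385)) ap)) (Nat.mul (e (nat_lit 385)) an))
    (Nat.sub (Nat.add (Nat.add (Nat.add (Nat.add (Nat.add (Nat.add (Nat.add (Nat.add (Nat.add (Nat.add C x389) x875) x227) x551) x443) x371) x383) x391) x20071) (Nat.mul (e (nat_lit 389)) ap)) (Nat.mul (e (nat_lit 389)) an))
    (Nat.add (Nat.add (Nat.add (Nat.add (Nat.add (Nat.add (Nat.add (Nat.add (Nat.add (Nat.add (Nat.add C (Nat.mul x391 (nat_lit 3))) x877) x229) x553) x445) x373) x385) x397) x389) x393) x20073)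
    (Nat.add (Nat.add (Nat.add (Nat.add (Nat.add (Nat.add (Nat.add (Nat.add C (Nat.mul x393 (nat_lit 3))) x879) x231) x555) x447) x375) x399) x391)
    (Nat.add (Nat.add (Nat.add (Nat.add (Nat.add (Nat.add (Nat.add (Nat.add C (Nat.mul x397 (nat_lit 3))) x883) x235) x559) x451) x391) x399) x20079)
    (Nat.add (Nat.add (Nat.add (Nat.add (Nat.add (Nat.add (Nat.add C (Nat.mul x399 (nat_lit 5))) x885) x237) x561) x453) x393) x397)
    (Nat.sub (Nat.add (Nat.add (Nat.add (Nat.add (Nat.add (Nat.add (Nat.add C (Nat.mul x413 (nat_lit 2))) x899) x575) x359) x419) x20095) (Nat.mul (e (nat_lit 413)) ap)) (Nat.mul (e (nat_lit 413)) an))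
    (Nat.sub (Nat.add (Nat.add (Nat.add (Nat.add (Nat.add (Nat.add (Nat.add (Nat.add (Nat.add (Nat.add C x419) x905) x581) x365) x437) x413) x425) x421) x20101) (Nat.mul (e (nat_lit 419)) ap)) (Nat.mul (e (nat_lit 419)) an))
    (Nat.sub (Nat.add (Nat.add (Nat.add (Nat.add (Nat.add (Nat.add (Nat.add (Nat.add (Nat.add C (Nat.mul x421 (nat_lit 2))) x907) x583) x367) x439) x427) x419) x20103) (Nat.mul (e (nat_lit 421)) ap)) (Nat.mul (e (nat_lit 421)) an))
    (Nat.sub (Nat.sub (Nat.add (Nat.add (Nat.add (Nat.add (Nat.add (Nat.add (Nat.add (Nat.add C x911) x587) x371) x443) x419) x427) x20107) (Nat.mul (e (nat_lit 425)) ap)) (Nat.mul x425 (nat_lit 2))) (Nat.mul (e (nat_lit 425)) an))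
    (Nat.add (Nat.add (Nat.add (Nat.add (Nat.add (Nat.add (Nat.add (Nat.add (Nat.add C x427) x913) x589) x373) x445) x421) x425) x429) x20109)
    (Nat.add (Nat.add (Nat.add (Nat.add (Nat.add (Nat.add C (Nat.mul x429 (nat_lit 2))) x915) x591) x375) x447) x427)
    (Nat.sub (Nat.add (Nat.add (Nat.add (Nat.add (Nat.add (Nat.add (Nat.add (Nat.add (Nat.add C (Nat.mul x437 (nat_lit 2))) x923) x599) x383) x419) x443) x439) x20119) (Nat.mul (e (nat_lit 437)) ap)) (Nat.mul (e (nat_lit 437)) an))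
    (Nat.add (Nat.add (Nat.add (Nat.add (Nat.add (Nat.add (Nat.add (Nat.add C (Nat.mul x439 (nat_lit 2))) x925) x601) x385) x421) x445) x437) x20121)
    (Nat.sub (Nat.add (Nat.add (Nat.add (Nat.add (Nat.add (Nat.add (Nat.add (Nat.add (Nat.add (Nat.add C x443) x929) x605) x389) x425) x461) x437) x445) x20125) (Nat.mul (e (nat_lit 443)) ap)) (Nat.mul (e (nat_lit 443)) an))
    (Nat.add (Nat.add (Nat.add (Nat.add (Nat.add (Nat.add (Nat.add (Nat.add (Nat.add (Nat.add (Nat.add C (Nat.mul x445 (nat_lit 3))) x931) x607) x391) x427) x463) x439) x451) x443) x447) x20127)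
    (Nat.add (Nat.add (Nat.add (Nat.add (Nat.add (Nat.add (Nat.add (Nat.add C (Nat.mul x447 (nat_lit 3))) x933) x609) x393) x429) x465) x453) x445)
    (Nat.add (Nat.add (Nat.add (Nat.add (Nat.add (Nat.add (Nat.add (Nat.add C (Nat.mul x451 (nat_lit 2))) x937) x613) x397) x469) x445) x453) x20133)
    (Nat.add (Nat.add (Nat.add (Nat.add (Nat.add (Nat.add (Nat.add C (Nat.mul x453 (nat_lit 4))) x939) x615) x399) x471) x447) x451)
    (Nat.sub (Nat.add (Nat.add (Nat.add (Nat.add (Nat.add (Nat.add (Nat.add C (Nat.mul x461 (nat_lit 2))) x947) x623) x443) x463) x20143) (Nat.mul (e (nat_lit 461)) ap)) (Nat.mul (e (nat_lit 461)) an))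
    (Nat.add (Nat.add (Nat.add (Nat.add (Nat.add (Nat.add (Nat.add (Nat.add C (Nat.mul x463 (nat_lit 3))) x949) x625) x445) x469) x461) x465) x20145)
    (Nat.add (Nat.add (Nat.add (Nat.add (Nat.add (Nat.add C (Nat.mul x465 (nat_lit 2))) x951) x627) x447) x471) x463)
    (Nat.add (Nat.add (Nat.add (Nat.add (Nat.add (Nat.add (Nat.add C (Nat.mul x469 (nat_lit 4))) x955) x631) x451) x463) x471) x20151)
    (Nat.add (Nat.add (Nat.add (Nat.add (Nat.add (Nat.add (Nat.add C (Nat.mul x471 (nat_lit 5))) x957) x633) x453) x465) x477) x469)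
    (Nat.add (Nat.add (Nat.add (Nat.add C (Nat.mul x477 (nat_lit 6))) x963) x639) x471)
    (Nat.sub (Nat.add (Nat.add (Nat.add (Nat.add (Nat.add (Nat.add (Nat.add C (Nat.mul x503 (nat_lit 2))) x989) x341) x521) x509) x20185) (Nat.mul (e (nat_lit 503)) ap)) (Nat.mul (e (nat_lit 503)) an))
    (Nat.sub (Nat.add (Nat.add (Nat.add (Nat.add (Nat.add (Nat.add (Nat.add C x995) x347) x527) x503) x511) x20191) (Nat.mul (e (nat_lit 509)) ap)) (Nat.mul (e (nat_lit 509)) an))
    (Nat.add (Nat.add (Nat.add (Nat.add (Nat.add (Nat.add C (Nat.mul x511 (nat_lit 2))) x997) x349) x529) x509) x20193)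
    (Nat.sub (Nat.add (Nat.add (Nat.add (Nat.add (Nat.add (Nat.add (Nat.add C x1007) x359) x575) x503) x527) x20203) (Nat.mul (e (nat_lit 521)) ap)) (Nat.mul (e (nat_lit 521)) an))
    (Nat.sub (Nat.add (Nat.add (Nat.add (Nat.add (Nat.add (Nat.add (Nat.add (Nat.add (Nat.add (Nat.add C x1013) x365) x581) x509) x545) x521) x533) x529) x20209) (Nat.mul (e (nat_lit 527)) ap)) (Nat.mul (e (nat_lit 527)) an))
    (Nat.add (Nat.add (Nat.add (Nat.add (Nat.add (Nat.add (Nat.add (Nat.add (Nat.add C x529) x1015) x367) x583) x511) x547) x535) x527) x20211)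
    (Nat.sub (Nat.sub (Nat.add (Nat.add (Nat.add (Nat.add (Nat.add (Nat.add (Nat.add (Nat.add C x1019) x371) x587) x551) x527) x535) x20215) (Nat.mul (e (nat_lit 533)) ap)) (Nat.mul x533 (nat_lit 2))) (Nat.mul (e (nat_lit 533)) an))
    (Nat.add (Nat.add (Nat.add (Nat.add (Nat.add (Nat.add (Nat.add (Nat.add (Nat.add C x535) x1021) x373) x589) x553) x529) x533) x537) x20217)
    (Nat.add (Nat.add (Nat.add (Nat.add (Nat.add (Nat.add C (Nat.mul x537 (nat_lit 2))) x1023) x375) x591) x555) x535)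
    (Nat.sub (Nat.sub (Nat.add (Nat.add (Nat.add (Nat.add (Nat.add (Nat.add (Nat.add (Nat.add C x1031) x383) x599) x527) x551) x547) x20227) (Nat.mul (e (nat_lit 545)) ap)) (Nat.mul x545 (nat_lit 2))) (Nat.mul (e (nat_lit 545)) an))
    (Nat.sub (Nat.add (Nat.add (Nat.add (Nat.add (Nat.add (Nat.add (Nat.add C x1033) x385) x601) x529) x553) x545) x20229) (Nat.mul x547 (nat_lit 2)))
    (Nat.sub (Nat.add (Nat.add (Nat.add (Nat.add (Nat.add (Nat.add (Nat.add C x1037) x389) x605) x533) x545) x553) x20233) (Nat.mul x551 (nat_lit 2)))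
    (Nat.add (Nat.add (Nat.add (Nat.add (Nat.add (Nat.add (Nat.add (Nat.add (Nat.add C x1039) x391) x607) x535) x547) x559) x551) x555) x20235)
    (Nat.add (Nat.add (Nat.add (Nat.add (Nat.add (Nat.add C x1041) x393) x609) x537) x561) x553)
    (Nat.add (Nat.add (Nat.add (Nat.add (Nat.add (Nat.add C x1045) x397) x613) x553) x561) x20241)
    (Nat.add (Nat.add (Nat.add (Nat.add (Nat.add (Nat.add C (Nat.mul x561 (nat_lit 2))) x1047) x399) x615) x555) x559)
    (Nat.sub (Nat.add (Nat.add (Nat.add (Nat.add (Nat.add (Nat.add (Nat.add C (Nat.mul x575 (nat_lit 2))) x1061) x413) x521) x581) x20257) (Nat.mul (e (nat_lit 575)) ap)) (Nat.mul (e (nat_lit 575)) an))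
    (Nat.sub (Nat.add (Nat.add (Nat.add (Nat.add (Nat.add (Nat.add (Nat.add (Nat.add (Nat.add (Nat.add C x581) x1067) x419) x527) x599) x575) x587) x583) x20263) (Nat.mul (e (nat_lit 581)) ap)) (Nat.mul (e (nat_lit 581)) an))
    (Nat.add (Nat.add (Nat.add (Nat.add (Nat.add (Nat.add (Nat.add (Nat.add C (Nat.mul x583 (nat_lit 2))) x1069) x421) x529) x601) x589) x581) x20265)
    (Nat.sub (Nat.add (Nat.add (Nat.add (Nat.add (Nat.add (Nat.add (Nat.add C x1073) x425) x533) x605) x581) x589) x20269) (Nat.mul x587 (nat_lit 2)))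
    (Nat.add (Nat.add (Nat.add (Nat.add (Nat.add (Nat.add (Nat.add (Nat.add (Nat.add C x589) x1075) x427) x535) x607) x583) x587) x591) x20271)
    (Nat.add (Nat.add (Nat.add (Nat.add (Nat.add (Nat.add C (Nat.mul x591 (nat_lit 2))) x1077) x429) x537) x609) x589)
    (Nat.add (Nat.add (Nat.add (Nat.add (Nat.add (Nat.add (Nat.add (Nat.add (Nat.add C x599) x1085) x437) x545) x653) x581) x605) x601) x20281)
    (Nat.add (Nat.add (Nat.add (Nat.add (Nat.add (Nat.add (Nat.add (Nat.add (Nat.add C x601) x1087) x439) x547) x655) x583) x607) x599) x20283)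
    (Nat.add (Nat.add (Nat.add (Nat.add (Nat.add (Nat.add (Nat.add (Nat.add (Nat.add C x1091) x443) x551) x659) x587) x623) x599) x607) x20287)
    (Nat.add (Nat.add (Nat.add (Nat.add (Nat.add (Nat.add (Nat.add (Nat.add (Nat.add (Nat.add (Nat.add (Nat.add C (Nat.mul x607 (nat_lit 2))) x1093) x445) x553) x661) x589) x625) x601) x613) x605) x609) x20289)
    (Nat.add (Nat.add (Nat.add (Nat.add (Nat.add (Nat.add (Nat.add (Nat.add (Nat.add C (Nat.mul x609 (nat_lit 2))) x1095) x447) x555) x663) x591) x627) x615) x607)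
    (Nat.add (Nat.add (Nat.add (Nat.add (Nat.add (Nat.add (Nat.add (Nat.add (Nat.add C x613) x1099) x451) x559) x667) x631) x607) x615) x20295)
    (Nat.add (Nat.add (Nat.add (Nat.add (Nat.add (Nat.add (Nat.add (Nat.add C (Nat.mul x615 (nat_lit 3))) x1101) x453) x561) x669) x633) x609) x613)
    (Nat.add (Nat.add (Nat.add (Nat.add (Nat.add (Nat.add C x1109) x461) x677) x605) x625) x20305)
    (Nat.add (Nat.add (Nat.add (Nat.add (Nat.add (Nat.add (Nat.add (Nat.add (Nat.add C x625) x1111) x463) x679) x607) x631) x623) x627) x20307)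
    (Nat.add (Nat.add (Nat.add (Nat.add (Nat.add (Nat.add C x1113) x465) x681) x609) x633) x625)
    (Nat.add (Nat.add (Nat.add (Nat.add (Nat.add (Nat.add (Nat.add (Nat.add C (Nat.mul x631 (nat_lit 2))) x1117) x469) x685) x613) x625) x633) x20313)
    (Nat.add (Nat.add (Nat.add (Nat.add (Nat.add (Nat.add (Nat.add (Nat.add C (Nat.mul x633 (nat_lit 3))) x1119) x471) x687) x615) x627) x639) x631)
    (Nat.add (Nat.add (Nat.add (Nat.add (Nat.add C (Nat.mul x639 (nat_lit 4))) x1125) x477) x693) x633)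
    (Nat.add (Nat.add (Nat.add (Nat.add (Nat.add (Nat.add C (Nat.mul x653 (nat_lit 2))) x1139) x599) x659) x655) x20335)
    (Nat.add (Nat.add (Nat.add (Nat.add (Nat.add (Nat.add C (Nat.mul x655 (nat_lit 2))) x1141) x601) x661) x653) x20337)
    (Nat.add (Nat.add (Nat.add (Nat.add (Nat.add (Nat.add C x1145) x605) x677) x653) x661) x20341)
    (Nat.add (Nat.add (Nat.add (Nat.add (Nat.add (Nat.add (Nat.add (Nat.add (Nat.add C (Nat.mul x661 (nat_lit 2))) x1147) x607) x679) x655) x667) x659) x663) x20343)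
    (Nat.add (Nat.add (Nat.add (Nat.add (Nat.add (Nat.add C (Nat.mul x663 (nat_lit 2))) x1149) x609) x681) x669) x661)
    (Nat.add (Nat.add (Nat.add (Nat.add (Nat.add (Nat.add C x1153) x613) x685) x661) x669) x20349)
    (Nat.add (Nat.add (Nat.add (Nat.add (Nat.add (Nat.add C (Nat.mul x669 (nat_lit 2))) x1155) x615) x687) x663) x667)
    (Nat.add (Nat.add (Nat.add (Nat.add (Nat.add (Nat.add C (Nat.mul x677 (nat_lit 2))) x1163) x623) x659) x679) x20359)
    (Nat.add (Nat.add (Nat.add (Nat.add (Nat.add (Nat.add (Nat.add (Nat.add C (Nat.mul x679 (nat_lit 3))) x1165) x625) x661) x685) x677) x681) x20361)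
    (Nat.add (Nat.add (Nat.add (Nat.add (Nat.add (Nat.add C (Nat.mul x681 (nat_lit 2))) x1167) x627) x663) x687) x679)
    (Nat.add (Nat.add (Nat.add (Nat.add (Nat.add (Nat.add (Nat.add (Nat.add C (Nat.mul x685 (nat_lit 3))) x1171) x631) x667) x703) x679) x687) x20367)
    (Nat.add (Nat.add (Nat.add (Nat.add (Nat.add (Nat.add (Nat.add (Nat.add C (Nat.mul x687 (nat_lit 4))) x1173) x633) x669) x705) x681) x693) x685)
    (Nat.add (Nat.add (Nat.add (Nat.add (Nat.add C (Nat.mul x693 (nat_lit 4))) x1179) x639) x711) x687)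
    (Nat.add (Nat.add (Nat.add (Nat.add (Nat.add C (Nat.mul x703 (nat_lit 4))) x1189) x685) x705) x20385)
    (Nat.add (Nat.add (Nat.add (Nat.add (Nat.add C (Nat.mul x705 (nat_lit 4))) x1191) x687) x711) x703)
    (Nat.add (Nat.add (Nat.add (Nat.add C (Nat.mul x711 (nat_lit 6))) x1197) x693) x705)
    (Nat.sub (Nat.add (Nat.add (Nat.add (Nat.add (Nat.add (Nat.add C (Nat.mul x755 (nat_lit 4))) x2213) x269) x773) x20437) (Nat.mul (e (nat_lit 755)) ap)) (Nat.mul (e (nat_lit 755)) an))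
    (Nat.sub (Nat.add (Nat.add (Nat.add (Nat.add (Nat.add (Nat.add (Nat.add (Nat.add (Nat.add C (Nat.mul x773 (nat_lit 3))) x2231) x287) x827) x755) x791) x779) x20455) (Nat.mul (e (nat_lit 773)) ap)) (Nat.mul (e (nat_lit 773)) an))
    (Nat.sub (Nat.add (Nat.add (Nat.add (Nat.add (Nat.add (Nat.add (Nat.add (Nat.add (Nat.add C (Nat.mul x779 (nat_lit 2))) x2237) x293) x833) x797) x773) x781) x20461) (Nat.mul (e (nat_lit 779)) ap)) (Nat.mul (e (nat_lit 779)) an))
    (Nat.sub (Nat.add (Nat.add (Nat.add (Nat.add (Nat.add (Nat.add (Nat.add (Nat.add C (Nat.mul x781 (nat_lit 4))) x2239) x295) x835) x799) x779) x20463) (Nat.mul (e (nat_lit 781)) ap)) (Nat.mul (e (nat_lit 781)) an))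
    (Nat.sub (Nat.add (Nat.add (Nat.add (Nat.add (Nat.add (Nat.add (Nat.add C x2249) x305) x845) x773) x797) x20473) (Nat.mul (e (nat_lit 791)) ap)) (Nat.mul (e (nat_lit 791)) an))
    (Nat.sub (Nat.add (Nat.add (Nat.add (Nat.add (Nat.add (Nat.add (Nat.add (Nat.add (Nat.add (Nat.add C x797) x2255) x311) x851) x779) x791) x803) x799) x20479) (Nat.mul (e (nat_lit 797)) ap)) (Nat.mul (e (nat_lit 797)) an))
    (Nat.sub (Nat.add (Nat.add (Nat.add (Nat.add (Nat.add (Nat.add (Nat.add (Nat.add (Nat.add C (Nat.mul x799 (nat_lit 2))) x2257) x313) x853) x781) x805) x797) x20481) (Nat.mul (e (nat_lit 799)) ap)) (Nat.mul (e (nat_lit 799)) an))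
    (Nat.sub (Nat.add (Nat.add (Nat.add (Nat.add (Nat.add (Nat.add (Nat.add C x2261) x317) x857) x797) x805) x20485) (Nat.mul (e (nat_lit 803)) ap)) (Nat.mul (e (nat_lit 803)) an))
    (Nat.sub (Nat.add (Nat.add (Nat.add (Nat.add (Nat.add (Nat.add (Nat.add (Nat.add (Nat.add C (Nat.mul x805 (nat_lit 3))) x2263) x319) x859) x799) x803) x807) x20487) (Nat.mul (e (nat_lit 805)) ap)) (Nat.mul (e (nat_lit 805)) an))
    (Nat.add (Nat.add (Nat.add (Nat.add (Nat.add C (Nat.mul x807 (nat_lit 4))) x2265) x321) x861) x805)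
    (Nat.sub (Nat.add (Nat.add (Nat.add (Nat.add (Nat.add (Nat.add (Nat.add (Nat.add (Nat.add C (Nat.mul x827 (nat_lit 2))) x2285) x341) x989) x773) x845) x833) x20509) (Nat.mul (e (nat_lit 827)) ap)) (Nat.mul (e (nat_lit 827)) an))
    (Nat.sub (Nat.add (Nat.add (Nat.add (Nat.add (Nat.add (Nat.add (Nat.add (Nat.add (Nat.add C x2291) x347) x995) x779) x851) x827) x835) x20515) (Nat.mul (e (nat_lit 833)) ap)) (Nat.mul (e (nat_lit 833)) an))
    (Nat.sub (Nat.add (Nat.add (Nat.add (Nat.add (Nat.add (Nat.add (Nat.add (Nat.add (Nat.add C (Nat.mul x835 (nat_lit 2))) x2293) x349) x997) x781) x853) x833) x20517) (Nat.mul (e (nat_lit 835)) ap)) (Nat.mul (e (nat_lit 835)) an))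
    (Nat.sub (Nat.add (Nat.add (Nat.add (Nat.add (Nat.add (Nat.add (Nat.add (Nat.add (Nat.add (Nat.add C x845) x2303) x359) x1007) x791) x899) x827) x851) x20527) (Nat.mul (e (nat_lit 845)) ap)) (Nat.mul (e (nat_lit 845)) an))
    (Nat.sub (Nat.add (Nat.add (Nat.add (Nat.add (Nat.add (Nat.add (Nat.add (Nat.add (Nat.add (Nat.add (Nat.add (Nat.add (Nat.add C x851) x2309) x365) x1013) x797) x905) x833) x869) x845) x857) x853) x20533) (Nat.mul (e (nat_lit 851)) ap)) (Nat.mul (e (nat_lit 851)) an))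
    (Nat.sub (Nat.add (Nat.add (Nat.add (Nat.add (Nat.add (Nat.add (Nat.add (Nat.add (Nat.add (Nat.add (Nat.add (Nat.add C (Nat.mul x853 (nat_lit 2))) x2311) x367) x1015) x799) x907) x835) x871) x859) x851) x20535) (Nat.mul (e (nat_lit 853)) ap)) (Nat.mul (e (nat_lit 853)) an))
    (Nat.sub (Nat.sub (Nat.add (Nat.add (Nat.add (Nat.add (Nat.add (Nat.add (Nat.add (Nat.add (Nat.add (Nat.add C x2315) x371) x1019) x803) x911) x875) x851) x859) x20539) (Nat.mul (e (nat_lit 857)) ap)) x857) (Nat.mul (e (nat_lit 857)) an))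
    (Nat.sub (Nat.add (Nat.add (Nat.add (Nat.add (Nat.add (Nat.add (Nat.add (Nat.add (Nat.add (Nat.add (Nat.add (Nat.add C (Nat.mul x859 (nat_lit 2))) x2317) x373) x1021) x805) x913) x877) x853) x857) x861) x20541) (Nat.mul (e (nat_lit 859)) ap)) (Nat.mul (e (nat_lit 859)) an))
    (Nat.add (Nat.add (Nat.add (Nat.add (Nat.add (Nat.add (Nat.add (Nat.add C (Nat.mul x861 (nat_lit 3))) x2319) x375) x1023) x807) x915) x879) x859)
    (Nat.sub (Nat.add (Nat.add (Nat.add (Nat.add (Nat.add (Nat.add (Nat.add (Nat.add (Nat.add C x2327) x383) x1031) x923) x851) x875) x871) x20551) (Nat.mul (e (nat_lit 869)) ap)) (Nat.mul (e (nat_lit 869)) an))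
    (Nat.sub (Nat.add (Nat.add (Nat.add (Nat.add (Nat.add (Nat.add (Nat.add (Nat.add (Nat.add C x2329) x385) x1033) x925) x853) x877) x869) x20553) (Nat.mul (e (nat_lit 871)) ap)) (Nat.mul (e (nat_lit 871)) an))
    (Nat.sub (Nat.add (Nat.add (Nat.add (Nat.add (Nat.add (Nat.add (Nat.add (Nat.add (Nat.add C x2333) x389) x1037) x929) x857) x869) x877) x20557) (Nat.mul (e (nat_lit 875)) ap)) (Nat.mul (e (nat_lit 875)) an))
    (Nat.sub (Nat.add (Nat.add (Nat.add (Nat.add (Nat.add (Nat.add (Nat.add (Nat.add (Nat.add (Nat.add (Nat.add (Nat.add C (Nat.mul x877 (nat_lit 2))) x2335) x391) x1039) x931) x859) x871) x883) x875) x879) x20559) (Nat.mul (e (nat_lit 877)) ap)) (Nat.mul (e (nat_lit 877)) an))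
    (Nat.add (Nat.add (Nat.add (Nat.add (Nat.add (Nat.add (Nat.add (Nat.add C (Nat.mul x879 (nat_lit 2))) x2337) x393) x1041) x933) x861) x885) x877)
    (Nat.sub (Nat.add (Nat.add (Nat.add (Nat.add (Nat.add (Nat.add (Nat.add (Nat.add (Nat.add C (Nat.mul x883 (nat_lit 2))) x2341) x397) x1045) x937) x877) x885) x20565) (Nat.mul (e (nat_lit 883)) ap)) (Nat.mul (e (nat_lit 883)) an))
    (Nat.add (Nat.add (Nat.add (Nat.add (Nat.add (Nat.add (Nat.add C (Nat.mul x885 (nat_lit 4))) x2343) x399) x1047) x939) x879) x883)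
    (Nat.sub (Nat.add (Nat.add (Nat.add (Nat.add (Nat.add (Nat.add (Nat.add C x2357) x413) x1061) x845) x905) x20581) (Nat.mul (e (nat_lit 899)) ap)) (Nat.mul (e (nat_lit 899)) an))
    (Nat.sub (Nat.sub (Nat.add (Nat.add (Nat.add (Nat.add (Nat.add (Nat.add (Nat.add (Nat.add (Nat.add (Nat.add C x2363) x419) x1067) x851) x923) x899) x911) x907) x20587) (Nat.mul (e (nat_lit 905)) ap)) x905) (Nat.mul (e (nat_lit 905)) an))
    (Nat.sub (Nat.add (Nat.add (Nat.add (Nat.add (Nat.add (Nat.add (Nat.add (Nat.add (Nat.add C x2365) x421) x1069) x853) x925) x913) x905) x20589) (Nat.mul (e (nat_lit 907)) ap)) (Nat.mul (e (nat_lit 907)) an))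
    (Nat.sub (Nat.sub (Nat.add (Nat.add (Nat.add (Nat.add (Nat.add (Nat.add (Nat.add (Nat.add (Nat.add C x2369) x425) x1073) x857) x929) x905) x913) x20593) (Nat.mul (e (nat_lit 911)) ap)) (Nat.mul x911 (nat_lit 4))) (Nat.mul (e (nat_lit 911)) an))
    (Nat.sub (Nat.sub (Nat.add (Nat.add (Nat.add (Nat.add (Nat.add (Nat.add (Nat.add (Nat.add (Nat.add (Nat.add C x2371) x427) x1075) x859) x931) x907) x911) x915) x20595) (Nat.mul (e (nat_lit 913)) ap)) x913) (Nat.mul (e (nat_lit 913)) an))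
    (Nat.add (Nat.add (Nat.add (Nat.add (Nat.add (Nat.add C x2373) x429) x1077) x861) x933) x913)
    (Nat.sub (Nat.add (Nat.add (Nat.add (Nat.add (Nat.add (Nat.add (Nat.add (Nat.add (Nat.add C x2381) x437) x1085) x869) x905) x929) x925) x20605) (Nat.mul (e (nat_lit 923)) ap)) (Nat.mul (e (nat_lit 923)) an))
    (Nat.sub (Nat.add (Nat.add (Nat.add (Nat.add (Nat.add (Nat.add (Nat.add (Nat.add (Nat.add C x2383) x439) x1087) x871) x907) x931) x923) x20607) (Nat.mul (e (nat_lit 925)) ap)) (Nat.mul (e (nat_lit 925)) an))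
    (Nat.sub (Nat.sub (Nat.add (Nat.add (Nat.add (Nat.add (Nat.add (Nat.add (Nat.add (Nat.add (Nat.add (Nat.add C x2387) x443) x1091) x875) x911) x947) x923) x931) x20611) (Nat.mul (e (nat_lit 929)) ap)) x929) (Nat.mul (e (nat_lit 929)) an))
    (Nat.sub (Nat.add (Nat.add (Nat.add (Nat.add (Nat.add (Nat.add (Nat.add (Nat.add (Nat.add (Nat.add (Nat.add (Nat.add (Nat.add C x931) x2389) x445) x1093) x877) x913) x949) x925) x937) x929) x933) x20613) (Nat.mul (e (nat_lit 931)) ap)) (Nat.mul (e (nat_lit 931)) an))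
    (Nat.add (Nat.add (Nat.add (Nat.add (Nat.add (Nat.add (Nat.add (Nat.add (Nat.add C x933) x2391) x447) x1095) x879) x915) x951) x939) x931)
    (Nat.sub (Nat.add (Nat.add (Nat.add (Nat.add (Nat.add (Nat.add (Nat.add (Nat.add (Nat.add C x2395) x451) x1099) x883) x955) x931) x939) x20619) (Nat.mul (e (nat_lit 937)) ap)) (Nat.mul (e (nat_lit 937)) an))
    (Nat.add (Nat.add (Nat.add (Nat.add (Nat.add (Nat.add (Nat.add (Nat.add C (Nat.mul x939 (nat_lit 2))) x2397) x453) x1101) x885) x957) x933) x937)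
    (Nat.sub (Nat.add (Nat.add (Nat.add (Nat.add (Nat.add (Nat.add (Nat.add C x2405) x461) x1109) x929) x949) x20629) (Nat.mul (e (nat_lit 947)) ap)) (Nat.mul (e (nat_lit 947)) an))
    (Nat.sub (Nat.add (Nat.add (Nat.add (Nat.add (Nat.add (Nat.add (Nat.add (Nat.add (Nat.add (Nat.add C x949) x2407) x463) x1111) x931) x955) x947) x951) x20631) (Nat.mul (e (nat_lit 949)) ap)) (Nat.mul (e (nat_lit 949)) an))
    (Nat.add (Nat.add (Nat.add (Nat.add (Nat.add (Nat.add C x2409) x465) x1113) x933) x957) x949)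
    (Nat.add (Nat.add (Nat.add (Nat.add (Nat.add (Nat.add (Nat.add (Nat.add C (Nat.mul x955 (nat_lit 2))) x2413) x469) x1117) x937) x949) x957) x20637)
    (Nat.add (Nat.add (Nat.add (Nat.add (Nat.add (Nat.add (Nat.add (Nat.add C (Nat.mul x957 (nat_lit 3))) x2415) x471) x1119) x939) x951) x963) x955)
    (Nat.add (Nat.add (Nat.add (Nat.add (Nat.add C (Nat.mul x963 (nat_lit 4))) x2421) x477) x1125) x957)
    (Nat.sub (Nat.add (Nat.add (Nat.add (Nat.add (Nat.add (Nat.add (Nat.add (Nat.add (Nat.add C (Nat.mul x989 (nat_lit 3))) x2447) x503) x1475) x827) x1007) x995) x20671) (Nat.mul (e (nat_lit 989)) ap)) (Nat.mul (e (nat_lit 989)) an))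
    (Nat.sub (Nat.add (Nat.add (Nat.add (Nat.add (Nat.add (Nat.add (Nat.add (Nat.add (Nat.add (Nat.add C x995) x2453) x509) x1481) x833) x1013) x989) x997) x20677) (Nat.mul (e (nat_lit 995)) ap)) (Nat.mul (e (nat_lit 995)) an))
    (Nat.sub (Nat.add (Nat.add (Nat.add (Nat.add (Nat.add (Nat.add (Nat.add (Nat.add (Nat.add C (Nat.mul x997 (nat_lit 3))) x2455) x511) x1483) x835) x1015) x995) x20679) (Nat.mul (e (nat_lit 997)) ap)) (Nat.mul (e (nat_lit 997)) an))
    (Nat.sub (Nat.add (Nat.add (Nat.add (Nat.add (Nat.add (Nat.add (Nat.add (Nat.add (Nat.add (Nat.add C x1007) x2465) x521) x1493) x845) x1061) x989) x1013) x20689) (Nat.mul (e (nat_lit 1007)) ap)) (Nat.mul (e (nat_lit 1007)) an))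
    (Nat.sub (Nat.add (Nat.add (Nat.add (Nat.add (Nat.add (Nat.add (Nat.add (Nat.add (Nat.add (Nat.add (Nat.add (Nat.add (Nat.add C x1013) x2471) x527) x1499) x851) x1067) x995) x1031) x1007) x1019) x1015) x20695) (Nat.mul (e (nat_lit 1013)) ap)) (Nat.mul (e (nat_lit 1013)) an))
    (Nat.sub (Nat.add (Nat.add (Nat.add (Nat.add (Nat.add (Nat.add (Nat.add (Nat.add (Nat.add (Nat.add (Nat.add (Nat.add C (Nat.mul x1015 (nat_lit 2))) x2473) x529) x1501) x853) x1069) x997) x1033) x1021) x1013) x20697) (Nat.mul (e (nat_lit 1015)) ap)) (Nat.mul (e (nat_lit 1015)) an))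
    (Nat.sub (Nat.sub (Nat.add (Nat.add (Nat.add (Nat.add (Nat.add (Nat.add (Nat.add (Nat.add (Nat.add (Nat.add C x2477) x533) x1505) x857) x1073) x1037) x1013) x1021) x20701) (Nat.mul (e (nat_lit 1019)) ap)) x1019) (Nat.mul (e (nat_lit 1019)) an))
    (Nat.sub (Nat.add (Nat.add (Nat.add (Nat.add (Nat.add (Nat.add (Nat.add (Nat.add (Nat.add (Nat.add (Nat.add (Nat.add C (Nat.mul x1021 (nat_lit 2))) x2479) x535) x1507) x859) x1075) x1039) x1015) x1019) x1023) x20703) (Nat.mul (e (nat_lit 1021)) ap)) (Nat.mul (e (nat_lit 1021)) an))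
    (Nat.add (Nat.add (Nat.add (Nat.add (Nat.add (Nat.add (Nat.add (Nat.add C (Nat.mul x1023 (nat_lit 3))) x2481) x537) x1509) x861) x1077) x1041) x1021)
    (Nat.sub (Nat.sub (Nat.add (Nat.add (Nat.add (Nat.add (Nat.add (Nat.add (Nat.add (Nat.add (Nat.add (Nat.add C x2489) x545) x1517) x869) x1085) x1013) x1037) x1033) x20713) (Nat.mul (e (nat_lit 1031)) ap)) x1031) (Nat.mul (e (nat_lit 1031)) an))
    (Nat.sub (Nat.sub (Nat.add (Nat.add (Nat.add (Nat.add (Nat.add (Nat.add (Nat.add (Nat.add (Nat.add (Nat.add C x2491) x547) x1519) x871) x1087) x1015) x1039) x1031) x20715) (Nat.mul (e (nat_lit 1033)) ap)) x1033) (Nat.mul (e (nat_lit 1033)) an))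
    (Nat.sub (Nat.sub (Nat.add (Nat.add (Nat.add (Nat.add (Nat.add (Nat.add (Nat.add (Nat.add (Nat.add (Nat.add C x2495) x551) x1523) x875) x1091) x1019) x1031) x1039) x20719) (Nat.mul (e (nat_lit 1037)) ap)) x1037) (Nat.mul (e (nat_lit 1037)) an))
    (Nat.sub (Nat.add (Nat.add (Nat.add (Nat.add (Nat.add (Nat.add (Nat.add (Nat.add (Nat.add (Nat.add (Nat.add (Nat.add (Nat.add C x1039) x2497) x553) x1525) x877) x1093) x1021) x1033) x1045) x1037) x1041) x20721) (Nat.mul (e (nat_lit 1039)) ap)) (Nat.mul (e (nat_lit 1039)) an))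
    (Nat.add (Nat.add (Nat.add (Nat.add (Nat.add (Nat.add (Nat.add (Nat.add (Nat.add C x1041) x2499) x555) x1527) x879) x1095) x1023) x1047) x1039)
    (Nat.add (Nat.add (Nat.add (Nat.add (Nat.add (Nat.add (Nat.add (Nat.add (Nat.add C x1045) x2503) x559) x1531) x883) x1099) x1039) x1047) x20727)
    (Nat.add (Nat.add (Nat.add (Nat.add (Nat.add (Nat.add (Nat.add (Nat.add C (Nat.mul x1047 (nat_lit 3))) x2505) x561) x1533) x885) x1101) x1041) x1045)
    (Nat.sub (Nat.add (Nat.add (Nat.add (Nat.add (Nat.add (Nat.add (Nat.add (Nat.add (Nat.add (Nat.add C (Nat.mul x1061 (nat_lit 2))) x2519) x575) x1547) x899) x1223) x1007) x1067) x20743) (Nat.mul (e (nat_lit 1061)) ap)) (Nat.mul (e (nat_lit 1061)) an))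
    (Nat.sub (Nat.add (Nat.add (Nat.add (Nat.add (Nat.add (Nat.add (Nat.add (Nat.add (Nat.add (Nat.add (Nat.add (Nat.add (Nat.add C x1067) x2525) x581) x1553) x905) x1229) x1013) x1085) x1061) x1073) x1069) x20749) (Nat.mul (e (nat_lit 1067)) ap)) (Nat.mul (e (nat_lit 1067)) an))
    (Nat.sub (Nat.add (Nat.add (Nat.add (Nat.add (Nat.add (Nat.add (Nat.add (Nat.add (Nat.add (Nat.add (Nat.add (Nat.add C (Nat.mul x1069 (nat_lit 2))) x2527) x583) x1555) x907) x1231) x1015) x1087) x1075) x1067) x20751) (Nat.mul (e (nat_lit 1069)) ap)) (Nat.mul (e (nat_lit 1069)) an))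
    (Nat.sub (Nat.sub (Nat.add (Nat.add (Nat.add (Nat.add (Nat.add (Nat.add (Nat.add (Nat.add (Nat.add (Nat.add (Nat.add C x2531) x587) x1559) x911) x1235) x1019) x1091) x1067) x1075) x20755) (Nat.mul (e (nat_lit 1073)) ap)) (Nat.mul x1073 (nat_lit 2))) (Nat.mul (e (nat_lit 1073)) an))
    (Nat.sub (Nat.add (Nat.add (Nat.add (Nat.add (Nat.add (Nat.add (Nat.add (Nat.add (Nat.add (Nat.add (Nat.add (Nat.add (Nat.add C x1075) x2533) x589) x1561) x913) x1237) x1021) x1093) x1069) x1073) x1077) x20757) (Nat.mul (e (nat_lit 1075)) ap)) (Nat.mul (e (nat_lit 1075)) an))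
    (Nat.add (Nat.add (Nat.add (Nat.add (Nat.add (Nat.add (Nat.add (Nat.add (Nat.add C (Nat.mul x1077 (nat_lit 2))) x2535) x591) x1563) x915) x1239) x1023) x1095) x1075)
    (Nat.sub (Nat.add (Nat.add (Nat.add (Nat.add (Nat.add (Nat.add (Nat.add (Nat.add (Nat.add (Nat.add (Nat.add (Nat.add (Nat.add C x1085) x2543) x599) x1571) x923) x1247) x1031) x1139) x1067) x1091) x1087) x20767) (Nat.mul (e (nat_lit 1085)) ap)) (Nat.mul (e (nat_lit 1085)) an))
    (Nat.sub (Nat.add (Nat.add (Nat.add (Nat.add (Nat.add (Nat.add (Nat.add (Nat.add (Nat.add (Nat.add (Nat.add (Nat.add (Nat.add C x1087) x2545) x601) x1573) x925) x1249) x1033) x1141) x1069) x1093) x1085) x20769) (Nat.mul (e (nat_lit 1087)) ap)) (Nat.mul (e (nat_lit 1087)) an))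
    (Nat.sub (Nat.add (Nat.add (Nat.add (Nat.add (Nat.add (Nat.add (Nat.add (Nat.add (Nat.add (Nat.add (Nat.add (Nat.add (Nat.add C x2549) x605) x1577) x929) x1253) x1037) x1145) x1073) x1109) x1085) x1093) x20773) (Nat.mul (e (nat_lit 1091)) ap)) (Nat.mul (e (nat_lit 1091)) an))
    (Nat.sub (Nat.add (Nat.add (Nat.add (Nat.add (Nat.add (Nat.add (Nat.add (Nat.add (Nat.add (Nat.add (Nat.add (Nat.add (Nat.add (Nat.add (Nat.add (Nat.add C (Nat.mul x1093 (nat_lit 2))) x2551) x607) x1579) x931) x1255) x1039) x1147) x1075) x1111) x1087) x1099) x1091) x1095) x20775) (Nat.mul (e (nat_lit 1093)) ap)) (Nat.mul (e (nat_lit 1093)) an))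
    (Nat.add (Nat.add (Nat.add (Nat.add (Nat.add (Nat.add (Nat.add (Nat.add (Nat.add (Nat.add (Nat.add (Nat.add C (Nat.mul x1095 (nat_lit 2))) x2553) x609) x1581) x933) x1257) x1041) x1149) x1077) x1113) x1101) x1093)
    (Nat.add (Nat.add (Nat.add (Nat.add (Nat.add (Nat.add (Nat.add (Nat.add (Nat.add (Nat.add (Nat.add (Nat.add C x1099) x2557) x613) x1585) x937) x1261) x1045) x1153) x1117) x1093) x1101) x20781)
    (Nat.add (Nat.add (Nat.add (Nat.add (Nat.add (Nat.add (Nat.add (Nat.add (Nat.add (Nat.add (Nat.add C (Nat.mul x1101 (nat_lit 3))) x2559) x615) x1587) x939) x1263) x1047) x1155) x1119) x1095) x1099)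
    (Nat.sub (Nat.add (Nat.add (Nat.add (Nat.add (Nat.add (Nat.add (Nat.add (Nat.add (Nat.add (Nat.add C x2567) x623) x1595) x947) x1271) x1163) x1091) x1111) x20791) (Nat.mul (e (nat_lit 1109)) ap)) (Nat.mul (e (nat_lit 1109)) an))
    (Nat.add (Nat.add (Nat.add (Nat.add (Nat.add (Nat.add (Nat.add (Nat.add (Nat.add (Nat.add (Nat.add (Nat.add C x1111) x2569) x625) x1597) x949) x1273) x1165) x1093) x1117) x1109) x1113) x20793)
    (Nat.add (Nat.add (Nat.add (Nat.add (Nat.add (Nat.add (Nat.add (Nat.add (Nat.add C x2571) x627) x1599) x951) x1275) x1167) x1095) x1119) x1111)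
    (Nat.add (Nat.add (Nat.add (Nat.add (Nat.add (Nat.add (Nat.add (Nat.add (Nat.add (Nat.add (Nat.add C (Nat.mul x1117 (nat_lit 2))) x2575) x631) x1603) x955) x1279) x1171) x1099) x1111) x1119) x20799)
    (Nat.add (Nat.add (Nat.add (Nat.add (Nat.add (Nat.add (Nat.add (Nat.add (Nat.add (Nat.add (Nat.add C (Nat.mul x1119 (nat_lit 3))) x2577) x633) x1605) x957) x1281) x1173) x1101) x1113) x1125) x1117)
    (Nat.add (Nat.add (Nat.add (Nat.add (Nat.add (Nat.add (Nat.add (Nat.add C (Nat.mul x1125 (nat_lit 4))) x2583) x639) x1611) x963) x1287) x1179) x1119)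
    (Nat.sub (Nat.add (Nat.add (Nat.add (Nat.add (Nat.add (Nat.add (Nat.add (Nat.add (Nat.add (Nat.add C x1139) x2597) x653) x1625) x1301) x1085) x1145) x1141) x20821) (Nat.mul (e (nat_lit 1139)) ap)) (Nat.mul (e (nat_lit 1139)) an))
    (Nat.sub (Nat.add (Nat.add (Nat.add (Nat.add (Nat.add (Nat.add (Nat.add (Nat.add (Nat.add (Nat.add C x1141) x2599) x655) x1627) x1303) x1087) x1147) x1139) x20823) (Nat.mul (e (nat_lit 1141)) ap)) (Nat.mul (e (nat_lit 1141)) an))
    (Nat.sub (Nat.sub (Nat.add (Nat.add (Nat.add (Nat.add (Nat.add (Nat.add (Nat.add (Nat.add (Nat.add (Nat.add C x2603) x659) x1631) x1307) x1091) x1163) x1139) x1147) x20827) (Nat.mul (e (nat_lit 1145)) ap)) x1145) (Nat.mul (e (nat_lit 1145)) an))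
    (Nat.add (Nat.add (Nat.add (Nat.add (Nat.add (Nat.add (Nat.add (Nat.add (Nat.add (Nat.add (Nat.add (Nat.add C x1147) x2605) x661) x1633) x1309) x1093) x1165) x1141) x1153) x1145) x1149) x20829)
    (Nat.add (Nat.add (Nat.add (Nat.add (Nat.add (Nat.add (Nat.add (Nat.add (Nat.add C x1149) x2607) x663) x1635) x1311) x1095) x1167) x1155) x1147)
    (Nat.sub (Nat.add (Nat.add (Nat.add (Nat.add (Nat.add (Nat.add (Nat.add (Nat.add (Nat.add C x2611) x667) x1639) x1315) x1099) x1171) x1147) x1155) x20835) x1153)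
    (Nat.add (Nat.add (Nat.add (Nat.add (Nat.add (Nat.add (Nat.add (Nat.add (Nat.add C x1155) x2613) x669) x1641) x1317) x1101) x1173) x1149) x1153)
    (Nat.sub (Nat.add (Nat.add (Nat.add (Nat.add (Nat.add (Nat.add (Nat.add (Nat.add (Nat.add (Nat.add C x1163) x2621) x677) x1649) x1325) x1109) x1145) x1165) x20845) (Nat.mul (e (nat_lit 1163)) ap)) (Nat.mul (e (nat_lit 1163)) an))
    (Nat.add (Nat.add (Nat.add (Nat.add (Nat.add (Nat.add (Nat.add (Nat.add (Nat.add (Nat.add (Nat.add C (Nat.mul x1165 (nat_lit 2))) x2623) x679) x1651) x1327) x1111) x1147) x1171) x1163) x1167) x20847)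
    (Nat.add (Nat.add (Nat.add (Nat.add (Nat.add (Nat.add (Nat.add (Nat.add (Nat.add C x1167) x2625) x681) x1653) x1329) x1113) x1149) x1173) x1165)
    (Nat.add (Nat.add (Nat.add (Nat.add (Nat.add (Nat.add (Nat.add (Nat.add (Nat.add (Nat.add (Nat.add C (Nat.mul x1171 (nat_lit 2))) x2629) x685) x1657) x1333) x1117) x1153) x1189) x1165) x1173) x20853)
    (Nat.add (Nat.add (Nat.add (Nat.add (Nat.add (Nat.add (Nat.add (Nat.add (Nat.add (Nat.add (Nat.add C (Nat.mul x1173 (nat_lit 3))) x2631) x687) x1659) x1335) x1119) x1155) x1191) x1167) x1179) x1171)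
    (Nat.add (Nat.add (Nat.add (Nat.add (Nat.add (Nat.add (Nat.add (Nat.add C (Nat.mul x1179 (nat_lit 3))) x2637) x693) x1665) x1341) x1125) x1197) x1173)
    (Nat.add (Nat.add (Nat.add (Nat.add (Nat.add (Nat.add (Nat.add (Nat.add C (Nat.mul x1189 (nat_lit 3))) x2647) x703) x1675) x1351) x1171) x1191) x20871)
    (Nat.add (Nat.add (Nat.add (Nat.add (Nat.add (Nat.add (Nat.add (Nat.add C (Nat.mul x1191 (nat_lit 3))) x2649) x705) x1677) x1353) x1173) x1197) x1189)
    (Nat.add (Nat.add (Nat.add (Nat.add (Nat.add (Nat.add (Nat.add C (Nat.mul x1197 (nat_lit 5))) x2655) x711) x1683) x1359) x1179) x1191)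
    (Nat.sub (Nat.add (Nat.add (Nat.add (Nat.add (Nat.add (Nat.add (Nat.add C (Nat.mul x1223 (nat_lit 2))) x2681) x1709) x1061) x1229) x20905) (Nat.mul (e (nat_lit 1223)) ap)) (Nat.mul (e (nat_lit 1223)) an))
    (Nat.sub (Nat.add (Nat.add (Nat.add (Nat.add (Nat.add (Nat.add (Nat.add (Nat.add (Nat.add (Nat.add C x1229) x2687) x1715) x1067) x1247) x1223) x1235) x1231) x20911) (Nat.mul (e (nat_lit 1229)) ap)) (Nat.mul (e (nat_lit 1229)) an))
    (Nat.sub (Nat.add (Nat.add (Nat.add (Nat.add (Nat.add (Nat.add (Nat.add (Nat.add (Nat.add C (Nat.mul x1231 (nat_lit 2))) x2689) x1717) x1069) x1249) x1237) x1229) x20913) (Nat.mul (e (nat_lit 1231)) ap)) (Nat.mul (e (nat_lit 1231)) an))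
    (Nat.sub (Nat.sub (Nat.add (Nat.add (Nat.add (Nat.add (Nat.add (Nat.add (Nat.add (Nat.add C x2693) x1721) x1073) x1253) x1229) x1237) x20917) (Nat.mul (e (nat_lit 1235)) ap)) (Nat.mul x1235 (nat_lit 2))) (Nat.mul (e (nat_lit 1235)) an))
    (Nat.add (Nat.add (Nat.add (Nat.add (Nat.add (Nat.add (Nat.add (Nat.add (Nat.add C x1237) x2695) x1723) x1075) x1255) x1231) x1235) x1239) x20919)
    (Nat.add (Nat.add (Nat.add (Nat.add (Nat.add (Nat.add C (Nat.mul x1239 (nat_lit 2))) x2697) x1725) x1077) x1257) x1237)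
    (Nat.sub (Nat.add (Nat.add (Nat.add (Nat.add (Nat.add (Nat.add (Nat.add (Nat.add (Nat.add C x2705) x1733) x1085) x1301) x1229) x1253) x1249) x20929) (Nat.mul (e (nat_lit 1247)) ap)) (Nat.mul (e (nat_lit 1247)) an))
    (Nat.sub (Nat.add (Nat.add (Nat.add (Nat.add (Nat.add (Nat.add (Nat.add (Nat.add (Nat.add C x2707) x1735) x1087) x1303) x1231) x1255) x1247) x20931) (Nat.mul (e (nat_lit 1249)) ap)) (Nat.mul (e (nat_lit 1249)) an))
    (Nat.sub (Nat.sub (Nat.add (Nat.add (Nat.add (Nat.add (Nat.add (Nat.add (Nat.add (Nat.add (Nat.add (Nat.add C x2711) x1739) x1091) x1307) x1235) x1271) x1247) x1255) x20935) (Nat.mul (e (nat_lit 1253)) ap)) x1253) (Nat.mul (e (nat_lit 1253)) an))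
    (Nat.add (Nat.add (Nat.add (Nat.add (Nat.add (Nat.add (Nat.add (Nat.add (Nat.add (Nat.add (Nat.add (Nat.add C x1255) x2713) x1741) x1093) x1309) x1237) x1273) x1249) x1261) x1253) x1257) x20937)
    (Nat.add (Nat.add (Nat.add (Nat.add (Nat.add (Nat.add (Nat.add (Nat.add (Nat.add C x1257) x2715) x1743) x1095) x1311) x1239) x1275) x1263) x1255)
    (Nat.add (Nat.add (Nat.add (Nat.add (Nat.add (Nat.add (Nat.add (Nat.add C x2719) x1747) x1099) x1315) x1279) x1255) x1263) x20943)
    (Nat.add (Nat.add (Nat.add (Nat.add (Nat.add (Nat.add (Nat.add (Nat.add C (Nat.mul x1263 (nat_lit 2))) x2721) x1749) x1101) x1317) x1281) x1257) x1261)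
    (Nat.sub (Nat.sub (Nat.add (Nat.add (Nat.add (Nat.add (Nat.add (Nat.add (Nat.add (Nat.add C x2729) x1757) x1109) x1325) x1253) x1273) x20953) (Nat.mul (e (nat_lit 1271)) ap)) (Nat.mul x1271 (nat_lit 2))) (Nat.mul (e (nat_lit 1271)) an))
    (Nat.sub (Nat.add (Nat.add (Nat.add (Nat.add (Nat.add (Nat.add (Nat.add (Nat.add (Nat.add C x2731) x1759) x1111) x1327) x1255) x1279) x1271) x1275) x20955) x1273)
    (Nat.sub (Nat.add (Nat.add (Nat.add (Nat.add (Nat.add (Nat.add (Nat.add C x2733) x1761) x1113) x1329) x1257) x1281) x1273) (Nat.mul x1275 (nat_lit 2)))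
    (Nat.add (Nat.add (Nat.add (Nat.add (Nat.add (Nat.add (Nat.add (Nat.add C x2737) x1765) x1117) x1333) x1261) x1273) x1281) x20961)
    (Nat.add (Nat.add (Nat.add (Nat.add (Nat.add (Nat.add (Nat.add (Nat.add (Nat.add C x1281) x2739) x1767) x1119) x1335) x1263) x1275) x1287) x1279)
    (Nat.add (Nat.add (Nat.add (Nat.add (Nat.add (Nat.add C (Nat.mul x1287 (nat_lit 2))) x2745) x1773) x1125) x1341) x1281)
    (Nat.sub (Nat.add (Nat.add (Nat.add (Nat.add (Nat.add (Nat.add (Nat.add (Nat.add (Nat.add C (Nat.mul x1301 (nat_lit 2))) x2759) x1787) x1139) x1247) x1307) x1303) x20983) (Nat.mul (e (nat_lit 1301)) ap)) (Nat.mul (e (nat_lit 1301)) an))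
    (Nat.add (Nat.add (Nat.add (Nat.add (Nat.add (Nat.add (Nat.add (Nat.add C (Nat.mul x1303 (nat_lit 2))) x2761) x1789) x1141) x1249) x1309) x1301) x20985)
    (Nat.sub (Nat.add (Nat.add (Nat.add (Nat.add (Nat.add (Nat.add (Nat.add (Nat.add (Nat.add C x2765) x1793) x1145) x1253) x1325) x1301) x1309) x20989) (Nat.mul (e (nat_lit 1307)) ap)) (Nat.mul (e (nat_lit 1307)) an))
    (Nat.add (Nat.add (Nat.add (Nat.add (Nat.add (Nat.add (Nat.add (Nat.add (Nat.add (Nat.add (Nat.add C (Nat.mul x1309 (nat_lit 2))) x2767) x1795) x1147) x1255) x1327) x1303) x1315) x1307) x1311) x20991)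
    (Nat.add (Nat.add (Nat.add (Nat.add (Nat.add (Nat.add (Nat.add (Nat.add C (Nat.mul x1311 (nat_lit 2))) x2769) x1797) x1149) x1257) x1329) x1317) x1309)
    (Nat.add (Nat.add (Nat.add (Nat.add (Nat.add (Nat.add (Nat.add (Nat.add C x2773) x1801) x1153) x1261) x1333) x1309) x1317) x20997)
    (Nat.add (Nat.add (Nat.add (Nat.add (Nat.add (Nat.add (Nat.add (Nat.add C (Nat.mul x1317 (nat_lit 2))) x2775) x1803) x1155) x1263) x1335) x1311) x1315)
    (Nat.sub (Nat.add (Nat.add (Nat.add (Nat.add (Nat.add (Nat.add (Nat.add (Nat.add (Nat.add (Nat.add C x1325) x2783) x1811) x1163) x1271) x1379) x1307) x1327) x21007) (Nat.mul (e (nat_lit 1325)) ap)) (Nat.mul (e (nat_lit 1325)) an))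
    (Nat.add (Nat.add (Nat.add (Nat.add (Nat.add (Nat.add (Nat.add (Nat.add (Nat.add (Nat.add (Nat.add C (Nat.mul x1327 (nat_lit 2))) x2785) x1813) x1165) x1273) x1381) x1309) x1333) x1325) x1329) x21009)
    (Nat.add (Nat.add (Nat.add (Nat.add (Nat.add (Nat.add (Nat.add (Nat.add (Nat.add C x1329) x2787) x1815) x1167) x1275) x1383) x1311) x1335) x1327)
    (Nat.add (Nat.add (Nat.add (Nat.add (Nat.add (Nat.add (Nat.add (Nat.add (Nat.add (Nat.add (Nat.add C (Nat.mul x1333 (nat_lit 2))) x2791) x1819) x1171) x1279) x1387) x1315) x1351) x1327) x1335) x21015)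
    (Nat.add (Nat.add (Nat.add (Nat.add (Nat.add (Nat.add (Nat.add (Nat.add (Nat.add (Nat.add (Nat.add C (Nat.mul x1335 (nat_lit 3))) x2793) x1821) x1173) x1281) x1389) x1317) x1353) x1329) x1341) x1333)
    (Nat.add (Nat.add (Nat.add (Nat.add (Nat.add (Nat.add (Nat.add (Nat.add C (Nat.mul x1341 (nat_lit 3))) x2799) x1827) x1179) x1287) x1395) x1359) x1335)
    (Nat.add (Nat.add (Nat.add (Nat.add (Nat.add (Nat.add (Nat.add (Nat.add C (Nat.mul x1351 (nat_lit 2))) x2809) x1837) x1189) x1405) x1333) x1353) x21033)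
    (Nat.add (Nat.add (Nat.add (Nat.add (Nat.add (Nat.add (Nat.add (Nat.add C (Nat.mul x1353 (nat_lit 2))) x2811) x1839) x1191) x1407) x1335) x1359) x1351)
    (Nat.add (Nat.add (Nat.add (Nat.add (Nat.add (Nat.add (Nat.add C (Nat.mul x1359 (nat_lit 4))) x2817) x1845) x1197) x1413) x1341) x1353)
    (Nat.sub (Nat.add (Nat.add (Nat.add (Nat.add (Nat.add (Nat.add (Nat.add C (Nat.mul x1379 (nat_lit 2))) x2837) x1865) x1325) x1381) x21061) (Nat.mul (e (nat_lit 1379)) ap)) (Nat.mul (e (nat_lit 1379)) an))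
    (Nat.add (Nat.add (Nat.add (Nat.add (Nat.add (Nat.add (Nat.add (Nat.add C (Nat.mul x1381 (nat_lit 3))) x2839) x1867) x1327) x1387) x1379) x1383) x21063)
    (Nat.add (Nat.add (Nat.add (Nat.add (Nat.add (Nat.add C (Nat.mul x1383 (nat_lit 2))) x2841) x1869) x1329) x1389) x1381)
    (Nat.add (Nat.add (Nat.add (Nat.add (Nat.add (Nat.add (Nat.add (Nat.add C (Nat.mul x1387 (nat_lit 2))) x2845) x1873) x1333) x1405) x1381) x1389) x21069)
    (Nat.add (Nat.add (Nat.add (Nat.add (Nat.add (Nat.add (Nat.add (Nat.add C (Nat.mul x1389 (nat_lit 3))) x2847) x1875) x1335) x1407) x1383) x1395) x1387)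
    (Nat.add (Nat.add (Nat.add (Nat.add (Nat.add (Nat.add C (Nat.mul x1395 (nat_lit 2))) x2853) x1881) x1341) x1413) x1389)
    (Nat.add (Nat.add (Nat.add (Nat.add (Nat.add (Nat.add (Nat.add C (Nat.mul x1405 (nat_lit 4))) x2863) x1891) x1351) x1387) x1407) x21087)
    (Nat.add (Nat.add (Nat.add (Nat.add (Nat.add (Nat.add (Nat.add C (Nat.mul x1407 (nat_lit 4))) x2865) x1893) x1353) x1389) x1413) x1405)
    (Nat.add (Nat.add (Nat.add (Nat.add (Nat.add (Nat.add (Nat.add C (Nat.mul x1413 (nat_lit 5))) x2871) x1899) x1359) x1395) x1431) x1407)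
    (Nat.add (Nat.add (Nat.add (Nat.add C (Nat.mul x1431 (nat_lit 6))) x2889) x1917) x1413)
    (Nat.add (Nat.add (Nat.add (Nat.add (Nat.add (Nat.add C (Nat.mul x1475 (nat_lit 2))) x2933) x989) x1493) x1481) x21157)
    (Nat.sub (Nat.add (Nat.add (Nat.add (Nat.add (Nat.add (Nat.add (Nat.add C x2939) x995) x1499) x1475) x1483) x21163) (Nat.mul (e (nat_lit 1481)) ap)) (Nat.mul (e (nat_lit 1481)) an))
    (Nat.add (Nat.add (Nat.add (Nat.add (Nat.add (Nat.add C (Nat.mul x1483 (nat_lit 2))) x2941) x997) x1501) x1481) x21165)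
    (Nat.sub (Nat.add (Nat.add (Nat.add (Nat.add (Nat.add (Nat.add (Nat.add C x2951) x1007) x1547) x1475) x1499) x21175) (Nat.mul (e (nat_lit 1493)) ap)) (Nat.mul (e (nat_lit 1493)) an))
    (Nat.sub (Nat.add (Nat.add (Nat.add (Nat.add (Nat.add (Nat.add (Nat.add (Nat.add (Nat.add (Nat.add C x2957) x1013) x1553) x1481) x1517) x1493) x1505) x1501) x21181) (Nat.mul (e (nat_lit 1499)) ap)) (Nat.mul (e (nat_lit 1499)) an))
    (Nat.add (Nat.add (Nat.add (Nat.add (Nat.add (Nat.add (Nat.add (Nat.add (Nat.add C x1501) x2959) x1015) x1555) x1483) x1519) x1507) x1499) x21183)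
    (Nat.sub (Nat.sub (Nat.add (Nat.add (Nat.add (Nat.add (Nat.add (Nat.add (Nat.add (Nat.add C x2963) x1019) x1559) x1523) x1499) x1507) x21187) (Nat.mul (e (nat_lit 1505)) ap)) (Nat.mul x1505 (nat_lit 2))) (Nat.mul (e (nat_lit 1505)) an))
    (Nat.add (Nat.add (Nat.add (Nat.add (Nat.add (Nat.add (Nat.add (Nat.add (Nat.add C x1507) x2965) x1021) x1561) x1525) x1501) x1505) x1509) x21189)
    (Nat.add (Nat.add (Nat.add (Nat.add (Nat.add (Nat.add C (Nat.mul x1509 (nat_lit 2))) x2967) x1023) x1563) x1527) x1507)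
    (Nat.sub (Nat.sub (Nat.add (Nat.add (Nat.add (Nat.add (Nat.add (Nat.add (Nat.add (Nat.add C x2975) x1031) x1571) x1499) x1523) x1519) x21199) (Nat.mul (e (nat_lit 1517)) ap)) (Nat.mul x1517 (nat_lit 2))) (Nat.mul (e (nat_lit 1517)) an))
    (Nat.sub (Nat.add (Nat.add (Nat.add (Nat.add (Nat.add (Nat.add (Nat.add C x2977) x1033) x1573) x1501) x1525) x1517) x21201) (Nat.mul x1519 (nat_lit 2)))
    (Nat.sub (Nat.sub (Nat.add (Nat.add (Nat.add (Nat.add (Nat.add (Nat.add (Nat.add (Nat.add C x2981) x1037) x1577) x1505) x1517) x1525) x21205) (Nat.mul (e (nat_lit 1523)) ap)) (Nat.mul x1523 (nat_lit 2))) (Nat.mul (e (nat_lit 1523)) an))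
    (Nat.add (Nat.add (Nat.add (Nat.add (Nat.add (Nat.add (Nat.add (Nat.add (Nat.add C x2983) x1039) x1579) x1507) x1519) x1531) x1523) x1527) x21207)
    (Nat.add (Nat.add (Nat.add (Nat.add (Nat.add (Nat.add C x2985) x1041) x1581) x1509) x1533) x1525)
    (Nat.add (Nat.add (Nat.add (Nat.add (Nat.add (Nat.add C x2989) x1045) x1585) x1525) x1533) x21213)
    (Nat.add (Nat.add (Nat.add (Nat.add (Nat.add (Nat.add C (Nat.mul x1533 (nat_lit 2))) x2991) x1047) x1587) x1527) x1531)
    (Nat.sub (Nat.add (Nat.add (Nat.add (Nat.add (Nat.add (Nat.add (Nat.add C x3005) x1061) x1709) x1493) x1553) x21229) (Nat.mul (e (nat_lit 1547)) ap)) (Nat.mul (e (nat_lit 1547)) an))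
    (Nat.sub (Nat.sub (Nat.add (Nat.add (Nat.add (Nat.add (Nat.add (Nat.add (Nat.add (Nat.add (Nat.add (Nat.add C x3011) x1067) x1715) x1499) x1571) x1547) x1559) x1555) x21235) (Nat.mul (e (nat_lit 1553)) ap)) x1553) (Nat.mul (e (nat_lit 1553)) an))
    (Nat.add (Nat.add (Nat.add (Nat.add (Nat.add (Nat.add (Nat.add (Nat.add C x3013) x1069) x1717) x1501) x1573) x1561) x1553) x21237)
    (Nat.sub (Nat.sub (Nat.add (Nat.add (Nat.add (Nat.add (Nat.add (Nat.add (Nat.add (Nat.add (Nat.add C x3017) x1073) x1721) x1505) x1577) x1553) x1561) x21241) (Nat.mul (e (nat_lit 1559)) ap)) (Nat.mul x1559 (nat_lit 4))) (Nat.mul (e (nat_lit 1559)) an))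
    (Nat.sub (Nat.add (Nat.add (Nat.add (Nat.add (Nat.add (Nat.add (Nat.add (Nat.add (Nat.add C x3019) x1075) x1723) x1507) x1579) x1555) x1559) x1563) x21243) x1561)
    (Nat.add (Nat.add (Nat.add (Nat.add (Nat.add (Nat.add C x3021) x1077) x1725) x1509) x1581) x1561)
    (Nat.sub (Nat.sub (Nat.add (Nat.add (Nat.add (Nat.add (Nat.add (Nat.add (Nat.add (Nat.add (Nat.add (Nat.add C x3029) x1085) x1733) x1517) x1625) x1553) x1577) x1573) x21253) (Nat.mul (e (nat_lit 1571)) ap)) x1571) (Nat.mul (e (nat_lit 1571)) an))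
    (Nat.sub (Nat.add (Nat.add (Nat.add (Nat.add (Nat.add (Nat.add (Nat.add (Nat.add (Nat.add C x3031) x1087) x1735) x1519) x1627) x1555) x1579) x1571) x21255) x1573)
    (Nat.sub (Nat.sub (Nat.add (Nat.add (Nat.add (Nat.add (Nat.add (Nat.add (Nat.add (Nat.add (Nat.add (Nat.add (Nat.add C x3035) x1091) x1739) x1523) x1631) x1559) x1595) x1571) x1579) x21259) (Nat.mul (e (nat_lit 1577)) ap)) (Nat.mul x1577 (nat_lit 2))) (Nat.mul (e (nat_lit 1577)) an))
    (Nat.add (Nat.add (Nat.add (Nat.add (Nat.add (Nat.add (Nat.add (Nat.add (Nat.add (Nat.add (Nat.add (Nat.add C x3037) x1093) x1741) x1525) x1633) x1561) x1597) x1573) x1585) x1577) x1581) x21261)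
    (Nat.add (Nat.add (Nat.add (Nat.add (Nat.add (Nat.add (Nat.add (Nat.add (Nat.add C x3039) x1095) x1743) x1527) x1635) x1563) x1599) x1587) x1579)
    (Nat.sub (Nat.add (Nat.add (Nat.add (Nat.add (Nat.add (Nat.add (Nat.add (Nat.add (Nat.add C x3043) x1099) x1747) x1531) x1639) x1603) x1579) x1587) x21267) x1585)
    (Nat.add (Nat.add (Nat.add (Nat.add (Nat.add (Nat.add (Nat.add (Nat.add (Nat.add C x1587) x3045) x1101) x1749) x1533) x1641) x1605) x1581) x1585)
    (Nat.sub (Nat.add (Nat.add (Nat.add (Nat.add (Nat.add (Nat.add (Nat.add C x3053) x1109) x1757) x1649) x1577) x1597) x21277) (Nat.mul x1595 (nat_lit 2)))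
    (Nat.sub (Nat.add (Nat.add (Nat.add (Nat.add (Nat.add (Nat.add (Nat.add (Nat.add (Nat.add C x3055) x1111) x1759) x1651) x1579) x1603) x1595) x1599) x21279) x1597)
    (Nat.sub (Nat.add (Nat.add (Nat.add (Nat.add (Nat.add (Nat.add (Nat.add C x3057) x1113) x1761) x1653) x1581) x1605) x1597) (Nat.mul x1599 (nat_lit 2)))
    (Nat.add (Nat.add (Nat.add (Nat.add (Nat.add (Nat.add (Nat.add (Nat.add C x3061) x1117) x1765) x1657) x1585) x1597) x1605) x21285)
    (Nat.add (Nat.add (Nat.add (Nat.add (Nat.add (Nat.add (Nat.add (Nat.add (Nat.add C x1605) x3063) x1119) x1767) x1659) x1587) x1599) x1611) x1603)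
    (Nat.add (Nat.add (Nat.add (Nat.add (Nat.add (Nat.add C (Nat.mul x1611 (nat_lit 2))) x3069) x1125) x1773) x1665) x1605)
    (Nat.sub (Nat.sub (Nat.add (Nat.add (Nat.add (Nat.add (Nat.add (Nat.add (Nat.add (Nat.add C x3083) x1139) x1787) x1571) x1631) x1627) x21307) (Nat.mul (e (nat_lit 1625)) ap)) (Nat.mul x1625 (nat_lit 2))) (Nat.mul (e (nat_lit 1625)) an))
    (Nat.sub (Nat.add (Nat.add (Nat.add (Nat.add (Nat.add (Nat.add (Nat.add C x3085) x1141) x1789) x1573) x1633) x1625) x21309) (Nat.mul x1627 (nat_lit 2)))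
    (Nat.sub (Nat.add (Nat.add (Nat.add (Nat.add (Nat.add (Nat.add (Nat.add (Nat.add C x3089) x1145) x1793) x1577) x1649) x1625) x1633) x21313) (Nat.mul x1631 (nat_lit 4)))
    (Nat.sub (Nat.add (Nat.add (Nat.add (Nat.add (Nat.add (Nat.add (Nat.add (Nat.add (Nat.add (Nat.add C x3091) x1147) x1795) x1579) x1651) x1627) x1639) x1631) x1635) x21315) (Nat.mul x1633 (nat_lit 2)))
    (Nat.sub (Nat.add (Nat.add (Nat.add (Nat.add (Nat.add (Nat.add (Nat.add C x3093) x1149) x1797) x1581) x1653) x1641) x1633) (Nat.mul x1635 (nat_lit 2)))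
    (Nat.sub (Nat.add (Nat.add (Nat.add (Nat.add (Nat.add (Nat.add (Nat.add (Nat.add C x3097) x1153) x1801) x1585) x1657) x1633) x1641) x21321) (Nat.mul x1639 (nat_lit 4)))
    (Nat.sub (Nat.add (Nat.add (Nat.add (Nat.add (Nat.add (Nat.add (Nat.add C x3099) x1155) x1803) x1587) x1659) x1635) x1639) (Nat.mul x1641 (nat_lit 2)))
    (Nat.sub (Nat.add (Nat.add (Nat.add (Nat.add (Nat.add (Nat.add (Nat.add C x3107) x1163) x1811) x1595) x1631) x1651) x21331) (Nat.mul x1649 (nat_lit 2)))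
    (Nat.sub (Nat.add (Nat.add (Nat.add (Nat.add (Nat.add (Nat.add (Nat.add (Nat.add (Nat.add C x3109) x1165) x1813) x1597) x1633) x1657) x1649) x1653) x21333) x1651)
    (Nat.sub (Nat.add (Nat.add (Nat.add (Nat.add (Nat.add (Nat.add (Nat.add C x3111) x1167) x1815) x1599) x1635) x1659) x1651) (Nat.mul x1653 (nat_lit 2)))
    (Nat.sub (Nat.add (Nat.add (Nat.add (Nat.add (Nat.add (Nat.add (Nat.add (Nat.add (Nat.add C x3115) x1171) x1819) x1603) x1639) x1675) x1651) x1659) x21339) x1657)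
    (Nat.add (Nat.add (Nat.add (Nat.add (Nat.add (Nat.add (Nat.add (Nat.add (Nat.add C x3117) x1173) x1821) x1605) x1641) x1677) x1653) x1665) x1657)
    (Nat.add (Nat.add (Nat.add (Nat.add (Nat.add (Nat.add C x3123) x1179) x1827) x1611) x1683) x1659)
    (Nat.add (Nat.add (Nat.add (Nat.add (Nat.add (Nat.add C x3133) x1189) x1837) x1657) x1677) x21357)
    (Nat.add (Nat.add (Nat.add (Nat.add (Nat.add (Nat.add C x3135) x1191) x1839) x1659) x1683) x1675)
    (Nat.add (Nat.add (Nat.add (Nat.add (Nat.add (Nat.add C (Nat.mul x1683 (nat_lit 2))) x3141) x1197) x1845) x1665) x1677)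
    (Nat.add (Nat.add (Nat.add (Nat.add (Nat.add (Nat.add C (Nat.mul x1709 (nat_lit 2))) x3167) x1223) x1547) x1715) x21391)
    (Nat.sub (Nat.add (Nat.add (Nat.add (Nat.add (Nat.add (Nat.add (Nat.add (Nat.add (Nat.add (Nat.add C x1715) x3173) x1229) x1553) x1733) x1709) x1721) x1717) x21397) (Nat.mul (e (nat_lit 1715)) ap)) (Nat.mul (e (nat_lit 1715)) an))
    (Nat.add (Nat.add (Nat.add (Nat.add (Nat.add (Nat.add (Nat.add (Nat.add C (Nat.mul x1717 (nat_lit 2))) x3175) x1231) x1555) x1735) x1723) x1715) x21399)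
    (Nat.sub (Nat.add (Nat.add (Nat.add (Nat.add (Nat.add (Nat.add (Nat.add C x3179) x1235) x1559) x1739) x1715) x1723) x21403) (Nat.mul x1721 (nat_lit 2)))
    (Nat.add (Nat.add (Nat.add (Nat.add (Nat.add (Nat.add (Nat.add (Nat.add (Nat.add C x1723) x3181) x1237) x1561) x1741) x1717) x1721) x1725) x21405)
    (Nat.add (Nat.add (Nat.add (Nat.add (Nat.add (Nat.add C (Nat.mul x1725 (nat_lit 2))) x3183) x1239) x1563) x1743) x1723)
    (Nat.sub (Nat.add (Nat.add (Nat.add (Nat.add (Nat.add (Nat.add (Nat.add (Nat.add (Nat.add C x3191) x1247) x1571) x1787) x1715) x1739) x1735) x21415) (Nat.mul (e (nat_lit 1733)) ap)) (Nat.mul (e (nat_lit 1733)) an))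
    (Nat.add (Nat.add (Nat.add (Nat.add (Nat.add (Nat.add (Nat.add (Nat.add C x3193) x1249) x1573) x1789) x1717) x1741) x1733) x21417)
    (Nat.sub (Nat.add (Nat.add (Nat.add (Nat.add (Nat.add (Nat.add (Nat.add (Nat.add (Nat.add C x3197) x1253) x1577) x1793) x1721) x1757) x1733) x1741) x21421) x1739)
    (Nat.add (Nat.add (Nat.add (Nat.add (Nat.add (Nat.add (Nat.add (Nat.add (Nat.add (Nat.add (Nat.add (Nat.add C x1741) x3199) x1255) x1579) x1795) x1723) x1759) x1735) x1747) x1739) x1743) x21423)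
    (Nat.add (Nat.add (Nat.add (Nat.add (Nat.add (Nat.add (Nat.add (Nat.add (Nat.add C x1743) x3201) x1257) x1581) x1797) x1725) x1761) x1749) x1741)
    (Nat.add (Nat.add (Nat.add (Nat.add (Nat.add (Nat.add (Nat.add (Nat.add C x3205) x1261) x1585) x1801) x1765) x1741) x1749) x21429)
    (Nat.add (Nat.add (Nat.add (Nat.add (Nat.add (Nat.add (Nat.add (Nat.add C (Nat.mul x1749 (nat_lit 2))) x3207) x1263) x1587) x1803) x1767) x1743) x1747)
    (Nat.sub (Nat.add (Nat.add (Nat.add (Nat.add (Nat.add (Nat.add (Nat.add C x3215) x1271) x1595) x1811) x1739) x1759) x21439) (Nat.mul x1757 (nat_lit 2)))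
    (Nat.sub (Nat.add (Nat.add (Nat.add (Nat.add (Nat.add (Nat.add (Nat.add (Nat.add (Nat.add C x3217) x1273) x1597) x1813) x1741) x1765) x1757) x1761) x21441) x1759)
    (Nat.sub (Nat.add (Nat.add (Nat.add (Nat.add (Nat.add (Nat.add (Nat.add C x3219) x1275) x1599) x1815) x1743) x1767) x1759) (Nat.mul x1761 (nat_lit 2)))
    (Nat.add (Nat.add (Nat.add (Nat.add (Nat.add (Nat.add (Nat.add (Nat.add C x3223) x1279) x1603) x1819) x1747) x1759) x1767) x21447)
    (Nat.add (Nat.add (Nat.add (Nat.add (Nat.add (Nat.add (Nat.add (Nat.add (Nat.add C x1767) x3225) x1281) x1605) x1821) x1749) x1761) x1773) x1765)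
    (Nat.add (Nat.add (Nat.add (Nat.add (Nat.add (Nat.add C (Nat.mul x1773 (nat_lit 2))) x3231) x1287) x1611) x1827) x1767)
    (Nat.add (Nat.add (Nat.add (Nat.add (Nat.add (Nat.add (Nat.add (Nat.add (Nat.add C x1787) x3245) x1301) x1625) x1949) x1733) x1793) x1789) x21469)
    (Nat.add (Nat.add (Nat.add (Nat.add (Nat.add (Nat.add (Nat.add (Nat.add (Nat.add C x1789) x3247) x1303) x1627) x1951) x1735) x1795) x1787) x21471)
    (Nat.sub (Nat.add (Nat.add (Nat.add (Nat.add (Nat.add (Nat.add (Nat.add (Nat.add (Nat.add C x3251) x1307) x1631) x1955) x1739) x1811) x1787) x1795) x21475) x1793)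
    (Nat.add (Nat.add (Nat.add (Nat.add (Nat.add (Nat.add (Nat.add (Nat.add (Nat.add (Nat.add (Nat.add (Nat.add C x1795) x3253) x1309) x1633) x1957) x1741) x1813) x1789) x1801) x1793) x1797) x21477)
    (Nat.add (Nat.add (Nat.add (Nat.add (Nat.add (Nat.add (Nat.add (Nat.add (Nat.add C x1797) x3255) x1311) x1635) x1959) x1743) x1815) x1803) x1795)
    (Nat.sub (Nat.add (Nat.add (Nat.add (Nat.add (Nat.add (Nat.add (Nat.add (Nat.add (Nat.add C x3259) x1315) x1639) x1963) x1747) x1819) x1795) x1803) x21483) x1801)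
    (Nat.add (Nat.add (Nat.add (Nat.add (Nat.add (Nat.add (Nat.add (Nat.add (Nat.add C x1803) x3261) x1317) x1641) x1965) x1749) x1821) x1797) x1801)
    (Nat.add (Nat.add (Nat.add (Nat.add (Nat.add (Nat.add (Nat.add (Nat.add (Nat.add C x3269) x1325) x1649) x1973) x1757) x1865) x1793) x1813) x21493)
    (Nat.add (Nat.add (Nat.add (Nat.add (Nat.add (Nat.add (Nat.add (Nat.add (Nat.add (Nat.add (Nat.add (Nat.add C x1813) x3271) x1327) x1651) x1975) x1759) x1867) x1795) x1819) x1811) x1815) x21495)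
    (Nat.add (Nat.add (Nat.add (Nat.add (Nat.add (Nat.add (Nat.add (Nat.add (Nat.add C x3273) x1329) x1653) x1977) x1761) x1869) x1797) x1821) x1813)
    (Nat.add (Nat.add (Nat.add (Nat.add (Nat.add (Nat.add (Nat.add (Nat.add (Nat.add (Nat.add (Nat.add (Nat.add C x1819) x3277) x1333) x1657) x1981) x1765) x1873) x1801) x1837) x1813) x1821) x21501)
    (Nat.add (Nat.add (Nat.add (Nat.add (Nat.add (Nat.add (Nat.add (Nat.add (Nat.add (Nat.add (Nat.add (Nat.add C (Nat.mul x1821 (nat_lit 2))) x3279) x1335) x1659) x1983) x1767) x1875) x1803) x1839) x1815) x1827) x1819)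
    (Nat.add (Nat.add (Nat.add (Nat.add (Nat.add (Nat.add (Nat.add (Nat.add (Nat.add C (Nat.mul x1827 (nat_lit 2))) x3285) x1341) x1665) x1989) x1773) x1881) x1845) x1821)
    (Nat.add (Nat.add (Nat.add (Nat.add (Nat.add (Nat.add (Nat.add (Nat.add (Nat.add C x1837) x3295) x1351) x1675) x1999) x1891) x1819) x1839) x21519)
    (Nat.add (Nat.add (Nat.add (Nat.add (Nat.add (Nat.add (Nat.add (Nat.add (Nat.add C x1839) x3297) x1353) x1677) x2001) x1893) x1821) x1845) x1837)
    (Nat.add (Nat.add (Nat.add (Nat.add (Nat.add (Nat.add (Nat.add (Nat.add C (Nat.mul x1845 (nat_lit 3))) x3303) x1359) x1683) x2007) x1899) x1827) x1839)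
    (Nat.add (Nat.add (Nat.add (Nat.add (Nat.add (Nat.add C x3323) x1379) x2027) x1811) x1867) x21547)
    (Nat.add (Nat.add (Nat.add (Nat.add (Nat.add (Nat.add (Nat.add (Nat.add (Nat.add C x1867) x3325) x1381) x2029) x1813) x1873) x1865) x1869) x21549)
    (Nat.add (Nat.add (Nat.add (Nat.add (Nat.add (Nat.add C x3327) x1383) x2031) x1815) x1875) x1867)
    (Nat.add (Nat.add (Nat.add (Nat.add (Nat.add (Nat.add (Nat.add (Nat.add C x3331) x1387) x2035) x1819) x1891) x1867) x1875) x21555)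
    (Nat.add (Nat.add (Nat.add (Nat.add (Nat.add (Nat.add (Nat.add (Nat.add (Nat.add C x1875) x3333) x1389) x2037) x1821) x1893) x1869) x1881) x1873)
    (Nat.add (Nat.add (Nat.add (Nat.add (Nat.add (Nat.add C x3339) x1395) x2043) x1827) x1899) x1875)
    (Nat.add (Nat.add (Nat.add (Nat.add (Nat.add (Nat.add (Nat.add (Nat.add C (Nat.mul x1891 (nat_lit 2))) x3349) x1405) x2053) x1837) x1873) x1893) x21573)
    (Nat.add (Nat.add (Nat.add (Nat.add (Nat.add (Nat.add (Nat.add (Nat.add C (Nat.mul x1893 (nat_lit 2))) x3351) x1407) x2055) x1839) x1875) x1899) x1891)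
    (Nat.add (Nat.add (Nat.add (Nat.add (Nat.add (Nat.add (Nat.add (Nat.add C (Nat.mul x1899 (nat_lit 3))) x3357) x1413) x2061) x1845) x1881) x1917) x1893)
    (Nat.add (Nat.add (Nat.add (Nat.add (Nat.add C (Nat.mul x1917 (nat_lit 4))) x3375) x1431) x2079) x1899)
    (Nat.add (Nat.add (Nat.add (Nat.add (Nat.add (Nat.add C (Nat.mul x1949 (nat_lit 2))) x3407) x1787) x1955) x1951) x21631)
    (Nat.add (Nat.add (Nat.add (Nat.add (Nat.add (Nat.add C (Nat.mul x1951 (nat_lit 2))) x3409) x1789) x1957) x1949) x21633)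
    (Nat.add (Nat.add (Nat.add (Nat.add (Nat.add (Nat.add C x3413) x1793) x1973) x1949) x1957) x21637)
    (Nat.add (Nat.add (Nat.add (Nat.add (Nat.add (Nat.add (Nat.add (Nat.add (Nat.add C (Nat.mul x1957 (nat_lit 2))) x3415) x1795) x1975) x1951) x1963) x1955) x1959) x21639)
    (Nat.add (Nat.add (Nat.add (Nat.add (Nat.add (Nat.add C (Nat.mul x1959 (nat_lit 2))) x3417) x1797) x1977) x1965) x1957)
    (Nat.add (Nat.add (Nat.add (Nat.add (Nat.add (Nat.add C x3421) x1801) x1981) x1957) x1965) x21645)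
    (Nat.add (Nat.add (Nat.add (Nat.add (Nat.add (Nat.add C (Nat.mul x1965 (nat_lit 2))) x3423) x1803) x1983) x1959) x1963)
    (Nat.add (Nat.add (Nat.add (Nat.add (Nat.add (Nat.add C x3431) x1811) x2027) x1955) x1975) x21655)
    (Nat.add (Nat.add (Nat.add (Nat.add (Nat.add (Nat.add (Nat.add (Nat.add (Nat.add C x1975) x3433) x1813) x2029) x1957) x1981) x1973) x1977) x21657)
    (Nat.add (Nat.add (Nat.add (Nat.add (Nat.add (Nat.add C x3435) x1815) x2031) x1959) x1983) x1975)
    (Nat.add (Nat.add (Nat.add (Nat.add (Nat.add (Nat.add (Nat.add (Nat.add (Nat.add C x1981) x3439) x1819) x2035) x1963) x1999) x1975) x1983) x21663)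
    (Nat.add (Nat.add (Nat.add (Nat.add (Nat.add (Nat.add (Nat.add (Nat.add (Nat.add C (Nat.mul x1983 (nat_lit 2))) x3441) x1821) x2037) x1965) x2001) x1977) x1989) x1981)
    (Nat.add (Nat.add (Nat.add (Nat.add (Nat.add (Nat.add C (Nat.mul x1989 (nat_lit 2))) x3447) x1827) x2043) x2007) x1983)
    (Nat.add (Nat.add (Nat.add (Nat.add (Nat.add (Nat.add C x3457) x1837) x2053) x1981) x2001) x21681)
    (Nat.add (Nat.add (Nat.add (Nat.add (Nat.add (Nat.add C x3459) x1839) x2055) x1983) x2007) x1999)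
    (Nat.add (Nat.add (Nat.add (Nat.add (Nat.add (Nat.add C (Nat.mul x2007 (nat_lit 2))) x3465) x1845) x2061) x1989) x2001)
    (Nat.add (Nat.add (Nat.add (Nat.add (Nat.add (Nat.add C (Nat.mul x2027 (nat_lit 2))) x3485) x1865) x1973) x2029) x21709)
    (Nat.add (Nat.add (Nat.add (Nat.add (Nat.add (Nat.add (Nat.add (Nat.add C (Nat.mul x2029 (nat_lit 3))) x3487) x1867) x1975) x2035) x2027) x2031) x21711)
    (Nat.add (Nat.add (Nat.add (Nat.add (Nat.add (Nat.add C (Nat.mul x2031 (nat_lit 2))) x3489) x1869) x1977) x2037) x2029)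
    (Nat.add (Nat.add (Nat.add (Nat.add (Nat.add (Nat.add (Nat.add (Nat.add C (Nat.mul x2035 (nat_lit 2))) x3493) x1873) x1981) x2053) x2029) x2037) x21717)
    (Nat.add (Nat.add (Nat.add (Nat.add (Nat.add (Nat.add (Nat.add (Nat.add C (Nat.mul x2037 (nat_lit 3))) x3495) x1875) x1983) x2055) x2031) x2043) x2035)
    (Nat.add (Nat.add (Nat.add (Nat.add (Nat.add (Nat.add C (Nat.mul x2043 (nat_lit 2))) x3501) x1881) x1989) x2061) x2037)
    (Nat.add (Nat.add (Nat.add (Nat.add (Nat.add (Nat.add (Nat.add (Nat.add C (Nat.mul x2053 (nat_lit 3))) x3511) x1891) x1999) x2107) x2035) x2055) x21735)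
    (Nat.add (Nat.add (Nat.add (Nat.add (Nat.add (Nat.add (Nat.add (Nat.add C (Nat.mul x2055 (nat_lit 3))) x3513) x1893) x2001) x2109) x2037) x2061) x2053)
    (Nat.add (Nat.add (Nat.add (Nat.add (Nat.add (Nat.add (Nat.add (Nat.add C (Nat.mul x2061 (nat_lit 4))) x3519) x1899) x2007) x2115) x2043) x2079) x2055)
    (Nat.add (Nat.add (Nat.add (Nat.add (Nat.add C (Nat.mul x2079 (nat_lit 4))) x3537) x1917) x2133) x2061)
    (Nat.add (Nat.add (Nat.add (Nat.add (Nat.add C (Nat.mul x2107 (nat_lit 4))) x3565) x2053) x2109) x21789)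
    (Nat.add (Nat.add (Nat.add (Nat.add (Nat.add C (Nat.mul x2109 (nat_lit 4))) x3567) x2055) x2115) x2107)
    (Nat.add (Nat.add (Nat.add (Nat.add (Nat.add C (Nat.mul x2115 (nat_lit 4))) x3573) x2061) x2133) x2109)
    (Nat.add (Nat.add (Nat.add (Nat.add C (Nat.mul x2133 (nat_lit 6))) x3591) x2079) x2115)
    (Nat.add (Nat.add (Nat.add (Nat.add (Nat.add C (Nat.mul x2213 (nat_lit 4))) x6587) x755) x2231) x21895)
    (Nat.add (Nat.add (Nat.add (Nat.add (Nat.add (Nat.add (Nat.add (Nat.add C (Nat.mul x2231 (nat_lit 3))) x6605) x773) x2285) x2213) x2249) x2237) x21913)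
    (Nat.add (Nat.add (Nat.add (Nat.add (Nat.add (Nat.add (Nat.add (Nat.add C (Nat.mul x2237 (nat_lit 2))) x6611) x779) x2291) x2255) x2231) x2239) x21919)
    (Nat.add (Nat.add (Nat.add (Nat.add (Nat.add (Nat.add (Nat.add C (Nat.mul x2239 (nat_lit 4))) x6613) x781) x2293) x2257) x2237) x21921)
    (Nat.add (Nat.add (Nat.add (Nat.add (Nat.add (Nat.add C x6623) x791) x2303) x2231) x2255) x21931)
    (Nat.add (Nat.add (Nat.add (Nat.add (Nat.add (Nat.add (Nat.add (Nat.add (Nat.add C x2255) x6629) x797) x2309) x2237) x2249) x2261) x2257) x21937)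
    (Nat.add (Nat.add (Nat.add (Nat.add (Nat.add (Nat.add (Nat.add (Nat.add C (Nat.mul x2257 (nat_lit 2))) x6631) x799) x2311) x2239) x2263) x2255) x21939)
    (Nat.add (Nat.add (Nat.add (Nat.add (Nat.add (Nat.add C x6635) x803) x2315) x2255) x2263) x21943)
    (Nat.add (Nat.add (Nat.add (Nat.add (Nat.add (Nat.add (Nat.add (Nat.add C (Nat.mul x2263 (nat_lit 3))) x6637) x805) x2317) x2257) x2261) x2265) x21945)
    (Nat.add (Nat.add (Nat.add (Nat.add (Nat.add C (Nat.mul x2265 (nat_lit 4))) x6639) x807) x2319) x2263)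
    (Nat.sub (Nat.add (Nat.add (Nat.add (Nat.add (Nat.add (Nat.add (Nat.add (Nat.add (Nat.add C (Nat.mul x2285 (nat_lit 2))) x6659) x827) x2447) x2231) x2303) x2291) x21967) (Nat.mul (e (nat_lit 2285)) ap)) (Nat.mul (e (nat_lit 2285)) an))
    (Nat.sub (Nat.add (Nat.add (Nat.add (Nat.add (Nat.add (Nat.add (Nat.add (Nat.add (Nat.add C x6665) x833) x2453) x2237) x2309) x2285) x2293) x21973) (Nat.mul (e (nat_lit 2291)) ap)) (Nat.mul (e (nat_lit 2291)) an))
    (Nat.sub (Nat.add (Nat.add (Nat.add (Nat.add (Nat.add (Nat.add (Nat.add (Nat.add (Nat.add C (Nat.mul x2293 (nat_lit 2))) x6667) x835) x2455) x2239) x2311) x2291) x21975) (Nat.mul (e (nat_lit 2293)) ap)) (Nat.mul (e (nat_lit 2293)) an))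
    (Nat.sub (Nat.add (Nat.add (Nat.add (Nat.add (Nat.add (Nat.add (Nat.add (Nat.add (Nat.add (Nat.add C x2303) x6677) x845) x2465) x2249) x2357) x2285) x2309) x21985) (Nat.mul (e (nat_lit 2303)) ap)) (Nat.mul (e (nat_lit 2303)) an))
    (Nat.sub (Nat.add (Nat.add (Nat.add (Nat.add (Nat.add (Nat.add (Nat.add (Nat.add (Nat.add (Nat.add (Nat.add (Nat.add (Nat.add C x2309) x6683) x851) x2471) x2255) x2363) x2291) x2327) x2303) x2315) x2311) x21991) (Nat.mul (e (nat_lit 2309)) ap)) (Nat.mul (e (nat_lit 2309)) an))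
    (Nat.sub (Nat.add (Nat.add (Nat.add (Nat.add (Nat.add (Nat.add (Nat.add (Nat.add (Nat.add (Nat.add (Nat.add (Nat.add C (Nat.mul x2311 (nat_lit 2))) x6685) x853) x2473) x2257) x2365) x2293) x2329) x2317) x2309) x21993) (Nat.mul (e (nat_lit 2311)) ap)) (Nat.mul (e (nat_lit 2311)) an))
    (Nat.sub (Nat.sub (Nat.add (Nat.add (Nat.add (Nat.add (Nat.add (Nat.add (Nat.add (Nat.add (Nat.add (Nat.add C x6689) x857) x2477) x2261) x2369) x2333) x2309) x2317) x21997) (Nat.mul (e (nat_lit 2315)) ap)) x2315) (Nat.mul (e (nat_lit 2315)) an))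
    (Nat.sub (Nat.add (Nat.add (Nat.add (Nat.add (Nat.add (Nat.add (Nat.add (Nat.add (Nat.add (Nat.add (Nat.add (Nat.add C (Nat.mul x2317 (nat_lit 2))) x6691) x859) x2479) x2263) x2371) x2335) x2311) x2315) x2319) x21999) (Nat.mul (e (nat_lit 2317)) ap)) (Nat.mul (e (nat_lit 2317)) an))
    (Nat.add (Nat.add (Nat.add (Nat.add (Nat.add (Nat.add (Nat.add (Nat.add C (Nat.mul x2319 (nat_lit 3))) x6693) x861) x2481) x2265) x2373) x2337) x2317)
    (Nat.sub (Nat.add (Nat.add (Nat.add (Nat.add (Nat.add (Nat.add (Nat.add (Nat.add (Nat.add C x6701) x869) x2489) x2381) x2309) x2333) x2329) x22009) (Nat.mul (e (nat_lit 2327)) ap)) (Nat.mul (e (nat_lit 2327)) an))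
    (Nat.sub (Nat.add (Nat.add (Nat.add (Nat.add (Nat.add (Nat.add (Nat.add (Nat.add (Nat.add C x6703) x871) x2491) x2383) x2311) x2335) x2327) x22011) (Nat.mul (e (nat_lit 2329)) ap)) (Nat.mul (e (nat_lit 2329)) an))
    (Nat.sub (Nat.add (Nat.add (Nat.add (Nat.add (Nat.add (Nat.add (Nat.add (Nat.add (Nat.add C x6707) x875) x2495) x2387) x2315) x2327) x2335) x22015) (Nat.mul (e (nat_lit 2333)) ap)) (Nat.mul (e (nat_lit 2333)) an))
    (Nat.add (Nat.add (Nat.add (Nat.add (Nat.add (Nat.add (Nat.add (Nat.add (Nat.add (Nat.add (Nat.add C (Nat.mul x2335 (nat_lit 2))) x6709) x877) x2497) x2389) x2317) x2329) x2341) x2333) x2337) x22017)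
    (Nat.add (Nat.add (Nat.add (Nat.add (Nat.add (Nat.add (Nat.add (Nat.add C (Nat.mul x2337 (nat_lit 2))) x6711) x879) x2499) x2391) x2319) x2343) x2335)
    (Nat.add (Nat.add (Nat.add (Nat.add (Nat.add (Nat.add (Nat.add (Nat.add C (Nat.mul x2341 (nat_lit 2))) x6715) x883) x2503) x2395) x2335) x2343) x22023)
    (Nat.add (Nat.add (Nat.add (Nat.add (Nat.add (Nat.add (Nat.add C (Nat.mul x2343 (nat_lit 4))) x6717) x885) x2505) x2397) x2337) x2341)
    (Nat.sub (Nat.add (Nat.add (Nat.add (Nat.add (Nat.add (Nat.add (Nat.add C x6731) x899) x2519) x2303) x2363) x22039) (Nat.mul (e (nat_lit 2357)) ap)) (Nat.mul (e (nat_lit 2357)) an))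
    (Nat.sub (Nat.sub (Nat.add (Nat.add (Nat.add (Nat.add (Nat.add (Nat.add (Nat.add (Nat.add (Nat.add (Nat.add C x6737) x905) x2525) x2309) x2381) x2357) x2369) x2365) x22045) (Nat.mul (e (nat_lit 2363)) ap)) x2363) (Nat.mul (e (nat_lit 2363)) an))
    (Nat.add (Nat.add (Nat.add (Nat.add (Nat.add (Nat.add (Nat.add (Nat.add C x6739) x907) x2527) x2311) x2383) x2371) x2363) x22047)
    (Nat.sub (Nat.sub (Nat.add (Nat.add (Nat.add (Nat.add (Nat.add (Nat.add (Nat.add (Nat.add (Nat.add C x6743) x911) x2531) x2315) x2387) x2363) x2371) x22051) (Nat.mul (e (nat_lit 2369)) ap)) (Nat.mul x2369 (nat_lit 4))) (Nat.mul (e (nat_lit 2369)) an))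
    (Nat.sub (Nat.add (Nat.add (Nat.add (Nat.add (Nat.add (Nat.add (Nat.add (Nat.add (Nat.add C x6745) x913) x2533) x2317) x2389) x2365) x2369) x2373) x22053) x2371)
    (Nat.add (Nat.add (Nat.add (Nat.add (Nat.add (Nat.add C x6747) x915) x2535) x2319) x2391) x2371)
    (Nat.sub (Nat.add (Nat.add (Nat.add (Nat.add (Nat.add (Nat.add (Nat.add (Nat.add (Nat.add C x6755) x923) x2543) x2327) x2363) x2387) x2383) x22063) (Nat.mul (e (nat_lit 2381)) ap)) (Nat.mul (e (nat_lit 2381)) an))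
    (Nat.add (Nat.add (Nat.add (Nat.add (Nat.add (Nat.add (Nat.add (Nat.add C x6757) x925) x2545) x2329) x2365) x2389) x2381) x22065)
    (Nat.sub (Nat.add (Nat.add (Nat.add (Nat.add (Nat.add (Nat.add (Nat.add (Nat.add (Nat.add C x6761) x929) x2549) x2333) x2369) x2405) x2381) x2389) x22069) x2387)
    (Nat.add (Nat.add (Nat.add (Nat.add (Nat.add (Nat.add (Nat.add (Nat.add (Nat.add (Nat.add (Nat.add (Nat.add C x2389) x6763) x931) x2551) x2335) x2371) x2407) x2383) x2395) x2387) x2391) x22071)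
    (Nat.add (Nat.add (Nat.add (Nat.add (Nat.add (Nat.add (Nat.add (Nat.add (Nat.add C x2391) x6765) x933) x2553) x2337) x2373) x2409) x2397) x2389)
    (Nat.add (Nat.add (Nat.add (Nat.add (Nat.add (Nat.add (Nat.add (Nat.add C x6769) x937) x2557) x2341) x2413) x2389) x2397) x22077)
    (Nat.add (Nat.add (Nat.add (Nat.add (Nat.add (Nat.add (Nat.add (Nat.add C (Nat.mul x2397 (nat_lit 2))) x6771) x939) x2559) x2343) x2415) x2391) x2395)
    (Nat.add (Nat.add (Nat.add (Nat.add (Nat.add (Nat.add C x6779) x947) x2567) x2387) x2407) x22087)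
    (Nat.add (Nat.add (Nat.add (Nat.add (Nat.add (Nat.add (Nat.add (Nat.add (Nat.add C x2407) x6781) x949) x2569) x2389) x2413) x2405) x2409) x22089)
    (Nat.add (Nat.add (Nat.add (Nat.add (Nat.add (Nat.add C x6783) x951) x2571) x2391) x2415) x2407)
    (Nat.add (Nat.add (Nat.add (Nat.add (Nat.add (Nat.add (Nat.add (Nat.add C (Nat.mul x2413 (nat_lit 2))) x6787) x955) x2575) x2395) x2407) x2415) x22095)
    (Nat.add (Nat.add (Nat.add (Nat.add (Nat.add (Nat.add (Nat.add (Nat.add C (Nat.mul x2415 (nat_lit 3))) x6789) x957) x2577) x2397) x2409) x2421) x2413)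
    (Nat.add (Nat.add (Nat.add (Nat.add (Nat.add C (Nat.mul x2421 (nat_lit 4))) x6795) x963) x2583) x2415)
    (Nat.sub (Nat.add (Nat.add (Nat.add (Nat.add (Nat.add (Nat.add (Nat.add (Nat.add (Nat.add C (Nat.mul x2447 (nat_lit 2))) x6821) x989) x2933) x2285) x2465) x2453) x22129) (Nat.mul (e (nat_lit 2447)) ap)) (Nat.mul (e (nat_lit 2447)) an))
    (Nat.sub (Nat.add (Nat.add (Nat.add (Nat.add (Nat.add (Nat.add (Nat.add (Nat.add (Nat.add C x6827) x995) x2939) x2291) x2471) x2447) x2455) x22135) (Nat.mul (e (nat_lit 2453)) ap)) (Nat.mul (e (nat_lit 2453)) an))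
    (Nat.add (Nat.add (Nat.add (Nat.add (Nat.add (Nat.add (Nat.add (Nat.add C (Nat.mul x2455 (nat_lit 2))) x6829) x997) x2941) x2293) x2473) x2453) x22137)
    (Nat.sub (Nat.add (Nat.add (Nat.add (Nat.add (Nat.add (Nat.add (Nat.add (Nat.add (Nat.add C x6839) x1007) x2951) x2303) x2519) x2447) x2471) x22147) (Nat.mul (e (nat_lit 2465)) ap)) (Nat.mul (e (nat_lit 2465)) an))
    (Nat.sub (Nat.add (Nat.add (Nat.add (Nat.add (Nat.add (Nat.add (Nat.add (Nat.add (Nat.add (Nat.add (Nat.add (Nat.add C x6845) x1013) x2957) x2309) x2525) x2453) x2489) x2465) x2477) x2473) x22153) (Nat.mul (e (nat_lit 2471)) ap)) (Nat.mul (e (nat_lit 2471)) an))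
    (Nat.sub (Nat.add (Nat.add (Nat.add (Nat.add (Nat.add (Nat.add (Nat.add (Nat.add (Nat.add (Nat.add (Nat.add (Nat.add C x2473) x6847) x1015) x2959) x2311) x2527) x2455) x2491) x2479) x2471) x22155) (Nat.mul (e (nat_lit 2473)) ap)) (Nat.mul (e (nat_lit 2473)) an))
    (Nat.sub (Nat.sub (Nat.add (Nat.add (Nat.add (Nat.add (Nat.add (Nat.add (Nat.add (Nat.add (Nat.add (Nat.add C x6851) x1019) x2963) x2315) x2531) x2495) x2471) x2479) x22159) (Nat.mul (e (nat_lit 2477)) ap)) (Nat.mul x2477 (nat_lit 2))) (Nat.mul (e (nat_lit 2477)) an))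
    (Nat.sub (Nat.add (Nat.add (Nat.add (Nat.add (Nat.add (Nat.add (Nat.add (Nat.add (Nat.add (Nat.add (Nat.add (Nat.add C x2479) x6853) x1021) x2965) x2317) x2533) x2497) x2473) x2477) x2481) x22161) (Nat.mul (e (nat_lit 2479)) ap)) (Nat.mul (e (nat_lit 2479)) an))
    (Nat.add (Nat.add (Nat.add (Nat.add (Nat.add (Nat.add (Nat.add (Nat.add C (Nat.mul x2481 (nat_lit 2))) x6855) x1023) x2967) x2319) x2535) x2499) x2479)
    (Nat.sub (Nat.sub (Nat.add (Nat.add (Nat.add (Nat.add (Nat.add (Nat.add (Nat.add (Nat.add (Nat.add (Nat.add C x6863) x1031) x2975) x2327) x2543) x2471) x2495) x2491) x22171) (Nat.mul (e (nat_lit 2489)) ap)) (Nat.mul x2489 (nat_lit 2))) (Nat.mul (e (nat_lit 2489)) an))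
    (Nat.sub (Nat.sub (Nat.add (Nat.add (Nat.add (Nat.add (Nat.add (Nat.add (Nat.add (Nat.add (Nat.add (Nat.add C x6865) x1033) x2977) x2329) x2545) x2473) x2497) x2489) x22173) (Nat.mul (e (nat_lit 2491)) ap)) (Nat.mul x2491 (nat_lit 2))) (Nat.mul (e (nat_lit 2491)) an))
    (Nat.sub (Nat.sub (Nat.add (Nat.add (Nat.add (Nat.add (Nat.add (Nat.add (Nat.add (Nat.add (Nat.add (Nat.add C x6869) x1037) x2981) x2333) x2549) x2477) x2489) x2497) x22177) (Nat.mul (e (nat_lit 2495)) ap)) (Nat.mul x2495 (nat_lit 2))) (Nat.mul (e (nat_lit 2495)) an))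
    (Nat.sub (Nat.add (Nat.add (Nat.add (Nat.add (Nat.add (Nat.add (Nat.add (Nat.add (Nat.add (Nat.add (Nat.add (Nat.add C x6871) x1039) x2983) x2335) x2551) x2479) x2491) x2503) x2495) x2499) x22179) (Nat.mul (e (nat_lit 2497)) ap)) (Nat.mul (e (nat_lit 2497)) an))
    (Nat.add (Nat.add (Nat.add (Nat.add (Nat.add (Nat.add (Nat.add (Nat.add C x6873) x1041) x2985) x2337) x2553) x2481) x2505) x2497)
    (Nat.sub (Nat.add (Nat.add (Nat.add (Nat.add (Nat.add (Nat.add (Nat.add (Nat.add (Nat.add C x6877) x1045) x2989) x2341) x2557) x2497) x2505) x22185) (Nat.mul (e (nat_lit 2503)) ap)) (Nat.mul (e (nat_lit 2503)) an))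
    (Nat.add (Nat.add (Nat.add (Nat.add (Nat.add (Nat.add (Nat.add (Nat.add C (Nat.mul x2505 (nat_lit 2))) x6879) x1047) x2991) x2343) x2559) x2499) x2503)
    (Nat.sub (Nat.add (Nat.add (Nat.add (Nat.add (Nat.add (Nat.add (Nat.add (Nat.add (Nat.add (Nat.add C x2519) x6893) x1061) x3005) x2357) x2681) x2465) x2525) x22201) (Nat.mul (e (nat_lit 2519)) ap)) (Nat.mul (e (nat_lit 2519)) an))
    (Nat.sub (Nat.add (Nat.add (Nat.add (Nat.add (Nat.add (Nat.add (Nat.add (Nat.add (Nat.add (Nat.add (Nat.add (Nat.add C x6899) x1067) x3011) x2363) x2687) x2471) x2543) x2519) x2531) x2527) x22207) (Nat.mul (e (nat_lit 2525)) ap)) (Nat.mul (e (nat_lit 2525)) an))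
    (Nat.sub (Nat.add (Nat.add (Nat.add (Nat.add (Nat.add (Nat.add (Nat.add (Nat.add (Nat.add (Nat.add (Nat.add (Nat.add C x2527) x6901) x1069) x3013) x2365) x2689) x2473) x2545) x2533) x2525) x22209) (Nat.mul (e (nat_lit 2527)) ap)) (Nat.mul (e (nat_lit 2527)) an))
    (Nat.sub (Nat.sub (Nat.add (Nat.add (Nat.add (Nat.add (Nat.add (Nat.add (Nat.add (Nat.add (Nat.add (Nat.add (Nat.add C x6905) x1073) x3017) x2369) x2693) x2477) x2549) x2525) x2533) x22213) (Nat.mul (e (nat_lit 2531)) ap)) (Nat.mul x2531 (nat_lit 3))) (Nat.mul (e (nat_lit 2531)) an))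
    (Nat.sub (Nat.add (Nat.add (Nat.add (Nat.add (Nat.add (Nat.add (Nat.add (Nat.add (Nat.add (Nat.add (Nat.add (Nat.add C x6907) x1075) x3019) x2371) x2695) x2479) x2551) x2527) x2531) x2535) x22215) (Nat.mul (e (nat_lit 2533)) ap)) (Nat.mul (e (nat_lit 2533)) an))
    (Nat.add (Nat.add (Nat.add (Nat.add (Nat.add (Nat.add (Nat.add (Nat.add (Nat.add C x2535) x6909) x1077) x3021) x2373) x2697) x2481) x2553) x2533)
    (Nat.sub (Nat.add (Nat.add (Nat.add (Nat.add (Nat.add (Nat.add (Nat.add (Nat.add (Nat.add (Nat.add (Nat.add (Nat.add C x6917) x1085) x3029) x2381) x2705) x2489) x2597) x2525) x2549) x2545) x22225) (Nat.mul (e (nat_lit 2543)) ap)) (Nat.mul (e (nat_lit 2543)) an))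
    (Nat.sub (Nat.add (Nat.add (Nat.add (Nat.add (Nat.add (Nat.add (Nat.add (Nat.add (Nat.add (Nat.add (Nat.add (Nat.add C x6919) x1087) x3031) x2383) x2707) x2491) x2599) x2527) x2551) x2543) x22227) (Nat.mul (e (nat_lit 2545)) ap)) (Nat.mul (e (nat_lit 2545)) an))
    (Nat.sub (Nat.sub (Nat.add (Nat.add (Nat.add (Nat.add (Nat.add (Nat.add (Nat.add (Nat.add (Nat.add (Nat.add (Nat.add (Nat.add (Nat.add C x6923) x1091) x3035) x2387) x2711) x2495) x2603) x2531) x2567) x2543) x2551) x22231) (Nat.mul (e (nat_lit 2549)) ap)) x2549) (Nat.mul (e (nat_lit 2549)) an))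
    (Nat.sub (Nat.add (Nat.add (Nat.add (Nat.add (Nat.add (Nat.add (Nat.add (Nat.add (Nat.add (Nat.add (Nat.add (Nat.add (Nat.add (Nat.add (Nat.add (Nat.add C x2551) x6925) x1093) x3037) x2389) x2713) x2497) x2605) x2533) x2569) x2545) x2557) x2549) x2553) x22233) (Nat.mul (e (nat_lit 2551)) ap)) (Nat.mul (e (nat_lit 2551)) an))
    (Nat.add (Nat.add (Nat.add (Nat.add (Nat.add (Nat.add (Nat.add (Nat.add (Nat.add (Nat.add (Nat.add (Nat.add C x2553) x6927) x1095) x3039) x2391) x2715) x2499) x2607) x2535) x2571) x2559) x2551)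
    (Nat.sub (Nat.add (Nat.add (Nat.add (Nat.add (Nat.add (Nat.add (Nat.add (Nat.add (Nat.add (Nat.add (Nat.add (Nat.add C x6931) x1099) x3043) x2395) x2719) x2503) x2611) x2575) x2551) x2559) x22239) (Nat.mul (e (nat_lit 2557)) ap)) (Nat.mul (e (nat_lit 2557)) an))
    (Nat.add (Nat.add (Nat.add (Nat.add (Nat.add (Nat.add (Nat.add (Nat.add (Nat.add (Nat.add (Nat.add C (Nat.mul x2559 (nat_lit 2))) x6933) x1101) x3045) x2397) x2721) x2505) x2613) x2577) x2553) x2557)
    (Nat.sub (Nat.sub (Nat.add (Nat.add (Nat.add (Nat.add (Nat.add (Nat.add (Nat.add (Nat.add (Nat.add (Nat.add C x6941) x1109) x3053) x2405) x2729) x2621) x2549) x2569) x22249) (Nat.mul (e (nat_lit 2567)) ap)) x2567) (Nat.mul (e (nat_lit 2567)) an))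
    (Nat.sub (Nat.add (Nat.add (Nat.add (Nat.add (Nat.add (Nat.add (Nat.add (Nat.add (Nat.add (Nat.add (Nat.add (Nat.add C x6943) x1111) x3055) x2407) x2731) x2623) x2551) x2575) x2567) x2571) x22251) (Nat.mul (e (nat_lit 2569)) ap)) (Nat.mul (e (nat_lit 2569)) an))
    (Nat.sub (Nat.add (Nat.add (Nat.add (Nat.add (Nat.add (Nat.add (Nat.add (Nat.add (Nat.add C x6945) x1113) x3057) x2409) x2733) x2625) x2553) x2577) x2569) x2571)
    (Nat.sub (Nat.add (Nat.add (Nat.add (Nat.add (Nat.add (Nat.add (Nat.add (Nat.add (Nat.add (Nat.add (Nat.add (Nat.add C x2575) x6949) x1117) x3061) x2413) x2737) x2629) x2557) x2569) x2577) x22257) (Nat.mul (e (nat_lit 2575)) ap)) (Nat.mul (e (nat_lit 2575)) an))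
    (Nat.add (Nat.add (Nat.add (Nat.add (Nat.add (Nat.add (Nat.add (Nat.add (Nat.add (Nat.add (Nat.add C (Nat.mul x2577 (nat_lit 2))) x6951) x1119) x3063) x2415) x2739) x2631) x2559) x2571) x2583) x2575)
    (Nat.add (Nat.add (Nat.add (Nat.add (Nat.add (Nat.add (Nat.add (Nat.add C (Nat.mul x2583 (nat_lit 3))) x6957) x1125) x3069) x2421) x2745) x2637) x2577)
    (Nat.sub (Nat.add (Nat.add (Nat.add (Nat.add (Nat.add (Nat.add (Nat.add (Nat.add (Nat.add C x6971) x1139) x3083) x2759) x2543) x2603) x2599) x22279) (Nat.mul (e (nat_lit 2597)) ap)) (Nat.mul (e (nat_lit 2597)) an))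
    (Nat.sub (Nat.add (Nat.add (Nat.add (Nat.add (Nat.add (Nat.add (Nat.add (Nat.add (Nat.add C x6973) x1141) x3085) x2761) x2545) x2605) x2597) x22281) (Nat.mul (e (nat_lit 2599)) ap)) (Nat.mul (e (nat_lit 2599)) an))
    (Nat.sub (Nat.sub (Nat.add (Nat.add (Nat.add (Nat.add (Nat.add (Nat.add (Nat.add (Nat.add (Nat.add (Nat.add C x6977) x1145) x3089) x2765) x2549) x2621) x2597) x2605) x22285) (Nat.mul (e (nat_lit 2603)) ap)) (Nat.mul x2603 (nat_lit 2))) (Nat.mul (e (nat_lit 2603)) an))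
    (Nat.sub (Nat.add (Nat.add (Nat.add (Nat.add (Nat.add (Nat.add (Nat.add (Nat.add (Nat.add (Nat.add (Nat.add (Nat.add C x6979) x1147) x3091) x2767) x2551) x2623) x2599) x2611) x2603) x2607) x22287) (Nat.mul (e (nat_lit 2605)) ap)) (Nat.mul (e (nat_lit 2605)) an))
    (Nat.add (Nat.add (Nat.add (Nat.add (Nat.add (Nat.add (Nat.add (Nat.add C x6981) x1149) x3093) x2769) x2553) x2625) x2613) x2605)
    (Nat.sub (Nat.sub (Nat.add (Nat.add (Nat.add (Nat.add (Nat.add (Nat.add (Nat.add (Nat.add (Nat.add (Nat.add C x6985) x1153) x3097) x2773) x2557) x2629) x2605) x2613) x22293) (Nat.mul (e (nat_lit 2611)) ap)) (Nat.mul x2611 (nat_lit 2))) (Nat.mul (e (nat_lit 2611)) an))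
    (Nat.add (Nat.add (Nat.add (Nat.add (Nat.add (Nat.add (Nat.add (Nat.add C x6987) x1155) x3099) x2775) x2559) x2631) x2607) x2611)
    (Nat.sub (Nat.add (Nat.add (Nat.add (Nat.add (Nat.add (Nat.add (Nat.add (Nat.add (Nat.add C x6995) x1163) x3107) x2783) x2567) x2603) x2623) x22303) (Nat.mul (e (nat_lit 2621)) ap)) (Nat.mul (e (nat_lit 2621)) an))
    (Nat.sub (Nat.add (Nat.add (Nat.add (Nat.add (Nat.add (Nat.add (Nat.add (Nat.add (Nat.add (Nat.add (Nat.add (Nat.add C x2623) x6997) x1165) x3109) x2785) x2569) x2605) x2629) x2621) x2625) x22305) (Nat.mul (e (nat_lit 2623)) ap)) (Nat.mul (e (nat_lit 2623)) an))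
    (Nat.add (Nat.add (Nat.add (Nat.add (Nat.add (Nat.add (Nat.add (Nat.add C x6999) x1167) x3111) x2787) x2571) x2607) x2631) x2623)
    (Nat.add (Nat.add (Nat.add (Nat.add (Nat.add (Nat.add (Nat.add (Nat.add (Nat.add (Nat.add (Nat.add C x2629) x7003) x1171) x3115) x2791) x2575) x2611) x2647) x2623) x2631) x22311)
    (Nat.add (Nat.add (Nat.add (Nat.add (Nat.add (Nat.add (Nat.add (Nat.add (Nat.add (Nat.add (Nat.add C (Nat.mul x2631 (nat_lit 2))) x7005) x1173) x3117) x2793) x2577) x2613) x2649) x2625) x2637) x2629)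
    (Nat.add (Nat.add (Nat.add (Nat.add (Nat.add (Nat.add (Nat.add (Nat.add C (Nat.mul x2637 (nat_lit 2))) x7011) x1179) x3123) x2799) x2583) x2655) x2631)
    (Nat.add (Nat.add (Nat.add (Nat.add (Nat.add (Nat.add (Nat.add (Nat.add C (Nat.mul x2647 (nat_lit 2))) x7021) x1189) x3133) x2809) x2629) x2649) x22329)
    (Nat.add (Nat.add (Nat.add (Nat.add (Nat.add (Nat.add (Nat.add (Nat.add C (Nat.mul x2649 (nat_lit 2))) x7023) x1191) x3135) x2811) x2631) x2655) x2647)
    (Nat.add (Nat.add (Nat.add (Nat.add (Nat.add (Nat.add (Nat.add C (Nat.mul x2655 (nat_lit 4))) x7029) x1197) x3141) x2817) x2637) x2649)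
    (Nat.add (Nat.add (Nat.add (Nat.add (Nat.add (Nat.add C x7055) x1223) x3167) x2519) x2687) x22363)
    (Nat.sub (Nat.sub (Nat.add (Nat.add (Nat.add (Nat.add (Nat.add (Nat.add (Nat.add (Nat.add (Nat.add (Nat.add C x7061) x1229) x3173) x2525) x2705) x2681) x2693) x2689) x22369) (Nat.mul (e (nat_lit 2687)) ap)) x2687) (Nat.mul (e (nat_lit 2687)) an))
    (Nat.sub (Nat.add (Nat.add (Nat.add (Nat.add (Nat.add (Nat.add (Nat.add (Nat.add (Nat.add C x7063) x1231) x3175) x2527) x2707) x2695) x2687) x22371) (Nat.mul (e (nat_lit 2689)) ap)) (Nat.mul (e (nat_lit 2689)) an))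
    (Nat.sub (Nat.sub (Nat.add (Nat.add (Nat.add (Nat.add (Nat.add (Nat.add (Nat.add (Nat.add (Nat.add C x7067) x1235) x3179) x2531) x2711) x2687) x2695) x22375) (Nat.mul (e (nat_lit 2693)) ap)) (Nat.mul x2693 (nat_lit 4))) (Nat.mul (e (nat_lit 2693)) an))
    (Nat.sub (Nat.sub (Nat.add (Nat.add (Nat.add (Nat.add (Nat.add (Nat.add (Nat.add (Nat.add (Nat.add (Nat.add C x7069) x1237) x3181) x2533) x2713) x2689) x2693) x2697) x22377) (Nat.mul (e (nat_lit 2695)) ap)) x2695) (Nat.mul (e (nat_lit 2695)) an))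
    (Nat.add (Nat.add (Nat.add (Nat.add (Nat.add (Nat.add C x7071) x1239) x3183) x2535) x2715) x2695)
    (Nat.sub (Nat.sub (Nat.add (Nat.add (Nat.add (Nat.add (Nat.add (Nat.add (Nat.add (Nat.add (Nat.add (Nat.add C x7079) x1247) x3191) x2543) x2759) x2687) x2711) x2707) x22387) (Nat.mul (e (nat_lit 2705)) ap)) (Nat.mul x2705 (nat_lit 2))) (Nat.mul (e (nat_lit 2705)) an))
    (Nat.sub (Nat.sub (Nat.add (Nat.add (Nat.add (Nat.add (Nat.add (Nat.add (Nat.add (Nat.add (Nat.add (Nat.add C x7081) x1249) x3193) x2545) x2761) x2689) x2713) x2705) x22389) (Nat.mul (e (nat_lit 2707)) ap)) (Nat.mul x2707 (nat_lit 2))) (Nat.mul (e (nat_lit 2707)) an))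
    (Nat.sub (Nat.sub (Nat.add (Nat.add (Nat.add (Nat.add (Nat.add (Nat.add (Nat.add (Nat.add (Nat.add (Nat.add (Nat.add C x7085) x1253) x3197) x2549) x2765) x2693) x2729) x2705) x2713) x22393) (Nat.mul (e (nat_lit 2711)) ap)) (Nat.mul x2711 (nat_lit 3))) (Nat.mul (e (nat_lit 2711)) an))
    (Nat.sub (Nat.sub (Nat.add (Nat.add (Nat.add (Nat.add (Nat.add (Nat.add (Nat.add (Nat.add (Nat.add (Nat.add (Nat.add (Nat.add (Nat.add C x7087) x1255) x3199) x2551) x2767) x2695) x2731) x2707) x2719) x2711) x2715) x22395) (Nat.mul (e (nat_lit 2713)) ap)) x2713) (Nat.mul (e (nat_lit 2713)) an))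
    (Nat.sub (Nat.add (Nat.add (Nat.add (Nat.add (Nat.add (Nat.add (Nat.add (Nat.add (Nat.add C x7089) x1257) x3201) x2553) x2769) x2697) x2733) x2721) x2713) x2715)
    (Nat.sub (Nat.sub (Nat.add (Nat.add (Nat.add (Nat.add (Nat.add (Nat.add (Nat.add (Nat.add (Nat.add (Nat.add C x7093) x1261) x3205) x2557) x2773) x2737) x2713) x2721) x22401) (Nat.mul (e (nat_lit 2719)) ap)) (Nat.mul x2719 (nat_lit 2))) (Nat.mul (e (nat_lit 2719)) an))
    (Nat.add (Nat.add (Nat.add (Nat.add (Nat.add (Nat.add (Nat.add (Nat.add C x7095) x1263) x3207) x2559) x2775) x2739) x2715) x2719)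
    (Nat.sub (Nat.sub (Nat.add (Nat.add (Nat.add (Nat.add (Nat.add (Nat.add (Nat.add (Nat.add (Nat.add C x7103) x1271) x3215) x2567) x2783) x2711) x2731) x22411) (Nat.mul (e (nat_lit 2729)) ap)) (Nat.mul x2729 (nat_lit 4))) (Nat.mul (e (nat_lit 2729)) an))
    (Nat.sub (Nat.sub (Nat.add (Nat.add (Nat.add (Nat.add (Nat.add (Nat.add (Nat.add (Nat.add (Nat.add (Nat.add (Nat.add C x7105) x1273) x3217) x2569) x2785) x2713) x2737) x2729) x2733) x22413) (Nat.mul (e (nat_lit 2731)) ap)) (Nat.mul x2731 (nat_lit 3))) (Nat.mul (e (nat_lit 2731)) an))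
    (Nat.sub (Nat.add (Nat.add (Nat.add (Nat.add (Nat.add (Nat.add (Nat.add (Nat.add C x7107) x1275) x3219) x2571) x2787) x2715) x2739) x2731) (Nat.mul x2733 (nat_lit 4)))
    (Nat.sub (Nat.add (Nat.add (Nat.add (Nat.add (Nat.add (Nat.add (Nat.add (Nat.add (Nat.add C x7111) x1279) x3223) x2575) x2791) x2719) x2731) x2739) x22419) (Nat.mul x2737 (nat_lit 2)))
    (Nat.sub (Nat.add (Nat.add (Nat.add (Nat.add (Nat.add (Nat.add (Nat.add (Nat.add (Nat.add C x7113) x1281) x3225) x2577) x2793) x2721) x2733) x2745) x2737) x2739)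
    (Nat.add (Nat.add (Nat.add (Nat.add (Nat.add (Nat.add C x7119) x1287) x3231) x2583) x2799) x2739)
    (Nat.sub (Nat.add (Nat.add (Nat.add (Nat.add (Nat.add (Nat.add (Nat.add (Nat.add (Nat.add C x7133) x1301) x3245) x2597) x2705) x2765) x2761) x22441) (Nat.mul (e (nat_lit 2759)) ap)) (Nat.mul (e (nat_lit 2759)) an))
    (Nat.sub (Nat.add (Nat.add (Nat.add (Nat.add (Nat.add (Nat.add (Nat.add (Nat.add (Nat.add C x7135) x1303) x3247) x2599) x2707) x2767) x2759) x22443) (Nat.mul (e (nat_lit 2761)) ap)) (Nat.mul (e (nat_lit 2761)) an))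
    (Nat.sub (Nat.sub (Nat.add (Nat.add (Nat.add (Nat.add (Nat.add (Nat.add (Nat.add (Nat.add (Nat.add (Nat.add C x7139) x1307) x3251) x2603) x2711) x2783) x2759) x2767) x22447) (Nat.mul (e (nat_lit 2765)) ap)) (Nat.mul x2765 (nat_lit 2))) (Nat.mul (e (nat_lit 2765)) an))
    (Nat.sub (Nat.add (Nat.add (Nat.add (Nat.add (Nat.add (Nat.add (Nat.add (Nat.add (Nat.add (Nat.add (Nat.add (Nat.add C x7141) x1309) x3253) x2605) x2713) x2785) x2761) x2773) x2765) x2769) x22449) (Nat.mul (e (nat_lit 2767)) ap)) (Nat.mul (e (nat_lit 2767)) an))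
    (Nat.add (Nat.add (Nat.add (Nat.add (Nat.add (Nat.add (Nat.add (Nat.add C x7143) x1311) x3255) x2607) x2715) x2787) x2775) x2767)
    (Nat.sub (Nat.add (Nat.add (Nat.add (Nat.add (Nat.add (Nat.add (Nat.add (Nat.add (Nat.add C x7147) x1315) x3259) x2611) x2719) x2791) x2767) x2775) x22455) (Nat.mul x2773 (nat_lit 2)))
    (Nat.add (Nat.add (Nat.add (Nat.add (Nat.add (Nat.add (Nat.add (Nat.add C x7149) x1317) x3261) x2613) x2721) x2793) x2769) x2773)
    (Nat.sub (Nat.sub (Nat.add (Nat.add (Nat.add (Nat.add (Nat.add (Nat.add (Nat.add (Nat.add (Nat.add (Nat.add C x7157) x1325) x3269) x2621) x2729) x2837) x2765) x2785) x22465) (Nat.mul (e (nat_lit 2783)) ap)) x2783) (Nat.mul (e (nat_lit 2783)) an))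
    (Nat.sub (Nat.add (Nat.add (Nat.add (Nat.add (Nat.add (Nat.add (Nat.add (Nat.add (Nat.add (Nat.add (Nat.add (Nat.add C x7159) x1327) x3271) x2623) x2731) x2839) x2767) x2791) x2783) x2787) x22467) (Nat.mul (e (nat_lit 2785)) ap)) (Nat.mul (e (nat_lit 2785)) an))
    (Nat.sub (Nat.add (Nat.add (Nat.add (Nat.add (Nat.add (Nat.add (Nat.add (Nat.add (Nat.add C x7161) x1329) x3273) x2625) x2733) x2841) x2769) x2793) x2785) x2787)
    (Nat.add (Nat.add (Nat.add (Nat.add (Nat.add (Nat.add (Nat.add (Nat.add (Nat.add (Nat.add (Nat.add C x7165) x1333) x3277) x2629) x2737) x2845) x2773) x2809) x2785) x2793) x22473)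
    (Nat.add (Nat.add (Nat.add (Nat.add (Nat.add (Nat.add (Nat.add (Nat.add (Nat.add (Nat.add (Nat.add (Nat.add C x2793) x7167) x1335) x3279) x2631) x2739) x2847) x2775) x2811) x2787) x2799) x2791)
    (Nat.add (Nat.add (Nat.add (Nat.add (Nat.add (Nat.add (Nat.add (Nat.add (Nat.add C x2799) x7173) x1341) x3285) x2637) x2745) x2853) x2817) x2793)
    (Nat.add (Nat.add (Nat.add (Nat.add (Nat.add (Nat.add (Nat.add (Nat.add C x7183) x1351) x3295) x2647) x2863) x2791) x2811) x22491)
    (Nat.add (Nat.add (Nat.add (Nat.add (Nat.add (Nat.add (Nat.add (Nat.add C x7185) x1353) x3297) x2649) x2865) x2793) x2817) x2809)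
    (Nat.add (Nat.add (Nat.add (Nat.add (Nat.add (Nat.add (Nat.add (Nat.add C (Nat.mul x2817 (nat_lit 2))) x7191) x1359) x3303) x2655) x2871) x2799) x2811)
    (Nat.add (Nat.add (Nat.add (Nat.add (Nat.add (Nat.add C x7211) x1379) x3323) x2783) x2839) x22519)
    (Nat.sub (Nat.add (Nat.add (Nat.add (Nat.add (Nat.add (Nat.add (Nat.add (Nat.add (Nat.add (Nat.add C x2839) x7213) x1381) x3325) x2785) x2845) x2837) x2841) x22521) (Nat.mul (e (nat_lit 2839)) ap)) (Nat.mul (e (nat_lit 2839)) an))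
    (Nat.add (Nat.add (Nat.add (Nat.add (Nat.add (Nat.add C x7215) x1383) x3327) x2787) x2847) x2839)
    (Nat.add (Nat.add (Nat.add (Nat.add (Nat.add (Nat.add (Nat.add (Nat.add C x7219) x1387) x3331) x2791) x2863) x2839) x2847) x22527)
    (Nat.add (Nat.add (Nat.add (Nat.add (Nat.add (Nat.add (Nat.add (Nat.add (Nat.add C x2847) x7221) x1389) x3333) x2793) x2865) x2841) x2853) x2845)
    (Nat.add (Nat.add (Nat.add (Nat.add (Nat.add (Nat.add C x7227) x1395) x3339) x2799) x2871) x2847)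
    (Nat.add (Nat.add (Nat.add (Nat.add (Nat.add (Nat.add (Nat.add (Nat.add C (Nat.mul x2863 (nat_lit 2))) x7237) x1405) x3349) x2809) x2845) x2865) x22545)
    (Nat.add (Nat.add (Nat.add (Nat.add (Nat.add (Nat.add (Nat.add (Nat.add C (Nat.mul x2865 (nat_lit 2))) x7239) x1407) x3351) x2811) x2847) x2871) x2863)
    (Nat.add (Nat.add (Nat.add (Nat.add (Nat.add (Nat.add (Nat.add (Nat.add C (Nat.mul x2871 (nat_lit 3))) x7245) x1413) x3357) x2817) x2853) x2889) x2865)
    (Nat.add (Nat.add (Nat.add (Nat.add (Nat.add C (Nat.mul x2889 (nat_lit 4))) x7263) x1431) x3375) x2871)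
    (Nat.add (Nat.add (Nat.add (Nat.add (Nat.add (Nat.add (Nat.add (Nat.add C (Nat.mul x2933 (nat_lit 3))) x7307) x1475) x4391) x2447) x2951) x2939) x22615)
    (Nat.add (Nat.add (Nat.add (Nat.add (Nat.add (Nat.add (Nat.add (Nat.add (Nat.add C x2939) x7313) x1481) x4397) x2453) x2957) x2933) x2941) x22621)
    (Nat.add (Nat.add (Nat.add (Nat.add (Nat.add (Nat.add (Nat.add (Nat.add C (Nat.mul x2941 (nat_lit 3))) x7315) x1483) x4399) x2455) x2959) x2939) x22623)
    (Nat.add (Nat.add (Nat.add (Nat.add (Nat.add (Nat.add (Nat.add (Nat.add (Nat.add C x2951) x7325) x1493) x4409) x2465) x3005) x2933) x2957) x22633)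
    (Nat.sub (Nat.add (Nat.add (Nat.add (Nat.add (Nat.add (Nat.add (Nat.add (Nat.add (Nat.add (Nat.add (Nat.add (Nat.add (Nat.add C x2957) x7331) x1499) x4415) x2471) x3011) x2939) x2975) x2951) x2963) x2959) x22639) (Nat.mul (e (nat_lit 2957)) ap)) (Nat.mul (e (nat_lit 2957)) an))
    (Nat.sub (Nat.add (Nat.add (Nat.add (Nat.add (Nat.add (Nat.add (Nat.add (Nat.add (Nat.add (Nat.add (Nat.add (Nat.add C (Nat.mul x2959 (nat_lit 2))) x7333) x1501) x4417) x2473) x3013) x2941) x2977) x2965) x2957) x22641) (Nat.mul (e (nat_lit 2959)) ap)) (Nat.mul (e (nat_lit 2959)) an))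
    (Nat.sub (Nat.sub (Nat.add (Nat.add (Nat.add (Nat.add (Nat.add (Nat.add (Nat.add (Nat.add (Nat.add (Nat.add C x7337) x1505) x4421) x2477) x3017) x2981) x2957) x2965) x22645) (Nat.mul (e (nat_lit 2963)) ap)) x2963) (Nat.mul (e (nat_lit 2963)) an))
    (Nat.add (Nat.add (Nat.add (Nat.add (Nat.add (Nat.add (Nat.add (Nat.add (Nat.add (Nat.add (Nat.add C (Nat.mul x2965 (nat_lit 2))) x7339) x1507) x4423) x2479) x3019) x2983) x2959) x2963) x2967) x22647)
    (Nat.add (Nat.add (Nat.add (Nat.add (Nat.add (Nat.add (Nat.add (Nat.add C (Nat.mul x2967 (nat_lit 3))) x7341) x1509) x4425) x2481) x3021) x2985) x2965)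
    (Nat.sub (Nat.sub (Nat.add (Nat.add (Nat.add (Nat.add (Nat.add (Nat.add (Nat.add (Nat.add (Nat.add (Nat.add C x7349) x1517) x4433) x2489) x3029) x2957) x2981) x2977) x22657) (Nat.mul (e (nat_lit 2975)) ap)) x2975) (Nat.mul (e (nat_lit 2975)) an))
    (Nat.sub (Nat.add (Nat.add (Nat.add (Nat.add (Nat.add (Nat.add (Nat.add (Nat.add (Nat.add C x7351) x1519) x4435) x2491) x3031) x2959) x2983) x2975) x22659) x2977)
    (Nat.sub (Nat.add (Nat.add (Nat.add (Nat.add (Nat.add (Nat.add (Nat.add (Nat.add (Nat.add C x7355) x1523) x4439) x2495) x3035) x2963) x2975) x2983) x22663) x2981)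
    (Nat.add (Nat.add (Nat.add (Nat.add (Nat.add (Nat.add (Nat.add (Nat.add (Nat.add (Nat.add (Nat.add (Nat.add C x2983) x7357) x1525) x4441) x2497) x3037) x2965) x2977) x2989) x2981) x2985) x22665)
    (Nat.add (Nat.add (Nat.add (Nat.add (Nat.add (Nat.add (Nat.add (Nat.add (Nat.add C x2985) x7359) x1527) x4443) x2499) x3039) x2967) x2991) x2983)
    (Nat.add (Nat.add (Nat.add (Nat.add (Nat.add (Nat.add (Nat.add (Nat.add (Nat.add C x2989) x7363) x1531) x4447) x2503) x3043) x2983) x2991) x22671)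
    (Nat.add (Nat.add (Nat.add (Nat.add (Nat.add (Nat.add (Nat.add (Nat.add C (Nat.mul x2991 (nat_lit 3))) x7365) x1533) x4449) x2505) x3045) x2985) x2989)
    (Nat.add (Nat.add (Nat.add (Nat.add (Nat.add (Nat.add (Nat.add (Nat.add (Nat.add C x3005) x7379) x1547) x4463) x2519) x3167) x2951) x3011) x22687)
    (Nat.sub (Nat.add (Nat.add (Nat.add (Nat.add (Nat.add (Nat.add (Nat.add (Nat.add (Nat.add (Nat.add (Nat.add (Nat.add C x7385) x1553) x4469) x2525) x3173) x2957) x3029) x3005) x3017) x3013) x22693) (Nat.mul (e (nat_lit 3011)) ap)) (Nat.mul (e (nat_lit 3011)) an))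
    (Nat.sub (Nat.add (Nat.add (Nat.add (Nat.add (Nat.add (Nat.add (Nat.add (Nat.add (Nat.add (Nat.add (Nat.add (Nat.add C x3013) x7387) x1555) x4471) x2527) x3175) x2959) x3031) x3019) x3011) x22695) (Nat.mul (e (nat_lit 3013)) ap)) (Nat.mul (e (nat_lit 3013)) an))
    (Nat.sub (Nat.sub (Nat.add (Nat.add (Nat.add (Nat.add (Nat.add (Nat.add (Nat.add (Nat.add (Nat.add (Nat.add (Nat.add C x7391) x1559) x4475) x2531) x3179) x2963) x3035) x3011) x3019) x22699) (Nat.mul (e (nat_lit 3017)) ap)) (Nat.mul x3017 (nat_lit 3))) (Nat.mul (e (nat_lit 3017)) an))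
    (Nat.sub (Nat.add (Nat.add (Nat.add (Nat.add (Nat.add (Nat.add (Nat.add (Nat.add (Nat.add (Nat.add (Nat.add (Nat.add C x7393) x1561) x4477) x2533) x3181) x2965) x3037) x3013) x3017) x3021) x22701) (Nat.mul (e (nat_lit 3019)) ap)) (Nat.mul (e (nat_lit 3019)) an))
    (Nat.add (Nat.add (Nat.add (Nat.add (Nat.add (Nat.add (Nat.add (Nat.add (Nat.add C x3021) x7395) x1563) x4479) x2535) x3183) x2967) x3039) x3019)
    (Nat.sub (Nat.add (Nat.add (Nat.add (Nat.add (Nat.add (Nat.add (Nat.add (Nat.add (Nat.add (Nat.add (Nat.add (Nat.add C x7403) x1571) x4487) x2543) x3191) x2975) x3083) x3011) x3035) x3031) x22711) (Nat.mul (e (nat_lit 3029)) ap)) (Nat.mul (e (nat_lit 3029)) an))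
    (Nat.sub (Nat.add (Nat.add (Nat.add (Nat.add (Nat.add (Nat.add (Nat.add (Nat.add (Nat.add (Nat.add (Nat.add (Nat.add C x7405) x1573) x4489) x2545) x3193) x2977) x3085) x3013) x3037) x3029) x22713) (Nat.mul (e (nat_lit 3031)) ap)) (Nat.mul (e (nat_lit 3031)) an))
    (Nat.sub (Nat.sub (Nat.add (Nat.add (Nat.add (Nat.add (Nat.add (Nat.add (Nat.add (Nat.add (Nat.add (Nat.add (Nat.add (Nat.add (Nat.add C x7409) x1577) x4493) x2549) x3197) x2981) x3089) x3017) x3053) x3029) x3037) x22717) (Nat.mul (e (nat_lit 3035)) ap)) x3035) (Nat.mul (e (nat_lit 3035)) an))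
    (Nat.sub (Nat.add (Nat.add (Nat.add (Nat.add (Nat.add (Nat.add (Nat.add (Nat.add (Nat.add (Nat.add (Nat.add (Nat.add (Nat.add (Nat.add (Nat.add (Nat.add C x3037) x7411) x1579) x4495) x2551) x3199) x2983) x3091) x3019) x3055) x3031) x3043) x3035) x3039) x22719) (Nat.mul (e (nat_lit 3037)) ap)) (Nat.mul (e (nat_lit 3037)) an))
    (Nat.add (Nat.add (Nat.add (Nat.add (Nat.add (Nat.add (Nat.add (Nat.add (Nat.add (Nat.add (Nat.add (Nat.add C x3039) x7413) x1581) x4497) x2553) x3201) x2985) x3093) x3021) x3057) x3045) x3037)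
    (Nat.add (Nat.add (Nat.add (Nat.add (Nat.add (Nat.add (Nat.add (Nat.add (Nat.add (Nat.add (Nat.add C x7417) x1585) x4501) x2557) x3205) x2989) x3097) x3061) x3037) x3045) x22725)
    (Nat.add (Nat.add (Nat.add (Nat.add (Nat.add (Nat.add (Nat.add (Nat.add (Nat.add (Nat.add (Nat.add C (Nat.mul x3045 (nat_lit 2))) x7419) x1587) x4503) x2559) x3207) x2991) x3099) x3063) x3039) x3043)
    (Nat.sub (Nat.sub (Nat.add (Nat.add (Nat.add (Nat.add (Nat.add (Nat.add (Nat.add (Nat.add (Nat.add (Nat.add C x7427) x1595) x4511) x2567) x3215) x3107) x3035) x3055) x22735) (Nat.mul (e (nat_lit 3053)) ap)) x3053) (Nat.mul (e (nat_lit 3053)) an))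
    (Nat.sub (Nat.add (Nat.add (Nat.add (Nat.add (Nat.add (Nat.add (Nat.add (Nat.add (Nat.add (Nat.add (Nat.add (Nat.add C x7429) x1597) x4513) x2569) x3217) x3109) x3037) x3061) x3053) x3057) x22737) (Nat.mul (e (nat_lit 3055)) ap)) (Nat.mul (e (nat_lit 3055)) an))
    (Nat.sub (Nat.add (Nat.add (Nat.add (Nat.add (Nat.add (Nat.add (Nat.add (Nat.add (Nat.add C x7431) x1599) x4515) x2571) x3219) x3111) x3039) x3063) x3055) x3057)
    (Nat.add (Nat.add (Nat.add (Nat.add (Nat.add (Nat.add (Nat.add (Nat.add (Nat.add (Nat.add (Nat.add C x3061) x7435) x1603) x4519) x2575) x3223) x3115) x3043) x3055) x3063) x22743)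
    (Nat.add (Nat.add (Nat.add (Nat.add (Nat.add (Nat.add (Nat.add (Nat.add (Nat.add (Nat.add (Nat.add C (Nat.mul x3063 (nat_lit 2))) x7437) x1605) x4521) x2577) x3225) x3117) x3045) x3057) x3069) x3061)
    (Nat.add (Nat.add (Nat.add (Nat.add (Nat.add (Nat.add (Nat.add (Nat.add C (Nat.mul x3069 (nat_lit 3))) x7443) x1611) x4527) x2583) x3231) x3123) x3063)
    (Nat.sub (Nat.sub (Nat.add (Nat.add (Nat.add (Nat.add (Nat.add (Nat.add (Nat.add (Nat.add (Nat.add (Nat.add C x7457) x1625) x4541) x2597) x3245) x3029) x3089) x3085) x22765) (Nat.mul (e (nat_lit 3083)) ap)) x3083) (Nat.mul (e (nat_lit 3083)) an))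
    (Nat.sub (Nat.sub (Nat.add (Nat.add (Nat.add (Nat.add (Nat.add (Nat.add (Nat.add (Nat.add (Nat.add (Nat.add C x7459) x1627) x4543) x2599) x3247) x3031) x3091) x3083) x22767) (Nat.mul (e (nat_lit 3085)) ap)) x3085) (Nat.mul (e (nat_lit 3085)) an))
    (Nat.sub (Nat.sub (Nat.add (Nat.add (Nat.add (Nat.add (Nat.add (Nat.add (Nat.add (Nat.add (Nat.add (Nat.add (Nat.add C x7463) x1631) x4547) x2603) x3251) x3035) x3107) x3083) x3091) x22771) (Nat.mul (e (nat_lit 3089)) ap)) (Nat.mul x3089 (nat_lit 3))) (Nat.mul (e (nat_lit 3089)) an))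
    (Nat.sub (Nat.sub (Nat.add (Nat.add (Nat.add (Nat.add (Nat.add (Nat.add (Nat.add (Nat.add (Nat.add (Nat.add (Nat.add (Nat.add (Nat.add C x7465) x1633) x4549) x2605) x3253) x3037) x3109) x3085) x3097) x3089) x3093) x22773) (Nat.mul (e (nat_lit 3091)) ap)) x3091) (Nat.mul (e (nat_lit 3091)) an))
    (Nat.sub (Nat.add (Nat.add (Nat.add (Nat.add (Nat.add (Nat.add (Nat.add (Nat.add (Nat.add C x7467) x1635) x4551) x2607) x3255) x3039) x3111) x3099) x3091) x3093)
    (Nat.sub (Nat.add (Nat.add (Nat.add (Nat.add (Nat.add (Nat.add (Nat.add (Nat.add (Nat.add (Nat.add C x7471) x1639) x4555) x2611) x3259) x3043) x3115) x3091) x3099) x22779) (Nat.mul x3097 (nat_lit 3)))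
    (Nat.sub (Nat.add (Nat.add (Nat.add (Nat.add (Nat.add (Nat.add (Nat.add (Nat.add (Nat.add C x7473) x1641) x4557) x2613) x3261) x3045) x3117) x3093) x3097) x3099)
    (Nat.sub (Nat.sub (Nat.add (Nat.add (Nat.add (Nat.add (Nat.add (Nat.add (Nat.add (Nat.add (Nat.add (Nat.add C x7481) x1649) x4565) x2621) x3269) x3053) x3089) x3109) x22789) (Nat.mul (e (nat_lit 3107)) ap)) x3107) (Nat.mul (e (nat_lit 3107)) an))
    (Nat.add (Nat.add (Nat.add (Nat.add (Nat.add (Nat.add (Nat.add (Nat.add (Nat.add (Nat.add (Nat.add C x7483) x1651) x4567) x2623) x3271) x3055) x3091) x3115) x3107) x3111) x22791)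
    (Nat.sub (Nat.add (Nat.add (Nat.add (Nat.add (Nat.add (Nat.add (Nat.add (Nat.add (Nat.add C x7485) x1653) x4569) x2625) x3273) x3057) x3093) x3117) x3109) x3111)
    (Nat.add (Nat.add (Nat.add (Nat.add (Nat.add (Nat.add (Nat.add (Nat.add (Nat.add (Nat.add (Nat.add C x7489) x1657) x4573) x2629) x3277) x3061) x3097) x3133) x3109) x3117) x22797)
    (Nat.add (Nat.add (Nat.add (Nat.add (Nat.add (Nat.add (Nat.add (Nat.add (Nat.add (Nat.add (Nat.add (Nat.add C x3117) x7491) x1659) x4575) x2631) x3279) x3063) x3099) x3135) x3111) x3123) x3115)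
    (Nat.add (Nat.add (Nat.add (Nat.add (Nat.add (Nat.add (Nat.add (Nat.add (Nat.add C x3123) x7497) x1665) x4581) x2637) x3285) x3069) x3141) x3117)
    (Nat.add (Nat.add (Nat.add (Nat.add (Nat.add (Nat.add (Nat.add (Nat.add (Nat.add C x3133) x7507) x1675) x4591) x2647) x3295) x3115) x3135) x22815)
    (Nat.add (Nat.add (Nat.add (Nat.add (Nat.add (Nat.add (Nat.add (Nat.add (Nat.add C x3135) x7509) x1677) x4593) x2649) x3297) x3117) x3141) x3133)
    (Nat.add (Nat.add (Nat.add (Nat.add (Nat.add (Nat.add (Nat.add (Nat.add C (Nat.mul x3141 (nat_lit 3))) x7515) x1683) x4599) x2655) x3303) x3123) x3135)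
    (Nat.add (Nat.add (Nat.add (Nat.add (Nat.add (Nat.add (Nat.add (Nat.add (Nat.add C (Nat.mul x3167 (nat_lit 2))) x7541) x1709) x4625) x2681) x3653) x3005) x3173) x22849)
    (Nat.sub (Nat.add (Nat.add (Nat.add (Nat.add (Nat.add (Nat.add (Nat.add (Nat.add (Nat.add (Nat.add (Nat.add (Nat.add (Nat.add C x3173) x7547) x1715) x4631) x2687) x3659) x3011) x3191) x3167) x3179) x3175) x22855) (Nat.mul (e (nat_lit 3173)) ap)) (Nat.mul (e (nat_lit 3173)) an))
    (Nat.sub (Nat.add (Nat.add (Nat.add (Nat.add (Nat.add (Nat.add (Nat.add (Nat.add (Nat.add (Nat.add (Nat.add (Nat.add C (Nat.mul x3175 (nat_lit 2))) x7549) x1717) x4633) x2689) x3661) x3013) x3193) x3181) x3173) x22857) (Nat.mul (e (nat_lit 3175)) ap)) (Nat.mul (e (nat_lit 3175)) an))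
    (Nat.sub (Nat.sub (Nat.add (Nat.add (Nat.add (Nat.add (Nat.add (Nat.add (Nat.add (Nat.add (Nat.add (Nat.add (Nat.add C x7553) x1721) x4637) x2693) x3665) x3017) x3197) x3173) x3181) x22861) (Nat.mul (e (nat_lit 3179)) ap)) (Nat.mul x3179 (nat_lit 2))) (Nat.mul (e (nat_lit 3179)) an))
    (Nat.add (Nat.add (Nat.add (Nat.add (Nat.add (Nat.add (Nat.add (Nat.add (Nat.add (Nat.add (Nat.add (Nat.add C x3181) x7555) x1723) x4639) x2695) x3667) x3019) x3199) x3175) x3179) x3183) x22863)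
    (Nat.add (Nat.add (Nat.add (Nat.add (Nat.add (Nat.add (Nat.add (Nat.add (Nat.add C (Nat.mul x3183 (nat_lit 2))) x7557) x1725) x4641) x2697) x3669) x3021) x3201) x3181)
    (Nat.sub (Nat.add (Nat.add (Nat.add (Nat.add (Nat.add (Nat.add (Nat.add (Nat.add (Nat.add (Nat.add (Nat.add (Nat.add C x7565) x1733) x4649) x2705) x3677) x3029) x3245) x3173) x3197) x3193) x22873) (Nat.mul (e (nat_lit 3191)) ap)) (Nat.mul (e (nat_lit 3191)) an))
    (Nat.sub (Nat.add (Nat.add (Nat.add (Nat.add (Nat.add (Nat.add (Nat.add (Nat.add (Nat.add (Nat.add (Nat.add (Nat.add C x7567) x1735) x4651) x2707) x3679) x3031) x3247) x3175) x3199) x3191) x22875) (Nat.mul (e (nat_lit 3193)) ap)) (Nat.mul (e (nat_lit 3193)) an))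
    (Nat.sub (Nat.sub (Nat.add (Nat.add (Nat.add (Nat.add (Nat.add (Nat.add (Nat.add (Nat.add (Nat.add (Nat.add (Nat.add (Nat.add (Nat.add C x7571) x1739) x4655) x2711) x3683) x3035) x3251) x3179) x3215) x3191) x3199) x22879) (Nat.mul (e (nat_lit 3197)) ap)) x3197) (Nat.mul (e (nat_lit 3197)) an))
    (Nat.sub (Nat.add (Nat.add (Nat.add (Nat.add (Nat.add (Nat.add (Nat.add (Nat.add (Nat.add (Nat.add (Nat.add (Nat.add (Nat.add (Nat.add (Nat.add (Nat.add C x3199) x7573) x1741) x4657) x2713) x3685) x3037) x3253) x3181) x3217) x3193) x3205) x3197) x3201) x22881) (Nat.mul (e (nat_lit 3199)) ap)) (Nat.mul (e (nat_lit 3199)) an))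
    (Nat.add (Nat.add (Nat.add (Nat.add (Nat.add (Nat.add (Nat.add (Nat.add (Nat.add (Nat.add (Nat.add (Nat.add C x3201) x7575) x1743) x4659) x2715) x3687) x3039) x3255) x3183) x3219) x3207) x3199)
    (Nat.add (Nat.add (Nat.add (Nat.add (Nat.add (Nat.add (Nat.add (Nat.add (Nat.add (Nat.add (Nat.add C x7579) x1747) x4663) x2719) x3691) x3043) x3259) x3223) x3199) x3207) x22887)
    (Nat.add (Nat.add (Nat.add (Nat.add (Nat.add (Nat.add (Nat.add (Nat.add (Nat.add (Nat.add (Nat.add C (Nat.mul x3207 (nat_lit 2))) x7581) x1749) x4665) x2721) x3693) x3045) x3261) x3225) x3201) x3205)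
    (Nat.sub (Nat.sub (Nat.add (Nat.add (Nat.add (Nat.add (Nat.add (Nat.add (Nat.add (Nat.add (Nat.add (Nat.add (Nat.add C x7589) x1757) x4673) x2729) x3701) x3053) x3269) x3197) x3217) x22897) (Nat.mul (e (nat_lit 3215)) ap)) (Nat.mul x3215 (nat_lit 2))) (Nat.mul (e (nat_lit 3215)) an))
    (Nat.sub (Nat.add (Nat.add (Nat.add (Nat.add (Nat.add (Nat.add (Nat.add (Nat.add (Nat.add (Nat.add (Nat.add (Nat.add C x7591) x1759) x4675) x2731) x3703) x3055) x3271) x3199) x3223) x3215) x3219) x22899) x3217)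
    (Nat.sub (Nat.add (Nat.add (Nat.add (Nat.add (Nat.add (Nat.add (Nat.add (Nat.add (Nat.add (Nat.add C x7593) x1761) x4677) x2733) x3705) x3057) x3273) x3201) x3225) x3217) (Nat.mul x3219 (nat_lit 2)))
    (Nat.add (Nat.add (Nat.add (Nat.add (Nat.add (Nat.add (Nat.add (Nat.add (Nat.add (Nat.add (Nat.add C x7597) x1765) x4681) x2737) x3709) x3061) x3277) x3205) x3217) x3225) x22905)
    (Nat.add (Nat.add (Nat.add (Nat.add (Nat.add (Nat.add (Nat.add (Nat.add (Nat.add (Nat.add (Nat.add (Nat.add C x3225) x7599) x1767) x4683) x2739) x3711) x3063) x3279) x3207) x3219) x3231) x3223)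
    (Nat.add (Nat.add (Nat.add (Nat.add (Nat.add (Nat.add (Nat.add (Nat.add (Nat.add C (Nat.mul x3231 (nat_lit 2))) x7605) x1773) x4689) x2745) x3717) x3069) x3285) x3225)
    (Nat.sub (Nat.add (Nat.add (Nat.add (Nat.add (Nat.add (Nat.add (Nat.add (Nat.add (Nat.add (Nat.add (Nat.add (Nat.add (Nat.add C x3245) x7619) x1787) x4703) x2759) x3731) x3083) x3407) x3191) x3251) x3247) x22927) (Nat.mul (e (nat_lit 3245)) ap)) (Nat.mul (e (nat_lit 3245)) an))
    (Nat.add (Nat.add (Nat.add (Nat.add (Nat.add (Nat.add (Nat.add (Nat.add (Nat.add (Nat.add (Nat.add (Nat.add C x3247) x7621) x1789) x4705) x2761) x3733) x3085) x3409) x3193) x3253) x3245) x22929)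
    (Nat.sub (Nat.sub (Nat.add (Nat.add (Nat.add (Nat.add (Nat.add (Nat.add (Nat.add (Nat.add (Nat.add (Nat.add (Nat.add (Nat.add (Nat.add C x7625) x1793) x4709) x2765) x3737) x3089) x3413) x3197) x3269) x3245) x3253) x22933) (Nat.mul (e (nat_lit 3251)) ap)) x3251) (Nat.mul (e (nat_lit 3251)) an))
    (Nat.add (Nat.add (Nat.add (Nat.add (Nat.add (Nat.add (Nat.add (Nat.add (Nat.add (Nat.add (Nat.add (Nat.add (Nat.add (Nat.add (Nat.add C x3253) x7627) x1795) x4711) x2767) x3739) x3091) x3415) x3199) x3271) x3247) x3259) x3251) x3255) x22935)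
    (Nat.add (Nat.add (Nat.add (Nat.add (Nat.add (Nat.add (Nat.add (Nat.add (Nat.add (Nat.add (Nat.add (Nat.add C x3255) x7629) x1797) x4713) x2769) x3741) x3093) x3417) x3201) x3273) x3261) x3253)
    (Nat.sub (Nat.add (Nat.add (Nat.add (Nat.add (Nat.add (Nat.add (Nat.add (Nat.add (Nat.add (Nat.add (Nat.add (Nat.add C x7633) x1801) x4717) x2773) x3745) x3097) x3421) x3205) x3277) x3253) x3261) x22941) x3259)
    (Nat.add (Nat.add (Nat.add (Nat.add (Nat.add (Nat.add (Nat.add (Nat.add (Nat.add (Nat.add (Nat.add (Nat.add C x3261) x7635) x1803) x4719) x2775) x3747) x3099) x3423) x3207) x3279) x3255) x3259)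
    (Nat.sub (Nat.add (Nat.add (Nat.add (Nat.add (Nat.add (Nat.add (Nat.add (Nat.add (Nat.add (Nat.add (Nat.add (Nat.add (Nat.add C x7643) x1811) x4727) x2783) x3755) x3107) x3431) x3215) x3323) x3251) x3271) x22951) (Nat.mul (e (nat_lit 3269)) ap)) (Nat.mul (e (nat_lit 3269)) an))
    (Nat.add (Nat.add (Nat.add (Nat.add (Nat.add (Nat.add (Nat.add (Nat.add (Nat.add (Nat.add (Nat.add (Nat.add (Nat.add (Nat.add (Nat.add C x3271) x7645) x1813) x4729) x2785) x3757) x3109) x3433) x3217) x3325) x3253) x3277) x3269) x3273) x22953)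
    (Nat.add (Nat.add (Nat.add (Nat.add (Nat.add (Nat.add (Nat.add (Nat.add (Nat.add (Nat.add (Nat.add (Nat.add C x7647) x1815) x4731) x2787) x3759) x3111) x3435) x3219) x3327) x3255) x3279) x3271)
    (Nat.add (Nat.add (Nat.add (Nat.add (Nat.add (Nat.add (Nat.add (Nat.add (Nat.add (Nat.add (Nat.add (Nat.add (Nat.add (Nat.add (Nat.add C x3277) x7651) x1819) x4735) x2791) x3763) x3115) x3439) x3223) x3331) x3259) x3295) x3271) x3279) x22959)
    (Nat.add (Nat.add (Nat.add (Nat.add (Nat.add (Nat.add (Nat.add (Nat.add (Nat.add (Nat.add (Nat.add (Nat.add (Nat.add (Nat.add (Nat.add C (Nat.mul x3279 (nat_lit 2))) x7653) x1821) x4737) x2793) x3765) x3117) x3441) x3225) x3333) x3261) x3297) x3273) x3285) x3277)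
    (Nat.add (Nat.add (Nat.add (Nat.add (Nat.add (Nat.add (Nat.add (Nat.add (Nat.add (Nat.add (Nat.add (Nat.add C (Nat.mul x3285 (nat_lit 2))) x7659) x1827) x4743) x2799) x3771) x3123) x3447) x3231) x3339) x3303) x3279)
    (Nat.add (Nat.add (Nat.add (Nat.add (Nat.add (Nat.add (Nat.add (Nat.add (Nat.add (Nat.add (Nat.add (Nat.add C x3295) x7669) x1837) x4753) x2809) x3781) x3133) x3457) x3349) x3277) x3297) x22977)
    (Nat.add (Nat.add (Nat.add (Nat.add (Nat.add (Nat.add (Nat.add (Nat.add (Nat.add (Nat.add (Nat.add (Nat.add C x3297) x7671) x1839) x4755) x2811) x3783) x3135) x3459) x3351) x3279) x3303) x3295)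
    (Nat.add (Nat.add (Nat.add (Nat.add (Nat.add (Nat.add (Nat.add (Nat.add (Nat.add (Nat.add (Nat.add C (Nat.mul x3303 (nat_lit 3))) x7677) x1845) x4761) x2817) x3789) x3141) x3465) x3357) x3285) x3297)
    (Nat.add (Nat.add (Nat.add (Nat.add (Nat.add (Nat.add (Nat.add (Nat.add (Nat.add C x7697) x1865) x4781) x2837) x3809) x3485) x3269) x3325) x23005)
    (Nat.add (Nat.add (Nat.add (Nat.add (Nat.add (Nat.add (Nat.add (Nat.add (Nat.add (Nat.add (Nat.add (Nat.add C x3325) x7699) x1867) x4783) x2839) x3811) x3487) x3271) x3331) x3323) x3327) x23007)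
    (Nat.add (Nat.add (Nat.add (Nat.add (Nat.add (Nat.add (Nat.add (Nat.add (Nat.add C x7701) x1869) x4785) x2841) x3813) x3489) x3273) x3333) x3325)
    (Nat.add (Nat.add (Nat.add (Nat.add (Nat.add (Nat.add (Nat.add (Nat.add (Nat.add (Nat.add (Nat.add C x7705) x1873) x4789) x2845) x3817) x3493) x3277) x3349) x3325) x3333) x23013)
    (Nat.add (Nat.add (Nat.add (Nat.add (Nat.add (Nat.add (Nat.add (Nat.add (Nat.add (Nat.add (Nat.add (Nat.add C x3333) x7707) x1875) x4791) x2847) x3819) x3495) x3279) x3351) x3327) x3339) x3331)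
    (Nat.add (Nat.add (Nat.add (Nat.add (Nat.add (Nat.add (Nat.add (Nat.add (Nat.add C x7713) x1881) x4797) x2853) x3825) x3501) x3285) x3357) x3333)
    (Nat.add (Nat.add (Nat.add (Nat.add (Nat.add (Nat.add (Nat.add (Nat.add (Nat.add (Nat.add (Nat.add C (Nat.mul x3349 (nat_lit 2))) x7723) x1891) x4807) x2863) x3835) x3511) x3295) x3331) x3351) x23031)
    (Nat.add (Nat.add (Nat.add (Nat.add (Nat.add (Nat.add (Nat.add (Nat.add (Nat.add (Nat.add (Nat.add C (Nat.mul x3351 (nat_lit 2))) x7725) x1893) x4809) x2865) x3837) x3513) x3297) x3333) x3357) x3349)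
    (Nat.add (Nat.add (Nat.add (Nat.add (Nat.add (Nat.add (Nat.add (Nat.add (Nat.add (Nat.add (Nat.add C (Nat.mul x3357 (nat_lit 3))) x7731) x1899) x4815) x2871) x3843) x3519) x3303) x3339) x3375) x3351)
    (Nat.add (Nat.add (Nat.add (Nat.add (Nat.add (Nat.add (Nat.add (Nat.add C (Nat.mul x3375 (nat_lit 4))) x7749) x1917) x4833) x2889) x3861) x3537) x3357)
    (Nat.add (Nat.add (Nat.add (Nat.add (Nat.add (Nat.add (Nat.add (Nat.add (Nat.add C x3407) x7781) x1949) x4865) x3893) x3245) x3413) x3409) x23089)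
    (Nat.add (Nat.add (Nat.add (Nat.add (Nat.add (Nat.add (Nat.add (Nat.add (Nat.add C x3409) x7783) x1951) x4867) x3895) x3247) x3415) x3407) x23091)
    (Nat.sub (Nat.add (Nat.add (Nat.add (Nat.add (Nat.add (Nat.add (Nat.add (Nat.add (Nat.add C x7787) x1955) x4871) x3899) x3251) x3431) x3407) x3415) x23095) x3413)
    (Nat.add (Nat.add (Nat.add (Nat.add (Nat.add (Nat.add (Nat.add (Nat.add (Nat.add (Nat.add (Nat.add (Nat.add C x3415) x7789) x1957) x4873) x3901) x3253) x3433) x3409) x3421) x3413) x3417) x23097)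
    (Nat.add (Nat.add (Nat.add (Nat.add (Nat.add (Nat.add (Nat.add (Nat.add (Nat.add C x3417) x7791) x1959) x4875) x3903) x3255) x3435) x3423) x3415)
    (Nat.sub (Nat.add (Nat.add (Nat.add (Nat.add (Nat.add (Nat.add (Nat.add (Nat.add (Nat.add C x7795) x1963) x4879) x3907) x3259) x3439) x3415) x3423) x23103) x3421)
    (Nat.add (Nat.add (Nat.add (Nat.add (Nat.add (Nat.add (Nat.add (Nat.add (Nat.add C x3423) x7797) x1965) x4881) x3909) x3261) x3441) x3417) x3421)
    (Nat.sub (Nat.add (Nat.add (Nat.add (Nat.add (Nat.add (Nat.add (Nat.add (Nat.add (Nat.add C x7805) x1973) x4889) x3917) x3269) x3485) x3413) x3433) x23113) x3431)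
    (Nat.add (Nat.add (Nat.add (Nat.add (Nat.add (Nat.add (Nat.add (Nat.add (Nat.add (Nat.add (Nat.add C x7807) x1975) x4891) x3919) x3271) x3487) x3415) x3439) x3431) x3435) x23115)
    (Nat.sub (Nat.add (Nat.add (Nat.add (Nat.add (Nat.add (Nat.add (Nat.add (Nat.add (Nat.add C x7809) x1977) x4893) x3921) x3273) x3489) x3417) x3441) x3433) x3435)
    (Nat.add (Nat.add (Nat.add (Nat.add (Nat.add (Nat.add (Nat.add (Nat.add (Nat.add (Nat.add (Nat.add C x7813) x1981) x4897) x3925) x3277) x3493) x3421) x3457) x3433) x3441) x23121)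
    (Nat.add (Nat.add (Nat.add (Nat.add (Nat.add (Nat.add (Nat.add (Nat.add (Nat.add (Nat.add (Nat.add (Nat.add C x3441) x7815) x1983) x4899) x3927) x3279) x3495) x3423) x3459) x3435) x3447) x3439)
    (Nat.add (Nat.add (Nat.add (Nat.add (Nat.add (Nat.add (Nat.add (Nat.add (Nat.add C x3447) x7821) x1989) x4905) x3933) x3285) x3501) x3465) x3441)
    (Nat.sub (Nat.add (Nat.add (Nat.add (Nat.add (Nat.add (Nat.add (Nat.add (Nat.add (Nat.add C x7831) x1999) x4915) x3943) x3295) x3511) x3439) x3459) x23139) x3457)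
    (Nat.sub (Nat.add (Nat.add (Nat.add (Nat.add (Nat.add (Nat.add (Nat.add (Nat.add (Nat.add C x7833) x2001) x4917) x3945) x3297) x3513) x3441) x3465) x3457) x3459)
    (Nat.add (Nat.add (Nat.add (Nat.add (Nat.add (Nat.add (Nat.add (Nat.add (Nat.add C x3465) x7839) x2007) x4923) x3951) x3303) x3519) x3447) x3459)
    (Nat.add (Nat.add (Nat.add (Nat.add (Nat.add (Nat.add (Nat.add (Nat.add (Nat.add C x3485) x7859) x2027) x4943) x3971) x3323) x3431) x3487) x23167)
    (Nat.add (Nat.add (Nat.add (Nat.add (Nat.add (Nat.add (Nat.add (Nat.add (Nat.add (Nat.add (Nat.add C (Nat.mul x3487 (nat_lit 2))) x7861) x2029) x4945) x3973) x3325) x3433) x3493) x3485) x3489) x23169)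
    (Nat.add (Nat.add (Nat.add (Nat.add (Nat.add (Nat.add (Nat.add (Nat.add (Nat.add C x3489) x7863) x2031) x4947) x3975) x3327) x3435) x3495) x3487)
    (Nat.add (Nat.add (Nat.add (Nat.add (Nat.add (Nat.add (Nat.add (Nat.add (Nat.add (Nat.add (Nat.add C x3493) x7867) x2035) x4951) x3979) x3331) x3439) x3511) x3487) x3495) x23175)
    (Nat.add (Nat.add (Nat.add (Nat.add (Nat.add (Nat.add (Nat.add (Nat.add (Nat.add (Nat.add (Nat.add C (Nat.mul x3495 (nat_lit 2))) x7869) x2037) x4953) x3981) x3333) x3441) x3513) x3489) x3501) x3493)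
    (Nat.add (Nat.add (Nat.add (Nat.add (Nat.add (Nat.add (Nat.add (Nat.add (Nat.add C x3501) x7875) x2043) x4959) x3987) x3339) x3447) x3519) x3495)
    (Nat.add (Nat.add (Nat.add (Nat.add (Nat.add (Nat.add (Nat.add (Nat.add (Nat.add (Nat.add (Nat.add C (Nat.mul x3511 (nat_lit 2))) x7885) x2053) x4969) x3997) x3349) x3457) x3565) x3493) x3513) x23193)
    (Nat.add (Nat.add (Nat.add (Nat.add (Nat.add (Nat.add (Nat.add (Nat.add (Nat.add (Nat.add (Nat.add C (Nat.mul x3513 (nat_lit 2))) x7887) x2055) x4971) x3999) x3351) x3459) x3567) x3495) x3519) x3511)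
    (Nat.add (Nat.add (Nat.add (Nat.add (Nat.add (Nat.add (Nat.add (Nat.add (Nat.add (Nat.add (Nat.add C (Nat.mul x3519 (nat_lit 3))) x7893) x2061) x4977) x4005) x3357) x3465) x3573) x3501) x3537) x3513)
    (Nat.add (Nat.add (Nat.add (Nat.add (Nat.add (Nat.add (Nat.add (Nat.add C (Nat.mul x3537 (nat_lit 3))) x7911) x2079) x4995) x4023) x3375) x3591) x3519)
    (Nat.add (Nat.add (Nat.add (Nat.add (Nat.add (Nat.add (Nat.add (Nat.add C (Nat.mul x3565 (nat_lit 3))) x7939) x2107) x5023) x4051) x3511) x3567) x23247)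
    (Nat.add (Nat.add (Nat.add (Nat.add (Nat.add (Nat.add (Nat.add (Nat.add C (Nat.mul x3567 (nat_lit 3))) x7941) x2109) x5025) x4053) x3513) x3573) x3565)
    (Nat.add (Nat.add (Nat.add (Nat.add (Nat.add (Nat.add (Nat.add (Nat.add C (Nat.mul x3573 (nat_lit 3))) x7947) x2115) x5031) x4059) x3519) x3591) x3567)
    (Nat.add (Nat.add (Nat.add (Nat.add (Nat.add (Nat.add (Nat.add C (Nat.mul x3591 (nat_lit 5))) x7965) x2133) x5049) x4077) x3537) x3573)
    (Nat.add (Nat.add (Nat.add (Nat.add (Nat.add (Nat.add C (Nat.mul x3653 (nat_lit 2))) x8027) x5111) x3167) x3659) x23335)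
    (Nat.add (Nat.add (Nat.add (Nat.add (Nat.add (Nat.add (Nat.add (Nat.add (Nat.add C x3659) x8033) x5117) x3173) x3677) x3653) x3665) x3661) x23341)
    (Nat.add (Nat.add (Nat.add (Nat.add (Nat.add (Nat.add (Nat.add (Nat.add C (Nat.mul x3661 (nat_lit 2))) x8035) x5119) x3175) x3679) x3667) x3659) x23343)
    (Nat.sub (Nat.add (Nat.add (Nat.add (Nat.add (Nat.add (Nat.add (Nat.add C x8039) x5123) x3179) x3683) x3659) x3667) x23347) (Nat.mul x3665 (nat_lit 2)))
    (Nat.add (Nat.add (Nat.add (Nat.add (Nat.add (Nat.add (Nat.add (Nat.add (Nat.add C x3667) x8041) x5125) x3181) x3685) x3661) x3665) x3669) x23349)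
    (Nat.add (Nat.add (Nat.add (Nat.add (Nat.add (Nat.add C (Nat.mul x3669 (nat_lit 2))) x8043) x5127) x3183) x3687) x3667)
    (Nat.add (Nat.add (Nat.add (Nat.add (Nat.add (Nat.add (Nat.add (Nat.add C x8051) x5135) x3191) x3731) x3659) x3683) x3679) x23359)
    (Nat.add (Nat.add (Nat.add (Nat.add (Nat.add (Nat.add (Nat.add (Nat.add C x8053) x5137) x3193) x3733) x3661) x3685) x3677) x23361)
    (Nat.sub (Nat.add (Nat.add (Nat.add (Nat.add (Nat.add (Nat.add (Nat.add (Nat.add (Nat.add C x8057) x5141) x3197) x3737) x3665) x3701) x3677) x3685) x23365) x3683)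
    (Nat.add (Nat.add (Nat.add (Nat.add (Nat.add (Nat.add (Nat.add (Nat.add (Nat.add (Nat.add (Nat.add (Nat.add C x3685) x8059) x5143) x3199) x3739) x3667) x3703) x3679) x3691) x3683) x3687) x23367)
    (Nat.add (Nat.add (Nat.add (Nat.add (Nat.add (Nat.add (Nat.add (Nat.add (Nat.add C x3687) x8061) x5145) x3201) x3741) x3669) x3705) x3693) x3685)
    (Nat.add (Nat.add (Nat.add (Nat.add (Nat.add (Nat.add (Nat.add (Nat.add C x8065) x5149) x3205) x3745) x3709) x3685) x3693) x23373)
    (Nat.add (Nat.add (Nat.add (Nat.add (Nat.add (Nat.add (Nat.add (Nat.add C (Nat.mul x3693 (nat_lit 2))) x8067) x5151) x3207) x3747) x3711) x3687) x3691)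
    (Nat.sub (Nat.sub (Nat.add (Nat.add (Nat.add (Nat.add (Nat.add (Nat.add (Nat.add (Nat.add C x8075) x5159) x3215) x3755) x3683) x3703) x23383) (Nat.mul (e (nat_lit 3701)) ap)) (Nat.mul x3701 (nat_lit 2))) (Nat.mul (e (nat_lit 3701)) an))
    (Nat.sub (Nat.add (Nat.add (Nat.add (Nat.add (Nat.add (Nat.add (Nat.add (Nat.add (Nat.add C x8077) x5161) x3217) x3757) x3685) x3709) x3701) x3705) x23385) x3703)
    (Nat.sub (Nat.add (Nat.add (Nat.add (Nat.add (Nat.add (Nat.add (Nat.add C x8079) x5163) x3219) x3759) x3687) x3711) x3703) (Nat.mul x3705 (nat_lit 2)))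
    (Nat.add (Nat.add (Nat.add (Nat.add (Nat.add (Nat.add (Nat.add (Nat.add C x8083) x5167) x3223) x3763) x3691) x3703) x3711) x23391)
    (Nat.add (Nat.add (Nat.add (Nat.add (Nat.add (Nat.add (Nat.add (Nat.add (Nat.add C x3711) x8085) x5169) x3225) x3765) x3693) x3705) x3717) x3709)
    (Nat.add (Nat.add (Nat.add (Nat.add (Nat.add (Nat.add C (Nat.mul x3717 (nat_lit 2))) x8091) x5175) x3231) x3771) x3711)
    (Nat.add (Nat.add (Nat.add (Nat.add (Nat.add (Nat.add (Nat.add (Nat.add C x8105) x5189) x3245) x3893) x3677) x3737) x3733) x23413)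
    (Nat.add (Nat.add (Nat.add (Nat.add (Nat.add (Nat.add (Nat.add (Nat.add C x8107) x5191) x3247) x3895) x3679) x3739) x3731) x23415)
    (Nat.sub (Nat.sub (Nat.add (Nat.add (Nat.add (Nat.add (Nat.add (Nat.add (Nat.add (Nat.add (Nat.add (Nat.add C x8111) x5195) x3251) x3899) x3683) x3755) x3731) x3739) x23419) (Nat.mul (e (nat_lit 3737)) ap)) (Nat.mul x3737 (nat_lit 2))) (Nat.mul (e (nat_lit 3737)) an))
    (Nat.add (Nat.add (Nat.add (Nat.add (Nat.add (Nat.add (Nat.add (Nat.add (Nat.add (Nat.add (Nat.add C x8113) x5197) x3253) x3901) x3685) x3757) x3733) x3745) x3737) x3741) x23421)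
    (Nat.add (Nat.add (Nat.add (Nat.add (Nat.add (Nat.add (Nat.add (Nat.add C x8115) x5199) x3255) x3903) x3687) x3759) x3747) x3739)
    (Nat.sub (Nat.add (Nat.add (Nat.add (Nat.add (Nat.add (Nat.add (Nat.add (Nat.add (Nat.add C x8119) x5203) x3259) x3907) x3691) x3763) x3739) x3747) x23427) (Nat.mul x3745 (nat_lit 2)))
    (Nat.add (Nat.add (Nat.add (Nat.add (Nat.add (Nat.add (Nat.add (Nat.add C x8121) x5205) x3261) x3909) x3693) x3765) x3741) x3745)
    (Nat.sub (Nat.add (Nat.add (Nat.add (Nat.add (Nat.add (Nat.add (Nat.add (Nat.add (Nat.add C x8129) x5213) x3269) x3917) x3701) x3809) x3737) x3757) x23437) x3755)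
    (Nat.add (Nat.add (Nat.add (Nat.add (Nat.add (Nat.add (Nat.add (Nat.add (Nat.add (Nat.add (Nat.add C x8131) x5215) x3271) x3919) x3703) x3811) x3739) x3763) x3755) x3759) x23439)
    (Nat.sub (Nat.add (Nat.add (Nat.add (Nat.add (Nat.add (Nat.add (Nat.add (Nat.add (Nat.add C x8133) x5217) x3273) x3921) x3705) x3813) x3741) x3765) x3757) x3759)
    (Nat.add (Nat.add (Nat.add (Nat.add (Nat.add (Nat.add (Nat.add (Nat.add (Nat.add (Nat.add (Nat.add C x8137) x5221) x3277) x3925) x3709) x3817) x3745) x3781) x3757) x3765) x23445)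
    (Nat.add (Nat.add (Nat.add (Nat.add (Nat.add (Nat.add (Nat.add (Nat.add (Nat.add (Nat.add (Nat.add (Nat.add C x3765) x8139) x5223) x3279) x3927) x3711) x3819) x3747) x3783) x3759) x3771) x3763)
    (Nat.add (Nat.add (Nat.add (Nat.add (Nat.add (Nat.add (Nat.add (Nat.add (Nat.add C x3771) x8145) x5229) x3285) x3933) x3717) x3825) x3789) x3765)
    (Nat.add (Nat.add (Nat.add (Nat.add (Nat.add (Nat.add (Nat.add (Nat.add C x8155) x5239) x3295) x3943) x3835) x3763) x3783) x23463)
    (Nat.add (Nat.add (Nat.add (Nat.add (Nat.add (Nat.add (Nat.add (Nat.add C x8157) x5241) x3297) x3945) x3837) x3765) x3789) x3781)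
    (Nat.add (Nat.add (Nat.add (Nat.add (Nat.add (Nat.add (Nat.add (Nat.add C (Nat.mul x3789 (nat_lit 2))) x8163) x5247) x3303) x3951) x3843) x3771) x3783)
    (Nat.sub (Nat.add (Nat.add (Nat.add (Nat.add (Nat.add (Nat.add (Nat.add C x8183) x5267) x3323) x3971) x3755) x3811) x23491) (Nat.mul x3809 (nat_lit 2)))
    (Nat.sub (Nat.add (Nat.add (Nat.add (Nat.add (Nat.add (Nat.add (Nat.add (Nat.add (Nat.add C x8185) x5269) x3325) x3973) x3757) x3817) x3809) x3813) x23493) x3811)
    (Nat.sub (Nat.add (Nat.add (Nat.add (Nat.add (Nat.add (Nat.add (Nat.add C x8187) x5271) x3327) x3975) x3759) x3819) x3811) (Nat.mul x3813 (nat_lit 2)))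
    (Nat.sub (Nat.add (Nat.add (Nat.add (Nat.add (Nat.add (Nat.add (Nat.add (Nat.add (Nat.add C x8191) x5275) x3331) x3979) x3763) x3835) x3811) x3819) x23499) (Nat.mul x3817 (nat_lit 2)))
    (Nat.sub (Nat.add (Nat.add (Nat.add (Nat.add (Nat.add (Nat.add (Nat.add (Nat.add (Nat.add C x8193) x5277) x3333) x3981) x3765) x3837) x3813) x3825) x3817) x3819)
    (Nat.sub (Nat.add (Nat.add (Nat.add (Nat.add (Nat.add (Nat.add (Nat.add C x8199) x5283) x3339) x3987) x3771) x3843) x3819) (Nat.mul x3825 (nat_lit 2)))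
    (Nat.add (Nat.add (Nat.add (Nat.add (Nat.add (Nat.add (Nat.add (Nat.add C x8209) x5293) x3349) x3997) x3781) x3817) x3837) x23517)
    (Nat.add (Nat.add (Nat.add (Nat.add (Nat.add (Nat.add (Nat.add (Nat.add C x8211) x5295) x3351) x3999) x3783) x3819) x3843) x3835)
    (Nat.add (Nat.add (Nat.add (Nat.add (Nat.add (Nat.add (Nat.add (Nat.add (Nat.add C x3843) x8217) x5301) x3357) x4005) x3789) x3825) x3861) x3837)
    (Nat.add (Nat.add (Nat.add (Nat.add (Nat.add (Nat.add C (Nat.mul x3861 (nat_lit 2))) x8235) x5319) x3375) x4023) x3843)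
    (Nat.add (Nat.add (Nat.add (Nat.add (Nat.add (Nat.add (Nat.add (Nat.add C (Nat.mul x3893 (nat_lit 2))) x8267) x5351) x3407) x3731) x3899) x3895) x23575)
    (Nat.add (Nat.add (Nat.add (Nat.add (Nat.add (Nat.add (Nat.add (Nat.add C (Nat.mul x3895 (nat_lit 2))) x8269) x5353) x3409) x3733) x3901) x3893) x23577)
    (Nat.add (Nat.add (Nat.add (Nat.add (Nat.add (Nat.add (Nat.add (Nat.add C x8273) x5357) x3413) x3737) x3917) x3893) x3901) x23581)
    (Nat.add (Nat.add (Nat.add (Nat.add (Nat.add (Nat.add (Nat.add (Nat.add (Nat.add (Nat.add (Nat.add C (Nat.mul x3901 (nat_lit 2))) x8275) x5359) x3415) x3739) x3919) x3895) x3907) x3899) x3903) x23583)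
    (Nat.add (Nat.add (Nat.add (Nat.add (Nat.add (Nat.add (Nat.add (Nat.add C (Nat.mul x3903 (nat_lit 2))) x8277) x5361) x3417) x3741) x3921) x3909) x3901)
    (Nat.add (Nat.add (Nat.add (Nat.add (Nat.add (Nat.add (Nat.add (Nat.add C x8281) x5365) x3421) x3745) x3925) x3901) x3909) x23589)
    (Nat.add (Nat.add (Nat.add (Nat.add (Nat.add (Nat.add (Nat.add (Nat.add C (Nat.mul x3909 (nat_lit 2))) x8283) x5367) x3423) x3747) x3927) x3903) x3907)
    (Nat.add (Nat.add (Nat.add (Nat.add (Nat.add (Nat.add (Nat.add (Nat.add C x8291) x5375) x3431) x3755) x3971) x3899) x3919) x23599)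
    (Nat.add (Nat.add (Nat.add (Nat.add (Nat.add (Nat.add (Nat.add (Nat.add (Nat.add (Nat.add (Nat.add C x3919) x8293) x5377) x3433) x3757) x3973) x3901) x3925) x3917) x3921) x23601)
    (Nat.add (Nat.add (Nat.add (Nat.add (Nat.add (Nat.add (Nat.add (Nat.add C x8295) x5379) x3435) x3759) x3975) x3903) x3927) x3919)
    (Nat.add (Nat.add (Nat.add (Nat.add (Nat.add (Nat.add (Nat.add (Nat.add (Nat.add (Nat.add (Nat.add C x3925) x8299) x5383) x3439) x3763) x3979) x3907) x3943) x3919) x3927) x23607)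
    (Nat.add (Nat.add (Nat.add (Nat.add (Nat.add (Nat.add (Nat.add (Nat.add (Nat.add (Nat.add (Nat.add C (Nat.mul x3927 (nat_lit 2))) x8301) x5385) x3441) x3765) x3981) x3909) x3945) x3921) x3933) x3925)
    (Nat.add (Nat.add (Nat.add (Nat.add (Nat.add (Nat.add (Nat.add (Nat.add C (Nat.mul x3933 (nat_lit 2))) x8307) x5391) x3447) x3771) x3987) x3951) x3927)
    (Nat.add (Nat.add (Nat.add (Nat.add (Nat.add (Nat.add (Nat.add (Nat.add C x8317) x5401) x3457) x3781) x3997) x3925) x3945) x23625)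
    (Nat.add (Nat.add (Nat.add (Nat.add (Nat.add (Nat.add (Nat.add (Nat.add C x8319) x5403) x3459) x3783) x3999) x3927) x3951) x3943)
    (Nat.add (Nat.add (Nat.add (Nat.add (Nat.add (Nat.add (Nat.add (Nat.add C (Nat.mul x3951 (nat_lit 2))) x8325) x5409) x3465) x3789) x4005) x3933) x3945)
    (Nat.add (Nat.add (Nat.add (Nat.add (Nat.add (Nat.add (Nat.add (Nat.add (Nat.add C x3971) x8345) x5429) x3485) x3809) x4133) x3917) x3973) x23653)
    (Nat.add (Nat.add (Nat.add (Nat.add (Nat.add (Nat.add (Nat.add (Nat.add (Nat.add (Nat.add (Nat.add C (Nat.mul x3973 (nat_lit 2))) x8347) x5431) x3487) x3811) x4135) x3919) x3979) x3971) x3975) x23655)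
    (Nat.add (Nat.add (Nat.add (Nat.add (Nat.add (Nat.add (Nat.add (Nat.add (Nat.add C x3975) x8349) x5433) x3489) x3813) x4137) x3921) x3981) x3973)
    (Nat.add (Nat.add (Nat.add (Nat.add (Nat.add (Nat.add (Nat.add (Nat.add (Nat.add (Nat.add (Nat.add C x3979) x8353) x5437) x3493) x3817) x4141) x3925) x3997) x3973) x3981) x23661)
    (Nat.add (Nat.add (Nat.add (Nat.add (Nat.add (Nat.add (Nat.add (Nat.add (Nat.add (Nat.add (Nat.add C (Nat.mul x3981 (nat_lit 2))) x8355) x5439) x3495) x3819) x4143) x3927) x3999) x3975) x3987) x3979)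
    (Nat.add (Nat.add (Nat.add (Nat.add (Nat.add (Nat.add (Nat.add (Nat.add (Nat.add C x3987) x8361) x5445) x3501) x3825) x4149) x3933) x4005) x3981)
    (Nat.add (Nat.add (Nat.add (Nat.add (Nat.add (Nat.add (Nat.add (Nat.add (Nat.add (Nat.add (Nat.add C (Nat.mul x3997 (nat_lit 2))) x8371) x5455) x3511) x3835) x4159) x3943) x4051) x3979) x3999) x23679)
    (Nat.add (Nat.add (Nat.add (Nat.add (Nat.add (Nat.add (Nat.add (Nat.add (Nat.add (Nat.add (Nat.add C (Nat.mul x3999 (nat_lit 2))) x8373) x5457) x3513) x3837) x4161) x3945) x4053) x3981) x4005) x3997)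
    (Nat.add (Nat.add (Nat.add (Nat.add (Nat.add (Nat.add (Nat.add (Nat.add (Nat.add (Nat.add (Nat.add C (Nat.mul x4005 (nat_lit 3))) x8379) x5463) x3519) x3843) x4167) x3951) x4059) x3987) x4023) x3999)
    (Nat.add (Nat.add (Nat.add (Nat.add (Nat.add (Nat.add (Nat.add (Nat.add C (Nat.mul x4023 (nat_lit 3))) x8397) x5481) x3537) x3861) x4185) x4077) x4005)
    (Nat.add (Nat.add (Nat.add (Nat.add (Nat.add (Nat.add (Nat.add (Nat.add C (Nat.mul x4051 (nat_lit 2))) x8425) x5509) x3565) x4213) x3997) x4053) x23733)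
    (Nat.add (Nat.add (Nat.add (Nat.add (Nat.add (Nat.add (Nat.add (Nat.add C (Nat.mul x4053 (nat_lit 2))) x8427) x5511) x3567) x4215) x3999) x4059) x4051)
    (Nat.add (Nat.add (Nat.add (Nat.add (Nat.add (Nat.add (Nat.add (Nat.add C (Nat.mul x4059 (nat_lit 2))) x8433) x5517) x3573) x4221) x4005) x4077) x4053)
    (Nat.add (Nat.add (Nat.add (Nat.add (Nat.add (Nat.add (Nat.add C (Nat.mul x4077 (nat_lit 4))) x8451) x5535) x3591) x4239) x4023) x4059)
    (Nat.add (Nat.add (Nat.add (Nat.add (Nat.add (Nat.add C (Nat.mul x4133 (nat_lit 2))) x8507) x5591) x3971) x4135) x23815)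
    (Nat.add (Nat.add (Nat.add (Nat.add (Nat.add (Nat.add (Nat.add (Nat.add C (Nat.mul x4135 (nat_lit 3))) x8509) x5593) x3973) x4141) x4133) x4137) x23817)
    (Nat.add (Nat.add (Nat.add (Nat.add (Nat.add (Nat.add C (Nat.mul x4137 (nat_lit 2))) x8511) x5595) x3975) x4143) x4135)
    (Nat.add (Nat.add (Nat.add (Nat.add (Nat.add (Nat.add (Nat.add (Nat.add C (Nat.mul x4141 (nat_lit 2))) x8515) x5599) x3979) x4159) x4135) x4143) x23823)
    (Nat.add (Nat.add (Nat.add (Nat.add (Nat.add (Nat.add (Nat.add (Nat.add C (Nat.mul x4143 (nat_lit 3))) x8517) x5601) x3981) x4161) x4137) x4149) x4141)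
    (Nat.add (Nat.add (Nat.add (Nat.add (Nat.add (Nat.add C (Nat.mul x4149 (nat_lit 2))) x8523) x5607) x3987) x4167) x4143)
    (Nat.add (Nat.add (Nat.add (Nat.add (Nat.add (Nat.add (Nat.add (Nat.add C (Nat.mul x4159 (nat_lit 2))) x8533) x5617) x3997) x4213) x4141) x4161) x23841)
    (Nat.add (Nat.add (Nat.add (Nat.add (Nat.add (Nat.add (Nat.add (Nat.add C (Nat.mul x4161 (nat_lit 2))) x8535) x5619) x3999) x4215) x4143) x4167) x4159)
    (Nat.add (Nat.add (Nat.add (Nat.add (Nat.add (Nat.add (Nat.add (Nat.add C (Nat.mul x4167 (nat_lit 3))) x8541) x5625) x4005) x4221) x4149) x4185) x4161)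
    (Nat.add (Nat.add (Nat.add (Nat.add (Nat.add (Nat.add C (Nat.mul x4185 (nat_lit 2))) x8559) x5643) x4023) x4239) x4167)
    (Nat.add (Nat.add (Nat.add (Nat.add (Nat.add (Nat.add (Nat.add C (Nat.mul x4213 (nat_lit 4))) x8587) x5671) x4051) x4159) x4215) x23895)
    (Nat.add (Nat.add (Nat.add (Nat.add (Nat.add (Nat.add (Nat.add C (Nat.mul x4215 (nat_lit 4))) x8589) x5673) x4053) x4161) x4221) x4213)
    (Nat.add (Nat.add (Nat.add (Nat.add (Nat.add (Nat.add (Nat.add C (Nat.mul x4221 (nat_lit 4))) x8595) x5679) x4059) x4167) x4239) x4215)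
    (Nat.add (Nat.add (Nat.add (Nat.add (Nat.add (Nat.add (Nat.add C (Nat.mul x4239 (nat_lit 5))) x8613) x5697) x4077) x4185) x4293) x4221)
    (Nat.add (Nat.add (Nat.add (Nat.add C (Nat.mul x4293 (nat_lit 6))) x8667) x5751) x4239)
    (Nat.add (Nat.add (Nat.add (Nat.add (Nat.add (Nat.add C (Nat.mul x4391 (nat_lit 2))) x8765) x2933) x4409) x4397) x24073)
    (Nat.add (Nat.add (Nat.add (Nat.add (Nat.add (Nat.add C x8771) x2939) x4415) x4391) x4399) x24079)
    (Nat.add (Nat.add (Nat.add (Nat.add (Nat.add (Nat.add C (Nat.mul x4399 (nat_lit 2))) x8773) x2941) x4417) x4397) x24081)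
    (Nat.add (Nat.add (Nat.add (Nat.add (Nat.add (Nat.add C x8783) x2951) x4463) x4391) x4415) x24091)
    (Nat.add (Nat.add (Nat.add (Nat.add (Nat.add (Nat.add (Nat.add (Nat.add (Nat.add C x8789) x2957) x4469) x4397) x4433) x4409) x4421) x4417) x24097)
    (Nat.add (Nat.add (Nat.add (Nat.add (Nat.add (Nat.add (Nat.add (Nat.add (Nat.add C x4417) x8791) x2959) x4471) x4399) x4435) x4423) x4415) x24099)
    (Nat.sub (Nat.add (Nat.add (Nat.add (Nat.add (Nat.add (Nat.add (Nat.add C x8795) x2963) x4475) x4439) x4415) x4423) x24103) (Nat.mul x4421 (nat_lit 2)))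
    (Nat.add (Nat.add (Nat.add (Nat.add (Nat.add (Nat.add (Nat.add (Nat.add (Nat.add C x4423) x8797) x2965) x4477) x4441) x4417) x4421) x4425) x24105)
    (Nat.add (Nat.add (Nat.add (Nat.add (Nat.add (Nat.add C (Nat.mul x4425 (nat_lit 2))) x8799) x2967) x4479) x4443) x4423)
    (Nat.sub (Nat.add (Nat.add (Nat.add (Nat.add (Nat.add (Nat.add (Nat.add C x8807) x2975) x4487) x4415) x4439) x4435) x24115) (Nat.mul x4433 (nat_lit 2)))
    (Nat.sub (Nat.add (Nat.add (Nat.add (Nat.add (Nat.add (Nat.add (Nat.add C x8809) x2977) x4489) x4417) x4441) x4433) x24117) (Nat.mul x4435 (nat_lit 2)))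
    (Nat.sub (Nat.add (Nat.add (Nat.add (Nat.add (Nat.add (Nat.add (Nat.add C x8813) x2981) x4493) x4421) x4433) x4441) x24121) (Nat.mul x4439 (nat_lit 2)))
    (Nat.add (Nat.add (Nat.add (Nat.add (Nat.add (Nat.add (Nat.add (Nat.add (Nat.add C x8815) x2983) x4495) x4423) x4435) x4447) x4439) x4443) x24123)
    (Nat.add (Nat.add (Nat.add (Nat.add (Nat.add (Nat.add C x8817) x2985) x4497) x4425) x4449) x4441)
    (Nat.add (Nat.add (Nat.add (Nat.add (Nat.add (Nat.add C x8821) x2989) x4501) x4441) x4449) x24129)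
    (Nat.add (Nat.add (Nat.add (Nat.add (Nat.add (Nat.add C (Nat.mul x4449 (nat_lit 2))) x8823) x2991) x4503) x4443) x4447)
    (Nat.add (Nat.add (Nat.add (Nat.add (Nat.add (Nat.add C x8837) x3005) x4625) x4409) x4469) x24145)
    (Nat.sub (Nat.add (Nat.add (Nat.add (Nat.add (Nat.add (Nat.add (Nat.add (Nat.add (Nat.add C x8843) x3011) x4631) x4415) x4487) x4463) x4475) x4471) x24151) x4469)
    (Nat.add (Nat.add (Nat.add (Nat.add (Nat.add (Nat.add (Nat.add (Nat.add C x8845) x3013) x4633) x4417) x4489) x4477) x4469) x24153)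
    (Nat.sub (Nat.add (Nat.add (Nat.add (Nat.add (Nat.add (Nat.add (Nat.add (Nat.add C x8849) x3017) x4637) x4421) x4493) x4469) x4477) x24157) (Nat.mul x4475 (nat_lit 4)))
    (Nat.sub (Nat.add (Nat.add (Nat.add (Nat.add (Nat.add (Nat.add (Nat.add (Nat.add (Nat.add C x8851) x3019) x4639) x4423) x4495) x4471) x4475) x4479) x24159) x4477)
    (Nat.add (Nat.add (Nat.add (Nat.add (Nat.add (Nat.add C x8853) x3021) x4641) x4425) x4497) x4477)
    (Nat.sub (Nat.add (Nat.add (Nat.add (Nat.add (Nat.add (Nat.add (Nat.add (Nat.add (Nat.add C x8861) x3029) x4649) x4433) x4541) x4469) x4493) x4489) x24169) x4487)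
    (Nat.sub (Nat.add (Nat.add (Nat.add (Nat.add (Nat.add (Nat.add (Nat.add (Nat.add (Nat.add C x8863) x3031) x4651) x4435) x4543) x4471) x4495) x4487) x24171) x4489)
    (Nat.sub (Nat.add (Nat.add (Nat.add (Nat.add (Nat.add (Nat.add (Nat.add (Nat.add (Nat.add (Nat.add C x8867) x3035) x4655) x4439) x4547) x4475) x4511) x4487) x4495) x24175) (Nat.mul x4493 (nat_lit 2)))
    (Nat.add (Nat.add (Nat.add (Nat.add (Nat.add (Nat.add (Nat.add (Nat.add (Nat.add (Nat.add (Nat.add (Nat.add C x8869) x3037) x4657) x4441) x4549) x4477) x4513) x4489) x4501) x4493) x4497) x24177)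
    (Nat.add (Nat.add (Nat.add (Nat.add (Nat.add (Nat.add (Nat.add (Nat.add (Nat.add C x8871) x3039) x4659) x4443) x4551) x4479) x4515) x4503) x4495)
    (Nat.sub (Nat.add (Nat.add (Nat.add (Nat.add (Nat.add (Nat.add (Nat.add (Nat.add (Nat.add C x8875) x3043) x4663) x4447) x4555) x4519) x4495) x4503) x24183) x4501)
    (Nat.add (Nat.add (Nat.add (Nat.add (Nat.add (Nat.add (Nat.add (Nat.add (Nat.add C x4503) x8877) x3045) x4665) x4449) x4557) x4521) x4497) x4501)
    (Nat.sub (Nat.add (Nat.add (Nat.add (Nat.add (Nat.add (Nat.add (Nat.add C x8885) x3053) x4673) x4565) x4493) x4513) x24193) (Nat.mul x4511 (nat_lit 2)))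
    (Nat.sub (Nat.add (Nat.add (Nat.add (Nat.add (Nat.add (Nat.add (Nat.add (Nat.add (Nat.add C x8887) x3055) x4675) x4567) x4495) x4519) x4511) x4515) x24195) x4513)
    (Nat.sub (Nat.add (Nat.add (Nat.add (Nat.add (Nat.add (Nat.add (Nat.add C x8889) x3057) x4677) x4569) x4497) x4521) x4513) (Nat.mul x4515 (nat_lit 2)))
    (Nat.add (Nat.add (Nat.add (Nat.add (Nat.add (Nat.add (Nat.add (Nat.add C x8893) x3061) x4681) x4573) x4501) x4513) x4521) x24201)
    (Nat.add (Nat.add (Nat.add (Nat.add (Nat.add (Nat.add (Nat.add (Nat.add (Nat.add C x4521) x8895) x3063) x4683) x4575) x4503) x4515) x4527) x4519)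
    (Nat.add (Nat.add (Nat.add (Nat.add (Nat.add (Nat.add C (Nat.mul x4527 (nat_lit 2))) x8901) x3069) x4689) x4581) x4521)
    (Nat.sub (Nat.add (Nat.add (Nat.add (Nat.add (Nat.add (Nat.add (Nat.add C x8915) x3083) x4703) x4487) x4547) x4543) x24223) (Nat.mul x4541 (nat_lit 2)))
    (Nat.sub (Nat.add (Nat.add (Nat.add (Nat.add (Nat.add (Nat.add (Nat.add C x8917) x3085) x4705) x4489) x4549) x4541) x24225) (Nat.mul x4543 (nat_lit 2)))
    (Nat.sub (Nat.sub (Nat.add (Nat.add (Nat.add (Nat.add (Nat.add (Nat.add (Nat.add (Nat.add (Nat.add C x8921) x3089) x4709) x4493) x4565) x4541) x4549) x24229) (Nat.mul (e (nat_lit 4547)) ap)) (Nat.mul x4547 (nat_lit 4))) (Nat.mul (e (nat_lit 4547)) an))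
    (Nat.sub (Nat.add (Nat.add (Nat.add (Nat.add (Nat.add (Nat.add (Nat.add (Nat.add (Nat.add (Nat.add C x8923) x3091) x4711) x4495) x4567) x4543) x4555) x4547) x4551) x24231) (Nat.mul x4549 (nat_lit 2)))
    (Nat.sub (Nat.add (Nat.add (Nat.add (Nat.add (Nat.add (Nat.add (Nat.add C x8925) x3093) x4713) x4497) x4569) x4557) x4549) (Nat.mul x4551 (nat_lit 2)))
    (Nat.sub (Nat.add (Nat.add (Nat.add (Nat.add (Nat.add (Nat.add (Nat.add (Nat.add C x8929) x3097) x4717) x4501) x4573) x4549) x4557) x24237) (Nat.mul x4555 (nat_lit 4)))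
    (Nat.sub (Nat.add (Nat.add (Nat.add (Nat.add (Nat.add (Nat.add (Nat.add C x8931) x3099) x4719) x4503) x4575) x4551) x4555) (Nat.mul x4557 (nat_lit 2)))
    (Nat.sub (Nat.add (Nat.add (Nat.add (Nat.add (Nat.add (Nat.add (Nat.add C x8939) x3107) x4727) x4511) x4547) x4567) x24247) (Nat.mul x4565 (nat_lit 2)))
    (Nat.sub (Nat.add (Nat.add (Nat.add (Nat.add (Nat.add (Nat.add (Nat.add (Nat.add (Nat.add C x8941) x3109) x4729) x4513) x4549) x4573) x4565) x4569) x24249) x4567)
    (Nat.sub (Nat.add (Nat.add (Nat.add (Nat.add (Nat.add (Nat.add (Nat.add C x8943) x3111) x4731) x4515) x4551) x4575) x4567) (Nat.mul x4569 (nat_lit 2)))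
    (Nat.sub (Nat.add (Nat.add (Nat.add (Nat.add (Nat.add (Nat.add (Nat.add (Nat.add (Nat.add C x8947) x3115) x4735) x4519) x4555) x4591) x4567) x4575) x24255) x4573)
    (Nat.add (Nat.add (Nat.add (Nat.add (Nat.add (Nat.add (Nat.add (Nat.add (Nat.add C x8949) x3117) x4737) x4521) x4557) x4593) x4569) x4581) x4573)
    (Nat.add (Nat.add (Nat.add (Nat.add (Nat.add (Nat.add C x8955) x3123) x4743) x4527) x4599) x4575)
    (Nat.add (Nat.add (Nat.add (Nat.add (Nat.add (Nat.add C x8965) x3133) x4753) x4573) x4593) x24273)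
    (Nat.add (Nat.add (Nat.add (Nat.add (Nat.add (Nat.add C x8967) x3135) x4755) x4575) x4599) x4591)
    (Nat.add (Nat.add (Nat.add (Nat.add (Nat.add (Nat.add C (Nat.mul x4599 (nat_lit 2))) x8973) x3141) x4761) x4581) x4593)
    (Nat.add (Nat.add (Nat.add (Nat.add (Nat.add (Nat.add C x8999) x3167) x5111) x4463) x4631) x24307)
    (Nat.sub (Nat.add (Nat.add (Nat.add (Nat.add (Nat.add (Nat.add (Nat.add (Nat.add (Nat.add C x9005) x3173) x5117) x4469) x4649) x4625) x4637) x4633) x24313) x4631)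
    (Nat.add (Nat.add (Nat.add (Nat.add (Nat.add (Nat.add (Nat.add (Nat.add C x9007) x3175) x5119) x4471) x4651) x4639) x4631) x24315)
    (Nat.sub (Nat.add (Nat.add (Nat.add (Nat.add (Nat.add (Nat.add (Nat.add (Nat.add C x9011) x3179) x5123) x4475) x4655) x4631) x4639) x24319) (Nat.mul x4637 (nat_lit 4)))
    (Nat.sub (Nat.add (Nat.add (Nat.add (Nat.add (Nat.add (Nat.add (Nat.add (Nat.add (Nat.add C x9013) x3181) x5125) x4477) x4657) x4633) x4637) x4641) x24321) x4639)
    (Nat.add (Nat.add (Nat.add (Nat.add (Nat.add (Nat.add C x9015) x3183) x5127) x4479) x4659) x4639)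
    (Nat.sub (Nat.sub (Nat.add (Nat.add (Nat.add (Nat.add (Nat.add (Nat.add (Nat.add (Nat.add (Nat.add (Nat.add C x9023) x3191) x5135) x4487) x4703) x4631) x4655) x4651) x24331) (Nat.mul (e (nat_lit 4649)) ap)) (Nat.mul x4649 (nat_lit 2))) (Nat.mul (e (nat_lit 4649)) an))
    (Nat.sub (Nat.add (Nat.add (Nat.add (Nat.add (Nat.add (Nat.add (Nat.add (Nat.add (Nat.add C x9025) x3193) x5137) x4489) x4705) x4633) x4657) x4649) x24333) (Nat.mul x4651 (nat_lit 2)))
    (Nat.sub (Nat.sub (Nat.add (Nat.add (Nat.add (Nat.add (Nat.add (Nat.add (Nat.add (Nat.add (Nat.add (Nat.add (Nat.add C x9029) x3197) x5141) x4493) x4709) x4637) x4673) x4649) x4657) x24337) (Nat.mul (e (nat_lit 4655)) ap)) (Nat.mul x4655 (nat_lit 3))) (Nat.mul (e (nat_lit 4655)) an))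
    (Nat.sub (Nat.add (Nat.add (Nat.add (Nat.add (Nat.add (Nat.add (Nat.add (Nat.add (Nat.add (Nat.add (Nat.add (Nat.add C x9031) x3199) x5143) x4495) x4711) x4639) x4675) x4651) x4663) x4655) x4659) x24339) x4657)
    (Nat.sub (Nat.add (Nat.add (Nat.add (Nat.add (Nat.add (Nat.add (Nat.add (Nat.add (Nat.add C x9033) x3201) x5145) x4497) x4713) x4641) x4677) x4665) x4657) x4659)
    (Nat.sub (Nat.add (Nat.add (Nat.add (Nat.add (Nat.add (Nat.add (Nat.add (Nat.add (Nat.add C x9037) x3205) x5149) x4501) x4717) x4681) x4657) x4665) x24345) (Nat.mul x4663 (nat_lit 2)))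
    (Nat.add (Nat.add (Nat.add (Nat.add (Nat.add (Nat.add (Nat.add (Nat.add C x9039) x3207) x5151) x4503) x4719) x4683) x4659) x4663)
    (Nat.sub (Nat.add (Nat.add (Nat.add (Nat.add (Nat.add (Nat.add (Nat.add (Nat.add C x9047) x3215) x5159) x4511) x4727) x4655) x4675) x24355) (Nat.mul x4673 (nat_lit 4)))
    (Nat.sub (Nat.add (Nat.add (Nat.add (Nat.add (Nat.add (Nat.add (Nat.add (Nat.add (Nat.add (Nat.add C x9049) x3217) x5161) x4513) x4729) x4657) x4681) x4673) x4677) x24357) (Nat.mul x4675 (nat_lit 3)))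
    (Nat.sub (Nat.add (Nat.add (Nat.add (Nat.add (Nat.add (Nat.add (Nat.add (Nat.add C x9051) x3219) x5163) x4515) x4731) x4659) x4683) x4675) (Nat.mul x4677 (nat_lit 4)))
    (Nat.sub (Nat.add (Nat.add (Nat.add (Nat.add (Nat.add (Nat.add (Nat.add (Nat.add (Nat.add C x9055) x3223) x5167) x4519) x4735) x4663) x4675) x4683) x24363) (Nat.mul x4681 (nat_lit 2)))
    (Nat.sub (Nat.add (Nat.add (Nat.add (Nat.add (Nat.add (Nat.add (Nat.add (Nat.add (Nat.add C x9057) x3225) x5169) x4521) x4737) x4665) x4677) x4689) x4681) x4683)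
    (Nat.add (Nat.add (Nat.add (Nat.add (Nat.add (Nat.add C x9063) x3231) x5175) x4527) x4743) x4683)
    (Nat.sub (Nat.add (Nat.add (Nat.add (Nat.add (Nat.add (Nat.add (Nat.add (Nat.add (Nat.add C x9077) x3245) x5189) x4541) x4865) x4649) x4709) x4705) x24385) x4703)
    (Nat.sub (Nat.add (Nat.add (Nat.add (Nat.add (Nat.add (Nat.add (Nat.add (Nat.add (Nat.add C x9079) x3247) x5191) x4543) x4867) x4651) x4711) x4703) x24387) x4705)
    (Nat.sub (Nat.add (Nat.add (Nat.add (Nat.add (Nat.add (Nat.add (Nat.add (Nat.add (Nat.add (Nat.add C x9083) x3251) x5195) x4547) x4871) x4655) x4727) x4703) x4711) x24391) (Nat.mul x4709 (nat_lit 3)))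
    (Nat.sub (Nat.add (Nat.add (Nat.add (Nat.add (Nat.add (Nat.add (Nat.add (Nat.add (Nat.add (Nat.add (Nat.add (Nat.add C x9085) x3253) x5197) x4549) x4873) x4657) x4729) x4705) x4717) x4709) x4713) x24393) x4711)
    (Nat.sub (Nat.add (Nat.add (Nat.add (Nat.add (Nat.add (Nat.add (Nat.add (Nat.add (Nat.add C x9087) x3255) x5199) x4551) x4875) x4659) x4731) x4719) x4711) x4713)
    (Nat.sub (Nat.add (Nat.add (Nat.add (Nat.add (Nat.add (Nat.add (Nat.add (Nat.add (Nat.add (Nat.add C x9091) x3259) x5203) x4555) x4879) x4663) x4735) x4711) x4719) x24399) (Nat.mul x4717 (nat_lit 3)))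
    (Nat.sub (Nat.add (Nat.add (Nat.add (Nat.add (Nat.add (Nat.add (Nat.add (Nat.add (Nat.add C x9093) x3261) x5205) x4557) x4881) x4665) x4737) x4713) x4717) x4719)
    (Nat.sub (Nat.add (Nat.add (Nat.add (Nat.add (Nat.add (Nat.add (Nat.add (Nat.add (Nat.add (Nat.add C x9101) x3269) x5213) x4565) x4889) x4673) x4781) x4709) x4729) x24409) (Nat.mul x4727 (nat_lit 2)))
    (Nat.sub (Nat.add (Nat.add (Nat.add (Nat.add (Nat.add (Nat.add (Nat.add (Nat.add (Nat.add (Nat.add (Nat.add (Nat.add C x9103) x3271) x5215) x4567) x4891) x4675) x4783) x4711) x4735) x4727) x4731) x24411) x4729)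
    (Nat.sub (Nat.add (Nat.add (Nat.add (Nat.add (Nat.add (Nat.add (Nat.add (Nat.add (Nat.add (Nat.add C x9105) x3273) x5217) x4569) x4893) x4677) x4785) x4713) x4737) x4729) (Nat.mul x4731 (nat_lit 2)))
    (Nat.sub (Nat.add (Nat.add (Nat.add (Nat.add (Nat.add (Nat.add (Nat.add (Nat.add (Nat.add (Nat.add (Nat.add (Nat.add C x9109) x3277) x5221) x4573) x4897) x4681) x4789) x4717) x4753) x4729) x4737) x24417) x4735)
    (Nat.add (Nat.add (Nat.add (Nat.add (Nat.add (Nat.add (Nat.add (Nat.add (Nat.add (Nat.add (Nat.add (Nat.add C x9111) x3279) x5223) x4575) x4899) x4683) x4791) x4719) x4755) x4731) x4743) x4735)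
    (Nat.add (Nat.add (Nat.add (Nat.add (Nat.add (Nat.add (Nat.add (Nat.add (Nat.add C x9117) x3285) x5229) x4581) x4905) x4689) x4797) x4761) x4737)
    (Nat.sub (Nat.add (Nat.add (Nat.add (Nat.add (Nat.add (Nat.add (Nat.add (Nat.add (Nat.add C x9127) x3295) x5239) x4591) x4915) x4807) x4735) x4755) x24435) x4753)
    (Nat.sub (Nat.add (Nat.add (Nat.add (Nat.add (Nat.add (Nat.add (Nat.add (Nat.add (Nat.add C x9129) x3297) x5241) x4593) x4917) x4809) x4737) x4761) x4753) x4755)
    (Nat.add (Nat.add (Nat.add (Nat.add (Nat.add (Nat.add (Nat.add (Nat.add (Nat.add C x4761) x9135) x3303) x5247) x4599) x4923) x4815) x4743) x4755)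
    (Nat.sub (Nat.add (Nat.add (Nat.add (Nat.add (Nat.add (Nat.add (Nat.add C x9155) x3323) x5267) x4943) x4727) x4783) x24463) (Nat.mul x4781 (nat_lit 2)))
    (Nat.sub (Nat.add (Nat.add (Nat.add (Nat.add (Nat.add (Nat.add (Nat.add (Nat.add (Nat.add C x9157) x3325) x5269) x4945) x4729) x4789) x4781) x4785) x24465) x4783)
    (Nat.sub (Nat.add (Nat.add (Nat.add (Nat.add (Nat.add (Nat.add (Nat.add C x9159) x3327) x5271) x4947) x4731) x4791) x4783) (Nat.mul x4785 (nat_lit 2)))
    (Nat.sub (Nat.add (Nat.add (Nat.add (Nat.add (Nat.add (Nat.add (Nat.add (Nat.add (Nat.add C x9163) x3331) x5275) x4951) x4735) x4807) x4783) x4791) x24471) (Nat.mul x4789 (nat_lit 2)))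
    (Nat.sub (Nat.add (Nat.add (Nat.add (Nat.add (Nat.add (Nat.add (Nat.add (Nat.add (Nat.add C x9165) x3333) x5277) x4953) x4737) x4809) x4785) x4797) x4789) x4791)
    (Nat.sub (Nat.add (Nat.add (Nat.add (Nat.add (Nat.add (Nat.add (Nat.add C x9171) x3339) x5283) x4959) x4743) x4815) x4791) (Nat.mul x4797 (nat_lit 2)))
    (Nat.add (Nat.add (Nat.add (Nat.add (Nat.add (Nat.add (Nat.add (Nat.add C x9181) x3349) x5293) x4969) x4753) x4789) x4809) x24489)
    (Nat.add (Nat.add (Nat.add (Nat.add (Nat.add (Nat.add (Nat.add (Nat.add C x9183) x3351) x5295) x4971) x4755) x4791) x4815) x4807)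
    (Nat.add (Nat.add (Nat.add (Nat.add (Nat.add (Nat.add (Nat.add (Nat.add (Nat.add C x4815) x9189) x3357) x5301) x4977) x4761) x4797) x4833) x4809)
    (Nat.add (Nat.add (Nat.add (Nat.add (Nat.add (Nat.add C (Nat.mul x4833 (nat_lit 2))) x9207) x3375) x5319) x4995) x4815)
    (Nat.sub (Nat.add (Nat.add (Nat.add (Nat.add (Nat.add (Nat.add (Nat.add C x9239) x3407) x5351) x4703) x4871) x4867) x24547) (Nat.mul x4865 (nat_lit 2)))
    (Nat.sub (Nat.add (Nat.add (Nat.add (Nat.add (Nat.add (Nat.add (Nat.add C x9241) x3409) x5353) x4705) x4873) x4865) x24549) (Nat.mul x4867 (nat_lit 2)))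
    (Nat.sub (Nat.add (Nat.add (Nat.add (Nat.add (Nat.add (Nat.add (Nat.add (Nat.add C x9245) x3413) x5357) x4709) x4889) x4865) x4873) x24553) (Nat.mul x4871 (nat_lit 4)))
    (Nat.sub (Nat.add (Nat.add (Nat.add (Nat.add (Nat.add (Nat.add (Nat.add (Nat.add (Nat.add (Nat.add C x9247) x3415) x5359) x4711) x4891) x4867) x4879) x4871) x4875) x24555) (Nat.mul x4873 (nat_lit 2)))
    (Nat.sub (Nat.add (Nat.add (Nat.add (Nat.add (Nat.add (Nat.add (Nat.add C x9249) x3417) x5361) x4713) x4893) x4881) x4873) (Nat.mul x4875 (nat_lit 2)))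
    (Nat.sub (Nat.add (Nat.add (Nat.add (Nat.add (Nat.add (Nat.add (Nat.add (Nat.add C x9253) x3421) x5365) x4717) x4897) x4873) x4881) x24561) (Nat.mul x4879 (nat_lit 4)))
    (Nat.sub (Nat.add (Nat.add (Nat.add (Nat.add (Nat.add (Nat.add (Nat.add C x9255) x3423) x5367) x4719) x4899) x4875) x4879) (Nat.mul x4881 (nat_lit 2)))
    (Nat.sub (Nat.add (Nat.add (Nat.add (Nat.add (Nat.add (Nat.add (Nat.add (Nat.add C x9263) x3431) x5375) x4727) x4943) x4871) x4891) x24571) (Nat.mul x4889 (nat_lit 4)))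
    (Nat.sub (Nat.add (Nat.add (Nat.add (Nat.add (Nat.add (Nat.add (Nat.add (Nat.add (Nat.add (Nat.add C x9265) x3433) x5377) x4729) x4945) x4873) x4897) x4889) x4893) x24573) (Nat.mul x4891 (nat_lit 3)))
    (Nat.sub (Nat.add (Nat.add (Nat.add (Nat.add (Nat.add (Nat.add (Nat.add (Nat.add C x9267) x3435) x5379) x4731) x4947) x4875) x4899) x4891) (Nat.mul x4893 (nat_lit 4)))
    (Nat.sub (Nat.add (Nat.add (Nat.add (Nat.add (Nat.add (Nat.add (Nat.add (Nat.add (Nat.add (Nat.add C x9271) x3439) x5383) x4735) x4951) x4879) x4915) x4891) x4899) x24579) (Nat.mul x4897 (nat_lit 3)))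
    (Nat.sub (Nat.add (Nat.add (Nat.add (Nat.add (Nat.add (Nat.add (Nat.add (Nat.add (Nat.add (Nat.add C x9273) x3441) x5385) x4737) x4953) x4881) x4917) x4893) x4905) x4897) (Nat.mul x4899 (nat_lit 2)))
    (Nat.sub (Nat.add (Nat.add (Nat.add (Nat.add (Nat.add (Nat.add (Nat.add C x9279) x3447) x5391) x4743) x4959) x4923) x4899) (Nat.mul x4905 (nat_lit 2)))
    (Nat.sub (Nat.add (Nat.add (Nat.add (Nat.add (Nat.add (Nat.add (Nat.add (Nat.add C x9289) x3457) x5401) x4753) x4969) x4897) x4917) x24597) (Nat.mul x4915 (nat_lit 4)))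
    (Nat.sub (Nat.add (Nat.add (Nat.add (Nat.add (Nat.add (Nat.add (Nat.add (Nat.add C x9291) x3459) x5403) x4755) x4971) x4899) x4923) x4915) (Nat.mul x4917 (nat_lit 4)))
    (Nat.sub (Nat.add (Nat.add (Nat.add (Nat.add (Nat.add (Nat.add (Nat.add C x9297) x3465) x5409) x4761) x4977) x4905) x4917) (Nat.mul x4923 (nat_lit 2)))
    (Nat.sub (Nat.add (Nat.add (Nat.add (Nat.add (Nat.add (Nat.add (Nat.add C x9317) x3485) x5429) x4781) x4889) x4945) x24625) (Nat.mul x4943 (nat_lit 2)))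
    (Nat.sub (Nat.add (Nat.add (Nat.add (Nat.add (Nat.add (Nat.add (Nat.add (Nat.add (Nat.add C x9319) x3487) x5431) x4783) x4891) x4951) x4943) x4947) x24627) x4945)
    (Nat.sub (Nat.add (Nat.add (Nat.add (Nat.add (Nat.add (Nat.add (Nat.add C x9321) x3489) x5433) x4785) x4893) x4953) x4945) (Nat.mul x4947 (nat_lit 2)))
    (Nat.sub (Nat.add (Nat.add (Nat.add (Nat.add (Nat.add (Nat.add (Nat.add (Nat.add (Nat.add C x9325) x3493) x5437) x4789) x4897) x4969) x4945) x4953) x24633) (Nat.mul x4951 (nat_lit 2)))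
    (Nat.sub (Nat.add (Nat.add (Nat.add (Nat.add (Nat.add (Nat.add (Nat.add (Nat.add (Nat.add C x9327) x3495) x5439) x4791) x4899) x4971) x4947) x4959) x4951) x4953)
    (Nat.sub (Nat.add (Nat.add (Nat.add (Nat.add (Nat.add (Nat.add (Nat.add C x9333) x3501) x5445) x4797) x4905) x4977) x4953) (Nat.mul x4959 (nat_lit 2)))
    (Nat.sub (Nat.add (Nat.add (Nat.add (Nat.add (Nat.add (Nat.add (Nat.add (Nat.add (Nat.add C x9343) x3511) x5455) x4807) x4915) x5023) x4951) x4971) x24651) x4969)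
    (Nat.sub (Nat.add (Nat.add (Nat.add (Nat.add (Nat.add (Nat.add (Nat.add (Nat.add (Nat.add C x9345) x3513) x5457) x4809) x4917) x5025) x4953) x4977) x4969) x4971)
    (Nat.add (Nat.add (Nat.add (Nat.add (Nat.add (Nat.add (Nat.add (Nat.add (Nat.add C x9351) x3519) x5463) x4815) x4923) x5031) x4959) x4995) x4971)
    (Nat.add (Nat.add (Nat.add (Nat.add (Nat.add (Nat.add C x9369) x3537) x5481) x4833) x5049) x4977)
    (Nat.add (Nat.add (Nat.add (Nat.add (Nat.add (Nat.add C x9397) x3565) x5509) x4969) x5025) x24705)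
    (Nat.add (Nat.add (Nat.add (Nat.add (Nat.add (Nat.add C x9399) x3567) x5511) x4971) x5031) x5023)
    (Nat.add (Nat.add (Nat.add (Nat.add (Nat.add (Nat.add C x9405) x3573) x5517) x4977) x5049) x5025)
    (Nat.add (Nat.add (Nat.add (Nat.add (Nat.add (Nat.add C (Nat.mul x5049 (nat_lit 2))) x9423) x3591) x5535) x4995) x5031)
    (Nat.add (Nat.add (Nat.add (Nat.add (Nat.add (Nat.add C (Nat.mul x5111 (nat_lit 2))) x9485) x3653) x4625) x5117) x24793)
    (Nat.add (Nat.add (Nat.add (Nat.add (Nat.add (Nat.add (Nat.add (Nat.add (Nat.add C x5117) x9491) x3659) x4631) x5135) x5111) x5123) x5119) x24799)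
    (Nat.add (Nat.add (Nat.add (Nat.add (Nat.add (Nat.add (Nat.add (Nat.add C (Nat.mul x5119 (nat_lit 2))) x9493) x3661) x4633) x5137) x5125) x5117) x24801)
    (Nat.sub (Nat.add (Nat.add (Nat.add (Nat.add (Nat.add (Nat.add (Nat.add C x9497) x3665) x4637) x5141) x5117) x5125) x24805) (Nat.mul x5123 (nat_lit 2)))
    (Nat.add (Nat.add (Nat.add (Nat.add (Nat.add (Nat.add (Nat.add (Nat.add (Nat.add C x5125) x9499) x3667) x4639) x5143) x5119) x5123) x5127) x24807)
    (Nat.add (Nat.add (Nat.add (Nat.add (Nat.add (Nat.add C (Nat.mul x5127 (nat_lit 2))) x9501) x3669) x4641) x5145) x5125)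
    (Nat.add (Nat.add (Nat.add (Nat.add (Nat.add (Nat.add (Nat.add (Nat.add C x9509) x3677) x4649) x5189) x5117) x5141) x5137) x24817)
    (Nat.add (Nat.add (Nat.add (Nat.add (Nat.add (Nat.add (Nat.add (Nat.add C x9511) x3679) x4651) x5191) x5119) x5143) x5135) x24819)
    (Nat.sub (Nat.add (Nat.add (Nat.add (Nat.add (Nat.add (Nat.add (Nat.add (Nat.add (Nat.add C x9515) x3683) x4655) x5195) x5123) x5159) x5135) x5143) x24823) x5141)
    (Nat.add (Nat.add (Nat.add (Nat.add (Nat.add (Nat.add (Nat.add (Nat.add (Nat.add (Nat.add (Nat.add (Nat.add C x5143) x9517) x3685) x4657) x5197) x5125) x5161) x5137) x5149) x5141) x5145) x24825)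
    (Nat.add (Nat.add (Nat.add (Nat.add (Nat.add (Nat.add (Nat.add (Nat.add (Nat.add C x5145) x9519) x3687) x4659) x5199) x5127) x5163) x5151) x5143)
    (Nat.add (Nat.add (Nat.add (Nat.add (Nat.add (Nat.add (Nat.add (Nat.add C x9523) x3691) x4663) x5203) x5167) x5143) x5151) x24831)
    (Nat.add (Nat.add (Nat.add (Nat.add (Nat.add (Nat.add (Nat.add (Nat.add C (Nat.mul x5151 (nat_lit 2))) x9525) x3693) x4665) x5205) x5169) x5145) x5149)
    (Nat.sub (Nat.add (Nat.add (Nat.add (Nat.add (Nat.add (Nat.add (Nat.add C x9533) x3701) x4673) x5213) x5141) x5161) x24841) (Nat.mul x5159 (nat_lit 2)))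
    (Nat.sub (Nat.add (Nat.add (Nat.add (Nat.add (Nat.add (Nat.add (Nat.add (Nat.add (Nat.add C x9535) x3703) x4675) x5215) x5143) x5167) x5159) x5163) x24843) x5161)
    (Nat.sub (Nat.add (Nat.add (Nat.add (Nat.add (Nat.add (Nat.add (Nat.add C x9537) x3705) x4677) x5217) x5145) x5169) x5161) (Nat.mul x5163 (nat_lit 2)))
    (Nat.add (Nat.add (Nat.add (Nat.add (Nat.add (Nat.add (Nat.add (Nat.add C x9541) x3709) x4681) x5221) x5149) x5161) x5169) x24849)
    (Nat.add (Nat.add (Nat.add (Nat.add (Nat.add (Nat.add (Nat.add (Nat.add (Nat.add C x5169) x9543) x3711) x4683) x5223) x5151) x5163) x5175) x5167)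
    (Nat.add (Nat.add (Nat.add (Nat.add (Nat.add (Nat.add C (Nat.mul x5175 (nat_lit 2))) x9549) x3717) x4689) x5229) x5169)
    (Nat.add (Nat.add (Nat.add (Nat.add (Nat.add (Nat.add (Nat.add (Nat.add C x9563) x3731) x4703) x5351) x5135) x5195) x5191) x24871)
    (Nat.add (Nat.add (Nat.add (Nat.add (Nat.add (Nat.add (Nat.add (Nat.add C x9565) x3733) x4705) x5353) x5137) x5197) x5189) x24873)
    (Nat.sub (Nat.add (Nat.add (Nat.add (Nat.add (Nat.add (Nat.add (Nat.add (Nat.add (Nat.add C x9569) x3737) x4709) x5357) x5141) x5213) x5189) x5197) x24877) (Nat.mul x5195 (nat_lit 2)))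
    (Nat.add (Nat.add (Nat.add (Nat.add (Nat.add (Nat.add (Nat.add (Nat.add (Nat.add (Nat.add (Nat.add C x9571) x3739) x4711) x5359) x5143) x5215) x5191) x5203) x5195) x5199) x24879)
    (Nat.add (Nat.add (Nat.add (Nat.add (Nat.add (Nat.add (Nat.add (Nat.add C x9573) x3741) x4713) x5361) x5145) x5217) x5205) x5197)
    (Nat.sub (Nat.add (Nat.add (Nat.add (Nat.add (Nat.add (Nat.add (Nat.add (Nat.add (Nat.add C x9577) x3745) x4717) x5365) x5149) x5221) x5197) x5205) x24885) (Nat.mul x5203 (nat_lit 2)))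
    (Nat.add (Nat.add (Nat.add (Nat.add (Nat.add (Nat.add (Nat.add (Nat.add C x9579) x3747) x4719) x5367) x5151) x5223) x5199) x5203)
    (Nat.sub (Nat.add (Nat.add (Nat.add (Nat.add (Nat.add (Nat.add (Nat.add (Nat.add (Nat.add C x9587) x3755) x4727) x5375) x5159) x5267) x5195) x5215) x24895) x5213)
    (Nat.add (Nat.add (Nat.add (Nat.add (Nat.add (Nat.add (Nat.add (Nat.add (Nat.add (Nat.add (Nat.add C x9589) x3757) x4729) x5377) x5161) x5269) x5197) x5221) x5213) x5217) x24897)
    (Nat.sub (Nat.add (Nat.add (Nat.add (Nat.add (Nat.add (Nat.add (Nat.add (Nat.add (Nat.add C x9591) x3759) x4731) x5379) x5163) x5271) x5199) x5223) x5215) x5217)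
    (Nat.add (Nat.add (Nat.add (Nat.add (Nat.add (Nat.add (Nat.add (Nat.add (Nat.add (Nat.add (Nat.add C x9595) x3763) x4735) x5383) x5167) x5275) x5203) x5239) x5215) x5223) x24903)
    (Nat.add (Nat.add (Nat.add (Nat.add (Nat.add (Nat.add (Nat.add (Nat.add (Nat.add (Nat.add (Nat.add (Nat.add C x5223) x9597) x3765) x4737) x5385) x5169) x5277) x5205) x5241) x5217) x5229) x5221)
    (Nat.add (Nat.add (Nat.add (Nat.add (Nat.add (Nat.add (Nat.add (Nat.add (Nat.add C x5229) x9603) x3771) x4743) x5391) x5175) x5283) x5247) x5223)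
    (Nat.add (Nat.add (Nat.add (Nat.add (Nat.add (Nat.add (Nat.add (Nat.add C x9613) x3781) x4753) x5401) x5293) x5221) x5241) x24921)
    (Nat.add (Nat.add (Nat.add (Nat.add (Nat.add (Nat.add (Nat.add (Nat.add C x9615) x3783) x4755) x5403) x5295) x5223) x5247) x5239)
    (Nat.add (Nat.add (Nat.add (Nat.add (Nat.add (Nat.add (Nat.add (Nat.add C (Nat.mul x5247 (nat_lit 2))) x9621) x3789) x4761) x5409) x5301) x5229) x5241)
    (Nat.sub (Nat.add (Nat.add (Nat.add (Nat.add (Nat.add (Nat.add (Nat.add C x9641) x3809) x4781) x5429) x5213) x5269) x24949) (Nat.mul x5267 (nat_lit 2)))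
    (Nat.sub (Nat.add (Nat.add (Nat.add (Nat.add (Nat.add (Nat.add (Nat.add (Nat.add (Nat.add C x9643) x3811) x4783) x5431) x5215) x5275) x5267) x5271) x24951) x5269)
    (Nat.sub (Nat.add (Nat.add (Nat.add (Nat.add (Nat.add (Nat.add (Nat.add C x9645) x3813) x4785) x5433) x5217) x5277) x5269) (Nat.mul x5271 (nat_lit 2)))
    (Nat.sub (Nat.add (Nat.add (Nat.add (Nat.add (Nat.add (Nat.add (Nat.add (Nat.add (Nat.add C x9649) x3817) x4789) x5437) x5221) x5293) x5269) x5277) x24957) (Nat.mul x5275 (nat_lit 2)))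
    (Nat.sub (Nat.add (Nat.add (Nat.add (Nat.add (Nat.add (Nat.add (Nat.add (Nat.add (Nat.add C x9651) x3819) x4791) x5439) x5223) x5295) x5271) x5283) x5275) x5277)
    (Nat.sub (Nat.add (Nat.add (Nat.add (Nat.add (Nat.add (Nat.add (Nat.add C x9657) x3825) x4797) x5445) x5229) x5301) x5277) (Nat.mul x5283 (nat_lit 2)))
    (Nat.add (Nat.add (Nat.add (Nat.add (Nat.add (Nat.add (Nat.add (Nat.add C x9667) x3835) x4807) x5455) x5239) x5275) x5295) x24975)
    (Nat.add (Nat.add (Nat.add (Nat.add (Nat.add (Nat.add (Nat.add (Nat.add C x9669) x3837) x4809) x5457) x5241) x5277) x5301) x5293)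
    (Nat.add (Nat.add (Nat.add (Nat.add (Nat.add (Nat.add (Nat.add (Nat.add (Nat.add C x5301) x9675) x3843) x4815) x5463) x5247) x5283) x5319) x5295)
    (Nat.add (Nat.add (Nat.add (Nat.add (Nat.add (Nat.add C (Nat.mul x5319 (nat_lit 2))) x9693) x3861) x4833) x5481) x5301)
    (Nat.add (Nat.add (Nat.add (Nat.add (Nat.add (Nat.add (Nat.add (Nat.add (Nat.add C x5351) x9725) x3893) x4865) x5837) x5189) x5357) x5353) x25033)
    (Nat.add (Nat.add (Nat.add (Nat.add (Nat.add (Nat.add (Nat.add (Nat.add (Nat.add C x5353) x9727) x3895) x4867) x5839) x5191) x5359) x5351) x25035)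
    (Nat.sub (Nat.add (Nat.add (Nat.add (Nat.add (Nat.add (Nat.add (Nat.add (Nat.add (Nat.add C x9731) x3899) x4871) x5843) x5195) x5375) x5351) x5359) x25039) x5357)
    (Nat.add (Nat.add (Nat.add (Nat.add (Nat.add (Nat.add (Nat.add (Nat.add (Nat.add (Nat.add (Nat.add (Nat.add C x5359) x9733) x3901) x4873) x5845) x5197) x5377) x5353) x5365) x5357) x5361) x25041)
    (Nat.add (Nat.add (Nat.add (Nat.add (Nat.add (Nat.add (Nat.add (Nat.add (Nat.add C x5361) x9735) x3903) x4875) x5847) x5199) x5379) x5367) x5359)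
    (Nat.sub (Nat.add (Nat.add (Nat.add (Nat.add (Nat.add (Nat.add (Nat.add (Nat.add (Nat.add C x9739) x3907) x4879) x5851) x5203) x5383) x5359) x5367) x25047) x5365)
    (Nat.add (Nat.add (Nat.add (Nat.add (Nat.add (Nat.add (Nat.add (Nat.add (Nat.add C x5367) x9741) x3909) x4881) x5853) x5205) x5385) x5361) x5365)
    (Nat.sub (Nat.add (Nat.add (Nat.add (Nat.add (Nat.add (Nat.add (Nat.add (Nat.add (Nat.add C x9749) x3917) x4889) x5861) x5213) x5429) x5357) x5377) x25057) x5375)
    (Nat.add (Nat.add (Nat.add (Nat.add (Nat.add (Nat.add (Nat.add (Nat.add (Nat.add (Nat.add (Nat.add C x9751) x3919) x4891) x5863) x5215) x5431) x5359) x5383) x5375) x5379) x25059)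
    (Nat.sub (Nat.add (Nat.add (Nat.add (Nat.add (Nat.add (Nat.add (Nat.add (Nat.add (Nat.add C x9753) x3921) x4893) x5865) x5217) x5433) x5361) x5385) x5377) x5379)
    (Nat.add (Nat.add (Nat.add (Nat.add (Nat.add (Nat.add (Nat.add (Nat.add (Nat.add (Nat.add (Nat.add C x9757) x3925) x4897) x5869) x5221) x5437) x5365) x5401) x5377) x5385) x25065)
    (Nat.add (Nat.add (Nat.add (Nat.add (Nat.add (Nat.add (Nat.add (Nat.add (Nat.add (Nat.add (Nat.add (Nat.add C x5385) x9759) x3927) x4899) x5871) x5223) x5439) x5367) x5403) x5379) x5391) x5383)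
    (Nat.add (Nat.add (Nat.add (Nat.add (Nat.add (Nat.add (Nat.add (Nat.add (Nat.add C x5391) x9765) x3933) x4905) x5877) x5229) x5445) x5409) x5385)
    (Nat.sub (Nat.add (Nat.add (Nat.add (Nat.add (Nat.add (Nat.add (Nat.add (Nat.add (Nat.add C x9775) x3943) x4915) x5887) x5239) x5455) x5383) x5403) x25083) x5401)
    (Nat.sub (Nat.add (Nat.add (Nat.add (Nat.add (Nat.add (Nat.add (Nat.add (Nat.add (Nat.add C x9777) x3945) x4917) x5889) x5241) x5457) x5385) x5409) x5401) x5403)
    (Nat.add (Nat.add (Nat.add (Nat.add (Nat.add (Nat.add (Nat.add (Nat.add (Nat.add C x5409) x9783) x3951) x4923) x5895) x5247) x5463) x5391) x5403)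
    (Nat.add (Nat.add (Nat.add (Nat.add (Nat.add (Nat.add (Nat.add (Nat.add (Nat.add C x9803) x3971) x4943) x5915) x5267) x5591) x5375) x5431) x25111)
    (Nat.add (Nat.add (Nat.add (Nat.add (Nat.add (Nat.add (Nat.add (Nat.add (Nat.add (Nat.add (Nat.add (Nat.add C x5431) x9805) x3973) x4945) x5917) x5269) x5593) x5377) x5437) x5429) x5433) x25113)
    (Nat.add (Nat.add (Nat.add (Nat.add (Nat.add (Nat.add (Nat.add (Nat.add (Nat.add C x9807) x3975) x4947) x5919) x5271) x5595) x5379) x5439) x5431)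
    (Nat.add (Nat.add (Nat.add (Nat.add (Nat.add (Nat.add (Nat.add (Nat.add (Nat.add (Nat.add (Nat.add C x9811) x3979) x4951) x5923) x5275) x5599) x5383) x5455) x5431) x5439) x25119)
    (Nat.add (Nat.add (Nat.add (Nat.add (Nat.add (Nat.add (Nat.add (Nat.add (Nat.add (Nat.add (Nat.add (Nat.add C x5439) x9813) x3981) x4953) x5925) x5277) x5601) x5385) x5457) x5433) x5445) x5437)
    (Nat.add (Nat.add (Nat.add (Nat.add (Nat.add (Nat.add (Nat.add (Nat.add (Nat.add C x9819) x3987) x4959) x5931) x5283) x5607) x5391) x5463) x5439)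
    (Nat.add (Nat.add (Nat.add (Nat.add (Nat.add (Nat.add (Nat.add (Nat.add (Nat.add (Nat.add (Nat.add (Nat.add C x5455) x9829) x3997) x4969) x5941) x5293) x5617) x5401) x5509) x5437) x5457) x25137)
    (Nat.add (Nat.add (Nat.add (Nat.add (Nat.add (Nat.add (Nat.add (Nat.add (Nat.add (Nat.add (Nat.add (Nat.add C x5457) x9831) x3999) x4971) x5943) x5295) x5619) x5403) x5511) x5439) x5463) x5455)
    (Nat.add (Nat.add (Nat.add (Nat.add (Nat.add (Nat.add (Nat.add (Nat.add (Nat.add (Nat.add (Nat.add (Nat.add C (Nat.mul x5463 (nat_lit 2))) x9837) x4005) x4977) x5949) x5301) x5625) x5409) x5517) x5445) x5481) x5457)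
    (Nat.add (Nat.add (Nat.add (Nat.add (Nat.add (Nat.add (Nat.add (Nat.add (Nat.add C (Nat.mul x5481 (nat_lit 2))) x9855) x4023) x4995) x5967) x5319) x5643) x5535) x5463)
    (Nat.add (Nat.add (Nat.add (Nat.add (Nat.add (Nat.add (Nat.add (Nat.add (Nat.add C x5509) x9883) x4051) x5023) x5995) x5671) x5455) x5511) x25191)
    (Nat.add (Nat.add (Nat.add (Nat.add (Nat.add (Nat.add (Nat.add (Nat.add (Nat.add C x5511) x9885) x4053) x5025) x5997) x5673) x5457) x5517) x5509)
    (Nat.add (Nat.add (Nat.add (Nat.add (Nat.add (Nat.add (Nat.add (Nat.add (Nat.add C x5517) x9891) x4059) x5031) x6003) x5679) x5463) x5535) x5511)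
    (Nat.add (Nat.add (Nat.add (Nat.add (Nat.add (Nat.add (Nat.add (Nat.add C (Nat.mul x5535 (nat_lit 3))) x9909) x4077) x5049) x6021) x5697) x5481) x5517)
    (Nat.add (Nat.add (Nat.add (Nat.add (Nat.add (Nat.add C x9965) x4133) x6077) x5429) x5593) x25273)
    (Nat.add (Nat.add (Nat.add (Nat.add (Nat.add (Nat.add (Nat.add (Nat.add (Nat.add C x5593) x9967) x4135) x6079) x5431) x5599) x5591) x5595) x25275)
    (Nat.add (Nat.add (Nat.add (Nat.add (Nat.add (Nat.add C x9969) x4137) x6081) x5433) x5601) x5593)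
    (Nat.add (Nat.add (Nat.add (Nat.add (Nat.add (Nat.add (Nat.add (Nat.add C x9973) x4141) x6085) x5437) x5617) x5593) x5601) x25281)
    (Nat.add (Nat.add (Nat.add (Nat.add (Nat.add (Nat.add (Nat.add (Nat.add (Nat.add C x5601) x9975) x4143) x6087) x5439) x5619) x5595) x5607) x5599)
    (Nat.add (Nat.add (Nat.add (Nat.add (Nat.add (Nat.add C x9981) x4149) x6093) x5445) x5625) x5601)
    (Nat.add (Nat.add (Nat.add (Nat.add (Nat.add (Nat.add (Nat.add (Nat.add C x9991) x4159) x6103) x5455) x5671) x5599) x5619) x25299)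
    (Nat.add (Nat.add (Nat.add (Nat.add (Nat.add (Nat.add (Nat.add (Nat.add C x9993) x4161) x6105) x5457) x5673) x5601) x5625) x5617)
    (Nat.add (Nat.add (Nat.add (Nat.add (Nat.add (Nat.add (Nat.add (Nat.add (Nat.add C x5625) x9999) x4167) x6111) x5463) x5679) x5607) x5643) x5619)
    (Nat.add (Nat.add (Nat.add (Nat.add (Nat.add (Nat.add C x10017) x4185) x6129) x5481) x5697) x5625)
    (Nat.add (Nat.add (Nat.add (Nat.add (Nat.add (Nat.add (Nat.add (Nat.add C (Nat.mul x5671 (nat_lit 2))) x10045) x4213) x6157) x5509) x5617) x5673) x25353)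
    (Nat.add (Nat.add (Nat.add (Nat.add (Nat.add (Nat.add (Nat.add (Nat.add C (Nat.mul x5673 (nat_lit 2))) x10047) x4215) x6159) x5511) x5619) x5679) x5671)
    (Nat.add (Nat.add (Nat.add (Nat.add (Nat.add (Nat.add (Nat.add (Nat.add C (Nat.mul x5679 (nat_lit 2))) x10053) x4221) x6165) x5517) x5625) x5697) x5673)
    (Nat.add (Nat.add (Nat.add (Nat.add (Nat.add (Nat.add (Nat.add (Nat.add C (Nat.mul x5697 (nat_lit 3))) x10071) x4239) x6183) x5535) x5643) x5751) x5679)
    (Nat.add (Nat.add (Nat.add (Nat.add (Nat.add C (Nat.mul x5751 (nat_lit 4))) x10125) x4293) x6237) x5697)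
    (Nat.add (Nat.add (Nat.add (Nat.add (Nat.add (Nat.add C (Nat.mul x5837 (nat_lit 2))) x10211) x5351) x5843) x5839) x25519)
    (Nat.add (Nat.add (Nat.add (Nat.add (Nat.add (Nat.add C (Nat.mul x5839 (nat_lit 2))) x10213) x5353) x5845) x5837) x25521)
    (Nat.add (Nat.add (Nat.add (Nat.add (Nat.add (Nat.add C x10217) x5357) x5861) x5837) x5845) x25525)
    (Nat.add (Nat.add (Nat.add (Nat.add (Nat.add (Nat.add (Nat.add (Nat.add (Nat.add C (Nat.mul x5845 (nat_lit 2))) x10219) x5359) x5863) x5839) x5851) x5843) x5847) x25527)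
    (Nat.add (Nat.add (Nat.add (Nat.add (Nat.add (Nat.add C (Nat.mul x5847 (nat_lit 2))) x10221) x5361) x5865) x5853) x5845)
    (Nat.add (Nat.add (Nat.add (Nat.add (Nat.add (Nat.add C x10225) x5365) x5869) x5845) x5853) x25533)
    (Nat.add (Nat.add (Nat.add (Nat.add (Nat.add (Nat.add C (Nat.mul x5853 (nat_lit 2))) x10227) x5367) x5871) x5847) x5851)
    (Nat.add (Nat.add (Nat.add (Nat.add (Nat.add (Nat.add C x10235) x5375) x5915) x5843) x5863) x25543)
    (Nat.add (Nat.add (Nat.add (Nat.add (Nat.add (Nat.add (Nat.add (Nat.add (Nat.add C x5863) x10237) x5377) x5917) x5845) x5869) x5861) x5865) x25545)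
    (Nat.add (Nat.add (Nat.add (Nat.add (Nat.add (Nat.add C x10239) x5379) x5919) x5847) x5871) x5863)
    (Nat.add (Nat.add (Nat.add (Nat.add (Nat.add (Nat.add (Nat.add (Nat.add (Nat.add C x5869) x10243) x5383) x5923) x5851) x5887) x5863) x5871) x25551)
    (Nat.add (Nat.add (Nat.add (Nat.add (Nat.add (Nat.add (Nat.add (Nat.add (Nat.add C (Nat.mul x5871 (nat_lit 2))) x10245) x5385) x5925) x5853) x5889) x5865) x5877) x5869)
    (Nat.add (Nat.add (Nat.add (Nat.add (Nat.add (Nat.add C (Nat.mul x5877 (nat_lit 2))) x10251) x5391) x5931) x5895) x5871)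
    (Nat.add (Nat.add (Nat.add (Nat.add (Nat.add (Nat.add C x10261) x5401) x5941) x5869) x5889) x25569)
    (Nat.add (Nat.add (Nat.add (Nat.add (Nat.add (Nat.add C x10263) x5403) x5943) x5871) x5895) x5887)
    (Nat.add (Nat.add (Nat.add (Nat.add (Nat.add (Nat.add C (Nat.mul x5895 (nat_lit 2))) x10269) x5409) x5949) x5877) x5889)
    (Nat.add (Nat.add (Nat.add (Nat.add (Nat.add (Nat.add C x10289) x5429) x6077) x5861) x5917) x25597)
    (Nat.add (Nat.add (Nat.add (Nat.add (Nat.add (Nat.add (Nat.add (Nat.add (Nat.add C x5917) x10291) x5431) x6079) x5863) x5923) x5915) x5919) x25599)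
    (Nat.add (Nat.add (Nat.add (Nat.add (Nat.add (Nat.add C x10293) x5433) x6081) x5865) x5925) x5917)
    (Nat.add (Nat.add (Nat.add (Nat.add (Nat.add (Nat.add (Nat.add (Nat.add C x10297) x5437) x6085) x5869) x5941) x5917) x5925) x25605)
    (Nat.add (Nat.add (Nat.add (Nat.add (Nat.add (Nat.add (Nat.add (Nat.add (Nat.add C x5925) x10299) x5439) x6087) x5871) x5943) x5919) x5931) x5923)
    (Nat.add (Nat.add (Nat.add (Nat.add (Nat.add (Nat.add C x10305) x5445) x6093) x5877) x5949) x5925)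
    (Nat.add (Nat.add (Nat.add (Nat.add (Nat.add (Nat.add (Nat.add (Nat.add (Nat.add C x5941) x10315) x5455) x6103) x5887) x5995) x5923) x5943) x25623)
    (Nat.add (Nat.add (Nat.add (Nat.add (Nat.add (Nat.add (Nat.add (Nat.add (Nat.add C x5943) x10317) x5457) x6105) x5889) x5997) x5925) x5949) x5941)
    (Nat.add (Nat.add (Nat.add (Nat.add (Nat.add (Nat.add (Nat.add (Nat.add (Nat.add C (Nat.mul x5949 (nat_lit 2))) x10323) x5463) x6111) x5895) x6003) x5931) x5967) x5943)
    (Nat.add (Nat.add (Nat.add (Nat.add (Nat.add (Nat.add C (Nat.mul x5967 (nat_lit 2))) x10341) x5481) x6129) x6021) x5949)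
    (Nat.add (Nat.add (Nat.add (Nat.add (Nat.add (Nat.add C x10369) x5509) x6157) x5941) x5997) x25677)
    (Nat.add (Nat.add (Nat.add (Nat.add (Nat.add (Nat.add C x10371) x5511) x6159) x5943) x6003) x5995)
    (Nat.add (Nat.add (Nat.add (Nat.add (Nat.add (Nat.add C x10377) x5517) x6165) x5949) x6021) x5997)
    (Nat.add (Nat.add (Nat.add (Nat.add (Nat.add (Nat.add C (Nat.mul x6021 (nat_lit 2))) x10395) x5535) x6183) x5967) x6003)
    (Nat.add (Nat.add (Nat.add (Nat.add (Nat.add (Nat.add C (Nat.mul x6077 (nat_lit 2))) x10451) x5591) x5915) x6079) x25759)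
    (Nat.add (Nat.add (Nat.add (Nat.add (Nat.add (Nat.add (Nat.add (Nat.add C (Nat.mul x6079 (nat_lit 3))) x10453) x5593) x5917) x6085) x6077) x6081) x25761)
    (Nat.add (Nat.add (Nat.add (Nat.add (Nat.add (Nat.add C (Nat.mul x6081 (nat_lit 2))) x10455) x5595) x5919) x6087) x6079)
    (Nat.add (Nat.add (Nat.add (Nat.add (Nat.add (Nat.add (Nat.add (Nat.add C (Nat.mul x6085 (nat_lit 2))) x10459) x5599) x5923) x6103) x6079) x6087) x25767)
    (Nat.add (Nat.add (Nat.add (Nat.add (Nat.add (Nat.add (Nat.add (Nat.add C (Nat.mul x6087 (nat_lit 3))) x10461) x5601) x5925) x6105) x6081) x6093) x6085)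
    (Nat.add (Nat.add (Nat.add (Nat.add (Nat.add (Nat.add C (Nat.mul x6093 (nat_lit 2))) x10467) x5607) x5931) x6111) x6087)
    (Nat.add (Nat.add (Nat.add (Nat.add (Nat.add (Nat.add (Nat.add (Nat.add C (Nat.mul x6103 (nat_lit 2))) x10477) x5617) x5941) x6157) x6085) x6105) x25785)
    (Nat.add (Nat.add (Nat.add (Nat.add (Nat.add (Nat.add (Nat.add (Nat.add C (Nat.mul x6105 (nat_lit 2))) x10479) x5619) x5943) x6159) x6087) x6111) x6103)
    (Nat.add (Nat.add (Nat.add (Nat.add (Nat.add (Nat.add (Nat.add (Nat.add C (Nat.mul x6111 (nat_lit 3))) x10485) x5625) x5949) x6165) x6093) x6129) x6105)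
    (Nat.add (Nat.add (Nat.add (Nat.add (Nat.add (Nat.add C (Nat.mul x6129 (nat_lit 2))) x10503) x5643) x5967) x6183) x6111)
    (Nat.add (Nat.add (Nat.add (Nat.add (Nat.add (Nat.add (Nat.add (Nat.add C (Nat.mul x6157 (nat_lit 3))) x10531) x5671) x5995) x6319) x6103) x6159) x25839)
    (Nat.add (Nat.add (Nat.add (Nat.add (Nat.add (Nat.add (Nat.add (Nat.add C (Nat.mul x6159 (nat_lit 3))) x10533) x5673) x5997) x6321) x6105) x6165) x6157)
    (Nat.add (Nat.add (Nat.add (Nat.add (Nat.add (Nat.add (Nat.add (Nat.add C (Nat.mul x6165 (nat_lit 3))) x10539) x5679) x6003) x6327) x6111) x6183) x6159)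
    (Nat.add (Nat.add (Nat.add (Nat.add (Nat.add (Nat.add (Nat.add (Nat.add C (Nat.mul x6183 (nat_lit 4))) x10557) x5697) x6021) x6345) x6129) x6237) x6165)
    (Nat.add (Nat.add (Nat.add (Nat.add (Nat.add C (Nat.mul x6237 (nat_lit 4))) x10611) x5751) x6399) x6183)
    (Nat.add (Nat.add (Nat.add (Nat.add (Nat.add C (Nat.mul x6319 (nat_lit 4))) x10693) x6157) x6321) x26001)
    (Nat.add (Nat.add (Nat.add (Nat.add (Nat.add C (Nat.mul x6321 (nat_lit 4))) x10695) x6159) x6327) x6319)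
    (Nat.add (Nat.add (Nat.add (Nat.add (Nat.add C (Nat.mul x6327 (nat_lit 4))) x10701) x6165) x6345) x6321)
    (Nat.add (Nat.add (Nat.add (Nat.add (Nat.add C (Nat.mul x6345 (nat_lit 4))) x10719) x6183) x6399) x6327)
    (Nat.add (Nat.add (Nat.add (Nat.add C (Nat.mul x6399 (nat_lit 6))) x10773) x6237) x6345)
    (Nat.add (Nat.add (Nat.add (Nat.add (Nat.add C (Nat.mul x6587 (nat_lit 4))) x19709) x2213) x6605) x26269)
    (Nat.add (Nat.add (Nat.add (Nat.add (Nat.add (Nat.add (Nat.add (Nat.add C (Nat.mul x6605 (nat_lit 3))) x19727) x2231) x6659) x6587) x6623) x6611) x26287)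
    (Nat.add (Nat.add (Nat.add (Nat.add (Nat.add (Nat.add (Nat.add (Nat.add C (Nat.mul x6611 (nat_lit 2))) x19733) x2237) x6665) x6629) x6605) x6613) x26293)
    (Nat.add (Nat.add (Nat.add (Nat.add (Nat.add (Nat.add (Nat.add C (Nat.mul x6613 (nat_lit 4))) x19735) x2239) x6667) x6631) x6611) x26295)
    (Nat.add (Nat.add (Nat.add (Nat.add (Nat.add (Nat.add C x19745) x2249) x6677) x6605) x6629) x26305)
    (Nat.add (Nat.add (Nat.add (Nat.add (Nat.add (Nat.add (Nat.add (Nat.add (Nat.add C x6629) x19751) x2255) x6683) x6611) x6623) x6635) x6631) x26311)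
    (Nat.add (Nat.add (Nat.add (Nat.add (Nat.add (Nat.add (Nat.add (Nat.add C (Nat.mul x6631 (nat_lit 2))) x19753) x2257) x6685) x6613) x6637) x6629) x26313)
    (Nat.add (Nat.add (Nat.add (Nat.add (Nat.add (Nat.add C x19757) x2261) x6689) x6629) x6637) x26317)
    (Nat.add (Nat.add (Nat.add (Nat.add (Nat.add (Nat.add (Nat.add (Nat.add C (Nat.mul x6637 (nat_lit 3))) x19759) x2263) x6691) x6631) x6635) x6639) x26319)
    (Nat.add (Nat.add (Nat.add (Nat.add (Nat.add C (Nat.mul x6639 (nat_lit 4))) x19761) x2265) x6693) x6637)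
    (Nat.add (Nat.add (Nat.add (Nat.add (Nat.add (Nat.add (Nat.add (Nat.add C (Nat.mul x6659 (nat_lit 2))) x19781) x2285) x6821) x6605) x6677) x6665) x26341)
    (Nat.add (Nat.add (Nat.add (Nat.add (Nat.add (Nat.add (Nat.add (Nat.add C x19787) x2291) x6827) x6611) x6683) x6659) x6667) x26347)
    (Nat.add (Nat.add (Nat.add (Nat.add (Nat.add (Nat.add (Nat.add (Nat.add C (Nat.mul x6667 (nat_lit 2))) x19789) x2293) x6829) x6613) x6685) x6665) x26349)
    (Nat.add (Nat.add (Nat.add (Nat.add (Nat.add (Nat.add (Nat.add (Nat.add (Nat.add C x6677) x19799) x2303) x6839) x6623) x6731) x6659) x6683) x26359)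
    (Nat.add (Nat.add (Nat.add (Nat.add (Nat.add (Nat.add (Nat.add (Nat.add (Nat.add (Nat.add (Nat.add (Nat.add C x6683) x19805) x2309) x6845) x6629) x6737) x6665) x6701) x6677) x6689) x6685) x26365)
    (Nat.add (Nat.add (Nat.add (Nat.add (Nat.add (Nat.add (Nat.add (Nat.add (Nat.add (Nat.add (Nat.add C (Nat.mul x6685 (nat_lit 2))) x19807) x2311) x6847) x6631) x6739) x6667) x6703) x6691) x6683) x26367)
    (Nat.sub (Nat.add (Nat.add (Nat.add (Nat.add (Nat.add (Nat.add (Nat.add (Nat.add (Nat.add C x19811) x2315) x6851) x6635) x6743) x6707) x6683) x6691) x26371) x6689)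
    (Nat.add (Nat.add (Nat.add (Nat.add (Nat.add (Nat.add (Nat.add (Nat.add (Nat.add (Nat.add (Nat.add C (Nat.mul x6691 (nat_lit 2))) x19813) x2317) x6853) x6637) x6745) x6709) x6685) x6689) x6693) x26373)
    (Nat.add (Nat.add (Nat.add (Nat.add (Nat.add (Nat.add (Nat.add (Nat.add C (Nat.mul x6693 (nat_lit 3))) x19815) x2319) x6855) x6639) x6747) x6711) x6691)
    (Nat.add (Nat.add (Nat.add (Nat.add (Nat.add (Nat.add (Nat.add (Nat.add C x19823) x2327) x6863) x6755) x6683) x6707) x6703) x26383)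
    (Nat.add (Nat.add (Nat.add (Nat.add (Nat.add (Nat.add (Nat.add (Nat.add C x19825) x2329) x6865) x6757) x6685) x6709) x6701) x26385)
    (Nat.add (Nat.add (Nat.add (Nat.add (Nat.add (Nat.add (Nat.add (Nat.add C x19829) x2333) x6869) x6761) x6689) x6701) x6709) x26389)
    (Nat.add (Nat.add (Nat.add (Nat.add (Nat.add (Nat.add (Nat.add (Nat.add (Nat.add (Nat.add (Nat.add C (Nat.mul x6709 (nat_lit 2))) x19831) x2335) x6871) x6763) x6691) x6703) x6715) x6707) x6711) x26391)
    (Nat.add (Nat.add (Nat.add (Nat.add (Nat.add (Nat.add (Nat.add (Nat.add C (Nat.mul x6711 (nat_lit 2))) x19833) x2337) x6873) x6765) x6693) x6717) x6709)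
    (Nat.add (Nat.add (Nat.add (Nat.add (Nat.add (Nat.add (Nat.add (Nat.add C (Nat.mul x6715 (nat_lit 2))) x19837) x2341) x6877) x6769) x6709) x6717) x26397)
    (Nat.add (Nat.add (Nat.add (Nat.add (Nat.add (Nat.add (Nat.add C (Nat.mul x6717 (nat_lit 4))) x19839) x2343) x6879) x6771) x6711) x6715)
    (Nat.add (Nat.add (Nat.add (Nat.add (Nat.add (Nat.add C x19853) x2357) x6893) x6677) x6737) x26413)
    (Nat.sub (Nat.add (Nat.add (Nat.add (Nat.add (Nat.add (Nat.add (Nat.add (Nat.add (Nat.add C x19859) x2363) x6899) x6683) x6755) x6731) x6743) x6739) x26419) x6737)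
    (Nat.add (Nat.add (Nat.add (Nat.add (Nat.add (Nat.add (Nat.add (Nat.add C x19861) x2365) x6901) x6685) x6757) x6745) x6737) x26421)
    (Nat.sub (Nat.add (Nat.add (Nat.add (Nat.add (Nat.add (Nat.add (Nat.add (Nat.add C x19865) x2369) x6905) x6689) x6761) x6737) x6745) x26425) (Nat.mul x6743 (nat_lit 4)))
    (Nat.sub (Nat.add (Nat.add (Nat.add (Nat.add (Nat.add (Nat.add (Nat.add (Nat.add (Nat.add C x19867) x2371) x6907) x6691) x6763) x6739) x6743) x6747) x26427) x6745)
    (Nat.add (Nat.add (Nat.add (Nat.add (Nat.add (Nat.add C x19869) x2373) x6909) x6693) x6765) x6745)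
    (Nat.add (Nat.add (Nat.add (Nat.add (Nat.add (Nat.add (Nat.add (Nat.add C x19877) x2381) x6917) x6701) x6737) x6761) x6757) x26437)
    (Nat.add (Nat.add (Nat.add (Nat.add (Nat.add (Nat.add (Nat.add (Nat.add C x19879) x2383) x6919) x6703) x6739) x6763) x6755) x26439)
    (Nat.sub (Nat.add (Nat.add (Nat.add (Nat.add (Nat.add (Nat.add (Nat.add (Nat.add (Nat.add C x19883) x2387) x6923) x6707) x6743) x6779) x6755) x6763) x26443) x6761)
    (Nat.add (Nat.add (Nat.add (Nat.add (Nat.add (Nat.add (Nat.add (Nat.add (Nat.add (Nat.add (Nat.add (Nat.add C x6763) x19885) x2389) x6925) x6709) x6745) x6781) x6757) x6769) x6761) x6765) x26445)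
    (Nat.add (Nat.add (Nat.add (Nat.add (Nat.add (Nat.add (Nat.add (Nat.add (Nat.add C x6765) x19887) x2391) x6927) x6711) x6747) x6783) x6771) x6763)
    (Nat.add (Nat.add (Nat.add (Nat.add (Nat.add (Nat.add (Nat.add (Nat.add C x19891) x2395) x6931) x6715) x6787) x6763) x6771) x26451)
    (Nat.add (Nat.add (Nat.add (Nat.add (Nat.add (Nat.add (Nat.add (Nat.add C (Nat.mul x6771 (nat_lit 2))) x19893) x2397) x6933) x6717) x6789) x6765) x6769)
    (Nat.add (Nat.add (Nat.add (Nat.add (Nat.add (Nat.add C x19901) x2405) x6941) x6761) x6781) x26461)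
    (Nat.add (Nat.add (Nat.add (Nat.add (Nat.add (Nat.add (Nat.add (Nat.add (Nat.add C x6781) x19903) x2407) x6943) x6763) x6787) x6779) x6783) x26463)
    (Nat.add (Nat.add (Nat.add (Nat.add (Nat.add (Nat.add C x19905) x2409) x6945) x6765) x6789) x6781)
    (Nat.add (Nat.add (Nat.add (Nat.add (Nat.add (Nat.add (Nat.add (Nat.add C (Nat.mul x6787 (nat_lit 2))) x19909) x2413) x6949) x6769) x6781) x6789) x26469)
    (Nat.add (Nat.add (Nat.add (Nat.add (Nat.add (Nat.add (Nat.add (Nat.add C (Nat.mul x6789 (nat_lit 3))) x19911) x2415) x6951) x6771) x6783) x6795) x6787)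
    (Nat.add (Nat.add (Nat.add (Nat.add (Nat.add C (Nat.mul x6795 (nat_lit 4))) x19917) x2421) x6957) x6789)
    (Nat.add (Nat.add (Nat.add (Nat.add (Nat.add (Nat.add (Nat.add (Nat.add C (Nat.mul x6821 (nat_lit 2))) x19943) x2447) x7307) x6659) x6839) x6827) x26503)
    (Nat.add (Nat.add (Nat.add (Nat.add (Nat.add (Nat.add (Nat.add (Nat.add C x19949) x2453) x7313) x6665) x6845) x6821) x6829) x26509)
    (Nat.add (Nat.add (Nat.add (Nat.add (Nat.add (Nat.add (Nat.add (Nat.add C (Nat.mul x6829 (nat_lit 2))) x19951) x2455) x7315) x6667) x6847) x6827) x26511)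
    (Nat.add (Nat.add (Nat.add (Nat.add (Nat.add (Nat.add (Nat.add (Nat.add C x19961) x2465) x7325) x6677) x6893) x6821) x6845) x26521)
    (Nat.add (Nat.add (Nat.add (Nat.add (Nat.add (Nat.add (Nat.add (Nat.add (Nat.add (Nat.add (Nat.add C x19967) x2471) x7331) x6683) x6899) x6827) x6863) x6839) x6851) x6847) x26527)
    (Nat.add (Nat.add (Nat.add (Nat.add (Nat.add (Nat.add (Nat.add (Nat.add (Nat.add (Nat.add (Nat.add C x6847) x19969) x2473) x7333) x6685) x6901) x6829) x6865) x6853) x6845) x26529)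
    (Nat.sub (Nat.add (Nat.add (Nat.add (Nat.add (Nat.add (Nat.add (Nat.add (Nat.add (Nat.add C x19973) x2477) x7337) x6689) x6905) x6869) x6845) x6853) x26533) (Nat.mul x6851 (nat_lit 2)))
    (Nat.add (Nat.add (Nat.add (Nat.add (Nat.add (Nat.add (Nat.add (Nat.add (Nat.add (Nat.add (Nat.add C x6853) x19975) x2479) x7339) x6691) x6907) x6871) x6847) x6851) x6855) x26535)
    (Nat.add (Nat.add (Nat.add (Nat.add (Nat.add (Nat.add (Nat.add (Nat.add C (Nat.mul x6855 (nat_lit 2))) x19977) x2481) x7341) x6693) x6909) x6873) x6853)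
    (Nat.sub (Nat.add (Nat.add (Nat.add (Nat.add (Nat.add (Nat.add (Nat.add (Nat.add (Nat.add C x19985) x2489) x7349) x6701) x6917) x6845) x6869) x6865) x26545) (Nat.mul x6863 (nat_lit 2)))
    (Nat.sub (Nat.add (Nat.add (Nat.add (Nat.add (Nat.add (Nat.add (Nat.add (Nat.add (Nat.add C x19987) x2491) x7351) x6703) x6919) x6847) x6871) x6863) x26547) (Nat.mul x6865 (nat_lit 2)))
    (Nat.sub (Nat.add (Nat.add (Nat.add (Nat.add (Nat.add (Nat.add (Nat.add (Nat.add (Nat.add C x19991) x2495) x7355) x6707) x6923) x6851) x6863) x6871) x26551) (Nat.mul x6869 (nat_lit 2)))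
    (Nat.add (Nat.add (Nat.add (Nat.add (Nat.add (Nat.add (Nat.add (Nat.add (Nat.add (Nat.add (Nat.add C x19993) x2497) x7357) x6709) x6925) x6853) x6865) x6877) x6869) x6873) x26553)
    (Nat.add (Nat.add (Nat.add (Nat.add (Nat.add (Nat.add (Nat.add (Nat.add C x19995) x2499) x7359) x6711) x6927) x6855) x6879) x6871)
    (Nat.add (Nat.add (Nat.add (Nat.add (Nat.add (Nat.add (Nat.add (Nat.add C x19999) x2503) x7363) x6715) x6931) x6871) x6879) x26559)
    (Nat.add (Nat.add (Nat.add (Nat.add (Nat.add (Nat.add (Nat.add (Nat.add C (Nat.mul x6879 (nat_lit 2))) x20001) x2505) x7365) x6717) x6933) x6873) x6877)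
    (Nat.add (Nat.add (Nat.add (Nat.add (Nat.add (Nat.add (Nat.add (Nat.add (Nat.add C x6893) x20015) x2519) x7379) x6731) x7055) x6839) x6899) x26575)
    (Nat.add (Nat.add (Nat.add (Nat.add (Nat.add (Nat.add (Nat.add (Nat.add (Nat.add (Nat.add (Nat.add C x20021) x2525) x7385) x6737) x7061) x6845) x6917) x6893) x6905) x6901) x26581)
    (Nat.add (Nat.add (Nat.add (Nat.add (Nat.add (Nat.add (Nat.add (Nat.add (Nat.add (Nat.add (Nat.add C x6901) x20023) x2527) x7387) x6739) x7063) x6847) x6919) x6907) x6899) x26583)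
    (Nat.sub (Nat.add (Nat.add (Nat.add (Nat.add (Nat.add (Nat.add (Nat.add (Nat.add (Nat.add (Nat.add C x20027) x2531) x7391) x6743) x7067) x6851) x6923) x6899) x6907) x26587) (Nat.mul x6905 (nat_lit 3)))
    (Nat.add (Nat.add (Nat.add (Nat.add (Nat.add (Nat.add (Nat.add (Nat.add (Nat.add (Nat.add (Nat.add C x20029) x2533) x7393) x6745) x7069) x6853) x6925) x6901) x6905) x6909) x26589)
    (Nat.add (Nat.add (Nat.add (Nat.add (Nat.add (Nat.add (Nat.add (Nat.add (Nat.add C x6909) x20031) x2535) x7395) x6747) x7071) x6855) x6927) x6907)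
    (Nat.add (Nat.add (Nat.add (Nat.add (Nat.add (Nat.add (Nat.add (Nat.add (Nat.add (Nat.add (Nat.add C x20039) x2543) x7403) x6755) x7079) x6863) x6971) x6899) x6923) x6919) x26599)
    (Nat.add (Nat.add (Nat.add (Nat.add (Nat.add (Nat.add (Nat.add (Nat.add (Nat.add (Nat.add (Nat.add C x20041) x2545) x7405) x6757) x7081) x6865) x6973) x6901) x6925) x6917) x26601)
    (Nat.sub (Nat.add (Nat.add (Nat.add (Nat.add (Nat.add (Nat.add (Nat.add (Nat.add (Nat.add (Nat.add (Nat.add (Nat.add C x20045) x2549) x7409) x6761) x7085) x6869) x6977) x6905) x6941) x6917) x6925) x26605) x6923)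
    (Nat.add (Nat.add (Nat.add (Nat.add (Nat.add (Nat.add (Nat.add (Nat.add (Nat.add (Nat.add (Nat.add (Nat.add (Nat.add (Nat.add (Nat.add C x6925) x20047) x2551) x7411) x6763) x7087) x6871) x6979) x6907) x6943) x6919) x6931) x6923) x6927) x26607)
    (Nat.add (Nat.add (Nat.add (Nat.add (Nat.add (Nat.add (Nat.add (Nat.add (Nat.add (Nat.add (Nat.add (Nat.add C x6927) x20049) x2553) x7413) x6765) x7089) x6873) x6981) x6909) x6945) x6933) x6925)
    (Nat.add (Nat.add (Nat.add (Nat.add (Nat.add (Nat.add (Nat.add (Nat.add (Nat.add (Nat.add (Nat.add C x20053) x2557) x7417) x6769) x7093) x6877) x6985) x6949) x6925) x6933) x26613)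
    (Nat.add (Nat.add (Nat.add (Nat.add (Nat.add (Nat.add (Nat.add (Nat.add (Nat.add (Nat.add (Nat.add C (Nat.mul x6933 (nat_lit 2))) x20055) x2559) x7419) x6771) x7095) x6879) x6987) x6951) x6927) x6931)
    (Nat.sub (Nat.add (Nat.add (Nat.add (Nat.add (Nat.add (Nat.add (Nat.add (Nat.add (Nat.add C x20063) x2567) x7427) x6779) x7103) x6995) x6923) x6943) x26623) x6941)
    (Nat.add (Nat.add (Nat.add (Nat.add (Nat.add (Nat.add (Nat.add (Nat.add (Nat.add (Nat.add (Nat.add C x20065) x2569) x7429) x6781) x7105) x6997) x6925) x6949) x6941) x6945) x26625)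
    (Nat.sub (Nat.add (Nat.add (Nat.add (Nat.add (Nat.add (Nat.add (Nat.add (Nat.add (Nat.add C x20067) x2571) x7431) x6783) x7107) x6999) x6927) x6951) x6943) x6945)
    (Nat.add (Nat.add (Nat.add (Nat.add (Nat.add (Nat.add (Nat.add (Nat.add (Nat.add (Nat.add (Nat.add C x6949) x20071) x2575) x7435) x6787) x7111) x7003) x6931) x6943) x6951) x26631)
    (Nat.add (Nat.add (Nat.add (Nat.add (Nat.add (Nat.add (Nat.add (Nat.add (Nat.add (Nat.add (Nat.add C (Nat.mul x6951 (nat_lit 2))) x20073) x2577) x7437) x6789) x7113) x7005) x6933) x6945) x6957) x6949)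
    (Nat.add (Nat.add (Nat.add (Nat.add (Nat.add (Nat.add (Nat.add (Nat.add C (Nat.mul x6957 (nat_lit 3))) x20079) x2583) x7443) x6795) x7119) x7011) x6951)
    (Nat.add (Nat.add (Nat.add (Nat.add (Nat.add (Nat.add (Nat.add (Nat.add C x20093) x2597) x7457) x7133) x6917) x6977) x6973) x26653)
    (Nat.add (Nat.add (Nat.add (Nat.add (Nat.add (Nat.add (Nat.add (Nat.add C x20095) x2599) x7459) x7135) x6919) x6979) x6971) x26655)
    (Nat.sub (Nat.add (Nat.add (Nat.add (Nat.add (Nat.add (Nat.add (Nat.add (Nat.add (Nat.add C x20099) x2603) x7463) x7139) x6923) x6995) x6971) x6979) x26659) (Nat.mul x6977 (nat_lit 2)))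
    (Nat.add (Nat.add (Nat.add (Nat.add (Nat.add (Nat.add (Nat.add (Nat.add (Nat.add (Nat.add (Nat.add C x20101) x2605) x7465) x7141) x6925) x6997) x6973) x6985) x6977) x6981) x26661)
    (Nat.add (Nat.add (Nat.add (Nat.add (Nat.add (Nat.add (Nat.add (Nat.add C x20103) x2607) x7467) x7143) x6927) x6999) x6987) x6979)
    (Nat.sub (Nat.add (Nat.add (Nat.add (Nat.add (Nat.add (Nat.add (Nat.add (Nat.add (Nat.add C x20107) x2611) x7471) x7147) x6931) x7003) x6979) x6987) x26667) (Nat.mul x6985 (nat_lit 2)))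
    (Nat.add (Nat.add (Nat.add (Nat.add (Nat.add (Nat.add (Nat.add (Nat.add C x20109) x2613) x7473) x7149) x6933) x7005) x6981) x6985)
    (Nat.add (Nat.add (Nat.add (Nat.add (Nat.add (Nat.add (Nat.add (Nat.add C x20117) x2621) x7481) x7157) x6941) x6977) x6997) x26677)
    (Nat.add (Nat.add (Nat.add (Nat.add (Nat.add (Nat.add (Nat.add (Nat.add (Nat.add (Nat.add (Nat.add C x6997) x20119) x2623) x7483) x7159) x6943) x6979) x7003) x6995) x6999) x26679)
    (Nat.add (Nat.add (Nat.add (Nat.add (Nat.add (Nat.add (Nat.add (Nat.add C x20121) x2625) x7485) x7161) x6945) x6981) x7005) x6997)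
    (Nat.add (Nat.add (Nat.add (Nat.add (Nat.add (Nat.add (Nat.add (Nat.add (Nat.add (Nat.add (Nat.add C x7003) x20125) x2629) x7489) x7165) x6949) x6985) x7021) x6997) x7005) x26685)
    (Nat.add (Nat.add (Nat.add (Nat.add (Nat.add (Nat.add (Nat.add (Nat.add (Nat.add (Nat.add (Nat.add C (Nat.mul x7005 (nat_lit 2))) x20127) x2631) x7491) x7167) x6951) x6987) x7023) x6999) x7011) x7003)
    (Nat.add (Nat.add (Nat.add (Nat.add (Nat.add (Nat.add (Nat.add (Nat.add C (Nat.mul x7011 (nat_lit 2))) x20133) x2637) x7497) x7173) x6957) x7029) x7005)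
    (Nat.add (Nat.add (Nat.add (Nat.add (Nat.add (Nat.add (Nat.add (Nat.add C (Nat.mul x7021 (nat_lit 2))) x20143) x2647) x7507) x7183) x7003) x7023) x26703)
    (Nat.add (Nat.add (Nat.add (Nat.add (Nat.add (Nat.add (Nat.add (Nat.add C (Nat.mul x7023 (nat_lit 2))) x20145) x2649) x7509) x7185) x7005) x7029) x7021)
    (Nat.add (Nat.add (Nat.add (Nat.add (Nat.add (Nat.add (Nat.add C (Nat.mul x7029 (nat_lit 4))) x20151) x2655) x7515) x7191) x7011) x7023)
    (Nat.add (Nat.add (Nat.add (Nat.add (Nat.add (Nat.add C x20177) x2681) x7541) x6893) x7061) x26737)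
    (Nat.sub (Nat.add (Nat.add (Nat.add (Nat.add (Nat.add (Nat.add (Nat.add (Nat.add (Nat.add C x20183) x2687) x7547) x6899) x7079) x7055) x7067) x7063) x26743) x7061)
    (Nat.add (Nat.add (Nat.add (Nat.add (Nat.add (Nat.add (Nat.add (Nat.add C x20185) x2689) x7549) x6901) x7081) x7069) x7061) x26745)
    (Nat.sub (Nat.add (Nat.add (Nat.add (Nat.add (Nat.add (Nat.add (Nat.add (Nat.add C x20189) x2693) x7553) x6905) x7085) x7061) x7069) x26749) (Nat.mul x7067 (nat_lit 4)))
    (Nat.sub (Nat.add (Nat.add (Nat.add (Nat.add (Nat.add (Nat.add (Nat.add (Nat.add (Nat.add C x20191) x2695) x7555) x6907) x7087) x7063) x7067) x7071) x26751) x7069)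
    (Nat.add (Nat.add (Nat.add (Nat.add (Nat.add (Nat.add C x20193) x2697) x7557) x6909) x7089) x7069)
    (Nat.sub (Nat.add (Nat.add (Nat.add (Nat.add (Nat.add (Nat.add (Nat.add (Nat.add (Nat.add C x20201) x2705) x7565) x6917) x7133) x7061) x7085) x7081) x26761) (Nat.mul x7079 (nat_lit 2)))
    (Nat.sub (Nat.add (Nat.add (Nat.add (Nat.add (Nat.add (Nat.add (Nat.add (Nat.add (Nat.add C x20203) x2707) x7567) x6919) x7135) x7063) x7087) x7079) x26763) (Nat.mul x7081 (nat_lit 2)))
    (Nat.sub (Nat.add (Nat.add (Nat.add (Nat.add (Nat.add (Nat.add (Nat.add (Nat.add (Nat.add (Nat.add C x20207) x2711) x7571) x6923) x7139) x7067) x7103) x7079) x7087) x26767) (Nat.mul x7085 (nat_lit 3)))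
    (Nat.sub (Nat.add (Nat.add (Nat.add (Nat.add (Nat.add (Nat.add (Nat.add (Nat.add (Nat.add (Nat.add (Nat.add (Nat.add C x20209) x2713) x7573) x6925) x7141) x7069) x7105) x7081) x7093) x7085) x7089) x26769) x7087)
    (Nat.sub (Nat.add (Nat.add (Nat.add (Nat.add (Nat.add (Nat.add (Nat.add (Nat.add (Nat.add C x20211) x2715) x7575) x6927) x7143) x7071) x7107) x7095) x7087) x7089)
    (Nat.sub (Nat.add (Nat.add (Nat.add (Nat.add (Nat.add (Nat.add (Nat.add (Nat.add (Nat.add C x20215) x2719) x7579) x6931) x7147) x7111) x7087) x7095) x26775) (Nat.mul x7093 (nat_lit 2)))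
    (Nat.add (Nat.add (Nat.add (Nat.add (Nat.add (Nat.add (Nat.add (Nat.add C x20217) x2721) x7581) x6933) x7149) x7113) x7089) x7093)
    (Nat.sub (Nat.add (Nat.add (Nat.add (Nat.add (Nat.add (Nat.add (Nat.add (Nat.add C x20225) x2729) x7589) x6941) x7157) x7085) x7105) x26785) (Nat.mul x7103 (nat_lit 4)))
    (Nat.sub (Nat.add (Nat.add (Nat.add (Nat.add (Nat.add (Nat.add (Nat.add (Nat.add (Nat.add (Nat.add C x20227) x2731) x7591) x6943) x7159) x7087) x7111) x7103) x7107) x26787) (Nat.mul x7105 (nat_lit 3)))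
    (Nat.sub (Nat.add (Nat.add (Nat.add (Nat.add (Nat.add (Nat.add (Nat.add (Nat.add C x20229) x2733) x7593) x6945) x7161) x7089) x7113) x7105) (Nat.mul x7107 (nat_lit 4)))
    (Nat.sub (Nat.add (Nat.add (Nat.add (Nat.add (Nat.add (Nat.add (Nat.add (Nat.add (Nat.add C x20233) x2737) x7597) x6949) x7165) x7093) x7105) x7113) x26793) (Nat.mul x7111 (nat_lit 2)))
    (Nat.sub (Nat.add (Nat.add (Nat.add (Nat.add (Nat.add (Nat.add (Nat.add (Nat.add (Nat.add C x20235) x2739) x7599) x6951) x7167) x7095) x7107) x7119) x7111) x7113)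
    (Nat.add (Nat.add (Nat.add (Nat.add (Nat.add (Nat.add C x20241) x2745) x7605) x6957) x7173) x7113)
    (Nat.add (Nat.add (Nat.add (Nat.add (Nat.add (Nat.add (Nat.add (Nat.add C x20255) x2759) x7619) x6971) x7079) x7139) x7135) x26815)
    (Nat.add (Nat.add (Nat.add (Nat.add (Nat.add (Nat.add (Nat.add (Nat.add C x20257) x2761) x7621) x6973) x7081) x7141) x7133) x26817)
    (Nat.sub (Nat.add (Nat.add (Nat.add (Nat.add (Nat.add (Nat.add (Nat.add (Nat.add (Nat.add C x20261) x2765) x7625) x6977) x7085) x7157) x7133) x7141) x26821) (Nat.mul x7139 (nat_lit 2)))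
    (Nat.add (Nat.add (Nat.add (Nat.add (Nat.add (Nat.add (Nat.add (Nat.add (Nat.add (Nat.add (Nat.add C x20263) x2767) x7627) x6979) x7087) x7159) x7135) x7147) x7139) x7143) x26823)
    (Nat.add (Nat.add (Nat.add (Nat.add (Nat.add (Nat.add (Nat.add (Nat.add C x20265) x2769) x7629) x6981) x7089) x7161) x7149) x7141)
    (Nat.sub (Nat.add (Nat.add (Nat.add (Nat.add (Nat.add (Nat.add (Nat.add (Nat.add (Nat.add C x20269) x2773) x7633) x6985) x7093) x7165) x7141) x7149) x26829) (Nat.mul x7147 (nat_lit 2)))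
    (Nat.add (Nat.add (Nat.add (Nat.add (Nat.add (Nat.add (Nat.add (Nat.add C x20271) x2775) x7635) x6987) x7095) x7167) x7143) x7147)
    (Nat.sub (Nat.add (Nat.add (Nat.add (Nat.add (Nat.add (Nat.add (Nat.add (Nat.add (Nat.add C x20279) x2783) x7643) x6995) x7103) x7211) x7139) x7159) x26839) x7157)
    (Nat.add (Nat.add (Nat.add (Nat.add (Nat.add (Nat.add (Nat.add (Nat.add (Nat.add (Nat.add (Nat.add C x20281) x2785) x7645) x6997) x7105) x7213) x7141) x7165) x7157) x7161) x26841)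
    (Nat.sub (Nat.add (Nat.add (Nat.add (Nat.add (Nat.add (Nat.add (Nat.add (Nat.add (Nat.add C x20283) x2787) x7647) x6999) x7107) x7215) x7143) x7167) x7159) x7161)
    (Nat.add (Nat.add (Nat.add (Nat.add (Nat.add (Nat.add (Nat.add (Nat.add (Nat.add (Nat.add (Nat.add C x20287) x2791) x7651) x7003) x7111) x7219) x7147) x7183) x7159) x7167) x26847)
    (Nat.add (Nat.add (Nat.add (Nat.add (Nat.add (Nat.add (Nat.add (Nat.add (Nat.add (Nat.add (Nat.add (Nat.add C x7167) x20289) x2793) x7653) x7005) x7113) x7221) x7149) x7185) x7161) x7173) x7165)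
    (Nat.add (Nat.add (Nat.add (Nat.add (Nat.add (Nat.add (Nat.add (Nat.add (Nat.add C x7173) x20295) x2799) x7659) x7011) x7119) x7227) x7191) x7167)
    (Nat.add (Nat.add (Nat.add (Nat.add (Nat.add (Nat.add (Nat.add (Nat.add C x20305) x2809) x7669) x7021) x7237) x7165) x7185) x26865)
    (Nat.add (Nat.add (Nat.add (Nat.add (Nat.add (Nat.add (Nat.add (Nat.add C x20307) x2811) x7671) x7023) x7239) x7167) x7191) x7183)
    (Nat.add (Nat.add (Nat.add (Nat.add (Nat.add (Nat.add (Nat.add (Nat.add C (Nat.mul x7191 (nat_lit 2))) x20313) x2817) x7677) x7029) x7245) x7173) x7185)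
    (Nat.add (Nat.add (Nat.add (Nat.add (Nat.add (Nat.add C x20333) x2837) x7697) x7157) x7213) x26893)
    (Nat.add (Nat.add (Nat.add (Nat.add (Nat.add (Nat.add (Nat.add (Nat.add (Nat.add C x7213) x20335) x2839) x7699) x7159) x7219) x7211) x7215) x26895)
    (Nat.add (Nat.add (Nat.add (Nat.add (Nat.add (Nat.add C x20337) x2841) x7701) x7161) x7221) x7213)
    (Nat.add (Nat.add (Nat.add (Nat.add (Nat.add (Nat.add (Nat.add (Nat.add C x20341) x2845) x7705) x7165) x7237) x7213) x7221) x26901)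
    (Nat.add (Nat.add (Nat.add (Nat.add (Nat.add (Nat.add (Nat.add (Nat.add (Nat.add C x7221) x20343) x2847) x7707) x7167) x7239) x7215) x7227) x7219)
    (Nat.add (Nat.add (Nat.add (Nat.add (Nat.add (Nat.add C x20349) x2853) x7713) x7173) x7245) x7221)
    (Nat.add (Nat.add (Nat.add (Nat.add (Nat.add (Nat.add (Nat.add (Nat.add C (Nat.mul x7237 (nat_lit 2))) x20359) x2863) x7723) x7183) x7219) x7239) x26919)
    (Nat.add (Nat.add (Nat.add (Nat.add (Nat.add (Nat.add (Nat.add (Nat.add C (Nat.mul x7239 (nat_lit 2))) x20361) x2865) x7725) x7185) x7221) x7245) x7237)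
    (Nat.add (Nat.add (Nat.add (Nat.add (Nat.add (Nat.add (Nat.add (Nat.add C (Nat.mul x7245 (nat_lit 3))) x20367) x2871) x7731) x7191) x7227) x7263) x7239)
    (Nat.add (Nat.add (Nat.add (Nat.add (Nat.add C (Nat.mul x7263 (nat_lit 4))) x20385) x2889) x7749) x7245)
    (Nat.add (Nat.add (Nat.add (Nat.add (Nat.add (Nat.add (Nat.add (Nat.add C (Nat.mul x7307 (nat_lit 2))) x20429) x2933) x8765) x6821) x7325) x7313) x26989)
    (Nat.add (Nat.add (Nat.add (Nat.add (Nat.add (Nat.add (Nat.add (Nat.add C x20435) x2939) x8771) x6827) x7331) x7307) x7315) x26995)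
    (Nat.add (Nat.add (Nat.add (Nat.add (Nat.add (Nat.add (Nat.add (Nat.add C (Nat.mul x7315 (nat_lit 2))) x20437) x2941) x8773) x6829) x7333) x7313) x26997)
    (Nat.add (Nat.add (Nat.add (Nat.add (Nat.add (Nat.add (Nat.add (Nat.add C x20447) x2951) x8783) x6839) x7379) x7307) x7331) x27007)
    (Nat.add (Nat.add (Nat.add (Nat.add (Nat.add (Nat.add (Nat.add (Nat.add (Nat.add (Nat.add (Nat.add C x20453) x2957) x8789) x6845) x7385) x7313) x7349) x7325) x7337) x7333) x27013)
    (Nat.add (Nat.add (Nat.add (Nat.add (Nat.add (Nat.add (Nat.add (Nat.add (Nat.add (Nat.add (Nat.add C x7333) x20455) x2959) x8791) x6847) x7387) x7315) x7351) x7339) x7331) x27015)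
    (Nat.sub (Nat.add (Nat.add (Nat.add (Nat.add (Nat.add (Nat.add (Nat.add (Nat.add (Nat.add C x20459) x2963) x8795) x6851) x7391) x7355) x7331) x7339) x27019) (Nat.mul x7337 (nat_lit 2)))
    (Nat.add (Nat.add (Nat.add (Nat.add (Nat.add (Nat.add (Nat.add (Nat.add (Nat.add (Nat.add (Nat.add C x7339) x20461) x2965) x8797) x6853) x7393) x7357) x7333) x7337) x7341) x27021)
    (Nat.add (Nat.add (Nat.add (Nat.add (Nat.add (Nat.add (Nat.add (Nat.add C (Nat.mul x7341 (nat_lit 2))) x20463) x2967) x8799) x6855) x7395) x7359) x7339)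
    (Nat.sub (Nat.add (Nat.add (Nat.add (Nat.add (Nat.add (Nat.add (Nat.add (Nat.add (Nat.add C x20471) x2975) x8807) x6863) x7403) x7331) x7355) x7351) x27031) (Nat.mul x7349 (nat_lit 2)))
    (Nat.sub (Nat.add (Nat.add (Nat.add (Nat.add (Nat.add (Nat.add (Nat.add (Nat.add (Nat.add C x20473) x2977) x8809) x6865) x7405) x7333) x7357) x7349) x27033) (Nat.mul x7351 (nat_lit 2)))
    (Nat.sub (Nat.add (Nat.add (Nat.add (Nat.add (Nat.add (Nat.add (Nat.add (Nat.add (Nat.add C x20477) x2981) x8813) x6869) x7409) x7337) x7349) x7357) x27037) (Nat.mul x7355 (nat_lit 2)))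
    (Nat.add (Nat.add (Nat.add (Nat.add (Nat.add (Nat.add (Nat.add (Nat.add (Nat.add (Nat.add (Nat.add C x20479) x2983) x8815) x6871) x7411) x7339) x7351) x7363) x7355) x7359) x27039)
    (Nat.add (Nat.add (Nat.add (Nat.add (Nat.add (Nat.add (Nat.add (Nat.add C x20481) x2985) x8817) x6873) x7413) x7341) x7365) x7357)
    (Nat.add (Nat.add (Nat.add (Nat.add (Nat.add (Nat.add (Nat.add (Nat.add C x20485) x2989) x8821) x6877) x7417) x7357) x7365) x27045)
    (Nat.add (Nat.add (Nat.add (Nat.add (Nat.add (Nat.add (Nat.add (Nat.add C (Nat.mul x7365 (nat_lit 2))) x20487) x2991) x8823) x6879) x7419) x7359) x7363)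
    (Nat.add (Nat.add (Nat.add (Nat.add (Nat.add (Nat.add (Nat.add (Nat.add C x20501) x3005) x8837) x6893) x7541) x7325) x7385) x27061)
    (Nat.sub (Nat.sub (Nat.add (Nat.add (Nat.add (Nat.add (Nat.add (Nat.add (Nat.add (Nat.add (Nat.add (Nat.add (Nat.add (Nat.add C x20507) x3011) x8843) x6899) x7547) x7331) x7403) x7379) x7391) x7387) x27067) (Nat.mul (e (nat_lit 7385)) ap)) x7385) (Nat.mul (e (nat_lit 7385)) an))
    (Nat.sub (Nat.add (Nat.add (Nat.add (Nat.add (Nat.add (Nat.add (Nat.add (Nat.add (Nat.add (Nat.add (Nat.add C x20509) x3013) x8845) x6901) x7549) x7333) x7405) x7393) x7385) x27069) (Nat.mul (e (nat_lit 7387)) ap)) (Nat.mul (e (nat_lit 7387)) an))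
    (Nat.sub (Nat.sub (Nat.add (Nat.add (Nat.add (Nat.add (Nat.add (Nat.add (Nat.add (Nat.add (Nat.add (Nat.add (Nat.add C x20513) x3017) x8849) x6905) x7553) x7337) x7409) x7385) x7393) x27073) (Nat.mul (e (nat_lit 7391)) ap)) (Nat.mul x7391 (nat_lit 4))) (Nat.mul (e (nat_lit 7391)) an))
    (Nat.sub (Nat.add (Nat.add (Nat.add (Nat.add (Nat.add (Nat.add (Nat.add (Nat.add (Nat.add (Nat.add (Nat.add C x20515) x3019) x8851) x6907) x7555) x7339) x7411) x7387) x7391) x7395) x27075) x7393)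
    (Nat.add (Nat.add (Nat.add (Nat.add (Nat.add (Nat.add (Nat.add (Nat.add C x20517) x3021) x8853) x6909) x7557) x7341) x7413) x7393)
    (Nat.sub (Nat.sub (Nat.add (Nat.add (Nat.add (Nat.add (Nat.add (Nat.add (Nat.add (Nat.add (Nat.add (Nat.add (Nat.add (Nat.add C x20525) x3029) x8861) x6917) x7565) x7349) x7457) x7385) x7409) x7405) x27085) (Nat.mul (e (nat_lit 7403)) ap)) x7403) (Nat.mul (e (nat_lit 7403)) an))
    (Nat.sub (Nat.sub (Nat.add (Nat.add (Nat.add (Nat.add (Nat.add (Nat.add (Nat.add (Nat.add (Nat.add (Nat.add (Nat.add (Nat.add C x20527) x3031) x8863) x6919) x7567) x7351) x7459) x7387) x7411) x7403) x27087) (Nat.mul (e (nat_lit 7405)) ap)) x7405) (Nat.mul (e (nat_lit 7405)) an))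
    (Nat.sub (Nat.sub (Nat.add (Nat.add (Nat.add (Nat.add (Nat.add (Nat.add (Nat.add (Nat.add (Nat.add (Nat.add (Nat.add (Nat.add (Nat.add C x20531) x3035) x8867) x6923) x7571) x7355) x7463) x7391) x7427) x7403) x7411) x27091) (Nat.mul (e (nat_lit 7409)) ap)) (Nat.mul x7409 (nat_lit 2))) (Nat.mul (e (nat_lit 7409)) an))
    (Nat.sub (Nat.add (Nat.add (Nat.add (Nat.add (Nat.add (Nat.add (Nat.add (Nat.add (Nat.add (Nat.add (Nat.add (Nat.add (Nat.add (Nat.add (Nat.add C x20533) x3037) x8869) x6925) x7573) x7357) x7465) x7393) x7429) x7405) x7417) x7409) x7413) x27093) (Nat.mul (e (nat_lit 7411)) ap)) (Nat.mul (e (nat_lit 7411)) an))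
    (Nat.add (Nat.add (Nat.add (Nat.add (Nat.add (Nat.add (Nat.add (Nat.add (Nat.add (Nat.add (Nat.add C x20535) x3039) x8871) x6927) x7575) x7359) x7467) x7395) x7431) x7419) x7411)
    (Nat.sub (Nat.add (Nat.add (Nat.add (Nat.add (Nat.add (Nat.add (Nat.add (Nat.add (Nat.add (Nat.add (Nat.add C x20539) x3043) x8875) x6931) x7579) x7363) x7471) x7435) x7411) x7419) x27099) x7417)
    (Nat.add (Nat.add (Nat.add (Nat.add (Nat.add (Nat.add (Nat.add (Nat.add (Nat.add (Nat.add (Nat.add C x7419) x20541) x3045) x8877) x6933) x7581) x7365) x7473) x7437) x7413) x7417)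
    (Nat.sub (Nat.add (Nat.add (Nat.add (Nat.add (Nat.add (Nat.add (Nat.add (Nat.add (Nat.add C x20549) x3053) x8885) x6941) x7589) x7481) x7409) x7429) x27109) (Nat.mul x7427 (nat_lit 2)))
    (Nat.sub (Nat.add (Nat.add (Nat.add (Nat.add (Nat.add (Nat.add (Nat.add (Nat.add (Nat.add (Nat.add (Nat.add C x20551) x3055) x8887) x6943) x7591) x7483) x7411) x7435) x7427) x7431) x27111) x7429)
    (Nat.sub (Nat.add (Nat.add (Nat.add (Nat.add (Nat.add (Nat.add (Nat.add (Nat.add (Nat.add C x20553) x3057) x8889) x6945) x7593) x7485) x7413) x7437) x7429) (Nat.mul x7431 (nat_lit 2)))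
    (Nat.add (Nat.add (Nat.add (Nat.add (Nat.add (Nat.add (Nat.add (Nat.add (Nat.add (Nat.add C x20557) x3061) x8893) x6949) x7597) x7489) x7417) x7429) x7437) x27117)
    (Nat.add (Nat.add (Nat.add (Nat.add (Nat.add (Nat.add (Nat.add (Nat.add (Nat.add (Nat.add (Nat.add C x7437) x20559) x3063) x8895) x6951) x7599) x7491) x7419) x7431) x7443) x7435)
    (Nat.add (Nat.add (Nat.add (Nat.add (Nat.add (Nat.add (Nat.add (Nat.add C (Nat.mul x7443 (nat_lit 2))) x20565) x3069) x8901) x6957) x7605) x7497) x7437)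
    (Nat.sub (Nat.add (Nat.add (Nat.add (Nat.add (Nat.add (Nat.add (Nat.add (Nat.add (Nat.add C x20579) x3083) x8915) x6971) x7619) x7403) x7463) x7459) x27139) (Nat.mul x7457 (nat_lit 2)))
    (Nat.sub (Nat.add (Nat.add (Nat.add (Nat.add (Nat.add (Nat.add (Nat.add (Nat.add (Nat.add C x20581) x3085) x8917) x6973) x7621) x7405) x7465) x7457) x27141) (Nat.mul x7459 (nat_lit 2)))
    (Nat.sub (Nat.sub (Nat.add (Nat.add (Nat.add (Nat.add (Nat.add (Nat.add (Nat.add (Nat.add (Nat.add (Nat.add (Nat.add C x20585) x3089) x8921) x6977) x7625) x7409) x7481) x7457) x7465) x27145) (Nat.mul (e (nat_lit 7463)) ap)) (Nat.mul x7463 (nat_lit 4))) (Nat.mul (e (nat_lit 7463)) an))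
    (Nat.sub (Nat.add (Nat.add (Nat.add (Nat.add (Nat.add (Nat.add (Nat.add (Nat.add (Nat.add (Nat.add (Nat.add (Nat.add C x20587) x3091) x8923) x6979) x7627) x7411) x7483) x7459) x7471) x7463) x7467) x27147) (Nat.mul x7465 (nat_lit 2)))
    (Nat.sub (Nat.add (Nat.add (Nat.add (Nat.add (Nat.add (Nat.add (Nat.add (Nat.add (Nat.add C x20589) x3093) x8925) x6981) x7629) x7413) x7485) x7473) x7465) (Nat.mul x7467 (nat_lit 2)))
    (Nat.sub (Nat.add (Nat.add (Nat.add (Nat.add (Nat.add (Nat.add (Nat.add (Nat.add (Nat.add (Nat.add C x20593) x3097) x8929) x6985) x7633) x7417) x7489) x7465) x7473) x27153) (Nat.mul x7471 (nat_lit 4)))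
    (Nat.sub (Nat.add (Nat.add (Nat.add (Nat.add (Nat.add (Nat.add (Nat.add (Nat.add (Nat.add C x20595) x3099) x8931) x6987) x7635) x7419) x7491) x7467) x7471) (Nat.mul x7473 (nat_lit 2)))
    (Nat.sub (Nat.add (Nat.add (Nat.add (Nat.add (Nat.add (Nat.add (Nat.add (Nat.add (Nat.add C x20603) x3107) x8939) x6995) x7643) x7427) x7463) x7483) x27163) (Nat.mul x7481 (nat_lit 2)))
    (Nat.sub (Nat.add (Nat.add (Nat.add (Nat.add (Nat.add (Nat.add (Nat.add (Nat.add (Nat.add (Nat.add (Nat.add C x20605) x3109) x8941) x6997) x7645) x7429) x7465) x7489) x7481) x7485) x27165) x7483)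
    (Nat.sub (Nat.add (Nat.add (Nat.add (Nat.add (Nat.add (Nat.add (Nat.add (Nat.add (Nat.add C x20607) x3111) x8943) x6999) x7647) x7431) x7467) x7491) x7483) (Nat.mul x7485 (nat_lit 2)))
    (Nat.sub (Nat.add (Nat.add (Nat.add (Nat.add (Nat.add (Nat.add (Nat.add (Nat.add (Nat.add (Nat.add (Nat.add C x20611) x3115) x8947) x7003) x7651) x7435) x7471) x7507) x7483) x7491) x27171) x7489)
    (Nat.add (Nat.add (Nat.add (Nat.add (Nat.add (Nat.add (Nat.add (Nat.add (Nat.add (Nat.add (Nat.add C x20613) x3117) x8949) x7005) x7653) x7437) x7473) x7509) x7485) x7497) x7489)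
    (Nat.add (Nat.add (Nat.add (Nat.add (Nat.add (Nat.add (Nat.add (Nat.add C x20619) x3123) x8955) x7011) x7659) x7443) x7515) x7491)
    (Nat.add (Nat.add (Nat.add (Nat.add (Nat.add (Nat.add (Nat.add (Nat.add C x20629) x3133) x8965) x7021) x7669) x7489) x7509) x27189)
    (Nat.add (Nat.add (Nat.add (Nat.add (Nat.add (Nat.add (Nat.add (Nat.add C x20631) x3135) x8967) x7023) x7671) x7491) x7515) x7507)
    (Nat.add (Nat.add (Nat.add (Nat.add (Nat.add (Nat.add (Nat.add (Nat.add C (Nat.mul x7515 (nat_lit 2))) x20637) x3141) x8973) x7029) x7677) x7497) x7509)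
    (Nat.add (Nat.add (Nat.add (Nat.add (Nat.add (Nat.add (Nat.add (Nat.add (Nat.add C x7541) x20663) x3167) x8999) x7055) x8027) x7379) x7547) x27223)
    (Nat.add (Nat.add (Nat.add (Nat.add (Nat.add (Nat.add (Nat.add (Nat.add (Nat.add (Nat.add (Nat.add C x20669) x3173) x9005) x7061) x8033) x7385) x7565) x7541) x7553) x7549) x27229)
    (Nat.add (Nat.add (Nat.add (Nat.add (Nat.add (Nat.add (Nat.add (Nat.add (Nat.add (Nat.add (Nat.add C x7549) x20671) x3175) x9007) x7063) x8035) x7387) x7567) x7555) x7547) x27231)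
    (Nat.sub (Nat.add (Nat.add (Nat.add (Nat.add (Nat.add (Nat.add (Nat.add (Nat.add (Nat.add (Nat.add C x20675) x3179) x9011) x7067) x8039) x7391) x7571) x7547) x7555) x27235) (Nat.mul x7553 (nat_lit 3)))
    (Nat.add (Nat.add (Nat.add (Nat.add (Nat.add (Nat.add (Nat.add (Nat.add (Nat.add (Nat.add (Nat.add C x20677) x3181) x9013) x7069) x8041) x7393) x7573) x7549) x7553) x7557) x27237)
    (Nat.add (Nat.add (Nat.add (Nat.add (Nat.add (Nat.add (Nat.add (Nat.add (Nat.add C x7557) x20679) x3183) x9015) x7071) x8043) x7395) x7575) x7555)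
    (Nat.sub (Nat.sub (Nat.add (Nat.add (Nat.add (Nat.add (Nat.add (Nat.add (Nat.add (Nat.add (Nat.add (Nat.add (Nat.add (Nat.add C x20687) x3191) x9023) x7079) x8051) x7403) x7619) x7547) x7571) x7567) x27247) (Nat.mul (e (nat_lit 7565)) ap)) x7565) (Nat.mul (e (nat_lit 7565)) an))
    (Nat.sub (Nat.add (Nat.add (Nat.add (Nat.add (Nat.add (Nat.add (Nat.add (Nat.add (Nat.add (Nat.add (Nat.add C x20689) x3193) x9025) x7081) x8053) x7405) x7621) x7549) x7573) x7565) x27249) x7567)
    (Nat.sub (Nat.sub (Nat.add (Nat.add (Nat.add (Nat.add (Nat.add (Nat.add (Nat.add (Nat.add (Nat.add (Nat.add (Nat.add (Nat.add (Nat.add C x20693) x3197) x9029) x7085) x8057) x7409) x7625) x7553) x7589) x7565) x7573) x27253) (Nat.mul (e (nat_lit 7571)) ap)) (Nat.mul x7571 (nat_lit 2))) (Nat.mul (e (nat_lit 7571)) an))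
    (Nat.sub (Nat.add (Nat.add (Nat.add (Nat.add (Nat.add (Nat.add (Nat.add (Nat.add (Nat.add (Nat.add (Nat.add (Nat.add (Nat.add (Nat.add (Nat.add C x20695) x3199) x9031) x7087) x8059) x7411) x7627) x7555) x7591) x7567) x7579) x7571) x7575) x27255) (Nat.mul (e (nat_lit 7573)) ap)) (Nat.mul (e (nat_lit 7573)) an))
    (Nat.add (Nat.add (Nat.add (Nat.add (Nat.add (Nat.add (Nat.add (Nat.add (Nat.add (Nat.add (Nat.add C x20697) x3201) x9033) x7089) x8061) x7413) x7629) x7557) x7593) x7581) x7573)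
    (Nat.sub (Nat.add (Nat.add (Nat.add (Nat.add (Nat.add (Nat.add (Nat.add (Nat.add (Nat.add (Nat.add (Nat.add C x20701) x3205) x9037) x7093) x8065) x7417) x7633) x7597) x7573) x7581) x27261) x7579)
    (Nat.add (Nat.add (Nat.add (Nat.add (Nat.add (Nat.add (Nat.add (Nat.add (Nat.add (Nat.add (Nat.add C x7581) x20703) x3207) x9039) x7095) x8067) x7419) x7635) x7599) x7575) x7579)
    (Nat.sub (Nat.add (Nat.add (Nat.add (Nat.add (Nat.add (Nat.add (Nat.add (Nat.add (Nat.add (Nat.add C x20711) x3215) x9047) x7103) x8075) x7427) x7643) x7571) x7591) x27271) (Nat.mul x7589 (nat_lit 3)))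
    (Nat.sub (Nat.sub (Nat.add (Nat.add (Nat.add (Nat.add (Nat.add (Nat.add (Nat.add (Nat.add (Nat.add (Nat.add (Nat.add (Nat.add (Nat.add C x20713) x3217) x9049) x7105) x8077) x7429) x7645) x7573) x7597) x7589) x7593) x27273) (Nat.mul (e (nat_lit 7591)) ap)) (Nat.mul x7591 (nat_lit 2))) (Nat.mul (e (nat_lit 7591)) an))
    (Nat.sub (Nat.add (Nat.add (Nat.add (Nat.add (Nat.add (Nat.add (Nat.add (Nat.add (Nat.add (Nat.add C x20715) x3219) x9051) x7107) x8079) x7431) x7647) x7575) x7599) x7591) (Nat.mul x7593 (nat_lit 3)))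
    (Nat.sub (Nat.add (Nat.add (Nat.add (Nat.add (Nat.add (Nat.add (Nat.add (Nat.add (Nat.add (Nat.add (Nat.add C x20719) x3223) x9055) x7111) x8083) x7435) x7651) x7579) x7591) x7599) x27279) x7597)
    (Nat.add (Nat.add (Nat.add (Nat.add (Nat.add (Nat.add (Nat.add (Nat.add (Nat.add (Nat.add (Nat.add C x20721) x3225) x9057) x7113) x8085) x7437) x7653) x7581) x7593) x7605) x7597)
    (Nat.add (Nat.add (Nat.add (Nat.add (Nat.add (Nat.add (Nat.add (Nat.add (Nat.add C x7605) x20727) x3231) x9063) x7119) x8091) x7443) x7659) x7599)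
    (Nat.add (Nat.add (Nat.add (Nat.add (Nat.add (Nat.add (Nat.add (Nat.add (Nat.add (Nat.add (Nat.add C x20741) x3245) x9077) x7133) x8105) x7457) x7781) x7565) x7625) x7621) x27301)
    (Nat.add (Nat.add (Nat.add (Nat.add (Nat.add (Nat.add (Nat.add (Nat.add (Nat.add (Nat.add (Nat.add C x20743) x3247) x9079) x7135) x8107) x7459) x7783) x7567) x7627) x7619) x27303)
    (Nat.sub (Nat.sub (Nat.add (Nat.add (Nat.add (Nat.add (Nat.add (Nat.add (Nat.add (Nat.add (Nat.add (Nat.add (Nat.add (Nat.add (Nat.add C x20747) x3251) x9083) x7139) x8111) x7463) x7787) x7571) x7643) x7619) x7627) x27307) (Nat.mul (e (nat_lit 7625)) ap)) (Nat.mul x7625 (nat_lit 2))) (Nat.mul (e (nat_lit 7625)) an))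
    (Nat.sub (Nat.add (Nat.add (Nat.add (Nat.add (Nat.add (Nat.add (Nat.add (Nat.add (Nat.add (Nat.add (Nat.add (Nat.add (Nat.add (Nat.add (Nat.add C x20749) x3253) x9085) x7141) x8113) x7465) x7789) x7573) x7645) x7621) x7633) x7625) x7629) x27309) (Nat.mul (e (nat_lit 7627)) ap)) (Nat.mul (e (nat_lit 7627)) an))
    (Nat.add (Nat.add (Nat.add (Nat.add (Nat.add (Nat.add (Nat.add (Nat.add (Nat.add (Nat.add (Nat.add C x20751) x3255) x9087) x7143) x8115) x7467) x7791) x7575) x7647) x7635) x7627)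
    (Nat.sub (Nat.add (Nat.add (Nat.add (Nat.add (Nat.add (Nat.add (Nat.add (Nat.add (Nat.add (Nat.add (Nat.add (Nat.add C x20755) x3259) x9091) x7147) x8119) x7471) x7795) x7579) x7651) x7627) x7635) x27315) (Nat.mul x7633 (nat_lit 2)))
    (Nat.add (Nat.add (Nat.add (Nat.add (Nat.add (Nat.add (Nat.add (Nat.add (Nat.add (Nat.add (Nat.add C x20757) x3261) x9093) x7149) x8121) x7473) x7797) x7581) x7653) x7629) x7633)
    (Nat.sub (Nat.add (Nat.add (Nat.add (Nat.add (Nat.add (Nat.add (Nat.add (Nat.add (Nat.add (Nat.add (Nat.add (Nat.add C x20765) x3269) x9101) x7157) x8129) x7481) x7805) x7589) x7697) x7625) x7645) x27325) x7643)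
    (Nat.add (Nat.add (Nat.add (Nat.add (Nat.add (Nat.add (Nat.add (Nat.add (Nat.add (Nat.add (Nat.add (Nat.add (Nat.add (Nat.add C x20767) x3271) x9103) x7159) x8131) x7483) x7807) x7591) x7699) x7627) x7651) x7643) x7647) x27327)
    (Nat.sub (Nat.add (Nat.add (Nat.add (Nat.add (Nat.add (Nat.add (Nat.add (Nat.add (Nat.add (Nat.add (Nat.add (Nat.add C x20769) x3273) x9105) x7161) x8133) x7485) x7809) x7593) x7701) x7629) x7653) x7645) x7647)
    (Nat.add (Nat.add (Nat.add (Nat.add (Nat.add (Nat.add (Nat.add (Nat.add (Nat.add (Nat.add (Nat.add (Nat.add (Nat.add (Nat.add C x20773) x3277) x9109) x7165) x8137) x7489) x7813) x7597) x7705) x7633) x7669) x7645) x7653) x27333)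
    (Nat.add (Nat.add (Nat.add (Nat.add (Nat.add (Nat.add (Nat.add (Nat.add (Nat.add (Nat.add (Nat.add (Nat.add (Nat.add (Nat.add (Nat.add C x7653) x20775) x3279) x9111) x7167) x8139) x7491) x7815) x7599) x7707) x7635) x7671) x7647) x7659) x7651)
    (Nat.add (Nat.add (Nat.add (Nat.add (Nat.add (Nat.add (Nat.add (Nat.add (Nat.add (Nat.add (Nat.add (Nat.add C x7659) x20781) x3285) x9117) x7173) x8145) x7497) x7821) x7605) x7713) x7677) x7653)
    (Nat.add (Nat.add (Nat.add (Nat.add (Nat.add (Nat.add (Nat.add (Nat.add (Nat.add (Nat.add (Nat.add C x20791) x3295) x9127) x7183) x8155) x7507) x7831) x7723) x7651) x7671) x27351)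
    (Nat.add (Nat.add (Nat.add (Nat.add (Nat.add (Nat.add (Nat.add (Nat.add (Nat.add (Nat.add (Nat.add C x20793) x3297) x9129) x7185) x8157) x7509) x7833) x7725) x7653) x7677) x7669)
    (Nat.add (Nat.add (Nat.add (Nat.add (Nat.add (Nat.add (Nat.add (Nat.add (Nat.add (Nat.add (Nat.add C (Nat.mul x7677 (nat_lit 2))) x20799) x3303) x9135) x7191) x8163) x7515) x7839) x7731) x7659) x7671)
    (Nat.sub (Nat.add (Nat.add (Nat.add (Nat.add (Nat.add (Nat.add (Nat.add (Nat.add (Nat.add C x20819) x3323) x9155) x7211) x8183) x7859) x7643) x7699) x27379) x7697)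
    (Nat.add (Nat.add (Nat.add (Nat.add (Nat.add (Nat.add (Nat.add (Nat.add (Nat.add (Nat.add (Nat.add C x20821) x3325) x9157) x7213) x8185) x7861) x7645) x7705) x7697) x7701) x27381)
    (Nat.sub (Nat.add (Nat.add (Nat.add (Nat.add (Nat.add (Nat.add (Nat.add (Nat.add (Nat.add C x20823) x3327) x9159) x7215) x8187) x7863) x7647) x7707) x7699) x7701)
    (Nat.sub (Nat.add (Nat.add (Nat.add (Nat.add (Nat.add (Nat.add (Nat.add (Nat.add (Nat.add (Nat.add (Nat.add C x20827) x3331) x9163) x7219) x8191) x7867) x7651) x7723) x7699) x7707) x27387) x7705)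
    (Nat.add (Nat.add (Nat.add (Nat.add (Nat.add (Nat.add (Nat.add (Nat.add (Nat.add (Nat.add (Nat.add C x20829) x3333) x9165) x7221) x8193) x7869) x7653) x7725) x7701) x7713) x7705)
    (Nat.sub (Nat.add (Nat.add (Nat.add (Nat.add (Nat.add (Nat.add (Nat.add (Nat.add (Nat.add C x20835) x3339) x9171) x7227) x8199) x7875) x7659) x7731) x7707) x7713)
    (Nat.add (Nat.add (Nat.add (Nat.add (Nat.add (Nat.add (Nat.add (Nat.add (Nat.add (Nat.add (Nat.add C x7723) x20845) x3349) x9181) x7237) x8209) x7885) x7669) x7705) x7725) x27405)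
    (Nat.add (Nat.add (Nat.add (Nat.add (Nat.add (Nat.add (Nat.add (Nat.add (Nat.add (Nat.add (Nat.add C x7725) x20847) x3351) x9183) x7239) x8211) x7887) x7671) x7707) x7731) x7723)
    (Nat.add (Nat.add (Nat.add (Nat.add (Nat.add (Nat.add (Nat.add (Nat.add (Nat.add (Nat.add (Nat.add C (Nat.mul x7731 (nat_lit 2))) x20853) x3357) x9189) x7245) x8217) x7893) x7677) x7713) x7749) x7725)
    (Nat.add (Nat.add (Nat.add (Nat.add (Nat.add (Nat.add (Nat.add (Nat.add C (Nat.mul x7749 (nat_lit 3))) x20871) x3375) x9207) x7263) x8235) x7911) x7731)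
    (Nat.add (Nat.add (Nat.add (Nat.add (Nat.add (Nat.add (Nat.add (Nat.add C x20903) x3407) x9239) x8267) x7619) x7787) x7783) x27463)
    (Nat.add (Nat.add (Nat.add (Nat.add (Nat.add (Nat.add (Nat.add (Nat.add C x20905) x3409) x9241) x8269) x7621) x7789) x7781) x27465)
    (Nat.sub (Nat.add (Nat.add (Nat.add (Nat.add (Nat.add (Nat.add (Nat.add (Nat.add (Nat.add C x20909) x3413) x9245) x8273) x7625) x7805) x7781) x7789) x27469) (Nat.mul x7787 (nat_lit 2)))
    (Nat.add (Nat.add (Nat.add (Nat.add (Nat.add (Nat.add (Nat.add (Nat.add (Nat.add (Nat.add (Nat.add C x20911) x3415) x9247) x8275) x7627) x7807) x7783) x7795) x7787) x7791) x27471)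
    (Nat.add (Nat.add (Nat.add (Nat.add (Nat.add (Nat.add (Nat.add (Nat.add C x20913) x3417) x9249) x8277) x7629) x7809) x7797) x7789)
    (Nat.sub (Nat.add (Nat.add (Nat.add (Nat.add (Nat.add (Nat.add (Nat.add (Nat.add (Nat.add C x20917) x3421) x9253) x8281) x7633) x7813) x7789) x7797) x27477) (Nat.mul x7795 (nat_lit 2)))
    (Nat.add (Nat.add (Nat.add (Nat.add (Nat.add (Nat.add (Nat.add (Nat.add C x20919) x3423) x9255) x8283) x7635) x7815) x7791) x7795)
    (Nat.sub (Nat.add (Nat.add (Nat.add (Nat.add (Nat.add (Nat.add (Nat.add (Nat.add (Nat.add C x20927) x3431) x9263) x8291) x7643) x7859) x7787) x7807) x27487) (Nat.mul x7805 (nat_lit 2)))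
    (Nat.sub (Nat.add (Nat.add (Nat.add (Nat.add (Nat.add (Nat.add (Nat.add (Nat.add (Nat.add (Nat.add (Nat.add C x20929) x3433) x9265) x8293) x7645) x7861) x7789) x7813) x7805) x7809) x27489) x7807)
    (Nat.sub (Nat.add (Nat.add (Nat.add (Nat.add (Nat.add (Nat.add (Nat.add (Nat.add (Nat.add C x20931) x3435) x9267) x8295) x7647) x7863) x7791) x7815) x7807) (Nat.mul x7809 (nat_lit 2)))
    (Nat.sub (Nat.add (Nat.add (Nat.add (Nat.add (Nat.add (Nat.add (Nat.add (Nat.add (Nat.add (Nat.add (Nat.add C x20935) x3439) x9271) x8299) x7651) x7867) x7795) x7831) x7807) x7815) x27495) x7813)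
    (Nat.add (Nat.add (Nat.add (Nat.add (Nat.add (Nat.add (Nat.add (Nat.add (Nat.add (Nat.add (Nat.add C x20937) x3441) x9273) x8301) x7653) x7869) x7797) x7833) x7809) x7821) x7813)
    (Nat.add (Nat.add (Nat.add (Nat.add (Nat.add (Nat.add (Nat.add (Nat.add C x20943) x3447) x9279) x8307) x7659) x7875) x7839) x7815)
    (Nat.sub (Nat.add (Nat.add (Nat.add (Nat.add (Nat.add (Nat.add (Nat.add (Nat.add (Nat.add C x20953) x3457) x9289) x8317) x7669) x7885) x7813) x7833) x27513) (Nat.mul x7831 (nat_lit 2)))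
    (Nat.sub (Nat.add (Nat.add (Nat.add (Nat.add (Nat.add (Nat.add (Nat.add (Nat.add (Nat.add C x20955) x3459) x9291) x8319) x7671) x7887) x7815) x7839) x7831) (Nat.mul x7833 (nat_lit 2)))
    (Nat.add (Nat.add (Nat.add (Nat.add (Nat.add (Nat.add (Nat.add (Nat.add C x20961) x3465) x9297) x8325) x7677) x7893) x7821) x7833)
    (Nat.add (Nat.add (Nat.add (Nat.add (Nat.add (Nat.add (Nat.add (Nat.add C x20981) x3485) x9317) x8345) x7697) x7805) x7861) x27541)
    (Nat.add (Nat.add (Nat.add (Nat.add (Nat.add (Nat.add (Nat.add (Nat.add (Nat.add (Nat.add (Nat.add C x7861) x20983) x3487) x9319) x8347) x7699) x7807) x7867) x7859) x7863) x27543)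
    (Nat.add (Nat.add (Nat.add (Nat.add (Nat.add (Nat.add (Nat.add (Nat.add C x20985) x3489) x9321) x8349) x7701) x7809) x7869) x7861)
    (Nat.add (Nat.add (Nat.add (Nat.add (Nat.add (Nat.add (Nat.add (Nat.add (Nat.add (Nat.add C x20989) x3493) x9325) x8353) x7705) x7813) x7885) x7861) x7869) x27549)
    (Nat.add (Nat.add (Nat.add (Nat.add (Nat.add (Nat.add (Nat.add (Nat.add (Nat.add (Nat.add (Nat.add C x7869) x20991) x3495) x9327) x8355) x7707) x7815) x7887) x7863) x7875) x7867)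
    (Nat.add (Nat.add (Nat.add (Nat.add (Nat.add (Nat.add (Nat.add (Nat.add C x20997) x3501) x9333) x8361) x7713) x7821) x7893) x7869)
    (Nat.add (Nat.add (Nat.add (Nat.add (Nat.add (Nat.add (Nat.add (Nat.add (Nat.add (Nat.add (Nat.add C x7885) x21007) x3511) x9343) x8371) x7723) x7831) x7939) x7867) x7887) x27567)
    (Nat.add (Nat.add (Nat.add (Nat.add (Nat.add (Nat.add (Nat.add (Nat.add (Nat.add (Nat.add (Nat.add C x7887) x21009) x3513) x9345) x8373) x7725) x7833) x7941) x7869) x7893) x7885)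
    (Nat.add (Nat.add (Nat.add (Nat.add (Nat.add (Nat.add (Nat.add (Nat.add (Nat.add (Nat.add (Nat.add C (Nat.mul x7893 (nat_lit 2))) x21015) x3519) x9351) x8379) x7731) x7839) x7947) x7875) x7911) x7887)
    (Nat.add (Nat.add (Nat.add (Nat.add (Nat.add (Nat.add (Nat.add (Nat.add C (Nat.mul x7911 (nat_lit 2))) x21033) x3537) x9369) x8397) x7749) x7965) x7893)
    (Nat.add (Nat.add (Nat.add (Nat.add (Nat.add (Nat.add (Nat.add (Nat.add C (Nat.mul x7939 (nat_lit 2))) x21061) x3565) x9397) x8425) x7885) x7941) x27621)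
    (Nat.add (Nat.add (Nat.add (Nat.add (Nat.add (Nat.add (Nat.add (Nat.add C (Nat.mul x7941 (nat_lit 2))) x21063) x3567) x9399) x8427) x7887) x7947) x7939)
    (Nat.add (Nat.add (Nat.add (Nat.add (Nat.add (Nat.add (Nat.add (Nat.add C (Nat.mul x7947 (nat_lit 2))) x21069) x3573) x9405) x8433) x7893) x7965) x7941)
    (Nat.add (Nat.add (Nat.add (Nat.add (Nat.add (Nat.add (Nat.add C (Nat.mul x7965 (nat_lit 4))) x21087) x3591) x9423) x8451) x7911) x7947)
    (Nat.add (Nat.add (Nat.add (Nat.add (Nat.add (Nat.add C x21149) x3653) x9485) x7541) x8033) x27709)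
    (Nat.sub (Nat.add (Nat.add (Nat.add (Nat.add (Nat.add (Nat.add (Nat.add (Nat.add (Nat.add C x21155) x3659) x9491) x7547) x8051) x8027) x8039) x8035) x27715) x8033)
    (Nat.add (Nat.add (Nat.add (Nat.add (Nat.add (Nat.add (Nat.add (Nat.add C x21157) x3661) x9493) x7549) x8053) x8041) x8033) x27717)
    (Nat.sub (Nat.add (Nat.add (Nat.add (Nat.add (Nat.add (Nat.add (Nat.add (Nat.add C x21161) x3665) x9497) x7553) x8057) x8033) x8041) x27721) (Nat.mul x8039 (nat_lit 4)))
    (Nat.sub (Nat.add (Nat.add (Nat.add (Nat.add (Nat.add (Nat.add (Nat.add (Nat.add (Nat.add C x21163) x3667) x9499) x7555) x8059) x8035) x8039) x8043) x27723) x8041)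
    (Nat.add (Nat.add (Nat.add (Nat.add (Nat.add (Nat.add C x21165) x3669) x9501) x7557) x8061) x8041)
    (Nat.sub (Nat.add (Nat.add (Nat.add (Nat.add (Nat.add (Nat.add (Nat.add (Nat.add (Nat.add C x21173) x3677) x9509) x7565) x8105) x8033) x8057) x8053) x27733) (Nat.mul x8051 (nat_lit 2)))
    (Nat.sub (Nat.add (Nat.add (Nat.add (Nat.add (Nat.add (Nat.add (Nat.add (Nat.add (Nat.add C x21175) x3679) x9511) x7567) x8107) x8035) x8059) x8051) x27735) (Nat.mul x8053 (nat_lit 2)))
    (Nat.sub (Nat.add (Nat.add (Nat.add (Nat.add (Nat.add (Nat.add (Nat.add (Nat.add (Nat.add (Nat.add C x21179) x3683) x9515) x7571) x8111) x8039) x8075) x8051) x8059) x27739) (Nat.mul x8057 (nat_lit 3)))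
    (Nat.sub (Nat.add (Nat.add (Nat.add (Nat.add (Nat.add (Nat.add (Nat.add (Nat.add (Nat.add (Nat.add (Nat.add (Nat.add C x21181) x3685) x9517) x7573) x8113) x8041) x8077) x8053) x8065) x8057) x8061) x27741) x8059)
    (Nat.sub (Nat.add (Nat.add (Nat.add (Nat.add (Nat.add (Nat.add (Nat.add (Nat.add (Nat.add C x21183) x3687) x9519) x7575) x8115) x8043) x8079) x8067) x8059) x8061)
    (Nat.sub (Nat.add (Nat.add (Nat.add (Nat.add (Nat.add (Nat.add (Nat.add (Nat.add (Nat.add C x21187) x3691) x9523) x7579) x8119) x8083) x8059) x8067) x27747) (Nat.mul x8065 (nat_lit 2)))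
    (Nat.add (Nat.add (Nat.add (Nat.add (Nat.add (Nat.add (Nat.add (Nat.add C x21189) x3693) x9525) x7581) x8121) x8085) x8061) x8065)
    (Nat.sub (Nat.add (Nat.add (Nat.add (Nat.add (Nat.add (Nat.add (Nat.add (Nat.add C x21197) x3701) x9533) x7589) x8129) x8057) x8077) x27757) (Nat.mul x8075 (nat_lit 4)))
    (Nat.sub (Nat.add (Nat.add (Nat.add (Nat.add (Nat.add (Nat.add (Nat.add (Nat.add (Nat.add (Nat.add C x21199) x3703) x9535) x7591) x8131) x8059) x8083) x8075) x8079) x27759) (Nat.mul x8077 (nat_lit 3)))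
    (Nat.sub (Nat.add (Nat.add (Nat.add (Nat.add (Nat.add (Nat.add (Nat.add (Nat.add C x21201) x3705) x9537) x7593) x8133) x8061) x8085) x8077) (Nat.mul x8079 (nat_lit 4)))
    (Nat.sub (Nat.add (Nat.add (Nat.add (Nat.add (Nat.add (Nat.add (Nat.add (Nat.add (Nat.add C x21205) x3709) x9541) x7597) x8137) x8065) x8077) x8085) x27765) (Nat.mul x8083 (nat_lit 2)))
    (Nat.sub (Nat.add (Nat.add (Nat.add (Nat.add (Nat.add (Nat.add (Nat.add (Nat.add (Nat.add C x21207) x3711) x9543) x7599) x8139) x8067) x8079) x8091) x8083) x8085)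
    (Nat.add (Nat.add (Nat.add (Nat.add (Nat.add (Nat.add C x21213) x3717) x9549) x7605) x8145) x8085)
    (Nat.sub (Nat.add (Nat.add (Nat.add (Nat.add (Nat.add (Nat.add (Nat.add (Nat.add (Nat.add C x21227) x3731) x9563) x7619) x8267) x8051) x8111) x8107) x27787) (Nat.mul x8105 (nat_lit 2)))
    (Nat.sub (Nat.add (Nat.add (Nat.add (Nat.add (Nat.add (Nat.add (Nat.add (Nat.add (Nat.add C x21229) x3733) x9565) x7621) x8269) x8053) x8113) x8105) x27789) (Nat.mul x8107 (nat_lit 2)))
    (Nat.sub (Nat.add (Nat.add (Nat.add (Nat.add (Nat.add (Nat.add (Nat.add (Nat.add (Nat.add (Nat.add C x21233) x3737) x9569) x7625) x8273) x8057) x8129) x8105) x8113) x27793) (Nat.mul x8111 (nat_lit 4)))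
    (Nat.sub (Nat.add (Nat.add (Nat.add (Nat.add (Nat.add (Nat.add (Nat.add (Nat.add (Nat.add (Nat.add (Nat.add (Nat.add C x21235) x3739) x9571) x7627) x8275) x8059) x8131) x8107) x8119) x8111) x8115) x27795) (Nat.mul x8113 (nat_lit 2)))
    (Nat.sub (Nat.add (Nat.add (Nat.add (Nat.add (Nat.add (Nat.add (Nat.add (Nat.add (Nat.add C x21237) x3741) x9573) x7629) x8277) x8061) x8133) x8121) x8113) (Nat.mul x8115 (nat_lit 2)))
    (Nat.sub (Nat.add (Nat.add (Nat.add (Nat.add (Nat.add (Nat.add (Nat.add (Nat.add (Nat.add (Nat.add C x21241) x3745) x9577) x7633) x8281) x8065) x8137) x8113) x8121) x27801) (Nat.mul x8119 (nat_lit 4)))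
    (Nat.sub (Nat.add (Nat.add (Nat.add (Nat.add (Nat.add (Nat.add (Nat.add (Nat.add (Nat.add C x21243) x3747) x9579) x7635) x8283) x8067) x8139) x8115) x8119) (Nat.mul x8121 (nat_lit 2)))
    (Nat.sub (Nat.add (Nat.add (Nat.add (Nat.add (Nat.add (Nat.add (Nat.add (Nat.add (Nat.add (Nat.add C x21251) x3755) x9587) x7643) x8291) x8075) x8183) x8111) x8131) x27811) (Nat.mul x8129 (nat_lit 3)))
    (Nat.sub (Nat.add (Nat.add (Nat.add (Nat.add (Nat.add (Nat.add (Nat.add (Nat.add (Nat.add (Nat.add (Nat.add (Nat.add C x21253) x3757) x9589) x7645) x8293) x8077) x8185) x8113) x8137) x8129) x8133) x27813) (Nat.mul x8131 (nat_lit 2)))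
    (Nat.sub (Nat.add (Nat.add (Nat.add (Nat.add (Nat.add (Nat.add (Nat.add (Nat.add (Nat.add (Nat.add C x21255) x3759) x9591) x7647) x8295) x8079) x8187) x8115) x8139) x8131) (Nat.mul x8133 (nat_lit 3)))
    (Nat.sub (Nat.add (Nat.add (Nat.add (Nat.add (Nat.add (Nat.add (Nat.add (Nat.add (Nat.add (Nat.add (Nat.add (Nat.add C x21259) x3763) x9595) x7651) x8299) x8083) x8191) x8119) x8155) x8131) x8139) x27819) (Nat.mul x8137 (nat_lit 2)))
    (Nat.sub (Nat.add (Nat.add (Nat.add (Nat.add (Nat.add (Nat.add (Nat.add (Nat.add (Nat.add (Nat.add (Nat.add (Nat.add C x21261) x3765) x9597) x7653) x8301) x8085) x8193) x8121) x8157) x8133) x8145) x8137) x8139)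
    (Nat.sub (Nat.add (Nat.add (Nat.add (Nat.add (Nat.add (Nat.add (Nat.add (Nat.add (Nat.add C x21267) x3771) x9603) x7659) x8307) x8091) x8199) x8163) x8139) x8145)
    (Nat.sub (Nat.add (Nat.add (Nat.add (Nat.add (Nat.add (Nat.add (Nat.add (Nat.add (Nat.add C x21277) x3781) x9613) x7669) x8317) x8209) x8137) x8157) x27837) (Nat.mul x8155 (nat_lit 2)))
    (Nat.sub (Nat.add (Nat.add (Nat.add (Nat.add (Nat.add (Nat.add (Nat.add (Nat.add (Nat.add C x21279) x3783) x9615) x7671) x8319) x8211) x8139) x8163) x8155) (Nat.mul x8157 (nat_lit 2)))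
    (Nat.add (Nat.add (Nat.add (Nat.add (Nat.add (Nat.add (Nat.add (Nat.add C x21285) x3789) x9621) x7677) x8325) x8217) x8145) x8157)
    (Nat.sub (Nat.add (Nat.add (Nat.add (Nat.add (Nat.add (Nat.add (Nat.add (Nat.add C x21305) x3809) x9641) x7697) x8345) x8129) x8185) x27865) (Nat.mul x8183 (nat_lit 4)))
    (Nat.sub (Nat.add (Nat.add (Nat.add (Nat.add (Nat.add (Nat.add (Nat.add (Nat.add (Nat.add (Nat.add C x21307) x3811) x9643) x7699) x8347) x8131) x8191) x8183) x8187) x27867) (Nat.mul x8185 (nat_lit 3)))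
    (Nat.sub (Nat.add (Nat.add (Nat.add (Nat.add (Nat.add (Nat.add (Nat.add (Nat.add C x21309) x3813) x9645) x7701) x8349) x8133) x8193) x8185) (Nat.mul x8187 (nat_lit 4)))
    (Nat.sub (Nat.add (Nat.add (Nat.add (Nat.add (Nat.add (Nat.add (Nat.add (Nat.add (Nat.add (Nat.add C x21313) x3817) x9649) x7705) x8353) x8137) x8209) x8185) x8193) x27873) (Nat.mul x8191 (nat_lit 4)))
    (Nat.sub (Nat.add (Nat.add (Nat.add (Nat.add (Nat.add (Nat.add (Nat.add (Nat.add (Nat.add (Nat.add C x21315) x3819) x9651) x7707) x8355) x8139) x8211) x8187) x8199) x8191) (Nat.mul x8193 (nat_lit 3)))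
    (Nat.sub (Nat.add (Nat.add (Nat.add (Nat.add (Nat.add (Nat.add (Nat.add (Nat.add C x21321) x3825) x9657) x7713) x8361) x8145) x8217) x8193) (Nat.mul x8199 (nat_lit 4)))
    (Nat.sub (Nat.add (Nat.add (Nat.add (Nat.add (Nat.add (Nat.add (Nat.add (Nat.add (Nat.add C x21331) x3835) x9667) x7723) x8371) x8155) x8191) x8211) x27891) (Nat.mul x8209 (nat_lit 2)))
    (Nat.sub (Nat.add (Nat.add (Nat.add (Nat.add (Nat.add (Nat.add (Nat.add (Nat.add (Nat.add C x21333) x3837) x9669) x7725) x8373) x8157) x8193) x8217) x8209) (Nat.mul x8211 (nat_lit 2)))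
    (Nat.sub (Nat.add (Nat.add (Nat.add (Nat.add (Nat.add (Nat.add (Nat.add (Nat.add (Nat.add C x21339) x3843) x9675) x7731) x8379) x8163) x8199) x8235) x8211) x8217)
    (Nat.add (Nat.add (Nat.add (Nat.add (Nat.add (Nat.add C x21357) x3861) x9693) x7749) x8397) x8217)
    (Nat.add (Nat.add (Nat.add (Nat.add (Nat.add (Nat.add (Nat.add (Nat.add C x21389) x3893) x9725) x7781) x8105) x8273) x8269) x27949)
    (Nat.add (Nat.add (Nat.add (Nat.add (Nat.add (Nat.add (Nat.add (Nat.add C x21391) x3895) x9727) x7783) x8107) x8275) x8267) x27951)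
    (Nat.sub (Nat.add (Nat.add (Nat.add (Nat.add (Nat.add (Nat.add (Nat.add (Nat.add (Nat.add C x21395) x3899) x9731) x7787) x8111) x8291) x8267) x8275) x27955) (Nat.mul x8273 (nat_lit 2)))
    (Nat.add (Nat.add (Nat.add (Nat.add (Nat.add (Nat.add (Nat.add (Nat.add (Nat.add (Nat.add (Nat.add C x21397) x3901) x9733) x7789) x8113) x8293) x8269) x8281) x8273) x8277) x27957)
    (Nat.add (Nat.add (Nat.add (Nat.add (Nat.add (Nat.add (Nat.add (Nat.add C x21399) x3903) x9735) x7791) x8115) x8295) x8283) x8275)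
    (Nat.sub (Nat.add (Nat.add (Nat.add (Nat.add (Nat.add (Nat.add (Nat.add (Nat.add (Nat.add C x21403) x3907) x9739) x7795) x8119) x8299) x8275) x8283) x27963) (Nat.mul x8281 (nat_lit 2)))
    (Nat.add (Nat.add (Nat.add (Nat.add (Nat.add (Nat.add (Nat.add (Nat.add C x21405) x3909) x9741) x7797) x8121) x8301) x8277) x8281)
    (Nat.sub (Nat.add (Nat.add (Nat.add (Nat.add (Nat.add (Nat.add (Nat.add (Nat.add (Nat.add C x21413) x3917) x9749) x7805) x8129) x8345) x8273) x8293) x27973) (Nat.mul x8291 (nat_lit 2)))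
    (Nat.sub (Nat.add (Nat.add (Nat.add (Nat.add (Nat.add (Nat.add (Nat.add (Nat.add (Nat.add (Nat.add (Nat.add C x21415) x3919) x9751) x7807) x8131) x8347) x8275) x8299) x8291) x8295) x27975) x8293)
    (Nat.sub (Nat.add (Nat.add (Nat.add (Nat.add (Nat.add (Nat.add (Nat.add (Nat.add (Nat.add C x21417) x3921) x9753) x7809) x8133) x8349) x8277) x8301) x8293) (Nat.mul x8295 (nat_lit 2)))
    (Nat.sub (Nat.add (Nat.add (Nat.add (Nat.add (Nat.add (Nat.add (Nat.add (Nat.add (Nat.add (Nat.add (Nat.add C x21421) x3925) x9757) x7813) x8137) x8353) x8281) x8317) x8293) x8301) x27981) x8299)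
    (Nat.add (Nat.add (Nat.add (Nat.add (Nat.add (Nat.add (Nat.add (Nat.add (Nat.add (Nat.add (Nat.add C x21423) x3927) x9759) x7815) x8139) x8355) x8283) x8319) x8295) x8307) x8299)
    (Nat.add (Nat.add (Nat.add (Nat.add (Nat.add (Nat.add (Nat.add (Nat.add C x21429) x3933) x9765) x7821) x8145) x8361) x8325) x8301)
    (Nat.sub (Nat.add (Nat.add (Nat.add (Nat.add (Nat.add (Nat.add (Nat.add (Nat.add (Nat.add C x21439) x3943) x9775) x7831) x8155) x8371) x8299) x8319) x27999) (Nat.mul x8317 (nat_lit 2)))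
    (Nat.sub (Nat.add (Nat.add (Nat.add (Nat.add (Nat.add (Nat.add (Nat.add (Nat.add (Nat.add C x21441) x3945) x9777) x7833) x8157) x8373) x8301) x8325) x8317) (Nat.mul x8319 (nat_lit 2)))
    (Nat.add (Nat.add (Nat.add (Nat.add (Nat.add (Nat.add (Nat.add (Nat.add C x21447) x3951) x9783) x7839) x8163) x8379) x8307) x8319)
    (Nat.sub (Nat.add (Nat.add (Nat.add (Nat.add (Nat.add (Nat.add (Nat.add (Nat.add (Nat.add C x21467) x3971) x9803) x7859) x8183) x8507) x8291) x8347) x28027) x8345)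
    (Nat.add (Nat.add (Nat.add (Nat.add (Nat.add (Nat.add (Nat.add (Nat.add (Nat.add (Nat.add (Nat.add C x21469) x3973) x9805) x7861) x8185) x8509) x8293) x8353) x8345) x8349) x28029)
    (Nat.sub (Nat.add (Nat.add (Nat.add (Nat.add (Nat.add (Nat.add (Nat.add (Nat.add (Nat.add C x21471) x3975) x9807) x7863) x8187) x8511) x8295) x8355) x8347) x8349)
    (Nat.sub (Nat.add (Nat.add (Nat.add (Nat.add (Nat.add (Nat.add (Nat.add (Nat.add (Nat.add (Nat.add (Nat.add C x21475) x3979) x9811) x7867) x8191) x8515) x8299) x8371) x8347) x8355) x28035) x8353)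
    (Nat.add (Nat.add (Nat.add (Nat.add (Nat.add (Nat.add (Nat.add (Nat.add (Nat.add (Nat.add (Nat.add C x21477) x3981) x9813) x7869) x8193) x8517) x8301) x8373) x8349) x8361) x8353)
    (Nat.sub (Nat.add (Nat.add (Nat.add (Nat.add (Nat.add (Nat.add (Nat.add (Nat.add (Nat.add C x21483) x3987) x9819) x7875) x8199) x8523) x8307) x8379) x8355) x8361)
    (Nat.add (Nat.add (Nat.add (Nat.add (Nat.add (Nat.add (Nat.add (Nat.add (Nat.add (Nat.add (Nat.add C x21493) x3997) x9829) x7885) x8209) x8533) x8317) x8425) x8353) x8373) x28053)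
    (Nat.add (Nat.add (Nat.add (Nat.add (Nat.add (Nat.add (Nat.add (Nat.add (Nat.add (Nat.add (Nat.add C x21495) x3999) x9831) x7887) x8211) x8535) x8319) x8427) x8355) x8379) x8371)
    (Nat.add (Nat.add (Nat.add (Nat.add (Nat.add (Nat.add (Nat.add (Nat.add (Nat.add (Nat.add (Nat.add (Nat.add C x8379) x21501) x4005) x9837) x7893) x8217) x8541) x8325) x8433) x8361) x8397) x8373)
    (Nat.add (Nat.add (Nat.add (Nat.add (Nat.add (Nat.add (Nat.add (Nat.add (Nat.add C x8397) x21519) x4023) x9855) x7911) x8235) x8559) x8451) x8379)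
    (Nat.add (Nat.add (Nat.add (Nat.add (Nat.add (Nat.add (Nat.add (Nat.add C x21547) x4051) x9883) x7939) x8587) x8371) x8427) x28107)
    (Nat.add (Nat.add (Nat.add (Nat.add (Nat.add (Nat.add (Nat.add (Nat.add C x21549) x4053) x9885) x7941) x8589) x8373) x8433) x8425)
    (Nat.add (Nat.add (Nat.add (Nat.add (Nat.add (Nat.add (Nat.add (Nat.add C x21555) x4059) x9891) x7947) x8595) x8379) x8451) x8427)
    (Nat.add (Nat.add (Nat.add (Nat.add (Nat.add (Nat.add (Nat.add (Nat.add C (Nat.mul x8451 (nat_lit 2))) x21573) x4077) x9909) x7965) x8613) x8397) x8433)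
    (Nat.add (Nat.add (Nat.add (Nat.add (Nat.add (Nat.add C x21629) x4133) x9965) x8345) x8509) x28189)
    (Nat.add (Nat.add (Nat.add (Nat.add (Nat.add (Nat.add (Nat.add (Nat.add (Nat.add C x8509) x21631) x4135) x9967) x8347) x8515) x8507) x8511) x28191)
    (Nat.add (Nat.add (Nat.add (Nat.add (Nat.add (Nat.add C x21633) x4137) x9969) x8349) x8517) x8509)
    (Nat.add (Nat.add (Nat.add (Nat.add (Nat.add (Nat.add (Nat.add (Nat.add C x21637) x4141) x9973) x8353) x8533) x8509) x8517) x28197)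
    (Nat.add (Nat.add (Nat.add (Nat.add (Nat.add (Nat.add (Nat.add (Nat.add (Nat.add C x8517) x21639) x4143) x9975) x8355) x8535) x8511) x8523) x8515)
    (Nat.add (Nat.add (Nat.add (Nat.add (Nat.add (Nat.add C x21645) x4149) x9981) x8361) x8541) x8517)
    (Nat.add (Nat.add (Nat.add (Nat.add (Nat.add (Nat.add (Nat.add (Nat.add C x21655) x4159) x9991) x8371) x8587) x8515) x8535) x28215)
    (Nat.add (Nat.add (Nat.add (Nat.add (Nat.add (Nat.add (Nat.add (Nat.add C x21657) x4161) x9993) x8373) x8589) x8517) x8541) x8533)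
    (Nat.add (Nat.add (Nat.add (Nat.add (Nat.add (Nat.add (Nat.add (Nat.add (Nat.add C x8541) x21663) x4167) x9999) x8379) x8595) x8523) x8559) x8535)
    (Nat.add (Nat.add (Nat.add (Nat.add (Nat.add (Nat.add C x21681) x4185) x10017) x8397) x8613) x8541)
    (Nat.add (Nat.add (Nat.add (Nat.add (Nat.add (Nat.add (Nat.add (Nat.add C (Nat.mul x8587 (nat_lit 2))) x21709) x4213) x10045) x8425) x8533) x8589) x28269)
    (Nat.add (Nat.add (Nat.add (Nat.add (Nat.add (Nat.add (Nat.add (Nat.add C (Nat.mul x8589 (nat_lit 2))) x21711) x4215) x10047) x8427) x8535) x8595) x8587)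
    (Nat.add (Nat.add (Nat.add (Nat.add (Nat.add (Nat.add (Nat.add (Nat.add C (Nat.mul x8595 (nat_lit 2))) x21717) x4221) x10053) x8433) x8541) x8613) x8589)
    (Nat.add (Nat.add (Nat.add (Nat.add (Nat.add (Nat.add (Nat.add (Nat.add C (Nat.mul x8613 (nat_lit 3))) x21735) x4239) x10071) x8451) x8559) x8667) x8595)
    (Nat.add (Nat.add (Nat.add (Nat.add (Nat.add C (Nat.mul x8667 (nat_lit 4))) x21789) x4293) x10125) x8613)
    (Nat.add (Nat.add (Nat.add (Nat.add (Nat.add (Nat.add (Nat.add (Nat.add C (Nat.mul x8765 (nat_lit 3))) x21887) x4391) x13139) x7307) x8783) x8771) x28447)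
    (Nat.add (Nat.add (Nat.add (Nat.add (Nat.add (Nat.add (Nat.add (Nat.add (Nat.add C x8771) x21893) x4397) x13145) x7313) x8789) x8765) x8773) x28453)
    (Nat.add (Nat.add (Nat.add (Nat.add (Nat.add (Nat.add (Nat.add (Nat.add C (Nat.mul x8773 (nat_lit 3))) x21895) x4399) x13147) x7315) x8791) x8771) x28455)
    (Nat.add (Nat.add (Nat.add (Nat.add (Nat.add (Nat.add (Nat.add (Nat.add (Nat.add C x8783) x21905) x4409) x13157) x7325) x8837) x8765) x8789) x28465)
    (Nat.add (Nat.add (Nat.add (Nat.add (Nat.add (Nat.add (Nat.add (Nat.add (Nat.add (Nat.add (Nat.add (Nat.add C x8789) x21911) x4415) x13163) x7331) x8843) x8771) x8807) x8783) x8795) x8791) x28471)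
    (Nat.add (Nat.add (Nat.add (Nat.add (Nat.add (Nat.add (Nat.add (Nat.add (Nat.add (Nat.add (Nat.add C (Nat.mul x8791 (nat_lit 2))) x21913) x4417) x13165) x7333) x8845) x8773) x8809) x8797) x8789) x28473)
    (Nat.sub (Nat.add (Nat.add (Nat.add (Nat.add (Nat.add (Nat.add (Nat.add (Nat.add (Nat.add C x21917) x4421) x13169) x7337) x8849) x8813) x8789) x8797) x28477) x8795)
    (Nat.add (Nat.add (Nat.add (Nat.add (Nat.add (Nat.add (Nat.add (Nat.add (Nat.add (Nat.add (Nat.add C (Nat.mul x8797 (nat_lit 2))) x21919) x4423) x13171) x7339) x8851) x8815) x8791) x8795) x8799) x28479)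
    (Nat.add (Nat.add (Nat.add (Nat.add (Nat.add (Nat.add (Nat.add (Nat.add C (Nat.mul x8799 (nat_lit 3))) x21921) x4425) x13173) x7341) x8853) x8817) x8797)
    (Nat.sub (Nat.add (Nat.add (Nat.add (Nat.add (Nat.add (Nat.add (Nat.add (Nat.add (Nat.add C x21929) x4433) x13181) x7349) x8861) x8789) x8813) x8809) x28489) x8807)
    (Nat.sub (Nat.add (Nat.add (Nat.add (Nat.add (Nat.add (Nat.add (Nat.add (Nat.add (Nat.add C x21931) x4435) x13183) x7351) x8863) x8791) x8815) x8807) x28491) x8809)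
    (Nat.sub (Nat.add (Nat.add (Nat.add (Nat.add (Nat.add (Nat.add (Nat.add (Nat.add (Nat.add C x21935) x4439) x13187) x7355) x8867) x8795) x8807) x8815) x28495) x8813)
    (Nat.add (Nat.add (Nat.add (Nat.add (Nat.add (Nat.add (Nat.add (Nat.add (Nat.add (Nat.add (Nat.add (Nat.add C x8815) x21937) x4441) x13189) x7357) x8869) x8797) x8809) x8821) x8813) x8817) x28497)
    (Nat.add (Nat.add (Nat.add (Nat.add (Nat.add (Nat.add (Nat.add (Nat.add (Nat.add C x8817) x21939) x4443) x13191) x7359) x8871) x8799) x8823) x8815)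
    (Nat.add (Nat.add (Nat.add (Nat.add (Nat.add (Nat.add (Nat.add (Nat.add (Nat.add C x8821) x21943) x4447) x13195) x7363) x8875) x8815) x8823) x28503)
    (Nat.add (Nat.add (Nat.add (Nat.add (Nat.add (Nat.add (Nat.add (Nat.add C (Nat.mul x8823 (nat_lit 3))) x21945) x4449) x13197) x7365) x8877) x8817) x8821)
    (Nat.add (Nat.add (Nat.add (Nat.add (Nat.add (Nat.add (Nat.add (Nat.add (Nat.add C x8837) x21959) x4463) x13211) x7379) x8999) x8783) x8843) x28519)
    (Nat.add (Nat.add (Nat.add (Nat.add (Nat.add (Nat.add (Nat.add (Nat.add (Nat.add (Nat.add (Nat.add C x21965) x4469) x13217) x7385) x9005) x8789) x8861) x8837) x8849) x8845) x28525)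
    (Nat.add (Nat.add (Nat.add (Nat.add (Nat.add (Nat.add (Nat.add (Nat.add (Nat.add (Nat.add (Nat.add C x8845) x21967) x4471) x13219) x7387) x9007) x8791) x8863) x8851) x8843) x28527)
    (Nat.sub (Nat.add (Nat.add (Nat.add (Nat.add (Nat.add (Nat.add (Nat.add (Nat.add (Nat.add (Nat.add C x21971) x4475) x13223) x7391) x9011) x8795) x8867) x8843) x8851) x28531) (Nat.mul x8849 (nat_lit 3)))
    (Nat.add (Nat.add (Nat.add (Nat.add (Nat.add (Nat.add (Nat.add (Nat.add (Nat.add (Nat.add (Nat.add C x21973) x4477) x13225) x7393) x9013) x8797) x8869) x8845) x8849) x8853) x28533)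
    (Nat.add (Nat.add (Nat.add (Nat.add (Nat.add (Nat.add (Nat.add (Nat.add (Nat.add C x8853) x21975) x4479) x13227) x7395) x9015) x8799) x8871) x8851)
    (Nat.add (Nat.add (Nat.add (Nat.add (Nat.add (Nat.add (Nat.add (Nat.add (Nat.add (Nat.add (Nat.add C x21983) x4487) x13235) x7403) x9023) x8807) x8915) x8843) x8867) x8863) x28543)
    (Nat.add (Nat.add (Nat.add (Nat.add (Nat.add (Nat.add (Nat.add (Nat.add (Nat.add (Nat.add (Nat.add C x21985) x4489) x13237) x7405) x9025) x8809) x8917) x8845) x8869) x8861) x28545)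
    (Nat.sub (Nat.add (Nat.add (Nat.add (Nat.add (Nat.add (Nat.add (Nat.add (Nat.add (Nat.add (Nat.add (Nat.add (Nat.add C x21989) x4493) x13241) x7409) x9029) x8813) x8921) x8849) x8885) x8861) x8869) x28549) x8867)
    (Nat.add (Nat.add (Nat.add (Nat.add (Nat.add (Nat.add (Nat.add (Nat.add (Nat.add (Nat.add (Nat.add (Nat.add (Nat.add (Nat.add (Nat.add C x8869) x21991) x4495) x13243) x7411) x9031) x8815) x8923) x8851) x8887) x8863) x8875) x8867) x8871) x28551)
    (Nat.add (Nat.add (Nat.add (Nat.add (Nat.add (Nat.add (Nat.add (Nat.add (Nat.add (Nat.add (Nat.add (Nat.add C x8871) x21993) x4497) x13245) x7413) x9033) x8817) x8925) x8853) x8889) x8877) x8869)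
    (Nat.add (Nat.add (Nat.add (Nat.add (Nat.add (Nat.add (Nat.add (Nat.add (Nat.add (Nat.add (Nat.add C x21997) x4501) x13249) x7417) x9037) x8821) x8929) x8893) x8869) x8877) x28557)
    (Nat.add (Nat.add (Nat.add (Nat.add (Nat.add (Nat.add (Nat.add (Nat.add (Nat.add (Nat.add (Nat.add C (Nat.mul x8877 (nat_lit 2))) x21999) x4503) x13251) x7419) x9039) x8823) x8931) x8895) x8871) x8875)
    (Nat.sub (Nat.add (Nat.add (Nat.add (Nat.add (Nat.add (Nat.add (Nat.add (Nat.add (Nat.add C x22007) x4511) x13259) x7427) x9047) x8939) x8867) x8887) x28567) x8885)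
    (Nat.add (Nat.add (Nat.add (Nat.add (Nat.add (Nat.add (Nat.add (Nat.add (Nat.add (Nat.add (Nat.add C x22009) x4513) x13261) x7429) x9049) x8941) x8869) x8893) x8885) x8889) x28569)
    (Nat.sub (Nat.add (Nat.add (Nat.add (Nat.add (Nat.add (Nat.add (Nat.add (Nat.add (Nat.add C x22011) x4515) x13263) x7431) x9051) x8943) x8871) x8895) x8887) x8889)
    (Nat.add (Nat.add (Nat.add (Nat.add (Nat.add (Nat.add (Nat.add (Nat.add (Nat.add (Nat.add (Nat.add C x8893) x22015) x4519) x13267) x7435) x9055) x8947) x8875) x8887) x8895) x28575)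
    (Nat.add (Nat.add (Nat.add (Nat.add (Nat.add (Nat.add (Nat.add (Nat.add (Nat.add (Nat.add (Nat.add C (Nat.mul x8895 (nat_lit 2))) x22017) x4521) x13269) x7437) x9057) x8949) x8877) x8889) x8901) x8893)
    (Nat.add (Nat.add (Nat.add (Nat.add (Nat.add (Nat.add (Nat.add (Nat.add C (Nat.mul x8901 (nat_lit 3))) x22023) x4527) x13275) x7443) x9063) x8955) x8895)
    (Nat.sub (Nat.add (Nat.add (Nat.add (Nat.add (Nat.add (Nat.add (Nat.add (Nat.add (Nat.add C x22037) x4541) x13289) x7457) x9077) x8861) x8921) x8917) x28597) x8915)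
    (Nat.sub (Nat.add (Nat.add (Nat.add (Nat.add (Nat.add (Nat.add (Nat.add (Nat.add (Nat.add C x22039) x4543) x13291) x7459) x9079) x8863) x8923) x8915) x28599) x8917)
    (Nat.sub (Nat.add (Nat.add (Nat.add (Nat.add (Nat.add (Nat.add (Nat.add (Nat.add (Nat.add (Nat.add C x22043) x4547) x13295) x7463) x9083) x8867) x8939) x8915) x8923) x28603) (Nat.mul x8921 (nat_lit 3)))
    (Nat.sub (Nat.add (Nat.add (Nat.add (Nat.add (Nat.add (Nat.add (Nat.add (Nat.add (Nat.add (Nat.add (Nat.add (Nat.add C x22045) x4549) x13297) x7465) x9085) x8869) x8941) x8917) x8929) x8921) x8925) x28605) x8923)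
    (Nat.sub (Nat.add (Nat.add (Nat.add (Nat.add (Nat.add (Nat.add (Nat.add (Nat.add (Nat.add C x22047) x4551) x13299) x7467) x9087) x8871) x8943) x8931) x8923) x8925)
    (Nat.sub (Nat.add (Nat.add (Nat.add (Nat.add (Nat.add (Nat.add (Nat.add (Nat.add (Nat.add (Nat.add C x22051) x4555) x13303) x7471) x9091) x8875) x8947) x8923) x8931) x28611) (Nat.mul x8929 (nat_lit 3)))
    (Nat.sub (Nat.add (Nat.add (Nat.add (Nat.add (Nat.add (Nat.add (Nat.add (Nat.add (Nat.add C x22053) x4557) x13305) x7473) x9093) x8877) x8949) x8925) x8929) x8931)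
    (Nat.sub (Nat.add (Nat.add (Nat.add (Nat.add (Nat.add (Nat.add (Nat.add (Nat.add (Nat.add C x22061) x4565) x13313) x7481) x9101) x8885) x8921) x8941) x28621) x8939)
    (Nat.add (Nat.add (Nat.add (Nat.add (Nat.add (Nat.add (Nat.add (Nat.add (Nat.add (Nat.add (Nat.add C x22063) x4567) x13315) x7483) x9103) x8887) x8923) x8947) x8939) x8943) x28623)
    (Nat.sub (Nat.add (Nat.add (Nat.add (Nat.add (Nat.add (Nat.add (Nat.add (Nat.add (Nat.add C x22065) x4569) x13317) x7485) x9105) x8889) x8925) x8949) x8941) x8943)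
    (Nat.add (Nat.add (Nat.add (Nat.add (Nat.add (Nat.add (Nat.add (Nat.add (Nat.add (Nat.add (Nat.add C x22069) x4573) x13321) x7489) x9109) x8893) x8929) x8965) x8941) x8949) x28629)
    (Nat.add (Nat.add (Nat.add (Nat.add (Nat.add (Nat.add (Nat.add (Nat.add (Nat.add (Nat.add (Nat.add (Nat.add C x8949) x22071) x4575) x13323) x7491) x9111) x8895) x8931) x8967) x8943) x8955) x8947)
    (Nat.add (Nat.add (Nat.add (Nat.add (Nat.add (Nat.add (Nat.add (Nat.add (Nat.add C x8955) x22077) x4581) x13329) x7497) x9117) x8901) x8973) x8949)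
    (Nat.add (Nat.add (Nat.add (Nat.add (Nat.add (Nat.add (Nat.add (Nat.add (Nat.add C x8965) x22087) x4591) x13339) x7507) x9127) x8947) x8967) x28647)
    (Nat.add (Nat.add (Nat.add (Nat.add (Nat.add (Nat.add (Nat.add (Nat.add (Nat.add C x8967) x22089) x4593) x13341) x7509) x9129) x8949) x8973) x8965)
    (Nat.add (Nat.add (Nat.add (Nat.add (Nat.add (Nat.add (Nat.add (Nat.add C (Nat.mul x8973 (nat_lit 3))) x22095) x4599) x13347) x7515) x9135) x8955) x8967)
    (Nat.add (Nat.add (Nat.add (Nat.add (Nat.add (Nat.add (Nat.add (Nat.add (Nat.add C x8999) x22121) x4625) x13373) x7541) x9485) x8837) x9005) x28681)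
    (Nat.add (Nat.add (Nat.add (Nat.add (Nat.add (Nat.add (Nat.add (Nat.add (Nat.add (Nat.add (Nat.add C x22127) x4631) x13379) x7547) x9491) x8843) x9023) x8999) x9011) x9007) x28687)
    (Nat.add (Nat.add (Nat.add (Nat.add (Nat.add (Nat.add (Nat.add (Nat.add (Nat.add (Nat.add (Nat.add C x9007) x22129) x4633) x13381) x7549) x9493) x8845) x9025) x9013) x9005) x28689)
    (Nat.sub (Nat.add (Nat.add (Nat.add (Nat.add (Nat.add (Nat.add (Nat.add (Nat.add (Nat.add (Nat.add C x22133) x4637) x13385) x7553) x9497) x8849) x9029) x9005) x9013) x28693) (Nat.mul x9011 (nat_lit 3)))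
    (Nat.add (Nat.add (Nat.add (Nat.add (Nat.add (Nat.add (Nat.add (Nat.add (Nat.add (Nat.add (Nat.add C x22135) x4639) x13387) x7555) x9499) x8851) x9031) x9007) x9011) x9015) x28695)
    (Nat.add (Nat.add (Nat.add (Nat.add (Nat.add (Nat.add (Nat.add (Nat.add (Nat.add C x9015) x22137) x4641) x13389) x7557) x9501) x8853) x9033) x9013)
    (Nat.sub (Nat.add (Nat.add (Nat.add (Nat.add (Nat.add (Nat.add (Nat.add (Nat.add (Nat.add (Nat.add (Nat.add C x22145) x4649) x13397) x7565) x9509) x8861) x9077) x9005) x9029) x9025) x28705) x9023)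
    (Nat.sub (Nat.add (Nat.add (Nat.add (Nat.add (Nat.add (Nat.add (Nat.add (Nat.add (Nat.add (Nat.add (Nat.add C x22147) x4651) x13399) x7567) x9511) x8863) x9079) x9007) x9031) x9023) x28707) x9025)
    (Nat.sub (Nat.add (Nat.add (Nat.add (Nat.add (Nat.add (Nat.add (Nat.add (Nat.add (Nat.add (Nat.add (Nat.add (Nat.add C x22151) x4655) x13403) x7571) x9515) x8867) x9083) x9011) x9047) x9023) x9031) x28711) (Nat.mul x9029 (nat_lit 2)))
    (Nat.add (Nat.add (Nat.add (Nat.add (Nat.add (Nat.add (Nat.add (Nat.add (Nat.add (Nat.add (Nat.add (Nat.add (Nat.add (Nat.add C x22153) x4657) x13405) x7573) x9517) x8869) x9085) x9013) x9049) x9025) x9037) x9029) x9033) x28713)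
    (Nat.add (Nat.add (Nat.add (Nat.add (Nat.add (Nat.add (Nat.add (Nat.add (Nat.add (Nat.add (Nat.add C x22155) x4659) x13407) x7575) x9519) x8871) x9087) x9015) x9051) x9039) x9031)
    (Nat.sub (Nat.add (Nat.add (Nat.add (Nat.add (Nat.add (Nat.add (Nat.add (Nat.add (Nat.add (Nat.add (Nat.add C x22159) x4663) x13411) x7579) x9523) x8875) x9091) x9055) x9031) x9039) x28719) x9037)
    (Nat.add (Nat.add (Nat.add (Nat.add (Nat.add (Nat.add (Nat.add (Nat.add (Nat.add (Nat.add (Nat.add C x9039) x22161) x4665) x13413) x7581) x9525) x8877) x9093) x9057) x9033) x9037)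
    (Nat.sub (Nat.add (Nat.add (Nat.add (Nat.add (Nat.add (Nat.add (Nat.add (Nat.add (Nat.add (Nat.add C x22169) x4673) x13421) x7589) x9533) x8885) x9101) x9029) x9049) x28729) (Nat.mul x9047 (nat_lit 3)))
    (Nat.sub (Nat.add (Nat.add (Nat.add (Nat.add (Nat.add (Nat.add (Nat.add (Nat.add (Nat.add (Nat.add (Nat.add (Nat.add C x22171) x4675) x13423) x7591) x9535) x8887) x9103) x9031) x9055) x9047) x9051) x28731) (Nat.mul x9049 (nat_lit 2)))
    (Nat.sub (Nat.add (Nat.add (Nat.add (Nat.add (Nat.add (Nat.add (Nat.add (Nat.add (Nat.add (Nat.add C x22173) x4677) x13425) x7593) x9537) x8889) x9105) x9033) x9057) x9049) (Nat.mul x9051 (nat_lit 3)))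
    (Nat.sub (Nat.add (Nat.add (Nat.add (Nat.add (Nat.add (Nat.add (Nat.add (Nat.add (Nat.add (Nat.add (Nat.add C x22177) x4681) x13429) x7597) x9541) x8893) x9109) x9037) x9049) x9057) x28737) x9055)
    (Nat.add (Nat.add (Nat.add (Nat.add (Nat.add (Nat.add (Nat.add (Nat.add (Nat.add (Nat.add (Nat.add C x22179) x4683) x13431) x7599) x9543) x8895) x9111) x9039) x9051) x9063) x9055)
    (Nat.add (Nat.add (Nat.add (Nat.add (Nat.add (Nat.add (Nat.add (Nat.add (Nat.add C x9063) x22185) x4689) x13437) x7605) x9549) x8901) x9117) x9057)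
    (Nat.add (Nat.add (Nat.add (Nat.add (Nat.add (Nat.add (Nat.add (Nat.add (Nat.add (Nat.add (Nat.add C x22199) x4703) x13451) x7619) x9563) x8915) x9239) x9023) x9083) x9079) x28759)
    (Nat.add (Nat.add (Nat.add (Nat.add (Nat.add (Nat.add (Nat.add (Nat.add (Nat.add (Nat.add (Nat.add C x22201) x4705) x13453) x7621) x9565) x8917) x9241) x9025) x9085) x9077) x28761)
    (Nat.sub (Nat.add (Nat.add (Nat.add (Nat.add (Nat.add (Nat.add (Nat.add (Nat.add (Nat.add (Nat.add (Nat.add (Nat.add C x22205) x4709) x13457) x7625) x9569) x8921) x9245) x9029) x9101) x9077) x9085) x28765) (Nat.mul x9083 (nat_lit 2)))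
    (Nat.sub (Nat.add (Nat.add (Nat.add (Nat.add (Nat.add (Nat.add (Nat.add (Nat.add (Nat.add (Nat.add (Nat.add (Nat.add (Nat.add (Nat.add (Nat.add C x22207) x4711) x13459) x7627) x9571) x8923) x9247) x9031) x9103) x9079) x9091) x9083) x9087) x28767) (Nat.mul (e (nat_lit 9085)) ap)) (Nat.mul (e (nat_lit 9085)) an))
    (Nat.add (Nat.add (Nat.add (Nat.add (Nat.add (Nat.add (Nat.add (Nat.add (Nat.add (Nat.add (Nat.add C x22209) x4713) x13461) x7629) x9573) x8925) x9249) x9033) x9105) x9093) x9085)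
    (Nat.sub (Nat.add (Nat.add (Nat.add (Nat.add (Nat.add (Nat.add (Nat.add (Nat.add (Nat.add (Nat.add (Nat.add (Nat.add C x22213) x4717) x13465) x7633) x9577) x8929) x9253) x9037) x9109) x9085) x9093) x28773) (Nat.mul x9091 (nat_lit 2)))
    (Nat.add (Nat.add (Nat.add (Nat.add (Nat.add (Nat.add (Nat.add (Nat.add (Nat.add (Nat.add (Nat.add C x22215) x4719) x13467) x7635) x9579) x8931) x9255) x9039) x9111) x9087) x9091)
    (Nat.sub (Nat.add (Nat.add (Nat.add (Nat.add (Nat.add (Nat.add (Nat.add (Nat.add (Nat.add (Nat.add (Nat.add (Nat.add C x22223) x4727) x13475) x7643) x9587) x8939) x9263) x9047) x9155) x9083) x9103) x28783) x9101)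
    (Nat.add (Nat.add (Nat.add (Nat.add (Nat.add (Nat.add (Nat.add (Nat.add (Nat.add (Nat.add (Nat.add (Nat.add (Nat.add (Nat.add C x22225) x4729) x13477) x7645) x9589) x8941) x9265) x9049) x9157) x9085) x9109) x9101) x9105) x28785)
    (Nat.sub (Nat.add (Nat.add (Nat.add (Nat.add (Nat.add (Nat.add (Nat.add (Nat.add (Nat.add (Nat.add (Nat.add (Nat.add C x22227) x4731) x13479) x7647) x9591) x8943) x9267) x9051) x9159) x9087) x9111) x9103) x9105)
    (Nat.add (Nat.add (Nat.add (Nat.add (Nat.add (Nat.add (Nat.add (Nat.add (Nat.add (Nat.add (Nat.add (Nat.add (Nat.add (Nat.add C x22231) x4735) x13483) x7651) x9595) x8947) x9271) x9055) x9163) x9091) x9127) x9103) x9111) x28791)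
    (Nat.add (Nat.add (Nat.add (Nat.add (Nat.add (Nat.add (Nat.add (Nat.add (Nat.add (Nat.add (Nat.add (Nat.add (Nat.add (Nat.add (Nat.add C x9111) x22233) x4737) x13485) x7653) x9597) x8949) x9273) x9057) x9165) x9093) x9129) x9105) x9117) x9109)
    (Nat.add (Nat.add (Nat.add (Nat.add (Nat.add (Nat.add (Nat.add (Nat.add (Nat.add (Nat.add (Nat.add (Nat.add C x9117) x22239) x4743) x13491) x7659) x9603) x8955) x9279) x9063) x9171) x9135) x9111)
    (Nat.add (Nat.add (Nat.add (Nat.add (Nat.add (Nat.add (Nat.add (Nat.add (Nat.add (Nat.add (Nat.add C x22249) x4753) x13501) x7669) x9613) x8965) x9289) x9181) x9109) x9129) x28809)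
    (Nat.add (Nat.add (Nat.add (Nat.add (Nat.add (Nat.add (Nat.add (Nat.add (Nat.add (Nat.add (Nat.add C x22251) x4755) x13503) x7671) x9615) x8967) x9291) x9183) x9111) x9135) x9127)
    (Nat.add (Nat.add (Nat.add (Nat.add (Nat.add (Nat.add (Nat.add (Nat.add (Nat.add (Nat.add (Nat.add C (Nat.mul x9135 (nat_lit 2))) x22257) x4761) x13509) x7677) x9621) x8973) x9297) x9189) x9117) x9129)
    (Nat.sub (Nat.add (Nat.add (Nat.add (Nat.add (Nat.add (Nat.add (Nat.add (Nat.add (Nat.add C x22277) x4781) x13529) x7697) x9641) x9317) x9101) x9157) x28837) x9155)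
    (Nat.add (Nat.add (Nat.add (Nat.add (Nat.add (Nat.add (Nat.add (Nat.add (Nat.add (Nat.add (Nat.add C x22279) x4783) x13531) x7699) x9643) x9319) x9103) x9163) x9155) x9159) x28839)
    (Nat.sub (Nat.add (Nat.add (Nat.add (Nat.add (Nat.add (Nat.add (Nat.add (Nat.add (Nat.add C x22281) x4785) x13533) x7701) x9645) x9321) x9105) x9165) x9157) x9159)
    (Nat.sub (Nat.add (Nat.add (Nat.add (Nat.add (Nat.add (Nat.add (Nat.add (Nat.add (Nat.add (Nat.add (Nat.add C x22285) x4789) x13537) x7705) x9649) x9325) x9109) x9181) x9157) x9165) x28845) x9163)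
    (Nat.add (Nat.add (Nat.add (Nat.add (Nat.add (Nat.add (Nat.add (Nat.add (Nat.add (Nat.add (Nat.add C x22287) x4791) x13539) x7707) x9651) x9327) x9111) x9183) x9159) x9171) x9163)
    (Nat.sub (Nat.add (Nat.add (Nat.add (Nat.add (Nat.add (Nat.add (Nat.add (Nat.add (Nat.add C x22293) x4797) x13545) x7713) x9657) x9333) x9117) x9189) x9165) x9171)
    (Nat.add (Nat.add (Nat.add (Nat.add (Nat.add (Nat.add (Nat.add (Nat.add (Nat.add (Nat.add (Nat.add C x9181) x22303) x4807) x13555) x7723) x9667) x9343) x9127) x9163) x9183) x28863)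
    (Nat.add (Nat.add (Nat.add (Nat.add (Nat.add (Nat.add (Nat.add (Nat.add (Nat.add (Nat.add (Nat.add C x9183) x22305) x4809) x13557) x7725) x9669) x9345) x9129) x9165) x9189) x9181)
    (Nat.add (Nat.add (Nat.add (Nat.add (Nat.add (Nat.add (Nat.add (Nat.add (Nat.add (Nat.add (Nat.add C (Nat.mul x9189 (nat_lit 2))) x22311) x4815) x13563) x7731) x9675) x9351) x9135) x9171) x9207) x9183)
    (Nat.add (Nat.add (Nat.add (Nat.add (Nat.add (Nat.add (Nat.add (Nat.add C (Nat.mul x9207 (nat_lit 3))) x22329) x4833) x13581) x7749) x9693) x9369) x9189)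
    (Nat.sub (Nat.add (Nat.add (Nat.add (Nat.add (Nat.add (Nat.add (Nat.add (Nat.add (Nat.add C x22361) x4865) x13613) x7781) x9725) x9077) x9245) x9241) x28921) x9239)
    (Nat.sub (Nat.add (Nat.add (Nat.add (Nat.add (Nat.add (Nat.add (Nat.add (Nat.add (Nat.add C x22363) x4867) x13615) x7783) x9727) x9079) x9247) x9239) x28923) x9241)
    (Nat.sub (Nat.add (Nat.add (Nat.add (Nat.add (Nat.add (Nat.add (Nat.add (Nat.add (Nat.add (Nat.add C x22367) x4871) x13619) x7787) x9731) x9083) x9263) x9239) x9247) x28927) (Nat.mul x9245 (nat_lit 3)))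
    (Nat.sub (Nat.add (Nat.add (Nat.add (Nat.add (Nat.add (Nat.add (Nat.add (Nat.add (Nat.add (Nat.add (Nat.add (Nat.add C x22369) x4873) x13621) x7789) x9733) x9085) x9265) x9241) x9253) x9245) x9249) x28929) x9247)
    (Nat.sub (Nat.add (Nat.add (Nat.add (Nat.add (Nat.add (Nat.add (Nat.add (Nat.add (Nat.add C x22371) x4875) x13623) x7791) x9735) x9087) x9267) x9255) x9247) x9249)
    (Nat.sub (Nat.add (Nat.add (Nat.add (Nat.add (Nat.add (Nat.add (Nat.add (Nat.add (Nat.add (Nat.add C x22375) x4879) x13627) x7795) x9739) x9091) x9271) x9247) x9255) x28935) (Nat.mul x9253 (nat_lit 3)))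
    (Nat.sub (Nat.add (Nat.add (Nat.add (Nat.add (Nat.add (Nat.add (Nat.add (Nat.add (Nat.add C x22377) x4881) x13629) x7797) x9741) x9093) x9273) x9249) x9253) x9255)
    (Nat.sub (Nat.add (Nat.add (Nat.add (Nat.add (Nat.add (Nat.add (Nat.add (Nat.add (Nat.add (Nat.add C x22385) x4889) x13637) x7805) x9749) x9101) x9317) x9245) x9265) x28945) (Nat.mul x9263 (nat_lit 3)))
    (Nat.sub (Nat.add (Nat.add (Nat.add (Nat.add (Nat.add (Nat.add (Nat.add (Nat.add (Nat.add (Nat.add (Nat.add (Nat.add C x22387) x4891) x13639) x7807) x9751) x9103) x9319) x9247) x9271) x9263) x9267) x28947) (Nat.mul x9265 (nat_lit 2)))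
    (Nat.sub (Nat.add (Nat.add (Nat.add (Nat.add (Nat.add (Nat.add (Nat.add (Nat.add (Nat.add (Nat.add C x22389) x4893) x13641) x7809) x9753) x9105) x9321) x9249) x9273) x9265) (Nat.mul x9267 (nat_lit 3)))
    (Nat.sub (Nat.add (Nat.add (Nat.add (Nat.add (Nat.add (Nat.add (Nat.add (Nat.add (Nat.add (Nat.add (Nat.add (Nat.add C x22393) x4897) x13645) x7813) x9757) x9109) x9325) x9253) x9289) x9265) x9273) x28953) (Nat.mul x9271 (nat_lit 2)))
    (Nat.sub (Nat.add (Nat.add (Nat.add (Nat.add (Nat.add (Nat.add (Nat.add (Nat.add (Nat.add (Nat.add (Nat.add (Nat.add C x22395) x4899) x13647) x7815) x9759) x9111) x9327) x9255) x9291) x9267) x9279) x9271) x9273)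
    (Nat.sub (Nat.add (Nat.add (Nat.add (Nat.add (Nat.add (Nat.add (Nat.add (Nat.add (Nat.add C x22401) x4905) x13653) x7821) x9765) x9117) x9333) x9297) x9273) x9279)
    (Nat.sub (Nat.add (Nat.add (Nat.add (Nat.add (Nat.add (Nat.add (Nat.add (Nat.add (Nat.add (Nat.add C x22411) x4915) x13663) x7831) x9775) x9127) x9343) x9271) x9291) x28971) (Nat.mul x9289 (nat_lit 3)))
    (Nat.sub (Nat.add (Nat.add (Nat.add (Nat.add (Nat.add (Nat.add (Nat.add (Nat.add (Nat.add (Nat.add C x22413) x4917) x13665) x7833) x9777) x9129) x9345) x9273) x9297) x9289) (Nat.mul x9291 (nat_lit 3)))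
    (Nat.sub (Nat.add (Nat.add (Nat.add (Nat.add (Nat.add (Nat.add (Nat.add (Nat.add (Nat.add C x22419) x4923) x13671) x7839) x9783) x9135) x9351) x9279) x9291) x9297)
    (Nat.sub (Nat.add (Nat.add (Nat.add (Nat.add (Nat.add (Nat.add (Nat.add (Nat.add (Nat.add C x22439) x4943) x13691) x7859) x9803) x9155) x9263) x9319) x28999) x9317)
    (Nat.add (Nat.add (Nat.add (Nat.add (Nat.add (Nat.add (Nat.add (Nat.add (Nat.add (Nat.add (Nat.add C x22441) x4945) x13693) x7861) x9805) x9157) x9265) x9325) x9317) x9321) x29001)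
    (Nat.sub (Nat.add (Nat.add (Nat.add (Nat.add (Nat.add (Nat.add (Nat.add (Nat.add (Nat.add C x22443) x4947) x13695) x7863) x9807) x9159) x9267) x9327) x9319) x9321)
    (Nat.sub (Nat.add (Nat.add (Nat.add (Nat.add (Nat.add (Nat.add (Nat.add (Nat.add (Nat.add (Nat.add (Nat.add C x22447) x4951) x13699) x7867) x9811) x9163) x9271) x9343) x9319) x9327) x29007) x9325)
    (Nat.add (Nat.add (Nat.add (Nat.add (Nat.add (Nat.add (Nat.add (Nat.add (Nat.add (Nat.add (Nat.add C x22449) x4953) x13701) x7869) x9813) x9165) x9273) x9345) x9321) x9333) x9325)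
    (Nat.sub (Nat.add (Nat.add (Nat.add (Nat.add (Nat.add (Nat.add (Nat.add (Nat.add (Nat.add C x22455) x4959) x13707) x7875) x9819) x9171) x9279) x9351) x9327) x9333)
    (Nat.add (Nat.add (Nat.add (Nat.add (Nat.add (Nat.add (Nat.add (Nat.add (Nat.add (Nat.add (Nat.add C x22465) x4969) x13717) x7885) x9829) x9181) x9289) x9397) x9325) x9345) x29025)
    (Nat.add (Nat.add (Nat.add (Nat.add (Nat.add (Nat.add (Nat.add (Nat.add (Nat.add (Nat.add (Nat.add C x22467) x4971) x13719) x7887) x9831) x9183) x9291) x9399) x9327) x9351) x9343)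
    (Nat.add (Nat.add (Nat.add (Nat.add (Nat.add (Nat.add (Nat.add (Nat.add (Nat.add (Nat.add (Nat.add (Nat.add C x9351) x22473) x4977) x13725) x7893) x9837) x9189) x9297) x9405) x9333) x9369) x9345)
    (Nat.add (Nat.add (Nat.add (Nat.add (Nat.add (Nat.add (Nat.add (Nat.add (Nat.add C x9369) x22491) x4995) x13743) x7911) x9855) x9207) x9423) x9351)
    (Nat.add (Nat.add (Nat.add (Nat.add (Nat.add (Nat.add (Nat.add (Nat.add (Nat.add C x9397) x22519) x5023) x13771) x7939) x9883) x9343) x9399) x29079)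
    (Nat.add (Nat.add (Nat.add (Nat.add (Nat.add (Nat.add (Nat.add (Nat.add (Nat.add C x9399) x22521) x5025) x13773) x7941) x9885) x9345) x9405) x9397)
    (Nat.add (Nat.add (Nat.add (Nat.add (Nat.add (Nat.add (Nat.add (Nat.add (Nat.add C x9405) x22527) x5031) x13779) x7947) x9891) x9351) x9423) x9399)
    (Nat.add (Nat.add (Nat.add (Nat.add (Nat.add (Nat.add (Nat.add (Nat.add C (Nat.mul x9423 (nat_lit 3))) x22545) x5049) x13797) x7965) x9909) x9369) x9405)
    (Nat.add (Nat.add (Nat.add (Nat.add (Nat.add (Nat.add (Nat.add (Nat.add (Nat.add C (Nat.mul x9485 (nat_lit 2))) x22607) x5111) x13859) x8027) x10943) x8999) x9491) x29167)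
    (Nat.add (Nat.add (Nat.add (Nat.add (Nat.add (Nat.add (Nat.add (Nat.add (Nat.add (Nat.add (Nat.add (Nat.add C x9491) x22613) x5117) x13865) x8033) x10949) x9005) x9509) x9485) x9497) x9493) x29173)
    (Nat.add (Nat.add (Nat.add (Nat.add (Nat.add (Nat.add (Nat.add (Nat.add (Nat.add (Nat.add (Nat.add C (Nat.mul x9493 (nat_lit 2))) x22615) x5119) x13867) x8035) x10951) x9007) x9511) x9499) x9491) x29175)
    (Nat.sub (Nat.add (Nat.add (Nat.add (Nat.add (Nat.add (Nat.add (Nat.add (Nat.add (Nat.add (Nat.add C x22619) x5123) x13871) x8039) x10955) x9011) x9515) x9491) x9499) x29179) (Nat.mul x9497 (nat_lit 2)))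
    (Nat.add (Nat.add (Nat.add (Nat.add (Nat.add (Nat.add (Nat.add (Nat.add (Nat.add (Nat.add (Nat.add (Nat.add C x9499) x22621) x5125) x13873) x8041) x10957) x9013) x9517) x9493) x9497) x9501) x29181)
    (Nat.add (Nat.add (Nat.add (Nat.add (Nat.add (Nat.add (Nat.add (Nat.add (Nat.add C (Nat.mul x9501 (nat_lit 2))) x22623) x5127) x13875) x8043) x10959) x9015) x9519) x9499)
    (Nat.add (Nat.add (Nat.add (Nat.add (Nat.add (Nat.add (Nat.add (Nat.add (Nat.add (Nat.add (Nat.add C x22631) x5135) x13883) x8051) x10967) x9023) x9563) x9491) x9515) x9511) x29191)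
    (Nat.add (Nat.add (Nat.add (Nat.add (Nat.add (Nat.add (Nat.add (Nat.add (Nat.add (Nat.add (Nat.add C x22633) x5137) x13885) x8053) x10969) x9025) x9565) x9493) x9517) x9509) x29193)
    (Nat.sub (Nat.add (Nat.add (Nat.add (Nat.add (Nat.add (Nat.add (Nat.add (Nat.add (Nat.add (Nat.add (Nat.add (Nat.add C x22637) x5141) x13889) x8057) x10973) x9029) x9569) x9497) x9533) x9509) x9517) x29197) x9515)
    (Nat.add (Nat.add (Nat.add (Nat.add (Nat.add (Nat.add (Nat.add (Nat.add (Nat.add (Nat.add (Nat.add (Nat.add (Nat.add (Nat.add (Nat.add C x9517) x22639) x5143) x13891) x8059) x10975) x9031) x9571) x9499) x9535) x9511) x9523) x9515) x9519) x29199)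
    (Nat.add (Nat.add (Nat.add (Nat.add (Nat.add (Nat.add (Nat.add (Nat.add (Nat.add (Nat.add (Nat.add (Nat.add C x9519) x22641) x5145) x13893) x8061) x10977) x9033) x9573) x9501) x9537) x9525) x9517)
    (Nat.add (Nat.add (Nat.add (Nat.add (Nat.add (Nat.add (Nat.add (Nat.add (Nat.add (Nat.add (Nat.add C x22645) x5149) x13897) x8065) x10981) x9037) x9577) x9541) x9517) x9525) x29205)
    (Nat.add (Nat.add (Nat.add (Nat.add (Nat.add (Nat.add (Nat.add (Nat.add (Nat.add (Nat.add (Nat.add C (Nat.mul x9525 (nat_lit 2))) x22647) x5151) x13899) x8067) x10983) x9039) x9579) x9543) x9519) x9523)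
    (Nat.sub (Nat.add (Nat.add (Nat.add (Nat.add (Nat.add (Nat.add (Nat.add (Nat.add (Nat.add (Nat.add C x22655) x5159) x13907) x8075) x10991) x9047) x9587) x9515) x9535) x29215) (Nat.mul x9533 (nat_lit 2)))
    (Nat.sub (Nat.add (Nat.add (Nat.add (Nat.add (Nat.add (Nat.add (Nat.add (Nat.add (Nat.add (Nat.add (Nat.add (Nat.add C x22657) x5161) x13909) x8077) x10993) x9049) x9589) x9517) x9541) x9533) x9537) x29217) x9535)
    (Nat.sub (Nat.add (Nat.add (Nat.add (Nat.add (Nat.add (Nat.add (Nat.add (Nat.add (Nat.add (Nat.add C x22659) x5163) x13911) x8079) x10995) x9051) x9591) x9519) x9543) x9535) (Nat.mul x9537 (nat_lit 2)))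
    (Nat.add (Nat.add (Nat.add (Nat.add (Nat.add (Nat.add (Nat.add (Nat.add (Nat.add (Nat.add (Nat.add C x22663) x5167) x13915) x8083) x10999) x9055) x9595) x9523) x9535) x9543) x29223)
    (Nat.add (Nat.add (Nat.add (Nat.add (Nat.add (Nat.add (Nat.add (Nat.add (Nat.add (Nat.add (Nat.add (Nat.add C x9543) x22665) x5169) x13917) x8085) x11001) x9057) x9597) x9525) x9537) x9549) x9541)
    (Nat.add (Nat.add (Nat.add (Nat.add (Nat.add (Nat.add (Nat.add (Nat.add (Nat.add C (Nat.mul x9549 (nat_lit 2))) x22671) x5175) x13923) x8091) x11007) x9063) x9603) x9543)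
    (Nat.add (Nat.add (Nat.add (Nat.add (Nat.add (Nat.add (Nat.add (Nat.add (Nat.add (Nat.add (Nat.add C x22685) x5189) x13937) x8105) x11021) x9077) x9725) x9509) x9569) x9565) x29245)
    (Nat.add (Nat.add (Nat.add (Nat.add (Nat.add (Nat.add (Nat.add (Nat.add (Nat.add (Nat.add (Nat.add C x22687) x5191) x13939) x8107) x11023) x9079) x9727) x9511) x9571) x9563) x29247)
    (Nat.sub (Nat.add (Nat.add (Nat.add (Nat.add (Nat.add (Nat.add (Nat.add (Nat.add (Nat.add (Nat.add (Nat.add (Nat.add C x22691) x5195) x13943) x8111) x11027) x9083) x9731) x9515) x9587) x9563) x9571) x29251) (Nat.mul x9569 (nat_lit 2)))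
    (Nat.add (Nat.add (Nat.add (Nat.add (Nat.add (Nat.add (Nat.add (Nat.add (Nat.add (Nat.add (Nat.add (Nat.add (Nat.add (Nat.add C x22693) x5197) x13945) x8113) x11029) x9085) x9733) x9517) x9589) x9565) x9577) x9569) x9573) x29253)
    (Nat.add (Nat.add (Nat.add (Nat.add (Nat.add (Nat.add (Nat.add (Nat.add (Nat.add (Nat.add (Nat.add C x22695) x5199) x13947) x8115) x11031) x9087) x9735) x9519) x9591) x9579) x9571)
    (Nat.sub (Nat.add (Nat.add (Nat.add (Nat.add (Nat.add (Nat.add (Nat.add (Nat.add (Nat.add (Nat.add (Nat.add (Nat.add C x22699) x5203) x13951) x8119) x11035) x9091) x9739) x9523) x9595) x9571) x9579) x29259) (Nat.mul x9577 (nat_lit 2)))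
    (Nat.add (Nat.add (Nat.add (Nat.add (Nat.add (Nat.add (Nat.add (Nat.add (Nat.add (Nat.add (Nat.add C x22701) x5205) x13953) x8121) x11037) x9093) x9741) x9525) x9597) x9573) x9577)
    (Nat.sub (Nat.add (Nat.add (Nat.add (Nat.add (Nat.add (Nat.add (Nat.add (Nat.add (Nat.add (Nat.add (Nat.add (Nat.add C x22709) x5213) x13961) x8129) x11045) x9101) x9749) x9533) x9641) x9569) x9589) x29269) x9587)
    (Nat.add (Nat.add (Nat.add (Nat.add (Nat.add (Nat.add (Nat.add (Nat.add (Nat.add (Nat.add (Nat.add (Nat.add (Nat.add (Nat.add C x22711) x5215) x13963) x8131) x11047) x9103) x9751) x9535) x9643) x9571) x9595) x9587) x9591) x29271)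
    (Nat.sub (Nat.add (Nat.add (Nat.add (Nat.add (Nat.add (Nat.add (Nat.add (Nat.add (Nat.add (Nat.add (Nat.add (Nat.add C x22713) x5217) x13965) x8133) x11049) x9105) x9753) x9537) x9645) x9573) x9597) x9589) x9591)
    (Nat.add (Nat.add (Nat.add (Nat.add (Nat.add (Nat.add (Nat.add (Nat.add (Nat.add (Nat.add (Nat.add (Nat.add (Nat.add (Nat.add C x22717) x5221) x13969) x8137) x11053) x9109) x9757) x9541) x9649) x9577) x9613) x9589) x9597) x29277)
    (Nat.add (Nat.add (Nat.add (Nat.add (Nat.add (Nat.add (Nat.add (Nat.add (Nat.add (Nat.add (Nat.add (Nat.add (Nat.add (Nat.add (Nat.add C x9597) x22719) x5223) x13971) x8139) x11055) x9111) x9759) x9543) x9651) x9579) x9615) x9591) x9603) x9595)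
    (Nat.add (Nat.add (Nat.add (Nat.add (Nat.add (Nat.add (Nat.add (Nat.add (Nat.add (Nat.add (Nat.add (Nat.add C x9603) x22725) x5229) x13977) x8145) x11061) x9117) x9765) x9549) x9657) x9621) x9597)
    (Nat.add (Nat.add (Nat.add (Nat.add (Nat.add (Nat.add (Nat.add (Nat.add (Nat.add (Nat.add (Nat.add C x22735) x5239) x13987) x8155) x11071) x9127) x9775) x9667) x9595) x9615) x29295)
    (Nat.add (Nat.add (Nat.add (Nat.add (Nat.add (Nat.add (Nat.add (Nat.add (Nat.add (Nat.add (Nat.add C x22737) x5241) x13989) x8157) x11073) x9129) x9777) x9669) x9597) x9621) x9613)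
    (Nat.add (Nat.add (Nat.add (Nat.add (Nat.add (Nat.add (Nat.add (Nat.add (Nat.add (Nat.add (Nat.add C (Nat.mul x9621 (nat_lit 2))) x22743) x5247) x13995) x8163) x11079) x9135) x9783) x9675) x9603) x9615)
    (Nat.sub (Nat.add (Nat.add (Nat.add (Nat.add (Nat.add (Nat.add (Nat.add (Nat.add (Nat.add (Nat.add C x22763) x5267) x14015) x8183) x11099) x9155) x9803) x9587) x9643) x29323) (Nat.mul x9641 (nat_lit 2)))
    (Nat.sub (Nat.add (Nat.add (Nat.add (Nat.add (Nat.add (Nat.add (Nat.add (Nat.add (Nat.add (Nat.add (Nat.add (Nat.add C x22765) x5269) x14017) x8185) x11101) x9157) x9805) x9589) x9649) x9641) x9645) x29325) x9643)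
    (Nat.sub (Nat.add (Nat.add (Nat.add (Nat.add (Nat.add (Nat.add (Nat.add (Nat.add (Nat.add (Nat.add C x22767) x5271) x14019) x8187) x11103) x9159) x9807) x9591) x9651) x9643) (Nat.mul x9645 (nat_lit 2)))
    (Nat.sub (Nat.add (Nat.add (Nat.add (Nat.add (Nat.add (Nat.add (Nat.add (Nat.add (Nat.add (Nat.add (Nat.add (Nat.add C x22771) x5275) x14023) x8191) x11107) x9163) x9811) x9595) x9667) x9643) x9651) x29331) (Nat.mul x9649 (nat_lit 2)))
    (Nat.sub (Nat.add (Nat.add (Nat.add (Nat.add (Nat.add (Nat.add (Nat.add (Nat.add (Nat.add (Nat.add (Nat.add (Nat.add C x22773) x5277) x14025) x8193) x11109) x9165) x9813) x9597) x9669) x9645) x9657) x9649) x9651)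
    (Nat.sub (Nat.add (Nat.add (Nat.add (Nat.add (Nat.add (Nat.add (Nat.add (Nat.add (Nat.add (Nat.add C x22779) x5283) x14031) x8199) x11115) x9171) x9819) x9603) x9675) x9651) (Nat.mul x9657 (nat_lit 2)))
    (Nat.add (Nat.add (Nat.add (Nat.add (Nat.add (Nat.add (Nat.add (Nat.add (Nat.add (Nat.add (Nat.add C x22789) x5293) x14041) x8209) x11125) x9181) x9829) x9613) x9649) x9669) x29349)
    (Nat.add (Nat.add (Nat.add (Nat.add (Nat.add (Nat.add (Nat.add (Nat.add (Nat.add (Nat.add (Nat.add C x22791) x5295) x14043) x8211) x11127) x9183) x9831) x9615) x9651) x9675) x9667)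
    (Nat.add (Nat.add (Nat.add (Nat.add (Nat.add (Nat.add (Nat.add (Nat.add (Nat.add (Nat.add (Nat.add (Nat.add C x9675) x22797) x5301) x14049) x8217) x11133) x9189) x9837) x9621) x9657) x9693) x9669)
    (Nat.add (Nat.add (Nat.add (Nat.add (Nat.add (Nat.add (Nat.add (Nat.add (Nat.add C (Nat.mul x9693 (nat_lit 2))) x22815) x5319) x14067) x8235) x11151) x9207) x9855) x9675)
    (Nat.add (Nat.add (Nat.add (Nat.add (Nat.add (Nat.add (Nat.add (Nat.add (Nat.add (Nat.add (Nat.add (Nat.add C x9725) x22847) x5351) x14099) x8267) x11183) x9239) x10211) x9563) x9731) x9727) x29407)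
    (Nat.add (Nat.add (Nat.add (Nat.add (Nat.add (Nat.add (Nat.add (Nat.add (Nat.add (Nat.add (Nat.add (Nat.add C x9727) x22849) x5353) x14101) x8269) x11185) x9241) x10213) x9565) x9733) x9725) x29409)
    (Nat.sub (Nat.add (Nat.add (Nat.add (Nat.add (Nat.add (Nat.add (Nat.add (Nat.add (Nat.add (Nat.add (Nat.add (Nat.add C x22853) x5357) x14105) x8273) x11189) x9245) x10217) x9569) x9749) x9725) x9733) x29413) x9731)
    (Nat.add (Nat.add (Nat.add (Nat.add (Nat.add (Nat.add (Nat.add (Nat.add (Nat.add (Nat.add (Nat.add (Nat.add (Nat.add (Nat.add (Nat.add C x9733) x22855) x5359) x14107) x8275) x11191) x9247) x10219) x9571) x9751) x9727) x9739) x9731) x9735) x29415)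
    (Nat.add (Nat.add (Nat.add (Nat.add (Nat.add (Nat.add (Nat.add (Nat.add (Nat.add (Nat.add (Nat.add (Nat.add C x9735) x22857) x5361) x14109) x8277) x11193) x9249) x10221) x9573) x9753) x9741) x9733)
    (Nat.sub (Nat.add (Nat.add (Nat.add (Nat.add (Nat.add (Nat.add (Nat.add (Nat.add (Nat.add (Nat.add (Nat.add (Nat.add C x22861) x5365) x14113) x8281) x11197) x9253) x10225) x9577) x9757) x9733) x9741) x29421) x9739)
    (Nat.add (Nat.add (Nat.add (Nat.add (Nat.add (Nat.add (Nat.add (Nat.add (Nat.add (Nat.add (Nat.add (Nat.add C x9741) x22863) x5367) x14115) x8283) x11199) x9255) x10227) x9579) x9759) x9735) x9739)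
    (Nat.sub (Nat.add (Nat.add (Nat.add (Nat.add (Nat.add (Nat.add (Nat.add (Nat.add (Nat.add (Nat.add (Nat.add (Nat.add C x22871) x5375) x14123) x8291) x11207) x9263) x10235) x9587) x9803) x9731) x9751) x29431) x9749)
    (Nat.add (Nat.add (Nat.add (Nat.add (Nat.add (Nat.add (Nat.add (Nat.add (Nat.add (Nat.add (Nat.add (Nat.add (Nat.add (Nat.add C x22873) x5377) x14125) x8293) x11209) x9265) x10237) x9589) x9805) x9733) x9757) x9749) x9753) x29433)
    (Nat.sub (Nat.add (Nat.add (Nat.add (Nat.add (Nat.add (Nat.add (Nat.add (Nat.add (Nat.add (Nat.add (Nat.add (Nat.add C x22875) x5379) x14127) x8295) x11211) x9267) x10239) x9591) x9807) x9735) x9759) x9751) x9753)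
    (Nat.add (Nat.add (Nat.add (Nat.add (Nat.add (Nat.add (Nat.add (Nat.add (Nat.add (Nat.add (Nat.add (Nat.add (Nat.add (Nat.add C x22879) x5383) x14131) x8299) x11215) x9271) x10243) x9595) x9811) x9739) x9775) x9751) x9759) x29439)
    (Nat.add (Nat.add (Nat.add (Nat.add (Nat.add (Nat.add (Nat.add (Nat.add (Nat.add (Nat.add (Nat.add (Nat.add (Nat.add (Nat.add (Nat.add C x9759) x22881) x5385) x14133) x8301) x11217) x9273) x10245) x9597) x9813) x9741) x9777) x9753) x9765) x9757)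
    (Nat.add (Nat.add (Nat.add (Nat.add (Nat.add (Nat.add (Nat.add (Nat.add (Nat.add (Nat.add (Nat.add (Nat.add C x9765) x22887) x5391) x14139) x8307) x11223) x9279) x10251) x9603) x9819) x9783) x9759)
    (Nat.sub (Nat.add (Nat.add (Nat.add (Nat.add (Nat.add (Nat.add (Nat.add (Nat.add (Nat.add (Nat.add (Nat.add (Nat.add C x22897) x5401) x14149) x8317) x11233) x9289) x10261) x9613) x9829) x9757) x9777) x29457) x9775)
    (Nat.sub (Nat.add (Nat.add (Nat.add (Nat.add (Nat.add (Nat.add (Nat.add (Nat.add (Nat.add (Nat.add (Nat.add (Nat.add C x22899) x5403) x14151) x8319) x11235) x9291) x10263) x9615) x9831) x9759) x9783) x9775) x9777)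
    (Nat.add (Nat.add (Nat.add (Nat.add (Nat.add (Nat.add (Nat.add (Nat.add (Nat.add (Nat.add (Nat.add (Nat.add C x9783) x22905) x5409) x14157) x8325) x11241) x9297) x10269) x9621) x9837) x9765) x9777)
    (Nat.add (Nat.add (Nat.add (Nat.add (Nat.add (Nat.add (Nat.add (Nat.add (Nat.add (Nat.add (Nat.add (Nat.add C x22925) x5429) x14177) x8345) x11261) x9317) x10289) x9641) x9965) x9749) x9805) x29485)
    (Nat.add (Nat.add (Nat.add (Nat.add (Nat.add (Nat.add (Nat.add (Nat.add (Nat.add (Nat.add (Nat.add (Nat.add (Nat.add (Nat.add (Nat.add C x9805) x22927) x5431) x14179) x8347) x11263) x9319) x10291) x9643) x9967) x9751) x9811) x9803) x9807) x29487)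
    (Nat.add (Nat.add (Nat.add (Nat.add (Nat.add (Nat.add (Nat.add (Nat.add (Nat.add (Nat.add (Nat.add (Nat.add C x22929) x5433) x14181) x8349) x11265) x9321) x10293) x9645) x9969) x9753) x9813) x9805)
    (Nat.add (Nat.add (Nat.add (Nat.add (Nat.add (Nat.add (Nat.add (Nat.add (Nat.add (Nat.add (Nat.add (Nat.add (Nat.add (Nat.add C x22933) x5437) x14185) x8353) x11269) x9325) x10297) x9649) x9973) x9757) x9829) x9805) x9813) x29493)
    (Nat.add (Nat.add (Nat.add (Nat.add (Nat.add (Nat.add (Nat.add (Nat.add (Nat.add (Nat.add (Nat.add (Nat.add (Nat.add (Nat.add (Nat.add C x9813) x22935) x5439) x14187) x8355) x11271) x9327) x10299) x9651) x9975) x9759) x9831) x9807) x9819) x9811)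
    (Nat.add (Nat.add (Nat.add (Nat.add (Nat.add (Nat.add (Nat.add (Nat.add (Nat.add (Nat.add (Nat.add (Nat.add C x22941) x5445) x14193) x8361) x11277) x9333) x10305) x9657) x9981) x9765) x9837) x9813)
    (Nat.add (Nat.add (Nat.add (Nat.add (Nat.add (Nat.add (Nat.add (Nat.add (Nat.add (Nat.add (Nat.add (Nat.add (Nat.add (Nat.add (Nat.add C x9829) x22951) x5455) x14203) x8371) x11287) x9343) x10315) x9667) x9991) x9775) x9883) x9811) x9831) x29511)
    (Nat.add (Nat.add (Nat.add (Nat.add (Nat.add (Nat.add (Nat.add (Nat.add (Nat.add (Nat.add (Nat.add (Nat.add (Nat.add (Nat.add (Nat.add C x9831) x22953) x5457) x14205) x8373) x11289) x9345) x10317) x9669) x9993) x9777) x9885) x9813) x9837) x9829)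
    (Nat.add (Nat.add (Nat.add (Nat.add (Nat.add (Nat.add (Nat.add (Nat.add (Nat.add (Nat.add (Nat.add (Nat.add (Nat.add (Nat.add (Nat.add C (Nat.mul x9837 (nat_lit 2))) x22959) x5463) x14211) x8379) x11295) x9351) x10323) x9675) x9999) x9783) x9891) x9819) x9855) x9831)
    (Nat.add (Nat.add (Nat.add (Nat.add (Nat.add (Nat.add (Nat.add (Nat.add (Nat.add (Nat.add (Nat.add (Nat.add C (Nat.mul x9855 (nat_lit 2))) x22977) x5481) x14229) x8397) x11313) x9369) x10341) x9693) x10017) x9909) x9837)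
    (Nat.add (Nat.add (Nat.add (Nat.add (Nat.add (Nat.add (Nat.add (Nat.add (Nat.add (Nat.add (Nat.add (Nat.add C x9883) x23005) x5509) x14257) x8425) x11341) x9397) x10369) x10045) x9829) x9885) x29565)
    (Nat.add (Nat.add (Nat.add (Nat.add (Nat.add (Nat.add (Nat.add (Nat.add (Nat.add (Nat.add (Nat.add (Nat.add C x9885) x23007) x5511) x14259) x8427) x11343) x9399) x10371) x10047) x9831) x9891) x9883)
    (Nat.add (Nat.add (Nat.add (Nat.add (Nat.add (Nat.add (Nat.add (Nat.add (Nat.add (Nat.add (Nat.add (Nat.add C x9891) x23013) x5517) x14265) x8433) x11349) x9405) x10377) x10053) x9837) x9909) x9885)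
    (Nat.add (Nat.add (Nat.add (Nat.add (Nat.add (Nat.add (Nat.add (Nat.add (Nat.add (Nat.add (Nat.add C (Nat.mul x9909 (nat_lit 3))) x23031) x5535) x14283) x8451) x11367) x9423) x10395) x10071) x9855) x9891)
    (Nat.add (Nat.add (Nat.add (Nat.add (Nat.add (Nat.add (Nat.add (Nat.add (Nat.add C x23087) x5591) x14339) x8507) x11423) x10451) x9803) x9967) x29647)
    (Nat.add (Nat.add (Nat.add (Nat.add (Nat.add (Nat.add (Nat.add (Nat.add (Nat.add (Nat.add (Nat.add (Nat.add C x9967) x23089) x5593) x14341) x8509) x11425) x10453) x9805) x9973) x9965) x9969) x29649)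
    (Nat.add (Nat.add (Nat.add (Nat.add (Nat.add (Nat.add (Nat.add (Nat.add (Nat.add C x23091) x5595) x14343) x8511) x11427) x10455) x9807) x9975) x9967)
    (Nat.add (Nat.add (Nat.add (Nat.add (Nat.add (Nat.add (Nat.add (Nat.add (Nat.add (Nat.add (Nat.add C x23095) x5599) x14347) x8515) x11431) x10459) x9811) x9991) x9967) x9975) x29655)
    (Nat.add (Nat.add (Nat.add (Nat.add (Nat.add (Nat.add (Nat.add (Nat.add (Nat.add (Nat.add (Nat.add (Nat.add C x9975) x23097) x5601) x14349) x8517) x11433) x10461) x9813) x9993) x9969) x9981) x9973)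
    (Nat.add (Nat.add (Nat.add (Nat.add (Nat.add (Nat.add (Nat.add (Nat.add (Nat.add C x23103) x5607) x14355) x8523) x11439) x10467) x9819) x9999) x9975)
    (Nat.add (Nat.add (Nat.add (Nat.add (Nat.add (Nat.add (Nat.add (Nat.add (Nat.add (Nat.add (Nat.add C x23113) x5617) x14365) x8533) x11449) x10477) x9829) x10045) x9973) x9993) x29673)
    (Nat.add (Nat.add (Nat.add (Nat.add (Nat.add (Nat.add (Nat.add (Nat.add (Nat.add (Nat.add (Nat.add C x23115) x5619) x14367) x8535) x11451) x10479) x9831) x10047) x9975) x9999) x9991)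
    (Nat.add (Nat.add (Nat.add (Nat.add (Nat.add (Nat.add (Nat.add (Nat.add (Nat.add (Nat.add (Nat.add (Nat.add C x9999) x23121) x5625) x14373) x8541) x11457) x10485) x9837) x10053) x9981) x10017) x9993)
    (Nat.add (Nat.add (Nat.add (Nat.add (Nat.add (Nat.add (Nat.add (Nat.add (Nat.add C x23139) x5643) x14391) x8559) x11475) x10503) x9855) x10071) x9999)
    (Nat.add (Nat.add (Nat.add (Nat.add (Nat.add (Nat.add (Nat.add (Nat.add (Nat.add (Nat.add (Nat.add C (Nat.mul x10045 (nat_lit 2))) x23167) x5671) x14419) x8587) x11503) x10531) x9883) x9991) x10047) x29727)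
    (Nat.add (Nat.add (Nat.add (Nat.add (Nat.add (Nat.add (Nat.add (Nat.add (Nat.add (Nat.add (Nat.add C (Nat.mul x10047 (nat_lit 2))) x23169) x5673) x14421) x8589) x11505) x10533) x9885) x9993) x10053) x10045)
    (Nat.add (Nat.add (Nat.add (Nat.add (Nat.add (Nat.add (Nat.add (Nat.add (Nat.add (Nat.add (Nat.add C (Nat.mul x10053 (nat_lit 2))) x23175) x5679) x14427) x8595) x11511) x10539) x9891) x9999) x10071) x10047)
    (Nat.add (Nat.add (Nat.add (Nat.add (Nat.add (Nat.add (Nat.add (Nat.add (Nat.add (Nat.add (Nat.add C (Nat.mul x10071 (nat_lit 3))) x23193) x5697) x14445) x8613) x11529) x10557) x9909) x10017) x10125) x10053)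
    (Nat.add (Nat.add (Nat.add (Nat.add (Nat.add (Nat.add (Nat.add (Nat.add C (Nat.mul x10125 (nat_lit 4))) x23247) x5751) x14499) x8667) x11583) x10611) x10071)
    (Nat.add (Nat.add (Nat.add (Nat.add (Nat.add (Nat.add (Nat.add (Nat.add (Nat.add C x10211) x23333) x5837) x14585) x11669) x9725) x10217) x10213) x29893)
    (Nat.add (Nat.add (Nat.add (Nat.add (Nat.add (Nat.add (Nat.add (Nat.add (Nat.add C x10213) x23335) x5839) x14587) x11671) x9727) x10219) x10211) x29895)
    (Nat.sub (Nat.add (Nat.add (Nat.add (Nat.add (Nat.add (Nat.add (Nat.add (Nat.add (Nat.add C x23339) x5843) x14591) x11675) x9731) x10235) x10211) x10219) x29899) x10217)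
    (Nat.add (Nat.add (Nat.add (Nat.add (Nat.add (Nat.add (Nat.add (Nat.add (Nat.add (Nat.add (Nat.add (Nat.add C x10219) x23341) x5845) x14593) x11677) x9733) x10237) x10213) x10225) x10217) x10221) x29901)
    (Nat.add (Nat.add (Nat.add (Nat.add (Nat.add (Nat.add (Nat.add (Nat.add (Nat.add C x10221) x23343) x5847) x14595) x11679) x9735) x10239) x10227) x10219)
    (Nat.sub (Nat.add (Nat.add (Nat.add (Nat.add (Nat.add (Nat.add (Nat.add (Nat.add (Nat.add C x23347) x5851) x14599) x11683) x9739) x10243) x10219) x10227) x29907) x10225)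
    (Nat.add (Nat.add (Nat.add (Nat.add (Nat.add (Nat.add (Nat.add (Nat.add (Nat.add C x10227) x23349) x5853) x14601) x11685) x9741) x10245) x10221) x10225)
    (Nat.sub (Nat.add (Nat.add (Nat.add (Nat.add (Nat.add (Nat.add (Nat.add (Nat.add (Nat.add C x23357) x5861) x14609) x11693) x9749) x10289) x10217) x10237) x29917) x10235)
    (Nat.add (Nat.add (Nat.add (Nat.add (Nat.add (Nat.add (Nat.add (Nat.add (Nat.add (Nat.add (Nat.add C x23359) x5863) x14611) x11695) x9751) x10291) x10219) x10243) x10235) x10239) x29919)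
    (Nat.sub (Nat.add (Nat.add (Nat.add (Nat.add (Nat.add (Nat.add (Nat.add (Nat.add (Nat.add C x23361) x5865) x14613) x11697) x9753) x10293) x10221) x10245) x10237) x10239)
    (Nat.add (Nat.add (Nat.add (Nat.add (Nat.add (Nat.add (Nat.add (Nat.add (Nat.add (Nat.add (Nat.add C x23365) x5869) x14617) x11701) x9757) x10297) x10225) x10261) x10237) x10245) x29925)
    (Nat.add (Nat.add (Nat.add (Nat.add (Nat.add (Nat.add (Nat.add (Nat.add (Nat.add (Nat.add (Nat.add (Nat.add C x10245) x23367) x5871) x14619) x11703) x9759) x10299) x10227) x10263) x10239) x10251) x10243)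
    (Nat.add (Nat.add (Nat.add (Nat.add (Nat.add (Nat.add (Nat.add (Nat.add (Nat.add C x10251) x23373) x5877) x14625) x11709) x9765) x10305) x10269) x10245)
    (Nat.sub (Nat.add (Nat.add (Nat.add (Nat.add (Nat.add (Nat.add (Nat.add (Nat.add (Nat.add C x23383) x5887) x14635) x11719) x9775) x10315) x10243) x10263) x29943) x10261)
    (Nat.sub (Nat.add (Nat.add (Nat.add (Nat.add (Nat.add (Nat.add (Nat.add (Nat.add (Nat.add C x23385) x5889) x14637) x11721) x9777) x10317) x10245) x10269) x10261) x10263)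
    (Nat.add (Nat.add (Nat.add (Nat.add (Nat.add (Nat.add (Nat.add (Nat.add (Nat.add C x10269) x23391) x5895) x14643) x11727) x9783) x10323) x10251) x10263)
    (Nat.sub (Nat.add (Nat.add (Nat.add (Nat.add (Nat.add (Nat.add (Nat.add (Nat.add (Nat.add C x23411) x5915) x14663) x11747) x9803) x10451) x10235) x10291) x29971) x10289)
    (Nat.add (Nat.add (Nat.add (Nat.add (Nat.add (Nat.add (Nat.add (Nat.add (Nat.add (Nat.add (Nat.add C x23413) x5917) x14665) x11749) x9805) x10453) x10237) x10297) x10289) x10293) x29973)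
    (Nat.sub (Nat.add (Nat.add (Nat.add (Nat.add (Nat.add (Nat.add (Nat.add (Nat.add (Nat.add C x23415) x5919) x14667) x11751) x9807) x10455) x10239) x10299) x10291) x10293)
    (Nat.sub (Nat.add (Nat.add (Nat.add (Nat.add (Nat.add (Nat.add (Nat.add (Nat.add (Nat.add (Nat.add (Nat.add C x23419) x5923) x14671) x11755) x9811) x10459) x10243) x10315) x10291) x10299) x29979) x10297)
    (Nat.add (Nat.add (Nat.add (Nat.add (Nat.add (Nat.add (Nat.add (Nat.add (Nat.add (Nat.add (Nat.add C x23421) x5925) x14673) x11757) x9813) x10461) x10245) x10317) x10293) x10305) x10297)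
    (Nat.sub (Nat.add (Nat.add (Nat.add (Nat.add (Nat.add (Nat.add (Nat.add (Nat.add (Nat.add C x23427) x5931) x14679) x11763) x9819) x10467) x10251) x10323) x10299) x10305)
    (Nat.add (Nat.add (Nat.add (Nat.add (Nat.add (Nat.add (Nat.add (Nat.add (Nat.add (Nat.add (Nat.add C x23437) x5941) x14689) x11773) x9829) x10477) x10261) x10369) x10297) x10317) x29997)
    (Nat.add (Nat.add (Nat.add (Nat.add (Nat.add (Nat.add (Nat.add (Nat.add (Nat.add (Nat.add (Nat.add C x23439) x5943) x14691) x11775) x9831) x10479) x10263) x10371) x10299) x10323) x10315)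
    (Nat.add (Nat.add (Nat.add (Nat.add (Nat.add (Nat.add (Nat.add (Nat.add (Nat.add (Nat.add (Nat.add (Nat.add C x10323) x23445) x5949) x14697) x11781) x9837) x10485) x10269) x10377) x10305) x10341) x10317)
    (Nat.add (Nat.add (Nat.add (Nat.add (Nat.add (Nat.add (Nat.add (Nat.add (Nat.add C x10341) x23463) x5967) x14715) x11799) x9855) x10503) x10395) x10323)
    (Nat.sub (Nat.add (Nat.add (Nat.add (Nat.add (Nat.add (Nat.add (Nat.add (Nat.add (Nat.add C x23491) x5995) x14743) x11827) x9883) x10531) x10315) x10371) x30051) x10369)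
    (Nat.sub (Nat.add (Nat.add (Nat.add (Nat.add (Nat.add (Nat.add (Nat.add (Nat.add (Nat.add C x23493) x5997) x14745) x11829) x9885) x10533) x10317) x10377) x10369) x10371)
    (Nat.sub (Nat.add (Nat.add (Nat.add (Nat.add (Nat.add (Nat.add (Nat.add (Nat.add (Nat.add C x23499) x6003) x14751) x11835) x9891) x10539) x10323) x10395) x10371) x10377)
    (Nat.add (Nat.add (Nat.add (Nat.add (Nat.add (Nat.add (Nat.add (Nat.add (Nat.add C x10395) x23517) x6021) x14769) x11853) x9909) x10557) x10341) x10377)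
    (Nat.add (Nat.add (Nat.add (Nat.add (Nat.add (Nat.add (Nat.add (Nat.add (Nat.add C x10451) x23573) x6077) x14825) x11909) x9965) x10289) x10453) x30133)
    (Nat.add (Nat.add (Nat.add (Nat.add (Nat.add (Nat.add (Nat.add (Nat.add (Nat.add (Nat.add (Nat.add C (Nat.mul x10453 (nat_lit 2))) x23575) x6079) x14827) x11911) x9967) x10291) x10459) x10451) x10455) x30135)
    (Nat.add (Nat.add (Nat.add (Nat.add (Nat.add (Nat.add (Nat.add (Nat.add (Nat.add C x10455) x23577) x6081) x14829) x11913) x9969) x10293) x10461) x10453)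
    (Nat.add (Nat.add (Nat.add (Nat.add (Nat.add (Nat.add (Nat.add (Nat.add (Nat.add (Nat.add (Nat.add C x10459) x23581) x6085) x14833) x11917) x9973) x10297) x10477) x10453) x10461) x30141)
    (Nat.add (Nat.add (Nat.add (Nat.add (Nat.add (Nat.add (Nat.add (Nat.add (Nat.add (Nat.add (Nat.add C (Nat.mul x10461 (nat_lit 2))) x23583) x6087) x14835) x11919) x9975) x10299) x10479) x10455) x10467) x10459)
    (Nat.add (Nat.add (Nat.add (Nat.add (Nat.add (Nat.add (Nat.add (Nat.add (Nat.add C x10467) x23589) x6093) x14841) x11925) x9981) x10305) x10485) x10461)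
    (Nat.add (Nat.add (Nat.add (Nat.add (Nat.add (Nat.add (Nat.add (Nat.add (Nat.add (Nat.add (Nat.add C x10477) x23599) x6103) x14851) x11935) x9991) x10315) x10531) x10459) x10479) x30159)
    (Nat.add (Nat.add (Nat.add (Nat.add (Nat.add (Nat.add (Nat.add (Nat.add (Nat.add (Nat.add (Nat.add C x10479) x23601) x6105) x14853) x11937) x9993) x10317) x10533) x10461) x10485) x10477)
    (Nat.add (Nat.add (Nat.add (Nat.add (Nat.add (Nat.add (Nat.add (Nat.add (Nat.add (Nat.add (Nat.add C (Nat.mul x10485 (nat_lit 2))) x23607) x6111) x14859) x11943) x9999) x10323) x10539) x10467) x10503) x10479)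
    (Nat.add (Nat.add (Nat.add (Nat.add (Nat.add (Nat.add (Nat.add (Nat.add (Nat.add C x10503) x23625) x6129) x14877) x11961) x10017) x10341) x10557) x10485)
    (Nat.add (Nat.add (Nat.add (Nat.add (Nat.add (Nat.add (Nat.add (Nat.add (Nat.add (Nat.add (Nat.add C (Nat.mul x10531 (nat_lit 2))) x23653) x6157) x14905) x11989) x10045) x10369) x10693) x10477) x10533) x30213)
    (Nat.add (Nat.add (Nat.add (Nat.add (Nat.add (Nat.add (Nat.add (Nat.add (Nat.add (Nat.add (Nat.add C (Nat.mul x10533 (nat_lit 2))) x23655) x6159) x14907) x11991) x10047) x10371) x10695) x10479) x10539) x10531)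
    (Nat.add (Nat.add (Nat.add (Nat.add (Nat.add (Nat.add (Nat.add (Nat.add (Nat.add (Nat.add (Nat.add C (Nat.mul x10539 (nat_lit 2))) x23661) x6165) x14913) x11997) x10053) x10377) x10701) x10485) x10557) x10533)
    (Nat.add (Nat.add (Nat.add (Nat.add (Nat.add (Nat.add (Nat.add (Nat.add (Nat.add (Nat.add (Nat.add C (Nat.mul x10557 (nat_lit 3))) x23679) x6183) x14931) x12015) x10071) x10395) x10719) x10503) x10611) x10539)
    (Nat.add (Nat.add (Nat.add (Nat.add (Nat.add (Nat.add (Nat.add (Nat.add C (Nat.mul x10611 (nat_lit 3))) x23733) x6237) x14985) x12069) x10125) x10773) x10557)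
    (Nat.add (Nat.add (Nat.add (Nat.add (Nat.add (Nat.add (Nat.add (Nat.add C (Nat.mul x10693 (nat_lit 3))) x23815) x6319) x15067) x12151) x10531) x10695) x30375)
    (Nat.add (Nat.add (Nat.add (Nat.add (Nat.add (Nat.add (Nat.add (Nat.add C (Nat.mul x10695 (nat_lit 3))) x23817) x6321) x15069) x12153) x10533) x10701) x10693)
    (Nat.add (Nat.add (Nat.add (Nat.add (Nat.add (Nat.add (Nat.add (Nat.add C (Nat.mul x10701 (nat_lit 3))) x23823) x6327) x15075) x12159) x10539) x10719) x10695)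
    (Nat.add (Nat.add (Nat.add (Nat.add (Nat.add (Nat.add (Nat.add (Nat.add C (Nat.mul x10719 (nat_lit 3))) x23841) x6345) x15093) x12177) x10557) x10773) x10701)
    (Nat.add (Nat.add (Nat.add (Nat.add (Nat.add (Nat.add (Nat.add C (Nat.mul x10773 (nat_lit 5))) x23895) x6399) x15147) x12231) x10611) x10719)
    (Nat.add (Nat.add (Nat.add (Nat.add (Nat.add (Nat.add C (Nat.mul x10943 (nat_lit 2))) x24065) x15317) x9485) x10949) x30625)
    (Nat.add (Nat.add (Nat.add (Nat.add (Nat.add (Nat.add (Nat.add (Nat.add (Nat.add C x10949) x24071) x15323) x9491) x10967) x10943) x10955) x10951) x30631)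
    (Nat.add (Nat.add (Nat.add (Nat.add (Nat.add (Nat.add (Nat.add (Nat.add C (Nat.mul x10951 (nat_lit 2))) x24073) x15325) x9493) x10969) x10957) x10949) x30633)
    (Nat.sub (Nat.add (Nat.add (Nat.add (Nat.add (Nat.add (Nat.add (Nat.add C x24077) x15329) x9497) x10973) x10949) x10957) x30637) (Nat.mul x10955 (nat_lit 2)))
    (Nat.add (Nat.add (Nat.add (Nat.add (Nat.add (Nat.add (Nat.add (Nat.add (Nat.add C x10957) x24079) x15331) x9499) x10975) x10951) x10955) x10959) x30639)
    (Nat.add (Nat.add (Nat.add (Nat.add (Nat.add (Nat.add C (Nat.mul x10959 (nat_lit 2))) x24081) x15333) x9501) x10977) x10957)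
    (Nat.add (Nat.add (Nat.add (Nat.add (Nat.add (Nat.add (Nat.add (Nat.add C x24089) x15341) x9509) x11021) x10949) x10973) x10969) x30649)
    (Nat.add (Nat.add (Nat.add (Nat.add (Nat.add (Nat.add (Nat.add (Nat.add C x24091) x15343) x9511) x11023) x10951) x10975) x10967) x30651)
    (Nat.sub (Nat.add (Nat.add (Nat.add (Nat.add (Nat.add (Nat.add (Nat.add (Nat.add (Nat.add C x24095) x15347) x9515) x11027) x10955) x10991) x10967) x10975) x30655) x10973)
    (Nat.add (Nat.add (Nat.add (Nat.add (Nat.add (Nat.add (Nat.add (Nat.add (Nat.add (Nat.add (Nat.add (Nat.add C x10975) x24097) x15349) x9517) x11029) x10957) x10993) x10969) x10981) x10973) x10977) x30657)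
    (Nat.add (Nat.add (Nat.add (Nat.add (Nat.add (Nat.add (Nat.add (Nat.add (Nat.add C x10977) x24099) x15351) x9519) x11031) x10959) x10995) x10983) x10975)
    (Nat.add (Nat.add (Nat.add (Nat.add (Nat.add (Nat.add (Nat.add (Nat.add C x24103) x15355) x9523) x11035) x10999) x10975) x10983) x30663)
    (Nat.add (Nat.add (Nat.add (Nat.add (Nat.add (Nat.add (Nat.add (Nat.add C (Nat.mul x10983 (nat_lit 2))) x24105) x15357) x9525) x11037) x11001) x10977) x10981)
    (Nat.sub (Nat.add (Nat.add (Nat.add (Nat.add (Nat.add (Nat.add (Nat.add C x24113) x15365) x9533) x11045) x10973) x10993) x30673) (Nat.mul x10991 (nat_lit 2)))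
    (Nat.sub (Nat.add (Nat.add (Nat.add (Nat.add (Nat.add (Nat.add (Nat.add (Nat.add (Nat.add C x24115) x15367) x9535) x11047) x10975) x10999) x10991) x10995) x30675) x10993)
    (Nat.sub (Nat.add (Nat.add (Nat.add (Nat.add (Nat.add (Nat.add (Nat.add C x24117) x15369) x9537) x11049) x10977) x11001) x10993) (Nat.mul x10995 (nat_lit 2)))
    (Nat.add (Nat.add (Nat.add (Nat.add (Nat.add (Nat.add (Nat.add (Nat.add C x24121) x15373) x9541) x11053) x10981) x10993) x11001) x30681)
    (Nat.add (Nat.add (Nat.add (Nat.add (Nat.add (Nat.add (Nat.add (Nat.add (Nat.add C x11001) x24123) x15375) x9543) x11055) x10983) x10995) x11007) x10999)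
    (Nat.add (Nat.add (Nat.add (Nat.add (Nat.add (Nat.add C (Nat.mul x11007 (nat_lit 2))) x24129) x15381) x9549) x11061) x11001)
    (Nat.add (Nat.add (Nat.add (Nat.add (Nat.add (Nat.add (Nat.add (Nat.add C x24143) x15395) x9563) x11183) x10967) x11027) x11023) x30703)
    (Nat.add (Nat.add (Nat.add (Nat.add (Nat.add (Nat.add (Nat.add (Nat.add C x24145) x15397) x9565) x11185) x10969) x11029) x11021) x30705)
    (Nat.sub (Nat.add (Nat.add (Nat.add (Nat.add (Nat.add (Nat.add (Nat.add (Nat.add (Nat.add C x24149) x15401) x9569) x11189) x10973) x11045) x11021) x11029) x30709) (Nat.mul x11027 (nat_lit 2)))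
    (Nat.add (Nat.add (Nat.add (Nat.add (Nat.add (Nat.add (Nat.add (Nat.add (Nat.add (Nat.add (Nat.add C x24151) x15403) x9571) x11191) x10975) x11047) x11023) x11035) x11027) x11031) x30711)
    (Nat.add (Nat.add (Nat.add (Nat.add (Nat.add (Nat.add (Nat.add (Nat.add C x24153) x15405) x9573) x11193) x10977) x11049) x11037) x11029)
    (Nat.sub (Nat.add (Nat.add (Nat.add (Nat.add (Nat.add (Nat.add (Nat.add (Nat.add (Nat.add C x24157) x15409) x9577) x11197) x10981) x11053) x11029) x11037) x30717) (Nat.mul x11035 (nat_lit 2)))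
    (Nat.add (Nat.add (Nat.add (Nat.add (Nat.add (Nat.add (Nat.add (Nat.add C x24159) x15411) x9579) x11199) x10983) x11055) x11031) x11035)
    (Nat.sub (Nat.add (Nat.add (Nat.add (Nat.add (Nat.add (Nat.add (Nat.add (Nat.add (Nat.add C x24167) x15419) x9587) x11207) x10991) x11099) x11027) x11047) x30727) x11045)
    (Nat.add (Nat.add (Nat.add (Nat.add (Nat.add (Nat.add (Nat.add (Nat.add (Nat.add (Nat.add (Nat.add C x24169) x15421) x9589) x11209) x10993) x11101) x11029) x11053) x11045) x11049) x30729)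
    (Nat.sub (Nat.add (Nat.add (Nat.add (Nat.add (Nat.add (Nat.add (Nat.add (Nat.add (Nat.add C x24171) x15423) x9591) x11211) x10995) x11103) x11031) x11055) x11047) x11049)
    (Nat.add (Nat.add (Nat.add (Nat.add (Nat.add (Nat.add (Nat.add (Nat.add (Nat.add (Nat.add (Nat.add C x24175) x15427) x9595) x11215) x10999) x11107) x11035) x11071) x11047) x11055) x30735)
    (Nat.add (Nat.add (Nat.add (Nat.add (Nat.add (Nat.add (Nat.add (Nat.add (Nat.add (Nat.add (Nat.add (Nat.add C x11055) x24177) x15429) x9597) x11217) x11001) x11109) x11037) x11073) x11049) x11061) x11053)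
    (Nat.add (Nat.add (Nat.add (Nat.add (Nat.add (Nat.add (Nat.add (Nat.add (Nat.add C x11061) x24183) x15435) x9603) x11223) x11007) x11115) x11079) x11055)
    (Nat.add (Nat.add (Nat.add (Nat.add (Nat.add (Nat.add (Nat.add (Nat.add C x24193) x15445) x9613) x11233) x11125) x11053) x11073) x30753)
    (Nat.add (Nat.add (Nat.add (Nat.add (Nat.add (Nat.add (Nat.add (Nat.add C x24195) x15447) x9615) x11235) x11127) x11055) x11079) x11071)
    (Nat.add (Nat.add (Nat.add (Nat.add (Nat.add (Nat.add (Nat.add (Nat.add C (Nat.mul x11079 (nat_lit 2))) x24201) x15453) x9621) x11241) x11133) x11061) x11073)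
    (Nat.sub (Nat.add (Nat.add (Nat.add (Nat.add (Nat.add (Nat.add (Nat.add C x24221) x15473) x9641) x11261) x11045) x11101) x30781) (Nat.mul x11099 (nat_lit 2)))
    (Nat.sub (Nat.add (Nat.add (Nat.add (Nat.add (Nat.add (Nat.add (Nat.add (Nat.add (Nat.add C x24223) x15475) x9643) x11263) x11047) x11107) x11099) x11103) x30783) x11101)
    (Nat.sub (Nat.add (Nat.add (Nat.add (Nat.add (Nat.add (Nat.add (Nat.add C x24225) x15477) x9645) x11265) x11049) x11109) x11101) (Nat.mul x11103 (nat_lit 2)))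
    (Nat.sub (Nat.add (Nat.add (Nat.add (Nat.add (Nat.add (Nat.add (Nat.add (Nat.add (Nat.add C x24229) x15481) x9649) x11269) x11053) x11125) x11101) x11109) x30789) (Nat.mul x11107 (nat_lit 2)))
    (Nat.sub (Nat.add (Nat.add (Nat.add (Nat.add (Nat.add (Nat.add (Nat.add (Nat.add (Nat.add C x24231) x15483) x9651) x11271) x11055) x11127) x11103) x11115) x11107) x11109)
    (Nat.sub (Nat.add (Nat.add (Nat.add (Nat.add (Nat.add (Nat.add (Nat.add C x24237) x15489) x9657) x11277) x11061) x11133) x11109) (Nat.mul x11115 (nat_lit 2)))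
    (Nat.add (Nat.add (Nat.add (Nat.add (Nat.add (Nat.add (Nat.add (Nat.add C x24247) x15499) x9667) x11287) x11071) x11107) x11127) x30807)
    (Nat.add (Nat.add (Nat.add (Nat.add (Nat.add (Nat.add (Nat.add (Nat.add C x24249) x15501) x9669) x11289) x11073) x11109) x11133) x11125)
    (Nat.add (Nat.add (Nat.add (Nat.add (Nat.add (Nat.add (Nat.add (Nat.add (Nat.add C x11133) x24255) x15507) x9675) x11295) x11079) x11115) x11151) x11127)
    (Nat.add (Nat.add (Nat.add (Nat.add (Nat.add (Nat.add C (Nat.mul x11151 (nat_lit 2))) x24273) x15525) x9693) x11313) x11133)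
    (Nat.add (Nat.add (Nat.add (Nat.add (Nat.add (Nat.add (Nat.add (Nat.add C x24305) x15557) x9725) x11669) x11021) x11189) x11185) x30865)
    (Nat.add (Nat.add (Nat.add (Nat.add (Nat.add (Nat.add (Nat.add (Nat.add C x24307) x15559) x9727) x11671) x11023) x11191) x11183) x30867)
    (Nat.sub (Nat.add (Nat.add (Nat.add (Nat.add (Nat.add (Nat.add (Nat.add (Nat.add (Nat.add C x24311) x15563) x9731) x11675) x11027) x11207) x11183) x11191) x30871) (Nat.mul x11189 (nat_lit 2)))
    (Nat.add (Nat.add (Nat.add (Nat.add (Nat.add (Nat.add (Nat.add (Nat.add (Nat.add (Nat.add (Nat.add C x24313) x15565) x9733) x11677) x11029) x11209) x11185) x11197) x11189) x11193) x30873)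
    (Nat.add (Nat.add (Nat.add (Nat.add (Nat.add (Nat.add (Nat.add (Nat.add C x24315) x15567) x9735) x11679) x11031) x11211) x11199) x11191)
    (Nat.sub (Nat.add (Nat.add (Nat.add (Nat.add (Nat.add (Nat.add (Nat.add (Nat.add (Nat.add C x24319) x15571) x9739) x11683) x11035) x11215) x11191) x11199) x30879) (Nat.mul x11197 (nat_lit 2)))
    (Nat.add (Nat.add (Nat.add (Nat.add (Nat.add (Nat.add (Nat.add (Nat.add C x24321) x15573) x9741) x11685) x11037) x11217) x11193) x11197)
    (Nat.sub (Nat.add (Nat.add (Nat.add (Nat.add (Nat.add (Nat.add (Nat.add (Nat.add (Nat.add C x24329) x15581) x9749) x11693) x11045) x11261) x11189) x11209) x30889) (Nat.mul x11207 (nat_lit 2)))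
    (Nat.sub (Nat.add (Nat.add (Nat.add (Nat.add (Nat.add (Nat.add (Nat.add (Nat.add (Nat.add (Nat.add (Nat.add C x24331) x15583) x9751) x11695) x11047) x11263) x11191) x11215) x11207) x11211) x30891) x11209)
    (Nat.sub (Nat.add (Nat.add (Nat.add (Nat.add (Nat.add (Nat.add (Nat.add (Nat.add (Nat.add C x24333) x15585) x9753) x11697) x11049) x11265) x11193) x11217) x11209) (Nat.mul x11211 (nat_lit 2)))
    (Nat.sub (Nat.add (Nat.add (Nat.add (Nat.add (Nat.add (Nat.add (Nat.add (Nat.add (Nat.add (Nat.add (Nat.add C x24337) x15589) x9757) x11701) x11053) x11269) x11197) x11233) x11209) x11217) x30897) x11215)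
    (Nat.add (Nat.add (Nat.add (Nat.add (Nat.add (Nat.add (Nat.add (Nat.add (Nat.add (Nat.add (Nat.add C x24339) x15591) x9759) x11703) x11055) x11271) x11199) x11235) x11211) x11223) x11215)
    (Nat.add (Nat.add (Nat.add (Nat.add (Nat.add (Nat.add (Nat.add (Nat.add C x24345) x15597) x9765) x11709) x11061) x11277) x11241) x11217)
    (Nat.sub (Nat.add (Nat.add (Nat.add (Nat.add (Nat.add (Nat.add (Nat.add (Nat.add (Nat.add C x24355) x15607) x9775) x11719) x11071) x11287) x11215) x11235) x30915) (Nat.mul x11233 (nat_lit 2)))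
    (Nat.sub (Nat.add (Nat.add (Nat.add (Nat.add (Nat.add (Nat.add (Nat.add (Nat.add (Nat.add C x24357) x15609) x9777) x11721) x11073) x11289) x11217) x11241) x11233) (Nat.mul x11235 (nat_lit 2)))
    (Nat.add (Nat.add (Nat.add (Nat.add (Nat.add (Nat.add (Nat.add (Nat.add C x24363) x15615) x9783) x11727) x11079) x11295) x11223) x11235)
    (Nat.sub (Nat.add (Nat.add (Nat.add (Nat.add (Nat.add (Nat.add (Nat.add (Nat.add (Nat.add C x24383) x15635) x9803) x11747) x11099) x11423) x11207) x11263) x30943) x11261)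
    (Nat.add (Nat.add (Nat.add (Nat.add (Nat.add (Nat.add (Nat.add (Nat.add (Nat.add (Nat.add (Nat.add C x24385) x15637) x9805) x11749) x11101) x11425) x11209) x11269) x11261) x11265) x30945)
    (Nat.sub (Nat.add (Nat.add (Nat.add (Nat.add (Nat.add (Nat.add (Nat.add (Nat.add (Nat.add C x24387) x15639) x9807) x11751) x11103) x11427) x11211) x11271) x11263) x11265)
    (Nat.sub (Nat.add (Nat.add (Nat.add (Nat.add (Nat.add (Nat.add (Nat.add (Nat.add (Nat.add (Nat.add (Nat.add C x24391) x15643) x9811) x11755) x11107) x11431) x11215) x11287) x11263) x11271) x30951) x11269)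
    (Nat.add (Nat.add (Nat.add (Nat.add (Nat.add (Nat.add (Nat.add (Nat.add (Nat.add (Nat.add (Nat.add C x24393) x15645) x9813) x11757) x11109) x11433) x11217) x11289) x11265) x11277) x11269)
    (Nat.sub (Nat.add (Nat.add (Nat.add (Nat.add (Nat.add (Nat.add (Nat.add (Nat.add (Nat.add C x24399) x15651) x9819) x11763) x11115) x11439) x11223) x11295) x11271) x11277)
    (Nat.add (Nat.add (Nat.add (Nat.add (Nat.add (Nat.add (Nat.add (Nat.add (Nat.add (Nat.add (Nat.add C x24409) x15661) x9829) x11773) x11125) x11449) x11233) x11341) x11269) x11289) x30969)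
    (Nat.add (Nat.add (Nat.add (Nat.add (Nat.add (Nat.add (Nat.add (Nat.add (Nat.add (Nat.add (Nat.add C x24411) x15663) x9831) x11775) x11127) x11451) x11235) x11343) x11271) x11295) x11287)
    (Nat.add (Nat.add (Nat.add (Nat.add (Nat.add (Nat.add (Nat.add (Nat.add (Nat.add (Nat.add (Nat.add (Nat.add C x11295) x24417) x15669) x9837) x11781) x11133) x11457) x11241) x11349) x11277) x11313) x11289)
    (Nat.add (Nat.add (Nat.add (Nat.add (Nat.add (Nat.add (Nat.add (Nat.add (Nat.add C x11313) x24435) x15687) x9855) x11799) x11151) x11475) x11367) x11295)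
    (Nat.add (Nat.add (Nat.add (Nat.add (Nat.add (Nat.add (Nat.add (Nat.add C x24463) x15715) x9883) x11827) x11503) x11287) x11343) x31023)
    (Nat.add (Nat.add (Nat.add (Nat.add (Nat.add (Nat.add (Nat.add (Nat.add C x24465) x15717) x9885) x11829) x11505) x11289) x11349) x11341)
    (Nat.add (Nat.add (Nat.add (Nat.add (Nat.add (Nat.add (Nat.add (Nat.add C x24471) x15723) x9891) x11835) x11511) x11295) x11367) x11343)
    (Nat.add (Nat.add (Nat.add (Nat.add (Nat.add (Nat.add (Nat.add (Nat.add C (Nat.mul x11367 (nat_lit 2))) x24489) x15741) x9909) x11853) x11529) x11313) x11349)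
    (Nat.sub (Nat.add (Nat.add (Nat.add (Nat.add (Nat.add (Nat.add (Nat.add C x24545) x15797) x9965) x11909) x11261) x11425) x31105) (Nat.mul x11423 (nat_lit 2)))
    (Nat.sub (Nat.add (Nat.add (Nat.add (Nat.add (Nat.add (Nat.add (Nat.add (Nat.add (Nat.add C x24547) x15799) x9967) x11911) x11263) x11431) x11423) x11427) x31107) x11425)
    (Nat.sub (Nat.add (Nat.add (Nat.add (Nat.add (Nat.add (Nat.add (Nat.add C x24549) x15801) x9969) x11913) x11265) x11433) x11425) (Nat.mul x11427 (nat_lit 2)))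
    (Nat.sub (Nat.add (Nat.add (Nat.add (Nat.add (Nat.add (Nat.add (Nat.add (Nat.add (Nat.add C x24553) x15805) x9973) x11917) x11269) x11449) x11425) x11433) x31113) (Nat.mul x11431 (nat_lit 2)))
    (Nat.sub (Nat.add (Nat.add (Nat.add (Nat.add (Nat.add (Nat.add (Nat.add (Nat.add (Nat.add C x24555) x15807) x9975) x11919) x11271) x11451) x11427) x11439) x11431) x11433)
    (Nat.sub (Nat.add (Nat.add (Nat.add (Nat.add (Nat.add (Nat.add (Nat.add C x24561) x15813) x9981) x11925) x11277) x11457) x11433) (Nat.mul x11439 (nat_lit 2)))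
    (Nat.sub (Nat.add (Nat.add (Nat.add (Nat.add (Nat.add (Nat.add (Nat.add (Nat.add (Nat.add C x24571) x15823) x9991) x11935) x11287) x11503) x11431) x11451) x31131) (Nat.mul x11449 (nat_lit 2)))
    (Nat.sub (Nat.add (Nat.add (Nat.add (Nat.add (Nat.add (Nat.add (Nat.add (Nat.add (Nat.add C x24573) x15825) x9993) x11937) x11289) x11505) x11433) x11457) x11449) (Nat.mul x11451 (nat_lit 2)))
    (Nat.sub (Nat.add (Nat.add (Nat.add (Nat.add (Nat.add (Nat.add (Nat.add (Nat.add (Nat.add C x24579) x15831) x9999) x11943) x11295) x11511) x11439) x11475) x11451) x11457)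
    (Nat.sub (Nat.add (Nat.add (Nat.add (Nat.add (Nat.add (Nat.add (Nat.add C x24597) x15849) x10017) x11961) x11313) x11529) x11457) (Nat.mul x11475 (nat_lit 2)))
    (Nat.add (Nat.add (Nat.add (Nat.add (Nat.add (Nat.add (Nat.add (Nat.add C x24625) x15877) x10045) x11989) x11341) x11449) x11505) x31185)
    (Nat.add (Nat.add (Nat.add (Nat.add (Nat.add (Nat.add (Nat.add (Nat.add C x24627) x15879) x10047) x11991) x11343) x11451) x11511) x11503)
    (Nat.add (Nat.add (Nat.add (Nat.add (Nat.add (Nat.add (Nat.add (Nat.add C x24633) x15885) x10053) x11997) x11349) x11457) x11529) x11505)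
    (Nat.add (Nat.add (Nat.add (Nat.add (Nat.add (Nat.add (Nat.add (Nat.add (Nat.add C x11529) x24651) x15903) x10071) x12015) x11367) x11475) x11583) x11511)
    (Nat.add (Nat.add (Nat.add (Nat.add (Nat.add (Nat.add C (Nat.mul x11583 (nat_lit 2))) x24705) x15957) x10125) x12069) x11529)
    (Nat.add (Nat.add (Nat.add (Nat.add (Nat.add (Nat.add (Nat.add (Nat.add C (Nat.mul x11669 (nat_lit 2))) x24791) x16043) x10211) x11183) x11675) x11671) x31351)
    (Nat.add (Nat.add (Nat.add (Nat.add (Nat.add (Nat.add (Nat.add (Nat.add C (Nat.mul x11671 (nat_lit 2))) x24793) x16045) x10213) x11185) x11677) x11669) x31353)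
    (Nat.add (Nat.add (Nat.add (Nat.add (Nat.add (Nat.add (Nat.add (Nat.add C x24797) x16049) x10217) x11189) x11693) x11669) x11677) x31357)
    (Nat.add (Nat.add (Nat.add (Nat.add (Nat.add (Nat.add (Nat.add (Nat.add (Nat.add (Nat.add (Nat.add C (Nat.mul x11677 (nat_lit 2))) x24799) x16051) x10219) x11191) x11695) x11671) x11683) x11675) x11679) x31359)
    (Nat.add (Nat.add (Nat.add (Nat.add (Nat.add (Nat.add (Nat.add (Nat.add C (Nat.mul x11679 (nat_lit 2))) x24801) x16053) x10221) x11193) x11697) x11685) x11677)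
    (Nat.add (Nat.add (Nat.add (Nat.add (Nat.add (Nat.add (Nat.add (Nat.add C x24805) x16057) x10225) x11197) x11701) x11677) x11685) x31365)
    (Nat.add (Nat.add (Nat.add (Nat.add (Nat.add (Nat.add (Nat.add (Nat.add C (Nat.mul x11685 (nat_lit 2))) x24807) x16059) x10227) x11199) x11703) x11679) x11683)
    (Nat.add (Nat.add (Nat.add (Nat.add (Nat.add (Nat.add (Nat.add (Nat.add C x24815) x16067) x10235) x11207) x11747) x11675) x11695) x31375)
    (Nat.add (Nat.add (Nat.add (Nat.add (Nat.add (Nat.add (Nat.add (Nat.add (Nat.add (Nat.add (Nat.add C x11695) x24817) x16069) x10237) x11209) x11749) x11677) x11701) x11693) x11697) x31377)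
    (Nat.add (Nat.add (Nat.add (Nat.add (Nat.add (Nat.add (Nat.add (Nat.add C x24819) x16071) x10239) x11211) x11751) x11679) x11703) x11695)
    (Nat.add (Nat.add (Nat.add (Nat.add (Nat.add (Nat.add (Nat.add (Nat.add (Nat.add (Nat.add (Nat.add C x11701) x24823) x16075) x10243) x11215) x11755) x11683) x11719) x11695) x11703) x31383)
    (Nat.add (Nat.add (Nat.add (Nat.add (Nat.add (Nat.add (Nat.add (Nat.add (Nat.add (Nat.add (Nat.add C (Nat.mul x11703 (nat_lit 2))) x24825) x16077) x10245) x11217) x11757) x11685) x11721) x11697) x11709) x11701)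
    (Nat.add (Nat.add (Nat.add (Nat.add (Nat.add (Nat.add (Nat.add (Nat.add C (Nat.mul x11709 (nat_lit 2))) x24831) x16083) x10251) x11223) x11763) x11727) x11703)
    (Nat.add (Nat.add (Nat.add (Nat.add (Nat.add (Nat.add (Nat.add (Nat.add C x24841) x16093) x10261) x11233) x11773) x11701) x11721) x31401)
    (Nat.add (Nat.add (Nat.add (Nat.add (Nat.add (Nat.add (Nat.add (Nat.add C x24843) x16095) x10263) x11235) x11775) x11703) x11727) x11719)
    (Nat.add (Nat.add (Nat.add (Nat.add (Nat.add (Nat.add (Nat.add (Nat.add C (Nat.mul x11727 (nat_lit 2))) x24849) x16101) x10269) x11241) x11781) x11709) x11721)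
    (Nat.add (Nat.add (Nat.add (Nat.add (Nat.add (Nat.add (Nat.add (Nat.add C x24869) x16121) x10289) x11261) x11909) x11693) x11749) x31429)
    (Nat.add (Nat.add (Nat.add (Nat.add (Nat.add (Nat.add (Nat.add (Nat.add (Nat.add (Nat.add (Nat.add C x11749) x24871) x16123) x10291) x11263) x11911) x11695) x11755) x11747) x11751) x31431)
    (Nat.add (Nat.add (Nat.add (Nat.add (Nat.add (Nat.add (Nat.add (Nat.add C x24873) x16125) x10293) x11265) x11913) x11697) x11757) x11749)
    (Nat.add (Nat.add (Nat.add (Nat.add (Nat.add (Nat.add (Nat.add (Nat.add (Nat.add (Nat.add C x24877) x16129) x10297) x11269) x11917) x11701) x11773) x11749) x11757) x31437)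
    (Nat.add (Nat.add (Nat.add (Nat.add (Nat.add (Nat.add (Nat.add (Nat.add (Nat.add (Nat.add (Nat.add C x11757) x24879) x16131) x10299) x11271) x11919) x11703) x11775) x11751) x11763) x11755)
    (Nat.add (Nat.add (Nat.add (Nat.add (Nat.add (Nat.add (Nat.add (Nat.add C x24885) x16137) x10305) x11277) x11925) x11709) x11781) x11757)
    (Nat.add (Nat.add (Nat.add (Nat.add (Nat.add (Nat.add (Nat.add (Nat.add (Nat.add (Nat.add (Nat.add C x11773) x24895) x16147) x10315) x11287) x11935) x11719) x11827) x11755) x11775) x31455)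
    (Nat.add (Nat.add (Nat.add (Nat.add (Nat.add (Nat.add (Nat.add (Nat.add (Nat.add (Nat.add (Nat.add C x11775) x24897) x16149) x10317) x11289) x11937) x11721) x11829) x11757) x11781) x11773)
    (Nat.add (Nat.add (Nat.add (Nat.add (Nat.add (Nat.add (Nat.add (Nat.add (Nat.add (Nat.add (Nat.add C (Nat.mul x11781 (nat_lit 2))) x24903) x16155) x10323) x11295) x11943) x11727) x11835) x11763) x11799) x11775)
    (Nat.add (Nat.add (Nat.add (Nat.add (Nat.add (Nat.add (Nat.add (Nat.add C (Nat.mul x11799 (nat_lit 2))) x24921) x16173) x10341) x11313) x11961) x11853) x11781)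
    (Nat.add (Nat.add (Nat.add (Nat.add (Nat.add (Nat.add (Nat.add (Nat.add C x24949) x16201) x10369) x11341) x11989) x11773) x11829) x31509)
    (Nat.add (Nat.add (Nat.add (Nat.add (Nat.add (Nat.add (Nat.add (Nat.add C x24951) x16203) x10371) x11343) x11991) x11775) x11835) x11827)
    (Nat.add (Nat.add (Nat.add (Nat.add (Nat.add (Nat.add (Nat.add (Nat.add C x24957) x16209) x10377) x11349) x11997) x11781) x11853) x11829)
    (Nat.add (Nat.add (Nat.add (Nat.add (Nat.add (Nat.add (Nat.add (Nat.add C (Nat.mul x11853 (nat_lit 2))) x24975) x16227) x10395) x11367) x12015) x11799) x11835)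
    (Nat.add (Nat.add (Nat.add (Nat.add (Nat.add (Nat.add (Nat.add (Nat.add (Nat.add C x11909) x25031) x16283) x10451) x11423) x12395) x11747) x11911) x31591)
    (Nat.add (Nat.add (Nat.add (Nat.add (Nat.add (Nat.add (Nat.add (Nat.add (Nat.add (Nat.add (Nat.add C (Nat.mul x11911 (nat_lit 2))) x25033) x16285) x10453) x11425) x12397) x11749) x11917) x11909) x11913) x31593)
    (Nat.add (Nat.add (Nat.add (Nat.add (Nat.add (Nat.add (Nat.add (Nat.add (Nat.add C x11913) x25035) x16287) x10455) x11427) x12399) x11751) x11919) x11911)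
    (Nat.add (Nat.add (Nat.add (Nat.add (Nat.add (Nat.add (Nat.add (Nat.add (Nat.add (Nat.add (Nat.add C x11917) x25039) x16291) x10459) x11431) x12403) x11755) x11935) x11911) x11919) x31599)
    (Nat.add (Nat.add (Nat.add (Nat.add (Nat.add (Nat.add (Nat.add (Nat.add (Nat.add (Nat.add (Nat.add C (Nat.mul x11919 (nat_lit 2))) x25041) x16293) x10461) x11433) x12405) x11757) x11937) x11913) x11925) x11917)
    (Nat.add (Nat.add (Nat.add (Nat.add (Nat.add (Nat.add (Nat.add (Nat.add (Nat.add C x11925) x25047) x16299) x10467) x11439) x12411) x11763) x11943) x11919)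
    (Nat.add (Nat.add (Nat.add (Nat.add (Nat.add (Nat.add (Nat.add (Nat.add (Nat.add (Nat.add (Nat.add C x11935) x25057) x16309) x10477) x11449) x12421) x11773) x11989) x11917) x11937) x31617)
    (Nat.add (Nat.add (Nat.add (Nat.add (Nat.add (Nat.add (Nat.add (Nat.add (Nat.add (Nat.add (Nat.add C x11937) x25059) x16311) x10479) x11451) x12423) x11775) x11991) x11919) x11943) x11935)
    (Nat.add (Nat.add (Nat.add (Nat.add (Nat.add (Nat.add (Nat.add (Nat.add (Nat.add (Nat.add (Nat.add C (Nat.mul x11943 (nat_lit 2))) x25065) x16317) x10485) x11457) x12429) x11781) x11997) x11925) x11961) x11937)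
    (Nat.add (Nat.add (Nat.add (Nat.add (Nat.add (Nat.add (Nat.add (Nat.add (Nat.add C x11961) x25083) x16335) x10503) x11475) x12447) x11799) x12015) x11943)
    (Nat.add (Nat.add (Nat.add (Nat.add (Nat.add (Nat.add (Nat.add (Nat.add (Nat.add (Nat.add (Nat.add C (Nat.mul x11989 (nat_lit 2))) x25111) x16363) x10531) x11503) x12475) x11827) x12151) x11935) x11991) x31671)
    (Nat.add (Nat.add (Nat.add (Nat.add (Nat.add (Nat.add (Nat.add (Nat.add (Nat.add (Nat.add (Nat.add C (Nat.mul x11991 (nat_lit 2))) x25113) x16365) x10533) x11505) x12477) x11829) x12153) x11937) x11997) x11989)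
    (Nat.add (Nat.add (Nat.add (Nat.add (Nat.add (Nat.add (Nat.add (Nat.add (Nat.add (Nat.add (Nat.add C (Nat.mul x11997 (nat_lit 2))) x25119) x16371) x10539) x11511) x12483) x11835) x12159) x11943) x12015) x11991)
    (Nat.add (Nat.add (Nat.add (Nat.add (Nat.add (Nat.add (Nat.add (Nat.add (Nat.add (Nat.add (Nat.add C (Nat.mul x12015 (nat_lit 3))) x25137) x16389) x10557) x11529) x12501) x11853) x12177) x11961) x12069) x11997)
    (Nat.add (Nat.add (Nat.add (Nat.add (Nat.add (Nat.add (Nat.add (Nat.add C (Nat.mul x12069 (nat_lit 3))) x25191) x16443) x10611) x11583) x12555) x12231) x12015)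
    (Nat.add (Nat.add (Nat.add (Nat.add (Nat.add (Nat.add (Nat.add (Nat.add C (Nat.mul x12151 (nat_lit 2))) x25273) x16525) x10693) x12637) x11989) x12153) x31833)
    (Nat.add (Nat.add (Nat.add (Nat.add (Nat.add (Nat.add (Nat.add (Nat.add C (Nat.mul x12153 (nat_lit 2))) x25275) x16527) x10695) x12639) x11991) x12159) x12151)
    (Nat.add (Nat.add (Nat.add (Nat.add (Nat.add (Nat.add (Nat.add (Nat.add C (Nat.mul x12159 (nat_lit 2))) x25281) x16533) x10701) x12645) x11997) x12177) x12153)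
    (Nat.add (Nat.add (Nat.add (Nat.add (Nat.add (Nat.add (Nat.add (Nat.add C (Nat.mul x12177 (nat_lit 2))) x25299) x16551) x10719) x12663) x12015) x12231) x12159)
    (Nat.add (Nat.add (Nat.add (Nat.add (Nat.add (Nat.add (Nat.add C (Nat.mul x12231 (nat_lit 4))) x25353) x16605) x10773) x12717) x12069) x12177)
    (Nat.add (Nat.add (Nat.add (Nat.add (Nat.add (Nat.add C (Nat.mul x12395 (nat_lit 2))) x25517) x16769) x11909) x12397) x32077)
    (Nat.add (Nat.add (Nat.add (Nat.add (Nat.add (Nat.add (Nat.add (Nat.add C (Nat.mul x12397 (nat_lit 3))) x25519) x16771) x11911) x12403) x12395) x12399) x32079)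
    (Nat.add (Nat.add (Nat.add (Nat.add (Nat.add (Nat.add C (Nat.mul x12399 (nat_lit 2))) x25521) x16773) x11913) x12405) x12397)
    (Nat.add (Nat.add (Nat.add (Nat.add (Nat.add (Nat.add (Nat.add (Nat.add C (Nat.mul x12403 (nat_lit 2))) x25525) x16777) x11917) x12421) x12397) x12405) x32085)
    (Nat.add (Nat.add (Nat.add (Nat.add (Nat.add (Nat.add (Nat.add (Nat.add C (Nat.mul x12405 (nat_lit 3))) x25527) x16779) x11919) x12423) x12399) x12411) x12403)
    (Nat.add (Nat.add (Nat.add (Nat.add (Nat.add (Nat.add C (Nat.mul x12411 (nat_lit 2))) x25533) x16785) x11925) x12429) x12405)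
    (Nat.add (Nat.add (Nat.add (Nat.add (Nat.add (Nat.add (Nat.add (Nat.add C (Nat.mul x12421 (nat_lit 2))) x25543) x16795) x11935) x12475) x12403) x12423) x32103)
    (Nat.add (Nat.add (Nat.add (Nat.add (Nat.add (Nat.add (Nat.add (Nat.add C (Nat.mul x12423 (nat_lit 2))) x25545) x16797) x11937) x12477) x12405) x12429) x12421)
    (Nat.add (Nat.add (Nat.add (Nat.add (Nat.add (Nat.add (Nat.add (Nat.add C (Nat.mul x12429 (nat_lit 3))) x25551) x16803) x11943) x12483) x12411) x12447) x12423)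
    (Nat.add (Nat.add (Nat.add (Nat.add (Nat.add (Nat.add C (Nat.mul x12447 (nat_lit 2))) x25569) x16821) x11961) x12501) x12429)
    (Nat.add (Nat.add (Nat.add (Nat.add (Nat.add (Nat.add (Nat.add (Nat.add C (Nat.mul x12475 (nat_lit 2))) x25597) x16849) x11989) x12637) x12421) x12477) x32157)
    (Nat.add (Nat.add (Nat.add (Nat.add (Nat.add (Nat.add (Nat.add (Nat.add C (Nat.mul x12477 (nat_lit 2))) x25599) x16851) x11991) x12639) x12423) x12483) x12475)
    (Nat.add (Nat.add (Nat.add (Nat.add (Nat.add (Nat.add (Nat.add (Nat.add C (Nat.mul x12483 (nat_lit 2))) x25605) x16857) x11997) x12645) x12429) x12501) x12477)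
    (Nat.add (Nat.add (Nat.add (Nat.add (Nat.add (Nat.add (Nat.add (Nat.add C (Nat.mul x12501 (nat_lit 3))) x25623) x16875) x12015) x12663) x12447) x12555) x12483)
    (Nat.add (Nat.add (Nat.add (Nat.add (Nat.add (Nat.add C (Nat.mul x12555 (nat_lit 2))) x25677) x16929) x12069) x12717) x12501)
    (Nat.add (Nat.add (Nat.add (Nat.add (Nat.add (Nat.add (Nat.add C (Nat.mul x12637 (nat_lit 4))) x25759) x17011) x12151) x12475) x12639) x32319)
    (Nat.add (Nat.add (Nat.add (Nat.add (Nat.add (Nat.add (Nat.add C (Nat.mul x12639 (nat_lit 4))) x25761) x17013) x12153) x12477) x12645) x12637)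
    (Nat.add (Nat.add (Nat.add (Nat.add (Nat.add (Nat.add (Nat.add C (Nat.mul x12645 (nat_lit 4))) x25767) x17019) x12159) x12483) x12663) x12639)
    (Nat.add (Nat.add (Nat.add (Nat.add (Nat.add (Nat.add (Nat.add C (Nat.mul x12663 (nat_lit 4))) x25785) x17037) x12177) x12501) x12717) x12645)
    (Nat.add (Nat.add (Nat.add (Nat.add (Nat.add (Nat.add (Nat.add C (Nat.mul x12717 (nat_lit 5))) x25839) x17091) x12231) x12555) x12879) x12663)
    (Nat.add (Nat.add (Nat.add (Nat.add C (Nat.mul x12879 (nat_lit 6))) x26001) x17253) x12717)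
    (Nat.add (Nat.add (Nat.add (Nat.add (Nat.add (Nat.add C (Nat.mul x13139 (nat_lit 2))) x26261) x8765) x13157) x13145) x32821)
    (Nat.add (Nat.add (Nat.add (Nat.add (Nat.add (Nat.add C x26267) x8771) x13163) x13139) x13147) x32827)
    (Nat.add (Nat.add (Nat.add (Nat.add (Nat.add (Nat.add C (Nat.mul x13147 (nat_lit 2))) x26269) x8773) x13165) x13145) x32829)
    (Nat.add (Nat.add (Nat.add (Nat.add (Nat.add (Nat.add C x26279) x8783) x13211) x13139) x13163) x32839)
    (Nat.add (Nat.add (Nat.add (Nat.add (Nat.add (Nat.add (Nat.add (Nat.add (Nat.add C x26285) x8789) x13217) x13145) x13181) x13157) x13169) x13165) x32845)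
    (Nat.add (Nat.add (Nat.add (Nat.add (Nat.add (Nat.add (Nat.add (Nat.add (Nat.add C x13165) x26287) x8791) x13219) x13147) x13183) x13171) x13163) x32847)
    (Nat.sub (Nat.add (Nat.add (Nat.add (Nat.add (Nat.add (Nat.add (Nat.add C x26291) x8795) x13223) x13187) x13163) x13171) x32851) (Nat.mul x13169 (nat_lit 2)))
    (Nat.add (Nat.add (Nat.add (Nat.add (Nat.add (Nat.add (Nat.add (Nat.add (Nat.add C x13171) x26293) x8797) x13225) x13189) x13165) x13169) x13173) x32853)
    (Nat.add (Nat.add (Nat.add (Nat.add (Nat.add (Nat.add C (Nat.mul x13173 (nat_lit 2))) x26295) x8799) x13227) x13191) x13171)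
    (Nat.sub (Nat.add (Nat.add (Nat.add (Nat.add (Nat.add (Nat.add (Nat.add C x26303) x8807) x13235) x13163) x13187) x13183) x32863) (Nat.mul x13181 (nat_lit 2)))
    (Nat.sub (Nat.add (Nat.add (Nat.add (Nat.add (Nat.add (Nat.add (Nat.add C x26305) x8809) x13237) x13165) x13189) x13181) x32865) (Nat.mul x13183 (nat_lit 2)))
    (Nat.sub (Nat.add (Nat.add (Nat.add (Nat.add (Nat.add (Nat.add (Nat.add C x26309) x8813) x13241) x13169) x13181) x13189) x32869) (Nat.mul x13187 (nat_lit 2)))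
    (Nat.add (Nat.add (Nat.add (Nat.add (Nat.add (Nat.add (Nat.add (Nat.add (Nat.add C x26311) x8815) x13243) x13171) x13183) x13195) x13187) x13191) x32871)
    (Nat.add (Nat.add (Nat.add (Nat.add (Nat.add (Nat.add C x26313) x8817) x13245) x13173) x13197) x13189)
    (Nat.add (Nat.add (Nat.add (Nat.add (Nat.add (Nat.add C x26317) x8821) x13249) x13189) x13197) x32877)
    (Nat.add (Nat.add (Nat.add (Nat.add (Nat.add (Nat.add C (Nat.mul x13197 (nat_lit 2))) x26319) x8823) x13251) x13191) x13195)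
    (Nat.add (Nat.add (Nat.add (Nat.add (Nat.add (Nat.add C x26333) x8837) x13373) x13157) x13217) x32893)
    (Nat.sub (Nat.add (Nat.add (Nat.add (Nat.add (Nat.add (Nat.add (Nat.add (Nat.add (Nat.add C x26339) x8843) x13379) x13163) x13235) x13211) x13223) x13219) x32899) x13217)
    (Nat.add (Nat.add (Nat.add (Nat.add (Nat.add (Nat.add (Nat.add (Nat.add C x26341) x8845) x13381) x13165) x13237) x13225) x13217) x32901)
    (Nat.sub (Nat.add (Nat.add (Nat.add (Nat.add (Nat.add (Nat.add (Nat.add (Nat.add C x26345) x8849) x13385) x13169) x13241) x13217) x13225) x32905) (Nat.mul x13223 (nat_lit 4)))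
    (Nat.sub (Nat.add (Nat.add (Nat.add (Nat.add (Nat.add (Nat.add (Nat.add (Nat.add (Nat.add C x26347) x8851) x13387) x13171) x13243) x13219) x13223) x13227) x32907) x13225)
    (Nat.add (Nat.add (Nat.add (Nat.add (Nat.add (Nat.add C x26349) x8853) x13389) x13173) x13245) x13225)
    (Nat.sub (Nat.add (Nat.add (Nat.add (Nat.add (Nat.add (Nat.add (Nat.add (Nat.add (Nat.add C x26357) x8861) x13397) x13181) x13289) x13217) x13241) x13237) x32917) x13235)
    (Nat.sub (Nat.add (Nat.add (Nat.add (Nat.add (Nat.add (Nat.add (Nat.add (Nat.add (Nat.add C x26359) x8863) x13399) x13183) x13291) x13219) x13243) x13235) x32919) x13237)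
    (Nat.sub (Nat.add (Nat.add (Nat.add (Nat.add (Nat.add (Nat.add (Nat.add (Nat.add (Nat.add (Nat.add C x26363) x8867) x13403) x13187) x13295) x13223) x13259) x13235) x13243) x32923) (Nat.mul x13241 (nat_lit 2)))
    (Nat.add (Nat.add (Nat.add (Nat.add (Nat.add (Nat.add (Nat.add (Nat.add (Nat.add (Nat.add (Nat.add (Nat.add C x26365) x8869) x13405) x13189) x13297) x13225) x13261) x13237) x13249) x13241) x13245) x32925)
    (Nat.add (Nat.add (Nat.add (Nat.add (Nat.add (Nat.add (Nat.add (Nat.add (Nat.add C x26367) x8871) x13407) x13191) x13299) x13227) x13263) x13251) x13243)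
    (Nat.sub (Nat.add (Nat.add (Nat.add (Nat.add (Nat.add (Nat.add (Nat.add (Nat.add (Nat.add C x26371) x8875) x13411) x13195) x13303) x13267) x13243) x13251) x32931) x13249)
    (Nat.add (Nat.add (Nat.add (Nat.add (Nat.add (Nat.add (Nat.add (Nat.add (Nat.add C x13251) x26373) x8877) x13413) x13197) x13305) x13269) x13245) x13249)
    (Nat.sub (Nat.add (Nat.add (Nat.add (Nat.add (Nat.add (Nat.add (Nat.add C x26381) x8885) x13421) x13313) x13241) x13261) x32941) (Nat.mul x13259 (nat_lit 2)))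
    (Nat.sub (Nat.add (Nat.add (Nat.add (Nat.add (Nat.add (Nat.add (Nat.add (Nat.add (Nat.add C x26383) x8887) x13423) x13315) x13243) x13267) x13259) x13263) x32943) x13261)
    (Nat.sub (Nat.add (Nat.add (Nat.add (Nat.add (Nat.add (Nat.add (Nat.add C x26385) x8889) x13425) x13317) x13245) x13269) x13261) (Nat.mul x13263 (nat_lit 2)))
    (Nat.add (Nat.add (Nat.add (Nat.add (Nat.add (Nat.add (Nat.add (Nat.add C x26389) x8893) x13429) x13321) x13249) x13261) x13269) x32949)
    (Nat.add (Nat.add (Nat.add (Nat.add (Nat.add (Nat.add (Nat.add (Nat.add (Nat.add C x13269) x26391) x8895) x13431) x13323) x13251) x13263) x13275) x13267)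
    (Nat.add (Nat.add (Nat.add (Nat.add (Nat.add (Nat.add C (Nat.mul x13275 (nat_lit 2))) x26397) x8901) x13437) x13329) x13269)
    (Nat.sub (Nat.add (Nat.add (Nat.add (Nat.add (Nat.add (Nat.add (Nat.add C x26411) x8915) x13451) x13235) x13295) x13291) x32971) (Nat.mul x13289 (nat_lit 2)))
    (Nat.sub (Nat.add (Nat.add (Nat.add (Nat.add (Nat.add (Nat.add (Nat.add C x26413) x8917) x13453) x13237) x13297) x13289) x32973) (Nat.mul x13291 (nat_lit 2)))
    (Nat.sub (Nat.add (Nat.add (Nat.add (Nat.add (Nat.add (Nat.add (Nat.add (Nat.add C x26417) x8921) x13457) x13241) x13313) x13289) x13297) x32977) (Nat.mul x13295 (nat_lit 4)))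
    (Nat.sub (Nat.add (Nat.add (Nat.add (Nat.add (Nat.add (Nat.add (Nat.add (Nat.add (Nat.add (Nat.add C x26419) x8923) x13459) x13243) x13315) x13291) x13303) x13295) x13299) x32979) (Nat.mul x13297 (nat_lit 2)))
    (Nat.sub (Nat.add (Nat.add (Nat.add (Nat.add (Nat.add (Nat.add (Nat.add C x26421) x8925) x13461) x13245) x13317) x13305) x13297) (Nat.mul x13299 (nat_lit 2)))
    (Nat.sub (Nat.add (Nat.add (Nat.add (Nat.add (Nat.add (Nat.add (Nat.add (Nat.add C x26425) x8929) x13465) x13249) x13321) x13297) x13305) x32985) (Nat.mul x13303 (nat_lit 4)))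
    (Nat.sub (Nat.add (Nat.add (Nat.add (Nat.add (Nat.add (Nat.add (Nat.add C x26427) x8931) x13467) x13251) x13323) x13299) x13303) (Nat.mul x13305 (nat_lit 2)))
    (Nat.sub (Nat.add (Nat.add (Nat.add (Nat.add (Nat.add (Nat.add (Nat.add C x26435) x8939) x13475) x13259) x13295) x13315) x32995) (Nat.mul x13313 (nat_lit 2)))
    (Nat.sub (Nat.add (Nat.add (Nat.add (Nat.add (Nat.add (Nat.add (Nat.add (Nat.add (Nat.add C x26437) x8941) x13477) x13261) x13297) x13321) x13313) x13317) x32997) x13315)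
    (Nat.sub (Nat.add (Nat.add (Nat.add (Nat.add (Nat.add (Nat.add (Nat.add C x26439) x8943) x13479) x13263) x13299) x13323) x13315) (Nat.mul x13317 (nat_lit 2)))
    (Nat.sub (Nat.add (Nat.add (Nat.add (Nat.add (Nat.add (Nat.add (Nat.add (Nat.add (Nat.add C x26443) x8947) x13483) x13267) x13303) x13339) x13315) x13323) x33003) x13321)
    (Nat.add (Nat.add (Nat.add (Nat.add (Nat.add (Nat.add (Nat.add (Nat.add (Nat.add C x26445) x8949) x13485) x13269) x13305) x13341) x13317) x13329) x13321)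
    (Nat.add (Nat.add (Nat.add (Nat.add (Nat.add (Nat.add C x26451) x8955) x13491) x13275) x13347) x13323)
    (Nat.add (Nat.add (Nat.add (Nat.add (Nat.add (Nat.add C x26461) x8965) x13501) x13321) x13341) x33021)
    (Nat.add (Nat.add (Nat.add (Nat.add (Nat.add (Nat.add C x26463) x8967) x13503) x13323) x13347) x13339)
    (Nat.add (Nat.add (Nat.add (Nat.add (Nat.add (Nat.add C (Nat.mul x13347 (nat_lit 2))) x26469) x8973) x13509) x13329) x13341)
    (Nat.add (Nat.add (Nat.add (Nat.add (Nat.add (Nat.add C x26495) x8999) x13859) x13211) x13379) x33055)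
    (Nat.sub (Nat.add (Nat.add (Nat.add (Nat.add (Nat.add (Nat.add (Nat.add (Nat.add (Nat.add C x26501) x9005) x13865) x13217) x13397) x13373) x13385) x13381) x33061) x13379)
    (Nat.add (Nat.add (Nat.add (Nat.add (Nat.add (Nat.add (Nat.add (Nat.add C x26503) x9007) x13867) x13219) x13399) x13387) x13379) x33063)
    (Nat.sub (Nat.add (Nat.add (Nat.add (Nat.add (Nat.add (Nat.add (Nat.add (Nat.add C x26507) x9011) x13871) x13223) x13403) x13379) x13387) x33067) (Nat.mul x13385 (nat_lit 4)))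
    (Nat.sub (Nat.add (Nat.add (Nat.add (Nat.add (Nat.add (Nat.add (Nat.add (Nat.add (Nat.add C x26509) x9013) x13873) x13225) x13405) x13381) x13385) x13389) x33069) x13387)
    (Nat.add (Nat.add (Nat.add (Nat.add (Nat.add (Nat.add C x26511) x9015) x13875) x13227) x13407) x13387)
    (Nat.sub (Nat.add (Nat.add (Nat.add (Nat.add (Nat.add (Nat.add (Nat.add (Nat.add (Nat.add C x26519) x9023) x13883) x13235) x13451) x13379) x13403) x13399) x33079) (Nat.mul x13397 (nat_lit 2)))
    (Nat.sub (Nat.add (Nat.add (Nat.add (Nat.add (Nat.add (Nat.add (Nat.add (Nat.add (Nat.add C x26521) x9025) x13885) x13237) x13453) x13381) x13405) x13397) x33081) (Nat.mul x13399 (nat_lit 2)))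
    (Nat.sub (Nat.add (Nat.add (Nat.add (Nat.add (Nat.add (Nat.add (Nat.add (Nat.add (Nat.add (Nat.add C x26525) x9029) x13889) x13241) x13457) x13385) x13421) x13397) x13405) x33085) (Nat.mul x13403 (nat_lit 3)))
    (Nat.sub (Nat.add (Nat.add (Nat.add (Nat.add (Nat.add (Nat.add (Nat.add (Nat.add (Nat.add (Nat.add (Nat.add (Nat.add C x26527) x9031) x13891) x13243) x13459) x13387) x13423) x13399) x13411) x13403) x13407) x33087) x13405)
    (Nat.sub (Nat.add (Nat.add (Nat.add (Nat.add (Nat.add (Nat.add (Nat.add (Nat.add (Nat.add C x26529) x9033) x13893) x13245) x13461) x13389) x13425) x13413) x13405) x13407)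
    (Nat.sub (Nat.add (Nat.add (Nat.add (Nat.add (Nat.add (Nat.add (Nat.add (Nat.add (Nat.add C x26533) x9037) x13897) x13249) x13465) x13429) x13405) x13413) x33093) (Nat.mul x13411 (nat_lit 2)))
    (Nat.add (Nat.add (Nat.add (Nat.add (Nat.add (Nat.add (Nat.add (Nat.add C x26535) x9039) x13899) x13251) x13467) x13431) x13407) x13411)
    (Nat.sub (Nat.add (Nat.add (Nat.add (Nat.add (Nat.add (Nat.add (Nat.add (Nat.add C x26543) x9047) x13907) x13259) x13475) x13403) x13423) x33103) (Nat.mul x13421 (nat_lit 4)))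
    (Nat.sub (Nat.add (Nat.add (Nat.add (Nat.add (Nat.add (Nat.add (Nat.add (Nat.add (Nat.add (Nat.add C x26545) x9049) x13909) x13261) x13477) x13405) x13429) x13421) x13425) x33105) (Nat.mul x13423 (nat_lit 3)))
    (Nat.sub (Nat.add (Nat.add (Nat.add (Nat.add (Nat.add (Nat.add (Nat.add (Nat.add C x26547) x9051) x13911) x13263) x13479) x13407) x13431) x13423) (Nat.mul x13425 (nat_lit 4)))
    (Nat.sub (Nat.add (Nat.add (Nat.add (Nat.add (Nat.add (Nat.add (Nat.add (Nat.add (Nat.add C x26551) x9055) x13915) x13267) x13483) x13411) x13423) x13431) x33111) (Nat.mul x13429 (nat_lit 2)))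
    (Nat.sub (Nat.add (Nat.add (Nat.add (Nat.add (Nat.add (Nat.add (Nat.add (Nat.add (Nat.add C x26553) x9057) x13917) x13269) x13485) x13413) x13425) x13437) x13429) x13431)
    (Nat.add (Nat.add (Nat.add (Nat.add (Nat.add (Nat.add C x26559) x9063) x13923) x13275) x13491) x13431)
    (Nat.sub (Nat.add (Nat.add (Nat.add (Nat.add (Nat.add (Nat.add (Nat.add (Nat.add (Nat.add C x26573) x9077) x13937) x13289) x13613) x13397) x13457) x13453) x33133) x13451)
    (Nat.sub (Nat.add (Nat.add (Nat.add (Nat.add (Nat.add (Nat.add (Nat.add (Nat.add (Nat.add C x26575) x9079) x13939) x13291) x13615) x13399) x13459) x13451) x33135) x13453)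
    (Nat.sub (Nat.add (Nat.add (Nat.add (Nat.add (Nat.add (Nat.add (Nat.add (Nat.add (Nat.add (Nat.add C x26579) x9083) x13943) x13295) x13619) x13403) x13475) x13451) x13459) x33139) (Nat.mul x13457 (nat_lit 3)))
    (Nat.sub (Nat.add (Nat.add (Nat.add (Nat.add (Nat.add (Nat.add (Nat.add (Nat.add (Nat.add (Nat.add (Nat.add (Nat.add C x26581) x9085) x13945) x13297) x13621) x13405) x13477) x13453) x13465) x13457) x13461) x33141) x13459)
    (Nat.sub (Nat.add (Nat.add (Nat.add (Nat.add (Nat.add (Nat.add (Nat.add (Nat.add (Nat.add C x26583) x9087) x13947) x13299) x13623) x13407) x13479) x13467) x13459) x13461)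
    (Nat.sub (Nat.add (Nat.add (Nat.add (Nat.add (Nat.add (Nat.add (Nat.add (Nat.add (Nat.add (Nat.add C x26587) x9091) x13951) x13303) x13627) x13411) x13483) x13459) x13467) x33147) (Nat.mul x13465 (nat_lit 3)))
    (Nat.sub (Nat.add (Nat.add (Nat.add (Nat.add (Nat.add (Nat.add (Nat.add (Nat.add (Nat.add C x26589) x9093) x13953) x13305) x13629) x13413) x13485) x13461) x13465) x13467)
    (Nat.sub (Nat.add (Nat.add (Nat.add (Nat.add (Nat.add (Nat.add (Nat.add (Nat.add (Nat.add (Nat.add C x26597) x9101) x13961) x13313) x13637) x13421) x13529) x13457) x13477) x33157) (Nat.mul x13475 (nat_lit 2)))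
    (Nat.sub (Nat.add (Nat.add (Nat.add (Nat.add (Nat.add (Nat.add (Nat.add (Nat.add (Nat.add (Nat.add (Nat.add (Nat.add C x26599) x9103) x13963) x13315) x13639) x13423) x13531) x13459) x13483) x13475) x13479) x33159) x13477)
    (Nat.sub (Nat.add (Nat.add (Nat.add (Nat.add (Nat.add (Nat.add (Nat.add (Nat.add (Nat.add (Nat.add C x26601) x9105) x13965) x13317) x13641) x13425) x13533) x13461) x13485) x13477) (Nat.mul x13479 (nat_lit 2)))
    (Nat.sub (Nat.add (Nat.add (Nat.add (Nat.add (Nat.add (Nat.add (Nat.add (Nat.add (Nat.add (Nat.add (Nat.add (Nat.add C x26605) x9109) x13969) x13321) x13645) x13429) x13537) x13465) x13501) x13477) x13485) x33165) x13483)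
    (Nat.add (Nat.add (Nat.add (Nat.add (Nat.add (Nat.add (Nat.add (Nat.add (Nat.add (Nat.add (Nat.add (Nat.add C x26607) x9111) x13971) x13323) x13647) x13431) x13539) x13467) x13503) x13479) x13491) x13483)
    (Nat.add (Nat.add (Nat.add (Nat.add (Nat.add (Nat.add (Nat.add (Nat.add (Nat.add C x26613) x9117) x13977) x13329) x13653) x13437) x13545) x13509) x13485)
    (Nat.sub (Nat.add (Nat.add (Nat.add (Nat.add (Nat.add (Nat.add (Nat.add (Nat.add (Nat.add C x26623) x9127) x13987) x13339) x13663) x13555) x13483) x13503) x33183) x13501)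
    (Nat.sub (Nat.add (Nat.add (Nat.add (Nat.add (Nat.add (Nat.add (Nat.add (Nat.add (Nat.add C x26625) x9129) x13989) x13341) x13665) x13557) x13485) x13509) x13501) x13503)
    (Nat.add (Nat.add (Nat.add (Nat.add (Nat.add (Nat.add (Nat.add (Nat.add (Nat.add C x13509) x26631) x9135) x13995) x13347) x13671) x13563) x13491) x13503)
    (Nat.sub (Nat.add (Nat.add (Nat.add (Nat.add (Nat.add (Nat.add (Nat.add C x26651) x9155) x14015) x13691) x13475) x13531) x33211) (Nat.mul x13529 (nat_lit 2)))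
    (Nat.sub (Nat.add (Nat.add (Nat.add (Nat.add (Nat.add (Nat.add (Nat.add (Nat.add (Nat.add C x26653) x9157) x14017) x13693) x13477) x13537) x13529) x13533) x33213) x13531)
    (Nat.sub (Nat.add (Nat.add (Nat.add (Nat.add (Nat.add (Nat.add (Nat.add C x26655) x9159) x14019) x13695) x13479) x13539) x13531) (Nat.mul x13533 (nat_lit 2)))
    (Nat.sub (Nat.add (Nat.add (Nat.add (Nat.add (Nat.add (Nat.add (Nat.add (Nat.add (Nat.add C x26659) x9163) x14023) x13699) x13483) x13555) x13531) x13539) x33219) (Nat.mul x13537 (nat_lit 2)))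
    (Nat.sub (Nat.add (Nat.add (Nat.add (Nat.add (Nat.add (Nat.add (Nat.add (Nat.add (Nat.add C x26661) x9165) x14025) x13701) x13485) x13557) x13533) x13545) x13537) x13539)
    (Nat.sub (Nat.add (Nat.add (Nat.add (Nat.add (Nat.add (Nat.add (Nat.add C x26667) x9171) x14031) x13707) x13491) x13563) x13539) (Nat.mul x13545 (nat_lit 2)))
    (Nat.add (Nat.add (Nat.add (Nat.add (Nat.add (Nat.add (Nat.add (Nat.add C x26677) x9181) x14041) x13717) x13501) x13537) x13557) x33237)
    (Nat.add (Nat.add (Nat.add (Nat.add (Nat.add (Nat.add (Nat.add (Nat.add C x26679) x9183) x14043) x13719) x13503) x13539) x13563) x13555)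
    (Nat.add (Nat.add (Nat.add (Nat.add (Nat.add (Nat.add (Nat.add (Nat.add (Nat.add C x13563) x26685) x9189) x14049) x13725) x13509) x13545) x13581) x13557)
    (Nat.add (Nat.add (Nat.add (Nat.add (Nat.add (Nat.add C (Nat.mul x13581 (nat_lit 2))) x26703) x9207) x14067) x13743) x13563)
    (Nat.sub (Nat.add (Nat.add (Nat.add (Nat.add (Nat.add (Nat.add (Nat.add C x26735) x9239) x14099) x13451) x13619) x13615) x33295) (Nat.mul x13613 (nat_lit 2)))
    (Nat.sub (Nat.add (Nat.add (Nat.add (Nat.add (Nat.add (Nat.add (Nat.add C x26737) x9241) x14101) x13453) x13621) x13613) x33297) (Nat.mul x13615 (nat_lit 2)))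
    (Nat.sub (Nat.add (Nat.add (Nat.add (Nat.add (Nat.add (Nat.add (Nat.add (Nat.add C x26741) x9245) x14105) x13457) x13637) x13613) x13621) x33301) (Nat.mul x13619 (nat_lit 4)))
    (Nat.sub (Nat.add (Nat.add (Nat.add (Nat.add (Nat.add (Nat.add (Nat.add (Nat.add (Nat.add (Nat.add C x26743) x9247) x14107) x13459) x13639) x13615) x13627) x13619) x13623) x33303) (Nat.mul x13621 (nat_lit 2)))
    (Nat.sub (Nat.add (Nat.add (Nat.add (Nat.add (Nat.add (Nat.add (Nat.add C x26745) x9249) x14109) x13461) x13641) x13629) x13621) (Nat.mul x13623 (nat_lit 2)))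
    (Nat.sub (Nat.add (Nat.add (Nat.add (Nat.add (Nat.add (Nat.add (Nat.add (Nat.add C x26749) x9253) x14113) x13465) x13645) x13621) x13629) x33309) (Nat.mul x13627 (nat_lit 4)))
    (Nat.sub (Nat.add (Nat.add (Nat.add (Nat.add (Nat.add (Nat.add (Nat.add C x26751) x9255) x14115) x13467) x13647) x13623) x13627) (Nat.mul x13629 (nat_lit 2)))
    (Nat.sub (Nat.add (Nat.add (Nat.add (Nat.add (Nat.add (Nat.add (Nat.add (Nat.add C x26759) x9263) x14123) x13475) x13691) x13619) x13639) x33319) (Nat.mul x13637 (nat_lit 4)))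
    (Nat.sub (Nat.add (Nat.add (Nat.add (Nat.add (Nat.add (Nat.add (Nat.add (Nat.add (Nat.add (Nat.add C x26761) x9265) x14125) x13477) x13693) x13621) x13645) x13637) x13641) x33321) (Nat.mul x13639 (nat_lit 3)))
    (Nat.sub (Nat.add (Nat.add (Nat.add (Nat.add (Nat.add (Nat.add (Nat.add (Nat.add C x26763) x9267) x14127) x13479) x13695) x13623) x13647) x13639) (Nat.mul x13641 (nat_lit 4)))
    (Nat.sub (Nat.add (Nat.add (Nat.add (Nat.add (Nat.add (Nat.add (Nat.add (Nat.add (Nat.add (Nat.add C x26767) x9271) x14131) x13483) x13699) x13627) x13663) x13639) x13647) x33327) (Nat.mul x13645 (nat_lit 3)))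
    (Nat.sub (Nat.add (Nat.add (Nat.add (Nat.add (Nat.add (Nat.add (Nat.add (Nat.add (Nat.add (Nat.add C x26769) x9273) x14133) x13485) x13701) x13629) x13665) x13641) x13653) x13645) (Nat.mul x13647 (nat_lit 2)))
    (Nat.sub (Nat.add (Nat.add (Nat.add (Nat.add (Nat.add (Nat.add (Nat.add C x26775) x9279) x14139) x13491) x13707) x13671) x13647) (Nat.mul x13653 (nat_lit 2)))
    (Nat.sub (Nat.add (Nat.add (Nat.add (Nat.add (Nat.add (Nat.add (Nat.add (Nat.add C x26785) x9289) x14149) x13501) x13717) x13645) x13665) x33345) (Nat.mul x13663 (nat_lit 4)))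
    (Nat.sub (Nat.add (Nat.add (Nat.add (Nat.add (Nat.add (Nat.add (Nat.add (Nat.add C x26787) x9291) x14151) x13503) x13719) x13647) x13671) x13663) (Nat.mul x13665 (nat_lit 4)))
    (Nat.sub (Nat.add (Nat.add (Nat.add (Nat.add (Nat.add (Nat.add (Nat.add C x26793) x9297) x14157) x13509) x13725) x13653) x13665) (Nat.mul x13671 (nat_lit 2)))
    (Nat.sub (Nat.add (Nat.add (Nat.add (Nat.add (Nat.add (Nat.add (Nat.add C x26813) x9317) x14177) x13529) x13637) x13693) x33373) (Nat.mul x13691 (nat_lit 2)))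
    (Nat.sub (Nat.add (Nat.add (Nat.add (Nat.add (Nat.add (Nat.add (Nat.add (Nat.add (Nat.add C x26815) x9319) x14179) x13531) x13639) x13699) x13691) x13695) x33375) x13693)
    (Nat.sub (Nat.add (Nat.add (Nat.add (Nat.add (Nat.add (Nat.add (Nat.add C x26817) x9321) x14181) x13533) x13641) x13701) x13693) (Nat.mul x13695 (nat_lit 2)))
    (Nat.sub (Nat.add (Nat.add (Nat.add (Nat.add (Nat.add (Nat.add (Nat.add (Nat.add (Nat.add C x26821) x9325) x14185) x13537) x13645) x13717) x13693) x13701) x33381) (Nat.mul x13699 (nat_lit 2)))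
    (Nat.sub (Nat.add (Nat.add (Nat.add (Nat.add (Nat.add (Nat.add (Nat.add (Nat.add (Nat.add C x26823) x9327) x14187) x13539) x13647) x13719) x13695) x13707) x13699) x13701)
    (Nat.sub (Nat.add (Nat.add (Nat.add (Nat.add (Nat.add (Nat.add (Nat.add C x26829) x9333) x14193) x13545) x13653) x13725) x13701) (Nat.mul x13707 (nat_lit 2)))
    (Nat.sub (Nat.add (Nat.add (Nat.add (Nat.add (Nat.add (Nat.add (Nat.add (Nat.add (Nat.add C x26839) x9343) x14203) x13555) x13663) x13771) x13699) x13719) x33399) x13717)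
    (Nat.sub (Nat.add (Nat.add (Nat.add (Nat.add (Nat.add (Nat.add (Nat.add (Nat.add (Nat.add C x26841) x9345) x14205) x13557) x13665) x13773) x13701) x13725) x13717) x13719)
    (Nat.add (Nat.add (Nat.add (Nat.add (Nat.add (Nat.add (Nat.add (Nat.add (Nat.add C x26847) x9351) x14211) x13563) x13671) x13779) x13707) x13743) x13719)
    (Nat.add (Nat.add (Nat.add (Nat.add (Nat.add (Nat.add C x26865) x9369) x14229) x13581) x13797) x13725)
    (Nat.add (Nat.add (Nat.add (Nat.add (Nat.add (Nat.add C x26893) x9397) x14257) x13717) x13773) x33453)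
    (Nat.add (Nat.add (Nat.add (Nat.add (Nat.add (Nat.add C x26895) x9399) x14259) x13719) x13779) x13771)
    (Nat.add (Nat.add (Nat.add (Nat.add (Nat.add (Nat.add C x26901) x9405) x14265) x13725) x13797) x13773)
    (Nat.add (Nat.add (Nat.add (Nat.add (Nat.add (Nat.add C (Nat.mul x13797 (nat_lit 2))) x26919) x9423) x14283) x13743) x13779)
    (Nat.add (Nat.add (Nat.add (Nat.add (Nat.add (Nat.add C x26981) x9485) x15317) x13373) x13865) x33541)
    (Nat.sub (Nat.add (Nat.add (Nat.add (Nat.add (Nat.add (Nat.add (Nat.add (Nat.add (Nat.add C x26987) x9491) x15323) x13379) x13883) x13859) x13871) x13867) x33547) x13865)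
    (Nat.add (Nat.add (Nat.add (Nat.add (Nat.add (Nat.add (Nat.add (Nat.add C x26989) x9493) x15325) x13381) x13885) x13873) x13865) x33549)
    (Nat.sub (Nat.add (Nat.add (Nat.add (Nat.add (Nat.add (Nat.add (Nat.add (Nat.add C x26993) x9497) x15329) x13385) x13889) x13865) x13873) x33553) (Nat.mul x13871 (nat_lit 4)))
    (Nat.sub (Nat.add (Nat.add (Nat.add (Nat.add (Nat.add (Nat.add (Nat.add (Nat.add (Nat.add C x26995) x9499) x15331) x13387) x13891) x13867) x13871) x13875) x33555) x13873)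
    (Nat.add (Nat.add (Nat.add (Nat.add (Nat.add (Nat.add C x26997) x9501) x15333) x13389) x13893) x13873)
    (Nat.sub (Nat.add (Nat.add (Nat.add (Nat.add (Nat.add (Nat.add (Nat.add (Nat.add (Nat.add C x27005) x9509) x15341) x13397) x13937) x13865) x13889) x13885) x33565) (Nat.mul x13883 (nat_lit 2)))
    (Nat.sub (Nat.add (Nat.add (Nat.add (Nat.add (Nat.add (Nat.add (Nat.add (Nat.add (Nat.add C x27007) x9511) x15343) x13399) x13939) x13867) x13891) x13883) x33567) (Nat.mul x13885 (nat_lit 2)))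
    (Nat.sub (Nat.add (Nat.add (Nat.add (Nat.add (Nat.add (Nat.add (Nat.add (Nat.add (Nat.add (Nat.add C x27011) x9515) x15347) x13403) x13943) x13871) x13907) x13883) x13891) x33571) (Nat.mul x13889 (nat_lit 3)))
    (Nat.sub (Nat.add (Nat.add (Nat.add (Nat.add (Nat.add (Nat.add (Nat.add (Nat.add (Nat.add (Nat.add (Nat.add (Nat.add C x27013) x9517) x15349) x13405) x13945) x13873) x13909) x13885) x13897) x13889) x13893) x33573) x13891)
    (Nat.sub (Nat.add (Nat.add (Nat.add (Nat.add (Nat.add (Nat.add (Nat.add (Nat.add (Nat.add C x27015) x9519) x15351) x13407) x13947) x13875) x13911) x13899) x13891) x13893)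
    (Nat.sub (Nat.add (Nat.add (Nat.add (Nat.add (Nat.add (Nat.add (Nat.add (Nat.add (Nat.add C x27019) x9523) x15355) x13411) x13951) x13915) x13891) x13899) x33579) (Nat.mul x13897 (nat_lit 2)))
    (Nat.add (Nat.add (Nat.add (Nat.add (Nat.add (Nat.add (Nat.add (Nat.add C x27021) x9525) x15357) x13413) x13953) x13917) x13893) x13897)
    (Nat.sub (Nat.add (Nat.add (Nat.add (Nat.add (Nat.add (Nat.add (Nat.add (Nat.add C x27029) x9533) x15365) x13421) x13961) x13889) x13909) x33589) (Nat.mul x13907 (nat_lit 4)))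
    (Nat.sub (Nat.add (Nat.add (Nat.add (Nat.add (Nat.add (Nat.add (Nat.add (Nat.add (Nat.add (Nat.add C x27031) x9535) x15367) x13423) x13963) x13891) x13915) x13907) x13911) x33591) (Nat.mul x13909 (nat_lit 3)))
    (Nat.sub (Nat.add (Nat.add (Nat.add (Nat.add (Nat.add (Nat.add (Nat.add (Nat.add C x27033) x9537) x15369) x13425) x13965) x13893) x13917) x13909) (Nat.mul x13911 (nat_lit 4)))
    (Nat.sub (Nat.add (Nat.add (Nat.add (Nat.add (Nat.add (Nat.add (Nat.add (Nat.add (Nat.add C x27037) x9541) x15373) x13429) x13969) x13897) x13909) x13917) x33597) (Nat.mul x13915 (nat_lit 2)))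
    (Nat.sub (Nat.add (Nat.add (Nat.add (Nat.add (Nat.add (Nat.add (Nat.add (Nat.add (Nat.add C x27039) x9543) x15375) x13431) x13971) x13899) x13911) x13923) x13915) x13917)
    (Nat.add (Nat.add (Nat.add (Nat.add (Nat.add (Nat.add C x27045) x9549) x15381) x13437) x13977) x13917)
    (Nat.sub (Nat.add (Nat.add (Nat.add (Nat.add (Nat.add (Nat.add (Nat.add (Nat.add (Nat.add C x27059) x9563) x15395) x13451) x14099) x13883) x13943) x13939) x33619) (Nat.mul x13937 (nat_lit 2)))
    (Nat.sub (Nat.add (Nat.add (Nat.add (Nat.add (Nat.add (Nat.add (Nat.add (Nat.add (Nat.add C x27061) x9565) x15397) x13453) x14101) x13885) x13945) x13937) x33621) (Nat.mul x13939 (nat_lit 2)))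
    (Nat.sub (Nat.add (Nat.add (Nat.add (Nat.add (Nat.add (Nat.add (Nat.add (Nat.add (Nat.add (Nat.add C x27065) x9569) x15401) x13457) x14105) x13889) x13961) x13937) x13945) x33625) (Nat.mul x13943 (nat_lit 4)))
    (Nat.sub (Nat.add (Nat.add (Nat.add (Nat.add (Nat.add (Nat.add (Nat.add (Nat.add (Nat.add (Nat.add (Nat.add (Nat.add C x27067) x9571) x15403) x13459) x14107) x13891) x13963) x13939) x13951) x13943) x13947) x33627) (Nat.mul x13945 (nat_lit 2)))
    (Nat.sub (Nat.add (Nat.add (Nat.add (Nat.add (Nat.add (Nat.add (Nat.add (Nat.add (Nat.add C x27069) x9573) x15405) x13461) x14109) x13893) x13965) x13953) x13945) (Nat.mul x13947 (nat_lit 2)))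
    (Nat.sub (Nat.add (Nat.add (Nat.add (Nat.add (Nat.add (Nat.add (Nat.add (Nat.add (Nat.add (Nat.add C x27073) x9577) x15409) x13465) x14113) x13897) x13969) x13945) x13953) x33633) (Nat.mul x13951 (nat_lit 4)))
    (Nat.sub (Nat.add (Nat.add (Nat.add (Nat.add (Nat.add (Nat.add (Nat.add (Nat.add (Nat.add C x27075) x9579) x15411) x13467) x14115) x13899) x13971) x13947) x13951) (Nat.mul x13953 (nat_lit 2)))
    (Nat.sub (Nat.add (Nat.add (Nat.add (Nat.add (Nat.add (Nat.add (Nat.add (Nat.add (Nat.add (Nat.add C x27083) x9587) x15419) x13475) x14123) x13907) x14015) x13943) x13963) x33643) (Nat.mul x13961 (nat_lit 3)))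
    (Nat.sub (Nat.add (Nat.add (Nat.add (Nat.add (Nat.add (Nat.add (Nat.add (Nat.add (Nat.add (Nat.add (Nat.add (Nat.add C x27085) x9589) x15421) x13477) x14125) x13909) x14017) x13945) x13969) x13961) x13965) x33645) (Nat.mul x13963 (nat_lit 2)))
    (Nat.sub (Nat.add (Nat.add (Nat.add (Nat.add (Nat.add (Nat.add (Nat.add (Nat.add (Nat.add (Nat.add C x27087) x9591) x15423) x13479) x14127) x13911) x14019) x13947) x13971) x13963) (Nat.mul x13965 (nat_lit 3)))
    (Nat.sub (Nat.add (Nat.add (Nat.add (Nat.add (Nat.add (Nat.add (Nat.add (Nat.add (Nat.add (Nat.add (Nat.add (Nat.add C x27091) x9595) x15427) x13483) x14131) x13915) x14023) x13951) x13987) x13963) x13971) x33651) (Nat.mul x13969 (nat_lit 2)))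
    (Nat.sub (Nat.add (Nat.add (Nat.add (Nat.add (Nat.add (Nat.add (Nat.add (Nat.add (Nat.add (Nat.add (Nat.add (Nat.add C x27093) x9597) x15429) x13485) x14133) x13917) x14025) x13953) x13989) x13965) x13977) x13969) x13971)
    (Nat.sub (Nat.add (Nat.add (Nat.add (Nat.add (Nat.add (Nat.add (Nat.add (Nat.add (Nat.add C x27099) x9603) x15435) x13491) x14139) x13923) x14031) x13995) x13971) x13977)
    (Nat.sub (Nat.add (Nat.add (Nat.add (Nat.add (Nat.add (Nat.add (Nat.add (Nat.add (Nat.add C x27109) x9613) x15445) x13501) x14149) x14041) x13969) x13989) x33669) (Nat.mul x13987 (nat_lit 2)))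
    (Nat.sub (Nat.add (Nat.add (Nat.add (Nat.add (Nat.add (Nat.add (Nat.add (Nat.add (Nat.add C x27111) x9615) x15447) x13503) x14151) x14043) x13971) x13995) x13987) (Nat.mul x13989 (nat_lit 2)))
    (Nat.add (Nat.add (Nat.add (Nat.add (Nat.add (Nat.add (Nat.add (Nat.add C x27117) x9621) x15453) x13509) x14157) x14049) x13977) x13989)
    (Nat.sub (Nat.add (Nat.add (Nat.add (Nat.add (Nat.add (Nat.add (Nat.add (Nat.add C x27137) x9641) x15473) x13529) x14177) x13961) x14017) x33697) (Nat.mul x14015 (nat_lit 4)))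
    (Nat.sub (Nat.add (Nat.add (Nat.add (Nat.add (Nat.add (Nat.add (Nat.add (Nat.add (Nat.add (Nat.add C x27139) x9643) x15475) x13531) x14179) x13963) x14023) x14015) x14019) x33699) (Nat.mul x14017 (nat_lit 3)))
    (Nat.sub (Nat.add (Nat.add (Nat.add (Nat.add (Nat.add (Nat.add (Nat.add (Nat.add C x27141) x9645) x15477) x13533) x14181) x13965) x14025) x14017) (Nat.mul x14019 (nat_lit 4)))
    (Nat.sub (Nat.add (Nat.add (Nat.add (Nat.add (Nat.add (Nat.add (Nat.add (Nat.add (Nat.add (Nat.add C x27145) x9649) x15481) x13537) x14185) x13969) x14041) x14017) x14025) x33705) (Nat.mul x14023 (nat_lit 4)))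
    (Nat.sub (Nat.add (Nat.add (Nat.add (Nat.add (Nat.add (Nat.add (Nat.add (Nat.add (Nat.add (Nat.add C x27147) x9651) x15483) x13539) x14187) x13971) x14043) x14019) x14031) x14023) (Nat.mul x14025 (nat_lit 3)))
    (Nat.sub (Nat.add (Nat.add (Nat.add (Nat.add (Nat.add (Nat.add (Nat.add (Nat.add C x27153) x9657) x15489) x13545) x14193) x13977) x14049) x14025) (Nat.mul x14031 (nat_lit 4)))
    (Nat.sub (Nat.add (Nat.add (Nat.add (Nat.add (Nat.add (Nat.add (Nat.add (Nat.add (Nat.add C x27163) x9667) x15499) x13555) x14203) x13987) x14023) x14043) x33723) (Nat.mul x14041 (nat_lit 2)))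
    (Nat.sub (Nat.add (Nat.add (Nat.add (Nat.add (Nat.add (Nat.add (Nat.add (Nat.add (Nat.add C x27165) x9669) x15501) x13557) x14205) x13989) x14025) x14049) x14041) (Nat.mul x14043 (nat_lit 2)))
    (Nat.sub (Nat.add (Nat.add (Nat.add (Nat.add (Nat.add (Nat.add (Nat.add (Nat.add (Nat.add C x27171) x9675) x15507) x13563) x14211) x13995) x14031) x14067) x14043) x14049)
    (Nat.add (Nat.add (Nat.add (Nat.add (Nat.add (Nat.add C x27189) x9693) x15525) x13581) x14229) x14049)
    (Nat.sub (Nat.add (Nat.add (Nat.add (Nat.add (Nat.add (Nat.add (Nat.add (Nat.add (Nat.add C x27221) x9725) x15557) x13613) x14585) x13937) x14105) x14101) x33781) x14099)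
    (Nat.sub (Nat.add (Nat.add (Nat.add (Nat.add (Nat.add (Nat.add (Nat.add (Nat.add (Nat.add C x27223) x9727) x15559) x13615) x14587) x13939) x14107) x14099) x33783) x14101)
    (Nat.sub (Nat.add (Nat.add (Nat.add (Nat.add (Nat.add (Nat.add (Nat.add (Nat.add (Nat.add (Nat.add C x27227) x9731) x15563) x13619) x14591) x13943) x14123) x14099) x14107) x33787) (Nat.mul x14105 (nat_lit 3)))
    (Nat.sub (Nat.add (Nat.add (Nat.add (Nat.add (Nat.add (Nat.add (Nat.add (Nat.add (Nat.add (Nat.add (Nat.add (Nat.add C x27229) x9733) x15565) x13621) x14593) x13945) x14125) x14101) x14113) x14105) x14109) x33789) x14107)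
    (Nat.sub (Nat.add (Nat.add (Nat.add (Nat.add (Nat.add (Nat.add (Nat.add (Nat.add (Nat.add C x27231) x9735) x15567) x13623) x14595) x13947) x14127) x14115) x14107) x14109)
    (Nat.sub (Nat.add (Nat.add (Nat.add (Nat.add (Nat.add (Nat.add (Nat.add (Nat.add (Nat.add (Nat.add C x27235) x9739) x15571) x13627) x14599) x13951) x14131) x14107) x14115) x33795) (Nat.mul x14113 (nat_lit 3)))
    (Nat.sub (Nat.add (Nat.add (Nat.add (Nat.add (Nat.add (Nat.add (Nat.add (Nat.add (Nat.add C x27237) x9741) x15573) x13629) x14601) x13953) x14133) x14109) x14113) x14115)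
    (Nat.sub (Nat.add (Nat.add (Nat.add (Nat.add (Nat.add (Nat.add (Nat.add (Nat.add (Nat.add (Nat.add C x27245) x9749) x15581) x13637) x14609) x13961) x14177) x14105) x14125) x33805) (Nat.mul x14123 (nat_lit 3)))
    (Nat.sub (Nat.add (Nat.add (Nat.add (Nat.add (Nat.add (Nat.add (Nat.add (Nat.add (Nat.add (Nat.add (Nat.add (Nat.add C x27247) x9751) x15583) x13639) x14611) x13963) x14179) x14107) x14131) x14123) x14127) x33807) (Nat.mul x14125 (nat_lit 2)))
    (Nat.sub (Nat.add (Nat.add (Nat.add (Nat.add (Nat.add (Nat.add (Nat.add (Nat.add (Nat.add (Nat.add C x27249) x9753) x15585) x13641) x14613) x13965) x14181) x14109) x14133) x14125) (Nat.mul x14127 (nat_lit 3)))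
    (Nat.sub (Nat.add (Nat.add (Nat.add (Nat.add (Nat.add (Nat.add (Nat.add (Nat.add (Nat.add (Nat.add (Nat.add (Nat.add C x27253) x9757) x15589) x13645) x14617) x13969) x14185) x14113) x14149) x14125) x14133) x33813) (Nat.mul x14131 (nat_lit 2)))
    (Nat.sub (Nat.add (Nat.add (Nat.add (Nat.add (Nat.add (Nat.add (Nat.add (Nat.add (Nat.add (Nat.add (Nat.add (Nat.add C x27255) x9759) x15591) x13647) x14619) x13971) x14187) x14115) x14151) x14127) x14139) x14131) x14133)
    (Nat.sub (Nat.add (Nat.add (Nat.add (Nat.add (Nat.add (Nat.add (Nat.add (Nat.add (Nat.add C x27261) x9765) x15597) x13653) x14625) x13977) x14193) x14157) x14133) x14139)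
    (Nat.sub (Nat.add (Nat.add (Nat.add (Nat.add (Nat.add (Nat.add (Nat.add (Nat.add (Nat.add (Nat.add C x27271) x9775) x15607) x13663) x14635) x13987) x14203) x14131) x14151) x33831) (Nat.mul x14149 (nat_lit 3)))
    (Nat.sub (Nat.add (Nat.add (Nat.add (Nat.add (Nat.add (Nat.add (Nat.add (Nat.add (Nat.add (Nat.add C x27273) x9777) x15609) x13665) x14637) x13989) x14205) x14133) x14157) x14149) (Nat.mul x14151 (nat_lit 3)))
    (Nat.sub (Nat.add (Nat.add (Nat.add (Nat.add (Nat.add (Nat.add (Nat.add (Nat.add (Nat.add C x27279) x9783) x15615) x13671) x14643) x13995) x14211) x14139) x14151) x14157)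
    (Nat.sub (Nat.add (Nat.add (Nat.add (Nat.add (Nat.add (Nat.add (Nat.add (Nat.add (Nat.add (Nat.add C x27299) x9803) x15635) x13691) x14663) x14015) x14339) x14123) x14179) x33859) (Nat.mul x14177 (nat_lit 2)))
    (Nat.sub (Nat.add (Nat.add (Nat.add (Nat.add (Nat.add (Nat.add (Nat.add (Nat.add (Nat.add (Nat.add (Nat.add (Nat.add C x27301) x9805) x15637) x13693) x14665) x14017) x14341) x14125) x14185) x14177) x14181) x33861) x14179)
    (Nat.sub (Nat.add (Nat.add (Nat.add (Nat.add (Nat.add (Nat.add (Nat.add (Nat.add (Nat.add (Nat.add C x27303) x9807) x15639) x13695) x14667) x14019) x14343) x14127) x14187) x14179) (Nat.mul x14181 (nat_lit 2)))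
    (Nat.sub (Nat.add (Nat.add (Nat.add (Nat.add (Nat.add (Nat.add (Nat.add (Nat.add (Nat.add (Nat.add (Nat.add (Nat.add C x27307) x9811) x15643) x13699) x14671) x14023) x14347) x14131) x14203) x14179) x14187) x33867) (Nat.mul x14185 (nat_lit 2)))
    (Nat.sub (Nat.add (Nat.add (Nat.add (Nat.add (Nat.add (Nat.add (Nat.add (Nat.add (Nat.add (Nat.add (Nat.add (Nat.add C x27309) x9813) x15645) x13701) x14673) x14025) x14349) x14133) x14205) x14181) x14193) x14185) x14187)
    (Nat.sub (Nat.add (Nat.add (Nat.add (Nat.add (Nat.add (Nat.add (Nat.add (Nat.add (Nat.add (Nat.add C x27315) x9819) x15651) x13707) x14679) x14031) x14355) x14139) x14211) x14187) (Nat.mul x14193 (nat_lit 2)))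
    (Nat.sub (Nat.add (Nat.add (Nat.add (Nat.add (Nat.add (Nat.add (Nat.add (Nat.add (Nat.add (Nat.add (Nat.add (Nat.add C x27325) x9829) x15661) x13717) x14689) x14041) x14365) x14149) x14257) x14185) x14205) x33885) x14203)
    (Nat.sub (Nat.add (Nat.add (Nat.add (Nat.add (Nat.add (Nat.add (Nat.add (Nat.add (Nat.add (Nat.add (Nat.add (Nat.add C x27327) x9831) x15663) x13719) x14691) x14043) x14367) x14151) x14259) x14187) x14211) x14203) x14205)
    (Nat.add (Nat.add (Nat.add (Nat.add (Nat.add (Nat.add (Nat.add (Nat.add (Nat.add (Nat.add (Nat.add (Nat.add C x27333) x9837) x15669) x13725) x14697) x14049) x14373) x14157) x14265) x14193) x14229) x14205)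
    (Nat.add (Nat.add (Nat.add (Nat.add (Nat.add (Nat.add (Nat.add (Nat.add (Nat.add C x27351) x9855) x15687) x13743) x14715) x14067) x14391) x14283) x14211)
    (Nat.sub (Nat.add (Nat.add (Nat.add (Nat.add (Nat.add (Nat.add (Nat.add (Nat.add (Nat.add C x27379) x9883) x15715) x13771) x14743) x14419) x14203) x14259) x33939) x14257)
    (Nat.sub (Nat.add (Nat.add (Nat.add (Nat.add (Nat.add (Nat.add (Nat.add (Nat.add (Nat.add C x27381) x9885) x15717) x13773) x14745) x14421) x14205) x14265) x14257) x14259)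
    (Nat.sub (Nat.add (Nat.add (Nat.add (Nat.add (Nat.add (Nat.add (Nat.add (Nat.add (Nat.add C x27387) x9891) x15723) x13779) x14751) x14427) x14211) x14283) x14259) x14265)
    (Nat.add (Nat.add (Nat.add (Nat.add (Nat.add (Nat.add (Nat.add (Nat.add (Nat.add C x14283) x27405) x9909) x15741) x13797) x14769) x14445) x14229) x14265)
    (Nat.sub (Nat.add (Nat.add (Nat.add (Nat.add (Nat.add (Nat.add (Nat.add C x27461) x9965) x15797) x14825) x14177) x14341) x34021) (Nat.mul x14339 (nat_lit 2)))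
    (Nat.sub (Nat.add (Nat.add (Nat.add (Nat.add (Nat.add (Nat.add (Nat.add (Nat.add (Nat.add C x27463) x9967) x15799) x14827) x14179) x14347) x14339) x14343) x34023) x14341)
    (Nat.sub (Nat.add (Nat.add (Nat.add (Nat.add (Nat.add (Nat.add (Nat.add C x27465) x9969) x15801) x14829) x14181) x14349) x14341) (Nat.mul x14343 (nat_lit 2)))
    (Nat.sub (Nat.add (Nat.add (Nat.add (Nat.add (Nat.add (Nat.add (Nat.add (Nat.add (Nat.add C x27469) x9973) x15805) x14833) x14185) x14365) x14341) x14349) x34029) (Nat.mul x14347 (nat_lit 2)))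
    (Nat.sub (Nat.add (Nat.add (Nat.add (Nat.add (Nat.add (Nat.add (Nat.add (Nat.add (Nat.add C x27471) x9975) x15807) x14835) x14187) x14367) x14343) x14355) x14347) x14349)
    (Nat.sub (Nat.add (Nat.add (Nat.add (Nat.add (Nat.add (Nat.add (Nat.add C x27477) x9981) x15813) x14841) x14193) x14373) x14349) (Nat.mul x14355 (nat_lit 2)))
    (Nat.sub (Nat.add (Nat.add (Nat.add (Nat.add (Nat.add (Nat.add (Nat.add (Nat.add (Nat.add C x27487) x9991) x15823) x14851) x14203) x14419) x14347) x14367) x34047) (Nat.mul x14365 (nat_lit 2)))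
    (Nat.sub (Nat.add (Nat.add (Nat.add (Nat.add (Nat.add (Nat.add (Nat.add (Nat.add (Nat.add C x27489) x9993) x15825) x14853) x14205) x14421) x14349) x14373) x14365) (Nat.mul x14367 (nat_lit 2)))
    (Nat.sub (Nat.add (Nat.add (Nat.add (Nat.add (Nat.add (Nat.add (Nat.add (Nat.add (Nat.add C x27495) x9999) x15831) x14859) x14211) x14427) x14355) x14391) x14367) x14373)
    (Nat.sub (Nat.add (Nat.add (Nat.add (Nat.add (Nat.add (Nat.add (Nat.add C x27513) x10017) x15849) x14877) x14229) x14445) x14373) (Nat.mul x14391 (nat_lit 2)))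
    (Nat.add (Nat.add (Nat.add (Nat.add (Nat.add (Nat.add (Nat.add (Nat.add C x27541) x10045) x15877) x14905) x14257) x14365) x14421) x34101)
    (Nat.add (Nat.add (Nat.add (Nat.add (Nat.add (Nat.add (Nat.add (Nat.add C x27543) x10047) x15879) x14907) x14259) x14367) x14427) x14419)
    (Nat.add (Nat.add (Nat.add (Nat.add (Nat.add (Nat.add (Nat.add (Nat.add C x27549) x10053) x15885) x14913) x14265) x14373) x14445) x14421)
    (Nat.add (Nat.add (Nat.add (Nat.add (Nat.add (Nat.add (Nat.add (Nat.add (Nat.add C x14445) x27567) x10071) x15903) x14931) x14283) x14391) x14499) x14427)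
    (Nat.add (Nat.add (Nat.add (Nat.add (Nat.add (Nat.add C (Nat.mul x14499 (nat_lit 2))) x27621) x10125) x15957) x14985) x14445)
    (Nat.sub (Nat.add (Nat.add (Nat.add (Nat.add (Nat.add (Nat.add (Nat.add C x27707) x10211) x16043) x14099) x14591) x14587) x34267) (Nat.mul x14585 (nat_lit 2)))
    (Nat.sub (Nat.add (Nat.add (Nat.add (Nat.add (Nat.add (Nat.add (Nat.add C x27709) x10213) x16045) x14101) x14593) x14585) x34269) (Nat.mul x14587 (nat_lit 2)))
    (Nat.sub (Nat.add (Nat.add (Nat.add (Nat.add (Nat.add (Nat.add (Nat.add (Nat.add C x27713) x10217) x16049) x14105) x14609) x14585) x14593) x34273) (Nat.mul x14591 (nat_lit 4)))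
    (Nat.sub (Nat.add (Nat.add (Nat.add (Nat.add (Nat.add (Nat.add (Nat.add (Nat.add (Nat.add (Nat.add C x27715) x10219) x16051) x14107) x14611) x14587) x14599) x14591) x14595) x34275) (Nat.mul x14593 (nat_lit 2)))
    (Nat.sub (Nat.add (Nat.add (Nat.add (Nat.add (Nat.add (Nat.add (Nat.add C x27717) x10221) x16053) x14109) x14613) x14601) x14593) (Nat.mul x14595 (nat_lit 2)))
    (Nat.sub (Nat.add (Nat.add (Nat.add (Nat.add (Nat.add (Nat.add (Nat.add (Nat.add C x27721) x10225) x16057) x14113) x14617) x14593) x14601) x34281) (Nat.mul x14599 (nat_lit 4)))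
    (Nat.sub (Nat.add (Nat.add (Nat.add (Nat.add (Nat.add (Nat.add (Nat.add C x27723) x10227) x16059) x14115) x14619) x14595) x14599) (Nat.mul x14601 (nat_lit 2)))
    (Nat.sub (Nat.add (Nat.add (Nat.add (Nat.add (Nat.add (Nat.add (Nat.add (Nat.add C x27731) x10235) x16067) x14123) x14663) x14591) x14611) x34291) (Nat.mul x14609 (nat_lit 4)))
    (Nat.sub (Nat.add (Nat.add (Nat.add (Nat.add (Nat.add (Nat.add (Nat.add (Nat.add (Nat.add (Nat.add C x27733) x10237) x16069) x14125) x14665) x14593) x14617) x14609) x14613) x34293) (Nat.mul x14611 (nat_lit 3)))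
    (Nat.sub (Nat.add (Nat.add (Nat.add (Nat.add (Nat.add (Nat.add (Nat.add (Nat.add C x27735) x10239) x16071) x14127) x14667) x14595) x14619) x14611) (Nat.mul x14613 (nat_lit 4)))
    (Nat.sub (Nat.add (Nat.add (Nat.add (Nat.add (Nat.add (Nat.add (Nat.add (Nat.add (Nat.add (Nat.add C x27739) x10243) x16075) x14131) x14671) x14599) x14635) x14611) x14619) x34299) (Nat.mul x14617 (nat_lit 3)))
    (Nat.sub (Nat.add (Nat.add (Nat.add (Nat.add (Nat.add (Nat.add (Nat.add (Nat.add (Nat.add (Nat.add C x27741) x10245) x16077) x14133) x14673) x14601) x14637) x14613) x14625) x14617) (Nat.mul x14619 (nat_lit 2)))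
    (Nat.sub (Nat.add (Nat.add (Nat.add (Nat.add (Nat.add (Nat.add (Nat.add C x27747) x10251) x16083) x14139) x14679) x14643) x14619) (Nat.mul x14625 (nat_lit 2)))
    (Nat.sub (Nat.add (Nat.add (Nat.add (Nat.add (Nat.add (Nat.add (Nat.add (Nat.add C x27757) x10261) x16093) x14149) x14689) x14617) x14637) x34317) (Nat.mul x14635 (nat_lit 4)))
    (Nat.sub (Nat.add (Nat.add (Nat.add (Nat.add (Nat.add (Nat.add (Nat.add (Nat.add C x27759) x10263) x16095) x14151) x14691) x14619) x14643) x14635) (Nat.mul x14637 (nat_lit 4)))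
    (Nat.sub (Nat.add (Nat.add (Nat.add (Nat.add (Nat.add (Nat.add (Nat.add C x27765) x10269) x16101) x14157) x14697) x14625) x14637) (Nat.mul x14643 (nat_lit 2)))
    (Nat.sub (Nat.add (Nat.add (Nat.add (Nat.add (Nat.add (Nat.add (Nat.add (Nat.add C x27785) x10289) x16121) x14177) x14825) x14609) x14665) x34345) (Nat.mul x14663 (nat_lit 4)))
    (Nat.sub (Nat.add (Nat.add (Nat.add (Nat.add (Nat.add (Nat.add (Nat.add (Nat.add (Nat.add (Nat.add C x27787) x10291) x16123) x14179) x14827) x14611) x14671) x14663) x14667) x34347) (Nat.mul x14665 (nat_lit 3)))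
    (Nat.sub (Nat.add (Nat.add (Nat.add (Nat.add (Nat.add (Nat.add (Nat.add (Nat.add C x27789) x10293) x16125) x14181) x14829) x14613) x14673) x14665) (Nat.mul x14667 (nat_lit 4)))
    (Nat.sub (Nat.add (Nat.add (Nat.add (Nat.add (Nat.add (Nat.add (Nat.add (Nat.add (Nat.add (Nat.add C x27793) x10297) x16129) x14185) x14833) x14617) x14689) x14665) x14673) x34353) (Nat.mul x14671 (nat_lit 4)))
    (Nat.sub (Nat.add (Nat.add (Nat.add (Nat.add (Nat.add (Nat.add (Nat.add (Nat.add (Nat.add (Nat.add C x27795) x10299) x16131) x14187) x14835) x14619) x14691) x14667) x14679) x14671) (Nat.mul x14673 (nat_lit 3)))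
    (Nat.sub (Nat.add (Nat.add (Nat.add (Nat.add (Nat.add (Nat.add (Nat.add (Nat.add C x27801) x10305) x16137) x14193) x14841) x14625) x14697) x14673) (Nat.mul x14679 (nat_lit 4)))
    (Nat.sub (Nat.add (Nat.add (Nat.add (Nat.add (Nat.add (Nat.add (Nat.add (Nat.add (Nat.add (Nat.add C x27811) x10315) x16147) x14203) x14851) x14635) x14743) x14671) x14691) x34371) (Nat.mul x14689 (nat_lit 3)))
    (Nat.sub (Nat.add (Nat.add (Nat.add (Nat.add (Nat.add (Nat.add (Nat.add (Nat.add (Nat.add (Nat.add C x27813) x10317) x16149) x14205) x14853) x14637) x14745) x14673) x14697) x14689) (Nat.mul x14691 (nat_lit 3)))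
    (Nat.sub (Nat.add (Nat.add (Nat.add (Nat.add (Nat.add (Nat.add (Nat.add (Nat.add (Nat.add (Nat.add C x27819) x10323) x16155) x14211) x14859) x14643) x14751) x14679) x14715) x14691) (Nat.mul x14697 (nat_lit 2)))
    (Nat.sub (Nat.add (Nat.add (Nat.add (Nat.add (Nat.add (Nat.add (Nat.add C x27837) x10341) x16173) x14229) x14877) x14769) x14697) (Nat.mul x14715 (nat_lit 2)))
    (Nat.sub (Nat.add (Nat.add (Nat.add (Nat.add (Nat.add (Nat.add (Nat.add (Nat.add C x27865) x10369) x16201) x14257) x14905) x14689) x14745) x34425) (Nat.mul x14743 (nat_lit 4)))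
    (Nat.sub (Nat.add (Nat.add (Nat.add (Nat.add (Nat.add (Nat.add (Nat.add (Nat.add C x27867) x10371) x16203) x14259) x14907) x14691) x14751) x14743) (Nat.mul x14745 (nat_lit 4)))
    (Nat.sub (Nat.add (Nat.add (Nat.add (Nat.add (Nat.add (Nat.add (Nat.add (Nat.add C x27873) x10377) x16209) x14265) x14913) x14697) x14769) x14745) (Nat.mul x14751 (nat_lit 4)))
    (Nat.sub (Nat.add (Nat.add (Nat.add (Nat.add (Nat.add (Nat.add (Nat.add C x27891) x10395) x16227) x14283) x14931) x14715) x14751) (Nat.mul x14769 (nat_lit 2)))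
    (Nat.sub (Nat.add (Nat.add (Nat.add (Nat.add (Nat.add (Nat.add (Nat.add C x27947) x10451) x16283) x14339) x14663) x14827) x34507) (Nat.mul x14825 (nat_lit 2)))
    (Nat.sub (Nat.add (Nat.add (Nat.add (Nat.add (Nat.add (Nat.add (Nat.add (Nat.add (Nat.add C x27949) x10453) x16285) x14341) x14665) x14833) x14825) x14829) x34509) x14827)
    (Nat.sub (Nat.add (Nat.add (Nat.add (Nat.add (Nat.add (Nat.add (Nat.add C x27951) x10455) x16287) x14343) x14667) x14835) x14827) (Nat.mul x14829 (nat_lit 2)))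
    (Nat.sub (Nat.add (Nat.add (Nat.add (Nat.add (Nat.add (Nat.add (Nat.add (Nat.add (Nat.add C x27955) x10459) x16291) x14347) x14671) x14851) x14827) x14835) x34515) (Nat.mul x14833 (nat_lit 2)))
    (Nat.sub (Nat.add (Nat.add (Nat.add (Nat.add (Nat.add (Nat.add (Nat.add (Nat.add (Nat.add C x27957) x10461) x16293) x14349) x14673) x14853) x14829) x14841) x14833) x14835)
    (Nat.sub (Nat.add (Nat.add (Nat.add (Nat.add (Nat.add (Nat.add (Nat.add C x27963) x10467) x16299) x14355) x14679) x14859) x14835) (Nat.mul x14841 (nat_lit 2)))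
    (Nat.sub (Nat.add (Nat.add (Nat.add (Nat.add (Nat.add (Nat.add (Nat.add (Nat.add (Nat.add C x27973) x10477) x16309) x14365) x14689) x14905) x14833) x14853) x34533) (Nat.mul x14851 (nat_lit 2)))
    (Nat.sub (Nat.add (Nat.add (Nat.add (Nat.add (Nat.add (Nat.add (Nat.add (Nat.add (Nat.add C x27975) x10479) x16311) x14367) x14691) x14907) x14835) x14859) x14851) (Nat.mul x14853 (nat_lit 2)))
    (Nat.sub (Nat.add (Nat.add (Nat.add (Nat.add (Nat.add (Nat.add (Nat.add (Nat.add (Nat.add C x27981) x10485) x16317) x14373) x14697) x14913) x14841) x14877) x14853) x14859)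
    (Nat.sub (Nat.add (Nat.add (Nat.add (Nat.add (Nat.add (Nat.add (Nat.add C x27999) x10503) x16335) x14391) x14715) x14931) x14859) (Nat.mul x14877 (nat_lit 2)))
    (Nat.sub (Nat.add (Nat.add (Nat.add (Nat.add (Nat.add (Nat.add (Nat.add (Nat.add (Nat.add C x28027) x10531) x16363) x14419) x14743) x15067) x14851) x14907) x34587) x14905)
    (Nat.sub (Nat.add (Nat.add (Nat.add (Nat.add (Nat.add (Nat.add (Nat.add (Nat.add (Nat.add C x28029) x10533) x16365) x14421) x14745) x15069) x14853) x14913) x14905) x14907)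
    (Nat.sub (Nat.add (Nat.add (Nat.add (Nat.add (Nat.add (Nat.add (Nat.add (Nat.add (Nat.add C x28035) x10539) x16371) x14427) x14751) x15075) x14859) x14931) x14907) x14913)
    (Nat.add (Nat.add (Nat.add (Nat.add (Nat.add (Nat.add (Nat.add (Nat.add (Nat.add C x28053) x10557) x16389) x14445) x14769) x15093) x14877) x14985) x14913)
    (Nat.add (Nat.add (Nat.add (Nat.add (Nat.add (Nat.add C x28107) x10611) x16443) x14499) x15147) x14931)
    (Nat.add (Nat.add (Nat.add (Nat.add (Nat.add (Nat.add C x28189) x10693) x16525) x14905) x15069) x34749)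
    (Nat.add (Nat.add (Nat.add (Nat.add (Nat.add (Nat.add C x28191) x10695) x16527) x14907) x15075) x15067)
    (Nat.add (Nat.add (Nat.add (Nat.add (Nat.add (Nat.add C x28197) x10701) x16533) x14913) x15093) x15069)
    (Nat.add (Nat.add (Nat.add (Nat.add (Nat.add (Nat.add C x28215) x10719) x16551) x14931) x15147) x15075)
    (Nat.add (Nat.add (Nat.add (Nat.add (Nat.add (Nat.add C (Nat.mul x15147 (nat_lit 2))) x28269) x10773) x16605) x14985) x15093)
    (Nat.add (Nat.add (Nat.add (Nat.add (Nat.add (Nat.add C (Nat.mul x15317 (nat_lit 2))) x28439) x10943) x13859) x15323) x34999)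
    (Nat.add (Nat.add (Nat.add (Nat.add (Nat.add (Nat.add (Nat.add (Nat.add (Nat.add C x15323) x28445) x10949) x13865) x15341) x15317) x15329) x15325) x35005)
    (Nat.add (Nat.add (Nat.add (Nat.add (Nat.add (Nat.add (Nat.add (Nat.add C (Nat.mul x15325 (nat_lit 2))) x28447) x10951) x13867) x15343) x15331) x15323) x35007)
    (Nat.sub (Nat.add (Nat.add (Nat.add (Nat.add (Nat.add (Nat.add (Nat.add C x28451) x10955) x13871) x15347) x15323) x15331) x35011) (Nat.mul x15329 (nat_lit 2)))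
    (Nat.add (Nat.add (Nat.add (Nat.add (Nat.add (Nat.add (Nat.add (Nat.add (Nat.add C x15331) x28453) x10957) x13873) x15349) x15325) x15329) x15333) x35013)
    (Nat.add (Nat.add (Nat.add (Nat.add (Nat.add (Nat.add C (Nat.mul x15333 (nat_lit 2))) x28455) x10959) x13875) x15351) x15331)
    (Nat.add (Nat.add (Nat.add (Nat.add (Nat.add (Nat.add (Nat.add (Nat.add C x28463) x10967) x13883) x15395) x15323) x15347) x15343) x35023)
    (Nat.add (Nat.add (Nat.add (Nat.add (Nat.add (Nat.add (Nat.add (Nat.add C x28465) x10969) x13885) x15397) x15325) x15349) x15341) x35025)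
    (Nat.sub (Nat.add (Nat.add (Nat.add (Nat.add (Nat.add (Nat.add (Nat.add (Nat.add (Nat.add C x28469) x10973) x13889) x15401) x15329) x15365) x15341) x15349) x35029) x15347)
    (Nat.add (Nat.add (Nat.add (Nat.add (Nat.add (Nat.add (Nat.add (Nat.add (Nat.add (Nat.add (Nat.add (Nat.add C x15349) x28471) x10975) x13891) x15403) x15331) x15367) x15343) x15355) x15347) x15351) x35031)
    (Nat.add (Nat.add (Nat.add (Nat.add (Nat.add (Nat.add (Nat.add (Nat.add (Nat.add C x15351) x28473) x10977) x13893) x15405) x15333) x15369) x15357) x15349)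
    (Nat.add (Nat.add (Nat.add (Nat.add (Nat.add (Nat.add (Nat.add (Nat.add C x28477) x10981) x13897) x15409) x15373) x15349) x15357) x35037)
    (Nat.add (Nat.add (Nat.add (Nat.add (Nat.add (Nat.add (Nat.add (Nat.add C (Nat.mul x15357 (nat_lit 2))) x28479) x10983) x13899) x15411) x15375) x15351) x15355)
    (Nat.sub (Nat.add (Nat.add (Nat.add (Nat.add (Nat.add (Nat.add (Nat.add C x28487) x10991) x13907) x15419) x15347) x15367) x35047) (Nat.mul x15365 (nat_lit 2)))
    (Nat.sub (Nat.add (Nat.add (Nat.add (Nat.add (Nat.add (Nat.add (Nat.add (Nat.add (Nat.add C x28489) x10993) x13909) x15421) x15349) x15373) x15365) x15369) x35049) x15367)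
    (Nat.sub (Nat.add (Nat.add (Nat.add (Nat.add (Nat.add (Nat.add (Nat.add C x28491) x10995) x13911) x15423) x15351) x15375) x15367) (Nat.mul x15369 (nat_lit 2)))
    (Nat.add (Nat.add (Nat.add (Nat.add (Nat.add (Nat.add (Nat.add (Nat.add C x28495) x10999) x13915) x15427) x15355) x15367) x15375) x35055)
    (Nat.add (Nat.add (Nat.add (Nat.add (Nat.add (Nat.add (Nat.add (Nat.add (Nat.add C x15375) x28497) x11001) x13917) x15429) x15357) x15369) x15381) x15373)
    (Nat.add (Nat.add (Nat.add (Nat.add (Nat.add (Nat.add C (Nat.mul x15381 (nat_lit 2))) x28503) x11007) x13923) x15435) x15375)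
    (Nat.add (Nat.add (Nat.add (Nat.add (Nat.add (Nat.add (Nat.add (Nat.add C x28517) x11021) x13937) x15557) x15341) x15401) x15397) x35077)
    (Nat.add (Nat.add (Nat.add (Nat.add (Nat.add (Nat.add (Nat.add (Nat.add C x28519) x11023) x13939) x15559) x15343) x15403) x15395) x35079)
    (Nat.sub (Nat.add (Nat.add (Nat.add (Nat.add (Nat.add (Nat.add (Nat.add (Nat.add (Nat.add C x28523) x11027) x13943) x15563) x15347) x15419) x15395) x15403) x35083) (Nat.mul x15401 (nat_lit 2)))
    (Nat.add (Nat.add (Nat.add (Nat.add (Nat.add (Nat.add (Nat.add (Nat.add (Nat.add (Nat.add (Nat.add C x28525) x11029) x13945) x15565) x15349) x15421) x15397) x15409) x15401) x15405) x35085)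
    (Nat.add (Nat.add (Nat.add (Nat.add (Nat.add (Nat.add (Nat.add (Nat.add C x28527) x11031) x13947) x15567) x15351) x15423) x15411) x15403)
    (Nat.sub (Nat.add (Nat.add (Nat.add (Nat.add (Nat.add (Nat.add (Nat.add (Nat.add (Nat.add C x28531) x11035) x13951) x15571) x15355) x15427) x15403) x15411) x35091) (Nat.mul x15409 (nat_lit 2)))
    (Nat.add (Nat.add (Nat.add (Nat.add (Nat.add (Nat.add (Nat.add (Nat.add C x28533) x11037) x13953) x15573) x15357) x15429) x15405) x15409)
    (Nat.sub (Nat.add (Nat.add (Nat.add (Nat.add (Nat.add (Nat.add (Nat.add (Nat.add (Nat.add C x28541) x11045) x13961) x15581) x15365) x15473) x15401) x15421) x35101) x15419)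
    (Nat.add (Nat.add (Nat.add (Nat.add (Nat.add (Nat.add (Nat.add (Nat.add (Nat.add (Nat.add (Nat.add C x28543) x11047) x13963) x15583) x15367) x15475) x15403) x15427) x15419) x15423) x35103)
    (Nat.sub (Nat.add (Nat.add (Nat.add (Nat.add (Nat.add (Nat.add (Nat.add (Nat.add (Nat.add C x28545) x11049) x13965) x15585) x15369) x15477) x15405) x15429) x15421) x15423)
    (Nat.add (Nat.add (Nat.add (Nat.add (Nat.add (Nat.add (Nat.add (Nat.add (Nat.add (Nat.add (Nat.add C x28549) x11053) x13969) x15589) x15373) x15481) x15409) x15445) x15421) x15429) x35109)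
    (Nat.add (Nat.add (Nat.add (Nat.add (Nat.add (Nat.add (Nat.add (Nat.add (Nat.add (Nat.add (Nat.add (Nat.add C x15429) x28551) x11055) x13971) x15591) x15375) x15483) x15411) x15447) x15423) x15435) x15427)
    (Nat.add (Nat.add (Nat.add (Nat.add (Nat.add (Nat.add (Nat.add (Nat.add (Nat.add C x15435) x28557) x11061) x13977) x15597) x15381) x15489) x15453) x15429)
    (Nat.add (Nat.add (Nat.add (Nat.add (Nat.add (Nat.add (Nat.add (Nat.add C x28567) x11071) x13987) x15607) x15499) x15427) x15447) x35127)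
    (Nat.add (Nat.add (Nat.add (Nat.add (Nat.add (Nat.add (Nat.add (Nat.add C x28569) x11073) x13989) x15609) x15501) x15429) x15453) x15445)
    (Nat.add (Nat.add (Nat.add (Nat.add (Nat.add (Nat.add (Nat.add (Nat.add C (Nat.mul x15453 (nat_lit 2))) x28575) x11079) x13995) x15615) x15507) x15435) x15447)
    (Nat.sub (Nat.add (Nat.add (Nat.add (Nat.add (Nat.add (Nat.add (Nat.add C x28595) x11099) x14015) x15635) x15419) x15475) x35155) (Nat.mul x15473 (nat_lit 2)))
    (Nat.sub (Nat.add (Nat.add (Nat.add (Nat.add (Nat.add (Nat.add (Nat.add (Nat.add (Nat.add C x28597) x11101) x14017) x15637) x15421) x15481) x15473) x15477) x35157) x15475)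
    (Nat.sub (Nat.add (Nat.add (Nat.add (Nat.add (Nat.add (Nat.add (Nat.add C x28599) x11103) x14019) x15639) x15423) x15483) x15475) (Nat.mul x15477 (nat_lit 2)))
    (Nat.sub (Nat.add (Nat.add (Nat.add (Nat.add (Nat.add (Nat.add (Nat.add (Nat.add (Nat.add C x28603) x11107) x14023) x15643) x15427) x15499) x15475) x15483) x35163) (Nat.mul x15481 (nat_lit 2)))
    (Nat.sub (Nat.add (Nat.add (Nat.add (Nat.add (Nat.add (Nat.add (Nat.add (Nat.add (Nat.add C x28605) x11109) x14025) x15645) x15429) x15501) x15477) x15489) x15481) x15483)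
    (Nat.sub (Nat.add (Nat.add (Nat.add (Nat.add (Nat.add (Nat.add (Nat.add C x28611) x11115) x14031) x15651) x15435) x15507) x15483) (Nat.mul x15489 (nat_lit 2)))
    (Nat.add (Nat.add (Nat.add (Nat.add (Nat.add (Nat.add (Nat.add (Nat.add C x28621) x11125) x14041) x15661) x15445) x15481) x15501) x35181)
    (Nat.add (Nat.add (Nat.add (Nat.add (Nat.add (Nat.add (Nat.add (Nat.add C x28623) x11127) x14043) x15663) x15447) x15483) x15507) x15499)
    (Nat.add (Nat.add (Nat.add (Nat.add (Nat.add (Nat.add (Nat.add (Nat.add (Nat.add C x15507) x28629) x11133) x14049) x15669) x15453) x15489) x15525) x15501)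
    (Nat.add (Nat.add (Nat.add (Nat.add (Nat.add (Nat.add C (Nat.mul x15525 (nat_lit 2))) x28647) x11151) x14067) x15687) x15507)
    (Nat.add (Nat.add (Nat.add (Nat.add (Nat.add (Nat.add (Nat.add (Nat.add C x28679) x11183) x14099) x16043) x15395) x15563) x15559) x35239)
    (Nat.add (Nat.add (Nat.add (Nat.add (Nat.add (Nat.add (Nat.add (Nat.add C x28681) x11185) x14101) x16045) x15397) x15565) x15557) x35241)
    (Nat.sub (Nat.add (Nat.add (Nat.add (Nat.add (Nat.add (Nat.add (Nat.add (Nat.add (Nat.add C x28685) x11189) x14105) x16049) x15401) x15581) x15557) x15565) x35245) (Nat.mul x15563 (nat_lit 2)))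
    (Nat.add (Nat.add (Nat.add (Nat.add (Nat.add (Nat.add (Nat.add (Nat.add (Nat.add (Nat.add (Nat.add C x28687) x11191) x14107) x16051) x15403) x15583) x15559) x15571) x15563) x15567) x35247)
    (Nat.add (Nat.add (Nat.add (Nat.add (Nat.add (Nat.add (Nat.add (Nat.add C x28689) x11193) x14109) x16053) x15405) x15585) x15573) x15565)
    (Nat.sub (Nat.add (Nat.add (Nat.add (Nat.add (Nat.add (Nat.add (Nat.add (Nat.add (Nat.add C x28693) x11197) x14113) x16057) x15409) x15589) x15565) x15573) x35253) (Nat.mul x15571 (nat_lit 2)))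
    (Nat.add (Nat.add (Nat.add (Nat.add (Nat.add (Nat.add (Nat.add (Nat.add C x28695) x11199) x14115) x16059) x15411) x15591) x15567) x15571)
    (Nat.sub (Nat.add (Nat.add (Nat.add (Nat.add (Nat.add (Nat.add (Nat.add (Nat.add (Nat.add C x28703) x11207) x14123) x16067) x15419) x15635) x15563) x15583) x35263) (Nat.mul x15581 (nat_lit 2)))
    (Nat.sub (Nat.add (Nat.add (Nat.add (Nat.add (Nat.add (Nat.add (Nat.add (Nat.add (Nat.add (Nat.add (Nat.add C x28705) x11209) x14125) x16069) x15421) x15637) x15565) x15589) x15581) x15585) x35265) x15583)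
    (Nat.sub (Nat.add (Nat.add (Nat.add (Nat.add (Nat.add (Nat.add (Nat.add (Nat.add (Nat.add C x28707) x11211) x14127) x16071) x15423) x15639) x15567) x15591) x15583) (Nat.mul x15585 (nat_lit 2)))
    (Nat.sub (Nat.add (Nat.add (Nat.add (Nat.add (Nat.add (Nat.add (Nat.add (Nat.add (Nat.add (Nat.add (Nat.add C x28711) x11215) x14131) x16075) x15427) x15643) x15571) x15607) x15583) x15591) x35271) x15589)
    (Nat.add (Nat.add (Nat.add (Nat.add (Nat.add (Nat.add (Nat.add (Nat.add (Nat.add (Nat.add (Nat.add C x28713) x11217) x14133) x16077) x15429) x15645) x15573) x15609) x15585) x15597) x15589)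
    (Nat.add (Nat.add (Nat.add (Nat.add (Nat.add (Nat.add (Nat.add (Nat.add C x28719) x11223) x14139) x16083) x15435) x15651) x15615) x15591)
    (Nat.sub (Nat.add (Nat.add (Nat.add (Nat.add (Nat.add (Nat.add (Nat.add (Nat.add (Nat.add C x28729) x11233) x14149) x16093) x15445) x15661) x15589) x15609) x35289) (Nat.mul x15607 (nat_lit 2)))
    (Nat.sub (Nat.add (Nat.add (Nat.add (Nat.add (Nat.add (Nat.add (Nat.add (Nat.add (Nat.add C x28731) x11235) x14151) x16095) x15447) x15663) x15591) x15615) x15607) (Nat.mul x15609 (nat_lit 2)))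
    (Nat.add (Nat.add (Nat.add (Nat.add (Nat.add (Nat.add (Nat.add (Nat.add C x28737) x11241) x14157) x16101) x15453) x15669) x15597) x15609)
    (Nat.sub (Nat.add (Nat.add (Nat.add (Nat.add (Nat.add (Nat.add (Nat.add (Nat.add (Nat.add C x28757) x11261) x14177) x16121) x15473) x15797) x15581) x15637) x35317) x15635)
    (Nat.add (Nat.add (Nat.add (Nat.add (Nat.add (Nat.add (Nat.add (Nat.add (Nat.add (Nat.add (Nat.add C x28759) x11263) x14179) x16123) x15475) x15799) x15583) x15643) x15635) x15639) x35319)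
    (Nat.sub (Nat.add (Nat.add (Nat.add (Nat.add (Nat.add (Nat.add (Nat.add (Nat.add (Nat.add C x28761) x11265) x14181) x16125) x15477) x15801) x15585) x15645) x15637) x15639)
    (Nat.sub (Nat.add (Nat.add (Nat.add (Nat.add (Nat.add (Nat.add (Nat.add (Nat.add (Nat.add (Nat.add (Nat.add C x28765) x11269) x14185) x16129) x15481) x15805) x15589) x15661) x15637) x15645) x35325) x15643)
    (Nat.add (Nat.add (Nat.add (Nat.add (Nat.add (Nat.add (Nat.add (Nat.add (Nat.add (Nat.add (Nat.add C x28767) x11271) x14187) x16131) x15483) x15807) x15591) x15663) x15639) x15651) x15643)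
    (Nat.sub (Nat.add (Nat.add (Nat.add (Nat.add (Nat.add (Nat.add (Nat.add (Nat.add (Nat.add C x28773) x11277) x14193) x16137) x15489) x15813) x15597) x15669) x15645) x15651)
    (Nat.add (Nat.add (Nat.add (Nat.add (Nat.add (Nat.add (Nat.add (Nat.add (Nat.add (Nat.add (Nat.add C x28783) x11287) x14203) x16147) x15499) x15823) x15607) x15715) x15643) x15663) x35343)
    (Nat.add (Nat.add (Nat.add (Nat.add (Nat.add (Nat.add (Nat.add (Nat.add (Nat.add (Nat.add (Nat.add C x28785) x11289) x14205) x16149) x15501) x15825) x15609) x15717) x15645) x15669) x15661)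
    (Nat.add (Nat.add (Nat.add (Nat.add (Nat.add (Nat.add (Nat.add (Nat.add (Nat.add (Nat.add (Nat.add (Nat.add C x15669) x28791) x11295) x14211) x16155) x15507) x15831) x15615) x15723) x15651) x15687) x15663)
    (Nat.add (Nat.add (Nat.add (Nat.add (Nat.add (Nat.add (Nat.add (Nat.add (Nat.add C x15687) x28809) x11313) x14229) x16173) x15525) x15849) x15741) x15669)
    (Nat.add (Nat.add (Nat.add (Nat.add (Nat.add (Nat.add (Nat.add (Nat.add C x28837) x11341) x14257) x16201) x15877) x15661) x15717) x35397)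
    (Nat.add (Nat.add (Nat.add (Nat.add (Nat.add (Nat.add (Nat.add (Nat.add C x28839) x11343) x14259) x16203) x15879) x15663) x15723) x15715)
    (Nat.add (Nat.add (Nat.add (Nat.add (Nat.add (Nat.add (Nat.add (Nat.add C x28845) x11349) x14265) x16209) x15885) x15669) x15741) x15717)
    (Nat.add (Nat.add (Nat.add (Nat.add (Nat.add (Nat.add (Nat.add (Nat.add C (Nat.mul x15741 (nat_lit 2))) x28863) x11367) x14283) x16227) x15903) x15687) x15723)
    (Nat.sub (Nat.add (Nat.add (Nat.add (Nat.add (Nat.add (Nat.add (Nat.add C x28919) x11423) x14339) x16283) x15635) x15799) x35479) (Nat.mul x15797 (nat_lit 2)))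
    (Nat.sub (Nat.add (Nat.add (Nat.add (Nat.add (Nat.add (Nat.add (Nat.add (Nat.add (Nat.add C x28921) x11425) x14341) x16285) x15637) x15805) x15797) x15801) x35481) x15799)
    (Nat.sub (Nat.add (Nat.add (Nat.add (Nat.add (Nat.add (Nat.add (Nat.add C x28923) x11427) x14343) x16287) x15639) x15807) x15799) (Nat.mul x15801 (nat_lit 2)))
    (Nat.sub (Nat.add (Nat.add (Nat.add (Nat.add (Nat.add (Nat.add (Nat.add (Nat.add (Nat.add C x28927) x11431) x14347) x16291) x15643) x15823) x15799) x15807) x35487) (Nat.mul x15805 (nat_lit 2)))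
    (Nat.sub (Nat.add (Nat.add (Nat.add (Nat.add (Nat.add (Nat.add (Nat.add (Nat.add (Nat.add C x28929) x11433) x14349) x16293) x15645) x15825) x15801) x15813) x15805) x15807)
    (Nat.sub (Nat.add (Nat.add (Nat.add (Nat.add (Nat.add (Nat.add (Nat.add C x28935) x11439) x14355) x16299) x15651) x15831) x15807) (Nat.mul x15813 (nat_lit 2)))
    (Nat.sub (Nat.add (Nat.add (Nat.add (Nat.add (Nat.add (Nat.add (Nat.add (Nat.add (Nat.add C x28945) x11449) x14365) x16309) x15661) x15877) x15805) x15825) x35505) (Nat.mul x15823 (nat_lit 2)))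
    (Nat.sub (Nat.add (Nat.add (Nat.add (Nat.add (Nat.add (Nat.add (Nat.add (Nat.add (Nat.add C x28947) x11451) x14367) x16311) x15663) x15879) x15807) x15831) x15823) (Nat.mul x15825 (nat_lit 2)))
    (Nat.sub (Nat.add (Nat.add (Nat.add (Nat.add (Nat.add (Nat.add (Nat.add (Nat.add (Nat.add C x28953) x11457) x14373) x16317) x15669) x15885) x15813) x15849) x15825) x15831)
    (Nat.sub (Nat.add (Nat.add (Nat.add (Nat.add (Nat.add (Nat.add (Nat.add C x28971) x11475) x14391) x16335) x15687) x15903) x15831) (Nat.mul x15849 (nat_lit 2)))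
    (Nat.add (Nat.add (Nat.add (Nat.add (Nat.add (Nat.add (Nat.add (Nat.add C x28999) x11503) x14419) x16363) x15715) x15823) x15879) x35559)
    (Nat.add (Nat.add (Nat.add (Nat.add (Nat.add (Nat.add (Nat.add (Nat.add C x29001) x11505) x14421) x16365) x15717) x15825) x15885) x15877)
    (Nat.add (Nat.add (Nat.add (Nat.add (Nat.add (Nat.add (Nat.add (Nat.add C x29007) x11511) x14427) x16371) x15723) x15831) x15903) x15879)
    (Nat.add (Nat.add (Nat.add (Nat.add (Nat.add (Nat.add (Nat.add (Nat.add (Nat.add C x15903) x29025) x11529) x14445) x16389) x15741) x15849) x15957) x15885)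
    (Nat.add (Nat.add (Nat.add (Nat.add (Nat.add (Nat.add C (Nat.mul x15957 (nat_lit 2))) x29079) x11583) x14499) x16443) x15903)
    (Nat.add (Nat.add (Nat.add (Nat.add (Nat.add (Nat.add (Nat.add (Nat.add (Nat.add C x16043) x29165) x11669) x14585) x17501) x15557) x16049) x16045) x35725)
    (Nat.add (Nat.add (Nat.add (Nat.add (Nat.add (Nat.add (Nat.add (Nat.add (Nat.add C x16045) x29167) x11671) x14587) x17503) x15559) x16051) x16043) x35727)
    (Nat.sub (Nat.add (Nat.add (Nat.add (Nat.add (Nat.add (Nat.add (Nat.add (Nat.add (Nat.add C x29171) x11675) x14591) x17507) x15563) x16067) x16043) x16051) x35731) x16049)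
    (Nat.add (Nat.add (Nat.add (Nat.add (Nat.add (Nat.add (Nat.add (Nat.add (Nat.add (Nat.add (Nat.add (Nat.add C x16051) x29173) x11677) x14593) x17509) x15565) x16069) x16045) x16057) x16049) x16053) x35733)
    (Nat.add (Nat.add (Nat.add (Nat.add (Nat.add (Nat.add (Nat.add (Nat.add (Nat.add C x16053) x29175) x11679) x14595) x17511) x15567) x16071) x16059) x16051)
    (Nat.sub (Nat.add (Nat.add (Nat.add (Nat.add (Nat.add (Nat.add (Nat.add (Nat.add (Nat.add C x29179) x11683) x14599) x17515) x15571) x16075) x16051) x16059) x35739) x16057)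
    (Nat.add (Nat.add (Nat.add (Nat.add (Nat.add (Nat.add (Nat.add (Nat.add (Nat.add C x16059) x29181) x11685) x14601) x17517) x15573) x16077) x16053) x16057)
    (Nat.sub (Nat.add (Nat.add (Nat.add (Nat.add (Nat.add (Nat.add (Nat.add (Nat.add (Nat.add C x29189) x11693) x14609) x17525) x15581) x16121) x16049) x16069) x35749) x16067)
    (Nat.add (Nat.add (Nat.add (Nat.add (Nat.add (Nat.add (Nat.add (Nat.add (Nat.add (Nat.add (Nat.add C x29191) x11695) x14611) x17527) x15583) x16123) x16051) x16075) x16067) x16071) x35751)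
    (Nat.sub (Nat.add (Nat.add (Nat.add (Nat.add (Nat.add (Nat.add (Nat.add (Nat.add (Nat.add C x29193) x11697) x14613) x17529) x15585) x16125) x16053) x16077) x16069) x16071)
    (Nat.add (Nat.add (Nat.add (Nat.add (Nat.add (Nat.add (Nat.add (Nat.add (Nat.add (Nat.add (Nat.add C x29197) x11701) x14617) x17533) x15589) x16129) x16057) x16093) x16069) x16077) x35757)
    (Nat.add (Nat.add (Nat.add (Nat.add (Nat.add (Nat.add (Nat.add (Nat.add (Nat.add (Nat.add (Nat.add (Nat.add C x16077) x29199) x11703) x14619) x17535) x15591) x16131) x16059) x16095) x16071) x16083) x16075)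
    (Nat.add (Nat.add (Nat.add (Nat.add (Nat.add (Nat.add (Nat.add (Nat.add (Nat.add C x16083) x29205) x11709) x14625) x17541) x15597) x16137) x16101) x16077)
    (Nat.sub (Nat.add (Nat.add (Nat.add (Nat.add (Nat.add (Nat.add (Nat.add (Nat.add (Nat.add C x29215) x11719) x14635) x17551) x15607) x16147) x16075) x16095) x35775) x16093)
    (Nat.sub (Nat.add (Nat.add (Nat.add (Nat.add (Nat.add (Nat.add (Nat.add (Nat.add (Nat.add C x29217) x11721) x14637) x17553) x15609) x16149) x16077) x16101) x16093) x16095)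
    (Nat.add (Nat.add (Nat.add (Nat.add (Nat.add (Nat.add (Nat.add (Nat.add (Nat.add C x16101) x29223) x11727) x14643) x17559) x15615) x16155) x16083) x16095)
    (Nat.sub (Nat.add (Nat.add (Nat.add (Nat.add (Nat.add (Nat.add (Nat.add (Nat.add (Nat.add C x29243) x11747) x14663) x17579) x15635) x16283) x16067) x16123) x35803) x16121)
    (Nat.add (Nat.add (Nat.add (Nat.add (Nat.add (Nat.add (Nat.add (Nat.add (Nat.add (Nat.add (Nat.add C x29245) x11749) x14665) x17581) x15637) x16285) x16069) x16129) x16121) x16125) x35805)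
    (Nat.sub (Nat.add (Nat.add (Nat.add (Nat.add (Nat.add (Nat.add (Nat.add (Nat.add (Nat.add C x29247) x11751) x14667) x17583) x15639) x16287) x16071) x16131) x16123) x16125)
    (Nat.sub (Nat.add (Nat.add (Nat.add (Nat.add (Nat.add (Nat.add (Nat.add (Nat.add (Nat.add (Nat.add (Nat.add C x29251) x11755) x14671) x17587) x15643) x16291) x16075) x16147) x16123) x16131) x35811) x16129)
    (Nat.add (Nat.add (Nat.add (Nat.add (Nat.add (Nat.add (Nat.add (Nat.add (Nat.add (Nat.add (Nat.add C x29253) x11757) x14673) x17589) x15645) x16293) x16077) x16149) x16125) x16137) x16129)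
    (Nat.sub (Nat.add (Nat.add (Nat.add (Nat.add (Nat.add (Nat.add (Nat.add (Nat.add (Nat.add C x29259) x11763) x14679) x17595) x15651) x16299) x16083) x16155) x16131) x16137)
    (Nat.add (Nat.add (Nat.add (Nat.add (Nat.add (Nat.add (Nat.add (Nat.add (Nat.add (Nat.add (Nat.add C x29269) x11773) x14689) x17605) x15661) x16309) x16093) x16201) x16129) x16149) x35829)
    (Nat.add (Nat.add (Nat.add (Nat.add (Nat.add (Nat.add (Nat.add (Nat.add (Nat.add (Nat.add (Nat.add C x29271) x11775) x14691) x17607) x15663) x16311) x16095) x16203) x16131) x16155) x16147)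
    (Nat.add (Nat.add (Nat.add (Nat.add (Nat.add (Nat.add (Nat.add (Nat.add (Nat.add (Nat.add (Nat.add (Nat.add C x16155) x29277) x11781) x14697) x17613) x15669) x16317) x16101) x16209) x16137) x16173) x16149)
    (Nat.add (Nat.add (Nat.add (Nat.add (Nat.add (Nat.add (Nat.add (Nat.add (Nat.add C x16173) x29295) x11799) x14715) x17631) x15687) x16335) x16227) x16155)
    (Nat.sub (Nat.add (Nat.add (Nat.add (Nat.add (Nat.add (Nat.add (Nat.add (Nat.add (Nat.add C x29323) x11827) x14743) x17659) x15715) x16363) x16147) x16203) x35883) x16201)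
    (Nat.sub (Nat.add (Nat.add (Nat.add (Nat.add (Nat.add (Nat.add (Nat.add (Nat.add (Nat.add C x29325) x11829) x14745) x17661) x15717) x16365) x16149) x16209) x16201) x16203)
    (Nat.sub (Nat.add (Nat.add (Nat.add (Nat.add (Nat.add (Nat.add (Nat.add (Nat.add (Nat.add C x29331) x11835) x14751) x17667) x15723) x16371) x16155) x16227) x16203) x16209)
    (Nat.add (Nat.add (Nat.add (Nat.add (Nat.add (Nat.add (Nat.add (Nat.add (Nat.add C x16227) x29349) x11853) x14769) x17685) x15741) x16389) x16173) x16209)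
    (Nat.add (Nat.add (Nat.add (Nat.add (Nat.add (Nat.add (Nat.add (Nat.add (Nat.add C x29405) x11909) x14825) x17741) x15797) x16769) x16121) x16285) x35965)
    (Nat.add (Nat.add (Nat.add (Nat.add (Nat.add (Nat.add (Nat.add (Nat.add (Nat.add (Nat.add (Nat.add (Nat.add C x16285) x29407) x11911) x14827) x17743) x15799) x16771) x16123) x16291) x16283) x16287) x35967)
    (Nat.add (Nat.add (Nat.add (Nat.add (Nat.add (Nat.add (Nat.add (Nat.add (Nat.add C x29409) x11913) x14829) x17745) x15801) x16773) x16125) x16293) x16285)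
    (Nat.add (Nat.add (Nat.add (Nat.add (Nat.add (Nat.add (Nat.add (Nat.add (Nat.add (Nat.add (Nat.add C x29413) x11917) x14833) x17749) x15805) x16777) x16129) x16309) x16285) x16293) x35973)
    (Nat.add (Nat.add (Nat.add (Nat.add (Nat.add (Nat.add (Nat.add (Nat.add (Nat.add (Nat.add (Nat.add (Nat.add C x16293) x29415) x11919) x14835) x17751) x15807) x16779) x16131) x16311) x16287) x16299) x16291)
    (Nat.add (Nat.add (Nat.add (Nat.add (Nat.add (Nat.add (Nat.add (Nat.add (Nat.add C x29421) x11925) x14841) x17757) x15813) x16785) x16137) x16317) x16293)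
    (Nat.add (Nat.add (Nat.add (Nat.add (Nat.add (Nat.add (Nat.add (Nat.add (Nat.add (Nat.add (Nat.add C x29431) x11935) x14851) x17767) x15823) x16795) x16147) x16363) x16291) x16311) x35991)
    (Nat.add (Nat.add (Nat.add (Nat.add (Nat.add (Nat.add (Nat.add (Nat.add (Nat.add (Nat.add (Nat.add C x29433) x11937) x14853) x17769) x15825) x16797) x16149) x16365) x16293) x16317) x16309)
    (Nat.add (Nat.add (Nat.add (Nat.add (Nat.add (Nat.add (Nat.add (Nat.add (Nat.add (Nat.add (Nat.add (Nat.add C x16317) x29439) x11943) x14859) x17775) x15831) x16803) x16155) x16371) x16299) x16335) x16311)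
    (Nat.add (Nat.add (Nat.add (Nat.add (Nat.add (Nat.add (Nat.add (Nat.add (Nat.add C x29457) x11961) x14877) x17793) x15849) x16821) x16173) x16389) x16317)
    (Nat.add (Nat.add (Nat.add (Nat.add (Nat.add (Nat.add (Nat.add (Nat.add (Nat.add (Nat.add (Nat.add (Nat.add C x16363) x29485) x11989) x14905) x17821) x15877) x16849) x16201) x16525) x16309) x16365) x36045)
    (Nat.add (Nat.add (Nat.add (Nat.add (Nat.add (Nat.add (Nat.add (Nat.add (Nat.add (Nat.add (Nat.add (Nat.add C x16365) x29487) x11991) x14907) x17823) x15879) x16851) x16203) x16527) x16311) x16371) x16363)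
    (Nat.add (Nat.add (Nat.add (Nat.add (Nat.add (Nat.add (Nat.add (Nat.add (Nat.add (Nat.add (Nat.add (Nat.add C x16371) x29493) x11997) x14913) x17829) x15885) x16857) x16209) x16533) x16317) x16389) x16365)
    (Nat.add (Nat.add (Nat.add (Nat.add (Nat.add (Nat.add (Nat.add (Nat.add (Nat.add (Nat.add (Nat.add (Nat.add C (Nat.mul x16389 (nat_lit 2))) x29511) x12015) x14931) x17847) x15903) x16875) x16227) x16551) x16335) x16443) x16371)
    (Nat.add (Nat.add (Nat.add (Nat.add (Nat.add (Nat.add (Nat.add (Nat.add (Nat.add C (Nat.mul x16443 (nat_lit 2))) x29565) x12069) x14985) x17901) x15957) x16929) x16605) x16389)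
    (Nat.add (Nat.add (Nat.add (Nat.add (Nat.add (Nat.add (Nat.add (Nat.add (Nat.add C x16525) x29647) x12151) x15067) x17983) x17011) x16363) x16527) x36207)
    (Nat.add (Nat.add (Nat.add (Nat.add (Nat.add (Nat.add (Nat.add (Nat.add (Nat.add C x16527) x29649) x12153) x15069) x17985) x17013) x16365) x16533) x16525)
    (Nat.add (Nat.add (Nat.add (Nat.add (Nat.add (Nat.add (Nat.add (Nat.add (Nat.add C x16533) x29655) x12159) x15075) x17991) x17019) x16371) x16551) x16527)
    (Nat.add (Nat.add (Nat.add (Nat.add (Nat.add (Nat.add (Nat.add (Nat.add (Nat.add C x16551) x29673) x12177) x15093) x18009) x17037) x16389) x16605) x16533)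
    (Nat.add (Nat.add (Nat.add (Nat.add (Nat.add (Nat.add (Nat.add (Nat.add C (Nat.mul x16605 (nat_lit 3))) x29727) x12231) x15147) x18063) x17091) x16443) x16551)
    (Nat.add (Nat.add (Nat.add (Nat.add (Nat.add (Nat.add C x29891) x12395) x18227) x16283) x16771) x36451)
    (Nat.add (Nat.add (Nat.add (Nat.add (Nat.add (Nat.add (Nat.add (Nat.add (Nat.add C x16771) x29893) x12397) x18229) x16285) x16777) x16769) x16773) x36453)
    (Nat.add (Nat.add (Nat.add (Nat.add (Nat.add (Nat.add C x29895) x12399) x18231) x16287) x16779) x16771)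
    (Nat.add (Nat.add (Nat.add (Nat.add (Nat.add (Nat.add (Nat.add (Nat.add C x29899) x12403) x18235) x16291) x16795) x16771) x16779) x36459)
    (Nat.add (Nat.add (Nat.add (Nat.add (Nat.add (Nat.add (Nat.add (Nat.add (Nat.add C x16779) x29901) x12405) x18237) x16293) x16797) x16773) x16785) x16777)
    (Nat.add (Nat.add (Nat.add (Nat.add (Nat.add (Nat.add C x29907) x12411) x18243) x16299) x16803) x16779)
    (Nat.add (Nat.add (Nat.add (Nat.add (Nat.add (Nat.add (Nat.add (Nat.add C x29917) x12421) x18253) x16309) x16849) x16777) x16797) x36477)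
    (Nat.add (Nat.add (Nat.add (Nat.add (Nat.add (Nat.add (Nat.add (Nat.add C x29919) x12423) x18255) x16311) x16851) x16779) x16803) x16795)
    (Nat.add (Nat.add (Nat.add (Nat.add (Nat.add (Nat.add (Nat.add (Nat.add (Nat.add C x16803) x29925) x12429) x18261) x16317) x16857) x16785) x16821) x16797)
    (Nat.add (Nat.add (Nat.add (Nat.add (Nat.add (Nat.add C x29943) x12447) x18279) x16335) x16875) x16803)
    (Nat.add (Nat.add (Nat.add (Nat.add (Nat.add (Nat.add (Nat.add (Nat.add C x29971) x12475) x18307) x16363) x17011) x16795) x16851) x36531)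
    (Nat.add (Nat.add (Nat.add (Nat.add (Nat.add (Nat.add (Nat.add (Nat.add C x29973) x12477) x18309) x16365) x17013) x16797) x16857) x16849)
    (Nat.add (Nat.add (Nat.add (Nat.add (Nat.add (Nat.add (Nat.add (Nat.add C x29979) x12483) x18315) x16371) x17019) x16803) x16875) x16851)
    (Nat.add (Nat.add (Nat.add (Nat.add (Nat.add (Nat.add (Nat.add (Nat.add (Nat.add C x16875) x29997) x12501) x18333) x16389) x17037) x16821) x16929) x16857)
    (Nat.add (Nat.add (Nat.add (Nat.add (Nat.add (Nat.add C x30051) x12555) x18387) x16443) x17091) x16875)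
    (Nat.add (Nat.add (Nat.add (Nat.add (Nat.add (Nat.add (Nat.add (Nat.add C (Nat.mul x17011 (nat_lit 2))) x30133) x12637) x18469) x16525) x16849) x17013) x36693)
    (Nat.add (Nat.add (Nat.add (Nat.add (Nat.add (Nat.add (Nat.add (Nat.add C (Nat.mul x17013 (nat_lit 2))) x30135) x12639) x18471) x16527) x16851) x17019) x17011)
    (Nat.add (Nat.add (Nat.add (Nat.add (Nat.add (Nat.add (Nat.add (Nat.add C (Nat.mul x17019 (nat_lit 2))) x30141) x12645) x18477) x16533) x16857) x17037) x17013)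
    (Nat.add (Nat.add (Nat.add (Nat.add (Nat.add (Nat.add (Nat.add (Nat.add C (Nat.mul x17037 (nat_lit 2))) x30159) x12663) x18495) x16551) x16875) x17091) x17019)
    (Nat.add (Nat.add (Nat.add (Nat.add (Nat.add (Nat.add (Nat.add (Nat.add C (Nat.mul x17091 (nat_lit 3))) x30213) x12717) x18549) x16605) x16929) x17253) x17037)
    (Nat.add (Nat.add (Nat.add (Nat.add (Nat.add C (Nat.mul x17253 (nat_lit 4))) x30375) x12879) x18711) x17091)
    (Nat.add (Nat.add (Nat.add (Nat.add (Nat.add (Nat.add C (Nat.mul x17501 (nat_lit 2))) x30623) x16043) x17507) x17503) x37183)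
    (Nat.add (Nat.add (Nat.add (Nat.add (Nat.add (Nat.add C (Nat.mul x17503 (nat_lit 2))) x30625) x16045) x17509) x17501) x37185)
    (Nat.add (Nat.add (Nat.add (Nat.add (Nat.add (Nat.add C x30629) x16049) x17525) x17501) x17509) x37189)
    (Nat.add (Nat.add (Nat.add (Nat.add (Nat.add (Nat.add (Nat.add (Nat.add (Nat.add C (Nat.mul x17509 (nat_lit 2))) x30631) x16051) x17527) x17503) x17515) x17507) x17511) x37191)
    (Nat.add (Nat.add (Nat.add (Nat.add (Nat.add (Nat.add C (Nat.mul x17511 (nat_lit 2))) x30633) x16053) x17529) x17517) x17509)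
    (Nat.add (Nat.add (Nat.add (Nat.add (Nat.add (Nat.add C x30637) x16057) x17533) x17509) x17517) x37197)
    (Nat.add (Nat.add (Nat.add (Nat.add (Nat.add (Nat.add C (Nat.mul x17517 (nat_lit 2))) x30639) x16059) x17535) x17511) x17515)
    (Nat.add (Nat.add (Nat.add (Nat.add (Nat.add (Nat.add C x30647) x16067) x17579) x17507) x17527) x37207)
    (Nat.add (Nat.add (Nat.add (Nat.add (Nat.add (Nat.add (Nat.add (Nat.add (Nat.add C x17527) x30649) x16069) x17581) x17509) x17533) x17525) x17529) x37209)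
    (Nat.add (Nat.add (Nat.add (Nat.add (Nat.add (Nat.add C x30651) x16071) x17583) x17511) x17535) x17527)
    (Nat.add (Nat.add (Nat.add (Nat.add (Nat.add (Nat.add (Nat.add (Nat.add (Nat.add C x17533) x30655) x16075) x17587) x17515) x17551) x17527) x17535) x37215)
    (Nat.add (Nat.add (Nat.add (Nat.add (Nat.add (Nat.add (Nat.add (Nat.add (Nat.add C (Nat.mul x17535 (nat_lit 2))) x30657) x16077) x17589) x17517) x17553) x17529) x17541) x17533)
    (Nat.add (Nat.add (Nat.add (Nat.add (Nat.add (Nat.add C (Nat.mul x17541 (nat_lit 2))) x30663) x16083) x17595) x17559) x17535)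
    (Nat.add (Nat.add (Nat.add (Nat.add (Nat.add (Nat.add C x30673) x16093) x17605) x17533) x17553) x37233)
    (Nat.add (Nat.add (Nat.add (Nat.add (Nat.add (Nat.add C x30675) x16095) x17607) x17535) x17559) x17551)
    (Nat.add (Nat.add (Nat.add (Nat.add (Nat.add (Nat.add C (Nat.mul x17559 (nat_lit 2))) x30681) x16101) x17613) x17541) x17553)
    (Nat.add (Nat.add (Nat.add (Nat.add (Nat.add (Nat.add C x30701) x16121) x17741) x17525) x17581) x37261)
    (Nat.add (Nat.add (Nat.add (Nat.add (Nat.add (Nat.add (Nat.add (Nat.add (Nat.add C x17581) x30703) x16123) x17743) x17527) x17587) x17579) x17583) x37263)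
    (Nat.add (Nat.add (Nat.add (Nat.add (Nat.add (Nat.add C x30705) x16125) x17745) x17529) x17589) x17581)
    (Nat.add (Nat.add (Nat.add (Nat.add (Nat.add (Nat.add (Nat.add (Nat.add C x30709) x16129) x17749) x17533) x17605) x17581) x17589) x37269)
    (Nat.add (Nat.add (Nat.add (Nat.add (Nat.add (Nat.add (Nat.add (Nat.add (Nat.add C x17589) x30711) x16131) x17751) x17535) x17607) x17583) x17595) x17587)
    (Nat.add (Nat.add (Nat.add (Nat.add (Nat.add (Nat.add C x30717) x16137) x17757) x17541) x17613) x17589)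
    (Nat.add (Nat.add (Nat.add (Nat.add (Nat.add (Nat.add (Nat.add (Nat.add (Nat.add C x17605) x30727) x16147) x17767) x17551) x17659) x17587) x17607) x37287)
    (Nat.add (Nat.add (Nat.add (Nat.add (Nat.add (Nat.add (Nat.add (Nat.add (Nat.add C x17607) x30729) x16149) x17769) x17553) x17661) x17589) x17613) x17605)
    (Nat.add (Nat.add (Nat.add (Nat.add (Nat.add (Nat.add (Nat.add (Nat.add (Nat.add C (Nat.mul x17613 (nat_lit 2))) x30735) x16155) x17775) x17559) x17667) x17595) x17631) x17607)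
    (Nat.add (Nat.add (Nat.add (Nat.add (Nat.add (Nat.add C (Nat.mul x17631 (nat_lit 2))) x30753) x16173) x17793) x17685) x17613)
    (Nat.add (Nat.add (Nat.add (Nat.add (Nat.add (Nat.add C x30781) x16201) x17821) x17605) x17661) x37341)
    (Nat.add (Nat.add (Nat.add (Nat.add (Nat.add (Nat.add C x30783) x16203) x17823) x17607) x17667) x17659)
    (Nat.add (Nat.add (Nat.add (Nat.add (Nat.add (Nat.add C x30789) x16209) x17829) x17613) x17685) x17661)
    (Nat.add (Nat.add (Nat.add (Nat.add (Nat.add (Nat.add C (Nat.mul x17685 (nat_lit 2))) x30807) x16227) x17847) x17631) x17667)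
    (Nat.add (Nat.add (Nat.add (Nat.add (Nat.add (Nat.add C x30863) x16283) x18227) x17579) x17743) x37423)
    (Nat.add (Nat.add (Nat.add (Nat.add (Nat.add (Nat.add (Nat.add (Nat.add (Nat.add C x17743) x30865) x16285) x18229) x17581) x17749) x17741) x17745) x37425)
    (Nat.add (Nat.add (Nat.add (Nat.add (Nat.add (Nat.add C x30867) x16287) x18231) x17583) x17751) x17743)
    (Nat.add (Nat.add (Nat.add (Nat.add (Nat.add (Nat.add (Nat.add (Nat.add C x30871) x16291) x18235) x17587) x17767) x17743) x17751) x37431)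
    (Nat.add (Nat.add (Nat.add (Nat.add (Nat.add (Nat.add (Nat.add (Nat.add (Nat.add C x17751) x30873) x16293) x18237) x17589) x17769) x17745) x17757) x17749)
    (Nat.add (Nat.add (Nat.add (Nat.add (Nat.add (Nat.add C x30879) x16299) x18243) x17595) x17775) x17751)
    (Nat.add (Nat.add (Nat.add (Nat.add (Nat.add (Nat.add (Nat.add (Nat.add C x30889) x16309) x18253) x17605) x17821) x17749) x17769) x37449)
    (Nat.add (Nat.add (Nat.add (Nat.add (Nat.add (Nat.add (Nat.add (Nat.add C x30891) x16311) x18255) x17607) x17823) x17751) x17775) x17767)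
    (Nat.add (Nat.add (Nat.add (Nat.add (Nat.add (Nat.add (Nat.add (Nat.add (Nat.add C x17775) x30897) x16317) x18261) x17613) x17829) x17757) x17793) x17769)
    (Nat.add (Nat.add (Nat.add (Nat.add (Nat.add (Nat.add C x30915) x16335) x18279) x17631) x17847) x17775)
    (Nat.add (Nat.add (Nat.add (Nat.add (Nat.add (Nat.add (Nat.add (Nat.add (Nat.add C x17821) x30943) x16363) x18307) x17659) x17983) x17767) x17823) x37503)
    (Nat.add (Nat.add (Nat.add (Nat.add (Nat.add (Nat.add (Nat.add (Nat.add (Nat.add C x17823) x30945) x16365) x18309) x17661) x17985) x17769) x17829) x17821)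
    (Nat.add (Nat.add (Nat.add (Nat.add (Nat.add (Nat.add (Nat.add (Nat.add (Nat.add C x17829) x30951) x16371) x18315) x17667) x17991) x17775) x17847) x17823)
    (Nat.add (Nat.add (Nat.add (Nat.add (Nat.add (Nat.add (Nat.add (Nat.add (Nat.add C (Nat.mul x17847 (nat_lit 2))) x30969) x16389) x18333) x17685) x18009) x17793) x17901) x17829)
    (Nat.add (Nat.add (Nat.add (Nat.add (Nat.add (Nat.add C (Nat.mul x17901 (nat_lit 2))) x31023) x16443) x18387) x18063) x17847)
    (Nat.add (Nat.add (Nat.add (Nat.add (Nat.add (Nat.add C x31105) x16525) x18469) x17821) x17985) x37665)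
    (Nat.add (Nat.add (Nat.add (Nat.add (Nat.add (Nat.add C x31107) x16527) x18471) x17823) x17991) x17983)
    (Nat.add (Nat.add (Nat.add (Nat.add (Nat.add (Nat.add C x31113) x16533) x18477) x17829) x18009) x17985)
    (Nat.add (Nat.add (Nat.add (Nat.add (Nat.add (Nat.add C x31131) x16551) x18495) x17847) x18063) x17991)
    (Nat.add (Nat.add (Nat.add (Nat.add (Nat.add (Nat.add C (Nat.mul x18063 (nat_lit 2))) x31185) x16605) x18549) x17901) x18009)
    (Nat.add (Nat.add (Nat.add (Nat.add (Nat.add (Nat.add C (Nat.mul x18227 (nat_lit 2))) x31349) x16769) x17741) x18229) x37909)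
    (Nat.add (Nat.add (Nat.add (Nat.add (Nat.add (Nat.add (Nat.add (Nat.add C (Nat.mul x18229 (nat_lit 3))) x31351) x16771) x17743) x18235) x18227) x18231) x37911)
    (Nat.add (Nat.add (Nat.add (Nat.add (Nat.add (Nat.add C (Nat.mul x18231 (nat_lit 2))) x31353) x16773) x17745) x18237) x18229)
    (Nat.add (Nat.add (Nat.add (Nat.add (Nat.add (Nat.add (Nat.add (Nat.add C (Nat.mul x18235 (nat_lit 2))) x31357) x16777) x17749) x18253) x18229) x18237) x37917)
    (Nat.add (Nat.add (Nat.add (Nat.add (Nat.add (Nat.add (Nat.add (Nat.add C (Nat.mul x18237 (nat_lit 3))) x31359) x16779) x17751) x18255) x18231) x18243) x18235)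
    (Nat.add (Nat.add (Nat.add (Nat.add (Nat.add (Nat.add C (Nat.mul x18243 (nat_lit 2))) x31365) x16785) x17757) x18261) x18237)
    (Nat.add (Nat.add (Nat.add (Nat.add (Nat.add (Nat.add (Nat.add (Nat.add C (Nat.mul x18253 (nat_lit 2))) x31375) x16795) x17767) x18307) x18235) x18255) x37935)
    (Nat.add (Nat.add (Nat.add (Nat.add (Nat.add (Nat.add (Nat.add (Nat.add C (Nat.mul x18255 (nat_lit 2))) x31377) x16797) x17769) x18309) x18237) x18261) x18253)
    (Nat.add (Nat.add (Nat.add (Nat.add (Nat.add (Nat.add (Nat.add (Nat.add C (Nat.mul x18261 (nat_lit 3))) x31383) x16803) x17775) x18315) x18243) x18279) x18255)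
    (Nat.add (Nat.add (Nat.add (Nat.add (Nat.add (Nat.add C (Nat.mul x18279 (nat_lit 2))) x31401) x16821) x17793) x18333) x18261)
    (Nat.add (Nat.add (Nat.add (Nat.add (Nat.add (Nat.add (Nat.add (Nat.add C (Nat.mul x18307 (nat_lit 2))) x31429) x16849) x17821) x18469) x18253) x18309) x37989)
    (Nat.add (Nat.add (Nat.add (Nat.add (Nat.add (Nat.add (Nat.add (Nat.add C (Nat.mul x18309 (nat_lit 2))) x31431) x16851) x17823) x18471) x18255) x18315) x18307)
    (Nat.add (Nat.add (Nat.add (Nat.add (Nat.add (Nat.add (Nat.add (Nat.add C (Nat.mul x18315 (nat_lit 2))) x31437) x16857) x17829) x18477) x18261) x18333) x18309)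
    (Nat.add (Nat.add (Nat.add (Nat.add (Nat.add (Nat.add (Nat.add (Nat.add C (Nat.mul x18333 (nat_lit 3))) x31455) x16875) x17847) x18495) x18279) x18387) x18315)
    (Nat.add (Nat.add (Nat.add (Nat.add (Nat.add (Nat.add C (Nat.mul x18387 (nat_lit 2))) x31509) x16929) x17901) x18549) x18333)
    (Nat.add (Nat.add (Nat.add (Nat.add (Nat.add (Nat.add (Nat.add (Nat.add C (Nat.mul x18469 (nat_lit 3))) x31591) x17011) x17983) x18955) x18307) x18471) x38151)
    (Nat.add (Nat.add (Nat.add (Nat.add (Nat.add (Nat.add (Nat.add (Nat.add C (Nat.mul x18471 (nat_lit 3))) x31593) x17013) x17985) x18957) x18309) x18477) x18469)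
    (Nat.add (Nat.add (Nat.add (Nat.add (Nat.add (Nat.add (Nat.add (Nat.add C (Nat.mul x18477 (nat_lit 3))) x31599) x17019) x17991) x18963) x18315) x18495) x18471)
    (Nat.add (Nat.add (Nat.add (Nat.add (Nat.add (Nat.add (Nat.add (Nat.add C (Nat.mul x18495 (nat_lit 3))) x31617) x17037) x18009) x18981) x18333) x18549) x18477)
    (Nat.add (Nat.add (Nat.add (Nat.add (Nat.add (Nat.add (Nat.add (Nat.add C (Nat.mul x18549 (nat_lit 4))) x31671) x17091) x18063) x19035) x18387) x18711) x18495)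
    (Nat.add (Nat.add (Nat.add (Nat.add (Nat.add C (Nat.mul x18711 (nat_lit 4))) x31833) x17253) x19197) x18549)
    (Nat.add (Nat.add (Nat.add (Nat.add (Nat.add C (Nat.mul x18955 (nat_lit 4))) x32077) x18469) x18957) x38637)
    (Nat.add (Nat.add (Nat.add (Nat.add (Nat.add C (Nat.mul x18957 (nat_lit 4))) x32079) x18471) x18963) x18955)
    (Nat.add (Nat.add (Nat.add (Nat.add (Nat.add C (Nat.mul x18963 (nat_lit 4))) x32085) x18477) x18981) x18957)
    (Nat.add (Nat.add (Nat.add (Nat.add (Nat.add C (Nat.mul x18981 (nat_lit 4))) x32103) x18495) x19035) x18963)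
    (Nat.add (Nat.add (Nat.add (Nat.add (Nat.add C (Nat.mul x19035 (nat_lit 4))) x32157) x18549) x19197) x18981)
    (Nat.add (Nat.add (Nat.add (Nat.add C (Nat.mul x19197 (nat_lit 6))) x32319) x18711) x19035)
    (Nat.add (Nat.add (Nat.add (Nat.add C (Nat.mul x19709 (nat_lit 6))) x6587) x19727) x39391)
    (Nat.add (Nat.add (Nat.add (Nat.add (Nat.add (Nat.add (Nat.add C (Nat.mul x19727 (nat_lit 5))) x6605) x19781) x19709) x19745) x19733) x39409)
    (Nat.add (Nat.add (Nat.add (Nat.add (Nat.add (Nat.add (Nat.add C (Nat.mul x19733 (nat_lit 4))) x6611) x19787) x19751) x19727) x19735) x39415)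
    (Nat.add (Nat.add (Nat.add (Nat.add (Nat.add (Nat.add (Nat.add C (Nat.mul x19735 (nat_lit 5))) x6613) x19789) x19753) x19733) x39417) x53)
    (Nat.add (Nat.add (Nat.add (Nat.add (Nat.add (Nat.add C (Nat.mul x19745 (nat_lit 2))) x6623) x19799) x19727) x19751) x39427)
    (Nat.add (Nat.add (Nat.add (Nat.add (Nat.add (Nat.add (Nat.add (Nat.add C (Nat.mul x19751 (nat_lit 3))) x6629) x19805) x19733) x19745) x19757) x19753) x39433)
    (Nat.add (Nat.add (Nat.add (Nat.add (Nat.add (Nat.add (Nat.add (Nat.add C (Nat.mul x19753 (nat_lit 3))) x6631) x19807) x19735) x19759) x19751) x39435) x71)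
    (Nat.add (Nat.add (Nat.add (Nat.add (Nat.add (Nat.add C (Nat.mul x19757 (nat_lit 2))) x6635) x19811) x19751) x19759) x39439)
    (Nat.add (Nat.add (Nat.add (Nat.add (Nat.add (Nat.add (Nat.add (Nat.add C (Nat.mul x19759 (nat_lit 4))) x6637) x19813) x19753) x19757) x19761) x39441) x77)
    (Nat.add (Nat.add (Nat.add (Nat.add (Nat.add C (Nat.mul x19761 (nat_lit 4))) x6639) x19815) x19759) x79)
    (Nat.add (Nat.add (Nat.add (Nat.add (Nat.add (Nat.add (Nat.add C (Nat.mul x19781 (nat_lit 4))) x6659) x19943) x19727) x19799) x19787) x39463)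
    (Nat.add (Nat.add (Nat.add (Nat.add (Nat.add (Nat.add (Nat.add (Nat.add C (Nat.mul x19787 (nat_lit 2))) x6665) x19949) x19733) x19805) x19781) x19789) x39469)
    (Nat.add (Nat.add (Nat.add (Nat.add (Nat.add (Nat.add (Nat.add (Nat.add C (Nat.mul x19789 (nat_lit 3))) x6667) x19951) x19735) x19807) x19787) x39471) x107)
    (Nat.add (Nat.add (Nat.add (Nat.add (Nat.add (Nat.add (Nat.add (Nat.add C (Nat.mul x19799 (nat_lit 3))) x6677) x19961) x19745) x19853) x19781) x19805) x39481)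
    (Nat.add (Nat.add (Nat.add (Nat.add (Nat.add (Nat.add (Nat.add (Nat.add (Nat.add (Nat.add (Nat.add C (Nat.mul x19805 (nat_lit 3))) x6683) x19967) x19751) x19859) x19787) x19823) x19799) x19811) x19807) x39487)
    (Nat.add (Nat.add (Nat.add (Nat.add (Nat.add (Nat.add (Nat.add (Nat.add (Nat.add (Nat.add (Nat.add C (Nat.mul x19807 (nat_lit 3))) x6685) x19969) x19753) x19861) x19789) x19825) x19813) x19805) x39489) x125)
    (Nat.add (Nat.add (Nat.add (Nat.add (Nat.add (Nat.add (Nat.add (Nat.add (Nat.add C x19811) x6689) x19973) x19757) x19865) x19829) x19805) x19813) x39493)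
    (Nat.add (Nat.add (Nat.add (Nat.add (Nat.add (Nat.add (Nat.add (Nat.add (Nat.add (Nat.add (Nat.add C (Nat.mul x19813 (nat_lit 3))) x6691) x19975) x19759) x19867) x19831) x19807) x19811) x19815) x39495) x131)
    (Nat.add (Nat.add (Nat.add (Nat.add (Nat.add (Nat.add (Nat.add (Nat.add C (Nat.mul x19815 (nat_lit 3))) x6693) x19977) x19761) x19869) x19833) x19813) x133)
    (Nat.add (Nat.add (Nat.add (Nat.add (Nat.add (Nat.add (Nat.add (Nat.add C (Nat.mul x19823 (nat_lit 2))) x6701) x19985) x19877) x19805) x19829) x19825) x39505)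
    (Nat.add (Nat.add (Nat.add (Nat.add (Nat.add (Nat.add (Nat.add (Nat.add (Nat.add C x19825) x6703) x19987) x19879) x19807) x19831) x19823) x39507) x143)
    (Nat.add (Nat.add (Nat.add (Nat.add (Nat.add (Nat.add (Nat.add (Nat.add C (Nat.mul x19829 (nat_lit 2))) x6707) x19991) x19883) x19811) x19823) x19831) x39511)
    (Nat.add (Nat.add (Nat.add (Nat.add (Nat.add (Nat.add (Nat.add (Nat.add (Nat.add (Nat.add (Nat.add C (Nat.mul x19831 (nat_lit 3))) x6709) x19993) x19885) x19813) x19825) x19837) x19829) x19833) x39513) x149)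
    (Nat.add (Nat.add (Nat.add (Nat.add (Nat.add (Nat.add (Nat.add (Nat.add C (Nat.mul x19833 (nat_lit 2))) x6711) x19995) x19887) x19815) x19839) x19831) x151)
    (Nat.add (Nat.add (Nat.add (Nat.add (Nat.add (Nat.add (Nat.add (Nat.add C (Nat.mul x19837 (nat_lit 3))) x6715) x19999) x19891) x19831) x19839) x39519) x155)
    (Nat.add (Nat.add (Nat.add (Nat.add (Nat.add (Nat.add (Nat.add C (Nat.mul x19839 (nat_lit 4))) x6717) x20001) x19893) x19833) x19837) x157)
    (Nat.add (Nat.add (Nat.add (Nat.add (Nat.add (Nat.add C (Nat.mul x19853 (nat_lit 2))) x6731) x20015) x19799) x19859) x39535)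
    (Nat.add (Nat.add (Nat.add (Nat.add (Nat.add (Nat.add (Nat.add (Nat.add (Nat.add C x19859) x6737) x20021) x19805) x19877) x19853) x19865) x19861) x39541)
    (Nat.add (Nat.add (Nat.add (Nat.add (Nat.add (Nat.add (Nat.add (Nat.add (Nat.add C x19861) x6739) x20023) x19807) x19879) x19867) x19859) x39543) x179)
    (Nat.sub (Nat.add (Nat.add (Nat.add (Nat.add (Nat.add (Nat.add (Nat.add C x6743) x20027) x19811) x19883) x19859) x19867) x39547) (Nat.mul x19865 (nat_lit 2)))
    (Nat.add (Nat.add (Nat.add (Nat.add (Nat.add (Nat.add (Nat.add (Nat.add (Nat.add C x6745) x20029) x19813) x19885) x19861) x19865) x19869) x39549) x185)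
    (Nat.add (Nat.add (Nat.add (Nat.add (Nat.add (Nat.add C x6747) x20031) x19815) x19887) x19867) x187)
    (Nat.add (Nat.add (Nat.add (Nat.add (Nat.add (Nat.add (Nat.add (Nat.add C (Nat.mul x19877 (nat_lit 2))) x6755) x20039) x19823) x19859) x19883) x19879) x39559)
    (Nat.add (Nat.add (Nat.add (Nat.add (Nat.add (Nat.add (Nat.add (Nat.add (Nat.add C x19879) x6757) x20041) x19825) x19861) x19885) x19877) x39561) x197)
    (Nat.add (Nat.add (Nat.add (Nat.add (Nat.add (Nat.add (Nat.add (Nat.add (Nat.add C x19883) x6761) x20045) x19829) x19865) x19901) x19877) x19885) x39565)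
    (Nat.add (Nat.add (Nat.add (Nat.add (Nat.add (Nat.add (Nat.add (Nat.add (Nat.add (Nat.add (Nat.add (Nat.add C (Nat.mul x19885 (nat_lit 2))) x6763) x20047) x19831) x19867) x19903) x19879) x19891) x19883) x19887) x39567) x203)
    (Nat.add (Nat.add (Nat.add (Nat.add (Nat.add (Nat.add (Nat.add (Nat.add (Nat.add C x19887) x6765) x20049) x19833) x19869) x19905) x19893) x19885) x205)
    (Nat.add (Nat.add (Nat.add (Nat.add (Nat.add (Nat.add (Nat.add (Nat.add (Nat.add C x19891) x6769) x20053) x19837) x19909) x19885) x19893) x39573) x209)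
    (Nat.add (Nat.add (Nat.add (Nat.add (Nat.add (Nat.add (Nat.add (Nat.add C (Nat.mul x19893 (nat_lit 2))) x6771) x20055) x19839) x19911) x19887) x19891) x211)
    (Nat.add (Nat.add (Nat.add (Nat.add (Nat.add (Nat.add C (Nat.mul x19901 (nat_lit 2))) x6779) x20063) x19883) x19903) x39583)
    (Nat.add (Nat.add (Nat.add (Nat.add (Nat.add (Nat.add (Nat.add (Nat.add (Nat.add C (Nat.mul x19903 (nat_lit 2))) x6781) x20065) x19885) x19909) x19901) x19905) x39585) x221)
    (Nat.add (Nat.add (Nat.add (Nat.add (Nat.add (Nat.add C x6783) x20067) x19887) x19911) x19903) x223)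
    (Nat.add (Nat.add (Nat.add (Nat.add (Nat.add (Nat.add (Nat.add (Nat.add C (Nat.mul x19909 (nat_lit 3))) x6787) x20071) x19891) x19903) x19911) x39591) x227)
    (Nat.add (Nat.add (Nat.add (Nat.add (Nat.add (Nat.add (Nat.add (Nat.add C (Nat.mul x19911 (nat_lit 3))) x6789) x20073) x19893) x19905) x19917) x19909) x229)
    (Nat.add (Nat.add (Nat.add (Nat.add (Nat.add C (Nat.mul x19917 (nat_lit 4))) x6795) x20079) x19911) x235)
    (Nat.add (Nat.add (Nat.add (Nat.add (Nat.add (Nat.add (Nat.add C (Nat.mul x19943 (nat_lit 4))) x6821) x20429) x19781) x19961) x19949) x39625)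
    (Nat.add (Nat.add (Nat.add (Nat.add (Nat.add (Nat.add (Nat.add (Nat.add C (Nat.mul x19949 (nat_lit 2))) x6827) x20435) x19787) x19967) x19943) x19951) x39631)
    (Nat.add (Nat.add (Nat.add (Nat.add (Nat.add (Nat.add (Nat.add (Nat.add C (Nat.mul x19951 (nat_lit 3))) x6829) x20437) x19789) x19969) x19949) x39633) x269)
    (Nat.add (Nat.add (Nat.add (Nat.add (Nat.add (Nat.add (Nat.add (Nat.add C (Nat.mul x19961 (nat_lit 2))) x6839) x20447) x19799) x20015) x19943) x19967) x39643)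
    (Nat.add (Nat.add (Nat.add (Nat.add (Nat.add (Nat.add (Nat.add (Nat.add (Nat.add (Nat.add (Nat.add C (Nat.mul x19967 (nat_lit 2))) x6845) x20453) x19805) x20021) x19949) x19985) x19961) x19973) x19969) x39649)
    (Nat.add (Nat.add (Nat.add (Nat.add (Nat.add (Nat.add (Nat.add (Nat.add (Nat.add (Nat.add (Nat.add C (Nat.mul x19969 (nat_lit 2))) x6847) x20455) x19807) x20023) x19951) x19987) x19975) x19967) x39651) x287)
    (Nat.add (Nat.add (Nat.add (Nat.add (Nat.add (Nat.add (Nat.add (Nat.add C x6851) x20459) x19811) x20027) x19991) x19967) x19975) x39655)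
    (Nat.add (Nat.add (Nat.add (Nat.add (Nat.add (Nat.add (Nat.add (Nat.add (Nat.add (Nat.add (Nat.add C (Nat.mul x19975 (nat_lit 2))) x6853) x20461) x19813) x20029) x19993) x19969) x19973) x19977) x39657) x293)
    (Nat.add (Nat.add (Nat.add (Nat.add (Nat.add (Nat.add (Nat.add (Nat.add C (Nat.mul x19977 (nat_lit 2))) x6855) x20463) x19815) x20031) x19995) x19975) x295)
    (Nat.add (Nat.add (Nat.add (Nat.add (Nat.add (Nat.add (Nat.add (Nat.add C x6863) x20471) x19823) x20039) x19967) x19991) x19987) x39667)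
    (Nat.sub (Nat.add (Nat.add (Nat.add (Nat.add (Nat.add (Nat.add (Nat.add (Nat.add (Nat.add C x6865) x20473) x19825) x20041) x19969) x19993) x19985) x39669) x305) x19987)
    (Nat.add (Nat.add (Nat.add (Nat.add (Nat.add (Nat.add (Nat.add (Nat.add C x6869) x20477) x19829) x20045) x19973) x19985) x19993) x39673)
    (Nat.add (Nat.add (Nat.add (Nat.add (Nat.add (Nat.add (Nat.add (Nat.add (Nat.add (Nat.add (Nat.add (Nat.add C x19993) x6871) x20479) x19831) x20047) x19975) x19987) x19999) x19991) x19995) x39675) x311)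
    (Nat.add (Nat.add (Nat.add (Nat.add (Nat.add (Nat.add (Nat.add (Nat.add C x6873) x20481) x19833) x20049) x19977) x20001) x19993) x313)
    (Nat.add (Nat.add (Nat.add (Nat.add (Nat.add (Nat.add (Nat.add (Nat.add (Nat.add C x19999) x6877) x20485) x19837) x20053) x19993) x20001) x39681) x317)
    (Nat.add (Nat.add (Nat.add (Nat.add (Nat.add (Nat.add (Nat.add (Nat.add C (Nat.mul x20001 (nat_lit 2))) x6879) x20487) x19839) x20055) x19995) x19999) x319)
    (Nat.add (Nat.add (Nat.add (Nat.add (Nat.add (Nat.add (Nat.add (Nat.add C (Nat.mul x20015 (nat_lit 3))) x6893) x20501) x19853) x20177) x19961) x20021) x39697)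
    (Nat.add (Nat.add (Nat.add (Nat.add (Nat.add (Nat.add (Nat.add (Nat.add (Nat.add (Nat.add (Nat.add C (Nat.mul x20021 (nat_lit 2))) x6899) x20507) x19859) x20183) x19967) x20039) x20015) x20027) x20023) x39703)
    (Nat.add (Nat.add (Nat.add (Nat.add (Nat.add (Nat.add (Nat.add (Nat.add (Nat.add (Nat.add (Nat.add C (Nat.mul x20023 (nat_lit 2))) x6901) x20509) x19861) x20185) x19969) x20041) x20029) x20021) x39705) x341)
    (Nat.sub (Nat.add (Nat.add (Nat.add (Nat.add (Nat.add (Nat.add (Nat.add (Nat.add (Nat.add C x6905) x20513) x19865) x20189) x19973) x20045) x20021) x20029) x39709) x20027)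
    (Nat.add (Nat.add (Nat.add (Nat.add (Nat.add (Nat.add (Nat.add (Nat.add (Nat.add (Nat.add (Nat.add (Nat.add C x20029) x6907) x20515) x19867) x20191) x19975) x20047) x20023) x20027) x20031) x39711) x347)
    (Nat.add (Nat.add (Nat.add (Nat.add (Nat.add (Nat.add (Nat.add (Nat.add (Nat.add C x20031) x6909) x20517) x19869) x20193) x19977) x20049) x20029) x349)
    (Nat.add (Nat.add (Nat.add (Nat.add (Nat.add (Nat.add (Nat.add (Nat.add (Nat.add (Nat.add (Nat.add C (Nat.mul x20039 (nat_lit 2))) x6917) x20525) x19877) x20201) x19985) x20093) x20021) x20045) x20041) x39721)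
    (Nat.add (Nat.add (Nat.add (Nat.add (Nat.add (Nat.add (Nat.add (Nat.add (Nat.add (Nat.add (Nat.add (Nat.add C x20041) x6919) x20527) x19879) x20203) x19987) x20095) x20023) x20047) x20039) x39723) x359)
    (Nat.add (Nat.add (Nat.add (Nat.add (Nat.add (Nat.add (Nat.add (Nat.add (Nat.add (Nat.add (Nat.add (Nat.add C x20045) x6923) x20531) x19883) x20207) x19991) x20099) x20027) x20063) x20039) x20047) x39727)
    (Nat.add (Nat.add (Nat.add (Nat.add (Nat.add (Nat.add (Nat.add (Nat.add (Nat.add (Nat.add (Nat.add (Nat.add (Nat.add (Nat.add (Nat.add C (Nat.mul x20047 (nat_lit 2))) x6925) x20533) x19885) x20209) x19993) x20101) x20029) x20065) x20041) x20053) x20045) x20049) x39729) x365)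
    (Nat.add (Nat.add (Nat.add (Nat.add (Nat.add (Nat.add (Nat.add (Nat.add (Nat.add (Nat.add (Nat.add (Nat.add C x20049) x6927) x20535) x19887) x20211) x19995) x20103) x20031) x20067) x20055) x20047) x367)
    (Nat.add (Nat.add (Nat.add (Nat.add (Nat.add (Nat.add (Nat.add (Nat.add (Nat.add (Nat.add (Nat.add (Nat.add C x20053) x6931) x20539) x19891) x20215) x19999) x20107) x20071) x20047) x20055) x39735) x371)
    (Nat.add (Nat.add (Nat.add (Nat.add (Nat.add (Nat.add (Nat.add (Nat.add (Nat.add (Nat.add (Nat.add C (Nat.mul x20055 (nat_lit 2))) x6933) x20541) x19893) x20217) x20001) x20109) x20073) x20049) x20053) x373)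
    (Nat.add (Nat.add (Nat.add (Nat.add (Nat.add (Nat.add (Nat.add (Nat.add (Nat.add C x20063) x6941) x20549) x19901) x20225) x20117) x20045) x20065) x39745)
    (Nat.add (Nat.add (Nat.add (Nat.add (Nat.add (Nat.add (Nat.add (Nat.add (Nat.add (Nat.add (Nat.add (Nat.add C x20065) x6943) x20551) x19903) x20227) x20119) x20047) x20071) x20063) x20067) x39747) x383)
    (Nat.sub (Nat.add (Nat.add (Nat.add (Nat.add (Nat.add (Nat.add (Nat.add (Nat.add (Nat.add C x6945) x20553) x19905) x20229) x20121) x20049) x20073) x20065) x385) x20067)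
    (Nat.add (Nat.add (Nat.add (Nat.add (Nat.add (Nat.add (Nat.add (Nat.add (Nat.add (Nat.add (Nat.add C (Nat.mul x20071 (nat_lit 2))) x6949) x20557) x19909) x20233) x20125) x20053) x20065) x20073) x39753) x389)
    (Nat.add (Nat.add (Nat.add (Nat.add (Nat.add (Nat.add (Nat.add (Nat.add (Nat.add (Nat.add (Nat.add C (Nat.mul x20073 (nat_lit 2))) x6951) x20559) x19911) x20235) x20127) x20055) x20067) x20079) x20071) x391)
    (Nat.add (Nat.add (Nat.add (Nat.add (Nat.add (Nat.add (Nat.add (Nat.add C (Nat.mul x20079 (nat_lit 3))) x6957) x20565) x19917) x20241) x20133) x20073) x397)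
    (Nat.add (Nat.add (Nat.add (Nat.add (Nat.add (Nat.add (Nat.add (Nat.add C (Nat.mul x20093 (nat_lit 2))) x6971) x20579) x20255) x20039) x20099) x20095) x39775)
    (Nat.add (Nat.add (Nat.add (Nat.add (Nat.add (Nat.add (Nat.add (Nat.add (Nat.add C x20095) x6973) x20581) x20257) x20041) x20101) x20093) x39777) x413)
    (Nat.add (Nat.add (Nat.add (Nat.add (Nat.add (Nat.add (Nat.add (Nat.add C x6977) x20585) x20261) x20045) x20117) x20093) x20101) x39781)
    (Nat.add (Nat.add (Nat.add (Nat.add (Nat.add (Nat.add (Nat.add (Nat.add (Nat.add (Nat.add (Nat.add (Nat.add C x20101) x6979) x20587) x20263) x20047) x20119) x20095) x20107) x20099) x20103) x39783) x419)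
    (Nat.add (Nat.add (Nat.add (Nat.add (Nat.add (Nat.add (Nat.add (Nat.add C x6981) x20589) x20265) x20049) x20121) x20109) x20101) x421)
    (Nat.sub (Nat.add (Nat.add (Nat.add (Nat.add (Nat.add (Nat.add (Nat.add (Nat.add (Nat.add C x6985) x20593) x20269) x20053) x20125) x20101) x20109) x39789) x425) x20107)
    (Nat.add (Nat.add (Nat.add (Nat.add (Nat.add (Nat.add (Nat.add (Nat.add C x6987) x20595) x20271) x20055) x20127) x20103) x20107) x427)
    (Nat.add (Nat.add (Nat.add (Nat.add (Nat.add (Nat.add (Nat.add (Nat.add C (Nat.mul x20117 (nat_lit 2))) x6995) x20603) x20279) x20063) x20099) x20119) x39799)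
    (Nat.add (Nat.add (Nat.add (Nat.add (Nat.add (Nat.add (Nat.add (Nat.add (Nat.add (Nat.add (Nat.add C (Nat.mul x20119 (nat_lit 2))) x6997) x20605) x20281) x20065) x20101) x20125) x20117) x20121) x39801) x437)
    (Nat.add (Nat.add (Nat.add (Nat.add (Nat.add (Nat.add (Nat.add (Nat.add C x6999) x20607) x20283) x20067) x20103) x20127) x20119) x439)
    (Nat.add (Nat.add (Nat.add (Nat.add (Nat.add (Nat.add (Nat.add (Nat.add (Nat.add (Nat.add (Nat.add C (Nat.mul x20125 (nat_lit 2))) x7003) x20611) x20287) x20071) x20107) x20143) x20119) x20127) x39807) x443)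
    (Nat.add (Nat.add (Nat.add (Nat.add (Nat.add (Nat.add (Nat.add (Nat.add (Nat.add (Nat.add (Nat.add C (Nat.mul x20127 (nat_lit 2))) x7005) x20613) x20289) x20073) x20109) x20145) x20121) x20133) x20125) x445)
    (Nat.add (Nat.add (Nat.add (Nat.add (Nat.add (Nat.add (Nat.add (Nat.add C (Nat.mul x20133 (nat_lit 2))) x7011) x20619) x20295) x20079) x20151) x20127) x451)
    (Nat.add (Nat.add (Nat.add (Nat.add (Nat.add (Nat.add (Nat.add (Nat.add C (Nat.mul x20143 (nat_lit 3))) x7021) x20629) x20305) x20125) x20145) x39825) x461)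
    (Nat.add (Nat.add (Nat.add (Nat.add (Nat.add (Nat.add (Nat.add (Nat.add C (Nat.mul x20145 (nat_lit 2))) x7023) x20631) x20307) x20127) x20151) x20143) x463)
    (Nat.add (Nat.add (Nat.add (Nat.add (Nat.add (Nat.add (Nat.add C (Nat.mul x20151 (nat_lit 4))) x7029) x20637) x20313) x20133) x20145) x469)
    (Nat.add (Nat.add (Nat.add (Nat.add (Nat.add (Nat.add C (Nat.mul x20177 (nat_lit 2))) x7055) x20663) x20015) x20183) x39859)
    (Nat.add (Nat.add (Nat.add (Nat.add (Nat.add (Nat.add (Nat.add (Nat.add (Nat.add C x20183) x7061) x20669) x20021) x20201) x20177) x20189) x20185) x39865)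
    (Nat.add (Nat.add (Nat.add (Nat.add (Nat.add (Nat.add (Nat.add (Nat.add (Nat.add C x20185) x7063) x20671) x20023) x20203) x20191) x20183) x39867) x503)
    (Nat.sub (Nat.add (Nat.add (Nat.add (Nat.add (Nat.add (Nat.add (Nat.add C x7067) x20675) x20027) x20207) x20183) x20191) x39871) (Nat.mul x20189 (nat_lit 2)))
    (Nat.add (Nat.add (Nat.add (Nat.add (Nat.add (Nat.add (Nat.add (Nat.add (Nat.add C x7069) x20677) x20029) x20209) x20185) x20189) x20193) x39873) x509)
    (Nat.add (Nat.add (Nat.add (Nat.add (Nat.add (Nat.add C x7071) x20679) x20031) x20211) x20191) x511)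
    (Nat.add (Nat.add (Nat.add (Nat.add (Nat.add (Nat.add (Nat.add (Nat.add C x7079) x20687) x20039) x20255) x20183) x20207) x20203) x39883)
    (Nat.sub (Nat.add (Nat.add (Nat.add (Nat.add (Nat.add (Nat.add (Nat.add (Nat.add (Nat.add C x7081) x20689) x20041) x20257) x20185) x20209) x20201) x39885) x521) x20203)
    (Nat.sub (Nat.add (Nat.add (Nat.add (Nat.add (Nat.add (Nat.add (Nat.add (Nat.add (Nat.add C x7085) x20693) x20045) x20261) x20189) x20225) x20201) x20209) x39889) x20207)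
    (Nat.add (Nat.add (Nat.add (Nat.add (Nat.add (Nat.add (Nat.add (Nat.add (Nat.add (Nat.add (Nat.add (Nat.add C x7087) x20695) x20047) x20263) x20191) x20227) x20203) x20215) x20207) x20211) x39891) x527)
    (Nat.sub (Nat.add (Nat.add (Nat.add (Nat.add (Nat.add (Nat.add (Nat.add (Nat.add (Nat.add C x7089) x20697) x20049) x20265) x20193) x20229) x20217) x20209) x529) x20211)
    (Nat.sub (Nat.add (Nat.add (Nat.add (Nat.add (Nat.add (Nat.add (Nat.add (Nat.add (Nat.add C x7093) x20701) x20053) x20269) x20233) x20209) x20217) x39897) x533) x20215)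
    (Nat.add (Nat.add (Nat.add (Nat.add (Nat.add (Nat.add (Nat.add (Nat.add C x7095) x20703) x20055) x20271) x20235) x20211) x20215) x535)
    (Nat.sub (Nat.add (Nat.add (Nat.add (Nat.add (Nat.add (Nat.add (Nat.add C x7103) x20711) x20063) x20279) x20207) x20227) x39907) (Nat.mul x20225 (nat_lit 2)))
    (Nat.sub (Nat.add (Nat.add (Nat.add (Nat.add (Nat.add (Nat.add (Nat.add (Nat.add (Nat.add (Nat.add C x7105) x20713) x20065) x20281) x20209) x20233) x20225) x20229) x39909) x545) (Nat.mul x20227 (nat_lit 2)))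
    (Nat.sub (Nat.add (Nat.add (Nat.add (Nat.add (Nat.add (Nat.add (Nat.add (Nat.add C x7107) x20715) x20067) x20283) x20211) x20235) x20227) x547) (Nat.mul x20229 (nat_lit 4)))
    (Nat.sub (Nat.add (Nat.add (Nat.add (Nat.add (Nat.add (Nat.add (Nat.add (Nat.add (Nat.add C x7111) x20719) x20071) x20287) x20215) x20227) x20235) x39915) x551) x20233)
    (Nat.sub (Nat.add (Nat.add (Nat.add (Nat.add (Nat.add (Nat.add (Nat.add (Nat.add (Nat.add C x7113) x20721) x20073) x20289) x20217) x20229) x20241) x20233) x553) x20235)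
    (Nat.add (Nat.add (Nat.add (Nat.add (Nat.add (Nat.add C x7119) x20727) x20079) x20295) x20235) x559)
    (Nat.add (Nat.add (Nat.add (Nat.add (Nat.add (Nat.add (Nat.add (Nat.add C (Nat.mul x20255 (nat_lit 2))) x7133) x20741) x20093) x20201) x20261) x20257) x39937)
    (Nat.add (Nat.add (Nat.add (Nat.add (Nat.add (Nat.add (Nat.add (Nat.add (Nat.add C x20257) x7135) x20743) x20095) x20203) x20263) x20255) x39939) x575)
    (Nat.add (Nat.add (Nat.add (Nat.add (Nat.add (Nat.add (Nat.add (Nat.add C x7139) x20747) x20099) x20207) x20279) x20255) x20263) x39943)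
    (Nat.add (Nat.add (Nat.add (Nat.add (Nat.add (Nat.add (Nat.add (Nat.add (Nat.add (Nat.add (Nat.add (Nat.add C x20263) x7141) x20749) x20101) x20209) x20281) x20257) x20269) x20261) x20265) x39945) x581)
    (Nat.add (Nat.add (Nat.add (Nat.add (Nat.add (Nat.add (Nat.add (Nat.add C x7143) x20751) x20103) x20211) x20283) x20271) x20263) x583)
    (Nat.sub (Nat.add (Nat.add (Nat.add (Nat.add (Nat.add (Nat.add (Nat.add (Nat.add (Nat.add C x7147) x20755) x20107) x20215) x20287) x20263) x20271) x39951) x587) x20269)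
    (Nat.add (Nat.add (Nat.add (Nat.add (Nat.add (Nat.add (Nat.add (Nat.add C x7149) x20757) x20109) x20217) x20289) x20265) x20269) x589)
    (Nat.add (Nat.add (Nat.add (Nat.add (Nat.add (Nat.add (Nat.add (Nat.add (Nat.add C x20279) x7157) x20765) x20117) x20225) x20333) x20261) x20281) x39961)
    (Nat.add (Nat.add (Nat.add (Nat.add (Nat.add (Nat.add (Nat.add (Nat.add (Nat.add (Nat.add (Nat.add (Nat.add C x20281) x7159) x20767) x20119) x20227) x20335) x20263) x20287) x20279) x20283) x39963) x599)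
    (Nat.sub (Nat.add (Nat.add (Nat.add (Nat.add (Nat.add (Nat.add (Nat.add (Nat.add (Nat.add C x7161) x20769) x20121) x20229) x20337) x20265) x20289) x20281) x601) x20283)
    (Nat.add (Nat.add (Nat.add (Nat.add (Nat.add (Nat.add (Nat.add (Nat.add (Nat.add (Nat.add (Nat.add (Nat.add C x20287) x7165) x20773) x20125) x20233) x20341) x20269) x20305) x20281) x20289) x39969) x605)
    (Nat.add (Nat.add (Nat.add (Nat.add (Nat.add (Nat.add (Nat.add (Nat.add (Nat.add (Nat.add (Nat.add (Nat.add C x20289) x7167) x20775) x20127) x20235) x20343) x20271) x20307) x20283) x20295) x20287) x607)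
    (Nat.add (Nat.add (Nat.add (Nat.add (Nat.add (Nat.add (Nat.add (Nat.add (Nat.add C x20295) x7173) x20781) x20133) x20241) x20349) x20313) x20289) x613)
    (Nat.add (Nat.add (Nat.add (Nat.add (Nat.add (Nat.add (Nat.add (Nat.add (Nat.add C x20305) x7183) x20791) x20143) x20359) x20287) x20307) x39987) x623)
    (Nat.add (Nat.add (Nat.add (Nat.add (Nat.add (Nat.add (Nat.add (Nat.add C x7185) x20793) x20145) x20361) x20289) x20313) x20305) x625)
    (Nat.add (Nat.add (Nat.add (Nat.add (Nat.add (Nat.add (Nat.add (Nat.add C (Nat.mul x20313 (nat_lit 2))) x7191) x20799) x20151) x20367) x20295) x20307) x631)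
    (Nat.add (Nat.add (Nat.add (Nat.add (Nat.add (Nat.add C (Nat.mul x20333 (nat_lit 2))) x7211) x20819) x20279) x20335) x40015)
    (Nat.add (Nat.add (Nat.add (Nat.add (Nat.add (Nat.add (Nat.add (Nat.add (Nat.add C (Nat.mul x20335 (nat_lit 2))) x7213) x20821) x20281) x20341) x20333) x20337) x40017) x653)
    (Nat.add (Nat.add (Nat.add (Nat.add (Nat.add (Nat.add C x7215) x20823) x20283) x20343) x20335) x655)
    (Nat.add (Nat.add (Nat.add (Nat.add (Nat.add (Nat.add (Nat.add (Nat.add (Nat.add C x20341) x7219) x20827) x20287) x20359) x20335) x20343) x40023) x659)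
    (Nat.add (Nat.add (Nat.add (Nat.add (Nat.add (Nat.add (Nat.add (Nat.add (Nat.add C x20343) x7221) x20829) x20289) x20361) x20337) x20349) x20341) x661)
    (Nat.add (Nat.add (Nat.add (Nat.add (Nat.add (Nat.add C x7227) x20835) x20295) x20367) x20343) x667)
    (Nat.add (Nat.add (Nat.add (Nat.add (Nat.add (Nat.add (Nat.add (Nat.add C (Nat.mul x20359 (nat_lit 3))) x7237) x20845) x20305) x20341) x20361) x40041) x677)
    (Nat.add (Nat.add (Nat.add (Nat.add (Nat.add (Nat.add (Nat.add (Nat.add C (Nat.mul x20361 (nat_lit 2))) x7239) x20847) x20307) x20343) x20367) x20359) x679)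
    (Nat.add (Nat.add (Nat.add (Nat.add (Nat.add (Nat.add (Nat.add (Nat.add C (Nat.mul x20367 (nat_lit 3))) x7245) x20853) x20313) x20349) x20385) x20361) x685)
    (Nat.add (Nat.add (Nat.add (Nat.add (Nat.add C (Nat.mul x20385 (nat_lit 4))) x7263) x20871) x20367) x703)
    (Nat.add (Nat.add (Nat.add (Nat.add (Nat.add (Nat.add (Nat.add C (Nat.mul x20429 (nat_lit 4))) x7307) x21887) x19943) x20447) x20435) x40111)
    (Nat.add (Nat.add (Nat.add (Nat.add (Nat.add (Nat.add (Nat.add (Nat.add C (Nat.mul x20435 (nat_lit 2))) x7313) x21893) x19949) x20453) x20429) x20437) x40117)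
    (Nat.add (Nat.add (Nat.add (Nat.add (Nat.add (Nat.add (Nat.add (Nat.add C (Nat.mul x20437 (nat_lit 3))) x7315) x21895) x19951) x20455) x20435) x40119) x755)
    (Nat.add (Nat.add (Nat.add (Nat.add (Nat.add (Nat.add (Nat.add (Nat.add C (Nat.mul x20447 (nat_lit 2))) x7325) x21905) x19961) x20501) x20429) x20453) x40129)
    (Nat.add (Nat.add (Nat.add (Nat.add (Nat.add (Nat.add (Nat.add (Nat.add (Nat.add (Nat.add (Nat.add C (Nat.mul x20453 (nat_lit 2))) x7331) x21911) x19967) x20507) x20435) x20471) x20447) x20459) x20455) x40135)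
    (Nat.add (Nat.add (Nat.add (Nat.add (Nat.add (Nat.add (Nat.add (Nat.add (Nat.add (Nat.add (Nat.add C (Nat.mul x20455 (nat_lit 2))) x7333) x21913) x19969) x20509) x20437) x20473) x20461) x20453) x40137) x773)
    (Nat.add (Nat.add (Nat.add (Nat.add (Nat.add (Nat.add (Nat.add (Nat.add C x7337) x21917) x19973) x20513) x20477) x20453) x20461) x40141)
    (Nat.add (Nat.add (Nat.add (Nat.add (Nat.add (Nat.add (Nat.add (Nat.add (Nat.add (Nat.add (Nat.add C (Nat.mul x20461 (nat_lit 2))) x7339) x21919) x19975) x20515) x20479) x20455) x20459) x20463) x40143) x779)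
    (Nat.add (Nat.add (Nat.add (Nat.add (Nat.add (Nat.add (Nat.add (Nat.add C (Nat.mul x20463 (nat_lit 2))) x7341) x21921) x19977) x20517) x20481) x20461) x781)
    (Nat.add (Nat.add (Nat.add (Nat.add (Nat.add (Nat.add (Nat.add (Nat.add C x7349) x21929) x19985) x20525) x20453) x20477) x20473) x40153)
    (Nat.sub (Nat.add (Nat.add (Nat.add (Nat.add (Nat.add (Nat.add (Nat.add (Nat.add (Nat.add C x7351) x21931) x19987) x20527) x20455) x20479) x20471) x40155) x791) x20473)
    (Nat.add (Nat.add (Nat.add (Nat.add (Nat.add (Nat.add (Nat.add (Nat.add C x7355) x21935) x19991) x20531) x20459) x20471) x20479) x40159)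
    (Nat.add (Nat.add (Nat.add (Nat.add (Nat.add (Nat.add (Nat.add (Nat.add (Nat.add (Nat.add (Nat.add (Nat.add C x20479) x7357) x21937) x19993) x20533) x20461) x20473) x20485) x20477) x20481) x40161) x797)
    (Nat.add (Nat.add (Nat.add (Nat.add (Nat.add (Nat.add (Nat.add (Nat.add C x7359) x21939) x19995) x20535) x20463) x20487) x20479) x799)
    (Nat.add (Nat.add (Nat.add (Nat.add (Nat.add (Nat.add (Nat.add (Nat.add (Nat.add C x20485) x7363) x21943) x19999) x20539) x20479) x20487) x40167) x803)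
    (Nat.add (Nat.add (Nat.add (Nat.add (Nat.add (Nat.add (Nat.add (Nat.add C (Nat.mul x20487 (nat_lit 2))) x7365) x21945) x20001) x20541) x20481) x20485) x805)
    (Nat.add (Nat.add (Nat.add (Nat.add (Nat.add (Nat.add (Nat.add (Nat.add C (Nat.mul x20501 (nat_lit 2))) x7379) x21959) x20015) x20663) x20447) x20507) x40183)
    (Nat.add (Nat.add (Nat.add (Nat.add (Nat.add (Nat.add (Nat.add (Nat.add (Nat.add (Nat.add (Nat.add C x20507) x7385) x21965) x20021) x20669) x20453) x20525) x20501) x20513) x20509) x40189)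
    (Nat.add (Nat.add (Nat.add (Nat.add (Nat.add (Nat.add (Nat.add (Nat.add (Nat.add (Nat.add (Nat.add C x20509) x7387) x21967) x20023) x20671) x20455) x20527) x20515) x20507) x40191) x827)
    (Nat.sub (Nat.add (Nat.add (Nat.add (Nat.add (Nat.add (Nat.add (Nat.add (Nat.add (Nat.add C x7391) x21971) x20027) x20675) x20459) x20531) x20507) x20515) x40195) (Nat.mul x20513 (nat_lit 2)))
    (Nat.add (Nat.add (Nat.add (Nat.add (Nat.add (Nat.add (Nat.add (Nat.add (Nat.add (Nat.add (Nat.add C x7393) x21973) x20029) x20677) x20461) x20533) x20509) x20513) x20517) x40197) x833)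
    (Nat.add (Nat.add (Nat.add (Nat.add (Nat.add (Nat.add (Nat.add (Nat.add C x7395) x21975) x20031) x20679) x20463) x20535) x20515) x835)
    (Nat.add (Nat.add (Nat.add (Nat.add (Nat.add (Nat.add (Nat.add (Nat.add (Nat.add (Nat.add (Nat.add C x20525) x7403) x21983) x20039) x20687) x20471) x20579) x20507) x20531) x20527) x40207)
    (Nat.add (Nat.add (Nat.add (Nat.add (Nat.add (Nat.add (Nat.add (Nat.add (Nat.add (Nat.add (Nat.add C x7405) x21985) x20041) x20689) x20473) x20581) x20509) x20533) x20525) x40209) x845)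
    (Nat.add (Nat.add (Nat.add (Nat.add (Nat.add (Nat.add (Nat.add (Nat.add (Nat.add (Nat.add (Nat.add C x7409) x21989) x20045) x20693) x20477) x20585) x20513) x20549) x20525) x20533) x40213)
    (Nat.add (Nat.add (Nat.add (Nat.add (Nat.add (Nat.add (Nat.add (Nat.add (Nat.add (Nat.add (Nat.add (Nat.add (Nat.add (Nat.add (Nat.add C x20533) x7411) x21991) x20047) x20695) x20479) x20587) x20515) x20551) x20527) x20539) x20531) x20535) x40215) x851)
    (Nat.add (Nat.add (Nat.add (Nat.add (Nat.add (Nat.add (Nat.add (Nat.add (Nat.add (Nat.add (Nat.add C x7413) x21993) x20049) x20697) x20481) x20589) x20517) x20553) x20541) x20533) x853)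
    (Nat.add (Nat.add (Nat.add (Nat.add (Nat.add (Nat.add (Nat.add (Nat.add (Nat.add (Nat.add (Nat.add C x7417) x21997) x20053) x20701) x20485) x20593) x20557) x20533) x20541) x40221) x857)
    (Nat.add (Nat.add (Nat.add (Nat.add (Nat.add (Nat.add (Nat.add (Nat.add (Nat.add (Nat.add (Nat.add C x20541) x7419) x21999) x20055) x20703) x20487) x20595) x20559) x20535) x20539) x859)
    (Nat.add (Nat.add (Nat.add (Nat.add (Nat.add (Nat.add (Nat.add (Nat.add C x7427) x22007) x20063) x20711) x20603) x20531) x20551) x40231)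
    (Nat.add (Nat.add (Nat.add (Nat.add (Nat.add (Nat.add (Nat.add (Nat.add (Nat.add (Nat.add (Nat.add C x7429) x22009) x20065) x20713) x20605) x20533) x20557) x20549) x20553) x40233) x869)
    (Nat.sub (Nat.add (Nat.add (Nat.add (Nat.add (Nat.add (Nat.add (Nat.add (Nat.add (Nat.add C x7431) x22011) x20067) x20715) x20607) x20535) x20559) x20551) x871) (Nat.mul x20553 (nat_lit 2)))
    (Nat.add (Nat.add (Nat.add (Nat.add (Nat.add (Nat.add (Nat.add (Nat.add (Nat.add (Nat.add (Nat.add C x20557) x7435) x22015) x20071) x20719) x20611) x20539) x20551) x20559) x40239) x875)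
    (Nat.add (Nat.add (Nat.add (Nat.add (Nat.add (Nat.add (Nat.add (Nat.add (Nat.add (Nat.add (Nat.add C x20559) x7437) x22017) x20073) x20721) x20613) x20541) x20553) x20565) x20557) x877)
    (Nat.add (Nat.add (Nat.add (Nat.add (Nat.add (Nat.add (Nat.add (Nat.add C (Nat.mul x20565 (nat_lit 2))) x7443) x22023) x20079) x20727) x20619) x20559) x883)
    (Nat.add (Nat.add (Nat.add (Nat.add (Nat.add (Nat.add (Nat.add (Nat.add C x7457) x22037) x20093) x20741) x20525) x20585) x20581) x40261)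
    (Nat.sub (Nat.add (Nat.add (Nat.add (Nat.add (Nat.add (Nat.add (Nat.add (Nat.add (Nat.add C x7459) x22039) x20095) x20743) x20527) x20587) x20579) x40263) x899) x20581)
    (Nat.sub (Nat.add (Nat.add (Nat.add (Nat.add (Nat.add (Nat.add (Nat.add (Nat.add (Nat.add C x7463) x22043) x20099) x20747) x20531) x20603) x20579) x20587) x40267) (Nat.mul x20585 (nat_lit 2)))
    (Nat.sub (Nat.add (Nat.add (Nat.add (Nat.add (Nat.add (Nat.add (Nat.add (Nat.add (Nat.add (Nat.add (Nat.add (Nat.add C x7465) x22045) x20101) x20749) x20533) x20605) x20581) x20593) x20585) x20589) x40269) x905) x20587)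
    (Nat.sub (Nat.add (Nat.add (Nat.add (Nat.add (Nat.add (Nat.add (Nat.add (Nat.add (Nat.add C x7467) x22047) x20103) x20751) x20535) x20607) x20595) x20587) x907) (Nat.mul x20589 (nat_lit 2)))
    (Nat.sub (Nat.add (Nat.add (Nat.add (Nat.add (Nat.add (Nat.add (Nat.add (Nat.add (Nat.add (Nat.add C x7471) x22051) x20107) x20755) x20539) x20611) x20587) x20595) x40275) x911) (Nat.mul x20593 (nat_lit 3)))
    (Nat.sub (Nat.add (Nat.add (Nat.add (Nat.add (Nat.add (Nat.add (Nat.add (Nat.add (Nat.add C x7473) x22053) x20109) x20757) x20541) x20613) x20589) x20593) x913) (Nat.mul x20595 (nat_lit 2)))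
    (Nat.add (Nat.add (Nat.add (Nat.add (Nat.add (Nat.add (Nat.add (Nat.add C x7481) x22061) x20117) x20765) x20549) x20585) x20605) x40285)
    (Nat.add (Nat.add (Nat.add (Nat.add (Nat.add (Nat.add (Nat.add (Nat.add (Nat.add (Nat.add (Nat.add C x7483) x22063) x20119) x20767) x20551) x20587) x20611) x20603) x20607) x40287) x923)
    (Nat.sub (Nat.add (Nat.add (Nat.add (Nat.add (Nat.add (Nat.add (Nat.add (Nat.add (Nat.add C x7485) x22065) x20121) x20769) x20553) x20589) x20613) x20605) x925) (Nat.mul x20607 (nat_lit 2)))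
    (Nat.add (Nat.add (Nat.add (Nat.add (Nat.add (Nat.add (Nat.add (Nat.add (Nat.add (Nat.add (Nat.add C x7489) x22069) x20125) x20773) x20557) x20593) x20629) x20605) x20613) x40293) x929)
    (Nat.add (Nat.add (Nat.add (Nat.add (Nat.add (Nat.add (Nat.add (Nat.add (Nat.add (Nat.add (Nat.add C x7491) x22071) x20127) x20775) x20559) x20595) x20631) x20607) x20619) x20611) x931)
    (Nat.add (Nat.add (Nat.add (Nat.add (Nat.add (Nat.add (Nat.add (Nat.add C x7497) x22077) x20133) x20781) x20565) x20637) x20613) x937)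
    (Nat.add (Nat.add (Nat.add (Nat.add (Nat.add (Nat.add (Nat.add (Nat.add (Nat.add C x20629) x7507) x22087) x20143) x20791) x20611) x20631) x40311) x947)
    (Nat.add (Nat.add (Nat.add (Nat.add (Nat.add (Nat.add (Nat.add (Nat.add C x7509) x22089) x20145) x20793) x20613) x20637) x20629) x949)
    (Nat.add (Nat.add (Nat.add (Nat.add (Nat.add (Nat.add (Nat.add (Nat.add C (Nat.mul x20637 (nat_lit 2))) x7515) x22095) x20151) x20799) x20619) x20631) x955)
    (Nat.add (Nat.add (Nat.add (Nat.add (Nat.add (Nat.add (Nat.add (Nat.add C (Nat.mul x20663 (nat_lit 3))) x7541) x22121) x20177) x21149) x20501) x20669) x40345)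
    (Nat.add (Nat.add (Nat.add (Nat.add (Nat.add (Nat.add (Nat.add (Nat.add (Nat.add (Nat.add (Nat.add C (Nat.mul x20669 (nat_lit 2))) x7547) x22127) x20183) x21155) x20507) x20687) x20663) x20675) x20671) x40351)
    (Nat.add (Nat.add (Nat.add (Nat.add (Nat.add (Nat.add (Nat.add (Nat.add (Nat.add (Nat.add (Nat.add C (Nat.mul x20671 (nat_lit 2))) x7549) x22129) x20185) x21157) x20509) x20689) x20677) x20669) x40353) x989)
    (Nat.sub (Nat.add (Nat.add (Nat.add (Nat.add (Nat.add (Nat.add (Nat.add (Nat.add (Nat.add C x7553) x22133) x20189) x21161) x20513) x20693) x20669) x20677) x40357) x20675)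
    (Nat.add (Nat.add (Nat.add (Nat.add (Nat.add (Nat.add (Nat.add (Nat.add (Nat.add (Nat.add (Nat.add (Nat.add C x20677) x7555) x22135) x20191) x21163) x20515) x20695) x20671) x20675) x20679) x40359) x995)
    (Nat.add (Nat.add (Nat.add (Nat.add (Nat.add (Nat.add (Nat.add (Nat.add (Nat.add C x20679) x7557) x22137) x20193) x21165) x20517) x20697) x20677) x997)
    (Nat.add (Nat.add (Nat.add (Nat.add (Nat.add (Nat.add (Nat.add (Nat.add (Nat.add (Nat.add (Nat.add C x20687) x7565) x22145) x20201) x21173) x20525) x20741) x20669) x20693) x20689) x40369)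
    (Nat.add (Nat.add (Nat.add (Nat.add (Nat.add (Nat.add (Nat.add (Nat.add (Nat.add (Nat.add (Nat.add C x7567) x22147) x20203) x21175) x20527) x20743) x20671) x20695) x20687) x40371) x1007)
    (Nat.add (Nat.add (Nat.add (Nat.add (Nat.add (Nat.add (Nat.add (Nat.add (Nat.add (Nat.add (Nat.add C x7571) x22151) x20207) x21179) x20531) x20747) x20675) x20711) x20687) x20695) x40375)
    (Nat.add (Nat.add (Nat.add (Nat.add (Nat.add (Nat.add (Nat.add (Nat.add (Nat.add (Nat.add (Nat.add (Nat.add (Nat.add (Nat.add (Nat.add C x20695) x7573) x22153) x20209) x21181) x20533) x20749) x20677) x20713) x20689) x20701) x20693) x20697) x40377) x1013)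
    (Nat.add (Nat.add (Nat.add (Nat.add (Nat.add (Nat.add (Nat.add (Nat.add (Nat.add (Nat.add (Nat.add C x7575) x22155) x20211) x21183) x20535) x20751) x20679) x20715) x20703) x20695) x1015)
    (Nat.add (Nat.add (Nat.add (Nat.add (Nat.add (Nat.add (Nat.add (Nat.add (Nat.add (Nat.add (Nat.add C x7579) x22159) x20215) x21187) x20539) x20755) x20719) x20695) x20703) x40383) x1019)
    (Nat.add (Nat.add (Nat.add (Nat.add (Nat.add (Nat.add (Nat.add (Nat.add (Nat.add (Nat.add (Nat.add C x20703) x7581) x22161) x20217) x21189) x20541) x20757) x20721) x20697) x20701) x1021)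
    (Nat.sub (Nat.add (Nat.add (Nat.add (Nat.add (Nat.add (Nat.add (Nat.add (Nat.add (Nat.add C x7589) x22169) x20225) x21197) x20549) x20765) x20693) x20713) x40393) x20711)
    (Nat.sub (Nat.add (Nat.add (Nat.add (Nat.add (Nat.add (Nat.add (Nat.add (Nat.add (Nat.add (Nat.add (Nat.add (Nat.add C x7591) x22171) x20227) x21199) x20551) x20767) x20695) x20719) x20711) x20715) x40395) x1031) x20713)
    (Nat.sub (Nat.add (Nat.add (Nat.add (Nat.add (Nat.add (Nat.add (Nat.add (Nat.add (Nat.add (Nat.add C x7593) x22173) x20229) x21201) x20553) x20769) x20697) x20721) x20713) x1033) (Nat.mul x20715 (nat_lit 3)))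
    (Nat.add (Nat.add (Nat.add (Nat.add (Nat.add (Nat.add (Nat.add (Nat.add (Nat.add (Nat.add (Nat.add C x7597) x22177) x20233) x21205) x20557) x20773) x20701) x20713) x20721) x40401) x1037)
    (Nat.add (Nat.add (Nat.add (Nat.add (Nat.add (Nat.add (Nat.add (Nat.add (Nat.add (Nat.add (Nat.add C x7599) x22179) x20235) x21207) x20559) x20775) x20703) x20715) x20727) x20719) x1039)
    (Nat.add (Nat.add (Nat.add (Nat.add (Nat.add (Nat.add (Nat.add (Nat.add (Nat.add C x20727) x7605) x22185) x20241) x21213) x20565) x20781) x20721) x1045)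
    (Nat.add (Nat.add (Nat.add (Nat.add (Nat.add (Nat.add (Nat.add (Nat.add (Nat.add (Nat.add (Nat.add C (Nat.mul x20741 (nat_lit 2))) x7619) x22199) x20255) x21227) x20579) x20903) x20687) x20747) x20743) x40423)
    (Nat.add (Nat.add (Nat.add (Nat.add (Nat.add (Nat.add (Nat.add (Nat.add (Nat.add (Nat.add (Nat.add (Nat.add C x20743) x7621) x22201) x20257) x21229) x20581) x20905) x20689) x20749) x20741) x40425) x1061)
    (Nat.add (Nat.add (Nat.add (Nat.add (Nat.add (Nat.add (Nat.add (Nat.add (Nat.add (Nat.add (Nat.add C x7625) x22205) x20261) x21233) x20585) x20909) x20693) x20765) x20741) x20749) x40429)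
    (Nat.add (Nat.add (Nat.add (Nat.add (Nat.add (Nat.add (Nat.add (Nat.add (Nat.add (Nat.add (Nat.add (Nat.add (Nat.add (Nat.add (Nat.add C x20749) x7627) x22207) x20263) x21235) x20587) x20911) x20695) x20767) x20743) x20755) x20747) x20751) x40431) x1067)
    (Nat.add (Nat.add (Nat.add (Nat.add (Nat.add (Nat.add (Nat.add (Nat.add (Nat.add (Nat.add (Nat.add C x7629) x22209) x20265) x21237) x20589) x20913) x20697) x20769) x20757) x20749) x1069)
    (Nat.sub (Nat.add (Nat.add (Nat.add (Nat.add (Nat.add (Nat.add (Nat.add (Nat.add (Nat.add (Nat.add (Nat.add (Nat.add C x7633) x22213) x20269) x21241) x20593) x20917) x20701) x20773) x20749) x20757) x40437) x1073) x20755)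
    (Nat.add (Nat.add (Nat.add (Nat.add (Nat.add (Nat.add (Nat.add (Nat.add (Nat.add (Nat.add (Nat.add C x7635) x22215) x20271) x21243) x20595) x20919) x20703) x20775) x20751) x20755) x1075)
    (Nat.add (Nat.add (Nat.add (Nat.add (Nat.add (Nat.add (Nat.add (Nat.add (Nat.add (Nat.add (Nat.add (Nat.add C x20765) x7643) x22223) x20279) x21251) x20603) x20927) x20711) x20819) x20747) x20767) x40447)
    (Nat.add (Nat.add (Nat.add (Nat.add (Nat.add (Nat.add (Nat.add (Nat.add (Nat.add (Nat.add (Nat.add (Nat.add (Nat.add (Nat.add (Nat.add C x20767) x7645) x22225) x20281) x21253) x20605) x20929) x20713) x20821) x20749) x20773) x20765) x20769) x40449) x1085)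
    (Nat.sub (Nat.add (Nat.add (Nat.add (Nat.add (Nat.add (Nat.add (Nat.add (Nat.add (Nat.add (Nat.add (Nat.add (Nat.add C x7647) x22227) x20283) x21255) x20607) x20931) x20715) x20823) x20751) x20775) x20767) x1087) x20769)
    (Nat.add (Nat.add (Nat.add (Nat.add (Nat.add (Nat.add (Nat.add (Nat.add (Nat.add (Nat.add (Nat.add (Nat.add (Nat.add (Nat.add (Nat.add C x20773) x7651) x22231) x20287) x21259) x20611) x20935) x20719) x20827) x20755) x20791) x20767) x20775) x40455) x1091)
    (Nat.add (Nat.add (Nat.add (Nat.add (Nat.add (Nat.add (Nat.add (Nat.add (Nat.add (Nat.add (Nat.add (Nat.add (Nat.add (Nat.add (Nat.add C x20775) x7653) x22233) x20289) x21261) x20613) x20937) x20721) x20829) x20757) x20793) x20769) x20781) x20773) x1093)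
    (Nat.add (Nat.add (Nat.add (Nat.add (Nat.add (Nat.add (Nat.add (Nat.add (Nat.add (Nat.add (Nat.add (Nat.add C x20781) x7659) x22239) x20295) x21267) x20619) x20943) x20727) x20835) x20799) x20775) x1099)
    (Nat.add (Nat.add (Nat.add (Nat.add (Nat.add (Nat.add (Nat.add (Nat.add (Nat.add (Nat.add (Nat.add (Nat.add C x20791) x7669) x22249) x20305) x21277) x20629) x20953) x20845) x20773) x20793) x40473) x1109)
    (Nat.add (Nat.add (Nat.add (Nat.add (Nat.add (Nat.add (Nat.add (Nat.add (Nat.add (Nat.add (Nat.add C x7671) x22251) x20307) x21279) x20631) x20955) x20847) x20775) x20799) x20791) x1111)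
    (Nat.add (Nat.add (Nat.add (Nat.add (Nat.add (Nat.add (Nat.add (Nat.add (Nat.add (Nat.add (Nat.add C (Nat.mul x20799 (nat_lit 2))) x7677) x22257) x20313) x21285) x20637) x20961) x20853) x20781) x20793) x1117)
    (Nat.add (Nat.add (Nat.add (Nat.add (Nat.add (Nat.add (Nat.add (Nat.add (Nat.add C x20819) x7697) x22277) x20333) x21305) x20981) x20765) x20821) x40501)
    (Nat.add (Nat.add (Nat.add (Nat.add (Nat.add (Nat.add (Nat.add (Nat.add (Nat.add (Nat.add (Nat.add (Nat.add C x20821) x7699) x22279) x20335) x21307) x20983) x20767) x20827) x20819) x20823) x40503) x1139)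
    (Nat.sub (Nat.add (Nat.add (Nat.add (Nat.add (Nat.add (Nat.add (Nat.add (Nat.add (Nat.add C x7701) x22281) x20337) x21309) x20985) x20769) x20829) x20821) x1141) x20823)
    (Nat.add (Nat.add (Nat.add (Nat.add (Nat.add (Nat.add (Nat.add (Nat.add (Nat.add (Nat.add (Nat.add C x7705) x22285) x20341) x21313) x20989) x20773) x20845) x20821) x20829) x40509) x1145)
    (Nat.add (Nat.add (Nat.add (Nat.add (Nat.add (Nat.add (Nat.add (Nat.add (Nat.add (Nat.add (Nat.add C x7707) x22287) x20343) x21315) x20991) x20775) x20847) x20823) x20835) x20827) x1147)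
    (Nat.sub (Nat.add (Nat.add (Nat.add (Nat.add (Nat.add (Nat.add (Nat.add (Nat.add (Nat.add C x7713) x22293) x20349) x21321) x20997) x20781) x20853) x20829) x1153) x20835)
    (Nat.add (Nat.add (Nat.add (Nat.add (Nat.add (Nat.add (Nat.add (Nat.add (Nat.add (Nat.add (Nat.add C (Nat.mul x20845 (nat_lit 2))) x7723) x22303) x20359) x21331) x21007) x20791) x20827) x20847) x40527) x1163)
    (Nat.add (Nat.add (Nat.add (Nat.add (Nat.add (Nat.add (Nat.add (Nat.add (Nat.add (Nat.add (Nat.add C x20847) x7725) x22305) x20361) x21333) x21009) x20793) x20829) x20853) x20845) x1165)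
    (Nat.add (Nat.add (Nat.add (Nat.add (Nat.add (Nat.add (Nat.add (Nat.add (Nat.add (Nat.add (Nat.add C (Nat.mul x20853 (nat_lit 2))) x7731) x22311) x20367) x21339) x21015) x20799) x20835) x20871) x20847) x1171)
    (Nat.add (Nat.add (Nat.add (Nat.add (Nat.add (Nat.add (Nat.add (Nat.add C (Nat.mul x20871 (nat_lit 3))) x7749) x22329) x20385) x21357) x21033) x20853) x1189)
    (Nat.add (Nat.add (Nat.add (Nat.add (Nat.add (Nat.add (Nat.add (Nat.add C (Nat.mul x20903 (nat_lit 2))) x7781) x22361) x21389) x20741) x20909) x20905) x40585)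
    (Nat.add (Nat.add (Nat.add (Nat.add (Nat.add (Nat.add (Nat.add (Nat.add (Nat.add C x20905) x7783) x22363) x21391) x20743) x20911) x20903) x40587) x1223)
    (Nat.add (Nat.add (Nat.add (Nat.add (Nat.add (Nat.add (Nat.add (Nat.add C x7787) x22367) x21395) x20747) x20927) x20903) x20911) x40591)
    (Nat.add (Nat.add (Nat.add (Nat.add (Nat.add (Nat.add (Nat.add (Nat.add (Nat.add (Nat.add (Nat.add (Nat.add C x20911) x7789) x22369) x21397) x20749) x20929) x20905) x20917) x20909) x20913) x40593) x1229)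
    (Nat.add (Nat.add (Nat.add (Nat.add (Nat.add (Nat.add (Nat.add (Nat.add C x7791) x22371) x21399) x20751) x20931) x20919) x20911) x1231)
    (Nat.sub (Nat.add (Nat.add (Nat.add (Nat.add (Nat.add (Nat.add (Nat.add (Nat.add (Nat.add C x7795) x22375) x21403) x20755) x20935) x20911) x20919) x40599) x1235) x20917)
    (Nat.add (Nat.add (Nat.add (Nat.add (Nat.add (Nat.add (Nat.add (Nat.add C x7797) x22377) x21405) x20757) x20937) x20913) x20917) x1237)
    (Nat.add (Nat.add (Nat.add (Nat.add (Nat.add (Nat.add (Nat.add (Nat.add C x7805) x22385) x21413) x20765) x20981) x20909) x20929) x40609)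
    (Nat.add (Nat.add (Nat.add (Nat.add (Nat.add (Nat.add (Nat.add (Nat.add (Nat.add (Nat.add (Nat.add C x7807) x22387) x21415) x20767) x20983) x20911) x20935) x20927) x20931) x40611) x1247)
    (Nat.sub (Nat.add (Nat.add (Nat.add (Nat.add (Nat.add (Nat.add (Nat.add (Nat.add (Nat.add C x7809) x22389) x21417) x20769) x20985) x20913) x20937) x20929) x1249) (Nat.mul x20931 (nat_lit 2)))
    (Nat.add (Nat.add (Nat.add (Nat.add (Nat.add (Nat.add (Nat.add (Nat.add (Nat.add (Nat.add (Nat.add C x7813) x22393) x21421) x20773) x20989) x20917) x20953) x20929) x20937) x40617) x1253)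
    (Nat.add (Nat.add (Nat.add (Nat.add (Nat.add (Nat.add (Nat.add (Nat.add (Nat.add (Nat.add (Nat.add C x7815) x22395) x21423) x20775) x20991) x20919) x20955) x20931) x20943) x20935) x1255)
    (Nat.add (Nat.add (Nat.add (Nat.add (Nat.add (Nat.add (Nat.add (Nat.add C x7821) x22401) x21429) x20781) x20997) x20961) x20937) x1261)
    (Nat.sub (Nat.add (Nat.add (Nat.add (Nat.add (Nat.add (Nat.add (Nat.add (Nat.add (Nat.add C x7831) x22411) x21439) x20791) x21007) x20935) x20955) x40635) x1271) x20953)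
    (Nat.sub (Nat.add (Nat.add (Nat.add (Nat.add (Nat.add (Nat.add (Nat.add (Nat.add (Nat.add C x7833) x22413) x21441) x20793) x21009) x20937) x20961) x20953) x1273) (Nat.mul x20955 (nat_lit 2)))
    (Nat.add (Nat.add (Nat.add (Nat.add (Nat.add (Nat.add (Nat.add (Nat.add C x7839) x22419) x21447) x20799) x21015) x20943) x20955) x1279)
    (Nat.add (Nat.add (Nat.add (Nat.add (Nat.add (Nat.add (Nat.add (Nat.add C (Nat.mul x20981 (nat_lit 2))) x7859) x22439) x21467) x20819) x20927) x20983) x40663)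
    (Nat.add (Nat.add (Nat.add (Nat.add (Nat.add (Nat.add (Nat.add (Nat.add (Nat.add (Nat.add (Nat.add C (Nat.mul x20983 (nat_lit 2))) x7861) x22441) x21469) x20821) x20929) x20989) x20981) x20985) x40665) x1301)
    (Nat.add (Nat.add (Nat.add (Nat.add (Nat.add (Nat.add (Nat.add (Nat.add C x7863) x22443) x21471) x20823) x20931) x20991) x20983) x1303)
    (Nat.add (Nat.add (Nat.add (Nat.add (Nat.add (Nat.add (Nat.add (Nat.add (Nat.add (Nat.add (Nat.add C x20989) x7867) x22447) x21475) x20827) x20935) x21007) x20983) x20991) x40671) x1307)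
    (Nat.add (Nat.add (Nat.add (Nat.add (Nat.add (Nat.add (Nat.add (Nat.add (Nat.add (Nat.add (Nat.add C x20991) x7869) x22449) x21477) x20829) x20937) x21009) x20985) x20997) x20989) x1309)
    (Nat.add (Nat.add (Nat.add (Nat.add (Nat.add (Nat.add (Nat.add (Nat.add C x7875) x22455) x21483) x20835) x20943) x21015) x20991) x1315)
    (Nat.add (Nat.add (Nat.add (Nat.add (Nat.add (Nat.add (Nat.add (Nat.add (Nat.add (Nat.add (Nat.add C (Nat.mul x21007 (nat_lit 2))) x7885) x22465) x21493) x20845) x20953) x21061) x20989) x21009) x40689) x1325)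
    (Nat.add (Nat.add (Nat.add (Nat.add (Nat.add (Nat.add (Nat.add (Nat.add (Nat.add (Nat.add (Nat.add C x21009) x7887) x22467) x21495) x20847) x20955) x21063) x20991) x21015) x21007) x1327)
    (Nat.add (Nat.add (Nat.add (Nat.add (Nat.add (Nat.add (Nat.add (Nat.add (Nat.add (Nat.add (Nat.add C (Nat.mul x21015 (nat_lit 2))) x7893) x22473) x21501) x20853) x20961) x21069) x20997) x21033) x21009) x1333)
    (Nat.add (Nat.add (Nat.add (Nat.add (Nat.add (Nat.add (Nat.add (Nat.add C (Nat.mul x21033 (nat_lit 2))) x7911) x22491) x21519) x20871) x21087) x21015) x1351)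
    (Nat.add (Nat.add (Nat.add (Nat.add (Nat.add (Nat.add (Nat.add (Nat.add C (Nat.mul x21061 (nat_lit 3))) x7939) x22519) x21547) x21007) x21063) x40743) x1379)
    (Nat.add (Nat.add (Nat.add (Nat.add (Nat.add (Nat.add (Nat.add (Nat.add C (Nat.mul x21063 (nat_lit 2))) x7941) x22521) x21549) x21009) x21069) x21061) x1381)
    (Nat.add (Nat.add (Nat.add (Nat.add (Nat.add (Nat.add (Nat.add (Nat.add C (Nat.mul x21069 (nat_lit 2))) x7947) x22527) x21555) x21015) x21087) x21063) x1387)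
    (Nat.add (Nat.add (Nat.add (Nat.add (Nat.add (Nat.add (Nat.add C (Nat.mul x21087 (nat_lit 4))) x7965) x22545) x21573) x21033) x21069) x1405)
    (Nat.add (Nat.add (Nat.add (Nat.add (Nat.add (Nat.add C (Nat.mul x21149 (nat_lit 2))) x8027) x22607) x20663) x21155) x40831)
    (Nat.add (Nat.add (Nat.add (Nat.add (Nat.add (Nat.add (Nat.add (Nat.add (Nat.add C x21155) x8033) x22613) x20669) x21173) x21149) x21161) x21157) x40837)
    (Nat.add (Nat.add (Nat.add (Nat.add (Nat.add (Nat.add (Nat.add (Nat.add (Nat.add C x21157) x8035) x22615) x20671) x21175) x21163) x21155) x40839) x1475)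
    (Nat.sub (Nat.add (Nat.add (Nat.add (Nat.add (Nat.add (Nat.add (Nat.add C x8039) x22619) x20675) x21179) x21155) x21163) x40843) (Nat.mul x21161 (nat_lit 2)))
    (Nat.add (Nat.add (Nat.add (Nat.add (Nat.add (Nat.add (Nat.add (Nat.add (Nat.add C x8041) x22621) x20677) x21181) x21157) x21161) x21165) x40845) x1481)
    (Nat.add (Nat.add (Nat.add (Nat.add (Nat.add (Nat.add C x8043) x22623) x20679) x21183) x21163) x1483)
    (Nat.add (Nat.add (Nat.add (Nat.add (Nat.add (Nat.add (Nat.add (Nat.add C x8051) x22631) x20687) x21227) x21155) x21179) x21175) x40855)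
    (Nat.sub (Nat.add (Nat.add (Nat.add (Nat.add (Nat.add (Nat.add (Nat.add (Nat.add (Nat.add C x8053) x22633) x20689) x21229) x21157) x21181) x21173) x40857) x1493) x21175)
    (Nat.sub (Nat.add (Nat.add (Nat.add (Nat.add (Nat.add (Nat.add (Nat.add (Nat.add (Nat.add C x8057) x22637) x20693) x21233) x21161) x21197) x21173) x21181) x40861) x21179)
    (Nat.add (Nat.add (Nat.add (Nat.add (Nat.add (Nat.add (Nat.add (Nat.add (Nat.add (Nat.add (Nat.add (Nat.add C x8059) x22639) x20695) x21235) x21163) x21199) x21175) x21187) x21179) x21183) x40863) x1499)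
    (Nat.sub (Nat.add (Nat.add (Nat.add (Nat.add (Nat.add (Nat.add (Nat.add (Nat.add (Nat.add C x8061) x22641) x20697) x21237) x21165) x21201) x21189) x21181) x1501) x21183)
    (Nat.sub (Nat.add (Nat.add (Nat.add (Nat.add (Nat.add (Nat.add (Nat.add (Nat.add (Nat.add C x8065) x22645) x20701) x21241) x21205) x21181) x21189) x40869) x1505) x21187)
    (Nat.add (Nat.add (Nat.add (Nat.add (Nat.add (Nat.add (Nat.add (Nat.add C x8067) x22647) x20703) x21243) x21207) x21183) x21187) x1507)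
    (Nat.sub (Nat.add (Nat.add (Nat.add (Nat.add (Nat.add (Nat.add (Nat.add C x8075) x22655) x20711) x21251) x21179) x21199) x40879) (Nat.mul x21197 (nat_lit 2)))
    (Nat.sub (Nat.add (Nat.add (Nat.add (Nat.add (Nat.add (Nat.add (Nat.add (Nat.add (Nat.add (Nat.add C x8077) x22657) x20713) x21253) x21181) x21205) x21197) x21201) x40881) x1517) (Nat.mul x21199 (nat_lit 2)))
    (Nat.sub (Nat.add (Nat.add (Nat.add (Nat.add (Nat.add (Nat.add (Nat.add (Nat.add C x8079) x22659) x20715) x21255) x21183) x21207) x21199) x1519) (Nat.mul x21201 (nat_lit 4)))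
    (Nat.sub (Nat.add (Nat.add (Nat.add (Nat.add (Nat.add (Nat.add (Nat.add (Nat.add (Nat.add C x8083) x22663) x20719) x21259) x21187) x21199) x21207) x40887) x1523) x21205)
    (Nat.sub (Nat.add (Nat.add (Nat.add (Nat.add (Nat.add (Nat.add (Nat.add (Nat.add (Nat.add C x8085) x22665) x20721) x21261) x21189) x21201) x21213) x21205) x1525) x21207)
    (Nat.add (Nat.add (Nat.add (Nat.add (Nat.add (Nat.add C x8091) x22671) x20727) x21267) x21207) x1531)
    (Nat.add (Nat.add (Nat.add (Nat.add (Nat.add (Nat.add (Nat.add (Nat.add C x8105) x22685) x20741) x21389) x21173) x21233) x21229) x40909)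
    (Nat.sub (Nat.add (Nat.add (Nat.add (Nat.add (Nat.add (Nat.add (Nat.add (Nat.add (Nat.add C x8107) x22687) x20743) x21391) x21175) x21235) x21227) x40911) x1547) x21229)
    (Nat.sub (Nat.add (Nat.add (Nat.add (Nat.add (Nat.add (Nat.add (Nat.add (Nat.add (Nat.add C x8111) x22691) x20747) x21395) x21179) x21251) x21227) x21235) x40915) (Nat.mul x21233 (nat_lit 2)))
    (Nat.sub (Nat.add (Nat.add (Nat.add (Nat.add (Nat.add (Nat.add (Nat.add (Nat.add (Nat.add (Nat.add (Nat.add (Nat.add C x8113) x22693) x20749) x21397) x21181) x21253) x21229) x21241) x21233) x21237) x40917) x1553) x21235)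
    (Nat.sub (Nat.add (Nat.add (Nat.add (Nat.add (Nat.add (Nat.add (Nat.add (Nat.add (Nat.add C x8115) x22695) x20751) x21399) x21183) x21255) x21243) x21235) x1555) (Nat.mul x21237 (nat_lit 2)))
    (Nat.sub (Nat.add (Nat.add (Nat.add (Nat.add (Nat.add (Nat.add (Nat.add (Nat.add (Nat.add (Nat.add C x8119) x22699) x20755) x21403) x21187) x21259) x21235) x21243) x40923) x1559) (Nat.mul x21241 (nat_lit 3)))
    (Nat.sub (Nat.add (Nat.add (Nat.add (Nat.add (Nat.add (Nat.add (Nat.add (Nat.add (Nat.add C x8121) x22701) x20757) x21405) x21189) x21261) x21237) x21241) x1561) (Nat.mul x21243 (nat_lit 2)))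
    (Nat.sub (Nat.add (Nat.add (Nat.add (Nat.add (Nat.add (Nat.add (Nat.add (Nat.add (Nat.add C x8129) x22709) x20765) x21413) x21197) x21305) x21233) x21253) x40933) x21251)
    (Nat.sub (Nat.add (Nat.add (Nat.add (Nat.add (Nat.add (Nat.add (Nat.add (Nat.add (Nat.add (Nat.add (Nat.add (Nat.add C x8131) x22711) x20767) x21415) x21199) x21307) x21235) x21259) x21251) x21255) x40935) x1571) x21253)
    (Nat.sub (Nat.add (Nat.add (Nat.add (Nat.add (Nat.add (Nat.add (Nat.add (Nat.add (Nat.add (Nat.add C x8133) x22713) x20769) x21417) x21201) x21309) x21237) x21261) x21253) x1573) (Nat.mul x21255 (nat_lit 3)))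
    (Nat.sub (Nat.add (Nat.add (Nat.add (Nat.add (Nat.add (Nat.add (Nat.add (Nat.add (Nat.add (Nat.add (Nat.add (Nat.add C x8137) x22717) x20773) x21421) x21205) x21313) x21241) x21277) x21253) x21261) x40941) x1577) x21259)
    (Nat.sub (Nat.add (Nat.add (Nat.add (Nat.add (Nat.add (Nat.add (Nat.add (Nat.add (Nat.add (Nat.add (Nat.add (Nat.add C x8139) x22719) x20775) x21423) x21207) x21315) x21243) x21279) x21255) x21267) x21259) x1579) x21261)
    (Nat.sub (Nat.add (Nat.add (Nat.add (Nat.add (Nat.add (Nat.add (Nat.add (Nat.add (Nat.add C x8145) x22725) x20781) x21429) x21213) x21321) x21285) x21261) x1585) x21267)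
    (Nat.sub (Nat.add (Nat.add (Nat.add (Nat.add (Nat.add (Nat.add (Nat.add (Nat.add (Nat.add C x8155) x22735) x20791) x21439) x21331) x21259) x21279) x40959) x1595) x21277)
    (Nat.sub (Nat.add (Nat.add (Nat.add (Nat.add (Nat.add (Nat.add (Nat.add (Nat.add (Nat.add C x8157) x22737) x20793) x21441) x21333) x21261) x21285) x21277) x1597) (Nat.mul x21279 (nat_lit 2)))
    (Nat.add (Nat.add (Nat.add (Nat.add (Nat.add (Nat.add (Nat.add (Nat.add C x8163) x22743) x20799) x21447) x21339) x21267) x21279) x1603)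
    (Nat.sub (Nat.add (Nat.add (Nat.add (Nat.add (Nat.add (Nat.add (Nat.add C x8183) x22763) x20819) x21467) x21251) x21307) x40987) (Nat.mul x21305 (nat_lit 2)))
    (Nat.sub (Nat.add (Nat.add (Nat.add (Nat.add (Nat.add (Nat.add (Nat.add (Nat.add (Nat.add (Nat.add C x8185) x22765) x20821) x21469) x21253) x21313) x21305) x21309) x40989) x1625) (Nat.mul x21307 (nat_lit 2)))
    (Nat.sub (Nat.add (Nat.add (Nat.add (Nat.add (Nat.add (Nat.add (Nat.add (Nat.add C x8187) x22767) x20823) x21471) x21255) x21315) x21307) x1627) (Nat.mul x21309 (nat_lit 4)))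
    (Nat.sub (Nat.add (Nat.add (Nat.add (Nat.add (Nat.add (Nat.add (Nat.add (Nat.add (Nat.add (Nat.add C x8191) x22771) x20827) x21475) x21259) x21331) x21307) x21315) x40995) x1631) (Nat.mul x21313 (nat_lit 3)))
    (Nat.sub (Nat.add (Nat.add (Nat.add (Nat.add (Nat.add (Nat.add (Nat.add (Nat.add (Nat.add (Nat.add C x8193) x22773) x20829) x21477) x21261) x21333) x21309) x21321) x21313) x1633) (Nat.mul x21315 (nat_lit 3)))
    (Nat.sub (Nat.add (Nat.add (Nat.add (Nat.add (Nat.add (Nat.add (Nat.add (Nat.add C x8199) x22779) x20835) x21483) x21267) x21339) x21315) x1639) (Nat.mul x21321 (nat_lit 4)))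
    (Nat.sub (Nat.add (Nat.add (Nat.add (Nat.add (Nat.add (Nat.add (Nat.add (Nat.add (Nat.add C x8209) x22789) x20845) x21493) x21277) x21313) x21333) x41013) x1649) x21331)
    (Nat.sub (Nat.add (Nat.add (Nat.add (Nat.add (Nat.add (Nat.add (Nat.add (Nat.add (Nat.add C x8211) x22791) x20847) x21495) x21279) x21315) x21339) x21331) x1651) (Nat.mul x21333 (nat_lit 2)))
    (Nat.sub (Nat.add (Nat.add (Nat.add (Nat.add (Nat.add (Nat.add (Nat.add (Nat.add (Nat.add C x8217) x22797) x20853) x21501) x21285) x21321) x21357) x21333) x1657) x21339)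
    (Nat.add (Nat.add (Nat.add (Nat.add (Nat.add (Nat.add C x8235) x22815) x20871) x21519) x21339) x1675)
    (Nat.add (Nat.add (Nat.add (Nat.add (Nat.add (Nat.add (Nat.add (Nat.add C (Nat.mul x21389 (nat_lit 2))) x8267) x22847) x20903) x21227) x21395) x21391) x41071)
    (Nat.add (Nat.add (Nat.add (Nat.add (Nat.add (Nat.add (Nat.add (Nat.add (Nat.add C x21391) x8269) x22849) x20905) x21229) x21397) x21389) x41073) x1709)
    (Nat.add (Nat.add (Nat.add (Nat.add (Nat.add (Nat.add (Nat.add (Nat.add C x8273) x22853) x20909) x21233) x21413) x21389) x21397) x41077)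
    (Nat.add (Nat.add (Nat.add (Nat.add (Nat.add (Nat.add (Nat.add (Nat.add (Nat.add (Nat.add (Nat.add (Nat.add C x21397) x8275) x22855) x20911) x21235) x21415) x21391) x21403) x21395) x21399) x41079) x1715)
    (Nat.add (Nat.add (Nat.add (Nat.add (Nat.add (Nat.add (Nat.add (Nat.add C x8277) x22857) x20913) x21237) x21417) x21405) x21397) x1717)
    (Nat.sub (Nat.add (Nat.add (Nat.add (Nat.add (Nat.add (Nat.add (Nat.add (Nat.add (Nat.add C x8281) x22861) x20917) x21241) x21421) x21397) x21405) x41085) x1721) x21403)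
    (Nat.add (Nat.add (Nat.add (Nat.add (Nat.add (Nat.add (Nat.add (Nat.add C x8283) x22863) x20919) x21243) x21423) x21399) x21403) x1723)
    (Nat.add (Nat.add (Nat.add (Nat.add (Nat.add (Nat.add (Nat.add (Nat.add C x8291) x22871) x20927) x21251) x21467) x21395) x21415) x41095)
    (Nat.add (Nat.add (Nat.add (Nat.add (Nat.add (Nat.add (Nat.add (Nat.add (Nat.add (Nat.add (Nat.add C x8293) x22873) x20929) x21253) x21469) x21397) x21421) x21413) x21417) x41097) x1733)
    (Nat.sub (Nat.add (Nat.add (Nat.add (Nat.add (Nat.add (Nat.add (Nat.add (Nat.add (Nat.add C x8295) x22875) x20931) x21255) x21471) x21399) x21423) x21415) x1735) (Nat.mul x21417 (nat_lit 2)))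
    (Nat.add (Nat.add (Nat.add (Nat.add (Nat.add (Nat.add (Nat.add (Nat.add (Nat.add (Nat.add (Nat.add C x8299) x22879) x20935) x21259) x21475) x21403) x21439) x21415) x21423) x41103) x1739)
    (Nat.add (Nat.add (Nat.add (Nat.add (Nat.add (Nat.add (Nat.add (Nat.add (Nat.add (Nat.add (Nat.add C x8301) x22881) x20937) x21261) x21477) x21405) x21441) x21417) x21429) x21421) x1741)
    (Nat.add (Nat.add (Nat.add (Nat.add (Nat.add (Nat.add (Nat.add (Nat.add C x8307) x22887) x20943) x21267) x21483) x21447) x21423) x1747)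
    (Nat.sub (Nat.add (Nat.add (Nat.add (Nat.add (Nat.add (Nat.add (Nat.add (Nat.add (Nat.add C x8317) x22897) x20953) x21277) x21493) x21421) x21441) x41121) x1757) x21439)
    (Nat.sub (Nat.add (Nat.add (Nat.add (Nat.add (Nat.add (Nat.add (Nat.add (Nat.add (Nat.add C x8319) x22899) x20955) x21279) x21495) x21423) x21447) x21439) x1759) (Nat.mul x21441 (nat_lit 2)))
    (Nat.add (Nat.add (Nat.add (Nat.add (Nat.add (Nat.add (Nat.add (Nat.add C x8325) x22905) x20961) x21285) x21501) x21429) x21441) x1765)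
    (Nat.add (Nat.add (Nat.add (Nat.add (Nat.add (Nat.add (Nat.add (Nat.add (Nat.add C x21467) x8345) x22925) x20981) x21305) x21629) x21413) x21469) x41149)
    (Nat.add (Nat.add (Nat.add (Nat.add (Nat.add (Nat.add (Nat.add (Nat.add (Nat.add (Nat.add (Nat.add (Nat.add C x21469) x8347) x22927) x20983) x21307) x21631) x21415) x21475) x21467) x21471) x41151) x1787)
    (Nat.sub (Nat.add (Nat.add (Nat.add (Nat.add (Nat.add (Nat.add (Nat.add (Nat.add (Nat.add C x8349) x22929) x20985) x21309) x21633) x21417) x21477) x21469) x1789) x21471)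
    (Nat.add (Nat.add (Nat.add (Nat.add (Nat.add (Nat.add (Nat.add (Nat.add (Nat.add (Nat.add (Nat.add C x8353) x22933) x20989) x21313) x21637) x21421) x21493) x21469) x21477) x41157) x1793)
    (Nat.add (Nat.add (Nat.add (Nat.add (Nat.add (Nat.add (Nat.add (Nat.add (Nat.add (Nat.add (Nat.add C x8355) x22935) x20991) x21315) x21639) x21423) x21495) x21471) x21483) x21475) x1795)
    (Nat.sub (Nat.add (Nat.add (Nat.add (Nat.add (Nat.add (Nat.add (Nat.add (Nat.add (Nat.add C x8361) x22941) x20997) x21321) x21645) x21429) x21501) x21477) x1801) x21483)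
    (Nat.add (Nat.add (Nat.add (Nat.add (Nat.add (Nat.add (Nat.add (Nat.add (Nat.add (Nat.add (Nat.add (Nat.add C x21493) x8371) x22951) x21007) x21331) x21655) x21439) x21547) x21475) x21495) x41175) x1811)
    (Nat.add (Nat.add (Nat.add (Nat.add (Nat.add (Nat.add (Nat.add (Nat.add (Nat.add (Nat.add (Nat.add C x8373) x22953) x21009) x21333) x21657) x21441) x21549) x21477) x21501) x21493) x1813)
    (Nat.add (Nat.add (Nat.add (Nat.add (Nat.add (Nat.add (Nat.add (Nat.add (Nat.add (Nat.add (Nat.add (Nat.add C x21501) x8379) x22959) x21015) x21339) x21663) x21447) x21555) x21483) x21519) x21495) x1819)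
    (Nat.add (Nat.add (Nat.add (Nat.add (Nat.add (Nat.add (Nat.add (Nat.add (Nat.add C x21519) x8397) x22977) x21033) x21357) x21681) x21573) x21501) x1837)
    (Nat.add (Nat.add (Nat.add (Nat.add (Nat.add (Nat.add (Nat.add (Nat.add (Nat.add C x21547) x8425) x23005) x21061) x21709) x21493) x21549) x41229) x1865)
    (Nat.add (Nat.add (Nat.add (Nat.add (Nat.add (Nat.add (Nat.add (Nat.add C x8427) x23007) x21063) x21711) x21495) x21555) x21547) x1867)
    (Nat.add (Nat.add (Nat.add (Nat.add (Nat.add (Nat.add (Nat.add (Nat.add C x8433) x23013) x21069) x21717) x21501) x21573) x21549) x1873)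
    (Nat.add (Nat.add (Nat.add (Nat.add (Nat.add (Nat.add (Nat.add (Nat.add C (Nat.mul x21573 (nat_lit 2))) x8451) x23031) x21087) x21735) x21519) x21555) x1891)
    (Nat.add (Nat.add (Nat.add (Nat.add (Nat.add (Nat.add C (Nat.mul x21629 (nat_lit 2))) x8507) x23087) x21467) x21631) x41311)
    (Nat.add (Nat.add (Nat.add (Nat.add (Nat.add (Nat.add (Nat.add (Nat.add (Nat.add C (Nat.mul x21631 (nat_lit 2))) x8509) x23089) x21469) x21637) x21629) x21633) x41313) x1949)
    (Nat.add (Nat.add (Nat.add (Nat.add (Nat.add (Nat.add C x8511) x23091) x21471) x21639) x21631) x1951)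
    (Nat.add (Nat.add (Nat.add (Nat.add (Nat.add (Nat.add (Nat.add (Nat.add (Nat.add C x21637) x8515) x23095) x21475) x21655) x21631) x21639) x41319) x1955)
    (Nat.add (Nat.add (Nat.add (Nat.add (Nat.add (Nat.add (Nat.add (Nat.add (Nat.add C x21639) x8517) x23097) x21477) x21657) x21633) x21645) x21637) x1957)
    (Nat.add (Nat.add (Nat.add (Nat.add (Nat.add (Nat.add C x8523) x23103) x21483) x21663) x21639) x1963)
    (Nat.add (Nat.add (Nat.add (Nat.add (Nat.add (Nat.add (Nat.add (Nat.add (Nat.add C x21655) x8533) x23113) x21493) x21709) x21637) x21657) x41337) x1973)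
    (Nat.add (Nat.add (Nat.add (Nat.add (Nat.add (Nat.add (Nat.add (Nat.add C x8535) x23115) x21495) x21711) x21639) x21663) x21655) x1975)
    (Nat.add (Nat.add (Nat.add (Nat.add (Nat.add (Nat.add (Nat.add (Nat.add (Nat.add C x21663) x8541) x23121) x21501) x21717) x21645) x21681) x21657) x1981)
    (Nat.add (Nat.add (Nat.add (Nat.add (Nat.add (Nat.add C x8559) x23139) x21519) x21735) x21663) x1999)
    (Nat.add (Nat.add (Nat.add (Nat.add (Nat.add (Nat.add (Nat.add (Nat.add C (Nat.mul x21709 (nat_lit 3))) x8587) x23167) x21547) x21655) x21711) x41391) x2027)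
    (Nat.add (Nat.add (Nat.add (Nat.add (Nat.add (Nat.add (Nat.add (Nat.add C (Nat.mul x21711 (nat_lit 2))) x8589) x23169) x21549) x21657) x21717) x21709) x2029)
    (Nat.add (Nat.add (Nat.add (Nat.add (Nat.add (Nat.add (Nat.add (Nat.add C (Nat.mul x21717 (nat_lit 2))) x8595) x23175) x21555) x21663) x21735) x21711) x2035)
    (Nat.add (Nat.add (Nat.add (Nat.add (Nat.add (Nat.add (Nat.add (Nat.add C (Nat.mul x21735 (nat_lit 3))) x8613) x23193) x21573) x21681) x21789) x21717) x2053)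
    (Nat.add (Nat.add (Nat.add (Nat.add (Nat.add C (Nat.mul x21789 (nat_lit 4))) x8667) x23247) x21735) x2107)
    (Nat.add (Nat.add (Nat.add (Nat.add (Nat.add (Nat.add (Nat.add C (Nat.mul x21887 (nat_lit 4))) x8765) x26261) x20429) x21905) x21893) x41569)
    (Nat.add (Nat.add (Nat.add (Nat.add (Nat.add (Nat.add (Nat.add (Nat.add C (Nat.mul x21893 (nat_lit 2))) x8771) x26267) x20435) x21911) x21887) x21895) x41575)
    (Nat.add (Nat.add (Nat.add (Nat.add (Nat.add (Nat.add (Nat.add (Nat.add C (Nat.mul x21895 (nat_lit 3))) x8773) x26269) x20437) x21913) x21893) x41577) x2213)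
    (Nat.add (Nat.add (Nat.add (Nat.add (Nat.add (Nat.add (Nat.add (Nat.add C (Nat.mul x21905 (nat_lit 2))) x8783) x26279) x20447) x21959) x21887) x21911) x41587)
    (Nat.add (Nat.add (Nat.add (Nat.add (Nat.add (Nat.add (Nat.add (Nat.add (Nat.add (Nat.add (Nat.add C (Nat.mul x21911 (nat_lit 2))) x8789) x26285) x20453) x21965) x21893) x21929) x21905) x21917) x21913) x41593)
    (Nat.add (Nat.add (Nat.add (Nat.add (Nat.add (Nat.add (Nat.add (Nat.add (Nat.add (Nat.add (Nat.add C (Nat.mul x21913 (nat_lit 2))) x8791) x26287) x20455) x21967) x21895) x21931) x21919) x21911) x41595) x2231)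
    (Nat.add (Nat.add (Nat.add (Nat.add (Nat.add (Nat.add (Nat.add (Nat.add C x8795) x26291) x20459) x21971) x21935) x21911) x21919) x41599)
    (Nat.add (Nat.add (Nat.add (Nat.add (Nat.add (Nat.add (Nat.add (Nat.add (Nat.add (Nat.add (Nat.add C (Nat.mul x21919 (nat_lit 2))) x8797) x26293) x20461) x21973) x21937) x21913) x21917) x21921) x41601) x2237)
    (Nat.add (Nat.add (Nat.add (Nat.add (Nat.add (Nat.add (Nat.add (Nat.add C (Nat.mul x21921 (nat_lit 2))) x8799) x26295) x20463) x21975) x21939) x21919) x2239)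
    (Nat.add (Nat.add (Nat.add (Nat.add (Nat.add (Nat.add (Nat.add (Nat.add C x8807) x26303) x20471) x21983) x21911) x21935) x21931) x41611)
    (Nat.sub (Nat.add (Nat.add (Nat.add (Nat.add (Nat.add (Nat.add (Nat.add (Nat.add (Nat.add C x8809) x26305) x20473) x21985) x21913) x21937) x21929) x41613) x2249) x21931)
    (Nat.add (Nat.add (Nat.add (Nat.add (Nat.add (Nat.add (Nat.add (Nat.add C x8813) x26309) x20477) x21989) x21917) x21929) x21937) x41617)
    (Nat.add (Nat.add (Nat.add (Nat.add (Nat.add (Nat.add (Nat.add (Nat.add (Nat.add (Nat.add (Nat.add (Nat.add C x21937) x8815) x26311) x20479) x21991) x21919) x21931) x21943) x21935) x21939) x41619) x2255)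
    (Nat.add (Nat.add (Nat.add (Nat.add (Nat.add (Nat.add (Nat.add (Nat.add C x8817) x26313) x20481) x21993) x21921) x21945) x21937) x2257)
    (Nat.add (Nat.add (Nat.add (Nat.add (Nat.add (Nat.add (Nat.add (Nat.add (Nat.add C x21943) x8821) x26317) x20485) x21997) x21937) x21945) x41625) x2261)
    (Nat.add (Nat.add (Nat.add (Nat.add (Nat.add (Nat.add (Nat.add (Nat.add C (Nat.mul x21945 (nat_lit 2))) x8823) x26319) x20487) x21999) x21939) x21943) x2263)
    (Nat.add (Nat.add (Nat.add (Nat.add (Nat.add (Nat.add (Nat.add (Nat.add C (Nat.mul x21959 (nat_lit 2))) x8837) x26333) x20501) x22121) x21905) x21965) x41641)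
    (Nat.add (Nat.add (Nat.add (Nat.add (Nat.add (Nat.add (Nat.add (Nat.add (Nat.add (Nat.add (Nat.add C x21965) x8843) x26339) x20507) x22127) x21911) x21983) x21959) x21971) x21967) x41647)
    (Nat.add (Nat.add (Nat.add (Nat.add (Nat.add (Nat.add (Nat.add (Nat.add (Nat.add (Nat.add (Nat.add C x21967) x8845) x26341) x20509) x22129) x21913) x21985) x21973) x21965) x41649) x2285)
    (Nat.sub (Nat.add (Nat.add (Nat.add (Nat.add (Nat.add (Nat.add (Nat.add (Nat.add (Nat.add C x8849) x26345) x20513) x22133) x21917) x21989) x21965) x21973) x41653) (Nat.mul x21971 (nat_lit 2)))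
    (Nat.add (Nat.add (Nat.add (Nat.add (Nat.add (Nat.add (Nat.add (Nat.add (Nat.add (Nat.add (Nat.add C x8851) x26347) x20515) x22135) x21919) x21991) x21967) x21971) x21975) x41655) x2291)
    (Nat.add (Nat.add (Nat.add (Nat.add (Nat.add (Nat.add (Nat.add (Nat.add C x8853) x26349) x20517) x22137) x21921) x21993) x21973) x2293)
    (Nat.add (Nat.add (Nat.add (Nat.add (Nat.add (Nat.add (Nat.add (Nat.add (Nat.add (Nat.add (Nat.add C x21983) x8861) x26357) x20525) x22145) x21929) x22037) x21965) x21989) x21985) x41665)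
    (Nat.add (Nat.add (Nat.add (Nat.add (Nat.add (Nat.add (Nat.add (Nat.add (Nat.add (Nat.add (Nat.add C x8863) x26359) x20527) x22147) x21931) x22039) x21967) x21991) x21983) x41667) x2303)
    (Nat.add (Nat.add (Nat.add (Nat.add (Nat.add (Nat.add (Nat.add (Nat.add (Nat.add (Nat.add (Nat.add C x8867) x26363) x20531) x22151) x21935) x22043) x21971) x22007) x21983) x21991) x41671)
    (Nat.add (Nat.add (Nat.add (Nat.add (Nat.add (Nat.add (Nat.add (Nat.add (Nat.add (Nat.add (Nat.add (Nat.add (Nat.add (Nat.add (Nat.add C x21991) x8869) x26365) x20533) x22153) x21937) x22045) x21973) x22009) x21985) x21997) x21989) x21993) x41673) x2309)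
    (Nat.add (Nat.add (Nat.add (Nat.add (Nat.add (Nat.add (Nat.add (Nat.add (Nat.add (Nat.add (Nat.add C x8871) x26367) x20535) x22155) x21939) x22047) x21975) x22011) x21999) x21991) x2311)
    (Nat.add (Nat.add (Nat.add (Nat.add (Nat.add (Nat.add (Nat.add (Nat.add (Nat.add (Nat.add (Nat.add C x8875) x26371) x20539) x22159) x21943) x22051) x22015) x21991) x21999) x41679) x2315)
    (Nat.add (Nat.add (Nat.add (Nat.add (Nat.add (Nat.add (Nat.add (Nat.add (Nat.add (Nat.add (Nat.add C x21999) x8877) x26373) x20541) x22161) x21945) x22053) x22017) x21993) x21997) x2317)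
    (Nat.add (Nat.add (Nat.add (Nat.add (Nat.add (Nat.add (Nat.add (Nat.add C x8885) x26381) x20549) x22169) x22061) x21989) x22009) x41689)
    (Nat.add (Nat.add (Nat.add (Nat.add (Nat.add (Nat.add (Nat.add (Nat.add (Nat.add (Nat.add (Nat.add C x8887) x26383) x20551) x22171) x22063) x21991) x22015) x22007) x22011) x41691) x2327)
    (Nat.sub (Nat.add (Nat.add (Nat.add (Nat.add (Nat.add (Nat.add (Nat.add (Nat.add (Nat.add C x8889) x26385) x20553) x22173) x22065) x21993) x22017) x22009) x2329) (Nat.mul x22011 (nat_lit 2)))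
    (Nat.add (Nat.add (Nat.add (Nat.add (Nat.add (Nat.add (Nat.add (Nat.add (Nat.add (Nat.add (Nat.add C x22015) x8893) x26389) x20557) x22177) x22069) x21997) x22009) x22017) x41697) x2333)
    (Nat.add (Nat.add (Nat.add (Nat.add (Nat.add (Nat.add (Nat.add (Nat.add (Nat.add (Nat.add (Nat.add C x22017) x8895) x26391) x20559) x22179) x22071) x21999) x22011) x22023) x22015) x2335)
    (Nat.add (Nat.add (Nat.add (Nat.add (Nat.add (Nat.add (Nat.add (Nat.add C (Nat.mul x22023 (nat_lit 2))) x8901) x26397) x20565) x22185) x22077) x22017) x2341)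
    (Nat.add (Nat.add (Nat.add (Nat.add (Nat.add (Nat.add (Nat.add (Nat.add C x8915) x26411) x20579) x22199) x21983) x22043) x22039) x41719)
    (Nat.sub (Nat.add (Nat.add (Nat.add (Nat.add (Nat.add (Nat.add (Nat.add (Nat.add (Nat.add C x8917) x26413) x20581) x22201) x21985) x22045) x22037) x41721) x2357) x22039)
    (Nat.sub (Nat.add (Nat.add (Nat.add (Nat.add (Nat.add (Nat.add (Nat.add (Nat.add (Nat.add C x8921) x26417) x20585) x22205) x21989) x22061) x22037) x22045) x41725) (Nat.mul x22043 (nat_lit 2)))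
    (Nat.sub (Nat.add (Nat.add (Nat.add (Nat.add (Nat.add (Nat.add (Nat.add (Nat.add (Nat.add (Nat.add (Nat.add (Nat.add C x8923) x26419) x20587) x22207) x21991) x22063) x22039) x22051) x22043) x22047) x41727) x2363) x22045)
    (Nat.sub (Nat.add (Nat.add (Nat.add (Nat.add (Nat.add (Nat.add (Nat.add (Nat.add (Nat.add C x8925) x26421) x20589) x22209) x21993) x22065) x22053) x22045) x2365) (Nat.mul x22047 (nat_lit 2)))
    (Nat.sub (Nat.add (Nat.add (Nat.add (Nat.add (Nat.add (Nat.add (Nat.add (Nat.add (Nat.add (Nat.add C x8929) x26425) x20593) x22213) x21997) x22069) x22045) x22053) x41733) x2369) (Nat.mul x22051 (nat_lit 3)))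
    (Nat.sub (Nat.add (Nat.add (Nat.add (Nat.add (Nat.add (Nat.add (Nat.add (Nat.add (Nat.add C x8931) x26427) x20595) x22215) x21999) x22071) x22047) x22051) x2371) (Nat.mul x22053 (nat_lit 2)))
    (Nat.add (Nat.add (Nat.add (Nat.add (Nat.add (Nat.add (Nat.add (Nat.add C x8939) x26435) x20603) x22223) x22007) x22043) x22063) x41743)
    (Nat.add (Nat.add (Nat.add (Nat.add (Nat.add (Nat.add (Nat.add (Nat.add (Nat.add (Nat.add (Nat.add C x8941) x26437) x20605) x22225) x22009) x22045) x22069) x22061) x22065) x41745) x2381)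
    (Nat.sub (Nat.add (Nat.add (Nat.add (Nat.add (Nat.add (Nat.add (Nat.add (Nat.add (Nat.add C x8943) x26439) x20607) x22227) x22011) x22047) x22071) x22063) x2383) (Nat.mul x22065 (nat_lit 2)))
    (Nat.add (Nat.add (Nat.add (Nat.add (Nat.add (Nat.add (Nat.add (Nat.add (Nat.add (Nat.add (Nat.add C x8947) x26443) x20611) x22231) x22015) x22051) x22087) x22063) x22071) x41751) x2387)
    (Nat.add (Nat.add (Nat.add (Nat.add (Nat.add (Nat.add (Nat.add (Nat.add (Nat.add (Nat.add (Nat.add C x8949) x26445) x20613) x22233) x22017) x22053) x22089) x22065) x22077) x22069) x2389)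
    (Nat.add (Nat.add (Nat.add (Nat.add (Nat.add (Nat.add (Nat.add (Nat.add C x8955) x26451) x20619) x22239) x22023) x22095) x22071) x2395)
    (Nat.add (Nat.add (Nat.add (Nat.add (Nat.add (Nat.add (Nat.add (Nat.add (Nat.add C x22087) x8965) x26461) x20629) x22249) x22069) x22089) x41769) x2405)
    (Nat.add (Nat.add (Nat.add (Nat.add (Nat.add (Nat.add (Nat.add (Nat.add C x8967) x26463) x20631) x22251) x22071) x22095) x22087) x2407)
    (Nat.add (Nat.add (Nat.add (Nat.add (Nat.add (Nat.add (Nat.add (Nat.add C (Nat.mul x22095 (nat_lit 2))) x8973) x26469) x20637) x22257) x22077) x22089) x2413)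
    (Nat.add (Nat.add (Nat.add (Nat.add (Nat.add (Nat.add (Nat.add (Nat.add C (Nat.mul x22121 (nat_lit 2))) x8999) x26495) x20663) x22607) x21959) x22127) x41803)
    (Nat.add (Nat.add (Nat.add (Nat.add (Nat.add (Nat.add (Nat.add (Nat.add (Nat.add (Nat.add (Nat.add C x22127) x9005) x26501) x20669) x22613) x21965) x22145) x22121) x22133) x22129) x41809)
    (Nat.add (Nat.add (Nat.add (Nat.add (Nat.add (Nat.add (Nat.add (Nat.add (Nat.add (Nat.add (Nat.add C x22129) x9007) x26503) x20671) x22615) x21967) x22147) x22135) x22127) x41811) x2447)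
    (Nat.sub (Nat.add (Nat.add (Nat.add (Nat.add (Nat.add (Nat.add (Nat.add (Nat.add (Nat.add C x9011) x26507) x20675) x22619) x21971) x22151) x22127) x22135) x41815) (Nat.mul x22133 (nat_lit 2)))
    (Nat.add (Nat.add (Nat.add (Nat.add (Nat.add (Nat.add (Nat.add (Nat.add (Nat.add (Nat.add (Nat.add C x9013) x26509) x20677) x22621) x21973) x22153) x22129) x22133) x22137) x41817) x2453)
    (Nat.add (Nat.add (Nat.add (Nat.add (Nat.add (Nat.add (Nat.add (Nat.add C x9015) x26511) x20679) x22623) x21975) x22155) x22135) x2455)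
    (Nat.add (Nat.add (Nat.add (Nat.add (Nat.add (Nat.add (Nat.add (Nat.add (Nat.add (Nat.add C x9023) x26519) x20687) x22631) x21983) x22199) x22127) x22151) x22147) x41827)
    (Nat.sub (Nat.add (Nat.add (Nat.add (Nat.add (Nat.add (Nat.add (Nat.add (Nat.add (Nat.add (Nat.add (Nat.add C x9025) x26521) x20689) x22633) x21985) x22201) x22129) x22153) x22145) x41829) x2465) x22147)
    (Nat.sub (Nat.add (Nat.add (Nat.add (Nat.add (Nat.add (Nat.add (Nat.add (Nat.add (Nat.add (Nat.add (Nat.add C x9029) x26525) x20693) x22637) x21989) x22205) x22133) x22169) x22145) x22153) x41833) x22151)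
    (Nat.add (Nat.add (Nat.add (Nat.add (Nat.add (Nat.add (Nat.add (Nat.add (Nat.add (Nat.add (Nat.add (Nat.add (Nat.add (Nat.add C x9031) x26527) x20695) x22639) x21991) x22207) x22135) x22171) x22147) x22159) x22151) x22155) x41835) x2471)
    (Nat.sub (Nat.add (Nat.add (Nat.add (Nat.add (Nat.add (Nat.add (Nat.add (Nat.add (Nat.add (Nat.add (Nat.add C x9033) x26529) x20697) x22641) x21993) x22209) x22137) x22173) x22161) x22153) x2473) x22155)
    (Nat.sub (Nat.add (Nat.add (Nat.add (Nat.add (Nat.add (Nat.add (Nat.add (Nat.add (Nat.add (Nat.add (Nat.add C x9037) x26533) x20701) x22645) x21997) x22213) x22177) x22153) x22161) x41841) x2477) x22159)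
    (Nat.add (Nat.add (Nat.add (Nat.add (Nat.add (Nat.add (Nat.add (Nat.add (Nat.add (Nat.add C x9039) x26535) x20703) x22647) x21999) x22215) x22179) x22155) x22159) x2479)
    (Nat.sub (Nat.add (Nat.add (Nat.add (Nat.add (Nat.add (Nat.add (Nat.add (Nat.add (Nat.add C x9047) x26543) x20711) x22655) x22007) x22223) x22151) x22171) x41851) (Nat.mul x22169 (nat_lit 2)))
    (Nat.sub (Nat.add (Nat.add (Nat.add (Nat.add (Nat.add (Nat.add (Nat.add (Nat.add (Nat.add (Nat.add (Nat.add (Nat.add C x9049) x26545) x20713) x22657) x22009) x22225) x22153) x22177) x22169) x22173) x41853) x2489) (Nat.mul x22171 (nat_lit 2)))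
    (Nat.sub (Nat.add (Nat.add (Nat.add (Nat.add (Nat.add (Nat.add (Nat.add (Nat.add (Nat.add (Nat.add C x9051) x26547) x20715) x22659) x22011) x22227) x22155) x22179) x22171) x2491) (Nat.mul x22173 (nat_lit 4)))
    (Nat.sub (Nat.add (Nat.add (Nat.add (Nat.add (Nat.add (Nat.add (Nat.add (Nat.add (Nat.add (Nat.add (Nat.add C x9055) x26551) x20719) x22663) x22015) x22231) x22159) x22171) x22179) x41859) x2495) x22177)
    (Nat.sub (Nat.add (Nat.add (Nat.add (Nat.add (Nat.add (Nat.add (Nat.add (Nat.add (Nat.add (Nat.add (Nat.add C x9057) x26553) x20721) x22665) x22017) x22233) x22161) x22173) x22185) x22177) x2497) x22179)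
    (Nat.add (Nat.add (Nat.add (Nat.add (Nat.add (Nat.add (Nat.add (Nat.add C x9063) x26559) x20727) x22671) x22023) x22239) x22179) x2503)
    (Nat.add (Nat.add (Nat.add (Nat.add (Nat.add (Nat.add (Nat.add (Nat.add (Nat.add (Nat.add (Nat.add C x22199) x9077) x26573) x20741) x22685) x22037) x22361) x22145) x22205) x22201) x41881)
    (Nat.add (Nat.add (Nat.add (Nat.add (Nat.add (Nat.add (Nat.add (Nat.add (Nat.add (Nat.add (Nat.add C x9079) x26575) x20743) x22687) x22039) x22363) x22147) x22207) x22199) x41883) x2519)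
    (Nat.sub (Nat.add (Nat.add (Nat.add (Nat.add (Nat.add (Nat.add (Nat.add (Nat.add (Nat.add (Nat.add (Nat.add C x9083) x26579) x20747) x22691) x22043) x22367) x22151) x22223) x22199) x22207) x41887) x22205)
    (Nat.add (Nat.add (Nat.add (Nat.add (Nat.add (Nat.add (Nat.add (Nat.add (Nat.add (Nat.add (Nat.add (Nat.add (Nat.add (Nat.add C x9085) x26581) x20749) x22693) x22045) x22369) x22153) x22225) x22201) x22213) x22205) x22209) x41889) x2525)
    (Nat.sub (Nat.add (Nat.add (Nat.add (Nat.add (Nat.add (Nat.add (Nat.add (Nat.add (Nat.add (Nat.add (Nat.add C x9087) x26583) x20751) x22695) x22047) x22371) x22155) x22227) x22215) x22207) x2527) x22209)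
    (Nat.sub (Nat.add (Nat.add (Nat.add (Nat.add (Nat.add (Nat.add (Nat.add (Nat.add (Nat.add (Nat.add (Nat.add (Nat.add C x9091) x26587) x20755) x22699) x22051) x22375) x22159) x22231) x22207) x22215) x41895) x2531) (Nat.mul x22213 (nat_lit 2)))
    (Nat.sub (Nat.add (Nat.add (Nat.add (Nat.add (Nat.add (Nat.add (Nat.add (Nat.add (Nat.add (Nat.add (Nat.add C x9093) x26589) x20757) x22701) x22053) x22377) x22161) x22233) x22209) x22213) x2533) x22215)
    (Nat.add (Nat.add (Nat.add (Nat.add (Nat.add (Nat.add (Nat.add (Nat.add (Nat.add (Nat.add (Nat.add C x9101) x26597) x20765) x22709) x22061) x22385) x22169) x22277) x22205) x22225) x41905)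
    (Nat.add (Nat.add (Nat.add (Nat.add (Nat.add (Nat.add (Nat.add (Nat.add (Nat.add (Nat.add (Nat.add (Nat.add (Nat.add (Nat.add C x9103) x26599) x20767) x22711) x22063) x22387) x22171) x22279) x22207) x22231) x22223) x22227) x41907) x2543)
    (Nat.sub (Nat.add (Nat.add (Nat.add (Nat.add (Nat.add (Nat.add (Nat.add (Nat.add (Nat.add (Nat.add (Nat.add (Nat.add C x9105) x26601) x20769) x22713) x22065) x22389) x22173) x22281) x22209) x22233) x22225) x2545) (Nat.mul x22227 (nat_lit 2)))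
    (Nat.add (Nat.add (Nat.add (Nat.add (Nat.add (Nat.add (Nat.add (Nat.add (Nat.add (Nat.add (Nat.add (Nat.add (Nat.add (Nat.add C x9109) x26605) x20773) x22717) x22069) x22393) x22177) x22285) x22213) x22249) x22225) x22233) x41913) x2549)
    (Nat.add (Nat.add (Nat.add (Nat.add (Nat.add (Nat.add (Nat.add (Nat.add (Nat.add (Nat.add (Nat.add (Nat.add (Nat.add (Nat.add C x9111) x26607) x20775) x22719) x22071) x22395) x22179) x22287) x22215) x22251) x22227) x22239) x22231) x2551)
    (Nat.add (Nat.add (Nat.add (Nat.add (Nat.add (Nat.add (Nat.add (Nat.add (Nat.add (Nat.add (Nat.add C x9117) x26613) x20781) x22725) x22077) x22401) x22185) x22293) x22257) x22233) x2557)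
    (Nat.add (Nat.add (Nat.add (Nat.add (Nat.add (Nat.add (Nat.add (Nat.add (Nat.add (Nat.add (Nat.add C x9127) x26623) x20791) x22735) x22087) x22411) x22303) x22231) x22251) x41931) x2567)
    (Nat.sub (Nat.add (Nat.add (Nat.add (Nat.add (Nat.add (Nat.add (Nat.add (Nat.add (Nat.add (Nat.add (Nat.add C x9129) x26625) x20793) x22737) x22089) x22413) x22305) x22233) x22257) x22249) x2569) x22251)
    (Nat.add (Nat.add (Nat.add (Nat.add (Nat.add (Nat.add (Nat.add (Nat.add (Nat.add (Nat.add (Nat.add C x22257) x9135) x26631) x20799) x22743) x22095) x22419) x22311) x22239) x22251) x2575)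
    (Nat.add (Nat.add (Nat.add (Nat.add (Nat.add (Nat.add (Nat.add (Nat.add C x9155) x26651) x20819) x22763) x22439) x22223) x22279) x41959)
    (Nat.add (Nat.add (Nat.add (Nat.add (Nat.add (Nat.add (Nat.add (Nat.add (Nat.add (Nat.add (Nat.add C x9157) x26653) x20821) x22765) x22441) x22225) x22285) x22277) x22281) x41961) x2597)
    (Nat.sub (Nat.add (Nat.add (Nat.add (Nat.add (Nat.add (Nat.add (Nat.add (Nat.add (Nat.add C x9159) x26655) x20823) x22767) x22443) x22227) x22287) x22279) x2599) (Nat.mul x22281 (nat_lit 2)))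
    (Nat.sub (Nat.add (Nat.add (Nat.add (Nat.add (Nat.add (Nat.add (Nat.add (Nat.add (Nat.add (Nat.add (Nat.add C x9163) x26659) x20827) x22771) x22447) x22231) x22303) x22279) x22287) x41967) x2603) x22285)
    (Nat.sub (Nat.add (Nat.add (Nat.add (Nat.add (Nat.add (Nat.add (Nat.add (Nat.add (Nat.add (Nat.add (Nat.add C x9165) x26661) x20829) x22773) x22449) x22233) x22305) x22281) x22293) x22285) x2605) x22287)
    (Nat.sub (Nat.add (Nat.add (Nat.add (Nat.add (Nat.add (Nat.add (Nat.add (Nat.add (Nat.add C x9171) x26667) x20835) x22779) x22455) x22239) x22311) x22287) x2611) (Nat.mul x22293 (nat_lit 2)))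
    (Nat.add (Nat.add (Nat.add (Nat.add (Nat.add (Nat.add (Nat.add (Nat.add (Nat.add (Nat.add (Nat.add C x22303) x9181) x26677) x20845) x22789) x22465) x22249) x22285) x22305) x41985) x2621)
    (Nat.add (Nat.add (Nat.add (Nat.add (Nat.add (Nat.add (Nat.add (Nat.add (Nat.add (Nat.add C x9183) x26679) x20847) x22791) x22467) x22251) x22287) x22311) x22303) x2623)
    (Nat.add (Nat.add (Nat.add (Nat.add (Nat.add (Nat.add (Nat.add (Nat.add (Nat.add (Nat.add (Nat.add C x22311) x9189) x26685) x20853) x22797) x22473) x22257) x22293) x22329) x22305) x2629)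
    (Nat.add (Nat.add (Nat.add (Nat.add (Nat.add (Nat.add (Nat.add (Nat.add C (Nat.mul x22329 (nat_lit 2))) x9207) x26703) x20871) x22815) x22491) x22311) x2647)
    (Nat.add (Nat.add (Nat.add (Nat.add (Nat.add (Nat.add (Nat.add (Nat.add C x9239) x26735) x20903) x22847) x22199) x22367) x22363) x42043)
    (Nat.sub (Nat.add (Nat.add (Nat.add (Nat.add (Nat.add (Nat.add (Nat.add (Nat.add (Nat.add C x9241) x26737) x20905) x22849) x22201) x22369) x22361) x42045) x2681) x22363)
    (Nat.sub (Nat.add (Nat.add (Nat.add (Nat.add (Nat.add (Nat.add (Nat.add (Nat.add (Nat.add C x9245) x26741) x20909) x22853) x22205) x22385) x22361) x22369) x42049) (Nat.mul x22367 (nat_lit 2)))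
    (Nat.sub (Nat.add (Nat.add (Nat.add (Nat.add (Nat.add (Nat.add (Nat.add (Nat.add (Nat.add (Nat.add (Nat.add (Nat.add C x9247) x26743) x20911) x22855) x22207) x22387) x22363) x22375) x22367) x22371) x42051) x2687) x22369)
    (Nat.sub (Nat.add (Nat.add (Nat.add (Nat.add (Nat.add (Nat.add (Nat.add (Nat.add (Nat.add C x9249) x26745) x20913) x22857) x22209) x22389) x22377) x22369) x2689) (Nat.mul x22371 (nat_lit 2)))
    (Nat.sub (Nat.add (Nat.add (Nat.add (Nat.add (Nat.add (Nat.add (Nat.add (Nat.add (Nat.add (Nat.add C x9253) x26749) x20917) x22861) x22213) x22393) x22369) x22377) x42057) x2693) (Nat.mul x22375 (nat_lit 3)))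
    (Nat.sub (Nat.add (Nat.add (Nat.add (Nat.add (Nat.add (Nat.add (Nat.add (Nat.add (Nat.add C x9255) x26751) x20919) x22863) x22215) x22395) x22371) x22375) x2695) (Nat.mul x22377 (nat_lit 2)))
    (Nat.sub (Nat.add (Nat.add (Nat.add (Nat.add (Nat.add (Nat.add (Nat.add (Nat.add (Nat.add C x9263) x26759) x20927) x22871) x22223) x22439) x22367) x22387) x42067) (Nat.mul x22385 (nat_lit 2)))
    (Nat.sub (Nat.add (Nat.add (Nat.add (Nat.add (Nat.add (Nat.add (Nat.add (Nat.add (Nat.add (Nat.add (Nat.add (Nat.add C x9265) x26761) x20929) x22873) x22225) x22441) x22369) x22393) x22385) x22389) x42069) x2705) (Nat.mul x22387 (nat_lit 2)))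
    (Nat.sub (Nat.add (Nat.add (Nat.add (Nat.add (Nat.add (Nat.add (Nat.add (Nat.add (Nat.add (Nat.add C x9267) x26763) x20931) x22875) x22227) x22443) x22371) x22395) x22387) x2707) (Nat.mul x22389 (nat_lit 4)))
    (Nat.sub (Nat.add (Nat.add (Nat.add (Nat.add (Nat.add (Nat.add (Nat.add (Nat.add (Nat.add (Nat.add (Nat.add (Nat.add C x9271) x26767) x20935) x22879) x22231) x22447) x22375) x22411) x22387) x22395) x42075) x2711) (Nat.mul x22393 (nat_lit 2)))
    (Nat.sub (Nat.add (Nat.add (Nat.add (Nat.add (Nat.add (Nat.add (Nat.add (Nat.add (Nat.add (Nat.add (Nat.add (Nat.add C x9273) x26769) x20937) x22881) x22233) x22449) x22377) x22413) x22389) x22401) x22393) x2713) (Nat.mul x22395 (nat_lit 2)))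
    (Nat.sub (Nat.add (Nat.add (Nat.add (Nat.add (Nat.add (Nat.add (Nat.add (Nat.add (Nat.add C x9279) x26775) x20943) x22887) x22239) x22455) x22419) x22395) x2719) (Nat.mul x22401 (nat_lit 2)))
    (Nat.sub (Nat.add (Nat.add (Nat.add (Nat.add (Nat.add (Nat.add (Nat.add (Nat.add (Nat.add (Nat.add C x9289) x26785) x20953) x22897) x22249) x22465) x22393) x22413) x42093) x2729) (Nat.mul x22411 (nat_lit 3)))
    (Nat.sub (Nat.add (Nat.add (Nat.add (Nat.add (Nat.add (Nat.add (Nat.add (Nat.add (Nat.add (Nat.add C x9291) x26787) x20955) x22899) x22251) x22467) x22395) x22419) x22411) x2731) (Nat.mul x22413 (nat_lit 4)))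
    (Nat.sub (Nat.add (Nat.add (Nat.add (Nat.add (Nat.add (Nat.add (Nat.add (Nat.add (Nat.add C x9297) x26793) x20961) x22905) x22257) x22473) x22401) x22413) x2737) (Nat.mul x22419 (nat_lit 2)))
    (Nat.add (Nat.add (Nat.add (Nat.add (Nat.add (Nat.add (Nat.add (Nat.add C x9317) x26813) x20981) x22925) x22277) x22385) x22441) x42121)
    (Nat.add (Nat.add (Nat.add (Nat.add (Nat.add (Nat.add (Nat.add (Nat.add (Nat.add (Nat.add (Nat.add C x9319) x26815) x20983) x22927) x22279) x22387) x22447) x22439) x22443) x42123) x2759)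
    (Nat.sub (Nat.add (Nat.add (Nat.add (Nat.add (Nat.add (Nat.add (Nat.add (Nat.add (Nat.add C x9321) x26817) x20985) x22929) x22281) x22389) x22449) x22441) x2761) (Nat.mul x22443 (nat_lit 2)))
    (Nat.sub (Nat.add (Nat.add (Nat.add (Nat.add (Nat.add (Nat.add (Nat.add (Nat.add (Nat.add (Nat.add (Nat.add C x9325) x26821) x20989) x22933) x22285) x22393) x22465) x22441) x22449) x42129) x2765) x22447)
    (Nat.sub (Nat.add (Nat.add (Nat.add (Nat.add (Nat.add (Nat.add (Nat.add (Nat.add (Nat.add (Nat.add (Nat.add C x9327) x26823) x20991) x22935) x22287) x22395) x22467) x22443) x22455) x22447) x2767) x22449)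
    (Nat.sub (Nat.add (Nat.add (Nat.add (Nat.add (Nat.add (Nat.add (Nat.add (Nat.add (Nat.add C x9333) x26829) x20997) x22941) x22293) x22401) x22473) x22449) x2773) (Nat.mul x22455 (nat_lit 2)))
    (Nat.add (Nat.add (Nat.add (Nat.add (Nat.add (Nat.add (Nat.add (Nat.add (Nat.add (Nat.add (Nat.add C x9343) x26839) x21007) x22951) x22303) x22411) x22519) x22447) x22467) x42147) x2783)
    (Nat.sub (Nat.add (Nat.add (Nat.add (Nat.add (Nat.add (Nat.add (Nat.add (Nat.add (Nat.add (Nat.add (Nat.add C x9345) x26841) x21009) x22953) x22305) x22413) x22521) x22449) x22473) x22465) x2785) x22467)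
    (Nat.add (Nat.add (Nat.add (Nat.add (Nat.add (Nat.add (Nat.add (Nat.add (Nat.add (Nat.add (Nat.add C x9351) x26847) x21015) x22959) x22311) x22419) x22527) x22455) x22491) x22467) x2791)
    (Nat.add (Nat.add (Nat.add (Nat.add (Nat.add (Nat.add (Nat.add (Nat.add C x9369) x26865) x21033) x22977) x22329) x22545) x22473) x2809)
    (Nat.add (Nat.add (Nat.add (Nat.add (Nat.add (Nat.add (Nat.add (Nat.add (Nat.add C x22519) x9397) x26893) x21061) x23005) x22465) x22521) x42201) x2837)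
    (Nat.add (Nat.add (Nat.add (Nat.add (Nat.add (Nat.add (Nat.add (Nat.add C x9399) x26895) x21063) x23007) x22467) x22527) x22519) x2839)
    (Nat.add (Nat.add (Nat.add (Nat.add (Nat.add (Nat.add (Nat.add (Nat.add C x9405) x26901) x21069) x23013) x22473) x22545) x22521) x2845)
    (Nat.add (Nat.add (Nat.add (Nat.add (Nat.add (Nat.add (Nat.add (Nat.add C (Nat.mul x22545 (nat_lit 2))) x9423) x26919) x21087) x23031) x22491) x22527) x2863)
    (Nat.add (Nat.add (Nat.add (Nat.add (Nat.add (Nat.add (Nat.add (Nat.add C (Nat.mul x22607 (nat_lit 3))) x9485) x26981) x21149) x24065) x22121) x22613) x42289)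
    (Nat.add (Nat.add (Nat.add (Nat.add (Nat.add (Nat.add (Nat.add (Nat.add (Nat.add (Nat.add (Nat.add C (Nat.mul x22613 (nat_lit 2))) x9491) x26987) x21155) x24071) x22127) x22631) x22607) x22619) x22615) x42295)
    (Nat.add (Nat.add (Nat.add (Nat.add (Nat.add (Nat.add (Nat.add (Nat.add (Nat.add (Nat.add (Nat.add C (Nat.mul x22615 (nat_lit 2))) x9493) x26989) x21157) x24073) x22129) x22633) x22621) x22613) x42297) x2933)
    (Nat.sub (Nat.add (Nat.add (Nat.add (Nat.add (Nat.add (Nat.add (Nat.add (Nat.add (Nat.add C x9497) x26993) x21161) x24077) x22133) x22637) x22613) x22621) x42301) x22619)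
    (Nat.add (Nat.add (Nat.add (Nat.add (Nat.add (Nat.add (Nat.add (Nat.add (Nat.add (Nat.add (Nat.add (Nat.add C x22621) x9499) x26995) x21163) x24079) x22135) x22639) x22615) x22619) x22623) x42303) x2939)
    (Nat.add (Nat.add (Nat.add (Nat.add (Nat.add (Nat.add (Nat.add (Nat.add (Nat.add C x22623) x9501) x26997) x21165) x24081) x22137) x22641) x22621) x2941)
    (Nat.add (Nat.add (Nat.add (Nat.add (Nat.add (Nat.add (Nat.add (Nat.add (Nat.add (Nat.add (Nat.add C x22631) x9509) x27005) x21173) x24089) x22145) x22685) x22613) x22637) x22633) x42313)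
    (Nat.add (Nat.add (Nat.add (Nat.add (Nat.add (Nat.add (Nat.add (Nat.add (Nat.add (Nat.add (Nat.add C x9511) x27007) x21175) x24091) x22147) x22687) x22615) x22639) x22631) x42315) x2951)
    (Nat.add (Nat.add (Nat.add (Nat.add (Nat.add (Nat.add (Nat.add (Nat.add (Nat.add (Nat.add (Nat.add C x9515) x27011) x21179) x24095) x22151) x22691) x22619) x22655) x22631) x22639) x42319)
    (Nat.add (Nat.add (Nat.add (Nat.add (Nat.add (Nat.add (Nat.add (Nat.add (Nat.add (Nat.add (Nat.add (Nat.add (Nat.add (Nat.add (Nat.add C x22639) x9517) x27013) x21181) x24097) x22153) x22693) x22621) x22657) x22633) x22645) x22637) x22641) x42321) x2957)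
    (Nat.add (Nat.add (Nat.add (Nat.add (Nat.add (Nat.add (Nat.add (Nat.add (Nat.add (Nat.add (Nat.add C x9519) x27015) x21183) x24099) x22155) x22695) x22623) x22659) x22647) x22639) x2959)
    (Nat.add (Nat.add (Nat.add (Nat.add (Nat.add (Nat.add (Nat.add (Nat.add (Nat.add (Nat.add (Nat.add C x9523) x27019) x21187) x24103) x22159) x22699) x22663) x22639) x22647) x42327) x2963)
    (Nat.add (Nat.add (Nat.add (Nat.add (Nat.add (Nat.add (Nat.add (Nat.add (Nat.add (Nat.add (Nat.add C x22647) x9525) x27021) x21189) x24105) x22161) x22701) x22665) x22641) x22645) x2965)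
    (Nat.sub (Nat.add (Nat.add (Nat.add (Nat.add (Nat.add (Nat.add (Nat.add (Nat.add (Nat.add C x9533) x27029) x21197) x24113) x22169) x22709) x22637) x22657) x42337) x22655)
    (Nat.sub (Nat.add (Nat.add (Nat.add (Nat.add (Nat.add (Nat.add (Nat.add (Nat.add (Nat.add (Nat.add (Nat.add (Nat.add C x9535) x27031) x21199) x24115) x22171) x22711) x22639) x22663) x22655) x22659) x42339) x2975) x22657)
    (Nat.sub (Nat.add (Nat.add (Nat.add (Nat.add (Nat.add (Nat.add (Nat.add (Nat.add (Nat.add (Nat.add C x9537) x27033) x21201) x24117) x22173) x22713) x22641) x22665) x22657) x2977) (Nat.mul x22659 (nat_lit 3)))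
    (Nat.add (Nat.add (Nat.add (Nat.add (Nat.add (Nat.add (Nat.add (Nat.add (Nat.add (Nat.add (Nat.add C x9541) x27037) x21205) x24121) x22177) x22717) x22645) x22657) x22665) x42345) x2981)
    (Nat.add (Nat.add (Nat.add (Nat.add (Nat.add (Nat.add (Nat.add (Nat.add (Nat.add (Nat.add (Nat.add C x9543) x27039) x21207) x24123) x22179) x22719) x22647) x22659) x22671) x22663) x2983)
    (Nat.add (Nat.add (Nat.add (Nat.add (Nat.add (Nat.add (Nat.add (Nat.add (Nat.add C x22671) x9549) x27045) x21213) x24129) x22185) x22725) x22665) x2989)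
    (Nat.add (Nat.add (Nat.add (Nat.add (Nat.add (Nat.add (Nat.add (Nat.add (Nat.add (Nat.add (Nat.add C x22685) x9563) x27059) x21227) x24143) x22199) x22847) x22631) x22691) x22687) x42367)
    (Nat.add (Nat.add (Nat.add (Nat.add (Nat.add (Nat.add (Nat.add (Nat.add (Nat.add (Nat.add (Nat.add C x9565) x27061) x21229) x24145) x22201) x22849) x22633) x22693) x22685) x42369) x3005)
    (Nat.sub (Nat.add (Nat.add (Nat.add (Nat.add (Nat.add (Nat.add (Nat.add (Nat.add (Nat.add (Nat.add (Nat.add C x9569) x27065) x21233) x24149) x22205) x22853) x22637) x22709) x22685) x22693) x42373) x22691)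
    (Nat.add (Nat.add (Nat.add (Nat.add (Nat.add (Nat.add (Nat.add (Nat.add (Nat.add (Nat.add (Nat.add (Nat.add (Nat.add (Nat.add C x9571) x27067) x21235) x24151) x22207) x22855) x22639) x22711) x22687) x22699) x22691) x22695) x42375) x3011)
    (Nat.sub (Nat.add (Nat.add (Nat.add (Nat.add (Nat.add (Nat.add (Nat.add (Nat.add (Nat.add (Nat.add (Nat.add C x9573) x27069) x21237) x24153) x22209) x22857) x22641) x22713) x22701) x22693) x3013) x22695)
    (Nat.sub (Nat.add (Nat.add (Nat.add (Nat.add (Nat.add (Nat.add (Nat.add (Nat.add (Nat.add (Nat.add (Nat.add (Nat.add C x9577) x27073) x21241) x24157) x22213) x22861) x22645) x22717) x22693) x22701) x42381) x3017) (Nat.mul x22699 (nat_lit 2)))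
    (Nat.sub (Nat.add (Nat.add (Nat.add (Nat.add (Nat.add (Nat.add (Nat.add (Nat.add (Nat.add (Nat.add (Nat.add C x9579) x27075) x21243) x24159) x22215) x22863) x22647) x22719) x22695) x22699) x3019) x22701)
    (Nat.add (Nat.add (Nat.add (Nat.add (Nat.add (Nat.add (Nat.add (Nat.add (Nat.add (Nat.add (Nat.add C x9587) x27083) x21251) x24167) x22223) x22871) x22655) x22763) x22691) x22711) x42391)
    (Nat.add (Nat.add (Nat.add (Nat.add (Nat.add (Nat.add (Nat.add (Nat.add (Nat.add (Nat.add (Nat.add (Nat.add (Nat.add (Nat.add C x9589) x27085) x21253) x24169) x22225) x22873) x22657) x22765) x22693) x22717) x22709) x22713) x42393) x3029)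
    (Nat.sub (Nat.add (Nat.add (Nat.add (Nat.add (Nat.add (Nat.add (Nat.add (Nat.add (Nat.add (Nat.add (Nat.add (Nat.add C x9591) x27087) x21255) x24171) x22227) x22875) x22659) x22767) x22695) x22719) x22711) x3031) (Nat.mul x22713 (nat_lit 2)))
    (Nat.add (Nat.add (Nat.add (Nat.add (Nat.add (Nat.add (Nat.add (Nat.add (Nat.add (Nat.add (Nat.add (Nat.add (Nat.add (Nat.add C x9595) x27091) x21259) x24175) x22231) x22879) x22663) x22771) x22699) x22735) x22711) x22719) x42399) x3035)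
    (Nat.add (Nat.add (Nat.add (Nat.add (Nat.add (Nat.add (Nat.add (Nat.add (Nat.add (Nat.add (Nat.add (Nat.add (Nat.add (Nat.add C x9597) x27093) x21261) x24177) x22233) x22881) x22665) x22773) x22701) x22737) x22713) x22725) x22717) x3037)
    (Nat.add (Nat.add (Nat.add (Nat.add (Nat.add (Nat.add (Nat.add (Nat.add (Nat.add (Nat.add (Nat.add C x9603) x27099) x21267) x24183) x22239) x22887) x22671) x22779) x22743) x22719) x3043)
    (Nat.add (Nat.add (Nat.add (Nat.add (Nat.add (Nat.add (Nat.add (Nat.add (Nat.add (Nat.add (Nat.add C x9613) x27109) x21277) x24193) x22249) x22897) x22789) x22717) x22737) x42417) x3053)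
    (Nat.sub (Nat.add (Nat.add (Nat.add (Nat.add (Nat.add (Nat.add (Nat.add (Nat.add (Nat.add (Nat.add (Nat.add C x9615) x27111) x21279) x24195) x22251) x22899) x22791) x22719) x22743) x22735) x3055) x22737)
    (Nat.add (Nat.add (Nat.add (Nat.add (Nat.add (Nat.add (Nat.add (Nat.add (Nat.add (Nat.add (Nat.add C x22743) x9621) x27117) x21285) x24201) x22257) x22905) x22797) x22725) x22737) x3061)
    (Nat.sub (Nat.add (Nat.add (Nat.add (Nat.add (Nat.add (Nat.add (Nat.add (Nat.add (Nat.add C x9641) x27137) x21305) x24221) x22277) x22925) x22709) x22765) x42445) x22763)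
    (Nat.sub (Nat.add (Nat.add (Nat.add (Nat.add (Nat.add (Nat.add (Nat.add (Nat.add (Nat.add (Nat.add (Nat.add (Nat.add C x9643) x27139) x21307) x24223) x22279) x22927) x22711) x22771) x22763) x22767) x42447) x3083) x22765)
    (Nat.sub (Nat.add (Nat.add (Nat.add (Nat.add (Nat.add (Nat.add (Nat.add (Nat.add (Nat.add (Nat.add C x9645) x27141) x21309) x24225) x22281) x22929) x22713) x22773) x22765) x3085) (Nat.mul x22767 (nat_lit 3)))
    (Nat.sub (Nat.add (Nat.add (Nat.add (Nat.add (Nat.add (Nat.add (Nat.add (Nat.add (Nat.add (Nat.add (Nat.add (Nat.add C x9649) x27145) x21313) x24229) x22285) x22933) x22717) x22789) x22765) x22773) x42453) x3089) (Nat.mul x22771 (nat_lit 2)))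
    (Nat.sub (Nat.add (Nat.add (Nat.add (Nat.add (Nat.add (Nat.add (Nat.add (Nat.add (Nat.add (Nat.add (Nat.add (Nat.add C x9651) x27147) x21315) x24231) x22287) x22935) x22719) x22791) x22767) x22779) x22771) x3091) (Nat.mul x22773 (nat_lit 2)))
    (Nat.sub (Nat.add (Nat.add (Nat.add (Nat.add (Nat.add (Nat.add (Nat.add (Nat.add (Nat.add (Nat.add C x9657) x27153) x21321) x24237) x22293) x22941) x22725) x22797) x22773) x3097) (Nat.mul x22779 (nat_lit 3)))
    (Nat.add (Nat.add (Nat.add (Nat.add (Nat.add (Nat.add (Nat.add (Nat.add (Nat.add (Nat.add (Nat.add C x9667) x27163) x21331) x24247) x22303) x22951) x22735) x22771) x22791) x42471) x3107)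
    (Nat.sub (Nat.add (Nat.add (Nat.add (Nat.add (Nat.add (Nat.add (Nat.add (Nat.add (Nat.add (Nat.add (Nat.add C x9669) x27165) x21333) x24249) x22305) x22953) x22737) x22773) x22797) x22789) x3109) x22791)
    (Nat.add (Nat.add (Nat.add (Nat.add (Nat.add (Nat.add (Nat.add (Nat.add (Nat.add (Nat.add (Nat.add C x9675) x27171) x21339) x24255) x22311) x22959) x22743) x22779) x22815) x22791) x3115)
    (Nat.add (Nat.add (Nat.add (Nat.add (Nat.add (Nat.add (Nat.add (Nat.add (Nat.add C x22815) x9693) x27189) x21357) x24273) x22329) x22977) x22797) x3133)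
    (Nat.add (Nat.add (Nat.add (Nat.add (Nat.add (Nat.add (Nat.add (Nat.add (Nat.add (Nat.add (Nat.add C (Nat.mul x22847 (nat_lit 2))) x9725) x27221) x21389) x24305) x22361) x23333) x22685) x22853) x22849) x42529)
    (Nat.add (Nat.add (Nat.add (Nat.add (Nat.add (Nat.add (Nat.add (Nat.add (Nat.add (Nat.add (Nat.add (Nat.add C x22849) x9727) x27223) x21391) x24307) x22363) x23335) x22687) x22855) x22847) x42531) x3167)
    (Nat.add (Nat.add (Nat.add (Nat.add (Nat.add (Nat.add (Nat.add (Nat.add (Nat.add (Nat.add (Nat.add C x9731) x27227) x21395) x24311) x22367) x23339) x22691) x22871) x22847) x22855) x42535)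
    (Nat.add (Nat.add (Nat.add (Nat.add (Nat.add (Nat.add (Nat.add (Nat.add (Nat.add (Nat.add (Nat.add (Nat.add (Nat.add (Nat.add (Nat.add C x22855) x9733) x27229) x21397) x24313) x22369) x23341) x22693) x22873) x22849) x22861) x22853) x22857) x42537) x3173)
    (Nat.add (Nat.add (Nat.add (Nat.add (Nat.add (Nat.add (Nat.add (Nat.add (Nat.add (Nat.add (Nat.add C x9735) x27231) x21399) x24315) x22371) x23343) x22695) x22875) x22863) x22855) x3175)
    (Nat.sub (Nat.add (Nat.add (Nat.add (Nat.add (Nat.add (Nat.add (Nat.add (Nat.add (Nat.add (Nat.add (Nat.add (Nat.add C x9739) x27235) x21403) x24319) x22375) x23347) x22699) x22879) x22855) x22863) x42543) x3179) x22861)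
    (Nat.add (Nat.add (Nat.add (Nat.add (Nat.add (Nat.add (Nat.add (Nat.add (Nat.add (Nat.add (Nat.add C x9741) x27237) x21405) x24321) x22377) x23349) x22701) x22881) x22857) x22861) x3181)
    (Nat.add (Nat.add (Nat.add (Nat.add (Nat.add (Nat.add (Nat.add (Nat.add (Nat.add (Nat.add (Nat.add C x9749) x27245) x21413) x24329) x22385) x23357) x22709) x22925) x22853) x22873) x42553)
    (Nat.add (Nat.add (Nat.add (Nat.add (Nat.add (Nat.add (Nat.add (Nat.add (Nat.add (Nat.add (Nat.add (Nat.add (Nat.add (Nat.add C x9751) x27247) x21415) x24331) x22387) x23359) x22711) x22927) x22855) x22879) x22871) x22875) x42555) x3191)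
    (Nat.sub (Nat.add (Nat.add (Nat.add (Nat.add (Nat.add (Nat.add (Nat.add (Nat.add (Nat.add (Nat.add (Nat.add (Nat.add C x9753) x27249) x21417) x24333) x22389) x23361) x22713) x22929) x22857) x22881) x22873) x3193) (Nat.mul x22875 (nat_lit 2)))
    (Nat.add (Nat.add (Nat.add (Nat.add (Nat.add (Nat.add (Nat.add (Nat.add (Nat.add (Nat.add (Nat.add (Nat.add (Nat.add (Nat.add C x9757) x27253) x21421) x24337) x22393) x23365) x22717) x22933) x22861) x22897) x22873) x22881) x42561) x3197)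
    (Nat.add (Nat.add (Nat.add (Nat.add (Nat.add (Nat.add (Nat.add (Nat.add (Nat.add (Nat.add (Nat.add (Nat.add (Nat.add (Nat.add C x9759) x27255) x21423) x24339) x22395) x23367) x22719) x22935) x22863) x22899) x22875) x22887) x22879) x3199)
    (Nat.add (Nat.add (Nat.add (Nat.add (Nat.add (Nat.add (Nat.add (Nat.add (Nat.add (Nat.add (Nat.add C x9765) x27261) x21429) x24345) x22401) x23373) x22725) x22941) x22905) x22881) x3205)
    (Nat.sub (Nat.add (Nat.add (Nat.add (Nat.add (Nat.add (Nat.add (Nat.add (Nat.add (Nat.add (Nat.add (Nat.add (Nat.add C x9775) x27271) x21439) x24355) x22411) x23383) x22735) x22951) x22879) x22899) x42579) x3215) x22897)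
    (Nat.sub (Nat.add (Nat.add (Nat.add (Nat.add (Nat.add (Nat.add (Nat.add (Nat.add (Nat.add (Nat.add (Nat.add (Nat.add C x9777) x27273) x21441) x24357) x22413) x23385) x22737) x22953) x22881) x22905) x22897) x3217) (Nat.mul x22899 (nat_lit 2)))
    (Nat.add (Nat.add (Nat.add (Nat.add (Nat.add (Nat.add (Nat.add (Nat.add (Nat.add (Nat.add (Nat.add C x9783) x27279) x21447) x24363) x22419) x23391) x22743) x22959) x22887) x22899) x3223)
    (Nat.add (Nat.add (Nat.add (Nat.add (Nat.add (Nat.add (Nat.add (Nat.add (Nat.add (Nat.add (Nat.add (Nat.add C x22925) x9803) x27299) x21467) x24383) x22439) x23411) x22763) x23087) x22871) x22927) x42607)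
    (Nat.add (Nat.add (Nat.add (Nat.add (Nat.add (Nat.add (Nat.add (Nat.add (Nat.add (Nat.add (Nat.add (Nat.add (Nat.add (Nat.add (Nat.add C x22927) x9805) x27301) x21469) x24385) x22441) x23413) x22765) x23089) x22873) x22933) x22925) x22929) x42609) x3245)
    (Nat.sub (Nat.add (Nat.add (Nat.add (Nat.add (Nat.add (Nat.add (Nat.add (Nat.add (Nat.add (Nat.add (Nat.add (Nat.add C x9807) x27303) x21471) x24387) x22443) x23415) x22767) x23091) x22875) x22935) x22927) x3247) x22929)
    (Nat.add (Nat.add (Nat.add (Nat.add (Nat.add (Nat.add (Nat.add (Nat.add (Nat.add (Nat.add (Nat.add (Nat.add (Nat.add (Nat.add C x9811) x27307) x21475) x24391) x22447) x23419) x22771) x23095) x22879) x22951) x22927) x22935) x42615) x3251)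
    (Nat.add (Nat.add (Nat.add (Nat.add (Nat.add (Nat.add (Nat.add (Nat.add (Nat.add (Nat.add (Nat.add (Nat.add (Nat.add (Nat.add C x9813) x27309) x21477) x24393) x22449) x23421) x22773) x23097) x22881) x22953) x22929) x22941) x22933) x3253)
    (Nat.sub (Nat.add (Nat.add (Nat.add (Nat.add (Nat.add (Nat.add (Nat.add (Nat.add (Nat.add (Nat.add (Nat.add (Nat.add C x9819) x27315) x21483) x24399) x22455) x23427) x22779) x23103) x22887) x22959) x22935) x3259) x22941)
    (Nat.add (Nat.add (Nat.add (Nat.add (Nat.add (Nat.add (Nat.add (Nat.add (Nat.add (Nat.add (Nat.add (Nat.add (Nat.add (Nat.add (Nat.add C x22951) x9829) x27325) x21493) x24409) x22465) x23437) x22789) x23113) x22897) x23005) x22933) x22953) x42633) x3269)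
    (Nat.add (Nat.add (Nat.add (Nat.add (Nat.add (Nat.add (Nat.add (Nat.add (Nat.add (Nat.add (Nat.add (Nat.add (Nat.add (Nat.add C x9831) x27327) x21495) x24411) x22467) x23439) x22791) x23115) x22899) x23007) x22935) x22959) x22951) x3271)
    (Nat.add (Nat.add (Nat.add (Nat.add (Nat.add (Nat.add (Nat.add (Nat.add (Nat.add (Nat.add (Nat.add (Nat.add (Nat.add (Nat.add (Nat.add C x22959) x9837) x27333) x21501) x24417) x22473) x23445) x22797) x23121) x22905) x23013) x22941) x22977) x22953) x3277)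
    (Nat.add (Nat.add (Nat.add (Nat.add (Nat.add (Nat.add (Nat.add (Nat.add (Nat.add (Nat.add (Nat.add (Nat.add C x22977) x9855) x27351) x21519) x24435) x22491) x23463) x22815) x23139) x23031) x22959) x3295)
    (Nat.add (Nat.add (Nat.add (Nat.add (Nat.add (Nat.add (Nat.add (Nat.add (Nat.add (Nat.add (Nat.add (Nat.add C x23005) x9883) x27379) x21547) x24463) x22519) x23491) x23167) x22951) x23007) x42687) x3323)
    (Nat.add (Nat.add (Nat.add (Nat.add (Nat.add (Nat.add (Nat.add (Nat.add (Nat.add (Nat.add (Nat.add C x9885) x27381) x21549) x24465) x22521) x23493) x23169) x22953) x23013) x23005) x3325)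
    (Nat.add (Nat.add (Nat.add (Nat.add (Nat.add (Nat.add (Nat.add (Nat.add (Nat.add (Nat.add (Nat.add C x9891) x27387) x21555) x24471) x22527) x23499) x23175) x22959) x23031) x23007) x3331)
    (Nat.add (Nat.add (Nat.add (Nat.add (Nat.add (Nat.add (Nat.add (Nat.add (Nat.add (Nat.add (Nat.add C (Nat.mul x23031 (nat_lit 2))) x9909) x27405) x21573) x24489) x22545) x23517) x23193) x22977) x23013) x3349)
    (Nat.add (Nat.add (Nat.add (Nat.add (Nat.add (Nat.add (Nat.add (Nat.add (Nat.add C x23087) x9965) x27461) x21629) x24545) x23573) x22925) x23089) x42769)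
    (Nat.add (Nat.add (Nat.add (Nat.add (Nat.add (Nat.add (Nat.add (Nat.add (Nat.add (Nat.add (Nat.add (Nat.add C x23089) x9967) x27463) x21631) x24547) x23575) x22927) x23095) x23087) x23091) x42771) x3407)
    (Nat.sub (Nat.add (Nat.add (Nat.add (Nat.add (Nat.add (Nat.add (Nat.add (Nat.add (Nat.add C x9969) x27465) x21633) x24549) x23577) x22929) x23097) x23089) x3409) x23091)
    (Nat.add (Nat.add (Nat.add (Nat.add (Nat.add (Nat.add (Nat.add (Nat.add (Nat.add (Nat.add (Nat.add C x9973) x27469) x21637) x24553) x23581) x22933) x23113) x23089) x23097) x42777) x3413)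
    (Nat.add (Nat.add (Nat.add (Nat.add (Nat.add (Nat.add (Nat.add (Nat.add (Nat.add (Nat.add (Nat.add C x9975) x27471) x21639) x24555) x23583) x22935) x23115) x23091) x23103) x23095) x3415)
    (Nat.sub (Nat.add (Nat.add (Nat.add (Nat.add (Nat.add (Nat.add (Nat.add (Nat.add (Nat.add C x9981) x27477) x21645) x24561) x23589) x22941) x23121) x23097) x3421) x23103)
    (Nat.add (Nat.add (Nat.add (Nat.add (Nat.add (Nat.add (Nat.add (Nat.add (Nat.add (Nat.add (Nat.add C x9991) x27487) x21655) x24571) x23599) x22951) x23167) x23095) x23115) x42795) x3431)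
    (Nat.sub (Nat.add (Nat.add (Nat.add (Nat.add (Nat.add (Nat.add (Nat.add (Nat.add (Nat.add (Nat.add (Nat.add C x9993) x27489) x21657) x24573) x23601) x22953) x23169) x23097) x23121) x23113) x3433) x23115)
    (Nat.add (Nat.add (Nat.add (Nat.add (Nat.add (Nat.add (Nat.add (Nat.add (Nat.add (Nat.add (Nat.add C x9999) x27495) x21663) x24579) x23607) x22959) x23175) x23103) x23139) x23115) x3439)
    (Nat.sub (Nat.add (Nat.add (Nat.add (Nat.add (Nat.add (Nat.add (Nat.add (Nat.add (Nat.add C x10017) x27513) x21681) x24597) x23625) x22977) x23193) x23121) x3457) x23139)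
    (Nat.add (Nat.add (Nat.add (Nat.add (Nat.add (Nat.add (Nat.add (Nat.add (Nat.add (Nat.add (Nat.add C (Nat.mul x23167 (nat_lit 2))) x10045) x27541) x21709) x24625) x23653) x23005) x23113) x23169) x42849) x3485)
    (Nat.add (Nat.add (Nat.add (Nat.add (Nat.add (Nat.add (Nat.add (Nat.add (Nat.add (Nat.add (Nat.add C x23169) x10047) x27543) x21711) x24627) x23655) x23007) x23115) x23175) x23167) x3487)
    (Nat.add (Nat.add (Nat.add (Nat.add (Nat.add (Nat.add (Nat.add (Nat.add (Nat.add (Nat.add (Nat.add C x23175) x10053) x27549) x21717) x24633) x23661) x23013) x23121) x23193) x23169) x3493)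
    (Nat.add (Nat.add (Nat.add (Nat.add (Nat.add (Nat.add (Nat.add (Nat.add (Nat.add (Nat.add (Nat.add C (Nat.mul x23193 (nat_lit 2))) x10071) x27567) x21735) x24651) x23679) x23031) x23139) x23247) x23175) x3511)
    (Nat.add (Nat.add (Nat.add (Nat.add (Nat.add (Nat.add (Nat.add (Nat.add C (Nat.mul x23247 (nat_lit 3))) x10125) x27621) x21789) x24705) x23733) x23193) x3565)
    (Nat.add (Nat.add (Nat.add (Nat.add (Nat.add (Nat.add (Nat.add (Nat.add C (Nat.mul x23333 (nat_lit 2))) x10211) x27707) x24791) x22847) x23339) x23335) x43015)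
    (Nat.add (Nat.add (Nat.add (Nat.add (Nat.add (Nat.add (Nat.add (Nat.add (Nat.add C x23335) x10213) x27709) x24793) x22849) x23341) x23333) x43017) x3653)
    (Nat.add (Nat.add (Nat.add (Nat.add (Nat.add (Nat.add (Nat.add (Nat.add C x10217) x27713) x24797) x22853) x23357) x23333) x23341) x43021)
    (Nat.add (Nat.add (Nat.add (Nat.add (Nat.add (Nat.add (Nat.add (Nat.add (Nat.add (Nat.add (Nat.add (Nat.add C x23341) x10219) x27715) x24799) x22855) x23359) x23335) x23347) x23339) x23343) x43023) x3659)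
    (Nat.add (Nat.add (Nat.add (Nat.add (Nat.add (Nat.add (Nat.add (Nat.add C x10221) x27717) x24801) x22857) x23361) x23349) x23341) x3661)
    (Nat.sub (Nat.add (Nat.add (Nat.add (Nat.add (Nat.add (Nat.add (Nat.add (Nat.add (Nat.add C x10225) x27721) x24805) x22861) x23365) x23341) x23349) x43029) x3665) x23347)
    (Nat.add (Nat.add (Nat.add (Nat.add (Nat.add (Nat.add (Nat.add (Nat.add C x10227) x27723) x24807) x22863) x23367) x23343) x23347) x3667)
    (Nat.add (Nat.add (Nat.add (Nat.add (Nat.add (Nat.add (Nat.add (Nat.add C x10235) x27731) x24815) x22871) x23411) x23339) x23359) x43039)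
    (Nat.add (Nat.add (Nat.add (Nat.add (Nat.add (Nat.add (Nat.add (Nat.add (Nat.add (Nat.add (Nat.add C x10237) x27733) x24817) x22873) x23413) x23341) x23365) x23357) x23361) x43041) x3677)
    (Nat.sub (Nat.add (Nat.add (Nat.add (Nat.add (Nat.add (Nat.add (Nat.add (Nat.add (Nat.add C x10239) x27735) x24819) x22875) x23415) x23343) x23367) x23359) x3679) (Nat.mul x23361 (nat_lit 2)))
    (Nat.add (Nat.add (Nat.add (Nat.add (Nat.add (Nat.add (Nat.add (Nat.add (Nat.add (Nat.add (Nat.add C x10243) x27739) x24823) x22879) x23419) x23347) x23383) x23359) x23367) x43047) x3683)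
    (Nat.add (Nat.add (Nat.add (Nat.add (Nat.add (Nat.add (Nat.add (Nat.add (Nat.add (Nat.add (Nat.add C x10245) x27741) x24825) x22881) x23421) x23349) x23385) x23361) x23373) x23365) x3685)
    (Nat.add (Nat.add (Nat.add (Nat.add (Nat.add (Nat.add (Nat.add (Nat.add C x10251) x27747) x24831) x22887) x23427) x23391) x23367) x3691)
    (Nat.sub (Nat.add (Nat.add (Nat.add (Nat.add (Nat.add (Nat.add (Nat.add (Nat.add (Nat.add C x10261) x27757) x24841) x22897) x23437) x23365) x23385) x43065) x3701) x23383)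
    (Nat.sub (Nat.add (Nat.add (Nat.add (Nat.add (Nat.add (Nat.add (Nat.add (Nat.add (Nat.add C x10263) x27759) x24843) x22899) x23439) x23367) x23391) x23383) x3703) (Nat.mul x23385 (nat_lit 2)))
    (Nat.add (Nat.add (Nat.add (Nat.add (Nat.add (Nat.add (Nat.add (Nat.add C x10269) x27765) x24849) x22905) x23445) x23373) x23385) x3709)
    (Nat.add (Nat.add (Nat.add (Nat.add (Nat.add (Nat.add (Nat.add (Nat.add C x10289) x27785) x24869) x22925) x23573) x23357) x23413) x43093)
    (Nat.add (Nat.add (Nat.add (Nat.add (Nat.add (Nat.add (Nat.add (Nat.add (Nat.add (Nat.add (Nat.add C x10291) x27787) x24871) x22927) x23575) x23359) x23419) x23411) x23415) x43095) x3731)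
    (Nat.sub (Nat.add (Nat.add (Nat.add (Nat.add (Nat.add (Nat.add (Nat.add (Nat.add (Nat.add C x10293) x27789) x24873) x22929) x23577) x23361) x23421) x23413) x3733) (Nat.mul x23415 (nat_lit 2)))
    (Nat.sub (Nat.add (Nat.add (Nat.add (Nat.add (Nat.add (Nat.add (Nat.add (Nat.add (Nat.add (Nat.add (Nat.add C x10297) x27793) x24877) x22933) x23581) x23365) x23437) x23413) x23421) x43101) x3737) x23419)
    (Nat.sub (Nat.add (Nat.add (Nat.add (Nat.add (Nat.add (Nat.add (Nat.add (Nat.add (Nat.add (Nat.add (Nat.add C x10299) x27795) x24879) x22935) x23583) x23367) x23439) x23415) x23427) x23419) x3739) x23421)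
    (Nat.sub (Nat.add (Nat.add (Nat.add (Nat.add (Nat.add (Nat.add (Nat.add (Nat.add (Nat.add C x10305) x27801) x24885) x22941) x23589) x23373) x23445) x23421) x3745) (Nat.mul x23427 (nat_lit 2)))
    (Nat.add (Nat.add (Nat.add (Nat.add (Nat.add (Nat.add (Nat.add (Nat.add (Nat.add (Nat.add (Nat.add C x10315) x27811) x24895) x22951) x23599) x23383) x23491) x23419) x23439) x43119) x3755)
    (Nat.sub (Nat.add (Nat.add (Nat.add (Nat.add (Nat.add (Nat.add (Nat.add (Nat.add (Nat.add (Nat.add (Nat.add C x10317) x27813) x24897) x22953) x23601) x23385) x23493) x23421) x23445) x23437) x3757) x23439)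
    (Nat.add (Nat.add (Nat.add (Nat.add (Nat.add (Nat.add (Nat.add (Nat.add (Nat.add (Nat.add (Nat.add C x10323) x27819) x24903) x22959) x23607) x23391) x23499) x23427) x23463) x23439) x3763)
    (Nat.add (Nat.add (Nat.add (Nat.add (Nat.add (Nat.add (Nat.add (Nat.add C x10341) x27837) x24921) x22977) x23625) x23517) x23445) x3781)
    (Nat.sub (Nat.add (Nat.add (Nat.add (Nat.add (Nat.add (Nat.add (Nat.add (Nat.add (Nat.add C x10369) x27865) x24949) x23005) x23653) x23437) x23493) x43173) x3809) x23491)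
    (Nat.sub (Nat.add (Nat.add (Nat.add (Nat.add (Nat.add (Nat.add (Nat.add (Nat.add (Nat.add C x10371) x27867) x24951) x23007) x23655) x23439) x23499) x23491) x3811) (Nat.mul x23493 (nat_lit 2)))
    (Nat.sub (Nat.add (Nat.add (Nat.add (Nat.add (Nat.add (Nat.add (Nat.add (Nat.add (Nat.add C x10377) x27873) x24957) x23013) x23661) x23445) x23517) x23493) x3817) (Nat.mul x23499 (nat_lit 2)))
    (Nat.add (Nat.add (Nat.add (Nat.add (Nat.add (Nat.add (Nat.add (Nat.add C x10395) x27891) x24975) x23031) x23679) x23463) x23499) x3835)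
    (Nat.add (Nat.add (Nat.add (Nat.add (Nat.add (Nat.add (Nat.add (Nat.add C (Nat.mul x23573 (nat_lit 2))) x10451) x27947) x25031) x23087) x23411) x23575) x43255)
    (Nat.add (Nat.add (Nat.add (Nat.add (Nat.add (Nat.add (Nat.add (Nat.add (Nat.add (Nat.add (Nat.add C (Nat.mul x23575 (nat_lit 2))) x10453) x27949) x25033) x23089) x23413) x23581) x23573) x23577) x43257) x3893)
    (Nat.add (Nat.add (Nat.add (Nat.add (Nat.add (Nat.add (Nat.add (Nat.add C x10455) x27951) x25035) x23091) x23415) x23583) x23575) x3895)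
    (Nat.add (Nat.add (Nat.add (Nat.add (Nat.add (Nat.add (Nat.add (Nat.add (Nat.add (Nat.add (Nat.add C x23581) x10459) x27955) x25039) x23095) x23419) x23599) x23575) x23583) x43263) x3899)
    (Nat.add (Nat.add (Nat.add (Nat.add (Nat.add (Nat.add (Nat.add (Nat.add (Nat.add (Nat.add (Nat.add C x23583) x10461) x27957) x25041) x23097) x23421) x23601) x23577) x23589) x23581) x3901)
    (Nat.add (Nat.add (Nat.add (Nat.add (Nat.add (Nat.add (Nat.add (Nat.add C x10467) x27963) x25047) x23103) x23427) x23607) x23583) x3907)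
    (Nat.add (Nat.add (Nat.add (Nat.add (Nat.add (Nat.add (Nat.add (Nat.add (Nat.add (Nat.add (Nat.add C x23599) x10477) x27973) x25057) x23113) x23437) x23653) x23581) x23601) x43281) x3917)
    (Nat.add (Nat.add (Nat.add (Nat.add (Nat.add (Nat.add (Nat.add (Nat.add (Nat.add (Nat.add C x10479) x27975) x25059) x23115) x23439) x23655) x23583) x23607) x23599) x3919)
    (Nat.add (Nat.add (Nat.add (Nat.add (Nat.add (Nat.add (Nat.add (Nat.add (Nat.add (Nat.add (Nat.add C x23607) x10485) x27981) x25065) x23121) x23445) x23661) x23589) x23625) x23601) x3925)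
    (Nat.add (Nat.add (Nat.add (Nat.add (Nat.add (Nat.add (Nat.add (Nat.add C x10503) x27999) x25083) x23139) x23463) x23679) x23607) x3943)
    (Nat.add (Nat.add (Nat.add (Nat.add (Nat.add (Nat.add (Nat.add (Nat.add (Nat.add (Nat.add (Nat.add C (Nat.mul x23653 (nat_lit 2))) x10531) x28027) x25111) x23167) x23491) x23815) x23599) x23655) x43335) x3971)
    (Nat.add (Nat.add (Nat.add (Nat.add (Nat.add (Nat.add (Nat.add (Nat.add (Nat.add (Nat.add (Nat.add C x23655) x10533) x28029) x25113) x23169) x23493) x23817) x23601) x23661) x23653) x3973)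
    (Nat.add (Nat.add (Nat.add (Nat.add (Nat.add (Nat.add (Nat.add (Nat.add (Nat.add (Nat.add (Nat.add C x23661) x10539) x28035) x25119) x23175) x23499) x23823) x23607) x23679) x23655) x3979)
    (Nat.add (Nat.add (Nat.add (Nat.add (Nat.add (Nat.add (Nat.add (Nat.add (Nat.add (Nat.add (Nat.add C (Nat.mul x23679 (nat_lit 2))) x10557) x28053) x25137) x23193) x23517) x23841) x23625) x23733) x23661) x3997)
    (Nat.add (Nat.add (Nat.add (Nat.add (Nat.add (Nat.add (Nat.add (Nat.add C (Nat.mul x23733 (nat_lit 2))) x10611) x28107) x25191) x23247) x23895) x23679) x4051)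
    (Nat.add (Nat.add (Nat.add (Nat.add (Nat.add (Nat.add (Nat.add (Nat.add C (Nat.mul x23815 (nat_lit 3))) x10693) x28189) x25273) x23653) x23817) x43497) x4133)
    (Nat.add (Nat.add (Nat.add (Nat.add (Nat.add (Nat.add (Nat.add (Nat.add C (Nat.mul x23817 (nat_lit 2))) x10695) x28191) x25275) x23655) x23823) x23815) x4135)
    (Nat.add (Nat.add (Nat.add (Nat.add (Nat.add (Nat.add (Nat.add (Nat.add C (Nat.mul x23823 (nat_lit 2))) x10701) x28197) x25281) x23661) x23841) x23817) x4141)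
    (Nat.add (Nat.add (Nat.add (Nat.add (Nat.add (Nat.add (Nat.add (Nat.add C (Nat.mul x23841 (nat_lit 2))) x10719) x28215) x25299) x23679) x23895) x23823) x4159)
    (Nat.add (Nat.add (Nat.add (Nat.add (Nat.add (Nat.add (Nat.add C (Nat.mul x23895 (nat_lit 4))) x10773) x28269) x25353) x23733) x23841) x4213)
    (Nat.add (Nat.add (Nat.add (Nat.add (Nat.add (Nat.add C (Nat.mul x24065 (nat_lit 2))) x10943) x28439) x22607) x24071) x43747)
    (Nat.add (Nat.add (Nat.add (Nat.add (Nat.add (Nat.add (Nat.add (Nat.add (Nat.add C x24071) x10949) x28445) x22613) x24089) x24065) x24077) x24073) x43753)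
    (Nat.add (Nat.add (Nat.add (Nat.add (Nat.add (Nat.add (Nat.add (Nat.add (Nat.add C x24073) x10951) x28447) x22615) x24091) x24079) x24071) x43755) x4391)
    (Nat.sub (Nat.add (Nat.add (Nat.add (Nat.add (Nat.add (Nat.add (Nat.add C x10955) x28451) x22619) x24095) x24071) x24079) x43759) (Nat.mul x24077 (nat_lit 2)))
    (Nat.add (Nat.add (Nat.add (Nat.add (Nat.add (Nat.add (Nat.add (Nat.add (Nat.add C x10957) x28453) x22621) x24097) x24073) x24077) x24081) x43761) x4397)
    (Nat.add (Nat.add (Nat.add (Nat.add (Nat.add (Nat.add C x10959) x28455) x22623) x24099) x24079) x4399)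
    (Nat.add (Nat.add (Nat.add (Nat.add (Nat.add (Nat.add (Nat.add (Nat.add C x10967) x28463) x22631) x24143) x24071) x24095) x24091) x43771)
    (Nat.sub (Nat.add (Nat.add (Nat.add (Nat.add (Nat.add (Nat.add (Nat.add (Nat.add (Nat.add C x10969) x28465) x22633) x24145) x24073) x24097) x24089) x43773) x4409) x24091)
    (Nat.sub (Nat.add (Nat.add (Nat.add (Nat.add (Nat.add (Nat.add (Nat.add (Nat.add (Nat.add C x10973) x28469) x22637) x24149) x24077) x24113) x24089) x24097) x43777) x24095)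
    (Nat.add (Nat.add (Nat.add (Nat.add (Nat.add (Nat.add (Nat.add (Nat.add (Nat.add (Nat.add (Nat.add (Nat.add C x10975) x28471) x22639) x24151) x24079) x24115) x24091) x24103) x24095) x24099) x43779) x4415)
    (Nat.sub (Nat.add (Nat.add (Nat.add (Nat.add (Nat.add (Nat.add (Nat.add (Nat.add (Nat.add C x10977) x28473) x22641) x24153) x24081) x24117) x24105) x24097) x4417) x24099)
    (Nat.sub (Nat.add (Nat.add (Nat.add (Nat.add (Nat.add (Nat.add (Nat.add (Nat.add (Nat.add C x10981) x28477) x22645) x24157) x24121) x24097) x24105) x43785) x4421) x24103)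
    (Nat.add (Nat.add (Nat.add (Nat.add (Nat.add (Nat.add (Nat.add (Nat.add C x10983) x28479) x22647) x24159) x24123) x24099) x24103) x4423)
    (Nat.sub (Nat.add (Nat.add (Nat.add (Nat.add (Nat.add (Nat.add (Nat.add C x10991) x28487) x22655) x24167) x24095) x24115) x43795) (Nat.mul x24113 (nat_lit 2)))
    (Nat.sub (Nat.add (Nat.add (Nat.add (Nat.add (Nat.add (Nat.add (Nat.add (Nat.add (Nat.add (Nat.add C x10993) x28489) x22657) x24169) x24097) x24121) x24113) x24117) x43797) x4433) (Nat.mul x24115 (nat_lit 2)))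
    (Nat.sub (Nat.add (Nat.add (Nat.add (Nat.add (Nat.add (Nat.add (Nat.add (Nat.add C x10995) x28491) x22659) x24171) x24099) x24123) x24115) x4435) (Nat.mul x24117 (nat_lit 4)))
    (Nat.sub (Nat.add (Nat.add (Nat.add (Nat.add (Nat.add (Nat.add (Nat.add (Nat.add (Nat.add C x10999) x28495) x22663) x24175) x24103) x24115) x24123) x43803) x4439) x24121)
    (Nat.sub (Nat.add (Nat.add (Nat.add (Nat.add (Nat.add (Nat.add (Nat.add (Nat.add (Nat.add C x11001) x28497) x22665) x24177) x24105) x24117) x24129) x24121) x4441) x24123)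
    (Nat.add (Nat.add (Nat.add (Nat.add (Nat.add (Nat.add C x11007) x28503) x22671) x24183) x24123) x4447)
    (Nat.add (Nat.add (Nat.add (Nat.add (Nat.add (Nat.add (Nat.add (Nat.add C x11021) x28517) x22685) x24305) x24089) x24149) x24145) x43825)
    (Nat.sub (Nat.add (Nat.add (Nat.add (Nat.add (Nat.add (Nat.add (Nat.add (Nat.add (Nat.add C x11023) x28519) x22687) x24307) x24091) x24151) x24143) x43827) x4463) x24145)
    (Nat.sub (Nat.add (Nat.add (Nat.add (Nat.add (Nat.add (Nat.add (Nat.add (Nat.add (Nat.add C x11027) x28523) x22691) x24311) x24095) x24167) x24143) x24151) x43831) (Nat.mul x24149 (nat_lit 2)))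
    (Nat.sub (Nat.add (Nat.add (Nat.add (Nat.add (Nat.add (Nat.add (Nat.add (Nat.add (Nat.add (Nat.add (Nat.add (Nat.add C x11029) x28525) x22693) x24313) x24097) x24169) x24145) x24157) x24149) x24153) x43833) x4469) x24151)
    (Nat.sub (Nat.add (Nat.add (Nat.add (Nat.add (Nat.add (Nat.add (Nat.add (Nat.add (Nat.add C x11031) x28527) x22695) x24315) x24099) x24171) x24159) x24151) x4471) (Nat.mul x24153 (nat_lit 2)))
    (Nat.sub (Nat.add (Nat.add (Nat.add (Nat.add (Nat.add (Nat.add (Nat.add (Nat.add (Nat.add (Nat.add C x11035) x28531) x22699) x24319) x24103) x24175) x24151) x24159) x43839) x4475) (Nat.mul x24157 (nat_lit 3)))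
    (Nat.sub (Nat.add (Nat.add (Nat.add (Nat.add (Nat.add (Nat.add (Nat.add (Nat.add (Nat.add C x11037) x28533) x22701) x24321) x24105) x24177) x24153) x24157) x4477) (Nat.mul x24159 (nat_lit 2)))
    (Nat.sub (Nat.add (Nat.add (Nat.add (Nat.add (Nat.add (Nat.add (Nat.add (Nat.add (Nat.add C x11045) x28541) x22709) x24329) x24113) x24221) x24149) x24169) x43849) x24167)
    (Nat.sub (Nat.add (Nat.add (Nat.add (Nat.add (Nat.add (Nat.add (Nat.add (Nat.add (Nat.add (Nat.add (Nat.add (Nat.add C x11047) x28543) x22711) x24331) x24115) x24223) x24151) x24175) x24167) x24171) x43851) x4487) x24169)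
    (Nat.sub (Nat.add (Nat.add (Nat.add (Nat.add (Nat.add (Nat.add (Nat.add (Nat.add (Nat.add (Nat.add C x11049) x28545) x22713) x24333) x24117) x24225) x24153) x24177) x24169) x4489) (Nat.mul x24171 (nat_lit 3)))
    (Nat.sub (Nat.add (Nat.add (Nat.add (Nat.add (Nat.add (Nat.add (Nat.add (Nat.add (Nat.add (Nat.add (Nat.add (Nat.add C x11053) x28549) x22717) x24337) x24121) x24229) x24157) x24193) x24169) x24177) x43857) x4493) x24175)
    (Nat.sub (Nat.add (Nat.add (Nat.add (Nat.add (Nat.add (Nat.add (Nat.add (Nat.add (Nat.add (Nat.add (Nat.add (Nat.add C x11055) x28551) x22719) x24339) x24123) x24231) x24159) x24195) x24171) x24183) x24175) x4495) x24177)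
    (Nat.sub (Nat.add (Nat.add (Nat.add (Nat.add (Nat.add (Nat.add (Nat.add (Nat.add (Nat.add C x11061) x28557) x22725) x24345) x24129) x24237) x24201) x24177) x4501) x24183)
    (Nat.sub (Nat.add (Nat.add (Nat.add (Nat.add (Nat.add (Nat.add (Nat.add (Nat.add (Nat.add C x11071) x28567) x22735) x24355) x24247) x24175) x24195) x43875) x4511) x24193)
    (Nat.sub (Nat.add (Nat.add (Nat.add (Nat.add (Nat.add (Nat.add (Nat.add (Nat.add (Nat.add C x11073) x28569) x22737) x24357) x24249) x24177) x24201) x24193) x4513) (Nat.mul x24195 (nat_lit 2)))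
    (Nat.add (Nat.add (Nat.add (Nat.add (Nat.add (Nat.add (Nat.add (Nat.add C x11079) x28575) x22743) x24363) x24255) x24183) x24195) x4519)
    (Nat.sub (Nat.add (Nat.add (Nat.add (Nat.add (Nat.add (Nat.add (Nat.add C x11099) x28595) x22763) x24383) x24167) x24223) x43903) (Nat.mul x24221 (nat_lit 2)))
    (Nat.sub (Nat.add (Nat.add (Nat.add (Nat.add (Nat.add (Nat.add (Nat.add (Nat.add (Nat.add (Nat.add C x11101) x28597) x22765) x24385) x24169) x24229) x24221) x24225) x43905) x4541) (Nat.mul x24223 (nat_lit 2)))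
    (Nat.sub (Nat.add (Nat.add (Nat.add (Nat.add (Nat.add (Nat.add (Nat.add (Nat.add C x11103) x28599) x22767) x24387) x24171) x24231) x24223) x4543) (Nat.mul x24225 (nat_lit 4)))
    (Nat.sub (Nat.add (Nat.add (Nat.add (Nat.add (Nat.add (Nat.add (Nat.add (Nat.add (Nat.add (Nat.add C x11107) x28603) x22771) x24391) x24175) x24247) x24223) x24231) x43911) x4547) (Nat.mul x24229 (nat_lit 3)))
    (Nat.sub (Nat.add (Nat.add (Nat.add (Nat.add (Nat.add (Nat.add (Nat.add (Nat.add (Nat.add (Nat.add C x11109) x28605) x22773) x24393) x24177) x24249) x24225) x24237) x24229) x4549) (Nat.mul x24231 (nat_lit 3)))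
    (Nat.sub (Nat.add (Nat.add (Nat.add (Nat.add (Nat.add (Nat.add (Nat.add (Nat.add C x11115) x28611) x22779) x24399) x24183) x24255) x24231) x4555) (Nat.mul x24237 (nat_lit 4)))
    (Nat.sub (Nat.add (Nat.add (Nat.add (Nat.add (Nat.add (Nat.add (Nat.add (Nat.add (Nat.add C x11125) x28621) x22789) x24409) x24193) x24229) x24249) x43929) x4565) x24247)
    (Nat.sub (Nat.add (Nat.add (Nat.add (Nat.add (Nat.add (Nat.add (Nat.add (Nat.add (Nat.add C x11127) x28623) x22791) x24411) x24195) x24231) x24255) x24247) x4567) (Nat.mul x24249 (nat_lit 2)))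
    (Nat.sub (Nat.add (Nat.add (Nat.add (Nat.add (Nat.add (Nat.add (Nat.add (Nat.add (Nat.add C x11133) x28629) x22797) x24417) x24201) x24237) x24273) x24249) x4573) x24255)
    (Nat.add (Nat.add (Nat.add (Nat.add (Nat.add (Nat.add C x11151) x28647) x22815) x24435) x24255) x4591)
    (Nat.add (Nat.add (Nat.add (Nat.add (Nat.add (Nat.add (Nat.add (Nat.add C x11183) x28679) x22847) x24791) x24143) x24311) x24307) x43987)
    (Nat.sub (Nat.add (Nat.add (Nat.add (Nat.add (Nat.add (Nat.add (Nat.add (Nat.add (Nat.add C x11185) x28681) x22849) x24793) x24145) x24313) x24305) x43989) x4625) x24307)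
    (Nat.sub (Nat.add (Nat.add (Nat.add (Nat.add (Nat.add (Nat.add (Nat.add (Nat.add (Nat.add C x11189) x28685) x22853) x24797) x24149) x24329) x24305) x24313) x43993) (Nat.mul x24311 (nat_lit 2)))
    (Nat.sub (Nat.add (Nat.add (Nat.add (Nat.add (Nat.add (Nat.add (Nat.add (Nat.add (Nat.add (Nat.add (Nat.add (Nat.add C x11191) x28687) x22855) x24799) x24151) x24331) x24307) x24319) x24311) x24315) x43995) x4631) x24313)
    (Nat.sub (Nat.add (Nat.add (Nat.add (Nat.add (Nat.add (Nat.add (Nat.add (Nat.add (Nat.add C x11193) x28689) x22857) x24801) x24153) x24333) x24321) x24313) x4633) (Nat.mul x24315 (nat_lit 2)))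
    (Nat.sub (Nat.add (Nat.add (Nat.add (Nat.add (Nat.add (Nat.add (Nat.add (Nat.add (Nat.add (Nat.add C x11197) x28693) x22861) x24805) x24157) x24337) x24313) x24321) x44001) x4637) (Nat.mul x24319 (nat_lit 3)))
    (Nat.sub (Nat.add (Nat.add (Nat.add (Nat.add (Nat.add (Nat.add (Nat.add (Nat.add (Nat.add C x11199) x28695) x22863) x24807) x24159) x24339) x24315) x24319) x4639) (Nat.mul x24321 (nat_lit 2)))
    (Nat.sub (Nat.add (Nat.add (Nat.add (Nat.add (Nat.add (Nat.add (Nat.add (Nat.add (Nat.add C x11207) x28703) x22871) x24815) x24167) x24383) x24311) x24331) x44011) (Nat.mul x24329 (nat_lit 2)))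
    (Nat.sub (Nat.add (Nat.add (Nat.add (Nat.add (Nat.add (Nat.add (Nat.add (Nat.add (Nat.add (Nat.add (Nat.add (Nat.add C x11209) x28705) x22873) x24817) x24169) x24385) x24313) x24337) x24329) x24333) x44013) x4649) (Nat.mul x24331 (nat_lit 2)))
    (Nat.sub (Nat.add (Nat.add (Nat.add (Nat.add (Nat.add (Nat.add (Nat.add (Nat.add (Nat.add (Nat.add C x11211) x28707) x22875) x24819) x24171) x24387) x24315) x24339) x24331) x4651) (Nat.mul x24333 (nat_lit 4)))
    (Nat.sub (Nat.add (Nat.add (Nat.add (Nat.add (Nat.add (Nat.add (Nat.add (Nat.add (Nat.add (Nat.add (Nat.add (Nat.add C x11215) x28711) x22879) x24823) x24175) x24391) x24319) x24355) x24331) x24339) x44019) x4655) (Nat.mul x24337 (nat_lit 2)))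
    (Nat.sub (Nat.add (Nat.add (Nat.add (Nat.add (Nat.add (Nat.add (Nat.add (Nat.add (Nat.add (Nat.add (Nat.add (Nat.add C x11217) x28713) x22881) x24825) x24177) x24393) x24321) x24357) x24333) x24345) x24337) x4657) (Nat.mul x24339 (nat_lit 2)))
    (Nat.sub (Nat.add (Nat.add (Nat.add (Nat.add (Nat.add (Nat.add (Nat.add (Nat.add (Nat.add C x11223) x28719) x22887) x24831) x24183) x24399) x24363) x24339) x4663) (Nat.mul x24345 (nat_lit 2)))
    (Nat.sub (Nat.add (Nat.add (Nat.add (Nat.add (Nat.add (Nat.add (Nat.add (Nat.add (Nat.add (Nat.add C x11233) x28729) x22897) x24841) x24193) x24409) x24337) x24357) x44037) x4673) (Nat.mul x24355 (nat_lit 3)))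
    (Nat.sub (Nat.add (Nat.add (Nat.add (Nat.add (Nat.add (Nat.add (Nat.add (Nat.add (Nat.add (Nat.add C x11235) x28731) x22899) x24843) x24195) x24411) x24339) x24363) x24355) x4675) (Nat.mul x24357 (nat_lit 4)))
    (Nat.sub (Nat.add (Nat.add (Nat.add (Nat.add (Nat.add (Nat.add (Nat.add (Nat.add (Nat.add C x11241) x28737) x22905) x24849) x24201) x24417) x24345) x24357) x4681) (Nat.mul x24363 (nat_lit 2)))
    (Nat.sub (Nat.add (Nat.add (Nat.add (Nat.add (Nat.add (Nat.add (Nat.add (Nat.add (Nat.add C x11261) x28757) x22925) x24869) x24221) x24545) x24329) x24385) x44065) x24383)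
    (Nat.sub (Nat.add (Nat.add (Nat.add (Nat.add (Nat.add (Nat.add (Nat.add (Nat.add (Nat.add (Nat.add (Nat.add (Nat.add C x11263) x28759) x22927) x24871) x24223) x24547) x24331) x24391) x24383) x24387) x44067) x4703) x24385)
    (Nat.sub (Nat.add (Nat.add (Nat.add (Nat.add (Nat.add (Nat.add (Nat.add (Nat.add (Nat.add (Nat.add C x11265) x28761) x22929) x24873) x24225) x24549) x24333) x24393) x24385) x4705) (Nat.mul x24387 (nat_lit 3)))
    (Nat.sub (Nat.add (Nat.add (Nat.add (Nat.add (Nat.add (Nat.add (Nat.add (Nat.add (Nat.add (Nat.add (Nat.add (Nat.add C x11269) x28765) x22933) x24877) x24229) x24553) x24337) x24409) x24385) x24393) x44073) x4709) (Nat.mul x24391 (nat_lit 2)))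
    (Nat.sub (Nat.add (Nat.add (Nat.add (Nat.add (Nat.add (Nat.add (Nat.add (Nat.add (Nat.add (Nat.add (Nat.add (Nat.add C x11271) x28767) x22935) x24879) x24231) x24555) x24339) x24411) x24387) x24399) x24391) x4711) (Nat.mul x24393 (nat_lit 2)))
    (Nat.sub (Nat.add (Nat.add (Nat.add (Nat.add (Nat.add (Nat.add (Nat.add (Nat.add (Nat.add (Nat.add C x11277) x28773) x22941) x24885) x24237) x24561) x24345) x24417) x24393) x4717) (Nat.mul x24399 (nat_lit 3)))
    (Nat.sub (Nat.add (Nat.add (Nat.add (Nat.add (Nat.add (Nat.add (Nat.add (Nat.add (Nat.add (Nat.add (Nat.add (Nat.add C x11287) x28783) x22951) x24895) x24247) x24571) x24355) x24463) x24391) x24411) x44091) x4727) x24409)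
    (Nat.sub (Nat.add (Nat.add (Nat.add (Nat.add (Nat.add (Nat.add (Nat.add (Nat.add (Nat.add (Nat.add (Nat.add (Nat.add C x11289) x28785) x22953) x24897) x24249) x24573) x24357) x24465) x24393) x24417) x24409) x4729) (Nat.mul x24411 (nat_lit 2)))
    (Nat.sub (Nat.add (Nat.add (Nat.add (Nat.add (Nat.add (Nat.add (Nat.add (Nat.add (Nat.add (Nat.add (Nat.add (Nat.add C x11295) x28791) x22959) x24903) x24255) x24579) x24363) x24471) x24399) x24435) x24411) x4735) x24417)
    (Nat.sub (Nat.add (Nat.add (Nat.add (Nat.add (Nat.add (Nat.add (Nat.add (Nat.add (Nat.add C x11313) x28809) x22977) x24921) x24273) x24597) x24489) x24417) x4753) x24435)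
    (Nat.sub (Nat.add (Nat.add (Nat.add (Nat.add (Nat.add (Nat.add (Nat.add (Nat.add (Nat.add C x11341) x28837) x23005) x24949) x24625) x24409) x24465) x44145) x4781) x24463)
    (Nat.sub (Nat.add (Nat.add (Nat.add (Nat.add (Nat.add (Nat.add (Nat.add (Nat.add (Nat.add C x11343) x28839) x23007) x24951) x24627) x24411) x24471) x24463) x4783) (Nat.mul x24465 (nat_lit 2)))
    (Nat.sub (Nat.add (Nat.add (Nat.add (Nat.add (Nat.add (Nat.add (Nat.add (Nat.add (Nat.add C x11349) x28845) x23013) x24957) x24633) x24417) x24489) x24465) x4789) (Nat.mul x24471 (nat_lit 2)))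
    (Nat.add (Nat.add (Nat.add (Nat.add (Nat.add (Nat.add (Nat.add (Nat.add C x11367) x28863) x23031) x24975) x24651) x24435) x24471) x4807)
    (Nat.sub (Nat.add (Nat.add (Nat.add (Nat.add (Nat.add (Nat.add (Nat.add C x11423) x28919) x23087) x25031) x24383) x24547) x44227) (Nat.mul x24545 (nat_lit 2)))
    (Nat.sub (Nat.add (Nat.add (Nat.add (Nat.add (Nat.add (Nat.add (Nat.add (Nat.add (Nat.add (Nat.add C x11425) x28921) x23089) x25033) x24385) x24553) x24545) x24549) x44229) x4865) (Nat.mul x24547 (nat_lit 2)))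
    (Nat.sub (Nat.add (Nat.add (Nat.add (Nat.add (Nat.add (Nat.add (Nat.add (Nat.add C x11427) x28923) x23091) x25035) x24387) x24555) x24547) x4867) (Nat.mul x24549 (nat_lit 4)))
    (Nat.sub (Nat.add (Nat.add (Nat.add (Nat.add (Nat.add (Nat.add (Nat.add (Nat.add (Nat.add (Nat.add C x11431) x28927) x23095) x25039) x24391) x24571) x24547) x24555) x44235) x4871) (Nat.mul x24553 (nat_lit 3)))
    (Nat.sub (Nat.add (Nat.add (Nat.add (Nat.add (Nat.add (Nat.add (Nat.add (Nat.add (Nat.add (Nat.add C x11433) x28929) x23097) x25041) x24393) x24573) x24549) x24561) x24553) x4873) (Nat.mul x24555 (nat_lit 3)))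
    (Nat.sub (Nat.add (Nat.add (Nat.add (Nat.add (Nat.add (Nat.add (Nat.add (Nat.add C x11439) x28935) x23103) x25047) x24399) x24579) x24555) x4879) (Nat.mul x24561 (nat_lit 4)))
    (Nat.sub (Nat.add (Nat.add (Nat.add (Nat.add (Nat.add (Nat.add (Nat.add (Nat.add (Nat.add (Nat.add C x11449) x28945) x23113) x25057) x24409) x24625) x24553) x24573) x44253) x4889) (Nat.mul x24571 (nat_lit 3)))
    (Nat.sub (Nat.add (Nat.add (Nat.add (Nat.add (Nat.add (Nat.add (Nat.add (Nat.add (Nat.add (Nat.add C x11451) x28947) x23115) x25059) x24411) x24627) x24555) x24579) x24571) x4891) (Nat.mul x24573 (nat_lit 4)))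
    (Nat.sub (Nat.add (Nat.add (Nat.add (Nat.add (Nat.add (Nat.add (Nat.add (Nat.add (Nat.add (Nat.add C x11457) x28953) x23121) x25065) x24417) x24633) x24561) x24597) x24573) x4897) (Nat.mul x24579 (nat_lit 3)))
    (Nat.sub (Nat.add (Nat.add (Nat.add (Nat.add (Nat.add (Nat.add (Nat.add (Nat.add C x11475) x28971) x23139) x25083) x24435) x24651) x24579) x4915) (Nat.mul x24597 (nat_lit 4)))
    (Nat.sub (Nat.add (Nat.add (Nat.add (Nat.add (Nat.add (Nat.add (Nat.add (Nat.add (Nat.add C x11503) x28999) x23167) x25111) x24463) x24571) x24627) x44307) x4943) x24625)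
    (Nat.sub (Nat.add (Nat.add (Nat.add (Nat.add (Nat.add (Nat.add (Nat.add (Nat.add (Nat.add C x11505) x29001) x23169) x25113) x24465) x24573) x24633) x24625) x4945) (Nat.mul x24627 (nat_lit 2)))
    (Nat.sub (Nat.add (Nat.add (Nat.add (Nat.add (Nat.add (Nat.add (Nat.add (Nat.add (Nat.add C x11511) x29007) x23175) x25119) x24471) x24579) x24651) x24627) x4951) (Nat.mul x24633 (nat_lit 2)))
    (Nat.sub (Nat.add (Nat.add (Nat.add (Nat.add (Nat.add (Nat.add (Nat.add (Nat.add (Nat.add C x11529) x29025) x23193) x25137) x24489) x24597) x24705) x24633) x4969) x24651)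
    (Nat.add (Nat.add (Nat.add (Nat.add (Nat.add (Nat.add C x11583) x29079) x23247) x25191) x24651) x5023)
    (Nat.add (Nat.add (Nat.add (Nat.add (Nat.add (Nat.add (Nat.add (Nat.add C (Nat.mul x24791 (nat_lit 2))) x11669) x29165) x23333) x24305) x24797) x24793) x44473)
    (Nat.add (Nat.add (Nat.add (Nat.add (Nat.add (Nat.add (Nat.add (Nat.add (Nat.add C x24793) x11671) x29167) x23335) x24307) x24799) x24791) x44475) x5111)
    (Nat.add (Nat.add (Nat.add (Nat.add (Nat.add (Nat.add (Nat.add (Nat.add C x11675) x29171) x23339) x24311) x24815) x24791) x24799) x44479)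
    (Nat.add (Nat.add (Nat.add (Nat.add (Nat.add (Nat.add (Nat.add (Nat.add (Nat.add (Nat.add (Nat.add (Nat.add C x24799) x11677) x29173) x23341) x24313) x24817) x24793) x24805) x24797) x24801) x44481) x5117)
    (Nat.add (Nat.add (Nat.add (Nat.add (Nat.add (Nat.add (Nat.add (Nat.add C x11679) x29175) x23343) x24315) x24819) x24807) x24799) x5119)
    (Nat.sub (Nat.add (Nat.add (Nat.add (Nat.add (Nat.add (Nat.add (Nat.add (Nat.add (Nat.add C x11683) x29179) x23347) x24319) x24823) x24799) x24807) x44487) x5123) x24805)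
    (Nat.add (Nat.add (Nat.add (Nat.add (Nat.add (Nat.add (Nat.add (Nat.add C x11685) x29181) x23349) x24321) x24825) x24801) x24805) x5125)
    (Nat.add (Nat.add (Nat.add (Nat.add (Nat.add (Nat.add (Nat.add (Nat.add C x11693) x29189) x23357) x24329) x24869) x24797) x24817) x44497)
    (Nat.add (Nat.add (Nat.add (Nat.add (Nat.add (Nat.add (Nat.add (Nat.add (Nat.add (Nat.add (Nat.add C x11695) x29191) x23359) x24331) x24871) x24799) x24823) x24815) x24819) x44499) x5135)
    (Nat.sub (Nat.add (Nat.add (Nat.add (Nat.add (Nat.add (Nat.add (Nat.add (Nat.add (Nat.add C x11697) x29193) x23361) x24333) x24873) x24801) x24825) x24817) x5137) (Nat.mul x24819 (nat_lit 2)))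
    (Nat.add (Nat.add (Nat.add (Nat.add (Nat.add (Nat.add (Nat.add (Nat.add (Nat.add (Nat.add (Nat.add C x11701) x29197) x23365) x24337) x24877) x24805) x24841) x24817) x24825) x44505) x5141)
    (Nat.add (Nat.add (Nat.add (Nat.add (Nat.add (Nat.add (Nat.add (Nat.add (Nat.add (Nat.add (Nat.add C x11703) x29199) x23367) x24339) x24879) x24807) x24843) x24819) x24831) x24823) x5143)
    (Nat.add (Nat.add (Nat.add (Nat.add (Nat.add (Nat.add (Nat.add (Nat.add C x11709) x29205) x23373) x24345) x24885) x24849) x24825) x5149)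
    (Nat.sub (Nat.add (Nat.add (Nat.add (Nat.add (Nat.add (Nat.add (Nat.add (Nat.add (Nat.add C x11719) x29215) x23383) x24355) x24895) x24823) x24843) x44523) x5159) x24841)
    (Nat.sub (Nat.add (Nat.add (Nat.add (Nat.add (Nat.add (Nat.add (Nat.add (Nat.add (Nat.add C x11721) x29217) x23385) x24357) x24897) x24825) x24849) x24841) x5161) (Nat.mul x24843 (nat_lit 2)))
    (Nat.add (Nat.add (Nat.add (Nat.add (Nat.add (Nat.add (Nat.add (Nat.add C x11727) x29223) x23391) x24363) x24903) x24831) x24843) x5167)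
    (Nat.add (Nat.add (Nat.add (Nat.add (Nat.add (Nat.add (Nat.add (Nat.add C x11747) x29243) x23411) x24383) x25031) x24815) x24871) x44551)
    (Nat.add (Nat.add (Nat.add (Nat.add (Nat.add (Nat.add (Nat.add (Nat.add (Nat.add (Nat.add (Nat.add C x11749) x29245) x23413) x24385) x25033) x24817) x24877) x24869) x24873) x44553) x5189)
    (Nat.sub (Nat.add (Nat.add (Nat.add (Nat.add (Nat.add (Nat.add (Nat.add (Nat.add (Nat.add C x11751) x29247) x23415) x24387) x25035) x24819) x24879) x24871) x5191) (Nat.mul x24873 (nat_lit 2)))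
    (Nat.sub (Nat.add (Nat.add (Nat.add (Nat.add (Nat.add (Nat.add (Nat.add (Nat.add (Nat.add (Nat.add (Nat.add C x11755) x29251) x23419) x24391) x25039) x24823) x24895) x24871) x24879) x44559) x5195) x24877)
    (Nat.sub (Nat.add (Nat.add (Nat.add (Nat.add (Nat.add (Nat.add (Nat.add (Nat.add (Nat.add (Nat.add (Nat.add C x11757) x29253) x23421) x24393) x25041) x24825) x24897) x24873) x24885) x24877) x5197) x24879)
    (Nat.sub (Nat.add (Nat.add (Nat.add (Nat.add (Nat.add (Nat.add (Nat.add (Nat.add (Nat.add C x11763) x29259) x23427) x24399) x25047) x24831) x24903) x24879) x5203) (Nat.mul x24885 (nat_lit 2)))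
    (Nat.add (Nat.add (Nat.add (Nat.add (Nat.add (Nat.add (Nat.add (Nat.add (Nat.add (Nat.add (Nat.add C x11773) x29269) x23437) x24409) x25057) x24841) x24949) x24877) x24897) x44577) x5213)
    (Nat.sub (Nat.add (Nat.add (Nat.add (Nat.add (Nat.add (Nat.add (Nat.add (Nat.add (Nat.add (Nat.add (Nat.add C x11775) x29271) x23439) x24411) x25059) x24843) x24951) x24879) x24903) x24895) x5215) x24897)
    (Nat.add (Nat.add (Nat.add (Nat.add (Nat.add (Nat.add (Nat.add (Nat.add (Nat.add (Nat.add (Nat.add C x11781) x29277) x23445) x24417) x25065) x24849) x24957) x24885) x24921) x24897) x5221)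
    (Nat.add (Nat.add (Nat.add (Nat.add (Nat.add (Nat.add (Nat.add (Nat.add C x11799) x29295) x23463) x24435) x25083) x24975) x24903) x5239)
    (Nat.sub (Nat.add (Nat.add (Nat.add (Nat.add (Nat.add (Nat.add (Nat.add (Nat.add (Nat.add C x11827) x29323) x23491) x24463) x25111) x24895) x24951) x44631) x5267) x24949)
    (Nat.sub (Nat.add (Nat.add (Nat.add (Nat.add (Nat.add (Nat.add (Nat.add (Nat.add (Nat.add C x11829) x29325) x23493) x24465) x25113) x24897) x24957) x24949) x5269) (Nat.mul x24951 (nat_lit 2)))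
    (Nat.sub (Nat.add (Nat.add (Nat.add (Nat.add (Nat.add (Nat.add (Nat.add (Nat.add (Nat.add C x11835) x29331) x23499) x24471) x25119) x24903) x24975) x24951) x5275) (Nat.mul x24957 (nat_lit 2)))
    (Nat.add (Nat.add (Nat.add (Nat.add (Nat.add (Nat.add (Nat.add (Nat.add C x11853) x29349) x23517) x24489) x25137) x24921) x24957) x5293)
    (Nat.add (Nat.add (Nat.add (Nat.add (Nat.add (Nat.add (Nat.add (Nat.add (Nat.add C x25031) x11909) x29405) x23573) x24545) x25517) x24869) x25033) x44713)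
    (Nat.add (Nat.add (Nat.add (Nat.add (Nat.add (Nat.add (Nat.add (Nat.add (Nat.add (Nat.add (Nat.add (Nat.add C x25033) x11911) x29407) x23575) x24547) x25519) x24871) x25039) x25031) x25035) x44715) x5351)
    (Nat.sub (Nat.add (Nat.add (Nat.add (Nat.add (Nat.add (Nat.add (Nat.add (Nat.add (Nat.add C x11913) x29409) x23577) x24549) x25521) x24873) x25041) x25033) x5353) x25035)
    (Nat.add (Nat.add (Nat.add (Nat.add (Nat.add (Nat.add (Nat.add (Nat.add (Nat.add (Nat.add (Nat.add C x11917) x29413) x23581) x24553) x25525) x24877) x25057) x25033) x25041) x44721) x5357)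
    (Nat.add (Nat.add (Nat.add (Nat.add (Nat.add (Nat.add (Nat.add (Nat.add (Nat.add (Nat.add (Nat.add C x11919) x29415) x23583) x24555) x25527) x24879) x25059) x25035) x25047) x25039) x5359)
    (Nat.sub (Nat.add (Nat.add (Nat.add (Nat.add (Nat.add (Nat.add (Nat.add (Nat.add (Nat.add C x11925) x29421) x23589) x24561) x25533) x24885) x25065) x25041) x5365) x25047)
    (Nat.add (Nat.add (Nat.add (Nat.add (Nat.add (Nat.add (Nat.add (Nat.add (Nat.add (Nat.add (Nat.add C x11935) x29431) x23599) x24571) x25543) x24895) x25111) x25039) x25059) x44739) x5375)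
    (Nat.sub (Nat.add (Nat.add (Nat.add (Nat.add (Nat.add (Nat.add (Nat.add (Nat.add (Nat.add (Nat.add (Nat.add C x11937) x29433) x23601) x24573) x25545) x24897) x25113) x25041) x25065) x25057) x5377) x25059)
    (Nat.add (Nat.add (Nat.add (Nat.add (Nat.add (Nat.add (Nat.add (Nat.add (Nat.add (Nat.add (Nat.add C x11943) x29439) x23607) x24579) x25551) x24903) x25119) x25047) x25083) x25059) x5383)
    (Nat.sub (Nat.add (Nat.add (Nat.add (Nat.add (Nat.add (Nat.add (Nat.add (Nat.add (Nat.add C x11961) x29457) x23625) x24597) x25569) x24921) x25137) x25065) x5401) x25083)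
    (Nat.add (Nat.add (Nat.add (Nat.add (Nat.add (Nat.add (Nat.add (Nat.add (Nat.add (Nat.add (Nat.add (Nat.add C x25111) x11989) x29485) x23653) x24625) x25597) x24949) x25273) x25057) x25113) x44793) x5429)
    (Nat.add (Nat.add (Nat.add (Nat.add (Nat.add (Nat.add (Nat.add (Nat.add (Nat.add (Nat.add (Nat.add C x11991) x29487) x23655) x24627) x25599) x24951) x25275) x25059) x25119) x25111) x5431)
    (Nat.add (Nat.add (Nat.add (Nat.add (Nat.add (Nat.add (Nat.add (Nat.add (Nat.add (Nat.add (Nat.add C x11997) x29493) x23661) x24633) x25605) x24957) x25281) x25065) x25137) x25113) x5437)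
    (Nat.add (Nat.add (Nat.add (Nat.add (Nat.add (Nat.add (Nat.add (Nat.add (Nat.add (Nat.add (Nat.add (Nat.add C x25137) x12015) x29511) x23679) x24651) x25623) x24975) x25299) x25083) x25191) x25119) x5455)
    (Nat.add (Nat.add (Nat.add (Nat.add (Nat.add (Nat.add (Nat.add (Nat.add (Nat.add C x25191) x12069) x29565) x23733) x24705) x25677) x25353) x25137) x5509)
    (Nat.add (Nat.add (Nat.add (Nat.add (Nat.add (Nat.add (Nat.add (Nat.add (Nat.add C x25273) x12151) x29647) x23815) x25759) x25111) x25275) x44955) x5591)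
    (Nat.add (Nat.add (Nat.add (Nat.add (Nat.add (Nat.add (Nat.add (Nat.add C x12153) x29649) x23817) x25761) x25113) x25281) x25273) x5593)
    (Nat.add (Nat.add (Nat.add (Nat.add (Nat.add (Nat.add (Nat.add (Nat.add C x12159) x29655) x23823) x25767) x25119) x25299) x25275) x5599)
    (Nat.add (Nat.add (Nat.add (Nat.add (Nat.add (Nat.add (Nat.add (Nat.add C x12177) x29673) x23841) x25785) x25137) x25353) x25281) x5617)
    (Nat.add (Nat.add (Nat.add (Nat.add (Nat.add (Nat.add (Nat.add (Nat.add C (Nat.mul x25353 (nat_lit 2))) x12231) x29727) x23895) x25839) x25191) x25299) x5671)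
    (Nat.add (Nat.add (Nat.add (Nat.add (Nat.add (Nat.add C (Nat.mul x25517 (nat_lit 2))) x12395) x29891) x25031) x25519) x45199)
    (Nat.add (Nat.add (Nat.add (Nat.add (Nat.add (Nat.add (Nat.add (Nat.add (Nat.add C (Nat.mul x25519 (nat_lit 2))) x12397) x29893) x25033) x25525) x25517) x25521) x45201) x5837)
    (Nat.add (Nat.add (Nat.add (Nat.add (Nat.add (Nat.add C x12399) x29895) x25035) x25527) x25519) x5839)
    (Nat.add (Nat.add (Nat.add (Nat.add (Nat.add (Nat.add (Nat.add (Nat.add (Nat.add C x25525) x12403) x29899) x25039) x25543) x25519) x25527) x45207) x5843)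
    (Nat.add (Nat.add (Nat.add (Nat.add (Nat.add (Nat.add (Nat.add (Nat.add (Nat.add C x25527) x12405) x29901) x25041) x25545) x25521) x25533) x25525) x5845)
    (Nat.add (Nat.add (Nat.add (Nat.add (Nat.add (Nat.add C x12411) x29907) x25047) x25551) x25527) x5851)
    (Nat.add (Nat.add (Nat.add (Nat.add (Nat.add (Nat.add (Nat.add (Nat.add (Nat.add C x25543) x12421) x29917) x25057) x25597) x25525) x25545) x45225) x5861)
    (Nat.add (Nat.add (Nat.add (Nat.add (Nat.add (Nat.add (Nat.add (Nat.add C x12423) x29919) x25059) x25599) x25527) x25551) x25543) x5863)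
    (Nat.add (Nat.add (Nat.add (Nat.add (Nat.add (Nat.add (Nat.add (Nat.add (Nat.add C x25551) x12429) x29925) x25065) x25605) x25533) x25569) x25545) x5869)
    (Nat.add (Nat.add (Nat.add (Nat.add (Nat.add (Nat.add C x12447) x29943) x25083) x25623) x25551) x5887)
    (Nat.add (Nat.add (Nat.add (Nat.add (Nat.add (Nat.add (Nat.add (Nat.add (Nat.add C x25597) x12475) x29971) x25111) x25759) x25543) x25599) x45279) x5915)
    (Nat.add (Nat.add (Nat.add (Nat.add (Nat.add (Nat.add (Nat.add (Nat.add C x12477) x29973) x25113) x25761) x25545) x25605) x25597) x5917)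
    (Nat.add (Nat.add (Nat.add (Nat.add (Nat.add (Nat.add (Nat.add (Nat.add C x12483) x29979) x25119) x25767) x25551) x25623) x25599) x5923)
    (Nat.add (Nat.add (Nat.add (Nat.add (Nat.add (Nat.add (Nat.add (Nat.add (Nat.add C x25623) x12501) x29997) x25137) x25785) x25569) x25677) x25605) x5941)
    (Nat.add (Nat.add (Nat.add (Nat.add (Nat.add (Nat.add C x12555) x30051) x25191) x25839) x25623) x5995)
    (Nat.add (Nat.add (Nat.add (Nat.add (Nat.add (Nat.add (Nat.add (Nat.add C (Nat.mul x25759 (nat_lit 3))) x12637) x30133) x25273) x25597) x25761) x45441) x6077)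
    (Nat.add (Nat.add (Nat.add (Nat.add (Nat.add (Nat.add (Nat.add (Nat.add C (Nat.mul x25761 (nat_lit 2))) x12639) x30135) x25275) x25599) x25767) x25759) x6079)
    (Nat.add (Nat.add (Nat.add (Nat.add (Nat.add (Nat.add (Nat.add (Nat.add C (Nat.mul x25767 (nat_lit 2))) x12645) x30141) x25281) x25605) x25785) x25761) x6085)
    (Nat.add (Nat.add (Nat.add (Nat.add (Nat.add (Nat.add (Nat.add (Nat.add C (Nat.mul x25785 (nat_lit 2))) x12663) x30159) x25299) x25623) x25839) x25767) x6103)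
    (Nat.add (Nat.add (Nat.add (Nat.add (Nat.add (Nat.add (Nat.add (Nat.add C (Nat.mul x25839 (nat_lit 3))) x12717) x30213) x25353) x25677) x26001) x25785) x6157)
    (Nat.add (Nat.add (Nat.add (Nat.add (Nat.add C (Nat.mul x26001 (nat_lit 4))) x12879) x30375) x25839) x6319)
    (Nat.add (Nat.add (Nat.add (Nat.add (Nat.add (Nat.add (Nat.add C (Nat.mul x26261 (nat_lit 5))) x13139) x39383) x21887) x26279) x26267) x45943)
    (Nat.add (Nat.add (Nat.add (Nat.add (Nat.add (Nat.add (Nat.add (Nat.add C (Nat.mul x26267 (nat_lit 3))) x13145) x39389) x21893) x26285) x26261) x26269) x45949)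
    (Nat.add (Nat.add (Nat.add (Nat.add (Nat.add (Nat.add (Nat.add (Nat.add C (Nat.mul x26269 (nat_lit 4))) x13147) x39391) x21895) x26287) x26267) x45951) x6587)
    (Nat.add (Nat.add (Nat.add (Nat.add (Nat.add (Nat.add (Nat.add (Nat.add C (Nat.mul x26279 (nat_lit 3))) x13157) x39401) x21905) x26333) x26261) x26285) x45961)
    (Nat.add (Nat.add (Nat.add (Nat.add (Nat.add (Nat.add (Nat.add (Nat.add (Nat.add (Nat.add (Nat.add C (Nat.mul x26285 (nat_lit 3))) x13163) x39407) x21911) x26339) x26267) x26303) x26279) x26291) x26287) x45967)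
    (Nat.add (Nat.add (Nat.add (Nat.add (Nat.add (Nat.add (Nat.add (Nat.add (Nat.add (Nat.add (Nat.add C (Nat.mul x26287 (nat_lit 3))) x13165) x39409) x21913) x26341) x26269) x26305) x26293) x26285) x45969) x6605)
    (Nat.add (Nat.add (Nat.add (Nat.add (Nat.add (Nat.add (Nat.add (Nat.add (Nat.add C x26291) x13169) x39413) x21917) x26345) x26309) x26285) x26293) x45973)
    (Nat.add (Nat.add (Nat.add (Nat.add (Nat.add (Nat.add (Nat.add (Nat.add (Nat.add (Nat.add (Nat.add C (Nat.mul x26293 (nat_lit 3))) x13171) x39415) x21919) x26347) x26311) x26287) x26291) x26295) x45975) x6611)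
    (Nat.add (Nat.add (Nat.add (Nat.add (Nat.add (Nat.add (Nat.add (Nat.add C (Nat.mul x26295 (nat_lit 3))) x13173) x39417) x21921) x26349) x26313) x26293) x6613)
    (Nat.add (Nat.add (Nat.add (Nat.add (Nat.add (Nat.add (Nat.add (Nat.add (Nat.add C x26303) x13181) x39425) x21929) x26357) x26285) x26309) x26305) x45985)
    (Nat.add (Nat.add (Nat.add (Nat.add (Nat.add (Nat.add (Nat.add (Nat.add (Nat.add C x13183) x39427) x21931) x26359) x26287) x26311) x26303) x45987) x6623)
    (Nat.add (Nat.add (Nat.add (Nat.add (Nat.add (Nat.add (Nat.add (Nat.add (Nat.add C x26309) x13187) x39431) x21935) x26363) x26291) x26303) x26311) x45991)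
    (Nat.add (Nat.add (Nat.add (Nat.add (Nat.add (Nat.add (Nat.add (Nat.add (Nat.add (Nat.add (Nat.add (Nat.add C (Nat.mul x26311 (nat_lit 2))) x13189) x39433) x21937) x26365) x26293) x26305) x26317) x26309) x26313) x45993) x6629)
    (Nat.add (Nat.add (Nat.add (Nat.add (Nat.add (Nat.add (Nat.add (Nat.add (Nat.add C x26313) x13191) x39435) x21939) x26367) x26295) x26319) x26311) x6631)
    (Nat.add (Nat.add (Nat.add (Nat.add (Nat.add (Nat.add (Nat.add (Nat.add (Nat.add C (Nat.mul x26317 (nat_lit 2))) x13195) x39439) x21943) x26371) x26311) x26319) x45999) x6635)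
    (Nat.add (Nat.add (Nat.add (Nat.add (Nat.add (Nat.add (Nat.add (Nat.add C (Nat.mul x26319 (nat_lit 3))) x13197) x39441) x21945) x26373) x26313) x26317) x6637)
    (Nat.add (Nat.add (Nat.add (Nat.add (Nat.add (Nat.add (Nat.add (Nat.add C (Nat.mul x26333 (nat_lit 3))) x13211) x39455) x21959) x26495) x26279) x26339) x46015)
    (Nat.add (Nat.add (Nat.add (Nat.add (Nat.add (Nat.add (Nat.add (Nat.add (Nat.add (Nat.add (Nat.add C (Nat.mul x26339 (nat_lit 2))) x13217) x39461) x21965) x26501) x26285) x26357) x26333) x26345) x26341) x46021)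
    (Nat.add (Nat.add (Nat.add (Nat.add (Nat.add (Nat.add (Nat.add (Nat.add (Nat.add (Nat.add (Nat.add C (Nat.mul x26341 (nat_lit 2))) x13219) x39463) x21967) x26503) x26287) x26359) x26347) x26339) x46023) x6659)
    (Nat.sub (Nat.add (Nat.add (Nat.add (Nat.add (Nat.add (Nat.add (Nat.add (Nat.add (Nat.add C x13223) x39467) x21971) x26507) x26291) x26363) x26339) x26347) x46027) x26345)
    (Nat.add (Nat.add (Nat.add (Nat.add (Nat.add (Nat.add (Nat.add (Nat.add (Nat.add (Nat.add (Nat.add (Nat.add C x26347) x13225) x39469) x21973) x26509) x26293) x26365) x26341) x26345) x26349) x46029) x6665)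
    (Nat.add (Nat.add (Nat.add (Nat.add (Nat.add (Nat.add (Nat.add (Nat.add (Nat.add C x26349) x13227) x39471) x21975) x26511) x26295) x26367) x26347) x6667)
    (Nat.add (Nat.add (Nat.add (Nat.add (Nat.add (Nat.add (Nat.add (Nat.add (Nat.add (Nat.add (Nat.add C (Nat.mul x26357 (nat_lit 2))) x13235) x39479) x21983) x26519) x26303) x26411) x26339) x26363) x26359) x46039)
    (Nat.add (Nat.add (Nat.add (Nat.add (Nat.add (Nat.add (Nat.add (Nat.add (Nat.add (Nat.add (Nat.add (Nat.add C x26359) x13237) x39481) x21985) x26521) x26305) x26413) x26341) x26365) x26357) x46041) x6677)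
    (Nat.add (Nat.add (Nat.add (Nat.add (Nat.add (Nat.add (Nat.add (Nat.add (Nat.add (Nat.add (Nat.add (Nat.add C x26363) x13241) x39485) x21989) x26525) x26309) x26417) x26345) x26381) x26357) x26365) x46045)
    (Nat.add (Nat.add (Nat.add (Nat.add (Nat.add (Nat.add (Nat.add (Nat.add (Nat.add (Nat.add (Nat.add (Nat.add (Nat.add (Nat.add (Nat.add C (Nat.mul x26365 (nat_lit 2))) x13243) x39487) x21991) x26527) x26311) x26419) x26347) x26383) x26359) x26371) x26363) x26367) x46047) x6683)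
    (Nat.add (Nat.add (Nat.add (Nat.add (Nat.add (Nat.add (Nat.add (Nat.add (Nat.add (Nat.add (Nat.add (Nat.add C x26367) x13245) x39489) x21993) x26529) x26313) x26421) x26349) x26385) x26373) x26365) x6685)
    (Nat.add (Nat.add (Nat.add (Nat.add (Nat.add (Nat.add (Nat.add (Nat.add (Nat.add (Nat.add (Nat.add (Nat.add C x26371) x13249) x39493) x21997) x26533) x26317) x26425) x26389) x26365) x26373) x46053) x6689)
    (Nat.add (Nat.add (Nat.add (Nat.add (Nat.add (Nat.add (Nat.add (Nat.add (Nat.add (Nat.add (Nat.add C (Nat.mul x26373 (nat_lit 2))) x13251) x39495) x21999) x26535) x26319) x26427) x26391) x26367) x26371) x6691)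
    (Nat.add (Nat.add (Nat.add (Nat.add (Nat.add (Nat.add (Nat.add (Nat.add (Nat.add C x26381) x13259) x39503) x22007) x26543) x26435) x26363) x26383) x46063)
    (Nat.add (Nat.add (Nat.add (Nat.add (Nat.add (Nat.add (Nat.add (Nat.add (Nat.add (Nat.add (Nat.add (Nat.add C x26383) x13261) x39505) x22009) x26545) x26437) x26365) x26389) x26381) x26385) x46065) x6701)
    (Nat.sub (Nat.add (Nat.add (Nat.add (Nat.add (Nat.add (Nat.add (Nat.add (Nat.add (Nat.add C x13263) x39507) x22011) x26547) x26439) x26367) x26391) x26383) x6703) x26385)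
    (Nat.add (Nat.add (Nat.add (Nat.add (Nat.add (Nat.add (Nat.add (Nat.add (Nat.add (Nat.add (Nat.add C (Nat.mul x26389 (nat_lit 2))) x13267) x39511) x22015) x26551) x26443) x26371) x26383) x26391) x46071) x6707)
    (Nat.add (Nat.add (Nat.add (Nat.add (Nat.add (Nat.add (Nat.add (Nat.add (Nat.add (Nat.add (Nat.add C (Nat.mul x26391 (nat_lit 2))) x13269) x39513) x22017) x26553) x26445) x26373) x26385) x26397) x26389) x6709)
    (Nat.add (Nat.add (Nat.add (Nat.add (Nat.add (Nat.add (Nat.add (Nat.add C (Nat.mul x26397 (nat_lit 3))) x13275) x39519) x22023) x26559) x26451) x26391) x6715)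
    (Nat.add (Nat.add (Nat.add (Nat.add (Nat.add (Nat.add (Nat.add (Nat.add (Nat.add C x26411) x13289) x39533) x22037) x26573) x26357) x26417) x26413) x46093)
    (Nat.add (Nat.add (Nat.add (Nat.add (Nat.add (Nat.add (Nat.add (Nat.add (Nat.add C x13291) x39535) x22039) x26575) x26359) x26419) x26411) x46095) x6731)
    (Nat.sub (Nat.add (Nat.add (Nat.add (Nat.add (Nat.add (Nat.add (Nat.add (Nat.add (Nat.add C x13295) x39539) x22043) x26579) x26363) x26435) x26411) x26419) x46099) x26417)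
    (Nat.add (Nat.add (Nat.add (Nat.add (Nat.add (Nat.add (Nat.add (Nat.add (Nat.add (Nat.add (Nat.add (Nat.add C x13297) x39541) x22045) x26581) x26365) x26437) x26413) x26425) x26417) x26421) x46101) x6737)
    (Nat.sub (Nat.add (Nat.add (Nat.add (Nat.add (Nat.add (Nat.add (Nat.add (Nat.add (Nat.add C x13299) x39543) x22047) x26583) x26367) x26439) x26427) x26419) x6739) x26421)
    (Nat.sub (Nat.add (Nat.add (Nat.add (Nat.add (Nat.add (Nat.add (Nat.add (Nat.add (Nat.add (Nat.add C x13303) x39547) x22051) x26587) x26371) x26443) x26419) x26427) x46107) x6743) (Nat.mul x26425 (nat_lit 2)))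
    (Nat.sub (Nat.add (Nat.add (Nat.add (Nat.add (Nat.add (Nat.add (Nat.add (Nat.add (Nat.add C x13305) x39549) x22053) x26589) x26373) x26445) x26421) x26425) x6745) x26427)
    (Nat.add (Nat.add (Nat.add (Nat.add (Nat.add (Nat.add (Nat.add (Nat.add (Nat.add C x26435) x13313) x39557) x22061) x26597) x26381) x26417) x26437) x46117)
    (Nat.add (Nat.add (Nat.add (Nat.add (Nat.add (Nat.add (Nat.add (Nat.add (Nat.add (Nat.add (Nat.add (Nat.add C x26437) x13315) x39559) x22063) x26599) x26383) x26419) x26443) x26435) x26439) x46119) x6755)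
    (Nat.sub (Nat.add (Nat.add (Nat.add (Nat.add (Nat.add (Nat.add (Nat.add (Nat.add (Nat.add C x13317) x39561) x22065) x26601) x26385) x26421) x26445) x26437) x6757) x26439)
    (Nat.add (Nat.add (Nat.add (Nat.add (Nat.add (Nat.add (Nat.add (Nat.add (Nat.add (Nat.add (Nat.add (Nat.add C x26443) x13321) x39565) x22069) x26605) x26389) x26425) x26461) x26437) x26445) x46125) x6761)
    (Nat.add (Nat.add (Nat.add (Nat.add (Nat.add (Nat.add (Nat.add (Nat.add (Nat.add (Nat.add (Nat.add (Nat.add C x26445) x13323) x39567) x22071) x26607) x26391) x26427) x26463) x26439) x26451) x26443) x6763)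
    (Nat.add (Nat.add (Nat.add (Nat.add (Nat.add (Nat.add (Nat.add (Nat.add (Nat.add C x26451) x13329) x39573) x22077) x26613) x26397) x26469) x26445) x6769)
    (Nat.add (Nat.add (Nat.add (Nat.add (Nat.add (Nat.add (Nat.add (Nat.add (Nat.add C (Nat.mul x26461 (nat_lit 2))) x13339) x39583) x22087) x26623) x26443) x26463) x46143) x6779)
    (Nat.add (Nat.add (Nat.add (Nat.add (Nat.add (Nat.add (Nat.add (Nat.add (Nat.add C x26463) x13341) x39585) x22089) x26625) x26445) x26469) x26461) x6781)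
    (Nat.add (Nat.add (Nat.add (Nat.add (Nat.add (Nat.add (Nat.add (Nat.add C (Nat.mul x26469 (nat_lit 3))) x13347) x39591) x22095) x26631) x26451) x26463) x6787)
    (Nat.add (Nat.add (Nat.add (Nat.add (Nat.add (Nat.add (Nat.add (Nat.add C (Nat.mul x26495 (nat_lit 3))) x13373) x39617) x22121) x26981) x26333) x26501) x46177)
    (Nat.add (Nat.add (Nat.add (Nat.add (Nat.add (Nat.add (Nat.add (Nat.add (Nat.add (Nat.add (Nat.add C (Nat.mul x26501 (nat_lit 2))) x13379) x39623) x22127) x26987) x26339) x26519) x26495) x26507) x26503) x46183)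
    (Nat.add (Nat.add (Nat.add (Nat.add (Nat.add (Nat.add (Nat.add (Nat.add (Nat.add (Nat.add (Nat.add C (Nat.mul x26503 (nat_lit 2))) x13381) x39625) x22129) x26989) x26341) x26521) x26509) x26501) x46185) x6821)
    (Nat.sub (Nat.add (Nat.add (Nat.add (Nat.add (Nat.add (Nat.add (Nat.add (Nat.add (Nat.add C x13385) x39629) x22133) x26993) x26345) x26525) x26501) x26509) x46189) x26507)
    (Nat.add (Nat.add (Nat.add (Nat.add (Nat.add (Nat.add (Nat.add (Nat.add (Nat.add (Nat.add (Nat.add (Nat.add C x26509) x13387) x39631) x22135) x26995) x26347) x26527) x26503) x26507) x26511) x46191) x6827)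
    (Nat.add (Nat.add (Nat.add (Nat.add (Nat.add (Nat.add (Nat.add (Nat.add (Nat.add C x26511) x13389) x39633) x22137) x26997) x26349) x26529) x26509) x6829)
    (Nat.add (Nat.add (Nat.add (Nat.add (Nat.add (Nat.add (Nat.add (Nat.add (Nat.add (Nat.add (Nat.add C x26519) x13397) x39641) x22145) x27005) x26357) x26573) x26501) x26525) x26521) x46201)
    (Nat.add (Nat.add (Nat.add (Nat.add (Nat.add (Nat.add (Nat.add (Nat.add (Nat.add (Nat.add (Nat.add C x13399) x39643) x22147) x27007) x26359) x26575) x26503) x26527) x26519) x46203) x6839)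
    (Nat.add (Nat.add (Nat.add (Nat.add (Nat.add (Nat.add (Nat.add (Nat.add (Nat.add (Nat.add (Nat.add C x13403) x39647) x22151) x27011) x26363) x26579) x26507) x26543) x26519) x26527) x46207)
    (Nat.add (Nat.add (Nat.add (Nat.add (Nat.add (Nat.add (Nat.add (Nat.add (Nat.add (Nat.add (Nat.add (Nat.add (Nat.add (Nat.add (Nat.add C x26527) x13405) x39649) x22153) x27013) x26365) x26581) x26509) x26545) x26521) x26533) x26525) x26529) x46209) x6845)
    (Nat.add (Nat.add (Nat.add (Nat.add (Nat.add (Nat.add (Nat.add (Nat.add (Nat.add (Nat.add (Nat.add C x13407) x39651) x22155) x27015) x26367) x26583) x26511) x26547) x26535) x26527) x6847)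
    (Nat.add (Nat.add (Nat.add (Nat.add (Nat.add (Nat.add (Nat.add (Nat.add (Nat.add (Nat.add (Nat.add C x13411) x39655) x22159) x27019) x26371) x26587) x26551) x26527) x26535) x46215) x6851)
    (Nat.add (Nat.add (Nat.add (Nat.add (Nat.add (Nat.add (Nat.add (Nat.add (Nat.add (Nat.add (Nat.add C x26535) x13413) x39657) x22161) x27021) x26373) x26589) x26553) x26529) x26533) x6853)
    (Nat.sub (Nat.add (Nat.add (Nat.add (Nat.add (Nat.add (Nat.add (Nat.add (Nat.add (Nat.add C x13421) x39665) x22169) x27029) x26381) x26597) x26525) x26545) x46225) x26543)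
    (Nat.sub (Nat.add (Nat.add (Nat.add (Nat.add (Nat.add (Nat.add (Nat.add (Nat.add (Nat.add (Nat.add (Nat.add (Nat.add C x13423) x39667) x22171) x27031) x26383) x26599) x26527) x26551) x26543) x26547) x46227) x6863) x26545)
    (Nat.sub (Nat.add (Nat.add (Nat.add (Nat.add (Nat.add (Nat.add (Nat.add (Nat.add (Nat.add (Nat.add C x13425) x39669) x22173) x27033) x26385) x26601) x26529) x26553) x26545) x6865) (Nat.mul x26547 (nat_lit 3)))
    (Nat.add (Nat.add (Nat.add (Nat.add (Nat.add (Nat.add (Nat.add (Nat.add (Nat.add (Nat.add (Nat.add C x13429) x39673) x22177) x27037) x26389) x26605) x26533) x26545) x26553) x46233) x6869)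
    (Nat.add (Nat.add (Nat.add (Nat.add (Nat.add (Nat.add (Nat.add (Nat.add (Nat.add (Nat.add (Nat.add C x13431) x39675) x22179) x27039) x26391) x26607) x26535) x26547) x26559) x26551) x6871)
    (Nat.add (Nat.add (Nat.add (Nat.add (Nat.add (Nat.add (Nat.add (Nat.add (Nat.add C x26559) x13437) x39681) x22185) x27045) x26397) x26613) x26553) x6877)
    (Nat.add (Nat.add (Nat.add (Nat.add (Nat.add (Nat.add (Nat.add (Nat.add (Nat.add (Nat.add (Nat.add C (Nat.mul x26573 (nat_lit 2))) x13451) x39695) x22199) x27059) x26411) x26735) x26519) x26579) x26575) x46255)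
    (Nat.add (Nat.add (Nat.add (Nat.add (Nat.add (Nat.add (Nat.add (Nat.add (Nat.add (Nat.add (Nat.add (Nat.add C x26575) x13453) x39697) x22201) x27061) x26413) x26737) x26521) x26581) x26573) x46257) x6893)
    (Nat.add (Nat.add (Nat.add (Nat.add (Nat.add (Nat.add (Nat.add (Nat.add (Nat.add (Nat.add (Nat.add C x13457) x39701) x22205) x27065) x26417) x26741) x26525) x26597) x26573) x26581) x46261)
    (Nat.add (Nat.add (Nat.add (Nat.add (Nat.add (Nat.add (Nat.add (Nat.add (Nat.add (Nat.add (Nat.add (Nat.add (Nat.add (Nat.add (Nat.add C x26581) x13459) x39703) x22207) x27067) x26419) x26743) x26527) x26599) x26575) x26587) x26579) x26583) x46263) x6899)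
    (Nat.add (Nat.add (Nat.add (Nat.add (Nat.add (Nat.add (Nat.add (Nat.add (Nat.add (Nat.add (Nat.add C x13461) x39705) x22209) x27069) x26421) x26745) x26529) x26601) x26589) x26581) x6901)
    (Nat.sub (Nat.add (Nat.add (Nat.add (Nat.add (Nat.add (Nat.add (Nat.add (Nat.add (Nat.add (Nat.add (Nat.add (Nat.add C x13465) x39709) x22213) x27073) x26425) x26749) x26533) x26605) x26581) x26589) x46269) x6905) x26587)
    (Nat.add (Nat.add (Nat.add (Nat.add (Nat.add (Nat.add (Nat.add (Nat.add (Nat.add (Nat.add (Nat.add C x13467) x39711) x22215) x27075) x26427) x26751) x26535) x26607) x26583) x26587) x6907)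
    (Nat.add (Nat.add (Nat.add (Nat.add (Nat.add (Nat.add (Nat.add (Nat.add (Nat.add (Nat.add (Nat.add (Nat.add C x26597) x13475) x39719) x22223) x27083) x26435) x26759) x26543) x26651) x26579) x26599) x46279)
    (Nat.add (Nat.add (Nat.add (Nat.add (Nat.add (Nat.add (Nat.add (Nat.add (Nat.add (Nat.add (Nat.add (Nat.add (Nat.add (Nat.add (Nat.add C x26599) x13477) x39721) x22225) x27085) x26437) x26761) x26545) x26653) x26581) x26605) x26597) x26601) x46281) x6917)
    (Nat.sub (Nat.add (Nat.add (Nat.add (Nat.add (Nat.add (Nat.add (Nat.add (Nat.add (Nat.add (Nat.add (Nat.add (Nat.add C x13479) x39723) x22227) x27087) x26439) x26763) x26547) x26655) x26583) x26607) x26599) x6919) x26601)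
    (Nat.add (Nat.add (Nat.add (Nat.add (Nat.add (Nat.add (Nat.add (Nat.add (Nat.add (Nat.add (Nat.add (Nat.add (Nat.add (Nat.add (Nat.add C x26605) x13483) x39727) x22231) x27091) x26443) x26767) x26551) x26659) x26587) x26623) x26599) x26607) x46287) x6923)
    (Nat.add (Nat.add (Nat.add (Nat.add (Nat.add (Nat.add (Nat.add (Nat.add (Nat.add (Nat.add (Nat.add (Nat.add (Nat.add (Nat.add (Nat.add C x26607) x13485) x39729) x22233) x27093) x26445) x26769) x26553) x26661) x26589) x26625) x26601) x26613) x26605) x6925)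
    (Nat.add (Nat.add (Nat.add (Nat.add (Nat.add (Nat.add (Nat.add (Nat.add (Nat.add (Nat.add (Nat.add (Nat.add C x26613) x13491) x39735) x22239) x27099) x26451) x26775) x26559) x26667) x26631) x26607) x6931)
    (Nat.add (Nat.add (Nat.add (Nat.add (Nat.add (Nat.add (Nat.add (Nat.add (Nat.add (Nat.add (Nat.add (Nat.add C x26623) x13501) x39745) x22249) x27109) x26461) x26785) x26677) x26605) x26625) x46305) x6941)
    (Nat.add (Nat.add (Nat.add (Nat.add (Nat.add (Nat.add (Nat.add (Nat.add (Nat.add (Nat.add (Nat.add C x13503) x39747) x22251) x27111) x26463) x26787) x26679) x26607) x26631) x26623) x6943)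
    (Nat.add (Nat.add (Nat.add (Nat.add (Nat.add (Nat.add (Nat.add (Nat.add (Nat.add (Nat.add (Nat.add C (Nat.mul x26631 (nat_lit 2))) x13509) x39753) x22257) x27117) x26469) x26793) x26685) x26613) x26625) x6949)
    (Nat.add (Nat.add (Nat.add (Nat.add (Nat.add (Nat.add (Nat.add (Nat.add (Nat.add C x26651) x13529) x39773) x22277) x27137) x26813) x26597) x26653) x46333)
    (Nat.add (Nat.add (Nat.add (Nat.add (Nat.add (Nat.add (Nat.add (Nat.add (Nat.add (Nat.add (Nat.add (Nat.add C x26653) x13531) x39775) x22279) x27139) x26815) x26599) x26659) x26651) x26655) x46335) x6971)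
    (Nat.sub (Nat.add (Nat.add (Nat.add (Nat.add (Nat.add (Nat.add (Nat.add (Nat.add (Nat.add C x13533) x39777) x22281) x27141) x26817) x26601) x26661) x26653) x6973) x26655)
    (Nat.add (Nat.add (Nat.add (Nat.add (Nat.add (Nat.add (Nat.add (Nat.add (Nat.add (Nat.add (Nat.add C x13537) x39781) x22285) x27145) x26821) x26605) x26677) x26653) x26661) x46341) x6977)
    (Nat.add (Nat.add (Nat.add (Nat.add (Nat.add (Nat.add (Nat.add (Nat.add (Nat.add (Nat.add (Nat.add C x13539) x39783) x22287) x27147) x26823) x26607) x26679) x26655) x26667) x26659) x6979)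
    (Nat.sub (Nat.add (Nat.add (Nat.add (Nat.add (Nat.add (Nat.add (Nat.add (Nat.add (Nat.add C x13545) x39789) x22293) x27153) x26829) x26613) x26685) x26661) x6985) x26667)
    (Nat.add (Nat.add (Nat.add (Nat.add (Nat.add (Nat.add (Nat.add (Nat.add (Nat.add (Nat.add (Nat.add C (Nat.mul x26677 (nat_lit 2))) x13555) x39799) x22303) x27163) x26839) x26623) x26659) x26679) x46359) x6995)
    (Nat.add (Nat.add (Nat.add (Nat.add (Nat.add (Nat.add (Nat.add (Nat.add (Nat.add (Nat.add (Nat.add C x26679) x13557) x39801) x22305) x27165) x26841) x26625) x26661) x26685) x26677) x6997)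
    (Nat.add (Nat.add (Nat.add (Nat.add (Nat.add (Nat.add (Nat.add (Nat.add (Nat.add (Nat.add (Nat.add C (Nat.mul x26685 (nat_lit 2))) x13563) x39807) x22311) x27171) x26847) x26631) x26667) x26703) x26679) x7003)
    (Nat.add (Nat.add (Nat.add (Nat.add (Nat.add (Nat.add (Nat.add (Nat.add C (Nat.mul x26703 (nat_lit 3))) x13581) x39825) x22329) x27189) x26865) x26685) x7021)
    (Nat.add (Nat.add (Nat.add (Nat.add (Nat.add (Nat.add (Nat.add (Nat.add (Nat.add C x26735) x13613) x39857) x22361) x27221) x26573) x26741) x26737) x46417)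
    (Nat.add (Nat.add (Nat.add (Nat.add (Nat.add (Nat.add (Nat.add (Nat.add (Nat.add C x13615) x39859) x22363) x27223) x26575) x26743) x26735) x46419) x7055)
    (Nat.sub (Nat.add (Nat.add (Nat.add (Nat.add (Nat.add (Nat.add (Nat.add (Nat.add (Nat.add C x13619) x39863) x22367) x27227) x26579) x26759) x26735) x26743) x46423) x26741)
    (Nat.add (Nat.add (Nat.add (Nat.add (Nat.add (Nat.add (Nat.add (Nat.add (Nat.add (Nat.add (Nat.add (Nat.add C x13621) x39865) x22369) x27229) x26581) x26761) x26737) x26749) x26741) x26745) x46425) x7061)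
    (Nat.sub (Nat.add (Nat.add (Nat.add (Nat.add (Nat.add (Nat.add (Nat.add (Nat.add (Nat.add C x13623) x39867) x22371) x27231) x26583) x26763) x26751) x26743) x7063) x26745)
    (Nat.sub (Nat.add (Nat.add (Nat.add (Nat.add (Nat.add (Nat.add (Nat.add (Nat.add (Nat.add (Nat.add C x13627) x39871) x22375) x27235) x26587) x26767) x26743) x26751) x46431) x7067) (Nat.mul x26749 (nat_lit 2)))
    (Nat.sub (Nat.add (Nat.add (Nat.add (Nat.add (Nat.add (Nat.add (Nat.add (Nat.add (Nat.add C x13629) x39873) x22377) x27237) x26589) x26769) x26745) x26749) x7069) x26751)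
    (Nat.sub (Nat.add (Nat.add (Nat.add (Nat.add (Nat.add (Nat.add (Nat.add (Nat.add (Nat.add C x13637) x39881) x22385) x27245) x26597) x26813) x26741) x26761) x46441) x26759)
    (Nat.sub (Nat.add (Nat.add (Nat.add (Nat.add (Nat.add (Nat.add (Nat.add (Nat.add (Nat.add (Nat.add (Nat.add (Nat.add C x13639) x39883) x22387) x27247) x26599) x26815) x26743) x26767) x26759) x26763) x46443) x7079) x26761)
    (Nat.sub (Nat.add (Nat.add (Nat.add (Nat.add (Nat.add (Nat.add (Nat.add (Nat.add (Nat.add (Nat.add C x13641) x39885) x22389) x27249) x26601) x26817) x26745) x26769) x26761) x7081) (Nat.mul x26763 (nat_lit 3)))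
    (Nat.sub (Nat.add (Nat.add (Nat.add (Nat.add (Nat.add (Nat.add (Nat.add (Nat.add (Nat.add (Nat.add (Nat.add (Nat.add C x13645) x39889) x22393) x27253) x26605) x26821) x26749) x26785) x26761) x26769) x46449) x7085) x26767)
    (Nat.sub (Nat.add (Nat.add (Nat.add (Nat.add (Nat.add (Nat.add (Nat.add (Nat.add (Nat.add (Nat.add (Nat.add (Nat.add C x13647) x39891) x22395) x27255) x26607) x26823) x26751) x26787) x26763) x26775) x26767) x7087) x26769)
    (Nat.sub (Nat.add (Nat.add (Nat.add (Nat.add (Nat.add (Nat.add (Nat.add (Nat.add (Nat.add C x13653) x39897) x22401) x27261) x26613) x26829) x26793) x26769) x7093) x26775)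
    (Nat.sub (Nat.add (Nat.add (Nat.add (Nat.add (Nat.add (Nat.add (Nat.add (Nat.add (Nat.add (Nat.add C x13663) x39907) x22411) x27271) x26623) x26839) x26767) x26787) x46467) x7103) (Nat.mul x26785 (nat_lit 2)))
    (Nat.sub (Nat.add (Nat.add (Nat.add (Nat.add (Nat.add (Nat.add (Nat.add (Nat.add (Nat.add (Nat.add C x13665) x39909) x22413) x27273) x26625) x26841) x26769) x26793) x26785) x7105) (Nat.mul x26787 (nat_lit 3)))
    (Nat.sub (Nat.add (Nat.add (Nat.add (Nat.add (Nat.add (Nat.add (Nat.add (Nat.add (Nat.add C x13671) x39915) x22419) x27279) x26631) x26847) x26775) x26787) x7111) x26793)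
    (Nat.add (Nat.add (Nat.add (Nat.add (Nat.add (Nat.add (Nat.add (Nat.add (Nat.add C x26813) x13691) x39935) x22439) x27299) x26651) x26759) x26815) x46495)
    (Nat.add (Nat.add (Nat.add (Nat.add (Nat.add (Nat.add (Nat.add (Nat.add (Nat.add (Nat.add (Nat.add (Nat.add C x26815) x13693) x39937) x22441) x27301) x26653) x26761) x26821) x26813) x26817) x46497) x7133)
    (Nat.sub (Nat.add (Nat.add (Nat.add (Nat.add (Nat.add (Nat.add (Nat.add (Nat.add (Nat.add C x13695) x39939) x22443) x27303) x26655) x26763) x26823) x26815) x7135) x26817)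
    (Nat.add (Nat.add (Nat.add (Nat.add (Nat.add (Nat.add (Nat.add (Nat.add (Nat.add (Nat.add (Nat.add C x13699) x39943) x22447) x27307) x26659) x26767) x26839) x26815) x26823) x46503) x7139)
    (Nat.add (Nat.add (Nat.add (Nat.add (Nat.add (Nat.add (Nat.add (Nat.add (Nat.add (Nat.add (Nat.add C x13701) x39945) x22449) x27309) x26661) x26769) x26841) x26817) x26829) x26821) x7141)
    (Nat.sub (Nat.add (Nat.add (Nat.add (Nat.add (Nat.add (Nat.add (Nat.add (Nat.add (Nat.add C x13707) x39951) x22455) x27315) x26667) x26775) x26847) x26823) x7147) x26829)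
    (Nat.add (Nat.add (Nat.add (Nat.add (Nat.add (Nat.add (Nat.add (Nat.add (Nat.add (Nat.add (Nat.add (Nat.add C x26839) x13717) x39961) x22465) x27325) x26677) x26785) x26893) x26821) x26841) x46521) x7157)
    (Nat.add (Nat.add (Nat.add (Nat.add (Nat.add (Nat.add (Nat.add (Nat.add (Nat.add (Nat.add (Nat.add C x13719) x39963) x22467) x27327) x26679) x26787) x26895) x26823) x26847) x26839) x7159)
    (Nat.add (Nat.add (Nat.add (Nat.add (Nat.add (Nat.add (Nat.add (Nat.add (Nat.add (Nat.add (Nat.add (Nat.add C x26847) x13725) x39969) x22473) x27333) x26685) x26793) x26901) x26829) x26865) x26841) x7165)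
    (Nat.add (Nat.add (Nat.add (Nat.add (Nat.add (Nat.add (Nat.add (Nat.add (Nat.add C x26865) x13743) x39987) x22491) x27351) x26703) x26919) x26847) x7183)
    (Nat.add (Nat.add (Nat.add (Nat.add (Nat.add (Nat.add (Nat.add (Nat.add (Nat.add C (Nat.mul x26893 (nat_lit 2))) x13771) x40015) x22519) x27379) x26839) x26895) x46575) x7211)
    (Nat.add (Nat.add (Nat.add (Nat.add (Nat.add (Nat.add (Nat.add (Nat.add (Nat.add C x26895) x13773) x40017) x22521) x27381) x26841) x26901) x26893) x7213)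
    (Nat.add (Nat.add (Nat.add (Nat.add (Nat.add (Nat.add (Nat.add (Nat.add (Nat.add C x26901) x13779) x40023) x22527) x27387) x26847) x26919) x26895) x7219)
    (Nat.add (Nat.add (Nat.add (Nat.add (Nat.add (Nat.add (Nat.add (Nat.add C (Nat.mul x26919 (nat_lit 3))) x13797) x40041) x22545) x27405) x26865) x26901) x7237)
    (Nat.add (Nat.add (Nat.add (Nat.add (Nat.add (Nat.add (Nat.add (Nat.add C (Nat.mul x26981 (nat_lit 3))) x13859) x40103) x22607) x28439) x26495) x26987) x46663)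
    (Nat.add (Nat.add (Nat.add (Nat.add (Nat.add (Nat.add (Nat.add (Nat.add (Nat.add (Nat.add (Nat.add C (Nat.mul x26987 (nat_lit 2))) x13865) x40109) x22613) x28445) x26501) x27005) x26981) x26993) x26989) x46669)
    (Nat.add (Nat.add (Nat.add (Nat.add (Nat.add (Nat.add (Nat.add (Nat.add (Nat.add (Nat.add (Nat.add C (Nat.mul x26989 (nat_lit 2))) x13867) x40111) x22615) x28447) x26503) x27007) x26995) x26987) x46671) x7307)
    (Nat.sub (Nat.add (Nat.add (Nat.add (Nat.add (Nat.add (Nat.add (Nat.add (Nat.add (Nat.add C x13871) x40115) x22619) x28451) x26507) x27011) x26987) x26995) x46675) x26993)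
    (Nat.add (Nat.add (Nat.add (Nat.add (Nat.add (Nat.add (Nat.add (Nat.add (Nat.add (Nat.add (Nat.add (Nat.add C x26995) x13873) x40117) x22621) x28453) x26509) x27013) x26989) x26993) x26997) x46677) x7313)
    (Nat.add (Nat.add (Nat.add (Nat.add (Nat.add (Nat.add (Nat.add (Nat.add (Nat.add C x26997) x13875) x40119) x22623) x28455) x26511) x27015) x26995) x7315)
    (Nat.add (Nat.add (Nat.add (Nat.add (Nat.add (Nat.add (Nat.add (Nat.add (Nat.add (Nat.add (Nat.add C x27005) x13883) x40127) x22631) x28463) x26519) x27059) x26987) x27011) x27007) x46687)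
    (Nat.add (Nat.add (Nat.add (Nat.add (Nat.add (Nat.add (Nat.add (Nat.add (Nat.add (Nat.add (Nat.add C x13885) x40129) x22633) x28465) x26521) x27061) x26989) x27013) x27005) x46689) x7325)
    (Nat.add (Nat.add (Nat.add (Nat.add (Nat.add (Nat.add (Nat.add (Nat.add (Nat.add (Nat.add (Nat.add C x13889) x40133) x22637) x28469) x26525) x27065) x26993) x27029) x27005) x27013) x46693)
    (Nat.add (Nat.add (Nat.add (Nat.add (Nat.add (Nat.add (Nat.add (Nat.add (Nat.add (Nat.add (Nat.add (Nat.add (Nat.add (Nat.add (Nat.add C x27013) x13891) x40135) x22639) x28471) x26527) x27067) x26995) x27031) x27007) x27019) x27011) x27015) x46695) x7331)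
    (Nat.add (Nat.add (Nat.add (Nat.add (Nat.add (Nat.add (Nat.add (Nat.add (Nat.add (Nat.add (Nat.add C x13893) x40137) x22641) x28473) x26529) x27069) x26997) x27033) x27021) x27013) x7333)
    (Nat.add (Nat.add (Nat.add (Nat.add (Nat.add (Nat.add (Nat.add (Nat.add (Nat.add (Nat.add (Nat.add C x13897) x40141) x22645) x28477) x26533) x27073) x27037) x27013) x27021) x46701) x7337)
    (Nat.add (Nat.add (Nat.add (Nat.add (Nat.add (Nat.add (Nat.add (Nat.add (Nat.add (Nat.add (Nat.add C x27021) x13899) x40143) x22647) x28479) x26535) x27075) x27039) x27015) x27019) x7339)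
    (Nat.sub (Nat.add (Nat.add (Nat.add (Nat.add (Nat.add (Nat.add (Nat.add (Nat.add (Nat.add C x13907) x40151) x22655) x28487) x26543) x27083) x27011) x27031) x46711) x27029)
    (Nat.sub (Nat.add (Nat.add (Nat.add (Nat.add (Nat.add (Nat.add (Nat.add (Nat.add (Nat.add (Nat.add (Nat.add (Nat.add C x13909) x40153) x22657) x28489) x26545) x27085) x27013) x27037) x27029) x27033) x46713) x7349) x27031)
    (Nat.sub (Nat.add (Nat.add (Nat.add (Nat.add (Nat.add (Nat.add (Nat.add (Nat.add (Nat.add (Nat.add C x13911) x40155) x22659) x28491) x26547) x27087) x27015) x27039) x27031) x7351) (Nat.mul x27033 (nat_lit 3)))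
    (Nat.add (Nat.add (Nat.add (Nat.add (Nat.add (Nat.add (Nat.add (Nat.add (Nat.add (Nat.add (Nat.add C x13915) x40159) x22663) x28495) x26551) x27091) x27019) x27031) x27039) x46719) x7355)
    (Nat.add (Nat.add (Nat.add (Nat.add (Nat.add (Nat.add (Nat.add (Nat.add (Nat.add (Nat.add (Nat.add C x13917) x40161) x22665) x28497) x26553) x27093) x27021) x27033) x27045) x27037) x7357)
    (Nat.add (Nat.add (Nat.add (Nat.add (Nat.add (Nat.add (Nat.add (Nat.add (Nat.add C x27045) x13923) x40167) x22671) x28503) x26559) x27099) x27039) x7363)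
    (Nat.add (Nat.add (Nat.add (Nat.add (Nat.add (Nat.add (Nat.add (Nat.add (Nat.add (Nat.add (Nat.add C x27059) x13937) x40181) x22685) x28517) x26573) x27221) x27005) x27065) x27061) x46741)
    (Nat.add (Nat.add (Nat.add (Nat.add (Nat.add (Nat.add (Nat.add (Nat.add (Nat.add (Nat.add (Nat.add C x13939) x40183) x22687) x28519) x26575) x27223) x27007) x27067) x27059) x46743) x7379)
    (Nat.sub (Nat.add (Nat.add (Nat.add (Nat.add (Nat.add (Nat.add (Nat.add (Nat.add (Nat.add (Nat.add (Nat.add C x13943) x40187) x22691) x28523) x26579) x27227) x27011) x27083) x27059) x27067) x46747) x27065)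
    (Nat.add (Nat.add (Nat.add (Nat.add (Nat.add (Nat.add (Nat.add (Nat.add (Nat.add (Nat.add (Nat.add (Nat.add (Nat.add (Nat.add C x13945) x40189) x22693) x28525) x26581) x27229) x27013) x27085) x27061) x27073) x27065) x27069) x46749) x7385)
    (Nat.sub (Nat.add (Nat.add (Nat.add (Nat.add (Nat.add (Nat.add (Nat.add (Nat.add (Nat.add (Nat.add (Nat.add C x13947) x40191) x22695) x28527) x26583) x27231) x27015) x27087) x27075) x27067) x7387) x27069)
    (Nat.sub (Nat.add (Nat.add (Nat.add (Nat.add (Nat.add (Nat.add (Nat.add (Nat.add (Nat.add (Nat.add (Nat.add (Nat.add C x13951) x40195) x22699) x28531) x26587) x27235) x27019) x27091) x27067) x27075) x46755) x7391) (Nat.mul x27073 (nat_lit 2)))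
    (Nat.sub (Nat.add (Nat.add (Nat.add (Nat.add (Nat.add (Nat.add (Nat.add (Nat.add (Nat.add (Nat.add (Nat.add C x13953) x40197) x22701) x28533) x26589) x27237) x27021) x27093) x27069) x27073) x7393) x27075)
    (Nat.add (Nat.add (Nat.add (Nat.add (Nat.add (Nat.add (Nat.add (Nat.add (Nat.add (Nat.add (Nat.add C x13961) x40205) x22709) x28541) x26597) x27245) x27029) x27137) x27065) x27085) x46765)
    (Nat.add (Nat.add (Nat.add (Nat.add (Nat.add (Nat.add (Nat.add (Nat.add (Nat.add (Nat.add (Nat.add (Nat.add (Nat.add (Nat.add C x13963) x40207) x22711) x28543) x26599) x27247) x27031) x27139) x27067) x27091) x27083) x27087) x46767) x7403)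
    (Nat.sub (Nat.add (Nat.add (Nat.add (Nat.add (Nat.add (Nat.add (Nat.add (Nat.add (Nat.add (Nat.add (Nat.add (Nat.add C x13965) x40209) x22713) x28545) x26601) x27249) x27033) x27141) x27069) x27093) x27085) x7405) (Nat.mul x27087 (nat_lit 2)))
    (Nat.add (Nat.add (Nat.add (Nat.add (Nat.add (Nat.add (Nat.add (Nat.add (Nat.add (Nat.add (Nat.add (Nat.add (Nat.add (Nat.add C x13969) x40213) x22717) x28549) x26605) x27253) x27037) x27145) x27073) x27109) x27085) x27093) x46773) x7409)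
    (Nat.add (Nat.add (Nat.add (Nat.add (Nat.add (Nat.add (Nat.add (Nat.add (Nat.add (Nat.add (Nat.add (Nat.add (Nat.add (Nat.add C x13971) x40215) x22719) x28551) x26607) x27255) x27039) x27147) x27075) x27111) x27087) x27099) x27091) x7411)
    (Nat.add (Nat.add (Nat.add (Nat.add (Nat.add (Nat.add (Nat.add (Nat.add (Nat.add (Nat.add (Nat.add C x13977) x40221) x22725) x28557) x26613) x27261) x27045) x27153) x27117) x27093) x7417)
    (Nat.add (Nat.add (Nat.add (Nat.add (Nat.add (Nat.add (Nat.add (Nat.add (Nat.add (Nat.add (Nat.add C x13987) x40231) x22735) x28567) x26623) x27271) x27163) x27091) x27111) x46791) x7427)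
    (Nat.sub (Nat.add (Nat.add (Nat.add (Nat.add (Nat.add (Nat.add (Nat.add (Nat.add (Nat.add (Nat.add (Nat.add C x13989) x40233) x22737) x28569) x26625) x27273) x27165) x27093) x27117) x27109) x7429) x27111)
    (Nat.add (Nat.add (Nat.add (Nat.add (Nat.add (Nat.add (Nat.add (Nat.add (Nat.add (Nat.add (Nat.add C x27117) x13995) x40239) x22743) x28575) x26631) x27279) x27171) x27099) x27111) x7435)
    (Nat.sub (Nat.add (Nat.add (Nat.add (Nat.add (Nat.add (Nat.add (Nat.add (Nat.add (Nat.add C x14015) x40259) x22763) x28595) x26651) x27299) x27083) x27139) x46819) x27137)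
    (Nat.sub (Nat.add (Nat.add (Nat.add (Nat.add (Nat.add (Nat.add (Nat.add (Nat.add (Nat.add (Nat.add (Nat.add (Nat.add C x14017) x40261) x22765) x28597) x26653) x27301) x27085) x27145) x27137) x27141) x46821) x7457) x27139)
    (Nat.sub (Nat.add (Nat.add (Nat.add (Nat.add (Nat.add (Nat.add (Nat.add (Nat.add (Nat.add (Nat.add C x14019) x40263) x22767) x28599) x26655) x27303) x27087) x27147) x27139) x7459) (Nat.mul x27141 (nat_lit 3)))
    (Nat.sub (Nat.add (Nat.add (Nat.add (Nat.add (Nat.add (Nat.add (Nat.add (Nat.add (Nat.add (Nat.add (Nat.add (Nat.add C x14023) x40267) x22771) x28603) x26659) x27307) x27091) x27163) x27139) x27147) x46827) x7463) (Nat.mul x27145 (nat_lit 2)))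
    (Nat.sub (Nat.add (Nat.add (Nat.add (Nat.add (Nat.add (Nat.add (Nat.add (Nat.add (Nat.add (Nat.add (Nat.add (Nat.add C x14025) x40269) x22773) x28605) x26661) x27309) x27093) x27165) x27141) x27153) x27145) x7465) (Nat.mul x27147 (nat_lit 2)))
    (Nat.sub (Nat.add (Nat.add (Nat.add (Nat.add (Nat.add (Nat.add (Nat.add (Nat.add (Nat.add (Nat.add C x14031) x40275) x22779) x28611) x26667) x27315) x27099) x27171) x27147) x7471) (Nat.mul x27153 (nat_lit 3)))
    (Nat.add (Nat.add (Nat.add (Nat.add (Nat.add (Nat.add (Nat.add (Nat.add (Nat.add (Nat.add (Nat.add C x14041) x40285) x22789) x28621) x26677) x27325) x27109) x27145) x27165) x46845) x7481)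
    (Nat.sub (Nat.add (Nat.add (Nat.add (Nat.add (Nat.add (Nat.add (Nat.add (Nat.add (Nat.add (Nat.add (Nat.add C x14043) x40287) x22791) x28623) x26679) x27327) x27111) x27147) x27171) x27163) x7483) x27165)
    (Nat.add (Nat.add (Nat.add (Nat.add (Nat.add (Nat.add (Nat.add (Nat.add (Nat.add (Nat.add (Nat.add C x14049) x40293) x22797) x28629) x26685) x27333) x27117) x27153) x27189) x27165) x7489)
    (Nat.add (Nat.add (Nat.add (Nat.add (Nat.add (Nat.add (Nat.add (Nat.add (Nat.add C x27189) x14067) x40311) x22815) x28647) x26703) x27351) x27171) x7507)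
    (Nat.add (Nat.add (Nat.add (Nat.add (Nat.add (Nat.add (Nat.add (Nat.add (Nat.add (Nat.add (Nat.add C (Nat.mul x27221 (nat_lit 2))) x14099) x40343) x22847) x28679) x26735) x27707) x27059) x27227) x27223) x46903)
    (Nat.add (Nat.add (Nat.add (Nat.add (Nat.add (Nat.add (Nat.add (Nat.add (Nat.add (Nat.add (Nat.add (Nat.add C x27223) x14101) x40345) x22849) x28681) x26737) x27709) x27061) x27229) x27221) x46905) x7541)
    (Nat.add (Nat.add (Nat.add (Nat.add (Nat.add (Nat.add (Nat.add (Nat.add (Nat.add (Nat.add (Nat.add C x14105) x40349) x22853) x28685) x26741) x27713) x27065) x27245) x27221) x27229) x46909)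
    (Nat.add (Nat.add (Nat.add (Nat.add (Nat.add (Nat.add (Nat.add (Nat.add (Nat.add (Nat.add (Nat.add (Nat.add (Nat.add (Nat.add (Nat.add C x27229) x14107) x40351) x22855) x28687) x26743) x27715) x27067) x27247) x27223) x27235) x27227) x27231) x46911) x7547)
    (Nat.add (Nat.add (Nat.add (Nat.add (Nat.add (Nat.add (Nat.add (Nat.add (Nat.add (Nat.add (Nat.add C x14109) x40353) x22857) x28689) x26745) x27717) x27069) x27249) x27237) x27229) x7549)
    (Nat.sub (Nat.add (Nat.add (Nat.add (Nat.add (Nat.add (Nat.add (Nat.add (Nat.add (Nat.add (Nat.add (Nat.add (Nat.add C x14113) x40357) x22861) x28693) x26749) x27721) x27073) x27253) x27229) x27237) x46917) x7553) x27235)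
    (Nat.add (Nat.add (Nat.add (Nat.add (Nat.add (Nat.add (Nat.add (Nat.add (Nat.add (Nat.add (Nat.add C x14115) x40359) x22863) x28695) x26751) x27723) x27075) x27255) x27231) x27235) x7555)
    (Nat.add (Nat.add (Nat.add (Nat.add (Nat.add (Nat.add (Nat.add (Nat.add (Nat.add (Nat.add (Nat.add C x14123) x40367) x22871) x28703) x26759) x27731) x27083) x27299) x27227) x27247) x46927)
    (Nat.add (Nat.add (Nat.add (Nat.add (Nat.add (Nat.add (Nat.add (Nat.add (Nat.add (Nat.add (Nat.add (Nat.add (Nat.add (Nat.add C x14125) x40369) x22873) x28705) x26761) x27733) x27085) x27301) x27229) x27253) x27245) x27249) x46929) x7565)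
    (Nat.sub (Nat.add (Nat.add (Nat.add (Nat.add (Nat.add (Nat.add (Nat.add (Nat.add (Nat.add (Nat.add (Nat.add (Nat.add C x14127) x40371) x22875) x28707) x26763) x27735) x27087) x27303) x27231) x27255) x27247) x7567) (Nat.mul x27249 (nat_lit 2)))
    (Nat.add (Nat.add (Nat.add (Nat.add (Nat.add (Nat.add (Nat.add (Nat.add (Nat.add (Nat.add (Nat.add (Nat.add (Nat.add (Nat.add C x14131) x40375) x22879) x28711) x26767) x27739) x27091) x27307) x27235) x27271) x27247) x27255) x46935) x7571)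
    (Nat.add (Nat.add (Nat.add (Nat.add (Nat.add (Nat.add (Nat.add (Nat.add (Nat.add (Nat.add (Nat.add (Nat.add (Nat.add (Nat.add C x14133) x40377) x22881) x28713) x26769) x27741) x27093) x27309) x27237) x27273) x27249) x27261) x27253) x7573)
    (Nat.add (Nat.add (Nat.add (Nat.add (Nat.add (Nat.add (Nat.add (Nat.add (Nat.add (Nat.add (Nat.add C x14139) x40383) x22887) x28719) x26775) x27747) x27099) x27315) x27279) x27255) x7579)
    (Nat.sub (Nat.add (Nat.add (Nat.add (Nat.add (Nat.add (Nat.add (Nat.add (Nat.add (Nat.add (Nat.add (Nat.add (Nat.add C x14149) x40393) x22897) x28729) x26785) x27757) x27109) x27325) x27253) x27273) x46953) x7589) x27271)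
    (Nat.sub (Nat.add (Nat.add (Nat.add (Nat.add (Nat.add (Nat.add (Nat.add (Nat.add (Nat.add (Nat.add (Nat.add (Nat.add C x14151) x40395) x22899) x28731) x26787) x27759) x27111) x27327) x27255) x27279) x27271) x7591) (Nat.mul x27273 (nat_lit 2)))
    (Nat.add (Nat.add (Nat.add (Nat.add (Nat.add (Nat.add (Nat.add (Nat.add (Nat.add (Nat.add (Nat.add C x14157) x40401) x22905) x28737) x26793) x27765) x27117) x27333) x27261) x27273) x7597)
    (Nat.add (Nat.add (Nat.add (Nat.add (Nat.add (Nat.add (Nat.add (Nat.add (Nat.add (Nat.add (Nat.add (Nat.add C x27299) x14177) x40421) x22925) x28757) x26813) x27785) x27137) x27461) x27245) x27301) x46981)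
    (Nat.add (Nat.add (Nat.add (Nat.add (Nat.add (Nat.add (Nat.add (Nat.add (Nat.add (Nat.add (Nat.add (Nat.add (Nat.add (Nat.add (Nat.add C x27301) x14179) x40423) x22927) x28759) x26815) x27787) x27139) x27463) x27247) x27307) x27299) x27303) x46983) x7619)
    (Nat.sub (Nat.add (Nat.add (Nat.add (Nat.add (Nat.add (Nat.add (Nat.add (Nat.add (Nat.add (Nat.add (Nat.add (Nat.add C x14181) x40425) x22929) x28761) x26817) x27789) x27141) x27465) x27249) x27309) x27301) x7621) x27303)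
    (Nat.add (Nat.add (Nat.add (Nat.add (Nat.add (Nat.add (Nat.add (Nat.add (Nat.add (Nat.add (Nat.add (Nat.add (Nat.add (Nat.add C x14185) x40429) x22933) x28765) x26821) x27793) x27145) x27469) x27253) x27325) x27301) x27309) x46989) x7625)
    (Nat.add (Nat.add (Nat.add (Nat.add (Nat.add (Nat.add (Nat.add (Nat.add (Nat.add (Nat.add (Nat.add (Nat.add (Nat.add (Nat.add C x14187) x40431) x22935) x28767) x26823) x27795) x27147) x27471) x27255) x27327) x27303) x27315) x27307) x7627)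
    (Nat.sub (Nat.add (Nat.add (Nat.add (Nat.add (Nat.add (Nat.add (Nat.add (Nat.add (Nat.add (Nat.add (Nat.add (Nat.add C x14193) x40437) x22941) x28773) x26829) x27801) x27153) x27477) x27261) x27333) x27309) x7633) x27315)
    (Nat.add (Nat.add (Nat.add (Nat.add (Nat.add (Nat.add (Nat.add (Nat.add (Nat.add (Nat.add (Nat.add (Nat.add (Nat.add (Nat.add (Nat.add C x27325) x14203) x40447) x22951) x28783) x26839) x27811) x27163) x27487) x27271) x27379) x27307) x27327) x47007) x7643)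
    (Nat.add (Nat.add (Nat.add (Nat.add (Nat.add (Nat.add (Nat.add (Nat.add (Nat.add (Nat.add (Nat.add (Nat.add (Nat.add (Nat.add C x14205) x40449) x22953) x28785) x26841) x27813) x27165) x27489) x27273) x27381) x27309) x27333) x27325) x7645)
    (Nat.add (Nat.add (Nat.add (Nat.add (Nat.add (Nat.add (Nat.add (Nat.add (Nat.add (Nat.add (Nat.add (Nat.add (Nat.add (Nat.add (Nat.add C x27333) x14211) x40455) x22959) x28791) x26847) x27819) x27171) x27495) x27279) x27387) x27315) x27351) x27327) x7651)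
    (Nat.add (Nat.add (Nat.add (Nat.add (Nat.add (Nat.add (Nat.add (Nat.add (Nat.add (Nat.add (Nat.add (Nat.add C x27351) x14229) x40473) x22977) x28809) x26865) x27837) x27189) x27513) x27405) x27333) x7669)
    (Nat.add (Nat.add (Nat.add (Nat.add (Nat.add (Nat.add (Nat.add (Nat.add (Nat.add (Nat.add (Nat.add (Nat.add C x27379) x14257) x40501) x23005) x28837) x26893) x27865) x27541) x27325) x27381) x47061) x7697)
    (Nat.add (Nat.add (Nat.add (Nat.add (Nat.add (Nat.add (Nat.add (Nat.add (Nat.add (Nat.add (Nat.add C x14259) x40503) x23007) x28839) x26895) x27867) x27543) x27327) x27387) x27379) x7699)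
    (Nat.add (Nat.add (Nat.add (Nat.add (Nat.add (Nat.add (Nat.add (Nat.add (Nat.add (Nat.add (Nat.add C x14265) x40509) x23013) x28845) x26901) x27873) x27549) x27333) x27405) x27381) x7705)
    (Nat.add (Nat.add (Nat.add (Nat.add (Nat.add (Nat.add (Nat.add (Nat.add (Nat.add (Nat.add (Nat.add C (Nat.mul x27405 (nat_lit 2))) x14283) x40527) x23031) x28863) x26919) x27891) x27567) x27351) x27387) x7723)
    (Nat.add (Nat.add (Nat.add (Nat.add (Nat.add (Nat.add (Nat.add (Nat.add (Nat.add C x27461) x14339) x40583) x23087) x28919) x27947) x27299) x27463) x47143)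
    (Nat.add (Nat.add (Nat.add (Nat.add (Nat.add (Nat.add (Nat.add (Nat.add (Nat.add (Nat.add (Nat.add (Nat.add C x27463) x14341) x40585) x23089) x28921) x27949) x27301) x27469) x27461) x27465) x47145) x7781)
    (Nat.sub (Nat.add (Nat.add (Nat.add (Nat.add (Nat.add (Nat.add (Nat.add (Nat.add (Nat.add C x14343) x40587) x23091) x28923) x27951) x27303) x27471) x27463) x7783) x27465)
    (Nat.add (Nat.add (Nat.add (Nat.add (Nat.add (Nat.add (Nat.add (Nat.add (Nat.add (Nat.add (Nat.add C x14347) x40591) x23095) x28927) x27955) x27307) x27487) x27463) x27471) x47151) x7787)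
    (Nat.add (Nat.add (Nat.add (Nat.add (Nat.add (Nat.add (Nat.add (Nat.add (Nat.add (Nat.add (Nat.add C x14349) x40593) x23097) x28929) x27957) x27309) x27489) x27465) x27477) x27469) x7789)
    (Nat.sub (Nat.add (Nat.add (Nat.add (Nat.add (Nat.add (Nat.add (Nat.add (Nat.add (Nat.add C x14355) x40599) x23103) x28935) x27963) x27315) x27495) x27471) x7795) x27477)
    (Nat.add (Nat.add (Nat.add (Nat.add (Nat.add (Nat.add (Nat.add (Nat.add (Nat.add (Nat.add (Nat.add C x14365) x40609) x23113) x28945) x27973) x27325) x27541) x27469) x27489) x47169) x7805)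
    (Nat.sub (Nat.add (Nat.add (Nat.add (Nat.add (Nat.add (Nat.add (Nat.add (Nat.add (Nat.add (Nat.add (Nat.add C x14367) x40611) x23115) x28947) x27975) x27327) x27543) x27471) x27495) x27487) x7807) x27489)
    (Nat.add (Nat.add (Nat.add (Nat.add (Nat.add (Nat.add (Nat.add (Nat.add (Nat.add (Nat.add (Nat.add C x14373) x40617) x23121) x28953) x27981) x27333) x27549) x27477) x27513) x27489) x7813)
    (Nat.sub (Nat.add (Nat.add (Nat.add (Nat.add (Nat.add (Nat.add (Nat.add (Nat.add (Nat.add C x14391) x40635) x23139) x28971) x27999) x27351) x27567) x27495) x7831) x27513)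
    (Nat.add (Nat.add (Nat.add (Nat.add (Nat.add (Nat.add (Nat.add (Nat.add (Nat.add (Nat.add (Nat.add C (Nat.mul x27541 (nat_lit 2))) x14419) x40663) x23167) x28999) x28027) x27379) x27487) x27543) x47223) x7859)
    (Nat.add (Nat.add (Nat.add (Nat.add (Nat.add (Nat.add (Nat.add (Nat.add (Nat.add (Nat.add (Nat.add C x27543) x14421) x40665) x23169) x29001) x28029) x27381) x27489) x27549) x27541) x7861)
    (Nat.add (Nat.add (Nat.add (Nat.add (Nat.add (Nat.add (Nat.add (Nat.add (Nat.add (Nat.add (Nat.add C x27549) x14427) x40671) x23175) x29007) x28035) x27387) x27495) x27567) x27543) x7867)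
    (Nat.add (Nat.add (Nat.add (Nat.add (Nat.add (Nat.add (Nat.add (Nat.add (Nat.add (Nat.add (Nat.add C (Nat.mul x27567 (nat_lit 2))) x14445) x40689) x23193) x29025) x28053) x27405) x27513) x27621) x27549) x7885)
    (Nat.add (Nat.add (Nat.add (Nat.add (Nat.add (Nat.add (Nat.add (Nat.add C (Nat.mul x27621 (nat_lit 3))) x14499) x40743) x23247) x29079) x28107) x27567) x7939)
    (Nat.add (Nat.add (Nat.add (Nat.add (Nat.add (Nat.add (Nat.add (Nat.add (Nat.add C x27707) x14585) x40829) x23333) x29165) x27221) x27713) x27709) x47389)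
    (Nat.add (Nat.add (Nat.add (Nat.add (Nat.add (Nat.add (Nat.add (Nat.add (Nat.add C x14587) x40831) x23335) x29167) x27223) x27715) x27707) x47391) x8027)
    (Nat.sub (Nat.add (Nat.add (Nat.add (Nat.add (Nat.add (Nat.add (Nat.add (Nat.add (Nat.add C x14591) x40835) x23339) x29171) x27227) x27731) x27707) x27715) x47395) x27713)
    (Nat.add (Nat.add (Nat.add (Nat.add (Nat.add (Nat.add (Nat.add (Nat.add (Nat.add (Nat.add (Nat.add (Nat.add C x14593) x40837) x23341) x29173) x27229) x27733) x27709) x27721) x27713) x27717) x47397) x8033)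
    (Nat.sub (Nat.add (Nat.add (Nat.add (Nat.add (Nat.add (Nat.add (Nat.add (Nat.add (Nat.add C x14595) x40839) x23343) x29175) x27231) x27735) x27723) x27715) x8035) x27717)
    (Nat.sub (Nat.add (Nat.add (Nat.add (Nat.add (Nat.add (Nat.add (Nat.add (Nat.add (Nat.add (Nat.add C x14599) x40843) x23347) x29179) x27235) x27739) x27715) x27723) x47403) x8039) (Nat.mul x27721 (nat_lit 2)))
    (Nat.sub (Nat.add (Nat.add (Nat.add (Nat.add (Nat.add (Nat.add (Nat.add (Nat.add (Nat.add C x14601) x40845) x23349) x29181) x27237) x27741) x27717) x27721) x8041) x27723)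
    (Nat.sub (Nat.add (Nat.add (Nat.add (Nat.add (Nat.add (Nat.add (Nat.add (Nat.add (Nat.add C x14609) x40853) x23357) x29189) x27245) x27785) x27713) x27733) x47413) x27731)
    (Nat.sub (Nat.add (Nat.add (Nat.add (Nat.add (Nat.add (Nat.add (Nat.add (Nat.add (Nat.add (Nat.add (Nat.add (Nat.add C x14611) x40855) x23359) x29191) x27247) x27787) x27715) x27739) x27731) x27735) x47415) x8051) x27733)
    (Nat.sub (Nat.add (Nat.add (Nat.add (Nat.add (Nat.add (Nat.add (Nat.add (Nat.add (Nat.add (Nat.add C x14613) x40857) x23361) x29193) x27249) x27789) x27717) x27741) x27733) x8053) (Nat.mul x27735 (nat_lit 3)))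
    (Nat.sub (Nat.add (Nat.add (Nat.add (Nat.add (Nat.add (Nat.add (Nat.add (Nat.add (Nat.add (Nat.add (Nat.add (Nat.add C x14617) x40861) x23365) x29197) x27253) x27793) x27721) x27757) x27733) x27741) x47421) x8057) x27739)
    (Nat.sub (Nat.add (Nat.add (Nat.add (Nat.add (Nat.add (Nat.add (Nat.add (Nat.add (Nat.add (Nat.add (Nat.add (Nat.add C x14619) x40863) x23367) x29199) x27255) x27795) x27723) x27759) x27735) x27747) x27739) x8059) x27741)
    (Nat.sub (Nat.add (Nat.add (Nat.add (Nat.add (Nat.add (Nat.add (Nat.add (Nat.add (Nat.add C x14625) x40869) x23373) x29205) x27261) x27801) x27765) x27741) x8065) x27747)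
    (Nat.sub (Nat.add (Nat.add (Nat.add (Nat.add (Nat.add (Nat.add (Nat.add (Nat.add (Nat.add (Nat.add C x14635) x40879) x23383) x29215) x27271) x27811) x27739) x27759) x47439) x8075) (Nat.mul x27757 (nat_lit 2)))
    (Nat.sub (Nat.add (Nat.add (Nat.add (Nat.add (Nat.add (Nat.add (Nat.add (Nat.add (Nat.add (Nat.add C x14637) x40881) x23385) x29217) x27273) x27813) x27741) x27765) x27757) x8077) (Nat.mul x27759 (nat_lit 3)))
    (Nat.sub (Nat.add (Nat.add (Nat.add (Nat.add (Nat.add (Nat.add (Nat.add (Nat.add (Nat.add C x14643) x40887) x23391) x29223) x27279) x27819) x27747) x27759) x8083) x27765)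
    (Nat.sub (Nat.add (Nat.add (Nat.add (Nat.add (Nat.add (Nat.add (Nat.add (Nat.add (Nat.add C x14663) x40907) x23411) x29243) x27299) x27947) x27731) x27787) x47467) x27785)
    (Nat.sub (Nat.add (Nat.add (Nat.add (Nat.add (Nat.add (Nat.add (Nat.add (Nat.add (Nat.add (Nat.add (Nat.add (Nat.add C x14665) x40909) x23413) x29245) x27301) x27949) x27733) x27793) x27785) x27789) x47469) x8105) x27787)
    (Nat.sub (Nat.add (Nat.add (Nat.add (Nat.add (Nat.add (Nat.add (Nat.add (Nat.add (Nat.add (Nat.add C x14667) x40911) x23415) x29247) x27303) x27951) x27735) x27795) x27787) x8107) (Nat.mul x27789 (nat_lit 3)))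
    (Nat.sub (Nat.add (Nat.add (Nat.add (Nat.add (Nat.add (Nat.add (Nat.add (Nat.add (Nat.add (Nat.add (Nat.add (Nat.add C x14671) x40915) x23419) x29251) x27307) x27955) x27739) x27811) x27787) x27795) x47475) x8111) (Nat.mul x27793 (nat_lit 2)))
    (Nat.sub (Nat.add (Nat.add (Nat.add (Nat.add (Nat.add (Nat.add (Nat.add (Nat.add (Nat.add (Nat.add (Nat.add (Nat.add C x14673) x40917) x23421) x29253) x27309) x27957) x27741) x27813) x27789) x27801) x27793) x8113) (Nat.mul x27795 (nat_lit 2)))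
    (Nat.sub (Nat.add (Nat.add (Nat.add (Nat.add (Nat.add (Nat.add (Nat.add (Nat.add (Nat.add (Nat.add C x14679) x40923) x23427) x29259) x27315) x27963) x27747) x27819) x27795) x8119) (Nat.mul x27801 (nat_lit 3)))
    (Nat.sub (Nat.add (Nat.add (Nat.add (Nat.add (Nat.add (Nat.add (Nat.add (Nat.add (Nat.add (Nat.add (Nat.add (Nat.add C x14689) x40933) x23437) x29269) x27325) x27973) x27757) x27865) x27793) x27813) x47493) x8129) x27811)
    (Nat.sub (Nat.add (Nat.add (Nat.add (Nat.add (Nat.add (Nat.add (Nat.add (Nat.add (Nat.add (Nat.add (Nat.add (Nat.add C x14691) x40935) x23439) x29271) x27327) x27975) x27759) x27867) x27795) x27819) x27811) x8131) (Nat.mul x27813 (nat_lit 2)))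
    (Nat.sub (Nat.add (Nat.add (Nat.add (Nat.add (Nat.add (Nat.add (Nat.add (Nat.add (Nat.add (Nat.add (Nat.add (Nat.add C x14697) x40941) x23445) x29277) x27333) x27981) x27765) x27873) x27801) x27837) x27813) x8137) x27819)
    (Nat.sub (Nat.add (Nat.add (Nat.add (Nat.add (Nat.add (Nat.add (Nat.add (Nat.add (Nat.add C x14715) x40959) x23463) x29295) x27351) x27999) x27891) x27819) x8155) x27837)
    (Nat.sub (Nat.add (Nat.add (Nat.add (Nat.add (Nat.add (Nat.add (Nat.add (Nat.add (Nat.add (Nat.add C x14743) x40987) x23491) x29323) x27379) x28027) x27811) x27867) x47547) x8183) (Nat.mul x27865 (nat_lit 2)))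
    (Nat.sub (Nat.add (Nat.add (Nat.add (Nat.add (Nat.add (Nat.add (Nat.add (Nat.add (Nat.add (Nat.add C x14745) x40989) x23493) x29325) x27381) x28029) x27813) x27873) x27865) x8185) (Nat.mul x27867 (nat_lit 3)))
    (Nat.sub (Nat.add (Nat.add (Nat.add (Nat.add (Nat.add (Nat.add (Nat.add (Nat.add (Nat.add (Nat.add C x14751) x40995) x23499) x29331) x27387) x28035) x27819) x27891) x27867) x8191) (Nat.mul x27873 (nat_lit 3)))
    (Nat.sub (Nat.add (Nat.add (Nat.add (Nat.add (Nat.add (Nat.add (Nat.add (Nat.add (Nat.add C x14769) x41013) x23517) x29349) x27405) x28053) x27837) x27873) x8209) x27891)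
    (Nat.add (Nat.add (Nat.add (Nat.add (Nat.add (Nat.add (Nat.add (Nat.add (Nat.add C x27947) x14825) x41069) x23573) x29405) x27461) x27785) x27949) x47629)
    (Nat.add (Nat.add (Nat.add (Nat.add (Nat.add (Nat.add (Nat.add (Nat.add (Nat.add (Nat.add (Nat.add (Nat.add C x27949) x14827) x41071) x23575) x29407) x27463) x27787) x27955) x27947) x27951) x47631) x8267)
    (Nat.sub (Nat.add (Nat.add (Nat.add (Nat.add (Nat.add (Nat.add (Nat.add (Nat.add (Nat.add C x14829) x41073) x23577) x29409) x27465) x27789) x27957) x27949) x8269) x27951)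
    (Nat.add (Nat.add (Nat.add (Nat.add (Nat.add (Nat.add (Nat.add (Nat.add (Nat.add (Nat.add (Nat.add C x14833) x41077) x23581) x29413) x27469) x27793) x27973) x27949) x27957) x47637) x8273)
    (Nat.add (Nat.add (Nat.add (Nat.add (Nat.add (Nat.add (Nat.add (Nat.add (Nat.add (Nat.add (Nat.add C x14835) x41079) x23583) x29415) x27471) x27795) x27975) x27951) x27963) x27955) x8275)
    (Nat.sub (Nat.add (Nat.add (Nat.add (Nat.add (Nat.add (Nat.add (Nat.add (Nat.add (Nat.add C x14841) x41085) x23589) x29421) x27477) x27801) x27981) x27957) x8281) x27963)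
    (Nat.add (Nat.add (Nat.add (Nat.add (Nat.add (Nat.add (Nat.add (Nat.add (Nat.add (Nat.add (Nat.add C x14851) x41095) x23599) x29431) x27487) x27811) x28027) x27955) x27975) x47655) x8291)
    (Nat.sub (Nat.add (Nat.add (Nat.add (Nat.add (Nat.add (Nat.add (Nat.add (Nat.add (Nat.add (Nat.add (Nat.add C x14853) x41097) x23601) x29433) x27489) x27813) x28029) x27957) x27981) x27973) x8293) x27975)
    (Nat.add (Nat.add (Nat.add (Nat.add (Nat.add (Nat.add (Nat.add (Nat.add (Nat.add (Nat.add (Nat.add C x14859) x41103) x23607) x29439) x27495) x27819) x28035) x27963) x27999) x27975) x8299)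
    (Nat.sub (Nat.add (Nat.add (Nat.add (Nat.add (Nat.add (Nat.add (Nat.add (Nat.add (Nat.add C x14877) x41121) x23625) x29457) x27513) x27837) x28053) x27981) x8317) x27999)
    (Nat.add (Nat.add (Nat.add (Nat.add (Nat.add (Nat.add (Nat.add (Nat.add (Nat.add (Nat.add (Nat.add (Nat.add C x28027) x14905) x41149) x23653) x29485) x27541) x27865) x28189) x27973) x28029) x47709) x8345)
    (Nat.add (Nat.add (Nat.add (Nat.add (Nat.add (Nat.add (Nat.add (Nat.add (Nat.add (Nat.add (Nat.add C x14907) x41151) x23655) x29487) x27543) x27867) x28191) x27975) x28035) x28027) x8347)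
    (Nat.add (Nat.add (Nat.add (Nat.add (Nat.add (Nat.add (Nat.add (Nat.add (Nat.add (Nat.add (Nat.add C x14913) x41157) x23661) x29493) x27549) x27873) x28197) x27981) x28053) x28029) x8353)
    (Nat.add (Nat.add (Nat.add (Nat.add (Nat.add (Nat.add (Nat.add (Nat.add (Nat.add (Nat.add (Nat.add (Nat.add C x28053) x14931) x41175) x23679) x29511) x27567) x27891) x28215) x27999) x28107) x28035) x8371)
    (Nat.add (Nat.add (Nat.add (Nat.add (Nat.add (Nat.add (Nat.add (Nat.add (Nat.add C x28107) x14985) x41229) x23733) x29565) x27621) x28269) x28053) x8425)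
    (Nat.add (Nat.add (Nat.add (Nat.add (Nat.add (Nat.add (Nat.add (Nat.add (Nat.add C (Nat.mul x28189 (nat_lit 2))) x15067) x41311) x23815) x29647) x28027) x28191) x47871) x8507)
    (Nat.add (Nat.add (Nat.add (Nat.add (Nat.add (Nat.add (Nat.add (Nat.add (Nat.add C x28191) x15069) x41313) x23817) x29649) x28029) x28197) x28189) x8509)
    (Nat.add (Nat.add (Nat.add (Nat.add (Nat.add (Nat.add (Nat.add (Nat.add (Nat.add C x28197) x15075) x41319) x23823) x29655) x28035) x28215) x28191) x8515)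
    (Nat.add (Nat.add (Nat.add (Nat.add (Nat.add (Nat.add (Nat.add (Nat.add (Nat.add C x28215) x15093) x41337) x23841) x29673) x28053) x28269) x28197) x8533)
    (Nat.add (Nat.add (Nat.add (Nat.add (Nat.add (Nat.add (Nat.add (Nat.add C (Nat.mul x28269 (nat_lit 3))) x15147) x41391) x23895) x29727) x28107) x28215) x8587)
    (Nat.add (Nat.add (Nat.add (Nat.add (Nat.add (Nat.add (Nat.add (Nat.add C (Nat.mul x28439 (nat_lit 4))) x15317) x41561) x24065) x32813) x26981) x28445) x48121)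
    (Nat.add (Nat.add (Nat.add (Nat.add (Nat.add (Nat.add (Nat.add (Nat.add (Nat.add (Nat.add (Nat.add C (Nat.mul x28445 (nat_lit 3))) x15323) x41567) x24071) x32819) x26987) x28463) x28439) x28451) x28447) x48127)
    (Nat.add (Nat.add (Nat.add (Nat.add (Nat.add (Nat.add (Nat.add (Nat.add (Nat.add (Nat.add (Nat.add C (Nat.mul x28447 (nat_lit 3))) x15325) x41569) x24073) x32821) x26989) x28465) x28453) x28445) x48129) x8765)
    (Nat.add (Nat.add (Nat.add (Nat.add (Nat.add (Nat.add (Nat.add (Nat.add (Nat.add C x15329) x41573) x24077) x32825) x26993) x28469) x28445) x28453) x48133)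
    (Nat.add (Nat.add (Nat.add (Nat.add (Nat.add (Nat.add (Nat.add (Nat.add (Nat.add (Nat.add (Nat.add (Nat.add C (Nat.mul x28453 (nat_lit 2))) x15331) x41575) x24079) x32827) x26995) x28471) x28447) x28451) x28455) x48135) x8771)
    (Nat.add (Nat.add (Nat.add (Nat.add (Nat.add (Nat.add (Nat.add (Nat.add (Nat.add C (Nat.mul x28455 (nat_lit 2))) x15333) x41577) x24081) x32829) x26997) x28473) x28453) x8773)
    (Nat.add (Nat.add (Nat.add (Nat.add (Nat.add (Nat.add (Nat.add (Nat.add (Nat.add (Nat.add (Nat.add C (Nat.mul x28463 (nat_lit 2))) x15341) x41585) x24089) x32837) x27005) x28517) x28445) x28469) x28465) x48145)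
    (Nat.add (Nat.add (Nat.add (Nat.add (Nat.add (Nat.add (Nat.add (Nat.add (Nat.add (Nat.add (Nat.add (Nat.add C x28465) x15343) x41587) x24091) x32839) x27007) x28519) x28447) x28471) x28463) x48147) x8783)
    (Nat.add (Nat.add (Nat.add (Nat.add (Nat.add (Nat.add (Nat.add (Nat.add (Nat.add (Nat.add (Nat.add (Nat.add C x28469) x15347) x41591) x24095) x32843) x27011) x28523) x28451) x28487) x28463) x28471) x48151)
    (Nat.add (Nat.add (Nat.add (Nat.add (Nat.add (Nat.add (Nat.add (Nat.add (Nat.add (Nat.add (Nat.add (Nat.add (Nat.add (Nat.add (Nat.add C (Nat.mul x28471 (nat_lit 2))) x15349) x41593) x24097) x32845) x27013) x28525) x28453) x28489) x28465) x28477) x28469) x28473) x48153) x8789)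
    (Nat.add (Nat.add (Nat.add (Nat.add (Nat.add (Nat.add (Nat.add (Nat.add (Nat.add (Nat.add (Nat.add (Nat.add C x28473) x15351) x41595) x24099) x32847) x27015) x28527) x28455) x28491) x28479) x28471) x8791)
    (Nat.add (Nat.add (Nat.add (Nat.add (Nat.add (Nat.add (Nat.add (Nat.add (Nat.add (Nat.add (Nat.add (Nat.add C x28477) x15355) x41599) x24103) x32851) x27019) x28531) x28495) x28471) x28479) x48159) x8795)
    (Nat.add (Nat.add (Nat.add (Nat.add (Nat.add (Nat.add (Nat.add (Nat.add (Nat.add (Nat.add (Nat.add C (Nat.mul x28479 (nat_lit 2))) x15357) x41601) x24105) x32853) x27021) x28533) x28497) x28473) x28477) x8797)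
    (Nat.add (Nat.add (Nat.add (Nat.add (Nat.add (Nat.add (Nat.add (Nat.add (Nat.add C x15365) x41609) x24113) x32861) x27029) x28541) x28469) x28489) x48169)
    (Nat.add (Nat.add (Nat.add (Nat.add (Nat.add (Nat.add (Nat.add (Nat.add (Nat.add (Nat.add (Nat.add (Nat.add C x15367) x41611) x24115) x32863) x27031) x28543) x28471) x28495) x28487) x28491) x48171) x8807)
    (Nat.sub (Nat.add (Nat.add (Nat.add (Nat.add (Nat.add (Nat.add (Nat.add (Nat.add (Nat.add (Nat.add C x15369) x41613) x24117) x32865) x27033) x28545) x28473) x28497) x28489) x8809) (Nat.mul x28491 (nat_lit 2)))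
    (Nat.add (Nat.add (Nat.add (Nat.add (Nat.add (Nat.add (Nat.add (Nat.add (Nat.add (Nat.add (Nat.add (Nat.add C x28495) x15373) x41617) x24121) x32869) x27037) x28549) x28477) x28489) x28497) x48177) x8813)
    (Nat.add (Nat.add (Nat.add (Nat.add (Nat.add (Nat.add (Nat.add (Nat.add (Nat.add (Nat.add (Nat.add (Nat.add C x28497) x15375) x41619) x24123) x32871) x27039) x28551) x28479) x28491) x28503) x28495) x8815)
    (Nat.add (Nat.add (Nat.add (Nat.add (Nat.add (Nat.add (Nat.add (Nat.add (Nat.add C (Nat.mul x28503 (nat_lit 2))) x15381) x41625) x24129) x32877) x27045) x28557) x28497) x8821)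
    (Nat.add (Nat.add (Nat.add (Nat.add (Nat.add (Nat.add (Nat.add (Nat.add (Nat.add (Nat.add (Nat.add C (Nat.mul x28517 (nat_lit 2))) x15395) x41639) x24143) x32891) x27059) x28679) x28463) x28523) x28519) x48199)
    (Nat.add (Nat.add (Nat.add (Nat.add (Nat.add (Nat.add (Nat.add (Nat.add (Nat.add (Nat.add (Nat.add (Nat.add C x28519) x15397) x41641) x24145) x32893) x27061) x28681) x28465) x28525) x28517) x48201) x8837)
    (Nat.add (Nat.add (Nat.add (Nat.add (Nat.add (Nat.add (Nat.add (Nat.add (Nat.add (Nat.add (Nat.add C x15401) x41645) x24149) x32897) x27065) x28685) x28469) x28541) x28517) x28525) x48205)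
    (Nat.add (Nat.add (Nat.add (Nat.add (Nat.add (Nat.add (Nat.add (Nat.add (Nat.add (Nat.add (Nat.add (Nat.add (Nat.add (Nat.add (Nat.add C x28525) x15403) x41647) x24151) x32899) x27067) x28687) x28471) x28543) x28519) x28531) x28523) x28527) x48207) x8843)
    (Nat.add (Nat.add (Nat.add (Nat.add (Nat.add (Nat.add (Nat.add (Nat.add (Nat.add (Nat.add (Nat.add C x15405) x41649) x24153) x32901) x27069) x28689) x28473) x28545) x28533) x28525) x8845)
    (Nat.sub (Nat.add (Nat.add (Nat.add (Nat.add (Nat.add (Nat.add (Nat.add (Nat.add (Nat.add (Nat.add (Nat.add (Nat.add C x15409) x41653) x24157) x32905) x27073) x28693) x28477) x28549) x28525) x28533) x48213) x8849) x28531)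
    (Nat.add (Nat.add (Nat.add (Nat.add (Nat.add (Nat.add (Nat.add (Nat.add (Nat.add (Nat.add (Nat.add C x15411) x41655) x24159) x32907) x27075) x28695) x28479) x28551) x28527) x28531) x8851)
    (Nat.add (Nat.add (Nat.add (Nat.add (Nat.add (Nat.add (Nat.add (Nat.add (Nat.add (Nat.add (Nat.add (Nat.add C x28541) x15419) x41663) x24167) x32915) x27083) x28703) x28487) x28595) x28523) x28543) x48223)
    (Nat.add (Nat.add (Nat.add (Nat.add (Nat.add (Nat.add (Nat.add (Nat.add (Nat.add (Nat.add (Nat.add (Nat.add (Nat.add (Nat.add (Nat.add C x28543) x15421) x41665) x24169) x32917) x27085) x28705) x28489) x28597) x28525) x28549) x28541) x28545) x48225) x8861)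
    (Nat.sub (Nat.add (Nat.add (Nat.add (Nat.add (Nat.add (Nat.add (Nat.add (Nat.add (Nat.add (Nat.add (Nat.add (Nat.add C x15423) x41667) x24171) x32919) x27087) x28707) x28491) x28599) x28527) x28551) x28543) x8863) x28545)
    (Nat.add (Nat.add (Nat.add (Nat.add (Nat.add (Nat.add (Nat.add (Nat.add (Nat.add (Nat.add (Nat.add (Nat.add (Nat.add (Nat.add (Nat.add C x28549) x15427) x41671) x24175) x32923) x27091) x28711) x28495) x28603) x28531) x28567) x28543) x28551) x48231) x8867)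
    (Nat.add (Nat.add (Nat.add (Nat.add (Nat.add (Nat.add (Nat.add (Nat.add (Nat.add (Nat.add (Nat.add (Nat.add (Nat.add (Nat.add (Nat.add C x28551) x15429) x41673) x24177) x32925) x27093) x28713) x28497) x28605) x28533) x28569) x28545) x28557) x28549) x8869)
    (Nat.add (Nat.add (Nat.add (Nat.add (Nat.add (Nat.add (Nat.add (Nat.add (Nat.add (Nat.add (Nat.add (Nat.add C x28557) x15435) x41679) x24183) x32931) x27099) x28719) x28503) x28611) x28575) x28551) x8875)
    (Nat.add (Nat.add (Nat.add (Nat.add (Nat.add (Nat.add (Nat.add (Nat.add (Nat.add (Nat.add (Nat.add (Nat.add C x28567) x15445) x41689) x24193) x32941) x27109) x28729) x28621) x28549) x28569) x48249) x8885)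
    (Nat.add (Nat.add (Nat.add (Nat.add (Nat.add (Nat.add (Nat.add (Nat.add (Nat.add (Nat.add (Nat.add C x15447) x41691) x24195) x32943) x27111) x28731) x28623) x28551) x28575) x28567) x8887)
    (Nat.add (Nat.add (Nat.add (Nat.add (Nat.add (Nat.add (Nat.add (Nat.add (Nat.add (Nat.add (Nat.add C (Nat.mul x28575 (nat_lit 2))) x15453) x41697) x24201) x32949) x27117) x28737) x28629) x28557) x28569) x8893)
    (Nat.add (Nat.add (Nat.add (Nat.add (Nat.add (Nat.add (Nat.add (Nat.add (Nat.add C x15473) x41717) x24221) x32969) x27137) x28757) x28541) x28597) x48277)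
    (Nat.add (Nat.add (Nat.add (Nat.add (Nat.add (Nat.add (Nat.add (Nat.add (Nat.add (Nat.add (Nat.add (Nat.add C x15475) x41719) x24223) x32971) x27139) x28759) x28543) x28603) x28595) x28599) x48279) x8915)
    (Nat.sub (Nat.add (Nat.add (Nat.add (Nat.add (Nat.add (Nat.add (Nat.add (Nat.add (Nat.add (Nat.add C x15477) x41721) x24225) x32973) x27141) x28761) x28545) x28605) x28597) x8917) (Nat.mul x28599 (nat_lit 2)))
    (Nat.sub (Nat.add (Nat.add (Nat.add (Nat.add (Nat.add (Nat.add (Nat.add (Nat.add (Nat.add (Nat.add (Nat.add (Nat.add C x15481) x41725) x24229) x32977) x27145) x28765) x28549) x28621) x28597) x28605) x48285) x8921) x28603)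
    (Nat.sub (Nat.add (Nat.add (Nat.add (Nat.add (Nat.add (Nat.add (Nat.add (Nat.add (Nat.add (Nat.add (Nat.add (Nat.add C x15483) x41727) x24231) x32979) x27147) x28767) x28551) x28623) x28599) x28611) x28603) x8923) x28605)
    (Nat.sub (Nat.add (Nat.add (Nat.add (Nat.add (Nat.add (Nat.add (Nat.add (Nat.add (Nat.add (Nat.add C x15489) x41733) x24237) x32985) x27153) x28773) x28557) x28629) x28605) x8929) (Nat.mul x28611 (nat_lit 2)))
    (Nat.add (Nat.add (Nat.add (Nat.add (Nat.add (Nat.add (Nat.add (Nat.add (Nat.add (Nat.add (Nat.add (Nat.add C x28621) x15499) x41743) x24247) x32995) x27163) x28783) x28567) x28603) x28623) x48303) x8939)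
    (Nat.add (Nat.add (Nat.add (Nat.add (Nat.add (Nat.add (Nat.add (Nat.add (Nat.add (Nat.add (Nat.add C x15501) x41745) x24249) x32997) x27165) x28785) x28569) x28605) x28629) x28621) x8941)
    (Nat.add (Nat.add (Nat.add (Nat.add (Nat.add (Nat.add (Nat.add (Nat.add (Nat.add (Nat.add (Nat.add (Nat.add C x28629) x15507) x41751) x24255) x33003) x27171) x28791) x28575) x28611) x28647) x28623) x8947)
    (Nat.add (Nat.add (Nat.add (Nat.add (Nat.add (Nat.add (Nat.add (Nat.add (Nat.add C (Nat.mul x28647 (nat_lit 2))) x15525) x41769) x24273) x33021) x27189) x28809) x28629) x8965)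
    (Nat.add (Nat.add (Nat.add (Nat.add (Nat.add (Nat.add (Nat.add (Nat.add (Nat.add (Nat.add (Nat.add C (Nat.mul x28679 (nat_lit 2))) x15557) x41801) x24305) x33053) x27221) x29165) x28517) x28685) x28681) x48361)
    (Nat.add (Nat.add (Nat.add (Nat.add (Nat.add (Nat.add (Nat.add (Nat.add (Nat.add (Nat.add (Nat.add (Nat.add C x28681) x15559) x41803) x24307) x33055) x27223) x29167) x28519) x28687) x28679) x48363) x8999)
    (Nat.add (Nat.add (Nat.add (Nat.add (Nat.add (Nat.add (Nat.add (Nat.add (Nat.add (Nat.add (Nat.add C x15563) x41807) x24311) x33059) x27227) x29171) x28523) x28703) x28679) x28687) x48367)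
    (Nat.add (Nat.add (Nat.add (Nat.add (Nat.add (Nat.add (Nat.add (Nat.add (Nat.add (Nat.add (Nat.add (Nat.add (Nat.add (Nat.add (Nat.add C x28687) x15565) x41809) x24313) x33061) x27229) x29173) x28525) x28705) x28681) x28693) x28685) x28689) x48369) x9005)
    (Nat.add (Nat.add (Nat.add (Nat.add (Nat.add (Nat.add (Nat.add (Nat.add (Nat.add (Nat.add (Nat.add C x15567) x41811) x24315) x33063) x27231) x29175) x28527) x28707) x28695) x28687) x9007)
    (Nat.sub (Nat.add (Nat.add (Nat.add (Nat.add (Nat.add (Nat.add (Nat.add (Nat.add (Nat.add (Nat.add (Nat.add (Nat.add C x15571) x41815) x24319) x33067) x27235) x29179) x28531) x28711) x28687) x28695) x48375) x9011) x28693)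
    (Nat.add (Nat.add (Nat.add (Nat.add (Nat.add (Nat.add (Nat.add (Nat.add (Nat.add (Nat.add (Nat.add C x15573) x41817) x24321) x33069) x27237) x29181) x28533) x28713) x28689) x28693) x9013)
    (Nat.add (Nat.add (Nat.add (Nat.add (Nat.add (Nat.add (Nat.add (Nat.add (Nat.add (Nat.add (Nat.add C x15581) x41825) x24329) x33077) x27245) x29189) x28541) x28757) x28685) x28705) x48385)
    (Nat.add (Nat.add (Nat.add (Nat.add (Nat.add (Nat.add (Nat.add (Nat.add (Nat.add (Nat.add (Nat.add (Nat.add (Nat.add (Nat.add C x15583) x41827) x24331) x33079) x27247) x29191) x28543) x28759) x28687) x28711) x28703) x28707) x48387) x9023)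
    (Nat.sub (Nat.add (Nat.add (Nat.add (Nat.add (Nat.add (Nat.add (Nat.add (Nat.add (Nat.add (Nat.add (Nat.add (Nat.add C x15585) x41829) x24333) x33081) x27249) x29193) x28545) x28761) x28689) x28713) x28705) x9025) (Nat.mul x28707 (nat_lit 2)))
    (Nat.add (Nat.add (Nat.add (Nat.add (Nat.add (Nat.add (Nat.add (Nat.add (Nat.add (Nat.add (Nat.add (Nat.add (Nat.add (Nat.add C x15589) x41833) x24337) x33085) x27253) x29197) x28549) x28765) x28693) x28729) x28705) x28713) x48393) x9029)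
    (Nat.add (Nat.add (Nat.add (Nat.add (Nat.add (Nat.add (Nat.add (Nat.add (Nat.add (Nat.add (Nat.add (Nat.add (Nat.add (Nat.add C x15591) x41835) x24339) x33087) x27255) x29199) x28551) x28767) x28695) x28731) x28707) x28719) x28711) x9031)
    (Nat.add (Nat.add (Nat.add (Nat.add (Nat.add (Nat.add (Nat.add (Nat.add (Nat.add (Nat.add (Nat.add C x15597) x41841) x24345) x33093) x27261) x29205) x28557) x28773) x28737) x28713) x9037)
    (Nat.sub (Nat.add (Nat.add (Nat.add (Nat.add (Nat.add (Nat.add (Nat.add (Nat.add (Nat.add (Nat.add (Nat.add (Nat.add C x15607) x41851) x24355) x33103) x27271) x29215) x28567) x28783) x28711) x28731) x48411) x9047) x28729)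
    (Nat.sub (Nat.add (Nat.add (Nat.add (Nat.add (Nat.add (Nat.add (Nat.add (Nat.add (Nat.add (Nat.add (Nat.add (Nat.add C x15609) x41853) x24357) x33105) x27273) x29217) x28569) x28785) x28713) x28737) x28729) x9049) (Nat.mul x28731 (nat_lit 2)))
    (Nat.add (Nat.add (Nat.add (Nat.add (Nat.add (Nat.add (Nat.add (Nat.add (Nat.add (Nat.add (Nat.add C x15615) x41859) x24363) x33111) x27279) x29223) x28575) x28791) x28719) x28731) x9055)
    (Nat.add (Nat.add (Nat.add (Nat.add (Nat.add (Nat.add (Nat.add (Nat.add (Nat.add (Nat.add (Nat.add (Nat.add C x28757) x15635) x41879) x24383) x33131) x27299) x29243) x28595) x28919) x28703) x28759) x48439)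
    (Nat.add (Nat.add (Nat.add (Nat.add (Nat.add (Nat.add (Nat.add (Nat.add (Nat.add (Nat.add (Nat.add (Nat.add (Nat.add (Nat.add (Nat.add C x28759) x15637) x41881) x24385) x33133) x27301) x29245) x28597) x28921) x28705) x28765) x28757) x28761) x48441) x9077)
    (Nat.sub (Nat.add (Nat.add (Nat.add (Nat.add (Nat.add (Nat.add (Nat.add (Nat.add (Nat.add (Nat.add (Nat.add (Nat.add C x15639) x41883) x24387) x33135) x27303) x29247) x28599) x28923) x28707) x28767) x28759) x9079) x28761)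
    (Nat.add (Nat.add (Nat.add (Nat.add (Nat.add (Nat.add (Nat.add (Nat.add (Nat.add (Nat.add (Nat.add (Nat.add (Nat.add (Nat.add C x15643) x41887) x24391) x33139) x27307) x29251) x28603) x28927) x28711) x28783) x28759) x28767) x48447) x9083)
    (Nat.add (Nat.add (Nat.add (Nat.add (Nat.add (Nat.add (Nat.add (Nat.add (Nat.add (Nat.add (Nat.add (Nat.add (Nat.add (Nat.add C x15645) x41889) x24393) x33141) x27309) x29253) x28605) x28929) x28713) x28785) x28761) x28773) x28765) x9085)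
    (Nat.sub (Nat.add (Nat.add (Nat.add (Nat.add (Nat.add (Nat.add (Nat.add (Nat.add (Nat.add (Nat.add (Nat.add (Nat.add C x15651) x41895) x24399) x33147) x27315) x29259) x28611) x28935) x28719) x28791) x28767) x9091) x28773)
    (Nat.add (Nat.add (Nat.add (Nat.add (Nat.add (Nat.add (Nat.add (Nat.add (Nat.add (Nat.add (Nat.add (Nat.add (Nat.add (Nat.add (Nat.add C x28783) x15661) x41905) x24409) x33157) x27325) x29269) x28621) x28945) x28729) x28837) x28765) x28785) x48465) x9101)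
    (Nat.add (Nat.add (Nat.add (Nat.add (Nat.add (Nat.add (Nat.add (Nat.add (Nat.add (Nat.add (Nat.add (Nat.add (Nat.add (Nat.add C x15663) x41907) x24411) x33159) x27327) x29271) x28623) x28947) x28731) x28839) x28767) x28791) x28783) x9103)
    (Nat.add (Nat.add (Nat.add (Nat.add (Nat.add (Nat.add (Nat.add (Nat.add (Nat.add (Nat.add (Nat.add (Nat.add (Nat.add (Nat.add (Nat.add C x28791) x15669) x41913) x24417) x33165) x27333) x29277) x28629) x28953) x28737) x28845) x28773) x28809) x28785) x9109)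
    (Nat.add (Nat.add (Nat.add (Nat.add (Nat.add (Nat.add (Nat.add (Nat.add (Nat.add (Nat.add (Nat.add (Nat.add C x28809) x15687) x41931) x24435) x33183) x27351) x29295) x28647) x28971) x28863) x28791) x9127)
    (Nat.add (Nat.add (Nat.add (Nat.add (Nat.add (Nat.add (Nat.add (Nat.add (Nat.add (Nat.add (Nat.add (Nat.add C x28837) x15715) x41959) x24463) x33211) x27379) x29323) x28999) x28783) x28839) x48519) x9155)
    (Nat.add (Nat.add (Nat.add (Nat.add (Nat.add (Nat.add (Nat.add (Nat.add (Nat.add (Nat.add (Nat.add C x15717) x41961) x24465) x33213) x27381) x29325) x29001) x28785) x28845) x28837) x9157)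
    (Nat.add (Nat.add (Nat.add (Nat.add (Nat.add (Nat.add (Nat.add (Nat.add (Nat.add (Nat.add (Nat.add C x15723) x41967) x24471) x33219) x27387) x29331) x29007) x28791) x28863) x28839) x9163)
    (Nat.add (Nat.add (Nat.add (Nat.add (Nat.add (Nat.add (Nat.add (Nat.add (Nat.add (Nat.add (Nat.add C (Nat.mul x28863 (nat_lit 2))) x15741) x41985) x24489) x33237) x27405) x29349) x29025) x28809) x28845) x9181)
    (Nat.add (Nat.add (Nat.add (Nat.add (Nat.add (Nat.add (Nat.add (Nat.add (Nat.add C x15797) x42041) x24545) x33293) x27461) x29405) x28757) x28921) x48601)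
    (Nat.add (Nat.add (Nat.add (Nat.add (Nat.add (Nat.add (Nat.add (Nat.add (Nat.add (Nat.add (Nat.add (Nat.add C x15799) x42043) x24547) x33295) x27463) x29407) x28759) x28927) x28919) x28923) x48603) x9239)
    (Nat.sub (Nat.add (Nat.add (Nat.add (Nat.add (Nat.add (Nat.add (Nat.add (Nat.add (Nat.add (Nat.add C x15801) x42045) x24549) x33297) x27465) x29409) x28761) x28929) x28921) x9241) (Nat.mul x28923 (nat_lit 2)))
    (Nat.sub (Nat.add (Nat.add (Nat.add (Nat.add (Nat.add (Nat.add (Nat.add (Nat.add (Nat.add (Nat.add (Nat.add (Nat.add C x15805) x42049) x24553) x33301) x27469) x29413) x28765) x28945) x28921) x28929) x48609) x9245) x28927)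
    (Nat.sub (Nat.add (Nat.add (Nat.add (Nat.add (Nat.add (Nat.add (Nat.add (Nat.add (Nat.add (Nat.add (Nat.add (Nat.add C x15807) x42051) x24555) x33303) x27471) x29415) x28767) x28947) x28923) x28935) x28927) x9247) x28929)
    (Nat.sub (Nat.add (Nat.add (Nat.add (Nat.add (Nat.add (Nat.add (Nat.add (Nat.add (Nat.add (Nat.add C x15813) x42057) x24561) x33309) x27477) x29421) x28773) x28953) x28929) x9253) (Nat.mul x28935 (nat_lit 2)))
    (Nat.sub (Nat.add (Nat.add (Nat.add (Nat.add (Nat.add (Nat.add (Nat.add (Nat.add (Nat.add (Nat.add (Nat.add (Nat.add C x15823) x42067) x24571) x33319) x27487) x29431) x28783) x28999) x28927) x28947) x48627) x9263) x28945)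
    (Nat.sub (Nat.add (Nat.add (Nat.add (Nat.add (Nat.add (Nat.add (Nat.add (Nat.add (Nat.add (Nat.add (Nat.add (Nat.add C x15825) x42069) x24573) x33321) x27489) x29433) x28785) x29001) x28929) x28953) x28945) x9265) (Nat.mul x28947 (nat_lit 2)))
    (Nat.sub (Nat.add (Nat.add (Nat.add (Nat.add (Nat.add (Nat.add (Nat.add (Nat.add (Nat.add (Nat.add (Nat.add (Nat.add C x15831) x42075) x24579) x33327) x27495) x29439) x28791) x29007) x28935) x28971) x28947) x9271) x28953)
    (Nat.sub (Nat.add (Nat.add (Nat.add (Nat.add (Nat.add (Nat.add (Nat.add (Nat.add (Nat.add (Nat.add C x15849) x42093) x24597) x33345) x27513) x29457) x28809) x29025) x28953) x9289) (Nat.mul x28971 (nat_lit 2)))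
    (Nat.add (Nat.add (Nat.add (Nat.add (Nat.add (Nat.add (Nat.add (Nat.add (Nat.add (Nat.add (Nat.add (Nat.add C x28999) x15877) x42121) x24625) x33373) x27541) x29485) x28837) x28945) x29001) x48681) x9317)
    (Nat.add (Nat.add (Nat.add (Nat.add (Nat.add (Nat.add (Nat.add (Nat.add (Nat.add (Nat.add (Nat.add C x15879) x42123) x24627) x33375) x27543) x29487) x28839) x28947) x29007) x28999) x9319)
    (Nat.add (Nat.add (Nat.add (Nat.add (Nat.add (Nat.add (Nat.add (Nat.add (Nat.add (Nat.add (Nat.add C x15885) x42129) x24633) x33381) x27549) x29493) x28845) x28953) x29025) x29001) x9325)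
    (Nat.add (Nat.add (Nat.add (Nat.add (Nat.add (Nat.add (Nat.add (Nat.add (Nat.add (Nat.add (Nat.add (Nat.add C x29025) x15903) x42147) x24651) x33399) x27567) x29511) x28863) x28971) x29079) x29007) x9343)
    (Nat.add (Nat.add (Nat.add (Nat.add (Nat.add (Nat.add (Nat.add (Nat.add (Nat.add C (Nat.mul x29079 (nat_lit 2))) x15957) x42201) x24705) x33453) x27621) x29565) x29025) x9397)
    (Nat.add (Nat.add (Nat.add (Nat.add (Nat.add (Nat.add (Nat.add (Nat.add (Nat.add (Nat.add (Nat.add C (Nat.mul x29165 (nat_lit 3))) x16043) x42287) x24791) x33539) x27707) x30623) x28679) x29171) x29167) x48847)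
    (Nat.add (Nat.add (Nat.add (Nat.add (Nat.add (Nat.add (Nat.add (Nat.add (Nat.add (Nat.add (Nat.add (Nat.add C (Nat.mul x29167 (nat_lit 2))) x16045) x42289) x24793) x33541) x27709) x30625) x28681) x29173) x29165) x48849) x9485)
    (Nat.add (Nat.add (Nat.add (Nat.add (Nat.add (Nat.add (Nat.add (Nat.add (Nat.add (Nat.add (Nat.add (Nat.add C x29171) x16049) x42293) x24797) x33545) x27713) x30629) x28685) x29189) x29165) x29173) x48853)
    (Nat.add (Nat.add (Nat.add (Nat.add (Nat.add (Nat.add (Nat.add (Nat.add (Nat.add (Nat.add (Nat.add (Nat.add (Nat.add (Nat.add (Nat.add C (Nat.mul x29173 (nat_lit 2))) x16051) x42295) x24799) x33547) x27715) x30631) x28687) x29191) x29167) x29179) x29171) x29175) x48855) x9491)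
    (Nat.add (Nat.add (Nat.add (Nat.add (Nat.add (Nat.add (Nat.add (Nat.add (Nat.add (Nat.add (Nat.add (Nat.add C x29175) x16053) x42297) x24801) x33549) x27717) x30633) x28689) x29193) x29181) x29173) x9493)
    (Nat.add (Nat.add (Nat.add (Nat.add (Nat.add (Nat.add (Nat.add (Nat.add (Nat.add (Nat.add (Nat.add (Nat.add C x16057) x42301) x24805) x33553) x27721) x30637) x28693) x29197) x29173) x29181) x48861) x9497)
    (Nat.add (Nat.add (Nat.add (Nat.add (Nat.add (Nat.add (Nat.add (Nat.add (Nat.add (Nat.add (Nat.add (Nat.add C x29181) x16059) x42303) x24807) x33555) x27723) x30639) x28695) x29199) x29175) x29179) x9499)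
    (Nat.add (Nat.add (Nat.add (Nat.add (Nat.add (Nat.add (Nat.add (Nat.add (Nat.add (Nat.add (Nat.add (Nat.add C x29189) x16067) x42311) x24815) x33563) x27731) x30647) x28703) x29243) x29171) x29191) x48871)
    (Nat.add (Nat.add (Nat.add (Nat.add (Nat.add (Nat.add (Nat.add (Nat.add (Nat.add (Nat.add (Nat.add (Nat.add (Nat.add (Nat.add (Nat.add C x29191) x16069) x42313) x24817) x33565) x27733) x30649) x28705) x29245) x29173) x29197) x29189) x29193) x48873) x9509)
    (Nat.sub (Nat.add (Nat.add (Nat.add (Nat.add (Nat.add (Nat.add (Nat.add (Nat.add (Nat.add (Nat.add (Nat.add (Nat.add C x16071) x42315) x24819) x33567) x27735) x30651) x28707) x29247) x29175) x29199) x29191) x9511) x29193)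
    (Nat.add (Nat.add (Nat.add (Nat.add (Nat.add (Nat.add (Nat.add (Nat.add (Nat.add (Nat.add (Nat.add (Nat.add (Nat.add (Nat.add (Nat.add C x29197) x16075) x42319) x24823) x33571) x27739) x30655) x28711) x29251) x29179) x29215) x29191) x29199) x48879) x9515)
    (Nat.add (Nat.add (Nat.add (Nat.add (Nat.add (Nat.add (Nat.add (Nat.add (Nat.add (Nat.add (Nat.add (Nat.add (Nat.add (Nat.add (Nat.add C x29199) x16077) x42321) x24825) x33573) x27741) x30657) x28713) x29253) x29181) x29217) x29193) x29205) x29197) x9517)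
    (Nat.add (Nat.add (Nat.add (Nat.add (Nat.add (Nat.add (Nat.add (Nat.add (Nat.add (Nat.add (Nat.add (Nat.add C x29205) x16083) x42327) x24831) x33579) x27747) x30663) x28719) x29259) x29223) x29199) x9523)
    (Nat.add (Nat.add (Nat.add (Nat.add (Nat.add (Nat.add (Nat.add (Nat.add (Nat.add (Nat.add (Nat.add (Nat.add C x16093) x42337) x24841) x33589) x27757) x30673) x28729) x29269) x29197) x29217) x48897) x9533)
    (Nat.sub (Nat.add (Nat.add (Nat.add (Nat.add (Nat.add (Nat.add (Nat.add (Nat.add (Nat.add (Nat.add (Nat.add (Nat.add C x16095) x42339) x24843) x33591) x27759) x30675) x28731) x29271) x29199) x29223) x29215) x9535) x29217)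
    (Nat.add (Nat.add (Nat.add (Nat.add (Nat.add (Nat.add (Nat.add (Nat.add (Nat.add (Nat.add (Nat.add (Nat.add C x29223) x16101) x42345) x24849) x33597) x27765) x30681) x28737) x29277) x29205) x29217) x9541)
    (Nat.add (Nat.add (Nat.add (Nat.add (Nat.add (Nat.add (Nat.add (Nat.add (Nat.add (Nat.add (Nat.add (Nat.add C x29243) x16121) x42365) x24869) x33617) x27785) x30701) x28757) x29405) x29189) x29245) x48925)
    (Nat.add (Nat.add (Nat.add (Nat.add (Nat.add (Nat.add (Nat.add (Nat.add (Nat.add (Nat.add (Nat.add (Nat.add (Nat.add (Nat.add (Nat.add C x29245) x16123) x42367) x24871) x33619) x27787) x30703) x28759) x29407) x29191) x29251) x29243) x29247) x48927) x9563)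
    (Nat.sub (Nat.add (Nat.add (Nat.add (Nat.add (Nat.add (Nat.add (Nat.add (Nat.add (Nat.add (Nat.add (Nat.add (Nat.add C x16125) x42369) x24873) x33621) x27789) x30705) x28761) x29409) x29193) x29253) x29245) x9565) x29247)
    (Nat.add (Nat.add (Nat.add (Nat.add (Nat.add (Nat.add (Nat.add (Nat.add (Nat.add (Nat.add (Nat.add (Nat.add (Nat.add (Nat.add C x16129) x42373) x24877) x33625) x27793) x30709) x28765) x29413) x29197) x29269) x29245) x29253) x48933) x9569)
    (Nat.add (Nat.add (Nat.add (Nat.add (Nat.add (Nat.add (Nat.add (Nat.add (Nat.add (Nat.add (Nat.add (Nat.add (Nat.add (Nat.add C x16131) x42375) x24879) x33627) x27795) x30711) x28767) x29415) x29199) x29271) x29247) x29259) x29251) x9571)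
    (Nat.sub (Nat.add (Nat.add (Nat.add (Nat.add (Nat.add (Nat.add (Nat.add (Nat.add (Nat.add (Nat.add (Nat.add (Nat.add C x16137) x42381) x24885) x33633) x27801) x30717) x28773) x29421) x29205) x29277) x29253) x9577) x29259)
    (Nat.add (Nat.add (Nat.add (Nat.add (Nat.add (Nat.add (Nat.add (Nat.add (Nat.add (Nat.add (Nat.add (Nat.add (Nat.add (Nat.add (Nat.add C x29269) x16147) x42391) x24895) x33643) x27811) x30727) x28783) x29431) x29215) x29323) x29251) x29271) x48951) x9587)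
    (Nat.add (Nat.add (Nat.add (Nat.add (Nat.add (Nat.add (Nat.add (Nat.add (Nat.add (Nat.add (Nat.add (Nat.add (Nat.add (Nat.add C x16149) x42393) x24897) x33645) x27813) x30729) x28785) x29433) x29217) x29325) x29253) x29277) x29269) x9589)
    (Nat.add (Nat.add (Nat.add (Nat.add (Nat.add (Nat.add (Nat.add (Nat.add (Nat.add (Nat.add (Nat.add (Nat.add (Nat.add (Nat.add (Nat.add C x29277) x16155) x42399) x24903) x33651) x27819) x30735) x28791) x29439) x29223) x29331) x29259) x29295) x29271) x9595)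
    (Nat.add (Nat.add (Nat.add (Nat.add (Nat.add (Nat.add (Nat.add (Nat.add (Nat.add (Nat.add (Nat.add (Nat.add C x29295) x16173) x42417) x24921) x33669) x27837) x30753) x28809) x29457) x29349) x29277) x9613)
    (Nat.add (Nat.add (Nat.add (Nat.add (Nat.add (Nat.add (Nat.add (Nat.add (Nat.add (Nat.add (Nat.add (Nat.add C x16201) x42445) x24949) x33697) x27865) x30781) x28837) x29485) x29269) x29325) x49005) x9641)
    (Nat.sub (Nat.add (Nat.add (Nat.add (Nat.add (Nat.add (Nat.add (Nat.add (Nat.add (Nat.add (Nat.add (Nat.add (Nat.add C x16203) x42447) x24951) x33699) x27867) x30783) x28839) x29487) x29271) x29331) x29323) x9643) x29325)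
    (Nat.sub (Nat.add (Nat.add (Nat.add (Nat.add (Nat.add (Nat.add (Nat.add (Nat.add (Nat.add (Nat.add (Nat.add (Nat.add C x16209) x42453) x24957) x33705) x27873) x30789) x28845) x29493) x29277) x29349) x29325) x9649) x29331)
    (Nat.add (Nat.add (Nat.add (Nat.add (Nat.add (Nat.add (Nat.add (Nat.add (Nat.add (Nat.add (Nat.add (Nat.add C x29349) x16227) x42471) x24975) x33723) x27891) x30807) x28863) x29511) x29295) x29331) x9667)
    (Nat.add (Nat.add (Nat.add (Nat.add (Nat.add (Nat.add (Nat.add (Nat.add (Nat.add (Nat.add (Nat.add (Nat.add C (Nat.mul x29405 (nat_lit 2))) x16283) x42527) x25031) x33779) x27947) x30863) x28919) x29891) x29243) x29407) x49087)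
    (Nat.add (Nat.add (Nat.add (Nat.add (Nat.add (Nat.add (Nat.add (Nat.add (Nat.add (Nat.add (Nat.add (Nat.add (Nat.add (Nat.add (Nat.add C (Nat.mul x29407 (nat_lit 2))) x16285) x42529) x25033) x33781) x27949) x30865) x28921) x29893) x29245) x29413) x29405) x29409) x49089) x9725)
    (Nat.add (Nat.add (Nat.add (Nat.add (Nat.add (Nat.add (Nat.add (Nat.add (Nat.add (Nat.add (Nat.add (Nat.add C x16287) x42531) x25035) x33783) x27951) x30867) x28923) x29895) x29247) x29415) x29407) x9727)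
    (Nat.add (Nat.add (Nat.add (Nat.add (Nat.add (Nat.add (Nat.add (Nat.add (Nat.add (Nat.add (Nat.add (Nat.add (Nat.add (Nat.add (Nat.add C x29413) x16291) x42535) x25039) x33787) x27955) x30871) x28927) x29899) x29251) x29431) x29407) x29415) x49095) x9731)
    (Nat.add (Nat.add (Nat.add (Nat.add (Nat.add (Nat.add (Nat.add (Nat.add (Nat.add (Nat.add (Nat.add (Nat.add (Nat.add (Nat.add (Nat.add C x29415) x16293) x42537) x25041) x33789) x27957) x30873) x28929) x29901) x29253) x29433) x29409) x29421) x29413) x9733)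
    (Nat.add (Nat.add (Nat.add (Nat.add (Nat.add (Nat.add (Nat.add (Nat.add (Nat.add (Nat.add (Nat.add (Nat.add C x16299) x42543) x25047) x33795) x27963) x30879) x28935) x29907) x29259) x29439) x29415) x9739)
    (Nat.add (Nat.add (Nat.add (Nat.add (Nat.add (Nat.add (Nat.add (Nat.add (Nat.add (Nat.add (Nat.add (Nat.add (Nat.add (Nat.add (Nat.add C x29431) x16309) x42553) x25057) x33805) x27973) x30889) x28945) x29917) x29269) x29485) x29413) x29433) x49113) x9749)
    (Nat.add (Nat.add (Nat.add (Nat.add (Nat.add (Nat.add (Nat.add (Nat.add (Nat.add (Nat.add (Nat.add (Nat.add (Nat.add (Nat.add C x16311) x42555) x25059) x33807) x27975) x30891) x28947) x29919) x29271) x29487) x29415) x29439) x29431) x9751)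
    (Nat.add (Nat.add (Nat.add (Nat.add (Nat.add (Nat.add (Nat.add (Nat.add (Nat.add (Nat.add (Nat.add (Nat.add (Nat.add (Nat.add (Nat.add C x29439) x16317) x42561) x25065) x33813) x27981) x30897) x28953) x29925) x29277) x29493) x29421) x29457) x29433) x9757)
    (Nat.add (Nat.add (Nat.add (Nat.add (Nat.add (Nat.add (Nat.add (Nat.add (Nat.add (Nat.add (Nat.add (Nat.add C x16335) x42579) x25083) x33831) x27999) x30915) x28971) x29943) x29295) x29511) x29439) x9775)
    (Nat.add (Nat.add (Nat.add (Nat.add (Nat.add (Nat.add (Nat.add (Nat.add (Nat.add (Nat.add (Nat.add (Nat.add (Nat.add (Nat.add (Nat.add C (Nat.mul x29485 (nat_lit 2))) x16363) x42607) x25111) x33859) x28027) x30943) x28999) x29971) x29323) x29647) x29431) x29487) x49167) x9803)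
    (Nat.add (Nat.add (Nat.add (Nat.add (Nat.add (Nat.add (Nat.add (Nat.add (Nat.add (Nat.add (Nat.add (Nat.add (Nat.add (Nat.add (Nat.add C x29487) x16365) x42609) x25113) x33861) x28029) x30945) x29001) x29973) x29325) x29649) x29433) x29493) x29485) x9805)
    (Nat.add (Nat.add (Nat.add (Nat.add (Nat.add (Nat.add (Nat.add (Nat.add (Nat.add (Nat.add (Nat.add (Nat.add (Nat.add (Nat.add (Nat.add C x29493) x16371) x42615) x25119) x33867) x28035) x30951) x29007) x29979) x29331) x29655) x29439) x29511) x29487) x9811)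
    (Nat.add (Nat.add (Nat.add (Nat.add (Nat.add (Nat.add (Nat.add (Nat.add (Nat.add (Nat.add (Nat.add (Nat.add (Nat.add (Nat.add (Nat.add C (Nat.mul x29511 (nat_lit 2))) x16389) x42633) x25137) x33885) x28053) x30969) x29025) x29997) x29349) x29673) x29457) x29565) x29493) x9829)
    (Nat.add (Nat.add (Nat.add (Nat.add (Nat.add (Nat.add (Nat.add (Nat.add (Nat.add (Nat.add (Nat.add (Nat.add C (Nat.mul x29565 (nat_lit 2))) x16443) x42687) x25191) x33939) x28107) x31023) x29079) x30051) x29727) x29511) x9883)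
    (Nat.add (Nat.add (Nat.add (Nat.add (Nat.add (Nat.add (Nat.add (Nat.add (Nat.add (Nat.add (Nat.add (Nat.add C (Nat.mul x29647 (nat_lit 2))) x16525) x42769) x25273) x34021) x28189) x31105) x30133) x29485) x29649) x49329) x9965)
    (Nat.add (Nat.add (Nat.add (Nat.add (Nat.add (Nat.add (Nat.add (Nat.add (Nat.add (Nat.add (Nat.add (Nat.add C x29649) x16527) x42771) x25275) x34023) x28191) x31107) x30135) x29487) x29655) x29647) x9967)
    (Nat.add (Nat.add (Nat.add (Nat.add (Nat.add (Nat.add (Nat.add (Nat.add (Nat.add (Nat.add (Nat.add (Nat.add C x29655) x16533) x42777) x25281) x34029) x28197) x31113) x30141) x29493) x29673) x29649) x9973)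
    (Nat.add (Nat.add (Nat.add (Nat.add (Nat.add (Nat.add (Nat.add (Nat.add (Nat.add (Nat.add (Nat.add (Nat.add C x29673) x16551) x42795) x25299) x34047) x28215) x31131) x30159) x29511) x29727) x29655) x9991)
    (Nat.add (Nat.add (Nat.add (Nat.add (Nat.add (Nat.add (Nat.add (Nat.add (Nat.add (Nat.add (Nat.add C (Nat.mul x29727 (nat_lit 3))) x16605) x42849) x25353) x34101) x28269) x31185) x30213) x29565) x29673) x10045)
    (Nat.add (Nat.add (Nat.add (Nat.add (Nat.add (Nat.add (Nat.add (Nat.add (Nat.add C (Nat.mul x29891 (nat_lit 2))) x16769) x43013) x25517) x34265) x31349) x29405) x29893) x49573)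
    (Nat.add (Nat.add (Nat.add (Nat.add (Nat.add (Nat.add (Nat.add (Nat.add (Nat.add (Nat.add (Nat.add (Nat.add C (Nat.mul x29893 (nat_lit 2))) x16771) x43015) x25519) x34267) x31351) x29407) x29899) x29891) x29895) x49575) x10211)
    (Nat.add (Nat.add (Nat.add (Nat.add (Nat.add (Nat.add (Nat.add (Nat.add (Nat.add C x16773) x43017) x25521) x34269) x31353) x29409) x29901) x29893) x10213)
    (Nat.add (Nat.add (Nat.add (Nat.add (Nat.add (Nat.add (Nat.add (Nat.add (Nat.add (Nat.add (Nat.add (Nat.add C x29899) x16777) x43021) x25525) x34273) x31357) x29413) x29917) x29893) x29901) x49581) x10217)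
    (Nat.add (Nat.add (Nat.add (Nat.add (Nat.add (Nat.add (Nat.add (Nat.add (Nat.add (Nat.add (Nat.add (Nat.add C x29901) x16779) x43023) x25527) x34275) x31359) x29415) x29919) x29895) x29907) x29899) x10219)
    (Nat.add (Nat.add (Nat.add (Nat.add (Nat.add (Nat.add (Nat.add (Nat.add (Nat.add C x16785) x43029) x25533) x34281) x31365) x29421) x29925) x29901) x10225)
    (Nat.add (Nat.add (Nat.add (Nat.add (Nat.add (Nat.add (Nat.add (Nat.add (Nat.add (Nat.add (Nat.add (Nat.add C x29917) x16795) x43039) x25543) x34291) x31375) x29431) x29971) x29899) x29919) x49599) x10235)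
    (Nat.add (Nat.add (Nat.add (Nat.add (Nat.add (Nat.add (Nat.add (Nat.add (Nat.add (Nat.add (Nat.add C x16797) x43041) x25545) x34293) x31377) x29433) x29973) x29901) x29925) x29917) x10237)
    (Nat.add (Nat.add (Nat.add (Nat.add (Nat.add (Nat.add (Nat.add (Nat.add (Nat.add (Nat.add (Nat.add (Nat.add C x29925) x16803) x43047) x25551) x34299) x31383) x29439) x29979) x29907) x29943) x29919) x10243)
    (Nat.add (Nat.add (Nat.add (Nat.add (Nat.add (Nat.add (Nat.add (Nat.add (Nat.add C x16821) x43065) x25569) x34317) x31401) x29457) x29997) x29925) x10261)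
    (Nat.add (Nat.add (Nat.add (Nat.add (Nat.add (Nat.add (Nat.add (Nat.add (Nat.add (Nat.add (Nat.add (Nat.add C x29971) x16849) x43093) x25597) x34345) x31429) x29485) x30133) x29917) x29973) x49653) x10289)
    (Nat.add (Nat.add (Nat.add (Nat.add (Nat.add (Nat.add (Nat.add (Nat.add (Nat.add (Nat.add (Nat.add C x16851) x43095) x25599) x34347) x31431) x29487) x30135) x29919) x29979) x29971) x10291)
    (Nat.add (Nat.add (Nat.add (Nat.add (Nat.add (Nat.add (Nat.add (Nat.add (Nat.add (Nat.add (Nat.add C x16857) x43101) x25605) x34353) x31437) x29493) x30141) x29925) x29997) x29973) x10297)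
    (Nat.add (Nat.add (Nat.add (Nat.add (Nat.add (Nat.add (Nat.add (Nat.add (Nat.add (Nat.add (Nat.add (Nat.add C x29997) x16875) x43119) x25623) x34371) x31455) x29511) x30159) x29943) x30051) x29979) x10315)
    (Nat.add (Nat.add (Nat.add (Nat.add (Nat.add (Nat.add (Nat.add (Nat.add (Nat.add C x16929) x43173) x25677) x34425) x31509) x29565) x30213) x29997) x10369)
    (Nat.add (Nat.add (Nat.add (Nat.add (Nat.add (Nat.add (Nat.add (Nat.add (Nat.add (Nat.add (Nat.add C (Nat.mul x30133 (nat_lit 3))) x17011) x43255) x25759) x34507) x31591) x29647) x29971) x30135) x49815) x10451)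
    (Nat.add (Nat.add (Nat.add (Nat.add (Nat.add (Nat.add (Nat.add (Nat.add (Nat.add (Nat.add (Nat.add C (Nat.mul x30135 (nat_lit 2))) x17013) x43257) x25761) x34509) x31593) x29649) x29973) x30141) x30133) x10453)
    (Nat.add (Nat.add (Nat.add (Nat.add (Nat.add (Nat.add (Nat.add (Nat.add (Nat.add (Nat.add (Nat.add C (Nat.mul x30141 (nat_lit 2))) x17019) x43263) x25767) x34515) x31599) x29655) x29979) x30159) x30135) x10459)
    (Nat.add (Nat.add (Nat.add (Nat.add (Nat.add (Nat.add (Nat.add (Nat.add (Nat.add (Nat.add (Nat.add C (Nat.mul x30159 (nat_lit 2))) x17037) x43281) x25785) x34533) x31617) x29673) x29997) x30213) x30141) x10477)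
    (Nat.add (Nat.add (Nat.add (Nat.add (Nat.add (Nat.add (Nat.add (Nat.add (Nat.add (Nat.add (Nat.add C (Nat.mul x30213 (nat_lit 3))) x17091) x43335) x25839) x34587) x31671) x29727) x30051) x30375) x30159) x10531)
    (Nat.add (Nat.add (Nat.add (Nat.add (Nat.add (Nat.add (Nat.add (Nat.add C (Nat.mul x30375 (nat_lit 4))) x17253) x43497) x26001) x34749) x31833) x30213) x10693)
    (Nat.add (Nat.add (Nat.add (Nat.add (Nat.add (Nat.add (Nat.add (Nat.add C (Nat.mul x30623 (nat_lit 3))) x17501) x43745) x34997) x29165) x30629) x30625) x50305)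
    (Nat.add (Nat.add (Nat.add (Nat.add (Nat.add (Nat.add (Nat.add (Nat.add (Nat.add C (Nat.mul x30625 (nat_lit 2))) x17503) x43747) x34999) x29167) x30631) x30623) x50307) x10943)
    (Nat.add (Nat.add (Nat.add (Nat.add (Nat.add (Nat.add (Nat.add (Nat.add (Nat.add C x30629) x17507) x43751) x35003) x29171) x30647) x30623) x30631) x50311)
    (Nat.add (Nat.add (Nat.add (Nat.add (Nat.add (Nat.add (Nat.add (Nat.add (Nat.add (Nat.add (Nat.add (Nat.add C (Nat.mul x30631 (nat_lit 2))) x17509) x43753) x35005) x29173) x30649) x30625) x30637) x30629) x30633) x50313) x10949)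
    (Nat.add (Nat.add (Nat.add (Nat.add (Nat.add (Nat.add (Nat.add (Nat.add (Nat.add C x30633) x17511) x43755) x35007) x29175) x30651) x30639) x30631) x10951)
    (Nat.add (Nat.add (Nat.add (Nat.add (Nat.add (Nat.add (Nat.add (Nat.add (Nat.add C x17515) x43759) x35011) x29179) x30655) x30631) x30639) x50319) x10955)
    (Nat.add (Nat.add (Nat.add (Nat.add (Nat.add (Nat.add (Nat.add (Nat.add (Nat.add C x30639) x17517) x43761) x35013) x29181) x30657) x30633) x30637) x10957)
    (Nat.add (Nat.add (Nat.add (Nat.add (Nat.add (Nat.add (Nat.add (Nat.add (Nat.add C x30647) x17525) x43769) x35021) x29189) x30701) x30629) x30649) x50329)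
    (Nat.add (Nat.add (Nat.add (Nat.add (Nat.add (Nat.add (Nat.add (Nat.add (Nat.add (Nat.add (Nat.add (Nat.add C x30649) x17527) x43771) x35023) x29191) x30703) x30631) x30655) x30647) x30651) x50331) x10967)
    (Nat.sub (Nat.add (Nat.add (Nat.add (Nat.add (Nat.add (Nat.add (Nat.add (Nat.add (Nat.add C x17529) x43773) x35025) x29193) x30705) x30633) x30657) x30649) x10969) x30651)
    (Nat.add (Nat.add (Nat.add (Nat.add (Nat.add (Nat.add (Nat.add (Nat.add (Nat.add (Nat.add (Nat.add (Nat.add C x30655) x17533) x43777) x35029) x29197) x30709) x30637) x30673) x30649) x30657) x50337) x10973)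
    (Nat.add (Nat.add (Nat.add (Nat.add (Nat.add (Nat.add (Nat.add (Nat.add (Nat.add (Nat.add (Nat.add (Nat.add C x30657) x17535) x43779) x35031) x29199) x30711) x30639) x30675) x30651) x30663) x30655) x10975)
    (Nat.add (Nat.add (Nat.add (Nat.add (Nat.add (Nat.add (Nat.add (Nat.add (Nat.add C x30663) x17541) x43785) x35037) x29205) x30717) x30681) x30657) x10981)
    (Nat.add (Nat.add (Nat.add (Nat.add (Nat.add (Nat.add (Nat.add (Nat.add (Nat.add C x17551) x43795) x35047) x29215) x30727) x30655) x30675) x50355) x10991)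
    (Nat.sub (Nat.add (Nat.add (Nat.add (Nat.add (Nat.add (Nat.add (Nat.add (Nat.add (Nat.add C x17553) x43797) x35049) x29217) x30729) x30657) x30681) x30673) x10993) x30675)
    (Nat.add (Nat.add (Nat.add (Nat.add (Nat.add (Nat.add (Nat.add (Nat.add (Nat.add C x30681) x17559) x43803) x35055) x29223) x30735) x30663) x30675) x10999)
    (Nat.add (Nat.add (Nat.add (Nat.add (Nat.add (Nat.add (Nat.add (Nat.add (Nat.add C x30701) x17579) x43823) x35075) x29243) x30863) x30647) x30703) x50383)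
    (Nat.add (Nat.add (Nat.add (Nat.add (Nat.add (Nat.add (Nat.add (Nat.add (Nat.add (Nat.add (Nat.add (Nat.add C x30703) x17581) x43825) x35077) x29245) x30865) x30649) x30709) x30701) x30705) x50385) x11021)
    (Nat.sub (Nat.add (Nat.add (Nat.add (Nat.add (Nat.add (Nat.add (Nat.add (Nat.add (Nat.add C x17583) x43827) x35079) x29247) x30867) x30651) x30711) x30703) x11023) x30705)
    (Nat.add (Nat.add (Nat.add (Nat.add (Nat.add (Nat.add (Nat.add (Nat.add (Nat.add (Nat.add (Nat.add C x17587) x43831) x35083) x29251) x30871) x30655) x30727) x30703) x30711) x50391) x11027)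
    (Nat.add (Nat.add (Nat.add (Nat.add (Nat.add (Nat.add (Nat.add (Nat.add (Nat.add (Nat.add (Nat.add C x17589) x43833) x35085) x29253) x30873) x30657) x30729) x30705) x30717) x30709) x11029)
    (Nat.sub (Nat.add (Nat.add (Nat.add (Nat.add (Nat.add (Nat.add (Nat.add (Nat.add (Nat.add C x17595) x43839) x35091) x29259) x30879) x30663) x30735) x30711) x11035) x30717)
    (Nat.add (Nat.add (Nat.add (Nat.add (Nat.add (Nat.add (Nat.add (Nat.add (Nat.add (Nat.add (Nat.add (Nat.add C x30727) x17605) x43849) x35101) x29269) x30889) x30673) x30781) x30709) x30729) x50409) x11045)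
    (Nat.add (Nat.add (Nat.add (Nat.add (Nat.add (Nat.add (Nat.add (Nat.add (Nat.add (Nat.add (Nat.add C x17607) x43851) x35103) x29271) x30891) x30675) x30783) x30711) x30735) x30727) x11047)
    (Nat.add (Nat.add (Nat.add (Nat.add (Nat.add (Nat.add (Nat.add (Nat.add (Nat.add (Nat.add (Nat.add (Nat.add C x30735) x17613) x43857) x35109) x29277) x30897) x30681) x30789) x30717) x30753) x30729) x11053)
    (Nat.add (Nat.add (Nat.add (Nat.add (Nat.add (Nat.add (Nat.add (Nat.add (Nat.add C x30753) x17631) x43875) x35127) x29295) x30915) x30807) x30735) x11071)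
    (Nat.add (Nat.add (Nat.add (Nat.add (Nat.add (Nat.add (Nat.add (Nat.add (Nat.add C x17659) x43903) x35155) x29323) x30943) x30727) x30783) x50463) x11099)
    (Nat.sub (Nat.add (Nat.add (Nat.add (Nat.add (Nat.add (Nat.add (Nat.add (Nat.add (Nat.add C x17661) x43905) x35157) x29325) x30945) x30729) x30789) x30781) x11101) x30783)
    (Nat.sub (Nat.add (Nat.add (Nat.add (Nat.add (Nat.add (Nat.add (Nat.add (Nat.add (Nat.add C x17667) x43911) x35163) x29331) x30951) x30735) x30807) x30783) x11107) x30789)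
    (Nat.add (Nat.add (Nat.add (Nat.add (Nat.add (Nat.add (Nat.add (Nat.add (Nat.add C x30807) x17685) x43929) x35181) x29349) x30969) x30753) x30789) x11125)
    (Nat.add (Nat.add (Nat.add (Nat.add (Nat.add (Nat.add (Nat.add (Nat.add (Nat.add C x30863) x17741) x43985) x35237) x29405) x31349) x30701) x30865) x50545)
    (Nat.add (Nat.add (Nat.add (Nat.add (Nat.add (Nat.add (Nat.add (Nat.add (Nat.add (Nat.add (Nat.add (Nat.add C x30865) x17743) x43987) x35239) x29407) x31351) x30703) x30871) x30863) x30867) x50547) x11183)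
    (Nat.sub (Nat.add (Nat.add (Nat.add (Nat.add (Nat.add (Nat.add (Nat.add (Nat.add (Nat.add C x17745) x43989) x35241) x29409) x31353) x30705) x30873) x30865) x11185) x30867)
    (Nat.add (Nat.add (Nat.add (Nat.add (Nat.add (Nat.add (Nat.add (Nat.add (Nat.add (Nat.add (Nat.add C x17749) x43993) x35245) x29413) x31357) x30709) x30889) x30865) x30873) x50553) x11189)
    (Nat.add (Nat.add (Nat.add (Nat.add (Nat.add (Nat.add (Nat.add (Nat.add (Nat.add (Nat.add (Nat.add C x17751) x43995) x35247) x29415) x31359) x30711) x30891) x30867) x30879) x30871) x11191)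
    (Nat.sub (Nat.add (Nat.add (Nat.add (Nat.add (Nat.add (Nat.add (Nat.add (Nat.add (Nat.add C x17757) x44001) x35253) x29421) x31365) x30717) x30897) x30873) x11197) x30879)
    (Nat.add (Nat.add (Nat.add (Nat.add (Nat.add (Nat.add (Nat.add (Nat.add (Nat.add (Nat.add (Nat.add C x17767) x44011) x35263) x29431) x31375) x30727) x30943) x30871) x30891) x50571) x11207)
    (Nat.sub (Nat.add (Nat.add (Nat.add (Nat.add (Nat.add (Nat.add (Nat.add (Nat.add (Nat.add (Nat.add (Nat.add C x17769) x44013) x35265) x29433) x31377) x30729) x30945) x30873) x30897) x30889) x11209) x30891)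
    (Nat.add (Nat.add (Nat.add (Nat.add (Nat.add (Nat.add (Nat.add (Nat.add (Nat.add (Nat.add (Nat.add C x17775) x44019) x35271) x29439) x31383) x30735) x30951) x30879) x30915) x30891) x11215)
    (Nat.sub (Nat.add (Nat.add (Nat.add (Nat.add (Nat.add (Nat.add (Nat.add (Nat.add (Nat.add C x17793) x44037) x35289) x29457) x31401) x30753) x30969) x30897) x11233) x30915)
    (Nat.add (Nat.add (Nat.add (Nat.add (Nat.add (Nat.add (Nat.add (Nat.add (Nat.add (Nat.add (Nat.add (Nat.add C x30943) x17821) x44065) x35317) x29485) x31429) x30781) x31105) x30889) x30945) x50625) x11261)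
    (Nat.add (Nat.add (Nat.add (Nat.add (Nat.add (Nat.add (Nat.add (Nat.add (Nat.add (Nat.add (Nat.add C x17823) x44067) x35319) x29487) x31431) x30783) x31107) x30891) x30951) x30943) x11263)
    (Nat.add (Nat.add (Nat.add (Nat.add (Nat.add (Nat.add (Nat.add (Nat.add (Nat.add (Nat.add (Nat.add C x17829) x44073) x35325) x29493) x31437) x30789) x31113) x30897) x30969) x30945) x11269)
    (Nat.add (Nat.add (Nat.add (Nat.add (Nat.add (Nat.add (Nat.add (Nat.add (Nat.add (Nat.add (Nat.add (Nat.add C x30969) x17847) x44091) x35343) x29511) x31455) x30807) x31131) x30915) x31023) x30951) x11287)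
    (Nat.add (Nat.add (Nat.add (Nat.add (Nat.add (Nat.add (Nat.add (Nat.add (Nat.add C x31023) x17901) x44145) x35397) x29565) x31509) x31185) x30969) x11341)
    (Nat.add (Nat.add (Nat.add (Nat.add (Nat.add (Nat.add (Nat.add (Nat.add (Nat.add C x17983) x44227) x35479) x29647) x31591) x30943) x31107) x50787) x11423)
    (Nat.sub (Nat.add (Nat.add (Nat.add (Nat.add (Nat.add (Nat.add (Nat.add (Nat.add (Nat.add C x17985) x44229) x35481) x29649) x31593) x30945) x31113) x31105) x11425) x31107)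
    (Nat.sub (Nat.add (Nat.add (Nat.add (Nat.add (Nat.add (Nat.add (Nat.add (Nat.add (Nat.add C x17991) x44235) x35487) x29655) x31599) x30951) x31131) x31107) x11431) x31113)
    (Nat.sub (Nat.add (Nat.add (Nat.add (Nat.add (Nat.add (Nat.add (Nat.add (Nat.add (Nat.add C x18009) x44253) x35505) x29673) x31617) x30969) x31185) x31113) x11449) x31131)
    (Nat.add (Nat.add (Nat.add (Nat.add (Nat.add (Nat.add (Nat.add (Nat.add (Nat.add C x31185) x18063) x44307) x35559) x29727) x31671) x31023) x31131) x11503)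
    (Nat.add (Nat.add (Nat.add (Nat.add (Nat.add (Nat.add (Nat.add (Nat.add C (Nat.mul x31349 (nat_lit 3))) x18227) x44471) x35723) x29891) x30863) x31351) x51031)
    (Nat.add (Nat.add (Nat.add (Nat.add (Nat.add (Nat.add (Nat.add (Nat.add (Nat.add (Nat.add (Nat.add C (Nat.mul x31351 (nat_lit 3))) x18229) x44473) x35725) x29893) x30865) x31357) x31349) x31353) x51033) x11669)
    (Nat.add (Nat.add (Nat.add (Nat.add (Nat.add (Nat.add (Nat.add (Nat.add (Nat.add C x31353) x18231) x44475) x35727) x29895) x30867) x31359) x31351) x11671)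
    (Nat.add (Nat.add (Nat.add (Nat.add (Nat.add (Nat.add (Nat.add (Nat.add (Nat.add (Nat.add (Nat.add C (Nat.mul x31357 (nat_lit 2))) x18235) x44479) x35731) x29899) x30871) x31375) x31351) x31359) x51039) x11675)
    (Nat.add (Nat.add (Nat.add (Nat.add (Nat.add (Nat.add (Nat.add (Nat.add (Nat.add (Nat.add (Nat.add C (Nat.mul x31359 (nat_lit 2))) x18237) x44481) x35733) x29901) x30873) x31377) x31353) x31365) x31357) x11677)
    (Nat.add (Nat.add (Nat.add (Nat.add (Nat.add (Nat.add (Nat.add (Nat.add (Nat.add C x31365) x18243) x44487) x35739) x29907) x30879) x31383) x31359) x11683)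
    (Nat.add (Nat.add (Nat.add (Nat.add (Nat.add (Nat.add (Nat.add (Nat.add (Nat.add (Nat.add (Nat.add C (Nat.mul x31375 (nat_lit 2))) x18253) x44497) x35749) x29917) x30889) x31429) x31357) x31377) x51057) x11693)
    (Nat.add (Nat.add (Nat.add (Nat.add (Nat.add (Nat.add (Nat.add (Nat.add (Nat.add (Nat.add (Nat.add C x31377) x18255) x44499) x35751) x29919) x30891) x31431) x31359) x31383) x31375) x11695)
    (Nat.add (Nat.add (Nat.add (Nat.add (Nat.add (Nat.add (Nat.add (Nat.add (Nat.add (Nat.add (Nat.add C (Nat.mul x31383 (nat_lit 2))) x18261) x44505) x35757) x29925) x30897) x31437) x31365) x31401) x31377) x11701)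
    (Nat.add (Nat.add (Nat.add (Nat.add (Nat.add (Nat.add (Nat.add (Nat.add (Nat.add C x31401) x18279) x44523) x35775) x29943) x30915) x31455) x31383) x11719)
    (Nat.add (Nat.add (Nat.add (Nat.add (Nat.add (Nat.add (Nat.add (Nat.add (Nat.add (Nat.add (Nat.add C (Nat.mul x31429 (nat_lit 2))) x18307) x44551) x35803) x29971) x30943) x31591) x31375) x31431) x51111) x11747)
    (Nat.add (Nat.add (Nat.add (Nat.add (Nat.add (Nat.add (Nat.add (Nat.add (Nat.add (Nat.add (Nat.add C x31431) x18309) x44553) x35805) x29973) x30945) x31593) x31377) x31437) x31429) x11749)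
    (Nat.add (Nat.add (Nat.add (Nat.add (Nat.add (Nat.add (Nat.add (Nat.add (Nat.add (Nat.add (Nat.add C x31437) x18315) x44559) x35811) x29979) x30951) x31599) x31383) x31455) x31431) x11755)
    (Nat.add (Nat.add (Nat.add (Nat.add (Nat.add (Nat.add (Nat.add (Nat.add (Nat.add (Nat.add (Nat.add C (Nat.mul x31455 (nat_lit 2))) x18333) x44577) x35829) x29997) x30969) x31617) x31401) x31509) x31437) x11773)
    (Nat.add (Nat.add (Nat.add (Nat.add (Nat.add (Nat.add (Nat.add (Nat.add (Nat.add C x31509) x18387) x44631) x35883) x30051) x31023) x31671) x31455) x11827)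
    (Nat.add (Nat.add (Nat.add (Nat.add (Nat.add (Nat.add (Nat.add (Nat.add (Nat.add (Nat.add (Nat.add C (Nat.mul x31591 (nat_lit 3))) x18469) x44713) x35965) x30133) x31105) x32077) x31429) x31593) x51273) x11909)
    (Nat.add (Nat.add (Nat.add (Nat.add (Nat.add (Nat.add (Nat.add (Nat.add (Nat.add (Nat.add (Nat.add C (Nat.mul x31593 (nat_lit 2))) x18471) x44715) x35967) x30135) x31107) x32079) x31431) x31599) x31591) x11911)
    (Nat.add (Nat.add (Nat.add (Nat.add (Nat.add (Nat.add (Nat.add (Nat.add (Nat.add (Nat.add (Nat.add C (Nat.mul x31599 (nat_lit 2))) x18477) x44721) x35973) x30141) x31113) x32085) x31437) x31617) x31593) x11917)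
    (Nat.add (Nat.add (Nat.add (Nat.add (Nat.add (Nat.add (Nat.add (Nat.add (Nat.add (Nat.add (Nat.add C (Nat.mul x31617 (nat_lit 2))) x18495) x44739) x35991) x30159) x31131) x32103) x31455) x31671) x31599) x11935)
    (Nat.add (Nat.add (Nat.add (Nat.add (Nat.add (Nat.add (Nat.add (Nat.add (Nat.add (Nat.add (Nat.add C (Nat.mul x31671 (nat_lit 3))) x18549) x44793) x36045) x30213) x31185) x32157) x31509) x31833) x31617) x11989)
    (Nat.add (Nat.add (Nat.add (Nat.add (Nat.add (Nat.add (Nat.add (Nat.add C (Nat.mul x31833 (nat_lit 3))) x18711) x44955) x36207) x30375) x32319) x31671) x12151)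
    (Nat.add (Nat.add (Nat.add (Nat.add (Nat.add (Nat.add (Nat.add (Nat.add C (Nat.mul x32077 (nat_lit 4))) x18955) x45199) x36451) x31591) x32079) x51759) x12395)
    (Nat.add (Nat.add (Nat.add (Nat.add (Nat.add (Nat.add (Nat.add (Nat.add C (Nat.mul x32079 (nat_lit 3))) x18957) x45201) x36453) x31593) x32085) x32077) x12397)
    (Nat.add (Nat.add (Nat.add (Nat.add (Nat.add (Nat.add (Nat.add (Nat.add C (Nat.mul x32085 (nat_lit 3))) x18963) x45207) x36459) x31599) x32103) x32079) x12403)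
    (Nat.add (Nat.add (Nat.add (Nat.add (Nat.add (Nat.add (Nat.add (Nat.add C (Nat.mul x32103 (nat_lit 3))) x18981) x45225) x36477) x31617) x32157) x32085) x12421)
    (Nat.add (Nat.add (Nat.add (Nat.add (Nat.add (Nat.add (Nat.add (Nat.add C (Nat.mul x32157 (nat_lit 3))) x19035) x45279) x36531) x31671) x32319) x32103) x12475)
    (Nat.add (Nat.add (Nat.add (Nat.add (Nat.add (Nat.add (Nat.add C (Nat.mul x32319 (nat_lit 5))) x19197) x45441) x36693) x31833) x32157) x12637)
    (Nat.add (Nat.add (Nat.add (Nat.add (Nat.add C (Nat.mul x32813 (nat_lit 4))) x45935) x28439) x32819) x52495)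
    (Nat.add (Nat.add (Nat.add (Nat.add (Nat.add (Nat.add (Nat.add (Nat.add C (Nat.mul x32819 (nat_lit 3))) x45941) x28445) x32837) x32813) x32825) x32821) x52501)
    (Nat.add (Nat.add (Nat.add (Nat.add (Nat.add (Nat.add (Nat.add (Nat.add C (Nat.mul x32821 (nat_lit 3))) x45943) x28447) x32839) x32827) x32819) x52503) x13139)
    (Nat.add (Nat.add (Nat.add (Nat.add (Nat.add (Nat.add C x45947) x28451) x32843) x32819) x32827) x52507)
    (Nat.add (Nat.add (Nat.add (Nat.add (Nat.add (Nat.add (Nat.add (Nat.add (Nat.add C (Nat.mul x32827 (nat_lit 2))) x45949) x28453) x32845) x32821) x32825) x32829) x52509) x13145)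
    (Nat.add (Nat.add (Nat.add (Nat.add (Nat.add (Nat.add C (Nat.mul x32829 (nat_lit 2))) x45951) x28455) x32847) x32827) x13147)
    (Nat.add (Nat.add (Nat.add (Nat.add (Nat.add (Nat.add (Nat.add (Nat.add C (Nat.mul x32837 (nat_lit 2))) x45959) x28463) x32891) x32819) x32843) x32839) x52519)
    (Nat.add (Nat.add (Nat.add (Nat.add (Nat.add (Nat.add (Nat.add (Nat.add (Nat.add C x32839) x45961) x28465) x32893) x32821) x32845) x32837) x52521) x13157)
    (Nat.add (Nat.add (Nat.add (Nat.add (Nat.add (Nat.add (Nat.add (Nat.add (Nat.add C x32843) x45965) x28469) x32897) x32825) x32861) x32837) x32845) x52525)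
    (Nat.add (Nat.add (Nat.add (Nat.add (Nat.add (Nat.add (Nat.add (Nat.add (Nat.add (Nat.add (Nat.add (Nat.add C (Nat.mul x32845 (nat_lit 2))) x45967) x28471) x32899) x32827) x32863) x32839) x32851) x32843) x32847) x52527) x13163)
    (Nat.add (Nat.add (Nat.add (Nat.add (Nat.add (Nat.add (Nat.add (Nat.add (Nat.add C x32847) x45969) x28473) x32901) x32829) x32865) x32853) x32845) x13165)
    (Nat.add (Nat.add (Nat.add (Nat.add (Nat.add (Nat.add (Nat.add (Nat.add (Nat.add C x32851) x45973) x28477) x32905) x32869) x32845) x32853) x52533) x13169)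
    (Nat.add (Nat.add (Nat.add (Nat.add (Nat.add (Nat.add (Nat.add (Nat.add C (Nat.mul x32853 (nat_lit 2))) x45975) x28479) x32907) x32871) x32847) x32851) x13171)
    (Nat.add (Nat.add (Nat.add (Nat.add (Nat.add (Nat.add C x45983) x28487) x32915) x32843) x32863) x52543)
    (Nat.add (Nat.add (Nat.add (Nat.add (Nat.add (Nat.add (Nat.add (Nat.add (Nat.add C x45985) x28489) x32917) x32845) x32869) x32861) x32865) x52545) x13181)
    (Nat.sub (Nat.add (Nat.add (Nat.add (Nat.add (Nat.add (Nat.add (Nat.add C x45987) x28491) x32919) x32847) x32871) x32863) x13183) (Nat.mul x32865 (nat_lit 2)))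
    (Nat.add (Nat.add (Nat.add (Nat.add (Nat.add (Nat.add (Nat.add (Nat.add (Nat.add C x32869) x45991) x28495) x32923) x32851) x32863) x32871) x52551) x13187)
    (Nat.add (Nat.add (Nat.add (Nat.add (Nat.add (Nat.add (Nat.add (Nat.add (Nat.add C x32871) x45993) x28497) x32925) x32853) x32865) x32877) x32869) x13189)
    (Nat.add (Nat.add (Nat.add (Nat.add (Nat.add (Nat.add C (Nat.mul x32877 (nat_lit 2))) x45999) x28503) x32931) x32871) x13195)
    (Nat.add (Nat.add (Nat.add (Nat.add (Nat.add (Nat.add (Nat.add (Nat.add C (Nat.mul x32891 (nat_lit 2))) x46013) x28517) x33053) x32837) x32897) x32893) x52573)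
    (Nat.add (Nat.add (Nat.add (Nat.add (Nat.add (Nat.add (Nat.add (Nat.add (Nat.add C x32893) x46015) x28519) x33055) x32839) x32899) x32891) x52575) x13211)
    (Nat.add (Nat.add (Nat.add (Nat.add (Nat.add (Nat.add (Nat.add (Nat.add C x46019) x28523) x33059) x32843) x32915) x32891) x32899) x52579)
    (Nat.add (Nat.add (Nat.add (Nat.add (Nat.add (Nat.add (Nat.add (Nat.add (Nat.add (Nat.add (Nat.add (Nat.add C x32899) x46021) x28525) x33061) x32845) x32917) x32893) x32905) x32897) x32901) x52581) x13217)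
    (Nat.add (Nat.add (Nat.add (Nat.add (Nat.add (Nat.add (Nat.add (Nat.add C x46023) x28527) x33063) x32847) x32919) x32907) x32899) x13219)
    (Nat.sub (Nat.add (Nat.add (Nat.add (Nat.add (Nat.add (Nat.add (Nat.add (Nat.add (Nat.add C x46027) x28531) x33067) x32851) x32923) x32899) x32907) x52587) x13223) x32905)
    (Nat.add (Nat.add (Nat.add (Nat.add (Nat.add (Nat.add (Nat.add (Nat.add C x46029) x28533) x33069) x32853) x32925) x32901) x32905) x13225)
    (Nat.add (Nat.add (Nat.add (Nat.add (Nat.add (Nat.add (Nat.add (Nat.add (Nat.add C x32915) x46037) x28541) x33077) x32861) x32969) x32897) x32917) x52597)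
    (Nat.add (Nat.add (Nat.add (Nat.add (Nat.add (Nat.add (Nat.add (Nat.add (Nat.add (Nat.add (Nat.add (Nat.add C x32917) x46039) x28543) x33079) x32863) x32971) x32899) x32923) x32915) x32919) x52599) x13235)
    (Nat.sub (Nat.add (Nat.add (Nat.add (Nat.add (Nat.add (Nat.add (Nat.add (Nat.add (Nat.add C x46041) x28545) x33081) x32865) x32973) x32901) x32925) x32917) x13237) x32919)
    (Nat.add (Nat.add (Nat.add (Nat.add (Nat.add (Nat.add (Nat.add (Nat.add (Nat.add (Nat.add (Nat.add (Nat.add C x32923) x46045) x28549) x33085) x32869) x32977) x32905) x32941) x32917) x32925) x52605) x13241)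
    (Nat.add (Nat.add (Nat.add (Nat.add (Nat.add (Nat.add (Nat.add (Nat.add (Nat.add (Nat.add (Nat.add (Nat.add C x32925) x46047) x28551) x33087) x32871) x32979) x32907) x32943) x32919) x32931) x32923) x13243)
    (Nat.add (Nat.add (Nat.add (Nat.add (Nat.add (Nat.add (Nat.add (Nat.add (Nat.add C x32931) x46053) x28557) x33093) x32877) x32985) x32949) x32925) x13249)
    (Nat.add (Nat.add (Nat.add (Nat.add (Nat.add (Nat.add (Nat.add (Nat.add (Nat.add C x32941) x46063) x28567) x33103) x32995) x32923) x32943) x52623) x13259)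
    (Nat.add (Nat.add (Nat.add (Nat.add (Nat.add (Nat.add (Nat.add (Nat.add C x46065) x28569) x33105) x32997) x32925) x32949) x32941) x13261)
    (Nat.add (Nat.add (Nat.add (Nat.add (Nat.add (Nat.add (Nat.add (Nat.add C (Nat.mul x32949 (nat_lit 2))) x46071) x28575) x33111) x33003) x32931) x32943) x13267)
    (Nat.add (Nat.add (Nat.add (Nat.add (Nat.add (Nat.add C x46091) x28595) x33131) x32915) x32971) x52651)
    (Nat.add (Nat.add (Nat.add (Nat.add (Nat.add (Nat.add (Nat.add (Nat.add (Nat.add C x46093) x28597) x33133) x32917) x32977) x32969) x32973) x52653) x13289)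
    (Nat.sub (Nat.add (Nat.add (Nat.add (Nat.add (Nat.add (Nat.add (Nat.add C x46095) x28599) x33135) x32919) x32979) x32971) x13291) (Nat.mul x32973 (nat_lit 2)))
    (Nat.sub (Nat.add (Nat.add (Nat.add (Nat.add (Nat.add (Nat.add (Nat.add (Nat.add (Nat.add C x46099) x28603) x33139) x32923) x32995) x32971) x32979) x52659) x13295) x32977)
    (Nat.sub (Nat.add (Nat.add (Nat.add (Nat.add (Nat.add (Nat.add (Nat.add (Nat.add (Nat.add C x46101) x28605) x33141) x32925) x32997) x32973) x32985) x32977) x13297) x32979)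
    (Nat.sub (Nat.add (Nat.add (Nat.add (Nat.add (Nat.add (Nat.add (Nat.add C x46107) x28611) x33147) x32931) x33003) x32979) x13303) (Nat.mul x32985 (nat_lit 2)))
    (Nat.add (Nat.add (Nat.add (Nat.add (Nat.add (Nat.add (Nat.add (Nat.add (Nat.add C x32995) x46117) x28621) x33157) x32941) x32977) x32997) x52677) x13313)
    (Nat.add (Nat.add (Nat.add (Nat.add (Nat.add (Nat.add (Nat.add (Nat.add C x46119) x28623) x33159) x32943) x32979) x33003) x32995) x13315)
    (Nat.add (Nat.add (Nat.add (Nat.add (Nat.add (Nat.add (Nat.add (Nat.add (Nat.add C x33003) x46125) x28629) x33165) x32949) x32985) x33021) x32997) x13321)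
    (Nat.add (Nat.add (Nat.add (Nat.add (Nat.add (Nat.add C (Nat.mul x33021 (nat_lit 2))) x46143) x28647) x33183) x33003) x13339)
    (Nat.add (Nat.add (Nat.add (Nat.add (Nat.add (Nat.add (Nat.add (Nat.add C (Nat.mul x33053 (nat_lit 2))) x46175) x28679) x33539) x32891) x33059) x33055) x52735)
    (Nat.add (Nat.add (Nat.add (Nat.add (Nat.add (Nat.add (Nat.add (Nat.add (Nat.add C x33055) x46177) x28681) x33541) x32893) x33061) x33053) x52737) x13373)
    (Nat.add (Nat.add (Nat.add (Nat.add (Nat.add (Nat.add (Nat.add (Nat.add C x46181) x28685) x33545) x32897) x33077) x33053) x33061) x52741)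
    (Nat.add (Nat.add (Nat.add (Nat.add (Nat.add (Nat.add (Nat.add (Nat.add (Nat.add (Nat.add (Nat.add (Nat.add C x33061) x46183) x28687) x33547) x32899) x33079) x33055) x33067) x33059) x33063) x52743) x13379)
    (Nat.add (Nat.add (Nat.add (Nat.add (Nat.add (Nat.add (Nat.add (Nat.add C x46185) x28689) x33549) x32901) x33081) x33069) x33061) x13381)
    (Nat.sub (Nat.add (Nat.add (Nat.add (Nat.add (Nat.add (Nat.add (Nat.add (Nat.add (Nat.add C x46189) x28693) x33553) x32905) x33085) x33061) x33069) x52749) x13385) x33067)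
    (Nat.add (Nat.add (Nat.add (Nat.add (Nat.add (Nat.add (Nat.add (Nat.add C x46191) x28695) x33555) x32907) x33087) x33063) x33067) x13387)
    (Nat.add (Nat.add (Nat.add (Nat.add (Nat.add (Nat.add (Nat.add (Nat.add C x46199) x28703) x33563) x32915) x33131) x33059) x33079) x52759)
    (Nat.add (Nat.add (Nat.add (Nat.add (Nat.add (Nat.add (Nat.add (Nat.add (Nat.add (Nat.add (Nat.add C x46201) x28705) x33565) x32917) x33133) x33061) x33085) x33077) x33081) x52761) x13397)
    (Nat.sub (Nat.add (Nat.add (Nat.add (Nat.add (Nat.add (Nat.add (Nat.add (Nat.add (Nat.add C x46203) x28707) x33567) x32919) x33135) x33063) x33087) x33079) x13399) (Nat.mul x33081 (nat_lit 2)))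
    (Nat.add (Nat.add (Nat.add (Nat.add (Nat.add (Nat.add (Nat.add (Nat.add (Nat.add (Nat.add (Nat.add C x46207) x28711) x33571) x32923) x33139) x33067) x33103) x33079) x33087) x52767) x13403)
    (Nat.add (Nat.add (Nat.add (Nat.add (Nat.add (Nat.add (Nat.add (Nat.add (Nat.add (Nat.add (Nat.add C x46209) x28713) x33573) x32925) x33141) x33069) x33105) x33081) x33093) x33085) x13405)
    (Nat.add (Nat.add (Nat.add (Nat.add (Nat.add (Nat.add (Nat.add (Nat.add C x46215) x28719) x33579) x32931) x33147) x33111) x33087) x13411)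
    (Nat.sub (Nat.add (Nat.add (Nat.add (Nat.add (Nat.add (Nat.add (Nat.add (Nat.add (Nat.add C x46225) x28729) x33589) x32941) x33157) x33085) x33105) x52785) x13421) x33103)
    (Nat.sub (Nat.add (Nat.add (Nat.add (Nat.add (Nat.add (Nat.add (Nat.add (Nat.add (Nat.add C x46227) x28731) x33591) x32943) x33159) x33087) x33111) x33103) x13423) (Nat.mul x33105 (nat_lit 2)))
    (Nat.add (Nat.add (Nat.add (Nat.add (Nat.add (Nat.add (Nat.add (Nat.add C x46233) x28737) x33597) x32949) x33165) x33093) x33105) x13429)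
    (Nat.add (Nat.add (Nat.add (Nat.add (Nat.add (Nat.add (Nat.add (Nat.add (Nat.add C x33131) x46253) x28757) x33617) x32969) x33293) x33077) x33133) x52813)
    (Nat.add (Nat.add (Nat.add (Nat.add (Nat.add (Nat.add (Nat.add (Nat.add (Nat.add (Nat.add (Nat.add (Nat.add C x33133) x46255) x28759) x33619) x32971) x33295) x33079) x33139) x33131) x33135) x52815) x13451)
    (Nat.sub (Nat.add (Nat.add (Nat.add (Nat.add (Nat.add (Nat.add (Nat.add (Nat.add (Nat.add C x46257) x28761) x33621) x32973) x33297) x33081) x33141) x33133) x13453) x33135)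
    (Nat.add (Nat.add (Nat.add (Nat.add (Nat.add (Nat.add (Nat.add (Nat.add (Nat.add (Nat.add (Nat.add C x46261) x28765) x33625) x32977) x33301) x33085) x33157) x33133) x33141) x52821) x13457)
    (Nat.add (Nat.add (Nat.add (Nat.add (Nat.add (Nat.add (Nat.add (Nat.add (Nat.add (Nat.add (Nat.add C x46263) x28767) x33627) x32979) x33303) x33087) x33159) x33135) x33147) x33139) x13459)
    (Nat.sub (Nat.add (Nat.add (Nat.add (Nat.add (Nat.add (Nat.add (Nat.add (Nat.add (Nat.add C x46269) x28773) x33633) x32985) x33309) x33093) x33165) x33141) x13465) x33147)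
    (Nat.add (Nat.add (Nat.add (Nat.add (Nat.add (Nat.add (Nat.add (Nat.add (Nat.add (Nat.add (Nat.add (Nat.add C x33157) x46279) x28783) x33643) x32995) x33319) x33103) x33211) x33139) x33159) x52839) x13475)
    (Nat.add (Nat.add (Nat.add (Nat.add (Nat.add (Nat.add (Nat.add (Nat.add (Nat.add (Nat.add (Nat.add C x46281) x28785) x33645) x32997) x33321) x33105) x33213) x33141) x33165) x33157) x13477)
    (Nat.add (Nat.add (Nat.add (Nat.add (Nat.add (Nat.add (Nat.add (Nat.add (Nat.add (Nat.add (Nat.add (Nat.add C x33165) x46287) x28791) x33651) x33003) x33327) x33111) x33219) x33147) x33183) x33159) x13483)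
    (Nat.add (Nat.add (Nat.add (Nat.add (Nat.add (Nat.add (Nat.add (Nat.add (Nat.add C x33183) x46305) x28809) x33669) x33021) x33345) x33237) x33165) x13501)
    (Nat.add (Nat.add (Nat.add (Nat.add (Nat.add (Nat.add (Nat.add (Nat.add (Nat.add C x33211) x46333) x28837) x33697) x33373) x33157) x33213) x52893) x13529)
    (Nat.add (Nat.add (Nat.add (Nat.add (Nat.add (Nat.add (Nat.add (Nat.add C x46335) x28839) x33699) x33375) x33159) x33219) x33211) x13531)
    (Nat.add (Nat.add (Nat.add (Nat.add (Nat.add (Nat.add (Nat.add (Nat.add C x46341) x28845) x33705) x33381) x33165) x33237) x33213) x13537)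
    (Nat.add (Nat.add (Nat.add (Nat.add (Nat.add (Nat.add (Nat.add (Nat.add C (Nat.mul x33237 (nat_lit 2))) x46359) x28863) x33723) x33399) x33183) x33219) x13555)
    (Nat.add (Nat.add (Nat.add (Nat.add (Nat.add (Nat.add C x46415) x28919) x33779) x33131) x33295) x52975)
    (Nat.add (Nat.add (Nat.add (Nat.add (Nat.add (Nat.add (Nat.add (Nat.add (Nat.add C x46417) x28921) x33781) x33133) x33301) x33293) x33297) x52977) x13613)
    (Nat.sub (Nat.add (Nat.add (Nat.add (Nat.add (Nat.add (Nat.add (Nat.add C x46419) x28923) x33783) x33135) x33303) x33295) x13615) (Nat.mul x33297 (nat_lit 2)))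
    (Nat.sub (Nat.add (Nat.add (Nat.add (Nat.add (Nat.add (Nat.add (Nat.add (Nat.add (Nat.add C x46423) x28927) x33787) x33139) x33319) x33295) x33303) x52983) x13619) x33301)
    (Nat.sub (Nat.add (Nat.add (Nat.add (Nat.add (Nat.add (Nat.add (Nat.add (Nat.add (Nat.add C x46425) x28929) x33789) x33141) x33321) x33297) x33309) x33301) x13621) x33303)
    (Nat.sub (Nat.add (Nat.add (Nat.add (Nat.add (Nat.add (Nat.add (Nat.add C x46431) x28935) x33795) x33147) x33327) x33303) x13627) (Nat.mul x33309 (nat_lit 2)))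
    (Nat.sub (Nat.add (Nat.add (Nat.add (Nat.add (Nat.add (Nat.add (Nat.add (Nat.add (Nat.add C x46441) x28945) x33805) x33157) x33373) x33301) x33321) x53001) x13637) x33319)
    (Nat.sub (Nat.add (Nat.add (Nat.add (Nat.add (Nat.add (Nat.add (Nat.add (Nat.add (Nat.add C x46443) x28947) x33807) x33159) x33375) x33303) x33327) x33319) x13639) (Nat.mul x33321 (nat_lit 2)))
    (Nat.sub (Nat.add (Nat.add (Nat.add (Nat.add (Nat.add (Nat.add (Nat.add (Nat.add (Nat.add C x46449) x28953) x33813) x33165) x33381) x33309) x33345) x33321) x13645) x33327)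
    (Nat.sub (Nat.add (Nat.add (Nat.add (Nat.add (Nat.add (Nat.add (Nat.add C x46467) x28971) x33831) x33183) x33399) x33327) x13663) (Nat.mul x33345 (nat_lit 2)))
    (Nat.add (Nat.add (Nat.add (Nat.add (Nat.add (Nat.add (Nat.add (Nat.add (Nat.add C x33373) x46495) x28999) x33859) x33211) x33319) x33375) x53055) x13691)
    (Nat.add (Nat.add (Nat.add (Nat.add (Nat.add (Nat.add (Nat.add (Nat.add C x46497) x29001) x33861) x33213) x33321) x33381) x33373) x13693)
    (Nat.add (Nat.add (Nat.add (Nat.add (Nat.add (Nat.add (Nat.add (Nat.add C x46503) x29007) x33867) x33219) x33327) x33399) x33375) x13699)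
    (Nat.add (Nat.add (Nat.add (Nat.add (Nat.add (Nat.add (Nat.add (Nat.add (Nat.add C x33399) x46521) x29025) x33885) x33237) x33345) x33453) x33381) x13717)
    (Nat.add (Nat.add (Nat.add (Nat.add (Nat.add (Nat.add C (Nat.mul x33453 (nat_lit 2))) x46575) x29079) x33939) x33399) x13771)
    (Nat.add (Nat.add (Nat.add (Nat.add (Nat.add (Nat.add (Nat.add (Nat.add C (Nat.mul x33539 (nat_lit 2))) x46661) x29165) x34997) x33053) x33545) x33541) x53221)
    (Nat.add (Nat.add (Nat.add (Nat.add (Nat.add (Nat.add (Nat.add (Nat.add (Nat.add C x33541) x46663) x29167) x34999) x33055) x33547) x33539) x53223) x13859)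
    (Nat.add (Nat.add (Nat.add (Nat.add (Nat.add (Nat.add (Nat.add (Nat.add C x46667) x29171) x35003) x33059) x33563) x33539) x33547) x53227)
    (Nat.add (Nat.add (Nat.add (Nat.add (Nat.add (Nat.add (Nat.add (Nat.add (Nat.add (Nat.add (Nat.add (Nat.add C x33547) x46669) x29173) x35005) x33061) x33565) x33541) x33553) x33545) x33549) x53229) x13865)
    (Nat.add (Nat.add (Nat.add (Nat.add (Nat.add (Nat.add (Nat.add (Nat.add C x46671) x29175) x35007) x33063) x33567) x33555) x33547) x13867)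
    (Nat.sub (Nat.add (Nat.add (Nat.add (Nat.add (Nat.add (Nat.add (Nat.add (Nat.add (Nat.add C x46675) x29179) x35011) x33067) x33571) x33547) x33555) x53235) x13871) x33553)
    (Nat.add (Nat.add (Nat.add (Nat.add (Nat.add (Nat.add (Nat.add (Nat.add C x46677) x29181) x35013) x33069) x33573) x33549) x33553) x13873)
    (Nat.add (Nat.add (Nat.add (Nat.add (Nat.add (Nat.add (Nat.add (Nat.add C x46685) x29189) x35021) x33077) x33617) x33545) x33565) x53245)
    (Nat.add (Nat.add (Nat.add (Nat.add (Nat.add (Nat.add (Nat.add (Nat.add (Nat.add (Nat.add (Nat.add C x46687) x29191) x35023) x33079) x33619) x33547) x33571) x33563) x33567) x53247) x13883)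
    (Nat.sub (Nat.add (Nat.add (Nat.add (Nat.add (Nat.add (Nat.add (Nat.add (Nat.add (Nat.add C x46689) x29193) x35025) x33081) x33621) x33549) x33573) x33565) x13885) (Nat.mul x33567 (nat_lit 2)))
    (Nat.add (Nat.add (Nat.add (Nat.add (Nat.add (Nat.add (Nat.add (Nat.add (Nat.add (Nat.add (Nat.add C x46693) x29197) x35029) x33085) x33625) x33553) x33589) x33565) x33573) x53253) x13889)
    (Nat.add (Nat.add (Nat.add (Nat.add (Nat.add (Nat.add (Nat.add (Nat.add (Nat.add (Nat.add (Nat.add C x46695) x29199) x35031) x33087) x33627) x33555) x33591) x33567) x33579) x33571) x13891)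
    (Nat.add (Nat.add (Nat.add (Nat.add (Nat.add (Nat.add (Nat.add (Nat.add C x46701) x29205) x35037) x33093) x33633) x33597) x33573) x13897)
    (Nat.sub (Nat.add (Nat.add (Nat.add (Nat.add (Nat.add (Nat.add (Nat.add (Nat.add (Nat.add C x46711) x29215) x35047) x33103) x33643) x33571) x33591) x53271) x13907) x33589)
    (Nat.sub (Nat.add (Nat.add (Nat.add (Nat.add (Nat.add (Nat.add (Nat.add (Nat.add (Nat.add C x46713) x29217) x35049) x33105) x33645) x33573) x33597) x33589) x13909) (Nat.mul x33591 (nat_lit 2)))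
    (Nat.add (Nat.add (Nat.add (Nat.add (Nat.add (Nat.add (Nat.add (Nat.add C x46719) x29223) x35055) x33111) x33651) x33579) x33591) x13915)
    (Nat.add (Nat.add (Nat.add (Nat.add (Nat.add (Nat.add (Nat.add (Nat.add C x46739) x29243) x35075) x33131) x33779) x33563) x33619) x53299)
    (Nat.add (Nat.add (Nat.add (Nat.add (Nat.add (Nat.add (Nat.add (Nat.add (Nat.add (Nat.add (Nat.add C x46741) x29245) x35077) x33133) x33781) x33565) x33625) x33617) x33621) x53301) x13937)
    (Nat.sub (Nat.add (Nat.add (Nat.add (Nat.add (Nat.add (Nat.add (Nat.add (Nat.add (Nat.add C x46743) x29247) x35079) x33135) x33783) x33567) x33627) x33619) x13939) (Nat.mul x33621 (nat_lit 2)))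
    (Nat.sub (Nat.add (Nat.add (Nat.add (Nat.add (Nat.add (Nat.add (Nat.add (Nat.add (Nat.add (Nat.add (Nat.add C x46747) x29251) x35083) x33139) x33787) x33571) x33643) x33619) x33627) x53307) x13943) x33625)
    (Nat.sub (Nat.add (Nat.add (Nat.add (Nat.add (Nat.add (Nat.add (Nat.add (Nat.add (Nat.add (Nat.add (Nat.add C x46749) x29253) x35085) x33141) x33789) x33573) x33645) x33621) x33633) x33625) x13945) x33627)
    (Nat.sub (Nat.add (Nat.add (Nat.add (Nat.add (Nat.add (Nat.add (Nat.add (Nat.add (Nat.add C x46755) x29259) x35091) x33147) x33795) x33579) x33651) x33627) x13951) (Nat.mul x33633 (nat_lit 2)))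
    (Nat.add (Nat.add (Nat.add (Nat.add (Nat.add (Nat.add (Nat.add (Nat.add (Nat.add (Nat.add (Nat.add C x46765) x29269) x35101) x33157) x33805) x33589) x33697) x33625) x33645) x53325) x13961)
    (Nat.sub (Nat.add (Nat.add (Nat.add (Nat.add (Nat.add (Nat.add (Nat.add (Nat.add (Nat.add (Nat.add (Nat.add C x46767) x29271) x35103) x33159) x33807) x33591) x33699) x33627) x33651) x33643) x13963) x33645)
    (Nat.add (Nat.add (Nat.add (Nat.add (Nat.add (Nat.add (Nat.add (Nat.add (Nat.add (Nat.add (Nat.add C x46773) x29277) x35109) x33165) x33813) x33597) x33705) x33633) x33669) x33645) x13969)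
    (Nat.add (Nat.add (Nat.add (Nat.add (Nat.add (Nat.add (Nat.add (Nat.add C x46791) x29295) x35127) x33183) x33831) x33723) x33651) x13987)
    (Nat.sub (Nat.add (Nat.add (Nat.add (Nat.add (Nat.add (Nat.add (Nat.add (Nat.add (Nat.add C x46819) x29323) x35155) x33211) x33859) x33643) x33699) x53379) x14015) x33697)
    (Nat.sub (Nat.add (Nat.add (Nat.add (Nat.add (Nat.add (Nat.add (Nat.add (Nat.add (Nat.add C x46821) x29325) x35157) x33213) x33861) x33645) x33705) x33697) x14017) (Nat.mul x33699 (nat_lit 2)))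
    (Nat.sub (Nat.add (Nat.add (Nat.add (Nat.add (Nat.add (Nat.add (Nat.add (Nat.add (Nat.add C x46827) x29331) x35163) x33219) x33867) x33651) x33723) x33699) x14023) (Nat.mul x33705 (nat_lit 2)))
    (Nat.add (Nat.add (Nat.add (Nat.add (Nat.add (Nat.add (Nat.add (Nat.add C x46845) x29349) x35181) x33237) x33885) x33669) x33705) x14041)
    (Nat.add (Nat.add (Nat.add (Nat.add (Nat.add (Nat.add (Nat.add (Nat.add (Nat.add C x33779) x46901) x29405) x35237) x33293) x34265) x33617) x33781) x53461)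
    (Nat.add (Nat.add (Nat.add (Nat.add (Nat.add (Nat.add (Nat.add (Nat.add (Nat.add (Nat.add (Nat.add (Nat.add C x33781) x46903) x29407) x35239) x33295) x34267) x33619) x33787) x33779) x33783) x53463) x14099)
    (Nat.sub (Nat.add (Nat.add (Nat.add (Nat.add (Nat.add (Nat.add (Nat.add (Nat.add (Nat.add C x46905) x29409) x35241) x33297) x34269) x33621) x33789) x33781) x14101) x33783)
    (Nat.add (Nat.add (Nat.add (Nat.add (Nat.add (Nat.add (Nat.add (Nat.add (Nat.add (Nat.add (Nat.add C x46909) x29413) x35245) x33301) x34273) x33625) x33805) x33781) x33789) x53469) x14105)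
    (Nat.add (Nat.add (Nat.add (Nat.add (Nat.add (Nat.add (Nat.add (Nat.add (Nat.add (Nat.add (Nat.add C x46911) x29415) x35247) x33303) x34275) x33627) x33807) x33783) x33795) x33787) x14107)
    (Nat.sub (Nat.add (Nat.add (Nat.add (Nat.add (Nat.add (Nat.add (Nat.add (Nat.add (Nat.add C x46917) x29421) x35253) x33309) x34281) x33633) x33813) x33789) x14113) x33795)
    (Nat.add (Nat.add (Nat.add (Nat.add (Nat.add (Nat.add (Nat.add (Nat.add (Nat.add (Nat.add (Nat.add C x46927) x29431) x35263) x33319) x34291) x33643) x33859) x33787) x33807) x53487) x14123)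
    (Nat.sub (Nat.add (Nat.add (Nat.add (Nat.add (Nat.add (Nat.add (Nat.add (Nat.add (Nat.add (Nat.add (Nat.add C x46929) x29433) x35265) x33321) x34293) x33645) x33861) x33789) x33813) x33805) x14125) x33807)
    (Nat.add (Nat.add (Nat.add (Nat.add (Nat.add (Nat.add (Nat.add (Nat.add (Nat.add (Nat.add (Nat.add C x46935) x29439) x35271) x33327) x34299) x33651) x33867) x33795) x33831) x33807) x14131)
    (Nat.sub (Nat.add (Nat.add (Nat.add (Nat.add (Nat.add (Nat.add (Nat.add (Nat.add (Nat.add C x46953) x29457) x35289) x33345) x34317) x33669) x33885) x33813) x14149) x33831)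
    (Nat.add (Nat.add (Nat.add (Nat.add (Nat.add (Nat.add (Nat.add (Nat.add (Nat.add (Nat.add (Nat.add (Nat.add C x33859) x46981) x29485) x35317) x33373) x34345) x33697) x34021) x33805) x33861) x53541) x14177)
    (Nat.add (Nat.add (Nat.add (Nat.add (Nat.add (Nat.add (Nat.add (Nat.add (Nat.add (Nat.add (Nat.add C x46983) x29487) x35319) x33375) x34347) x33699) x34023) x33807) x33867) x33859) x14179)
    (Nat.add (Nat.add (Nat.add (Nat.add (Nat.add (Nat.add (Nat.add (Nat.add (Nat.add (Nat.add (Nat.add C x46989) x29493) x35325) x33381) x34353) x33705) x34029) x33813) x33885) x33861) x14185)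
    (Nat.add (Nat.add (Nat.add (Nat.add (Nat.add (Nat.add (Nat.add (Nat.add (Nat.add (Nat.add (Nat.add (Nat.add C x33885) x47007) x29511) x35343) x33399) x34371) x33723) x34047) x33831) x33939) x33867) x14203)
    (Nat.add (Nat.add (Nat.add (Nat.add (Nat.add (Nat.add (Nat.add (Nat.add (Nat.add C x33939) x47061) x29565) x35397) x33453) x34425) x34101) x33885) x14257)
    (Nat.add (Nat.add (Nat.add (Nat.add (Nat.add (Nat.add (Nat.add (Nat.add (Nat.add C x34021) x47143) x29647) x35479) x34507) x33859) x34023) x53703) x14339)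
    (Nat.add (Nat.add (Nat.add (Nat.add (Nat.add (Nat.add (Nat.add (Nat.add C x47145) x29649) x35481) x34509) x33861) x34029) x34021) x14341)
    (Nat.add (Nat.add (Nat.add (Nat.add (Nat.add (Nat.add (Nat.add (Nat.add C x47151) x29655) x35487) x34515) x33867) x34047) x34023) x14347)
    (Nat.add (Nat.add (Nat.add (Nat.add (Nat.add (Nat.add (Nat.add (Nat.add C x47169) x29673) x35505) x34533) x33885) x34101) x34029) x14365)
    (Nat.add (Nat.add (Nat.add (Nat.add (Nat.add (Nat.add (Nat.add (Nat.add C (Nat.mul x34101 (nat_lit 2))) x47223) x29727) x35559) x34587) x33939) x34047) x14419)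
    (Nat.add (Nat.add (Nat.add (Nat.add (Nat.add (Nat.add C x47387) x29891) x35723) x33779) x34267) x53947)
    (Nat.add (Nat.add (Nat.add (Nat.add (Nat.add (Nat.add (Nat.add (Nat.add (Nat.add C x47389) x29893) x35725) x33781) x34273) x34265) x34269) x53949) x14585)
    (Nat.sub (Nat.add (Nat.add (Nat.add (Nat.add (Nat.add (Nat.add (Nat.add C x47391) x29895) x35727) x33783) x34275) x34267) x14587) (Nat.mul x34269 (nat_lit 2)))
    (Nat.sub (Nat.add (Nat.add (Nat.add (Nat.add (Nat.add (Nat.add (Nat.add (Nat.add (Nat.add C x47395) x29899) x35731) x33787) x34291) x34267) x34275) x53955) x14591) x34273)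
    (Nat.sub (Nat.add (Nat.add (Nat.add (Nat.add (Nat.add (Nat.add (Nat.add (Nat.add (Nat.add C x47397) x29901) x35733) x33789) x34293) x34269) x34281) x34273) x14593) x34275)
    (Nat.sub (Nat.add (Nat.add (Nat.add (Nat.add (Nat.add (Nat.add (Nat.add C x47403) x29907) x35739) x33795) x34299) x34275) x14599) (Nat.mul x34281 (nat_lit 2)))
    (Nat.sub (Nat.add (Nat.add (Nat.add (Nat.add (Nat.add (Nat.add (Nat.add (Nat.add (Nat.add C x47413) x29917) x35749) x33805) x34345) x34273) x34293) x53973) x14609) x34291)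
    (Nat.sub (Nat.add (Nat.add (Nat.add (Nat.add (Nat.add (Nat.add (Nat.add (Nat.add (Nat.add C x47415) x29919) x35751) x33807) x34347) x34275) x34299) x34291) x14611) (Nat.mul x34293 (nat_lit 2)))
    (Nat.sub (Nat.add (Nat.add (Nat.add (Nat.add (Nat.add (Nat.add (Nat.add (Nat.add (Nat.add C x47421) x29925) x35757) x33813) x34353) x34281) x34317) x34293) x14617) x34299)
    (Nat.sub (Nat.add (Nat.add (Nat.add (Nat.add (Nat.add (Nat.add (Nat.add C x47439) x29943) x35775) x33831) x34371) x34299) x14635) (Nat.mul x34317 (nat_lit 2)))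
    (Nat.sub (Nat.add (Nat.add (Nat.add (Nat.add (Nat.add (Nat.add (Nat.add (Nat.add (Nat.add C x47467) x29971) x35803) x33859) x34507) x34291) x34347) x54027) x14663) x34345)
    (Nat.sub (Nat.add (Nat.add (Nat.add (Nat.add (Nat.add (Nat.add (Nat.add (Nat.add (Nat.add C x47469) x29973) x35805) x33861) x34509) x34293) x34353) x34345) x14665) (Nat.mul x34347 (nat_lit 2)))
    (Nat.sub (Nat.add (Nat.add (Nat.add (Nat.add (Nat.add (Nat.add (Nat.add (Nat.add (Nat.add C x47475) x29979) x35811) x33867) x34515) x34299) x34371) x34347) x14671) (Nat.mul x34353 (nat_lit 2)))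
    (Nat.sub (Nat.add (Nat.add (Nat.add (Nat.add (Nat.add (Nat.add (Nat.add (Nat.add (Nat.add C x47493) x29997) x35829) x33885) x34533) x34317) x34425) x34353) x14689) x34371)
    (Nat.sub (Nat.add (Nat.add (Nat.add (Nat.add (Nat.add (Nat.add (Nat.add C x47547) x30051) x35883) x33939) x34587) x34371) x14743) (Nat.mul x34425 (nat_lit 2)))
    (Nat.add (Nat.add (Nat.add (Nat.add (Nat.add (Nat.add (Nat.add (Nat.add (Nat.add C x34507) x47629) x30133) x35965) x34021) x34345) x34509) x54189) x14825)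
    (Nat.add (Nat.add (Nat.add (Nat.add (Nat.add (Nat.add (Nat.add (Nat.add C x47631) x30135) x35967) x34023) x34347) x34515) x34507) x14827)
    (Nat.add (Nat.add (Nat.add (Nat.add (Nat.add (Nat.add (Nat.add (Nat.add C x47637) x30141) x35973) x34029) x34353) x34533) x34509) x14833)
    (Nat.add (Nat.add (Nat.add (Nat.add (Nat.add (Nat.add (Nat.add (Nat.add C x47655) x30159) x35991) x34047) x34371) x34587) x34515) x14851)
    (Nat.add (Nat.add (Nat.add (Nat.add (Nat.add (Nat.add (Nat.add (Nat.add (Nat.add C x34587) x47709) x30213) x36045) x34101) x34425) x34749) x34533) x14905)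
    (Nat.add (Nat.add (Nat.add (Nat.add (Nat.add (Nat.add C (Nat.mul x34749 (nat_lit 2))) x47871) x30375) x36207) x34587) x15067)
    (Nat.add (Nat.add (Nat.add (Nat.add (Nat.add (Nat.add (Nat.add C (Nat.mul x34997 (nat_lit 4))) x48119) x30623) x33539) x35003) x34999) x54679)
    (Nat.add (Nat.add (Nat.add (Nat.add (Nat.add (Nat.add (Nat.add (Nat.add C (Nat.mul x34999 (nat_lit 3))) x48121) x30625) x33541) x35005) x34997) x54681) x15317)
    (Nat.add (Nat.add (Nat.add (Nat.add (Nat.add (Nat.add (Nat.add (Nat.add C (Nat.mul x35003 (nat_lit 2))) x48125) x30629) x33545) x35021) x34997) x35005) x54685)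
    (Nat.add (Nat.add (Nat.add (Nat.add (Nat.add (Nat.add (Nat.add (Nat.add (Nat.add (Nat.add (Nat.add C (Nat.mul x35005 (nat_lit 3))) x48127) x30631) x33547) x35023) x34999) x35011) x35003) x35007) x54687) x15323)
    (Nat.add (Nat.add (Nat.add (Nat.add (Nat.add (Nat.add (Nat.add (Nat.add C (Nat.mul x35007 (nat_lit 2))) x48129) x30633) x33549) x35025) x35013) x35005) x15325)
    (Nat.add (Nat.add (Nat.add (Nat.add (Nat.add (Nat.add (Nat.add (Nat.add (Nat.add C x35011) x48133) x30637) x33553) x35029) x35005) x35013) x54693) x15329)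
    (Nat.add (Nat.add (Nat.add (Nat.add (Nat.add (Nat.add (Nat.add (Nat.add C (Nat.mul x35013 (nat_lit 2))) x48135) x30639) x33555) x35031) x35007) x35011) x15331)
    (Nat.add (Nat.add (Nat.add (Nat.add (Nat.add (Nat.add (Nat.add (Nat.add C (Nat.mul x35021 (nat_lit 2))) x48143) x30647) x33563) x35075) x35003) x35023) x54703)
    (Nat.add (Nat.add (Nat.add (Nat.add (Nat.add (Nat.add (Nat.add (Nat.add (Nat.add (Nat.add (Nat.add C (Nat.mul x35023 (nat_lit 2))) x48145) x30649) x33565) x35077) x35005) x35029) x35021) x35025) x54705) x15341)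
    (Nat.add (Nat.add (Nat.add (Nat.add (Nat.add (Nat.add (Nat.add (Nat.add C x48147) x30651) x33567) x35079) x35007) x35031) x35023) x15343)
    (Nat.add (Nat.add (Nat.add (Nat.add (Nat.add (Nat.add (Nat.add (Nat.add (Nat.add (Nat.add (Nat.add C (Nat.mul x35029 (nat_lit 2))) x48151) x30655) x33571) x35083) x35011) x35047) x35023) x35031) x54711) x15347)
    (Nat.add (Nat.add (Nat.add (Nat.add (Nat.add (Nat.add (Nat.add (Nat.add (Nat.add (Nat.add (Nat.add C (Nat.mul x35031 (nat_lit 2))) x48153) x30657) x33573) x35085) x35013) x35049) x35025) x35037) x35029) x15349)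
    (Nat.add (Nat.add (Nat.add (Nat.add (Nat.add (Nat.add (Nat.add (Nat.add C (Nat.mul x35037 (nat_lit 2))) x48159) x30663) x33579) x35091) x35055) x35031) x15355)
    (Nat.add (Nat.add (Nat.add (Nat.add (Nat.add (Nat.add (Nat.add (Nat.add (Nat.add C x35047) x48169) x30673) x33589) x35101) x35029) x35049) x54729) x15365)
    (Nat.add (Nat.add (Nat.add (Nat.add (Nat.add (Nat.add (Nat.add (Nat.add C x48171) x30675) x33591) x35103) x35031) x35055) x35047) x15367)
    (Nat.add (Nat.add (Nat.add (Nat.add (Nat.add (Nat.add (Nat.add (Nat.add C (Nat.mul x35055 (nat_lit 2))) x48177) x30681) x33597) x35109) x35037) x35049) x15373)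
    (Nat.add (Nat.add (Nat.add (Nat.add (Nat.add (Nat.add (Nat.add (Nat.add C (Nat.mul x35075 (nat_lit 2))) x48197) x30701) x33617) x35237) x35021) x35077) x54757)
    (Nat.add (Nat.add (Nat.add (Nat.add (Nat.add (Nat.add (Nat.add (Nat.add (Nat.add (Nat.add (Nat.add C (Nat.mul x35077 (nat_lit 2))) x48199) x30703) x33619) x35239) x35023) x35083) x35075) x35079) x54759) x15395)
    (Nat.add (Nat.add (Nat.add (Nat.add (Nat.add (Nat.add (Nat.add (Nat.add C x48201) x30705) x33621) x35241) x35025) x35085) x35077) x15397)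
    (Nat.add (Nat.add (Nat.add (Nat.add (Nat.add (Nat.add (Nat.add (Nat.add (Nat.add (Nat.add (Nat.add C x35083) x48205) x30709) x33625) x35245) x35029) x35101) x35077) x35085) x54765) x15401)
    (Nat.add (Nat.add (Nat.add (Nat.add (Nat.add (Nat.add (Nat.add (Nat.add (Nat.add (Nat.add (Nat.add C x35085) x48207) x30711) x33627) x35247) x35031) x35103) x35079) x35091) x35083) x15403)
    (Nat.add (Nat.add (Nat.add (Nat.add (Nat.add (Nat.add (Nat.add (Nat.add C x48213) x30717) x33633) x35253) x35037) x35109) x35085) x15409)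
    (Nat.add (Nat.add (Nat.add (Nat.add (Nat.add (Nat.add (Nat.add (Nat.add (Nat.add (Nat.add (Nat.add C (Nat.mul x35101 (nat_lit 2))) x48223) x30727) x33643) x35263) x35047) x35155) x35083) x35103) x54783) x15419)
    (Nat.add (Nat.add (Nat.add (Nat.add (Nat.add (Nat.add (Nat.add (Nat.add (Nat.add (Nat.add (Nat.add C x35103) x48225) x30729) x33645) x35265) x35049) x35157) x35085) x35109) x35101) x15421)
    (Nat.add (Nat.add (Nat.add (Nat.add (Nat.add (Nat.add (Nat.add (Nat.add (Nat.add (Nat.add (Nat.add C (Nat.mul x35109 (nat_lit 2))) x48231) x30735) x33651) x35271) x35055) x35163) x35091) x35127) x35103) x15427)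
    (Nat.add (Nat.add (Nat.add (Nat.add (Nat.add (Nat.add (Nat.add (Nat.add C (Nat.mul x35127 (nat_lit 2))) x48249) x30753) x33669) x35289) x35181) x35109) x15445)
    (Nat.add (Nat.add (Nat.add (Nat.add (Nat.add (Nat.add (Nat.add (Nat.add (Nat.add C x35155) x48277) x30781) x33697) x35317) x35101) x35157) x54837) x15473)
    (Nat.add (Nat.add (Nat.add (Nat.add (Nat.add (Nat.add (Nat.add (Nat.add C x48279) x30783) x33699) x35319) x35103) x35163) x35155) x15475)
    (Nat.add (Nat.add (Nat.add (Nat.add (Nat.add (Nat.add (Nat.add (Nat.add C x48285) x30789) x33705) x35325) x35109) x35181) x35157) x15481)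
    (Nat.add (Nat.add (Nat.add (Nat.add (Nat.add (Nat.add (Nat.add (Nat.add C (Nat.mul x35181 (nat_lit 2))) x48303) x30807) x33723) x35343) x35127) x35163) x15499)
    (Nat.add (Nat.add (Nat.add (Nat.add (Nat.add (Nat.add (Nat.add (Nat.add C (Nat.mul x35237 (nat_lit 2))) x48359) x30863) x33779) x35723) x35075) x35239) x54919)
    (Nat.add (Nat.add (Nat.add (Nat.add (Nat.add (Nat.add (Nat.add (Nat.add (Nat.add (Nat.add (Nat.add C (Nat.mul x35239 (nat_lit 2))) x48361) x30865) x33781) x35725) x35077) x35245) x35237) x35241) x54921) x15557)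
    (Nat.add (Nat.add (Nat.add (Nat.add (Nat.add (Nat.add (Nat.add (Nat.add C x48363) x30867) x33783) x35727) x35079) x35247) x35239) x15559)
    (Nat.add (Nat.add (Nat.add (Nat.add (Nat.add (Nat.add (Nat.add (Nat.add (Nat.add (Nat.add (Nat.add C x35245) x48367) x30871) x33787) x35731) x35083) x35263) x35239) x35247) x54927) x15563)
    (Nat.add (Nat.add (Nat.add (Nat.add (Nat.add (Nat.add (Nat.add (Nat.add (Nat.add (Nat.add (Nat.add C x35247) x48369) x30873) x33789) x35733) x35085) x35265) x35241) x35253) x35245) x15565)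
    (Nat.add (Nat.add (Nat.add (Nat.add (Nat.add (Nat.add (Nat.add (Nat.add C x48375) x30879) x33795) x35739) x35091) x35271) x35247) x15571)
    (Nat.add (Nat.add (Nat.add (Nat.add (Nat.add (Nat.add (Nat.add (Nat.add (Nat.add (Nat.add (Nat.add C x35263) x48385) x30889) x33805) x35749) x35101) x35317) x35245) x35265) x54945) x15581)
    (Nat.add (Nat.add (Nat.add (Nat.add (Nat.add (Nat.add (Nat.add (Nat.add (Nat.add (Nat.add C x48387) x30891) x33807) x35751) x35103) x35319) x35247) x35271) x35263) x15583)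
    (Nat.add (Nat.add (Nat.add (Nat.add (Nat.add (Nat.add (Nat.add (Nat.add (Nat.add (Nat.add (Nat.add C x35271) x48393) x30897) x33813) x35757) x35109) x35325) x35253) x35289) x35265) x15589)
    (Nat.add (Nat.add (Nat.add (Nat.add (Nat.add (Nat.add (Nat.add (Nat.add C x48411) x30915) x33831) x35775) x35127) x35343) x35271) x15607)
    (Nat.add (Nat.add (Nat.add (Nat.add (Nat.add (Nat.add (Nat.add (Nat.add (Nat.add (Nat.add (Nat.add C (Nat.mul x35317 (nat_lit 2))) x48439) x30943) x33859) x35803) x35155) x35479) x35263) x35319) x54999) x15635)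
    (Nat.add (Nat.add (Nat.add (Nat.add (Nat.add (Nat.add (Nat.add (Nat.add (Nat.add (Nat.add (Nat.add C x35319) x48441) x30945) x33861) x35805) x35157) x35481) x35265) x35325) x35317) x15637)
    (Nat.add (Nat.add (Nat.add (Nat.add (Nat.add (Nat.add (Nat.add (Nat.add (Nat.add (Nat.add (Nat.add C x35325) x48447) x30951) x33867) x35811) x35163) x35487) x35271) x35343) x35319) x15643)
    (Nat.add (Nat.add (Nat.add (Nat.add (Nat.add (Nat.add (Nat.add (Nat.add (Nat.add (Nat.add (Nat.add C (Nat.mul x35343 (nat_lit 2))) x48465) x30969) x33885) x35829) x35181) x35505) x35289) x35397) x35325) x15661)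
    (Nat.add (Nat.add (Nat.add (Nat.add (Nat.add (Nat.add (Nat.add (Nat.add C (Nat.mul x35397 (nat_lit 2))) x48519) x31023) x33939) x35883) x35559) x35343) x15715)
    (Nat.add (Nat.add (Nat.add (Nat.add (Nat.add (Nat.add (Nat.add (Nat.add (Nat.add C x35479) x48601) x31105) x34021) x35965) x35317) x35481) x55161) x15797)
    (Nat.add (Nat.add (Nat.add (Nat.add (Nat.add (Nat.add (Nat.add (Nat.add C x48603) x31107) x34023) x35967) x35319) x35487) x35479) x15799)
    (Nat.add (Nat.add (Nat.add (Nat.add (Nat.add (Nat.add (Nat.add (Nat.add C x48609) x31113) x34029) x35973) x35325) x35505) x35481) x15805)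
    (Nat.add (Nat.add (Nat.add (Nat.add (Nat.add (Nat.add (Nat.add (Nat.add C x48627) x31131) x34047) x35991) x35343) x35559) x35487) x15823)
    (Nat.add (Nat.add (Nat.add (Nat.add (Nat.add (Nat.add (Nat.add (Nat.add C (Nat.mul x35559 (nat_lit 2))) x48681) x31185) x34101) x36045) x35397) x35505) x15877)
    (Nat.add (Nat.add (Nat.add (Nat.add (Nat.add (Nat.add (Nat.add (Nat.add C (Nat.mul x35723 (nat_lit 3))) x48845) x31349) x34265) x37181) x35237) x35725) x55405)
    (Nat.add (Nat.add (Nat.add (Nat.add (Nat.add (Nat.add (Nat.add (Nat.add (Nat.add (Nat.add (Nat.add C (Nat.mul x35725 (nat_lit 3))) x48847) x31351) x34267) x37183) x35239) x35731) x35723) x35727) x55407) x16043)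
    (Nat.add (Nat.add (Nat.add (Nat.add (Nat.add (Nat.add (Nat.add (Nat.add (Nat.add C x35727) x48849) x31353) x34269) x37185) x35241) x35733) x35725) x16045)
    (Nat.add (Nat.add (Nat.add (Nat.add (Nat.add (Nat.add (Nat.add (Nat.add (Nat.add (Nat.add (Nat.add C (Nat.mul x35731 (nat_lit 2))) x48853) x31357) x34273) x37189) x35245) x35749) x35725) x35733) x55413) x16049)
    (Nat.add (Nat.add (Nat.add (Nat.add (Nat.add (Nat.add (Nat.add (Nat.add (Nat.add (Nat.add (Nat.add C (Nat.mul x35733 (nat_lit 2))) x48855) x31359) x34275) x37191) x35247) x35751) x35727) x35739) x35731) x16051)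
    (Nat.add (Nat.add (Nat.add (Nat.add (Nat.add (Nat.add (Nat.add (Nat.add (Nat.add C x35739) x48861) x31365) x34281) x37197) x35253) x35757) x35733) x16057)
    (Nat.add (Nat.add (Nat.add (Nat.add (Nat.add (Nat.add (Nat.add (Nat.add (Nat.add (Nat.add (Nat.add C (Nat.mul x35749 (nat_lit 2))) x48871) x31375) x34291) x37207) x35263) x35803) x35731) x35751) x55431) x16067)
    (Nat.add (Nat.add (Nat.add (Nat.add (Nat.add (Nat.add (Nat.add (Nat.add (Nat.add (Nat.add (Nat.add C x35751) x48873) x31377) x34293) x37209) x35265) x35805) x35733) x35757) x35749) x16069)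
    (Nat.add (Nat.add (Nat.add (Nat.add (Nat.add (Nat.add (Nat.add (Nat.add (Nat.add (Nat.add (Nat.add C (Nat.mul x35757 (nat_lit 2))) x48879) x31383) x34299) x37215) x35271) x35811) x35739) x35775) x35751) x16075)
    (Nat.add (Nat.add (Nat.add (Nat.add (Nat.add (Nat.add (Nat.add (Nat.add (Nat.add C x35775) x48897) x31401) x34317) x37233) x35289) x35829) x35757) x16093)
    (Nat.add (Nat.add (Nat.add (Nat.add (Nat.add (Nat.add (Nat.add (Nat.add (Nat.add (Nat.add (Nat.add C (Nat.mul x35803 (nat_lit 2))) x48925) x31429) x34345) x37261) x35317) x35965) x35749) x35805) x55485) x16121)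
    (Nat.add (Nat.add (Nat.add (Nat.add (Nat.add (Nat.add (Nat.add (Nat.add (Nat.add (Nat.add (Nat.add C x35805) x48927) x31431) x34347) x37263) x35319) x35967) x35751) x35811) x35803) x16123)
    (Nat.add (Nat.add (Nat.add (Nat.add (Nat.add (Nat.add (Nat.add (Nat.add (Nat.add (Nat.add (Nat.add C x35811) x48933) x31437) x34353) x37269) x35325) x35973) x35757) x35829) x35805) x16129)
    (Nat.add (Nat.add (Nat.add (Nat.add (Nat.add (Nat.add (Nat.add (Nat.add (Nat.add (Nat.add (Nat.add C (Nat.mul x35829 (nat_lit 2))) x48951) x31455) x34371) x37287) x35343) x35991) x35775) x35883) x35811) x16147)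
    (Nat.add (Nat.add (Nat.add (Nat.add (Nat.add (Nat.add (Nat.add (Nat.add (Nat.add C x35883) x49005) x31509) x34425) x37341) x35397) x36045) x35829) x16201)
    (Nat.add (Nat.add (Nat.add (Nat.add (Nat.add (Nat.add (Nat.add (Nat.add (Nat.add (Nat.add (Nat.add C (Nat.mul x35965 (nat_lit 3))) x49087) x31591) x34507) x37423) x35479) x36451) x35803) x35967) x55647) x16283)
    (Nat.add (Nat.add (Nat.add (Nat.add (Nat.add (Nat.add (Nat.add (Nat.add (Nat.add (Nat.add (Nat.add C (Nat.mul x35967 (nat_lit 2))) x49089) x31593) x34509) x37425) x35481) x36453) x35805) x35973) x35965) x16285)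
    (Nat.add (Nat.add (Nat.add (Nat.add (Nat.add (Nat.add (Nat.add (Nat.add (Nat.add (Nat.add (Nat.add C (Nat.mul x35973 (nat_lit 2))) x49095) x31599) x34515) x37431) x35487) x36459) x35811) x35991) x35967) x16291)
    (Nat.add (Nat.add (Nat.add (Nat.add (Nat.add (Nat.add (Nat.add (Nat.add (Nat.add (Nat.add (Nat.add C (Nat.mul x35991 (nat_lit 2))) x49113) x31617) x34533) x37449) x35505) x36477) x35829) x36045) x35973) x16309)
    (Nat.add (Nat.add (Nat.add (Nat.add (Nat.add (Nat.add (Nat.add (Nat.add (Nat.add (Nat.add (Nat.add C (Nat.mul x36045 (nat_lit 3))) x49167) x31671) x34587) x37503) x35559) x36531) x35883) x36207) x35991) x16363)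
    (Nat.add (Nat.add (Nat.add (Nat.add (Nat.add (Nat.add (Nat.add (Nat.add C (Nat.mul x36207 (nat_lit 3))) x49329) x31833) x34749) x37665) x36693) x36045) x16525)
    (Nat.add (Nat.add (Nat.add (Nat.add (Nat.add (Nat.add (Nat.add (Nat.add C (Nat.mul x36451 (nat_lit 3))) x49573) x32077) x37909) x35965) x36453) x56133) x16769)
    (Nat.add (Nat.add (Nat.add (Nat.add (Nat.add (Nat.add (Nat.add (Nat.add C (Nat.mul x36453 (nat_lit 2))) x49575) x32079) x37911) x35967) x36459) x36451) x16771)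
    (Nat.add (Nat.add (Nat.add (Nat.add (Nat.add (Nat.add (Nat.add (Nat.add C (Nat.mul x36459 (nat_lit 2))) x49581) x32085) x37917) x35973) x36477) x36453) x16777)
    (Nat.add (Nat.add (Nat.add (Nat.add (Nat.add (Nat.add (Nat.add (Nat.add C (Nat.mul x36477 (nat_lit 2))) x49599) x32103) x37935) x35991) x36531) x36459) x16795)
    (Nat.add (Nat.add (Nat.add (Nat.add (Nat.add (Nat.add (Nat.add (Nat.add C (Nat.mul x36531 (nat_lit 2))) x49653) x32157) x37989) x36045) x36693) x36477) x16849)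
    (Nat.add (Nat.add (Nat.add (Nat.add (Nat.add (Nat.add (Nat.add C (Nat.mul x36693 (nat_lit 4))) x49815) x32319) x38151) x36207) x36531) x17011)
    (Nat.add (Nat.add (Nat.add (Nat.add (Nat.add C (Nat.mul x37181 (nat_lit 4))) x50303) x35723) x37183) x56863)
    (Nat.add (Nat.add (Nat.add (Nat.add (Nat.add (Nat.add (Nat.add (Nat.add C (Nat.mul x37183 (nat_lit 4))) x50305) x35725) x37189) x37181) x37185) x56865) x17501)
    (Nat.add (Nat.add (Nat.add (Nat.add (Nat.add (Nat.add C (Nat.mul x37185 (nat_lit 2))) x50307) x35727) x37191) x37183) x17503)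
    (Nat.add (Nat.add (Nat.add (Nat.add (Nat.add (Nat.add (Nat.add (Nat.add C (Nat.mul x37189 (nat_lit 3))) x50311) x35731) x37207) x37183) x37191) x56871) x17507)
    (Nat.add (Nat.add (Nat.add (Nat.add (Nat.add (Nat.add (Nat.add (Nat.add C (Nat.mul x37191 (nat_lit 3))) x50313) x35733) x37209) x37185) x37197) x37189) x17509)
    (Nat.add (Nat.add (Nat.add (Nat.add (Nat.add (Nat.add C (Nat.mul x37197 (nat_lit 2))) x50319) x35739) x37215) x37191) x17515)
    (Nat.add (Nat.add (Nat.add (Nat.add (Nat.add (Nat.add (Nat.add (Nat.add C (Nat.mul x37207 (nat_lit 3))) x50329) x35749) x37261) x37189) x37209) x56889) x17525)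
    (Nat.add (Nat.add (Nat.add (Nat.add (Nat.add (Nat.add (Nat.add (Nat.add C (Nat.mul x37209 (nat_lit 2))) x50331) x35751) x37263) x37191) x37215) x37207) x17527)
    (Nat.add (Nat.add (Nat.add (Nat.add (Nat.add (Nat.add (Nat.add (Nat.add C (Nat.mul x37215 (nat_lit 3))) x50337) x35757) x37269) x37197) x37233) x37209) x17533)
    (Nat.add (Nat.add (Nat.add (Nat.add (Nat.add (Nat.add C (Nat.mul x37233 (nat_lit 2))) x50355) x35775) x37287) x37215) x17551)
    (Nat.add (Nat.add (Nat.add (Nat.add (Nat.add (Nat.add (Nat.add (Nat.add C (Nat.mul x37261 (nat_lit 3))) x50383) x35803) x37423) x37207) x37263) x56943) x17579)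
    (Nat.add (Nat.add (Nat.add (Nat.add (Nat.add (Nat.add (Nat.add (Nat.add C (Nat.mul x37263 (nat_lit 2))) x50385) x35805) x37425) x37209) x37269) x37261) x17581)
    (Nat.add (Nat.add (Nat.add (Nat.add (Nat.add (Nat.add (Nat.add (Nat.add C (Nat.mul x37269 (nat_lit 2))) x50391) x35811) x37431) x37215) x37287) x37263) x17587)
    (Nat.add (Nat.add (Nat.add (Nat.add (Nat.add (Nat.add (Nat.add (Nat.add C (Nat.mul x37287 (nat_lit 3))) x50409) x35829) x37449) x37233) x37341) x37269) x17605)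
    (Nat.add (Nat.add (Nat.add (Nat.add (Nat.add (Nat.add C (Nat.mul x37341 (nat_lit 2))) x50463) x35883) x37503) x37287) x17659)
    (Nat.add (Nat.add (Nat.add (Nat.add (Nat.add (Nat.add (Nat.add (Nat.add C (Nat.mul x37423 (nat_lit 3))) x50545) x35965) x37909) x37261) x37425) x57105) x17741)
    (Nat.add (Nat.add (Nat.add (Nat.add (Nat.add (Nat.add (Nat.add (Nat.add C (Nat.mul x37425 (nat_lit 2))) x50547) x35967) x37911) x37263) x37431) x37423) x17743)
    (Nat.add (Nat.add (Nat.add (Nat.add (Nat.add (Nat.add (Nat.add (Nat.add C (Nat.mul x37431 (nat_lit 2))) x50553) x35973) x37917) x37269) x37449) x37425) x17749)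
    (Nat.add (Nat.add (Nat.add (Nat.add (Nat.add (Nat.add (Nat.add (Nat.add C (Nat.mul x37449 (nat_lit 2))) x50571) x35991) x37935) x37287) x37503) x37431) x17767)
    (Nat.add (Nat.add (Nat.add (Nat.add (Nat.add (Nat.add (Nat.add (Nat.add C (Nat.mul x37503 (nat_lit 3))) x50625) x36045) x37989) x37341) x37665) x37449) x17821)
    (Nat.add (Nat.add (Nat.add (Nat.add (Nat.add (Nat.add C (Nat.mul x37665 (nat_lit 2))) x50787) x36207) x38151) x37503) x17983)
    (Nat.add (Nat.add (Nat.add (Nat.add (Nat.add (Nat.add (Nat.add C (Nat.mul x37909 (nat_lit 5))) x51031) x36451) x37423) x37911) x57591) x18227)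
    (Nat.add (Nat.add (Nat.add (Nat.add (Nat.add (Nat.add (Nat.add C (Nat.mul x37911 (nat_lit 4))) x51033) x36453) x37425) x37917) x37909) x18229)
    (Nat.add (Nat.add (Nat.add (Nat.add (Nat.add (Nat.add (Nat.add C (Nat.mul x37917 (nat_lit 4))) x51039) x36459) x37431) x37935) x37911) x18235)
    (Nat.add (Nat.add (Nat.add (Nat.add (Nat.add (Nat.add (Nat.add C (Nat.mul x37935 (nat_lit 4))) x51057) x36477) x37449) x37989) x37917) x18253)
    (Nat.add (Nat.add (Nat.add (Nat.add (Nat.add (Nat.add (Nat.add C (Nat.mul x37989 (nat_lit 4))) x51111) x36531) x37503) x38151) x37935) x18307)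
    (Nat.add (Nat.add (Nat.add (Nat.add (Nat.add (Nat.add (Nat.add C (Nat.mul x38151 (nat_lit 5))) x51273) x36693) x37665) x38637) x37989) x18469)
    (Nat.add (Nat.add (Nat.add (Nat.add C (Nat.mul x38637 (nat_lit 6))) x51759) x38151) x18955)
    (Nat.add (Nat.add (Nat.add (Nat.add C (Nat.mul x39383 (nat_lit 6))) x26261) x39401) x39389)
    (Nat.add (Nat.add (Nat.add (Nat.add (Nat.add C (Nat.mul x39389 (nat_lit 4))) x26267) x39407) x39383) x39391)
    (Nat.add (Nat.add (Nat.add (Nat.add (Nat.add C (Nat.mul x39391 (nat_lit 4))) x26269) x39409) x39389) x19709)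
    (Nat.add (Nat.add (Nat.add (Nat.add (Nat.add C (Nat.mul x39401 (nat_lit 4))) x26279) x39455) x39383) x39407)
    (Nat.add (Nat.add (Nat.add (Nat.add (Nat.add (Nat.add (Nat.add (Nat.add C (Nat.mul x39407 (nat_lit 4))) x26285) x39461) x39389) x39425) x39401) x39413) x39409)
    (Nat.add (Nat.add (Nat.add (Nat.add (Nat.add (Nat.add (Nat.add (Nat.add C (Nat.mul x39409 (nat_lit 3))) x26287) x39463) x39391) x39427) x39415) x39407) x19727)
    (Nat.add (Nat.add (Nat.add (Nat.add (Nat.add (Nat.add C (Nat.mul x39413 (nat_lit 2))) x26291) x39467) x39431) x39407) x39415)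
    (Nat.add (Nat.add (Nat.add (Nat.add (Nat.add (Nat.add (Nat.add (Nat.add C (Nat.mul x39415 (nat_lit 3))) x26293) x39469) x39433) x39409) x39413) x39417) x19733)
    (Nat.add (Nat.add (Nat.add (Nat.add (Nat.add (Nat.add C (Nat.mul x39417 (nat_lit 2))) x26295) x39471) x39435) x39415) x19735)
    (Nat.add (Nat.add (Nat.add (Nat.add (Nat.add (Nat.add C (Nat.mul x39425 (nat_lit 2))) x26303) x39479) x39407) x39431) x39427)
    (Nat.add (Nat.add (Nat.add (Nat.add (Nat.add (Nat.add C x26305) x39481) x39409) x39433) x39425) x19745)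
    (Nat.add (Nat.add (Nat.add (Nat.add (Nat.add (Nat.add C (Nat.mul x39431 (nat_lit 2))) x26309) x39485) x39413) x39425) x39433)
    (Nat.add (Nat.add (Nat.add (Nat.add (Nat.add (Nat.add (Nat.add (Nat.add (Nat.add C (Nat.mul x39433 (nat_lit 2))) x26311) x39487) x39415) x39427) x39439) x39431) x39435) x19751)
    (Nat.add (Nat.add (Nat.add (Nat.add (Nat.add (Nat.add C x26313) x39489) x39417) x39441) x39433) x19753)
    (Nat.add (Nat.add (Nat.add (Nat.add (Nat.add (Nat.add C (Nat.mul x39439 (nat_lit 2))) x26317) x39493) x39433) x39441) x19757)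
    (Nat.add (Nat.add (Nat.add (Nat.add (Nat.add (Nat.add C (Nat.mul x39441 (nat_lit 2))) x26319) x39495) x39435) x39439) x19759)
    (Nat.add (Nat.add (Nat.add (Nat.add (Nat.add C (Nat.mul x39455 (nat_lit 4))) x26333) x39617) x39401) x39461)
    (Nat.add (Nat.add (Nat.add (Nat.add (Nat.add (Nat.add (Nat.add (Nat.add C (Nat.mul x39461 (nat_lit 3))) x26339) x39623) x39407) x39479) x39455) x39467) x39463)
    (Nat.add (Nat.add (Nat.add (Nat.add (Nat.add (Nat.add (Nat.add (Nat.add C (Nat.mul x39463 (nat_lit 2))) x26341) x39625) x39409) x39481) x39469) x39461) x19781)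
    (Nat.add (Nat.add (Nat.add (Nat.add (Nat.add (Nat.add C x26345) x39629) x39413) x39485) x39461) x39469)
    (Nat.add (Nat.add (Nat.add (Nat.add (Nat.add (Nat.add (Nat.add (Nat.add (Nat.add C x39469) x26347) x39631) x39415) x39487) x39463) x39467) x39471) x19787)
    (Nat.add (Nat.add (Nat.add (Nat.add (Nat.add (Nat.add C x26349) x39633) x39417) x39489) x39469) x19789)
    (Nat.add (Nat.add (Nat.add (Nat.add (Nat.add (Nat.add (Nat.add (Nat.add C (Nat.mul x39479 (nat_lit 3))) x26357) x39641) x39425) x39533) x39461) x39485) x39481)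
    (Nat.add (Nat.add (Nat.add (Nat.add (Nat.add (Nat.add (Nat.add (Nat.add (Nat.add C x39481) x26359) x39643) x39427) x39535) x39463) x39487) x39479) x19799)
    (Nat.add (Nat.add (Nat.add (Nat.add (Nat.add (Nat.add (Nat.add (Nat.add (Nat.add C (Nat.mul x39485 (nat_lit 2))) x26363) x39647) x39431) x39539) x39467) x39503) x39479) x39487)
    (Nat.add (Nat.add (Nat.add (Nat.add (Nat.add (Nat.add (Nat.add (Nat.add (Nat.add (Nat.add (Nat.add (Nat.add C (Nat.mul x39487 (nat_lit 2))) x26365) x39649) x39433) x39541) x39469) x39505) x39481) x39493) x39485) x39489) x19805)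
    (Nat.add (Nat.add (Nat.add (Nat.add (Nat.add (Nat.add (Nat.add (Nat.add (Nat.add C x26367) x39651) x39435) x39543) x39471) x39507) x39495) x39487) x19807)
    (Nat.add (Nat.add (Nat.add (Nat.add (Nat.add (Nat.add (Nat.add (Nat.add (Nat.add C x39493) x26371) x39655) x39439) x39547) x39511) x39487) x39495) x19811)
    (Nat.add (Nat.add (Nat.add (Nat.add (Nat.add (Nat.add (Nat.add (Nat.add (Nat.add C x39495) x26373) x39657) x39441) x39549) x39513) x39489) x39493) x19813)
    (Nat.add (Nat.add (Nat.add (Nat.add (Nat.add (Nat.add C (Nat.mul x39503 (nat_lit 2))) x26381) x39665) x39557) x39485) x39505)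
    (Nat.add (Nat.add (Nat.add (Nat.add (Nat.add (Nat.add (Nat.add (Nat.add (Nat.add C x39505) x26383) x39667) x39559) x39487) x39511) x39503) x39507) x19823)
    (Nat.sub (Nat.add (Nat.add (Nat.add (Nat.add (Nat.add (Nat.add (Nat.add C x26385) x39669) x39561) x39489) x39513) x39505) x19825) (Nat.mul x39507 (nat_lit 2)))
    (Nat.add (Nat.add (Nat.add (Nat.add (Nat.add (Nat.add (Nat.add (Nat.add C (Nat.mul x39511 (nat_lit 2))) x26389) x39673) x39565) x39493) x39505) x39513) x19829)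
    (Nat.add (Nat.add (Nat.add (Nat.add (Nat.add (Nat.add (Nat.add (Nat.add (Nat.add C x39513) x26391) x39675) x39567) x39495) x39507) x39519) x39511) x19831)
    (Nat.add (Nat.add (Nat.add (Nat.add (Nat.add (Nat.add C (Nat.mul x39519 (nat_lit 2))) x26397) x39681) x39573) x39513) x19837)
    (Nat.add (Nat.add (Nat.add (Nat.add (Nat.add (Nat.add C (Nat.mul x39533 (nat_lit 2))) x26411) x39695) x39479) x39539) x39535)
    (Nat.add (Nat.add (Nat.add (Nat.add (Nat.add (Nat.add C x26413) x39697) x39481) x39541) x39533) x19853)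
    (Nat.add (Nat.add (Nat.add (Nat.add (Nat.add (Nat.add C x26417) x39701) x39485) x39557) x39533) x39541)
    (Nat.add (Nat.add (Nat.add (Nat.add (Nat.add (Nat.add (Nat.add (Nat.add (Nat.add C x26419) x39703) x39487) x39559) x39535) x39547) x39539) x39543) x19859)
    (Nat.sub (Nat.add (Nat.add (Nat.add (Nat.add (Nat.add (Nat.add (Nat.add C x26421) x39705) x39489) x39561) x39549) x39541) x19861) (Nat.mul x39543 (nat_lit 2)))
    (Nat.sub (Nat.add (Nat.add (Nat.add (Nat.add (Nat.add (Nat.add (Nat.add C x26425) x39709) x39493) x39565) x39541) x39549) x19865) (Nat.mul x39547 (nat_lit 2)))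
    (Nat.sub (Nat.add (Nat.add (Nat.add (Nat.add (Nat.add (Nat.add (Nat.add C x26427) x39711) x39495) x39567) x39543) x39547) x19867) (Nat.mul x39549 (nat_lit 2)))
    (Nat.add (Nat.add (Nat.add (Nat.add (Nat.add (Nat.add C (Nat.mul x39557 (nat_lit 2))) x26435) x39719) x39503) x39539) x39559)
    (Nat.add (Nat.add (Nat.add (Nat.add (Nat.add (Nat.add (Nat.add (Nat.add (Nat.add C x39559) x26437) x39721) x39505) x39541) x39565) x39557) x39561) x19877)
    (Nat.sub (Nat.add (Nat.add (Nat.add (Nat.add (Nat.add (Nat.add (Nat.add C x26439) x39723) x39507) x39543) x39567) x39559) x19879) (Nat.mul x39561 (nat_lit 2)))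
    (Nat.add (Nat.add (Nat.add (Nat.add (Nat.add (Nat.add (Nat.add (Nat.add (Nat.add C x39565) x26443) x39727) x39511) x39547) x39583) x39559) x39567) x19883)
    (Nat.add (Nat.add (Nat.add (Nat.add (Nat.add (Nat.add (Nat.add (Nat.add (Nat.add C x26445) x39729) x39513) x39549) x39585) x39561) x39573) x39565) x19885)
    (Nat.add (Nat.add (Nat.add (Nat.add (Nat.add (Nat.add C x26451) x39735) x39519) x39591) x39567) x19891)
    (Nat.add (Nat.add (Nat.add (Nat.add (Nat.add (Nat.add C (Nat.mul x39583 (nat_lit 2))) x26461) x39745) x39565) x39585) x19901)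
    (Nat.add (Nat.add (Nat.add (Nat.add (Nat.add (Nat.add C x26463) x39747) x39567) x39591) x39583) x19903)
    (Nat.add (Nat.add (Nat.add (Nat.add (Nat.add (Nat.add C (Nat.mul x39591 (nat_lit 2))) x26469) x39753) x39573) x39585) x19909)
    (Nat.add (Nat.add (Nat.add (Nat.add (Nat.add C (Nat.mul x39617 (nat_lit 4))) x26495) x40103) x39455) x39623)
    (Nat.add (Nat.add (Nat.add (Nat.add (Nat.add (Nat.add (Nat.add (Nat.add C (Nat.mul x39623 (nat_lit 3))) x26501) x40109) x39461) x39641) x39617) x39629) x39625)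
    (Nat.add (Nat.add (Nat.add (Nat.add (Nat.add (Nat.add (Nat.add (Nat.add C (Nat.mul x39625 (nat_lit 2))) x26503) x40111) x39463) x39643) x39631) x39623) x19943)
    (Nat.add (Nat.add (Nat.add (Nat.add (Nat.add (Nat.add C x26507) x40115) x39467) x39647) x39623) x39631)
    (Nat.add (Nat.add (Nat.add (Nat.add (Nat.add (Nat.add (Nat.add (Nat.add (Nat.add C x39631) x26509) x40117) x39469) x39649) x39625) x39629) x39633) x19949)
    (Nat.add (Nat.add (Nat.add (Nat.add (Nat.add (Nat.add C x26511) x40119) x39471) x39651) x39631) x19951)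
    (Nat.add (Nat.add (Nat.add (Nat.add (Nat.add (Nat.add (Nat.add (Nat.add C (Nat.mul x39641 (nat_lit 2))) x26519) x40127) x39479) x39695) x39623) x39647) x39643)
    (Nat.add (Nat.add (Nat.add (Nat.add (Nat.add (Nat.add (Nat.add (Nat.add C x26521) x40129) x39481) x39697) x39625) x39649) x39641) x19961)
    (Nat.add (Nat.add (Nat.add (Nat.add (Nat.add (Nat.add (Nat.add (Nat.add (Nat.add C x39647) x26525) x40133) x39485) x39701) x39629) x39665) x39641) x39649)
    (Nat.add (Nat.add (Nat.add (Nat.add (Nat.add (Nat.add (Nat.add (Nat.add (Nat.add (Nat.add (Nat.add (Nat.add C x39649) x26527) x40135) x39487) x39703) x39631) x39667) x39643) x39655) x39647) x39651) x19967)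
    (Nat.sub (Nat.add (Nat.add (Nat.add (Nat.add (Nat.add (Nat.add (Nat.add (Nat.add (Nat.add C x26529) x40137) x39489) x39705) x39633) x39669) x39657) x39649) x19969) x39651)
    (Nat.add (Nat.add (Nat.add (Nat.add (Nat.add (Nat.add (Nat.add (Nat.add C x26533) x40141) x39493) x39709) x39673) x39649) x39657) x19973)
    (Nat.add (Nat.add (Nat.add (Nat.add (Nat.add (Nat.add (Nat.add (Nat.add C x26535) x40143) x39495) x39711) x39675) x39651) x39655) x19975)
    (Nat.add (Nat.add (Nat.add (Nat.add (Nat.add (Nat.add C x26543) x40151) x39503) x39719) x39647) x39667)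
    (Nat.sub (Nat.add (Nat.add (Nat.add (Nat.add (Nat.add (Nat.add (Nat.add (Nat.add (Nat.add C x26545) x40153) x39505) x39721) x39649) x39673) x39665) x39669) x19985) x39667)
    (Nat.sub (Nat.add (Nat.add (Nat.add (Nat.add (Nat.add (Nat.add (Nat.add (Nat.add C x26547) x40155) x39507) x39723) x39651) x39675) x39667) x19987) (Nat.mul x39669 (nat_lit 4)))
    (Nat.add (Nat.add (Nat.add (Nat.add (Nat.add (Nat.add (Nat.add (Nat.add C x26551) x40159) x39511) x39727) x39655) x39667) x39675) x19991)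
    (Nat.sub (Nat.add (Nat.add (Nat.add (Nat.add (Nat.add (Nat.add (Nat.add (Nat.add (Nat.add C x26553) x40161) x39513) x39729) x39657) x39669) x39681) x39673) x19993) x39675)
    (Nat.add (Nat.add (Nat.add (Nat.add (Nat.add (Nat.add C x26559) x40167) x39519) x39735) x39675) x19999)
    (Nat.add (Nat.add (Nat.add (Nat.add (Nat.add (Nat.add (Nat.add (Nat.add C (Nat.mul x39695 (nat_lit 3))) x26573) x40181) x39533) x39857) x39641) x39701) x39697)
    (Nat.add (Nat.add (Nat.add (Nat.add (Nat.add (Nat.add (Nat.add (Nat.add (Nat.add C x39697) x26575) x40183) x39535) x39859) x39643) x39703) x39695) x20015)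
    (Nat.add (Nat.add (Nat.add (Nat.add (Nat.add (Nat.add (Nat.add (Nat.add (Nat.add C x39701) x26579) x40187) x39539) x39863) x39647) x39719) x39695) x39703)
    (Nat.add (Nat.add (Nat.add (Nat.add (Nat.add (Nat.add (Nat.add (Nat.add (Nat.add (Nat.add (Nat.add (Nat.add C x39703) x26581) x40189) x39541) x39865) x39649) x39721) x39697) x39709) x39701) x39705) x20021)
    (Nat.sub (Nat.add (Nat.add (Nat.add (Nat.add (Nat.add (Nat.add (Nat.add (Nat.add (Nat.add C x26583) x40191) x39543) x39867) x39651) x39723) x39711) x39703) x20023) x39705)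
    (Nat.sub (Nat.add (Nat.add (Nat.add (Nat.add (Nat.add (Nat.add (Nat.add (Nat.add (Nat.add C x26587) x40195) x39547) x39871) x39655) x39727) x39703) x39711) x20027) x39709)
    (Nat.sub (Nat.add (Nat.add (Nat.add (Nat.add (Nat.add (Nat.add (Nat.add (Nat.add (Nat.add C x26589) x40197) x39549) x39873) x39657) x39729) x39705) x39709) x20029) x39711)
    (Nat.add (Nat.add (Nat.add (Nat.add (Nat.add (Nat.add (Nat.add (Nat.add (Nat.add C (Nat.mul x39719 (nat_lit 2))) x26597) x40205) x39557) x39881) x39665) x39773) x39701) x39721)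
    (Nat.add (Nat.add (Nat.add (Nat.add (Nat.add (Nat.add (Nat.add (Nat.add (Nat.add (Nat.add (Nat.add (Nat.add C x39721) x26599) x40207) x39559) x39883) x39667) x39775) x39703) x39727) x39719) x39723) x20039)
    (Nat.sub (Nat.add (Nat.add (Nat.add (Nat.add (Nat.add (Nat.add (Nat.add (Nat.add (Nat.add (Nat.add C x26601) x40209) x39561) x39885) x39669) x39777) x39705) x39729) x39721) x20041) (Nat.mul x39723 (nat_lit 2)))
    (Nat.add (Nat.add (Nat.add (Nat.add (Nat.add (Nat.add (Nat.add (Nat.add (Nat.add (Nat.add (Nat.add (Nat.add C x39727) x26605) x40213) x39565) x39889) x39673) x39781) x39709) x39745) x39721) x39729) x20045)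
    (Nat.add (Nat.add (Nat.add (Nat.add (Nat.add (Nat.add (Nat.add (Nat.add (Nat.add (Nat.add (Nat.add (Nat.add C x26607) x40215) x39567) x39891) x39675) x39783) x39711) x39747) x39723) x39735) x39727) x20047)
    (Nat.add (Nat.add (Nat.add (Nat.add (Nat.add (Nat.add (Nat.add (Nat.add (Nat.add C x26613) x40221) x39573) x39897) x39681) x39789) x39753) x39729) x20053)
    (Nat.add (Nat.add (Nat.add (Nat.add (Nat.add (Nat.add (Nat.add (Nat.add (Nat.add C x39745) x26623) x40231) x39583) x39907) x39799) x39727) x39747) x20063)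
    (Nat.sub (Nat.add (Nat.add (Nat.add (Nat.add (Nat.add (Nat.add (Nat.add (Nat.add (Nat.add C x26625) x40233) x39585) x39909) x39801) x39729) x39753) x39745) x20065) x39747)
    (Nat.add (Nat.add (Nat.add (Nat.add (Nat.add (Nat.add (Nat.add (Nat.add (Nat.add C x39753) x26631) x40239) x39591) x39915) x39807) x39735) x39747) x20071)
    (Nat.add (Nat.add (Nat.add (Nat.add (Nat.add (Nat.add C (Nat.mul x39773 (nat_lit 2))) x26651) x40259) x39935) x39719) x39775)
    (Nat.add (Nat.add (Nat.add (Nat.add (Nat.add (Nat.add (Nat.add (Nat.add (Nat.add C x39775) x26653) x40261) x39937) x39721) x39781) x39773) x39777) x20093)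
    (Nat.sub (Nat.add (Nat.add (Nat.add (Nat.add (Nat.add (Nat.add (Nat.add C x26655) x40263) x39939) x39723) x39783) x39775) x20095) (Nat.mul x39777 (nat_lit 2)))
    (Nat.add (Nat.add (Nat.add (Nat.add (Nat.add (Nat.add (Nat.add (Nat.add C x26659) x40267) x39943) x39727) x39799) x39775) x39783) x20099)
    (Nat.sub (Nat.add (Nat.add (Nat.add (Nat.add (Nat.add (Nat.add (Nat.add (Nat.add (Nat.add C x26661) x40269) x39945) x39729) x39801) x39777) x39789) x39781) x20101) x39783)
    (Nat.sub (Nat.add (Nat.add (Nat.add (Nat.add (Nat.add (Nat.add (Nat.add C x26667) x40275) x39951) x39735) x39807) x39783) x20107) (Nat.mul x39789 (nat_lit 2)))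
    (Nat.add (Nat.add (Nat.add (Nat.add (Nat.add (Nat.add (Nat.add (Nat.add C (Nat.mul x39799 (nat_lit 2))) x26677) x40285) x39961) x39745) x39781) x39801) x20117)
    (Nat.add (Nat.add (Nat.add (Nat.add (Nat.add (Nat.add (Nat.add (Nat.add C x26679) x40287) x39963) x39747) x39783) x39807) x39799) x20119)
    (Nat.add (Nat.add (Nat.add (Nat.add (Nat.add (Nat.add (Nat.add (Nat.add (Nat.add C x39807) x26685) x40293) x39969) x39753) x39789) x39825) x39801) x20125)
    (Nat.add (Nat.add (Nat.add (Nat.add (Nat.add (Nat.add C (Nat.mul x39825 (nat_lit 2))) x26703) x40311) x39987) x39807) x20143)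
    (Nat.add (Nat.add (Nat.add (Nat.add (Nat.add (Nat.add C (Nat.mul x39857 (nat_lit 2))) x26735) x40343) x39695) x39863) x39859)
    (Nat.add (Nat.add (Nat.add (Nat.add (Nat.add (Nat.add C x26737) x40345) x39697) x39865) x39857) x20177)
    (Nat.add (Nat.add (Nat.add (Nat.add (Nat.add (Nat.add C x26741) x40349) x39701) x39881) x39857) x39865)
    (Nat.add (Nat.add (Nat.add (Nat.add (Nat.add (Nat.add (Nat.add (Nat.add (Nat.add C x26743) x40351) x39703) x39883) x39859) x39871) x39863) x39867) x20183)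
    (Nat.sub (Nat.add (Nat.add (Nat.add (Nat.add (Nat.add (Nat.add (Nat.add C x26745) x40353) x39705) x39885) x39873) x39865) x20185) (Nat.mul x39867 (nat_lit 2)))
    (Nat.sub (Nat.add (Nat.add (Nat.add (Nat.add (Nat.add (Nat.add (Nat.add C x26749) x40357) x39709) x39889) x39865) x39873) x20189) (Nat.mul x39871 (nat_lit 2)))
    (Nat.sub (Nat.add (Nat.add (Nat.add (Nat.add (Nat.add (Nat.add (Nat.add C x26751) x40359) x39711) x39891) x39867) x39871) x20191) (Nat.mul x39873 (nat_lit 2)))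
    (Nat.add (Nat.add (Nat.add (Nat.add (Nat.add (Nat.add C x26759) x40367) x39719) x39935) x39863) x39883)
    (Nat.sub (Nat.add (Nat.add (Nat.add (Nat.add (Nat.add (Nat.add (Nat.add (Nat.add (Nat.add C x26761) x40369) x39721) x39937) x39865) x39889) x39881) x39885) x20201) x39883)
    (Nat.sub (Nat.add (Nat.add (Nat.add (Nat.add (Nat.add (Nat.add (Nat.add (Nat.add C x26763) x40371) x39723) x39939) x39867) x39891) x39883) x20203) (Nat.mul x39885 (nat_lit 4)))
    (Nat.sub (Nat.add (Nat.add (Nat.add (Nat.add (Nat.add (Nat.add (Nat.add (Nat.add (Nat.add C x26767) x40375) x39727) x39943) x39871) x39907) x39883) x39891) x20207) x39889)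
    (Nat.sub (Nat.add (Nat.add (Nat.add (Nat.add (Nat.add (Nat.add (Nat.add (Nat.add (Nat.add (Nat.add C x26769) x40377) x39729) x39945) x39873) x39909) x39885) x39897) x39889) x20209) (Nat.mul x39891 (nat_lit 2)))
    (Nat.sub (Nat.add (Nat.add (Nat.add (Nat.add (Nat.add (Nat.add (Nat.add C x26775) x40383) x39735) x39951) x39915) x39891) x20215) (Nat.mul x39897 (nat_lit 2)))
    (Nat.sub (Nat.add (Nat.add (Nat.add (Nat.add (Nat.add (Nat.add (Nat.add C x26785) x40393) x39745) x39961) x39889) x39909) x20225) (Nat.mul x39907 (nat_lit 2)))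
    (Nat.sub (Nat.add (Nat.add (Nat.add (Nat.add (Nat.add (Nat.add (Nat.add (Nat.add C x26787) x40395) x39747) x39963) x39891) x39915) x39907) x20227) (Nat.mul x39909 (nat_lit 4)))
    (Nat.sub (Nat.add (Nat.add (Nat.add (Nat.add (Nat.add (Nat.add (Nat.add C x26793) x40401) x39753) x39969) x39897) x39909) x20233) (Nat.mul x39915 (nat_lit 2)))
    (Nat.add (Nat.add (Nat.add (Nat.add (Nat.add (Nat.add C (Nat.mul x39935 (nat_lit 2))) x26813) x40421) x39773) x39881) x39937)
    (Nat.add (Nat.add (Nat.add (Nat.add (Nat.add (Nat.add (Nat.add (Nat.add (Nat.add C x39937) x26815) x40423) x39775) x39883) x39943) x39935) x39939) x20255)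
    (Nat.sub (Nat.add (Nat.add (Nat.add (Nat.add (Nat.add (Nat.add (Nat.add C x26817) x40425) x39777) x39885) x39945) x39937) x20257) (Nat.mul x39939 (nat_lit 2)))
    (Nat.add (Nat.add (Nat.add (Nat.add (Nat.add (Nat.add (Nat.add (Nat.add C x26821) x40429) x39781) x39889) x39961) x39937) x39945) x20261)
    (Nat.sub (Nat.add (Nat.add (Nat.add (Nat.add (Nat.add (Nat.add (Nat.add (Nat.add (Nat.add C x26823) x40431) x39783) x39891) x39963) x39939) x39951) x39943) x20263) x39945)
    (Nat.sub (Nat.add (Nat.add (Nat.add (Nat.add (Nat.add (Nat.add (Nat.add C x26829) x40437) x39789) x39897) x39969) x39945) x20269) (Nat.mul x39951 (nat_lit 2)))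
    (Nat.add (Nat.add (Nat.add (Nat.add (Nat.add (Nat.add (Nat.add (Nat.add (Nat.add C x39961) x26839) x40447) x39799) x39907) x40015) x39943) x39963) x20279)
    (Nat.sub (Nat.add (Nat.add (Nat.add (Nat.add (Nat.add (Nat.add (Nat.add (Nat.add (Nat.add C x26841) x40449) x39801) x39909) x40017) x39945) x39969) x39961) x20281) x39963)
    (Nat.add (Nat.add (Nat.add (Nat.add (Nat.add (Nat.add (Nat.add (Nat.add (Nat.add C x26847) x40455) x39807) x39915) x40023) x39951) x39987) x39963) x20287)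
    (Nat.add (Nat.add (Nat.add (Nat.add (Nat.add (Nat.add C x26865) x40473) x39825) x40041) x39969) x20305)
    (Nat.add (Nat.add (Nat.add (Nat.add (Nat.add (Nat.add C (Nat.mul x40015 (nat_lit 2))) x26893) x40501) x39961) x40017) x20333)
    (Nat.add (Nat.add (Nat.add (Nat.add (Nat.add (Nat.add C x26895) x40503) x39963) x40023) x40015) x20335)
    (Nat.add (Nat.add (Nat.add (Nat.add (Nat.add (Nat.add C x26901) x40509) x39969) x40041) x40017) x20341)
    (Nat.add (Nat.add (Nat.add (Nat.add (Nat.add (Nat.add C (Nat.mul x40041 (nat_lit 2))) x26919) x40527) x39987) x40023) x20359)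
    (Nat.add (Nat.add (Nat.add (Nat.add (Nat.add C (Nat.mul x40103 (nat_lit 4))) x26981) x41561) x39617) x40109)
    (Nat.add (Nat.add (Nat.add (Nat.add (Nat.add (Nat.add (Nat.add (Nat.add C (Nat.mul x40109 (nat_lit 3))) x26987) x41567) x39623) x40127) x40103) x40115) x40111)
    (Nat.add (Nat.add (Nat.add (Nat.add (Nat.add (Nat.add (Nat.add (Nat.add C (Nat.mul x40111 (nat_lit 2))) x26989) x41569) x39625) x40129) x40117) x40109) x20429)
    (Nat.add (Nat.add (Nat.add (Nat.add (Nat.add (Nat.add C x26993) x41573) x39629) x40133) x40109) x40117)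
    (Nat.add (Nat.add (Nat.add (Nat.add (Nat.add (Nat.add (Nat.add (Nat.add (Nat.add C x40117) x26995) x41575) x39631) x40135) x40111) x40115) x40119) x20435)
    (Nat.add (Nat.add (Nat.add (Nat.add (Nat.add (Nat.add C x26997) x41577) x39633) x40137) x40117) x20437)
    (Nat.add (Nat.add (Nat.add (Nat.add (Nat.add (Nat.add (Nat.add (Nat.add C (Nat.mul x40127 (nat_lit 2))) x27005) x41585) x39641) x40181) x40109) x40133) x40129)
    (Nat.add (Nat.add (Nat.add (Nat.add (Nat.add (Nat.add (Nat.add (Nat.add C x27007) x41587) x39643) x40183) x40111) x40135) x40127) x20447)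
    (Nat.add (Nat.add (Nat.add (Nat.add (Nat.add (Nat.add (Nat.add (Nat.add (Nat.add C x40133) x27011) x41591) x39647) x40187) x40115) x40151) x40127) x40135)
    (Nat.add (Nat.add (Nat.add (Nat.add (Nat.add (Nat.add (Nat.add (Nat.add (Nat.add (Nat.add (Nat.add (Nat.add C x40135) x27013) x41593) x39649) x40189) x40117) x40153) x40129) x40141) x40133) x40137) x20453)
    (Nat.sub (Nat.add (Nat.add (Nat.add (Nat.add (Nat.add (Nat.add (Nat.add (Nat.add (Nat.add C x27015) x41595) x39651) x40191) x40119) x40155) x40143) x40135) x20455) x40137)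
    (Nat.add (Nat.add (Nat.add (Nat.add (Nat.add (Nat.add (Nat.add (Nat.add C x27019) x41599) x39655) x40195) x40159) x40135) x40143) x20459)
    (Nat.add (Nat.add (Nat.add (Nat.add (Nat.add (Nat.add (Nat.add (Nat.add C x27021) x41601) x39657) x40197) x40161) x40137) x40141) x20461)
    (Nat.add (Nat.add (Nat.add (Nat.add (Nat.add (Nat.add C x27029) x41609) x39665) x40205) x40133) x40153)
    (Nat.sub (Nat.add (Nat.add (Nat.add (Nat.add (Nat.add (Nat.add (Nat.add (Nat.add (Nat.add C x27031) x41611) x39667) x40207) x40135) x40159) x40151) x40155) x20471) x40153)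
    (Nat.sub (Nat.add (Nat.add (Nat.add (Nat.add (Nat.add (Nat.add (Nat.add (Nat.add C x27033) x41613) x39669) x40209) x40137) x40161) x40153) x20473) (Nat.mul x40155 (nat_lit 4)))
    (Nat.add (Nat.add (Nat.add (Nat.add (Nat.add (Nat.add (Nat.add (Nat.add C x27037) x41617) x39673) x40213) x40141) x40153) x40161) x20477)
    (Nat.sub (Nat.add (Nat.add (Nat.add (Nat.add (Nat.add (Nat.add (Nat.add (Nat.add (Nat.add C x27039) x41619) x39675) x40215) x40143) x40155) x40167) x40159) x20479) x40161)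
    (Nat.add (Nat.add (Nat.add (Nat.add (Nat.add (Nat.add C x27045) x41625) x39681) x40221) x40161) x20485)
    (Nat.add (Nat.add (Nat.add (Nat.add (Nat.add (Nat.add (Nat.add (Nat.add C (Nat.mul x40181 (nat_lit 2))) x27059) x41639) x39695) x40343) x40127) x40187) x40183)
    (Nat.add (Nat.add (Nat.add (Nat.add (Nat.add (Nat.add (Nat.add (Nat.add C x27061) x41641) x39697) x40345) x40129) x40189) x40181) x20501)
    (Nat.add (Nat.add (Nat.add (Nat.add (Nat.add (Nat.add (Nat.add (Nat.add C x27065) x41645) x39701) x40349) x40133) x40205) x40181) x40189)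
    (Nat.add (Nat.add (Nat.add (Nat.add (Nat.add (Nat.add (Nat.add (Nat.add (Nat.add (Nat.add (Nat.add C x27067) x41647) x39703) x40351) x40135) x40207) x40183) x40195) x40187) x40191) x20507)
    (Nat.sub (Nat.add (Nat.add (Nat.add (Nat.add (Nat.add (Nat.add (Nat.add (Nat.add (Nat.add C x27069) x41649) x39705) x40353) x40137) x40209) x40197) x40189) x20509) (Nat.mul x40191 (nat_lit 2)))
    (Nat.sub (Nat.add (Nat.add (Nat.add (Nat.add (Nat.add (Nat.add (Nat.add (Nat.add (Nat.add C x27073) x41653) x39709) x40357) x40141) x40213) x40189) x40197) x20513) (Nat.mul x40195 (nat_lit 2)))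
    (Nat.sub (Nat.add (Nat.add (Nat.add (Nat.add (Nat.add (Nat.add (Nat.add (Nat.add (Nat.add C x27075) x41655) x39711) x40359) x40143) x40215) x40191) x40195) x20515) (Nat.mul x40197 (nat_lit 2)))
    (Nat.add (Nat.add (Nat.add (Nat.add (Nat.add (Nat.add (Nat.add (Nat.add (Nat.add C x40205) x27083) x41663) x39719) x40367) x40151) x40259) x40187) x40207)
    (Nat.add (Nat.add (Nat.add (Nat.add (Nat.add (Nat.add (Nat.add (Nat.add (Nat.add (Nat.add (Nat.add C x27085) x41665) x39721) x40369) x40153) x40261) x40189) x40213) x40205) x40209) x20525)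
    (Nat.sub (Nat.add (Nat.add (Nat.add (Nat.add (Nat.add (Nat.add (Nat.add (Nat.add (Nat.add (Nat.add C x27087) x41667) x39723) x40371) x40155) x40263) x40191) x40215) x40207) x20527) (Nat.mul x40209 (nat_lit 3)))
    (Nat.add (Nat.add (Nat.add (Nat.add (Nat.add (Nat.add (Nat.add (Nat.add (Nat.add (Nat.add (Nat.add C x27091) x41671) x39727) x40375) x40159) x40267) x40195) x40231) x40207) x40215) x20531)
    (Nat.sub (Nat.add (Nat.add (Nat.add (Nat.add (Nat.add (Nat.add (Nat.add (Nat.add (Nat.add (Nat.add (Nat.add (Nat.add C x27093) x41673) x39729) x40377) x40161) x40269) x40197) x40233) x40209) x40221) x40213) x20533) x40215)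
    (Nat.sub (Nat.add (Nat.add (Nat.add (Nat.add (Nat.add (Nat.add (Nat.add (Nat.add (Nat.add C x27099) x41679) x39735) x40383) x40167) x40275) x40239) x40215) x20539) x40221)
    (Nat.add (Nat.add (Nat.add (Nat.add (Nat.add (Nat.add (Nat.add (Nat.add C x27109) x41689) x39745) x40393) x40285) x40213) x40233) x20549)
    (Nat.sub (Nat.add (Nat.add (Nat.add (Nat.add (Nat.add (Nat.add (Nat.add (Nat.add (Nat.add C x27111) x41691) x39747) x40395) x40287) x40215) x40239) x40231) x20551) (Nat.mul x40233 (nat_lit 2)))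
    (Nat.add (Nat.add (Nat.add (Nat.add (Nat.add (Nat.add (Nat.add (Nat.add C x27117) x41697) x39753) x40401) x40293) x40221) x40233) x20557)
    (Nat.add (Nat.add (Nat.add (Nat.add (Nat.add (Nat.add C x27137) x41717) x39773) x40421) x40205) x40261)
    (Nat.sub (Nat.add (Nat.add (Nat.add (Nat.add (Nat.add (Nat.add (Nat.add (Nat.add (Nat.add C x27139) x41719) x39775) x40423) x40207) x40267) x40259) x40263) x20579) x40261)
    (Nat.sub (Nat.add (Nat.add (Nat.add (Nat.add (Nat.add (Nat.add (Nat.add (Nat.add C x27141) x41721) x39777) x40425) x40209) x40269) x40261) x20581) (Nat.mul x40263 (nat_lit 4)))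
    (Nat.sub (Nat.add (Nat.add (Nat.add (Nat.add (Nat.add (Nat.add (Nat.add (Nat.add (Nat.add C x27145) x41725) x39781) x40429) x40213) x40285) x40261) x40269) x20585) (Nat.mul x40267 (nat_lit 2)))
    (Nat.sub (Nat.add (Nat.add (Nat.add (Nat.add (Nat.add (Nat.add (Nat.add (Nat.add (Nat.add (Nat.add C x27147) x41727) x39783) x40431) x40215) x40287) x40263) x40275) x40267) x20587) (Nat.mul x40269 (nat_lit 3)))
    (Nat.sub (Nat.add (Nat.add (Nat.add (Nat.add (Nat.add (Nat.add (Nat.add (Nat.add C x27153) x41733) x39789) x40437) x40221) x40293) x40269) x20593) (Nat.mul x40275 (nat_lit 4)))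
    (Nat.add (Nat.add (Nat.add (Nat.add (Nat.add (Nat.add (Nat.add (Nat.add C x27163) x41743) x39799) x40447) x40231) x40267) x40287) x20603)
    (Nat.sub (Nat.add (Nat.add (Nat.add (Nat.add (Nat.add (Nat.add (Nat.add (Nat.add (Nat.add C x27165) x41745) x39801) x40449) x40233) x40269) x40293) x40285) x20605) (Nat.mul x40287 (nat_lit 2)))
    (Nat.sub (Nat.add (Nat.add (Nat.add (Nat.add (Nat.add (Nat.add (Nat.add (Nat.add (Nat.add C x27171) x41751) x39807) x40455) x40239) x40275) x40311) x40287) x20611) x40293)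
    (Nat.add (Nat.add (Nat.add (Nat.add (Nat.add (Nat.add C x27189) x41769) x39825) x40473) x40293) x20629)
    (Nat.add (Nat.add (Nat.add (Nat.add (Nat.add (Nat.add (Nat.add (Nat.add C (Nat.mul x40343 (nat_lit 3))) x27221) x41801) x39857) x40829) x40181) x40349) x40345)
    (Nat.add (Nat.add (Nat.add (Nat.add (Nat.add (Nat.add (Nat.add (Nat.add (Nat.add C x40345) x27223) x41803) x39859) x40831) x40183) x40351) x40343) x20663)
    (Nat.add (Nat.add (Nat.add (Nat.add (Nat.add (Nat.add (Nat.add (Nat.add (Nat.add C x40349) x27227) x41807) x39863) x40835) x40187) x40367) x40343) x40351)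
    (Nat.add (Nat.add (Nat.add (Nat.add (Nat.add (Nat.add (Nat.add (Nat.add (Nat.add (Nat.add (Nat.add (Nat.add C x40351) x27229) x41809) x39865) x40837) x40189) x40369) x40345) x40357) x40349) x40353) x20669)
    (Nat.sub (Nat.add (Nat.add (Nat.add (Nat.add (Nat.add (Nat.add (Nat.add (Nat.add (Nat.add C x27231) x41811) x39867) x40839) x40191) x40371) x40359) x40351) x20671) x40353)
    (Nat.sub (Nat.add (Nat.add (Nat.add (Nat.add (Nat.add (Nat.add (Nat.add (Nat.add (Nat.add C x27235) x41815) x39871) x40843) x40195) x40375) x40351) x40359) x20675) x40357)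
    (Nat.sub (Nat.add (Nat.add (Nat.add (Nat.add (Nat.add (Nat.add (Nat.add (Nat.add (Nat.add C x27237) x41817) x39873) x40845) x40197) x40377) x40353) x40357) x20677) x40359)
    (Nat.add (Nat.add (Nat.add (Nat.add (Nat.add (Nat.add (Nat.add (Nat.add (Nat.add C x40367) x27245) x41825) x39881) x40853) x40205) x40421) x40349) x40369)
    (Nat.add (Nat.add (Nat.add (Nat.add (Nat.add (Nat.add (Nat.add (Nat.add (Nat.add (Nat.add (Nat.add C x27247) x41827) x39883) x40855) x40207) x40423) x40351) x40375) x40367) x40371) x20687)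
    (Nat.sub (Nat.add (Nat.add (Nat.add (Nat.add (Nat.add (Nat.add (Nat.add (Nat.add (Nat.add (Nat.add C x27249) x41829) x39885) x40857) x40209) x40425) x40353) x40377) x40369) x20689) (Nat.mul x40371 (nat_lit 3)))
    (Nat.add (Nat.add (Nat.add (Nat.add (Nat.add (Nat.add (Nat.add (Nat.add (Nat.add (Nat.add (Nat.add C x27253) x41833) x39889) x40861) x40213) x40429) x40357) x40393) x40369) x40377) x20693)
    (Nat.sub (Nat.add (Nat.add (Nat.add (Nat.add (Nat.add (Nat.add (Nat.add (Nat.add (Nat.add (Nat.add (Nat.add (Nat.add C x27255) x41835) x39891) x40863) x40215) x40431) x40359) x40395) x40371) x40383) x40375) x20695) x40377)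
    (Nat.sub (Nat.add (Nat.add (Nat.add (Nat.add (Nat.add (Nat.add (Nat.add (Nat.add (Nat.add C x27261) x41841) x39897) x40869) x40221) x40437) x40401) x40377) x20701) x40383)
    (Nat.sub (Nat.add (Nat.add (Nat.add (Nat.add (Nat.add (Nat.add (Nat.add (Nat.add (Nat.add C x27271) x41851) x39907) x40879) x40231) x40447) x40375) x40395) x20711) x40393)
    (Nat.sub (Nat.add (Nat.add (Nat.add (Nat.add (Nat.add (Nat.add (Nat.add (Nat.add (Nat.add (Nat.add C x27273) x41853) x39909) x40881) x40233) x40449) x40377) x40401) x40393) x20713) (Nat.mul x40395 (nat_lit 3)))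
    (Nat.sub (Nat.add (Nat.add (Nat.add (Nat.add (Nat.add (Nat.add (Nat.add (Nat.add (Nat.add C x27279) x41859) x39915) x40887) x40239) x40455) x40383) x40395) x20719) x40401)
    (Nat.add (Nat.add (Nat.add (Nat.add (Nat.add (Nat.add (Nat.add (Nat.add (Nat.add C (Nat.mul x40421 (nat_lit 2))) x27299) x41879) x39935) x40907) x40259) x40583) x40367) x40423)
    (Nat.add (Nat.add (Nat.add (Nat.add (Nat.add (Nat.add (Nat.add (Nat.add (Nat.add (Nat.add (Nat.add (Nat.add C x40423) x27301) x41881) x39937) x40909) x40261) x40585) x40369) x40429) x40421) x40425) x20741)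
    (Nat.sub (Nat.add (Nat.add (Nat.add (Nat.add (Nat.add (Nat.add (Nat.add (Nat.add (Nat.add (Nat.add C x27303) x41883) x39939) x40911) x40263) x40587) x40371) x40431) x40423) x20743) (Nat.mul x40425 (nat_lit 2)))
    (Nat.add (Nat.add (Nat.add (Nat.add (Nat.add (Nat.add (Nat.add (Nat.add (Nat.add (Nat.add (Nat.add C x27307) x41887) x39943) x40915) x40267) x40591) x40375) x40447) x40423) x40431) x20747)
    (Nat.sub (Nat.add (Nat.add (Nat.add (Nat.add (Nat.add (Nat.add (Nat.add (Nat.add (Nat.add (Nat.add (Nat.add (Nat.add C x27309) x41889) x39945) x40917) x40269) x40593) x40377) x40449) x40425) x40437) x40429) x20749) x40431)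
    (Nat.sub (Nat.add (Nat.add (Nat.add (Nat.add (Nat.add (Nat.add (Nat.add (Nat.add (Nat.add (Nat.add C x27315) x41895) x39951) x40923) x40275) x40599) x40383) x40455) x40431) x20755) (Nat.mul x40437 (nat_lit 2)))
    (Nat.add (Nat.add (Nat.add (Nat.add (Nat.add (Nat.add (Nat.add (Nat.add (Nat.add (Nat.add (Nat.add (Nat.add C x40447) x27325) x41905) x39961) x40933) x40285) x40609) x40393) x40501) x40429) x40449) x20765)
    (Nat.sub (Nat.add (Nat.add (Nat.add (Nat.add (Nat.add (Nat.add (Nat.add (Nat.add (Nat.add (Nat.add (Nat.add (Nat.add C x27327) x41907) x39963) x40935) x40287) x40611) x40395) x40503) x40431) x40455) x40447) x20767) x40449)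
    (Nat.add (Nat.add (Nat.add (Nat.add (Nat.add (Nat.add (Nat.add (Nat.add (Nat.add (Nat.add (Nat.add (Nat.add C x27333) x41913) x39969) x40941) x40293) x40617) x40401) x40509) x40437) x40473) x40449) x20773)
    (Nat.add (Nat.add (Nat.add (Nat.add (Nat.add (Nat.add (Nat.add (Nat.add (Nat.add C x27351) x41931) x39987) x40959) x40311) x40635) x40527) x40455) x20791)
    (Nat.add (Nat.add (Nat.add (Nat.add (Nat.add (Nat.add (Nat.add (Nat.add (Nat.add C x40501) x27379) x41959) x40015) x40987) x40663) x40447) x40503) x20819)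
    (Nat.sub (Nat.add (Nat.add (Nat.add (Nat.add (Nat.add (Nat.add (Nat.add (Nat.add (Nat.add C x27381) x41961) x40017) x40989) x40665) x40449) x40509) x40501) x20821) x40503)
    (Nat.sub (Nat.add (Nat.add (Nat.add (Nat.add (Nat.add (Nat.add (Nat.add (Nat.add (Nat.add C x27387) x41967) x40023) x40995) x40671) x40455) x40527) x40503) x20827) x40509)
    (Nat.add (Nat.add (Nat.add (Nat.add (Nat.add (Nat.add (Nat.add (Nat.add (Nat.add C x40527) x27405) x41985) x40041) x41013) x40689) x40473) x40509) x20845)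
    (Nat.add (Nat.add (Nat.add (Nat.add (Nat.add (Nat.add C (Nat.mul x40583 (nat_lit 2))) x27461) x42041) x41069) x40421) x40585)
    (Nat.add (Nat.add (Nat.add (Nat.add (Nat.add (Nat.add (Nat.add (Nat.add (Nat.add C x40585) x27463) x42043) x41071) x40423) x40591) x40583) x40587) x20903)
    (Nat.sub (Nat.add (Nat.add (Nat.add (Nat.add (Nat.add (Nat.add (Nat.add C x27465) x42045) x41073) x40425) x40593) x40585) x20905) (Nat.mul x40587 (nat_lit 2)))
    (Nat.add (Nat.add (Nat.add (Nat.add (Nat.add (Nat.add (Nat.add (Nat.add C x27469) x42049) x41077) x40429) x40609) x40585) x40593) x20909)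
    (Nat.sub (Nat.add (Nat.add (Nat.add (Nat.add (Nat.add (Nat.add (Nat.add (Nat.add (Nat.add C x27471) x42051) x41079) x40431) x40611) x40587) x40599) x40591) x20911) x40593)
    (Nat.sub (Nat.add (Nat.add (Nat.add (Nat.add (Nat.add (Nat.add (Nat.add C x27477) x42057) x41085) x40437) x40617) x40593) x20917) (Nat.mul x40599 (nat_lit 2)))
    (Nat.add (Nat.add (Nat.add (Nat.add (Nat.add (Nat.add (Nat.add (Nat.add C x27487) x42067) x41095) x40447) x40663) x40591) x40611) x20927)
    (Nat.sub (Nat.add (Nat.add (Nat.add (Nat.add (Nat.add (Nat.add (Nat.add (Nat.add (Nat.add C x27489) x42069) x41097) x40449) x40665) x40593) x40617) x40609) x20929) (Nat.mul x40611 (nat_lit 2)))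
    (Nat.sub (Nat.add (Nat.add (Nat.add (Nat.add (Nat.add (Nat.add (Nat.add (Nat.add (Nat.add C x27495) x42075) x41103) x40455) x40671) x40599) x40635) x40611) x20935) x40617)
    (Nat.sub (Nat.add (Nat.add (Nat.add (Nat.add (Nat.add (Nat.add (Nat.add C x27513) x42093) x41121) x40473) x40689) x40617) x20953) (Nat.mul x40635 (nat_lit 2)))
    (Nat.add (Nat.add (Nat.add (Nat.add (Nat.add (Nat.add (Nat.add (Nat.add C (Nat.mul x40663 (nat_lit 2))) x27541) x42121) x41149) x40501) x40609) x40665) x20981)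
    (Nat.add (Nat.add (Nat.add (Nat.add (Nat.add (Nat.add (Nat.add (Nat.add C x27543) x42123) x41151) x40503) x40611) x40671) x40663) x20983)
    (Nat.add (Nat.add (Nat.add (Nat.add (Nat.add (Nat.add (Nat.add (Nat.add C x27549) x42129) x41157) x40509) x40617) x40689) x40665) x20989)
    (Nat.add (Nat.add (Nat.add (Nat.add (Nat.add (Nat.add (Nat.add (Nat.add (Nat.add C x40689) x27567) x42147) x41175) x40527) x40635) x40743) x40671) x21007)
    (Nat.add (Nat.add (Nat.add (Nat.add (Nat.add (Nat.add C (Nat.mul x40743 (nat_lit 2))) x27621) x42201) x41229) x40689) x21061)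
    (Nat.add (Nat.add (Nat.add (Nat.add (Nat.add (Nat.add C (Nat.mul x40829 (nat_lit 2))) x27707) x42287) x40343) x40835) x40831)
    (Nat.add (Nat.add (Nat.add (Nat.add (Nat.add (Nat.add C x27709) x42289) x40345) x40837) x40829) x21149)
    (Nat.add (Nat.add (Nat.add (Nat.add (Nat.add (Nat.add C x27713) x42293) x40349) x40853) x40829) x40837)
    (Nat.add (Nat.add (Nat.add (Nat.add (Nat.add (Nat.add (Nat.add (Nat.add (Nat.add C x27715) x42295) x40351) x40855) x40831) x40843) x40835) x40839) x21155)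
    (Nat.sub (Nat.add (Nat.add (Nat.add (Nat.add (Nat.add (Nat.add (Nat.add C x27717) x42297) x40353) x40857) x40845) x40837) x21157) (Nat.mul x40839 (nat_lit 2)))
    (Nat.sub (Nat.add (Nat.add (Nat.add (Nat.add (Nat.add (Nat.add (Nat.add C x27721) x42301) x40357) x40861) x40837) x40845) x21161) (Nat.mul x40843 (nat_lit 2)))
    (Nat.sub (Nat.add (Nat.add (Nat.add (Nat.add (Nat.add (Nat.add (Nat.add C x27723) x42303) x40359) x40863) x40839) x40843) x21163) (Nat.mul x40845 (nat_lit 2)))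
    (Nat.add (Nat.add (Nat.add (Nat.add (Nat.add (Nat.add C x27731) x42311) x40367) x40907) x40835) x40855)
    (Nat.sub (Nat.add (Nat.add (Nat.add (Nat.add (Nat.add (Nat.add (Nat.add (Nat.add (Nat.add C x27733) x42313) x40369) x40909) x40837) x40861) x40853) x40857) x21173) x40855)
    (Nat.sub (Nat.add (Nat.add (Nat.add (Nat.add (Nat.add (Nat.add (Nat.add (Nat.add C x27735) x42315) x40371) x40911) x40839) x40863) x40855) x21175) (Nat.mul x40857 (nat_lit 4)))
    (Nat.sub (Nat.add (Nat.add (Nat.add (Nat.add (Nat.add (Nat.add (Nat.add (Nat.add (Nat.add C x27739) x42319) x40375) x40915) x40843) x40879) x40855) x40863) x21179) x40861)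
    (Nat.sub (Nat.add (Nat.add (Nat.add (Nat.add (Nat.add (Nat.add (Nat.add (Nat.add (Nat.add (Nat.add C x27741) x42321) x40377) x40917) x40845) x40881) x40857) x40869) x40861) x21181) (Nat.mul x40863 (nat_lit 2)))
    (Nat.sub (Nat.add (Nat.add (Nat.add (Nat.add (Nat.add (Nat.add (Nat.add C x27747) x42327) x40383) x40923) x40887) x40863) x21187) (Nat.mul x40869 (nat_lit 2)))
    (Nat.sub (Nat.add (Nat.add (Nat.add (Nat.add (Nat.add (Nat.add (Nat.add C x27757) x42337) x40393) x40933) x40861) x40881) x21197) (Nat.mul x40879 (nat_lit 2)))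
    (Nat.sub (Nat.add (Nat.add (Nat.add (Nat.add (Nat.add (Nat.add (Nat.add (Nat.add C x27759) x42339) x40395) x40935) x40863) x40887) x40879) x21199) (Nat.mul x40881 (nat_lit 4)))
    (Nat.sub (Nat.add (Nat.add (Nat.add (Nat.add (Nat.add (Nat.add (Nat.add C x27765) x42345) x40401) x40941) x40869) x40881) x21205) (Nat.mul x40887 (nat_lit 2)))
    (Nat.add (Nat.add (Nat.add (Nat.add (Nat.add (Nat.add C x27785) x42365) x40421) x41069) x40853) x40909)
    (Nat.sub (Nat.add (Nat.add (Nat.add (Nat.add (Nat.add (Nat.add (Nat.add (Nat.add (Nat.add C x27787) x42367) x40423) x41071) x40855) x40915) x40907) x40911) x21227) x40909)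
    (Nat.sub (Nat.add (Nat.add (Nat.add (Nat.add (Nat.add (Nat.add (Nat.add (Nat.add C x27789) x42369) x40425) x41073) x40857) x40917) x40909) x21229) (Nat.mul x40911 (nat_lit 4)))
    (Nat.sub (Nat.add (Nat.add (Nat.add (Nat.add (Nat.add (Nat.add (Nat.add (Nat.add (Nat.add C x27793) x42373) x40429) x41077) x40861) x40933) x40909) x40917) x21233) (Nat.mul x40915 (nat_lit 2)))
    (Nat.sub (Nat.add (Nat.add (Nat.add (Nat.add (Nat.add (Nat.add (Nat.add (Nat.add (Nat.add (Nat.add C x27795) x42375) x40431) x41079) x40863) x40935) x40911) x40923) x40915) x21235) (Nat.mul x40917 (nat_lit 3)))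
    (Nat.sub (Nat.add (Nat.add (Nat.add (Nat.add (Nat.add (Nat.add (Nat.add (Nat.add C x27801) x42381) x40437) x41085) x40869) x40941) x40917) x21241) (Nat.mul x40923 (nat_lit 4)))
    (Nat.sub (Nat.add (Nat.add (Nat.add (Nat.add (Nat.add (Nat.add (Nat.add (Nat.add (Nat.add C x27811) x42391) x40447) x41095) x40879) x40987) x40915) x40935) x21251) x40933)
    (Nat.sub (Nat.add (Nat.add (Nat.add (Nat.add (Nat.add (Nat.add (Nat.add (Nat.add (Nat.add (Nat.add C x27813) x42393) x40449) x41097) x40881) x40989) x40917) x40941) x40933) x21253) (Nat.mul x40935 (nat_lit 3)))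
    (Nat.sub (Nat.add (Nat.add (Nat.add (Nat.add (Nat.add (Nat.add (Nat.add (Nat.add (Nat.add (Nat.add C x27819) x42399) x40455) x41103) x40887) x40995) x40923) x40959) x40935) x21259) (Nat.mul x40941 (nat_lit 2)))
    (Nat.sub (Nat.add (Nat.add (Nat.add (Nat.add (Nat.add (Nat.add (Nat.add C x27837) x42417) x40473) x41121) x41013) x40941) x21277) (Nat.mul x40959 (nat_lit 2)))
    (Nat.sub (Nat.add (Nat.add (Nat.add (Nat.add (Nat.add (Nat.add (Nat.add C x27865) x42445) x40501) x41149) x40933) x40989) x21305) (Nat.mul x40987 (nat_lit 2)))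
    (Nat.sub (Nat.add (Nat.add (Nat.add (Nat.add (Nat.add (Nat.add (Nat.add (Nat.add C x27867) x42447) x40503) x41151) x40935) x40995) x40987) x21307) (Nat.mul x40989 (nat_lit 4)))
    (Nat.sub (Nat.add (Nat.add (Nat.add (Nat.add (Nat.add (Nat.add (Nat.add (Nat.add C x27873) x42453) x40509) x41157) x40941) x41013) x40989) x21313) (Nat.mul x40995 (nat_lit 4)))
    (Nat.sub (Nat.add (Nat.add (Nat.add (Nat.add (Nat.add (Nat.add (Nat.add C x27891) x42471) x40527) x41175) x40959) x40995) x21331) (Nat.mul x41013 (nat_lit 2)))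
    (Nat.add (Nat.add (Nat.add (Nat.add (Nat.add (Nat.add C (Nat.mul x41069 (nat_lit 2))) x27947) x42527) x40583) x40907) x41071)
    (Nat.add (Nat.add (Nat.add (Nat.add (Nat.add (Nat.add (Nat.add (Nat.add (Nat.add C x41071) x27949) x42529) x40585) x40909) x41077) x41069) x41073) x21389)
    (Nat.sub (Nat.add (Nat.add (Nat.add (Nat.add (Nat.add (Nat.add (Nat.add C x27951) x42531) x40587) x40911) x41079) x41071) x21391) (Nat.mul x41073 (nat_lit 2)))
    (Nat.add (Nat.add (Nat.add (Nat.add (Nat.add (Nat.add (Nat.add (Nat.add C x27955) x42535) x40591) x40915) x41095) x41071) x41079) x21395)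
    (Nat.sub (Nat.add (Nat.add (Nat.add (Nat.add (Nat.add (Nat.add (Nat.add (Nat.add (Nat.add C x27957) x42537) x40593) x40917) x41097) x41073) x41085) x41077) x21397) x41079)
    (Nat.sub (Nat.add (Nat.add (Nat.add (Nat.add (Nat.add (Nat.add (Nat.add C x27963) x42543) x40599) x40923) x41103) x41079) x21403) (Nat.mul x41085 (nat_lit 2)))
    (Nat.add (Nat.add (Nat.add (Nat.add (Nat.add (Nat.add (Nat.add (Nat.add C x27973) x42553) x40609) x40933) x41149) x41077) x41097) x21413)
    (Nat.sub (Nat.add (Nat.add (Nat.add (Nat.add (Nat.add (Nat.add (Nat.add (Nat.add (Nat.add C x27975) x42555) x40611) x40935) x41151) x41079) x41103) x41095) x21415) (Nat.mul x41097 (nat_lit 2)))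
    (Nat.sub (Nat.add (Nat.add (Nat.add (Nat.add (Nat.add (Nat.add (Nat.add (Nat.add (Nat.add C x27981) x42561) x40617) x40941) x41157) x41085) x41121) x41097) x21421) x41103)
    (Nat.sub (Nat.add (Nat.add (Nat.add (Nat.add (Nat.add (Nat.add (Nat.add C x27999) x42579) x40635) x40959) x41175) x41103) x21439) (Nat.mul x41121 (nat_lit 2)))
    (Nat.add (Nat.add (Nat.add (Nat.add (Nat.add (Nat.add (Nat.add (Nat.add (Nat.add C x41149) x28027) x42607) x40663) x40987) x41311) x41095) x41151) x21467)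
    (Nat.sub (Nat.add (Nat.add (Nat.add (Nat.add (Nat.add (Nat.add (Nat.add (Nat.add (Nat.add C x28029) x42609) x40665) x40989) x41313) x41097) x41157) x41149) x21469) x41151)
    (Nat.sub (Nat.add (Nat.add (Nat.add (Nat.add (Nat.add (Nat.add (Nat.add (Nat.add (Nat.add C x28035) x42615) x40671) x40995) x41319) x41103) x41175) x41151) x21475) x41157)
    (Nat.add (Nat.add (Nat.add (Nat.add (Nat.add (Nat.add (Nat.add (Nat.add (Nat.add C x28053) x42633) x40689) x41013) x41337) x41121) x41229) x41157) x21493)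
    (Nat.add (Nat.add (Nat.add (Nat.add (Nat.add (Nat.add C x28107) x42687) x40743) x41391) x41175) x21547)
    (Nat.add (Nat.add (Nat.add (Nat.add (Nat.add (Nat.add C (Nat.mul x41311 (nat_lit 2))) x28189) x42769) x41149) x41313) x21629)
    (Nat.add (Nat.add (Nat.add (Nat.add (Nat.add (Nat.add C x28191) x42771) x41151) x41319) x41311) x21631)
    (Nat.add (Nat.add (Nat.add (Nat.add (Nat.add (Nat.add C x28197) x42777) x41157) x41337) x41313) x21637)
    (Nat.add (Nat.add (Nat.add (Nat.add (Nat.add (Nat.add C x28215) x42795) x41175) x41391) x41319) x21655)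
    (Nat.add (Nat.add (Nat.add (Nat.add (Nat.add (Nat.add C (Nat.mul x41391 (nat_lit 2))) x28269) x42849) x41229) x41337) x21709)
    (Nat.add (Nat.add (Nat.add (Nat.add (Nat.add C (Nat.mul x41561 (nat_lit 4))) x28439) x45935) x40103) x41567)
    (Nat.add (Nat.add (Nat.add (Nat.add (Nat.add (Nat.add (Nat.add (Nat.add C (Nat.mul x41567 (nat_lit 3))) x28445) x45941) x40109) x41585) x41561) x41573) x41569)
    (Nat.add (Nat.add (Nat.add (Nat.add (Nat.add (Nat.add (Nat.add (Nat.add C (Nat.mul x41569 (nat_lit 2))) x28447) x45943) x40111) x41587) x41575) x41567) x21887)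
    (Nat.add (Nat.add (Nat.add (Nat.add (Nat.add (Nat.add C x28451) x45947) x40115) x41591) x41567) x41575)
    (Nat.add (Nat.add (Nat.add (Nat.add (Nat.add (Nat.add (Nat.add (Nat.add (Nat.add C x41575) x28453) x45949) x40117) x41593) x41569) x41573) x41577) x21893)
    (Nat.add (Nat.add (Nat.add (Nat.add (Nat.add (Nat.add C x28455) x45951) x40119) x41595) x41575) x21895)
    (Nat.add (Nat.add (Nat.add (Nat.add (Nat.add (Nat.add (Nat.add (Nat.add C (Nat.mul x41585 (nat_lit 2))) x28463) x45959) x40127) x41639) x41567) x41591) x41587)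
    (Nat.add (Nat.add (Nat.add (Nat.add (Nat.add (Nat.add (Nat.add (Nat.add C x28465) x45961) x40129) x41641) x41569) x41593) x41585) x21905)
    (Nat.add (Nat.add (Nat.add (Nat.add (Nat.add (Nat.add (Nat.add (Nat.add (Nat.add C x41591) x28469) x45965) x40133) x41645) x41573) x41609) x41585) x41593)
    (Nat.add (Nat.add (Nat.add (Nat.add (Nat.add (Nat.add (Nat.add (Nat.add (Nat.add (Nat.add (Nat.add (Nat.add C x41593) x28471) x45967) x40135) x41647) x41575) x41611) x41587) x41599) x41591) x41595) x21911)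
    (Nat.sub (Nat.add (Nat.add (Nat.add (Nat.add (Nat.add (Nat.add (Nat.add (Nat.add (Nat.add C x28473) x45969) x40137) x41649) x41577) x41613) x41601) x41593) x21913) x41595)
    (Nat.add (Nat.add (Nat.add (Nat.add (Nat.add (Nat.add (Nat.add (Nat.add C x28477) x45973) x40141) x41653) x41617) x41593) x41601) x21917)
    (Nat.add (Nat.add (Nat.add (Nat.add (Nat.add (Nat.add (Nat.add (Nat.add C x28479) x45975) x40143) x41655) x41619) x41595) x41599) x21919)
    (Nat.add (Nat.add (Nat.add (Nat.add (Nat.add (Nat.add C x28487) x45983) x40151) x41663) x41591) x41611)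
    (Nat.sub (Nat.add (Nat.add (Nat.add (Nat.add (Nat.add (Nat.add (Nat.add (Nat.add (Nat.add C x28489) x45985) x40153) x41665) x41593) x41617) x41609) x41613) x21929) x41611)
    (Nat.sub (Nat.add (Nat.add (Nat.add (Nat.add (Nat.add (Nat.add (Nat.add (Nat.add C x28491) x45987) x40155) x41667) x41595) x41619) x41611) x21931) (Nat.mul x41613 (nat_lit 4)))
    (Nat.add (Nat.add (Nat.add (Nat.add (Nat.add (Nat.add (Nat.add (Nat.add C x28495) x45991) x40159) x41671) x41599) x41611) x41619) x21935)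
    (Nat.sub (Nat.add (Nat.add (Nat.add (Nat.add (Nat.add (Nat.add (Nat.add (Nat.add (Nat.add C x28497) x45993) x40161) x41673) x41601) x41613) x41625) x41617) x21937) x41619)
    (Nat.add (Nat.add (Nat.add (Nat.add (Nat.add (Nat.add C x28503) x45999) x40167) x41679) x41619) x21943)
    (Nat.add (Nat.add (Nat.add (Nat.add (Nat.add (Nat.add (Nat.add (Nat.add C (Nat.mul x41639 (nat_lit 2))) x28517) x46013) x40181) x41801) x41585) x41645) x41641)
    (Nat.add (Nat.add (Nat.add (Nat.add (Nat.add (Nat.add (Nat.add (Nat.add C x28519) x46015) x40183) x41803) x41587) x41647) x41639) x21959)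
    (Nat.add (Nat.add (Nat.add (Nat.add (Nat.add (Nat.add (Nat.add (Nat.add C x28523) x46019) x40187) x41807) x41591) x41663) x41639) x41647)
    (Nat.add (Nat.add (Nat.add (Nat.add (Nat.add (Nat.add (Nat.add (Nat.add (Nat.add (Nat.add (Nat.add C x28525) x46021) x40189) x41809) x41593) x41665) x41641) x41653) x41645) x41649) x21965)
    (Nat.sub (Nat.add (Nat.add (Nat.add (Nat.add (Nat.add (Nat.add (Nat.add (Nat.add (Nat.add C x28527) x46023) x40191) x41811) x41595) x41667) x41655) x41647) x21967) (Nat.mul x41649 (nat_lit 2)))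
    (Nat.sub (Nat.add (Nat.add (Nat.add (Nat.add (Nat.add (Nat.add (Nat.add (Nat.add (Nat.add C x28531) x46027) x40195) x41815) x41599) x41671) x41647) x41655) x21971) (Nat.mul x41653 (nat_lit 2)))
    (Nat.sub (Nat.add (Nat.add (Nat.add (Nat.add (Nat.add (Nat.add (Nat.add (Nat.add (Nat.add C x28533) x46029) x40197) x41817) x41601) x41673) x41649) x41653) x21973) (Nat.mul x41655 (nat_lit 2)))
    (Nat.add (Nat.add (Nat.add (Nat.add (Nat.add (Nat.add (Nat.add (Nat.add (Nat.add C x41663) x28541) x46037) x40205) x41825) x41609) x41717) x41645) x41665)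
    (Nat.add (Nat.add (Nat.add (Nat.add (Nat.add (Nat.add (Nat.add (Nat.add (Nat.add (Nat.add (Nat.add C x28543) x46039) x40207) x41827) x41611) x41719) x41647) x41671) x41663) x41667) x21983)
    (Nat.sub (Nat.add (Nat.add (Nat.add (Nat.add (Nat.add (Nat.add (Nat.add (Nat.add (Nat.add (Nat.add C x28545) x46041) x40209) x41829) x41613) x41721) x41649) x41673) x41665) x21985) (Nat.mul x41667 (nat_lit 3)))
    (Nat.add (Nat.add (Nat.add (Nat.add (Nat.add (Nat.add (Nat.add (Nat.add (Nat.add (Nat.add (Nat.add C x28549) x46045) x40213) x41833) x41617) x41725) x41653) x41689) x41665) x41673) x21989)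
    (Nat.sub (Nat.add (Nat.add (Nat.add (Nat.add (Nat.add (Nat.add (Nat.add (Nat.add (Nat.add (Nat.add (Nat.add (Nat.add C x28551) x46047) x40215) x41835) x41619) x41727) x41655) x41691) x41667) x41679) x41671) x21991) x41673)
    (Nat.sub (Nat.add (Nat.add (Nat.add (Nat.add (Nat.add (Nat.add (Nat.add (Nat.add (Nat.add C x28557) x46053) x40221) x41841) x41625) x41733) x41697) x41673) x21997) x41679)
    (Nat.add (Nat.add (Nat.add (Nat.add (Nat.add (Nat.add (Nat.add (Nat.add C x28567) x46063) x40231) x41851) x41743) x41671) x41691) x22007)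
    (Nat.sub (Nat.add (Nat.add (Nat.add (Nat.add (Nat.add (Nat.add (Nat.add (Nat.add (Nat.add C x28569) x46065) x40233) x41853) x41745) x41673) x41697) x41689) x22009) (Nat.mul x41691 (nat_lit 2)))
    (Nat.add (Nat.add (Nat.add (Nat.add (Nat.add (Nat.add (Nat.add (Nat.add C x28575) x46071) x40239) x41859) x41751) x41679) x41691) x22015)
    (Nat.add (Nat.add (Nat.add (Nat.add (Nat.add (Nat.add C x28595) x46091) x40259) x41879) x41663) x41719)
    (Nat.sub (Nat.add (Nat.add (Nat.add (Nat.add (Nat.add (Nat.add (Nat.add (Nat.add (Nat.add C x28597) x46093) x40261) x41881) x41665) x41725) x41717) x41721) x22037) x41719)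
    (Nat.sub (Nat.add (Nat.add (Nat.add (Nat.add (Nat.add (Nat.add (Nat.add (Nat.add C x28599) x46095) x40263) x41883) x41667) x41727) x41719) x22039) (Nat.mul x41721 (nat_lit 4)))
    (Nat.sub (Nat.add (Nat.add (Nat.add (Nat.add (Nat.add (Nat.add (Nat.add (Nat.add (Nat.add C x28603) x46099) x40267) x41887) x41671) x41743) x41719) x41727) x22043) (Nat.mul x41725 (nat_lit 2)))
    (Nat.sub (Nat.add (Nat.add (Nat.add (Nat.add (Nat.add (Nat.add (Nat.add (Nat.add (Nat.add (Nat.add C x28605) x46101) x40269) x41889) x41673) x41745) x41721) x41733) x41725) x22045) (Nat.mul x41727 (nat_lit 3)))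
    (Nat.sub (Nat.add (Nat.add (Nat.add (Nat.add (Nat.add (Nat.add (Nat.add (Nat.add C x28611) x46107) x40275) x41895) x41679) x41751) x41727) x22051) (Nat.mul x41733 (nat_lit 4)))
    (Nat.add (Nat.add (Nat.add (Nat.add (Nat.add (Nat.add (Nat.add (Nat.add C x28621) x46117) x40285) x41905) x41689) x41725) x41745) x22061)
    (Nat.sub (Nat.add (Nat.add (Nat.add (Nat.add (Nat.add (Nat.add (Nat.add (Nat.add (Nat.add C x28623) x46119) x40287) x41907) x41691) x41727) x41751) x41743) x22063) (Nat.mul x41745 (nat_lit 2)))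
    (Nat.sub (Nat.add (Nat.add (Nat.add (Nat.add (Nat.add (Nat.add (Nat.add (Nat.add (Nat.add C x28629) x46125) x40293) x41913) x41697) x41733) x41769) x41745) x22069) x41751)
    (Nat.add (Nat.add (Nat.add (Nat.add (Nat.add (Nat.add C x28647) x46143) x40311) x41931) x41751) x22087)
    (Nat.add (Nat.add (Nat.add (Nat.add (Nat.add (Nat.add (Nat.add (Nat.add C (Nat.mul x41801 (nat_lit 2))) x28679) x46175) x40343) x42287) x41639) x41807) x41803)
    (Nat.add (Nat.add (Nat.add (Nat.add (Nat.add (Nat.add (Nat.add (Nat.add C x28681) x46177) x40345) x42289) x41641) x41809) x41801) x22121)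
    (Nat.add (Nat.add (Nat.add (Nat.add (Nat.add (Nat.add (Nat.add (Nat.add C x28685) x46181) x40349) x42293) x41645) x41825) x41801) x41809)
    (Nat.add (Nat.add (Nat.add (Nat.add (Nat.add (Nat.add (Nat.add (Nat.add (Nat.add (Nat.add (Nat.add C x28687) x46183) x40351) x42295) x41647) x41827) x41803) x41815) x41807) x41811) x22127)
    (Nat.sub (Nat.add (Nat.add (Nat.add (Nat.add (Nat.add (Nat.add (Nat.add (Nat.add (Nat.add C x28689) x46185) x40353) x42297) x41649) x41829) x41817) x41809) x22129) (Nat.mul x41811 (nat_lit 2)))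
    (Nat.sub (Nat.add (Nat.add (Nat.add (Nat.add (Nat.add (Nat.add (Nat.add (Nat.add (Nat.add C x28693) x46189) x40357) x42301) x41653) x41833) x41809) x41817) x22133) (Nat.mul x41815 (nat_lit 2)))
    (Nat.sub (Nat.add (Nat.add (Nat.add (Nat.add (Nat.add (Nat.add (Nat.add (Nat.add (Nat.add C x28695) x46191) x40359) x42303) x41655) x41835) x41811) x41815) x22135) (Nat.mul x41817 (nat_lit 2)))
    (Nat.add (Nat.add (Nat.add (Nat.add (Nat.add (Nat.add (Nat.add (Nat.add C x28703) x46199) x40367) x42311) x41663) x41879) x41807) x41827)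
    (Nat.sub (Nat.add (Nat.add (Nat.add (Nat.add (Nat.add (Nat.add (Nat.add (Nat.add (Nat.add (Nat.add (Nat.add C x28705) x46201) x40369) x42313) x41665) x41881) x41809) x41833) x41825) x41829) x22145) x41827)
    (Nat.sub (Nat.add (Nat.add (Nat.add (Nat.add (Nat.add (Nat.add (Nat.add (Nat.add (Nat.add (Nat.add C x28707) x46203) x40371) x42315) x41667) x41883) x41811) x41835) x41827) x22147) (Nat.mul x41829 (nat_lit 4)))
    (Nat.sub (Nat.add (Nat.add (Nat.add (Nat.add (Nat.add (Nat.add (Nat.add (Nat.add (Nat.add (Nat.add (Nat.add C x28711) x46207) x40375) x42319) x41671) x41887) x41815) x41851) x41827) x41835) x22151) x41833)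
    (Nat.sub (Nat.add (Nat.add (Nat.add (Nat.add (Nat.add (Nat.add (Nat.add (Nat.add (Nat.add (Nat.add (Nat.add (Nat.add C x28713) x46209) x40377) x42321) x41673) x41889) x41817) x41853) x41829) x41841) x41833) x22153) (Nat.mul x41835 (nat_lit 2)))
    (Nat.sub (Nat.add (Nat.add (Nat.add (Nat.add (Nat.add (Nat.add (Nat.add (Nat.add (Nat.add C x28719) x46215) x40383) x42327) x41679) x41895) x41859) x41835) x22159) (Nat.mul x41841 (nat_lit 2)))
    (Nat.sub (Nat.add (Nat.add (Nat.add (Nat.add (Nat.add (Nat.add (Nat.add (Nat.add (Nat.add C x28729) x46225) x40393) x42337) x41689) x41905) x41833) x41853) x22169) (Nat.mul x41851 (nat_lit 2)))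
    (Nat.sub (Nat.add (Nat.add (Nat.add (Nat.add (Nat.add (Nat.add (Nat.add (Nat.add (Nat.add (Nat.add C x28731) x46227) x40395) x42339) x41691) x41907) x41835) x41859) x41851) x22171) (Nat.mul x41853 (nat_lit 4)))
    (Nat.sub (Nat.add (Nat.add (Nat.add (Nat.add (Nat.add (Nat.add (Nat.add (Nat.add (Nat.add C x28737) x46233) x40401) x42345) x41697) x41913) x41841) x41853) x22177) (Nat.mul x41859 (nat_lit 2)))
    (Nat.add (Nat.add (Nat.add (Nat.add (Nat.add (Nat.add (Nat.add (Nat.add (Nat.add C x41879) x28757) x46253) x40421) x42365) x41717) x42041) x41825) x41881)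
    (Nat.add (Nat.add (Nat.add (Nat.add (Nat.add (Nat.add (Nat.add (Nat.add (Nat.add (Nat.add (Nat.add C x28759) x46255) x40423) x42367) x41719) x42043) x41827) x41887) x41879) x41883) x22199)
    (Nat.sub (Nat.add (Nat.add (Nat.add (Nat.add (Nat.add (Nat.add (Nat.add (Nat.add (Nat.add (Nat.add C x28761) x46257) x40425) x42369) x41721) x42045) x41829) x41889) x41881) x22201) (Nat.mul x41883 (nat_lit 3)))
    (Nat.sub (Nat.add (Nat.add (Nat.add (Nat.add (Nat.add (Nat.add (Nat.add (Nat.add (Nat.add (Nat.add (Nat.add C x28765) x46261) x40429) x42373) x41725) x42049) x41833) x41905) x41881) x41889) x22205) x41887)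
    (Nat.sub (Nat.add (Nat.add (Nat.add (Nat.add (Nat.add (Nat.add (Nat.add (Nat.add (Nat.add (Nat.add (Nat.add (Nat.add C x28767) x46263) x40431) x42375) x41727) x42051) x41835) x41907) x41883) x41895) x41887) x22207) (Nat.mul x41889 (nat_lit 2)))
    (Nat.sub (Nat.add (Nat.add (Nat.add (Nat.add (Nat.add (Nat.add (Nat.add (Nat.add (Nat.add (Nat.add C x28773) x46269) x40437) x42381) x41733) x42057) x41841) x41913) x41889) x22213) (Nat.mul x41895 (nat_lit 3)))
    (Nat.add (Nat.add (Nat.add (Nat.add (Nat.add (Nat.add (Nat.add (Nat.add (Nat.add (Nat.add (Nat.add C x28783) x46279) x40447) x42391) x41743) x42067) x41851) x41959) x41887) x41907) x22223)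
    (Nat.sub (Nat.add (Nat.add (Nat.add (Nat.add (Nat.add (Nat.add (Nat.add (Nat.add (Nat.add (Nat.add (Nat.add (Nat.add C x28785) x46281) x40449) x42393) x41745) x42069) x41853) x41961) x41889) x41913) x41905) x22225) (Nat.mul x41907 (nat_lit 2)))
    (Nat.sub (Nat.add (Nat.add (Nat.add (Nat.add (Nat.add (Nat.add (Nat.add (Nat.add (Nat.add (Nat.add (Nat.add (Nat.add C x28791) x46287) x40455) x42399) x41751) x42075) x41859) x41967) x41895) x41931) x41907) x22231) x41913)
    (Nat.sub (Nat.add (Nat.add (Nat.add (Nat.add (Nat.add (Nat.add (Nat.add (Nat.add (Nat.add C x28809) x46305) x40473) x42417) x41769) x42093) x41985) x41913) x22249) x41931)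
    (Nat.add (Nat.add (Nat.add (Nat.add (Nat.add (Nat.add (Nat.add (Nat.add C x28837) x46333) x40501) x42445) x42121) x41905) x41961) x22277)
    (Nat.sub (Nat.add (Nat.add (Nat.add (Nat.add (Nat.add (Nat.add (Nat.add (Nat.add (Nat.add C x28839) x46335) x40503) x42447) x42123) x41907) x41967) x41959) x22279) (Nat.mul x41961 (nat_lit 2)))
    (Nat.sub (Nat.add (Nat.add (Nat.add (Nat.add (Nat.add (Nat.add (Nat.add (Nat.add (Nat.add C x28845) x46341) x40509) x42453) x42129) x41913) x41985) x41961) x22285) (Nat.mul x41967 (nat_lit 2)))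
    (Nat.add (Nat.add (Nat.add (Nat.add (Nat.add (Nat.add (Nat.add (Nat.add C x28863) x46359) x40527) x42471) x42147) x41931) x41967) x22303)
    (Nat.add (Nat.add (Nat.add (Nat.add (Nat.add (Nat.add C x28919) x46415) x40583) x42527) x41879) x42043)
    (Nat.sub (Nat.add (Nat.add (Nat.add (Nat.add (Nat.add (Nat.add (Nat.add (Nat.add (Nat.add C x28921) x46417) x40585) x42529) x41881) x42049) x42041) x42045) x22361) x42043)
    (Nat.sub (Nat.add (Nat.add (Nat.add (Nat.add (Nat.add (Nat.add (Nat.add (Nat.add C x28923) x46419) x40587) x42531) x41883) x42051) x42043) x22363) (Nat.mul x42045 (nat_lit 4)))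
    (Nat.sub (Nat.add (Nat.add (Nat.add (Nat.add (Nat.add (Nat.add (Nat.add (Nat.add (Nat.add C x28927) x46423) x40591) x42535) x41887) x42067) x42043) x42051) x22367) (Nat.mul x42049 (nat_lit 2)))
    (Nat.sub (Nat.add (Nat.add (Nat.add (Nat.add (Nat.add (Nat.add (Nat.add (Nat.add (Nat.add (Nat.add C x28929) x46425) x40593) x42537) x41889) x42069) x42045) x42057) x42049) x22369) (Nat.mul x42051 (nat_lit 3)))
    (Nat.sub (Nat.add (Nat.add (Nat.add (Nat.add (Nat.add (Nat.add (Nat.add (Nat.add C x28935) x46431) x40599) x42543) x41895) x42075) x42051) x22375) (Nat.mul x42057 (nat_lit 4)))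
    (Nat.sub (Nat.add (Nat.add (Nat.add (Nat.add (Nat.add (Nat.add (Nat.add (Nat.add (Nat.add C x28945) x46441) x40609) x42553) x41905) x42121) x42049) x42069) x22385) (Nat.mul x42067 (nat_lit 2)))
    (Nat.sub (Nat.add (Nat.add (Nat.add (Nat.add (Nat.add (Nat.add (Nat.add (Nat.add (Nat.add (Nat.add C x28947) x46443) x40611) x42555) x41907) x42123) x42051) x42075) x42067) x22387) (Nat.mul x42069 (nat_lit 4)))
    (Nat.sub (Nat.add (Nat.add (Nat.add (Nat.add (Nat.add (Nat.add (Nat.add (Nat.add (Nat.add (Nat.add C x28953) x46449) x40617) x42561) x41913) x42129) x42057) x42093) x42069) x22393) (Nat.mul x42075 (nat_lit 3)))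
    (Nat.sub (Nat.add (Nat.add (Nat.add (Nat.add (Nat.add (Nat.add (Nat.add (Nat.add C x28971) x46467) x40635) x42579) x41931) x42147) x42075) x22411) (Nat.mul x42093 (nat_lit 4)))
    (Nat.add (Nat.add (Nat.add (Nat.add (Nat.add (Nat.add (Nat.add (Nat.add C x28999) x46495) x40663) x42607) x41959) x42067) x42123) x22439)
    (Nat.sub (Nat.add (Nat.add (Nat.add (Nat.add (Nat.add (Nat.add (Nat.add (Nat.add (Nat.add C x29001) x46497) x40665) x42609) x41961) x42069) x42129) x42121) x22441) (Nat.mul x42123 (nat_lit 2)))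
    (Nat.sub (Nat.add (Nat.add (Nat.add (Nat.add (Nat.add (Nat.add (Nat.add (Nat.add (Nat.add C x29007) x46503) x40671) x42615) x41967) x42075) x42147) x42123) x22447) (Nat.mul x42129 (nat_lit 2)))
    (Nat.sub (Nat.add (Nat.add (Nat.add (Nat.add (Nat.add (Nat.add (Nat.add (Nat.add (Nat.add C x29025) x46521) x40689) x42633) x41985) x42093) x42201) x42129) x22465) x42147)
    (Nat.add (Nat.add (Nat.add (Nat.add (Nat.add (Nat.add C x29079) x46575) x40743) x42687) x42147) x22519)
    (Nat.add (Nat.add (Nat.add (Nat.add (Nat.add (Nat.add (Nat.add (Nat.add C (Nat.mul x42287 (nat_lit 3))) x29165) x46661) x40829) x43745) x41801) x42293) x42289)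
    (Nat.add (Nat.add (Nat.add (Nat.add (Nat.add (Nat.add (Nat.add (Nat.add (Nat.add C x42289) x29167) x46663) x40831) x43747) x41803) x42295) x42287) x22607)
    (Nat.add (Nat.add (Nat.add (Nat.add (Nat.add (Nat.add (Nat.add (Nat.add (Nat.add C x42293) x29171) x46667) x40835) x43751) x41807) x42311) x42287) x42295)
    (Nat.add (Nat.add (Nat.add (Nat.add (Nat.add (Nat.add (Nat.add (Nat.add (Nat.add (Nat.add (Nat.add (Nat.add C x42295) x29173) x46669) x40837) x43753) x41809) x42313) x42289) x42301) x42293) x42297) x22613)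
    (Nat.sub (Nat.add (Nat.add (Nat.add (Nat.add (Nat.add (Nat.add (Nat.add (Nat.add (Nat.add C x29175) x46671) x40839) x43755) x41811) x42315) x42303) x42295) x22615) x42297)
    (Nat.sub (Nat.add (Nat.add (Nat.add (Nat.add (Nat.add (Nat.add (Nat.add (Nat.add (Nat.add C x29179) x46675) x40843) x43759) x41815) x42319) x42295) x42303) x22619) x42301)
    (Nat.sub (Nat.add (Nat.add (Nat.add (Nat.add (Nat.add (Nat.add (Nat.add (Nat.add (Nat.add C x29181) x46677) x40845) x43761) x41817) x42321) x42297) x42301) x22621) x42303)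
    (Nat.add (Nat.add (Nat.add (Nat.add (Nat.add (Nat.add (Nat.add (Nat.add (Nat.add C x42311) x29189) x46685) x40853) x43769) x41825) x42365) x42293) x42313)
    (Nat.add (Nat.add (Nat.add (Nat.add (Nat.add (Nat.add (Nat.add (Nat.add (Nat.add (Nat.add (Nat.add C x29191) x46687) x40855) x43771) x41827) x42367) x42295) x42319) x42311) x42315) x22631)
    (Nat.sub (Nat.add (Nat.add (Nat.add (Nat.add (Nat.add (Nat.add (Nat.add (Nat.add (Nat.add (Nat.add C x29193) x46689) x40857) x43773) x41829) x42369) x42297) x42321) x42313) x22633) (Nat.mul x42315 (nat_lit 3)))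
    (Nat.add (Nat.add (Nat.add (Nat.add (Nat.add (Nat.add (Nat.add (Nat.add (Nat.add (Nat.add (Nat.add C x29197) x46693) x40861) x43777) x41833) x42373) x42301) x42337) x42313) x42321) x22637)
    (Nat.sub (Nat.add (Nat.add (Nat.add (Nat.add (Nat.add (Nat.add (Nat.add (Nat.add (Nat.add (Nat.add (Nat.add (Nat.add C x29199) x46695) x40863) x43779) x41835) x42375) x42303) x42339) x42315) x42327) x42319) x22639) x42321)
    (Nat.sub (Nat.add (Nat.add (Nat.add (Nat.add (Nat.add (Nat.add (Nat.add (Nat.add (Nat.add C x29205) x46701) x40869) x43785) x41841) x42381) x42345) x42321) x22645) x42327)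
    (Nat.sub (Nat.add (Nat.add (Nat.add (Nat.add (Nat.add (Nat.add (Nat.add (Nat.add (Nat.add C x29215) x46711) x40879) x43795) x41851) x42391) x42319) x42339) x22655) x42337)
    (Nat.sub (Nat.add (Nat.add (Nat.add (Nat.add (Nat.add (Nat.add (Nat.add (Nat.add (Nat.add (Nat.add C x29217) x46713) x40881) x43797) x41853) x42393) x42321) x42345) x42337) x22657) (Nat.mul x42339 (nat_lit 3)))
    (Nat.sub (Nat.add (Nat.add (Nat.add (Nat.add (Nat.add (Nat.add (Nat.add (Nat.add (Nat.add C x29223) x46719) x40887) x43803) x41859) x42399) x42327) x42339) x22663) x42345)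
    (Nat.add (Nat.add (Nat.add (Nat.add (Nat.add (Nat.add (Nat.add (Nat.add (Nat.add C x42365) x29243) x46739) x40907) x43823) x41879) x42527) x42311) x42367)
    (Nat.add (Nat.add (Nat.add (Nat.add (Nat.add (Nat.add (Nat.add (Nat.add (Nat.add (Nat.add (Nat.add C x29245) x46741) x40909) x43825) x41881) x42529) x42313) x42373) x42365) x42369) x22685)
    (Nat.sub (Nat.add (Nat.add (Nat.add (Nat.add (Nat.add (Nat.add (Nat.add (Nat.add (Nat.add (Nat.add C x29247) x46743) x40911) x43827) x41883) x42531) x42315) x42375) x42367) x22687) (Nat.mul x42369 (nat_lit 3)))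
    (Nat.sub (Nat.add (Nat.add (Nat.add (Nat.add (Nat.add (Nat.add (Nat.add (Nat.add (Nat.add (Nat.add (Nat.add C x29251) x46747) x40915) x43831) x41887) x42535) x42319) x42391) x42367) x42375) x22691) x42373)
    (Nat.sub (Nat.add (Nat.add (Nat.add (Nat.add (Nat.add (Nat.add (Nat.add (Nat.add (Nat.add (Nat.add (Nat.add (Nat.add C x29253) x46749) x40917) x43833) x41889) x42537) x42321) x42393) x42369) x42381) x42373) x22693) (Nat.mul x42375 (nat_lit 2)))
    (Nat.sub (Nat.add (Nat.add (Nat.add (Nat.add (Nat.add (Nat.add (Nat.add (Nat.add (Nat.add (Nat.add C x29259) x46755) x40923) x43839) x41895) x42543) x42327) x42399) x42375) x22699) (Nat.mul x42381 (nat_lit 3)))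
    (Nat.add (Nat.add (Nat.add (Nat.add (Nat.add (Nat.add (Nat.add (Nat.add (Nat.add (Nat.add (Nat.add C x29269) x46765) x40933) x43849) x41905) x42553) x42337) x42445) x42373) x42393) x22709)
    (Nat.sub (Nat.add (Nat.add (Nat.add (Nat.add (Nat.add (Nat.add (Nat.add (Nat.add (Nat.add (Nat.add (Nat.add (Nat.add C x29271) x46767) x40935) x43851) x41907) x42555) x42339) x42447) x42375) x42399) x42391) x22711) (Nat.mul x42393 (nat_lit 2)))
    (Nat.sub (Nat.add (Nat.add (Nat.add (Nat.add (Nat.add (Nat.add (Nat.add (Nat.add (Nat.add (Nat.add (Nat.add (Nat.add C x29277) x46773) x40941) x43857) x41913) x42561) x42345) x42453) x42381) x42417) x42393) x22717) x42399)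
    (Nat.sub (Nat.add (Nat.add (Nat.add (Nat.add (Nat.add (Nat.add (Nat.add (Nat.add (Nat.add C x29295) x46791) x40959) x43875) x41931) x42579) x42471) x42399) x22735) x42417)
    (Nat.sub (Nat.add (Nat.add (Nat.add (Nat.add (Nat.add (Nat.add (Nat.add (Nat.add (Nat.add C x29323) x46819) x40987) x43903) x41959) x42607) x42391) x42447) x22763) x42445)
    (Nat.sub (Nat.add (Nat.add (Nat.add (Nat.add (Nat.add (Nat.add (Nat.add (Nat.add (Nat.add (Nat.add C x29325) x46821) x40989) x43905) x41961) x42609) x42393) x42453) x42445) x22765) (Nat.mul x42447 (nat_lit 3)))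
    (Nat.sub (Nat.add (Nat.add (Nat.add (Nat.add (Nat.add (Nat.add (Nat.add (Nat.add (Nat.add (Nat.add C x29331) x46827) x40995) x43911) x41967) x42615) x42399) x42471) x42447) x22771) (Nat.mul x42453 (nat_lit 3)))
    (Nat.sub (Nat.add (Nat.add (Nat.add (Nat.add (Nat.add (Nat.add (Nat.add (Nat.add (Nat.add C x29349) x46845) x41013) x43929) x41985) x42633) x42417) x42453) x22789) x42471)
    (Nat.add (Nat.add (Nat.add (Nat.add (Nat.add (Nat.add (Nat.add (Nat.add (Nat.add C (Nat.mul x42527 (nat_lit 2))) x29405) x46901) x41069) x43985) x42041) x43013) x42365) x42529)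
    (Nat.add (Nat.add (Nat.add (Nat.add (Nat.add (Nat.add (Nat.add (Nat.add (Nat.add (Nat.add (Nat.add (Nat.add C x42529) x29407) x46903) x41071) x43987) x42043) x43015) x42367) x42535) x42527) x42531) x22847)
    (Nat.sub (Nat.add (Nat.add (Nat.add (Nat.add (Nat.add (Nat.add (Nat.add (Nat.add (Nat.add (Nat.add C x29409) x46905) x41073) x43989) x42045) x43017) x42369) x42537) x42529) x22849) (Nat.mul x42531 (nat_lit 2)))
    (Nat.add (Nat.add (Nat.add (Nat.add (Nat.add (Nat.add (Nat.add (Nat.add (Nat.add (Nat.add (Nat.add C x29413) x46909) x41077) x43993) x42049) x43021) x42373) x42553) x42529) x42537) x22853)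
    (Nat.sub (Nat.add (Nat.add (Nat.add (Nat.add (Nat.add (Nat.add (Nat.add (Nat.add (Nat.add (Nat.add (Nat.add (Nat.add C x29415) x46911) x41079) x43995) x42051) x43023) x42375) x42555) x42531) x42543) x42535) x22855) x42537)
    (Nat.sub (Nat.add (Nat.add (Nat.add (Nat.add (Nat.add (Nat.add (Nat.add (Nat.add (Nat.add (Nat.add C x29421) x46917) x41085) x44001) x42057) x43029) x42381) x42561) x42537) x22861) (Nat.mul x42543 (nat_lit 2)))
    (Nat.add (Nat.add (Nat.add (Nat.add (Nat.add (Nat.add (Nat.add (Nat.add (Nat.add (Nat.add (Nat.add C x29431) x46927) x41095) x44011) x42067) x43039) x42391) x42607) x42535) x42555) x22871)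
    (Nat.sub (Nat.add (Nat.add (Nat.add (Nat.add (Nat.add (Nat.add (Nat.add (Nat.add (Nat.add (Nat.add (Nat.add (Nat.add C x29433) x46929) x41097) x44013) x42069) x43041) x42393) x42609) x42537) x42561) x42553) x22873) (Nat.mul x42555 (nat_lit 2)))
    (Nat.sub (Nat.add (Nat.add (Nat.add (Nat.add (Nat.add (Nat.add (Nat.add (Nat.add (Nat.add (Nat.add (Nat.add (Nat.add C x29439) x46935) x41103) x44019) x42075) x43047) x42399) x42615) x42543) x42579) x42555) x22879) x42561)
    (Nat.sub (Nat.add (Nat.add (Nat.add (Nat.add (Nat.add (Nat.add (Nat.add (Nat.add (Nat.add (Nat.add C x29457) x46953) x41121) x44037) x42093) x43065) x42417) x42633) x42561) x22897) (Nat.mul x42579 (nat_lit 2)))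
    (Nat.add (Nat.add (Nat.add (Nat.add (Nat.add (Nat.add (Nat.add (Nat.add (Nat.add (Nat.add (Nat.add (Nat.add C x42607) x29485) x46981) x41149) x44065) x42121) x43093) x42445) x42769) x42553) x42609) x22925)
    (Nat.sub (Nat.add (Nat.add (Nat.add (Nat.add (Nat.add (Nat.add (Nat.add (Nat.add (Nat.add (Nat.add (Nat.add (Nat.add C x29487) x46983) x41151) x44067) x42123) x43095) x42447) x42771) x42555) x42615) x42607) x22927) x42609)
    (Nat.sub (Nat.add (Nat.add (Nat.add (Nat.add (Nat.add (Nat.add (Nat.add (Nat.add (Nat.add (Nat.add (Nat.add (Nat.add C x29493) x46989) x41157) x44073) x42129) x43101) x42453) x42777) x42561) x42633) x42609) x22933) x42615)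
    (Nat.add (Nat.add (Nat.add (Nat.add (Nat.add (Nat.add (Nat.add (Nat.add (Nat.add (Nat.add (Nat.add (Nat.add C x29511) x47007) x41175) x44091) x42147) x43119) x42471) x42795) x42579) x42687) x42615) x22951)
    (Nat.add (Nat.add (Nat.add (Nat.add (Nat.add (Nat.add (Nat.add (Nat.add (Nat.add C x29565) x47061) x41229) x44145) x42201) x43173) x42849) x42633) x23005)
    (Nat.add (Nat.add (Nat.add (Nat.add (Nat.add (Nat.add (Nat.add (Nat.add (Nat.add C x42769) x29647) x47143) x41311) x44227) x43255) x42607) x42771) x23087)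
    (Nat.sub (Nat.add (Nat.add (Nat.add (Nat.add (Nat.add (Nat.add (Nat.add (Nat.add (Nat.add C x29649) x47145) x41313) x44229) x43257) x42609) x42777) x42769) x23089) x42771)
    (Nat.sub (Nat.add (Nat.add (Nat.add (Nat.add (Nat.add (Nat.add (Nat.add (Nat.add (Nat.add C x29655) x47151) x41319) x44235) x43263) x42615) x42795) x42771) x23095) x42777)
    (Nat.sub (Nat.add (Nat.add (Nat.add (Nat.add (Nat.add (Nat.add (Nat.add (Nat.add (Nat.add C x29673) x47169) x41337) x44253) x43281) x42633) x42849) x42777) x23113) x42795)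
    (Nat.add (Nat.add (Nat.add (Nat.add (Nat.add (Nat.add (Nat.add (Nat.add (Nat.add C x42849) x29727) x47223) x41391) x44307) x43335) x42687) x42795) x23167)
    (Nat.add (Nat.add (Nat.add (Nat.add (Nat.add (Nat.add C (Nat.mul x43013 (nat_lit 2))) x29891) x47387) x44471) x42527) x43015)
    (Nat.add (Nat.add (Nat.add (Nat.add (Nat.add (Nat.add (Nat.add (Nat.add (Nat.add C x43015) x29893) x47389) x44473) x42529) x43021) x43013) x43017) x23333)
    (Nat.sub (Nat.add (Nat.add (Nat.add (Nat.add (Nat.add (Nat.add (Nat.add C x29895) x47391) x44475) x42531) x43023) x43015) x23335) (Nat.mul x43017 (nat_lit 2)))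
    (Nat.add (Nat.add (Nat.add (Nat.add (Nat.add (Nat.add (Nat.add (Nat.add C x29899) x47395) x44479) x42535) x43039) x43015) x43023) x23339)
    (Nat.sub (Nat.add (Nat.add (Nat.add (Nat.add (Nat.add (Nat.add (Nat.add (Nat.add (Nat.add C x29901) x47397) x44481) x42537) x43041) x43017) x43029) x43021) x23341) x43023)
    (Nat.sub (Nat.add (Nat.add (Nat.add (Nat.add (Nat.add (Nat.add (Nat.add C x29907) x47403) x44487) x42543) x43047) x43023) x23347) (Nat.mul x43029 (nat_lit 2)))
    (Nat.add (Nat.add (Nat.add (Nat.add (Nat.add (Nat.add (Nat.add (Nat.add C x29917) x47413) x44497) x42553) x43093) x43021) x43041) x23357)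
    (Nat.sub (Nat.add (Nat.add (Nat.add (Nat.add (Nat.add (Nat.add (Nat.add (Nat.add (Nat.add C x29919) x47415) x44499) x42555) x43095) x43023) x43047) x43039) x23359) (Nat.mul x43041 (nat_lit 2)))
    (Nat.sub (Nat.add (Nat.add (Nat.add (Nat.add (Nat.add (Nat.add (Nat.add (Nat.add (Nat.add C x29925) x47421) x44505) x42561) x43101) x43029) x43065) x43041) x23365) x43047)
    (Nat.sub (Nat.add (Nat.add (Nat.add (Nat.add (Nat.add (Nat.add (Nat.add C x29943) x47439) x44523) x42579) x43119) x43047) x23383) (Nat.mul x43065 (nat_lit 2)))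
    (Nat.add (Nat.add (Nat.add (Nat.add (Nat.add (Nat.add (Nat.add (Nat.add C x29971) x47467) x44551) x42607) x43255) x43039) x43095) x23411)
    (Nat.sub (Nat.add (Nat.add (Nat.add (Nat.add (Nat.add (Nat.add (Nat.add (Nat.add (Nat.add C x29973) x47469) x44553) x42609) x43257) x43041) x43101) x43093) x23413) (Nat.mul x43095 (nat_lit 2)))
    (Nat.sub (Nat.add (Nat.add (Nat.add (Nat.add (Nat.add (Nat.add (Nat.add (Nat.add (Nat.add C x29979) x47475) x44559) x42615) x43263) x43047) x43119) x43095) x23419) (Nat.mul x43101 (nat_lit 2)))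
    (Nat.sub (Nat.add (Nat.add (Nat.add (Nat.add (Nat.add (Nat.add (Nat.add (Nat.add (Nat.add C x29997) x47493) x44577) x42633) x43281) x43065) x43173) x43101) x23437) x43119)
    (Nat.sub (Nat.add (Nat.add (Nat.add (Nat.add (Nat.add (Nat.add (Nat.add C x30051) x47547) x44631) x42687) x43335) x43119) x23491) (Nat.mul x43173 (nat_lit 2)))
    (Nat.add (Nat.add (Nat.add (Nat.add (Nat.add (Nat.add (Nat.add (Nat.add C (Nat.mul x43255 (nat_lit 2))) x30133) x47629) x44713) x42769) x43093) x43257) x23573)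
    (Nat.add (Nat.add (Nat.add (Nat.add (Nat.add (Nat.add (Nat.add (Nat.add C x30135) x47631) x44715) x42771) x43095) x43263) x43255) x23575)
    (Nat.add (Nat.add (Nat.add (Nat.add (Nat.add (Nat.add (Nat.add (Nat.add C x30141) x47637) x44721) x42777) x43101) x43281) x43257) x23581)
    (Nat.add (Nat.add (Nat.add (Nat.add (Nat.add (Nat.add (Nat.add (Nat.add C x30159) x47655) x44739) x42795) x43119) x43335) x43263) x23599)
    (Nat.add (Nat.add (Nat.add (Nat.add (Nat.add (Nat.add (Nat.add (Nat.add (Nat.add C x43335) x30213) x47709) x44793) x42849) x43173) x43497) x43281) x23653)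
    (Nat.add (Nat.add (Nat.add (Nat.add (Nat.add (Nat.add C (Nat.mul x43497 (nat_lit 2))) x30375) x47871) x44955) x43335) x23815)
    (Nat.add (Nat.add (Nat.add (Nat.add (Nat.add (Nat.add C (Nat.mul x43745 (nat_lit 2))) x30623) x48119) x42287) x43751) x43747)
    (Nat.add (Nat.add (Nat.add (Nat.add (Nat.add (Nat.add C x30625) x48121) x42289) x43753) x43745) x24065)
    (Nat.add (Nat.add (Nat.add (Nat.add (Nat.add (Nat.add C x30629) x48125) x42293) x43769) x43745) x43753)
    (Nat.add (Nat.add (Nat.add (Nat.add (Nat.add (Nat.add (Nat.add (Nat.add (Nat.add C x30631) x48127) x42295) x43771) x43747) x43759) x43751) x43755) x24071)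
    (Nat.sub (Nat.add (Nat.add (Nat.add (Nat.add (Nat.add (Nat.add (Nat.add C x30633) x48129) x42297) x43773) x43761) x43753) x24073) (Nat.mul x43755 (nat_lit 2)))
    (Nat.sub (Nat.add (Nat.add (Nat.add (Nat.add (Nat.add (Nat.add (Nat.add C x30637) x48133) x42301) x43777) x43753) x43761) x24077) (Nat.mul x43759 (nat_lit 2)))
    (Nat.sub (Nat.add (Nat.add (Nat.add (Nat.add (Nat.add (Nat.add (Nat.add C x30639) x48135) x42303) x43779) x43755) x43759) x24079) (Nat.mul x43761 (nat_lit 2)))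
    (Nat.add (Nat.add (Nat.add (Nat.add (Nat.add (Nat.add C x30647) x48143) x42311) x43823) x43751) x43771)
    (Nat.sub (Nat.add (Nat.add (Nat.add (Nat.add (Nat.add (Nat.add (Nat.add (Nat.add (Nat.add C x30649) x48145) x42313) x43825) x43753) x43777) x43769) x43773) x24089) x43771)
    (Nat.sub (Nat.add (Nat.add (Nat.add (Nat.add (Nat.add (Nat.add (Nat.add (Nat.add C x30651) x48147) x42315) x43827) x43755) x43779) x43771) x24091) (Nat.mul x43773 (nat_lit 4)))
    (Nat.sub (Nat.add (Nat.add (Nat.add (Nat.add (Nat.add (Nat.add (Nat.add (Nat.add (Nat.add C x30655) x48151) x42319) x43831) x43759) x43795) x43771) x43779) x24095) x43777)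
    (Nat.sub (Nat.add (Nat.add (Nat.add (Nat.add (Nat.add (Nat.add (Nat.add (Nat.add (Nat.add (Nat.add C x30657) x48153) x42321) x43833) x43761) x43797) x43773) x43785) x43777) x24097) (Nat.mul x43779 (nat_lit 2)))
    (Nat.sub (Nat.add (Nat.add (Nat.add (Nat.add (Nat.add (Nat.add (Nat.add C x30663) x48159) x42327) x43839) x43803) x43779) x24103) (Nat.mul x43785 (nat_lit 2)))
    (Nat.sub (Nat.add (Nat.add (Nat.add (Nat.add (Nat.add (Nat.add (Nat.add C x30673) x48169) x42337) x43849) x43777) x43797) x24113) (Nat.mul x43795 (nat_lit 2)))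
    (Nat.sub (Nat.add (Nat.add (Nat.add (Nat.add (Nat.add (Nat.add (Nat.add (Nat.add C x30675) x48171) x42339) x43851) x43779) x43803) x43795) x24115) (Nat.mul x43797 (nat_lit 4)))
    (Nat.sub (Nat.add (Nat.add (Nat.add (Nat.add (Nat.add (Nat.add (Nat.add C x30681) x48177) x42345) x43857) x43785) x43797) x24121) (Nat.mul x43803 (nat_lit 2)))
    (Nat.add (Nat.add (Nat.add (Nat.add (Nat.add (Nat.add C x30701) x48197) x42365) x43985) x43769) x43825)
    (Nat.sub (Nat.add (Nat.add (Nat.add (Nat.add (Nat.add (Nat.add (Nat.add (Nat.add (Nat.add C x30703) x48199) x42367) x43987) x43771) x43831) x43823) x43827) x24143) x43825)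
    (Nat.sub (Nat.add (Nat.add (Nat.add (Nat.add (Nat.add (Nat.add (Nat.add (Nat.add C x30705) x48201) x42369) x43989) x43773) x43833) x43825) x24145) (Nat.mul x43827 (nat_lit 4)))
    (Nat.sub (Nat.add (Nat.add (Nat.add (Nat.add (Nat.add (Nat.add (Nat.add (Nat.add (Nat.add C x30709) x48205) x42373) x43993) x43777) x43849) x43825) x43833) x24149) (Nat.mul x43831 (nat_lit 2)))
    (Nat.sub (Nat.add (Nat.add (Nat.add (Nat.add (Nat.add (Nat.add (Nat.add (Nat.add (Nat.add (Nat.add C x30711) x48207) x42375) x43995) x43779) x43851) x43827) x43839) x43831) x24151) (Nat.mul x43833 (nat_lit 3)))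
    (Nat.sub (Nat.add (Nat.add (Nat.add (Nat.add (Nat.add (Nat.add (Nat.add (Nat.add C x30717) x48213) x42381) x44001) x43785) x43857) x43833) x24157) (Nat.mul x43839 (nat_lit 4)))
    (Nat.sub (Nat.add (Nat.add (Nat.add (Nat.add (Nat.add (Nat.add (Nat.add (Nat.add (Nat.add C x30727) x48223) x42391) x44011) x43795) x43903) x43831) x43851) x24167) x43849)
    (Nat.sub (Nat.add (Nat.add (Nat.add (Nat.add (Nat.add (Nat.add (Nat.add (Nat.add (Nat.add (Nat.add C x30729) x48225) x42393) x44013) x43797) x43905) x43833) x43857) x43849) x24169) (Nat.mul x43851 (nat_lit 3)))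
    (Nat.sub (Nat.add (Nat.add (Nat.add (Nat.add (Nat.add (Nat.add (Nat.add (Nat.add (Nat.add (Nat.add C x30735) x48231) x42399) x44019) x43803) x43911) x43839) x43875) x43851) x24175) (Nat.mul x43857 (nat_lit 2)))
    (Nat.sub (Nat.add (Nat.add (Nat.add (Nat.add (Nat.add (Nat.add (Nat.add C x30753) x48249) x42417) x44037) x43929) x43857) x24193) (Nat.mul x43875 (nat_lit 2)))
    (Nat.sub (Nat.add (Nat.add (Nat.add (Nat.add (Nat.add (Nat.add (Nat.add C x30781) x48277) x42445) x44065) x43849) x43905) x24221) (Nat.mul x43903 (nat_lit 2)))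
    (Nat.sub (Nat.add (Nat.add (Nat.add (Nat.add (Nat.add (Nat.add (Nat.add (Nat.add C x30783) x48279) x42447) x44067) x43851) x43911) x43903) x24223) (Nat.mul x43905 (nat_lit 4)))
    (Nat.sub (Nat.add (Nat.add (Nat.add (Nat.add (Nat.add (Nat.add (Nat.add (Nat.add C x30789) x48285) x42453) x44073) x43857) x43929) x43905) x24229) (Nat.mul x43911 (nat_lit 4)))
    (Nat.sub (Nat.add (Nat.add (Nat.add (Nat.add (Nat.add (Nat.add (Nat.add C x30807) x48303) x42471) x44091) x43875) x43911) x24247) (Nat.mul x43929 (nat_lit 2)))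
    (Nat.add (Nat.add (Nat.add (Nat.add (Nat.add (Nat.add C x30863) x48359) x42527) x44471) x43823) x43987)
    (Nat.sub (Nat.add (Nat.add (Nat.add (Nat.add (Nat.add (Nat.add (Nat.add (Nat.add (Nat.add C x30865) x48361) x42529) x44473) x43825) x43993) x43985) x43989) x24305) x43987)
    (Nat.sub (Nat.add (Nat.add (Nat.add (Nat.add (Nat.add (Nat.add (Nat.add (Nat.add C x30867) x48363) x42531) x44475) x43827) x43995) x43987) x24307) (Nat.mul x43989 (nat_lit 4)))
    (Nat.sub (Nat.add (Nat.add (Nat.add (Nat.add (Nat.add (Nat.add (Nat.add (Nat.add (Nat.add C x30871) x48367) x42535) x44479) x43831) x44011) x43987) x43995) x24311) (Nat.mul x43993 (nat_lit 2)))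
    (Nat.sub (Nat.add (Nat.add (Nat.add (Nat.add (Nat.add (Nat.add (Nat.add (Nat.add (Nat.add (Nat.add C x30873) x48369) x42537) x44481) x43833) x44013) x43989) x44001) x43993) x24313) (Nat.mul x43995 (nat_lit 3)))
    (Nat.sub (Nat.add (Nat.add (Nat.add (Nat.add (Nat.add (Nat.add (Nat.add (Nat.add C x30879) x48375) x42543) x44487) x43839) x44019) x43995) x24319) (Nat.mul x44001 (nat_lit 4)))
    (Nat.sub (Nat.add (Nat.add (Nat.add (Nat.add (Nat.add (Nat.add (Nat.add (Nat.add (Nat.add C x30889) x48385) x42553) x44497) x43849) x44065) x43993) x44013) x24329) (Nat.mul x44011 (nat_lit 2)))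
    (Nat.sub (Nat.add (Nat.add (Nat.add (Nat.add (Nat.add (Nat.add (Nat.add (Nat.add (Nat.add (Nat.add C x30891) x48387) x42555) x44499) x43851) x44067) x43995) x44019) x44011) x24331) (Nat.mul x44013 (nat_lit 4)))
    (Nat.sub (Nat.add (Nat.add (Nat.add (Nat.add (Nat.add (Nat.add (Nat.add (Nat.add (Nat.add (Nat.add C x30897) x48393) x42561) x44505) x43857) x44073) x44001) x44037) x44013) x24337) (Nat.mul x44019 (nat_lit 3)))
    (Nat.sub (Nat.add (Nat.add (Nat.add (Nat.add (Nat.add (Nat.add (Nat.add (Nat.add C x30915) x48411) x42579) x44523) x43875) x44091) x44019) x24355) (Nat.mul x44037 (nat_lit 4)))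
    (Nat.sub (Nat.add (Nat.add (Nat.add (Nat.add (Nat.add (Nat.add (Nat.add (Nat.add (Nat.add C x30943) x48439) x42607) x44551) x43903) x44227) x44011) x44067) x24383) x44065)
    (Nat.sub (Nat.add (Nat.add (Nat.add (Nat.add (Nat.add (Nat.add (Nat.add (Nat.add (Nat.add (Nat.add C x30945) x48441) x42609) x44553) x43905) x44229) x44013) x44073) x44065) x24385) (Nat.mul x44067 (nat_lit 3)))
    (Nat.sub (Nat.add (Nat.add (Nat.add (Nat.add (Nat.add (Nat.add (Nat.add (Nat.add (Nat.add (Nat.add C x30951) x48447) x42615) x44559) x43911) x44235) x44019) x44091) x44067) x24391) (Nat.mul x44073 (nat_lit 3)))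
    (Nat.sub (Nat.add (Nat.add (Nat.add (Nat.add (Nat.add (Nat.add (Nat.add (Nat.add (Nat.add (Nat.add C x30969) x48465) x42633) x44577) x43929) x44253) x44037) x44145) x44073) x24409) (Nat.mul x44091 (nat_lit 2)))
    (Nat.sub (Nat.add (Nat.add (Nat.add (Nat.add (Nat.add (Nat.add (Nat.add C x31023) x48519) x42687) x44631) x44307) x44091) x24463) (Nat.mul x44145 (nat_lit 2)))
    (Nat.sub (Nat.add (Nat.add (Nat.add (Nat.add (Nat.add (Nat.add (Nat.add C x31105) x48601) x42769) x44713) x44065) x44229) x24545) (Nat.mul x44227 (nat_lit 2)))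
    (Nat.sub (Nat.add (Nat.add (Nat.add (Nat.add (Nat.add (Nat.add (Nat.add (Nat.add C x31107) x48603) x42771) x44715) x44067) x44235) x44227) x24547) (Nat.mul x44229 (nat_lit 4)))
    (Nat.sub (Nat.add (Nat.add (Nat.add (Nat.add (Nat.add (Nat.add (Nat.add (Nat.add C x31113) x48609) x42777) x44721) x44073) x44253) x44229) x24553) (Nat.mul x44235 (nat_lit 4)))
    (Nat.sub (Nat.add (Nat.add (Nat.add (Nat.add (Nat.add (Nat.add (Nat.add (Nat.add C x31131) x48627) x42795) x44739) x44091) x44307) x44235) x24571) (Nat.mul x44253 (nat_lit 4)))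
    (Nat.sub (Nat.add (Nat.add (Nat.add (Nat.add (Nat.add (Nat.add (Nat.add C x31185) x48681) x42849) x44793) x44145) x44253) x24625) (Nat.mul x44307 (nat_lit 2)))
    (Nat.add (Nat.add (Nat.add (Nat.add (Nat.add (Nat.add C (Nat.mul x44471 (nat_lit 2))) x31349) x48845) x43013) x43985) x44473)
    (Nat.add (Nat.add (Nat.add (Nat.add (Nat.add (Nat.add (Nat.add (Nat.add (Nat.add C x44473) x31351) x48847) x43015) x43987) x44479) x44471) x44475) x24791)
    (Nat.sub (Nat.add (Nat.add (Nat.add (Nat.add (Nat.add (Nat.add (Nat.add C x31353) x48849) x43017) x43989) x44481) x44473) x24793) (Nat.mul x44475 (nat_lit 2)))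
    (Nat.add (Nat.add (Nat.add (Nat.add (Nat.add (Nat.add (Nat.add (Nat.add C x31357) x48853) x43021) x43993) x44497) x44473) x44481) x24797)
    (Nat.sub (Nat.add (Nat.add (Nat.add (Nat.add (Nat.add (Nat.add (Nat.add (Nat.add (Nat.add C x31359) x48855) x43023) x43995) x44499) x44475) x44487) x44479) x24799) x44481)
    (Nat.sub (Nat.add (Nat.add (Nat.add (Nat.add (Nat.add (Nat.add (Nat.add C x31365) x48861) x43029) x44001) x44505) x44481) x24805) (Nat.mul x44487 (nat_lit 2)))
    (Nat.add (Nat.add (Nat.add (Nat.add (Nat.add (Nat.add (Nat.add (Nat.add C x31375) x48871) x43039) x44011) x44551) x44479) x44499) x24815)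
    (Nat.sub (Nat.add (Nat.add (Nat.add (Nat.add (Nat.add (Nat.add (Nat.add (Nat.add (Nat.add C x31377) x48873) x43041) x44013) x44553) x44481) x44505) x44497) x24817) (Nat.mul x44499 (nat_lit 2)))
    (Nat.sub (Nat.add (Nat.add (Nat.add (Nat.add (Nat.add (Nat.add (Nat.add (Nat.add (Nat.add C x31383) x48879) x43047) x44019) x44559) x44487) x44523) x44499) x24823) x44505)
    (Nat.sub (Nat.add (Nat.add (Nat.add (Nat.add (Nat.add (Nat.add (Nat.add C x31401) x48897) x43065) x44037) x44577) x44505) x24841) (Nat.mul x44523 (nat_lit 2)))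
    (Nat.add (Nat.add (Nat.add (Nat.add (Nat.add (Nat.add (Nat.add (Nat.add C x31429) x48925) x43093) x44065) x44713) x44497) x44553) x24869)
    (Nat.sub (Nat.add (Nat.add (Nat.add (Nat.add (Nat.add (Nat.add (Nat.add (Nat.add (Nat.add C x31431) x48927) x43095) x44067) x44715) x44499) x44559) x44551) x24871) (Nat.mul x44553 (nat_lit 2)))
    (Nat.sub (Nat.add (Nat.add (Nat.add (Nat.add (Nat.add (Nat.add (Nat.add (Nat.add (Nat.add C x31437) x48933) x43101) x44073) x44721) x44505) x44577) x44553) x24877) (Nat.mul x44559 (nat_lit 2)))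
    (Nat.sub (Nat.add (Nat.add (Nat.add (Nat.add (Nat.add (Nat.add (Nat.add (Nat.add (Nat.add C x31455) x48951) x43119) x44091) x44739) x44523) x44631) x44559) x24895) x44577)
    (Nat.sub (Nat.add (Nat.add (Nat.add (Nat.add (Nat.add (Nat.add (Nat.add C x31509) x49005) x43173) x44145) x44793) x44577) x24949) (Nat.mul x44631 (nat_lit 2)))
    (Nat.add (Nat.add (Nat.add (Nat.add (Nat.add (Nat.add (Nat.add (Nat.add (Nat.add C x44713) x31591) x49087) x43255) x44227) x45199) x44551) x44715) x25031)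
    (Nat.sub (Nat.add (Nat.add (Nat.add (Nat.add (Nat.add (Nat.add (Nat.add (Nat.add (Nat.add C x31593) x49089) x43257) x44229) x45201) x44553) x44721) x44713) x25033) x44715)
    (Nat.sub (Nat.add (Nat.add (Nat.add (Nat.add (Nat.add (Nat.add (Nat.add (Nat.add (Nat.add C x31599) x49095) x43263) x44235) x45207) x44559) x44739) x44715) x25039) x44721)
    (Nat.sub (Nat.add (Nat.add (Nat.add (Nat.add (Nat.add (Nat.add (Nat.add (Nat.add (Nat.add C x31617) x49113) x43281) x44253) x45225) x44577) x44793) x44721) x25057) x44739)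
    (Nat.add (Nat.add (Nat.add (Nat.add (Nat.add (Nat.add (Nat.add (Nat.add (Nat.add C x31671) x49167) x43335) x44307) x45279) x44631) x44955) x44739) x25111)
    (Nat.add (Nat.add (Nat.add (Nat.add (Nat.add (Nat.add C x31833) x49329) x43497) x45441) x44793) x25273)
    (Nat.add (Nat.add (Nat.add (Nat.add (Nat.add (Nat.add C (Nat.mul x45199 (nat_lit 2))) x32077) x49573) x44713) x45201) x25517)
    (Nat.add (Nat.add (Nat.add (Nat.add (Nat.add (Nat.add C x32079) x49575) x44715) x45207) x45199) x25519)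
    (Nat.add (Nat.add (Nat.add (Nat.add (Nat.add (Nat.add C x32085) x49581) x44721) x45225) x45201) x25525)
    (Nat.add (Nat.add (Nat.add (Nat.add (Nat.add (Nat.add C x32103) x49599) x44739) x45279) x45207) x25543)
    (Nat.add (Nat.add (Nat.add (Nat.add (Nat.add (Nat.add C x32157) x49653) x44793) x45441) x45225) x25597)
    (Nat.add (Nat.add (Nat.add (Nat.add (Nat.add (Nat.add C (Nat.mul x45441 (nat_lit 2))) x32319) x49815) x44955) x45279) x25759)
    (Nat.add (Nat.add (Nat.add (Nat.add C (Nat.mul x45935 (nat_lit 6))) x32813) x41561) x45941)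
    (Nat.add (Nat.add (Nat.add (Nat.add (Nat.add (Nat.add (Nat.add C (Nat.mul x45941 (nat_lit 5))) x32819) x41567) x45959) x45935) x45947) x45943)
    (Nat.add (Nat.add (Nat.add (Nat.add (Nat.add (Nat.add (Nat.add C (Nat.mul x45943 (nat_lit 4))) x32821) x41569) x45961) x45949) x45941) x26261)
    (Nat.add (Nat.add (Nat.add (Nat.add (Nat.add (Nat.add C (Nat.mul x45947 (nat_lit 2))) x32825) x41573) x45965) x45941) x45949)
    (Nat.add (Nat.add (Nat.add (Nat.add (Nat.add (Nat.add (Nat.add (Nat.add C (Nat.mul x45949 (nat_lit 3))) x32827) x41575) x45967) x45943) x45947) x45951) x26267)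
    (Nat.add (Nat.add (Nat.add (Nat.add (Nat.add (Nat.add C (Nat.mul x45951 (nat_lit 2))) x32829) x41577) x45969) x45949) x26269)
    (Nat.add (Nat.add (Nat.add (Nat.add (Nat.add (Nat.add (Nat.add C (Nat.mul x45959 (nat_lit 4))) x32837) x41585) x46013) x45941) x45965) x45961)
    (Nat.add (Nat.add (Nat.add (Nat.add (Nat.add (Nat.add (Nat.add (Nat.add C (Nat.mul x45961 (nat_lit 2))) x32839) x41587) x46015) x45943) x45967) x45959) x26279)
    (Nat.add (Nat.add (Nat.add (Nat.add (Nat.add (Nat.add (Nat.add (Nat.add C (Nat.mul x45965 (nat_lit 3))) x32843) x41591) x46019) x45947) x45983) x45959) x45967)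
    (Nat.add (Nat.add (Nat.add (Nat.add (Nat.add (Nat.add (Nat.add (Nat.add (Nat.add (Nat.add (Nat.add C (Nat.mul x45967 (nat_lit 3))) x32845) x41593) x46021) x45949) x45985) x45961) x45973) x45965) x45969) x26285)
    (Nat.add (Nat.add (Nat.add (Nat.add (Nat.add (Nat.add (Nat.add (Nat.add (Nat.add C x45969) x32847) x41595) x46023) x45951) x45987) x45975) x45967) x26287)
    (Nat.add (Nat.add (Nat.add (Nat.add (Nat.add (Nat.add (Nat.add (Nat.add C (Nat.mul x45973 (nat_lit 2))) x32851) x41599) x46027) x45991) x45967) x45975) x26291)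
    (Nat.add (Nat.add (Nat.add (Nat.add (Nat.add (Nat.add (Nat.add (Nat.add C (Nat.mul x45975 (nat_lit 2))) x32853) x41601) x46029) x45993) x45969) x45973) x26293)
    (Nat.add (Nat.add (Nat.add (Nat.add (Nat.add (Nat.add C (Nat.mul x45983 (nat_lit 2))) x32861) x41609) x46037) x45965) x45985)
    (Nat.add (Nat.add (Nat.add (Nat.add (Nat.add (Nat.add (Nat.add (Nat.add (Nat.add C x45985) x32863) x41611) x46039) x45967) x45991) x45983) x45987) x26303)
    (Nat.sub (Nat.add (Nat.add (Nat.add (Nat.add (Nat.add (Nat.add (Nat.add C x32865) x41613) x46041) x45969) x45993) x45985) x26305) (Nat.mul x45987 (nat_lit 2)))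
    (Nat.add (Nat.add (Nat.add (Nat.add (Nat.add (Nat.add (Nat.add (Nat.add C (Nat.mul x45991 (nat_lit 2))) x32869) x41617) x46045) x45973) x45985) x45993) x26309)
    (Nat.add (Nat.add (Nat.add (Nat.add (Nat.add (Nat.add (Nat.add (Nat.add (Nat.add C x45993) x32871) x41619) x46047) x45975) x45987) x45999) x45991) x26311)
    (Nat.add (Nat.add (Nat.add (Nat.add (Nat.add (Nat.add C (Nat.mul x45999 (nat_lit 2))) x32877) x41625) x46053) x45993) x26317)
    (Nat.add (Nat.add (Nat.add (Nat.add (Nat.add (Nat.add (Nat.add C (Nat.mul x46013 (nat_lit 4))) x32891) x41639) x46175) x45959) x46019) x46015)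
    (Nat.add (Nat.add (Nat.add (Nat.add (Nat.add (Nat.add (Nat.add (Nat.add C (Nat.mul x46015 (nat_lit 2))) x32893) x41641) x46177) x45961) x46021) x46013) x26333)
    (Nat.add (Nat.add (Nat.add (Nat.add (Nat.add (Nat.add (Nat.add (Nat.add C (Nat.mul x46019 (nat_lit 2))) x32897) x41645) x46181) x45965) x46037) x46013) x46021)
    (Nat.add (Nat.add (Nat.add (Nat.add (Nat.add (Nat.add (Nat.add (Nat.add (Nat.add (Nat.add (Nat.add C (Nat.mul x46021 (nat_lit 2))) x32899) x41647) x46183) x45967) x46039) x46015) x46027) x46019) x46023) x26339)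
    (Nat.add (Nat.add (Nat.add (Nat.add (Nat.add (Nat.add (Nat.add (Nat.add C x32901) x41649) x46185) x45969) x46041) x46029) x46021) x26341)
    (Nat.add (Nat.add (Nat.add (Nat.add (Nat.add (Nat.add (Nat.add (Nat.add C x32905) x41653) x46189) x45973) x46045) x46021) x46029) x26345)
    (Nat.add (Nat.add (Nat.add (Nat.add (Nat.add (Nat.add (Nat.add (Nat.add C x32907) x41655) x46191) x45975) x46047) x46023) x46027) x26347)
    (Nat.add (Nat.add (Nat.add (Nat.add (Nat.add (Nat.add (Nat.add (Nat.add C (Nat.mul x46037 (nat_lit 3))) x32915) x41663) x46199) x45983) x46091) x46019) x46039)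
    (Nat.add (Nat.add (Nat.add (Nat.add (Nat.add (Nat.add (Nat.add (Nat.add (Nat.add (Nat.add (Nat.add C (Nat.mul x46039 (nat_lit 2))) x32917) x41665) x46201) x45985) x46093) x46021) x46045) x46037) x46041) x26357)
    (Nat.sub (Nat.add (Nat.add (Nat.add (Nat.add (Nat.add (Nat.add (Nat.add (Nat.add (Nat.add C x32919) x41667) x46203) x45987) x46095) x46023) x46047) x46039) x26359) x46041)
    (Nat.add (Nat.add (Nat.add (Nat.add (Nat.add (Nat.add (Nat.add (Nat.add (Nat.add (Nat.add (Nat.add C (Nat.mul x46045 (nat_lit 2))) x32923) x41671) x46207) x45991) x46099) x46027) x46063) x46039) x46047) x26363)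
    (Nat.add (Nat.add (Nat.add (Nat.add (Nat.add (Nat.add (Nat.add (Nat.add (Nat.add (Nat.add (Nat.add (Nat.add C x46047) x32925) x41673) x46209) x45993) x46101) x46029) x46065) x46041) x46053) x46045) x26365)
    (Nat.add (Nat.add (Nat.add (Nat.add (Nat.add (Nat.add (Nat.add (Nat.add (Nat.add C x46053) x32931) x41679) x46215) x45999) x46107) x46071) x46047) x26371)
    (Nat.add (Nat.add (Nat.add (Nat.add (Nat.add (Nat.add (Nat.add (Nat.add C (Nat.mul x46063 (nat_lit 2))) x32941) x41689) x46225) x46117) x46045) x46065) x26381)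
    (Nat.add (Nat.add (Nat.add (Nat.add (Nat.add (Nat.add (Nat.add (Nat.add C x32943) x41691) x46227) x46119) x46047) x46071) x46063) x26383)
    (Nat.add (Nat.add (Nat.add (Nat.add (Nat.add (Nat.add (Nat.add (Nat.add C (Nat.mul x46071 (nat_lit 2))) x32949) x41697) x46233) x46125) x46053) x46065) x26389)
    (Nat.add (Nat.add (Nat.add (Nat.add (Nat.add (Nat.add C (Nat.mul x46091 (nat_lit 2))) x32969) x41717) x46253) x46037) x46093)
    (Nat.add (Nat.add (Nat.add (Nat.add (Nat.add (Nat.add (Nat.add (Nat.add (Nat.add C x46093) x32971) x41719) x46255) x46039) x46099) x46091) x46095) x26411)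
    (Nat.sub (Nat.add (Nat.add (Nat.add (Nat.add (Nat.add (Nat.add (Nat.add C x32973) x41721) x46257) x46041) x46101) x46093) x26413) (Nat.mul x46095 (nat_lit 2)))
    (Nat.add (Nat.add (Nat.add (Nat.add (Nat.add (Nat.add (Nat.add (Nat.add C x32977) x41725) x46261) x46045) x46117) x46093) x46101) x26417)
    (Nat.sub (Nat.add (Nat.add (Nat.add (Nat.add (Nat.add (Nat.add (Nat.add (Nat.add (Nat.add C x32979) x41727) x46263) x46047) x46119) x46095) x46107) x46099) x26419) x46101)
    (Nat.sub (Nat.add (Nat.add (Nat.add (Nat.add (Nat.add (Nat.add (Nat.add C x32985) x41733) x46269) x46053) x46125) x46101) x26425) (Nat.mul x46107 (nat_lit 2)))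
    (Nat.add (Nat.add (Nat.add (Nat.add (Nat.add (Nat.add (Nat.add (Nat.add C (Nat.mul x46117 (nat_lit 2))) x32995) x41743) x46279) x46063) x46099) x46119) x26435)
    (Nat.add (Nat.add (Nat.add (Nat.add (Nat.add (Nat.add (Nat.add (Nat.add C x32997) x41745) x46281) x46065) x46101) x46125) x46117) x26437)
    (Nat.add (Nat.add (Nat.add (Nat.add (Nat.add (Nat.add (Nat.add (Nat.add (Nat.add C x46125) x33003) x41751) x46287) x46071) x46107) x46143) x46119) x26443)
    (Nat.add (Nat.add (Nat.add (Nat.add (Nat.add (Nat.add C (Nat.mul x46143 (nat_lit 2))) x33021) x41769) x46305) x46125) x26461)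
    (Nat.add (Nat.add (Nat.add (Nat.add (Nat.add (Nat.add (Nat.add C (Nat.mul x46175 (nat_lit 4))) x33053) x41801) x46661) x46013) x46181) x46177)
    (Nat.add (Nat.add (Nat.add (Nat.add (Nat.add (Nat.add (Nat.add (Nat.add C (Nat.mul x46177 (nat_lit 2))) x33055) x41803) x46663) x46015) x46183) x46175) x26495)
    (Nat.add (Nat.add (Nat.add (Nat.add (Nat.add (Nat.add (Nat.add (Nat.add C (Nat.mul x46181 (nat_lit 2))) x33059) x41807) x46667) x46019) x46199) x46175) x46183)
    (Nat.add (Nat.add (Nat.add (Nat.add (Nat.add (Nat.add (Nat.add (Nat.add (Nat.add (Nat.add (Nat.add C (Nat.mul x46183 (nat_lit 2))) x33061) x41809) x46669) x46021) x46201) x46177) x46189) x46181) x46185) x26501)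
    (Nat.add (Nat.add (Nat.add (Nat.add (Nat.add (Nat.add (Nat.add (Nat.add C x33063) x41811) x46671) x46023) x46203) x46191) x46183) x26503)
    (Nat.add (Nat.add (Nat.add (Nat.add (Nat.add (Nat.add (Nat.add (Nat.add C x33067) x41815) x46675) x46027) x46207) x46183) x46191) x26507)
    (Nat.add (Nat.add (Nat.add (Nat.add (Nat.add (Nat.add (Nat.add (Nat.add C x33069) x41817) x46677) x46029) x46209) x46185) x46189) x26509)
    (Nat.add (Nat.add (Nat.add (Nat.add (Nat.add (Nat.add (Nat.add (Nat.add C (Nat.mul x46199 (nat_lit 2))) x33077) x41825) x46685) x46037) x46253) x46181) x46201)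
    (Nat.add (Nat.add (Nat.add (Nat.add (Nat.add (Nat.add (Nat.add (Nat.add (Nat.add (Nat.add (Nat.add C x46201) x33079) x41827) x46687) x46039) x46255) x46183) x46207) x46199) x46203) x26519)
    (Nat.sub (Nat.add (Nat.add (Nat.add (Nat.add (Nat.add (Nat.add (Nat.add (Nat.add (Nat.add C x33081) x41829) x46689) x46041) x46257) x46185) x46209) x46201) x26521) (Nat.mul x46203 (nat_lit 2)))
    (Nat.add (Nat.add (Nat.add (Nat.add (Nat.add (Nat.add (Nat.add (Nat.add (Nat.add (Nat.add (Nat.add C x46207) x33085) x41833) x46693) x46045) x46261) x46189) x46225) x46201) x46209) x26525)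
    (Nat.add (Nat.add (Nat.add (Nat.add (Nat.add (Nat.add (Nat.add (Nat.add (Nat.add (Nat.add (Nat.add C x33087) x41835) x46695) x46047) x46263) x46191) x46227) x46203) x46215) x46207) x26527)
    (Nat.add (Nat.add (Nat.add (Nat.add (Nat.add (Nat.add (Nat.add (Nat.add C x33093) x41841) x46701) x46053) x46269) x46233) x46209) x26533)
    (Nat.add (Nat.add (Nat.add (Nat.add (Nat.add (Nat.add (Nat.add (Nat.add C x33103) x41851) x46711) x46063) x46279) x46207) x46227) x26543)
    (Nat.sub (Nat.add (Nat.add (Nat.add (Nat.add (Nat.add (Nat.add (Nat.add (Nat.add (Nat.add C x33105) x41853) x46713) x46065) x46281) x46209) x46233) x46225) x26545) (Nat.mul x46227 (nat_lit 2)))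
    (Nat.add (Nat.add (Nat.add (Nat.add (Nat.add (Nat.add (Nat.add (Nat.add C x33111) x41859) x46719) x46071) x46287) x46215) x46227) x26551)
    (Nat.add (Nat.add (Nat.add (Nat.add (Nat.add (Nat.add (Nat.add (Nat.add C (Nat.mul x46253 (nat_lit 3))) x33131) x41879) x46739) x46091) x46415) x46199) x46255)
    (Nat.add (Nat.add (Nat.add (Nat.add (Nat.add (Nat.add (Nat.add (Nat.add (Nat.add (Nat.add (Nat.add C (Nat.mul x46255 (nat_lit 2))) x33133) x41881) x46741) x46093) x46417) x46201) x46261) x46253) x46257) x26573)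
    (Nat.sub (Nat.add (Nat.add (Nat.add (Nat.add (Nat.add (Nat.add (Nat.add (Nat.add (Nat.add C x33135) x41883) x46743) x46095) x46419) x46203) x46263) x46255) x26575) x46257)
    (Nat.add (Nat.add (Nat.add (Nat.add (Nat.add (Nat.add (Nat.add (Nat.add (Nat.add (Nat.add (Nat.add C x46261) x33139) x41887) x46747) x46099) x46423) x46207) x46279) x46255) x46263) x26579)
    (Nat.add (Nat.add (Nat.add (Nat.add (Nat.add (Nat.add (Nat.add (Nat.add (Nat.add (Nat.add (Nat.add C x33141) x41889) x46749) x46101) x46425) x46209) x46281) x46257) x46269) x46261) x26581)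
    (Nat.sub (Nat.add (Nat.add (Nat.add (Nat.add (Nat.add (Nat.add (Nat.add (Nat.add (Nat.add C x33147) x41895) x46755) x46107) x46431) x46215) x46287) x46263) x26587) x46269)
    (Nat.add (Nat.add (Nat.add (Nat.add (Nat.add (Nat.add (Nat.add (Nat.add (Nat.add (Nat.add (Nat.add C (Nat.mul x46279 (nat_lit 2))) x33157) x41905) x46765) x46117) x46441) x46225) x46333) x46261) x46281) x26597)
    (Nat.add (Nat.add (Nat.add (Nat.add (Nat.add (Nat.add (Nat.add (Nat.add (Nat.add (Nat.add (Nat.add C x33159) x41907) x46767) x46119) x46443) x46227) x46335) x46263) x46287) x46279) x26599)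
    (Nat.add (Nat.add (Nat.add (Nat.add (Nat.add (Nat.add (Nat.add (Nat.add (Nat.add (Nat.add (Nat.add (Nat.add C x46287) x33165) x41913) x46773) x46125) x46449) x46233) x46341) x46269) x46305) x46281) x26605)
    (Nat.add (Nat.add (Nat.add (Nat.add (Nat.add (Nat.add (Nat.add (Nat.add (Nat.add C x46305) x33183) x41931) x46791) x46143) x46467) x46359) x46287) x26623)
    (Nat.add (Nat.add (Nat.add (Nat.add (Nat.add (Nat.add (Nat.add (Nat.add C (Nat.mul x46333 (nat_lit 2))) x33211) x41959) x46819) x46495) x46279) x46335) x26651)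
    (Nat.add (Nat.add (Nat.add (Nat.add (Nat.add (Nat.add (Nat.add (Nat.add C x33213) x41961) x46821) x46497) x46281) x46341) x46333) x26653)
    (Nat.add (Nat.add (Nat.add (Nat.add (Nat.add (Nat.add (Nat.add (Nat.add C x33219) x41967) x46827) x46503) x46287) x46359) x46335) x26659)
    (Nat.add (Nat.add (Nat.add (Nat.add (Nat.add (Nat.add (Nat.add (Nat.add C (Nat.mul x46359 (nat_lit 2))) x33237) x41985) x46845) x46521) x46305) x46341) x26677)
    (Nat.add (Nat.add (Nat.add (Nat.add (Nat.add (Nat.add C (Nat.mul x46415 (nat_lit 2))) x33293) x42041) x46901) x46253) x46417)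
    (Nat.add (Nat.add (Nat.add (Nat.add (Nat.add (Nat.add (Nat.add (Nat.add (Nat.add C x46417) x33295) x42043) x46903) x46255) x46423) x46415) x46419) x26735)
    (Nat.sub (Nat.add (Nat.add (Nat.add (Nat.add (Nat.add (Nat.add (Nat.add C x33297) x42045) x46905) x46257) x46425) x46417) x26737) (Nat.mul x46419 (nat_lit 2)))
    (Nat.add (Nat.add (Nat.add (Nat.add (Nat.add (Nat.add (Nat.add (Nat.add C x33301) x42049) x46909) x46261) x46441) x46417) x46425) x26741)
    (Nat.sub (Nat.add (Nat.add (Nat.add (Nat.add (Nat.add (Nat.add (Nat.add (Nat.add (Nat.add C x33303) x42051) x46911) x46263) x46443) x46419) x46431) x46423) x26743) x46425)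
    (Nat.sub (Nat.add (Nat.add (Nat.add (Nat.add (Nat.add (Nat.add (Nat.add C x33309) x42057) x46917) x46269) x46449) x46425) x26749) (Nat.mul x46431 (nat_lit 2)))
    (Nat.add (Nat.add (Nat.add (Nat.add (Nat.add (Nat.add (Nat.add (Nat.add C x33319) x42067) x46927) x46279) x46495) x46423) x46443) x26759)
    (Nat.sub (Nat.add (Nat.add (Nat.add (Nat.add (Nat.add (Nat.add (Nat.add (Nat.add (Nat.add C x33321) x42069) x46929) x46281) x46497) x46425) x46449) x46441) x26761) (Nat.mul x46443 (nat_lit 2)))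
    (Nat.sub (Nat.add (Nat.add (Nat.add (Nat.add (Nat.add (Nat.add (Nat.add (Nat.add (Nat.add C x33327) x42075) x46935) x46287) x46503) x46431) x46467) x46443) x26767) x46449)
    (Nat.sub (Nat.add (Nat.add (Nat.add (Nat.add (Nat.add (Nat.add (Nat.add C x33345) x42093) x46953) x46305) x46521) x46449) x26785) (Nat.mul x46467 (nat_lit 2)))
    (Nat.add (Nat.add (Nat.add (Nat.add (Nat.add (Nat.add (Nat.add (Nat.add C (Nat.mul x46495 (nat_lit 2))) x33373) x42121) x46981) x46333) x46441) x46497) x26813)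
    (Nat.add (Nat.add (Nat.add (Nat.add (Nat.add (Nat.add (Nat.add (Nat.add C x33375) x42123) x46983) x46335) x46443) x46503) x46495) x26815)
    (Nat.add (Nat.add (Nat.add (Nat.add (Nat.add (Nat.add (Nat.add (Nat.add C x33381) x42129) x46989) x46341) x46449) x46521) x46497) x26821)
    (Nat.add (Nat.add (Nat.add (Nat.add (Nat.add (Nat.add (Nat.add (Nat.add (Nat.add C x46521) x33399) x42147) x47007) x46359) x46467) x46575) x46503) x26839)
    (Nat.add (Nat.add (Nat.add (Nat.add (Nat.add (Nat.add C (Nat.mul x46575 (nat_lit 2))) x33453) x42201) x47061) x46521) x26893)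
    (Nat.add (Nat.add (Nat.add (Nat.add (Nat.add (Nat.add (Nat.add C (Nat.mul x46661 (nat_lit 4))) x33539) x42287) x48119) x46175) x46667) x46663)
    (Nat.add (Nat.add (Nat.add (Nat.add (Nat.add (Nat.add (Nat.add (Nat.add C (Nat.mul x46663 (nat_lit 2))) x33541) x42289) x48121) x46177) x46669) x46661) x26981)
    (Nat.add (Nat.add (Nat.add (Nat.add (Nat.add (Nat.add (Nat.add (Nat.add C (Nat.mul x46667 (nat_lit 2))) x33545) x42293) x48125) x46181) x46685) x46661) x46669)
    (Nat.add (Nat.add (Nat.add (Nat.add (Nat.add (Nat.add (Nat.add (Nat.add (Nat.add (Nat.add (Nat.add C (Nat.mul x46669 (nat_lit 2))) x33547) x42295) x48127) x46183) x46687) x46663) x46675) x46667) x46671) x26987)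
    (Nat.add (Nat.add (Nat.add (Nat.add (Nat.add (Nat.add (Nat.add (Nat.add C x33549) x42297) x48129) x46185) x46689) x46677) x46669) x26989)
    (Nat.add (Nat.add (Nat.add (Nat.add (Nat.add (Nat.add (Nat.add (Nat.add C x33553) x42301) x48133) x46189) x46693) x46669) x46677) x26993)
    (Nat.add (Nat.add (Nat.add (Nat.add (Nat.add (Nat.add (Nat.add (Nat.add C x33555) x42303) x48135) x46191) x46695) x46671) x46675) x26995)
    (Nat.add (Nat.add (Nat.add (Nat.add (Nat.add (Nat.add (Nat.add (Nat.add C (Nat.mul x46685 (nat_lit 2))) x33563) x42311) x48143) x46199) x46739) x46667) x46687)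
    (Nat.add (Nat.add (Nat.add (Nat.add (Nat.add (Nat.add (Nat.add (Nat.add (Nat.add (Nat.add (Nat.add C x46687) x33565) x42313) x48145) x46201) x46741) x46669) x46693) x46685) x46689) x27005)
    (Nat.sub (Nat.add (Nat.add (Nat.add (Nat.add (Nat.add (Nat.add (Nat.add (Nat.add (Nat.add C x33567) x42315) x48147) x46203) x46743) x46671) x46695) x46687) x27007) (Nat.mul x46689 (nat_lit 2)))
    (Nat.add (Nat.add (Nat.add (Nat.add (Nat.add (Nat.add (Nat.add (Nat.add (Nat.add (Nat.add (Nat.add C x46693) x33571) x42319) x48151) x46207) x46747) x46675) x46711) x46687) x46695) x27011)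
    (Nat.add (Nat.add (Nat.add (Nat.add (Nat.add (Nat.add (Nat.add (Nat.add (Nat.add (Nat.add (Nat.add C x33573) x42321) x48153) x46209) x46749) x46677) x46713) x46689) x46701) x46693) x27013)
    (Nat.add (Nat.add (Nat.add (Nat.add (Nat.add (Nat.add (Nat.add (Nat.add C x33579) x42327) x48159) x46215) x46755) x46719) x46695) x27019)
    (Nat.add (Nat.add (Nat.add (Nat.add (Nat.add (Nat.add (Nat.add (Nat.add C x33589) x42337) x48169) x46225) x46765) x46693) x46713) x27029)
    (Nat.sub (Nat.add (Nat.add (Nat.add (Nat.add (Nat.add (Nat.add (Nat.add (Nat.add (Nat.add C x33591) x42339) x48171) x46227) x46767) x46695) x46719) x46711) x27031) (Nat.mul x46713 (nat_lit 2)))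
    (Nat.add (Nat.add (Nat.add (Nat.add (Nat.add (Nat.add (Nat.add (Nat.add C x33597) x42345) x48177) x46233) x46773) x46701) x46713) x27037)
    (Nat.add (Nat.add (Nat.add (Nat.add (Nat.add (Nat.add (Nat.add (Nat.add C (Nat.mul x46739 (nat_lit 2))) x33617) x42365) x48197) x46253) x46901) x46685) x46741)
    (Nat.add (Nat.add (Nat.add (Nat.add (Nat.add (Nat.add (Nat.add (Nat.add (Nat.add (Nat.add (Nat.add C x46741) x33619) x42367) x48199) x46255) x46903) x46687) x46747) x46739) x46743) x27059)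
    (Nat.sub (Nat.add (Nat.add (Nat.add (Nat.add (Nat.add (Nat.add (Nat.add (Nat.add (Nat.add C x33621) x42369) x48201) x46257) x46905) x46689) x46749) x46741) x27061) (Nat.mul x46743 (nat_lit 2)))
    (Nat.add (Nat.add (Nat.add (Nat.add (Nat.add (Nat.add (Nat.add (Nat.add (Nat.add (Nat.add C x33625) x42373) x48205) x46261) x46909) x46693) x46765) x46741) x46749) x27065)
    (Nat.sub (Nat.add (Nat.add (Nat.add (Nat.add (Nat.add (Nat.add (Nat.add (Nat.add (Nat.add (Nat.add (Nat.add C x33627) x42375) x48207) x46263) x46911) x46695) x46767) x46743) x46755) x46747) x27067) x46749)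
    (Nat.sub (Nat.add (Nat.add (Nat.add (Nat.add (Nat.add (Nat.add (Nat.add (Nat.add (Nat.add C x33633) x42381) x48213) x46269) x46917) x46701) x46773) x46749) x27073) (Nat.mul x46755 (nat_lit 2)))
    (Nat.add (Nat.add (Nat.add (Nat.add (Nat.add (Nat.add (Nat.add (Nat.add (Nat.add (Nat.add (Nat.add C x46765) x33643) x42391) x48223) x46279) x46927) x46711) x46819) x46747) x46767) x27083)
    (Nat.sub (Nat.add (Nat.add (Nat.add (Nat.add (Nat.add (Nat.add (Nat.add (Nat.add (Nat.add (Nat.add (Nat.add C x33645) x42393) x48225) x46281) x46929) x46713) x46821) x46749) x46773) x46765) x27085) x46767)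
    (Nat.add (Nat.add (Nat.add (Nat.add (Nat.add (Nat.add (Nat.add (Nat.add (Nat.add (Nat.add (Nat.add C x33651) x42399) x48231) x46287) x46935) x46719) x46827) x46755) x46791) x46767) x27091)
    (Nat.add (Nat.add (Nat.add (Nat.add (Nat.add (Nat.add (Nat.add (Nat.add C x33669) x42417) x48249) x46305) x46953) x46845) x46773) x27109)
    (Nat.add (Nat.add (Nat.add (Nat.add (Nat.add (Nat.add (Nat.add (Nat.add C x33697) x42445) x48277) x46333) x46981) x46765) x46821) x27137)
    (Nat.sub (Nat.add (Nat.add (Nat.add (Nat.add (Nat.add (Nat.add (Nat.add (Nat.add (Nat.add C x33699) x42447) x48279) x46335) x46983) x46767) x46827) x46819) x27139) (Nat.mul x46821 (nat_lit 2)))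
    (Nat.sub (Nat.add (Nat.add (Nat.add (Nat.add (Nat.add (Nat.add (Nat.add (Nat.add (Nat.add C x33705) x42453) x48285) x46341) x46989) x46773) x46845) x46821) x27145) (Nat.mul x46827 (nat_lit 2)))
    (Nat.add (Nat.add (Nat.add (Nat.add (Nat.add (Nat.add (Nat.add (Nat.add C x33723) x42471) x48303) x46359) x47007) x46791) x46827) x27163)
    (Nat.add (Nat.add (Nat.add (Nat.add (Nat.add (Nat.add (Nat.add (Nat.add C (Nat.mul x46901 (nat_lit 3))) x33779) x42527) x48359) x46415) x47387) x46739) x46903)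
    (Nat.add (Nat.add (Nat.add (Nat.add (Nat.add (Nat.add (Nat.add (Nat.add (Nat.add (Nat.add (Nat.add C (Nat.mul x46903 (nat_lit 2))) x33781) x42529) x48361) x46417) x47389) x46741) x46909) x46901) x46905) x27221)
    (Nat.sub (Nat.add (Nat.add (Nat.add (Nat.add (Nat.add (Nat.add (Nat.add (Nat.add (Nat.add C x33783) x42531) x48363) x46419) x47391) x46743) x46911) x46903) x27223) x46905)
    (Nat.add (Nat.add (Nat.add (Nat.add (Nat.add (Nat.add (Nat.add (Nat.add (Nat.add (Nat.add (Nat.add C x46909) x33787) x42535) x48367) x46423) x47395) x46747) x46927) x46903) x46911) x27227)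
    (Nat.add (Nat.add (Nat.add (Nat.add (Nat.add (Nat.add (Nat.add (Nat.add (Nat.add (Nat.add (Nat.add C x33789) x42537) x48369) x46425) x47397) x46749) x46929) x46905) x46917) x46909) x27229)
    (Nat.sub (Nat.add (Nat.add (Nat.add (Nat.add (Nat.add (Nat.add (Nat.add (Nat.add (Nat.add C x33795) x42543) x48375) x46431) x47403) x46755) x46935) x46911) x27235) x46917)
    (Nat.add (Nat.add (Nat.add (Nat.add (Nat.add (Nat.add (Nat.add (Nat.add (Nat.add (Nat.add (Nat.add C x46927) x33805) x42553) x48385) x46441) x47413) x46765) x46981) x46909) x46929) x27245)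
    (Nat.sub (Nat.add (Nat.add (Nat.add (Nat.add (Nat.add (Nat.add (Nat.add (Nat.add (Nat.add (Nat.add (Nat.add C x33807) x42555) x48387) x46443) x47415) x46767) x46983) x46911) x46935) x46927) x27247) x46929)
    (Nat.add (Nat.add (Nat.add (Nat.add (Nat.add (Nat.add (Nat.add (Nat.add (Nat.add (Nat.add (Nat.add C x33813) x42561) x48393) x46449) x47421) x46773) x46989) x46917) x46953) x46929) x27253)
    (Nat.sub (Nat.add (Nat.add (Nat.add (Nat.add (Nat.add (Nat.add (Nat.add (Nat.add (Nat.add C x33831) x42579) x48411) x46467) x47439) x46791) x47007) x46935) x27271) x46953)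
    (Nat.add (Nat.add (Nat.add (Nat.add (Nat.add (Nat.add (Nat.add (Nat.add (Nat.add (Nat.add (Nat.add C (Nat.mul x46981 (nat_lit 2))) x33859) x42607) x48439) x46495) x47467) x46819) x47143) x46927) x46983) x27299)
    (Nat.add (Nat.add (Nat.add (Nat.add (Nat.add (Nat.add (Nat.add (Nat.add (Nat.add (Nat.add (Nat.add C x33861) x42609) x48441) x46497) x47469) x46821) x47145) x46929) x46989) x46981) x27301)
    (Nat.add (Nat.add (Nat.add (Nat.add (Nat.add (Nat.add (Nat.add (Nat.add (Nat.add (Nat.add (Nat.add C x33867) x42615) x48447) x46503) x47475) x46827) x47151) x46935) x47007) x46983) x27307)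
    (Nat.add (Nat.add (Nat.add (Nat.add (Nat.add (Nat.add (Nat.add (Nat.add (Nat.add (Nat.add (Nat.add (Nat.add C x47007) x33885) x42633) x48465) x46521) x47493) x46845) x47169) x46953) x47061) x46989) x27325)
    (Nat.add (Nat.add (Nat.add (Nat.add (Nat.add (Nat.add (Nat.add (Nat.add (Nat.add C x47061) x33939) x42687) x48519) x46575) x47547) x47223) x47007) x27379)
    (Nat.add (Nat.add (Nat.add (Nat.add (Nat.add (Nat.add (Nat.add (Nat.add C (Nat.mul x47143 (nat_lit 2))) x34021) x42769) x48601) x47629) x46981) x47145) x27461)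
    (Nat.add (Nat.add (Nat.add (Nat.add (Nat.add (Nat.add (Nat.add (Nat.add C x34023) x42771) x48603) x47631) x46983) x47151) x47143) x27463)
    (Nat.add (Nat.add (Nat.add (Nat.add (Nat.add (Nat.add (Nat.add (Nat.add C x34029) x42777) x48609) x47637) x46989) x47169) x47145) x27469)
    (Nat.add (Nat.add (Nat.add (Nat.add (Nat.add (Nat.add (Nat.add (Nat.add C x34047) x42795) x48627) x47655) x47007) x47223) x47151) x27487)
    (Nat.add (Nat.add (Nat.add (Nat.add (Nat.add (Nat.add (Nat.add (Nat.add C (Nat.mul x47223 (nat_lit 2))) x34101) x42849) x48681) x47709) x47061) x47169) x27541)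
    (Nat.add (Nat.add (Nat.add (Nat.add (Nat.add (Nat.add C (Nat.mul x47387 (nat_lit 2))) x34265) x43013) x48845) x46901) x47389)
    (Nat.add (Nat.add (Nat.add (Nat.add (Nat.add (Nat.add (Nat.add (Nat.add (Nat.add C x47389) x34267) x43015) x48847) x46903) x47395) x47387) x47391) x27707)
    (Nat.sub (Nat.add (Nat.add (Nat.add (Nat.add (Nat.add (Nat.add (Nat.add C x34269) x43017) x48849) x46905) x47397) x47389) x27709) (Nat.mul x47391 (nat_lit 2)))
    (Nat.add (Nat.add (Nat.add (Nat.add (Nat.add (Nat.add (Nat.add (Nat.add C x34273) x43021) x48853) x46909) x47413) x47389) x47397) x27713)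
    (Nat.sub (Nat.add (Nat.add (Nat.add (Nat.add (Nat.add (Nat.add (Nat.add (Nat.add (Nat.add C x34275) x43023) x48855) x46911) x47415) x47391) x47403) x47395) x27715) x47397)
    (Nat.sub (Nat.add (Nat.add (Nat.add (Nat.add (Nat.add (Nat.add (Nat.add C x34281) x43029) x48861) x46917) x47421) x47397) x27721) (Nat.mul x47403 (nat_lit 2)))
    (Nat.add (Nat.add (Nat.add (Nat.add (Nat.add (Nat.add (Nat.add (Nat.add C x34291) x43039) x48871) x46927) x47467) x47395) x47415) x27731)
    (Nat.sub (Nat.add (Nat.add (Nat.add (Nat.add (Nat.add (Nat.add (Nat.add (Nat.add (Nat.add C x34293) x43041) x48873) x46929) x47469) x47397) x47421) x47413) x27733) (Nat.mul x47415 (nat_lit 2)))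
    (Nat.sub (Nat.add (Nat.add (Nat.add (Nat.add (Nat.add (Nat.add (Nat.add (Nat.add (Nat.add C x34299) x43047) x48879) x46935) x47475) x47403) x47439) x47415) x27739) x47421)
    (Nat.sub (Nat.add (Nat.add (Nat.add (Nat.add (Nat.add (Nat.add (Nat.add C x34317) x43065) x48897) x46953) x47493) x47421) x27757) (Nat.mul x47439 (nat_lit 2)))
    (Nat.add (Nat.add (Nat.add (Nat.add (Nat.add (Nat.add (Nat.add (Nat.add C x34345) x43093) x48925) x46981) x47629) x47413) x47469) x27785)
    (Nat.sub (Nat.add (Nat.add (Nat.add (Nat.add (Nat.add (Nat.add (Nat.add (Nat.add (Nat.add C x34347) x43095) x48927) x46983) x47631) x47415) x47475) x47467) x27787) (Nat.mul x47469 (nat_lit 2)))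
    (Nat.sub (Nat.add (Nat.add (Nat.add (Nat.add (Nat.add (Nat.add (Nat.add (Nat.add (Nat.add C x34353) x43101) x48933) x46989) x47637) x47421) x47493) x47469) x27793) (Nat.mul x47475 (nat_lit 2)))
    (Nat.sub (Nat.add (Nat.add (Nat.add (Nat.add (Nat.add (Nat.add (Nat.add (Nat.add (Nat.add C x34371) x43119) x48951) x47007) x47655) x47439) x47547) x47475) x27811) x47493)
    (Nat.sub (Nat.add (Nat.add (Nat.add (Nat.add (Nat.add (Nat.add (Nat.add C x34425) x43173) x49005) x47061) x47709) x47493) x27865) (Nat.mul x47547 (nat_lit 2)))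
    (Nat.add (Nat.add (Nat.add (Nat.add (Nat.add (Nat.add (Nat.add (Nat.add C (Nat.mul x47629 (nat_lit 2))) x34507) x43255) x49087) x47143) x47467) x47631) x27947)
    (Nat.add (Nat.add (Nat.add (Nat.add (Nat.add (Nat.add (Nat.add (Nat.add C x34509) x43257) x49089) x47145) x47469) x47637) x47629) x27949)
    (Nat.add (Nat.add (Nat.add (Nat.add (Nat.add (Nat.add (Nat.add (Nat.add C x34515) x43263) x49095) x47151) x47475) x47655) x47631) x27955)
    (Nat.add (Nat.add (Nat.add (Nat.add (Nat.add (Nat.add (Nat.add (Nat.add C x34533) x43281) x49113) x47169) x47493) x47709) x47637) x27973)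
    (Nat.add (Nat.add (Nat.add (Nat.add (Nat.add (Nat.add (Nat.add (Nat.add (Nat.add C x47709) x34587) x43335) x49167) x47223) x47547) x47871) x47655) x28027)
    (Nat.add (Nat.add (Nat.add (Nat.add (Nat.add (Nat.add C (Nat.mul x47871 (nat_lit 2))) x34749) x43497) x49329) x47709) x28189)
    (Nat.add (Nat.add (Nat.add (Nat.add (Nat.add (Nat.add (Nat.add C (Nat.mul x48119 (nat_lit 5))) x34997) x43745) x52493) x46661) x48125) x48121)
    (Nat.add (Nat.add (Nat.add (Nat.add (Nat.add (Nat.add (Nat.add (Nat.add C (Nat.mul x48121 (nat_lit 3))) x34999) x43747) x52495) x46663) x48127) x48119) x28439)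
    (Nat.add (Nat.add (Nat.add (Nat.add (Nat.add (Nat.add (Nat.add (Nat.add C (Nat.mul x48125 (nat_lit 3))) x35003) x43751) x52499) x46667) x48143) x48119) x48127)
    (Nat.add (Nat.add (Nat.add (Nat.add (Nat.add (Nat.add (Nat.add (Nat.add (Nat.add (Nat.add (Nat.add C (Nat.mul x48127 (nat_lit 3))) x35005) x43753) x52501) x46669) x48145) x48121) x48133) x48125) x48129) x28445)
    (Nat.add (Nat.add (Nat.add (Nat.add (Nat.add (Nat.add (Nat.add (Nat.add (Nat.add C x48129) x35007) x43755) x52503) x46671) x48147) x48135) x48127) x28447)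
    (Nat.add (Nat.add (Nat.add (Nat.add (Nat.add (Nat.add (Nat.add (Nat.add (Nat.add C x48133) x35011) x43759) x52507) x46675) x48151) x48127) x48135) x28451)
    (Nat.add (Nat.add (Nat.add (Nat.add (Nat.add (Nat.add (Nat.add (Nat.add (Nat.add C x48135) x35013) x43761) x52509) x46677) x48153) x48129) x48133) x28453)
    (Nat.add (Nat.add (Nat.add (Nat.add (Nat.add (Nat.add (Nat.add (Nat.add C (Nat.mul x48143 (nat_lit 3))) x35021) x43769) x52517) x46685) x48197) x48125) x48145)
    (Nat.add (Nat.add (Nat.add (Nat.add (Nat.add (Nat.add (Nat.add (Nat.add (Nat.add (Nat.add (Nat.add C (Nat.mul x48145 (nat_lit 2))) x35023) x43771) x52519) x46687) x48199) x48127) x48151) x48143) x48147) x28463)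
    (Nat.sub (Nat.add (Nat.add (Nat.add (Nat.add (Nat.add (Nat.add (Nat.add (Nat.add (Nat.add C x35025) x43773) x52521) x46689) x48201) x48129) x48153) x48145) x28465) x48147)
    (Nat.add (Nat.add (Nat.add (Nat.add (Nat.add (Nat.add (Nat.add (Nat.add (Nat.add (Nat.add (Nat.add C (Nat.mul x48151 (nat_lit 2))) x35029) x43777) x52525) x46693) x48205) x48133) x48169) x48145) x48153) x28469)
    (Nat.add (Nat.add (Nat.add (Nat.add (Nat.add (Nat.add (Nat.add (Nat.add (Nat.add (Nat.add (Nat.add (Nat.add C x48153) x35031) x43779) x52527) x46695) x48207) x48135) x48171) x48147) x48159) x48151) x28471)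
    (Nat.add (Nat.add (Nat.add (Nat.add (Nat.add (Nat.add (Nat.add (Nat.add (Nat.add C x48159) x35037) x43785) x52533) x46701) x48213) x48177) x48153) x28477)
    (Nat.add (Nat.add (Nat.add (Nat.add (Nat.add (Nat.add (Nat.add (Nat.add (Nat.add C x48169) x35047) x43795) x52543) x46711) x48223) x48151) x48171) x28487)
    (Nat.sub (Nat.add (Nat.add (Nat.add (Nat.add (Nat.add (Nat.add (Nat.add (Nat.add (Nat.add C x35049) x43797) x52545) x46713) x48225) x48153) x48177) x48169) x28489) x48171)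
    (Nat.add (Nat.add (Nat.add (Nat.add (Nat.add (Nat.add (Nat.add (Nat.add (Nat.add C x48177) x35055) x43803) x52551) x46719) x48231) x48159) x48171) x28495)
    (Nat.add (Nat.add (Nat.add (Nat.add (Nat.add (Nat.add (Nat.add (Nat.add C (Nat.mul x48197 (nat_lit 3))) x35075) x43823) x52571) x46739) x48359) x48143) x48199)
    (Nat.add (Nat.add (Nat.add (Nat.add (Nat.add (Nat.add (Nat.add (Nat.add (Nat.add (Nat.add (Nat.add C (Nat.mul x48199 (nat_lit 2))) x35077) x43825) x52573) x46741) x48361) x48145) x48205) x48197) x48201) x28517)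
    (Nat.sub (Nat.add (Nat.add (Nat.add (Nat.add (Nat.add (Nat.add (Nat.add (Nat.add (Nat.add C x35079) x43827) x52575) x46743) x48363) x48147) x48207) x48199) x28519) x48201)
    (Nat.add (Nat.add (Nat.add (Nat.add (Nat.add (Nat.add (Nat.add (Nat.add (Nat.add (Nat.add (Nat.add C x48205) x35083) x43831) x52579) x46747) x48367) x48151) x48223) x48199) x48207) x28523)
    (Nat.add (Nat.add (Nat.add (Nat.add (Nat.add (Nat.add (Nat.add (Nat.add (Nat.add (Nat.add (Nat.add C x35085) x43833) x52581) x46749) x48369) x48153) x48225) x48201) x48213) x48205) x28525)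
    (Nat.sub (Nat.add (Nat.add (Nat.add (Nat.add (Nat.add (Nat.add (Nat.add (Nat.add (Nat.add C x35091) x43839) x52587) x46755) x48375) x48159) x48231) x48207) x28531) x48213)
    (Nat.add (Nat.add (Nat.add (Nat.add (Nat.add (Nat.add (Nat.add (Nat.add (Nat.add (Nat.add (Nat.add C (Nat.mul x48223 (nat_lit 2))) x35101) x43849) x52597) x46765) x48385) x48169) x48277) x48205) x48225) x28541)
    (Nat.add (Nat.add (Nat.add (Nat.add (Nat.add (Nat.add (Nat.add (Nat.add (Nat.add (Nat.add (Nat.add C x35103) x43851) x52599) x46767) x48387) x48171) x48279) x48207) x48231) x48223) x28543)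
    (Nat.add (Nat.add (Nat.add (Nat.add (Nat.add (Nat.add (Nat.add (Nat.add (Nat.add (Nat.add (Nat.add (Nat.add C x48231) x35109) x43857) x52605) x46773) x48393) x48177) x48285) x48213) x48249) x48225) x28549)
    (Nat.add (Nat.add (Nat.add (Nat.add (Nat.add (Nat.add (Nat.add (Nat.add (Nat.add C x48249) x35127) x43875) x52623) x46791) x48411) x48303) x48231) x28567)
    (Nat.add (Nat.add (Nat.add (Nat.add (Nat.add (Nat.add (Nat.add (Nat.add (Nat.add C x48277) x35155) x43903) x52651) x46819) x48439) x48223) x48279) x28595)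
    (Nat.sub (Nat.add (Nat.add (Nat.add (Nat.add (Nat.add (Nat.add (Nat.add (Nat.add (Nat.add C x35157) x43905) x52653) x46821) x48441) x48225) x48285) x48277) x28597) x48279)
    (Nat.sub (Nat.add (Nat.add (Nat.add (Nat.add (Nat.add (Nat.add (Nat.add (Nat.add (Nat.add C x35163) x43911) x52659) x46827) x48447) x48231) x48303) x48279) x28603) x48285)
    (Nat.add (Nat.add (Nat.add (Nat.add (Nat.add (Nat.add (Nat.add (Nat.add (Nat.add C x48303) x35181) x43929) x52677) x46845) x48465) x48249) x48285) x28621)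
    (Nat.add (Nat.add (Nat.add (Nat.add (Nat.add (Nat.add (Nat.add (Nat.add C (Nat.mul x48359 (nat_lit 3))) x35237) x43985) x52733) x46901) x48845) x48197) x48361)
    (Nat.add (Nat.add (Nat.add (Nat.add (Nat.add (Nat.add (Nat.add (Nat.add (Nat.add (Nat.add (Nat.add C (Nat.mul x48361 (nat_lit 2))) x35239) x43987) x52735) x46903) x48847) x48199) x48367) x48359) x48363) x28679)
    (Nat.sub (Nat.add (Nat.add (Nat.add (Nat.add (Nat.add (Nat.add (Nat.add (Nat.add (Nat.add C x35241) x43989) x52737) x46905) x48849) x48201) x48369) x48361) x28681) x48363)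
    (Nat.add (Nat.add (Nat.add (Nat.add (Nat.add (Nat.add (Nat.add (Nat.add (Nat.add (Nat.add (Nat.add C x48367) x35245) x43993) x52741) x46909) x48853) x48205) x48385) x48361) x48369) x28685)
    (Nat.add (Nat.add (Nat.add (Nat.add (Nat.add (Nat.add (Nat.add (Nat.add (Nat.add (Nat.add (Nat.add C x35247) x43995) x52743) x46911) x48855) x48207) x48387) x48363) x48375) x48367) x28687)
    (Nat.sub (Nat.add (Nat.add (Nat.add (Nat.add (Nat.add (Nat.add (Nat.add (Nat.add (Nat.add C x35253) x44001) x52749) x46917) x48861) x48213) x48393) x48369) x28693) x48375)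
    (Nat.add (Nat.add (Nat.add (Nat.add (Nat.add (Nat.add (Nat.add (Nat.add (Nat.add (Nat.add (Nat.add C x48385) x35263) x44011) x52759) x46927) x48871) x48223) x48439) x48367) x48387) x28703)
    (Nat.sub (Nat.add (Nat.add (Nat.add (Nat.add (Nat.add (Nat.add (Nat.add (Nat.add (Nat.add (Nat.add (Nat.add C x35265) x44013) x52761) x46929) x48873) x48225) x48441) x48369) x48393) x48385) x28705) x48387)
    (Nat.add (Nat.add (Nat.add (Nat.add (Nat.add (Nat.add (Nat.add (Nat.add (Nat.add (Nat.add (Nat.add C x35271) x44019) x52767) x46935) x48879) x48231) x48447) x48375) x48411) x48387) x28711)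
    (Nat.sub (Nat.add (Nat.add (Nat.add (Nat.add (Nat.add (Nat.add (Nat.add (Nat.add (Nat.add C x35289) x44037) x52785) x46953) x48897) x48249) x48465) x48393) x28729) x48411)
    (Nat.add (Nat.add (Nat.add (Nat.add (Nat.add (Nat.add (Nat.add (Nat.add (Nat.add (Nat.add (Nat.add C (Nat.mul x48439 (nat_lit 2))) x35317) x44065) x52813) x46981) x48925) x48277) x48601) x48385) x48441) x28757)
    (Nat.add (Nat.add (Nat.add (Nat.add (Nat.add (Nat.add (Nat.add (Nat.add (Nat.add (Nat.add (Nat.add C x35319) x44067) x52815) x46983) x48927) x48279) x48603) x48387) x48447) x48439) x28759)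
    (Nat.add (Nat.add (Nat.add (Nat.add (Nat.add (Nat.add (Nat.add (Nat.add (Nat.add (Nat.add (Nat.add C x35325) x44073) x52821) x46989) x48933) x48285) x48609) x48393) x48465) x48441) x28765)
    (Nat.add (Nat.add (Nat.add (Nat.add (Nat.add (Nat.add (Nat.add (Nat.add (Nat.add (Nat.add (Nat.add (Nat.add C x48465) x35343) x44091) x52839) x47007) x48951) x48303) x48627) x48411) x48519) x48447) x28783)
    (Nat.add (Nat.add (Nat.add (Nat.add (Nat.add (Nat.add (Nat.add (Nat.add (Nat.add C x48519) x35397) x44145) x52893) x47061) x49005) x48681) x48465) x28837)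
    (Nat.add (Nat.add (Nat.add (Nat.add (Nat.add (Nat.add (Nat.add (Nat.add (Nat.add C x48601) x35479) x44227) x52975) x47143) x49087) x48439) x48603) x28919)
    (Nat.sub (Nat.add (Nat.add (Nat.add (Nat.add (Nat.add (Nat.add (Nat.add (Nat.add (Nat.add C x35481) x44229) x52977) x47145) x49089) x48441) x48609) x48601) x28921) x48603)
    (Nat.sub (Nat.add (Nat.add (Nat.add (Nat.add (Nat.add (Nat.add (Nat.add (Nat.add (Nat.add C x35487) x44235) x52983) x47151) x49095) x48447) x48627) x48603) x28927) x48609)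
    (Nat.sub (Nat.add (Nat.add (Nat.add (Nat.add (Nat.add (Nat.add (Nat.add (Nat.add (Nat.add C x35505) x44253) x53001) x47169) x49113) x48465) x48681) x48609) x28945) x48627)
    (Nat.add (Nat.add (Nat.add (Nat.add (Nat.add (Nat.add (Nat.add (Nat.add (Nat.add C x48681) x35559) x44307) x53055) x47223) x49167) x48519) x48627) x28999)
    (Nat.add (Nat.add (Nat.add (Nat.add (Nat.add (Nat.add (Nat.add (Nat.add C (Nat.mul x48845 (nat_lit 4))) x35723) x44471) x53219) x47387) x50303) x48359) x48847)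
    (Nat.add (Nat.add (Nat.add (Nat.add (Nat.add (Nat.add (Nat.add (Nat.add (Nat.add (Nat.add (Nat.add C (Nat.mul x48847 (nat_lit 3))) x35725) x44473) x53221) x47389) x50305) x48361) x48853) x48845) x48849) x29165)
    (Nat.add (Nat.add (Nat.add (Nat.add (Nat.add (Nat.add (Nat.add (Nat.add (Nat.add C x35727) x44475) x53223) x47391) x50307) x48363) x48855) x48847) x29167)
    (Nat.add (Nat.add (Nat.add (Nat.add (Nat.add (Nat.add (Nat.add (Nat.add (Nat.add (Nat.add (Nat.add C (Nat.mul x48853 (nat_lit 2))) x35731) x44479) x53227) x47395) x50311) x48367) x48871) x48847) x48855) x29171)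
    (Nat.add (Nat.add (Nat.add (Nat.add (Nat.add (Nat.add (Nat.add (Nat.add (Nat.add (Nat.add (Nat.add (Nat.add C x48855) x35733) x44481) x53229) x47397) x50313) x48369) x48873) x48849) x48861) x48853) x29173)
    (Nat.add (Nat.add (Nat.add (Nat.add (Nat.add (Nat.add (Nat.add (Nat.add (Nat.add C x35739) x44487) x53235) x47403) x50319) x48375) x48879) x48855) x29179)
    (Nat.add (Nat.add (Nat.add (Nat.add (Nat.add (Nat.add (Nat.add (Nat.add (Nat.add (Nat.add (Nat.add C (Nat.mul x48871 (nat_lit 2))) x35749) x44497) x53245) x47413) x50329) x48385) x48925) x48853) x48873) x29189)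
    (Nat.add (Nat.add (Nat.add (Nat.add (Nat.add (Nat.add (Nat.add (Nat.add (Nat.add (Nat.add (Nat.add C x35751) x44499) x53247) x47415) x50331) x48387) x48927) x48855) x48879) x48871) x29191)
    (Nat.add (Nat.add (Nat.add (Nat.add (Nat.add (Nat.add (Nat.add (Nat.add (Nat.add (Nat.add (Nat.add (Nat.add C x48879) x35757) x44505) x53253) x47421) x50337) x48393) x48933) x48861) x48897) x48873) x29197)
    (Nat.add (Nat.add (Nat.add (Nat.add (Nat.add (Nat.add (Nat.add (Nat.add (Nat.add C x35775) x44523) x53271) x47439) x50355) x48411) x48951) x48879) x29215)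
    (Nat.add (Nat.add (Nat.add (Nat.add (Nat.add (Nat.add (Nat.add (Nat.add (Nat.add (Nat.add (Nat.add C (Nat.mul x48925 (nat_lit 2))) x35803) x44551) x53299) x47467) x50383) x48439) x49087) x48871) x48927) x29243)
    (Nat.add (Nat.add (Nat.add (Nat.add (Nat.add (Nat.add (Nat.add (Nat.add (Nat.add (Nat.add (Nat.add C x35805) x44553) x53301) x47469) x50385) x48441) x49089) x48873) x48933) x48925) x29245)
    (Nat.add (Nat.add (Nat.add (Nat.add (Nat.add (Nat.add (Nat.add (Nat.add (Nat.add (Nat.add (Nat.add C x35811) x44559) x53307) x47475) x50391) x48447) x49095) x48879) x48951) x48927) x29251)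
    (Nat.add (Nat.add (Nat.add (Nat.add (Nat.add (Nat.add (Nat.add (Nat.add (Nat.add (Nat.add (Nat.add (Nat.add C x48951) x35829) x44577) x53325) x47493) x50409) x48465) x49113) x48897) x49005) x48933) x29269)
    (Nat.add (Nat.add (Nat.add (Nat.add (Nat.add (Nat.add (Nat.add (Nat.add (Nat.add C x35883) x44631) x53379) x47547) x50463) x48519) x49167) x48951) x29323)
    (Nat.add (Nat.add (Nat.add (Nat.add (Nat.add (Nat.add (Nat.add (Nat.add (Nat.add (Nat.add (Nat.add C (Nat.mul x49087 (nat_lit 3))) x35965) x44713) x53461) x47629) x50545) x48601) x49573) x48925) x49089) x29405)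
    (Nat.add (Nat.add (Nat.add (Nat.add (Nat.add (Nat.add (Nat.add (Nat.add (Nat.add (Nat.add (Nat.add (Nat.add C x49089) x35967) x44715) x53463) x47631) x50547) x48603) x49575) x48927) x49095) x49087) x29407)
    (Nat.add (Nat.add (Nat.add (Nat.add (Nat.add (Nat.add (Nat.add (Nat.add (Nat.add (Nat.add (Nat.add (Nat.add C x49095) x35973) x44721) x53469) x47637) x50553) x48609) x49581) x48933) x49113) x49089) x29413)
    (Nat.add (Nat.add (Nat.add (Nat.add (Nat.add (Nat.add (Nat.add (Nat.add (Nat.add (Nat.add (Nat.add (Nat.add C x49113) x35991) x44739) x53487) x47655) x50571) x48627) x49599) x48951) x49167) x49095) x29431)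
    (Nat.add (Nat.add (Nat.add (Nat.add (Nat.add (Nat.add (Nat.add (Nat.add (Nat.add (Nat.add (Nat.add (Nat.add C (Nat.mul x49167 (nat_lit 2))) x36045) x44793) x53541) x47709) x50625) x48681) x49653) x49005) x49329) x49113) x29485)
    (Nat.add (Nat.add (Nat.add (Nat.add (Nat.add (Nat.add (Nat.add (Nat.add (Nat.add C (Nat.mul x49329 (nat_lit 2))) x36207) x44955) x53703) x47871) x50787) x49815) x49167) x29647)
    (Nat.add (Nat.add (Nat.add (Nat.add (Nat.add (Nat.add (Nat.add (Nat.add C (Nat.mul x49573 (nat_lit 3))) x36451) x45199) x53947) x51031) x49087) x49575) x29891)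
    (Nat.add (Nat.add (Nat.add (Nat.add (Nat.add (Nat.add (Nat.add (Nat.add (Nat.add C x49575) x36453) x45201) x53949) x51033) x49089) x49581) x49573) x29893)
    (Nat.add (Nat.add (Nat.add (Nat.add (Nat.add (Nat.add (Nat.add (Nat.add (Nat.add C x49581) x36459) x45207) x53955) x51039) x49095) x49599) x49575) x29899)
    (Nat.add (Nat.add (Nat.add (Nat.add (Nat.add (Nat.add (Nat.add (Nat.add (Nat.add C x49599) x36477) x45225) x53973) x51057) x49113) x49653) x49581) x29917)
    (Nat.add (Nat.add (Nat.add (Nat.add (Nat.add (Nat.add (Nat.add (Nat.add (Nat.add C x49653) x36531) x45279) x54027) x51111) x49167) x49815) x49599) x29971)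
    (Nat.add (Nat.add (Nat.add (Nat.add (Nat.add (Nat.add (Nat.add (Nat.add C (Nat.mul x49815 (nat_lit 3))) x36693) x45441) x54189) x51273) x49329) x49653) x30133)
    (Nat.add (Nat.add (Nat.add (Nat.add (Nat.add C (Nat.mul x50303 (nat_lit 4))) x37181) x54677) x48845) x50305)
    (Nat.add (Nat.add (Nat.add (Nat.add (Nat.add (Nat.add (Nat.add (Nat.add C (Nat.mul x50305 (nat_lit 3))) x37183) x54679) x48847) x50311) x50303) x50307) x30623)
    (Nat.add (Nat.add (Nat.add (Nat.add (Nat.add (Nat.add C x37185) x54681) x48849) x50313) x50305) x30625)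
    (Nat.add (Nat.add (Nat.add (Nat.add (Nat.add (Nat.add (Nat.add (Nat.add C (Nat.mul x50311 (nat_lit 2))) x37189) x54685) x48853) x50329) x50305) x50313) x30629)
    (Nat.add (Nat.add (Nat.add (Nat.add (Nat.add (Nat.add (Nat.add (Nat.add (Nat.add C x50313) x37191) x54687) x48855) x50331) x50307) x50319) x50311) x30631)
    (Nat.add (Nat.add (Nat.add (Nat.add (Nat.add (Nat.add C x37197) x54693) x48861) x50337) x50313) x30637)
    (Nat.add (Nat.add (Nat.add (Nat.add (Nat.add (Nat.add (Nat.add (Nat.add C (Nat.mul x50329 (nat_lit 2))) x37207) x54703) x48871) x50383) x50311) x50331) x30647)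
    (Nat.add (Nat.add (Nat.add (Nat.add (Nat.add (Nat.add (Nat.add (Nat.add C x37209) x54705) x48873) x50385) x50313) x50337) x50329) x30649)
    (Nat.add (Nat.add (Nat.add (Nat.add (Nat.add (Nat.add (Nat.add (Nat.add (Nat.add C x50337) x37215) x54711) x48879) x50391) x50319) x50355) x50331) x30655)
    (Nat.add (Nat.add (Nat.add (Nat.add (Nat.add (Nat.add C x37233) x54729) x48897) x50409) x50337) x30673)
    (Nat.add (Nat.add (Nat.add (Nat.add (Nat.add (Nat.add (Nat.add (Nat.add C (Nat.mul x50383 (nat_lit 2))) x37261) x54757) x48925) x50545) x50329) x50385) x30701)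
    (Nat.add (Nat.add (Nat.add (Nat.add (Nat.add (Nat.add (Nat.add (Nat.add C x37263) x54759) x48927) x50547) x50331) x50391) x50383) x30703)
    (Nat.add (Nat.add (Nat.add (Nat.add (Nat.add (Nat.add (Nat.add (Nat.add C x37269) x54765) x48933) x50553) x50337) x50409) x50385) x30709)
    (Nat.add (Nat.add (Nat.add (Nat.add (Nat.add (Nat.add (Nat.add (Nat.add (Nat.add C x50409) x37287) x54783) x48951) x50571) x50355) x50463) x50391) x30727)
    (Nat.add (Nat.add (Nat.add (Nat.add (Nat.add (Nat.add C x37341) x54837) x49005) x50625) x50409) x30781)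
    (Nat.add (Nat.add (Nat.add (Nat.add (Nat.add (Nat.add (Nat.add (Nat.add C (Nat.mul x50545 (nat_lit 2))) x37423) x54919) x49087) x51031) x50383) x50547) x30863)
    (Nat.add (Nat.add (Nat.add (Nat.add (Nat.add (Nat.add (Nat.add (Nat.add C x37425) x54921) x49089) x51033) x50385) x50553) x50545) x30865)
    (Nat.add (Nat.add (Nat.add (Nat.add (Nat.add (Nat.add (Nat.add (Nat.add C x37431) x54927) x49095) x51039) x50391) x50571) x50547) x30871)
    (Nat.add (Nat.add (Nat.add (Nat.add (Nat.add (Nat.add (Nat.add (Nat.add C x37449) x54945) x49113) x51057) x50409) x50625) x50553) x30889)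
    (Nat.add (Nat.add (Nat.add (Nat.add (Nat.add (Nat.add (Nat.add (Nat.add (Nat.add C x50625) x37503) x54999) x49167) x51111) x50463) x50787) x50571) x30943)
    (Nat.add (Nat.add (Nat.add (Nat.add (Nat.add (Nat.add C x37665) x55161) x49329) x51273) x50625) x31105)
    (Nat.add (Nat.add (Nat.add (Nat.add (Nat.add (Nat.add (Nat.add C (Nat.mul x51031 (nat_lit 4))) x37909) x55405) x49573) x50545) x51033) x31349)
    (Nat.add (Nat.add (Nat.add (Nat.add (Nat.add (Nat.add (Nat.add (Nat.add C (Nat.mul x51033 (nat_lit 2))) x37911) x55407) x49575) x50547) x51039) x51031) x31351)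
    (Nat.add (Nat.add (Nat.add (Nat.add (Nat.add (Nat.add (Nat.add (Nat.add C (Nat.mul x51039 (nat_lit 2))) x37917) x55413) x49581) x50553) x51057) x51033) x31357)
    (Nat.add (Nat.add (Nat.add (Nat.add (Nat.add (Nat.add (Nat.add (Nat.add C (Nat.mul x51057 (nat_lit 2))) x37935) x55431) x49599) x50571) x51111) x51039) x31375)
    (Nat.add (Nat.add (Nat.add (Nat.add (Nat.add (Nat.add (Nat.add (Nat.add C (Nat.mul x51111 (nat_lit 2))) x37989) x55485) x49653) x50625) x51273) x51057) x31429)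
    (Nat.add (Nat.add (Nat.add (Nat.add (Nat.add (Nat.add (Nat.add (Nat.add C (Nat.mul x51273 (nat_lit 3))) x38151) x55647) x49815) x50787) x51759) x51111) x31591)
    (Nat.add (Nat.add (Nat.add (Nat.add (Nat.add C (Nat.mul x51759 (nat_lit 4))) x38637) x56133) x51273) x32077)
    (Nat.add (Nat.add (Nat.add (Nat.add C (Nat.mul x52493 (nat_lit 6))) x48119) x52499) x52495)
    (Nat.add (Nat.add (Nat.add (Nat.add (Nat.add C (Nat.mul x52495 (nat_lit 4))) x48121) x52501) x52493) x32813)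
    (Nat.add (Nat.add (Nat.add (Nat.add (Nat.add C (Nat.mul x52499 (nat_lit 4))) x48125) x52517) x52493) x52501)
    (Nat.add (Nat.add (Nat.add (Nat.add (Nat.add (Nat.add (Nat.add (Nat.add C (Nat.mul x52501 (nat_lit 4))) x48127) x52519) x52495) x52507) x52499) x52503) x32819)
    (Nat.add (Nat.add (Nat.add (Nat.add (Nat.add (Nat.add C (Nat.mul x52503 (nat_lit 2))) x48129) x52521) x52509) x52501) x32821)
    (Nat.add (Nat.add (Nat.add (Nat.add (Nat.add (Nat.add C (Nat.mul x52507 (nat_lit 2))) x48133) x52525) x52501) x52509) x32825)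
    (Nat.add (Nat.add (Nat.add (Nat.add (Nat.add (Nat.add C (Nat.mul x52509 (nat_lit 2))) x48135) x52527) x52503) x52507) x32827)
    (Nat.add (Nat.add (Nat.add (Nat.add (Nat.add C (Nat.mul x52517 (nat_lit 4))) x48143) x52571) x52499) x52519)
    (Nat.add (Nat.add (Nat.add (Nat.add (Nat.add (Nat.add (Nat.add (Nat.add C (Nat.mul x52519 (nat_lit 3))) x48145) x52573) x52501) x52525) x52517) x52521) x32837)
    (Nat.add (Nat.add (Nat.add (Nat.add (Nat.add (Nat.add C x48147) x52575) x52503) x52527) x52519) x32839)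
    (Nat.add (Nat.add (Nat.add (Nat.add (Nat.add (Nat.add (Nat.add (Nat.add C (Nat.mul x52525 (nat_lit 3))) x48151) x52579) x52507) x52543) x52519) x52527) x32843)
    (Nat.add (Nat.add (Nat.add (Nat.add (Nat.add (Nat.add (Nat.add (Nat.add (Nat.add C (Nat.mul x52527 (nat_lit 2))) x48153) x52581) x52509) x52545) x52521) x52533) x52525) x32845)
    (Nat.add (Nat.add (Nat.add (Nat.add (Nat.add (Nat.add C (Nat.mul x52533 (nat_lit 2))) x48159) x52587) x52551) x52527) x32851)
    (Nat.add (Nat.add (Nat.add (Nat.add (Nat.add (Nat.add C (Nat.mul x52543 (nat_lit 2))) x48169) x52597) x52525) x52545) x32861)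
    (Nat.add (Nat.add (Nat.add (Nat.add (Nat.add (Nat.add C x48171) x52599) x52527) x52551) x52543) x32863)
    (Nat.add (Nat.add (Nat.add (Nat.add (Nat.add (Nat.add C (Nat.mul x52551 (nat_lit 2))) x48177) x52605) x52533) x52545) x32869)
    (Nat.add (Nat.add (Nat.add (Nat.add (Nat.add C (Nat.mul x52571 (nat_lit 4))) x48197) x52733) x52517) x52573)
    (Nat.add (Nat.add (Nat.add (Nat.add (Nat.add (Nat.add (Nat.add (Nat.add C (Nat.mul x52573 (nat_lit 3))) x48199) x52735) x52519) x52579) x52571) x52575) x32891)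
    (Nat.add (Nat.add (Nat.add (Nat.add (Nat.add (Nat.add C x48201) x52737) x52521) x52581) x52573) x32893)
    (Nat.add (Nat.add (Nat.add (Nat.add (Nat.add (Nat.add (Nat.add (Nat.add C (Nat.mul x52579 (nat_lit 2))) x48205) x52741) x52525) x52597) x52573) x52581) x32897)
    (Nat.add (Nat.add (Nat.add (Nat.add (Nat.add (Nat.add (Nat.add (Nat.add (Nat.add C x52581) x48207) x52743) x52527) x52599) x52575) x52587) x52579) x32899)
    (Nat.add (Nat.add (Nat.add (Nat.add (Nat.add (Nat.add C x48213) x52749) x52533) x52605) x52581) x32905)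
    (Nat.add (Nat.add (Nat.add (Nat.add (Nat.add (Nat.add (Nat.add (Nat.add C (Nat.mul x52597 (nat_lit 3))) x48223) x52759) x52543) x52651) x52579) x52599) x32915)
    (Nat.add (Nat.add (Nat.add (Nat.add (Nat.add (Nat.add (Nat.add (Nat.add (Nat.add C x52599) x48225) x52761) x52545) x52653) x52581) x52605) x52597) x32917)
    (Nat.add (Nat.add (Nat.add (Nat.add (Nat.add (Nat.add (Nat.add (Nat.add (Nat.add C (Nat.mul x52605 (nat_lit 2))) x48231) x52767) x52551) x52659) x52587) x52623) x52599) x32923)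
    (Nat.add (Nat.add (Nat.add (Nat.add (Nat.add (Nat.add C (Nat.mul x52623 (nat_lit 2))) x48249) x52785) x52677) x52605) x32941)
    (Nat.add (Nat.add (Nat.add (Nat.add (Nat.add (Nat.add C (Nat.mul x52651 (nat_lit 2))) x48277) x52813) x52597) x52653) x32969)
    (Nat.add (Nat.add (Nat.add (Nat.add (Nat.add (Nat.add C x48279) x52815) x52599) x52659) x52651) x32971)
    (Nat.add (Nat.add (Nat.add (Nat.add (Nat.add (Nat.add C x48285) x52821) x52605) x52677) x52653) x32977)
    (Nat.add (Nat.add (Nat.add (Nat.add (Nat.add (Nat.add C (Nat.mul x52677 (nat_lit 2))) x48303) x52839) x52623) x52659) x32995)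
    (Nat.add (Nat.add (Nat.add (Nat.add (Nat.add C (Nat.mul x52733 (nat_lit 4))) x48359) x53219) x52571) x52735)
    (Nat.add (Nat.add (Nat.add (Nat.add (Nat.add (Nat.add (Nat.add (Nat.add C (Nat.mul x52735 (nat_lit 3))) x48361) x53221) x52573) x52741) x52733) x52737) x33053)
    (Nat.add (Nat.add (Nat.add (Nat.add (Nat.add (Nat.add C x48363) x53223) x52575) x52743) x52735) x33055)
    (Nat.add (Nat.add (Nat.add (Nat.add (Nat.add (Nat.add (Nat.add (Nat.add C (Nat.mul x52741 (nat_lit 2))) x48367) x53227) x52579) x52759) x52735) x52743) x33059)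
    (Nat.add (Nat.add (Nat.add (Nat.add (Nat.add (Nat.add (Nat.add (Nat.add (Nat.add C x52743) x48369) x53229) x52581) x52761) x52737) x52749) x52741) x33061)
    (Nat.add (Nat.add (Nat.add (Nat.add (Nat.add (Nat.add C x48375) x53235) x52587) x52767) x52743) x33067)
    (Nat.add (Nat.add (Nat.add (Nat.add (Nat.add (Nat.add (Nat.add (Nat.add C (Nat.mul x52759 (nat_lit 2))) x48385) x53245) x52597) x52813) x52741) x52761) x33077)
    (Nat.add (Nat.add (Nat.add (Nat.add (Nat.add (Nat.add (Nat.add (Nat.add C x48387) x53247) x52599) x52815) x52743) x52767) x52759) x33079)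
    (Nat.add (Nat.add (Nat.add (Nat.add (Nat.add (Nat.add (Nat.add (Nat.add (Nat.add C x52767) x48393) x53253) x52605) x52821) x52749) x52785) x52761) x33085)
    (Nat.add (Nat.add (Nat.add (Nat.add (Nat.add (Nat.add C x48411) x53271) x52623) x52839) x52767) x33103)
    (Nat.add (Nat.add (Nat.add (Nat.add (Nat.add (Nat.add (Nat.add (Nat.add C (Nat.mul x52813 (nat_lit 3))) x48439) x53299) x52651) x52975) x52759) x52815) x33131)
    (Nat.add (Nat.add (Nat.add (Nat.add (Nat.add (Nat.add (Nat.add (Nat.add (Nat.add C x52815) x48441) x53301) x52653) x52977) x52761) x52821) x52813) x33133)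
    (Nat.add (Nat.add (Nat.add (Nat.add (Nat.add (Nat.add (Nat.add (Nat.add (Nat.add C x52821) x48447) x53307) x52659) x52983) x52767) x52839) x52815) x33139)
    (Nat.add (Nat.add (Nat.add (Nat.add (Nat.add (Nat.add (Nat.add (Nat.add (Nat.add C (Nat.mul x52839 (nat_lit 2))) x48465) x53325) x52677) x53001) x52785) x52893) x52821) x33157)
    (Nat.add (Nat.add (Nat.add (Nat.add (Nat.add (Nat.add C (Nat.mul x52893 (nat_lit 2))) x48519) x53379) x53055) x52839) x33211)
    (Nat.add (Nat.add (Nat.add (Nat.add (Nat.add (Nat.add C (Nat.mul x52975 (nat_lit 2))) x48601) x53461) x52813) x52977) x33293)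
    (Nat.add (Nat.add (Nat.add (Nat.add (Nat.add (Nat.add C x48603) x53463) x52815) x52983) x52975) x33295)
    (Nat.add (Nat.add (Nat.add (Nat.add (Nat.add (Nat.add C x48609) x53469) x52821) x53001) x52977) x33301)
    (Nat.add (Nat.add (Nat.add (Nat.add (Nat.add (Nat.add C x48627) x53487) x52839) x53055) x52983) x33319)
    (Nat.add (Nat.add (Nat.add (Nat.add (Nat.add (Nat.add C (Nat.mul x53055 (nat_lit 2))) x48681) x53541) x52893) x53001) x33373)
    (Nat.add (Nat.add (Nat.add (Nat.add (Nat.add C (Nat.mul x53219 (nat_lit 4))) x48845) x54677) x52733) x53221)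
    (Nat.add (Nat.add (Nat.add (Nat.add (Nat.add (Nat.add (Nat.add (Nat.add C (Nat.mul x53221 (nat_lit 3))) x48847) x54679) x52735) x53227) x53219) x53223) x33539)
    (Nat.add (Nat.add (Nat.add (Nat.add (Nat.add (Nat.add C x48849) x54681) x52737) x53229) x53221) x33541)
    (Nat.add (Nat.add (Nat.add (Nat.add (Nat.add (Nat.add (Nat.add (Nat.add C (Nat.mul x53227 (nat_lit 2))) x48853) x54685) x52741) x53245) x53221) x53229) x33545)
    (Nat.add (Nat.add (Nat.add (Nat.add (Nat.add (Nat.add (Nat.add (Nat.add (Nat.add C x53229) x48855) x54687) x52743) x53247) x53223) x53235) x53227) x33547)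
    (Nat.add (Nat.add (Nat.add (Nat.add (Nat.add (Nat.add C x48861) x54693) x52749) x53253) x53229) x33553)
    (Nat.add (Nat.add (Nat.add (Nat.add (Nat.add (Nat.add (Nat.add (Nat.add C (Nat.mul x53245 (nat_lit 2))) x48871) x54703) x52759) x53299) x53227) x53247) x33563)
    (Nat.add (Nat.add (Nat.add (Nat.add (Nat.add (Nat.add (Nat.add (Nat.add C x48873) x54705) x52761) x53301) x53229) x53253) x53245) x33565)
    (Nat.add (Nat.add (Nat.add (Nat.add (Nat.add (Nat.add (Nat.add (Nat.add (Nat.add C x53253) x48879) x54711) x52767) x53307) x53235) x53271) x53247) x33571)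
    (Nat.add (Nat.add (Nat.add (Nat.add (Nat.add (Nat.add C x48897) x54729) x52785) x53325) x53253) x33589)
    (Nat.add (Nat.add (Nat.add (Nat.add (Nat.add (Nat.add (Nat.add (Nat.add C (Nat.mul x53299 (nat_lit 2))) x48925) x54757) x52813) x53461) x53245) x53301) x33617)
    (Nat.add (Nat.add (Nat.add (Nat.add (Nat.add (Nat.add (Nat.add (Nat.add C x48927) x54759) x52815) x53463) x53247) x53307) x53299) x33619)
    (Nat.add (Nat.add (Nat.add (Nat.add (Nat.add (Nat.add (Nat.add (Nat.add C x48933) x54765) x52821) x53469) x53253) x53325) x53301) x33625)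
    (Nat.add (Nat.add (Nat.add (Nat.add (Nat.add (Nat.add (Nat.add (Nat.add (Nat.add C x53325) x48951) x54783) x52839) x53487) x53271) x53379) x53307) x33643)
    (Nat.add (Nat.add (Nat.add (Nat.add (Nat.add (Nat.add C x49005) x54837) x52893) x53541) x53325) x33697)
    (Nat.add (Nat.add (Nat.add (Nat.add (Nat.add (Nat.add (Nat.add (Nat.add C (Nat.mul x53461 (nat_lit 3))) x49087) x54919) x52975) x53947) x53299) x53463) x33779)
    (Nat.add (Nat.add (Nat.add (Nat.add (Nat.add (Nat.add (Nat.add (Nat.add (Nat.add C x53463) x49089) x54921) x52977) x53949) x53301) x53469) x53461) x33781)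
    (Nat.add (Nat.add (Nat.add (Nat.add (Nat.add (Nat.add (Nat.add (Nat.add (Nat.add C x53469) x49095) x54927) x52983) x53955) x53307) x53487) x53463) x33787)
    (Nat.add (Nat.add (Nat.add (Nat.add (Nat.add (Nat.add (Nat.add (Nat.add (Nat.add C x53487) x49113) x54945) x53001) x53973) x53325) x53541) x53469) x33805)
    (Nat.add (Nat.add (Nat.add (Nat.add (Nat.add (Nat.add (Nat.add (Nat.add (Nat.add C (Nat.mul x53541 (nat_lit 2))) x49167) x54999) x53055) x54027) x53379) x53703) x53487) x33859)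
    (Nat.add (Nat.add (Nat.add (Nat.add (Nat.add (Nat.add C (Nat.mul x53703 (nat_lit 2))) x49329) x55161) x54189) x53541) x34021)
    (Nat.add (Nat.add (Nat.add (Nat.add (Nat.add (Nat.add C (Nat.mul x53947 (nat_lit 2))) x49573) x55405) x53461) x53949) x34265)
    (Nat.add (Nat.add (Nat.add (Nat.add (Nat.add (Nat.add C x49575) x55407) x53463) x53955) x53947) x34267)
    (Nat.add (Nat.add (Nat.add (Nat.add (Nat.add (Nat.add C x49581) x55413) x53469) x53973) x53949) x34273)
    (Nat.add (Nat.add (Nat.add (Nat.add (Nat.add (Nat.add C x49599) x55431) x53487) x54027) x53955) x34291)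
    (Nat.add (Nat.add (Nat.add (Nat.add (Nat.add (Nat.add C x49653) x55485) x53541) x54189) x53973) x34345)
    (Nat.add (Nat.add (Nat.add (Nat.add (Nat.add (Nat.add C (Nat.mul x54189 (nat_lit 2))) x49815) x55647) x53703) x54027) x34507)
    (Nat.add (Nat.add (Nat.add (Nat.add C (Nat.mul x54677 (nat_lit 6))) x50303) x53219) x54679)
    (Nat.add (Nat.add (Nat.add (Nat.add (Nat.add (Nat.add (Nat.add C (Nat.mul x54679 (nat_lit 5))) x50305) x53221) x54685) x54677) x54681) x34997)
    (Nat.add (Nat.add (Nat.add (Nat.add (Nat.add (Nat.add C (Nat.mul x54681 (nat_lit 2))) x50307) x53223) x54687) x54679) x34999)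
    (Nat.add (Nat.add (Nat.add (Nat.add (Nat.add (Nat.add (Nat.add C (Nat.mul x54685 (nat_lit 4))) x50311) x53227) x54703) x54679) x54687) x35003)
    (Nat.add (Nat.add (Nat.add (Nat.add (Nat.add (Nat.add (Nat.add (Nat.add C (Nat.mul x54687 (nat_lit 3))) x50313) x53229) x54705) x54681) x54693) x54685) x35005)
    (Nat.add (Nat.add (Nat.add (Nat.add (Nat.add (Nat.add C (Nat.mul x54693 (nat_lit 2))) x50319) x53235) x54711) x54687) x35011)
    (Nat.add (Nat.add (Nat.add (Nat.add (Nat.add (Nat.add (Nat.add C (Nat.mul x54703 (nat_lit 4))) x50329) x53245) x54757) x54685) x54705) x35021)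
    (Nat.add (Nat.add (Nat.add (Nat.add (Nat.add (Nat.add (Nat.add (Nat.add C (Nat.mul x54705 (nat_lit 2))) x50331) x53247) x54759) x54687) x54711) x54703) x35023)
    (Nat.add (Nat.add (Nat.add (Nat.add (Nat.add (Nat.add (Nat.add (Nat.add C (Nat.mul x54711 (nat_lit 3))) x50337) x53253) x54765) x54693) x54729) x54705) x35029)
    (Nat.add (Nat.add (Nat.add (Nat.add (Nat.add (Nat.add C (Nat.mul x54729 (nat_lit 2))) x50355) x53271) x54783) x54711) x35047)
    (Nat.add (Nat.add (Nat.add (Nat.add (Nat.add (Nat.add (Nat.add C (Nat.mul x54757 (nat_lit 4))) x50383) x53299) x54919) x54703) x54759) x35075)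
    (Nat.add (Nat.add (Nat.add (Nat.add (Nat.add (Nat.add (Nat.add (Nat.add C (Nat.mul x54759 (nat_lit 2))) x50385) x53301) x54921) x54705) x54765) x54757) x35077)
    (Nat.add (Nat.add (Nat.add (Nat.add (Nat.add (Nat.add (Nat.add (Nat.add C (Nat.mul x54765 (nat_lit 2))) x50391) x53307) x54927) x54711) x54783) x54759) x35083)
    (Nat.add (Nat.add (Nat.add (Nat.add (Nat.add (Nat.add (Nat.add (Nat.add C (Nat.mul x54783 (nat_lit 3))) x50409) x53325) x54945) x54729) x54837) x54765) x35101)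
    (Nat.add (Nat.add (Nat.add (Nat.add (Nat.add (Nat.add C (Nat.mul x54837 (nat_lit 2))) x50463) x53379) x54999) x54783) x35155)
    (Nat.add (Nat.add (Nat.add (Nat.add (Nat.add (Nat.add (Nat.add C (Nat.mul x54919 (nat_lit 4))) x50545) x53461) x55405) x54757) x54921) x35237)
    (Nat.add (Nat.add (Nat.add (Nat.add (Nat.add (Nat.add (Nat.add (Nat.add C (Nat.mul x54921 (nat_lit 2))) x50547) x53463) x55407) x54759) x54927) x54919) x35239)
    (Nat.add (Nat.add (Nat.add (Nat.add (Nat.add (Nat.add (Nat.add (Nat.add C (Nat.mul x54927 (nat_lit 2))) x50553) x53469) x55413) x54765) x54945) x54921) x35245)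
    (Nat.add (Nat.add (Nat.add (Nat.add (Nat.add (Nat.add (Nat.add (Nat.add C (Nat.mul x54945 (nat_lit 2))) x50571) x53487) x55431) x54783) x54999) x54927) x35263)
    (Nat.add (Nat.add (Nat.add (Nat.add (Nat.add (Nat.add (Nat.add (Nat.add C (Nat.mul x54999 (nat_lit 3))) x50625) x53541) x55485) x54837) x55161) x54945) x35317)
    (Nat.add (Nat.add (Nat.add (Nat.add (Nat.add (Nat.add C (Nat.mul x55161 (nat_lit 2))) x50787) x53703) x55647) x54999) x35479)
    (Nat.add (Nat.add (Nat.add (Nat.add (Nat.add (Nat.add (Nat.add C (Nat.mul x55405 (nat_lit 5))) x51031) x53947) x56863) x54919) x55407) x35723)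
    (Nat.add (Nat.add (Nat.add (Nat.add (Nat.add (Nat.add (Nat.add (Nat.add C (Nat.mul x55407 (nat_lit 3))) x51033) x53949) x56865) x54921) x55413) x55405) x35725)
    (Nat.add (Nat.add (Nat.add (Nat.add (Nat.add (Nat.add (Nat.add (Nat.add C (Nat.mul x55413 (nat_lit 3))) x51039) x53955) x56871) x54927) x55431) x55407) x35731)
    (Nat.add (Nat.add (Nat.add (Nat.add (Nat.add (Nat.add (Nat.add (Nat.add C (Nat.mul x55431 (nat_lit 3))) x51057) x53973) x56889) x54945) x55485) x55413) x35749)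
    (Nat.add (Nat.add (Nat.add (Nat.add (Nat.add (Nat.add (Nat.add (Nat.add C (Nat.mul x55485 (nat_lit 3))) x51111) x54027) x56943) x54999) x55647) x55431) x35803)
    (Nat.add (Nat.add (Nat.add (Nat.add (Nat.add (Nat.add (Nat.add (Nat.add C (Nat.mul x55647 (nat_lit 4))) x51273) x54189) x57105) x55161) x56133) x55485) x35965)
    (Nat.add (Nat.add (Nat.add (Nat.add (Nat.add C (Nat.mul x56133 (nat_lit 4))) x51759) x57591) x55647) x36451)
    (Nat.add (Nat.add (Nat.add (Nat.add C (Nat.mul x56863 (nat_lit 6))) x55405) x56865) x37181)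
    (Nat.add (Nat.add (Nat.add (Nat.add (Nat.add C (Nat.mul x56865 (nat_lit 4))) x55407) x56871) x56863) x37183)
    (Nat.add (Nat.add (Nat.add (Nat.add (Nat.add C (Nat.mul x56871 (nat_lit 4))) x55413) x56889) x56865) x37189)
    (Nat.add (Nat.add (Nat.add (Nat.add (Nat.add C (Nat.mul x56889 (nat_lit 4))) x55431) x56943) x56871) x37207)
    (Nat.add (Nat.add (Nat.add (Nat.add (Nat.add C (Nat.mul x56943 (nat_lit 4))) x55485) x57105) x56889) x37261)
    (Nat.add (Nat.add (Nat.add (Nat.add (Nat.add C (Nat.mul x57105 (nat_lit 4))) x55647) x57591) x56943) x37423)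
    (Nat.add (Nat.add (Nat.add (Nat.add C (Nat.mul x57591 (nat_lit 6))) x56133) x57105) x37909)

theorem ap_eq (x : Nat → Nat) (k : FnLL specs) : apLL (fun t => x t.cd) specs k = A10_7.ap x k :=
  Eq.refl (A10_7.ap x k)

theorem step_eq0 (e : Nat → Nat) (C p r : Nat) (k : FnLL specs) (x : Nat → Nat) :
    A10_7.ap x (step e C p r k) = apLL (interp e C p r x) specs k :=
  Eq.refl (A10_7.ap x (step e C p r k))

theorem spec_ok : specOK 9 false A10_7.mask specs = true := by decide +kernel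

theorem step_eq (e : Nat → Nat) (C p r : Nat) (k : A10_7.KK) (x : Nat → Nat) :
    A10_7.ap x (step e C p r k) = A10_7.ap (row 9 false A10_7.mask e C p r x) k :=
  ((step_eq0 e C p r k x).trans (apLL_row 9 false A10_7.mask specs spec_ok e C p r x k)).trans
    (ap_eq (row 9 false A10_7.mask e C p r x) k)

end Vale.Agent.P348.G10_7_0
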