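import Vale.Agent.P348.G.A10_8

set_option maxRecDepth 1000000
set_option maxHeartbeats 0
set_option linter.all false

namespace Vale.Agent.P348.G10_8_1

noncomputable def sp0 : List Spec :=
  [Spec.mk (nat_lit 80) (nat_lit 6) [nat_lit 134] (nat_lit 0) [nat_lit 19762] true,
   Spec.mk (nat_lit 134) (nat_lit 5) [nat_lit 296, nat_lit 80, nat_lit 188, nat_lit 152] (nat_lit 0) [nat_lit 19816] true,
   Spec.mk (nat_lit 152) (nat_lit 4) [nat_lit 314, nat_lit 206, nat_lit 134, nat_lit 158] (nat_lit 0) [nat_lit 19834] true,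
   Spec.mk (nat_lit 158) (nat_lit 4) [nat_lit 320, nat_lit 212, nat_lit 152, nat_lit 160] (nat_lit 0) [nat_lit 19840] true,
   Spec.mk (nat_lit 160) (nat_lit 6) [nat_lit 322, nat_lit 214, nat_lit 158] (nat_lit 0) [nat_lit 19842] true,
   Spec.mk (nat_lit 188) (nat_lit 2) [nat_lit 350, nat_lit 134, nat_lit 206] (nat_lit 0) [nat_lit 19870] true,
   Spec.mk (nat_lit 206) (nat_lit 3) [nat_lit 368, nat_lit 152, nat_lit 188, nat_lit 224, nat_lit 212] (nat_lit 0) [nat_lit 19888] true,
   Spec.mk (nat_lit 212) (nat_lit 2) [nat_lit 374, nat_lit 158, nat_lit 230, nat_lit 206, nat_lit 214] (nat_lit 0) [nat_lit 19894] true,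
   Spec.mk (nat_lit 214) (nat_lit 4) [nat_lit 376, nat_lit 160, nat_lit 232, nat_lit 212] (nat_lit 0) [nat_lit 19896] false,
   Spec.mk (nat_lit 224) (nat_lit 2) [nat_lit 386, nat_lit 206, nat_lit 230] (nat_lit 0) [nat_lit 19906] true,
   Spec.mk (nat_lit 230) (nat_lit 3) [nat_lit 392, nat_lit 212, nat_lit 224, nat_lit 236, nat_lit 232] (nat_lit 0) [nat_lit 19912] false,
   Spec.mk (nat_lit 232) (nat_lit 4) [nat_lit 394, nat_lit 214, nat_lit 238, nat_lit 230] (nat_lit 0) [nat_lit 19914] false,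
   Spec.mk (nat_lit 236) (nat_lit 2) [nat_lit 398, nat_lit 230, nat_lit 238] (nat_lit 0) [nat_lit 19918] false,
   Spec.mk (nat_lit 238) (nat_lit 5) [nat_lit 400, nat_lit 232, nat_lit 236, nat_lit 240] (nat_lit 0) [nat_lit 19920] false,
   Spec.mk (nat_lit 240) (nat_lit 6) [nat_lit 402, nat_lit 238] (nat_lit 0) [] false,
   Spec.mk (nat_lit 296) (nat_lit 4) [nat_lit 782, nat_lit 134, nat_lit 350, nat_lit 314] (nat_lit 0) [nat_lit 19978] true,
   Spec.mk (nat_lit 314) (nat_lit 2) [nat_lit 800, nat_lit 152, nat_lit 368, nat_lit 296, nat_lit 320] (nat_lit 0) [nat_lit 19996] true,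
   Spec.mk (nat_lit 320) (nat_lit 2) [nat_lit 806, nat_lit 158, nat_lit 374, nat_lit 314, nat_lit 322] (nat_lit 0) [nat_lit 20002] true,
   Spec.mk (nat_lit 322) (nat_lit 4) [nat_lit 808, nat_lit 160, nat_lit 376, nat_lit 320] (nat_lit 0) [nat_lit 20004] true,
   Spec.mk (nat_lit 350) (nat_lit 3) [nat_lit 836, nat_lit 188, nat_lit 512, nat_lit 296, nat_lit 368] (nat_lit 0) [nat_lit 20032] true,
   Spec.mk (nat_lit 368) (nat_lit 3) [nat_lit 854, nat_lit 206, nat_lit 530, nat_lit 314, nat_lit 422, nat_lit 350, nat_lit 386, nat_lit 374] (nat_lit 0) [nat_lit 20050] true,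
   Spec.mk (nat_lit 374) (nat_lit 2) [nat_lit 860, nat_lit 212, nat_lit 536, nat_lit 320, nat_lit 428, nat_lit 392, nat_lit 368, nat_lit 376] (nat_lit 0) [nat_lit 20056] true,
   Spec.mk (nat_lit 376) (nat_lit 4) [nat_lit 862, nat_lit 214, nat_lit 538, nat_lit 322, nat_lit 430, nat_lit 394, nat_lit 374] (nat_lit 0) [nat_lit 20058] true,
   Spec.mk (nat_lit 386) (nat_lit 1) [nat_lit 872, nat_lit 224, nat_lit 548, nat_lit 440, nat_lit 368, nat_lit 392] (nat_lit 0) [nat_lit 20068] true,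
   Spec.mk (nat_lit 392) (nat_lit 2) [nat_lit 878, nat_lit 230, nat_lit 554, nat_lit 446, nat_lit 374, nat_lit 386, nat_lit 398, nat_lit 394] (nat_lit 0) [nat_lit 20074] true,
   Spec.mk (nat_lit 394) (nat_lit 3) [nat_lit 880, nat_lit 232, nat_lit 556, nat_lit 448, nat_lit 376, nat_lit 400, nat_lit 392] (nat_lit 0) [nat_lit 20076] true,
   Spec.mk (nat_lit 398) (nat_lit 1) [nat_lit 884, nat_lit 236, nat_lit 560, nat_lit 452, nat_lit 392, nat_lit 400] (nat_lit 0) [nat_lit 20080] true,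
   Spec.mk (nat_lit 400) (nat_lit 4) [nat_lit 886, nat_lit 238, nat_lit 562, nat_lit 454, nat_lit 394, nat_lit 398, nat_lit 402] (nat_lit 0) [nat_lit 20082] true,
   Spec.mk (nat_lit 402) (nat_lit 5) [nat_lit 888, nat_lit 240, nat_lit 564, nat_lit 456, nat_lit 400] (nat_lit 0) [] false,
   Spec.mk (nat_lit 422) (nat_lit 2) [nat_lit 908, nat_lit 584, nat_lit 368, nat_lit 440, nat_lit 428] (nat_lit 0) [nat_lit 20104] true,
   Spec.mk (nat_lit 428) (nat_lit 0) [nat_lit 914, nat_lit 590, nat_lit 374, nat_lit 446, nat_lit 422, nat_lit 430] (nat_lit 0) [nat_lit 20110] true,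
   Spec.mk (nat_lit 430) (nat_lit 2) [nat_lit 916, nat_lit 592, nat_lit 376, nat_lit 448, nat_lit 428] (nat_lit 0) [nat_lit 20112] true,
   Spec.mk (nat_lit 440) (nat_lit 2) [nat_lit 926, nat_lit 602, nat_lit 386, nat_lit 422, nat_lit 446] (nat_lit 0) [nat_lit 20122] true,
   Spec.mk (nat_lit 446) (nat_lit 2) [nat_lit 932, nat_lit 608, nat_lit 392, nat_lit 428, nat_lit 464, nat_lit 440, nat_lit 452, nat_lit 448] (nat_lit 0) [nat_lit 20128] true,
   Spec.mk (nat_lit 448) (nat_lit 3) [nat_lit 934, nat_lit 610, nat_lit 394, nat_lit 430, nat_lit 466, nat_lit 454, nat_lit 446] (nat_lit 0) [nat_lit 20130] true,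
   Spec.mk (nat_lit 452) (nat_lit 0) [nat_lit 938, nat_lit 614, nat_lit 398, nat_lit 470, nat_lit 446, nat_lit 454] (nat_lit 0) [nat_lit 20134] true,
   Spec.mk (nat_lit 454) (nat_lit 3) [nat_lit 940, nat_lit 616, nat_lit 400, nat_lit 472, nat_lit 448, nat_lit 452, nat_lit 456] (nat_lit 0) [nat_lit 20136] false,
   Spec.mk (nat_lit 456) (nat_lit 4) [nat_lit 942, nat_lit 618, nat_lit 402, nat_lit 474, nat_lit 454] (nat_lit 0) [] false,
   Spec.mk (nat_lit 464) (nat_lit 2) [nat_lit 950, nat_lit 626, nat_lit 446, nat_lit 470, nat_lit 466] (nat_lit 0) [nat_lit 20146] true,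
   Spec.mk (nat_lit 466) (nat_lit 2) [nat_lit 952, nat_lit 628, nat_lit 448, nat_lit 472, nat_lit 464] (nat_lit 0) [nat_lit 20148] false,
   Spec.mk (nat_lit 470) (nat_lit 2) [nat_lit 956, nat_lit 632, nat_lit 452, nat_lit 464, nat_lit 472] (nat_lit 0) [nat_lit 20152] true,
   Spec.mk (nat_lit 472) (nat_lit 4) [nat_lit 958, nat_lit 634, nat_lit 454, nat_lit 466, nat_lit 478, nat_lit 470, nat_lit 474] (nat_lit 0) [nat_lit 20154] false,
   Spec.mk (nat_lit 474) (nat_lit 4) [nat_lit 960, nat_lit 636, nat_lit 456, nat_lit 480, nat_lit 472] (nat_lit 0) [] false,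
   Spec.mk (nat_lit 478) (nat_lit 4) [nat_lit 964, nat_lit 640, nat_lit 472, nat_lit 480] (nat_lit 0) [nat_lit 20160] false,
   Spec.mk (nat_lit 480) (nat_lit 6) [nat_lit 966, nat_lit 642, nat_lit 474, nat_lit 478] (nat_lit 0) [] false,
   Spec.mk (nat_lit 512) (nat_lit 2) [nat_lit 998, nat_lit 350, nat_lit 530] (nat_lit 0) [nat_lit 20194] true,
   Spec.mk (nat_lit 530) (nat_lit 1) [nat_lit 1016, nat_lit 368, nat_lit 584, nat_lit 512, nat_lit 548, nat_lit 536] (nat_lit 0) [nat_lit 20212] true,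
   Spec.mk (nat_lit 536) (nat_lit 0) [nat_lit 1022, nat_lit 374, nat_lit 590, nat_lit 554, nat_lit 530, nat_lit 538] (nat_lit 0) [nat_lit 20218] true,
   Spec.mk (nat_lit 538) (nat_lit 2) [nat_lit 1024, nat_lit 376, nat_lit 592, nat_lit 556, nat_lit 536] (nat_lit 0) [nat_lit 20220] false,
   Spec.mk (nat_lit 548) (nat_lit 0) [nat_lit 1034, nat_lit 386, nat_lit 602, nat_lit 530, nat_lit 554] (nat_lit 2) [nat_lit 20230] true,
   Spec.mk (nat_lit 554) (nat_lit 0) [nat_lit 1040, nat_lit 392, nat_lit 608, nat_lit 536, nat_lit 548, nat_lit 560, nat_lit 556] (nat_lit 1) [nat_lit 20236] true,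
   Spec.mk (nat_lit 556) (nat_lit 0) [nat_lit 1042, nat_lit 394, nat_lit 610, nat_lit 538, nat_lit 562, nat_lit 554] (nat_lit 0) [nat_lit 20238] false,
   Spec.mk (nat_lit 560) (nat_lit 0) [nat_lit 1046, nat_lit 398, nat_lit 614, nat_lit 554, nat_lit 562] (nat_lit 2) [nat_lit 20242] true,
   Spec.mk (nat_lit 562) (nat_lit 1) [nat_lit 1048, nat_lit 400, nat_lit 616, nat_lit 556, nat_lit 560, nat_lit 564] (nat_lit 0) [nat_lit 20244] false,
   Spec.mk (nat_lit 564) (nat_lit 2) [nat_lit 1050, nat_lit 402, nat_lit 618, nat_lit 562] (nat_lit 0) [] false,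
   Spec.mk (nat_lit 584) (nat_lit 2) [nat_lit 1070, nat_lit 422, nat_lit 530, nat_lit 602, nat_lit 590] (nat_lit 0) [nat_lit 20266] true,
   Spec.mk (nat_lit 590) (nat_lit 0) [nat_lit 1076, nat_lit 428, nat_lit 536, nat_lit 608, nat_lit 584, nat_lit 592] (nat_lit 0) [nat_lit 20272] true,
   Spec.mk (nat_lit 592) (nat_lit 2) [nat_lit 1078, nat_lit 430, nat_lit 538, nat_lit 610, nat_lit 590] (nat_lit 0) [nat_lit 20274] false,
   Spec.mk (nat_lit 602) (nat_lit 1) [nat_lit 1088, nat_lit 440, nat_lit 548, nat_lit 656, nat_lit 584, nat_lit 608] (nat_lit 0) [nat_lit 20284] true,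
   Spec.mk (nat_lit 608) (nat_lit 1) [nat_lit 1094, nat_lit 446, nat_lit 554, nat_lit 662, nat_lit 590, nat_lit 626, nat_lit 602, nat_lit 614, nat_lit 610] (nat_lit 0) [nat_lit 20290] true]

noncomputable def sp1 : List Spec :=
  [Spec.mk (nat_lit 610) (nat_lit 2) [nat_lit 1096, nat_lit 448, nat_lit 556, nat_lit 664, nat_lit 592, nat_lit 628, nat_lit 616, nat_lit 608] (nat_lit 0) [nat_lit 20292] false,
   Spec.mk (nat_lit 614) (nat_lit 0) [nat_lit 1100, nat_lit 452, nat_lit 560, nat_lit 668, nat_lit 632, nat_lit 608, nat_lit 616] (nat_lit 1) [nat_lit 20296] false,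
   Spec.mk (nat_lit 616) (nat_lit 2) [nat_lit 1102, nat_lit 454, nat_lit 562, nat_lit 670, nat_lit 634, nat_lit 610, nat_lit 614, nat_lit 618] (nat_lit 0) [nat_lit 20298] false,
   Spec.mk (nat_lit 618) (nat_lit 3) [nat_lit 1104, nat_lit 456, nat_lit 564, nat_lit 672, nat_lit 636, nat_lit 616] (nat_lit 0) [] false,
   Spec.mk (nat_lit 626) (nat_lit 0) [nat_lit 1112, nat_lit 464, nat_lit 680, nat_lit 608, nat_lit 632, nat_lit 628] (nat_lit 0) [nat_lit 20308] false,
   Spec.mk (nat_lit 628) (nat_lit 0) [nat_lit 1114, nat_lit 466, nat_lit 682, nat_lit 610, nat_lit 634, nat_lit 626] (nat_lit 0) [nat_lit 20310] false,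
   Spec.mk (nat_lit 632) (nat_lit 0) [nat_lit 1118, nat_lit 470, nat_lit 686, nat_lit 614, nat_lit 626, nat_lit 634] (nat_lit 0) [nat_lit 20314] false,
   Spec.mk (nat_lit 634) (nat_lit 2) [nat_lit 1120, nat_lit 472, nat_lit 688, nat_lit 616, nat_lit 628, nat_lit 640, nat_lit 632, nat_lit 636] (nat_lit 0) [nat_lit 20316] false,
   Spec.mk (nat_lit 636) (nat_lit 2) [nat_lit 1122, nat_lit 474, nat_lit 690, nat_lit 618, nat_lit 642, nat_lit 634] (nat_lit 0) [] false,
   Spec.mk (nat_lit 640) (nat_lit 2) [nat_lit 1126, nat_lit 478, nat_lit 694, nat_lit 634, nat_lit 642] (nat_lit 0) [nat_lit 20322] false,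
   Spec.mk (nat_lit 642) (nat_lit 4) [nat_lit 1128, nat_lit 480, nat_lit 696, nat_lit 636, nat_lit 640] (nat_lit 0) [] false,
   Spec.mk (nat_lit 656) (nat_lit 2) [nat_lit 1142, nat_lit 602, nat_lit 662] (nat_lit 0) [nat_lit 20338] true,
   Spec.mk (nat_lit 662) (nat_lit 1) [nat_lit 1148, nat_lit 608, nat_lit 680, nat_lit 656, nat_lit 668, nat_lit 664] (nat_lit 0) [nat_lit 20344] false,
   Spec.mk (nat_lit 664) (nat_lit 2) [nat_lit 1150, nat_lit 610, nat_lit 682, nat_lit 670, nat_lit 662] (nat_lit 0) [nat_lit 20346] false,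
   Spec.mk (nat_lit 668) (nat_lit 0) [nat_lit 1154, nat_lit 614, nat_lit 686, nat_lit 662, nat_lit 670] (nat_lit 2) [nat_lit 20350] false,
   Spec.mk (nat_lit 670) (nat_lit 1) [nat_lit 1156, nat_lit 616, nat_lit 688, nat_lit 664, nat_lit 668, nat_lit 672] (nat_lit 0) [nat_lit 20352] false,
   Spec.mk (nat_lit 672) (nat_lit 2) [nat_lit 1158, nat_lit 618, nat_lit 690, nat_lit 670] (nat_lit 0) [] false,
   Spec.mk (nat_lit 680) (nat_lit 2) [nat_lit 1166, nat_lit 626, nat_lit 662, nat_lit 686, nat_lit 682] (nat_lit 0) [nat_lit 20362] false,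
   Spec.mk (nat_lit 682) (nat_lit 2) [nat_lit 1168, nat_lit 628, nat_lit 664, nat_lit 688, nat_lit 680] (nat_lit 0) [nat_lit 20364] false,
   Spec.mk (nat_lit 686) (nat_lit 1) [nat_lit 1172, nat_lit 632, nat_lit 668, nat_lit 704, nat_lit 680, nat_lit 688] (nat_lit 0) [nat_lit 20368] false,
   Spec.mk (nat_lit 688) (nat_lit 3) [nat_lit 1174, nat_lit 634, nat_lit 670, nat_lit 706, nat_lit 682, nat_lit 694, nat_lit 686, nat_lit 690] (nat_lit 0) [nat_lit 20370] false,
   Spec.mk (nat_lit 690) (nat_lit 3) [nat_lit 1176, nat_lit 636, nat_lit 672, nat_lit 708, nat_lit 696, nat_lit 688] (nat_lit 0) [] false,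
   Spec.mk (nat_lit 694) (nat_lit 2) [nat_lit 1180, nat_lit 640, nat_lit 712, nat_lit 688, nat_lit 696] (nat_lit 0) [nat_lit 20376] false,
   Spec.mk (nat_lit 696) (nat_lit 4) [nat_lit 1182, nat_lit 642, nat_lit 714, nat_lit 690, nat_lit 694] (nat_lit 0) [] false,
   Spec.mk (nat_lit 704) (nat_lit 2) [nat_lit 1190, nat_lit 686, nat_lit 706] (nat_lit 0) [nat_lit 20386] false,
   Spec.mk (nat_lit 706) (nat_lit 3) [nat_lit 1192, nat_lit 688, nat_lit 712, nat_lit 704, nat_lit 708] (nat_lit 0) [nat_lit 20388] false,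
   Spec.mk (nat_lit 708) (nat_lit 2) [nat_lit 1194, nat_lit 690, nat_lit 714, nat_lit 706] (nat_lit 0) [] false,
   Spec.mk (nat_lit 712) (nat_lit 4) [nat_lit 1198, nat_lit 694, nat_lit 706, nat_lit 714] (nat_lit 0) [nat_lit 20394] false,
   Spec.mk (nat_lit 714) (nat_lit 5) [nat_lit 1200, nat_lit 696, nat_lit 708, nat_lit 720, nat_lit 712] (nat_lit 0) [] false,
   Spec.mk (nat_lit 720) (nat_lit 6) [nat_lit 1206, nat_lit 714] (nat_lit 0) [] false,
   Spec.mk (nat_lit 782) (nat_lit 4) [nat_lit 2240, nat_lit 296, nat_lit 836, nat_lit 800] (nat_lit 0) [nat_lit 20464] true,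
   Spec.mk (nat_lit 800) (nat_lit 2) [nat_lit 2258, nat_lit 314, nat_lit 854, nat_lit 782, nat_lit 806] (nat_lit 0) [nat_lit 20482] true,
   Spec.mk (nat_lit 806) (nat_lit 2) [nat_lit 2264, nat_lit 320, nat_lit 860, nat_lit 800, nat_lit 808] (nat_lit 0) [nat_lit 20488] true,
   Spec.mk (nat_lit 808) (nat_lit 4) [nat_lit 2266, nat_lit 322, nat_lit 862, nat_lit 806] (nat_lit 0) [nat_lit 20490] true,
   Spec.mk (nat_lit 836) (nat_lit 2) [nat_lit 2294, nat_lit 350, nat_lit 998, nat_lit 782, nat_lit 854] (nat_lit 0) [nat_lit 20518] true,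
   Spec.mk (nat_lit 854) (nat_lit 2) [nat_lit 2312, nat_lit 368, nat_lit 1016, nat_lit 800, nat_lit 908, nat_lit 836, nat_lit 872, nat_lit 860] (nat_lit 0) [nat_lit 20536] true,
   Spec.mk (nat_lit 860) (nat_lit 1) [nat_lit 2318, nat_lit 374, nat_lit 1022, nat_lit 806, nat_lit 914, nat_lit 878, nat_lit 854, nat_lit 862] (nat_lit 0) [nat_lit 20542] true,
   Spec.mk (nat_lit 862) (nat_lit 3) [nat_lit 2320, nat_lit 376, nat_lit 1024, nat_lit 808, nat_lit 916, nat_lit 880, nat_lit 860] (nat_lit 0) [nat_lit 20544] true,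
   Spec.mk (nat_lit 872) (nat_lit 0) [nat_lit 2330, nat_lit 386, nat_lit 1034, nat_lit 926, nat_lit 854, nat_lit 878] (nat_lit 0) [nat_lit 20554] true,
   Spec.mk (nat_lit 878) (nat_lit 1) [nat_lit 2336, nat_lit 392, nat_lit 1040, nat_lit 932, nat_lit 860, nat_lit 872, nat_lit 884, nat_lit 880] (nat_lit 0) [nat_lit 20560] true,
   Spec.mk (nat_lit 880) (nat_lit 2) [nat_lit 2338, nat_lit 394, nat_lit 1042, nat_lit 934, nat_lit 862, nat_lit 886, nat_lit 878] (nat_lit 0) [nat_lit 20562] true,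
   Spec.mk (nat_lit 884) (nat_lit 0) [nat_lit 2342, nat_lit 398, nat_lit 1046, nat_lit 938, nat_lit 878, nat_lit 886] (nat_lit 0) [nat_lit 20566] true,
   Spec.mk (nat_lit 886) (nat_lit 3) [nat_lit 2344, nat_lit 400, nat_lit 1048, nat_lit 940, nat_lit 880, nat_lit 884, nat_lit 888] (nat_lit 0) [nat_lit 20568] true,
   Spec.mk (nat_lit 888) (nat_lit 4) [nat_lit 2346, nat_lit 402, nat_lit 1050, nat_lit 942, nat_lit 886] (nat_lit 0) [] false,
   Spec.mk (nat_lit 908) (nat_lit 0) [nat_lit 2366, nat_lit 422, nat_lit 1070, nat_lit 854, nat_lit 926, nat_lit 914] (nat_lit 0) [nat_lit 20590] true,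
   Spec.mk (nat_lit 914) (nat_lit 0) [nat_lit 2372, nat_lit 428, nat_lit 1076, nat_lit 860, nat_lit 932, nat_lit 908, nat_lit 916] (nat_lit 2) [nat_lit 20596] true,
   Spec.mk (nat_lit 916) (nat_lit 0) [nat_lit 2374, nat_lit 430, nat_lit 1078, nat_lit 862, nat_lit 934, nat_lit 914] (nat_lit 0) [nat_lit 20598] true,
   Spec.mk (nat_lit 926) (nat_lit 0) [nat_lit 2384, nat_lit 440, nat_lit 1088, nat_lit 872, nat_lit 908, nat_lit 932] (nat_lit 0) [nat_lit 20608] true,
   Spec.mk (nat_lit 932) (nat_lit 0) [nat_lit 2390, nat_lit 446, nat_lit 1094, nat_lit 878, nat_lit 914, nat_lit 950, nat_lit 926, nat_lit 938, nat_lit 934] (nat_lit 0) [nat_lit 20614] true,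
   Spec.mk (nat_lit 934) (nat_lit 1) [nat_lit 2392, nat_lit 448, nat_lit 1096, nat_lit 880, nat_lit 916, nat_lit 952, nat_lit 940, nat_lit 932] (nat_lit 0) [nat_lit 20616] true,
   Spec.mk (nat_lit 938) (nat_lit 0) [nat_lit 2396, nat_lit 452, nat_lit 1100, nat_lit 884, nat_lit 956, nat_lit 932, nat_lit 940] (nat_lit 2) [nat_lit 20620] true,
   Spec.mk (nat_lit 940) (nat_lit 1) [nat_lit 2398, nat_lit 454, nat_lit 1102, nat_lit 886, nat_lit 958, nat_lit 934, nat_lit 938, nat_lit 942] (nat_lit 0) [nat_lit 20622] true,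
   Spec.mk (nat_lit 942) (nat_lit 2) [nat_lit 2400, nat_lit 456, nat_lit 1104, nat_lit 888, nat_lit 960, nat_lit 940] (nat_lit 0) [] false,
   Spec.mk (nat_lit 950) (nat_lit 0) [nat_lit 2408, nat_lit 464, nat_lit 1112, nat_lit 932, nat_lit 956, nat_lit 952] (nat_lit 0) [nat_lit 20632] true,
   Spec.mk (nat_lit 952) (nat_lit 0) [nat_lit 2410, nat_lit 466, nat_lit 1114, nat_lit 934, nat_lit 958, nat_lit 950] (nat_lit 0) [nat_lit 20634] true,
   Spec.mk (nat_lit 956) (nat_lit 0) [nat_lit 2414, nat_lit 470, nat_lit 1118, nat_lit 938, nat_lit 950, nat_lit 958] (nat_lit 0) [nat_lit 20638] true,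
   Spec.mk (nat_lit 958) (nat_lit 2) [nat_lit 2416, nat_lit 472, nat_lit 1120, nat_lit 940, nat_lit 952, nat_lit 964, nat_lit 956, nat_lit 960] (nat_lit 0) [nat_lit 20640] true,
   Spec.mk (nat_lit 960) (nat_lit 2) [nat_lit 2418, nat_lit 474, nat_lit 1122, nat_lit 942, nat_lit 966, nat_lit 958] (nat_lit 0) [] false,
   Spec.mk (nat_lit 964) (nat_lit 2) [nat_lit 2422, nat_lit 478, nat_lit 1126, nat_lit 958, nat_lit 966] (nat_lit 0) [nat_lit 20646] true,
   Spec.mk (nat_lit 966) (nat_lit 4) [nat_lit 2424, nat_lit 480, nat_lit 1128, nat_lit 960, nat_lit 964] (nat_lit 0) [] false]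

noncomputable def sp2 : List Spec :=
  [Spec.mk (nat_lit 998) (nat_lit 3) [nat_lit 2456, nat_lit 512, nat_lit 1484, nat_lit 836, nat_lit 1016] (nat_lit 0) [nat_lit 20680] true,
   Spec.mk (nat_lit 1016) (nat_lit 2) [nat_lit 2474, nat_lit 530, nat_lit 1502, nat_lit 854, nat_lit 1070, nat_lit 998, nat_lit 1034, nat_lit 1022] (nat_lit 0) [nat_lit 20698] true,
   Spec.mk (nat_lit 1022) (nat_lit 1) [nat_lit 2480, nat_lit 536, nat_lit 1508, nat_lit 860, nat_lit 1076, nat_lit 1040, nat_lit 1016, nat_lit 1024] (nat_lit 0) [nat_lit 20704] true,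
   Spec.mk (nat_lit 1024) (nat_lit 3) [nat_lit 2482, nat_lit 538, nat_lit 1510, nat_lit 862, nat_lit 1078, nat_lit 1042, nat_lit 1022] (nat_lit 0) [nat_lit 20706] true,
   Spec.mk (nat_lit 1034) (nat_lit 0) [nat_lit 2492, nat_lit 548, nat_lit 1520, nat_lit 872, nat_lit 1088, nat_lit 1016, nat_lit 1040] (nat_lit 1) [nat_lit 20716] true,
   Spec.mk (nat_lit 1040) (nat_lit 0) [nat_lit 2498, nat_lit 554, nat_lit 1526, nat_lit 878, nat_lit 1094, nat_lit 1022, nat_lit 1034, nat_lit 1046, nat_lit 1042] (nat_lit 0) [nat_lit 20722] true,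
   Spec.mk (nat_lit 1042) (nat_lit 1) [nat_lit 2500, nat_lit 556, nat_lit 1528, nat_lit 880, nat_lit 1096, nat_lit 1024, nat_lit 1048, nat_lit 1040] (nat_lit 0) [nat_lit 20724] true,
   Spec.mk (nat_lit 1046) (nat_lit 0) [nat_lit 2504, nat_lit 560, nat_lit 1532, nat_lit 884, nat_lit 1100, nat_lit 1040, nat_lit 1048] (nat_lit 1) [nat_lit 20728] true,
   Spec.mk (nat_lit 1048) (nat_lit 2) [nat_lit 2506, nat_lit 562, nat_lit 1534, nat_lit 886, nat_lit 1102, nat_lit 1042, nat_lit 1046, nat_lit 1050] (nat_lit 0) [nat_lit 20730] true,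
   Spec.mk (nat_lit 1050) (nat_lit 3) [nat_lit 2508, nat_lit 564, nat_lit 1536, nat_lit 888, nat_lit 1104, nat_lit 1048] (nat_lit 0) [] false,
   Spec.mk (nat_lit 1070) (nat_lit 2) [nat_lit 2528, nat_lit 584, nat_lit 1556, nat_lit 908, nat_lit 1232, nat_lit 1016, nat_lit 1088, nat_lit 1076] (nat_lit 0) [nat_lit 20752] true,
   Spec.mk (nat_lit 1076) (nat_lit 0) [nat_lit 2534, nat_lit 590, nat_lit 1562, nat_lit 914, nat_lit 1238, nat_lit 1022, nat_lit 1094, nat_lit 1070, nat_lit 1078] (nat_lit 0) [nat_lit 20758] true,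
   Spec.mk (nat_lit 1078) (nat_lit 2) [nat_lit 2536, nat_lit 592, nat_lit 1564, nat_lit 916, nat_lit 1240, nat_lit 1024, nat_lit 1096, nat_lit 1076] (nat_lit 0) [nat_lit 20760] true,
   Spec.mk (nat_lit 1088) (nat_lit 1) [nat_lit 2546, nat_lit 602, nat_lit 1574, nat_lit 926, nat_lit 1250, nat_lit 1034, nat_lit 1142, nat_lit 1070, nat_lit 1094] (nat_lit 0) [nat_lit 20770] true,
   Spec.mk (nat_lit 1094) (nat_lit 1) [nat_lit 2552, nat_lit 608, nat_lit 1580, nat_lit 932, nat_lit 1256, nat_lit 1040, nat_lit 1148, nat_lit 1076, nat_lit 1112, nat_lit 1088, nat_lit 1100, nat_lit 1096] (nat_lit 0) [nat_lit 20776] true,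
   Spec.mk (nat_lit 1096) (nat_lit 2) [nat_lit 2554, nat_lit 610, nat_lit 1582, nat_lit 934, nat_lit 1258, nat_lit 1042, nat_lit 1150, nat_lit 1078, nat_lit 1114, nat_lit 1102, nat_lit 1094] (nat_lit 0) [nat_lit 20778] true,
   Spec.mk (nat_lit 1100) (nat_lit 0) [nat_lit 2558, nat_lit 614, nat_lit 1586, nat_lit 938, nat_lit 1262, nat_lit 1046, nat_lit 1154, nat_lit 1118, nat_lit 1094, nat_lit 1102] (nat_lit 1) [nat_lit 20782] true,
   Spec.mk (nat_lit 1102) (nat_lit 2) [nat_lit 2560, nat_lit 616, nat_lit 1588, nat_lit 940, nat_lit 1264, nat_lit 1048, nat_lit 1156, nat_lit 1120, nat_lit 1096, nat_lit 1100, nat_lit 1104] (nat_lit 0) [nat_lit 20784] true,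
   Spec.mk (nat_lit 1104) (nat_lit 3) [nat_lit 2562, nat_lit 618, nat_lit 1590, nat_lit 942, nat_lit 1266, nat_lit 1050, nat_lit 1158, nat_lit 1122, nat_lit 1102] (nat_lit 0) [] false,
   Spec.mk (nat_lit 1112) (nat_lit 0) [nat_lit 2570, nat_lit 626, nat_lit 1598, nat_lit 950, nat_lit 1274, nat_lit 1166, nat_lit 1094, nat_lit 1118, nat_lit 1114] (nat_lit 0) [nat_lit 20794] true,
   Spec.mk (nat_lit 1114) (nat_lit 0) [nat_lit 2572, nat_lit 628, nat_lit 1600, nat_lit 952, nat_lit 1276, nat_lit 1168, nat_lit 1096, nat_lit 1120, nat_lit 1112] (nat_lit 0) [nat_lit 20796] true,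
   Spec.mk (nat_lit 1118) (nat_lit 0) [nat_lit 2576, nat_lit 632, nat_lit 1604, nat_lit 956, nat_lit 1280, nat_lit 1172, nat_lit 1100, nat_lit 1112, nat_lit 1120] (nat_lit 0) [nat_lit 20800] true,
   Spec.mk (nat_lit 1120) (nat_lit 2) [nat_lit 2578, nat_lit 634, nat_lit 1606, nat_lit 958, nat_lit 1282, nat_lit 1174, nat_lit 1102, nat_lit 1114, nat_lit 1126, nat_lit 1118, nat_lit 1122] (nat_lit 0) [nat_lit 20802] true,
   Spec.mk (nat_lit 1122) (nat_lit 2) [nat_lit 2580, nat_lit 636, nat_lit 1608, nat_lit 960, nat_lit 1284, nat_lit 1176, nat_lit 1104, nat_lit 1128, nat_lit 1120] (nat_lit 0) [] false,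
   Spec.mk (nat_lit 1126) (nat_lit 2) [nat_lit 2584, nat_lit 640, nat_lit 1612, nat_lit 964, nat_lit 1288, nat_lit 1180, nat_lit 1120, nat_lit 1128] (nat_lit 0) [nat_lit 20808] false,
   Spec.mk (nat_lit 1128) (nat_lit 4) [nat_lit 2586, nat_lit 642, nat_lit 1614, nat_lit 966, nat_lit 1290, nat_lit 1182, nat_lit 1122, nat_lit 1126] (nat_lit 0) [] false,
   Spec.mk (nat_lit 1142) (nat_lit 1) [nat_lit 2600, nat_lit 656, nat_lit 1628, nat_lit 1304, nat_lit 1088, nat_lit 1148] (nat_lit 0) [nat_lit 20824] true,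
   Spec.mk (nat_lit 1148) (nat_lit 0) [nat_lit 2606, nat_lit 662, nat_lit 1634, nat_lit 1310, nat_lit 1094, nat_lit 1166, nat_lit 1142, nat_lit 1154, nat_lit 1150] (nat_lit 0) [nat_lit 20830] true,
   Spec.mk (nat_lit 1150) (nat_lit 1) [nat_lit 2608, nat_lit 664, nat_lit 1636, nat_lit 1312, nat_lit 1096, nat_lit 1168, nat_lit 1156, nat_lit 1148] (nat_lit 0) [nat_lit 20832] true,
   Spec.mk (nat_lit 1154) (nat_lit 0) [nat_lit 2612, nat_lit 668, nat_lit 1640, nat_lit 1316, nat_lit 1100, nat_lit 1172, nat_lit 1148, nat_lit 1156] (nat_lit 3) [nat_lit 20836] true,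
   Spec.mk (nat_lit 1156) (nat_lit 0) [nat_lit 2614, nat_lit 670, nat_lit 1642, nat_lit 1318, nat_lit 1102, nat_lit 1174, nat_lit 1150, nat_lit 1154, nat_lit 1158] (nat_lit 0) [nat_lit 20838] true,
   Spec.mk (nat_lit 1158) (nat_lit 1) [nat_lit 2616, nat_lit 672, nat_lit 1644, nat_lit 1320, nat_lit 1104, nat_lit 1176, nat_lit 1156] (nat_lit 0) [] false,
   Spec.mk (nat_lit 1166) (nat_lit 1) [nat_lit 2624, nat_lit 680, nat_lit 1652, nat_lit 1328, nat_lit 1112, nat_lit 1148, nat_lit 1172, nat_lit 1168] (nat_lit 0) [nat_lit 20848] true,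
   Spec.mk (nat_lit 1168) (nat_lit 1) [nat_lit 2626, nat_lit 682, nat_lit 1654, nat_lit 1330, nat_lit 1114, nat_lit 1150, nat_lit 1174, nat_lit 1166] (nat_lit 0) [nat_lit 20850] true,
   Spec.mk (nat_lit 1172) (nat_lit 0) [nat_lit 2630, nat_lit 686, nat_lit 1658, nat_lit 1334, nat_lit 1118, nat_lit 1154, nat_lit 1190, nat_lit 1166, nat_lit 1174] (nat_lit 0) [nat_lit 20854] true,
   Spec.mk (nat_lit 1174) (nat_lit 2) [nat_lit 2632, nat_lit 688, nat_lit 1660, nat_lit 1336, nat_lit 1120, nat_lit 1156, nat_lit 1192, nat_lit 1168, nat_lit 1180, nat_lit 1172, nat_lit 1176] (nat_lit 0) [nat_lit 20856] false,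
   Spec.mk (nat_lit 1176) (nat_lit 2) [nat_lit 2634, nat_lit 690, nat_lit 1662, nat_lit 1338, nat_lit 1122, nat_lit 1158, nat_lit 1194, nat_lit 1182, nat_lit 1174] (nat_lit 0) [] false,
   Spec.mk (nat_lit 1180) (nat_lit 1) [nat_lit 2638, nat_lit 694, nat_lit 1666, nat_lit 1342, nat_lit 1126, nat_lit 1198, nat_lit 1174, nat_lit 1182] (nat_lit 0) [nat_lit 20862] false,
   Spec.mk (nat_lit 1182) (nat_lit 3) [nat_lit 2640, nat_lit 696, nat_lit 1668, nat_lit 1344, nat_lit 1128, nat_lit 1200, nat_lit 1176, nat_lit 1180] (nat_lit 0) [] false,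
   Spec.mk (nat_lit 1190) (nat_lit 1) [nat_lit 2648, nat_lit 704, nat_lit 1676, nat_lit 1352, nat_lit 1172, nat_lit 1192] (nat_lit 0) [nat_lit 20872] true,
   Spec.mk (nat_lit 1192) (nat_lit 2) [nat_lit 2650, nat_lit 706, nat_lit 1678, nat_lit 1354, nat_lit 1174, nat_lit 1198, nat_lit 1190, nat_lit 1194] (nat_lit 0) [nat_lit 20874] false,
   Spec.mk (nat_lit 1194) (nat_lit 1) [nat_lit 2652, nat_lit 708, nat_lit 1680, nat_lit 1356, nat_lit 1176, nat_lit 1200, nat_lit 1192] (nat_lit 0) [] false,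
   Spec.mk (nat_lit 1198) (nat_lit 3) [nat_lit 2656, nat_lit 712, nat_lit 1684, nat_lit 1360, nat_lit 1180, nat_lit 1192, nat_lit 1200] (nat_lit 0) [nat_lit 20880] false,
   Spec.mk (nat_lit 1200) (nat_lit 4) [nat_lit 2658, nat_lit 714, nat_lit 1686, nat_lit 1362, nat_lit 1182, nat_lit 1194, nat_lit 1206, nat_lit 1198] (nat_lit 0) [] false,
   Spec.mk (nat_lit 1206) (nat_lit 5) [nat_lit 2664, nat_lit 720, nat_lit 1692, nat_lit 1368, nat_lit 1200] (nat_lit 0) [] false,
   Spec.mk (nat_lit 1232) (nat_lit 2) [nat_lit 2690, nat_lit 1718, nat_lit 1070, nat_lit 1250, nat_lit 1238] (nat_lit 0) [nat_lit 20914] true,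
   Spec.mk (nat_lit 1238) (nat_lit 0) [nat_lit 2696, nat_lit 1724, nat_lit 1076, nat_lit 1256, nat_lit 1232, nat_lit 1240] (nat_lit 0) [nat_lit 20920] true,
   Spec.mk (nat_lit 1240) (nat_lit 2) [nat_lit 2698, nat_lit 1726, nat_lit 1078, nat_lit 1258, nat_lit 1238] (nat_lit 0) [nat_lit 20922] true,
   Spec.mk (nat_lit 1250) (nat_lit 0) [nat_lit 2708, nat_lit 1736, nat_lit 1088, nat_lit 1304, nat_lit 1232, nat_lit 1256] (nat_lit 0) [nat_lit 20932] true,
   Spec.mk (nat_lit 1256) (nat_lit 0) [nat_lit 2714, nat_lit 1742, nat_lit 1094, nat_lit 1310, nat_lit 1238, nat_lit 1274, nat_lit 1250, nat_lit 1262, nat_lit 1258] (nat_lit 0) [nat_lit 20938] true,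
   Spec.mk (nat_lit 1258) (nat_lit 1) [nat_lit 2716, nat_lit 1744, nat_lit 1096, nat_lit 1312, nat_lit 1240, nat_lit 1276, nat_lit 1264, nat_lit 1256] (nat_lit 0) [nat_lit 20940] true,
   Spec.mk (nat_lit 1262) (nat_lit 0) [nat_lit 2720, nat_lit 1748, nat_lit 1100, nat_lit 1316, nat_lit 1280, nat_lit 1256, nat_lit 1264] (nat_lit 2) [nat_lit 20944] true,
   Spec.mk (nat_lit 1264) (nat_lit 1) [nat_lit 2722, nat_lit 1750, nat_lit 1102, nat_lit 1318, nat_lit 1282, nat_lit 1258, nat_lit 1262, nat_lit 1266] (nat_lit 0) [nat_lit 20946] false,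
   Spec.mk (nat_lit 1266) (nat_lit 2) [nat_lit 2724, nat_lit 1752, nat_lit 1104, nat_lit 1320, nat_lit 1284, nat_lit 1264] (nat_lit 0) [] false,
   Spec.mk (nat_lit 1274) (nat_lit 0) [nat_lit 2732, nat_lit 1760, nat_lit 1112, nat_lit 1328, nat_lit 1256, nat_lit 1280, nat_lit 1276] (nat_lit 2) [nat_lit 20956] true,
   Spec.mk (nat_lit 1276) (nat_lit 0) [nat_lit 2734, nat_lit 1762, nat_lit 1114, nat_lit 1330, nat_lit 1258, nat_lit 1282, nat_lit 1274] (nat_lit 2) [nat_lit 20958] true,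
   Spec.mk (nat_lit 1280) (nat_lit 0) [nat_lit 2738, nat_lit 1766, nat_lit 1118, nat_lit 1334, nat_lit 1262, nat_lit 1274, nat_lit 1282] (nat_lit 2) [nat_lit 20962] true,
   Spec.mk (nat_lit 1282) (nat_lit 0) [nat_lit 2740, nat_lit 1768, nat_lit 1120, nat_lit 1336, nat_lit 1264, nat_lit 1276, nat_lit 1288, nat_lit 1280, nat_lit 1284] (nat_lit 0) [nat_lit 20964] false,
   Spec.mk (nat_lit 1284) (nat_lit 0) [nat_lit 2742, nat_lit 1770, nat_lit 1122, nat_lit 1338, nat_lit 1266, nat_lit 1290, nat_lit 1282] (nat_lit 0) [] false,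
   Spec.mk (nat_lit 1288) (nat_lit 0) [nat_lit 2746, nat_lit 1774, nat_lit 1126, nat_lit 1342, nat_lit 1282, nat_lit 1290] (nat_lit 0) [nat_lit 20970] false]

noncomputable def sp3 : List Spec :=
  [Spec.mk (nat_lit 1290) (nat_lit 2) [nat_lit 2748, nat_lit 1776, nat_lit 1128, nat_lit 1344, nat_lit 1284, nat_lit 1288] (nat_lit 0) [] false,
   Spec.mk (nat_lit 1304) (nat_lit 2) [nat_lit 2762, nat_lit 1790, nat_lit 1142, nat_lit 1250, nat_lit 1310] (nat_lit 0) [nat_lit 20986] true,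
   Spec.mk (nat_lit 1310) (nat_lit 1) [nat_lit 2768, nat_lit 1796, nat_lit 1148, nat_lit 1256, nat_lit 1328, nat_lit 1304, nat_lit 1316, nat_lit 1312] (nat_lit 0) [nat_lit 20992] true,
   Spec.mk (nat_lit 1312) (nat_lit 2) [nat_lit 2770, nat_lit 1798, nat_lit 1150, nat_lit 1258, nat_lit 1330, nat_lit 1318, nat_lit 1310] (nat_lit 0) [nat_lit 20994] true,
   Spec.mk (nat_lit 1316) (nat_lit 0) [nat_lit 2774, nat_lit 1802, nat_lit 1154, nat_lit 1262, nat_lit 1334, nat_lit 1310, nat_lit 1318] (nat_lit 2) [nat_lit 20998] true,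
   Spec.mk (nat_lit 1318) (nat_lit 1) [nat_lit 2776, nat_lit 1804, nat_lit 1156, nat_lit 1264, nat_lit 1336, nat_lit 1312, nat_lit 1316, nat_lit 1320] (nat_lit 0) [nat_lit 21000] false,
   Spec.mk (nat_lit 1320) (nat_lit 2) [nat_lit 2778, nat_lit 1806, nat_lit 1158, nat_lit 1266, nat_lit 1338, nat_lit 1318] (nat_lit 0) [] false,
   Spec.mk (nat_lit 1328) (nat_lit 1) [nat_lit 2786, nat_lit 1814, nat_lit 1166, nat_lit 1274, nat_lit 1382, nat_lit 1310, nat_lit 1334, nat_lit 1330] (nat_lit 0) [nat_lit 21010] true,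
   Spec.mk (nat_lit 1330) (nat_lit 1) [nat_lit 2788, nat_lit 1816, nat_lit 1168, nat_lit 1276, nat_lit 1384, nat_lit 1312, nat_lit 1336, nat_lit 1328] (nat_lit 0) [nat_lit 21012] false,
   Spec.mk (nat_lit 1334) (nat_lit 0) [nat_lit 2792, nat_lit 1820, nat_lit 1172, nat_lit 1280, nat_lit 1388, nat_lit 1316, nat_lit 1352, nat_lit 1328, nat_lit 1336] (nat_lit 0) [nat_lit 21016] true,
   Spec.mk (nat_lit 1336) (nat_lit 2) [nat_lit 2794, nat_lit 1822, nat_lit 1174, nat_lit 1282, nat_lit 1390, nat_lit 1318, nat_lit 1354, nat_lit 1330, nat_lit 1342, nat_lit 1334, nat_lit 1338] (nat_lit 0) [nat_lit 21018] false,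
   Spec.mk (nat_lit 1338) (nat_lit 2) [nat_lit 2796, nat_lit 1824, nat_lit 1176, nat_lit 1284, nat_lit 1392, nat_lit 1320, nat_lit 1356, nat_lit 1344, nat_lit 1336] (nat_lit 0) [] false,
   Spec.mk (nat_lit 1342) (nat_lit 1) [nat_lit 2800, nat_lit 1828, nat_lit 1180, nat_lit 1288, nat_lit 1396, nat_lit 1360, nat_lit 1336, nat_lit 1344] (nat_lit 0) [nat_lit 21024] false,
   Spec.mk (nat_lit 1344) (nat_lit 3) [nat_lit 2802, nat_lit 1830, nat_lit 1182, nat_lit 1290, nat_lit 1398, nat_lit 1362, nat_lit 1338, nat_lit 1342] (nat_lit 0) [] false,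
   Spec.mk (nat_lit 1352) (nat_lit 0) [nat_lit 2810, nat_lit 1838, nat_lit 1190, nat_lit 1406, nat_lit 1334, nat_lit 1354] (nat_lit 0) [nat_lit 21034] true,
   Spec.mk (nat_lit 1354) (nat_lit 1) [nat_lit 2812, nat_lit 1840, nat_lit 1192, nat_lit 1408, nat_lit 1336, nat_lit 1360, nat_lit 1352, nat_lit 1356] (nat_lit 0) [nat_lit 21036] false,
   Spec.mk (nat_lit 1356) (nat_lit 0) [nat_lit 2814, nat_lit 1842, nat_lit 1194, nat_lit 1410, nat_lit 1338, nat_lit 1362, nat_lit 1354] (nat_lit 0) [] false,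
   Spec.mk (nat_lit 1360) (nat_lit 2) [nat_lit 2818, nat_lit 1846, nat_lit 1198, nat_lit 1414, nat_lit 1342, nat_lit 1354, nat_lit 1362] (nat_lit 0) [nat_lit 21042] false,
   Spec.mk (nat_lit 1362) (nat_lit 3) [nat_lit 2820, nat_lit 1848, nat_lit 1200, nat_lit 1416, nat_lit 1344, nat_lit 1356, nat_lit 1368, nat_lit 1360] (nat_lit 0) [] false,
   Spec.mk (nat_lit 1368) (nat_lit 4) [nat_lit 2826, nat_lit 1854, nat_lit 1206, nat_lit 1422, nat_lit 1362] (nat_lit 0) [] false,
   Spec.mk (nat_lit 1382) (nat_lit 2) [nat_lit 2840, nat_lit 1868, nat_lit 1328, nat_lit 1388, nat_lit 1384] (nat_lit 0) [nat_lit 21064] true,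
   Spec.mk (nat_lit 1384) (nat_lit 2) [nat_lit 2842, nat_lit 1870, nat_lit 1330, nat_lit 1390, nat_lit 1382] (nat_lit 0) [nat_lit 21066] false,
   Spec.mk (nat_lit 1388) (nat_lit 0) [nat_lit 2846, nat_lit 1874, nat_lit 1334, nat_lit 1406, nat_lit 1382, nat_lit 1390] (nat_lit 0) [nat_lit 21070] true,
   Spec.mk (nat_lit 1390) (nat_lit 2) [nat_lit 2848, nat_lit 1876, nat_lit 1336, nat_lit 1408, nat_lit 1384, nat_lit 1396, nat_lit 1388, nat_lit 1392] (nat_lit 0) [nat_lit 21072] false,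
   Spec.mk (nat_lit 1392) (nat_lit 2) [nat_lit 2850, nat_lit 1878, nat_lit 1338, nat_lit 1410, nat_lit 1398, nat_lit 1390] (nat_lit 0) [] false,
   Spec.mk (nat_lit 1396) (nat_lit 0) [nat_lit 2854, nat_lit 1882, nat_lit 1342, nat_lit 1414, nat_lit 1390, nat_lit 1398] (nat_lit 0) [nat_lit 21078] false,
   Spec.mk (nat_lit 1398) (nat_lit 2) [nat_lit 2856, nat_lit 1884, nat_lit 1344, nat_lit 1416, nat_lit 1392, nat_lit 1396] (nat_lit 0) [] false,
   Spec.mk (nat_lit 1406) (nat_lit 2) [nat_lit 2864, nat_lit 1892, nat_lit 1352, nat_lit 1388, nat_lit 1408] (nat_lit 0) [nat_lit 21088] true,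
   Spec.mk (nat_lit 1408) (nat_lit 3) [nat_lit 2866, nat_lit 1894, nat_lit 1354, nat_lit 1390, nat_lit 1414, nat_lit 1406, nat_lit 1410] (nat_lit 0) [nat_lit 21090] false,
   Spec.mk (nat_lit 1410) (nat_lit 2) [nat_lit 2868, nat_lit 1896, nat_lit 1356, nat_lit 1392, nat_lit 1416, nat_lit 1408] (nat_lit 0) [] false,
   Spec.mk (nat_lit 1414) (nat_lit 3) [nat_lit 2872, nat_lit 1900, nat_lit 1360, nat_lit 1396, nat_lit 1432, nat_lit 1408, nat_lit 1416] (nat_lit 0) [nat_lit 21096] false,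
   Spec.mk (nat_lit 1416) (nat_lit 4) [nat_lit 2874, nat_lit 1902, nat_lit 1362, nat_lit 1398, nat_lit 1434, nat_lit 1410, nat_lit 1422, nat_lit 1414] (nat_lit 0) [] false,
   Spec.mk (nat_lit 1422) (nat_lit 4) [nat_lit 2880, nat_lit 1908, nat_lit 1368, nat_lit 1440, nat_lit 1416] (nat_lit 0) [] false,
   Spec.mk (nat_lit 1432) (nat_lit 4) [nat_lit 2890, nat_lit 1918, nat_lit 1414, nat_lit 1434] (nat_lit 0) [nat_lit 21114] false,
   Spec.mk (nat_lit 1434) (nat_lit 4) [nat_lit 2892, nat_lit 1920, nat_lit 1416, nat_lit 1440, nat_lit 1432] (nat_lit 0) [] false,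
   Spec.mk (nat_lit 1440) (nat_lit 6) [nat_lit 2898, nat_lit 1926, nat_lit 1422, nat_lit 1434] (nat_lit 0) [] false,
   Spec.mk (nat_lit 1484) (nat_lit 2) [nat_lit 2942, nat_lit 998, nat_lit 1502] (nat_lit 0) [nat_lit 21166] true,
   Spec.mk (nat_lit 1502) (nat_lit 1) [nat_lit 2960, nat_lit 1016, nat_lit 1556, nat_lit 1484, nat_lit 1520, nat_lit 1508] (nat_lit 0) [nat_lit 21184] true,
   Spec.mk (nat_lit 1508) (nat_lit 0) [nat_lit 2966, nat_lit 1022, nat_lit 1562, nat_lit 1526, nat_lit 1502, nat_lit 1510] (nat_lit 0) [nat_lit 21190] true,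
   Spec.mk (nat_lit 1510) (nat_lit 2) [nat_lit 2968, nat_lit 1024, nat_lit 1564, nat_lit 1528, nat_lit 1508] (nat_lit 0) [nat_lit 21192] false,
   Spec.mk (nat_lit 1520) (nat_lit 0) [nat_lit 2978, nat_lit 1034, nat_lit 1574, nat_lit 1502, nat_lit 1526] (nat_lit 2) [nat_lit 21202] true,
   Spec.mk (nat_lit 1526) (nat_lit 0) [nat_lit 2984, nat_lit 1040, nat_lit 1580, nat_lit 1508, nat_lit 1520, nat_lit 1532, nat_lit 1528] (nat_lit 1) [nat_lit 21208] true,
   Spec.mk (nat_lit 1528) (nat_lit 0) [nat_lit 2986, nat_lit 1042, nat_lit 1582, nat_lit 1510, nat_lit 1534, nat_lit 1526] (nat_lit 0) [nat_lit 21210] false,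
   Spec.mk (nat_lit 1532) (nat_lit 0) [nat_lit 2990, nat_lit 1046, nat_lit 1586, nat_lit 1526, nat_lit 1534] (nat_lit 2) [nat_lit 21214] true,
   Spec.mk (nat_lit 1534) (nat_lit 1) [nat_lit 2992, nat_lit 1048, nat_lit 1588, nat_lit 1528, nat_lit 1532, nat_lit 1536] (nat_lit 0) [nat_lit 21216] false,
   Spec.mk (nat_lit 1536) (nat_lit 2) [nat_lit 2994, nat_lit 1050, nat_lit 1590, nat_lit 1534] (nat_lit 0) [] false,
   Spec.mk (nat_lit 1556) (nat_lit 0) [nat_lit 3014, nat_lit 1070, nat_lit 1718, nat_lit 1502, nat_lit 1574, nat_lit 1562] (nat_lit 0) [nat_lit 21238] true,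
   Spec.mk (nat_lit 1562) (nat_lit 0) [nat_lit 3020, nat_lit 1076, nat_lit 1724, nat_lit 1508, nat_lit 1580, nat_lit 1556, nat_lit 1564] (nat_lit 2) [nat_lit 21244] true,
   Spec.mk (nat_lit 1564) (nat_lit 0) [nat_lit 3022, nat_lit 1078, nat_lit 1726, nat_lit 1510, nat_lit 1582, nat_lit 1562] (nat_lit 0) [nat_lit 21246] false,
   Spec.mk (nat_lit 1574) (nat_lit 0) [nat_lit 3032, nat_lit 1088, nat_lit 1736, nat_lit 1520, nat_lit 1628, nat_lit 1556, nat_lit 1580] (nat_lit 1) [nat_lit 21256] true,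
   Spec.mk (nat_lit 1580) (nat_lit 0) [nat_lit 3038, nat_lit 1094, nat_lit 1742, nat_lit 1526, nat_lit 1634, nat_lit 1562, nat_lit 1598, nat_lit 1574, nat_lit 1586, nat_lit 1582] (nat_lit 1) [nat_lit 21262] true,
   Spec.mk (nat_lit 1582) (nat_lit 0) [nat_lit 3040, nat_lit 1096, nat_lit 1744, nat_lit 1528, nat_lit 1636, nat_lit 1564, nat_lit 1600, nat_lit 1588, nat_lit 1580] (nat_lit 0) [nat_lit 21264] false,
   Spec.mk (nat_lit 1586) (nat_lit 0) [nat_lit 3044, nat_lit 1100, nat_lit 1748, nat_lit 1532, nat_lit 1640, nat_lit 1604, nat_lit 1580, nat_lit 1588] (nat_lit 3) [nat_lit 21268] true,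
   Spec.mk (nat_lit 1588) (nat_lit 0) [nat_lit 3046, nat_lit 1102, nat_lit 1750, nat_lit 1534, nat_lit 1642, nat_lit 1606, nat_lit 1582, nat_lit 1586, nat_lit 1590] (nat_lit 0) [nat_lit 21270] false,
   Spec.mk (nat_lit 1590) (nat_lit 1) [nat_lit 3048, nat_lit 1104, nat_lit 1752, nat_lit 1536, nat_lit 1644, nat_lit 1608, nat_lit 1588] (nat_lit 0) [] false,
   Spec.mk (nat_lit 1598) (nat_lit 0) [nat_lit 3056, nat_lit 1112, nat_lit 1760, nat_lit 1652, nat_lit 1580, nat_lit 1604, nat_lit 1600] (nat_lit 2) [nat_lit 21280] true,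
   Spec.mk (nat_lit 1600) (nat_lit 0) [nat_lit 3058, nat_lit 1114, nat_lit 1762, nat_lit 1654, nat_lit 1582, nat_lit 1606, nat_lit 1598] (nat_lit 2) [nat_lit 21282] false,
   Spec.mk (nat_lit 1604) (nat_lit 0) [nat_lit 3062, nat_lit 1118, nat_lit 1766, nat_lit 1658, nat_lit 1586, nat_lit 1598, nat_lit 1606] (nat_lit 2) [nat_lit 21286] true,
   Spec.mk (nat_lit 1606) (nat_lit 0) [nat_lit 3064, nat_lit 1120, nat_lit 1768, nat_lit 1660, nat_lit 1588, nat_lit 1600, nat_lit 1612, nat_lit 1604, nat_lit 1608] (nat_lit 0) [nat_lit 21288] false,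
   Spec.mk (nat_lit 1608) (nat_lit 0) [nat_lit 3066, nat_lit 1122, nat_lit 1770, nat_lit 1662, nat_lit 1590, nat_lit 1614, nat_lit 1606] (nat_lit 0) [] false]

noncomputable def sp4 : List Spec :=
  [Spec.mk (nat_lit 1612) (nat_lit 0) [nat_lit 3070, nat_lit 1126, nat_lit 1774, nat_lit 1666, nat_lit 1606, nat_lit 1614] (nat_lit 0) [nat_lit 21294] false,
   Spec.mk (nat_lit 1614) (nat_lit 2) [nat_lit 3072, nat_lit 1128, nat_lit 1776, nat_lit 1668, nat_lit 1608, nat_lit 1612] (nat_lit 0) [] false,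
   Spec.mk (nat_lit 1628) (nat_lit 0) [nat_lit 3086, nat_lit 1142, nat_lit 1790, nat_lit 1574, nat_lit 1634] (nat_lit 2) [nat_lit 21310] true,
   Spec.mk (nat_lit 1634) (nat_lit 0) [nat_lit 3092, nat_lit 1148, nat_lit 1796, nat_lit 1580, nat_lit 1652, nat_lit 1628, nat_lit 1640, nat_lit 1636] (nat_lit 3) [nat_lit 21316] true,
   Spec.mk (nat_lit 1636) (nat_lit 0) [nat_lit 3094, nat_lit 1150, nat_lit 1798, nat_lit 1582, nat_lit 1654, nat_lit 1642, nat_lit 1634] (nat_lit 2) [nat_lit 21318] false,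
   Spec.mk (nat_lit 1640) (nat_lit 0) [nat_lit 3098, nat_lit 1154, nat_lit 1802, nat_lit 1586, nat_lit 1658, nat_lit 1634, nat_lit 1642] (nat_lit 6) [nat_lit 21322] true,
   Spec.mk (nat_lit 1642) (nat_lit 0) [nat_lit 3100, nat_lit 1156, nat_lit 1804, nat_lit 1588, nat_lit 1660, nat_lit 1636, nat_lit 1640, nat_lit 1644] (nat_lit 3) [nat_lit 21324] false,
   Spec.mk (nat_lit 1644) (nat_lit 0) [nat_lit 3102, nat_lit 1158, nat_lit 1806, nat_lit 1590, nat_lit 1662, nat_lit 1642] (nat_lit 2) [] false,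
   Spec.mk (nat_lit 1652) (nat_lit 0) [nat_lit 3110, nat_lit 1166, nat_lit 1814, nat_lit 1598, nat_lit 1634, nat_lit 1658, nat_lit 1654] (nat_lit 2) [nat_lit 21334] true,
   Spec.mk (nat_lit 1654) (nat_lit 0) [nat_lit 3112, nat_lit 1168, nat_lit 1816, nat_lit 1600, nat_lit 1636, nat_lit 1660, nat_lit 1652] (nat_lit 2) [nat_lit 21336] false,
   Spec.mk (nat_lit 1658) (nat_lit 0) [nat_lit 3116, nat_lit 1172, nat_lit 1820, nat_lit 1604, nat_lit 1640, nat_lit 1676, nat_lit 1652, nat_lit 1660] (nat_lit 3) [nat_lit 21340] false,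
   Spec.mk (nat_lit 1660) (nat_lit 0) [nat_lit 3118, nat_lit 1174, nat_lit 1822, nat_lit 1606, nat_lit 1642, nat_lit 1678, nat_lit 1654, nat_lit 1666, nat_lit 1658, nat_lit 1662] (nat_lit 1) [nat_lit 21342] false,
   Spec.mk (nat_lit 1662) (nat_lit 0) [nat_lit 3120, nat_lit 1176, nat_lit 1824, nat_lit 1608, nat_lit 1644, nat_lit 1680, nat_lit 1668, nat_lit 1660] (nat_lit 1) [] false,
   Spec.mk (nat_lit 1666) (nat_lit 0) [nat_lit 3124, nat_lit 1180, nat_lit 1828, nat_lit 1612, nat_lit 1684, nat_lit 1660, nat_lit 1668] (nat_lit 2) [nat_lit 21348] false,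
   Spec.mk (nat_lit 1668) (nat_lit 0) [nat_lit 3126, nat_lit 1182, nat_lit 1830, nat_lit 1614, nat_lit 1686, nat_lit 1662, nat_lit 1666] (nat_lit 0) [] false,
   Spec.mk (nat_lit 1676) (nat_lit 0) [nat_lit 3134, nat_lit 1190, nat_lit 1838, nat_lit 1658, nat_lit 1678] (nat_lit 2) [nat_lit 21358] false,
   Spec.mk (nat_lit 1678) (nat_lit 0) [nat_lit 3136, nat_lit 1192, nat_lit 1840, nat_lit 1660, nat_lit 1684, nat_lit 1676, nat_lit 1680] (nat_lit 1) [nat_lit 21360] false,
   Spec.mk (nat_lit 1680) (nat_lit 0) [nat_lit 3138, nat_lit 1194, nat_lit 1842, nat_lit 1662, nat_lit 1686, nat_lit 1678] (nat_lit 2) [] false,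
   Spec.mk (nat_lit 1684) (nat_lit 0) [nat_lit 3142, nat_lit 1198, nat_lit 1846, nat_lit 1666, nat_lit 1678, nat_lit 1686] (nat_lit 0) [nat_lit 21366] false,
   Spec.mk (nat_lit 1686) (nat_lit 1) [nat_lit 3144, nat_lit 1200, nat_lit 1848, nat_lit 1668, nat_lit 1680, nat_lit 1692, nat_lit 1684] (nat_lit 0) [] false,
   Spec.mk (nat_lit 1692) (nat_lit 2) [nat_lit 3150, nat_lit 1206, nat_lit 1854, nat_lit 1686] (nat_lit 0) [] false,
   Spec.mk (nat_lit 1718) (nat_lit 2) [nat_lit 3176, nat_lit 1232, nat_lit 1556, nat_lit 1736, nat_lit 1724] (nat_lit 0) [nat_lit 21400] true,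
   Spec.mk (nat_lit 1724) (nat_lit 0) [nat_lit 3182, nat_lit 1238, nat_lit 1562, nat_lit 1742, nat_lit 1718, nat_lit 1726] (nat_lit 0) [nat_lit 21406] true,
   Spec.mk (nat_lit 1726) (nat_lit 2) [nat_lit 3184, nat_lit 1240, nat_lit 1564, nat_lit 1744, nat_lit 1724] (nat_lit 0) [nat_lit 21408] false,
   Spec.mk (nat_lit 1736) (nat_lit 0) [nat_lit 3194, nat_lit 1250, nat_lit 1574, nat_lit 1790, nat_lit 1718, nat_lit 1742] (nat_lit 0) [nat_lit 21418] true,
   Spec.mk (nat_lit 1742) (nat_lit 0) [nat_lit 3200, nat_lit 1256, nat_lit 1580, nat_lit 1796, nat_lit 1724, nat_lit 1760, nat_lit 1736, nat_lit 1748, nat_lit 1744] (nat_lit 0) [nat_lit 21424] true,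
   Spec.mk (nat_lit 1744) (nat_lit 1) [nat_lit 3202, nat_lit 1258, nat_lit 1582, nat_lit 1798, nat_lit 1726, nat_lit 1762, nat_lit 1750, nat_lit 1742] (nat_lit 0) [nat_lit 21426] false,
   Spec.mk (nat_lit 1748) (nat_lit 0) [nat_lit 3206, nat_lit 1262, nat_lit 1586, nat_lit 1802, nat_lit 1766, nat_lit 1742, nat_lit 1750] (nat_lit 2) [nat_lit 21430] false,
   Spec.mk (nat_lit 1750) (nat_lit 1) [nat_lit 3208, nat_lit 1264, nat_lit 1588, nat_lit 1804, nat_lit 1768, nat_lit 1744, nat_lit 1748, nat_lit 1752] (nat_lit 0) [nat_lit 21432] false,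
   Spec.mk (nat_lit 1752) (nat_lit 2) [nat_lit 3210, nat_lit 1266, nat_lit 1590, nat_lit 1806, nat_lit 1770, nat_lit 1750] (nat_lit 0) [] false,
   Spec.mk (nat_lit 1760) (nat_lit 0) [nat_lit 3218, nat_lit 1274, nat_lit 1598, nat_lit 1814, nat_lit 1742, nat_lit 1766, nat_lit 1762] (nat_lit 2) [nat_lit 21442] true,
   Spec.mk (nat_lit 1762) (nat_lit 0) [nat_lit 3220, nat_lit 1276, nat_lit 1600, nat_lit 1816, nat_lit 1744, nat_lit 1768, nat_lit 1760] (nat_lit 2) [nat_lit 21444] false,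
   Spec.mk (nat_lit 1766) (nat_lit 0) [nat_lit 3224, nat_lit 1280, nat_lit 1604, nat_lit 1820, nat_lit 1748, nat_lit 1760, nat_lit 1768] (nat_lit 2) [nat_lit 21448] false,
   Spec.mk (nat_lit 1768) (nat_lit 0) [nat_lit 3226, nat_lit 1282, nat_lit 1606, nat_lit 1822, nat_lit 1750, nat_lit 1762, nat_lit 1774, nat_lit 1766, nat_lit 1770] (nat_lit 0) [nat_lit 21450] false,
   Spec.mk (nat_lit 1770) (nat_lit 0) [nat_lit 3228, nat_lit 1284, nat_lit 1608, nat_lit 1824, nat_lit 1752, nat_lit 1776, nat_lit 1768] (nat_lit 0) [] false,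
   Spec.mk (nat_lit 1774) (nat_lit 0) [nat_lit 3232, nat_lit 1288, nat_lit 1612, nat_lit 1828, nat_lit 1768, nat_lit 1776] (nat_lit 0) [nat_lit 21456] false,
   Spec.mk (nat_lit 1776) (nat_lit 2) [nat_lit 3234, nat_lit 1290, nat_lit 1614, nat_lit 1830, nat_lit 1770, nat_lit 1774] (nat_lit 0) [] false,
   Spec.mk (nat_lit 1790) (nat_lit 1) [nat_lit 3248, nat_lit 1304, nat_lit 1628, nat_lit 1952, nat_lit 1736, nat_lit 1796] (nat_lit 0) [nat_lit 21472] true,
   Spec.mk (nat_lit 1796) (nat_lit 0) [nat_lit 3254, nat_lit 1310, nat_lit 1634, nat_lit 1958, nat_lit 1742, nat_lit 1814, nat_lit 1790, nat_lit 1802, nat_lit 1798] (nat_lit 0) [nat_lit 21478] true,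
   Spec.mk (nat_lit 1798) (nat_lit 1) [nat_lit 3256, nat_lit 1312, nat_lit 1636, nat_lit 1960, nat_lit 1744, nat_lit 1816, nat_lit 1804, nat_lit 1796] (nat_lit 0) [nat_lit 21480] false,
   Spec.mk (nat_lit 1802) (nat_lit 0) [nat_lit 3260, nat_lit 1316, nat_lit 1640, nat_lit 1964, nat_lit 1748, nat_lit 1820, nat_lit 1796, nat_lit 1804] (nat_lit 3) [nat_lit 21484] false,
   Spec.mk (nat_lit 1804) (nat_lit 0) [nat_lit 3262, nat_lit 1318, nat_lit 1642, nat_lit 1966, nat_lit 1750, nat_lit 1822, nat_lit 1798, nat_lit 1802, nat_lit 1806] (nat_lit 0) [nat_lit 21486] false,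
   Spec.mk (nat_lit 1806) (nat_lit 1) [nat_lit 3264, nat_lit 1320, nat_lit 1644, nat_lit 1968, nat_lit 1752, nat_lit 1824, nat_lit 1804] (nat_lit 0) [] false,
   Spec.mk (nat_lit 1814) (nat_lit 0) [nat_lit 3272, nat_lit 1328, nat_lit 1652, nat_lit 1976, nat_lit 1760, nat_lit 1868, nat_lit 1796, nat_lit 1820, nat_lit 1816] (nat_lit 0) [nat_lit 21496] false,
   Spec.mk (nat_lit 1816) (nat_lit 0) [nat_lit 3274, nat_lit 1330, nat_lit 1654, nat_lit 1978, nat_lit 1762, nat_lit 1870, nat_lit 1798, nat_lit 1822, nat_lit 1814] (nat_lit 0) [nat_lit 21498] false,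
   Spec.mk (nat_lit 1820) (nat_lit 0) [nat_lit 3278, nat_lit 1334, nat_lit 1658, nat_lit 1982, nat_lit 1766, nat_lit 1874, nat_lit 1802, nat_lit 1838, nat_lit 1814, nat_lit 1822] (nat_lit 1) [nat_lit 21502] false,
   Spec.mk (nat_lit 1822) (nat_lit 1) [nat_lit 3280, nat_lit 1336, nat_lit 1660, nat_lit 1984, nat_lit 1768, nat_lit 1876, nat_lit 1804, nat_lit 1840, nat_lit 1816, nat_lit 1828, nat_lit 1820, nat_lit 1824] (nat_lit 0) [nat_lit 21504] false,
   Spec.mk (nat_lit 1824) (nat_lit 1) [nat_lit 3282, nat_lit 1338, nat_lit 1662, nat_lit 1986, nat_lit 1770, nat_lit 1878, nat_lit 1806, nat_lit 1842, nat_lit 1830, nat_lit 1822] (nat_lit 0) [] false,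
   Spec.mk (nat_lit 1828) (nat_lit 0) [nat_lit 3286, nat_lit 1342, nat_lit 1666, nat_lit 1990, nat_lit 1774, nat_lit 1882, nat_lit 1846, nat_lit 1822, nat_lit 1830] (nat_lit 0) [nat_lit 21510] false,
   Spec.mk (nat_lit 1830) (nat_lit 2) [nat_lit 3288, nat_lit 1344, nat_lit 1668, nat_lit 1992, nat_lit 1776, nat_lit 1884, nat_lit 1848, nat_lit 1824, nat_lit 1828] (nat_lit 0) [] false,
   Spec.mk (nat_lit 1838) (nat_lit 0) [nat_lit 3296, nat_lit 1352, nat_lit 1676, nat_lit 2000, nat_lit 1892, nat_lit 1820, nat_lit 1840] (nat_lit 1) [nat_lit 21520] false,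
   Spec.mk (nat_lit 1840) (nat_lit 0) [nat_lit 3298, nat_lit 1354, nat_lit 1678, nat_lit 2002, nat_lit 1894, nat_lit 1822, nat_lit 1846, nat_lit 1838, nat_lit 1842] (nat_lit 0) [nat_lit 21522] false,
   Spec.mk (nat_lit 1842) (nat_lit 0) [nat_lit 3300, nat_lit 1356, nat_lit 1680, nat_lit 2004, nat_lit 1896, nat_lit 1824, nat_lit 1848, nat_lit 1840] (nat_lit 1) [] false,
   Spec.mk (nat_lit 1846) (nat_lit 1) [nat_lit 3304, nat_lit 1360, nat_lit 1684, nat_lit 2008, nat_lit 1900, nat_lit 1828, nat_lit 1840, nat_lit 1848] (nat_lit 0) [nat_lit 21528] false,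
   Spec.mk (nat_lit 1848) (nat_lit 2) [nat_lit 3306, nat_lit 1362, nat_lit 1686, nat_lit 2010, nat_lit 1902, nat_lit 1830, nat_lit 1842, nat_lit 1854, nat_lit 1846] (nat_lit 0) [] false,
   Spec.mk (nat_lit 1854) (nat_lit 3) [nat_lit 3312, nat_lit 1368, nat_lit 1692, nat_lit 2016, nat_lit 1908, nat_lit 1848] (nat_lit 0) [] false,
   Spec.mk (nat_lit 1868) (nat_lit 0) [nat_lit 3326, nat_lit 1382, nat_lit 2030, nat_lit 1814, nat_lit 1874, nat_lit 1870] (nat_lit 0) [nat_lit 21550] false,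
   Spec.mk (nat_lit 1870) (nat_lit 0) [nat_lit 3328, nat_lit 1384, nat_lit 2032, nat_lit 1816, nat_lit 1876, nat_lit 1868] (nat_lit 0) [nat_lit 21552] false,
   Spec.mk (nat_lit 1874) (nat_lit 0) [nat_lit 3332, nat_lit 1388, nat_lit 2036, nat_lit 1820, nat_lit 1892, nat_lit 1868, nat_lit 1876] (nat_lit 2) [nat_lit 21556] false,
   Spec.mk (nat_lit 1876) (nat_lit 0) [nat_lit 3334, nat_lit 1390, nat_lit 2038, nat_lit 1822, nat_lit 1894, nat_lit 1870, nat_lit 1882, nat_lit 1874, nat_lit 1878] (nat_lit 0) [nat_lit 21558] false]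

noncomputable def sp5 : List Spec :=
  [Spec.mk (nat_lit 1878) (nat_lit 0) [nat_lit 3336, nat_lit 1392, nat_lit 2040, nat_lit 1824, nat_lit 1896, nat_lit 1884, nat_lit 1876] (nat_lit 0) [] false,
   Spec.mk (nat_lit 1882) (nat_lit 0) [nat_lit 3340, nat_lit 1396, nat_lit 2044, nat_lit 1828, nat_lit 1900, nat_lit 1876, nat_lit 1884] (nat_lit 2) [nat_lit 21564] false,
   Spec.mk (nat_lit 1884) (nat_lit 0) [nat_lit 3342, nat_lit 1398, nat_lit 2046, nat_lit 1830, nat_lit 1902, nat_lit 1878, nat_lit 1882] (nat_lit 0) [] false,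
   Spec.mk (nat_lit 1892) (nat_lit 0) [nat_lit 3350, nat_lit 1406, nat_lit 2054, nat_lit 1838, nat_lit 1874, nat_lit 1894] (nat_lit 0) [nat_lit 21574] false,
   Spec.mk (nat_lit 1894) (nat_lit 1) [nat_lit 3352, nat_lit 1408, nat_lit 2056, nat_lit 1840, nat_lit 1876, nat_lit 1900, nat_lit 1892, nat_lit 1896] (nat_lit 0) [nat_lit 21576] false,
   Spec.mk (nat_lit 1896) (nat_lit 0) [nat_lit 3354, nat_lit 1410, nat_lit 2058, nat_lit 1842, nat_lit 1878, nat_lit 1902, nat_lit 1894] (nat_lit 0) [] false,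
   Spec.mk (nat_lit 1900) (nat_lit 1) [nat_lit 3358, nat_lit 1414, nat_lit 2062, nat_lit 1846, nat_lit 1882, nat_lit 1918, nat_lit 1894, nat_lit 1902] (nat_lit 0) [nat_lit 21582] false,
   Spec.mk (nat_lit 1902) (nat_lit 2) [nat_lit 3360, nat_lit 1416, nat_lit 2064, nat_lit 1848, nat_lit 1884, nat_lit 1920, nat_lit 1896, nat_lit 1908, nat_lit 1900] (nat_lit 0) [] false,
   Spec.mk (nat_lit 1908) (nat_lit 2) [nat_lit 3366, nat_lit 1422, nat_lit 2070, nat_lit 1854, nat_lit 1926, nat_lit 1902] (nat_lit 0) [] false,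
   Spec.mk (nat_lit 1918) (nat_lit 2) [nat_lit 3376, nat_lit 1432, nat_lit 2080, nat_lit 1900, nat_lit 1920] (nat_lit 0) [nat_lit 21600] false,
   Spec.mk (nat_lit 1920) (nat_lit 2) [nat_lit 3378, nat_lit 1434, nat_lit 2082, nat_lit 1902, nat_lit 1926, nat_lit 1918] (nat_lit 0) [] false,
   Spec.mk (nat_lit 1926) (nat_lit 4) [nat_lit 3384, nat_lit 1440, nat_lit 2088, nat_lit 1908, nat_lit 1920] (nat_lit 0) [] false,
   Spec.mk (nat_lit 1952) (nat_lit 2) [nat_lit 3410, nat_lit 1790, nat_lit 1958] (nat_lit 0) [nat_lit 21634] true,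
   Spec.mk (nat_lit 1958) (nat_lit 1) [nat_lit 3416, nat_lit 1796, nat_lit 1976, nat_lit 1952, nat_lit 1964, nat_lit 1960] (nat_lit 0) [nat_lit 21640] false,
   Spec.mk (nat_lit 1960) (nat_lit 2) [nat_lit 3418, nat_lit 1798, nat_lit 1978, nat_lit 1966, nat_lit 1958] (nat_lit 0) [nat_lit 21642] false,
   Spec.mk (nat_lit 1964) (nat_lit 0) [nat_lit 3422, nat_lit 1802, nat_lit 1982, nat_lit 1958, nat_lit 1966] (nat_lit 2) [nat_lit 21646] false,
   Spec.mk (nat_lit 1966) (nat_lit 1) [nat_lit 3424, nat_lit 1804, nat_lit 1984, nat_lit 1960, nat_lit 1964, nat_lit 1968] (nat_lit 0) [nat_lit 21648] false,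
   Spec.mk (nat_lit 1968) (nat_lit 2) [nat_lit 3426, nat_lit 1806, nat_lit 1986, nat_lit 1966] (nat_lit 0) [] false,
   Spec.mk (nat_lit 1976) (nat_lit 0) [nat_lit 3434, nat_lit 1814, nat_lit 2030, nat_lit 1958, nat_lit 1982, nat_lit 1978] (nat_lit 0) [nat_lit 21658] false,
   Spec.mk (nat_lit 1978) (nat_lit 0) [nat_lit 3436, nat_lit 1816, nat_lit 2032, nat_lit 1960, nat_lit 1984, nat_lit 1976] (nat_lit 0) [nat_lit 21660] false,
   Spec.mk (nat_lit 1982) (nat_lit 0) [nat_lit 3440, nat_lit 1820, nat_lit 2036, nat_lit 1964, nat_lit 2000, nat_lit 1976, nat_lit 1984] (nat_lit 1) [nat_lit 21664] false,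
   Spec.mk (nat_lit 1984) (nat_lit 1) [nat_lit 3442, nat_lit 1822, nat_lit 2038, nat_lit 1966, nat_lit 2002, nat_lit 1978, nat_lit 1990, nat_lit 1982, nat_lit 1986] (nat_lit 0) [nat_lit 21666] false,
   Spec.mk (nat_lit 1986) (nat_lit 1) [nat_lit 3444, nat_lit 1824, nat_lit 2040, nat_lit 1968, nat_lit 2004, nat_lit 1992, nat_lit 1984] (nat_lit 0) [] false,
   Spec.mk (nat_lit 1990) (nat_lit 0) [nat_lit 3448, nat_lit 1828, nat_lit 2044, nat_lit 2008, nat_lit 1984, nat_lit 1992] (nat_lit 0) [nat_lit 21672] false,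
   Spec.mk (nat_lit 1992) (nat_lit 2) [nat_lit 3450, nat_lit 1830, nat_lit 2046, nat_lit 2010, nat_lit 1986, nat_lit 1990] (nat_lit 0) [] false,
   Spec.mk (nat_lit 2000) (nat_lit 0) [nat_lit 3458, nat_lit 1838, nat_lit 2054, nat_lit 1982, nat_lit 2002] (nat_lit 2) [nat_lit 21682] false,
   Spec.mk (nat_lit 2002) (nat_lit 0) [nat_lit 3460, nat_lit 1840, nat_lit 2056, nat_lit 1984, nat_lit 2008, nat_lit 2000, nat_lit 2004] (nat_lit 1) [nat_lit 21684] false,
   Spec.mk (nat_lit 2004) (nat_lit 0) [nat_lit 3462, nat_lit 1842, nat_lit 2058, nat_lit 1986, nat_lit 2010, nat_lit 2002] (nat_lit 2) [] false,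
   Spec.mk (nat_lit 2008) (nat_lit 0) [nat_lit 3466, nat_lit 1846, nat_lit 2062, nat_lit 1990, nat_lit 2002, nat_lit 2010] (nat_lit 0) [nat_lit 21690] false,
   Spec.mk (nat_lit 2010) (nat_lit 1) [nat_lit 3468, nat_lit 1848, nat_lit 2064, nat_lit 1992, nat_lit 2004, nat_lit 2016, nat_lit 2008] (nat_lit 0) [] false,
   Spec.mk (nat_lit 2016) (nat_lit 2) [nat_lit 3474, nat_lit 1854, nat_lit 2070, nat_lit 2010] (nat_lit 0) [] false,
   Spec.mk (nat_lit 2030) (nat_lit 2) [nat_lit 3488, nat_lit 1868, nat_lit 1976, nat_lit 2036, nat_lit 2032] (nat_lit 0) [nat_lit 21712] false,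
   Spec.mk (nat_lit 2032) (nat_lit 2) [nat_lit 3490, nat_lit 1870, nat_lit 1978, nat_lit 2038, nat_lit 2030] (nat_lit 0) [nat_lit 21714] false,
   Spec.mk (nat_lit 2036) (nat_lit 0) [nat_lit 3494, nat_lit 1874, nat_lit 1982, nat_lit 2054, nat_lit 2030, nat_lit 2038] (nat_lit 0) [nat_lit 21718] false,
   Spec.mk (nat_lit 2038) (nat_lit 2) [nat_lit 3496, nat_lit 1876, nat_lit 1984, nat_lit 2056, nat_lit 2032, nat_lit 2044, nat_lit 2036, nat_lit 2040] (nat_lit 0) [nat_lit 21720] false,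
   Spec.mk (nat_lit 2040) (nat_lit 2) [nat_lit 3498, nat_lit 1878, nat_lit 1986, nat_lit 2058, nat_lit 2046, nat_lit 2038] (nat_lit 0) [] false,
   Spec.mk (nat_lit 2044) (nat_lit 0) [nat_lit 3502, nat_lit 1882, nat_lit 1990, nat_lit 2062, nat_lit 2038, nat_lit 2046] (nat_lit 0) [nat_lit 21726] false,
   Spec.mk (nat_lit 2046) (nat_lit 2) [nat_lit 3504, nat_lit 1884, nat_lit 1992, nat_lit 2064, nat_lit 2040, nat_lit 2044] (nat_lit 0) [] false,
   Spec.mk (nat_lit 2054) (nat_lit 1) [nat_lit 3512, nat_lit 1892, nat_lit 2000, nat_lit 2108, nat_lit 2036, nat_lit 2056] (nat_lit 0) [nat_lit 21736] false,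
   Spec.mk (nat_lit 2056) (nat_lit 2) [nat_lit 3514, nat_lit 1894, nat_lit 2002, nat_lit 2110, nat_lit 2038, nat_lit 2062, nat_lit 2054, nat_lit 2058] (nat_lit 0) [nat_lit 21738] false,
   Spec.mk (nat_lit 2058) (nat_lit 1) [nat_lit 3516, nat_lit 1896, nat_lit 2004, nat_lit 2112, nat_lit 2040, nat_lit 2064, nat_lit 2056] (nat_lit 0) [] false,
   Spec.mk (nat_lit 2062) (nat_lit 2) [nat_lit 3520, nat_lit 1900, nat_lit 2008, nat_lit 2116, nat_lit 2044, nat_lit 2080, nat_lit 2056, nat_lit 2064] (nat_lit 0) [nat_lit 21744] false,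
   Spec.mk (nat_lit 2064) (nat_lit 3) [nat_lit 3522, nat_lit 1902, nat_lit 2010, nat_lit 2118, nat_lit 2046, nat_lit 2082, nat_lit 2058, nat_lit 2070, nat_lit 2062] (nat_lit 0) [] false,
   Spec.mk (nat_lit 2070) (nat_lit 3) [nat_lit 3528, nat_lit 1908, nat_lit 2016, nat_lit 2124, nat_lit 2088, nat_lit 2064] (nat_lit 0) [] false,
   Spec.mk (nat_lit 2080) (nat_lit 2) [nat_lit 3538, nat_lit 1918, nat_lit 2134, nat_lit 2062, nat_lit 2082] (nat_lit 0) [nat_lit 21762] false,
   Spec.mk (nat_lit 2082) (nat_lit 2) [nat_lit 3540, nat_lit 1920, nat_lit 2136, nat_lit 2064, nat_lit 2088, nat_lit 2080] (nat_lit 0) [] false,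
   Spec.mk (nat_lit 2088) (nat_lit 4) [nat_lit 3546, nat_lit 1926, nat_lit 2142, nat_lit 2070, nat_lit 2082] (nat_lit 0) [] false,
   Spec.mk (nat_lit 2108) (nat_lit 2) [nat_lit 3566, nat_lit 2054, nat_lit 2110] (nat_lit 0) [nat_lit 21790] false,
   Spec.mk (nat_lit 2110) (nat_lit 3) [nat_lit 3568, nat_lit 2056, nat_lit 2116, nat_lit 2108, nat_lit 2112] (nat_lit 0) [nat_lit 21792] false,
   Spec.mk (nat_lit 2112) (nat_lit 2) [nat_lit 3570, nat_lit 2058, nat_lit 2118, nat_lit 2110] (nat_lit 0) [] false,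
   Spec.mk (nat_lit 2116) (nat_lit 2) [nat_lit 3574, nat_lit 2062, nat_lit 2134, nat_lit 2110, nat_lit 2118] (nat_lit 0) [nat_lit 21798] false,
   Spec.mk (nat_lit 2118) (nat_lit 3) [nat_lit 3576, nat_lit 2064, nat_lit 2136, nat_lit 2112, nat_lit 2124, nat_lit 2116] (nat_lit 0) [] false,
   Spec.mk (nat_lit 2124) (nat_lit 2) [nat_lit 3582, nat_lit 2070, nat_lit 2142, nat_lit 2118] (nat_lit 0) [] false,
   Spec.mk (nat_lit 2134) (nat_lit 4) [nat_lit 3592, nat_lit 2080, nat_lit 2116, nat_lit 2136] (nat_lit 0) [nat_lit 21816] false,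
   Spec.mk (nat_lit 2136) (nat_lit 4) [nat_lit 3594, nat_lit 2082, nat_lit 2118, nat_lit 2142, nat_lit 2134] (nat_lit 0) [] false,
   Spec.mk (nat_lit 2142) (nat_lit 5) [nat_lit 3600, nat_lit 2088, nat_lit 2124, nat_lit 2160, nat_lit 2136] (nat_lit 0) [] false,
   Spec.mk (nat_lit 2160) (nat_lit 6) [nat_lit 3618, nat_lit 2142] (nat_lit 0) [] false,
   Spec.mk (nat_lit 2240) (nat_lit 4) [nat_lit 6614, nat_lit 782, nat_lit 2294, nat_lit 2258] (nat_lit 0) [nat_lit 21922] false,
   Spec.mk (nat_lit 2258) (nat_lit 2) [nat_lit 6632, nat_lit 800, nat_lit 2312, nat_lit 2240, nat_lit 2264] (nat_lit 0) [nat_lit 21940] false,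
   Spec.mk (nat_lit 2264) (nat_lit 2) [nat_lit 6638, nat_lit 806, nat_lit 2318, nat_lit 2258, nat_lit 2266] (nat_lit 0) [nat_lit 21946] false]

noncomputable def sp6 : List Spec :=
  [Spec.mk (nat_lit 2266) (nat_lit 4) [nat_lit 6640, nat_lit 808, nat_lit 2320, nat_lit 2264] (nat_lit 0) [nat_lit 21948] false,
   Spec.mk (nat_lit 2294) (nat_lit 2) [nat_lit 6668, nat_lit 836, nat_lit 2456, nat_lit 2240, nat_lit 2312] (nat_lit 0) [nat_lit 21976] true,
   Spec.mk (nat_lit 2312) (nat_lit 2) [nat_lit 6686, nat_lit 854, nat_lit 2474, nat_lit 2258, nat_lit 2366, nat_lit 2294, nat_lit 2330, nat_lit 2318] (nat_lit 0) [nat_lit 21994] true,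
   Spec.mk (nat_lit 2318) (nat_lit 1) [nat_lit 6692, nat_lit 860, nat_lit 2480, nat_lit 2264, nat_lit 2372, nat_lit 2336, nat_lit 2312, nat_lit 2320] (nat_lit 0) [nat_lit 22000] true,
   Spec.mk (nat_lit 2320) (nat_lit 3) [nat_lit 6694, nat_lit 862, nat_lit 2482, nat_lit 2266, nat_lit 2374, nat_lit 2338, nat_lit 2318] (nat_lit 0) [nat_lit 22002] true,
   Spec.mk (nat_lit 2330) (nat_lit 0) [nat_lit 6704, nat_lit 872, nat_lit 2492, nat_lit 2384, nat_lit 2312, nat_lit 2336] (nat_lit 0) [nat_lit 22012] true,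
   Spec.mk (nat_lit 2336) (nat_lit 1) [nat_lit 6710, nat_lit 878, nat_lit 2498, nat_lit 2390, nat_lit 2318, nat_lit 2330, nat_lit 2342, nat_lit 2338] (nat_lit 0) [nat_lit 22018] true,
   Spec.mk (nat_lit 2338) (nat_lit 2) [nat_lit 6712, nat_lit 880, nat_lit 2500, nat_lit 2392, nat_lit 2320, nat_lit 2344, nat_lit 2336] (nat_lit 0) [nat_lit 22020] true,
   Spec.mk (nat_lit 2342) (nat_lit 0) [nat_lit 6716, nat_lit 884, nat_lit 2504, nat_lit 2396, nat_lit 2336, nat_lit 2344] (nat_lit 0) [nat_lit 22024] true,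
   Spec.mk (nat_lit 2344) (nat_lit 3) [nat_lit 6718, nat_lit 886, nat_lit 2506, nat_lit 2398, nat_lit 2338, nat_lit 2342, nat_lit 2346] (nat_lit 0) [nat_lit 22026] false,
   Spec.mk (nat_lit 2346) (nat_lit 4) [nat_lit 6720, nat_lit 888, nat_lit 2508, nat_lit 2400, nat_lit 2344] (nat_lit 0) [] false,
   Spec.mk (nat_lit 2366) (nat_lit 0) [nat_lit 6740, nat_lit 908, nat_lit 2528, nat_lit 2312, nat_lit 2384, nat_lit 2372] (nat_lit 0) [nat_lit 22048] true,
   Spec.mk (nat_lit 2372) (nat_lit 0) [nat_lit 6746, nat_lit 914, nat_lit 2534, nat_lit 2318, nat_lit 2390, nat_lit 2366, nat_lit 2374] (nat_lit 2) [nat_lit 22054] true,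
   Spec.mk (nat_lit 2374) (nat_lit 0) [nat_lit 6748, nat_lit 916, nat_lit 2536, nat_lit 2320, nat_lit 2392, nat_lit 2372] (nat_lit 0) [nat_lit 22056] false,
   Spec.mk (nat_lit 2384) (nat_lit 0) [nat_lit 6758, nat_lit 926, nat_lit 2546, nat_lit 2330, nat_lit 2366, nat_lit 2390] (nat_lit 0) [nat_lit 22066] true,
   Spec.mk (nat_lit 2390) (nat_lit 0) [nat_lit 6764, nat_lit 932, nat_lit 2552, nat_lit 2336, nat_lit 2372, nat_lit 2408, nat_lit 2384, nat_lit 2396, nat_lit 2392] (nat_lit 0) [nat_lit 22072] true,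
   Spec.mk (nat_lit 2392) (nat_lit 1) [nat_lit 6766, nat_lit 934, nat_lit 2554, nat_lit 2338, nat_lit 2374, nat_lit 2410, nat_lit 2398, nat_lit 2390] (nat_lit 0) [nat_lit 22074] false,
   Spec.mk (nat_lit 2396) (nat_lit 0) [nat_lit 6770, nat_lit 938, nat_lit 2558, nat_lit 2342, nat_lit 2414, nat_lit 2390, nat_lit 2398] (nat_lit 2) [nat_lit 22078] false,
   Spec.mk (nat_lit 2398) (nat_lit 1) [nat_lit 6772, nat_lit 940, nat_lit 2560, nat_lit 2344, nat_lit 2416, nat_lit 2392, nat_lit 2396, nat_lit 2400] (nat_lit 0) [nat_lit 22080] false,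
   Spec.mk (nat_lit 2400) (nat_lit 2) [nat_lit 6774, nat_lit 942, nat_lit 2562, nat_lit 2346, nat_lit 2418, nat_lit 2398] (nat_lit 0) [] false,
   Spec.mk (nat_lit 2408) (nat_lit 0) [nat_lit 6782, nat_lit 950, nat_lit 2570, nat_lit 2390, nat_lit 2414, nat_lit 2410] (nat_lit 0) [nat_lit 22090] false,
   Spec.mk (nat_lit 2410) (nat_lit 0) [nat_lit 6784, nat_lit 952, nat_lit 2572, nat_lit 2392, nat_lit 2416, nat_lit 2408] (nat_lit 0) [nat_lit 22092] false,
   Spec.mk (nat_lit 2414) (nat_lit 0) [nat_lit 6788, nat_lit 956, nat_lit 2576, nat_lit 2396, nat_lit 2408, nat_lit 2416] (nat_lit 0) [nat_lit 22096] false,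
   Spec.mk (nat_lit 2416) (nat_lit 2) [nat_lit 6790, nat_lit 958, nat_lit 2578, nat_lit 2398, nat_lit 2410, nat_lit 2422, nat_lit 2414, nat_lit 2418] (nat_lit 0) [nat_lit 22098] false,
   Spec.mk (nat_lit 2418) (nat_lit 2) [nat_lit 6792, nat_lit 960, nat_lit 2580, nat_lit 2400, nat_lit 2424, nat_lit 2416] (nat_lit 0) [] false,
   Spec.mk (nat_lit 2422) (nat_lit 2) [nat_lit 6796, nat_lit 964, nat_lit 2584, nat_lit 2416, nat_lit 2424] (nat_lit 0) [nat_lit 22104] false,
   Spec.mk (nat_lit 2424) (nat_lit 4) [nat_lit 6798, nat_lit 966, nat_lit 2586, nat_lit 2418, nat_lit 2422] (nat_lit 0) [] false,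
   Spec.mk (nat_lit 2456) (nat_lit 2) [nat_lit 6830, nat_lit 998, nat_lit 2942, nat_lit 2294, nat_lit 2474] (nat_lit 0) [nat_lit 22138] true,
   Spec.mk (nat_lit 2474) (nat_lit 1) [nat_lit 6848, nat_lit 1016, nat_lit 2960, nat_lit 2312, nat_lit 2528, nat_lit 2456, nat_lit 2492, nat_lit 2480] (nat_lit 0) [nat_lit 22156] true,
   Spec.mk (nat_lit 2480) (nat_lit 0) [nat_lit 6854, nat_lit 1022, nat_lit 2966, nat_lit 2318, nat_lit 2534, nat_lit 2498, nat_lit 2474, nat_lit 2482] (nat_lit 0) [nat_lit 22162] true,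
   Spec.mk (nat_lit 2482) (nat_lit 2) [nat_lit 6856, nat_lit 1024, nat_lit 2968, nat_lit 2320, nat_lit 2536, nat_lit 2500, nat_lit 2480] (nat_lit 0) [nat_lit 22164] true,
   Spec.mk (nat_lit 2492) (nat_lit 0) [nat_lit 6866, nat_lit 1034, nat_lit 2978, nat_lit 2330, nat_lit 2546, nat_lit 2474, nat_lit 2498] (nat_lit 2) [nat_lit 22174] true,
   Spec.mk (nat_lit 2498) (nat_lit 0) [nat_lit 6872, nat_lit 1040, nat_lit 2984, nat_lit 2336, nat_lit 2552, nat_lit 2480, nat_lit 2492, nat_lit 2504, nat_lit 2500] (nat_lit 1) [nat_lit 22180] true,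
   Spec.mk (nat_lit 2500) (nat_lit 0) [nat_lit 6874, nat_lit 1042, nat_lit 2986, nat_lit 2338, nat_lit 2554, nat_lit 2482, nat_lit 2506, nat_lit 2498] (nat_lit 0) [nat_lit 22182] true,
   Spec.mk (nat_lit 2504) (nat_lit 0) [nat_lit 6878, nat_lit 1046, nat_lit 2990, nat_lit 2342, nat_lit 2558, nat_lit 2498, nat_lit 2506] (nat_lit 2) [nat_lit 22186] true,
   Spec.mk (nat_lit 2506) (nat_lit 1) [nat_lit 6880, nat_lit 1048, nat_lit 2992, nat_lit 2344, nat_lit 2560, nat_lit 2500, nat_lit 2504, nat_lit 2508] (nat_lit 0) [nat_lit 22188] true,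
   Spec.mk (nat_lit 2508) (nat_lit 2) [nat_lit 6882, nat_lit 1050, nat_lit 2994, nat_lit 2346, nat_lit 2562, nat_lit 2506] (nat_lit 0) [] false,
   Spec.mk (nat_lit 2528) (nat_lit 1) [nat_lit 6902, nat_lit 1070, nat_lit 3014, nat_lit 2366, nat_lit 2690, nat_lit 2474, nat_lit 2546, nat_lit 2534] (nat_lit 0) [nat_lit 22210] true,
   Spec.mk (nat_lit 2534) (nat_lit 0) [nat_lit 6908, nat_lit 1076, nat_lit 3020, nat_lit 2372, nat_lit 2696, nat_lit 2480, nat_lit 2552, nat_lit 2528, nat_lit 2536] (nat_lit 1) [nat_lit 22216] true,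
   Spec.mk (nat_lit 2536) (nat_lit 1) [nat_lit 6910, nat_lit 1078, nat_lit 3022, nat_lit 2374, nat_lit 2698, nat_lit 2482, nat_lit 2554, nat_lit 2534] (nat_lit 0) [nat_lit 22218] true,
   Spec.mk (nat_lit 2546) (nat_lit 0) [nat_lit 6920, nat_lit 1088, nat_lit 3032, nat_lit 2384, nat_lit 2708, nat_lit 2492, nat_lit 2600, nat_lit 2528, nat_lit 2552] (nat_lit 0) [nat_lit 22228] true,
   Spec.mk (nat_lit 2552) (nat_lit 0) [nat_lit 6926, nat_lit 1094, nat_lit 3038, nat_lit 2390, nat_lit 2714, nat_lit 2498, nat_lit 2606, nat_lit 2534, nat_lit 2570, nat_lit 2546, nat_lit 2558, nat_lit 2554] (nat_lit 0) [nat_lit 22234] true,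
   Spec.mk (nat_lit 2554) (nat_lit 1) [nat_lit 6928, nat_lit 1096, nat_lit 3040, nat_lit 2392, nat_lit 2716, nat_lit 2500, nat_lit 2608, nat_lit 2536, nat_lit 2572, nat_lit 2560, nat_lit 2552] (nat_lit 0) [nat_lit 22236] true,
   Spec.mk (nat_lit 2558) (nat_lit 0) [nat_lit 6932, nat_lit 1100, nat_lit 3044, nat_lit 2396, nat_lit 2720, nat_lit 2504, nat_lit 2612, nat_lit 2576, nat_lit 2552, nat_lit 2560] (nat_lit 2) [nat_lit 22240] true,
   Spec.mk (nat_lit 2560) (nat_lit 1) [nat_lit 6934, nat_lit 1102, nat_lit 3046, nat_lit 2398, nat_lit 2722, nat_lit 2506, nat_lit 2614, nat_lit 2578, nat_lit 2554, nat_lit 2558, nat_lit 2562] (nat_lit 0) [nat_lit 22242] true,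
   Spec.mk (nat_lit 2562) (nat_lit 2) [nat_lit 6936, nat_lit 1104, nat_lit 3048, nat_lit 2400, nat_lit 2724, nat_lit 2508, nat_lit 2616, nat_lit 2580, nat_lit 2560] (nat_lit 0) [] false,
   Spec.mk (nat_lit 2570) (nat_lit 0) [nat_lit 6944, nat_lit 1112, nat_lit 3056, nat_lit 2408, nat_lit 2732, nat_lit 2624, nat_lit 2552, nat_lit 2576, nat_lit 2572] (nat_lit 1) [nat_lit 22252] true,
   Spec.mk (nat_lit 2572) (nat_lit 0) [nat_lit 6946, nat_lit 1114, nat_lit 3058, nat_lit 2410, nat_lit 2734, nat_lit 2626, nat_lit 2554, nat_lit 2578, nat_lit 2570] (nat_lit 1) [nat_lit 22254] true,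
   Spec.mk (nat_lit 2576) (nat_lit 0) [nat_lit 6950, nat_lit 1118, nat_lit 3062, nat_lit 2414, nat_lit 2738, nat_lit 2630, nat_lit 2558, nat_lit 2570, nat_lit 2578] (nat_lit 1) [nat_lit 22258] true,
   Spec.mk (nat_lit 2578) (nat_lit 1) [nat_lit 6952, nat_lit 1120, nat_lit 3064, nat_lit 2416, nat_lit 2740, nat_lit 2632, nat_lit 2560, nat_lit 2572, nat_lit 2584, nat_lit 2576, nat_lit 2580] (nat_lit 0) [nat_lit 22260] true,
   Spec.mk (nat_lit 2580) (nat_lit 1) [nat_lit 6954, nat_lit 1122, nat_lit 3066, nat_lit 2418, nat_lit 2742, nat_lit 2634, nat_lit 2562, nat_lit 2586, nat_lit 2578] (nat_lit 0) [] false,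
   Spec.mk (nat_lit 2584) (nat_lit 1) [nat_lit 6958, nat_lit 1126, nat_lit 3070, nat_lit 2422, nat_lit 2746, nat_lit 2638, nat_lit 2578, nat_lit 2586] (nat_lit 0) [nat_lit 22266] true,
   Spec.mk (nat_lit 2586) (nat_lit 3) [nat_lit 6960, nat_lit 1128, nat_lit 3072, nat_lit 2424, nat_lit 2748, nat_lit 2640, nat_lit 2580, nat_lit 2584] (nat_lit 0) [] false,
   Spec.mk (nat_lit 2600) (nat_lit 0) [nat_lit 6974, nat_lit 1142, nat_lit 3086, nat_lit 2762, nat_lit 2546, nat_lit 2606] (nat_lit 0) [nat_lit 22282] true,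
   Spec.mk (nat_lit 2606) (nat_lit 0) [nat_lit 6980, nat_lit 1148, nat_lit 3092, nat_lit 2768, nat_lit 2552, nat_lit 2624, nat_lit 2600, nat_lit 2612, nat_lit 2608] (nat_lit 1) [nat_lit 22288] true,
   Spec.mk (nat_lit 2608) (nat_lit 0) [nat_lit 6982, nat_lit 1150, nat_lit 3094, nat_lit 2770, nat_lit 2554, nat_lit 2626, nat_lit 2614, nat_lit 2606] (nat_lit 0) [nat_lit 22290] true,
   Spec.mk (nat_lit 2612) (nat_lit 0) [nat_lit 6986, nat_lit 1154, nat_lit 3098, nat_lit 2774, nat_lit 2558, nat_lit 2630, nat_lit 2606, nat_lit 2614] (nat_lit 4) [nat_lit 22294] true,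
   Spec.mk (nat_lit 2614) (nat_lit 0) [nat_lit 6988, nat_lit 1156, nat_lit 3100, nat_lit 2776, nat_lit 2560, nat_lit 2632, nat_lit 2608, nat_lit 2612, nat_lit 2616] (nat_lit 1) [nat_lit 22296] true,
   Spec.mk (nat_lit 2616) (nat_lit 0) [nat_lit 6990, nat_lit 1158, nat_lit 3102, nat_lit 2778, nat_lit 2562, nat_lit 2634, nat_lit 2614] (nat_lit 0) [] false,
   Spec.mk (nat_lit 2624) (nat_lit 0) [nat_lit 6998, nat_lit 1166, nat_lit 3110, nat_lit 2786, nat_lit 2570, nat_lit 2606, nat_lit 2630, nat_lit 2626] (nat_lit 0) [nat_lit 22306] true]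

noncomputable def sp7 : List Spec :=
  [Spec.mk (nat_lit 2626) (nat_lit 0) [nat_lit 7000, nat_lit 1168, nat_lit 3112, nat_lit 2788, nat_lit 2572, nat_lit 2608, nat_lit 2632, nat_lit 2624] (nat_lit 0) [nat_lit 22308] true,
   Spec.mk (nat_lit 2630) (nat_lit 0) [nat_lit 7004, nat_lit 1172, nat_lit 3116, nat_lit 2792, nat_lit 2576, nat_lit 2612, nat_lit 2648, nat_lit 2624, nat_lit 2632] (nat_lit 1) [nat_lit 22312] true,
   Spec.mk (nat_lit 2632) (nat_lit 1) [nat_lit 7006, nat_lit 1174, nat_lit 3118, nat_lit 2794, nat_lit 2578, nat_lit 2614, nat_lit 2650, nat_lit 2626, nat_lit 2638, nat_lit 2630, nat_lit 2634] (nat_lit 0) [nat_lit 22314] true,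
   Spec.mk (nat_lit 2634) (nat_lit 1) [nat_lit 7008, nat_lit 1176, nat_lit 3120, nat_lit 2796, nat_lit 2580, nat_lit 2616, nat_lit 2652, nat_lit 2640, nat_lit 2632] (nat_lit 0) [] false,
   Spec.mk (nat_lit 2638) (nat_lit 0) [nat_lit 7012, nat_lit 1180, nat_lit 3124, nat_lit 2800, nat_lit 2584, nat_lit 2656, nat_lit 2632, nat_lit 2640] (nat_lit 0) [nat_lit 22320] true,
   Spec.mk (nat_lit 2640) (nat_lit 2) [nat_lit 7014, nat_lit 1182, nat_lit 3126, nat_lit 2802, nat_lit 2586, nat_lit 2658, nat_lit 2634, nat_lit 2638] (nat_lit 0) [] false,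
   Spec.mk (nat_lit 2648) (nat_lit 0) [nat_lit 7022, nat_lit 1190, nat_lit 3134, nat_lit 2810, nat_lit 2630, nat_lit 2650] (nat_lit 0) [nat_lit 22330] true,
   Spec.mk (nat_lit 2650) (nat_lit 1) [nat_lit 7024, nat_lit 1192, nat_lit 3136, nat_lit 2812, nat_lit 2632, nat_lit 2656, nat_lit 2648, nat_lit 2652] (nat_lit 0) [nat_lit 22332] true,
   Spec.mk (nat_lit 2652) (nat_lit 0) [nat_lit 7026, nat_lit 1194, nat_lit 3138, nat_lit 2814, nat_lit 2634, nat_lit 2658, nat_lit 2650] (nat_lit 0) [] false,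
   Spec.mk (nat_lit 2656) (nat_lit 2) [nat_lit 7030, nat_lit 1198, nat_lit 3142, nat_lit 2818, nat_lit 2638, nat_lit 2650, nat_lit 2658] (nat_lit 0) [nat_lit 22338] true,
   Spec.mk (nat_lit 2658) (nat_lit 3) [nat_lit 7032, nat_lit 1200, nat_lit 3144, nat_lit 2820, nat_lit 2640, nat_lit 2652, nat_lit 2664, nat_lit 2656] (nat_lit 0) [] false,
   Spec.mk (nat_lit 2664) (nat_lit 4) [nat_lit 7038, nat_lit 1206, nat_lit 3150, nat_lit 2826, nat_lit 2658] (nat_lit 0) [] false,
   Spec.mk (nat_lit 2690) (nat_lit 0) [nat_lit 7064, nat_lit 1232, nat_lit 3176, nat_lit 2528, nat_lit 2708, nat_lit 2696] (nat_lit 0) [nat_lit 22372] true,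
   Spec.mk (nat_lit 2696) (nat_lit 0) [nat_lit 7070, nat_lit 1238, nat_lit 3182, nat_lit 2534, nat_lit 2714, nat_lit 2690, nat_lit 2698] (nat_lit 2) [nat_lit 22378] true,
   Spec.mk (nat_lit 2698) (nat_lit 0) [nat_lit 7072, nat_lit 1240, nat_lit 3184, nat_lit 2536, nat_lit 2716, nat_lit 2696] (nat_lit 0) [nat_lit 22380] true,
   Spec.mk (nat_lit 2708) (nat_lit 0) [nat_lit 7082, nat_lit 1250, nat_lit 3194, nat_lit 2546, nat_lit 2762, nat_lit 2690, nat_lit 2714] (nat_lit 2) [nat_lit 22390] true,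
   Spec.mk (nat_lit 2714) (nat_lit 0) [nat_lit 7088, nat_lit 1256, nat_lit 3200, nat_lit 2552, nat_lit 2768, nat_lit 2696, nat_lit 2732, nat_lit 2708, nat_lit 2720, nat_lit 2716] (nat_lit 2) [nat_lit 22396] true,
   Spec.mk (nat_lit 2716) (nat_lit 0) [nat_lit 7090, nat_lit 1258, nat_lit 3202, nat_lit 2554, nat_lit 2770, nat_lit 2698, nat_lit 2734, nat_lit 2722, nat_lit 2714] (nat_lit 1) [nat_lit 22398] true,
   Spec.mk (nat_lit 2720) (nat_lit 0) [nat_lit 7094, nat_lit 1262, nat_lit 3206, nat_lit 2558, nat_lit 2774, nat_lit 2738, nat_lit 2714, nat_lit 2722] (nat_lit 4) [nat_lit 22402] true,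
   Spec.mk (nat_lit 2722) (nat_lit 0) [nat_lit 7096, nat_lit 1264, nat_lit 3208, nat_lit 2560, nat_lit 2776, nat_lit 2740, nat_lit 2716, nat_lit 2720, nat_lit 2724] (nat_lit 1) [nat_lit 22404] true,
   Spec.mk (nat_lit 2724) (nat_lit 0) [nat_lit 7098, nat_lit 1266, nat_lit 3210, nat_lit 2562, nat_lit 2778, nat_lit 2742, nat_lit 2722] (nat_lit 0) [] false,
   Spec.mk (nat_lit 2732) (nat_lit 0) [nat_lit 7106, nat_lit 1274, nat_lit 3218, nat_lit 2570, nat_lit 2786, nat_lit 2714, nat_lit 2738, nat_lit 2734] (nat_lit 4) [nat_lit 22414] true,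
   Spec.mk (nat_lit 2734) (nat_lit 0) [nat_lit 7108, nat_lit 1276, nat_lit 3220, nat_lit 2572, nat_lit 2788, nat_lit 2716, nat_lit 2740, nat_lit 2732] (nat_lit 4) [nat_lit 22416] true,
   Spec.mk (nat_lit 2738) (nat_lit 0) [nat_lit 7112, nat_lit 1280, nat_lit 3224, nat_lit 2576, nat_lit 2792, nat_lit 2720, nat_lit 2732, nat_lit 2740] (nat_lit 4) [nat_lit 22420] true,
   Spec.mk (nat_lit 2740) (nat_lit 0) [nat_lit 7114, nat_lit 1282, nat_lit 3226, nat_lit 2578, nat_lit 2794, nat_lit 2722, nat_lit 2734, nat_lit 2746, nat_lit 2738, nat_lit 2742] (nat_lit 2) [nat_lit 22422] true,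
   Spec.mk (nat_lit 2742) (nat_lit 0) [nat_lit 7116, nat_lit 1284, nat_lit 3228, nat_lit 2580, nat_lit 2796, nat_lit 2724, nat_lit 2748, nat_lit 2740] (nat_lit 2) [] false,
   Spec.mk (nat_lit 2746) (nat_lit 0) [nat_lit 7120, nat_lit 1288, nat_lit 3232, nat_lit 2584, nat_lit 2800, nat_lit 2740, nat_lit 2748] (nat_lit 2) [nat_lit 22428] true,
   Spec.mk (nat_lit 2748) (nat_lit 0) [nat_lit 7122, nat_lit 1290, nat_lit 3234, nat_lit 2586, nat_lit 2802, nat_lit 2742, nat_lit 2746] (nat_lit 0) [] false,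
   Spec.mk (nat_lit 2762) (nat_lit 0) [nat_lit 7136, nat_lit 1304, nat_lit 3248, nat_lit 2600, nat_lit 2708, nat_lit 2768] (nat_lit 0) [nat_lit 22444] true,
   Spec.mk (nat_lit 2768) (nat_lit 0) [nat_lit 7142, nat_lit 1310, nat_lit 3254, nat_lit 2606, nat_lit 2714, nat_lit 2786, nat_lit 2762, nat_lit 2774, nat_lit 2770] (nat_lit 1) [nat_lit 22450] true,
   Spec.mk (nat_lit 2770) (nat_lit 0) [nat_lit 7144, nat_lit 1312, nat_lit 3256, nat_lit 2608, nat_lit 2716, nat_lit 2788, nat_lit 2776, nat_lit 2768] (nat_lit 0) [nat_lit 22452] true,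
   Spec.mk (nat_lit 2774) (nat_lit 0) [nat_lit 7148, nat_lit 1316, nat_lit 3260, nat_lit 2612, nat_lit 2720, nat_lit 2792, nat_lit 2768, nat_lit 2776] (nat_lit 4) [nat_lit 22456] true,
   Spec.mk (nat_lit 2776) (nat_lit 0) [nat_lit 7150, nat_lit 1318, nat_lit 3262, nat_lit 2614, nat_lit 2722, nat_lit 2794, nat_lit 2770, nat_lit 2774, nat_lit 2778] (nat_lit 1) [nat_lit 22458] true,
   Spec.mk (nat_lit 2778) (nat_lit 0) [nat_lit 7152, nat_lit 1320, nat_lit 3264, nat_lit 2616, nat_lit 2724, nat_lit 2796, nat_lit 2776] (nat_lit 0) [] false,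
   Spec.mk (nat_lit 2786) (nat_lit 0) [nat_lit 7160, nat_lit 1328, nat_lit 3272, nat_lit 2624, nat_lit 2732, nat_lit 2840, nat_lit 2768, nat_lit 2792, nat_lit 2788] (nat_lit 1) [nat_lit 22468] true,
   Spec.mk (nat_lit 2788) (nat_lit 0) [nat_lit 7162, nat_lit 1330, nat_lit 3274, nat_lit 2626, nat_lit 2734, nat_lit 2842, nat_lit 2770, nat_lit 2794, nat_lit 2786] (nat_lit 1) [nat_lit 22470] true,
   Spec.mk (nat_lit 2792) (nat_lit 0) [nat_lit 7166, nat_lit 1334, nat_lit 3278, nat_lit 2630, nat_lit 2738, nat_lit 2846, nat_lit 2774, nat_lit 2810, nat_lit 2786, nat_lit 2794] (nat_lit 2) [nat_lit 22474] true,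
   Spec.mk (nat_lit 2794) (nat_lit 0) [nat_lit 7168, nat_lit 1336, nat_lit 3280, nat_lit 2632, nat_lit 2740, nat_lit 2848, nat_lit 2776, nat_lit 2812, nat_lit 2788, nat_lit 2800, nat_lit 2792, nat_lit 2796] (nat_lit 0) [nat_lit 22476] true,
   Spec.mk (nat_lit 2796) (nat_lit 0) [nat_lit 7170, nat_lit 1338, nat_lit 3282, nat_lit 2634, nat_lit 2742, nat_lit 2850, nat_lit 2778, nat_lit 2814, nat_lit 2802, nat_lit 2794] (nat_lit 0) [] false,
   Spec.mk (nat_lit 2800) (nat_lit 0) [nat_lit 7174, nat_lit 1342, nat_lit 3286, nat_lit 2638, nat_lit 2746, nat_lit 2854, nat_lit 2818, nat_lit 2794, nat_lit 2802] (nat_lit 1) [nat_lit 22482] true,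
   Spec.mk (nat_lit 2802) (nat_lit 1) [nat_lit 7176, nat_lit 1344, nat_lit 3288, nat_lit 2640, nat_lit 2748, nat_lit 2856, nat_lit 2820, nat_lit 2796, nat_lit 2800] (nat_lit 0) [] false,
   Spec.mk (nat_lit 2810) (nat_lit 0) [nat_lit 7184, nat_lit 1352, nat_lit 3296, nat_lit 2648, nat_lit 2864, nat_lit 2792, nat_lit 2812] (nat_lit 2) [nat_lit 22492] true,
   Spec.mk (nat_lit 2812) (nat_lit 0) [nat_lit 7186, nat_lit 1354, nat_lit 3298, nat_lit 2650, nat_lit 2866, nat_lit 2794, nat_lit 2818, nat_lit 2810, nat_lit 2814] (nat_lit 1) [nat_lit 22494] true,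
   Spec.mk (nat_lit 2814) (nat_lit 0) [nat_lit 7188, nat_lit 1356, nat_lit 3300, nat_lit 2652, nat_lit 2868, nat_lit 2796, nat_lit 2820, nat_lit 2812] (nat_lit 2) [] false,
   Spec.mk (nat_lit 2818) (nat_lit 0) [nat_lit 7192, nat_lit 1360, nat_lit 3304, nat_lit 2656, nat_lit 2872, nat_lit 2800, nat_lit 2812, nat_lit 2820] (nat_lit 0) [nat_lit 22500] false,
   Spec.mk (nat_lit 2820) (nat_lit 1) [nat_lit 7194, nat_lit 1362, nat_lit 3306, nat_lit 2658, nat_lit 2874, nat_lit 2802, nat_lit 2814, nat_lit 2826, nat_lit 2818] (nat_lit 0) [] false,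
   Spec.mk (nat_lit 2826) (nat_lit 2) [nat_lit 7200, nat_lit 1368, nat_lit 3312, nat_lit 2664, nat_lit 2880, nat_lit 2820] (nat_lit 0) [] false,
   Spec.mk (nat_lit 2840) (nat_lit 0) [nat_lit 7214, nat_lit 1382, nat_lit 3326, nat_lit 2786, nat_lit 2846, nat_lit 2842] (nat_lit 0) [nat_lit 22522] true,
   Spec.mk (nat_lit 2842) (nat_lit 0) [nat_lit 7216, nat_lit 1384, nat_lit 3328, nat_lit 2788, nat_lit 2848, nat_lit 2840] (nat_lit 0) [nat_lit 22524] true,
   Spec.mk (nat_lit 2846) (nat_lit 0) [nat_lit 7220, nat_lit 1388, nat_lit 3332, nat_lit 2792, nat_lit 2864, nat_lit 2840, nat_lit 2848] (nat_lit 2) [nat_lit 22528] true,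
   Spec.mk (nat_lit 2848) (nat_lit 0) [nat_lit 7222, nat_lit 1390, nat_lit 3334, nat_lit 2794, nat_lit 2866, nat_lit 2842, nat_lit 2854, nat_lit 2846, nat_lit 2850] (nat_lit 0) [nat_lit 22530] true,
   Spec.mk (nat_lit 2850) (nat_lit 0) [nat_lit 7224, nat_lit 1392, nat_lit 3336, nat_lit 2796, nat_lit 2868, nat_lit 2856, nat_lit 2848] (nat_lit 0) [] false,
   Spec.mk (nat_lit 2854) (nat_lit 0) [nat_lit 7228, nat_lit 1396, nat_lit 3340, nat_lit 2800, nat_lit 2872, nat_lit 2848, nat_lit 2856] (nat_lit 2) [nat_lit 22536] false,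
   Spec.mk (nat_lit 2856) (nat_lit 0) [nat_lit 7230, nat_lit 1398, nat_lit 3342, nat_lit 2802, nat_lit 2874, nat_lit 2850, nat_lit 2854] (nat_lit 0) [] false,
   Spec.mk (nat_lit 2864) (nat_lit 0) [nat_lit 7238, nat_lit 1406, nat_lit 3350, nat_lit 2810, nat_lit 2846, nat_lit 2866] (nat_lit 0) [nat_lit 22546] true,
   Spec.mk (nat_lit 2866) (nat_lit 1) [nat_lit 7240, nat_lit 1408, nat_lit 3352, nat_lit 2812, nat_lit 2848, nat_lit 2872, nat_lit 2864, nat_lit 2868] (nat_lit 0) [nat_lit 22548] true,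
   Spec.mk (nat_lit 2868) (nat_lit 0) [nat_lit 7242, nat_lit 1410, nat_lit 3354, nat_lit 2814, nat_lit 2850, nat_lit 2874, nat_lit 2866] (nat_lit 0) [] false,
   Spec.mk (nat_lit 2872) (nat_lit 1) [nat_lit 7246, nat_lit 1414, nat_lit 3358, nat_lit 2818, nat_lit 2854, nat_lit 2890, nat_lit 2866, nat_lit 2874] (nat_lit 0) [nat_lit 22554] false,
   Spec.mk (nat_lit 2874) (nat_lit 2) [nat_lit 7248, nat_lit 1416, nat_lit 3360, nat_lit 2820, nat_lit 2856, nat_lit 2892, nat_lit 2868, nat_lit 2880, nat_lit 2872] (nat_lit 0) [] false,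
   Spec.mk (nat_lit 2880) (nat_lit 2) [nat_lit 7254, nat_lit 1422, nat_lit 3366, nat_lit 2826, nat_lit 2898, nat_lit 2874] (nat_lit 0) [] false]

noncomputable def sp8 : List Spec :=
  [Spec.mk (nat_lit 2890) (nat_lit 2) [nat_lit 7264, nat_lit 1432, nat_lit 3376, nat_lit 2872, nat_lit 2892] (nat_lit 0) [nat_lit 22572] false,
   Spec.mk (nat_lit 2892) (nat_lit 2) [nat_lit 7266, nat_lit 1434, nat_lit 3378, nat_lit 2874, nat_lit 2898, nat_lit 2890] (nat_lit 0) [] false,
   Spec.mk (nat_lit 2898) (nat_lit 4) [nat_lit 7272, nat_lit 1440, nat_lit 3384, nat_lit 2880, nat_lit 2892] (nat_lit 0) [] false,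
   Spec.mk (nat_lit 2942) (nat_lit 3) [nat_lit 7316, nat_lit 1484, nat_lit 4400, nat_lit 2456, nat_lit 2960] (nat_lit 0) [nat_lit 22624] false,
   Spec.mk (nat_lit 2960) (nat_lit 2) [nat_lit 7334, nat_lit 1502, nat_lit 4418, nat_lit 2474, nat_lit 3014, nat_lit 2942, nat_lit 2978, nat_lit 2966] (nat_lit 0) [nat_lit 22642] true,
   Spec.mk (nat_lit 2966) (nat_lit 1) [nat_lit 7340, nat_lit 1508, nat_lit 4424, nat_lit 2480, nat_lit 3020, nat_lit 2984, nat_lit 2960, nat_lit 2968] (nat_lit 0) [nat_lit 22648] true,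
   Spec.mk (nat_lit 2968) (nat_lit 3) [nat_lit 7342, nat_lit 1510, nat_lit 4426, nat_lit 2482, nat_lit 3022, nat_lit 2986, nat_lit 2966] (nat_lit 0) [nat_lit 22650] true,
   Spec.mk (nat_lit 2978) (nat_lit 0) [nat_lit 7352, nat_lit 1520, nat_lit 4436, nat_lit 2492, nat_lit 3032, nat_lit 2960, nat_lit 2984] (nat_lit 1) [nat_lit 22660] true,
   Spec.mk (nat_lit 2984) (nat_lit 0) [nat_lit 7358, nat_lit 1526, nat_lit 4442, nat_lit 2498, nat_lit 3038, nat_lit 2966, nat_lit 2978, nat_lit 2990, nat_lit 2986] (nat_lit 0) [nat_lit 22666] true,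
   Spec.mk (nat_lit 2986) (nat_lit 1) [nat_lit 7360, nat_lit 1528, nat_lit 4444, nat_lit 2500, nat_lit 3040, nat_lit 2968, nat_lit 2992, nat_lit 2984] (nat_lit 0) [nat_lit 22668] false,
   Spec.mk (nat_lit 2990) (nat_lit 0) [nat_lit 7364, nat_lit 1532, nat_lit 4448, nat_lit 2504, nat_lit 3044, nat_lit 2984, nat_lit 2992] (nat_lit 1) [nat_lit 22672] false,
   Spec.mk (nat_lit 2992) (nat_lit 2) [nat_lit 7366, nat_lit 1534, nat_lit 4450, nat_lit 2506, nat_lit 3046, nat_lit 2986, nat_lit 2990, nat_lit 2994] (nat_lit 0) [nat_lit 22674] false,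
   Spec.mk (nat_lit 2994) (nat_lit 3) [nat_lit 7368, nat_lit 1536, nat_lit 4452, nat_lit 2508, nat_lit 3048, nat_lit 2992] (nat_lit 0) [] false,
   Spec.mk (nat_lit 3014) (nat_lit 1) [nat_lit 7388, nat_lit 1556, nat_lit 4472, nat_lit 2528, nat_lit 3176, nat_lit 2960, nat_lit 3032, nat_lit 3020] (nat_lit 0) [nat_lit 22696] true,
   Spec.mk (nat_lit 3020) (nat_lit 0) [nat_lit 7394, nat_lit 1562, nat_lit 4478, nat_lit 2534, nat_lit 3182, nat_lit 2966, nat_lit 3038, nat_lit 3014, nat_lit 3022] (nat_lit 1) [nat_lit 22702] true,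
   Spec.mk (nat_lit 3022) (nat_lit 1) [nat_lit 7396, nat_lit 1564, nat_lit 4480, nat_lit 2536, nat_lit 3184, nat_lit 2968, nat_lit 3040, nat_lit 3020] (nat_lit 0) [nat_lit 22704] true,
   Spec.mk (nat_lit 3032) (nat_lit 0) [nat_lit 7406, nat_lit 1574, nat_lit 4490, nat_lit 2546, nat_lit 3194, nat_lit 2978, nat_lit 3086, nat_lit 3014, nat_lit 3038] (nat_lit 0) [nat_lit 22714] true,
   Spec.mk (nat_lit 3038) (nat_lit 0) [nat_lit 7412, nat_lit 1580, nat_lit 4496, nat_lit 2552, nat_lit 3200, nat_lit 2984, nat_lit 3092, nat_lit 3020, nat_lit 3056, nat_lit 3032, nat_lit 3044, nat_lit 3040] (nat_lit 0) [nat_lit 22720] true,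
   Spec.mk (nat_lit 3040) (nat_lit 1) [nat_lit 7414, nat_lit 1582, nat_lit 4498, nat_lit 2554, nat_lit 3202, nat_lit 2986, nat_lit 3094, nat_lit 3022, nat_lit 3058, nat_lit 3046, nat_lit 3038] (nat_lit 0) [nat_lit 22722] true,
   Spec.mk (nat_lit 3044) (nat_lit 0) [nat_lit 7418, nat_lit 1586, nat_lit 4502, nat_lit 2558, nat_lit 3206, nat_lit 2990, nat_lit 3098, nat_lit 3062, nat_lit 3038, nat_lit 3046] (nat_lit 2) [nat_lit 22726] true,
   Spec.mk (nat_lit 3046) (nat_lit 1) [nat_lit 7420, nat_lit 1588, nat_lit 4504, nat_lit 2560, nat_lit 3208, nat_lit 2992, nat_lit 3100, nat_lit 3064, nat_lit 3040, nat_lit 3044, nat_lit 3048] (nat_lit 0) [nat_lit 22728] true,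
   Spec.mk (nat_lit 3048) (nat_lit 2) [nat_lit 7422, nat_lit 1590, nat_lit 4506, nat_lit 2562, nat_lit 3210, nat_lit 2994, nat_lit 3102, nat_lit 3066, nat_lit 3046] (nat_lit 0) [] false,
   Spec.mk (nat_lit 3056) (nat_lit 0) [nat_lit 7430, nat_lit 1598, nat_lit 4514, nat_lit 2570, nat_lit 3218, nat_lit 3110, nat_lit 3038, nat_lit 3062, nat_lit 3058] (nat_lit 1) [nat_lit 22738] true,
   Spec.mk (nat_lit 3058) (nat_lit 0) [nat_lit 7432, nat_lit 1600, nat_lit 4516, nat_lit 2572, nat_lit 3220, nat_lit 3112, nat_lit 3040, nat_lit 3064, nat_lit 3056] (nat_lit 1) [nat_lit 22740] true,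
   Spec.mk (nat_lit 3062) (nat_lit 0) [nat_lit 7436, nat_lit 1604, nat_lit 4520, nat_lit 2576, nat_lit 3224, nat_lit 3116, nat_lit 3044, nat_lit 3056, nat_lit 3064] (nat_lit 1) [nat_lit 22744] true,
   Spec.mk (nat_lit 3064) (nat_lit 1) [nat_lit 7438, nat_lit 1606, nat_lit 4522, nat_lit 2578, nat_lit 3226, nat_lit 3118, nat_lit 3046, nat_lit 3058, nat_lit 3070, nat_lit 3062, nat_lit 3066] (nat_lit 0) [nat_lit 22746] true,
   Spec.mk (nat_lit 3066) (nat_lit 1) [nat_lit 7440, nat_lit 1608, nat_lit 4524, nat_lit 2580, nat_lit 3228, nat_lit 3120, nat_lit 3048, nat_lit 3072, nat_lit 3064] (nat_lit 0) [] false,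
   Spec.mk (nat_lit 3070) (nat_lit 1) [nat_lit 7444, nat_lit 1612, nat_lit 4528, nat_lit 2584, nat_lit 3232, nat_lit 3124, nat_lit 3064, nat_lit 3072] (nat_lit 0) [nat_lit 22752] false,
   Spec.mk (nat_lit 3072) (nat_lit 3) [nat_lit 7446, nat_lit 1614, nat_lit 4530, nat_lit 2586, nat_lit 3234, nat_lit 3126, nat_lit 3066, nat_lit 3070] (nat_lit 0) [] false,
   Spec.mk (nat_lit 3086) (nat_lit 0) [nat_lit 7460, nat_lit 1628, nat_lit 4544, nat_lit 2600, nat_lit 3248, nat_lit 3032, nat_lit 3092] (nat_lit 1) [nat_lit 22768] true,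
   Spec.mk (nat_lit 3092) (nat_lit 0) [nat_lit 7466, nat_lit 1634, nat_lit 4550, nat_lit 2606, nat_lit 3254, nat_lit 3038, nat_lit 3110, nat_lit 3086, nat_lit 3098, nat_lit 3094] (nat_lit 2) [nat_lit 22774] true,
   Spec.mk (nat_lit 3094) (nat_lit 0) [nat_lit 7468, nat_lit 1636, nat_lit 4552, nat_lit 2608, nat_lit 3256, nat_lit 3040, nat_lit 3112, nat_lit 3100, nat_lit 3092] (nat_lit 1) [nat_lit 22776] true,
   Spec.mk (nat_lit 3098) (nat_lit 0) [nat_lit 7472, nat_lit 1640, nat_lit 4556, nat_lit 2612, nat_lit 3260, nat_lit 3044, nat_lit 3116, nat_lit 3092, nat_lit 3100] (nat_lit 5) [nat_lit 22780] true,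
   Spec.mk (nat_lit 3100) (nat_lit 0) [nat_lit 7474, nat_lit 1642, nat_lit 4558, nat_lit 2614, nat_lit 3262, nat_lit 3046, nat_lit 3118, nat_lit 3094, nat_lit 3098, nat_lit 3102] (nat_lit 2) [nat_lit 22782] true,
   Spec.mk (nat_lit 3102) (nat_lit 0) [nat_lit 7476, nat_lit 1644, nat_lit 4560, nat_lit 2616, nat_lit 3264, nat_lit 3048, nat_lit 3120, nat_lit 3100] (nat_lit 1) [] false,
   Spec.mk (nat_lit 3110) (nat_lit 0) [nat_lit 7484, nat_lit 1652, nat_lit 4568, nat_lit 2624, nat_lit 3272, nat_lit 3056, nat_lit 3092, nat_lit 3116, nat_lit 3112] (nat_lit 1) [nat_lit 22792] true,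
   Spec.mk (nat_lit 3112) (nat_lit 0) [nat_lit 7486, nat_lit 1654, nat_lit 4570, nat_lit 2626, nat_lit 3274, nat_lit 3058, nat_lit 3094, nat_lit 3118, nat_lit 3110] (nat_lit 1) [nat_lit 22794] true,
   Spec.mk (nat_lit 3116) (nat_lit 0) [nat_lit 7490, nat_lit 1658, nat_lit 4574, nat_lit 2630, nat_lit 3278, nat_lit 3062, nat_lit 3098, nat_lit 3134, nat_lit 3110, nat_lit 3118] (nat_lit 2) [nat_lit 22798] true,
   Spec.mk (nat_lit 3118) (nat_lit 0) [nat_lit 7492, nat_lit 1660, nat_lit 4576, nat_lit 2632, nat_lit 3280, nat_lit 3064, nat_lit 3100, nat_lit 3136, nat_lit 3112, nat_lit 3124, nat_lit 3116, nat_lit 3120] (nat_lit 0) [nat_lit 22800] true,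
   Spec.mk (nat_lit 3120) (nat_lit 0) [nat_lit 7494, nat_lit 1662, nat_lit 4578, nat_lit 2634, nat_lit 3282, nat_lit 3066, nat_lit 3102, nat_lit 3138, nat_lit 3126, nat_lit 3118] (nat_lit 0) [] false,
   Spec.mk (nat_lit 3124) (nat_lit 0) [nat_lit 7498, nat_lit 1666, nat_lit 4582, nat_lit 2638, nat_lit 3286, nat_lit 3070, nat_lit 3142, nat_lit 3118, nat_lit 3126] (nat_lit 1) [nat_lit 22806] false,
   Spec.mk (nat_lit 3126) (nat_lit 1) [nat_lit 7500, nat_lit 1668, nat_lit 4584, nat_lit 2640, nat_lit 3288, nat_lit 3072, nat_lit 3144, nat_lit 3120, nat_lit 3124] (nat_lit 0) [] false,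
   Spec.mk (nat_lit 3134) (nat_lit 0) [nat_lit 7508, nat_lit 1676, nat_lit 4592, nat_lit 2648, nat_lit 3296, nat_lit 3116, nat_lit 3136] (nat_lit 1) [nat_lit 22816] true,
   Spec.mk (nat_lit 3136) (nat_lit 0) [nat_lit 7510, nat_lit 1678, nat_lit 4594, nat_lit 2650, nat_lit 3298, nat_lit 3118, nat_lit 3142, nat_lit 3134, nat_lit 3138] (nat_lit 0) [nat_lit 22818] true,
   Spec.mk (nat_lit 3138) (nat_lit 0) [nat_lit 7512, nat_lit 1680, nat_lit 4596, nat_lit 2652, nat_lit 3300, nat_lit 3120, nat_lit 3144, nat_lit 3136] (nat_lit 1) [] false,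
   Spec.mk (nat_lit 3142) (nat_lit 1) [nat_lit 7516, nat_lit 1684, nat_lit 4600, nat_lit 2656, nat_lit 3304, nat_lit 3124, nat_lit 3136, nat_lit 3144] (nat_lit 0) [nat_lit 22824] false,
   Spec.mk (nat_lit 3144) (nat_lit 2) [nat_lit 7518, nat_lit 1686, nat_lit 4602, nat_lit 2658, nat_lit 3306, nat_lit 3126, nat_lit 3138, nat_lit 3150, nat_lit 3142] (nat_lit 0) [] false,
   Spec.mk (nat_lit 3150) (nat_lit 3) [nat_lit 7524, nat_lit 1692, nat_lit 4608, nat_lit 2664, nat_lit 3312, nat_lit 3144] (nat_lit 0) [] false,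
   Spec.mk (nat_lit 3176) (nat_lit 2) [nat_lit 7550, nat_lit 1718, nat_lit 4634, nat_lit 2690, nat_lit 3662, nat_lit 3014, nat_lit 3194, nat_lit 3182] (nat_lit 0) [nat_lit 22858] true,
   Spec.mk (nat_lit 3182) (nat_lit 0) [nat_lit 7556, nat_lit 1724, nat_lit 4640, nat_lit 2696, nat_lit 3668, nat_lit 3020, nat_lit 3200, nat_lit 3176, nat_lit 3184] (nat_lit 0) [nat_lit 22864] true,
   Spec.mk (nat_lit 3184) (nat_lit 2) [nat_lit 7558, nat_lit 1726, nat_lit 4642, nat_lit 2698, nat_lit 3670, nat_lit 3022, nat_lit 3202, nat_lit 3182] (nat_lit 0) [nat_lit 22866] false,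
   Spec.mk (nat_lit 3194) (nat_lit 0) [nat_lit 7568, nat_lit 1736, nat_lit 4652, nat_lit 2708, nat_lit 3680, nat_lit 3032, nat_lit 3248, nat_lit 3176, nat_lit 3200] (nat_lit 0) [nat_lit 22876] true,
   Spec.mk (nat_lit 3200) (nat_lit 0) [nat_lit 7574, nat_lit 1742, nat_lit 4658, nat_lit 2714, nat_lit 3686, nat_lit 3038, nat_lit 3254, nat_lit 3182, nat_lit 3218, nat_lit 3194, nat_lit 3206, nat_lit 3202] (nat_lit 0) [nat_lit 22882] true,
   Spec.mk (nat_lit 3202) (nat_lit 1) [nat_lit 7576, nat_lit 1744, nat_lit 4660, nat_lit 2716, nat_lit 3688, nat_lit 3040, nat_lit 3256, nat_lit 3184, nat_lit 3220, nat_lit 3208, nat_lit 3200] (nat_lit 0) [nat_lit 22884] true,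
   Spec.mk (nat_lit 3206) (nat_lit 0) [nat_lit 7580, nat_lit 1748, nat_lit 4664, nat_lit 2720, nat_lit 3692, nat_lit 3044, nat_lit 3260, nat_lit 3224, nat_lit 3200, nat_lit 3208] (nat_lit 2) [nat_lit 22888] true,
   Spec.mk (nat_lit 3208) (nat_lit 1) [nat_lit 7582, nat_lit 1750, nat_lit 4666, nat_lit 2722, nat_lit 3694, nat_lit 3046, nat_lit 3262, nat_lit 3226, nat_lit 3202, nat_lit 3206, nat_lit 3210] (nat_lit 0) [nat_lit 22890] true,
   Spec.mk (nat_lit 3210) (nat_lit 2) [nat_lit 7584, nat_lit 1752, nat_lit 4668, nat_lit 2724, nat_lit 3696, nat_lit 3048, nat_lit 3264, nat_lit 3228, nat_lit 3208] (nat_lit 0) [] false,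
   Spec.mk (nat_lit 3218) (nat_lit 0) [nat_lit 7592, nat_lit 1760, nat_lit 4676, nat_lit 2732, nat_lit 3704, nat_lit 3056, nat_lit 3272, nat_lit 3200, nat_lit 3224, nat_lit 3220] (nat_lit 2) [nat_lit 22900] true,
   Spec.mk (nat_lit 3220) (nat_lit 0) [nat_lit 7594, nat_lit 1762, nat_lit 4678, nat_lit 2734, nat_lit 3706, nat_lit 3058, nat_lit 3274, nat_lit 3202, nat_lit 3226, nat_lit 3218] (nat_lit 2) [nat_lit 22902] true,
   Spec.mk (nat_lit 3224) (nat_lit 0) [nat_lit 7598, nat_lit 1766, nat_lit 4682, nat_lit 2738, nat_lit 3710, nat_lit 3062, nat_lit 3278, nat_lit 3206, nat_lit 3218, nat_lit 3226] (nat_lit 2) [nat_lit 22906] true]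

noncomputable def sp9 : List Spec :=
  [Spec.mk (nat_lit 3226) (nat_lit 0) [nat_lit 7600, nat_lit 1768, nat_lit 4684, nat_lit 2740, nat_lit 3712, nat_lit 3064, nat_lit 3280, nat_lit 3208, nat_lit 3220, nat_lit 3232, nat_lit 3224, nat_lit 3228] (nat_lit 0) [nat_lit 22908] true,
   Spec.mk (nat_lit 3228) (nat_lit 0) [nat_lit 7602, nat_lit 1770, nat_lit 4686, nat_lit 2742, nat_lit 3714, nat_lit 3066, nat_lit 3282, nat_lit 3210, nat_lit 3234, nat_lit 3226] (nat_lit 0) [] false,
   Spec.mk (nat_lit 3232) (nat_lit 0) [nat_lit 7606, nat_lit 1774, nat_lit 4690, nat_lit 2746, nat_lit 3718, nat_lit 3070, nat_lit 3286, nat_lit 3226, nat_lit 3234] (nat_lit 0) [nat_lit 22914] false,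
   Spec.mk (nat_lit 3234) (nat_lit 2) [nat_lit 7608, nat_lit 1776, nat_lit 4692, nat_lit 2748, nat_lit 3720, nat_lit 3072, nat_lit 3288, nat_lit 3228, nat_lit 3232] (nat_lit 0) [] false,
   Spec.mk (nat_lit 3248) (nat_lit 1) [nat_lit 7622, nat_lit 1790, nat_lit 4706, nat_lit 2762, nat_lit 3734, nat_lit 3086, nat_lit 3410, nat_lit 3194, nat_lit 3254] (nat_lit 0) [nat_lit 22930] true,
   Spec.mk (nat_lit 3254) (nat_lit 0) [nat_lit 7628, nat_lit 1796, nat_lit 4712, nat_lit 2768, nat_lit 3740, nat_lit 3092, nat_lit 3416, nat_lit 3200, nat_lit 3272, nat_lit 3248, nat_lit 3260, nat_lit 3256] (nat_lit 0) [nat_lit 22936] true,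
   Spec.mk (nat_lit 3256) (nat_lit 1) [nat_lit 7630, nat_lit 1798, nat_lit 4714, nat_lit 2770, nat_lit 3742, nat_lit 3094, nat_lit 3418, nat_lit 3202, nat_lit 3274, nat_lit 3262, nat_lit 3254] (nat_lit 0) [nat_lit 22938] true,
   Spec.mk (nat_lit 3260) (nat_lit 0) [nat_lit 7634, nat_lit 1802, nat_lit 4718, nat_lit 2774, nat_lit 3746, nat_lit 3098, nat_lit 3422, nat_lit 3206, nat_lit 3278, nat_lit 3254, nat_lit 3262] (nat_lit 3) [nat_lit 22942] true,
   Spec.mk (nat_lit 3262) (nat_lit 0) [nat_lit 7636, nat_lit 1804, nat_lit 4720, nat_lit 2776, nat_lit 3748, nat_lit 3100, nat_lit 3424, nat_lit 3208, nat_lit 3280, nat_lit 3256, nat_lit 3260, nat_lit 3264] (nat_lit 0) [nat_lit 22944] true,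
   Spec.mk (nat_lit 3264) (nat_lit 1) [nat_lit 7638, nat_lit 1806, nat_lit 4722, nat_lit 2778, nat_lit 3750, nat_lit 3102, nat_lit 3426, nat_lit 3210, nat_lit 3282, nat_lit 3262] (nat_lit 0) [] false,
   Spec.mk (nat_lit 3272) (nat_lit 0) [nat_lit 7646, nat_lit 1814, nat_lit 4730, nat_lit 2786, nat_lit 3758, nat_lit 3110, nat_lit 3434, nat_lit 3218, nat_lit 3326, nat_lit 3254, nat_lit 3278, nat_lit 3274] (nat_lit 0) [nat_lit 22954] true,
   Spec.mk (nat_lit 3274) (nat_lit 0) [nat_lit 7648, nat_lit 1816, nat_lit 4732, nat_lit 2788, nat_lit 3760, nat_lit 3112, nat_lit 3436, nat_lit 3220, nat_lit 3328, nat_lit 3256, nat_lit 3280, nat_lit 3272] (nat_lit 0) [nat_lit 22956] true,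
   Spec.mk (nat_lit 3278) (nat_lit 0) [nat_lit 7652, nat_lit 1820, nat_lit 4736, nat_lit 2792, nat_lit 3764, nat_lit 3116, nat_lit 3440, nat_lit 3224, nat_lit 3332, nat_lit 3260, nat_lit 3296, nat_lit 3272, nat_lit 3280] (nat_lit 1) [nat_lit 22960] true,
   Spec.mk (nat_lit 3280) (nat_lit 1) [nat_lit 7654, nat_lit 1822, nat_lit 4738, nat_lit 2794, nat_lit 3766, nat_lit 3118, nat_lit 3442, nat_lit 3226, nat_lit 3334, nat_lit 3262, nat_lit 3298, nat_lit 3274, nat_lit 3286, nat_lit 3278, nat_lit 3282] (nat_lit 0) [nat_lit 22962] true,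
   Spec.mk (nat_lit 3282) (nat_lit 1) [nat_lit 7656, nat_lit 1824, nat_lit 4740, nat_lit 2796, nat_lit 3768, nat_lit 3120, nat_lit 3444, nat_lit 3228, nat_lit 3336, nat_lit 3264, nat_lit 3300, nat_lit 3288, nat_lit 3280] (nat_lit 0) [] false,
   Spec.mk (nat_lit 3286) (nat_lit 0) [nat_lit 7660, nat_lit 1828, nat_lit 4744, nat_lit 2800, nat_lit 3772, nat_lit 3124, nat_lit 3448, nat_lit 3232, nat_lit 3340, nat_lit 3304, nat_lit 3280, nat_lit 3288] (nat_lit 0) [nat_lit 22968] false,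
   Spec.mk (nat_lit 3288) (nat_lit 2) [nat_lit 7662, nat_lit 1830, nat_lit 4746, nat_lit 2802, nat_lit 3774, nat_lit 3126, nat_lit 3450, nat_lit 3234, nat_lit 3342, nat_lit 3306, nat_lit 3282, nat_lit 3286] (nat_lit 0) [] false,
   Spec.mk (nat_lit 3296) (nat_lit 0) [nat_lit 7670, nat_lit 1838, nat_lit 4754, nat_lit 2810, nat_lit 3782, nat_lit 3134, nat_lit 3458, nat_lit 3350, nat_lit 3278, nat_lit 3298] (nat_lit 1) [nat_lit 22978] true,
   Spec.mk (nat_lit 3298) (nat_lit 0) [nat_lit 7672, nat_lit 1840, nat_lit 4756, nat_lit 2812, nat_lit 3784, nat_lit 3136, nat_lit 3460, nat_lit 3352, nat_lit 3280, nat_lit 3304, nat_lit 3296, nat_lit 3300] (nat_lit 0) [nat_lit 22980] false,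
   Spec.mk (nat_lit 3300) (nat_lit 0) [nat_lit 7674, nat_lit 1842, nat_lit 4758, nat_lit 2814, nat_lit 3786, nat_lit 3138, nat_lit 3462, nat_lit 3354, nat_lit 3282, nat_lit 3306, nat_lit 3298] (nat_lit 1) [] false,
   Spec.mk (nat_lit 3304) (nat_lit 1) [nat_lit 7678, nat_lit 1846, nat_lit 4762, nat_lit 2818, nat_lit 3790, nat_lit 3142, nat_lit 3466, nat_lit 3358, nat_lit 3286, nat_lit 3298, nat_lit 3306] (nat_lit 0) [nat_lit 22986] false,
   Spec.mk (nat_lit 3306) (nat_lit 2) [nat_lit 7680, nat_lit 1848, nat_lit 4764, nat_lit 2820, nat_lit 3792, nat_lit 3144, nat_lit 3468, nat_lit 3360, nat_lit 3288, nat_lit 3300, nat_lit 3312, nat_lit 3304] (nat_lit 0) [] false,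
   Spec.mk (nat_lit 3312) (nat_lit 3) [nat_lit 7686, nat_lit 1854, nat_lit 4770, nat_lit 2826, nat_lit 3798, nat_lit 3150, nat_lit 3474, nat_lit 3366, nat_lit 3306] (nat_lit 0) [] false,
   Spec.mk (nat_lit 3326) (nat_lit 0) [nat_lit 7700, nat_lit 1868, nat_lit 4784, nat_lit 2840, nat_lit 3812, nat_lit 3488, nat_lit 3272, nat_lit 3332, nat_lit 3328] (nat_lit 0) [nat_lit 23008] true,
   Spec.mk (nat_lit 3328) (nat_lit 0) [nat_lit 7702, nat_lit 1870, nat_lit 4786, nat_lit 2842, nat_lit 3814, nat_lit 3490, nat_lit 3274, nat_lit 3334, nat_lit 3326] (nat_lit 0) [nat_lit 23010] true,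
   Spec.mk (nat_lit 3332) (nat_lit 0) [nat_lit 7706, nat_lit 1874, nat_lit 4790, nat_lit 2846, nat_lit 3818, nat_lit 3494, nat_lit 3278, nat_lit 3350, nat_lit 3326, nat_lit 3334] (nat_lit 2) [nat_lit 23014] true,
   Spec.mk (nat_lit 3334) (nat_lit 0) [nat_lit 7708, nat_lit 1876, nat_lit 4792, nat_lit 2848, nat_lit 3820, nat_lit 3496, nat_lit 3280, nat_lit 3352, nat_lit 3328, nat_lit 3340, nat_lit 3332, nat_lit 3336] (nat_lit 0) [nat_lit 23016] false,
   Spec.mk (nat_lit 3336) (nat_lit 0) [nat_lit 7710, nat_lit 1878, nat_lit 4794, nat_lit 2850, nat_lit 3822, nat_lit 3498, nat_lit 3282, nat_lit 3354, nat_lit 3342, nat_lit 3334] (nat_lit 0) [] false,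
   Spec.mk (nat_lit 3340) (nat_lit 0) [nat_lit 7714, nat_lit 1882, nat_lit 4798, nat_lit 2854, nat_lit 3826, nat_lit 3502, nat_lit 3286, nat_lit 3358, nat_lit 3334, nat_lit 3342] (nat_lit 2) [nat_lit 23022] false,
   Spec.mk (nat_lit 3342) (nat_lit 0) [nat_lit 7716, nat_lit 1884, nat_lit 4800, nat_lit 2856, nat_lit 3828, nat_lit 3504, nat_lit 3288, nat_lit 3360, nat_lit 3336, nat_lit 3340] (nat_lit 0) [] false,
   Spec.mk (nat_lit 3350) (nat_lit 0) [nat_lit 7724, nat_lit 1892, nat_lit 4808, nat_lit 2864, nat_lit 3836, nat_lit 3512, nat_lit 3296, nat_lit 3332, nat_lit 3352] (nat_lit 0) [nat_lit 23032] true,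
   Spec.mk (nat_lit 3352) (nat_lit 1) [nat_lit 7726, nat_lit 1894, nat_lit 4810, nat_lit 2866, nat_lit 3838, nat_lit 3514, nat_lit 3298, nat_lit 3334, nat_lit 3358, nat_lit 3350, nat_lit 3354] (nat_lit 0) [nat_lit 23034] false,
   Spec.mk (nat_lit 3354) (nat_lit 0) [nat_lit 7728, nat_lit 1896, nat_lit 4812, nat_lit 2868, nat_lit 3840, nat_lit 3516, nat_lit 3300, nat_lit 3336, nat_lit 3360, nat_lit 3352] (nat_lit 0) [] false,
   Spec.mk (nat_lit 3358) (nat_lit 1) [nat_lit 7732, nat_lit 1900, nat_lit 4816, nat_lit 2872, nat_lit 3844, nat_lit 3520, nat_lit 3304, nat_lit 3340, nat_lit 3376, nat_lit 3352, nat_lit 3360] (nat_lit 0) [nat_lit 23040] false,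
   Spec.mk (nat_lit 3360) (nat_lit 2) [nat_lit 7734, nat_lit 1902, nat_lit 4818, nat_lit 2874, nat_lit 3846, nat_lit 3522, nat_lit 3306, nat_lit 3342, nat_lit 3378, nat_lit 3354, nat_lit 3366, nat_lit 3358] (nat_lit 0) [] false,
   Spec.mk (nat_lit 3366) (nat_lit 2) [nat_lit 7740, nat_lit 1908, nat_lit 4824, nat_lit 2880, nat_lit 3852, nat_lit 3528, nat_lit 3312, nat_lit 3384, nat_lit 3360] (nat_lit 0) [] false,
   Spec.mk (nat_lit 3376) (nat_lit 2) [nat_lit 7750, nat_lit 1918, nat_lit 4834, nat_lit 2890, nat_lit 3862, nat_lit 3538, nat_lit 3358, nat_lit 3378] (nat_lit 0) [nat_lit 23058] false,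
   Spec.mk (nat_lit 3378) (nat_lit 2) [nat_lit 7752, nat_lit 1920, nat_lit 4836, nat_lit 2892, nat_lit 3864, nat_lit 3540, nat_lit 3360, nat_lit 3384, nat_lit 3376] (nat_lit 0) [] false,
   Spec.mk (nat_lit 3384) (nat_lit 4) [nat_lit 7758, nat_lit 1926, nat_lit 4842, nat_lit 2898, nat_lit 3870, nat_lit 3546, nat_lit 3366, nat_lit 3378] (nat_lit 0) [] false,
   Spec.mk (nat_lit 3410) (nat_lit 1) [nat_lit 7784, nat_lit 1952, nat_lit 4868, nat_lit 3896, nat_lit 3248, nat_lit 3416] (nat_lit 0) [nat_lit 23092] false,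
   Spec.mk (nat_lit 3416) (nat_lit 0) [nat_lit 7790, nat_lit 1958, nat_lit 4874, nat_lit 3902, nat_lit 3254, nat_lit 3434, nat_lit 3410, nat_lit 3422, nat_lit 3418] (nat_lit 0) [nat_lit 23098] true,
   Spec.mk (nat_lit 3418) (nat_lit 1) [nat_lit 7792, nat_lit 1960, nat_lit 4876, nat_lit 3904, nat_lit 3256, nat_lit 3436, nat_lit 3424, nat_lit 3416] (nat_lit 0) [nat_lit 23100] true,
   Spec.mk (nat_lit 3422) (nat_lit 0) [nat_lit 7796, nat_lit 1964, nat_lit 4880, nat_lit 3908, nat_lit 3260, nat_lit 3440, nat_lit 3416, nat_lit 3424] (nat_lit 3) [nat_lit 23104] true,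
   Spec.mk (nat_lit 3424) (nat_lit 0) [nat_lit 7798, nat_lit 1966, nat_lit 4882, nat_lit 3910, nat_lit 3262, nat_lit 3442, nat_lit 3418, nat_lit 3422, nat_lit 3426] (nat_lit 0) [nat_lit 23106] true,
   Spec.mk (nat_lit 3426) (nat_lit 1) [nat_lit 7800, nat_lit 1968, nat_lit 4884, nat_lit 3912, nat_lit 3264, nat_lit 3444, nat_lit 3424] (nat_lit 0) [] false,
   Spec.mk (nat_lit 3434) (nat_lit 0) [nat_lit 7808, nat_lit 1976, nat_lit 4892, nat_lit 3920, nat_lit 3272, nat_lit 3488, nat_lit 3416, nat_lit 3440, nat_lit 3436] (nat_lit 1) [nat_lit 23116] true,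
   Spec.mk (nat_lit 3436) (nat_lit 0) [nat_lit 7810, nat_lit 1978, nat_lit 4894, nat_lit 3922, nat_lit 3274, nat_lit 3490, nat_lit 3418, nat_lit 3442, nat_lit 3434] (nat_lit 1) [nat_lit 23118] true,
   Spec.mk (nat_lit 3440) (nat_lit 0) [nat_lit 7814, nat_lit 1982, nat_lit 4898, nat_lit 3926, nat_lit 3278, nat_lit 3494, nat_lit 3422, nat_lit 3458, nat_lit 3434, nat_lit 3442] (nat_lit 2) [nat_lit 23122] true,
   Spec.mk (nat_lit 3442) (nat_lit 0) [nat_lit 7816, nat_lit 1984, nat_lit 4900, nat_lit 3928, nat_lit 3280, nat_lit 3496, nat_lit 3424, nat_lit 3460, nat_lit 3436, nat_lit 3448, nat_lit 3440, nat_lit 3444] (nat_lit 0) [nat_lit 23124] false,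
   Spec.mk (nat_lit 3444) (nat_lit 0) [nat_lit 7818, nat_lit 1986, nat_lit 4902, nat_lit 3930, nat_lit 3282, nat_lit 3498, nat_lit 3426, nat_lit 3462, nat_lit 3450, nat_lit 3442] (nat_lit 0) [] false,
   Spec.mk (nat_lit 3448) (nat_lit 0) [nat_lit 7822, nat_lit 1990, nat_lit 4906, nat_lit 3934, nat_lit 3286, nat_lit 3502, nat_lit 3466, nat_lit 3442, nat_lit 3450] (nat_lit 1) [nat_lit 23130] false,
   Spec.mk (nat_lit 3450) (nat_lit 1) [nat_lit 7824, nat_lit 1992, nat_lit 4908, nat_lit 3936, nat_lit 3288, nat_lit 3504, nat_lit 3468, nat_lit 3444, nat_lit 3448] (nat_lit 0) [] false,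
   Spec.mk (nat_lit 3458) (nat_lit 0) [nat_lit 7832, nat_lit 2000, nat_lit 4916, nat_lit 3944, nat_lit 3296, nat_lit 3512, nat_lit 3440, nat_lit 3460] (nat_lit 3) [nat_lit 23140] true,
   Spec.mk (nat_lit 3460) (nat_lit 0) [nat_lit 7834, nat_lit 2002, nat_lit 4918, nat_lit 3946, nat_lit 3298, nat_lit 3514, nat_lit 3442, nat_lit 3466, nat_lit 3458, nat_lit 3462] (nat_lit 2) [nat_lit 23142] false,
   Spec.mk (nat_lit 3462) (nat_lit 0) [nat_lit 7836, nat_lit 2004, nat_lit 4920, nat_lit 3948, nat_lit 3300, nat_lit 3516, nat_lit 3444, nat_lit 3468, nat_lit 3460] (nat_lit 3) [] false,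
   Spec.mk (nat_lit 3466) (nat_lit 0) [nat_lit 7840, nat_lit 2008, nat_lit 4924, nat_lit 3952, nat_lit 3304, nat_lit 3520, nat_lit 3448, nat_lit 3460, nat_lit 3468] (nat_lit 1) [nat_lit 23148] false,
   Spec.mk (nat_lit 3468) (nat_lit 0) [nat_lit 7842, nat_lit 2010, nat_lit 4926, nat_lit 3954, nat_lit 3306, nat_lit 3522, nat_lit 3450, nat_lit 3462, nat_lit 3474, nat_lit 3466] (nat_lit 0) [] false,
   Spec.mk (nat_lit 3474) (nat_lit 1) [nat_lit 7848, nat_lit 2016, nat_lit 4932, nat_lit 3960, nat_lit 3312, nat_lit 3528, nat_lit 3468] (nat_lit 0) [] false,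
   Spec.mk (nat_lit 3488) (nat_lit 1) [nat_lit 7862, nat_lit 2030, nat_lit 4946, nat_lit 3974, nat_lit 3326, nat_lit 3434, nat_lit 3494, nat_lit 3490] (nat_lit 0) [nat_lit 23170] true,
   Spec.mk (nat_lit 3490) (nat_lit 1) [nat_lit 7864, nat_lit 2032, nat_lit 4948, nat_lit 3976, nat_lit 3328, nat_lit 3436, nat_lit 3496, nat_lit 3488] (nat_lit 0) [nat_lit 23172] true]

noncomputable def sp10 : List Spec :=
  [Spec.mk (nat_lit 3494) (nat_lit 0) [nat_lit 7868, nat_lit 2036, nat_lit 4952, nat_lit 3980, nat_lit 3332, nat_lit 3440, nat_lit 3512, nat_lit 3488, nat_lit 3496] (nat_lit 1) [nat_lit 23176] true,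
   Spec.mk (nat_lit 3496) (nat_lit 1) [nat_lit 7870, nat_lit 2038, nat_lit 4954, nat_lit 3982, nat_lit 3334, nat_lit 3442, nat_lit 3514, nat_lit 3490, nat_lit 3502, nat_lit 3494, nat_lit 3498] (nat_lit 0) [nat_lit 23178] false,
   Spec.mk (nat_lit 3498) (nat_lit 1) [nat_lit 7872, nat_lit 2040, nat_lit 4956, nat_lit 3984, nat_lit 3336, nat_lit 3444, nat_lit 3516, nat_lit 3504, nat_lit 3496] (nat_lit 0) [] false,
   Spec.mk (nat_lit 3502) (nat_lit 0) [nat_lit 7876, nat_lit 2044, nat_lit 4960, nat_lit 3988, nat_lit 3340, nat_lit 3448, nat_lit 3520, nat_lit 3496, nat_lit 3504] (nat_lit 1) [nat_lit 23184] false,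
   Spec.mk (nat_lit 3504) (nat_lit 1) [nat_lit 7878, nat_lit 2046, nat_lit 4962, nat_lit 3990, nat_lit 3342, nat_lit 3450, nat_lit 3522, nat_lit 3498, nat_lit 3502] (nat_lit 0) [] false,
   Spec.mk (nat_lit 3512) (nat_lit 0) [nat_lit 7886, nat_lit 2054, nat_lit 4970, nat_lit 3998, nat_lit 3350, nat_lit 3458, nat_lit 3566, nat_lit 3494, nat_lit 3514] (nat_lit 0) [nat_lit 23194] true,
   Spec.mk (nat_lit 3514) (nat_lit 1) [nat_lit 7888, nat_lit 2056, nat_lit 4972, nat_lit 4000, nat_lit 3352, nat_lit 3460, nat_lit 3568, nat_lit 3496, nat_lit 3520, nat_lit 3512, nat_lit 3516] (nat_lit 0) [nat_lit 23196] false,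
   Spec.mk (nat_lit 3516) (nat_lit 0) [nat_lit 7890, nat_lit 2058, nat_lit 4974, nat_lit 4002, nat_lit 3354, nat_lit 3462, nat_lit 3570, nat_lit 3498, nat_lit 3522, nat_lit 3514] (nat_lit 0) [] false,
   Spec.mk (nat_lit 3520) (nat_lit 1) [nat_lit 7894, nat_lit 2062, nat_lit 4978, nat_lit 4006, nat_lit 3358, nat_lit 3466, nat_lit 3574, nat_lit 3502, nat_lit 3538, nat_lit 3514, nat_lit 3522] (nat_lit 0) [nat_lit 23202] false,
   Spec.mk (nat_lit 3522) (nat_lit 2) [nat_lit 7896, nat_lit 2064, nat_lit 4980, nat_lit 4008, nat_lit 3360, nat_lit 3468, nat_lit 3576, nat_lit 3504, nat_lit 3540, nat_lit 3516, nat_lit 3528, nat_lit 3520] (nat_lit 0) [] false,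
   Spec.mk (nat_lit 3528) (nat_lit 2) [nat_lit 7902, nat_lit 2070, nat_lit 4986, nat_lit 4014, nat_lit 3366, nat_lit 3474, nat_lit 3582, nat_lit 3546, nat_lit 3522] (nat_lit 0) [] false,
   Spec.mk (nat_lit 3538) (nat_lit 1) [nat_lit 7912, nat_lit 2080, nat_lit 4996, nat_lit 4024, nat_lit 3376, nat_lit 3592, nat_lit 3520, nat_lit 3540] (nat_lit 0) [nat_lit 23220] false,
   Spec.mk (nat_lit 3540) (nat_lit 1) [nat_lit 7914, nat_lit 2082, nat_lit 4998, nat_lit 4026, nat_lit 3378, nat_lit 3594, nat_lit 3522, nat_lit 3546, nat_lit 3538] (nat_lit 0) [] false,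
   Spec.mk (nat_lit 3546) (nat_lit 3) [nat_lit 7920, nat_lit 2088, nat_lit 5004, nat_lit 4032, nat_lit 3384, nat_lit 3600, nat_lit 3528, nat_lit 3540] (nat_lit 0) [] false,
   Spec.mk (nat_lit 3566) (nat_lit 1) [nat_lit 7940, nat_lit 2108, nat_lit 5024, nat_lit 4052, nat_lit 3512, nat_lit 3568] (nat_lit 0) [nat_lit 23248] false,
   Spec.mk (nat_lit 3568) (nat_lit 2) [nat_lit 7942, nat_lit 2110, nat_lit 5026, nat_lit 4054, nat_lit 3514, nat_lit 3574, nat_lit 3566, nat_lit 3570] (nat_lit 0) [nat_lit 23250] false,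
   Spec.mk (nat_lit 3570) (nat_lit 1) [nat_lit 7944, nat_lit 2112, nat_lit 5028, nat_lit 4056, nat_lit 3516, nat_lit 3576, nat_lit 3568] (nat_lit 0) [] false,
   Spec.mk (nat_lit 3574) (nat_lit 1) [nat_lit 7948, nat_lit 2116, nat_lit 5032, nat_lit 4060, nat_lit 3520, nat_lit 3592, nat_lit 3568, nat_lit 3576] (nat_lit 0) [nat_lit 23256] false,
   Spec.mk (nat_lit 3576) (nat_lit 2) [nat_lit 7950, nat_lit 2118, nat_lit 5034, nat_lit 4062, nat_lit 3522, nat_lit 3594, nat_lit 3570, nat_lit 3582, nat_lit 3574] (nat_lit 0) [] false,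
   Spec.mk (nat_lit 3582) (nat_lit 1) [nat_lit 7956, nat_lit 2124, nat_lit 5040, nat_lit 4068, nat_lit 3528, nat_lit 3600, nat_lit 3576] (nat_lit 0) [] false,
   Spec.mk (nat_lit 3592) (nat_lit 3) [nat_lit 7966, nat_lit 2134, nat_lit 5050, nat_lit 4078, nat_lit 3538, nat_lit 3574, nat_lit 3594] (nat_lit 0) [nat_lit 23274] false,
   Spec.mk (nat_lit 3594) (nat_lit 3) [nat_lit 7968, nat_lit 2136, nat_lit 5052, nat_lit 4080, nat_lit 3540, nat_lit 3576, nat_lit 3600, nat_lit 3592] (nat_lit 0) [] false,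
   Spec.mk (nat_lit 3600) (nat_lit 4) [nat_lit 7974, nat_lit 2142, nat_lit 5058, nat_lit 4086, nat_lit 3546, nat_lit 3582, nat_lit 3618, nat_lit 3594] (nat_lit 0) [] false,
   Spec.mk (nat_lit 3618) (nat_lit 5) [nat_lit 7992, nat_lit 2160, nat_lit 5076, nat_lit 4104, nat_lit 3600] (nat_lit 0) [] false,
   Spec.mk (nat_lit 3662) (nat_lit 2) [nat_lit 8036, nat_lit 5120, nat_lit 3176, nat_lit 3680, nat_lit 3668] (nat_lit 0) [nat_lit 23344] false,
   Spec.mk (nat_lit 3668) (nat_lit 0) [nat_lit 8042, nat_lit 5126, nat_lit 3182, nat_lit 3686, nat_lit 3662, nat_lit 3670] (nat_lit 0) [nat_lit 23350] false,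
   Spec.mk (nat_lit 3670) (nat_lit 2) [nat_lit 8044, nat_lit 5128, nat_lit 3184, nat_lit 3688, nat_lit 3668] (nat_lit 0) [nat_lit 23352] false,
   Spec.mk (nat_lit 3680) (nat_lit 0) [nat_lit 8054, nat_lit 5138, nat_lit 3194, nat_lit 3734, nat_lit 3662, nat_lit 3686] (nat_lit 0) [nat_lit 23362] false,
   Spec.mk (nat_lit 3686) (nat_lit 0) [nat_lit 8060, nat_lit 5144, nat_lit 3200, nat_lit 3740, nat_lit 3668, nat_lit 3704, nat_lit 3680, nat_lit 3692, nat_lit 3688] (nat_lit 0) [nat_lit 23368] false,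
   Spec.mk (nat_lit 3688) (nat_lit 1) [nat_lit 8062, nat_lit 5146, nat_lit 3202, nat_lit 3742, nat_lit 3670, nat_lit 3706, nat_lit 3694, nat_lit 3686] (nat_lit 0) [nat_lit 23370] false,
   Spec.mk (nat_lit 3692) (nat_lit 0) [nat_lit 8066, nat_lit 5150, nat_lit 3206, nat_lit 3746, nat_lit 3710, nat_lit 3686, nat_lit 3694] (nat_lit 2) [nat_lit 23374] true,
   Spec.mk (nat_lit 3694) (nat_lit 1) [nat_lit 8068, nat_lit 5152, nat_lit 3208, nat_lit 3748, nat_lit 3712, nat_lit 3688, nat_lit 3692, nat_lit 3696] (nat_lit 0) [nat_lit 23376] false,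
   Spec.mk (nat_lit 3696) (nat_lit 2) [nat_lit 8070, nat_lit 5154, nat_lit 3210, nat_lit 3750, nat_lit 3714, nat_lit 3694] (nat_lit 0) [] false,
   Spec.mk (nat_lit 3704) (nat_lit 0) [nat_lit 8078, nat_lit 5162, nat_lit 3218, nat_lit 3758, nat_lit 3686, nat_lit 3710, nat_lit 3706] (nat_lit 2) [nat_lit 23386] true,
   Spec.mk (nat_lit 3706) (nat_lit 0) [nat_lit 8080, nat_lit 5164, nat_lit 3220, nat_lit 3760, nat_lit 3688, nat_lit 3712, nat_lit 3704] (nat_lit 2) [nat_lit 23388] true,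
   Spec.mk (nat_lit 3710) (nat_lit 0) [nat_lit 8084, nat_lit 5168, nat_lit 3224, nat_lit 3764, nat_lit 3692, nat_lit 3704, nat_lit 3712] (nat_lit 2) [nat_lit 23392] true,
   Spec.mk (nat_lit 3712) (nat_lit 0) [nat_lit 8086, nat_lit 5170, nat_lit 3226, nat_lit 3766, nat_lit 3694, nat_lit 3706, nat_lit 3718, nat_lit 3710, nat_lit 3714] (nat_lit 0) [nat_lit 23394] false,
   Spec.mk (nat_lit 3714) (nat_lit 0) [nat_lit 8088, nat_lit 5172, nat_lit 3228, nat_lit 3768, nat_lit 3696, nat_lit 3720, nat_lit 3712] (nat_lit 0) [] false,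
   Spec.mk (nat_lit 3718) (nat_lit 0) [nat_lit 8092, nat_lit 5176, nat_lit 3232, nat_lit 3772, nat_lit 3712, nat_lit 3720] (nat_lit 0) [nat_lit 23400] false,
   Spec.mk (nat_lit 3720) (nat_lit 2) [nat_lit 8094, nat_lit 5178, nat_lit 3234, nat_lit 3774, nat_lit 3714, nat_lit 3718] (nat_lit 0) [] false,
   Spec.mk (nat_lit 3734) (nat_lit 0) [nat_lit 8108, nat_lit 5192, nat_lit 3248, nat_lit 3896, nat_lit 3680, nat_lit 3740] (nat_lit 0) [nat_lit 23416] false,
   Spec.mk (nat_lit 3740) (nat_lit 0) [nat_lit 8114, nat_lit 5198, nat_lit 3254, nat_lit 3902, nat_lit 3686, nat_lit 3758, nat_lit 3734, nat_lit 3746, nat_lit 3742] (nat_lit 1) [nat_lit 23422] true,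
   Spec.mk (nat_lit 3742) (nat_lit 0) [nat_lit 8116, nat_lit 5200, nat_lit 3256, nat_lit 3904, nat_lit 3688, nat_lit 3760, nat_lit 3748, nat_lit 3740] (nat_lit 0) [nat_lit 23424] true,
   Spec.mk (nat_lit 3746) (nat_lit 0) [nat_lit 8120, nat_lit 5204, nat_lit 3260, nat_lit 3908, nat_lit 3692, nat_lit 3764, nat_lit 3740, nat_lit 3748] (nat_lit 4) [nat_lit 23428] true,
   Spec.mk (nat_lit 3748) (nat_lit 0) [nat_lit 8122, nat_lit 5206, nat_lit 3262, nat_lit 3910, nat_lit 3694, nat_lit 3766, nat_lit 3742, nat_lit 3746, nat_lit 3750] (nat_lit 1) [nat_lit 23430] false,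
   Spec.mk (nat_lit 3750) (nat_lit 0) [nat_lit 8124, nat_lit 5208, nat_lit 3264, nat_lit 3912, nat_lit 3696, nat_lit 3768, nat_lit 3748] (nat_lit 0) [] false,
   Spec.mk (nat_lit 3758) (nat_lit 0) [nat_lit 8132, nat_lit 5216, nat_lit 3272, nat_lit 3920, nat_lit 3704, nat_lit 3812, nat_lit 3740, nat_lit 3764, nat_lit 3760] (nat_lit 1) [nat_lit 23440] true,
   Spec.mk (nat_lit 3760) (nat_lit 0) [nat_lit 8134, nat_lit 5218, nat_lit 3274, nat_lit 3922, nat_lit 3706, nat_lit 3814, nat_lit 3742, nat_lit 3766, nat_lit 3758] (nat_lit 1) [nat_lit 23442] true,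
   Spec.mk (nat_lit 3764) (nat_lit 0) [nat_lit 8138, nat_lit 5222, nat_lit 3278, nat_lit 3926, nat_lit 3710, nat_lit 3818, nat_lit 3746, nat_lit 3782, nat_lit 3758, nat_lit 3766] (nat_lit 2) [nat_lit 23446] true,
   Spec.mk (nat_lit 3766) (nat_lit 0) [nat_lit 8140, nat_lit 5224, nat_lit 3280, nat_lit 3928, nat_lit 3712, nat_lit 3820, nat_lit 3748, nat_lit 3784, nat_lit 3760, nat_lit 3772, nat_lit 3764, nat_lit 3768] (nat_lit 0) [nat_lit 23448] false,
   Spec.mk (nat_lit 3768) (nat_lit 0) [nat_lit 8142, nat_lit 5226, nat_lit 3282, nat_lit 3930, nat_lit 3714, nat_lit 3822, nat_lit 3750, nat_lit 3786, nat_lit 3774, nat_lit 3766] (nat_lit 0) [] false,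
   Spec.mk (nat_lit 3772) (nat_lit 0) [nat_lit 8146, nat_lit 5230, nat_lit 3286, nat_lit 3934, nat_lit 3718, nat_lit 3826, nat_lit 3790, nat_lit 3766, nat_lit 3774] (nat_lit 1) [nat_lit 23454] false,
   Spec.mk (nat_lit 3774) (nat_lit 1) [nat_lit 8148, nat_lit 5232, nat_lit 3288, nat_lit 3936, nat_lit 3720, nat_lit 3828, nat_lit 3792, nat_lit 3768, nat_lit 3772] (nat_lit 0) [] false,
   Spec.mk (nat_lit 3782) (nat_lit 0) [nat_lit 8156, nat_lit 5240, nat_lit 3296, nat_lit 3944, nat_lit 3836, nat_lit 3764, nat_lit 3784] (nat_lit 2) [nat_lit 23464] true,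
   Spec.mk (nat_lit 3784) (nat_lit 0) [nat_lit 8158, nat_lit 5242, nat_lit 3298, nat_lit 3946, nat_lit 3838, nat_lit 3766, nat_lit 3790, nat_lit 3782, nat_lit 3786] (nat_lit 1) [nat_lit 23466] false,
   Spec.mk (nat_lit 3786) (nat_lit 0) [nat_lit 8160, nat_lit 5244, nat_lit 3300, nat_lit 3948, nat_lit 3840, nat_lit 3768, nat_lit 3792, nat_lit 3784] (nat_lit 2) [] false,
   Spec.mk (nat_lit 3790) (nat_lit 0) [nat_lit 8164, nat_lit 5248, nat_lit 3304, nat_lit 3952, nat_lit 3844, nat_lit 3772, nat_lit 3784, nat_lit 3792] (nat_lit 0) [nat_lit 23472] false,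
   Spec.mk (nat_lit 3792) (nat_lit 1) [nat_lit 8166, nat_lit 5250, nat_lit 3306, nat_lit 3954, nat_lit 3846, nat_lit 3774, nat_lit 3786, nat_lit 3798, nat_lit 3790] (nat_lit 0) [] false,
   Spec.mk (nat_lit 3798) (nat_lit 2) [nat_lit 8172, nat_lit 5256, nat_lit 3312, nat_lit 3960, nat_lit 3852, nat_lit 3792] (nat_lit 0) [] false,
   Spec.mk (nat_lit 3812) (nat_lit 0) [nat_lit 8186, nat_lit 5270, nat_lit 3326, nat_lit 3974, nat_lit 3758, nat_lit 3818, nat_lit 3814] (nat_lit 2) [nat_lit 23494] false]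

noncomputable def sp11 : List Spec :=
  [Spec.mk (nat_lit 3814) (nat_lit 0) [nat_lit 8188, nat_lit 5272, nat_lit 3328, nat_lit 3976, nat_lit 3760, nat_lit 3820, nat_lit 3812] (nat_lit 2) [nat_lit 23496] false,
   Spec.mk (nat_lit 3818) (nat_lit 0) [nat_lit 8192, nat_lit 5276, nat_lit 3332, nat_lit 3980, nat_lit 3764, nat_lit 3836, nat_lit 3812, nat_lit 3820] (nat_lit 4) [nat_lit 23500] true,
   Spec.mk (nat_lit 3820) (nat_lit 0) [nat_lit 8194, nat_lit 5278, nat_lit 3334, nat_lit 3982, nat_lit 3766, nat_lit 3838, nat_lit 3814, nat_lit 3826, nat_lit 3818, nat_lit 3822] (nat_lit 2) [nat_lit 23502] false,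
   Spec.mk (nat_lit 3822) (nat_lit 0) [nat_lit 8196, nat_lit 5280, nat_lit 3336, nat_lit 3984, nat_lit 3768, nat_lit 3840, nat_lit 3828, nat_lit 3820] (nat_lit 2) [] false,
   Spec.mk (nat_lit 3826) (nat_lit 0) [nat_lit 8200, nat_lit 5284, nat_lit 3340, nat_lit 3988, nat_lit 3772, nat_lit 3844, nat_lit 3820, nat_lit 3828] (nat_lit 4) [nat_lit 23508] false,
   Spec.mk (nat_lit 3828) (nat_lit 0) [nat_lit 8202, nat_lit 5286, nat_lit 3342, nat_lit 3990, nat_lit 3774, nat_lit 3846, nat_lit 3822, nat_lit 3826] (nat_lit 2) [] false,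
   Spec.mk (nat_lit 3836) (nat_lit 0) [nat_lit 8210, nat_lit 5294, nat_lit 3350, nat_lit 3998, nat_lit 3782, nat_lit 3818, nat_lit 3838] (nat_lit 2) [nat_lit 23518] true,
   Spec.mk (nat_lit 3838) (nat_lit 0) [nat_lit 8212, nat_lit 5296, nat_lit 3352, nat_lit 4000, nat_lit 3784, nat_lit 3820, nat_lit 3844, nat_lit 3836, nat_lit 3840] (nat_lit 1) [nat_lit 23520] false,
   Spec.mk (nat_lit 3840) (nat_lit 0) [nat_lit 8214, nat_lit 5298, nat_lit 3354, nat_lit 4002, nat_lit 3786, nat_lit 3822, nat_lit 3846, nat_lit 3838] (nat_lit 2) [] false,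
   Spec.mk (nat_lit 3844) (nat_lit 0) [nat_lit 8218, nat_lit 5302, nat_lit 3358, nat_lit 4006, nat_lit 3790, nat_lit 3826, nat_lit 3862, nat_lit 3838, nat_lit 3846] (nat_lit 1) [nat_lit 23526] false,
   Spec.mk (nat_lit 3846) (nat_lit 0) [nat_lit 8220, nat_lit 5304, nat_lit 3360, nat_lit 4008, nat_lit 3792, nat_lit 3828, nat_lit 3864, nat_lit 3840, nat_lit 3852, nat_lit 3844] (nat_lit 0) [] false,
   Spec.mk (nat_lit 3852) (nat_lit 0) [nat_lit 8226, nat_lit 5310, nat_lit 3366, nat_lit 4014, nat_lit 3798, nat_lit 3870, nat_lit 3846] (nat_lit 0) [] false,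
   Spec.mk (nat_lit 3862) (nat_lit 0) [nat_lit 8236, nat_lit 5320, nat_lit 3376, nat_lit 4024, nat_lit 3844, nat_lit 3864] (nat_lit 0) [nat_lit 23544] false,
   Spec.mk (nat_lit 3864) (nat_lit 0) [nat_lit 8238, nat_lit 5322, nat_lit 3378, nat_lit 4026, nat_lit 3846, nat_lit 3870, nat_lit 3862] (nat_lit 0) [] false,
   Spec.mk (nat_lit 3870) (nat_lit 2) [nat_lit 8244, nat_lit 5328, nat_lit 3384, nat_lit 4032, nat_lit 3852, nat_lit 3864] (nat_lit 0) [] false,
   Spec.mk (nat_lit 3896) (nat_lit 2) [nat_lit 8270, nat_lit 5354, nat_lit 3410, nat_lit 3734, nat_lit 3902] (nat_lit 0) [nat_lit 23578] false,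
   Spec.mk (nat_lit 3902) (nat_lit 1) [nat_lit 8276, nat_lit 5360, nat_lit 3416, nat_lit 3740, nat_lit 3920, nat_lit 3896, nat_lit 3908, nat_lit 3904] (nat_lit 0) [nat_lit 23584] false,
   Spec.mk (nat_lit 3904) (nat_lit 2) [nat_lit 8278, nat_lit 5362, nat_lit 3418, nat_lit 3742, nat_lit 3922, nat_lit 3910, nat_lit 3902] (nat_lit 0) [nat_lit 23586] true,
   Spec.mk (nat_lit 3908) (nat_lit 0) [nat_lit 8282, nat_lit 5366, nat_lit 3422, nat_lit 3746, nat_lit 3926, nat_lit 3902, nat_lit 3910] (nat_lit 2) [nat_lit 23590] true,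
   Spec.mk (nat_lit 3910) (nat_lit 1) [nat_lit 8284, nat_lit 5368, nat_lit 3424, nat_lit 3748, nat_lit 3928, nat_lit 3904, nat_lit 3908, nat_lit 3912] (nat_lit 0) [nat_lit 23592] false,
   Spec.mk (nat_lit 3912) (nat_lit 2) [nat_lit 8286, nat_lit 5370, nat_lit 3426, nat_lit 3750, nat_lit 3930, nat_lit 3910] (nat_lit 0) [] false,
   Spec.mk (nat_lit 3920) (nat_lit 0) [nat_lit 8294, nat_lit 5378, nat_lit 3434, nat_lit 3758, nat_lit 3974, nat_lit 3902, nat_lit 3926, nat_lit 3922] (nat_lit 0) [nat_lit 23602] true,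
   Spec.mk (nat_lit 3922) (nat_lit 0) [nat_lit 8296, nat_lit 5380, nat_lit 3436, nat_lit 3760, nat_lit 3976, nat_lit 3904, nat_lit 3928, nat_lit 3920] (nat_lit 0) [nat_lit 23604] false,
   Spec.mk (nat_lit 3926) (nat_lit 0) [nat_lit 8300, nat_lit 5384, nat_lit 3440, nat_lit 3764, nat_lit 3980, nat_lit 3908, nat_lit 3944, nat_lit 3920, nat_lit 3928] (nat_lit 1) [nat_lit 23608] true,
   Spec.mk (nat_lit 3928) (nat_lit 1) [nat_lit 8302, nat_lit 5386, nat_lit 3442, nat_lit 3766, nat_lit 3982, nat_lit 3910, nat_lit 3946, nat_lit 3922, nat_lit 3934, nat_lit 3926, nat_lit 3930] (nat_lit 0) [nat_lit 23610] false,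
   Spec.mk (nat_lit 3930) (nat_lit 1) [nat_lit 8304, nat_lit 5388, nat_lit 3444, nat_lit 3768, nat_lit 3984, nat_lit 3912, nat_lit 3948, nat_lit 3936, nat_lit 3928] (nat_lit 0) [] false,
   Spec.mk (nat_lit 3934) (nat_lit 0) [nat_lit 8308, nat_lit 5392, nat_lit 3448, nat_lit 3772, nat_lit 3988, nat_lit 3952, nat_lit 3928, nat_lit 3936] (nat_lit 0) [nat_lit 23616] false,
   Spec.mk (nat_lit 3936) (nat_lit 2) [nat_lit 8310, nat_lit 5394, nat_lit 3450, nat_lit 3774, nat_lit 3990, nat_lit 3954, nat_lit 3930, nat_lit 3934] (nat_lit 0) [] false,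
   Spec.mk (nat_lit 3944) (nat_lit 0) [nat_lit 8318, nat_lit 5402, nat_lit 3458, nat_lit 3782, nat_lit 3998, nat_lit 3926, nat_lit 3946] (nat_lit 2) [nat_lit 23626] true,
   Spec.mk (nat_lit 3946) (nat_lit 0) [nat_lit 8320, nat_lit 5404, nat_lit 3460, nat_lit 3784, nat_lit 4000, nat_lit 3928, nat_lit 3952, nat_lit 3944, nat_lit 3948] (nat_lit 1) [nat_lit 23628] false,
   Spec.mk (nat_lit 3948) (nat_lit 0) [nat_lit 8322, nat_lit 5406, nat_lit 3462, nat_lit 3786, nat_lit 4002, nat_lit 3930, nat_lit 3954, nat_lit 3946] (nat_lit 2) [] false,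
   Spec.mk (nat_lit 3952) (nat_lit 0) [nat_lit 8326, nat_lit 5410, nat_lit 3466, nat_lit 3790, nat_lit 4006, nat_lit 3934, nat_lit 3946, nat_lit 3954] (nat_lit 0) [nat_lit 23634] false,
   Spec.mk (nat_lit 3954) (nat_lit 1) [nat_lit 8328, nat_lit 5412, nat_lit 3468, nat_lit 3792, nat_lit 4008, nat_lit 3936, nat_lit 3948, nat_lit 3960, nat_lit 3952] (nat_lit 0) [] false,
   Spec.mk (nat_lit 3960) (nat_lit 2) [nat_lit 8334, nat_lit 5418, nat_lit 3474, nat_lit 3798, nat_lit 4014, nat_lit 3954] (nat_lit 0) [] false,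
   Spec.mk (nat_lit 3974) (nat_lit 1) [nat_lit 8348, nat_lit 5432, nat_lit 3488, nat_lit 3812, nat_lit 4136, nat_lit 3920, nat_lit 3980, nat_lit 3976] (nat_lit 0) [nat_lit 23656] false,
   Spec.mk (nat_lit 3976) (nat_lit 1) [nat_lit 8350, nat_lit 5434, nat_lit 3490, nat_lit 3814, nat_lit 4138, nat_lit 3922, nat_lit 3982, nat_lit 3974] (nat_lit 0) [nat_lit 23658] false,
   Spec.mk (nat_lit 3980) (nat_lit 0) [nat_lit 8354, nat_lit 5438, nat_lit 3494, nat_lit 3818, nat_lit 4142, nat_lit 3926, nat_lit 3998, nat_lit 3974, nat_lit 3982] (nat_lit 1) [nat_lit 23662] true,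
   Spec.mk (nat_lit 3982) (nat_lit 1) [nat_lit 8356, nat_lit 5440, nat_lit 3496, nat_lit 3820, nat_lit 4144, nat_lit 3928, nat_lit 4000, nat_lit 3976, nat_lit 3988, nat_lit 3980, nat_lit 3984] (nat_lit 0) [nat_lit 23664] false,
   Spec.mk (nat_lit 3984) (nat_lit 1) [nat_lit 8358, nat_lit 5442, nat_lit 3498, nat_lit 3822, nat_lit 4146, nat_lit 3930, nat_lit 4002, nat_lit 3990, nat_lit 3982] (nat_lit 0) [] false,
   Spec.mk (nat_lit 3988) (nat_lit 0) [nat_lit 8362, nat_lit 5446, nat_lit 3502, nat_lit 3826, nat_lit 4150, nat_lit 3934, nat_lit 4006, nat_lit 3982, nat_lit 3990] (nat_lit 1) [nat_lit 23670] false,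
   Spec.mk (nat_lit 3990) (nat_lit 1) [nat_lit 8364, nat_lit 5448, nat_lit 3504, nat_lit 3828, nat_lit 4152, nat_lit 3936, nat_lit 4008, nat_lit 3984, nat_lit 3988] (nat_lit 0) [] false,
   Spec.mk (nat_lit 3998) (nat_lit 0) [nat_lit 8372, nat_lit 5456, nat_lit 3512, nat_lit 3836, nat_lit 4160, nat_lit 3944, nat_lit 4052, nat_lit 3980, nat_lit 4000] (nat_lit 0) [nat_lit 23680] false,
   Spec.mk (nat_lit 4000) (nat_lit 1) [nat_lit 8374, nat_lit 5458, nat_lit 3514, nat_lit 3838, nat_lit 4162, nat_lit 3946, nat_lit 4054, nat_lit 3982, nat_lit 4006, nat_lit 3998, nat_lit 4002] (nat_lit 0) [nat_lit 23682] false,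
   Spec.mk (nat_lit 4002) (nat_lit 0) [nat_lit 8376, nat_lit 5460, nat_lit 3516, nat_lit 3840, nat_lit 4164, nat_lit 3948, nat_lit 4056, nat_lit 3984, nat_lit 4008, nat_lit 4000] (nat_lit 0) [] false,
   Spec.mk (nat_lit 4006) (nat_lit 1) [nat_lit 8380, nat_lit 5464, nat_lit 3520, nat_lit 3844, nat_lit 4168, nat_lit 3952, nat_lit 4060, nat_lit 3988, nat_lit 4024, nat_lit 4000, nat_lit 4008] (nat_lit 0) [nat_lit 23688] false,
   Spec.mk (nat_lit 4008) (nat_lit 2) [nat_lit 8382, nat_lit 5466, nat_lit 3522, nat_lit 3846, nat_lit 4170, nat_lit 3954, nat_lit 4062, nat_lit 3990, nat_lit 4026, nat_lit 4002, nat_lit 4014, nat_lit 4006] (nat_lit 0) [] false,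
   Spec.mk (nat_lit 4014) (nat_lit 2) [nat_lit 8388, nat_lit 5472, nat_lit 3528, nat_lit 3852, nat_lit 4176, nat_lit 3960, nat_lit 4068, nat_lit 4032, nat_lit 4008] (nat_lit 0) [] false,
   Spec.mk (nat_lit 4024) (nat_lit 1) [nat_lit 8398, nat_lit 5482, nat_lit 3538, nat_lit 3862, nat_lit 4186, nat_lit 4078, nat_lit 4006, nat_lit 4026] (nat_lit 0) [nat_lit 23706] false,
   Spec.mk (nat_lit 4026) (nat_lit 1) [nat_lit 8400, nat_lit 5484, nat_lit 3540, nat_lit 3864, nat_lit 4188, nat_lit 4080, nat_lit 4008, nat_lit 4032, nat_lit 4024] (nat_lit 0) [] false,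
   Spec.mk (nat_lit 4032) (nat_lit 3) [nat_lit 8406, nat_lit 5490, nat_lit 3546, nat_lit 3870, nat_lit 4194, nat_lit 4086, nat_lit 4014, nat_lit 4026] (nat_lit 0) [] false,
   Spec.mk (nat_lit 4052) (nat_lit 0) [nat_lit 8426, nat_lit 5510, nat_lit 3566, nat_lit 4214, nat_lit 3998, nat_lit 4054] (nat_lit 0) [nat_lit 23734] false,
   Spec.mk (nat_lit 4054) (nat_lit 1) [nat_lit 8428, nat_lit 5512, nat_lit 3568, nat_lit 4216, nat_lit 4000, nat_lit 4060, nat_lit 4052, nat_lit 4056] (nat_lit 0) [nat_lit 23736] false,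
   Spec.mk (nat_lit 4056) (nat_lit 0) [nat_lit 8430, nat_lit 5514, nat_lit 3570, nat_lit 4218, nat_lit 4002, nat_lit 4062, nat_lit 4054] (nat_lit 0) [] false,
   Spec.mk (nat_lit 4060) (nat_lit 0) [nat_lit 8434, nat_lit 5518, nat_lit 3574, nat_lit 4222, nat_lit 4006, nat_lit 4078, nat_lit 4054, nat_lit 4062] (nat_lit 0) [nat_lit 23742] false,
   Spec.mk (nat_lit 4062) (nat_lit 1) [nat_lit 8436, nat_lit 5520, nat_lit 3576, nat_lit 4224, nat_lit 4008, nat_lit 4080, nat_lit 4056, nat_lit 4068, nat_lit 4060] (nat_lit 0) [] false,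
   Spec.mk (nat_lit 4068) (nat_lit 0) [nat_lit 8442, nat_lit 5526, nat_lit 3582, nat_lit 4230, nat_lit 4014, nat_lit 4086, nat_lit 4062] (nat_lit 0) [] false,
   Spec.mk (nat_lit 4078) (nat_lit 2) [nat_lit 8452, nat_lit 5536, nat_lit 3592, nat_lit 4240, nat_lit 4024, nat_lit 4060, nat_lit 4080] (nat_lit 0) [nat_lit 23760] false,
   Spec.mk (nat_lit 4080) (nat_lit 2) [nat_lit 8454, nat_lit 5538, nat_lit 3594, nat_lit 4242, nat_lit 4026, nat_lit 4062, nat_lit 4086, nat_lit 4078] (nat_lit 0) [] false,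
   Spec.mk (nat_lit 4086) (nat_lit 3) [nat_lit 8460, nat_lit 5544, nat_lit 3600, nat_lit 4248, nat_lit 4032, nat_lit 4068, nat_lit 4104, nat_lit 4080] (nat_lit 0) [] false,
   Spec.mk (nat_lit 4104) (nat_lit 4) [nat_lit 8478, nat_lit 5562, nat_lit 3618, nat_lit 4266, nat_lit 4086] (nat_lit 0) [] false]

noncomputable def sp12 : List Spec :=
  [Spec.mk (nat_lit 4136) (nat_lit 2) [nat_lit 8510, nat_lit 5594, nat_lit 3974, nat_lit 4142, nat_lit 4138] (nat_lit 0) [nat_lit 23818] false,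
   Spec.mk (nat_lit 4138) (nat_lit 2) [nat_lit 8512, nat_lit 5596, nat_lit 3976, nat_lit 4144, nat_lit 4136] (nat_lit 0) [nat_lit 23820] false,
   Spec.mk (nat_lit 4142) (nat_lit 0) [nat_lit 8516, nat_lit 5600, nat_lit 3980, nat_lit 4160, nat_lit 4136, nat_lit 4144] (nat_lit 0) [nat_lit 23824] false,
   Spec.mk (nat_lit 4144) (nat_lit 2) [nat_lit 8518, nat_lit 5602, nat_lit 3982, nat_lit 4162, nat_lit 4138, nat_lit 4150, nat_lit 4142, nat_lit 4146] (nat_lit 0) [nat_lit 23826] false,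
   Spec.mk (nat_lit 4146) (nat_lit 2) [nat_lit 8520, nat_lit 5604, nat_lit 3984, nat_lit 4164, nat_lit 4152, nat_lit 4144] (nat_lit 0) [] false,
   Spec.mk (nat_lit 4150) (nat_lit 0) [nat_lit 8524, nat_lit 5608, nat_lit 3988, nat_lit 4168, nat_lit 4144, nat_lit 4152] (nat_lit 0) [nat_lit 23832] false,
   Spec.mk (nat_lit 4152) (nat_lit 2) [nat_lit 8526, nat_lit 5610, nat_lit 3990, nat_lit 4170, nat_lit 4146, nat_lit 4150] (nat_lit 0) [] false,
   Spec.mk (nat_lit 4160) (nat_lit 0) [nat_lit 8534, nat_lit 5618, nat_lit 3998, nat_lit 4214, nat_lit 4142, nat_lit 4162] (nat_lit 0) [nat_lit 23842] false,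
   Spec.mk (nat_lit 4162) (nat_lit 1) [nat_lit 8536, nat_lit 5620, nat_lit 4000, nat_lit 4216, nat_lit 4144, nat_lit 4168, nat_lit 4160, nat_lit 4164] (nat_lit 0) [nat_lit 23844] false,
   Spec.mk (nat_lit 4164) (nat_lit 0) [nat_lit 8538, nat_lit 5622, nat_lit 4002, nat_lit 4218, nat_lit 4146, nat_lit 4170, nat_lit 4162] (nat_lit 0) [] false,
   Spec.mk (nat_lit 4168) (nat_lit 1) [nat_lit 8542, nat_lit 5626, nat_lit 4006, nat_lit 4222, nat_lit 4150, nat_lit 4186, nat_lit 4162, nat_lit 4170] (nat_lit 0) [nat_lit 23850] false,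
   Spec.mk (nat_lit 4170) (nat_lit 2) [nat_lit 8544, nat_lit 5628, nat_lit 4008, nat_lit 4224, nat_lit 4152, nat_lit 4188, nat_lit 4164, nat_lit 4176, nat_lit 4168] (nat_lit 0) [] false,
   Spec.mk (nat_lit 4176) (nat_lit 2) [nat_lit 8550, nat_lit 5634, nat_lit 4014, nat_lit 4230, nat_lit 4194, nat_lit 4170] (nat_lit 0) [] false,
   Spec.mk (nat_lit 4186) (nat_lit 0) [nat_lit 8560, nat_lit 5644, nat_lit 4024, nat_lit 4240, nat_lit 4168, nat_lit 4188] (nat_lit 0) [nat_lit 23868] false,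
   Spec.mk (nat_lit 4188) (nat_lit 0) [nat_lit 8562, nat_lit 5646, nat_lit 4026, nat_lit 4242, nat_lit 4170, nat_lit 4194, nat_lit 4186] (nat_lit 0) [] false,
   Spec.mk (nat_lit 4194) (nat_lit 2) [nat_lit 8568, nat_lit 5652, nat_lit 4032, nat_lit 4248, nat_lit 4176, nat_lit 4188] (nat_lit 0) [] false,
   Spec.mk (nat_lit 4214) (nat_lit 2) [nat_lit 8588, nat_lit 5672, nat_lit 4052, nat_lit 4160, nat_lit 4216] (nat_lit 0) [nat_lit 23896] false,
   Spec.mk (nat_lit 4216) (nat_lit 3) [nat_lit 8590, nat_lit 5674, nat_lit 4054, nat_lit 4162, nat_lit 4222, nat_lit 4214, nat_lit 4218] (nat_lit 0) [nat_lit 23898] false,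
   Spec.mk (nat_lit 4218) (nat_lit 2) [nat_lit 8592, nat_lit 5676, nat_lit 4056, nat_lit 4164, nat_lit 4224, nat_lit 4216] (nat_lit 0) [] false,
   Spec.mk (nat_lit 4222) (nat_lit 2) [nat_lit 8596, nat_lit 5680, nat_lit 4060, nat_lit 4168, nat_lit 4240, nat_lit 4216, nat_lit 4224] (nat_lit 0) [nat_lit 23904] false,
   Spec.mk (nat_lit 4224) (nat_lit 3) [nat_lit 8598, nat_lit 5682, nat_lit 4062, nat_lit 4170, nat_lit 4242, nat_lit 4218, nat_lit 4230, nat_lit 4222] (nat_lit 0) [] false,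
   Spec.mk (nat_lit 4230) (nat_lit 2) [nat_lit 8604, nat_lit 5688, nat_lit 4068, nat_lit 4176, nat_lit 4248, nat_lit 4224] (nat_lit 0) [] false,
   Spec.mk (nat_lit 4240) (nat_lit 3) [nat_lit 8614, nat_lit 5698, nat_lit 4078, nat_lit 4186, nat_lit 4294, nat_lit 4222, nat_lit 4242] (nat_lit 0) [nat_lit 23922] false,
   Spec.mk (nat_lit 4242) (nat_lit 3) [nat_lit 8616, nat_lit 5700, nat_lit 4080, nat_lit 4188, nat_lit 4296, nat_lit 4224, nat_lit 4248, nat_lit 4240] (nat_lit 0) [] false,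
   Spec.mk (nat_lit 4248) (nat_lit 4) [nat_lit 8622, nat_lit 5706, nat_lit 4086, nat_lit 4194, nat_lit 4302, nat_lit 4230, nat_lit 4266, nat_lit 4242] (nat_lit 0) [] false,
   Spec.mk (nat_lit 4266) (nat_lit 4) [nat_lit 8640, nat_lit 5724, nat_lit 4104, nat_lit 4320, nat_lit 4248] (nat_lit 0) [] false,
   Spec.mk (nat_lit 4294) (nat_lit 4) [nat_lit 8668, nat_lit 5752, nat_lit 4240, nat_lit 4296] (nat_lit 0) [nat_lit 23976] false,
   Spec.mk (nat_lit 4296) (nat_lit 4) [nat_lit 8670, nat_lit 5754, nat_lit 4242, nat_lit 4302, nat_lit 4294] (nat_lit 0) [] false,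
   Spec.mk (nat_lit 4302) (nat_lit 4) [nat_lit 8676, nat_lit 5760, nat_lit 4248, nat_lit 4320, nat_lit 4296] (nat_lit 0) [] false,
   Spec.mk (nat_lit 4320) (nat_lit 6) [nat_lit 8694, nat_lit 5778, nat_lit 4266, nat_lit 4302] (nat_lit 0) [] false,
   Spec.mk (nat_lit 4400) (nat_lit 2) [nat_lit 8774, nat_lit 2942, nat_lit 4418] (nat_lit 0) [nat_lit 24082] false,
   Spec.mk (nat_lit 4418) (nat_lit 1) [nat_lit 8792, nat_lit 2960, nat_lit 4472, nat_lit 4400, nat_lit 4436, nat_lit 4424] (nat_lit 0) [nat_lit 24100] false,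
   Spec.mk (nat_lit 4424) (nat_lit 0) [nat_lit 8798, nat_lit 2966, nat_lit 4478, nat_lit 4442, nat_lit 4418, nat_lit 4426] (nat_lit 0) [nat_lit 24106] false,
   Spec.mk (nat_lit 4426) (nat_lit 2) [nat_lit 8800, nat_lit 2968, nat_lit 4480, nat_lit 4444, nat_lit 4424] (nat_lit 0) [nat_lit 24108] false,
   Spec.mk (nat_lit 4436) (nat_lit 0) [nat_lit 8810, nat_lit 2978, nat_lit 4490, nat_lit 4418, nat_lit 4442] (nat_lit 2) [nat_lit 24118] false,
   Spec.mk (nat_lit 4442) (nat_lit 0) [nat_lit 8816, nat_lit 2984, nat_lit 4496, nat_lit 4424, nat_lit 4436, nat_lit 4448, nat_lit 4444] (nat_lit 1) [nat_lit 24124] false,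
   Spec.mk (nat_lit 4444) (nat_lit 0) [nat_lit 8818, nat_lit 2986, nat_lit 4498, nat_lit 4426, nat_lit 4450, nat_lit 4442] (nat_lit 0) [nat_lit 24126] false,
   Spec.mk (nat_lit 4448) (nat_lit 0) [nat_lit 8822, nat_lit 2990, nat_lit 4502, nat_lit 4442, nat_lit 4450] (nat_lit 2) [nat_lit 24130] false,
   Spec.mk (nat_lit 4450) (nat_lit 1) [nat_lit 8824, nat_lit 2992, nat_lit 4504, nat_lit 4444, nat_lit 4448, nat_lit 4452] (nat_lit 0) [nat_lit 24132] false,
   Spec.mk (nat_lit 4452) (nat_lit 2) [nat_lit 8826, nat_lit 2994, nat_lit 4506, nat_lit 4450] (nat_lit 0) [] false,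
   Spec.mk (nat_lit 4472) (nat_lit 0) [nat_lit 8846, nat_lit 3014, nat_lit 4634, nat_lit 4418, nat_lit 4490, nat_lit 4478] (nat_lit 0) [nat_lit 24154] false,
   Spec.mk (nat_lit 4478) (nat_lit 0) [nat_lit 8852, nat_lit 3020, nat_lit 4640, nat_lit 4424, nat_lit 4496, nat_lit 4472, nat_lit 4480] (nat_lit 2) [nat_lit 24160] false,
   Spec.mk (nat_lit 4480) (nat_lit 0) [nat_lit 8854, nat_lit 3022, nat_lit 4642, nat_lit 4426, nat_lit 4498, nat_lit 4478] (nat_lit 0) [nat_lit 24162] false,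
   Spec.mk (nat_lit 4490) (nat_lit 0) [nat_lit 8864, nat_lit 3032, nat_lit 4652, nat_lit 4436, nat_lit 4544, nat_lit 4472, nat_lit 4496] (nat_lit 1) [nat_lit 24172] false,
   Spec.mk (nat_lit 4496) (nat_lit 0) [nat_lit 8870, nat_lit 3038, nat_lit 4658, nat_lit 4442, nat_lit 4550, nat_lit 4478, nat_lit 4514, nat_lit 4490, nat_lit 4502, nat_lit 4498] (nat_lit 1) [nat_lit 24178] false,
   Spec.mk (nat_lit 4498) (nat_lit 0) [nat_lit 8872, nat_lit 3040, nat_lit 4660, nat_lit 4444, nat_lit 4552, nat_lit 4480, nat_lit 4516, nat_lit 4504, nat_lit 4496] (nat_lit 0) [nat_lit 24180] false,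
   Spec.mk (nat_lit 4502) (nat_lit 0) [nat_lit 8876, nat_lit 3044, nat_lit 4664, nat_lit 4448, nat_lit 4556, nat_lit 4520, nat_lit 4496, nat_lit 4504] (nat_lit 3) [nat_lit 24184] false,
   Spec.mk (nat_lit 4504) (nat_lit 0) [nat_lit 8878, nat_lit 3046, nat_lit 4666, nat_lit 4450, nat_lit 4558, nat_lit 4522, nat_lit 4498, nat_lit 4502, nat_lit 4506] (nat_lit 0) [nat_lit 24186] false,
   Spec.mk (nat_lit 4506) (nat_lit 1) [nat_lit 8880, nat_lit 3048, nat_lit 4668, nat_lit 4452, nat_lit 4560, nat_lit 4524, nat_lit 4504] (nat_lit 0) [] false,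
   Spec.mk (nat_lit 4514) (nat_lit 0) [nat_lit 8888, nat_lit 3056, nat_lit 4676, nat_lit 4568, nat_lit 4496, nat_lit 4520, nat_lit 4516] (nat_lit 2) [nat_lit 24196] false,
   Spec.mk (nat_lit 4516) (nat_lit 0) [nat_lit 8890, nat_lit 3058, nat_lit 4678, nat_lit 4570, nat_lit 4498, nat_lit 4522, nat_lit 4514] (nat_lit 2) [nat_lit 24198] false,
   Spec.mk (nat_lit 4520) (nat_lit 0) [nat_lit 8894, nat_lit 3062, nat_lit 4682, nat_lit 4574, nat_lit 4502, nat_lit 4514, nat_lit 4522] (nat_lit 2) [nat_lit 24202] false,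
   Spec.mk (nat_lit 4522) (nat_lit 0) [nat_lit 8896, nat_lit 3064, nat_lit 4684, nat_lit 4576, nat_lit 4504, nat_lit 4516, nat_lit 4528, nat_lit 4520, nat_lit 4524] (nat_lit 0) [nat_lit 24204] false,
   Spec.mk (nat_lit 4524) (nat_lit 0) [nat_lit 8898, nat_lit 3066, nat_lit 4686, nat_lit 4578, nat_lit 4506, nat_lit 4530, nat_lit 4522] (nat_lit 0) [] false,
   Spec.mk (nat_lit 4528) (nat_lit 0) [nat_lit 8902, nat_lit 3070, nat_lit 4690, nat_lit 4582, nat_lit 4522, nat_lit 4530] (nat_lit 0) [nat_lit 24210] false,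
   Spec.mk (nat_lit 4530) (nat_lit 2) [nat_lit 8904, nat_lit 3072, nat_lit 4692, nat_lit 4584, nat_lit 4524, nat_lit 4528] (nat_lit 0) [] false,
   Spec.mk (nat_lit 4544) (nat_lit 0) [nat_lit 8918, nat_lit 3086, nat_lit 4706, nat_lit 4490, nat_lit 4550] (nat_lit 2) [nat_lit 24226] true,
   Spec.mk (nat_lit 4550) (nat_lit 0) [nat_lit 8924, nat_lit 3092, nat_lit 4712, nat_lit 4496, nat_lit 4568, nat_lit 4544, nat_lit 4556, nat_lit 4552] (nat_lit 3) [nat_lit 24232] true,
   Spec.mk (nat_lit 4552) (nat_lit 0) [nat_lit 8926, nat_lit 3094, nat_lit 4714, nat_lit 4498, nat_lit 4570, nat_lit 4558, nat_lit 4550] (nat_lit 2) [nat_lit 24234] false,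
   Spec.mk (nat_lit 4556) (nat_lit 0) [nat_lit 8930, nat_lit 3098, nat_lit 4718, nat_lit 4502, nat_lit 4574, nat_lit 4550, nat_lit 4558] (nat_lit 6) [nat_lit 24238] true]

noncomputable def sp13 : List Spec :=
  [Spec.mk (nat_lit 4558) (nat_lit 0) [nat_lit 8932, nat_lit 3100, nat_lit 4720, nat_lit 4504, nat_lit 4576, nat_lit 4552, nat_lit 4556, nat_lit 4560] (nat_lit 3) [nat_lit 24240] false,
   Spec.mk (nat_lit 4560) (nat_lit 0) [nat_lit 8934, nat_lit 3102, nat_lit 4722, nat_lit 4506, nat_lit 4578, nat_lit 4558] (nat_lit 2) [] false,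
   Spec.mk (nat_lit 4568) (nat_lit 0) [nat_lit 8942, nat_lit 3110, nat_lit 4730, nat_lit 4514, nat_lit 4550, nat_lit 4574, nat_lit 4570] (nat_lit 2) [nat_lit 24250] true,
   Spec.mk (nat_lit 4570) (nat_lit 0) [nat_lit 8944, nat_lit 3112, nat_lit 4732, nat_lit 4516, nat_lit 4552, nat_lit 4576, nat_lit 4568] (nat_lit 2) [nat_lit 24252] false,
   Spec.mk (nat_lit 4574) (nat_lit 0) [nat_lit 8948, nat_lit 3116, nat_lit 4736, nat_lit 4520, nat_lit 4556, nat_lit 4592, nat_lit 4568, nat_lit 4576] (nat_lit 3) [nat_lit 24256] false,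
   Spec.mk (nat_lit 4576) (nat_lit 0) [nat_lit 8950, nat_lit 3118, nat_lit 4738, nat_lit 4522, nat_lit 4558, nat_lit 4594, nat_lit 4570, nat_lit 4582, nat_lit 4574, nat_lit 4578] (nat_lit 1) [nat_lit 24258] false,
   Spec.mk (nat_lit 4578) (nat_lit 0) [nat_lit 8952, nat_lit 3120, nat_lit 4740, nat_lit 4524, nat_lit 4560, nat_lit 4596, nat_lit 4584, nat_lit 4576] (nat_lit 1) [] false,
   Spec.mk (nat_lit 4582) (nat_lit 0) [nat_lit 8956, nat_lit 3124, nat_lit 4744, nat_lit 4528, nat_lit 4600, nat_lit 4576, nat_lit 4584] (nat_lit 2) [nat_lit 24264] false,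
   Spec.mk (nat_lit 4584) (nat_lit 0) [nat_lit 8958, nat_lit 3126, nat_lit 4746, nat_lit 4530, nat_lit 4602, nat_lit 4578, nat_lit 4582] (nat_lit 0) [] false,
   Spec.mk (nat_lit 4592) (nat_lit 0) [nat_lit 8966, nat_lit 3134, nat_lit 4754, nat_lit 4574, nat_lit 4594] (nat_lit 2) [nat_lit 24274] false,
   Spec.mk (nat_lit 4594) (nat_lit 0) [nat_lit 8968, nat_lit 3136, nat_lit 4756, nat_lit 4576, nat_lit 4600, nat_lit 4592, nat_lit 4596] (nat_lit 1) [nat_lit 24276] false,
   Spec.mk (nat_lit 4596) (nat_lit 0) [nat_lit 8970, nat_lit 3138, nat_lit 4758, nat_lit 4578, nat_lit 4602, nat_lit 4594] (nat_lit 2) [] false,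
   Spec.mk (nat_lit 4600) (nat_lit 0) [nat_lit 8974, nat_lit 3142, nat_lit 4762, nat_lit 4582, nat_lit 4594, nat_lit 4602] (nat_lit 0) [nat_lit 24282] false,
   Spec.mk (nat_lit 4602) (nat_lit 1) [nat_lit 8976, nat_lit 3144, nat_lit 4764, nat_lit 4584, nat_lit 4596, nat_lit 4608, nat_lit 4600] (nat_lit 0) [] false,
   Spec.mk (nat_lit 4608) (nat_lit 2) [nat_lit 8982, nat_lit 3150, nat_lit 4770, nat_lit 4602] (nat_lit 0) [] false,
   Spec.mk (nat_lit 4634) (nat_lit 0) [nat_lit 9008, nat_lit 3176, nat_lit 5120, nat_lit 4472, nat_lit 4652, nat_lit 4640] (nat_lit 0) [nat_lit 24316] false,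
   Spec.mk (nat_lit 4640) (nat_lit 0) [nat_lit 9014, nat_lit 3182, nat_lit 5126, nat_lit 4478, nat_lit 4658, nat_lit 4634, nat_lit 4642] (nat_lit 2) [nat_lit 24322] false,
   Spec.mk (nat_lit 4642) (nat_lit 0) [nat_lit 9016, nat_lit 3184, nat_lit 5128, nat_lit 4480, nat_lit 4660, nat_lit 4640] (nat_lit 0) [nat_lit 24324] false,
   Spec.mk (nat_lit 4652) (nat_lit 0) [nat_lit 9026, nat_lit 3194, nat_lit 5138, nat_lit 4490, nat_lit 4706, nat_lit 4634, nat_lit 4658] (nat_lit 2) [nat_lit 24334] true,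
   Spec.mk (nat_lit 4658) (nat_lit 0) [nat_lit 9032, nat_lit 3200, nat_lit 5144, nat_lit 4496, nat_lit 4712, nat_lit 4640, nat_lit 4676, nat_lit 4652, nat_lit 4664, nat_lit 4660] (nat_lit 2) [nat_lit 24340] true,
   Spec.mk (nat_lit 4660) (nat_lit 0) [nat_lit 9034, nat_lit 3202, nat_lit 5146, nat_lit 4498, nat_lit 4714, nat_lit 4642, nat_lit 4678, nat_lit 4666, nat_lit 4658] (nat_lit 1) [nat_lit 24342] false,
   Spec.mk (nat_lit 4664) (nat_lit 0) [nat_lit 9038, nat_lit 3206, nat_lit 5150, nat_lit 4502, nat_lit 4718, nat_lit 4682, nat_lit 4658, nat_lit 4666] (nat_lit 4) [nat_lit 24346] true,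
   Spec.mk (nat_lit 4666) (nat_lit 0) [nat_lit 9040, nat_lit 3208, nat_lit 5152, nat_lit 4504, nat_lit 4720, nat_lit 4684, nat_lit 4660, nat_lit 4664, nat_lit 4668] (nat_lit 1) [nat_lit 24348] false,
   Spec.mk (nat_lit 4668) (nat_lit 0) [nat_lit 9042, nat_lit 3210, nat_lit 5154, nat_lit 4506, nat_lit 4722, nat_lit 4686, nat_lit 4666] (nat_lit 0) [] false,
   Spec.mk (nat_lit 4676) (nat_lit 0) [nat_lit 9050, nat_lit 3218, nat_lit 5162, nat_lit 4514, nat_lit 4730, nat_lit 4658, nat_lit 4682, nat_lit 4678] (nat_lit 4) [nat_lit 24358] true,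
   Spec.mk (nat_lit 4678) (nat_lit 0) [nat_lit 9052, nat_lit 3220, nat_lit 5164, nat_lit 4516, nat_lit 4732, nat_lit 4660, nat_lit 4684, nat_lit 4676] (nat_lit 4) [nat_lit 24360] false,
   Spec.mk (nat_lit 4682) (nat_lit 0) [nat_lit 9056, nat_lit 3224, nat_lit 5168, nat_lit 4520, nat_lit 4736, nat_lit 4664, nat_lit 4676, nat_lit 4684] (nat_lit 4) [nat_lit 24364] true,
   Spec.mk (nat_lit 4684) (nat_lit 0) [nat_lit 9058, nat_lit 3226, nat_lit 5170, nat_lit 4522, nat_lit 4738, nat_lit 4666, nat_lit 4678, nat_lit 4690, nat_lit 4682, nat_lit 4686] (nat_lit 2) [nat_lit 24366] false,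
   Spec.mk (nat_lit 4686) (nat_lit 0) [nat_lit 9060, nat_lit 3228, nat_lit 5172, nat_lit 4524, nat_lit 4740, nat_lit 4668, nat_lit 4692, nat_lit 4684] (nat_lit 2) [] false,
   Spec.mk (nat_lit 4690) (nat_lit 0) [nat_lit 9064, nat_lit 3232, nat_lit 5176, nat_lit 4528, nat_lit 4744, nat_lit 4684, nat_lit 4692] (nat_lit 2) [nat_lit 24372] false,
   Spec.mk (nat_lit 4692) (nat_lit 0) [nat_lit 9066, nat_lit 3234, nat_lit 5178, nat_lit 4530, nat_lit 4746, nat_lit 4686, nat_lit 4690] (nat_lit 0) [] false,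
   Spec.mk (nat_lit 4706) (nat_lit 0) [nat_lit 9080, nat_lit 3248, nat_lit 5192, nat_lit 4544, nat_lit 4868, nat_lit 4652, nat_lit 4712] (nat_lit 1) [nat_lit 24388] false,
   Spec.mk (nat_lit 4712) (nat_lit 0) [nat_lit 9086, nat_lit 3254, nat_lit 5198, nat_lit 4550, nat_lit 4874, nat_lit 4658, nat_lit 4730, nat_lit 4706, nat_lit 4718, nat_lit 4714] (nat_lit 2) [nat_lit 24394] true,
   Spec.mk (nat_lit 4714) (nat_lit 0) [nat_lit 9088, nat_lit 3256, nat_lit 5200, nat_lit 4552, nat_lit 4876, nat_lit 4660, nat_lit 4732, nat_lit 4720, nat_lit 4712] (nat_lit 1) [nat_lit 24396] false,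
   Spec.mk (nat_lit 4718) (nat_lit 0) [nat_lit 9092, nat_lit 3260, nat_lit 5204, nat_lit 4556, nat_lit 4880, nat_lit 4664, nat_lit 4736, nat_lit 4712, nat_lit 4720] (nat_lit 5) [nat_lit 24400] true,
   Spec.mk (nat_lit 4720) (nat_lit 0) [nat_lit 9094, nat_lit 3262, nat_lit 5206, nat_lit 4558, nat_lit 4882, nat_lit 4666, nat_lit 4738, nat_lit 4714, nat_lit 4718, nat_lit 4722] (nat_lit 2) [nat_lit 24402] false,
   Spec.mk (nat_lit 4722) (nat_lit 0) [nat_lit 9096, nat_lit 3264, nat_lit 5208, nat_lit 4560, nat_lit 4884, nat_lit 4668, nat_lit 4740, nat_lit 4720] (nat_lit 1) [] false,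
   Spec.mk (nat_lit 4730) (nat_lit 0) [nat_lit 9104, nat_lit 3272, nat_lit 5216, nat_lit 4568, nat_lit 4892, nat_lit 4676, nat_lit 4784, nat_lit 4712, nat_lit 4736, nat_lit 4732] (nat_lit 2) [nat_lit 24412] true,
   Spec.mk (nat_lit 4732) (nat_lit 0) [nat_lit 9106, nat_lit 3274, nat_lit 5218, nat_lit 4570, nat_lit 4894, nat_lit 4678, nat_lit 4786, nat_lit 4714, nat_lit 4738, nat_lit 4730] (nat_lit 2) [nat_lit 24414] false,
   Spec.mk (nat_lit 4736) (nat_lit 0) [nat_lit 9110, nat_lit 3278, nat_lit 5222, nat_lit 4574, nat_lit 4898, nat_lit 4682, nat_lit 4790, nat_lit 4718, nat_lit 4754, nat_lit 4730, nat_lit 4738] (nat_lit 3) [nat_lit 24418] true,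
   Spec.mk (nat_lit 4738) (nat_lit 0) [nat_lit 9112, nat_lit 3280, nat_lit 5224, nat_lit 4576, nat_lit 4900, nat_lit 4684, nat_lit 4792, nat_lit 4720, nat_lit 4756, nat_lit 4732, nat_lit 4744, nat_lit 4736, nat_lit 4740] (nat_lit 1) [nat_lit 24420] false,
   Spec.mk (nat_lit 4740) (nat_lit 0) [nat_lit 9114, nat_lit 3282, nat_lit 5226, nat_lit 4578, nat_lit 4902, nat_lit 4686, nat_lit 4794, nat_lit 4722, nat_lit 4758, nat_lit 4746, nat_lit 4738] (nat_lit 1) [] false,
   Spec.mk (nat_lit 4744) (nat_lit 0) [nat_lit 9118, nat_lit 3286, nat_lit 5230, nat_lit 4582, nat_lit 4906, nat_lit 4690, nat_lit 4798, nat_lit 4762, nat_lit 4738, nat_lit 4746] (nat_lit 2) [nat_lit 24426] false,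
   Spec.mk (nat_lit 4746) (nat_lit 0) [nat_lit 9120, nat_lit 3288, nat_lit 5232, nat_lit 4584, nat_lit 4908, nat_lit 4692, nat_lit 4800, nat_lit 4764, nat_lit 4740, nat_lit 4744] (nat_lit 0) [] false,
   Spec.mk (nat_lit 4754) (nat_lit 0) [nat_lit 9128, nat_lit 3296, nat_lit 5240, nat_lit 4592, nat_lit 4916, nat_lit 4808, nat_lit 4736, nat_lit 4756] (nat_lit 3) [nat_lit 24436] false,
   Spec.mk (nat_lit 4756) (nat_lit 0) [nat_lit 9130, nat_lit 3298, nat_lit 5242, nat_lit 4594, nat_lit 4918, nat_lit 4810, nat_lit 4738, nat_lit 4762, nat_lit 4754, nat_lit 4758] (nat_lit 2) [nat_lit 24438] false,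
   Spec.mk (nat_lit 4758) (nat_lit 0) [nat_lit 9132, nat_lit 3300, nat_lit 5244, nat_lit 4596, nat_lit 4920, nat_lit 4812, nat_lit 4740, nat_lit 4764, nat_lit 4756] (nat_lit 3) [] false,
   Spec.mk (nat_lit 4762) (nat_lit 0) [nat_lit 9136, nat_lit 3304, nat_lit 5248, nat_lit 4600, nat_lit 4924, nat_lit 4816, nat_lit 4744, nat_lit 4756, nat_lit 4764] (nat_lit 1) [nat_lit 24444] false,
   Spec.mk (nat_lit 4764) (nat_lit 0) [nat_lit 9138, nat_lit 3306, nat_lit 5250, nat_lit 4602, nat_lit 4926, nat_lit 4818, nat_lit 4746, nat_lit 4758, nat_lit 4770, nat_lit 4762] (nat_lit 0) [] false,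
   Spec.mk (nat_lit 4770) (nat_lit 1) [nat_lit 9144, nat_lit 3312, nat_lit 5256, nat_lit 4608, nat_lit 4932, nat_lit 4824, nat_lit 4764] (nat_lit 0) [] false,
   Spec.mk (nat_lit 4784) (nat_lit 0) [nat_lit 9158, nat_lit 3326, nat_lit 5270, nat_lit 4946, nat_lit 4730, nat_lit 4790, nat_lit 4786] (nat_lit 2) [nat_lit 24466] false,
   Spec.mk (nat_lit 4786) (nat_lit 0) [nat_lit 9160, nat_lit 3328, nat_lit 5272, nat_lit 4948, nat_lit 4732, nat_lit 4792, nat_lit 4784] (nat_lit 2) [nat_lit 24468] false,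
   Spec.mk (nat_lit 4790) (nat_lit 0) [nat_lit 9164, nat_lit 3332, nat_lit 5276, nat_lit 4952, nat_lit 4736, nat_lit 4808, nat_lit 4784, nat_lit 4792] (nat_lit 4) [nat_lit 24472] false,
   Spec.mk (nat_lit 4792) (nat_lit 0) [nat_lit 9166, nat_lit 3334, nat_lit 5278, nat_lit 4954, nat_lit 4738, nat_lit 4810, nat_lit 4786, nat_lit 4798, nat_lit 4790, nat_lit 4794] (nat_lit 2) [nat_lit 24474] false,
   Spec.mk (nat_lit 4794) (nat_lit 0) [nat_lit 9168, nat_lit 3336, nat_lit 5280, nat_lit 4956, nat_lit 4740, nat_lit 4812, nat_lit 4800, nat_lit 4792] (nat_lit 2) [] false,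
   Spec.mk (nat_lit 4798) (nat_lit 0) [nat_lit 9172, nat_lit 3340, nat_lit 5284, nat_lit 4960, nat_lit 4744, nat_lit 4816, nat_lit 4792, nat_lit 4800] (nat_lit 4) [nat_lit 24480] false,
   Spec.mk (nat_lit 4800) (nat_lit 0) [nat_lit 9174, nat_lit 3342, nat_lit 5286, nat_lit 4962, nat_lit 4746, nat_lit 4818, nat_lit 4794, nat_lit 4798] (nat_lit 2) [] false,
   Spec.mk (nat_lit 4808) (nat_lit 0) [nat_lit 9182, nat_lit 3350, nat_lit 5294, nat_lit 4970, nat_lit 4754, nat_lit 4790, nat_lit 4810] (nat_lit 2) [nat_lit 24490] false,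
   Spec.mk (nat_lit 4810) (nat_lit 0) [nat_lit 9184, nat_lit 3352, nat_lit 5296, nat_lit 4972, nat_lit 4756, nat_lit 4792, nat_lit 4816, nat_lit 4808, nat_lit 4812] (nat_lit 1) [nat_lit 24492] false,
   Spec.mk (nat_lit 4812) (nat_lit 0) [nat_lit 9186, nat_lit 3354, nat_lit 5298, nat_lit 4974, nat_lit 4758, nat_lit 4794, nat_lit 4818, nat_lit 4810] (nat_lit 2) [] false]

noncomputable def sp14 : List Spec :=
  [Spec.mk (nat_lit 4816) (nat_lit 0) [nat_lit 9190, nat_lit 3358, nat_lit 5302, nat_lit 4978, nat_lit 4762, nat_lit 4798, nat_lit 4834, nat_lit 4810, nat_lit 4818] (nat_lit 1) [nat_lit 24498] false,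
   Spec.mk (nat_lit 4818) (nat_lit 0) [nat_lit 9192, nat_lit 3360, nat_lit 5304, nat_lit 4980, nat_lit 4764, nat_lit 4800, nat_lit 4836, nat_lit 4812, nat_lit 4824, nat_lit 4816] (nat_lit 0) [] false,
   Spec.mk (nat_lit 4824) (nat_lit 0) [nat_lit 9198, nat_lit 3366, nat_lit 5310, nat_lit 4986, nat_lit 4770, nat_lit 4842, nat_lit 4818] (nat_lit 0) [] false,
   Spec.mk (nat_lit 4834) (nat_lit 0) [nat_lit 9208, nat_lit 3376, nat_lit 5320, nat_lit 4996, nat_lit 4816, nat_lit 4836] (nat_lit 0) [nat_lit 24516] false,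
   Spec.mk (nat_lit 4836) (nat_lit 0) [nat_lit 9210, nat_lit 3378, nat_lit 5322, nat_lit 4998, nat_lit 4818, nat_lit 4842, nat_lit 4834] (nat_lit 0) [] false,
   Spec.mk (nat_lit 4842) (nat_lit 2) [nat_lit 9216, nat_lit 3384, nat_lit 5328, nat_lit 5004, nat_lit 4824, nat_lit 4836] (nat_lit 0) [] false,
   Spec.mk (nat_lit 4868) (nat_lit 0) [nat_lit 9242, nat_lit 3410, nat_lit 5354, nat_lit 4706, nat_lit 4874] (nat_lit 2) [nat_lit 24550] false,
   Spec.mk (nat_lit 4874) (nat_lit 0) [nat_lit 9248, nat_lit 3416, nat_lit 5360, nat_lit 4712, nat_lit 4892, nat_lit 4868, nat_lit 4880, nat_lit 4876] (nat_lit 3) [nat_lit 24556] false,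
   Spec.mk (nat_lit 4876) (nat_lit 0) [nat_lit 9250, nat_lit 3418, nat_lit 5362, nat_lit 4714, nat_lit 4894, nat_lit 4882, nat_lit 4874] (nat_lit 2) [nat_lit 24558] false,
   Spec.mk (nat_lit 4880) (nat_lit 0) [nat_lit 9254, nat_lit 3422, nat_lit 5366, nat_lit 4718, nat_lit 4898, nat_lit 4874, nat_lit 4882] (nat_lit 6) [nat_lit 24562] true,
   Spec.mk (nat_lit 4882) (nat_lit 0) [nat_lit 9256, nat_lit 3424, nat_lit 5368, nat_lit 4720, nat_lit 4900, nat_lit 4876, nat_lit 4880, nat_lit 4884] (nat_lit 3) [nat_lit 24564] false,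
   Spec.mk (nat_lit 4884) (nat_lit 0) [nat_lit 9258, nat_lit 3426, nat_lit 5370, nat_lit 4722, nat_lit 4902, nat_lit 4882] (nat_lit 2) [] false,
   Spec.mk (nat_lit 4892) (nat_lit 0) [nat_lit 9266, nat_lit 3434, nat_lit 5378, nat_lit 4730, nat_lit 4946, nat_lit 4874, nat_lit 4898, nat_lit 4894] (nat_lit 4) [nat_lit 24574] true,
   Spec.mk (nat_lit 4894) (nat_lit 0) [nat_lit 9268, nat_lit 3436, nat_lit 5380, nat_lit 4732, nat_lit 4948, nat_lit 4876, nat_lit 4900, nat_lit 4892] (nat_lit 4) [nat_lit 24576] false,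
   Spec.mk (nat_lit 4898) (nat_lit 0) [nat_lit 9272, nat_lit 3440, nat_lit 5384, nat_lit 4736, nat_lit 4952, nat_lit 4880, nat_lit 4916, nat_lit 4892, nat_lit 4900] (nat_lit 5) [nat_lit 24580] false,
   Spec.mk (nat_lit 4900) (nat_lit 0) [nat_lit 9274, nat_lit 3442, nat_lit 5386, nat_lit 4738, nat_lit 4954, nat_lit 4882, nat_lit 4918, nat_lit 4894, nat_lit 4906, nat_lit 4898, nat_lit 4902] (nat_lit 3) [nat_lit 24582] false,
   Spec.mk (nat_lit 4902) (nat_lit 0) [nat_lit 9276, nat_lit 3444, nat_lit 5388, nat_lit 4740, nat_lit 4956, nat_lit 4884, nat_lit 4920, nat_lit 4908, nat_lit 4900] (nat_lit 3) [] false,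
   Spec.mk (nat_lit 4906) (nat_lit 0) [nat_lit 9280, nat_lit 3448, nat_lit 5392, nat_lit 4744, nat_lit 4960, nat_lit 4924, nat_lit 4900, nat_lit 4908] (nat_lit 4) [nat_lit 24588] false,
   Spec.mk (nat_lit 4908) (nat_lit 0) [nat_lit 9282, nat_lit 3450, nat_lit 5394, nat_lit 4746, nat_lit 4962, nat_lit 4926, nat_lit 4902, nat_lit 4906] (nat_lit 2) [] false,
   Spec.mk (nat_lit 4916) (nat_lit 0) [nat_lit 9290, nat_lit 3458, nat_lit 5402, nat_lit 4754, nat_lit 4970, nat_lit 4898, nat_lit 4918] (nat_lit 6) [nat_lit 24598] false,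
   Spec.mk (nat_lit 4918) (nat_lit 0) [nat_lit 9292, nat_lit 3460, nat_lit 5404, nat_lit 4756, nat_lit 4972, nat_lit 4900, nat_lit 4924, nat_lit 4916, nat_lit 4920] (nat_lit 5) [nat_lit 24600] false,
   Spec.mk (nat_lit 4920) (nat_lit 0) [nat_lit 9294, nat_lit 3462, nat_lit 5406, nat_lit 4758, nat_lit 4974, nat_lit 4902, nat_lit 4926, nat_lit 4918] (nat_lit 6) [] false,
   Spec.mk (nat_lit 4924) (nat_lit 0) [nat_lit 9298, nat_lit 3466, nat_lit 5410, nat_lit 4762, nat_lit 4978, nat_lit 4906, nat_lit 4918, nat_lit 4926] (nat_lit 4) [nat_lit 24606] false,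
   Spec.mk (nat_lit 4926) (nat_lit 0) [nat_lit 9300, nat_lit 3468, nat_lit 5412, nat_lit 4764, nat_lit 4980, nat_lit 4908, nat_lit 4920, nat_lit 4932, nat_lit 4924] (nat_lit 3) [] false,
   Spec.mk (nat_lit 4932) (nat_lit 0) [nat_lit 9306, nat_lit 3474, nat_lit 5418, nat_lit 4770, nat_lit 4986, nat_lit 4926] (nat_lit 2) [] false,
   Spec.mk (nat_lit 4946) (nat_lit 0) [nat_lit 9320, nat_lit 3488, nat_lit 5432, nat_lit 4784, nat_lit 4892, nat_lit 4952, nat_lit 4948] (nat_lit 2) [nat_lit 24628] false,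
   Spec.mk (nat_lit 4948) (nat_lit 0) [nat_lit 9322, nat_lit 3490, nat_lit 5434, nat_lit 4786, nat_lit 4894, nat_lit 4954, nat_lit 4946] (nat_lit 2) [nat_lit 24630] false,
   Spec.mk (nat_lit 4952) (nat_lit 0) [nat_lit 9326, nat_lit 3494, nat_lit 5438, nat_lit 4790, nat_lit 4898, nat_lit 4970, nat_lit 4946, nat_lit 4954] (nat_lit 4) [nat_lit 24634] false,
   Spec.mk (nat_lit 4954) (nat_lit 0) [nat_lit 9328, nat_lit 3496, nat_lit 5440, nat_lit 4792, nat_lit 4900, nat_lit 4972, nat_lit 4948, nat_lit 4960, nat_lit 4952, nat_lit 4956] (nat_lit 2) [nat_lit 24636] false,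
   Spec.mk (nat_lit 4956) (nat_lit 0) [nat_lit 9330, nat_lit 3498, nat_lit 5442, nat_lit 4794, nat_lit 4902, nat_lit 4974, nat_lit 4962, nat_lit 4954] (nat_lit 2) [] false,
   Spec.mk (nat_lit 4960) (nat_lit 0) [nat_lit 9334, nat_lit 3502, nat_lit 5446, nat_lit 4798, nat_lit 4906, nat_lit 4978, nat_lit 4954, nat_lit 4962] (nat_lit 4) [nat_lit 24642] false,
   Spec.mk (nat_lit 4962) (nat_lit 0) [nat_lit 9336, nat_lit 3504, nat_lit 5448, nat_lit 4800, nat_lit 4908, nat_lit 4980, nat_lit 4956, nat_lit 4960] (nat_lit 2) [] false,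
   Spec.mk (nat_lit 4970) (nat_lit 0) [nat_lit 9344, nat_lit 3512, nat_lit 5456, nat_lit 4808, nat_lit 4916, nat_lit 5024, nat_lit 4952, nat_lit 4972] (nat_lit 3) [nat_lit 24652] false,
   Spec.mk (nat_lit 4972) (nat_lit 0) [nat_lit 9346, nat_lit 3514, nat_lit 5458, nat_lit 4810, nat_lit 4918, nat_lit 5026, nat_lit 4954, nat_lit 4978, nat_lit 4970, nat_lit 4974] (nat_lit 2) [nat_lit 24654] false,
   Spec.mk (nat_lit 4974) (nat_lit 0) [nat_lit 9348, nat_lit 3516, nat_lit 5460, nat_lit 4812, nat_lit 4920, nat_lit 5028, nat_lit 4956, nat_lit 4980, nat_lit 4972] (nat_lit 3) [] false,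
   Spec.mk (nat_lit 4978) (nat_lit 0) [nat_lit 9352, nat_lit 3520, nat_lit 5464, nat_lit 4816, nat_lit 4924, nat_lit 5032, nat_lit 4960, nat_lit 4996, nat_lit 4972, nat_lit 4980] (nat_lit 2) [nat_lit 24660] false,
   Spec.mk (nat_lit 4980) (nat_lit 0) [nat_lit 9354, nat_lit 3522, nat_lit 5466, nat_lit 4818, nat_lit 4926, nat_lit 5034, nat_lit 4962, nat_lit 4998, nat_lit 4974, nat_lit 4986, nat_lit 4978] (nat_lit 1) [] false,
   Spec.mk (nat_lit 4986) (nat_lit 0) [nat_lit 9360, nat_lit 3528, nat_lit 5472, nat_lit 4824, nat_lit 4932, nat_lit 5040, nat_lit 5004, nat_lit 4980] (nat_lit 1) [] false,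
   Spec.mk (nat_lit 4996) (nat_lit 0) [nat_lit 9370, nat_lit 3538, nat_lit 5482, nat_lit 4834, nat_lit 5050, nat_lit 4978, nat_lit 4998] (nat_lit 2) [nat_lit 24678] false,
   Spec.mk (nat_lit 4998) (nat_lit 0) [nat_lit 9372, nat_lit 3540, nat_lit 5484, nat_lit 4836, nat_lit 5052, nat_lit 4980, nat_lit 5004, nat_lit 4996] (nat_lit 2) [] false,
   Spec.mk (nat_lit 5004) (nat_lit 0) [nat_lit 9378, nat_lit 3546, nat_lit 5490, nat_lit 4842, nat_lit 5058, nat_lit 4986, nat_lit 4998] (nat_lit 0) [] false,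
   Spec.mk (nat_lit 5024) (nat_lit 0) [nat_lit 9398, nat_lit 3566, nat_lit 5510, nat_lit 4970, nat_lit 5026] (nat_lit 2) [nat_lit 24706] false,
   Spec.mk (nat_lit 5026) (nat_lit 0) [nat_lit 9400, nat_lit 3568, nat_lit 5512, nat_lit 4972, nat_lit 5032, nat_lit 5024, nat_lit 5028] (nat_lit 1) [nat_lit 24708] false,
   Spec.mk (nat_lit 5028) (nat_lit 0) [nat_lit 9402, nat_lit 3570, nat_lit 5514, nat_lit 4974, nat_lit 5034, nat_lit 5026] (nat_lit 2) [] false,
   Spec.mk (nat_lit 5032) (nat_lit 0) [nat_lit 9406, nat_lit 3574, nat_lit 5518, nat_lit 4978, nat_lit 5050, nat_lit 5026, nat_lit 5034] (nat_lit 2) [nat_lit 24714] false,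
   Spec.mk (nat_lit 5034) (nat_lit 0) [nat_lit 9408, nat_lit 3576, nat_lit 5520, nat_lit 4980, nat_lit 5052, nat_lit 5028, nat_lit 5040, nat_lit 5032] (nat_lit 1) [] false,
   Spec.mk (nat_lit 5040) (nat_lit 0) [nat_lit 9414, nat_lit 3582, nat_lit 5526, nat_lit 4986, nat_lit 5058, nat_lit 5034] (nat_lit 2) [] false,
   Spec.mk (nat_lit 5050) (nat_lit 0) [nat_lit 9424, nat_lit 3592, nat_lit 5536, nat_lit 4996, nat_lit 5032, nat_lit 5052] (nat_lit 0) [nat_lit 24732] false,
   Spec.mk (nat_lit 5052) (nat_lit 0) [nat_lit 9426, nat_lit 3594, nat_lit 5538, nat_lit 4998, nat_lit 5034, nat_lit 5058, nat_lit 5050] (nat_lit 0) [] false,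
   Spec.mk (nat_lit 5058) (nat_lit 1) [nat_lit 9432, nat_lit 3600, nat_lit 5544, nat_lit 5004, nat_lit 5040, nat_lit 5076, nat_lit 5052] (nat_lit 0) [] false,
   Spec.mk (nat_lit 5076) (nat_lit 2) [nat_lit 9450, nat_lit 3618, nat_lit 5562, nat_lit 5058] (nat_lit 0) [] false,
   Spec.mk (nat_lit 5120) (nat_lit 2) [nat_lit 9494, nat_lit 3662, nat_lit 4634, nat_lit 5138, nat_lit 5126] (nat_lit 0) [nat_lit 24802] false,
   Spec.mk (nat_lit 5126) (nat_lit 0) [nat_lit 9500, nat_lit 3668, nat_lit 4640, nat_lit 5144, nat_lit 5120, nat_lit 5128] (nat_lit 0) [nat_lit 24808] false,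
   Spec.mk (nat_lit 5128) (nat_lit 2) [nat_lit 9502, nat_lit 3670, nat_lit 4642, nat_lit 5146, nat_lit 5126] (nat_lit 0) [nat_lit 24810] false,
   Spec.mk (nat_lit 5138) (nat_lit 0) [nat_lit 9512, nat_lit 3680, nat_lit 4652, nat_lit 5192, nat_lit 5120, nat_lit 5144] (nat_lit 0) [nat_lit 24820] false,
   Spec.mk (nat_lit 5144) (nat_lit 0) [nat_lit 9518, nat_lit 3686, nat_lit 4658, nat_lit 5198, nat_lit 5126, nat_lit 5162, nat_lit 5138, nat_lit 5150, nat_lit 5146] (nat_lit 0) [nat_lit 24826] false,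
   Spec.mk (nat_lit 5146) (nat_lit 1) [nat_lit 9520, nat_lit 3688, nat_lit 4660, nat_lit 5200, nat_lit 5128, nat_lit 5164, nat_lit 5152, nat_lit 5144] (nat_lit 0) [nat_lit 24828] false,
   Spec.mk (nat_lit 5150) (nat_lit 0) [nat_lit 9524, nat_lit 3692, nat_lit 4664, nat_lit 5204, nat_lit 5168, nat_lit 5144, nat_lit 5152] (nat_lit 2) [nat_lit 24832] false,
   Spec.mk (nat_lit 5152) (nat_lit 1) [nat_lit 9526, nat_lit 3694, nat_lit 4666, nat_lit 5206, nat_lit 5170, nat_lit 5146, nat_lit 5150, nat_lit 5154] (nat_lit 0) [nat_lit 24834] false,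
   Spec.mk (nat_lit 5154) (nat_lit 2) [nat_lit 9528, nat_lit 3696, nat_lit 4668, nat_lit 5208, nat_lit 5172, nat_lit 5152] (nat_lit 0) [] false]

noncomputable def sp15 : List Spec :=
  [Spec.mk (nat_lit 5162) (nat_lit 0) [nat_lit 9536, nat_lit 3704, nat_lit 4676, nat_lit 5216, nat_lit 5144, nat_lit 5168, nat_lit 5164] (nat_lit 2) [nat_lit 24844] false,
   Spec.mk (nat_lit 5164) (nat_lit 0) [nat_lit 9538, nat_lit 3706, nat_lit 4678, nat_lit 5218, nat_lit 5146, nat_lit 5170, nat_lit 5162] (nat_lit 2) [nat_lit 24846] false,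
   Spec.mk (nat_lit 5168) (nat_lit 0) [nat_lit 9542, nat_lit 3710, nat_lit 4682, nat_lit 5222, nat_lit 5150, nat_lit 5162, nat_lit 5170] (nat_lit 2) [nat_lit 24850] false,
   Spec.mk (nat_lit 5170) (nat_lit 0) [nat_lit 9544, nat_lit 3712, nat_lit 4684, nat_lit 5224, nat_lit 5152, nat_lit 5164, nat_lit 5176, nat_lit 5168, nat_lit 5172] (nat_lit 0) [nat_lit 24852] false,
   Spec.mk (nat_lit 5172) (nat_lit 0) [nat_lit 9546, nat_lit 3714, nat_lit 4686, nat_lit 5226, nat_lit 5154, nat_lit 5178, nat_lit 5170] (nat_lit 0) [] false,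
   Spec.mk (nat_lit 5176) (nat_lit 0) [nat_lit 9550, nat_lit 3718, nat_lit 4690, nat_lit 5230, nat_lit 5170, nat_lit 5178] (nat_lit 0) [nat_lit 24858] false,
   Spec.mk (nat_lit 5178) (nat_lit 2) [nat_lit 9552, nat_lit 3720, nat_lit 4692, nat_lit 5232, nat_lit 5172, nat_lit 5176] (nat_lit 0) [] false,
   Spec.mk (nat_lit 5192) (nat_lit 0) [nat_lit 9566, nat_lit 3734, nat_lit 4706, nat_lit 5354, nat_lit 5138, nat_lit 5198] (nat_lit 0) [nat_lit 24874] false,
   Spec.mk (nat_lit 5198) (nat_lit 0) [nat_lit 9572, nat_lit 3740, nat_lit 4712, nat_lit 5360, nat_lit 5144, nat_lit 5216, nat_lit 5192, nat_lit 5204, nat_lit 5200] (nat_lit 1) [nat_lit 24880] true,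
   Spec.mk (nat_lit 5200) (nat_lit 0) [nat_lit 9574, nat_lit 3742, nat_lit 4714, nat_lit 5362, nat_lit 5146, nat_lit 5218, nat_lit 5206, nat_lit 5198] (nat_lit 0) [nat_lit 24882] false,
   Spec.mk (nat_lit 5204) (nat_lit 0) [nat_lit 9578, nat_lit 3746, nat_lit 4718, nat_lit 5366, nat_lit 5150, nat_lit 5222, nat_lit 5198, nat_lit 5206] (nat_lit 4) [nat_lit 24886] false,
   Spec.mk (nat_lit 5206) (nat_lit 0) [nat_lit 9580, nat_lit 3748, nat_lit 4720, nat_lit 5368, nat_lit 5152, nat_lit 5224, nat_lit 5200, nat_lit 5204, nat_lit 5208] (nat_lit 1) [nat_lit 24888] false,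
   Spec.mk (nat_lit 5208) (nat_lit 0) [nat_lit 9582, nat_lit 3750, nat_lit 4722, nat_lit 5370, nat_lit 5154, nat_lit 5226, nat_lit 5206] (nat_lit 0) [] false,
   Spec.mk (nat_lit 5216) (nat_lit 0) [nat_lit 9590, nat_lit 3758, nat_lit 4730, nat_lit 5378, nat_lit 5162, nat_lit 5270, nat_lit 5198, nat_lit 5222, nat_lit 5218] (nat_lit 1) [nat_lit 24898] true,
   Spec.mk (nat_lit 5218) (nat_lit 0) [nat_lit 9592, nat_lit 3760, nat_lit 4732, nat_lit 5380, nat_lit 5164, nat_lit 5272, nat_lit 5200, nat_lit 5224, nat_lit 5216] (nat_lit 1) [nat_lit 24900] false,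
   Spec.mk (nat_lit 5222) (nat_lit 0) [nat_lit 9596, nat_lit 3764, nat_lit 4736, nat_lit 5384, nat_lit 5168, nat_lit 5276, nat_lit 5204, nat_lit 5240, nat_lit 5216, nat_lit 5224] (nat_lit 2) [nat_lit 24904] false,
   Spec.mk (nat_lit 5224) (nat_lit 0) [nat_lit 9598, nat_lit 3766, nat_lit 4738, nat_lit 5386, nat_lit 5170, nat_lit 5278, nat_lit 5206, nat_lit 5242, nat_lit 5218, nat_lit 5230, nat_lit 5222, nat_lit 5226] (nat_lit 0) [nat_lit 24906] false,
   Spec.mk (nat_lit 5226) (nat_lit 0) [nat_lit 9600, nat_lit 3768, nat_lit 4740, nat_lit 5388, nat_lit 5172, nat_lit 5280, nat_lit 5208, nat_lit 5244, nat_lit 5232, nat_lit 5224] (nat_lit 0) [] false,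
   Spec.mk (nat_lit 5230) (nat_lit 0) [nat_lit 9604, nat_lit 3772, nat_lit 4744, nat_lit 5392, nat_lit 5176, nat_lit 5284, nat_lit 5248, nat_lit 5224, nat_lit 5232] (nat_lit 1) [nat_lit 24912] false,
   Spec.mk (nat_lit 5232) (nat_lit 1) [nat_lit 9606, nat_lit 3774, nat_lit 4746, nat_lit 5394, nat_lit 5178, nat_lit 5286, nat_lit 5250, nat_lit 5226, nat_lit 5230] (nat_lit 0) [] false,
   Spec.mk (nat_lit 5240) (nat_lit 0) [nat_lit 9614, nat_lit 3782, nat_lit 4754, nat_lit 5402, nat_lit 5294, nat_lit 5222, nat_lit 5242] (nat_lit 2) [nat_lit 24922] false,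
   Spec.mk (nat_lit 5242) (nat_lit 0) [nat_lit 9616, nat_lit 3784, nat_lit 4756, nat_lit 5404, nat_lit 5296, nat_lit 5224, nat_lit 5248, nat_lit 5240, nat_lit 5244] (nat_lit 1) [nat_lit 24924] false,
   Spec.mk (nat_lit 5244) (nat_lit 0) [nat_lit 9618, nat_lit 3786, nat_lit 4758, nat_lit 5406, nat_lit 5298, nat_lit 5226, nat_lit 5250, nat_lit 5242] (nat_lit 2) [] false,
   Spec.mk (nat_lit 5248) (nat_lit 0) [nat_lit 9622, nat_lit 3790, nat_lit 4762, nat_lit 5410, nat_lit 5302, nat_lit 5230, nat_lit 5242, nat_lit 5250] (nat_lit 0) [nat_lit 24930] false,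
   Spec.mk (nat_lit 5250) (nat_lit 1) [nat_lit 9624, nat_lit 3792, nat_lit 4764, nat_lit 5412, nat_lit 5304, nat_lit 5232, nat_lit 5244, nat_lit 5256, nat_lit 5248] (nat_lit 0) [] false,
   Spec.mk (nat_lit 5256) (nat_lit 2) [nat_lit 9630, nat_lit 3798, nat_lit 4770, nat_lit 5418, nat_lit 5310, nat_lit 5250] (nat_lit 0) [] false,
   Spec.mk (nat_lit 5270) (nat_lit 0) [nat_lit 9644, nat_lit 3812, nat_lit 4784, nat_lit 5432, nat_lit 5216, nat_lit 5276, nat_lit 5272] (nat_lit 2) [nat_lit 24952] false,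
   Spec.mk (nat_lit 5272) (nat_lit 0) [nat_lit 9646, nat_lit 3814, nat_lit 4786, nat_lit 5434, nat_lit 5218, nat_lit 5278, nat_lit 5270] (nat_lit 2) [nat_lit 24954] false,
   Spec.mk (nat_lit 5276) (nat_lit 0) [nat_lit 9650, nat_lit 3818, nat_lit 4790, nat_lit 5438, nat_lit 5222, nat_lit 5294, nat_lit 5270, nat_lit 5278] (nat_lit 4) [nat_lit 24958] false,
   Spec.mk (nat_lit 5278) (nat_lit 0) [nat_lit 9652, nat_lit 3820, nat_lit 4792, nat_lit 5440, nat_lit 5224, nat_lit 5296, nat_lit 5272, nat_lit 5284, nat_lit 5276, nat_lit 5280] (nat_lit 2) [nat_lit 24960] false,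
   Spec.mk (nat_lit 5280) (nat_lit 0) [nat_lit 9654, nat_lit 3822, nat_lit 4794, nat_lit 5442, nat_lit 5226, nat_lit 5298, nat_lit 5286, nat_lit 5278] (nat_lit 2) [] false,
   Spec.mk (nat_lit 5284) (nat_lit 0) [nat_lit 9658, nat_lit 3826, nat_lit 4798, nat_lit 5446, nat_lit 5230, nat_lit 5302, nat_lit 5278, nat_lit 5286] (nat_lit 4) [nat_lit 24966] false,
   Spec.mk (nat_lit 5286) (nat_lit 0) [nat_lit 9660, nat_lit 3828, nat_lit 4800, nat_lit 5448, nat_lit 5232, nat_lit 5304, nat_lit 5280, nat_lit 5284] (nat_lit 2) [] false,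
   Spec.mk (nat_lit 5294) (nat_lit 0) [nat_lit 9668, nat_lit 3836, nat_lit 4808, nat_lit 5456, nat_lit 5240, nat_lit 5276, nat_lit 5296] (nat_lit 2) [nat_lit 24976] false,
   Spec.mk (nat_lit 5296) (nat_lit 0) [nat_lit 9670, nat_lit 3838, nat_lit 4810, nat_lit 5458, nat_lit 5242, nat_lit 5278, nat_lit 5302, nat_lit 5294, nat_lit 5298] (nat_lit 1) [nat_lit 24978] false,
   Spec.mk (nat_lit 5298) (nat_lit 0) [nat_lit 9672, nat_lit 3840, nat_lit 4812, nat_lit 5460, nat_lit 5244, nat_lit 5280, nat_lit 5304, nat_lit 5296] (nat_lit 2) [] false,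
   Spec.mk (nat_lit 5302) (nat_lit 0) [nat_lit 9676, nat_lit 3844, nat_lit 4816, nat_lit 5464, nat_lit 5248, nat_lit 5284, nat_lit 5320, nat_lit 5296, nat_lit 5304] (nat_lit 1) [nat_lit 24984] false,
   Spec.mk (nat_lit 5304) (nat_lit 0) [nat_lit 9678, nat_lit 3846, nat_lit 4818, nat_lit 5466, nat_lit 5250, nat_lit 5286, nat_lit 5322, nat_lit 5298, nat_lit 5310, nat_lit 5302] (nat_lit 0) [] false,
   Spec.mk (nat_lit 5310) (nat_lit 0) [nat_lit 9684, nat_lit 3852, nat_lit 4824, nat_lit 5472, nat_lit 5256, nat_lit 5328, nat_lit 5304] (nat_lit 0) [] false,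
   Spec.mk (nat_lit 5320) (nat_lit 0) [nat_lit 9694, nat_lit 3862, nat_lit 4834, nat_lit 5482, nat_lit 5302, nat_lit 5322] (nat_lit 0) [nat_lit 25002] false,
   Spec.mk (nat_lit 5322) (nat_lit 0) [nat_lit 9696, nat_lit 3864, nat_lit 4836, nat_lit 5484, nat_lit 5304, nat_lit 5328, nat_lit 5320] (nat_lit 0) [] false,
   Spec.mk (nat_lit 5328) (nat_lit 2) [nat_lit 9702, nat_lit 3870, nat_lit 4842, nat_lit 5490, nat_lit 5310, nat_lit 5322] (nat_lit 0) [] false,
   Spec.mk (nat_lit 5354) (nat_lit 1) [nat_lit 9728, nat_lit 3896, nat_lit 4868, nat_lit 5840, nat_lit 5192, nat_lit 5360] (nat_lit 0) [nat_lit 25036] false,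
   Spec.mk (nat_lit 5360) (nat_lit 0) [nat_lit 9734, nat_lit 3902, nat_lit 4874, nat_lit 5846, nat_lit 5198, nat_lit 5378, nat_lit 5354, nat_lit 5366, nat_lit 5362] (nat_lit 0) [nat_lit 25042] false,
   Spec.mk (nat_lit 5362) (nat_lit 1) [nat_lit 9736, nat_lit 3904, nat_lit 4876, nat_lit 5848, nat_lit 5200, nat_lit 5380, nat_lit 5368, nat_lit 5360] (nat_lit 0) [nat_lit 25044] false,
   Spec.mk (nat_lit 5366) (nat_lit 0) [nat_lit 9740, nat_lit 3908, nat_lit 4880, nat_lit 5852, nat_lit 5204, nat_lit 5384, nat_lit 5360, nat_lit 5368] (nat_lit 3) [nat_lit 25048] false,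
   Spec.mk (nat_lit 5368) (nat_lit 0) [nat_lit 9742, nat_lit 3910, nat_lit 4882, nat_lit 5854, nat_lit 5206, nat_lit 5386, nat_lit 5362, nat_lit 5366, nat_lit 5370] (nat_lit 0) [nat_lit 25050] false,
   Spec.mk (nat_lit 5370) (nat_lit 1) [nat_lit 9744, nat_lit 3912, nat_lit 4884, nat_lit 5856, nat_lit 5208, nat_lit 5388, nat_lit 5368] (nat_lit 0) [] false,
   Spec.mk (nat_lit 5378) (nat_lit 0) [nat_lit 9752, nat_lit 3920, nat_lit 4892, nat_lit 5864, nat_lit 5216, nat_lit 5432, nat_lit 5360, nat_lit 5384, nat_lit 5380] (nat_lit 1) [nat_lit 25060] false,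
   Spec.mk (nat_lit 5380) (nat_lit 0) [nat_lit 9754, nat_lit 3922, nat_lit 4894, nat_lit 5866, nat_lit 5218, nat_lit 5434, nat_lit 5362, nat_lit 5386, nat_lit 5378] (nat_lit 1) [nat_lit 25062] false,
   Spec.mk (nat_lit 5384) (nat_lit 0) [nat_lit 9758, nat_lit 3926, nat_lit 4898, nat_lit 5870, nat_lit 5222, nat_lit 5438, nat_lit 5366, nat_lit 5402, nat_lit 5378, nat_lit 5386] (nat_lit 2) [nat_lit 25066] false,
   Spec.mk (nat_lit 5386) (nat_lit 0) [nat_lit 9760, nat_lit 3928, nat_lit 4900, nat_lit 5872, nat_lit 5224, nat_lit 5440, nat_lit 5368, nat_lit 5404, nat_lit 5380, nat_lit 5392, nat_lit 5384, nat_lit 5388] (nat_lit 0) [nat_lit 25068] false,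
   Spec.mk (nat_lit 5388) (nat_lit 0) [nat_lit 9762, nat_lit 3930, nat_lit 4902, nat_lit 5874, nat_lit 5226, nat_lit 5442, nat_lit 5370, nat_lit 5406, nat_lit 5394, nat_lit 5386] (nat_lit 0) [] false,
   Spec.mk (nat_lit 5392) (nat_lit 0) [nat_lit 9766, nat_lit 3934, nat_lit 4906, nat_lit 5878, nat_lit 5230, nat_lit 5446, nat_lit 5410, nat_lit 5386, nat_lit 5394] (nat_lit 1) [nat_lit 25074] false,
   Spec.mk (nat_lit 5394) (nat_lit 1) [nat_lit 9768, nat_lit 3936, nat_lit 4908, nat_lit 5880, nat_lit 5232, nat_lit 5448, nat_lit 5412, nat_lit 5388, nat_lit 5392] (nat_lit 0) [] false,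
   Spec.mk (nat_lit 5402) (nat_lit 0) [nat_lit 9776, nat_lit 3944, nat_lit 4916, nat_lit 5888, nat_lit 5240, nat_lit 5456, nat_lit 5384, nat_lit 5404] (nat_lit 3) [nat_lit 25084] false,
   Spec.mk (nat_lit 5404) (nat_lit 0) [nat_lit 9778, nat_lit 3946, nat_lit 4918, nat_lit 5890, nat_lit 5242, nat_lit 5458, nat_lit 5386, nat_lit 5410, nat_lit 5402, nat_lit 5406] (nat_lit 2) [nat_lit 25086] false,
   Spec.mk (nat_lit 5406) (nat_lit 0) [nat_lit 9780, nat_lit 3948, nat_lit 4920, nat_lit 5892, nat_lit 5244, nat_lit 5460, nat_lit 5388, nat_lit 5412, nat_lit 5404] (nat_lit 3) [] false,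
   Spec.mk (nat_lit 5410) (nat_lit 0) [nat_lit 9784, nat_lit 3952, nat_lit 4924, nat_lit 5896, nat_lit 5248, nat_lit 5464, nat_lit 5392, nat_lit 5404, nat_lit 5412] (nat_lit 1) [nat_lit 25092] false,
   Spec.mk (nat_lit 5412) (nat_lit 0) [nat_lit 9786, nat_lit 3954, nat_lit 4926, nat_lit 5898, nat_lit 5250, nat_lit 5466, nat_lit 5394, nat_lit 5406, nat_lit 5418, nat_lit 5410] (nat_lit 0) [] false]

noncomputable def sp16 : List Spec :=
  [Spec.mk (nat_lit 5418) (nat_lit 1) [nat_lit 9792, nat_lit 3960, nat_lit 4932, nat_lit 5904, nat_lit 5256, nat_lit 5472, nat_lit 5412] (nat_lit 0) [] false,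
   Spec.mk (nat_lit 5432) (nat_lit 0) [nat_lit 9806, nat_lit 3974, nat_lit 4946, nat_lit 5918, nat_lit 5270, nat_lit 5594, nat_lit 5378, nat_lit 5438, nat_lit 5434] (nat_lit 0) [nat_lit 25114] false,
   Spec.mk (nat_lit 5434) (nat_lit 0) [nat_lit 9808, nat_lit 3976, nat_lit 4948, nat_lit 5920, nat_lit 5272, nat_lit 5596, nat_lit 5380, nat_lit 5440, nat_lit 5432] (nat_lit 0) [nat_lit 25116] false,
   Spec.mk (nat_lit 5438) (nat_lit 0) [nat_lit 9812, nat_lit 3980, nat_lit 4952, nat_lit 5924, nat_lit 5276, nat_lit 5600, nat_lit 5384, nat_lit 5456, nat_lit 5432, nat_lit 5440] (nat_lit 2) [nat_lit 25120] false,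
   Spec.mk (nat_lit 5440) (nat_lit 0) [nat_lit 9814, nat_lit 3982, nat_lit 4954, nat_lit 5926, nat_lit 5278, nat_lit 5602, nat_lit 5386, nat_lit 5458, nat_lit 5434, nat_lit 5446, nat_lit 5438, nat_lit 5442] (nat_lit 0) [nat_lit 25122] false,
   Spec.mk (nat_lit 5442) (nat_lit 0) [nat_lit 9816, nat_lit 3984, nat_lit 4956, nat_lit 5928, nat_lit 5280, nat_lit 5604, nat_lit 5388, nat_lit 5460, nat_lit 5448, nat_lit 5440] (nat_lit 0) [] false,
   Spec.mk (nat_lit 5446) (nat_lit 0) [nat_lit 9820, nat_lit 3988, nat_lit 4960, nat_lit 5932, nat_lit 5284, nat_lit 5608, nat_lit 5392, nat_lit 5464, nat_lit 5440, nat_lit 5448] (nat_lit 2) [nat_lit 25128] false,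
   Spec.mk (nat_lit 5448) (nat_lit 0) [nat_lit 9822, nat_lit 3990, nat_lit 4962, nat_lit 5934, nat_lit 5286, nat_lit 5610, nat_lit 5394, nat_lit 5466, nat_lit 5442, nat_lit 5446] (nat_lit 0) [] false,
   Spec.mk (nat_lit 5456) (nat_lit 0) [nat_lit 9830, nat_lit 3998, nat_lit 4970, nat_lit 5942, nat_lit 5294, nat_lit 5618, nat_lit 5402, nat_lit 5510, nat_lit 5438, nat_lit 5458] (nat_lit 1) [nat_lit 25138] false,
   Spec.mk (nat_lit 5458) (nat_lit 0) [nat_lit 9832, nat_lit 4000, nat_lit 4972, nat_lit 5944, nat_lit 5296, nat_lit 5620, nat_lit 5404, nat_lit 5512, nat_lit 5440, nat_lit 5464, nat_lit 5456, nat_lit 5460] (nat_lit 0) [nat_lit 25140] false,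
   Spec.mk (nat_lit 5460) (nat_lit 0) [nat_lit 9834, nat_lit 4002, nat_lit 4974, nat_lit 5946, nat_lit 5298, nat_lit 5622, nat_lit 5406, nat_lit 5514, nat_lit 5442, nat_lit 5466, nat_lit 5458] (nat_lit 1) [] false,
   Spec.mk (nat_lit 5464) (nat_lit 0) [nat_lit 9838, nat_lit 4006, nat_lit 4978, nat_lit 5950, nat_lit 5302, nat_lit 5626, nat_lit 5410, nat_lit 5518, nat_lit 5446, nat_lit 5482, nat_lit 5458, nat_lit 5466] (nat_lit 0) [nat_lit 25146] false,
   Spec.mk (nat_lit 5466) (nat_lit 1) [nat_lit 9840, nat_lit 4008, nat_lit 4980, nat_lit 5952, nat_lit 5304, nat_lit 5628, nat_lit 5412, nat_lit 5520, nat_lit 5448, nat_lit 5484, nat_lit 5460, nat_lit 5472, nat_lit 5464] (nat_lit 0) [] false,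
   Spec.mk (nat_lit 5472) (nat_lit 1) [nat_lit 9846, nat_lit 4014, nat_lit 4986, nat_lit 5958, nat_lit 5310, nat_lit 5634, nat_lit 5418, nat_lit 5526, nat_lit 5490, nat_lit 5466] (nat_lit 0) [] false,
   Spec.mk (nat_lit 5482) (nat_lit 0) [nat_lit 9856, nat_lit 4024, nat_lit 4996, nat_lit 5968, nat_lit 5320, nat_lit 5644, nat_lit 5536, nat_lit 5464, nat_lit 5484] (nat_lit 0) [nat_lit 25164] false,
   Spec.mk (nat_lit 5484) (nat_lit 0) [nat_lit 9858, nat_lit 4026, nat_lit 4998, nat_lit 5970, nat_lit 5322, nat_lit 5646, nat_lit 5538, nat_lit 5466, nat_lit 5490, nat_lit 5482] (nat_lit 0) [] false,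
   Spec.mk (nat_lit 5490) (nat_lit 2) [nat_lit 9864, nat_lit 4032, nat_lit 5004, nat_lit 5976, nat_lit 5328, nat_lit 5652, nat_lit 5544, nat_lit 5472, nat_lit 5484] (nat_lit 0) [] false,
   Spec.mk (nat_lit 5510) (nat_lit 0) [nat_lit 9884, nat_lit 4052, nat_lit 5024, nat_lit 5996, nat_lit 5672, nat_lit 5456, nat_lit 5512] (nat_lit 1) [nat_lit 25192] false,
   Spec.mk (nat_lit 5512) (nat_lit 0) [nat_lit 9886, nat_lit 4054, nat_lit 5026, nat_lit 5998, nat_lit 5674, nat_lit 5458, nat_lit 5518, nat_lit 5510, nat_lit 5514] (nat_lit 0) [nat_lit 25194] false,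
   Spec.mk (nat_lit 5514) (nat_lit 0) [nat_lit 9888, nat_lit 4056, nat_lit 5028, nat_lit 6000, nat_lit 5676, nat_lit 5460, nat_lit 5520, nat_lit 5512] (nat_lit 1) [] false,
   Spec.mk (nat_lit 5518) (nat_lit 0) [nat_lit 9892, nat_lit 4060, nat_lit 5032, nat_lit 6004, nat_lit 5680, nat_lit 5464, nat_lit 5536, nat_lit 5512, nat_lit 5520] (nat_lit 1) [nat_lit 25200] false,
   Spec.mk (nat_lit 5520) (nat_lit 0) [nat_lit 9894, nat_lit 4062, nat_lit 5034, nat_lit 6006, nat_lit 5682, nat_lit 5466, nat_lit 5538, nat_lit 5514, nat_lit 5526, nat_lit 5518] (nat_lit 0) [] false,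
   Spec.mk (nat_lit 5526) (nat_lit 0) [nat_lit 9900, nat_lit 4068, nat_lit 5040, nat_lit 6012, nat_lit 5688, nat_lit 5472, nat_lit 5544, nat_lit 5520] (nat_lit 1) [] false,
   Spec.mk (nat_lit 5536) (nat_lit 1) [nat_lit 9910, nat_lit 4078, nat_lit 5050, nat_lit 6022, nat_lit 5698, nat_lit 5482, nat_lit 5518, nat_lit 5538] (nat_lit 0) [nat_lit 25218] false,
   Spec.mk (nat_lit 5538) (nat_lit 1) [nat_lit 9912, nat_lit 4080, nat_lit 5052, nat_lit 6024, nat_lit 5700, nat_lit 5484, nat_lit 5520, nat_lit 5544, nat_lit 5536] (nat_lit 0) [] false,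
   Spec.mk (nat_lit 5544) (nat_lit 2) [nat_lit 9918, nat_lit 4086, nat_lit 5058, nat_lit 6030, nat_lit 5706, nat_lit 5490, nat_lit 5526, nat_lit 5562, nat_lit 5538] (nat_lit 0) [] false,
   Spec.mk (nat_lit 5562) (nat_lit 3) [nat_lit 9936, nat_lit 4104, nat_lit 5076, nat_lit 6048, nat_lit 5724, nat_lit 5544] (nat_lit 0) [] false,
   Spec.mk (nat_lit 5594) (nat_lit 0) [nat_lit 9968, nat_lit 4136, nat_lit 6080, nat_lit 5432, nat_lit 5600, nat_lit 5596] (nat_lit 0) [nat_lit 25276] false,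
   Spec.mk (nat_lit 5596) (nat_lit 0) [nat_lit 9970, nat_lit 4138, nat_lit 6082, nat_lit 5434, nat_lit 5602, nat_lit 5594] (nat_lit 0) [nat_lit 25278] false,
   Spec.mk (nat_lit 5600) (nat_lit 0) [nat_lit 9974, nat_lit 4142, nat_lit 6086, nat_lit 5438, nat_lit 5618, nat_lit 5594, nat_lit 5602] (nat_lit 2) [nat_lit 25282] false,
   Spec.mk (nat_lit 5602) (nat_lit 0) [nat_lit 9976, nat_lit 4144, nat_lit 6088, nat_lit 5440, nat_lit 5620, nat_lit 5596, nat_lit 5608, nat_lit 5600, nat_lit 5604] (nat_lit 0) [nat_lit 25284] false,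
   Spec.mk (nat_lit 5604) (nat_lit 0) [nat_lit 9978, nat_lit 4146, nat_lit 6090, nat_lit 5442, nat_lit 5622, nat_lit 5610, nat_lit 5602] (nat_lit 0) [] false,
   Spec.mk (nat_lit 5608) (nat_lit 0) [nat_lit 9982, nat_lit 4150, nat_lit 6094, nat_lit 5446, nat_lit 5626, nat_lit 5602, nat_lit 5610] (nat_lit 2) [nat_lit 25290] false,
   Spec.mk (nat_lit 5610) (nat_lit 0) [nat_lit 9984, nat_lit 4152, nat_lit 6096, nat_lit 5448, nat_lit 5628, nat_lit 5604, nat_lit 5608] (nat_lit 0) [] false,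
   Spec.mk (nat_lit 5618) (nat_lit 0) [nat_lit 9992, nat_lit 4160, nat_lit 6104, nat_lit 5456, nat_lit 5672, nat_lit 5600, nat_lit 5620] (nat_lit 2) [nat_lit 25300] false,
   Spec.mk (nat_lit 5620) (nat_lit 0) [nat_lit 9994, nat_lit 4162, nat_lit 6106, nat_lit 5458, nat_lit 5674, nat_lit 5602, nat_lit 5626, nat_lit 5618, nat_lit 5622] (nat_lit 1) [nat_lit 25302] false,
   Spec.mk (nat_lit 5622) (nat_lit 0) [nat_lit 9996, nat_lit 4164, nat_lit 6108, nat_lit 5460, nat_lit 5676, nat_lit 5604, nat_lit 5628, nat_lit 5620] (nat_lit 2) [] false,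
   Spec.mk (nat_lit 5626) (nat_lit 0) [nat_lit 10000, nat_lit 4168, nat_lit 6112, nat_lit 5464, nat_lit 5680, nat_lit 5608, nat_lit 5644, nat_lit 5620, nat_lit 5628] (nat_lit 1) [nat_lit 25308] false,
   Spec.mk (nat_lit 5628) (nat_lit 0) [nat_lit 10002, nat_lit 4170, nat_lit 6114, nat_lit 5466, nat_lit 5682, nat_lit 5610, nat_lit 5646, nat_lit 5622, nat_lit 5634, nat_lit 5626] (nat_lit 0) [] false,
   Spec.mk (nat_lit 5634) (nat_lit 0) [nat_lit 10008, nat_lit 4176, nat_lit 6120, nat_lit 5472, nat_lit 5688, nat_lit 5652, nat_lit 5628] (nat_lit 0) [] false,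
   Spec.mk (nat_lit 5644) (nat_lit 0) [nat_lit 10018, nat_lit 4186, nat_lit 6130, nat_lit 5482, nat_lit 5698, nat_lit 5626, nat_lit 5646] (nat_lit 2) [nat_lit 25326] false,
   Spec.mk (nat_lit 5646) (nat_lit 0) [nat_lit 10020, nat_lit 4188, nat_lit 6132, nat_lit 5484, nat_lit 5700, nat_lit 5628, nat_lit 5652, nat_lit 5644] (nat_lit 2) [] false,
   Spec.mk (nat_lit 5652) (nat_lit 0) [nat_lit 10026, nat_lit 4194, nat_lit 6138, nat_lit 5490, nat_lit 5706, nat_lit 5634, nat_lit 5646] (nat_lit 0) [] false,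
   Spec.mk (nat_lit 5672) (nat_lit 0) [nat_lit 10046, nat_lit 4214, nat_lit 6158, nat_lit 5510, nat_lit 5618, nat_lit 5674] (nat_lit 0) [nat_lit 25354] false,
   Spec.mk (nat_lit 5674) (nat_lit 1) [nat_lit 10048, nat_lit 4216, nat_lit 6160, nat_lit 5512, nat_lit 5620, nat_lit 5680, nat_lit 5672, nat_lit 5676] (nat_lit 0) [nat_lit 25356] false,
   Spec.mk (nat_lit 5676) (nat_lit 0) [nat_lit 10050, nat_lit 4218, nat_lit 6162, nat_lit 5514, nat_lit 5622, nat_lit 5682, nat_lit 5674] (nat_lit 0) [] false,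
   Spec.mk (nat_lit 5680) (nat_lit 0) [nat_lit 10054, nat_lit 4222, nat_lit 6166, nat_lit 5518, nat_lit 5626, nat_lit 5698, nat_lit 5674, nat_lit 5682] (nat_lit 0) [nat_lit 25362] false,
   Spec.mk (nat_lit 5682) (nat_lit 1) [nat_lit 10056, nat_lit 4224, nat_lit 6168, nat_lit 5520, nat_lit 5628, nat_lit 5700, nat_lit 5676, nat_lit 5688, nat_lit 5680] (nat_lit 0) [] false,
   Spec.mk (nat_lit 5688) (nat_lit 0) [nat_lit 10062, nat_lit 4230, nat_lit 6174, nat_lit 5526, nat_lit 5634, nat_lit 5706, nat_lit 5682] (nat_lit 0) [] false,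
   Spec.mk (nat_lit 5698) (nat_lit 1) [nat_lit 10072, nat_lit 4240, nat_lit 6184, nat_lit 5536, nat_lit 5644, nat_lit 5752, nat_lit 5680, nat_lit 5700] (nat_lit 0) [nat_lit 25380] false,
   Spec.mk (nat_lit 5700) (nat_lit 1) [nat_lit 10074, nat_lit 4242, nat_lit 6186, nat_lit 5538, nat_lit 5646, nat_lit 5754, nat_lit 5682, nat_lit 5706, nat_lit 5698] (nat_lit 0) [] false,
   Spec.mk (nat_lit 5706) (nat_lit 2) [nat_lit 10080, nat_lit 4248, nat_lit 6192, nat_lit 5544, nat_lit 5652, nat_lit 5760, nat_lit 5688, nat_lit 5724, nat_lit 5700] (nat_lit 0) [] false,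
   Spec.mk (nat_lit 5724) (nat_lit 2) [nat_lit 10098, nat_lit 4266, nat_lit 6210, nat_lit 5562, nat_lit 5778, nat_lit 5706] (nat_lit 0) [] false,
   Spec.mk (nat_lit 5752) (nat_lit 2) [nat_lit 10126, nat_lit 4294, nat_lit 6238, nat_lit 5698, nat_lit 5754] (nat_lit 0) [nat_lit 25434] false,
   Spec.mk (nat_lit 5754) (nat_lit 2) [nat_lit 10128, nat_lit 4296, nat_lit 6240, nat_lit 5700, nat_lit 5760, nat_lit 5752] (nat_lit 0) [] false,
   Spec.mk (nat_lit 5760) (nat_lit 2) [nat_lit 10134, nat_lit 4302, nat_lit 6246, nat_lit 5706, nat_lit 5778, nat_lit 5754] (nat_lit 0) [] false,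
   Spec.mk (nat_lit 5778) (nat_lit 4) [nat_lit 10152, nat_lit 4320, nat_lit 6264, nat_lit 5724, nat_lit 5760] (nat_lit 0) [] false,
   Spec.mk (nat_lit 5840) (nat_lit 2) [nat_lit 10214, nat_lit 5354, nat_lit 5846] (nat_lit 0) [nat_lit 25522] false,
   Spec.mk (nat_lit 5846) (nat_lit 1) [nat_lit 10220, nat_lit 5360, nat_lit 5864, nat_lit 5840, nat_lit 5852, nat_lit 5848] (nat_lit 0) [nat_lit 25528] false,
   Spec.mk (nat_lit 5848) (nat_lit 2) [nat_lit 10222, nat_lit 5362, nat_lit 5866, nat_lit 5854, nat_lit 5846] (nat_lit 0) [nat_lit 25530] false]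

noncomputable def sp17 : List Spec :=
  [Spec.mk (nat_lit 5852) (nat_lit 0) [nat_lit 10226, nat_lit 5366, nat_lit 5870, nat_lit 5846, nat_lit 5854] (nat_lit 2) [nat_lit 25534] false,
   Spec.mk (nat_lit 5854) (nat_lit 1) [nat_lit 10228, nat_lit 5368, nat_lit 5872, nat_lit 5848, nat_lit 5852, nat_lit 5856] (nat_lit 0) [nat_lit 25536] false,
   Spec.mk (nat_lit 5856) (nat_lit 2) [nat_lit 10230, nat_lit 5370, nat_lit 5874, nat_lit 5854] (nat_lit 0) [] false,
   Spec.mk (nat_lit 5864) (nat_lit 0) [nat_lit 10238, nat_lit 5378, nat_lit 5918, nat_lit 5846, nat_lit 5870, nat_lit 5866] (nat_lit 0) [nat_lit 25546] false,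
   Spec.mk (nat_lit 5866) (nat_lit 0) [nat_lit 10240, nat_lit 5380, nat_lit 5920, nat_lit 5848, nat_lit 5872, nat_lit 5864] (nat_lit 0) [nat_lit 25548] false,
   Spec.mk (nat_lit 5870) (nat_lit 0) [nat_lit 10244, nat_lit 5384, nat_lit 5924, nat_lit 5852, nat_lit 5888, nat_lit 5864, nat_lit 5872] (nat_lit 1) [nat_lit 25552] false,
   Spec.mk (nat_lit 5872) (nat_lit 1) [nat_lit 10246, nat_lit 5386, nat_lit 5926, nat_lit 5854, nat_lit 5890, nat_lit 5866, nat_lit 5878, nat_lit 5870, nat_lit 5874] (nat_lit 0) [nat_lit 25554] false,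
   Spec.mk (nat_lit 5874) (nat_lit 1) [nat_lit 10248, nat_lit 5388, nat_lit 5928, nat_lit 5856, nat_lit 5892, nat_lit 5880, nat_lit 5872] (nat_lit 0) [] false,
   Spec.mk (nat_lit 5878) (nat_lit 0) [nat_lit 10252, nat_lit 5392, nat_lit 5932, nat_lit 5896, nat_lit 5872, nat_lit 5880] (nat_lit 0) [nat_lit 25560] false,
   Spec.mk (nat_lit 5880) (nat_lit 2) [nat_lit 10254, nat_lit 5394, nat_lit 5934, nat_lit 5898, nat_lit 5874, nat_lit 5878] (nat_lit 0) [] false,
   Spec.mk (nat_lit 5888) (nat_lit 0) [nat_lit 10262, nat_lit 5402, nat_lit 5942, nat_lit 5870, nat_lit 5890] (nat_lit 2) [nat_lit 25570] false,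
   Spec.mk (nat_lit 5890) (nat_lit 0) [nat_lit 10264, nat_lit 5404, nat_lit 5944, nat_lit 5872, nat_lit 5896, nat_lit 5888, nat_lit 5892] (nat_lit 1) [nat_lit 25572] false,
   Spec.mk (nat_lit 5892) (nat_lit 0) [nat_lit 10266, nat_lit 5406, nat_lit 5946, nat_lit 5874, nat_lit 5898, nat_lit 5890] (nat_lit 2) [] false,
   Spec.mk (nat_lit 5896) (nat_lit 0) [nat_lit 10270, nat_lit 5410, nat_lit 5950, nat_lit 5878, nat_lit 5890, nat_lit 5898] (nat_lit 0) [nat_lit 25578] false,
   Spec.mk (nat_lit 5898) (nat_lit 1) [nat_lit 10272, nat_lit 5412, nat_lit 5952, nat_lit 5880, nat_lit 5892, nat_lit 5904, nat_lit 5896] (nat_lit 0) [] false,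
   Spec.mk (nat_lit 5904) (nat_lit 2) [nat_lit 10278, nat_lit 5418, nat_lit 5958, nat_lit 5898] (nat_lit 0) [] false,
   Spec.mk (nat_lit 5918) (nat_lit 0) [nat_lit 10292, nat_lit 5432, nat_lit 6080, nat_lit 5864, nat_lit 5924, nat_lit 5920] (nat_lit 0) [nat_lit 25600] false,
   Spec.mk (nat_lit 5920) (nat_lit 0) [nat_lit 10294, nat_lit 5434, nat_lit 6082, nat_lit 5866, nat_lit 5926, nat_lit 5918] (nat_lit 0) [nat_lit 25602] false,
   Spec.mk (nat_lit 5924) (nat_lit 0) [nat_lit 10298, nat_lit 5438, nat_lit 6086, nat_lit 5870, nat_lit 5942, nat_lit 5918, nat_lit 5926] (nat_lit 2) [nat_lit 25606] false,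
   Spec.mk (nat_lit 5926) (nat_lit 0) [nat_lit 10300, nat_lit 5440, nat_lit 6088, nat_lit 5872, nat_lit 5944, nat_lit 5920, nat_lit 5932, nat_lit 5924, nat_lit 5928] (nat_lit 0) [nat_lit 25608] false,
   Spec.mk (nat_lit 5928) (nat_lit 0) [nat_lit 10302, nat_lit 5442, nat_lit 6090, nat_lit 5874, nat_lit 5946, nat_lit 5934, nat_lit 5926] (nat_lit 0) [] false,
   Spec.mk (nat_lit 5932) (nat_lit 0) [nat_lit 10306, nat_lit 5446, nat_lit 6094, nat_lit 5878, nat_lit 5950, nat_lit 5926, nat_lit 5934] (nat_lit 2) [nat_lit 25614] false,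
   Spec.mk (nat_lit 5934) (nat_lit 0) [nat_lit 10308, nat_lit 5448, nat_lit 6096, nat_lit 5880, nat_lit 5952, nat_lit 5928, nat_lit 5932] (nat_lit 0) [] false,
   Spec.mk (nat_lit 5942) (nat_lit 0) [nat_lit 10316, nat_lit 5456, nat_lit 6104, nat_lit 5888, nat_lit 5996, nat_lit 5924, nat_lit 5944] (nat_lit 1) [nat_lit 25624] false,
   Spec.mk (nat_lit 5944) (nat_lit 0) [nat_lit 10318, nat_lit 5458, nat_lit 6106, nat_lit 5890, nat_lit 5998, nat_lit 5926, nat_lit 5950, nat_lit 5942, nat_lit 5946] (nat_lit 0) [nat_lit 25626] false,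
   Spec.mk (nat_lit 5946) (nat_lit 0) [nat_lit 10320, nat_lit 5460, nat_lit 6108, nat_lit 5892, nat_lit 6000, nat_lit 5928, nat_lit 5952, nat_lit 5944] (nat_lit 1) [] false,
   Spec.mk (nat_lit 5950) (nat_lit 0) [nat_lit 10324, nat_lit 5464, nat_lit 6112, nat_lit 5896, nat_lit 6004, nat_lit 5932, nat_lit 5968, nat_lit 5944, nat_lit 5952] (nat_lit 0) [nat_lit 25632] false,
   Spec.mk (nat_lit 5952) (nat_lit 1) [nat_lit 10326, nat_lit 5466, nat_lit 6114, nat_lit 5898, nat_lit 6006, nat_lit 5934, nat_lit 5970, nat_lit 5946, nat_lit 5958, nat_lit 5950] (nat_lit 0) [] false,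
   Spec.mk (nat_lit 5958) (nat_lit 1) [nat_lit 10332, nat_lit 5472, nat_lit 6120, nat_lit 5904, nat_lit 6012, nat_lit 5976, nat_lit 5952] (nat_lit 0) [] false,
   Spec.mk (nat_lit 5968) (nat_lit 0) [nat_lit 10342, nat_lit 5482, nat_lit 6130, nat_lit 6022, nat_lit 5950, nat_lit 5970] (nat_lit 0) [nat_lit 25650] false,
   Spec.mk (nat_lit 5970) (nat_lit 0) [nat_lit 10344, nat_lit 5484, nat_lit 6132, nat_lit 6024, nat_lit 5952, nat_lit 5976, nat_lit 5968] (nat_lit 0) [] false,
   Spec.mk (nat_lit 5976) (nat_lit 2) [nat_lit 10350, nat_lit 5490, nat_lit 6138, nat_lit 6030, nat_lit 5958, nat_lit 5970] (nat_lit 0) [] false,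
   Spec.mk (nat_lit 5996) (nat_lit 0) [nat_lit 10370, nat_lit 5510, nat_lit 6158, nat_lit 5942, nat_lit 5998] (nat_lit 2) [nat_lit 25678] false,
   Spec.mk (nat_lit 5998) (nat_lit 0) [nat_lit 10372, nat_lit 5512, nat_lit 6160, nat_lit 5944, nat_lit 6004, nat_lit 5996, nat_lit 6000] (nat_lit 1) [nat_lit 25680] false,
   Spec.mk (nat_lit 6000) (nat_lit 0) [nat_lit 10374, nat_lit 5514, nat_lit 6162, nat_lit 5946, nat_lit 6006, nat_lit 5998] (nat_lit 2) [] false,
   Spec.mk (nat_lit 6004) (nat_lit 0) [nat_lit 10378, nat_lit 5518, nat_lit 6166, nat_lit 5950, nat_lit 6022, nat_lit 5998, nat_lit 6006] (nat_lit 2) [nat_lit 25686] false,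
   Spec.mk (nat_lit 6006) (nat_lit 0) [nat_lit 10380, nat_lit 5520, nat_lit 6168, nat_lit 5952, nat_lit 6024, nat_lit 6000, nat_lit 6012, nat_lit 6004] (nat_lit 1) [] false,
   Spec.mk (nat_lit 6012) (nat_lit 0) [nat_lit 10386, nat_lit 5526, nat_lit 6174, nat_lit 5958, nat_lit 6030, nat_lit 6006] (nat_lit 2) [] false,
   Spec.mk (nat_lit 6022) (nat_lit 0) [nat_lit 10396, nat_lit 5536, nat_lit 6184, nat_lit 5968, nat_lit 6004, nat_lit 6024] (nat_lit 0) [nat_lit 25704] false,
   Spec.mk (nat_lit 6024) (nat_lit 0) [nat_lit 10398, nat_lit 5538, nat_lit 6186, nat_lit 5970, nat_lit 6006, nat_lit 6030, nat_lit 6022] (nat_lit 0) [] false,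
   Spec.mk (nat_lit 6030) (nat_lit 1) [nat_lit 10404, nat_lit 5544, nat_lit 6192, nat_lit 5976, nat_lit 6012, nat_lit 6048, nat_lit 6024] (nat_lit 0) [] false,
   Spec.mk (nat_lit 6048) (nat_lit 2) [nat_lit 10422, nat_lit 5562, nat_lit 6210, nat_lit 6030] (nat_lit 0) [] false,
   Spec.mk (nat_lit 6080) (nat_lit 2) [nat_lit 10454, nat_lit 5594, nat_lit 5918, nat_lit 6086, nat_lit 6082] (nat_lit 0) [nat_lit 25762] false,
   Spec.mk (nat_lit 6082) (nat_lit 2) [nat_lit 10456, nat_lit 5596, nat_lit 5920, nat_lit 6088, nat_lit 6080] (nat_lit 0) [nat_lit 25764] false,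
   Spec.mk (nat_lit 6086) (nat_lit 0) [nat_lit 10460, nat_lit 5600, nat_lit 5924, nat_lit 6104, nat_lit 6080, nat_lit 6088] (nat_lit 0) [nat_lit 25768] false,
   Spec.mk (nat_lit 6088) (nat_lit 2) [nat_lit 10462, nat_lit 5602, nat_lit 5926, nat_lit 6106, nat_lit 6082, nat_lit 6094, nat_lit 6086, nat_lit 6090] (nat_lit 0) [nat_lit 25770] false,
   Spec.mk (nat_lit 6090) (nat_lit 2) [nat_lit 10464, nat_lit 5604, nat_lit 5928, nat_lit 6108, nat_lit 6096, nat_lit 6088] (nat_lit 0) [] false,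
   Spec.mk (nat_lit 6094) (nat_lit 0) [nat_lit 10468, nat_lit 5608, nat_lit 5932, nat_lit 6112, nat_lit 6088, nat_lit 6096] (nat_lit 0) [nat_lit 25776] false,
   Spec.mk (nat_lit 6096) (nat_lit 2) [nat_lit 10470, nat_lit 5610, nat_lit 5934, nat_lit 6114, nat_lit 6090, nat_lit 6094] (nat_lit 0) [] false,
   Spec.mk (nat_lit 6104) (nat_lit 0) [nat_lit 10478, nat_lit 5618, nat_lit 5942, nat_lit 6158, nat_lit 6086, nat_lit 6106] (nat_lit 0) [nat_lit 25786] false,
   Spec.mk (nat_lit 6106) (nat_lit 1) [nat_lit 10480, nat_lit 5620, nat_lit 5944, nat_lit 6160, nat_lit 6088, nat_lit 6112, nat_lit 6104, nat_lit 6108] (nat_lit 0) [nat_lit 25788] false,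
   Spec.mk (nat_lit 6108) (nat_lit 0) [nat_lit 10482, nat_lit 5622, nat_lit 5946, nat_lit 6162, nat_lit 6090, nat_lit 6114, nat_lit 6106] (nat_lit 0) [] false,
   Spec.mk (nat_lit 6112) (nat_lit 1) [nat_lit 10486, nat_lit 5626, nat_lit 5950, nat_lit 6166, nat_lit 6094, nat_lit 6130, nat_lit 6106, nat_lit 6114] (nat_lit 0) [nat_lit 25794] false,
   Spec.mk (nat_lit 6114) (nat_lit 2) [nat_lit 10488, nat_lit 5628, nat_lit 5952, nat_lit 6168, nat_lit 6096, nat_lit 6132, nat_lit 6108, nat_lit 6120, nat_lit 6112] (nat_lit 0) [] false,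
   Spec.mk (nat_lit 6120) (nat_lit 2) [nat_lit 10494, nat_lit 5634, nat_lit 5958, nat_lit 6174, nat_lit 6138, nat_lit 6114] (nat_lit 0) [] false,
   Spec.mk (nat_lit 6130) (nat_lit 0) [nat_lit 10504, nat_lit 5644, nat_lit 5968, nat_lit 6184, nat_lit 6112, nat_lit 6132] (nat_lit 0) [nat_lit 25812] false,
   Spec.mk (nat_lit 6132) (nat_lit 0) [nat_lit 10506, nat_lit 5646, nat_lit 5970, nat_lit 6186, nat_lit 6114, nat_lit 6138, nat_lit 6130] (nat_lit 0) [] false,
   Spec.mk (nat_lit 6138) (nat_lit 2) [nat_lit 10512, nat_lit 5652, nat_lit 5976, nat_lit 6192, nat_lit 6120, nat_lit 6132] (nat_lit 0) [] false,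
   Spec.mk (nat_lit 6158) (nat_lit 1) [nat_lit 10532, nat_lit 5672, nat_lit 5996, nat_lit 6320, nat_lit 6104, nat_lit 6160] (nat_lit 0) [nat_lit 25840] false,
   Spec.mk (nat_lit 6160) (nat_lit 2) [nat_lit 10534, nat_lit 5674, nat_lit 5998, nat_lit 6322, nat_lit 6106, nat_lit 6166, nat_lit 6158, nat_lit 6162] (nat_lit 0) [nat_lit 25842] false]

noncomputable def sp18 : List Spec :=
  [Spec.mk (nat_lit 6162) (nat_lit 1) [nat_lit 10536, nat_lit 5676, nat_lit 6000, nat_lit 6324, nat_lit 6108, nat_lit 6168, nat_lit 6160] (nat_lit 0) [] false,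
   Spec.mk (nat_lit 6166) (nat_lit 1) [nat_lit 10540, nat_lit 5680, nat_lit 6004, nat_lit 6328, nat_lit 6112, nat_lit 6184, nat_lit 6160, nat_lit 6168] (nat_lit 0) [nat_lit 25848] false,
   Spec.mk (nat_lit 6168) (nat_lit 2) [nat_lit 10542, nat_lit 5682, nat_lit 6006, nat_lit 6330, nat_lit 6114, nat_lit 6186, nat_lit 6162, nat_lit 6174, nat_lit 6166] (nat_lit 0) [] false,
   Spec.mk (nat_lit 6174) (nat_lit 1) [nat_lit 10548, nat_lit 5688, nat_lit 6012, nat_lit 6336, nat_lit 6120, nat_lit 6192, nat_lit 6168] (nat_lit 0) [] false,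
   Spec.mk (nat_lit 6184) (nat_lit 2) [nat_lit 10558, nat_lit 5698, nat_lit 6022, nat_lit 6346, nat_lit 6130, nat_lit 6238, nat_lit 6166, nat_lit 6186] (nat_lit 0) [nat_lit 25866] false,
   Spec.mk (nat_lit 6186) (nat_lit 2) [nat_lit 10560, nat_lit 5700, nat_lit 6024, nat_lit 6348, nat_lit 6132, nat_lit 6240, nat_lit 6168, nat_lit 6192, nat_lit 6184] (nat_lit 0) [] false,
   Spec.mk (nat_lit 6192) (nat_lit 3) [nat_lit 10566, nat_lit 5706, nat_lit 6030, nat_lit 6354, nat_lit 6138, nat_lit 6246, nat_lit 6174, nat_lit 6210, nat_lit 6186] (nat_lit 0) [] false,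
   Spec.mk (nat_lit 6210) (nat_lit 3) [nat_lit 10584, nat_lit 5724, nat_lit 6048, nat_lit 6372, nat_lit 6264, nat_lit 6192] (nat_lit 0) [] false,
   Spec.mk (nat_lit 6238) (nat_lit 2) [nat_lit 10612, nat_lit 5752, nat_lit 6400, nat_lit 6184, nat_lit 6240] (nat_lit 0) [nat_lit 25920] false,
   Spec.mk (nat_lit 6240) (nat_lit 2) [nat_lit 10614, nat_lit 5754, nat_lit 6402, nat_lit 6186, nat_lit 6246, nat_lit 6238] (nat_lit 0) [] false,
   Spec.mk (nat_lit 6246) (nat_lit 2) [nat_lit 10620, nat_lit 5760, nat_lit 6408, nat_lit 6192, nat_lit 6264, nat_lit 6240] (nat_lit 0) [] false,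
   Spec.mk (nat_lit 6264) (nat_lit 4) [nat_lit 10638, nat_lit 5778, nat_lit 6426, nat_lit 6210, nat_lit 6246] (nat_lit 0) [] false,
   Spec.mk (nat_lit 6320) (nat_lit 2) [nat_lit 10694, nat_lit 6158, nat_lit 6322] (nat_lit 0) [nat_lit 26002] false,
   Spec.mk (nat_lit 6322) (nat_lit 3) [nat_lit 10696, nat_lit 6160, nat_lit 6328, nat_lit 6320, nat_lit 6324] (nat_lit 0) [nat_lit 26004] false,
   Spec.mk (nat_lit 6324) (nat_lit 2) [nat_lit 10698, nat_lit 6162, nat_lit 6330, nat_lit 6322] (nat_lit 0) [] false,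
   Spec.mk (nat_lit 6328) (nat_lit 2) [nat_lit 10702, nat_lit 6166, nat_lit 6346, nat_lit 6322, nat_lit 6330] (nat_lit 0) [nat_lit 26010] false,
   Spec.mk (nat_lit 6330) (nat_lit 3) [nat_lit 10704, nat_lit 6168, nat_lit 6348, nat_lit 6324, nat_lit 6336, nat_lit 6328] (nat_lit 0) [] false,
   Spec.mk (nat_lit 6336) (nat_lit 2) [nat_lit 10710, nat_lit 6174, nat_lit 6354, nat_lit 6330] (nat_lit 0) [] false,
   Spec.mk (nat_lit 6346) (nat_lit 2) [nat_lit 10720, nat_lit 6184, nat_lit 6400, nat_lit 6328, nat_lit 6348] (nat_lit 0) [nat_lit 26028] false,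
   Spec.mk (nat_lit 6348) (nat_lit 2) [nat_lit 10722, nat_lit 6186, nat_lit 6402, nat_lit 6330, nat_lit 6354, nat_lit 6346] (nat_lit 0) [] false,
   Spec.mk (nat_lit 6354) (nat_lit 3) [nat_lit 10728, nat_lit 6192, nat_lit 6408, nat_lit 6336, nat_lit 6372, nat_lit 6348] (nat_lit 0) [] false,
   Spec.mk (nat_lit 6372) (nat_lit 2) [nat_lit 10746, nat_lit 6210, nat_lit 6426, nat_lit 6354] (nat_lit 0) [] false,
   Spec.mk (nat_lit 6400) (nat_lit 4) [nat_lit 10774, nat_lit 6238, nat_lit 6346, nat_lit 6402] (nat_lit 0) [nat_lit 26082] false,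
   Spec.mk (nat_lit 6402) (nat_lit 4) [nat_lit 10776, nat_lit 6240, nat_lit 6348, nat_lit 6408, nat_lit 6400] (nat_lit 0) [] false,
   Spec.mk (nat_lit 6408) (nat_lit 4) [nat_lit 10782, nat_lit 6246, nat_lit 6354, nat_lit 6426, nat_lit 6402] (nat_lit 0) [] false,
   Spec.mk (nat_lit 6426) (nat_lit 5) [nat_lit 10800, nat_lit 6264, nat_lit 6372, nat_lit 6480, nat_lit 6408] (nat_lit 0) [] false,
   Spec.mk (nat_lit 6480) (nat_lit 6) [nat_lit 10854, nat_lit 6426] (nat_lit 0) [] false,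
   Spec.mk (nat_lit 6614) (nat_lit 4) [nat_lit 19736, nat_lit 2240, nat_lit 6668, nat_lit 6632] (nat_lit 0) [nat_lit 26296] false,
   Spec.mk (nat_lit 6632) (nat_lit 2) [nat_lit 19754, nat_lit 2258, nat_lit 6686, nat_lit 6614, nat_lit 6638] (nat_lit 0) [nat_lit 26314] false,
   Spec.mk (nat_lit 6638) (nat_lit 2) [nat_lit 19760, nat_lit 2264, nat_lit 6692, nat_lit 6632, nat_lit 6640] (nat_lit 0) [nat_lit 26320] false,
   Spec.mk (nat_lit 6640) (nat_lit 4) [nat_lit 19762, nat_lit 2266, nat_lit 6694, nat_lit 6638] (nat_lit 0) [nat_lit 26322] false,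
   Spec.mk (nat_lit 6668) (nat_lit 2) [nat_lit 19790, nat_lit 2294, nat_lit 6830, nat_lit 6614, nat_lit 6686] (nat_lit 0) [nat_lit 26350] false,
   Spec.mk (nat_lit 6686) (nat_lit 2) [nat_lit 19808, nat_lit 2312, nat_lit 6848, nat_lit 6632, nat_lit 6740, nat_lit 6668, nat_lit 6704, nat_lit 6692] (nat_lit 0) [nat_lit 26368] false,
   Spec.mk (nat_lit 6692) (nat_lit 1) [nat_lit 19814, nat_lit 2318, nat_lit 6854, nat_lit 6638, nat_lit 6746, nat_lit 6710, nat_lit 6686, nat_lit 6694] (nat_lit 0) [nat_lit 26374] false,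
   Spec.mk (nat_lit 6694) (nat_lit 3) [nat_lit 19816, nat_lit 2320, nat_lit 6856, nat_lit 6640, nat_lit 6748, nat_lit 6712, nat_lit 6692] (nat_lit 0) [nat_lit 26376] false,
   Spec.mk (nat_lit 6704) (nat_lit 0) [nat_lit 19826, nat_lit 2330, nat_lit 6866, nat_lit 6758, nat_lit 6686, nat_lit 6710] (nat_lit 0) [nat_lit 26386] false,
   Spec.mk (nat_lit 6710) (nat_lit 1) [nat_lit 19832, nat_lit 2336, nat_lit 6872, nat_lit 6764, nat_lit 6692, nat_lit 6704, nat_lit 6716, nat_lit 6712] (nat_lit 0) [nat_lit 26392] false,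
   Spec.mk (nat_lit 6712) (nat_lit 2) [nat_lit 19834, nat_lit 2338, nat_lit 6874, nat_lit 6766, nat_lit 6694, nat_lit 6718, nat_lit 6710] (nat_lit 0) [nat_lit 26394] false,
   Spec.mk (nat_lit 6716) (nat_lit 0) [nat_lit 19838, nat_lit 2342, nat_lit 6878, nat_lit 6770, nat_lit 6710, nat_lit 6718] (nat_lit 0) [nat_lit 26398] false,
   Spec.mk (nat_lit 6718) (nat_lit 3) [nat_lit 19840, nat_lit 2344, nat_lit 6880, nat_lit 6772, nat_lit 6712, nat_lit 6716, nat_lit 6720] (nat_lit 0) [nat_lit 26400] false,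
   Spec.mk (nat_lit 6720) (nat_lit 4) [nat_lit 19842, nat_lit 2346, nat_lit 6882, nat_lit 6774, nat_lit 6718] (nat_lit 0) [] false,
   Spec.mk (nat_lit 6740) (nat_lit 0) [nat_lit 19862, nat_lit 2366, nat_lit 6902, nat_lit 6686, nat_lit 6758, nat_lit 6746] (nat_lit 0) [nat_lit 26422] false,
   Spec.mk (nat_lit 6746) (nat_lit 0) [nat_lit 19868, nat_lit 2372, nat_lit 6908, nat_lit 6692, nat_lit 6764, nat_lit 6740, nat_lit 6748] (nat_lit 2) [nat_lit 26428] false,
   Spec.mk (nat_lit 6748) (nat_lit 0) [nat_lit 19870, nat_lit 2374, nat_lit 6910, nat_lit 6694, nat_lit 6766, nat_lit 6746] (nat_lit 0) [nat_lit 26430] false,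
   Spec.mk (nat_lit 6758) (nat_lit 0) [nat_lit 19880, nat_lit 2384, nat_lit 6920, nat_lit 6704, nat_lit 6740, nat_lit 6764] (nat_lit 0) [nat_lit 26440] false,
   Spec.mk (nat_lit 6764) (nat_lit 0) [nat_lit 19886, nat_lit 2390, nat_lit 6926, nat_lit 6710, nat_lit 6746, nat_lit 6782, nat_lit 6758, nat_lit 6770, nat_lit 6766] (nat_lit 0) [nat_lit 26446] false,
   Spec.mk (nat_lit 6766) (nat_lit 1) [nat_lit 19888, nat_lit 2392, nat_lit 6928, nat_lit 6712, nat_lit 6748, nat_lit 6784, nat_lit 6772, nat_lit 6764] (nat_lit 0) [nat_lit 26448] false,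
   Spec.mk (nat_lit 6770) (nat_lit 0) [nat_lit 19892, nat_lit 2396, nat_lit 6932, nat_lit 6716, nat_lit 6788, nat_lit 6764, nat_lit 6772] (nat_lit 2) [nat_lit 26452] false,
   Spec.mk (nat_lit 6772) (nat_lit 1) [nat_lit 19894, nat_lit 2398, nat_lit 6934, nat_lit 6718, nat_lit 6790, nat_lit 6766, nat_lit 6770, nat_lit 6774] (nat_lit 0) [nat_lit 26454] false,
   Spec.mk (nat_lit 6774) (nat_lit 2) [nat_lit 19896, nat_lit 2400, nat_lit 6936, nat_lit 6720, nat_lit 6792, nat_lit 6772] (nat_lit 0) [] false,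
   Spec.mk (nat_lit 6782) (nat_lit 0) [nat_lit 19904, nat_lit 2408, nat_lit 6944, nat_lit 6764, nat_lit 6788, nat_lit 6784] (nat_lit 0) [nat_lit 26464] false,
   Spec.mk (nat_lit 6784) (nat_lit 0) [nat_lit 19906, nat_lit 2410, nat_lit 6946, nat_lit 6766, nat_lit 6790, nat_lit 6782] (nat_lit 0) [nat_lit 26466] false,
   Spec.mk (nat_lit 6788) (nat_lit 0) [nat_lit 19910, nat_lit 2414, nat_lit 6950, nat_lit 6770, nat_lit 6782, nat_lit 6790] (nat_lit 0) [nat_lit 26470] false,
   Spec.mk (nat_lit 6790) (nat_lit 2) [nat_lit 19912, nat_lit 2416, nat_lit 6952, nat_lit 6772, nat_lit 6784, nat_lit 6796, nat_lit 6788, nat_lit 6792] (nat_lit 0) [nat_lit 26472] false,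
   Spec.mk (nat_lit 6792) (nat_lit 2) [nat_lit 19914, nat_lit 2418, nat_lit 6954, nat_lit 6774, nat_lit 6798, nat_lit 6790] (nat_lit 0) [] false,
   Spec.mk (nat_lit 6796) (nat_lit 2) [nat_lit 19918, nat_lit 2422, nat_lit 6958, nat_lit 6790, nat_lit 6798] (nat_lit 0) [nat_lit 26478] false,
   Spec.mk (nat_lit 6798) (nat_lit 4) [nat_lit 19920, nat_lit 2424, nat_lit 6960, nat_lit 6792, nat_lit 6796] (nat_lit 0) [] false,
   Spec.mk (nat_lit 6830) (nat_lit 2) [nat_lit 19952, nat_lit 2456, nat_lit 7316, nat_lit 6668, nat_lit 6848] (nat_lit 0) [nat_lit 26512] false,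
   Spec.mk (nat_lit 6848) (nat_lit 1) [nat_lit 19970, nat_lit 2474, nat_lit 7334, nat_lit 6686, nat_lit 6902, nat_lit 6830, nat_lit 6866, nat_lit 6854] (nat_lit 0) [nat_lit 26530] false,
   Spec.mk (nat_lit 6854) (nat_lit 0) [nat_lit 19976, nat_lit 2480, nat_lit 7340, nat_lit 6692, nat_lit 6908, nat_lit 6872, nat_lit 6848, nat_lit 6856] (nat_lit 0) [nat_lit 26536] false]

noncomputable def sp19 : List Spec :=
  [Spec.mk (nat_lit 6856) (nat_lit 2) [nat_lit 19978, nat_lit 2482, nat_lit 7342, nat_lit 6694, nat_lit 6910, nat_lit 6874, nat_lit 6854] (nat_lit 0) [nat_lit 26538] false,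
   Spec.mk (nat_lit 6866) (nat_lit 0) [nat_lit 19988, nat_lit 2492, nat_lit 7352, nat_lit 6704, nat_lit 6920, nat_lit 6848, nat_lit 6872] (nat_lit 2) [nat_lit 26548] false,
   Spec.mk (nat_lit 6872) (nat_lit 0) [nat_lit 19994, nat_lit 2498, nat_lit 7358, nat_lit 6710, nat_lit 6926, nat_lit 6854, nat_lit 6866, nat_lit 6878, nat_lit 6874] (nat_lit 1) [nat_lit 26554] false,
   Spec.mk (nat_lit 6874) (nat_lit 0) [nat_lit 19996, nat_lit 2500, nat_lit 7360, nat_lit 6712, nat_lit 6928, nat_lit 6856, nat_lit 6880, nat_lit 6872] (nat_lit 0) [nat_lit 26556] false,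
   Spec.mk (nat_lit 6878) (nat_lit 0) [nat_lit 20000, nat_lit 2504, nat_lit 7364, nat_lit 6716, nat_lit 6932, nat_lit 6872, nat_lit 6880] (nat_lit 2) [nat_lit 26560] false,
   Spec.mk (nat_lit 6880) (nat_lit 1) [nat_lit 20002, nat_lit 2506, nat_lit 7366, nat_lit 6718, nat_lit 6934, nat_lit 6874, nat_lit 6878, nat_lit 6882] (nat_lit 0) [nat_lit 26562] false,
   Spec.mk (nat_lit 6882) (nat_lit 2) [nat_lit 20004, nat_lit 2508, nat_lit 7368, nat_lit 6720, nat_lit 6936, nat_lit 6880] (nat_lit 0) [] false,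
   Spec.mk (nat_lit 6902) (nat_lit 1) [nat_lit 20024, nat_lit 2528, nat_lit 7388, nat_lit 6740, nat_lit 7064, nat_lit 6848, nat_lit 6920, nat_lit 6908] (nat_lit 0) [nat_lit 26584] false,
   Spec.mk (nat_lit 6908) (nat_lit 0) [nat_lit 20030, nat_lit 2534, nat_lit 7394, nat_lit 6746, nat_lit 7070, nat_lit 6854, nat_lit 6926, nat_lit 6902, nat_lit 6910] (nat_lit 1) [nat_lit 26590] false,
   Spec.mk (nat_lit 6910) (nat_lit 1) [nat_lit 20032, nat_lit 2536, nat_lit 7396, nat_lit 6748, nat_lit 7072, nat_lit 6856, nat_lit 6928, nat_lit 6908] (nat_lit 0) [nat_lit 26592] false,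
   Spec.mk (nat_lit 6920) (nat_lit 0) [nat_lit 20042, nat_lit 2546, nat_lit 7406, nat_lit 6758, nat_lit 7082, nat_lit 6866, nat_lit 6974, nat_lit 6902, nat_lit 6926] (nat_lit 0) [nat_lit 26602] false,
   Spec.mk (nat_lit 6926) (nat_lit 0) [nat_lit 20048, nat_lit 2552, nat_lit 7412, nat_lit 6764, nat_lit 7088, nat_lit 6872, nat_lit 6980, nat_lit 6908, nat_lit 6944, nat_lit 6920, nat_lit 6932, nat_lit 6928] (nat_lit 0) [nat_lit 26608] false,
   Spec.mk (nat_lit 6928) (nat_lit 1) [nat_lit 20050, nat_lit 2554, nat_lit 7414, nat_lit 6766, nat_lit 7090, nat_lit 6874, nat_lit 6982, nat_lit 6910, nat_lit 6946, nat_lit 6934, nat_lit 6926] (nat_lit 0) [nat_lit 26610] false,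
   Spec.mk (nat_lit 6932) (nat_lit 0) [nat_lit 20054, nat_lit 2558, nat_lit 7418, nat_lit 6770, nat_lit 7094, nat_lit 6878, nat_lit 6986, nat_lit 6950, nat_lit 6926, nat_lit 6934] (nat_lit 2) [nat_lit 26614] false,
   Spec.mk (nat_lit 6934) (nat_lit 1) [nat_lit 20056, nat_lit 2560, nat_lit 7420, nat_lit 6772, nat_lit 7096, nat_lit 6880, nat_lit 6988, nat_lit 6952, nat_lit 6928, nat_lit 6932, nat_lit 6936] (nat_lit 0) [nat_lit 26616] false,
   Spec.mk (nat_lit 6936) (nat_lit 2) [nat_lit 20058, nat_lit 2562, nat_lit 7422, nat_lit 6774, nat_lit 7098, nat_lit 6882, nat_lit 6990, nat_lit 6954, nat_lit 6934] (nat_lit 0) [] false,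
   Spec.mk (nat_lit 6944) (nat_lit 0) [nat_lit 20066, nat_lit 2570, nat_lit 7430, nat_lit 6782, nat_lit 7106, nat_lit 6998, nat_lit 6926, nat_lit 6950, nat_lit 6946] (nat_lit 1) [nat_lit 26626] false,
   Spec.mk (nat_lit 6946) (nat_lit 0) [nat_lit 20068, nat_lit 2572, nat_lit 7432, nat_lit 6784, nat_lit 7108, nat_lit 7000, nat_lit 6928, nat_lit 6952, nat_lit 6944] (nat_lit 1) [nat_lit 26628] false,
   Spec.mk (nat_lit 6950) (nat_lit 0) [nat_lit 20072, nat_lit 2576, nat_lit 7436, nat_lit 6788, nat_lit 7112, nat_lit 7004, nat_lit 6932, nat_lit 6944, nat_lit 6952] (nat_lit 1) [nat_lit 26632] false,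
   Spec.mk (nat_lit 6952) (nat_lit 1) [nat_lit 20074, nat_lit 2578, nat_lit 7438, nat_lit 6790, nat_lit 7114, nat_lit 7006, nat_lit 6934, nat_lit 6946, nat_lit 6958, nat_lit 6950, nat_lit 6954] (nat_lit 0) [nat_lit 26634] false,
   Spec.mk (nat_lit 6954) (nat_lit 1) [nat_lit 20076, nat_lit 2580, nat_lit 7440, nat_lit 6792, nat_lit 7116, nat_lit 7008, nat_lit 6936, nat_lit 6960, nat_lit 6952] (nat_lit 0) [] false,
   Spec.mk (nat_lit 6958) (nat_lit 1) [nat_lit 20080, nat_lit 2584, nat_lit 7444, nat_lit 6796, nat_lit 7120, nat_lit 7012, nat_lit 6952, nat_lit 6960] (nat_lit 0) [nat_lit 26640] false,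
   Spec.mk (nat_lit 6960) (nat_lit 3) [nat_lit 20082, nat_lit 2586, nat_lit 7446, nat_lit 6798, nat_lit 7122, nat_lit 7014, nat_lit 6954, nat_lit 6958] (nat_lit 0) [] false,
   Spec.mk (nat_lit 6974) (nat_lit 0) [nat_lit 20096, nat_lit 2600, nat_lit 7460, nat_lit 7136, nat_lit 6920, nat_lit 6980] (nat_lit 0) [nat_lit 26656] false,
   Spec.mk (nat_lit 6980) (nat_lit 0) [nat_lit 20102, nat_lit 2606, nat_lit 7466, nat_lit 7142, nat_lit 6926, nat_lit 6998, nat_lit 6974, nat_lit 6986, nat_lit 6982] (nat_lit 1) [nat_lit 26662] false,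
   Spec.mk (nat_lit 6982) (nat_lit 0) [nat_lit 20104, nat_lit 2608, nat_lit 7468, nat_lit 7144, nat_lit 6928, nat_lit 7000, nat_lit 6988, nat_lit 6980] (nat_lit 0) [nat_lit 26664] false,
   Spec.mk (nat_lit 6986) (nat_lit 0) [nat_lit 20108, nat_lit 2612, nat_lit 7472, nat_lit 7148, nat_lit 6932, nat_lit 7004, nat_lit 6980, nat_lit 6988] (nat_lit 4) [nat_lit 26668] false,
   Spec.mk (nat_lit 6988) (nat_lit 0) [nat_lit 20110, nat_lit 2614, nat_lit 7474, nat_lit 7150, nat_lit 6934, nat_lit 7006, nat_lit 6982, nat_lit 6986, nat_lit 6990] (nat_lit 1) [nat_lit 26670] false,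
   Spec.mk (nat_lit 6990) (nat_lit 0) [nat_lit 20112, nat_lit 2616, nat_lit 7476, nat_lit 7152, nat_lit 6936, nat_lit 7008, nat_lit 6988] (nat_lit 0) [] false,
   Spec.mk (nat_lit 6998) (nat_lit 0) [nat_lit 20120, nat_lit 2624, nat_lit 7484, nat_lit 7160, nat_lit 6944, nat_lit 6980, nat_lit 7004, nat_lit 7000] (nat_lit 0) [nat_lit 26680] false,
   Spec.mk (nat_lit 7000) (nat_lit 0) [nat_lit 20122, nat_lit 2626, nat_lit 7486, nat_lit 7162, nat_lit 6946, nat_lit 6982, nat_lit 7006, nat_lit 6998] (nat_lit 0) [nat_lit 26682] false,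
   Spec.mk (nat_lit 7004) (nat_lit 0) [nat_lit 20126, nat_lit 2630, nat_lit 7490, nat_lit 7166, nat_lit 6950, nat_lit 6986, nat_lit 7022, nat_lit 6998, nat_lit 7006] (nat_lit 1) [nat_lit 26686] false,
   Spec.mk (nat_lit 7006) (nat_lit 1) [nat_lit 20128, nat_lit 2632, nat_lit 7492, nat_lit 7168, nat_lit 6952, nat_lit 6988, nat_lit 7024, nat_lit 7000, nat_lit 7012, nat_lit 7004, nat_lit 7008] (nat_lit 0) [nat_lit 26688] false,
   Spec.mk (nat_lit 7008) (nat_lit 1) [nat_lit 20130, nat_lit 2634, nat_lit 7494, nat_lit 7170, nat_lit 6954, nat_lit 6990, nat_lit 7026, nat_lit 7014, nat_lit 7006] (nat_lit 0) [] false,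
   Spec.mk (nat_lit 7012) (nat_lit 0) [nat_lit 20134, nat_lit 2638, nat_lit 7498, nat_lit 7174, nat_lit 6958, nat_lit 7030, nat_lit 7006, nat_lit 7014] (nat_lit 0) [nat_lit 26694] false,
   Spec.mk (nat_lit 7014) (nat_lit 2) [nat_lit 20136, nat_lit 2640, nat_lit 7500, nat_lit 7176, nat_lit 6960, nat_lit 7032, nat_lit 7008, nat_lit 7012] (nat_lit 0) [] false,
   Spec.mk (nat_lit 7022) (nat_lit 0) [nat_lit 20144, nat_lit 2648, nat_lit 7508, nat_lit 7184, nat_lit 7004, nat_lit 7024] (nat_lit 0) [nat_lit 26704] false,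
   Spec.mk (nat_lit 7024) (nat_lit 1) [nat_lit 20146, nat_lit 2650, nat_lit 7510, nat_lit 7186, nat_lit 7006, nat_lit 7030, nat_lit 7022, nat_lit 7026] (nat_lit 0) [nat_lit 26706] false,
   Spec.mk (nat_lit 7026) (nat_lit 0) [nat_lit 20148, nat_lit 2652, nat_lit 7512, nat_lit 7188, nat_lit 7008, nat_lit 7032, nat_lit 7024] (nat_lit 0) [] false,
   Spec.mk (nat_lit 7030) (nat_lit 2) [nat_lit 20152, nat_lit 2656, nat_lit 7516, nat_lit 7192, nat_lit 7012, nat_lit 7024, nat_lit 7032] (nat_lit 0) [nat_lit 26712] false,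
   Spec.mk (nat_lit 7032) (nat_lit 3) [nat_lit 20154, nat_lit 2658, nat_lit 7518, nat_lit 7194, nat_lit 7014, nat_lit 7026, nat_lit 7038, nat_lit 7030] (nat_lit 0) [] false,
   Spec.mk (nat_lit 7038) (nat_lit 4) [nat_lit 20160, nat_lit 2664, nat_lit 7524, nat_lit 7200, nat_lit 7032] (nat_lit 0) [] false,
   Spec.mk (nat_lit 7064) (nat_lit 0) [nat_lit 20186, nat_lit 2690, nat_lit 7550, nat_lit 6902, nat_lit 7082, nat_lit 7070] (nat_lit 0) [nat_lit 26746] false,
   Spec.mk (nat_lit 7070) (nat_lit 0) [nat_lit 20192, nat_lit 2696, nat_lit 7556, nat_lit 6908, nat_lit 7088, nat_lit 7064, nat_lit 7072] (nat_lit 2) [nat_lit 26752] false,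
   Spec.mk (nat_lit 7072) (nat_lit 0) [nat_lit 20194, nat_lit 2698, nat_lit 7558, nat_lit 6910, nat_lit 7090, nat_lit 7070] (nat_lit 0) [nat_lit 26754] false,
   Spec.mk (nat_lit 7082) (nat_lit 0) [nat_lit 20204, nat_lit 2708, nat_lit 7568, nat_lit 6920, nat_lit 7136, nat_lit 7064, nat_lit 7088] (nat_lit 2) [nat_lit 26764] false,
   Spec.mk (nat_lit 7088) (nat_lit 0) [nat_lit 20210, nat_lit 2714, nat_lit 7574, nat_lit 6926, nat_lit 7142, nat_lit 7070, nat_lit 7106, nat_lit 7082, nat_lit 7094, nat_lit 7090] (nat_lit 2) [nat_lit 26770] false,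
   Spec.mk (nat_lit 7090) (nat_lit 0) [nat_lit 20212, nat_lit 2716, nat_lit 7576, nat_lit 6928, nat_lit 7144, nat_lit 7072, nat_lit 7108, nat_lit 7096, nat_lit 7088] (nat_lit 1) [nat_lit 26772] false,
   Spec.mk (nat_lit 7094) (nat_lit 0) [nat_lit 20216, nat_lit 2720, nat_lit 7580, nat_lit 6932, nat_lit 7148, nat_lit 7112, nat_lit 7088, nat_lit 7096] (nat_lit 4) [nat_lit 26776] false,
   Spec.mk (nat_lit 7096) (nat_lit 0) [nat_lit 20218, nat_lit 2722, nat_lit 7582, nat_lit 6934, nat_lit 7150, nat_lit 7114, nat_lit 7090, nat_lit 7094, nat_lit 7098] (nat_lit 1) [nat_lit 26778] false,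
   Spec.mk (nat_lit 7098) (nat_lit 0) [nat_lit 20220, nat_lit 2724, nat_lit 7584, nat_lit 6936, nat_lit 7152, nat_lit 7116, nat_lit 7096] (nat_lit 0) [] false,
   Spec.mk (nat_lit 7106) (nat_lit 0) [nat_lit 20228, nat_lit 2732, nat_lit 7592, nat_lit 6944, nat_lit 7160, nat_lit 7088, nat_lit 7112, nat_lit 7108] (nat_lit 4) [nat_lit 26788] false,
   Spec.mk (nat_lit 7108) (nat_lit 0) [nat_lit 20230, nat_lit 2734, nat_lit 7594, nat_lit 6946, nat_lit 7162, nat_lit 7090, nat_lit 7114, nat_lit 7106] (nat_lit 4) [nat_lit 26790] false,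
   Spec.mk (nat_lit 7112) (nat_lit 0) [nat_lit 20234, nat_lit 2738, nat_lit 7598, nat_lit 6950, nat_lit 7166, nat_lit 7094, nat_lit 7106, nat_lit 7114] (nat_lit 4) [nat_lit 26794] false,
   Spec.mk (nat_lit 7114) (nat_lit 0) [nat_lit 20236, nat_lit 2740, nat_lit 7600, nat_lit 6952, nat_lit 7168, nat_lit 7096, nat_lit 7108, nat_lit 7120, nat_lit 7112, nat_lit 7116] (nat_lit 2) [nat_lit 26796] false,
   Spec.mk (nat_lit 7116) (nat_lit 0) [nat_lit 20238, nat_lit 2742, nat_lit 7602, nat_lit 6954, nat_lit 7170, nat_lit 7098, nat_lit 7122, nat_lit 7114] (nat_lit 2) [] false,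
   Spec.mk (nat_lit 7120) (nat_lit 0) [nat_lit 20242, nat_lit 2746, nat_lit 7606, nat_lit 6958, nat_lit 7174, nat_lit 7114, nat_lit 7122] (nat_lit 2) [nat_lit 26802] false,
   Spec.mk (nat_lit 7122) (nat_lit 0) [nat_lit 20244, nat_lit 2748, nat_lit 7608, nat_lit 6960, nat_lit 7176, nat_lit 7116, nat_lit 7120] (nat_lit 0) [] false,
   Spec.mk (nat_lit 7136) (nat_lit 0) [nat_lit 20258, nat_lit 2762, nat_lit 7622, nat_lit 6974, nat_lit 7082, nat_lit 7142] (nat_lit 0) [nat_lit 26818] false,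
   Spec.mk (nat_lit 7142) (nat_lit 0) [nat_lit 20264, nat_lit 2768, nat_lit 7628, nat_lit 6980, nat_lit 7088, nat_lit 7160, nat_lit 7136, nat_lit 7148, nat_lit 7144] (nat_lit 1) [nat_lit 26824] false]

noncomputable def sp20 : List Spec :=
  [Spec.mk (nat_lit 7144) (nat_lit 0) [nat_lit 20266, nat_lit 2770, nat_lit 7630, nat_lit 6982, nat_lit 7090, nat_lit 7162, nat_lit 7150, nat_lit 7142] (nat_lit 0) [nat_lit 26826] false,
   Spec.mk (nat_lit 7148) (nat_lit 0) [nat_lit 20270, nat_lit 2774, nat_lit 7634, nat_lit 6986, nat_lit 7094, nat_lit 7166, nat_lit 7142, nat_lit 7150] (nat_lit 4) [nat_lit 26830] false,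
   Spec.mk (nat_lit 7150) (nat_lit 0) [nat_lit 20272, nat_lit 2776, nat_lit 7636, nat_lit 6988, nat_lit 7096, nat_lit 7168, nat_lit 7144, nat_lit 7148, nat_lit 7152] (nat_lit 1) [nat_lit 26832] false,
   Spec.mk (nat_lit 7152) (nat_lit 0) [nat_lit 20274, nat_lit 2778, nat_lit 7638, nat_lit 6990, nat_lit 7098, nat_lit 7170, nat_lit 7150] (nat_lit 0) [] false,
   Spec.mk (nat_lit 7160) (nat_lit 0) [nat_lit 20282, nat_lit 2786, nat_lit 7646, nat_lit 6998, nat_lit 7106, nat_lit 7214, nat_lit 7142, nat_lit 7166, nat_lit 7162] (nat_lit 1) [nat_lit 26842] false,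
   Spec.mk (nat_lit 7162) (nat_lit 0) [nat_lit 20284, nat_lit 2788, nat_lit 7648, nat_lit 7000, nat_lit 7108, nat_lit 7216, nat_lit 7144, nat_lit 7168, nat_lit 7160] (nat_lit 1) [nat_lit 26844] false,
   Spec.mk (nat_lit 7166) (nat_lit 0) [nat_lit 20288, nat_lit 2792, nat_lit 7652, nat_lit 7004, nat_lit 7112, nat_lit 7220, nat_lit 7148, nat_lit 7184, nat_lit 7160, nat_lit 7168] (nat_lit 2) [nat_lit 26848] false,
   Spec.mk (nat_lit 7168) (nat_lit 0) [nat_lit 20290, nat_lit 2794, nat_lit 7654, nat_lit 7006, nat_lit 7114, nat_lit 7222, nat_lit 7150, nat_lit 7186, nat_lit 7162, nat_lit 7174, nat_lit 7166, nat_lit 7170] (nat_lit 0) [nat_lit 26850] false,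
   Spec.mk (nat_lit 7170) (nat_lit 0) [nat_lit 20292, nat_lit 2796, nat_lit 7656, nat_lit 7008, nat_lit 7116, nat_lit 7224, nat_lit 7152, nat_lit 7188, nat_lit 7176, nat_lit 7168] (nat_lit 0) [] false,
   Spec.mk (nat_lit 7174) (nat_lit 0) [nat_lit 20296, nat_lit 2800, nat_lit 7660, nat_lit 7012, nat_lit 7120, nat_lit 7228, nat_lit 7192, nat_lit 7168, nat_lit 7176] (nat_lit 1) [nat_lit 26856] false,
   Spec.mk (nat_lit 7176) (nat_lit 1) [nat_lit 20298, nat_lit 2802, nat_lit 7662, nat_lit 7014, nat_lit 7122, nat_lit 7230, nat_lit 7194, nat_lit 7170, nat_lit 7174] (nat_lit 0) [] false,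
   Spec.mk (nat_lit 7184) (nat_lit 0) [nat_lit 20306, nat_lit 2810, nat_lit 7670, nat_lit 7022, nat_lit 7238, nat_lit 7166, nat_lit 7186] (nat_lit 2) [nat_lit 26866] false,
   Spec.mk (nat_lit 7186) (nat_lit 0) [nat_lit 20308, nat_lit 2812, nat_lit 7672, nat_lit 7024, nat_lit 7240, nat_lit 7168, nat_lit 7192, nat_lit 7184, nat_lit 7188] (nat_lit 1) [nat_lit 26868] false,
   Spec.mk (nat_lit 7188) (nat_lit 0) [nat_lit 20310, nat_lit 2814, nat_lit 7674, nat_lit 7026, nat_lit 7242, nat_lit 7170, nat_lit 7194, nat_lit 7186] (nat_lit 2) [] false,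
   Spec.mk (nat_lit 7192) (nat_lit 0) [nat_lit 20314, nat_lit 2818, nat_lit 7678, nat_lit 7030, nat_lit 7246, nat_lit 7174, nat_lit 7186, nat_lit 7194] (nat_lit 0) [nat_lit 26874] false,
   Spec.mk (nat_lit 7194) (nat_lit 1) [nat_lit 20316, nat_lit 2820, nat_lit 7680, nat_lit 7032, nat_lit 7248, nat_lit 7176, nat_lit 7188, nat_lit 7200, nat_lit 7192] (nat_lit 0) [] false,
   Spec.mk (nat_lit 7200) (nat_lit 2) [nat_lit 20322, nat_lit 2826, nat_lit 7686, nat_lit 7038, nat_lit 7254, nat_lit 7194] (nat_lit 0) [] false,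
   Spec.mk (nat_lit 7214) (nat_lit 0) [nat_lit 20336, nat_lit 2840, nat_lit 7700, nat_lit 7160, nat_lit 7220, nat_lit 7216] (nat_lit 0) [nat_lit 26896] false,
   Spec.mk (nat_lit 7216) (nat_lit 0) [nat_lit 20338, nat_lit 2842, nat_lit 7702, nat_lit 7162, nat_lit 7222, nat_lit 7214] (nat_lit 0) [nat_lit 26898] false,
   Spec.mk (nat_lit 7220) (nat_lit 0) [nat_lit 20342, nat_lit 2846, nat_lit 7706, nat_lit 7166, nat_lit 7238, nat_lit 7214, nat_lit 7222] (nat_lit 2) [nat_lit 26902] false,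
   Spec.mk (nat_lit 7222) (nat_lit 0) [nat_lit 20344, nat_lit 2848, nat_lit 7708, nat_lit 7168, nat_lit 7240, nat_lit 7216, nat_lit 7228, nat_lit 7220, nat_lit 7224] (nat_lit 0) [nat_lit 26904] false,
   Spec.mk (nat_lit 7224) (nat_lit 0) [nat_lit 20346, nat_lit 2850, nat_lit 7710, nat_lit 7170, nat_lit 7242, nat_lit 7230, nat_lit 7222] (nat_lit 0) [] false,
   Spec.mk (nat_lit 7228) (nat_lit 0) [nat_lit 20350, nat_lit 2854, nat_lit 7714, nat_lit 7174, nat_lit 7246, nat_lit 7222, nat_lit 7230] (nat_lit 2) [nat_lit 26910] false,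
   Spec.mk (nat_lit 7230) (nat_lit 0) [nat_lit 20352, nat_lit 2856, nat_lit 7716, nat_lit 7176, nat_lit 7248, nat_lit 7224, nat_lit 7228] (nat_lit 0) [] false,
   Spec.mk (nat_lit 7238) (nat_lit 0) [nat_lit 20360, nat_lit 2864, nat_lit 7724, nat_lit 7184, nat_lit 7220, nat_lit 7240] (nat_lit 0) [nat_lit 26920] false,
   Spec.mk (nat_lit 7240) (nat_lit 1) [nat_lit 20362, nat_lit 2866, nat_lit 7726, nat_lit 7186, nat_lit 7222, nat_lit 7246, nat_lit 7238, nat_lit 7242] (nat_lit 0) [nat_lit 26922] false,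
   Spec.mk (nat_lit 7242) (nat_lit 0) [nat_lit 20364, nat_lit 2868, nat_lit 7728, nat_lit 7188, nat_lit 7224, nat_lit 7248, nat_lit 7240] (nat_lit 0) [] false,
   Spec.mk (nat_lit 7246) (nat_lit 1) [nat_lit 20368, nat_lit 2872, nat_lit 7732, nat_lit 7192, nat_lit 7228, nat_lit 7264, nat_lit 7240, nat_lit 7248] (nat_lit 0) [nat_lit 26928] false,
   Spec.mk (nat_lit 7248) (nat_lit 2) [nat_lit 20370, nat_lit 2874, nat_lit 7734, nat_lit 7194, nat_lit 7230, nat_lit 7266, nat_lit 7242, nat_lit 7254, nat_lit 7246] (nat_lit 0) [] false,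
   Spec.mk (nat_lit 7254) (nat_lit 2) [nat_lit 20376, nat_lit 2880, nat_lit 7740, nat_lit 7200, nat_lit 7272, nat_lit 7248] (nat_lit 0) [] false,
   Spec.mk (nat_lit 7264) (nat_lit 2) [nat_lit 20386, nat_lit 2890, nat_lit 7750, nat_lit 7246, nat_lit 7266] (nat_lit 0) [nat_lit 26946] false,
   Spec.mk (nat_lit 7266) (nat_lit 2) [nat_lit 20388, nat_lit 2892, nat_lit 7752, nat_lit 7248, nat_lit 7272, nat_lit 7264] (nat_lit 0) [] false,
   Spec.mk (nat_lit 7272) (nat_lit 4) [nat_lit 20394, nat_lit 2898, nat_lit 7758, nat_lit 7254, nat_lit 7266] (nat_lit 0) [] false,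
   Spec.mk (nat_lit 7316) (nat_lit 2) [nat_lit 20438, nat_lit 2942, nat_lit 8774, nat_lit 6830, nat_lit 7334] (nat_lit 0) [nat_lit 26998] false,
   Spec.mk (nat_lit 7334) (nat_lit 1) [nat_lit 20456, nat_lit 2960, nat_lit 8792, nat_lit 6848, nat_lit 7388, nat_lit 7316, nat_lit 7352, nat_lit 7340] (nat_lit 0) [nat_lit 27016] false,
   Spec.mk (nat_lit 7340) (nat_lit 0) [nat_lit 20462, nat_lit 2966, nat_lit 8798, nat_lit 6854, nat_lit 7394, nat_lit 7358, nat_lit 7334, nat_lit 7342] (nat_lit 0) [nat_lit 27022] false,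
   Spec.mk (nat_lit 7342) (nat_lit 2) [nat_lit 20464, nat_lit 2968, nat_lit 8800, nat_lit 6856, nat_lit 7396, nat_lit 7360, nat_lit 7340] (nat_lit 0) [nat_lit 27024] false,
   Spec.mk (nat_lit 7352) (nat_lit 0) [nat_lit 20474, nat_lit 2978, nat_lit 8810, nat_lit 6866, nat_lit 7406, nat_lit 7334, nat_lit 7358] (nat_lit 2) [nat_lit 27034] false,
   Spec.mk (nat_lit 7358) (nat_lit 0) [nat_lit 20480, nat_lit 2984, nat_lit 8816, nat_lit 6872, nat_lit 7412, nat_lit 7340, nat_lit 7352, nat_lit 7364, nat_lit 7360] (nat_lit 1) [nat_lit 27040] false,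
   Spec.mk (nat_lit 7360) (nat_lit 0) [nat_lit 20482, nat_lit 2986, nat_lit 8818, nat_lit 6874, nat_lit 7414, nat_lit 7342, nat_lit 7366, nat_lit 7358] (nat_lit 0) [nat_lit 27042] false,
   Spec.mk (nat_lit 7364) (nat_lit 0) [nat_lit 20486, nat_lit 2990, nat_lit 8822, nat_lit 6878, nat_lit 7418, nat_lit 7358, nat_lit 7366] (nat_lit 2) [nat_lit 27046] false,
   Spec.mk (nat_lit 7366) (nat_lit 1) [nat_lit 20488, nat_lit 2992, nat_lit 8824, nat_lit 6880, nat_lit 7420, nat_lit 7360, nat_lit 7364, nat_lit 7368] (nat_lit 0) [nat_lit 27048] false,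
   Spec.mk (nat_lit 7368) (nat_lit 2) [nat_lit 20490, nat_lit 2994, nat_lit 8826, nat_lit 6882, nat_lit 7422, nat_lit 7366] (nat_lit 0) [] false,
   Spec.mk (nat_lit 7388) (nat_lit 0) [nat_lit 20510, nat_lit 3014, nat_lit 8846, nat_lit 6902, nat_lit 7550, nat_lit 7334, nat_lit 7406, nat_lit 7394] (nat_lit 0) [nat_lit 27070] true,
   Spec.mk (nat_lit 7394) (nat_lit 0) [nat_lit 20516, nat_lit 3020, nat_lit 8852, nat_lit 6908, nat_lit 7556, nat_lit 7340, nat_lit 7412, nat_lit 7388, nat_lit 7396] (nat_lit 2) [nat_lit 27076] true,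
   Spec.mk (nat_lit 7396) (nat_lit 0) [nat_lit 20518, nat_lit 3022, nat_lit 8854, nat_lit 6910, nat_lit 7558, nat_lit 7342, nat_lit 7414, nat_lit 7394] (nat_lit 0) [nat_lit 27078] false,
   Spec.mk (nat_lit 7406) (nat_lit 0) [nat_lit 20528, nat_lit 3032, nat_lit 8864, nat_lit 6920, nat_lit 7568, nat_lit 7352, nat_lit 7460, nat_lit 7388, nat_lit 7412] (nat_lit 1) [nat_lit 27088] true,
   Spec.mk (nat_lit 7412) (nat_lit 0) [nat_lit 20534, nat_lit 3038, nat_lit 8870, nat_lit 6926, nat_lit 7574, nat_lit 7358, nat_lit 7466, nat_lit 7394, nat_lit 7430, nat_lit 7406, nat_lit 7418, nat_lit 7414] (nat_lit 1) [nat_lit 27094] true,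
   Spec.mk (nat_lit 7414) (nat_lit 0) [nat_lit 20536, nat_lit 3040, nat_lit 8872, nat_lit 6928, nat_lit 7576, nat_lit 7360, nat_lit 7468, nat_lit 7396, nat_lit 7432, nat_lit 7420, nat_lit 7412] (nat_lit 0) [nat_lit 27096] true,
   Spec.mk (nat_lit 7418) (nat_lit 0) [nat_lit 20540, nat_lit 3044, nat_lit 8876, nat_lit 6932, nat_lit 7580, nat_lit 7364, nat_lit 7472, nat_lit 7436, nat_lit 7412, nat_lit 7420] (nat_lit 3) [nat_lit 27100] true,
   Spec.mk (nat_lit 7420) (nat_lit 0) [nat_lit 20542, nat_lit 3046, nat_lit 8878, nat_lit 6934, nat_lit 7582, nat_lit 7366, nat_lit 7474, nat_lit 7438, nat_lit 7414, nat_lit 7418, nat_lit 7422] (nat_lit 0) [nat_lit 27102] true,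
   Spec.mk (nat_lit 7422) (nat_lit 1) [nat_lit 20544, nat_lit 3048, nat_lit 8880, nat_lit 6936, nat_lit 7584, nat_lit 7368, nat_lit 7476, nat_lit 7440, nat_lit 7420] (nat_lit 0) [] false,
   Spec.mk (nat_lit 7430) (nat_lit 0) [nat_lit 20552, nat_lit 3056, nat_lit 8888, nat_lit 6944, nat_lit 7592, nat_lit 7484, nat_lit 7412, nat_lit 7436, nat_lit 7432] (nat_lit 2) [nat_lit 27112] true,
   Spec.mk (nat_lit 7432) (nat_lit 0) [nat_lit 20554, nat_lit 3058, nat_lit 8890, nat_lit 6946, nat_lit 7594, nat_lit 7486, nat_lit 7414, nat_lit 7438, nat_lit 7430] (nat_lit 2) [nat_lit 27114] true,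
   Spec.mk (nat_lit 7436) (nat_lit 0) [nat_lit 20558, nat_lit 3062, nat_lit 8894, nat_lit 6950, nat_lit 7598, nat_lit 7490, nat_lit 7418, nat_lit 7430, nat_lit 7438] (nat_lit 2) [nat_lit 27118] true,
   Spec.mk (nat_lit 7438) (nat_lit 0) [nat_lit 20560, nat_lit 3064, nat_lit 8896, nat_lit 6952, nat_lit 7600, nat_lit 7492, nat_lit 7420, nat_lit 7432, nat_lit 7444, nat_lit 7436, nat_lit 7440] (nat_lit 0) [nat_lit 27120] false,
   Spec.mk (nat_lit 7440) (nat_lit 0) [nat_lit 20562, nat_lit 3066, nat_lit 8898, nat_lit 6954, nat_lit 7602, nat_lit 7494, nat_lit 7422, nat_lit 7446, nat_lit 7438] (nat_lit 0) [] false,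
   Spec.mk (nat_lit 7444) (nat_lit 0) [nat_lit 20566, nat_lit 3070, nat_lit 8902, nat_lit 6958, nat_lit 7606, nat_lit 7498, nat_lit 7438, nat_lit 7446] (nat_lit 0) [nat_lit 27126] false,
   Spec.mk (nat_lit 7446) (nat_lit 2) [nat_lit 20568, nat_lit 3072, nat_lit 8904, nat_lit 6960, nat_lit 7608, nat_lit 7500, nat_lit 7440, nat_lit 7444] (nat_lit 0) [] false,
   Spec.mk (nat_lit 7460) (nat_lit 0) [nat_lit 20582, nat_lit 3086, nat_lit 8918, nat_lit 6974, nat_lit 7622, nat_lit 7406, nat_lit 7466] (nat_lit 2) [nat_lit 27142] false]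

noncomputable def sp21 : List Spec :=
  [Spec.mk (nat_lit 7466) (nat_lit 0) [nat_lit 20588, nat_lit 3092, nat_lit 8924, nat_lit 6980, nat_lit 7628, nat_lit 7412, nat_lit 7484, nat_lit 7460, nat_lit 7472, nat_lit 7468] (nat_lit 3) [nat_lit 27148] true,
   Spec.mk (nat_lit 7468) (nat_lit 0) [nat_lit 20590, nat_lit 3094, nat_lit 8926, nat_lit 6982, nat_lit 7630, nat_lit 7414, nat_lit 7486, nat_lit 7474, nat_lit 7466] (nat_lit 2) [nat_lit 27150] false,
   Spec.mk (nat_lit 7472) (nat_lit 0) [nat_lit 20594, nat_lit 3098, nat_lit 8930, nat_lit 6986, nat_lit 7634, nat_lit 7418, nat_lit 7490, nat_lit 7466, nat_lit 7474] (nat_lit 6) [nat_lit 27154] true,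
   Spec.mk (nat_lit 7474) (nat_lit 0) [nat_lit 20596, nat_lit 3100, nat_lit 8932, nat_lit 6988, nat_lit 7636, nat_lit 7420, nat_lit 7492, nat_lit 7468, nat_lit 7472, nat_lit 7476] (nat_lit 3) [nat_lit 27156] false,
   Spec.mk (nat_lit 7476) (nat_lit 0) [nat_lit 20598, nat_lit 3102, nat_lit 8934, nat_lit 6990, nat_lit 7638, nat_lit 7422, nat_lit 7494, nat_lit 7474] (nat_lit 2) [] false,
   Spec.mk (nat_lit 7484) (nat_lit 0) [nat_lit 20606, nat_lit 3110, nat_lit 8942, nat_lit 6998, nat_lit 7646, nat_lit 7430, nat_lit 7466, nat_lit 7490, nat_lit 7486] (nat_lit 2) [nat_lit 27166] true,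
   Spec.mk (nat_lit 7486) (nat_lit 0) [nat_lit 20608, nat_lit 3112, nat_lit 8944, nat_lit 7000, nat_lit 7648, nat_lit 7432, nat_lit 7468, nat_lit 7492, nat_lit 7484] (nat_lit 2) [nat_lit 27168] false,
   Spec.mk (nat_lit 7490) (nat_lit 0) [nat_lit 20612, nat_lit 3116, nat_lit 8948, nat_lit 7004, nat_lit 7652, nat_lit 7436, nat_lit 7472, nat_lit 7508, nat_lit 7484, nat_lit 7492] (nat_lit 3) [nat_lit 27172] false,
   Spec.mk (nat_lit 7492) (nat_lit 0) [nat_lit 20614, nat_lit 3118, nat_lit 8950, nat_lit 7006, nat_lit 7654, nat_lit 7438, nat_lit 7474, nat_lit 7510, nat_lit 7486, nat_lit 7498, nat_lit 7490, nat_lit 7494] (nat_lit 1) [nat_lit 27174] false,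
   Spec.mk (nat_lit 7494) (nat_lit 0) [nat_lit 20616, nat_lit 3120, nat_lit 8952, nat_lit 7008, nat_lit 7656, nat_lit 7440, nat_lit 7476, nat_lit 7512, nat_lit 7500, nat_lit 7492] (nat_lit 1) [] false,
   Spec.mk (nat_lit 7498) (nat_lit 0) [nat_lit 20620, nat_lit 3124, nat_lit 8956, nat_lit 7012, nat_lit 7660, nat_lit 7444, nat_lit 7516, nat_lit 7492, nat_lit 7500] (nat_lit 2) [nat_lit 27180] false,
   Spec.mk (nat_lit 7500) (nat_lit 0) [nat_lit 20622, nat_lit 3126, nat_lit 8958, nat_lit 7014, nat_lit 7662, nat_lit 7446, nat_lit 7518, nat_lit 7494, nat_lit 7498] (nat_lit 0) [] false,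
   Spec.mk (nat_lit 7508) (nat_lit 0) [nat_lit 20630, nat_lit 3134, nat_lit 8966, nat_lit 7022, nat_lit 7670, nat_lit 7490, nat_lit 7510] (nat_lit 2) [nat_lit 27190] false,
   Spec.mk (nat_lit 7510) (nat_lit 0) [nat_lit 20632, nat_lit 3136, nat_lit 8968, nat_lit 7024, nat_lit 7672, nat_lit 7492, nat_lit 7516, nat_lit 7508, nat_lit 7512] (nat_lit 1) [nat_lit 27192] false,
   Spec.mk (nat_lit 7512) (nat_lit 0) [nat_lit 20634, nat_lit 3138, nat_lit 8970, nat_lit 7026, nat_lit 7674, nat_lit 7494, nat_lit 7518, nat_lit 7510] (nat_lit 2) [] false,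
   Spec.mk (nat_lit 7516) (nat_lit 0) [nat_lit 20638, nat_lit 3142, nat_lit 8974, nat_lit 7030, nat_lit 7678, nat_lit 7498, nat_lit 7510, nat_lit 7518] (nat_lit 0) [nat_lit 27198] false,
   Spec.mk (nat_lit 7518) (nat_lit 1) [nat_lit 20640, nat_lit 3144, nat_lit 8976, nat_lit 7032, nat_lit 7680, nat_lit 7500, nat_lit 7512, nat_lit 7524, nat_lit 7516] (nat_lit 0) [] false,
   Spec.mk (nat_lit 7524) (nat_lit 2) [nat_lit 20646, nat_lit 3150, nat_lit 8982, nat_lit 7038, nat_lit 7686, nat_lit 7518] (nat_lit 0) [] false,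
   Spec.mk (nat_lit 7550) (nat_lit 1) [nat_lit 20672, nat_lit 3176, nat_lit 9008, nat_lit 7064, nat_lit 8036, nat_lit 7388, nat_lit 7568, nat_lit 7556] (nat_lit 0) [nat_lit 27232] false,
   Spec.mk (nat_lit 7556) (nat_lit 0) [nat_lit 20678, nat_lit 3182, nat_lit 9014, nat_lit 7070, nat_lit 8042, nat_lit 7394, nat_lit 7574, nat_lit 7550, nat_lit 7558] (nat_lit 1) [nat_lit 27238] false,
   Spec.mk (nat_lit 7558) (nat_lit 1) [nat_lit 20680, nat_lit 3184, nat_lit 9016, nat_lit 7072, nat_lit 8044, nat_lit 7396, nat_lit 7576, nat_lit 7556] (nat_lit 0) [nat_lit 27240] false,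
   Spec.mk (nat_lit 7568) (nat_lit 0) [nat_lit 20690, nat_lit 3194, nat_lit 9026, nat_lit 7082, nat_lit 8054, nat_lit 7406, nat_lit 7622, nat_lit 7550, nat_lit 7574] (nat_lit 1) [nat_lit 27250] true,
   Spec.mk (nat_lit 7574) (nat_lit 0) [nat_lit 20696, nat_lit 3200, nat_lit 9032, nat_lit 7088, nat_lit 8060, nat_lit 7412, nat_lit 7628, nat_lit 7556, nat_lit 7592, nat_lit 7568, nat_lit 7580, nat_lit 7576] (nat_lit 1) [nat_lit 27256] true,
   Spec.mk (nat_lit 7576) (nat_lit 0) [nat_lit 20698, nat_lit 3202, nat_lit 9034, nat_lit 7090, nat_lit 8062, nat_lit 7414, nat_lit 7630, nat_lit 7558, nat_lit 7594, nat_lit 7582, nat_lit 7574] (nat_lit 0) [nat_lit 27258] true,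
   Spec.mk (nat_lit 7580) (nat_lit 0) [nat_lit 20702, nat_lit 3206, nat_lit 9038, nat_lit 7094, nat_lit 8066, nat_lit 7418, nat_lit 7634, nat_lit 7598, nat_lit 7574, nat_lit 7582] (nat_lit 3) [nat_lit 27262] true,
   Spec.mk (nat_lit 7582) (nat_lit 0) [nat_lit 20704, nat_lit 3208, nat_lit 9040, nat_lit 7096, nat_lit 8068, nat_lit 7420, nat_lit 7636, nat_lit 7600, nat_lit 7576, nat_lit 7580, nat_lit 7584] (nat_lit 0) [nat_lit 27264] true,
   Spec.mk (nat_lit 7584) (nat_lit 1) [nat_lit 20706, nat_lit 3210, nat_lit 9042, nat_lit 7098, nat_lit 8070, nat_lit 7422, nat_lit 7638, nat_lit 7602, nat_lit 7582] (nat_lit 0) [] false,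
   Spec.mk (nat_lit 7592) (nat_lit 0) [nat_lit 20714, nat_lit 3218, nat_lit 9050, nat_lit 7106, nat_lit 8078, nat_lit 7430, nat_lit 7646, nat_lit 7574, nat_lit 7598, nat_lit 7594] (nat_lit 3) [nat_lit 27274] true,
   Spec.mk (nat_lit 7594) (nat_lit 0) [nat_lit 20716, nat_lit 3220, nat_lit 9052, nat_lit 7108, nat_lit 8080, nat_lit 7432, nat_lit 7648, nat_lit 7576, nat_lit 7600, nat_lit 7592] (nat_lit 3) [nat_lit 27276] true,
   Spec.mk (nat_lit 7598) (nat_lit 0) [nat_lit 20720, nat_lit 3224, nat_lit 9056, nat_lit 7112, nat_lit 8084, nat_lit 7436, nat_lit 7652, nat_lit 7580, nat_lit 7592, nat_lit 7600] (nat_lit 3) [nat_lit 27280] true,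
   Spec.mk (nat_lit 7600) (nat_lit 0) [nat_lit 20722, nat_lit 3226, nat_lit 9058, nat_lit 7114, nat_lit 8086, nat_lit 7438, nat_lit 7654, nat_lit 7582, nat_lit 7594, nat_lit 7606, nat_lit 7598, nat_lit 7602] (nat_lit 1) [nat_lit 27282] true,
   Spec.mk (nat_lit 7602) (nat_lit 0) [nat_lit 20724, nat_lit 3228, nat_lit 9060, nat_lit 7116, nat_lit 8088, nat_lit 7440, nat_lit 7656, nat_lit 7584, nat_lit 7608, nat_lit 7600] (nat_lit 1) [] false,
   Spec.mk (nat_lit 7606) (nat_lit 0) [nat_lit 20728, nat_lit 3232, nat_lit 9064, nat_lit 7120, nat_lit 8092, nat_lit 7444, nat_lit 7660, nat_lit 7600, nat_lit 7608] (nat_lit 1) [nat_lit 27288] false,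
   Spec.mk (nat_lit 7608) (nat_lit 1) [nat_lit 20730, nat_lit 3234, nat_lit 9066, nat_lit 7122, nat_lit 8094, nat_lit 7446, nat_lit 7662, nat_lit 7602, nat_lit 7606] (nat_lit 0) [] false,
   Spec.mk (nat_lit 7622) (nat_lit 0) [nat_lit 20744, nat_lit 3248, nat_lit 9080, nat_lit 7136, nat_lit 8108, nat_lit 7460, nat_lit 7784, nat_lit 7568, nat_lit 7628] (nat_lit 0) [nat_lit 27304] false,
   Spec.mk (nat_lit 7628) (nat_lit 0) [nat_lit 20750, nat_lit 3254, nat_lit 9086, nat_lit 7142, nat_lit 8114, nat_lit 7466, nat_lit 7790, nat_lit 7574, nat_lit 7646, nat_lit 7622, nat_lit 7634, nat_lit 7630] (nat_lit 1) [nat_lit 27310] true,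
   Spec.mk (nat_lit 7630) (nat_lit 0) [nat_lit 20752, nat_lit 3256, nat_lit 9088, nat_lit 7144, nat_lit 8116, nat_lit 7468, nat_lit 7792, nat_lit 7576, nat_lit 7648, nat_lit 7636, nat_lit 7628] (nat_lit 0) [nat_lit 27312] true,
   Spec.mk (nat_lit 7634) (nat_lit 0) [nat_lit 20756, nat_lit 3260, nat_lit 9092, nat_lit 7148, nat_lit 8120, nat_lit 7472, nat_lit 7796, nat_lit 7580, nat_lit 7652, nat_lit 7628, nat_lit 7636] (nat_lit 4) [nat_lit 27316] true,
   Spec.mk (nat_lit 7636) (nat_lit 0) [nat_lit 20758, nat_lit 3262, nat_lit 9094, nat_lit 7150, nat_lit 8122, nat_lit 7474, nat_lit 7798, nat_lit 7582, nat_lit 7654, nat_lit 7630, nat_lit 7634, nat_lit 7638] (nat_lit 1) [nat_lit 27318] true,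
   Spec.mk (nat_lit 7638) (nat_lit 0) [nat_lit 20760, nat_lit 3264, nat_lit 9096, nat_lit 7152, nat_lit 8124, nat_lit 7476, nat_lit 7800, nat_lit 7584, nat_lit 7656, nat_lit 7636] (nat_lit 0) [] false,
   Spec.mk (nat_lit 7646) (nat_lit 0) [nat_lit 20768, nat_lit 3272, nat_lit 9104, nat_lit 7160, nat_lit 8132, nat_lit 7484, nat_lit 7808, nat_lit 7592, nat_lit 7700, nat_lit 7628, nat_lit 7652, nat_lit 7648] (nat_lit 1) [nat_lit 27328] true,
   Spec.mk (nat_lit 7648) (nat_lit 0) [nat_lit 20770, nat_lit 3274, nat_lit 9106, nat_lit 7162, nat_lit 8134, nat_lit 7486, nat_lit 7810, nat_lit 7594, nat_lit 7702, nat_lit 7630, nat_lit 7654, nat_lit 7646] (nat_lit 1) [nat_lit 27330] true,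
   Spec.mk (nat_lit 7652) (nat_lit 0) [nat_lit 20774, nat_lit 3278, nat_lit 9110, nat_lit 7166, nat_lit 8138, nat_lit 7490, nat_lit 7814, nat_lit 7598, nat_lit 7706, nat_lit 7634, nat_lit 7670, nat_lit 7646, nat_lit 7654] (nat_lit 2) [nat_lit 27334] true,
   Spec.mk (nat_lit 7654) (nat_lit 0) [nat_lit 20776, nat_lit 3280, nat_lit 9112, nat_lit 7168, nat_lit 8140, nat_lit 7492, nat_lit 7816, nat_lit 7600, nat_lit 7708, nat_lit 7636, nat_lit 7672, nat_lit 7648, nat_lit 7660, nat_lit 7652, nat_lit 7656] (nat_lit 0) [nat_lit 27336] true,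
   Spec.mk (nat_lit 7656) (nat_lit 0) [nat_lit 20778, nat_lit 3282, nat_lit 9114, nat_lit 7170, nat_lit 8142, nat_lit 7494, nat_lit 7818, nat_lit 7602, nat_lit 7710, nat_lit 7638, nat_lit 7674, nat_lit 7662, nat_lit 7654] (nat_lit 0) [] false,
   Spec.mk (nat_lit 7660) (nat_lit 0) [nat_lit 20782, nat_lit 3286, nat_lit 9118, nat_lit 7174, nat_lit 8146, nat_lit 7498, nat_lit 7822, nat_lit 7606, nat_lit 7714, nat_lit 7678, nat_lit 7654, nat_lit 7662] (nat_lit 1) [nat_lit 27342] false,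
   Spec.mk (nat_lit 7662) (nat_lit 1) [nat_lit 20784, nat_lit 3288, nat_lit 9120, nat_lit 7176, nat_lit 8148, nat_lit 7500, nat_lit 7824, nat_lit 7608, nat_lit 7716, nat_lit 7680, nat_lit 7656, nat_lit 7660] (nat_lit 0) [] false,
   Spec.mk (nat_lit 7670) (nat_lit 0) [nat_lit 20792, nat_lit 3296, nat_lit 9128, nat_lit 7184, nat_lit 8156, nat_lit 7508, nat_lit 7832, nat_lit 7724, nat_lit 7652, nat_lit 7672] (nat_lit 2) [nat_lit 27352] false,
   Spec.mk (nat_lit 7672) (nat_lit 0) [nat_lit 20794, nat_lit 3298, nat_lit 9130, nat_lit 7186, nat_lit 8158, nat_lit 7510, nat_lit 7834, nat_lit 7726, nat_lit 7654, nat_lit 7678, nat_lit 7670, nat_lit 7674] (nat_lit 1) [nat_lit 27354] false,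
   Spec.mk (nat_lit 7674) (nat_lit 0) [nat_lit 20796, nat_lit 3300, nat_lit 9132, nat_lit 7188, nat_lit 8160, nat_lit 7512, nat_lit 7836, nat_lit 7728, nat_lit 7656, nat_lit 7680, nat_lit 7672] (nat_lit 2) [] false,
   Spec.mk (nat_lit 7678) (nat_lit 0) [nat_lit 20800, nat_lit 3304, nat_lit 9136, nat_lit 7192, nat_lit 8164, nat_lit 7516, nat_lit 7840, nat_lit 7732, nat_lit 7660, nat_lit 7672, nat_lit 7680] (nat_lit 0) [nat_lit 27360] false,
   Spec.mk (nat_lit 7680) (nat_lit 1) [nat_lit 20802, nat_lit 3306, nat_lit 9138, nat_lit 7194, nat_lit 8166, nat_lit 7518, nat_lit 7842, nat_lit 7734, nat_lit 7662, nat_lit 7674, nat_lit 7686, nat_lit 7678] (nat_lit 0) [] false,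
   Spec.mk (nat_lit 7686) (nat_lit 2) [nat_lit 20808, nat_lit 3312, nat_lit 9144, nat_lit 7200, nat_lit 8172, nat_lit 7524, nat_lit 7848, nat_lit 7740, nat_lit 7680] (nat_lit 0) [] false,
   Spec.mk (nat_lit 7700) (nat_lit 0) [nat_lit 20822, nat_lit 3326, nat_lit 9158, nat_lit 7214, nat_lit 8186, nat_lit 7862, nat_lit 7646, nat_lit 7706, nat_lit 7702] (nat_lit 1) [nat_lit 27382] false,
   Spec.mk (nat_lit 7702) (nat_lit 0) [nat_lit 20824, nat_lit 3328, nat_lit 9160, nat_lit 7216, nat_lit 8188, nat_lit 7864, nat_lit 7648, nat_lit 7708, nat_lit 7700] (nat_lit 1) [nat_lit 27384] false,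
   Spec.mk (nat_lit 7706) (nat_lit 0) [nat_lit 20828, nat_lit 3332, nat_lit 9164, nat_lit 7220, nat_lit 8192, nat_lit 7868, nat_lit 7652, nat_lit 7724, nat_lit 7700, nat_lit 7708] (nat_lit 3) [nat_lit 27388] true,
   Spec.mk (nat_lit 7708) (nat_lit 0) [nat_lit 20830, nat_lit 3334, nat_lit 9166, nat_lit 7222, nat_lit 8194, nat_lit 7870, nat_lit 7654, nat_lit 7726, nat_lit 7702, nat_lit 7714, nat_lit 7706, nat_lit 7710] (nat_lit 1) [nat_lit 27390] false,
   Spec.mk (nat_lit 7710) (nat_lit 0) [nat_lit 20832, nat_lit 3336, nat_lit 9168, nat_lit 7224, nat_lit 8196, nat_lit 7872, nat_lit 7656, nat_lit 7728, nat_lit 7716, nat_lit 7708] (nat_lit 1) [] false,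
   Spec.mk (nat_lit 7714) (nat_lit 0) [nat_lit 20836, nat_lit 3340, nat_lit 9172, nat_lit 7228, nat_lit 8200, nat_lit 7876, nat_lit 7660, nat_lit 7732, nat_lit 7708, nat_lit 7716] (nat_lit 3) [nat_lit 27396] false,
   Spec.mk (nat_lit 7716) (nat_lit 0) [nat_lit 20838, nat_lit 3342, nat_lit 9174, nat_lit 7230, nat_lit 8202, nat_lit 7878, nat_lit 7662, nat_lit 7734, nat_lit 7710, nat_lit 7714] (nat_lit 1) [] false]

noncomputable def sp22 : List Spec :=
  [Spec.mk (nat_lit 7724) (nat_lit 0) [nat_lit 20846, nat_lit 3350, nat_lit 9182, nat_lit 7238, nat_lit 8210, nat_lit 7886, nat_lit 7670, nat_lit 7706, nat_lit 7726] (nat_lit 1) [nat_lit 27406] false,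
   Spec.mk (nat_lit 7726) (nat_lit 0) [nat_lit 20848, nat_lit 3352, nat_lit 9184, nat_lit 7240, nat_lit 8212, nat_lit 7888, nat_lit 7672, nat_lit 7708, nat_lit 7732, nat_lit 7724, nat_lit 7728] (nat_lit 0) [nat_lit 27408] false,
   Spec.mk (nat_lit 7728) (nat_lit 0) [nat_lit 20850, nat_lit 3354, nat_lit 9186, nat_lit 7242, nat_lit 8214, nat_lit 7890, nat_lit 7674, nat_lit 7710, nat_lit 7734, nat_lit 7726] (nat_lit 1) [] false,
   Spec.mk (nat_lit 7732) (nat_lit 0) [nat_lit 20854, nat_lit 3358, nat_lit 9190, nat_lit 7246, nat_lit 8218, nat_lit 7894, nat_lit 7678, nat_lit 7714, nat_lit 7750, nat_lit 7726, nat_lit 7734] (nat_lit 0) [nat_lit 27414] false,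
   Spec.mk (nat_lit 7734) (nat_lit 1) [nat_lit 20856, nat_lit 3360, nat_lit 9192, nat_lit 7248, nat_lit 8220, nat_lit 7896, nat_lit 7680, nat_lit 7716, nat_lit 7752, nat_lit 7728, nat_lit 7740, nat_lit 7732] (nat_lit 0) [] false,
   Spec.mk (nat_lit 7740) (nat_lit 1) [nat_lit 20862, nat_lit 3366, nat_lit 9198, nat_lit 7254, nat_lit 8226, nat_lit 7902, nat_lit 7686, nat_lit 7758, nat_lit 7734] (nat_lit 0) [] false,
   Spec.mk (nat_lit 7750) (nat_lit 1) [nat_lit 20872, nat_lit 3376, nat_lit 9208, nat_lit 7264, nat_lit 8236, nat_lit 7912, nat_lit 7732, nat_lit 7752] (nat_lit 0) [nat_lit 27432] false,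
   Spec.mk (nat_lit 7752) (nat_lit 1) [nat_lit 20874, nat_lit 3378, nat_lit 9210, nat_lit 7266, nat_lit 8238, nat_lit 7914, nat_lit 7734, nat_lit 7758, nat_lit 7750] (nat_lit 0) [] false,
   Spec.mk (nat_lit 7758) (nat_lit 3) [nat_lit 20880, nat_lit 3384, nat_lit 9216, nat_lit 7272, nat_lit 8244, nat_lit 7920, nat_lit 7740, nat_lit 7752] (nat_lit 0) [] false,
   Spec.mk (nat_lit 7784) (nat_lit 0) [nat_lit 20906, nat_lit 3410, nat_lit 9242, nat_lit 8270, nat_lit 7622, nat_lit 7790] (nat_lit 0) [nat_lit 27466] false,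
   Spec.mk (nat_lit 7790) (nat_lit 0) [nat_lit 20912, nat_lit 3416, nat_lit 9248, nat_lit 8276, nat_lit 7628, nat_lit 7808, nat_lit 7784, nat_lit 7796, nat_lit 7792] (nat_lit 1) [nat_lit 27472] false,
   Spec.mk (nat_lit 7792) (nat_lit 0) [nat_lit 20914, nat_lit 3418, nat_lit 9250, nat_lit 8278, nat_lit 7630, nat_lit 7810, nat_lit 7798, nat_lit 7790] (nat_lit 0) [nat_lit 27474] false,
   Spec.mk (nat_lit 7796) (nat_lit 0) [nat_lit 20918, nat_lit 3422, nat_lit 9254, nat_lit 8282, nat_lit 7634, nat_lit 7814, nat_lit 7790, nat_lit 7798] (nat_lit 4) [nat_lit 27478] false,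
   Spec.mk (nat_lit 7798) (nat_lit 0) [nat_lit 20920, nat_lit 3424, nat_lit 9256, nat_lit 8284, nat_lit 7636, nat_lit 7816, nat_lit 7792, nat_lit 7796, nat_lit 7800] (nat_lit 1) [nat_lit 27480] false,
   Spec.mk (nat_lit 7800) (nat_lit 0) [nat_lit 20922, nat_lit 3426, nat_lit 9258, nat_lit 8286, nat_lit 7638, nat_lit 7818, nat_lit 7798] (nat_lit 0) [] false,
   Spec.mk (nat_lit 7808) (nat_lit 0) [nat_lit 20930, nat_lit 3434, nat_lit 9266, nat_lit 8294, nat_lit 7646, nat_lit 7862, nat_lit 7790, nat_lit 7814, nat_lit 7810] (nat_lit 2) [nat_lit 27490] true,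
   Spec.mk (nat_lit 7810) (nat_lit 0) [nat_lit 20932, nat_lit 3436, nat_lit 9268, nat_lit 8296, nat_lit 7648, nat_lit 7864, nat_lit 7792, nat_lit 7816, nat_lit 7808] (nat_lit 2) [nat_lit 27492] true,
   Spec.mk (nat_lit 7814) (nat_lit 0) [nat_lit 20936, nat_lit 3440, nat_lit 9272, nat_lit 8300, nat_lit 7652, nat_lit 7868, nat_lit 7796, nat_lit 7832, nat_lit 7808, nat_lit 7816] (nat_lit 3) [nat_lit 27496] true,
   Spec.mk (nat_lit 7816) (nat_lit 0) [nat_lit 20938, nat_lit 3442, nat_lit 9274, nat_lit 8302, nat_lit 7654, nat_lit 7870, nat_lit 7798, nat_lit 7834, nat_lit 7810, nat_lit 7822, nat_lit 7814, nat_lit 7818] (nat_lit 1) [nat_lit 27498] false,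
   Spec.mk (nat_lit 7818) (nat_lit 0) [nat_lit 20940, nat_lit 3444, nat_lit 9276, nat_lit 8304, nat_lit 7656, nat_lit 7872, nat_lit 7800, nat_lit 7836, nat_lit 7824, nat_lit 7816] (nat_lit 1) [] false,
   Spec.mk (nat_lit 7822) (nat_lit 0) [nat_lit 20944, nat_lit 3448, nat_lit 9280, nat_lit 8308, nat_lit 7660, nat_lit 7876, nat_lit 7840, nat_lit 7816, nat_lit 7824] (nat_lit 2) [nat_lit 27504] false,
   Spec.mk (nat_lit 7824) (nat_lit 0) [nat_lit 20946, nat_lit 3450, nat_lit 9282, nat_lit 8310, nat_lit 7662, nat_lit 7878, nat_lit 7842, nat_lit 7818, nat_lit 7822] (nat_lit 0) [] false,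
   Spec.mk (nat_lit 7832) (nat_lit 0) [nat_lit 20954, nat_lit 3458, nat_lit 9290, nat_lit 8318, nat_lit 7670, nat_lit 7886, nat_lit 7814, nat_lit 7834] (nat_lit 4) [nat_lit 27514] false,
   Spec.mk (nat_lit 7834) (nat_lit 0) [nat_lit 20956, nat_lit 3460, nat_lit 9292, nat_lit 8320, nat_lit 7672, nat_lit 7888, nat_lit 7816, nat_lit 7840, nat_lit 7832, nat_lit 7836] (nat_lit 3) [nat_lit 27516] false,
   Spec.mk (nat_lit 7836) (nat_lit 0) [nat_lit 20958, nat_lit 3462, nat_lit 9294, nat_lit 8322, nat_lit 7674, nat_lit 7890, nat_lit 7818, nat_lit 7842, nat_lit 7834] (nat_lit 4) [] false,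
   Spec.mk (nat_lit 7840) (nat_lit 0) [nat_lit 20962, nat_lit 3466, nat_lit 9298, nat_lit 8326, nat_lit 7678, nat_lit 7894, nat_lit 7822, nat_lit 7834, nat_lit 7842] (nat_lit 2) [nat_lit 27522] false,
   Spec.mk (nat_lit 7842) (nat_lit 0) [nat_lit 20964, nat_lit 3468, nat_lit 9300, nat_lit 8328, nat_lit 7680, nat_lit 7896, nat_lit 7824, nat_lit 7836, nat_lit 7848, nat_lit 7840] (nat_lit 1) [] false,
   Spec.mk (nat_lit 7848) (nat_lit 0) [nat_lit 20970, nat_lit 3474, nat_lit 9306, nat_lit 8334, nat_lit 7686, nat_lit 7902, nat_lit 7842] (nat_lit 0) [] false,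
   Spec.mk (nat_lit 7862) (nat_lit 0) [nat_lit 20984, nat_lit 3488, nat_lit 9320, nat_lit 8348, nat_lit 7700, nat_lit 7808, nat_lit 7868, nat_lit 7864] (nat_lit 0) [nat_lit 27544] false,
   Spec.mk (nat_lit 7864) (nat_lit 0) [nat_lit 20986, nat_lit 3490, nat_lit 9322, nat_lit 8350, nat_lit 7702, nat_lit 7810, nat_lit 7870, nat_lit 7862] (nat_lit 0) [nat_lit 27546] false,
   Spec.mk (nat_lit 7868) (nat_lit 0) [nat_lit 20990, nat_lit 3494, nat_lit 9326, nat_lit 8354, nat_lit 7706, nat_lit 7814, nat_lit 7886, nat_lit 7862, nat_lit 7870] (nat_lit 2) [nat_lit 27550] true,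
   Spec.mk (nat_lit 7870) (nat_lit 0) [nat_lit 20992, nat_lit 3496, nat_lit 9328, nat_lit 8356, nat_lit 7708, nat_lit 7816, nat_lit 7888, nat_lit 7864, nat_lit 7876, nat_lit 7868, nat_lit 7872] (nat_lit 0) [nat_lit 27552] false,
   Spec.mk (nat_lit 7872) (nat_lit 0) [nat_lit 20994, nat_lit 3498, nat_lit 9330, nat_lit 8358, nat_lit 7710, nat_lit 7818, nat_lit 7890, nat_lit 7878, nat_lit 7870] (nat_lit 0) [] false,
   Spec.mk (nat_lit 7876) (nat_lit 0) [nat_lit 20998, nat_lit 3502, nat_lit 9334, nat_lit 8362, nat_lit 7714, nat_lit 7822, nat_lit 7894, nat_lit 7870, nat_lit 7878] (nat_lit 2) [nat_lit 27558] false,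
   Spec.mk (nat_lit 7878) (nat_lit 0) [nat_lit 21000, nat_lit 3504, nat_lit 9336, nat_lit 8364, nat_lit 7716, nat_lit 7824, nat_lit 7896, nat_lit 7872, nat_lit 7876] (nat_lit 0) [] false,
   Spec.mk (nat_lit 7886) (nat_lit 0) [nat_lit 21008, nat_lit 3512, nat_lit 9344, nat_lit 8372, nat_lit 7724, nat_lit 7832, nat_lit 7940, nat_lit 7868, nat_lit 7888] (nat_lit 1) [nat_lit 27568] false,
   Spec.mk (nat_lit 7888) (nat_lit 0) [nat_lit 21010, nat_lit 3514, nat_lit 9346, nat_lit 8374, nat_lit 7726, nat_lit 7834, nat_lit 7942, nat_lit 7870, nat_lit 7894, nat_lit 7886, nat_lit 7890] (nat_lit 0) [nat_lit 27570] false,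
   Spec.mk (nat_lit 7890) (nat_lit 0) [nat_lit 21012, nat_lit 3516, nat_lit 9348, nat_lit 8376, nat_lit 7728, nat_lit 7836, nat_lit 7944, nat_lit 7872, nat_lit 7896, nat_lit 7888] (nat_lit 1) [] false,
   Spec.mk (nat_lit 7894) (nat_lit 0) [nat_lit 21016, nat_lit 3520, nat_lit 9352, nat_lit 8380, nat_lit 7732, nat_lit 7840, nat_lit 7948, nat_lit 7876, nat_lit 7912, nat_lit 7888, nat_lit 7896] (nat_lit 0) [nat_lit 27576] false,
   Spec.mk (nat_lit 7896) (nat_lit 1) [nat_lit 21018, nat_lit 3522, nat_lit 9354, nat_lit 8382, nat_lit 7734, nat_lit 7842, nat_lit 7950, nat_lit 7878, nat_lit 7914, nat_lit 7890, nat_lit 7902, nat_lit 7894] (nat_lit 0) [] false,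
   Spec.mk (nat_lit 7902) (nat_lit 1) [nat_lit 21024, nat_lit 3528, nat_lit 9360, nat_lit 8388, nat_lit 7740, nat_lit 7848, nat_lit 7956, nat_lit 7920, nat_lit 7896] (nat_lit 0) [] false,
   Spec.mk (nat_lit 7912) (nat_lit 0) [nat_lit 21034, nat_lit 3538, nat_lit 9370, nat_lit 8398, nat_lit 7750, nat_lit 7966, nat_lit 7894, nat_lit 7914] (nat_lit 0) [nat_lit 27594] false,
   Spec.mk (nat_lit 7914) (nat_lit 0) [nat_lit 21036, nat_lit 3540, nat_lit 9372, nat_lit 8400, nat_lit 7752, nat_lit 7968, nat_lit 7896, nat_lit 7920, nat_lit 7912] (nat_lit 0) [] false,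
   Spec.mk (nat_lit 7920) (nat_lit 2) [nat_lit 21042, nat_lit 3546, nat_lit 9378, nat_lit 8406, nat_lit 7758, nat_lit 7974, nat_lit 7902, nat_lit 7914] (nat_lit 0) [] false,
   Spec.mk (nat_lit 7940) (nat_lit 0) [nat_lit 21062, nat_lit 3566, nat_lit 9398, nat_lit 8426, nat_lit 7886, nat_lit 7942] (nat_lit 0) [nat_lit 27622] false,
   Spec.mk (nat_lit 7942) (nat_lit 1) [nat_lit 21064, nat_lit 3568, nat_lit 9400, nat_lit 8428, nat_lit 7888, nat_lit 7948, nat_lit 7940, nat_lit 7944] (nat_lit 0) [nat_lit 27624] false,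
   Spec.mk (nat_lit 7944) (nat_lit 0) [nat_lit 21066, nat_lit 3570, nat_lit 9402, nat_lit 8430, nat_lit 7890, nat_lit 7950, nat_lit 7942] (nat_lit 0) [] false,
   Spec.mk (nat_lit 7948) (nat_lit 0) [nat_lit 21070, nat_lit 3574, nat_lit 9406, nat_lit 8434, nat_lit 7894, nat_lit 7966, nat_lit 7942, nat_lit 7950] (nat_lit 0) [nat_lit 27630] false,
   Spec.mk (nat_lit 7950) (nat_lit 1) [nat_lit 21072, nat_lit 3576, nat_lit 9408, nat_lit 8436, nat_lit 7896, nat_lit 7968, nat_lit 7944, nat_lit 7956, nat_lit 7948] (nat_lit 0) [] false,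
   Spec.mk (nat_lit 7956) (nat_lit 0) [nat_lit 21078, nat_lit 3582, nat_lit 9414, nat_lit 8442, nat_lit 7902, nat_lit 7974, nat_lit 7950] (nat_lit 0) [] false,
   Spec.mk (nat_lit 7966) (nat_lit 2) [nat_lit 21088, nat_lit 3592, nat_lit 9424, nat_lit 8452, nat_lit 7912, nat_lit 7948, nat_lit 7968] (nat_lit 0) [nat_lit 27648] false,
   Spec.mk (nat_lit 7968) (nat_lit 2) [nat_lit 21090, nat_lit 3594, nat_lit 9426, nat_lit 8454, nat_lit 7914, nat_lit 7950, nat_lit 7974, nat_lit 7966] (nat_lit 0) [] false,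
   Spec.mk (nat_lit 7974) (nat_lit 3) [nat_lit 21096, nat_lit 3600, nat_lit 9432, nat_lit 8460, nat_lit 7920, nat_lit 7956, nat_lit 7992, nat_lit 7968] (nat_lit 0) [] false,
   Spec.mk (nat_lit 7992) (nat_lit 4) [nat_lit 21114, nat_lit 3618, nat_lit 9450, nat_lit 8478, nat_lit 7974] (nat_lit 0) [] false,
   Spec.mk (nat_lit 8036) (nat_lit 0) [nat_lit 21158, nat_lit 3662, nat_lit 9494, nat_lit 7550, nat_lit 8054, nat_lit 8042] (nat_lit 0) [nat_lit 27718] false,
   Spec.mk (nat_lit 8042) (nat_lit 0) [nat_lit 21164, nat_lit 3668, nat_lit 9500, nat_lit 7556, nat_lit 8060, nat_lit 8036, nat_lit 8044] (nat_lit 2) [nat_lit 27724] false,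
   Spec.mk (nat_lit 8044) (nat_lit 0) [nat_lit 21166, nat_lit 3670, nat_lit 9502, nat_lit 7558, nat_lit 8062, nat_lit 8042] (nat_lit 0) [nat_lit 27726] false,
   Spec.mk (nat_lit 8054) (nat_lit 0) [nat_lit 21176, nat_lit 3680, nat_lit 9512, nat_lit 7568, nat_lit 8108, nat_lit 8036, nat_lit 8060] (nat_lit 2) [nat_lit 27736] false,
   Spec.mk (nat_lit 8060) (nat_lit 0) [nat_lit 21182, nat_lit 3686, nat_lit 9518, nat_lit 7574, nat_lit 8114, nat_lit 8042, nat_lit 8078, nat_lit 8054, nat_lit 8066, nat_lit 8062] (nat_lit 2) [nat_lit 27742] false,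
   Spec.mk (nat_lit 8062) (nat_lit 0) [nat_lit 21184, nat_lit 3688, nat_lit 9520, nat_lit 7576, nat_lit 8116, nat_lit 8044, nat_lit 8080, nat_lit 8068, nat_lit 8060] (nat_lit 1) [nat_lit 27744] false]

noncomputable def sp23 : List Spec :=
  [Spec.mk (nat_lit 8066) (nat_lit 0) [nat_lit 21188, nat_lit 3692, nat_lit 9524, nat_lit 7580, nat_lit 8120, nat_lit 8084, nat_lit 8060, nat_lit 8068] (nat_lit 4) [nat_lit 27748] false,
   Spec.mk (nat_lit 8068) (nat_lit 0) [nat_lit 21190, nat_lit 3694, nat_lit 9526, nat_lit 7582, nat_lit 8122, nat_lit 8086, nat_lit 8062, nat_lit 8066, nat_lit 8070] (nat_lit 1) [nat_lit 27750] false,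
   Spec.mk (nat_lit 8070) (nat_lit 0) [nat_lit 21192, nat_lit 3696, nat_lit 9528, nat_lit 7584, nat_lit 8124, nat_lit 8088, nat_lit 8068] (nat_lit 0) [] false,
   Spec.mk (nat_lit 8078) (nat_lit 0) [nat_lit 21200, nat_lit 3704, nat_lit 9536, nat_lit 7592, nat_lit 8132, nat_lit 8060, nat_lit 8084, nat_lit 8080] (nat_lit 4) [nat_lit 27760] false,
   Spec.mk (nat_lit 8080) (nat_lit 0) [nat_lit 21202, nat_lit 3706, nat_lit 9538, nat_lit 7594, nat_lit 8134, nat_lit 8062, nat_lit 8086, nat_lit 8078] (nat_lit 4) [nat_lit 27762] false,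
   Spec.mk (nat_lit 8084) (nat_lit 0) [nat_lit 21206, nat_lit 3710, nat_lit 9542, nat_lit 7598, nat_lit 8138, nat_lit 8066, nat_lit 8078, nat_lit 8086] (nat_lit 4) [nat_lit 27766] false,
   Spec.mk (nat_lit 8086) (nat_lit 0) [nat_lit 21208, nat_lit 3712, nat_lit 9544, nat_lit 7600, nat_lit 8140, nat_lit 8068, nat_lit 8080, nat_lit 8092, nat_lit 8084, nat_lit 8088] (nat_lit 2) [nat_lit 27768] false,
   Spec.mk (nat_lit 8088) (nat_lit 0) [nat_lit 21210, nat_lit 3714, nat_lit 9546, nat_lit 7602, nat_lit 8142, nat_lit 8070, nat_lit 8094, nat_lit 8086] (nat_lit 2) [] false,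
   Spec.mk (nat_lit 8092) (nat_lit 0) [nat_lit 21214, nat_lit 3718, nat_lit 9550, nat_lit 7606, nat_lit 8146, nat_lit 8086, nat_lit 8094] (nat_lit 2) [nat_lit 27774] false,
   Spec.mk (nat_lit 8094) (nat_lit 0) [nat_lit 21216, nat_lit 3720, nat_lit 9552, nat_lit 7608, nat_lit 8148, nat_lit 8088, nat_lit 8092] (nat_lit 0) [] false,
   Spec.mk (nat_lit 8108) (nat_lit 0) [nat_lit 21230, nat_lit 3734, nat_lit 9566, nat_lit 7622, nat_lit 8270, nat_lit 8054, nat_lit 8114] (nat_lit 2) [nat_lit 27790] false,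
   Spec.mk (nat_lit 8114) (nat_lit 0) [nat_lit 21236, nat_lit 3740, nat_lit 9572, nat_lit 7628, nat_lit 8276, nat_lit 8060, nat_lit 8132, nat_lit 8108, nat_lit 8120, nat_lit 8116] (nat_lit 3) [nat_lit 27796] false,
   Spec.mk (nat_lit 8116) (nat_lit 0) [nat_lit 21238, nat_lit 3742, nat_lit 9574, nat_lit 7630, nat_lit 8278, nat_lit 8062, nat_lit 8134, nat_lit 8122, nat_lit 8114] (nat_lit 2) [nat_lit 27798] false,
   Spec.mk (nat_lit 8120) (nat_lit 0) [nat_lit 21242, nat_lit 3746, nat_lit 9578, nat_lit 7634, nat_lit 8282, nat_lit 8066, nat_lit 8138, nat_lit 8114, nat_lit 8122] (nat_lit 6) [nat_lit 27802] true,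
   Spec.mk (nat_lit 8122) (nat_lit 0) [nat_lit 21244, nat_lit 3748, nat_lit 9580, nat_lit 7636, nat_lit 8284, nat_lit 8068, nat_lit 8140, nat_lit 8116, nat_lit 8120, nat_lit 8124] (nat_lit 3) [nat_lit 27804] false,
   Spec.mk (nat_lit 8124) (nat_lit 0) [nat_lit 21246, nat_lit 3750, nat_lit 9582, nat_lit 7638, nat_lit 8286, nat_lit 8070, nat_lit 8142, nat_lit 8122] (nat_lit 2) [] false,
   Spec.mk (nat_lit 8132) (nat_lit 0) [nat_lit 21254, nat_lit 3758, nat_lit 9590, nat_lit 7646, nat_lit 8294, nat_lit 8078, nat_lit 8186, nat_lit 8114, nat_lit 8138, nat_lit 8134] (nat_lit 3) [nat_lit 27814] true,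
   Spec.mk (nat_lit 8134) (nat_lit 0) [nat_lit 21256, nat_lit 3760, nat_lit 9592, nat_lit 7648, nat_lit 8296, nat_lit 8080, nat_lit 8188, nat_lit 8116, nat_lit 8140, nat_lit 8132] (nat_lit 3) [nat_lit 27816] false,
   Spec.mk (nat_lit 8138) (nat_lit 0) [nat_lit 21260, nat_lit 3764, nat_lit 9596, nat_lit 7652, nat_lit 8300, nat_lit 8084, nat_lit 8192, nat_lit 8120, nat_lit 8156, nat_lit 8132, nat_lit 8140] (nat_lit 4) [nat_lit 27820] true,
   Spec.mk (nat_lit 8140) (nat_lit 0) [nat_lit 21262, nat_lit 3766, nat_lit 9598, nat_lit 7654, nat_lit 8302, nat_lit 8086, nat_lit 8194, nat_lit 8122, nat_lit 8158, nat_lit 8134, nat_lit 8146, nat_lit 8138, nat_lit 8142] (nat_lit 2) [nat_lit 27822] false,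
   Spec.mk (nat_lit 8142) (nat_lit 0) [nat_lit 21264, nat_lit 3768, nat_lit 9600, nat_lit 7656, nat_lit 8304, nat_lit 8088, nat_lit 8196, nat_lit 8124, nat_lit 8160, nat_lit 8148, nat_lit 8140] (nat_lit 2) [] false,
   Spec.mk (nat_lit 8146) (nat_lit 0) [nat_lit 21268, nat_lit 3772, nat_lit 9604, nat_lit 7660, nat_lit 8308, nat_lit 8092, nat_lit 8200, nat_lit 8164, nat_lit 8140, nat_lit 8148] (nat_lit 3) [nat_lit 27828] false,
   Spec.mk (nat_lit 8148) (nat_lit 0) [nat_lit 21270, nat_lit 3774, nat_lit 9606, nat_lit 7662, nat_lit 8310, nat_lit 8094, nat_lit 8202, nat_lit 8166, nat_lit 8142, nat_lit 8146] (nat_lit 1) [] false,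
   Spec.mk (nat_lit 8156) (nat_lit 0) [nat_lit 21278, nat_lit 3782, nat_lit 9614, nat_lit 7670, nat_lit 8318, nat_lit 8210, nat_lit 8138, nat_lit 8158] (nat_lit 4) [nat_lit 27838] false,
   Spec.mk (nat_lit 8158) (nat_lit 0) [nat_lit 21280, nat_lit 3784, nat_lit 9616, nat_lit 7672, nat_lit 8320, nat_lit 8212, nat_lit 8140, nat_lit 8164, nat_lit 8156, nat_lit 8160] (nat_lit 3) [nat_lit 27840] false,
   Spec.mk (nat_lit 8160) (nat_lit 0) [nat_lit 21282, nat_lit 3786, nat_lit 9618, nat_lit 7674, nat_lit 8322, nat_lit 8214, nat_lit 8142, nat_lit 8166, nat_lit 8158] (nat_lit 4) [] false,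
   Spec.mk (nat_lit 8164) (nat_lit 0) [nat_lit 21286, nat_lit 3790, nat_lit 9622, nat_lit 7678, nat_lit 8326, nat_lit 8218, nat_lit 8146, nat_lit 8158, nat_lit 8166] (nat_lit 2) [nat_lit 27846] false,
   Spec.mk (nat_lit 8166) (nat_lit 0) [nat_lit 21288, nat_lit 3792, nat_lit 9624, nat_lit 7680, nat_lit 8328, nat_lit 8220, nat_lit 8148, nat_lit 8160, nat_lit 8172, nat_lit 8164] (nat_lit 1) [] false,
   Spec.mk (nat_lit 8172) (nat_lit 0) [nat_lit 21294, nat_lit 3798, nat_lit 9630, nat_lit 7686, nat_lit 8334, nat_lit 8226, nat_lit 8166] (nat_lit 0) [] false,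
   Spec.mk (nat_lit 8186) (nat_lit 0) [nat_lit 21308, nat_lit 3812, nat_lit 9644, nat_lit 7700, nat_lit 8348, nat_lit 8132, nat_lit 8192, nat_lit 8188] (nat_lit 4) [nat_lit 27868] false,
   Spec.mk (nat_lit 8188) (nat_lit 0) [nat_lit 21310, nat_lit 3814, nat_lit 9646, nat_lit 7702, nat_lit 8350, nat_lit 8134, nat_lit 8194, nat_lit 8186] (nat_lit 4) [nat_lit 27870] false,
   Spec.mk (nat_lit 8192) (nat_lit 0) [nat_lit 21314, nat_lit 3818, nat_lit 9650, nat_lit 7706, nat_lit 8354, nat_lit 8138, nat_lit 8210, nat_lit 8186, nat_lit 8194] (nat_lit 6) [nat_lit 27874] false,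
   Spec.mk (nat_lit 8194) (nat_lit 0) [nat_lit 21316, nat_lit 3820, nat_lit 9652, nat_lit 7708, nat_lit 8356, nat_lit 8140, nat_lit 8212, nat_lit 8188, nat_lit 8200, nat_lit 8192, nat_lit 8196] (nat_lit 4) [nat_lit 27876] false,
   Spec.mk (nat_lit 8196) (nat_lit 0) [nat_lit 21318, nat_lit 3822, nat_lit 9654, nat_lit 7710, nat_lit 8358, nat_lit 8142, nat_lit 8214, nat_lit 8202, nat_lit 8194] (nat_lit 4) [] false,
   Spec.mk (nat_lit 8200) (nat_lit 0) [nat_lit 21322, nat_lit 3826, nat_lit 9658, nat_lit 7714, nat_lit 8362, nat_lit 8146, nat_lit 8218, nat_lit 8194, nat_lit 8202] (nat_lit 6) [nat_lit 27882] false,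
   Spec.mk (nat_lit 8202) (nat_lit 0) [nat_lit 21324, nat_lit 3828, nat_lit 9660, nat_lit 7716, nat_lit 8364, nat_lit 8148, nat_lit 8220, nat_lit 8196, nat_lit 8200] (nat_lit 4) [] false,
   Spec.mk (nat_lit 8210) (nat_lit 0) [nat_lit 21332, nat_lit 3836, nat_lit 9668, nat_lit 7724, nat_lit 8372, nat_lit 8156, nat_lit 8192, nat_lit 8212] (nat_lit 4) [nat_lit 27892] false,
   Spec.mk (nat_lit 8212) (nat_lit 0) [nat_lit 21334, nat_lit 3838, nat_lit 9670, nat_lit 7726, nat_lit 8374, nat_lit 8158, nat_lit 8194, nat_lit 8218, nat_lit 8210, nat_lit 8214] (nat_lit 3) [nat_lit 27894] false,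
   Spec.mk (nat_lit 8214) (nat_lit 0) [nat_lit 21336, nat_lit 3840, nat_lit 9672, nat_lit 7728, nat_lit 8376, nat_lit 8160, nat_lit 8196, nat_lit 8220, nat_lit 8212] (nat_lit 4) [] false,
   Spec.mk (nat_lit 8218) (nat_lit 0) [nat_lit 21340, nat_lit 3844, nat_lit 9676, nat_lit 7732, nat_lit 8380, nat_lit 8164, nat_lit 8200, nat_lit 8236, nat_lit 8212, nat_lit 8220] (nat_lit 3) [nat_lit 27900] false,
   Spec.mk (nat_lit 8220) (nat_lit 0) [nat_lit 21342, nat_lit 3846, nat_lit 9678, nat_lit 7734, nat_lit 8382, nat_lit 8166, nat_lit 8202, nat_lit 8238, nat_lit 8214, nat_lit 8226, nat_lit 8218] (nat_lit 2) [] false,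
   Spec.mk (nat_lit 8226) (nat_lit 0) [nat_lit 21348, nat_lit 3852, nat_lit 9684, nat_lit 7740, nat_lit 8388, nat_lit 8172, nat_lit 8244, nat_lit 8220] (nat_lit 2) [] false,
   Spec.mk (nat_lit 8236) (nat_lit 0) [nat_lit 21358, nat_lit 3862, nat_lit 9694, nat_lit 7750, nat_lit 8398, nat_lit 8218, nat_lit 8238] (nat_lit 2) [nat_lit 27918] false,
   Spec.mk (nat_lit 8238) (nat_lit 0) [nat_lit 21360, nat_lit 3864, nat_lit 9696, nat_lit 7752, nat_lit 8400, nat_lit 8220, nat_lit 8244, nat_lit 8236] (nat_lit 2) [] false,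
   Spec.mk (nat_lit 8244) (nat_lit 0) [nat_lit 21366, nat_lit 3870, nat_lit 9702, nat_lit 7758, nat_lit 8406, nat_lit 8226, nat_lit 8238] (nat_lit 0) [] false,
   Spec.mk (nat_lit 8270) (nat_lit 0) [nat_lit 21392, nat_lit 3896, nat_lit 9728, nat_lit 7784, nat_lit 8108, nat_lit 8276] (nat_lit 0) [nat_lit 27952] false,
   Spec.mk (nat_lit 8276) (nat_lit 0) [nat_lit 21398, nat_lit 3902, nat_lit 9734, nat_lit 7790, nat_lit 8114, nat_lit 8294, nat_lit 8270, nat_lit 8282, nat_lit 8278] (nat_lit 1) [nat_lit 27958] false,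
   Spec.mk (nat_lit 8278) (nat_lit 0) [nat_lit 21400, nat_lit 3904, nat_lit 9736, nat_lit 7792, nat_lit 8116, nat_lit 8296, nat_lit 8284, nat_lit 8276] (nat_lit 0) [nat_lit 27960] false,
   Spec.mk (nat_lit 8282) (nat_lit 0) [nat_lit 21404, nat_lit 3908, nat_lit 9740, nat_lit 7796, nat_lit 8120, nat_lit 8300, nat_lit 8276, nat_lit 8284] (nat_lit 4) [nat_lit 27964] false,
   Spec.mk (nat_lit 8284) (nat_lit 0) [nat_lit 21406, nat_lit 3910, nat_lit 9742, nat_lit 7798, nat_lit 8122, nat_lit 8302, nat_lit 8278, nat_lit 8282, nat_lit 8286] (nat_lit 1) [nat_lit 27966] false,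
   Spec.mk (nat_lit 8286) (nat_lit 0) [nat_lit 21408, nat_lit 3912, nat_lit 9744, nat_lit 7800, nat_lit 8124, nat_lit 8304, nat_lit 8284] (nat_lit 0) [] false,
   Spec.mk (nat_lit 8294) (nat_lit 0) [nat_lit 21416, nat_lit 3920, nat_lit 9752, nat_lit 7808, nat_lit 8132, nat_lit 8348, nat_lit 8276, nat_lit 8300, nat_lit 8296] (nat_lit 2) [nat_lit 27976] false,
   Spec.mk (nat_lit 8296) (nat_lit 0) [nat_lit 21418, nat_lit 3922, nat_lit 9754, nat_lit 7810, nat_lit 8134, nat_lit 8350, nat_lit 8278, nat_lit 8302, nat_lit 8294] (nat_lit 2) [nat_lit 27978] false,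
   Spec.mk (nat_lit 8300) (nat_lit 0) [nat_lit 21422, nat_lit 3926, nat_lit 9758, nat_lit 7814, nat_lit 8138, nat_lit 8354, nat_lit 8282, nat_lit 8318, nat_lit 8294, nat_lit 8302] (nat_lit 3) [nat_lit 27982] false,
   Spec.mk (nat_lit 8302) (nat_lit 0) [nat_lit 21424, nat_lit 3928, nat_lit 9760, nat_lit 7816, nat_lit 8140, nat_lit 8356, nat_lit 8284, nat_lit 8320, nat_lit 8296, nat_lit 8308, nat_lit 8300, nat_lit 8304] (nat_lit 1) [nat_lit 27984] false,
   Spec.mk (nat_lit 8304) (nat_lit 0) [nat_lit 21426, nat_lit 3930, nat_lit 9762, nat_lit 7818, nat_lit 8142, nat_lit 8358, nat_lit 8286, nat_lit 8322, nat_lit 8310, nat_lit 8302] (nat_lit 1) [] false,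
   Spec.mk (nat_lit 8308) (nat_lit 0) [nat_lit 21430, nat_lit 3934, nat_lit 9766, nat_lit 7822, nat_lit 8146, nat_lit 8362, nat_lit 8326, nat_lit 8302, nat_lit 8310] (nat_lit 2) [nat_lit 27990] false,
   Spec.mk (nat_lit 8310) (nat_lit 0) [nat_lit 21432, nat_lit 3936, nat_lit 9768, nat_lit 7824, nat_lit 8148, nat_lit 8364, nat_lit 8328, nat_lit 8304, nat_lit 8308] (nat_lit 0) [] false,
   Spec.mk (nat_lit 8318) (nat_lit 0) [nat_lit 21440, nat_lit 3944, nat_lit 9776, nat_lit 7832, nat_lit 8156, nat_lit 8372, nat_lit 8300, nat_lit 8320] (nat_lit 4) [nat_lit 28000] false,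
   Spec.mk (nat_lit 8320) (nat_lit 0) [nat_lit 21442, nat_lit 3946, nat_lit 9778, nat_lit 7834, nat_lit 8158, nat_lit 8374, nat_lit 8302, nat_lit 8326, nat_lit 8318, nat_lit 8322] (nat_lit 3) [nat_lit 28002] false]

noncomputable def sp24 : List Spec :=
  [Spec.mk (nat_lit 8322) (nat_lit 0) [nat_lit 21444, nat_lit 3948, nat_lit 9780, nat_lit 7836, nat_lit 8160, nat_lit 8376, nat_lit 8304, nat_lit 8328, nat_lit 8320] (nat_lit 4) [] false,
   Spec.mk (nat_lit 8326) (nat_lit 0) [nat_lit 21448, nat_lit 3952, nat_lit 9784, nat_lit 7840, nat_lit 8164, nat_lit 8380, nat_lit 8308, nat_lit 8320, nat_lit 8328] (nat_lit 2) [nat_lit 28008] false,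
   Spec.mk (nat_lit 8328) (nat_lit 0) [nat_lit 21450, nat_lit 3954, nat_lit 9786, nat_lit 7842, nat_lit 8166, nat_lit 8382, nat_lit 8310, nat_lit 8322, nat_lit 8334, nat_lit 8326] (nat_lit 1) [] false,
   Spec.mk (nat_lit 8334) (nat_lit 0) [nat_lit 21456, nat_lit 3960, nat_lit 9792, nat_lit 7848, nat_lit 8172, nat_lit 8388, nat_lit 8328] (nat_lit 0) [] false,
   Spec.mk (nat_lit 8348) (nat_lit 0) [nat_lit 21470, nat_lit 3974, nat_lit 9806, nat_lit 7862, nat_lit 8186, nat_lit 8510, nat_lit 8294, nat_lit 8354, nat_lit 8350] (nat_lit 1) [nat_lit 28030] false,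
   Spec.mk (nat_lit 8350) (nat_lit 0) [nat_lit 21472, nat_lit 3976, nat_lit 9808, nat_lit 7864, nat_lit 8188, nat_lit 8512, nat_lit 8296, nat_lit 8356, nat_lit 8348] (nat_lit 1) [nat_lit 28032] false,
   Spec.mk (nat_lit 8354) (nat_lit 0) [nat_lit 21476, nat_lit 3980, nat_lit 9812, nat_lit 7868, nat_lit 8192, nat_lit 8516, nat_lit 8300, nat_lit 8372, nat_lit 8348, nat_lit 8356] (nat_lit 3) [nat_lit 28036] false,
   Spec.mk (nat_lit 8356) (nat_lit 0) [nat_lit 21478, nat_lit 3982, nat_lit 9814, nat_lit 7870, nat_lit 8194, nat_lit 8518, nat_lit 8302, nat_lit 8374, nat_lit 8350, nat_lit 8362, nat_lit 8354, nat_lit 8358] (nat_lit 1) [nat_lit 28038] false,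
   Spec.mk (nat_lit 8358) (nat_lit 0) [nat_lit 21480, nat_lit 3984, nat_lit 9816, nat_lit 7872, nat_lit 8196, nat_lit 8520, nat_lit 8304, nat_lit 8376, nat_lit 8364, nat_lit 8356] (nat_lit 1) [] false,
   Spec.mk (nat_lit 8362) (nat_lit 0) [nat_lit 21484, nat_lit 3988, nat_lit 9820, nat_lit 7876, nat_lit 8200, nat_lit 8524, nat_lit 8308, nat_lit 8380, nat_lit 8356, nat_lit 8364] (nat_lit 3) [nat_lit 28044] false,
   Spec.mk (nat_lit 8364) (nat_lit 0) [nat_lit 21486, nat_lit 3990, nat_lit 9822, nat_lit 7878, nat_lit 8202, nat_lit 8526, nat_lit 8310, nat_lit 8382, nat_lit 8358, nat_lit 8362] (nat_lit 1) [] false,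
   Spec.mk (nat_lit 8372) (nat_lit 0) [nat_lit 21494, nat_lit 3998, nat_lit 9830, nat_lit 7886, nat_lit 8210, nat_lit 8534, nat_lit 8318, nat_lit 8426, nat_lit 8354, nat_lit 8374] (nat_lit 2) [nat_lit 28054] false,
   Spec.mk (nat_lit 8374) (nat_lit 0) [nat_lit 21496, nat_lit 4000, nat_lit 9832, nat_lit 7888, nat_lit 8212, nat_lit 8536, nat_lit 8320, nat_lit 8428, nat_lit 8356, nat_lit 8380, nat_lit 8372, nat_lit 8376] (nat_lit 1) [nat_lit 28056] false,
   Spec.mk (nat_lit 8376) (nat_lit 0) [nat_lit 21498, nat_lit 4002, nat_lit 9834, nat_lit 7890, nat_lit 8214, nat_lit 8538, nat_lit 8322, nat_lit 8430, nat_lit 8358, nat_lit 8382, nat_lit 8374] (nat_lit 2) [] false,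
   Spec.mk (nat_lit 8380) (nat_lit 0) [nat_lit 21502, nat_lit 4006, nat_lit 9838, nat_lit 7894, nat_lit 8218, nat_lit 8542, nat_lit 8326, nat_lit 8434, nat_lit 8362, nat_lit 8398, nat_lit 8374, nat_lit 8382] (nat_lit 1) [nat_lit 28062] false,
   Spec.mk (nat_lit 8382) (nat_lit 0) [nat_lit 21504, nat_lit 4008, nat_lit 9840, nat_lit 7896, nat_lit 8220, nat_lit 8544, nat_lit 8328, nat_lit 8436, nat_lit 8364, nat_lit 8400, nat_lit 8376, nat_lit 8388, nat_lit 8380] (nat_lit 0) [] false,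
   Spec.mk (nat_lit 8388) (nat_lit 0) [nat_lit 21510, nat_lit 4014, nat_lit 9846, nat_lit 7902, nat_lit 8226, nat_lit 8550, nat_lit 8334, nat_lit 8442, nat_lit 8406, nat_lit 8382] (nat_lit 0) [] false,
   Spec.mk (nat_lit 8398) (nat_lit 0) [nat_lit 21520, nat_lit 4024, nat_lit 9856, nat_lit 7912, nat_lit 8236, nat_lit 8560, nat_lit 8452, nat_lit 8380, nat_lit 8400] (nat_lit 1) [nat_lit 28080] false,
   Spec.mk (nat_lit 8400) (nat_lit 0) [nat_lit 21522, nat_lit 4026, nat_lit 9858, nat_lit 7914, nat_lit 8238, nat_lit 8562, nat_lit 8454, nat_lit 8382, nat_lit 8406, nat_lit 8398] (nat_lit 1) [] false,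
   Spec.mk (nat_lit 8406) (nat_lit 1) [nat_lit 21528, nat_lit 4032, nat_lit 9864, nat_lit 7920, nat_lit 8244, nat_lit 8568, nat_lit 8460, nat_lit 8388, nat_lit 8400] (nat_lit 0) [] false,
   Spec.mk (nat_lit 8426) (nat_lit 0) [nat_lit 21548, nat_lit 4052, nat_lit 9884, nat_lit 7940, nat_lit 8588, nat_lit 8372, nat_lit 8428] (nat_lit 2) [nat_lit 28108] false,
   Spec.mk (nat_lit 8428) (nat_lit 0) [nat_lit 21550, nat_lit 4054, nat_lit 9886, nat_lit 7942, nat_lit 8590, nat_lit 8374, nat_lit 8434, nat_lit 8426, nat_lit 8430] (nat_lit 1) [nat_lit 28110] false,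
   Spec.mk (nat_lit 8430) (nat_lit 0) [nat_lit 21552, nat_lit 4056, nat_lit 9888, nat_lit 7944, nat_lit 8592, nat_lit 8376, nat_lit 8436, nat_lit 8428] (nat_lit 2) [] false,
   Spec.mk (nat_lit 8434) (nat_lit 0) [nat_lit 21556, nat_lit 4060, nat_lit 9892, nat_lit 7948, nat_lit 8596, nat_lit 8380, nat_lit 8452, nat_lit 8428, nat_lit 8436] (nat_lit 2) [nat_lit 28116] false,
   Spec.mk (nat_lit 8436) (nat_lit 0) [nat_lit 21558, nat_lit 4062, nat_lit 9894, nat_lit 7950, nat_lit 8598, nat_lit 8382, nat_lit 8454, nat_lit 8430, nat_lit 8442, nat_lit 8434] (nat_lit 1) [] false,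
   Spec.mk (nat_lit 8442) (nat_lit 0) [nat_lit 21564, nat_lit 4068, nat_lit 9900, nat_lit 7956, nat_lit 8604, nat_lit 8388, nat_lit 8460, nat_lit 8436] (nat_lit 2) [] false,
   Spec.mk (nat_lit 8452) (nat_lit 0) [nat_lit 21574, nat_lit 4078, nat_lit 9910, nat_lit 7966, nat_lit 8614, nat_lit 8398, nat_lit 8434, nat_lit 8454] (nat_lit 0) [nat_lit 28134] false,
   Spec.mk (nat_lit 8454) (nat_lit 0) [nat_lit 21576, nat_lit 4080, nat_lit 9912, nat_lit 7968, nat_lit 8616, nat_lit 8400, nat_lit 8436, nat_lit 8460, nat_lit 8452] (nat_lit 0) [] false,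
   Spec.mk (nat_lit 8460) (nat_lit 1) [nat_lit 21582, nat_lit 4086, nat_lit 9918, nat_lit 7974, nat_lit 8622, nat_lit 8406, nat_lit 8442, nat_lit 8478, nat_lit 8454] (nat_lit 0) [] false,
   Spec.mk (nat_lit 8478) (nat_lit 2) [nat_lit 21600, nat_lit 4104, nat_lit 9936, nat_lit 7992, nat_lit 8640, nat_lit 8460] (nat_lit 0) [] false,
   Spec.mk (nat_lit 8510) (nat_lit 0) [nat_lit 21632, nat_lit 4136, nat_lit 9968, nat_lit 8348, nat_lit 8516, nat_lit 8512] (nat_lit 0) [nat_lit 28192] false,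
   Spec.mk (nat_lit 8512) (nat_lit 0) [nat_lit 21634, nat_lit 4138, nat_lit 9970, nat_lit 8350, nat_lit 8518, nat_lit 8510] (nat_lit 0) [nat_lit 28194] false,
   Spec.mk (nat_lit 8516) (nat_lit 0) [nat_lit 21638, nat_lit 4142, nat_lit 9974, nat_lit 8354, nat_lit 8534, nat_lit 8510, nat_lit 8518] (nat_lit 2) [nat_lit 28198] false,
   Spec.mk (nat_lit 8518) (nat_lit 0) [nat_lit 21640, nat_lit 4144, nat_lit 9976, nat_lit 8356, nat_lit 8536, nat_lit 8512, nat_lit 8524, nat_lit 8516, nat_lit 8520] (nat_lit 0) [nat_lit 28200] false,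
   Spec.mk (nat_lit 8520) (nat_lit 0) [nat_lit 21642, nat_lit 4146, nat_lit 9978, nat_lit 8358, nat_lit 8538, nat_lit 8526, nat_lit 8518] (nat_lit 0) [] false,
   Spec.mk (nat_lit 8524) (nat_lit 0) [nat_lit 21646, nat_lit 4150, nat_lit 9982, nat_lit 8362, nat_lit 8542, nat_lit 8518, nat_lit 8526] (nat_lit 2) [nat_lit 28206] false,
   Spec.mk (nat_lit 8526) (nat_lit 0) [nat_lit 21648, nat_lit 4152, nat_lit 9984, nat_lit 8364, nat_lit 8544, nat_lit 8520, nat_lit 8524] (nat_lit 0) [] false,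
   Spec.mk (nat_lit 8534) (nat_lit 0) [nat_lit 21656, nat_lit 4160, nat_lit 9992, nat_lit 8372, nat_lit 8588, nat_lit 8516, nat_lit 8536] (nat_lit 2) [nat_lit 28216] false,
   Spec.mk (nat_lit 8536) (nat_lit 0) [nat_lit 21658, nat_lit 4162, nat_lit 9994, nat_lit 8374, nat_lit 8590, nat_lit 8518, nat_lit 8542, nat_lit 8534, nat_lit 8538] (nat_lit 1) [nat_lit 28218] false,
   Spec.mk (nat_lit 8538) (nat_lit 0) [nat_lit 21660, nat_lit 4164, nat_lit 9996, nat_lit 8376, nat_lit 8592, nat_lit 8520, nat_lit 8544, nat_lit 8536] (nat_lit 2) [] false,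
   Spec.mk (nat_lit 8542) (nat_lit 0) [nat_lit 21664, nat_lit 4168, nat_lit 10000, nat_lit 8380, nat_lit 8596, nat_lit 8524, nat_lit 8560, nat_lit 8536, nat_lit 8544] (nat_lit 1) [nat_lit 28224] false,
   Spec.mk (nat_lit 8544) (nat_lit 0) [nat_lit 21666, nat_lit 4170, nat_lit 10002, nat_lit 8382, nat_lit 8598, nat_lit 8526, nat_lit 8562, nat_lit 8538, nat_lit 8550, nat_lit 8542] (nat_lit 0) [] false,
   Spec.mk (nat_lit 8550) (nat_lit 0) [nat_lit 21672, nat_lit 4176, nat_lit 10008, nat_lit 8388, nat_lit 8604, nat_lit 8568, nat_lit 8544] (nat_lit 0) [] false,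
   Spec.mk (nat_lit 8560) (nat_lit 0) [nat_lit 21682, nat_lit 4186, nat_lit 10018, nat_lit 8398, nat_lit 8614, nat_lit 8542, nat_lit 8562] (nat_lit 2) [nat_lit 28242] false,
   Spec.mk (nat_lit 8562) (nat_lit 0) [nat_lit 21684, nat_lit 4188, nat_lit 10020, nat_lit 8400, nat_lit 8616, nat_lit 8544, nat_lit 8568, nat_lit 8560] (nat_lit 2) [] false,
   Spec.mk (nat_lit 8568) (nat_lit 0) [nat_lit 21690, nat_lit 4194, nat_lit 10026, nat_lit 8406, nat_lit 8622, nat_lit 8550, nat_lit 8562] (nat_lit 0) [] false,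
   Spec.mk (nat_lit 8588) (nat_lit 0) [nat_lit 21710, nat_lit 4214, nat_lit 10046, nat_lit 8426, nat_lit 8534, nat_lit 8590] (nat_lit 0) [nat_lit 28270] false,
   Spec.mk (nat_lit 8590) (nat_lit 1) [nat_lit 21712, nat_lit 4216, nat_lit 10048, nat_lit 8428, nat_lit 8536, nat_lit 8596, nat_lit 8588, nat_lit 8592] (nat_lit 0) [nat_lit 28272] false,
   Spec.mk (nat_lit 8592) (nat_lit 0) [nat_lit 21714, nat_lit 4218, nat_lit 10050, nat_lit 8430, nat_lit 8538, nat_lit 8598, nat_lit 8590] (nat_lit 0) [] false,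
   Spec.mk (nat_lit 8596) (nat_lit 0) [nat_lit 21718, nat_lit 4222, nat_lit 10054, nat_lit 8434, nat_lit 8542, nat_lit 8614, nat_lit 8590, nat_lit 8598] (nat_lit 0) [nat_lit 28278] false,
   Spec.mk (nat_lit 8598) (nat_lit 1) [nat_lit 21720, nat_lit 4224, nat_lit 10056, nat_lit 8436, nat_lit 8544, nat_lit 8616, nat_lit 8592, nat_lit 8604, nat_lit 8596] (nat_lit 0) [] false,
   Spec.mk (nat_lit 8604) (nat_lit 0) [nat_lit 21726, nat_lit 4230, nat_lit 10062, nat_lit 8442, nat_lit 8550, nat_lit 8622, nat_lit 8598] (nat_lit 0) [] false,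
   Spec.mk (nat_lit 8614) (nat_lit 1) [nat_lit 21736, nat_lit 4240, nat_lit 10072, nat_lit 8452, nat_lit 8560, nat_lit 8668, nat_lit 8596, nat_lit 8616] (nat_lit 0) [nat_lit 28296] false,
   Spec.mk (nat_lit 8616) (nat_lit 1) [nat_lit 21738, nat_lit 4242, nat_lit 10074, nat_lit 8454, nat_lit 8562, nat_lit 8670, nat_lit 8598, nat_lit 8622, nat_lit 8614] (nat_lit 0) [] false,
   Spec.mk (nat_lit 8622) (nat_lit 2) [nat_lit 21744, nat_lit 4248, nat_lit 10080, nat_lit 8460, nat_lit 8568, nat_lit 8676, nat_lit 8604, nat_lit 8640, nat_lit 8616] (nat_lit 0) [] false,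
   Spec.mk (nat_lit 8640) (nat_lit 2) [nat_lit 21762, nat_lit 4266, nat_lit 10098, nat_lit 8478, nat_lit 8694, nat_lit 8622] (nat_lit 0) [] false,
   Spec.mk (nat_lit 8668) (nat_lit 2) [nat_lit 21790, nat_lit 4294, nat_lit 10126, nat_lit 8614, nat_lit 8670] (nat_lit 0) [nat_lit 28350] false,
   Spec.mk (nat_lit 8670) (nat_lit 2) [nat_lit 21792, nat_lit 4296, nat_lit 10128, nat_lit 8616, nat_lit 8676, nat_lit 8668] (nat_lit 0) [] false,
   Spec.mk (nat_lit 8676) (nat_lit 2) [nat_lit 21798, nat_lit 4302, nat_lit 10134, nat_lit 8622, nat_lit 8694, nat_lit 8670] (nat_lit 0) [] false,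
   Spec.mk (nat_lit 8694) (nat_lit 4) [nat_lit 21816, nat_lit 4320, nat_lit 10152, nat_lit 8640, nat_lit 8676] (nat_lit 0) [] false]

noncomputable def sp25 : List Spec :=
  [Spec.mk (nat_lit 8774) (nat_lit 3) [nat_lit 21896, nat_lit 4400, nat_lit 13148, nat_lit 7316, nat_lit 8792] (nat_lit 0) [nat_lit 28456] false,
   Spec.mk (nat_lit 8792) (nat_lit 2) [nat_lit 21914, nat_lit 4418, nat_lit 13166, nat_lit 7334, nat_lit 8846, nat_lit 8774, nat_lit 8810, nat_lit 8798] (nat_lit 0) [nat_lit 28474] false,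
   Spec.mk (nat_lit 8798) (nat_lit 1) [nat_lit 21920, nat_lit 4424, nat_lit 13172, nat_lit 7340, nat_lit 8852, nat_lit 8816, nat_lit 8792, nat_lit 8800] (nat_lit 0) [nat_lit 28480] false,
   Spec.mk (nat_lit 8800) (nat_lit 3) [nat_lit 21922, nat_lit 4426, nat_lit 13174, nat_lit 7342, nat_lit 8854, nat_lit 8818, nat_lit 8798] (nat_lit 0) [nat_lit 28482] false,
   Spec.mk (nat_lit 8810) (nat_lit 0) [nat_lit 21932, nat_lit 4436, nat_lit 13184, nat_lit 7352, nat_lit 8864, nat_lit 8792, nat_lit 8816] (nat_lit 1) [nat_lit 28492] false,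
   Spec.mk (nat_lit 8816) (nat_lit 0) [nat_lit 21938, nat_lit 4442, nat_lit 13190, nat_lit 7358, nat_lit 8870, nat_lit 8798, nat_lit 8810, nat_lit 8822, nat_lit 8818] (nat_lit 0) [nat_lit 28498] false,
   Spec.mk (nat_lit 8818) (nat_lit 1) [nat_lit 21940, nat_lit 4444, nat_lit 13192, nat_lit 7360, nat_lit 8872, nat_lit 8800, nat_lit 8824, nat_lit 8816] (nat_lit 0) [nat_lit 28500] false,
   Spec.mk (nat_lit 8822) (nat_lit 0) [nat_lit 21944, nat_lit 4448, nat_lit 13196, nat_lit 7364, nat_lit 8876, nat_lit 8816, nat_lit 8824] (nat_lit 1) [nat_lit 28504] false,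
   Spec.mk (nat_lit 8824) (nat_lit 2) [nat_lit 21946, nat_lit 4450, nat_lit 13198, nat_lit 7366, nat_lit 8878, nat_lit 8818, nat_lit 8822, nat_lit 8826] (nat_lit 0) [nat_lit 28506] false,
   Spec.mk (nat_lit 8826) (nat_lit 3) [nat_lit 21948, nat_lit 4452, nat_lit 13200, nat_lit 7368, nat_lit 8880, nat_lit 8824] (nat_lit 0) [] false,
   Spec.mk (nat_lit 8846) (nat_lit 1) [nat_lit 21968, nat_lit 4472, nat_lit 13220, nat_lit 7388, nat_lit 9008, nat_lit 8792, nat_lit 8864, nat_lit 8852] (nat_lit 0) [nat_lit 28528] false,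
   Spec.mk (nat_lit 8852) (nat_lit 0) [nat_lit 21974, nat_lit 4478, nat_lit 13226, nat_lit 7394, nat_lit 9014, nat_lit 8798, nat_lit 8870, nat_lit 8846, nat_lit 8854] (nat_lit 1) [nat_lit 28534] false,
   Spec.mk (nat_lit 8854) (nat_lit 1) [nat_lit 21976, nat_lit 4480, nat_lit 13228, nat_lit 7396, nat_lit 9016, nat_lit 8800, nat_lit 8872, nat_lit 8852] (nat_lit 0) [nat_lit 28536] false,
   Spec.mk (nat_lit 8864) (nat_lit 0) [nat_lit 21986, nat_lit 4490, nat_lit 13238, nat_lit 7406, nat_lit 9026, nat_lit 8810, nat_lit 8918, nat_lit 8846, nat_lit 8870] (nat_lit 0) [nat_lit 28546] false,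
   Spec.mk (nat_lit 8870) (nat_lit 0) [nat_lit 21992, nat_lit 4496, nat_lit 13244, nat_lit 7412, nat_lit 9032, nat_lit 8816, nat_lit 8924, nat_lit 8852, nat_lit 8888, nat_lit 8864, nat_lit 8876, nat_lit 8872] (nat_lit 0) [nat_lit 28552] false,
   Spec.mk (nat_lit 8872) (nat_lit 1) [nat_lit 21994, nat_lit 4498, nat_lit 13246, nat_lit 7414, nat_lit 9034, nat_lit 8818, nat_lit 8926, nat_lit 8854, nat_lit 8890, nat_lit 8878, nat_lit 8870] (nat_lit 0) [nat_lit 28554] false,
   Spec.mk (nat_lit 8876) (nat_lit 0) [nat_lit 21998, nat_lit 4502, nat_lit 13250, nat_lit 7418, nat_lit 9038, nat_lit 8822, nat_lit 8930, nat_lit 8894, nat_lit 8870, nat_lit 8878] (nat_lit 2) [nat_lit 28558] false,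
   Spec.mk (nat_lit 8878) (nat_lit 1) [nat_lit 22000, nat_lit 4504, nat_lit 13252, nat_lit 7420, nat_lit 9040, nat_lit 8824, nat_lit 8932, nat_lit 8896, nat_lit 8872, nat_lit 8876, nat_lit 8880] (nat_lit 0) [nat_lit 28560] false,
   Spec.mk (nat_lit 8880) (nat_lit 2) [nat_lit 22002, nat_lit 4506, nat_lit 13254, nat_lit 7422, nat_lit 9042, nat_lit 8826, nat_lit 8934, nat_lit 8898, nat_lit 8878] (nat_lit 0) [] false,
   Spec.mk (nat_lit 8888) (nat_lit 0) [nat_lit 22010, nat_lit 4514, nat_lit 13262, nat_lit 7430, nat_lit 9050, nat_lit 8942, nat_lit 8870, nat_lit 8894, nat_lit 8890] (nat_lit 1) [nat_lit 28570] false,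
   Spec.mk (nat_lit 8890) (nat_lit 0) [nat_lit 22012, nat_lit 4516, nat_lit 13264, nat_lit 7432, nat_lit 9052, nat_lit 8944, nat_lit 8872, nat_lit 8896, nat_lit 8888] (nat_lit 1) [nat_lit 28572] false,
   Spec.mk (nat_lit 8894) (nat_lit 0) [nat_lit 22016, nat_lit 4520, nat_lit 13268, nat_lit 7436, nat_lit 9056, nat_lit 8948, nat_lit 8876, nat_lit 8888, nat_lit 8896] (nat_lit 1) [nat_lit 28576] false,
   Spec.mk (nat_lit 8896) (nat_lit 1) [nat_lit 22018, nat_lit 4522, nat_lit 13270, nat_lit 7438, nat_lit 9058, nat_lit 8950, nat_lit 8878, nat_lit 8890, nat_lit 8902, nat_lit 8894, nat_lit 8898] (nat_lit 0) [nat_lit 28578] false,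
   Spec.mk (nat_lit 8898) (nat_lit 1) [nat_lit 22020, nat_lit 4524, nat_lit 13272, nat_lit 7440, nat_lit 9060, nat_lit 8952, nat_lit 8880, nat_lit 8904, nat_lit 8896] (nat_lit 0) [] false,
   Spec.mk (nat_lit 8902) (nat_lit 1) [nat_lit 22024, nat_lit 4528, nat_lit 13276, nat_lit 7444, nat_lit 9064, nat_lit 8956, nat_lit 8896, nat_lit 8904] (nat_lit 0) [nat_lit 28584] false,
   Spec.mk (nat_lit 8904) (nat_lit 3) [nat_lit 22026, nat_lit 4530, nat_lit 13278, nat_lit 7446, nat_lit 9066, nat_lit 8958, nat_lit 8898, nat_lit 8902] (nat_lit 0) [] false,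
   Spec.mk (nat_lit 8918) (nat_lit 0) [nat_lit 22040, nat_lit 4544, nat_lit 13292, nat_lit 7460, nat_lit 9080, nat_lit 8864, nat_lit 8924] (nat_lit 1) [nat_lit 28600] false,
   Spec.mk (nat_lit 8924) (nat_lit 0) [nat_lit 22046, nat_lit 4550, nat_lit 13298, nat_lit 7466, nat_lit 9086, nat_lit 8870, nat_lit 8942, nat_lit 8918, nat_lit 8930, nat_lit 8926] (nat_lit 2) [nat_lit 28606] false,
   Spec.mk (nat_lit 8926) (nat_lit 0) [nat_lit 22048, nat_lit 4552, nat_lit 13300, nat_lit 7468, nat_lit 9088, nat_lit 8872, nat_lit 8944, nat_lit 8932, nat_lit 8924] (nat_lit 1) [nat_lit 28608] false,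
   Spec.mk (nat_lit 8930) (nat_lit 0) [nat_lit 22052, nat_lit 4556, nat_lit 13304, nat_lit 7472, nat_lit 9092, nat_lit 8876, nat_lit 8948, nat_lit 8924, nat_lit 8932] (nat_lit 5) [nat_lit 28612] false,
   Spec.mk (nat_lit 8932) (nat_lit 0) [nat_lit 22054, nat_lit 4558, nat_lit 13306, nat_lit 7474, nat_lit 9094, nat_lit 8878, nat_lit 8950, nat_lit 8926, nat_lit 8930, nat_lit 8934] (nat_lit 2) [nat_lit 28614] false,
   Spec.mk (nat_lit 8934) (nat_lit 0) [nat_lit 22056, nat_lit 4560, nat_lit 13308, nat_lit 7476, nat_lit 9096, nat_lit 8880, nat_lit 8952, nat_lit 8932] (nat_lit 1) [] false,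
   Spec.mk (nat_lit 8942) (nat_lit 0) [nat_lit 22064, nat_lit 4568, nat_lit 13316, nat_lit 7484, nat_lit 9104, nat_lit 8888, nat_lit 8924, nat_lit 8948, nat_lit 8944] (nat_lit 1) [nat_lit 28624] false,
   Spec.mk (nat_lit 8944) (nat_lit 0) [nat_lit 22066, nat_lit 4570, nat_lit 13318, nat_lit 7486, nat_lit 9106, nat_lit 8890, nat_lit 8926, nat_lit 8950, nat_lit 8942] (nat_lit 1) [nat_lit 28626] false,
   Spec.mk (nat_lit 8948) (nat_lit 0) [nat_lit 22070, nat_lit 4574, nat_lit 13322, nat_lit 7490, nat_lit 9110, nat_lit 8894, nat_lit 8930, nat_lit 8966, nat_lit 8942, nat_lit 8950] (nat_lit 2) [nat_lit 28630] false,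
   Spec.mk (nat_lit 8950) (nat_lit 0) [nat_lit 22072, nat_lit 4576, nat_lit 13324, nat_lit 7492, nat_lit 9112, nat_lit 8896, nat_lit 8932, nat_lit 8968, nat_lit 8944, nat_lit 8956, nat_lit 8948, nat_lit 8952] (nat_lit 0) [nat_lit 28632] false,
   Spec.mk (nat_lit 8952) (nat_lit 0) [nat_lit 22074, nat_lit 4578, nat_lit 13326, nat_lit 7494, nat_lit 9114, nat_lit 8898, nat_lit 8934, nat_lit 8970, nat_lit 8958, nat_lit 8950] (nat_lit 0) [] false,
   Spec.mk (nat_lit 8956) (nat_lit 0) [nat_lit 22078, nat_lit 4582, nat_lit 13330, nat_lit 7498, nat_lit 9118, nat_lit 8902, nat_lit 8974, nat_lit 8950, nat_lit 8958] (nat_lit 1) [nat_lit 28638] false,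
   Spec.mk (nat_lit 8958) (nat_lit 1) [nat_lit 22080, nat_lit 4584, nat_lit 13332, nat_lit 7500, nat_lit 9120, nat_lit 8904, nat_lit 8976, nat_lit 8952, nat_lit 8956] (nat_lit 0) [] false,
   Spec.mk (nat_lit 8966) (nat_lit 0) [nat_lit 22088, nat_lit 4592, nat_lit 13340, nat_lit 7508, nat_lit 9128, nat_lit 8948, nat_lit 8968] (nat_lit 1) [nat_lit 28648] false,
   Spec.mk (nat_lit 8968) (nat_lit 0) [nat_lit 22090, nat_lit 4594, nat_lit 13342, nat_lit 7510, nat_lit 9130, nat_lit 8950, nat_lit 8974, nat_lit 8966, nat_lit 8970] (nat_lit 0) [nat_lit 28650] false,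
   Spec.mk (nat_lit 8970) (nat_lit 0) [nat_lit 22092, nat_lit 4596, nat_lit 13344, nat_lit 7512, nat_lit 9132, nat_lit 8952, nat_lit 8976, nat_lit 8968] (nat_lit 1) [] false,
   Spec.mk (nat_lit 8974) (nat_lit 1) [nat_lit 22096, nat_lit 4600, nat_lit 13348, nat_lit 7516, nat_lit 9136, nat_lit 8956, nat_lit 8968, nat_lit 8976] (nat_lit 0) [nat_lit 28656] false,
   Spec.mk (nat_lit 8976) (nat_lit 2) [nat_lit 22098, nat_lit 4602, nat_lit 13350, nat_lit 7518, nat_lit 9138, nat_lit 8958, nat_lit 8970, nat_lit 8982, nat_lit 8974] (nat_lit 0) [] false,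
   Spec.mk (nat_lit 8982) (nat_lit 3) [nat_lit 22104, nat_lit 4608, nat_lit 13356, nat_lit 7524, nat_lit 9144, nat_lit 8976] (nat_lit 0) [] false,
   Spec.mk (nat_lit 9008) (nat_lit 1) [nat_lit 22130, nat_lit 4634, nat_lit 13382, nat_lit 7550, nat_lit 9494, nat_lit 8846, nat_lit 9026, nat_lit 9014] (nat_lit 0) [nat_lit 28690] false,
   Spec.mk (nat_lit 9014) (nat_lit 0) [nat_lit 22136, nat_lit 4640, nat_lit 13388, nat_lit 7556, nat_lit 9500, nat_lit 8852, nat_lit 9032, nat_lit 9008, nat_lit 9016] (nat_lit 1) [nat_lit 28696] false,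
   Spec.mk (nat_lit 9016) (nat_lit 1) [nat_lit 22138, nat_lit 4642, nat_lit 13390, nat_lit 7558, nat_lit 9502, nat_lit 8854, nat_lit 9034, nat_lit 9014] (nat_lit 0) [nat_lit 28698] false,
   Spec.mk (nat_lit 9026) (nat_lit 0) [nat_lit 22148, nat_lit 4652, nat_lit 13400, nat_lit 7568, nat_lit 9512, nat_lit 8864, nat_lit 9080, nat_lit 9008, nat_lit 9032] (nat_lit 1) [nat_lit 28708] false,
   Spec.mk (nat_lit 9032) (nat_lit 0) [nat_lit 22154, nat_lit 4658, nat_lit 13406, nat_lit 7574, nat_lit 9518, nat_lit 8870, nat_lit 9086, nat_lit 9014, nat_lit 9050, nat_lit 9026, nat_lit 9038, nat_lit 9034] (nat_lit 1) [nat_lit 28714] false,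
   Spec.mk (nat_lit 9034) (nat_lit 0) [nat_lit 22156, nat_lit 4660, nat_lit 13408, nat_lit 7576, nat_lit 9520, nat_lit 8872, nat_lit 9088, nat_lit 9016, nat_lit 9052, nat_lit 9040, nat_lit 9032] (nat_lit 0) [nat_lit 28716] false,
   Spec.mk (nat_lit 9038) (nat_lit 0) [nat_lit 22160, nat_lit 4664, nat_lit 13412, nat_lit 7580, nat_lit 9524, nat_lit 8876, nat_lit 9092, nat_lit 9056, nat_lit 9032, nat_lit 9040] (nat_lit 3) [nat_lit 28720] false,
   Spec.mk (nat_lit 9040) (nat_lit 0) [nat_lit 22162, nat_lit 4666, nat_lit 13414, nat_lit 7582, nat_lit 9526, nat_lit 8878, nat_lit 9094, nat_lit 9058, nat_lit 9034, nat_lit 9038, nat_lit 9042] (nat_lit 0) [nat_lit 28722] false,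
   Spec.mk (nat_lit 9042) (nat_lit 1) [nat_lit 22164, nat_lit 4668, nat_lit 13416, nat_lit 7584, nat_lit 9528, nat_lit 8880, nat_lit 9096, nat_lit 9060, nat_lit 9040] (nat_lit 0) [] false,
   Spec.mk (nat_lit 9050) (nat_lit 0) [nat_lit 22172, nat_lit 4676, nat_lit 13424, nat_lit 7592, nat_lit 9536, nat_lit 8888, nat_lit 9104, nat_lit 9032, nat_lit 9056, nat_lit 9052] (nat_lit 3) [nat_lit 28732] false,
   Spec.mk (nat_lit 9052) (nat_lit 0) [nat_lit 22174, nat_lit 4678, nat_lit 13426, nat_lit 7594, nat_lit 9538, nat_lit 8890, nat_lit 9106, nat_lit 9034, nat_lit 9058, nat_lit 9050] (nat_lit 3) [nat_lit 28734] false,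
   Spec.mk (nat_lit 9056) (nat_lit 0) [nat_lit 22178, nat_lit 4682, nat_lit 13430, nat_lit 7598, nat_lit 9542, nat_lit 8894, nat_lit 9110, nat_lit 9038, nat_lit 9050, nat_lit 9058] (nat_lit 3) [nat_lit 28738] false,
   Spec.mk (nat_lit 9058) (nat_lit 0) [nat_lit 22180, nat_lit 4684, nat_lit 13432, nat_lit 7600, nat_lit 9544, nat_lit 8896, nat_lit 9112, nat_lit 9040, nat_lit 9052, nat_lit 9064, nat_lit 9056, nat_lit 9060] (nat_lit 1) [nat_lit 28740] false,
   Spec.mk (nat_lit 9060) (nat_lit 0) [nat_lit 22182, nat_lit 4686, nat_lit 13434, nat_lit 7602, nat_lit 9546, nat_lit 8898, nat_lit 9114, nat_lit 9042, nat_lit 9066, nat_lit 9058] (nat_lit 1) [] false,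
   Spec.mk (nat_lit 9064) (nat_lit 0) [nat_lit 22186, nat_lit 4690, nat_lit 13438, nat_lit 7606, nat_lit 9550, nat_lit 8902, nat_lit 9118, nat_lit 9058, nat_lit 9066] (nat_lit 1) [nat_lit 28746] false]

noncomputable def sp26 : List Spec :=
  [Spec.mk (nat_lit 9066) (nat_lit 1) [nat_lit 22188, nat_lit 4692, nat_lit 13440, nat_lit 7608, nat_lit 9552, nat_lit 8904, nat_lit 9120, nat_lit 9060, nat_lit 9064] (nat_lit 0) [] false,
   Spec.mk (nat_lit 9080) (nat_lit 0) [nat_lit 22202, nat_lit 4706, nat_lit 13454, nat_lit 7622, nat_lit 9566, nat_lit 8918, nat_lit 9242, nat_lit 9026, nat_lit 9086] (nat_lit 0) [nat_lit 28762] false,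
   Spec.mk (nat_lit 9086) (nat_lit 0) [nat_lit 22208, nat_lit 4712, nat_lit 13460, nat_lit 7628, nat_lit 9572, nat_lit 8924, nat_lit 9248, nat_lit 9032, nat_lit 9104, nat_lit 9080, nat_lit 9092, nat_lit 9088] (nat_lit 1) [nat_lit 28768] true,
   Spec.mk (nat_lit 9088) (nat_lit 0) [nat_lit 22210, nat_lit 4714, nat_lit 13462, nat_lit 7630, nat_lit 9574, nat_lit 8926, nat_lit 9250, nat_lit 9034, nat_lit 9106, nat_lit 9094, nat_lit 9086] (nat_lit 0) [nat_lit 28770] true,
   Spec.mk (nat_lit 9092) (nat_lit 0) [nat_lit 22214, nat_lit 4718, nat_lit 13466, nat_lit 7634, nat_lit 9578, nat_lit 8930, nat_lit 9254, nat_lit 9038, nat_lit 9110, nat_lit 9086, nat_lit 9094] (nat_lit 4) [nat_lit 28774] true,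
   Spec.mk (nat_lit 9094) (nat_lit 0) [nat_lit 22216, nat_lit 4720, nat_lit 13468, nat_lit 7636, nat_lit 9580, nat_lit 8932, nat_lit 9256, nat_lit 9040, nat_lit 9112, nat_lit 9088, nat_lit 9092, nat_lit 9096] (nat_lit 1) [nat_lit 28776] false,
   Spec.mk (nat_lit 9096) (nat_lit 0) [nat_lit 22218, nat_lit 4722, nat_lit 13470, nat_lit 7638, nat_lit 9582, nat_lit 8934, nat_lit 9258, nat_lit 9042, nat_lit 9114, nat_lit 9094] (nat_lit 0) [] false,
   Spec.mk (nat_lit 9104) (nat_lit 0) [nat_lit 22226, nat_lit 4730, nat_lit 13478, nat_lit 7646, nat_lit 9590, nat_lit 8942, nat_lit 9266, nat_lit 9050, nat_lit 9158, nat_lit 9086, nat_lit 9110, nat_lit 9106] (nat_lit 1) [nat_lit 28786] true,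
   Spec.mk (nat_lit 9106) (nat_lit 0) [nat_lit 22228, nat_lit 4732, nat_lit 13480, nat_lit 7648, nat_lit 9592, nat_lit 8944, nat_lit 9268, nat_lit 9052, nat_lit 9160, nat_lit 9088, nat_lit 9112, nat_lit 9104] (nat_lit 1) [nat_lit 28788] true,
   Spec.mk (nat_lit 9110) (nat_lit 0) [nat_lit 22232, nat_lit 4736, nat_lit 13484, nat_lit 7652, nat_lit 9596, nat_lit 8948, nat_lit 9272, nat_lit 9056, nat_lit 9164, nat_lit 9092, nat_lit 9128, nat_lit 9104, nat_lit 9112] (nat_lit 2) [nat_lit 28792] true,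
   Spec.mk (nat_lit 9112) (nat_lit 0) [nat_lit 22234, nat_lit 4738, nat_lit 13486, nat_lit 7654, nat_lit 9598, nat_lit 8950, nat_lit 9274, nat_lit 9058, nat_lit 9166, nat_lit 9094, nat_lit 9130, nat_lit 9106, nat_lit 9118, nat_lit 9110, nat_lit 9114] (nat_lit 0) [nat_lit 28794] true,
   Spec.mk (nat_lit 9114) (nat_lit 0) [nat_lit 22236, nat_lit 4740, nat_lit 13488, nat_lit 7656, nat_lit 9600, nat_lit 8952, nat_lit 9276, nat_lit 9060, nat_lit 9168, nat_lit 9096, nat_lit 9132, nat_lit 9120, nat_lit 9112] (nat_lit 0) [] false,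
   Spec.mk (nat_lit 9118) (nat_lit 0) [nat_lit 22240, nat_lit 4744, nat_lit 13492, nat_lit 7660, nat_lit 9604, nat_lit 8956, nat_lit 9280, nat_lit 9064, nat_lit 9172, nat_lit 9136, nat_lit 9112, nat_lit 9120] (nat_lit 1) [nat_lit 28800] false,
   Spec.mk (nat_lit 9120) (nat_lit 1) [nat_lit 22242, nat_lit 4746, nat_lit 13494, nat_lit 7662, nat_lit 9606, nat_lit 8958, nat_lit 9282, nat_lit 9066, nat_lit 9174, nat_lit 9138, nat_lit 9114, nat_lit 9118] (nat_lit 0) [] false,
   Spec.mk (nat_lit 9128) (nat_lit 0) [nat_lit 22250, nat_lit 4754, nat_lit 13502, nat_lit 7670, nat_lit 9614, nat_lit 8966, nat_lit 9290, nat_lit 9182, nat_lit 9110, nat_lit 9130] (nat_lit 2) [nat_lit 28810] false,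
   Spec.mk (nat_lit 9130) (nat_lit 0) [nat_lit 22252, nat_lit 4756, nat_lit 13504, nat_lit 7672, nat_lit 9616, nat_lit 8968, nat_lit 9292, nat_lit 9184, nat_lit 9112, nat_lit 9136, nat_lit 9128, nat_lit 9132] (nat_lit 1) [nat_lit 28812] false,
   Spec.mk (nat_lit 9132) (nat_lit 0) [nat_lit 22254, nat_lit 4758, nat_lit 13506, nat_lit 7674, nat_lit 9618, nat_lit 8970, nat_lit 9294, nat_lit 9186, nat_lit 9114, nat_lit 9138, nat_lit 9130] (nat_lit 2) [] false,
   Spec.mk (nat_lit 9136) (nat_lit 0) [nat_lit 22258, nat_lit 4762, nat_lit 13510, nat_lit 7678, nat_lit 9622, nat_lit 8974, nat_lit 9298, nat_lit 9190, nat_lit 9118, nat_lit 9130, nat_lit 9138] (nat_lit 0) [nat_lit 28818] false,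
   Spec.mk (nat_lit 9138) (nat_lit 1) [nat_lit 22260, nat_lit 4764, nat_lit 13512, nat_lit 7680, nat_lit 9624, nat_lit 8976, nat_lit 9300, nat_lit 9192, nat_lit 9120, nat_lit 9132, nat_lit 9144, nat_lit 9136] (nat_lit 0) [] false,
   Spec.mk (nat_lit 9144) (nat_lit 2) [nat_lit 22266, nat_lit 4770, nat_lit 13518, nat_lit 7686, nat_lit 9630, nat_lit 8982, nat_lit 9306, nat_lit 9198, nat_lit 9138] (nat_lit 0) [] false,
   Spec.mk (nat_lit 9158) (nat_lit 0) [nat_lit 22280, nat_lit 4784, nat_lit 13532, nat_lit 7700, nat_lit 9644, nat_lit 9320, nat_lit 9104, nat_lit 9164, nat_lit 9160] (nat_lit 1) [nat_lit 28840] false,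
   Spec.mk (nat_lit 9160) (nat_lit 0) [nat_lit 22282, nat_lit 4786, nat_lit 13534, nat_lit 7702, nat_lit 9646, nat_lit 9322, nat_lit 9106, nat_lit 9166, nat_lit 9158] (nat_lit 1) [nat_lit 28842] false,
   Spec.mk (nat_lit 9164) (nat_lit 0) [nat_lit 22286, nat_lit 4790, nat_lit 13538, nat_lit 7706, nat_lit 9650, nat_lit 9326, nat_lit 9110, nat_lit 9182, nat_lit 9158, nat_lit 9166] (nat_lit 3) [nat_lit 28846] false,
   Spec.mk (nat_lit 9166) (nat_lit 0) [nat_lit 22288, nat_lit 4792, nat_lit 13540, nat_lit 7708, nat_lit 9652, nat_lit 9328, nat_lit 9112, nat_lit 9184, nat_lit 9160, nat_lit 9172, nat_lit 9164, nat_lit 9168] (nat_lit 1) [nat_lit 28848] false,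
   Spec.mk (nat_lit 9168) (nat_lit 0) [nat_lit 22290, nat_lit 4794, nat_lit 13542, nat_lit 7710, nat_lit 9654, nat_lit 9330, nat_lit 9114, nat_lit 9186, nat_lit 9174, nat_lit 9166] (nat_lit 1) [] false,
   Spec.mk (nat_lit 9172) (nat_lit 0) [nat_lit 22294, nat_lit 4798, nat_lit 13546, nat_lit 7714, nat_lit 9658, nat_lit 9334, nat_lit 9118, nat_lit 9190, nat_lit 9166, nat_lit 9174] (nat_lit 3) [nat_lit 28854] false,
   Spec.mk (nat_lit 9174) (nat_lit 0) [nat_lit 22296, nat_lit 4800, nat_lit 13548, nat_lit 7716, nat_lit 9660, nat_lit 9336, nat_lit 9120, nat_lit 9192, nat_lit 9168, nat_lit 9172] (nat_lit 1) [] false,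
   Spec.mk (nat_lit 9182) (nat_lit 0) [nat_lit 22304, nat_lit 4808, nat_lit 13556, nat_lit 7724, nat_lit 9668, nat_lit 9344, nat_lit 9128, nat_lit 9164, nat_lit 9184] (nat_lit 1) [nat_lit 28864] false,
   Spec.mk (nat_lit 9184) (nat_lit 0) [nat_lit 22306, nat_lit 4810, nat_lit 13558, nat_lit 7726, nat_lit 9670, nat_lit 9346, nat_lit 9130, nat_lit 9166, nat_lit 9190, nat_lit 9182, nat_lit 9186] (nat_lit 0) [nat_lit 28866] false,
   Spec.mk (nat_lit 9186) (nat_lit 0) [nat_lit 22308, nat_lit 4812, nat_lit 13560, nat_lit 7728, nat_lit 9672, nat_lit 9348, nat_lit 9132, nat_lit 9168, nat_lit 9192, nat_lit 9184] (nat_lit 1) [] false,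
   Spec.mk (nat_lit 9190) (nat_lit 0) [nat_lit 22312, nat_lit 4816, nat_lit 13564, nat_lit 7732, nat_lit 9676, nat_lit 9352, nat_lit 9136, nat_lit 9172, nat_lit 9208, nat_lit 9184, nat_lit 9192] (nat_lit 0) [nat_lit 28872] false,
   Spec.mk (nat_lit 9192) (nat_lit 1) [nat_lit 22314, nat_lit 4818, nat_lit 13566, nat_lit 7734, nat_lit 9678, nat_lit 9354, nat_lit 9138, nat_lit 9174, nat_lit 9210, nat_lit 9186, nat_lit 9198, nat_lit 9190] (nat_lit 0) [] false,
   Spec.mk (nat_lit 9198) (nat_lit 1) [nat_lit 22320, nat_lit 4824, nat_lit 13572, nat_lit 7740, nat_lit 9684, nat_lit 9360, nat_lit 9144, nat_lit 9216, nat_lit 9192] (nat_lit 0) [] false,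
   Spec.mk (nat_lit 9208) (nat_lit 1) [nat_lit 22330, nat_lit 4834, nat_lit 13582, nat_lit 7750, nat_lit 9694, nat_lit 9370, nat_lit 9190, nat_lit 9210] (nat_lit 0) [nat_lit 28890] false,
   Spec.mk (nat_lit 9210) (nat_lit 1) [nat_lit 22332, nat_lit 4836, nat_lit 13584, nat_lit 7752, nat_lit 9696, nat_lit 9372, nat_lit 9192, nat_lit 9216, nat_lit 9208] (nat_lit 0) [] false,
   Spec.mk (nat_lit 9216) (nat_lit 3) [nat_lit 22338, nat_lit 4842, nat_lit 13590, nat_lit 7758, nat_lit 9702, nat_lit 9378, nat_lit 9198, nat_lit 9210] (nat_lit 0) [] false,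
   Spec.mk (nat_lit 9242) (nat_lit 0) [nat_lit 22364, nat_lit 4868, nat_lit 13616, nat_lit 7784, nat_lit 9728, nat_lit 9080, nat_lit 9248] (nat_lit 1) [nat_lit 28924] false,
   Spec.mk (nat_lit 9248) (nat_lit 0) [nat_lit 22370, nat_lit 4874, nat_lit 13622, nat_lit 7790, nat_lit 9734, nat_lit 9086, nat_lit 9266, nat_lit 9242, nat_lit 9254, nat_lit 9250] (nat_lit 2) [nat_lit 28930] false,
   Spec.mk (nat_lit 9250) (nat_lit 0) [nat_lit 22372, nat_lit 4876, nat_lit 13624, nat_lit 7792, nat_lit 9736, nat_lit 9088, nat_lit 9268, nat_lit 9256, nat_lit 9248] (nat_lit 1) [nat_lit 28932] false,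
   Spec.mk (nat_lit 9254) (nat_lit 0) [nat_lit 22376, nat_lit 4880, nat_lit 13628, nat_lit 7796, nat_lit 9740, nat_lit 9092, nat_lit 9272, nat_lit 9248, nat_lit 9256] (nat_lit 5) [nat_lit 28936] false,
   Spec.mk (nat_lit 9256) (nat_lit 0) [nat_lit 22378, nat_lit 4882, nat_lit 13630, nat_lit 7798, nat_lit 9742, nat_lit 9094, nat_lit 9274, nat_lit 9250, nat_lit 9254, nat_lit 9258] (nat_lit 2) [nat_lit 28938] false,
   Spec.mk (nat_lit 9258) (nat_lit 0) [nat_lit 22380, nat_lit 4884, nat_lit 13632, nat_lit 7800, nat_lit 9744, nat_lit 9096, nat_lit 9276, nat_lit 9256] (nat_lit 1) [] false,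
   Spec.mk (nat_lit 9266) (nat_lit 0) [nat_lit 22388, nat_lit 4892, nat_lit 13640, nat_lit 7808, nat_lit 9752, nat_lit 9104, nat_lit 9320, nat_lit 9248, nat_lit 9272, nat_lit 9268] (nat_lit 3) [nat_lit 28948] false,
   Spec.mk (nat_lit 9268) (nat_lit 0) [nat_lit 22390, nat_lit 4894, nat_lit 13642, nat_lit 7810, nat_lit 9754, nat_lit 9106, nat_lit 9322, nat_lit 9250, nat_lit 9274, nat_lit 9266] (nat_lit 3) [nat_lit 28950] false,
   Spec.mk (nat_lit 9272) (nat_lit 0) [nat_lit 22394, nat_lit 4898, nat_lit 13646, nat_lit 7814, nat_lit 9758, nat_lit 9110, nat_lit 9326, nat_lit 9254, nat_lit 9290, nat_lit 9266, nat_lit 9274] (nat_lit 4) [nat_lit 28954] true,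
   Spec.mk (nat_lit 9274) (nat_lit 0) [nat_lit 22396, nat_lit 4900, nat_lit 13648, nat_lit 7816, nat_lit 9760, nat_lit 9112, nat_lit 9328, nat_lit 9256, nat_lit 9292, nat_lit 9268, nat_lit 9280, nat_lit 9272, nat_lit 9276] (nat_lit 2) [nat_lit 28956] false,
   Spec.mk (nat_lit 9276) (nat_lit 0) [nat_lit 22398, nat_lit 4902, nat_lit 13650, nat_lit 7818, nat_lit 9762, nat_lit 9114, nat_lit 9330, nat_lit 9258, nat_lit 9294, nat_lit 9282, nat_lit 9274] (nat_lit 2) [] false,
   Spec.mk (nat_lit 9280) (nat_lit 0) [nat_lit 22402, nat_lit 4906, nat_lit 13654, nat_lit 7822, nat_lit 9766, nat_lit 9118, nat_lit 9334, nat_lit 9298, nat_lit 9274, nat_lit 9282] (nat_lit 3) [nat_lit 28962] false,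
   Spec.mk (nat_lit 9282) (nat_lit 0) [nat_lit 22404, nat_lit 4908, nat_lit 13656, nat_lit 7824, nat_lit 9768, nat_lit 9120, nat_lit 9336, nat_lit 9300, nat_lit 9276, nat_lit 9280] (nat_lit 1) [] false,
   Spec.mk (nat_lit 9290) (nat_lit 0) [nat_lit 22412, nat_lit 4916, nat_lit 13664, nat_lit 7832, nat_lit 9776, nat_lit 9128, nat_lit 9344, nat_lit 9272, nat_lit 9292] (nat_lit 5) [nat_lit 28972] false,
   Spec.mk (nat_lit 9292) (nat_lit 0) [nat_lit 22414, nat_lit 4918, nat_lit 13666, nat_lit 7834, nat_lit 9778, nat_lit 9130, nat_lit 9346, nat_lit 9274, nat_lit 9298, nat_lit 9290, nat_lit 9294] (nat_lit 4) [nat_lit 28974] false,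
   Spec.mk (nat_lit 9294) (nat_lit 0) [nat_lit 22416, nat_lit 4920, nat_lit 13668, nat_lit 7836, nat_lit 9780, nat_lit 9132, nat_lit 9348, nat_lit 9276, nat_lit 9300, nat_lit 9292] (nat_lit 5) [] false,
   Spec.mk (nat_lit 9298) (nat_lit 0) [nat_lit 22420, nat_lit 4924, nat_lit 13672, nat_lit 7840, nat_lit 9784, nat_lit 9136, nat_lit 9352, nat_lit 9280, nat_lit 9292, nat_lit 9300] (nat_lit 3) [nat_lit 28980] false,
   Spec.mk (nat_lit 9300) (nat_lit 0) [nat_lit 22422, nat_lit 4926, nat_lit 13674, nat_lit 7842, nat_lit 9786, nat_lit 9138, nat_lit 9354, nat_lit 9282, nat_lit 9294, nat_lit 9306, nat_lit 9298] (nat_lit 2) [] false,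
   Spec.mk (nat_lit 9306) (nat_lit 0) [nat_lit 22428, nat_lit 4932, nat_lit 13680, nat_lit 7848, nat_lit 9792, nat_lit 9144, nat_lit 9360, nat_lit 9300] (nat_lit 1) [] false,
   Spec.mk (nat_lit 9320) (nat_lit 0) [nat_lit 22442, nat_lit 4946, nat_lit 13694, nat_lit 7862, nat_lit 9806, nat_lit 9158, nat_lit 9266, nat_lit 9326, nat_lit 9322] (nat_lit 1) [nat_lit 29002] false,
   Spec.mk (nat_lit 9322) (nat_lit 0) [nat_lit 22444, nat_lit 4948, nat_lit 13696, nat_lit 7864, nat_lit 9808, nat_lit 9160, nat_lit 9268, nat_lit 9328, nat_lit 9320] (nat_lit 1) [nat_lit 29004] false,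
   Spec.mk (nat_lit 9326) (nat_lit 0) [nat_lit 22448, nat_lit 4952, nat_lit 13700, nat_lit 7868, nat_lit 9812, nat_lit 9164, nat_lit 9272, nat_lit 9344, nat_lit 9320, nat_lit 9328] (nat_lit 3) [nat_lit 29008] false,
   Spec.mk (nat_lit 9328) (nat_lit 0) [nat_lit 22450, nat_lit 4954, nat_lit 13702, nat_lit 7870, nat_lit 9814, nat_lit 9166, nat_lit 9274, nat_lit 9346, nat_lit 9322, nat_lit 9334, nat_lit 9326, nat_lit 9330] (nat_lit 1) [nat_lit 29010] false,
   Spec.mk (nat_lit 9330) (nat_lit 0) [nat_lit 22452, nat_lit 4956, nat_lit 13704, nat_lit 7872, nat_lit 9816, nat_lit 9168, nat_lit 9276, nat_lit 9348, nat_lit 9336, nat_lit 9328] (nat_lit 1) [] false]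

noncomputable def sp27 : List Spec :=
  [Spec.mk (nat_lit 9334) (nat_lit 0) [nat_lit 22456, nat_lit 4960, nat_lit 13708, nat_lit 7876, nat_lit 9820, nat_lit 9172, nat_lit 9280, nat_lit 9352, nat_lit 9328, nat_lit 9336] (nat_lit 3) [nat_lit 29016] false,
   Spec.mk (nat_lit 9336) (nat_lit 0) [nat_lit 22458, nat_lit 4962, nat_lit 13710, nat_lit 7878, nat_lit 9822, nat_lit 9174, nat_lit 9282, nat_lit 9354, nat_lit 9330, nat_lit 9334] (nat_lit 1) [] false,
   Spec.mk (nat_lit 9344) (nat_lit 0) [nat_lit 22466, nat_lit 4970, nat_lit 13718, nat_lit 7886, nat_lit 9830, nat_lit 9182, nat_lit 9290, nat_lit 9398, nat_lit 9326, nat_lit 9346] (nat_lit 2) [nat_lit 29026] false,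
   Spec.mk (nat_lit 9346) (nat_lit 0) [nat_lit 22468, nat_lit 4972, nat_lit 13720, nat_lit 7888, nat_lit 9832, nat_lit 9184, nat_lit 9292, nat_lit 9400, nat_lit 9328, nat_lit 9352, nat_lit 9344, nat_lit 9348] (nat_lit 1) [nat_lit 29028] false,
   Spec.mk (nat_lit 9348) (nat_lit 0) [nat_lit 22470, nat_lit 4974, nat_lit 13722, nat_lit 7890, nat_lit 9834, nat_lit 9186, nat_lit 9294, nat_lit 9402, nat_lit 9330, nat_lit 9354, nat_lit 9346] (nat_lit 2) [] false,
   Spec.mk (nat_lit 9352) (nat_lit 0) [nat_lit 22474, nat_lit 4978, nat_lit 13726, nat_lit 7894, nat_lit 9838, nat_lit 9190, nat_lit 9298, nat_lit 9406, nat_lit 9334, nat_lit 9370, nat_lit 9346, nat_lit 9354] (nat_lit 1) [nat_lit 29034] false,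
   Spec.mk (nat_lit 9354) (nat_lit 0) [nat_lit 22476, nat_lit 4980, nat_lit 13728, nat_lit 7896, nat_lit 9840, nat_lit 9192, nat_lit 9300, nat_lit 9408, nat_lit 9336, nat_lit 9372, nat_lit 9348, nat_lit 9360, nat_lit 9352] (nat_lit 0) [] false,
   Spec.mk (nat_lit 9360) (nat_lit 0) [nat_lit 22482, nat_lit 4986, nat_lit 13734, nat_lit 7902, nat_lit 9846, nat_lit 9198, nat_lit 9306, nat_lit 9414, nat_lit 9378, nat_lit 9354] (nat_lit 0) [] false,
   Spec.mk (nat_lit 9370) (nat_lit 0) [nat_lit 22492, nat_lit 4996, nat_lit 13744, nat_lit 7912, nat_lit 9856, nat_lit 9208, nat_lit 9424, nat_lit 9352, nat_lit 9372] (nat_lit 1) [nat_lit 29052] false,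
   Spec.mk (nat_lit 9372) (nat_lit 0) [nat_lit 22494, nat_lit 4998, nat_lit 13746, nat_lit 7914, nat_lit 9858, nat_lit 9210, nat_lit 9426, nat_lit 9354, nat_lit 9378, nat_lit 9370] (nat_lit 1) [] false,
   Spec.mk (nat_lit 9378) (nat_lit 1) [nat_lit 22500, nat_lit 5004, nat_lit 13752, nat_lit 7920, nat_lit 9864, nat_lit 9216, nat_lit 9432, nat_lit 9360, nat_lit 9372] (nat_lit 0) [] false,
   Spec.mk (nat_lit 9398) (nat_lit 0) [nat_lit 22520, nat_lit 5024, nat_lit 13772, nat_lit 7940, nat_lit 9884, nat_lit 9344, nat_lit 9400] (nat_lit 1) [nat_lit 29080] false,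
   Spec.mk (nat_lit 9400) (nat_lit 0) [nat_lit 22522, nat_lit 5026, nat_lit 13774, nat_lit 7942, nat_lit 9886, nat_lit 9346, nat_lit 9406, nat_lit 9398, nat_lit 9402] (nat_lit 0) [nat_lit 29082] false,
   Spec.mk (nat_lit 9402) (nat_lit 0) [nat_lit 22524, nat_lit 5028, nat_lit 13776, nat_lit 7944, nat_lit 9888, nat_lit 9348, nat_lit 9408, nat_lit 9400] (nat_lit 1) [] false,
   Spec.mk (nat_lit 9406) (nat_lit 0) [nat_lit 22528, nat_lit 5032, nat_lit 13780, nat_lit 7948, nat_lit 9892, nat_lit 9352, nat_lit 9424, nat_lit 9400, nat_lit 9408] (nat_lit 1) [nat_lit 29088] false,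
   Spec.mk (nat_lit 9408) (nat_lit 0) [nat_lit 22530, nat_lit 5034, nat_lit 13782, nat_lit 7950, nat_lit 9894, nat_lit 9354, nat_lit 9426, nat_lit 9402, nat_lit 9414, nat_lit 9406] (nat_lit 0) [] false,
   Spec.mk (nat_lit 9414) (nat_lit 0) [nat_lit 22536, nat_lit 5040, nat_lit 13788, nat_lit 7956, nat_lit 9900, nat_lit 9360, nat_lit 9432, nat_lit 9408] (nat_lit 1) [] false,
   Spec.mk (nat_lit 9424) (nat_lit 1) [nat_lit 22546, nat_lit 5050, nat_lit 13798, nat_lit 7966, nat_lit 9910, nat_lit 9370, nat_lit 9406, nat_lit 9426] (nat_lit 0) [nat_lit 29106] false,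
   Spec.mk (nat_lit 9426) (nat_lit 1) [nat_lit 22548, nat_lit 5052, nat_lit 13800, nat_lit 7968, nat_lit 9912, nat_lit 9372, nat_lit 9408, nat_lit 9432, nat_lit 9424] (nat_lit 0) [] false,
   Spec.mk (nat_lit 9432) (nat_lit 2) [nat_lit 22554, nat_lit 5058, nat_lit 13806, nat_lit 7974, nat_lit 9918, nat_lit 9378, nat_lit 9414, nat_lit 9450, nat_lit 9426] (nat_lit 0) [] false,
   Spec.mk (nat_lit 9450) (nat_lit 3) [nat_lit 22572, nat_lit 5076, nat_lit 13824, nat_lit 7992, nat_lit 9936, nat_lit 9432] (nat_lit 0) [] false,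
   Spec.mk (nat_lit 9494) (nat_lit 2) [nat_lit 22616, nat_lit 5120, nat_lit 13868, nat_lit 8036, nat_lit 10952, nat_lit 9008, nat_lit 9512, nat_lit 9500] (nat_lit 0) [nat_lit 29176] false,
   Spec.mk (nat_lit 9500) (nat_lit 0) [nat_lit 22622, nat_lit 5126, nat_lit 13874, nat_lit 8042, nat_lit 10958, nat_lit 9014, nat_lit 9518, nat_lit 9494, nat_lit 9502] (nat_lit 0) [nat_lit 29182] false,
   Spec.mk (nat_lit 9502) (nat_lit 2) [nat_lit 22624, nat_lit 5128, nat_lit 13876, nat_lit 8044, nat_lit 10960, nat_lit 9016, nat_lit 9520, nat_lit 9500] (nat_lit 0) [nat_lit 29184] false,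
   Spec.mk (nat_lit 9512) (nat_lit 0) [nat_lit 22634, nat_lit 5138, nat_lit 13886, nat_lit 8054, nat_lit 10970, nat_lit 9026, nat_lit 9566, nat_lit 9494, nat_lit 9518] (nat_lit 0) [nat_lit 29194] false,
   Spec.mk (nat_lit 9518) (nat_lit 0) [nat_lit 22640, nat_lit 5144, nat_lit 13892, nat_lit 8060, nat_lit 10976, nat_lit 9032, nat_lit 9572, nat_lit 9500, nat_lit 9536, nat_lit 9512, nat_lit 9524, nat_lit 9520] (nat_lit 0) [nat_lit 29200] false,
   Spec.mk (nat_lit 9520) (nat_lit 1) [nat_lit 22642, nat_lit 5146, nat_lit 13894, nat_lit 8062, nat_lit 10978, nat_lit 9034, nat_lit 9574, nat_lit 9502, nat_lit 9538, nat_lit 9526, nat_lit 9518] (nat_lit 0) [nat_lit 29202] false,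
   Spec.mk (nat_lit 9524) (nat_lit 0) [nat_lit 22646, nat_lit 5150, nat_lit 13898, nat_lit 8066, nat_lit 10982, nat_lit 9038, nat_lit 9578, nat_lit 9542, nat_lit 9518, nat_lit 9526] (nat_lit 2) [nat_lit 29206] false,
   Spec.mk (nat_lit 9526) (nat_lit 1) [nat_lit 22648, nat_lit 5152, nat_lit 13900, nat_lit 8068, nat_lit 10984, nat_lit 9040, nat_lit 9580, nat_lit 9544, nat_lit 9520, nat_lit 9524, nat_lit 9528] (nat_lit 0) [nat_lit 29208] false,
   Spec.mk (nat_lit 9528) (nat_lit 2) [nat_lit 22650, nat_lit 5154, nat_lit 13902, nat_lit 8070, nat_lit 10986, nat_lit 9042, nat_lit 9582, nat_lit 9546, nat_lit 9526] (nat_lit 0) [] false,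
   Spec.mk (nat_lit 9536) (nat_lit 0) [nat_lit 22658, nat_lit 5162, nat_lit 13910, nat_lit 8078, nat_lit 10994, nat_lit 9050, nat_lit 9590, nat_lit 9518, nat_lit 9542, nat_lit 9538] (nat_lit 2) [nat_lit 29218] false,
   Spec.mk (nat_lit 9538) (nat_lit 0) [nat_lit 22660, nat_lit 5164, nat_lit 13912, nat_lit 8080, nat_lit 10996, nat_lit 9052, nat_lit 9592, nat_lit 9520, nat_lit 9544, nat_lit 9536] (nat_lit 2) [nat_lit 29220] false,
   Spec.mk (nat_lit 9542) (nat_lit 0) [nat_lit 22664, nat_lit 5168, nat_lit 13916, nat_lit 8084, nat_lit 11000, nat_lit 9056, nat_lit 9596, nat_lit 9524, nat_lit 9536, nat_lit 9544] (nat_lit 2) [nat_lit 29224] false,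
   Spec.mk (nat_lit 9544) (nat_lit 0) [nat_lit 22666, nat_lit 5170, nat_lit 13918, nat_lit 8086, nat_lit 11002, nat_lit 9058, nat_lit 9598, nat_lit 9526, nat_lit 9538, nat_lit 9550, nat_lit 9542, nat_lit 9546] (nat_lit 0) [nat_lit 29226] false,
   Spec.mk (nat_lit 9546) (nat_lit 0) [nat_lit 22668, nat_lit 5172, nat_lit 13920, nat_lit 8088, nat_lit 11004, nat_lit 9060, nat_lit 9600, nat_lit 9528, nat_lit 9552, nat_lit 9544] (nat_lit 0) [] false,
   Spec.mk (nat_lit 9550) (nat_lit 0) [nat_lit 22672, nat_lit 5176, nat_lit 13924, nat_lit 8092, nat_lit 11008, nat_lit 9064, nat_lit 9604, nat_lit 9544, nat_lit 9552] (nat_lit 0) [nat_lit 29232] false,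
   Spec.mk (nat_lit 9552) (nat_lit 2) [nat_lit 22674, nat_lit 5178, nat_lit 13926, nat_lit 8094, nat_lit 11010, nat_lit 9066, nat_lit 9606, nat_lit 9546, nat_lit 9550] (nat_lit 0) [] false,
   Spec.mk (nat_lit 9566) (nat_lit 0) [nat_lit 22688, nat_lit 5192, nat_lit 13940, nat_lit 8108, nat_lit 11024, nat_lit 9080, nat_lit 9728, nat_lit 9512, nat_lit 9572] (nat_lit 0) [nat_lit 29248] false,
   Spec.mk (nat_lit 9572) (nat_lit 0) [nat_lit 22694, nat_lit 5198, nat_lit 13946, nat_lit 8114, nat_lit 11030, nat_lit 9086, nat_lit 9734, nat_lit 9518, nat_lit 9590, nat_lit 9566, nat_lit 9578, nat_lit 9574] (nat_lit 1) [nat_lit 29254] false,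
   Spec.mk (nat_lit 9574) (nat_lit 0) [nat_lit 22696, nat_lit 5200, nat_lit 13948, nat_lit 8116, nat_lit 11032, nat_lit 9088, nat_lit 9736, nat_lit 9520, nat_lit 9592, nat_lit 9580, nat_lit 9572] (nat_lit 0) [nat_lit 29256] false,
   Spec.mk (nat_lit 9578) (nat_lit 0) [nat_lit 22700, nat_lit 5204, nat_lit 13952, nat_lit 8120, nat_lit 11036, nat_lit 9092, nat_lit 9740, nat_lit 9524, nat_lit 9596, nat_lit 9572, nat_lit 9580] (nat_lit 4) [nat_lit 29260] false,
   Spec.mk (nat_lit 9580) (nat_lit 0) [nat_lit 22702, nat_lit 5206, nat_lit 13954, nat_lit 8122, nat_lit 11038, nat_lit 9094, nat_lit 9742, nat_lit 9526, nat_lit 9598, nat_lit 9574, nat_lit 9578, nat_lit 9582] (nat_lit 1) [nat_lit 29262] false,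
   Spec.mk (nat_lit 9582) (nat_lit 0) [nat_lit 22704, nat_lit 5208, nat_lit 13956, nat_lit 8124, nat_lit 11040, nat_lit 9096, nat_lit 9744, nat_lit 9528, nat_lit 9600, nat_lit 9580] (nat_lit 0) [] false,
   Spec.mk (nat_lit 9590) (nat_lit 0) [nat_lit 22712, nat_lit 5216, nat_lit 13964, nat_lit 8132, nat_lit 11048, nat_lit 9104, nat_lit 9752, nat_lit 9536, nat_lit 9644, nat_lit 9572, nat_lit 9596, nat_lit 9592] (nat_lit 1) [nat_lit 29272] false,
   Spec.mk (nat_lit 9592) (nat_lit 0) [nat_lit 22714, nat_lit 5218, nat_lit 13966, nat_lit 8134, nat_lit 11050, nat_lit 9106, nat_lit 9754, nat_lit 9538, nat_lit 9646, nat_lit 9574, nat_lit 9598, nat_lit 9590] (nat_lit 1) [nat_lit 29274] false,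
   Spec.mk (nat_lit 9596) (nat_lit 0) [nat_lit 22718, nat_lit 5222, nat_lit 13970, nat_lit 8138, nat_lit 11054, nat_lit 9110, nat_lit 9758, nat_lit 9542, nat_lit 9650, nat_lit 9578, nat_lit 9614, nat_lit 9590, nat_lit 9598] (nat_lit 2) [nat_lit 29278] true,
   Spec.mk (nat_lit 9598) (nat_lit 0) [nat_lit 22720, nat_lit 5224, nat_lit 13972, nat_lit 8140, nat_lit 11056, nat_lit 9112, nat_lit 9760, nat_lit 9544, nat_lit 9652, nat_lit 9580, nat_lit 9616, nat_lit 9592, nat_lit 9604, nat_lit 9596, nat_lit 9600] (nat_lit 0) [nat_lit 29280] true,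
   Spec.mk (nat_lit 9600) (nat_lit 0) [nat_lit 22722, nat_lit 5226, nat_lit 13974, nat_lit 8142, nat_lit 11058, nat_lit 9114, nat_lit 9762, nat_lit 9546, nat_lit 9654, nat_lit 9582, nat_lit 9618, nat_lit 9606, nat_lit 9598] (nat_lit 0) [] false,
   Spec.mk (nat_lit 9604) (nat_lit 0) [nat_lit 22726, nat_lit 5230, nat_lit 13978, nat_lit 8146, nat_lit 11062, nat_lit 9118, nat_lit 9766, nat_lit 9550, nat_lit 9658, nat_lit 9622, nat_lit 9598, nat_lit 9606] (nat_lit 1) [nat_lit 29286] false,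
   Spec.mk (nat_lit 9606) (nat_lit 1) [nat_lit 22728, nat_lit 5232, nat_lit 13980, nat_lit 8148, nat_lit 11064, nat_lit 9120, nat_lit 9768, nat_lit 9552, nat_lit 9660, nat_lit 9624, nat_lit 9600, nat_lit 9604] (nat_lit 0) [] false,
   Spec.mk (nat_lit 9614) (nat_lit 0) [nat_lit 22736, nat_lit 5240, nat_lit 13988, nat_lit 8156, nat_lit 11072, nat_lit 9128, nat_lit 9776, nat_lit 9668, nat_lit 9596, nat_lit 9616] (nat_lit 2) [nat_lit 29296] false,
   Spec.mk (nat_lit 9616) (nat_lit 0) [nat_lit 22738, nat_lit 5242, nat_lit 13990, nat_lit 8158, nat_lit 11074, nat_lit 9130, nat_lit 9778, nat_lit 9670, nat_lit 9598, nat_lit 9622, nat_lit 9614, nat_lit 9618] (nat_lit 1) [nat_lit 29298] false,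
   Spec.mk (nat_lit 9618) (nat_lit 0) [nat_lit 22740, nat_lit 5244, nat_lit 13992, nat_lit 8160, nat_lit 11076, nat_lit 9132, nat_lit 9780, nat_lit 9672, nat_lit 9600, nat_lit 9624, nat_lit 9616] (nat_lit 2) [] false,
   Spec.mk (nat_lit 9622) (nat_lit 0) [nat_lit 22744, nat_lit 5248, nat_lit 13996, nat_lit 8164, nat_lit 11080, nat_lit 9136, nat_lit 9784, nat_lit 9676, nat_lit 9604, nat_lit 9616, nat_lit 9624] (nat_lit 0) [nat_lit 29304] false,
   Spec.mk (nat_lit 9624) (nat_lit 1) [nat_lit 22746, nat_lit 5250, nat_lit 13998, nat_lit 8166, nat_lit 11082, nat_lit 9138, nat_lit 9786, nat_lit 9678, nat_lit 9606, nat_lit 9618, nat_lit 9630, nat_lit 9622] (nat_lit 0) [] false,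
   Spec.mk (nat_lit 9630) (nat_lit 2) [nat_lit 22752, nat_lit 5256, nat_lit 14004, nat_lit 8172, nat_lit 11088, nat_lit 9144, nat_lit 9792, nat_lit 9684, nat_lit 9624] (nat_lit 0) [] false,
   Spec.mk (nat_lit 9644) (nat_lit 0) [nat_lit 22766, nat_lit 5270, nat_lit 14018, nat_lit 8186, nat_lit 11102, nat_lit 9158, nat_lit 9806, nat_lit 9590, nat_lit 9650, nat_lit 9646] (nat_lit 2) [nat_lit 29326] false,
   Spec.mk (nat_lit 9646) (nat_lit 0) [nat_lit 22768, nat_lit 5272, nat_lit 14020, nat_lit 8188, nat_lit 11104, nat_lit 9160, nat_lit 9808, nat_lit 9592, nat_lit 9652, nat_lit 9644] (nat_lit 2) [nat_lit 29328] false,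
   Spec.mk (nat_lit 9650) (nat_lit 0) [nat_lit 22772, nat_lit 5276, nat_lit 14024, nat_lit 8192, nat_lit 11108, nat_lit 9164, nat_lit 9812, nat_lit 9596, nat_lit 9668, nat_lit 9644, nat_lit 9652] (nat_lit 4) [nat_lit 29332] false,
   Spec.mk (nat_lit 9652) (nat_lit 0) [nat_lit 22774, nat_lit 5278, nat_lit 14026, nat_lit 8194, nat_lit 11110, nat_lit 9166, nat_lit 9814, nat_lit 9598, nat_lit 9670, nat_lit 9646, nat_lit 9658, nat_lit 9650, nat_lit 9654] (nat_lit 2) [nat_lit 29334] false]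

noncomputable def sp28 : List Spec :=
  [Spec.mk (nat_lit 9654) (nat_lit 0) [nat_lit 22776, nat_lit 5280, nat_lit 14028, nat_lit 8196, nat_lit 11112, nat_lit 9168, nat_lit 9816, nat_lit 9600, nat_lit 9672, nat_lit 9660, nat_lit 9652] (nat_lit 2) [] false,
   Spec.mk (nat_lit 9658) (nat_lit 0) [nat_lit 22780, nat_lit 5284, nat_lit 14032, nat_lit 8200, nat_lit 11116, nat_lit 9172, nat_lit 9820, nat_lit 9604, nat_lit 9676, nat_lit 9652, nat_lit 9660] (nat_lit 4) [nat_lit 29340] false,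
   Spec.mk (nat_lit 9660) (nat_lit 0) [nat_lit 22782, nat_lit 5286, nat_lit 14034, nat_lit 8202, nat_lit 11118, nat_lit 9174, nat_lit 9822, nat_lit 9606, nat_lit 9678, nat_lit 9654, nat_lit 9658] (nat_lit 2) [] false,
   Spec.mk (nat_lit 9668) (nat_lit 0) [nat_lit 22790, nat_lit 5294, nat_lit 14042, nat_lit 8210, nat_lit 11126, nat_lit 9182, nat_lit 9830, nat_lit 9614, nat_lit 9650, nat_lit 9670] (nat_lit 2) [nat_lit 29350] false,
   Spec.mk (nat_lit 9670) (nat_lit 0) [nat_lit 22792, nat_lit 5296, nat_lit 14044, nat_lit 8212, nat_lit 11128, nat_lit 9184, nat_lit 9832, nat_lit 9616, nat_lit 9652, nat_lit 9676, nat_lit 9668, nat_lit 9672] (nat_lit 1) [nat_lit 29352] false,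
   Spec.mk (nat_lit 9672) (nat_lit 0) [nat_lit 22794, nat_lit 5298, nat_lit 14046, nat_lit 8214, nat_lit 11130, nat_lit 9186, nat_lit 9834, nat_lit 9618, nat_lit 9654, nat_lit 9678, nat_lit 9670] (nat_lit 2) [] false,
   Spec.mk (nat_lit 9676) (nat_lit 0) [nat_lit 22798, nat_lit 5302, nat_lit 14050, nat_lit 8218, nat_lit 11134, nat_lit 9190, nat_lit 9838, nat_lit 9622, nat_lit 9658, nat_lit 9694, nat_lit 9670, nat_lit 9678] (nat_lit 1) [nat_lit 29358] false,
   Spec.mk (nat_lit 9678) (nat_lit 0) [nat_lit 22800, nat_lit 5304, nat_lit 14052, nat_lit 8220, nat_lit 11136, nat_lit 9192, nat_lit 9840, nat_lit 9624, nat_lit 9660, nat_lit 9696, nat_lit 9672, nat_lit 9684, nat_lit 9676] (nat_lit 0) [] false,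
   Spec.mk (nat_lit 9684) (nat_lit 0) [nat_lit 22806, nat_lit 5310, nat_lit 14058, nat_lit 8226, nat_lit 11142, nat_lit 9198, nat_lit 9846, nat_lit 9630, nat_lit 9702, nat_lit 9678] (nat_lit 0) [] false,
   Spec.mk (nat_lit 9694) (nat_lit 0) [nat_lit 22816, nat_lit 5320, nat_lit 14068, nat_lit 8236, nat_lit 11152, nat_lit 9208, nat_lit 9856, nat_lit 9676, nat_lit 9696] (nat_lit 0) [nat_lit 29376] false,
   Spec.mk (nat_lit 9696) (nat_lit 0) [nat_lit 22818, nat_lit 5322, nat_lit 14070, nat_lit 8238, nat_lit 11154, nat_lit 9210, nat_lit 9858, nat_lit 9678, nat_lit 9702, nat_lit 9694] (nat_lit 0) [] false,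
   Spec.mk (nat_lit 9702) (nat_lit 2) [nat_lit 22824, nat_lit 5328, nat_lit 14076, nat_lit 8244, nat_lit 11160, nat_lit 9216, nat_lit 9864, nat_lit 9684, nat_lit 9696] (nat_lit 0) [] false,
   Spec.mk (nat_lit 9728) (nat_lit 1) [nat_lit 22850, nat_lit 5354, nat_lit 14102, nat_lit 8270, nat_lit 11186, nat_lit 9242, nat_lit 10214, nat_lit 9566, nat_lit 9734] (nat_lit 0) [nat_lit 29410] false,
   Spec.mk (nat_lit 9734) (nat_lit 0) [nat_lit 22856, nat_lit 5360, nat_lit 14108, nat_lit 8276, nat_lit 11192, nat_lit 9248, nat_lit 10220, nat_lit 9572, nat_lit 9752, nat_lit 9728, nat_lit 9740, nat_lit 9736] (nat_lit 0) [nat_lit 29416] false,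
   Spec.mk (nat_lit 9736) (nat_lit 1) [nat_lit 22858, nat_lit 5362, nat_lit 14110, nat_lit 8278, nat_lit 11194, nat_lit 9250, nat_lit 10222, nat_lit 9574, nat_lit 9754, nat_lit 9742, nat_lit 9734] (nat_lit 0) [nat_lit 29418] false,
   Spec.mk (nat_lit 9740) (nat_lit 0) [nat_lit 22862, nat_lit 5366, nat_lit 14114, nat_lit 8282, nat_lit 11198, nat_lit 9254, nat_lit 10226, nat_lit 9578, nat_lit 9758, nat_lit 9734, nat_lit 9742] (nat_lit 3) [nat_lit 29422] false,
   Spec.mk (nat_lit 9742) (nat_lit 0) [nat_lit 22864, nat_lit 5368, nat_lit 14116, nat_lit 8284, nat_lit 11200, nat_lit 9256, nat_lit 10228, nat_lit 9580, nat_lit 9760, nat_lit 9736, nat_lit 9740, nat_lit 9744] (nat_lit 0) [nat_lit 29424] false,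
   Spec.mk (nat_lit 9744) (nat_lit 1) [nat_lit 22866, nat_lit 5370, nat_lit 14118, nat_lit 8286, nat_lit 11202, nat_lit 9258, nat_lit 10230, nat_lit 9582, nat_lit 9762, nat_lit 9742] (nat_lit 0) [] false,
   Spec.mk (nat_lit 9752) (nat_lit 0) [nat_lit 22874, nat_lit 5378, nat_lit 14126, nat_lit 8294, nat_lit 11210, nat_lit 9266, nat_lit 10238, nat_lit 9590, nat_lit 9806, nat_lit 9734, nat_lit 9758, nat_lit 9754] (nat_lit 1) [nat_lit 29434] false,
   Spec.mk (nat_lit 9754) (nat_lit 0) [nat_lit 22876, nat_lit 5380, nat_lit 14128, nat_lit 8296, nat_lit 11212, nat_lit 9268, nat_lit 10240, nat_lit 9592, nat_lit 9808, nat_lit 9736, nat_lit 9760, nat_lit 9752] (nat_lit 1) [nat_lit 29436] false,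
   Spec.mk (nat_lit 9758) (nat_lit 0) [nat_lit 22880, nat_lit 5384, nat_lit 14132, nat_lit 8300, nat_lit 11216, nat_lit 9272, nat_lit 10244, nat_lit 9596, nat_lit 9812, nat_lit 9740, nat_lit 9776, nat_lit 9752, nat_lit 9760] (nat_lit 2) [nat_lit 29440] false,
   Spec.mk (nat_lit 9760) (nat_lit 0) [nat_lit 22882, nat_lit 5386, nat_lit 14134, nat_lit 8302, nat_lit 11218, nat_lit 9274, nat_lit 10246, nat_lit 9598, nat_lit 9814, nat_lit 9742, nat_lit 9778, nat_lit 9754, nat_lit 9766, nat_lit 9758, nat_lit 9762] (nat_lit 0) [nat_lit 29442] true,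
   Spec.mk (nat_lit 9762) (nat_lit 0) [nat_lit 22884, nat_lit 5388, nat_lit 14136, nat_lit 8304, nat_lit 11220, nat_lit 9276, nat_lit 10248, nat_lit 9600, nat_lit 9816, nat_lit 9744, nat_lit 9780, nat_lit 9768, nat_lit 9760] (nat_lit 0) [] false,
   Spec.mk (nat_lit 9766) (nat_lit 0) [nat_lit 22888, nat_lit 5392, nat_lit 14140, nat_lit 8308, nat_lit 11224, nat_lit 9280, nat_lit 10252, nat_lit 9604, nat_lit 9820, nat_lit 9784, nat_lit 9760, nat_lit 9768] (nat_lit 1) [nat_lit 29448] false,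
   Spec.mk (nat_lit 9768) (nat_lit 1) [nat_lit 22890, nat_lit 5394, nat_lit 14142, nat_lit 8310, nat_lit 11226, nat_lit 9282, nat_lit 10254, nat_lit 9606, nat_lit 9822, nat_lit 9786, nat_lit 9762, nat_lit 9766] (nat_lit 0) [] false,
   Spec.mk (nat_lit 9776) (nat_lit 0) [nat_lit 22898, nat_lit 5402, nat_lit 14150, nat_lit 8318, nat_lit 11234, nat_lit 9290, nat_lit 10262, nat_lit 9614, nat_lit 9830, nat_lit 9758, nat_lit 9778] (nat_lit 3) [nat_lit 29458] false,
   Spec.mk (nat_lit 9778) (nat_lit 0) [nat_lit 22900, nat_lit 5404, nat_lit 14152, nat_lit 8320, nat_lit 11236, nat_lit 9292, nat_lit 10264, nat_lit 9616, nat_lit 9832, nat_lit 9760, nat_lit 9784, nat_lit 9776, nat_lit 9780] (nat_lit 2) [nat_lit 29460] false,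
   Spec.mk (nat_lit 9780) (nat_lit 0) [nat_lit 22902, nat_lit 5406, nat_lit 14154, nat_lit 8322, nat_lit 11238, nat_lit 9294, nat_lit 10266, nat_lit 9618, nat_lit 9834, nat_lit 9762, nat_lit 9786, nat_lit 9778] (nat_lit 3) [] false,
   Spec.mk (nat_lit 9784) (nat_lit 0) [nat_lit 22906, nat_lit 5410, nat_lit 14158, nat_lit 8326, nat_lit 11242, nat_lit 9298, nat_lit 10270, nat_lit 9622, nat_lit 9838, nat_lit 9766, nat_lit 9778, nat_lit 9786] (nat_lit 1) [nat_lit 29466] false,
   Spec.mk (nat_lit 9786) (nat_lit 0) [nat_lit 22908, nat_lit 5412, nat_lit 14160, nat_lit 8328, nat_lit 11244, nat_lit 9300, nat_lit 10272, nat_lit 9624, nat_lit 9840, nat_lit 9768, nat_lit 9780, nat_lit 9792, nat_lit 9784] (nat_lit 0) [] false,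
   Spec.mk (nat_lit 9792) (nat_lit 1) [nat_lit 22914, nat_lit 5418, nat_lit 14166, nat_lit 8334, nat_lit 11250, nat_lit 9306, nat_lit 10278, nat_lit 9630, nat_lit 9846, nat_lit 9786] (nat_lit 0) [] false,
   Spec.mk (nat_lit 9806) (nat_lit 0) [nat_lit 22928, nat_lit 5432, nat_lit 14180, nat_lit 8348, nat_lit 11264, nat_lit 9320, nat_lit 10292, nat_lit 9644, nat_lit 9968, nat_lit 9752, nat_lit 9812, nat_lit 9808] (nat_lit 0) [nat_lit 29488] false,
   Spec.mk (nat_lit 9808) (nat_lit 0) [nat_lit 22930, nat_lit 5434, nat_lit 14182, nat_lit 8350, nat_lit 11266, nat_lit 9322, nat_lit 10294, nat_lit 9646, nat_lit 9970, nat_lit 9754, nat_lit 9814, nat_lit 9806] (nat_lit 0) [nat_lit 29490] false,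
   Spec.mk (nat_lit 9812) (nat_lit 0) [nat_lit 22934, nat_lit 5438, nat_lit 14186, nat_lit 8354, nat_lit 11270, nat_lit 9326, nat_lit 10298, nat_lit 9650, nat_lit 9974, nat_lit 9758, nat_lit 9830, nat_lit 9806, nat_lit 9814] (nat_lit 2) [nat_lit 29494] false,
   Spec.mk (nat_lit 9814) (nat_lit 0) [nat_lit 22936, nat_lit 5440, nat_lit 14188, nat_lit 8356, nat_lit 11272, nat_lit 9328, nat_lit 10300, nat_lit 9652, nat_lit 9976, nat_lit 9760, nat_lit 9832, nat_lit 9808, nat_lit 9820, nat_lit 9812, nat_lit 9816] (nat_lit 0) [nat_lit 29496] false,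
   Spec.mk (nat_lit 9816) (nat_lit 0) [nat_lit 22938, nat_lit 5442, nat_lit 14190, nat_lit 8358, nat_lit 11274, nat_lit 9330, nat_lit 10302, nat_lit 9654, nat_lit 9978, nat_lit 9762, nat_lit 9834, nat_lit 9822, nat_lit 9814] (nat_lit 0) [] false,
   Spec.mk (nat_lit 9820) (nat_lit 0) [nat_lit 22942, nat_lit 5446, nat_lit 14194, nat_lit 8362, nat_lit 11278, nat_lit 9334, nat_lit 10306, nat_lit 9658, nat_lit 9982, nat_lit 9766, nat_lit 9838, nat_lit 9814, nat_lit 9822] (nat_lit 2) [nat_lit 29502] false,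
   Spec.mk (nat_lit 9822) (nat_lit 0) [nat_lit 22944, nat_lit 5448, nat_lit 14196, nat_lit 8364, nat_lit 11280, nat_lit 9336, nat_lit 10308, nat_lit 9660, nat_lit 9984, nat_lit 9768, nat_lit 9840, nat_lit 9816, nat_lit 9820] (nat_lit 0) [] false,
   Spec.mk (nat_lit 9830) (nat_lit 0) [nat_lit 22952, nat_lit 5456, nat_lit 14204, nat_lit 8372, nat_lit 11288, nat_lit 9344, nat_lit 10316, nat_lit 9668, nat_lit 9992, nat_lit 9776, nat_lit 9884, nat_lit 9812, nat_lit 9832] (nat_lit 1) [nat_lit 29512] false,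
   Spec.mk (nat_lit 9832) (nat_lit 0) [nat_lit 22954, nat_lit 5458, nat_lit 14206, nat_lit 8374, nat_lit 11290, nat_lit 9346, nat_lit 10318, nat_lit 9670, nat_lit 9994, nat_lit 9778, nat_lit 9886, nat_lit 9814, nat_lit 9838, nat_lit 9830, nat_lit 9834] (nat_lit 0) [nat_lit 29514] false,
   Spec.mk (nat_lit 9834) (nat_lit 0) [nat_lit 22956, nat_lit 5460, nat_lit 14208, nat_lit 8376, nat_lit 11292, nat_lit 9348, nat_lit 10320, nat_lit 9672, nat_lit 9996, nat_lit 9780, nat_lit 9888, nat_lit 9816, nat_lit 9840, nat_lit 9832] (nat_lit 1) [] false,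
   Spec.mk (nat_lit 9838) (nat_lit 0) [nat_lit 22960, nat_lit 5464, nat_lit 14212, nat_lit 8380, nat_lit 11296, nat_lit 9352, nat_lit 10324, nat_lit 9676, nat_lit 10000, nat_lit 9784, nat_lit 9892, nat_lit 9820, nat_lit 9856, nat_lit 9832, nat_lit 9840] (nat_lit 0) [nat_lit 29520] false,
   Spec.mk (nat_lit 9840) (nat_lit 1) [nat_lit 22962, nat_lit 5466, nat_lit 14214, nat_lit 8382, nat_lit 11298, nat_lit 9354, nat_lit 10326, nat_lit 9678, nat_lit 10002, nat_lit 9786, nat_lit 9894, nat_lit 9822, nat_lit 9858, nat_lit 9834, nat_lit 9846, nat_lit 9838] (nat_lit 0) [] false,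
   Spec.mk (nat_lit 9846) (nat_lit 1) [nat_lit 22968, nat_lit 5472, nat_lit 14220, nat_lit 8388, nat_lit 11304, nat_lit 9360, nat_lit 10332, nat_lit 9684, nat_lit 10008, nat_lit 9792, nat_lit 9900, nat_lit 9864, nat_lit 9840] (nat_lit 0) [] false,
   Spec.mk (nat_lit 9856) (nat_lit 0) [nat_lit 22978, nat_lit 5482, nat_lit 14230, nat_lit 8398, nat_lit 11314, nat_lit 9370, nat_lit 10342, nat_lit 9694, nat_lit 10018, nat_lit 9910, nat_lit 9838, nat_lit 9858] (nat_lit 0) [nat_lit 29538] false,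
   Spec.mk (nat_lit 9858) (nat_lit 0) [nat_lit 22980, nat_lit 5484, nat_lit 14232, nat_lit 8400, nat_lit 11316, nat_lit 9372, nat_lit 10344, nat_lit 9696, nat_lit 10020, nat_lit 9912, nat_lit 9840, nat_lit 9864, nat_lit 9856] (nat_lit 0) [] false,
   Spec.mk (nat_lit 9864) (nat_lit 2) [nat_lit 22986, nat_lit 5490, nat_lit 14238, nat_lit 8406, nat_lit 11322, nat_lit 9378, nat_lit 10350, nat_lit 9702, nat_lit 10026, nat_lit 9918, nat_lit 9846, nat_lit 9858] (nat_lit 0) [] false,
   Spec.mk (nat_lit 9884) (nat_lit 0) [nat_lit 23006, nat_lit 5510, nat_lit 14258, nat_lit 8426, nat_lit 11342, nat_lit 9398, nat_lit 10370, nat_lit 10046, nat_lit 9830, nat_lit 9886] (nat_lit 1) [nat_lit 29566] false,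
   Spec.mk (nat_lit 9886) (nat_lit 0) [nat_lit 23008, nat_lit 5512, nat_lit 14260, nat_lit 8428, nat_lit 11344, nat_lit 9400, nat_lit 10372, nat_lit 10048, nat_lit 9832, nat_lit 9892, nat_lit 9884, nat_lit 9888] (nat_lit 0) [nat_lit 29568] false,
   Spec.mk (nat_lit 9888) (nat_lit 0) [nat_lit 23010, nat_lit 5514, nat_lit 14262, nat_lit 8430, nat_lit 11346, nat_lit 9402, nat_lit 10374, nat_lit 10050, nat_lit 9834, nat_lit 9894, nat_lit 9886] (nat_lit 1) [] false,
   Spec.mk (nat_lit 9892) (nat_lit 0) [nat_lit 23014, nat_lit 5518, nat_lit 14266, nat_lit 8434, nat_lit 11350, nat_lit 9406, nat_lit 10378, nat_lit 10054, nat_lit 9838, nat_lit 9910, nat_lit 9886, nat_lit 9894] (nat_lit 1) [nat_lit 29574] false,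
   Spec.mk (nat_lit 9894) (nat_lit 0) [nat_lit 23016, nat_lit 5520, nat_lit 14268, nat_lit 8436, nat_lit 11352, nat_lit 9408, nat_lit 10380, nat_lit 10056, nat_lit 9840, nat_lit 9912, nat_lit 9888, nat_lit 9900, nat_lit 9892] (nat_lit 0) [] false,
   Spec.mk (nat_lit 9900) (nat_lit 0) [nat_lit 23022, nat_lit 5526, nat_lit 14274, nat_lit 8442, nat_lit 11358, nat_lit 9414, nat_lit 10386, nat_lit 10062, nat_lit 9846, nat_lit 9918, nat_lit 9894] (nat_lit 1) [] false,
   Spec.mk (nat_lit 9910) (nat_lit 1) [nat_lit 23032, nat_lit 5536, nat_lit 14284, nat_lit 8452, nat_lit 11368, nat_lit 9424, nat_lit 10396, nat_lit 10072, nat_lit 9856, nat_lit 9892, nat_lit 9912] (nat_lit 0) [nat_lit 29592] false,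
   Spec.mk (nat_lit 9912) (nat_lit 1) [nat_lit 23034, nat_lit 5538, nat_lit 14286, nat_lit 8454, nat_lit 11370, nat_lit 9426, nat_lit 10398, nat_lit 10074, nat_lit 9858, nat_lit 9894, nat_lit 9918, nat_lit 9910] (nat_lit 0) [] false,
   Spec.mk (nat_lit 9918) (nat_lit 2) [nat_lit 23040, nat_lit 5544, nat_lit 14292, nat_lit 8460, nat_lit 11376, nat_lit 9432, nat_lit 10404, nat_lit 10080, nat_lit 9864, nat_lit 9900, nat_lit 9936, nat_lit 9912] (nat_lit 0) [] false,
   Spec.mk (nat_lit 9936) (nat_lit 3) [nat_lit 23058, nat_lit 5562, nat_lit 14310, nat_lit 8478, nat_lit 11394, nat_lit 9450, nat_lit 10422, nat_lit 10098, nat_lit 9918] (nat_lit 0) [] false,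
   Spec.mk (nat_lit 9968) (nat_lit 0) [nat_lit 23090, nat_lit 5594, nat_lit 14342, nat_lit 8510, nat_lit 11426, nat_lit 10454, nat_lit 9806, nat_lit 9974, nat_lit 9970] (nat_lit 0) [nat_lit 29650] false,
   Spec.mk (nat_lit 9970) (nat_lit 0) [nat_lit 23092, nat_lit 5596, nat_lit 14344, nat_lit 8512, nat_lit 11428, nat_lit 10456, nat_lit 9808, nat_lit 9976, nat_lit 9968] (nat_lit 0) [nat_lit 29652] false,
   Spec.mk (nat_lit 9974) (nat_lit 0) [nat_lit 23096, nat_lit 5600, nat_lit 14348, nat_lit 8516, nat_lit 11432, nat_lit 10460, nat_lit 9812, nat_lit 9992, nat_lit 9968, nat_lit 9976] (nat_lit 2) [nat_lit 29656] false]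

noncomputable def sp29 : List Spec :=
  [Spec.mk (nat_lit 9976) (nat_lit 0) [nat_lit 23098, nat_lit 5602, nat_lit 14350, nat_lit 8518, nat_lit 11434, nat_lit 10462, nat_lit 9814, nat_lit 9994, nat_lit 9970, nat_lit 9982, nat_lit 9974, nat_lit 9978] (nat_lit 0) [nat_lit 29658] false,
   Spec.mk (nat_lit 9978) (nat_lit 0) [nat_lit 23100, nat_lit 5604, nat_lit 14352, nat_lit 8520, nat_lit 11436, nat_lit 10464, nat_lit 9816, nat_lit 9996, nat_lit 9984, nat_lit 9976] (nat_lit 0) [] false,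
   Spec.mk (nat_lit 9982) (nat_lit 0) [nat_lit 23104, nat_lit 5608, nat_lit 14356, nat_lit 8524, nat_lit 11440, nat_lit 10468, nat_lit 9820, nat_lit 10000, nat_lit 9976, nat_lit 9984] (nat_lit 2) [nat_lit 29664] false,
   Spec.mk (nat_lit 9984) (nat_lit 0) [nat_lit 23106, nat_lit 5610, nat_lit 14358, nat_lit 8526, nat_lit 11442, nat_lit 10470, nat_lit 9822, nat_lit 10002, nat_lit 9978, nat_lit 9982] (nat_lit 0) [] false,
   Spec.mk (nat_lit 9992) (nat_lit 0) [nat_lit 23114, nat_lit 5618, nat_lit 14366, nat_lit 8534, nat_lit 11450, nat_lit 10478, nat_lit 9830, nat_lit 10046, nat_lit 9974, nat_lit 9994] (nat_lit 2) [nat_lit 29674] false,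
   Spec.mk (nat_lit 9994) (nat_lit 0) [nat_lit 23116, nat_lit 5620, nat_lit 14368, nat_lit 8536, nat_lit 11452, nat_lit 10480, nat_lit 9832, nat_lit 10048, nat_lit 9976, nat_lit 10000, nat_lit 9992, nat_lit 9996] (nat_lit 1) [nat_lit 29676] false,
   Spec.mk (nat_lit 9996) (nat_lit 0) [nat_lit 23118, nat_lit 5622, nat_lit 14370, nat_lit 8538, nat_lit 11454, nat_lit 10482, nat_lit 9834, nat_lit 10050, nat_lit 9978, nat_lit 10002, nat_lit 9994] (nat_lit 2) [] false,
   Spec.mk (nat_lit 10000) (nat_lit 0) [nat_lit 23122, nat_lit 5626, nat_lit 14374, nat_lit 8542, nat_lit 11458, nat_lit 10486, nat_lit 9838, nat_lit 10054, nat_lit 9982, nat_lit 10018, nat_lit 9994, nat_lit 10002] (nat_lit 1) [nat_lit 29682] false,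
   Spec.mk (nat_lit 10002) (nat_lit 0) [nat_lit 23124, nat_lit 5628, nat_lit 14376, nat_lit 8544, nat_lit 11460, nat_lit 10488, nat_lit 9840, nat_lit 10056, nat_lit 9984, nat_lit 10020, nat_lit 9996, nat_lit 10008, nat_lit 10000] (nat_lit 0) [] false,
   Spec.mk (nat_lit 10008) (nat_lit 0) [nat_lit 23130, nat_lit 5634, nat_lit 14382, nat_lit 8550, nat_lit 11466, nat_lit 10494, nat_lit 9846, nat_lit 10062, nat_lit 10026, nat_lit 10002] (nat_lit 0) [] false,
   Spec.mk (nat_lit 10018) (nat_lit 0) [nat_lit 23140, nat_lit 5644, nat_lit 14392, nat_lit 8560, nat_lit 11476, nat_lit 10504, nat_lit 9856, nat_lit 10072, nat_lit 10000, nat_lit 10020] (nat_lit 2) [nat_lit 29700] false,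
   Spec.mk (nat_lit 10020) (nat_lit 0) [nat_lit 23142, nat_lit 5646, nat_lit 14394, nat_lit 8562, nat_lit 11478, nat_lit 10506, nat_lit 9858, nat_lit 10074, nat_lit 10002, nat_lit 10026, nat_lit 10018] (nat_lit 2) [] false,
   Spec.mk (nat_lit 10026) (nat_lit 0) [nat_lit 23148, nat_lit 5652, nat_lit 14400, nat_lit 8568, nat_lit 11484, nat_lit 10512, nat_lit 9864, nat_lit 10080, nat_lit 10008, nat_lit 10020] (nat_lit 0) [] false,
   Spec.mk (nat_lit 10046) (nat_lit 0) [nat_lit 23168, nat_lit 5672, nat_lit 14420, nat_lit 8588, nat_lit 11504, nat_lit 10532, nat_lit 9884, nat_lit 9992, nat_lit 10048] (nat_lit 0) [nat_lit 29728] false,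
   Spec.mk (nat_lit 10048) (nat_lit 1) [nat_lit 23170, nat_lit 5674, nat_lit 14422, nat_lit 8590, nat_lit 11506, nat_lit 10534, nat_lit 9886, nat_lit 9994, nat_lit 10054, nat_lit 10046, nat_lit 10050] (nat_lit 0) [nat_lit 29730] false,
   Spec.mk (nat_lit 10050) (nat_lit 0) [nat_lit 23172, nat_lit 5676, nat_lit 14424, nat_lit 8592, nat_lit 11508, nat_lit 10536, nat_lit 9888, nat_lit 9996, nat_lit 10056, nat_lit 10048] (nat_lit 0) [] false,
   Spec.mk (nat_lit 10054) (nat_lit 0) [nat_lit 23176, nat_lit 5680, nat_lit 14428, nat_lit 8596, nat_lit 11512, nat_lit 10540, nat_lit 9892, nat_lit 10000, nat_lit 10072, nat_lit 10048, nat_lit 10056] (nat_lit 0) [nat_lit 29736] false,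
   Spec.mk (nat_lit 10056) (nat_lit 1) [nat_lit 23178, nat_lit 5682, nat_lit 14430, nat_lit 8598, nat_lit 11514, nat_lit 10542, nat_lit 9894, nat_lit 10002, nat_lit 10074, nat_lit 10050, nat_lit 10062, nat_lit 10054] (nat_lit 0) [] false,
   Spec.mk (nat_lit 10062) (nat_lit 0) [nat_lit 23184, nat_lit 5688, nat_lit 14436, nat_lit 8604, nat_lit 11520, nat_lit 10548, nat_lit 9900, nat_lit 10008, nat_lit 10080, nat_lit 10056] (nat_lit 0) [] false,
   Spec.mk (nat_lit 10072) (nat_lit 1) [nat_lit 23194, nat_lit 5698, nat_lit 14446, nat_lit 8614, nat_lit 11530, nat_lit 10558, nat_lit 9910, nat_lit 10018, nat_lit 10126, nat_lit 10054, nat_lit 10074] (nat_lit 0) [nat_lit 29754] false,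
   Spec.mk (nat_lit 10074) (nat_lit 1) [nat_lit 23196, nat_lit 5700, nat_lit 14448, nat_lit 8616, nat_lit 11532, nat_lit 10560, nat_lit 9912, nat_lit 10020, nat_lit 10128, nat_lit 10056, nat_lit 10080, nat_lit 10072] (nat_lit 0) [] false,
   Spec.mk (nat_lit 10080) (nat_lit 2) [nat_lit 23202, nat_lit 5706, nat_lit 14454, nat_lit 8622, nat_lit 11538, nat_lit 10566, nat_lit 9918, nat_lit 10026, nat_lit 10134, nat_lit 10062, nat_lit 10098, nat_lit 10074] (nat_lit 0) [] false,
   Spec.mk (nat_lit 10098) (nat_lit 2) [nat_lit 23220, nat_lit 5724, nat_lit 14472, nat_lit 8640, nat_lit 11556, nat_lit 10584, nat_lit 9936, nat_lit 10152, nat_lit 10080] (nat_lit 0) [] false,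
   Spec.mk (nat_lit 10126) (nat_lit 2) [nat_lit 23248, nat_lit 5752, nat_lit 14500, nat_lit 8668, nat_lit 11584, nat_lit 10612, nat_lit 10072, nat_lit 10128] (nat_lit 0) [nat_lit 29808] false,
   Spec.mk (nat_lit 10128) (nat_lit 2) [nat_lit 23250, nat_lit 5754, nat_lit 14502, nat_lit 8670, nat_lit 11586, nat_lit 10614, nat_lit 10074, nat_lit 10134, nat_lit 10126] (nat_lit 0) [] false,
   Spec.mk (nat_lit 10134) (nat_lit 2) [nat_lit 23256, nat_lit 5760, nat_lit 14508, nat_lit 8676, nat_lit 11592, nat_lit 10620, nat_lit 10080, nat_lit 10152, nat_lit 10128] (nat_lit 0) [] false,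
   Spec.mk (nat_lit 10152) (nat_lit 4) [nat_lit 23274, nat_lit 5778, nat_lit 14526, nat_lit 8694, nat_lit 11610, nat_lit 10638, nat_lit 10098, nat_lit 10134] (nat_lit 0) [] false,
   Spec.mk (nat_lit 10214) (nat_lit 1) [nat_lit 23336, nat_lit 5840, nat_lit 14588, nat_lit 11672, nat_lit 9728, nat_lit 10220] (nat_lit 0) [nat_lit 29896] false,
   Spec.mk (nat_lit 10220) (nat_lit 0) [nat_lit 23342, nat_lit 5846, nat_lit 14594, nat_lit 11678, nat_lit 9734, nat_lit 10238, nat_lit 10214, nat_lit 10226, nat_lit 10222] (nat_lit 0) [nat_lit 29902] false,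
   Spec.mk (nat_lit 10222) (nat_lit 1) [nat_lit 23344, nat_lit 5848, nat_lit 14596, nat_lit 11680, nat_lit 9736, nat_lit 10240, nat_lit 10228, nat_lit 10220] (nat_lit 0) [nat_lit 29904] false,
   Spec.mk (nat_lit 10226) (nat_lit 0) [nat_lit 23348, nat_lit 5852, nat_lit 14600, nat_lit 11684, nat_lit 9740, nat_lit 10244, nat_lit 10220, nat_lit 10228] (nat_lit 3) [nat_lit 29908] false,
   Spec.mk (nat_lit 10228) (nat_lit 0) [nat_lit 23350, nat_lit 5854, nat_lit 14602, nat_lit 11686, nat_lit 9742, nat_lit 10246, nat_lit 10222, nat_lit 10226, nat_lit 10230] (nat_lit 0) [nat_lit 29910] false,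
   Spec.mk (nat_lit 10230) (nat_lit 1) [nat_lit 23352, nat_lit 5856, nat_lit 14604, nat_lit 11688, nat_lit 9744, nat_lit 10248, nat_lit 10228] (nat_lit 0) [] false,
   Spec.mk (nat_lit 10238) (nat_lit 0) [nat_lit 23360, nat_lit 5864, nat_lit 14612, nat_lit 11696, nat_lit 9752, nat_lit 10292, nat_lit 10220, nat_lit 10244, nat_lit 10240] (nat_lit 1) [nat_lit 29920] false,
   Spec.mk (nat_lit 10240) (nat_lit 0) [nat_lit 23362, nat_lit 5866, nat_lit 14614, nat_lit 11698, nat_lit 9754, nat_lit 10294, nat_lit 10222, nat_lit 10246, nat_lit 10238] (nat_lit 1) [nat_lit 29922] false,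
   Spec.mk (nat_lit 10244) (nat_lit 0) [nat_lit 23366, nat_lit 5870, nat_lit 14618, nat_lit 11702, nat_lit 9758, nat_lit 10298, nat_lit 10226, nat_lit 10262, nat_lit 10238, nat_lit 10246] (nat_lit 2) [nat_lit 29926] false,
   Spec.mk (nat_lit 10246) (nat_lit 0) [nat_lit 23368, nat_lit 5872, nat_lit 14620, nat_lit 11704, nat_lit 9760, nat_lit 10300, nat_lit 10228, nat_lit 10264, nat_lit 10240, nat_lit 10252, nat_lit 10244, nat_lit 10248] (nat_lit 0) [nat_lit 29928] false,
   Spec.mk (nat_lit 10248) (nat_lit 0) [nat_lit 23370, nat_lit 5874, nat_lit 14622, nat_lit 11706, nat_lit 9762, nat_lit 10302, nat_lit 10230, nat_lit 10266, nat_lit 10254, nat_lit 10246] (nat_lit 0) [] false,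
   Spec.mk (nat_lit 10252) (nat_lit 0) [nat_lit 23374, nat_lit 5878, nat_lit 14626, nat_lit 11710, nat_lit 9766, nat_lit 10306, nat_lit 10270, nat_lit 10246, nat_lit 10254] (nat_lit 1) [nat_lit 29934] false,
   Spec.mk (nat_lit 10254) (nat_lit 1) [nat_lit 23376, nat_lit 5880, nat_lit 14628, nat_lit 11712, nat_lit 9768, nat_lit 10308, nat_lit 10272, nat_lit 10248, nat_lit 10252] (nat_lit 0) [] false,
   Spec.mk (nat_lit 10262) (nat_lit 0) [nat_lit 23384, nat_lit 5888, nat_lit 14636, nat_lit 11720, nat_lit 9776, nat_lit 10316, nat_lit 10244, nat_lit 10264] (nat_lit 3) [nat_lit 29944] false,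
   Spec.mk (nat_lit 10264) (nat_lit 0) [nat_lit 23386, nat_lit 5890, nat_lit 14638, nat_lit 11722, nat_lit 9778, nat_lit 10318, nat_lit 10246, nat_lit 10270, nat_lit 10262, nat_lit 10266] (nat_lit 2) [nat_lit 29946] false,
   Spec.mk (nat_lit 10266) (nat_lit 0) [nat_lit 23388, nat_lit 5892, nat_lit 14640, nat_lit 11724, nat_lit 9780, nat_lit 10320, nat_lit 10248, nat_lit 10272, nat_lit 10264] (nat_lit 3) [] false,
   Spec.mk (nat_lit 10270) (nat_lit 0) [nat_lit 23392, nat_lit 5896, nat_lit 14644, nat_lit 11728, nat_lit 9784, nat_lit 10324, nat_lit 10252, nat_lit 10264, nat_lit 10272] (nat_lit 1) [nat_lit 29952] false,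
   Spec.mk (nat_lit 10272) (nat_lit 0) [nat_lit 23394, nat_lit 5898, nat_lit 14646, nat_lit 11730, nat_lit 9786, nat_lit 10326, nat_lit 10254, nat_lit 10266, nat_lit 10278, nat_lit 10270] (nat_lit 0) [] false,
   Spec.mk (nat_lit 10278) (nat_lit 1) [nat_lit 23400, nat_lit 5904, nat_lit 14652, nat_lit 11736, nat_lit 9792, nat_lit 10332, nat_lit 10272] (nat_lit 0) [] false,
   Spec.mk (nat_lit 10292) (nat_lit 0) [nat_lit 23414, nat_lit 5918, nat_lit 14666, nat_lit 11750, nat_lit 9806, nat_lit 10454, nat_lit 10238, nat_lit 10298, nat_lit 10294] (nat_lit 1) [nat_lit 29974] false,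
   Spec.mk (nat_lit 10294) (nat_lit 0) [nat_lit 23416, nat_lit 5920, nat_lit 14668, nat_lit 11752, nat_lit 9808, nat_lit 10456, nat_lit 10240, nat_lit 10300, nat_lit 10292] (nat_lit 1) [nat_lit 29976] false,
   Spec.mk (nat_lit 10298) (nat_lit 0) [nat_lit 23420, nat_lit 5924, nat_lit 14672, nat_lit 11756, nat_lit 9812, nat_lit 10460, nat_lit 10244, nat_lit 10316, nat_lit 10292, nat_lit 10300] (nat_lit 3) [nat_lit 29980] false,
   Spec.mk (nat_lit 10300) (nat_lit 0) [nat_lit 23422, nat_lit 5926, nat_lit 14674, nat_lit 11758, nat_lit 9814, nat_lit 10462, nat_lit 10246, nat_lit 10318, nat_lit 10294, nat_lit 10306, nat_lit 10298, nat_lit 10302] (nat_lit 1) [nat_lit 29982] false,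
   Spec.mk (nat_lit 10302) (nat_lit 0) [nat_lit 23424, nat_lit 5928, nat_lit 14676, nat_lit 11760, nat_lit 9816, nat_lit 10464, nat_lit 10248, nat_lit 10320, nat_lit 10308, nat_lit 10300] (nat_lit 1) [] false,
   Spec.mk (nat_lit 10306) (nat_lit 0) [nat_lit 23428, nat_lit 5932, nat_lit 14680, nat_lit 11764, nat_lit 9820, nat_lit 10468, nat_lit 10252, nat_lit 10324, nat_lit 10300, nat_lit 10308] (nat_lit 3) [nat_lit 29988] false,
   Spec.mk (nat_lit 10308) (nat_lit 0) [nat_lit 23430, nat_lit 5934, nat_lit 14682, nat_lit 11766, nat_lit 9822, nat_lit 10470, nat_lit 10254, nat_lit 10326, nat_lit 10302, nat_lit 10306] (nat_lit 1) [] false,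
   Spec.mk (nat_lit 10316) (nat_lit 0) [nat_lit 23438, nat_lit 5942, nat_lit 14690, nat_lit 11774, nat_lit 9830, nat_lit 10478, nat_lit 10262, nat_lit 10370, nat_lit 10298, nat_lit 10318] (nat_lit 2) [nat_lit 29998] false,
   Spec.mk (nat_lit 10318) (nat_lit 0) [nat_lit 23440, nat_lit 5944, nat_lit 14692, nat_lit 11776, nat_lit 9832, nat_lit 10480, nat_lit 10264, nat_lit 10372, nat_lit 10300, nat_lit 10324, nat_lit 10316, nat_lit 10320] (nat_lit 1) [nat_lit 30000] false,
   Spec.mk (nat_lit 10320) (nat_lit 0) [nat_lit 23442, nat_lit 5946, nat_lit 14694, nat_lit 11778, nat_lit 9834, nat_lit 10482, nat_lit 10266, nat_lit 10374, nat_lit 10302, nat_lit 10326, nat_lit 10318] (nat_lit 2) [] false,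
   Spec.mk (nat_lit 10324) (nat_lit 0) [nat_lit 23446, nat_lit 5950, nat_lit 14698, nat_lit 11782, nat_lit 9838, nat_lit 10486, nat_lit 10270, nat_lit 10378, nat_lit 10306, nat_lit 10342, nat_lit 10318, nat_lit 10326] (nat_lit 1) [nat_lit 30006] false,
   Spec.mk (nat_lit 10326) (nat_lit 0) [nat_lit 23448, nat_lit 5952, nat_lit 14700, nat_lit 11784, nat_lit 9840, nat_lit 10488, nat_lit 10272, nat_lit 10380, nat_lit 10308, nat_lit 10344, nat_lit 10320, nat_lit 10332, nat_lit 10324] (nat_lit 0) [] false,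
   Spec.mk (nat_lit 10332) (nat_lit 0) [nat_lit 23454, nat_lit 5958, nat_lit 14706, nat_lit 11790, nat_lit 9846, nat_lit 10494, nat_lit 10278, nat_lit 10386, nat_lit 10350, nat_lit 10326] (nat_lit 0) [] false,
   Spec.mk (nat_lit 10342) (nat_lit 0) [nat_lit 23464, nat_lit 5968, nat_lit 14716, nat_lit 11800, nat_lit 9856, nat_lit 10504, nat_lit 10396, nat_lit 10324, nat_lit 10344] (nat_lit 1) [nat_lit 30024] false]

noncomputable def sp30 : List Spec :=
  [Spec.mk (nat_lit 10344) (nat_lit 0) [nat_lit 23466, nat_lit 5970, nat_lit 14718, nat_lit 11802, nat_lit 9858, nat_lit 10506, nat_lit 10398, nat_lit 10326, nat_lit 10350, nat_lit 10342] (nat_lit 1) [] false,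
   Spec.mk (nat_lit 10350) (nat_lit 1) [nat_lit 23472, nat_lit 5976, nat_lit 14724, nat_lit 11808, nat_lit 9864, nat_lit 10512, nat_lit 10404, nat_lit 10332, nat_lit 10344] (nat_lit 0) [] false,
   Spec.mk (nat_lit 10370) (nat_lit 0) [nat_lit 23492, nat_lit 5996, nat_lit 14744, nat_lit 11828, nat_lit 9884, nat_lit 10532, nat_lit 10316, nat_lit 10372] (nat_lit 3) [nat_lit 30052] false,
   Spec.mk (nat_lit 10372) (nat_lit 0) [nat_lit 23494, nat_lit 5998, nat_lit 14746, nat_lit 11830, nat_lit 9886, nat_lit 10534, nat_lit 10318, nat_lit 10378, nat_lit 10370, nat_lit 10374] (nat_lit 2) [nat_lit 30054] false,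
   Spec.mk (nat_lit 10374) (nat_lit 0) [nat_lit 23496, nat_lit 6000, nat_lit 14748, nat_lit 11832, nat_lit 9888, nat_lit 10536, nat_lit 10320, nat_lit 10380, nat_lit 10372] (nat_lit 3) [] false,
   Spec.mk (nat_lit 10378) (nat_lit 0) [nat_lit 23500, nat_lit 6004, nat_lit 14752, nat_lit 11836, nat_lit 9892, nat_lit 10540, nat_lit 10324, nat_lit 10396, nat_lit 10372, nat_lit 10380] (nat_lit 3) [nat_lit 30060] false,
   Spec.mk (nat_lit 10380) (nat_lit 0) [nat_lit 23502, nat_lit 6006, nat_lit 14754, nat_lit 11838, nat_lit 9894, nat_lit 10542, nat_lit 10326, nat_lit 10398, nat_lit 10374, nat_lit 10386, nat_lit 10378] (nat_lit 2) [] false,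
   Spec.mk (nat_lit 10386) (nat_lit 0) [nat_lit 23508, nat_lit 6012, nat_lit 14760, nat_lit 11844, nat_lit 9900, nat_lit 10548, nat_lit 10332, nat_lit 10404, nat_lit 10380] (nat_lit 3) [] false,
   Spec.mk (nat_lit 10396) (nat_lit 0) [nat_lit 23518, nat_lit 6022, nat_lit 14770, nat_lit 11854, nat_lit 9910, nat_lit 10558, nat_lit 10342, nat_lit 10378, nat_lit 10398] (nat_lit 1) [nat_lit 30078] false,
   Spec.mk (nat_lit 10398) (nat_lit 0) [nat_lit 23520, nat_lit 6024, nat_lit 14772, nat_lit 11856, nat_lit 9912, nat_lit 10560, nat_lit 10344, nat_lit 10380, nat_lit 10404, nat_lit 10396] (nat_lit 1) [] false,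
   Spec.mk (nat_lit 10404) (nat_lit 0) [nat_lit 23526, nat_lit 6030, nat_lit 14778, nat_lit 11862, nat_lit 9918, nat_lit 10566, nat_lit 10350, nat_lit 10386, nat_lit 10422, nat_lit 10398] (nat_lit 0) [] false,
   Spec.mk (nat_lit 10422) (nat_lit 1) [nat_lit 23544, nat_lit 6048, nat_lit 14796, nat_lit 11880, nat_lit 9936, nat_lit 10584, nat_lit 10404] (nat_lit 0) [] false,
   Spec.mk (nat_lit 10454) (nat_lit 1) [nat_lit 23576, nat_lit 6080, nat_lit 14828, nat_lit 11912, nat_lit 9968, nat_lit 10292, nat_lit 10460, nat_lit 10456] (nat_lit 0) [nat_lit 30136] false,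
   Spec.mk (nat_lit 10456) (nat_lit 1) [nat_lit 23578, nat_lit 6082, nat_lit 14830, nat_lit 11914, nat_lit 9970, nat_lit 10294, nat_lit 10462, nat_lit 10454] (nat_lit 0) [nat_lit 30138] false,
   Spec.mk (nat_lit 10460) (nat_lit 0) [nat_lit 23582, nat_lit 6086, nat_lit 14834, nat_lit 11918, nat_lit 9974, nat_lit 10298, nat_lit 10478, nat_lit 10454, nat_lit 10462] (nat_lit 1) [nat_lit 30142] false,
   Spec.mk (nat_lit 10462) (nat_lit 1) [nat_lit 23584, nat_lit 6088, nat_lit 14836, nat_lit 11920, nat_lit 9976, nat_lit 10300, nat_lit 10480, nat_lit 10456, nat_lit 10468, nat_lit 10460, nat_lit 10464] (nat_lit 0) [nat_lit 30144] false,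
   Spec.mk (nat_lit 10464) (nat_lit 1) [nat_lit 23586, nat_lit 6090, nat_lit 14838, nat_lit 11922, nat_lit 9978, nat_lit 10302, nat_lit 10482, nat_lit 10470, nat_lit 10462] (nat_lit 0) [] false,
   Spec.mk (nat_lit 10468) (nat_lit 0) [nat_lit 23590, nat_lit 6094, nat_lit 14842, nat_lit 11926, nat_lit 9982, nat_lit 10306, nat_lit 10486, nat_lit 10462, nat_lit 10470] (nat_lit 1) [nat_lit 30150] false,
   Spec.mk (nat_lit 10470) (nat_lit 1) [nat_lit 23592, nat_lit 6096, nat_lit 14844, nat_lit 11928, nat_lit 9984, nat_lit 10308, nat_lit 10488, nat_lit 10464, nat_lit 10468] (nat_lit 0) [] false,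
   Spec.mk (nat_lit 10478) (nat_lit 0) [nat_lit 23600, nat_lit 6104, nat_lit 14852, nat_lit 11936, nat_lit 9992, nat_lit 10316, nat_lit 10532, nat_lit 10460, nat_lit 10480] (nat_lit 1) [nat_lit 30160] false,
   Spec.mk (nat_lit 10480) (nat_lit 0) [nat_lit 23602, nat_lit 6106, nat_lit 14854, nat_lit 11938, nat_lit 9994, nat_lit 10318, nat_lit 10534, nat_lit 10462, nat_lit 10486, nat_lit 10478, nat_lit 10482] (nat_lit 0) [nat_lit 30162] false,
   Spec.mk (nat_lit 10482) (nat_lit 0) [nat_lit 23604, nat_lit 6108, nat_lit 14856, nat_lit 11940, nat_lit 9996, nat_lit 10320, nat_lit 10536, nat_lit 10464, nat_lit 10488, nat_lit 10480] (nat_lit 1) [] false,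
   Spec.mk (nat_lit 10486) (nat_lit 0) [nat_lit 23608, nat_lit 6112, nat_lit 14860, nat_lit 11944, nat_lit 10000, nat_lit 10324, nat_lit 10540, nat_lit 10468, nat_lit 10504, nat_lit 10480, nat_lit 10488] (nat_lit 0) [nat_lit 30168] false,
   Spec.mk (nat_lit 10488) (nat_lit 1) [nat_lit 23610, nat_lit 6114, nat_lit 14862, nat_lit 11946, nat_lit 10002, nat_lit 10326, nat_lit 10542, nat_lit 10470, nat_lit 10506, nat_lit 10482, nat_lit 10494, nat_lit 10486] (nat_lit 0) [] false,
   Spec.mk (nat_lit 10494) (nat_lit 1) [nat_lit 23616, nat_lit 6120, nat_lit 14868, nat_lit 11952, nat_lit 10008, nat_lit 10332, nat_lit 10548, nat_lit 10512, nat_lit 10488] (nat_lit 0) [] false,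
   Spec.mk (nat_lit 10504) (nat_lit 0) [nat_lit 23626, nat_lit 6130, nat_lit 14878, nat_lit 11962, nat_lit 10018, nat_lit 10342, nat_lit 10558, nat_lit 10486, nat_lit 10506] (nat_lit 1) [nat_lit 30186] false,
   Spec.mk (nat_lit 10506) (nat_lit 0) [nat_lit 23628, nat_lit 6132, nat_lit 14880, nat_lit 11964, nat_lit 10020, nat_lit 10344, nat_lit 10560, nat_lit 10488, nat_lit 10512, nat_lit 10504] (nat_lit 1) [] false,
   Spec.mk (nat_lit 10512) (nat_lit 1) [nat_lit 23634, nat_lit 6138, nat_lit 14886, nat_lit 11970, nat_lit 10026, nat_lit 10350, nat_lit 10566, nat_lit 10494, nat_lit 10506] (nat_lit 0) [] false,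
   Spec.mk (nat_lit 10532) (nat_lit 0) [nat_lit 23654, nat_lit 6158, nat_lit 14906, nat_lit 11990, nat_lit 10046, nat_lit 10370, nat_lit 10694, nat_lit 10478, nat_lit 10534] (nat_lit 0) [nat_lit 30214] false,
   Spec.mk (nat_lit 10534) (nat_lit 1) [nat_lit 23656, nat_lit 6160, nat_lit 14908, nat_lit 11992, nat_lit 10048, nat_lit 10372, nat_lit 10696, nat_lit 10480, nat_lit 10540, nat_lit 10532, nat_lit 10536] (nat_lit 0) [nat_lit 30216] false,
   Spec.mk (nat_lit 10536) (nat_lit 0) [nat_lit 23658, nat_lit 6162, nat_lit 14910, nat_lit 11994, nat_lit 10050, nat_lit 10374, nat_lit 10698, nat_lit 10482, nat_lit 10542, nat_lit 10534] (nat_lit 0) [] false,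
   Spec.mk (nat_lit 10540) (nat_lit 0) [nat_lit 23662, nat_lit 6166, nat_lit 14914, nat_lit 11998, nat_lit 10054, nat_lit 10378, nat_lit 10702, nat_lit 10486, nat_lit 10558, nat_lit 10534, nat_lit 10542] (nat_lit 0) [nat_lit 30222] false,
   Spec.mk (nat_lit 10542) (nat_lit 1) [nat_lit 23664, nat_lit 6168, nat_lit 14916, nat_lit 12000, nat_lit 10056, nat_lit 10380, nat_lit 10704, nat_lit 10488, nat_lit 10560, nat_lit 10536, nat_lit 10548, nat_lit 10540] (nat_lit 0) [] false,
   Spec.mk (nat_lit 10548) (nat_lit 0) [nat_lit 23670, nat_lit 6174, nat_lit 14922, nat_lit 12006, nat_lit 10062, nat_lit 10386, nat_lit 10710, nat_lit 10494, nat_lit 10566, nat_lit 10542] (nat_lit 0) [] false,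
   Spec.mk (nat_lit 10558) (nat_lit 1) [nat_lit 23680, nat_lit 6184, nat_lit 14932, nat_lit 12016, nat_lit 10072, nat_lit 10396, nat_lit 10720, nat_lit 10504, nat_lit 10612, nat_lit 10540, nat_lit 10560] (nat_lit 0) [nat_lit 30240] false,
   Spec.mk (nat_lit 10560) (nat_lit 1) [nat_lit 23682, nat_lit 6186, nat_lit 14934, nat_lit 12018, nat_lit 10074, nat_lit 10398, nat_lit 10722, nat_lit 10506, nat_lit 10614, nat_lit 10542, nat_lit 10566, nat_lit 10558] (nat_lit 0) [] false,
   Spec.mk (nat_lit 10566) (nat_lit 2) [nat_lit 23688, nat_lit 6192, nat_lit 14940, nat_lit 12024, nat_lit 10080, nat_lit 10404, nat_lit 10728, nat_lit 10512, nat_lit 10620, nat_lit 10548, nat_lit 10584, nat_lit 10560] (nat_lit 0) [] false,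
   Spec.mk (nat_lit 10584) (nat_lit 2) [nat_lit 23706, nat_lit 6210, nat_lit 14958, nat_lit 12042, nat_lit 10098, nat_lit 10422, nat_lit 10746, nat_lit 10638, nat_lit 10566] (nat_lit 0) [] false,
   Spec.mk (nat_lit 10612) (nat_lit 1) [nat_lit 23734, nat_lit 6238, nat_lit 14986, nat_lit 12070, nat_lit 10126, nat_lit 10774, nat_lit 10558, nat_lit 10614] (nat_lit 0) [nat_lit 30294] false,
   Spec.mk (nat_lit 10614) (nat_lit 1) [nat_lit 23736, nat_lit 6240, nat_lit 14988, nat_lit 12072, nat_lit 10128, nat_lit 10776, nat_lit 10560, nat_lit 10620, nat_lit 10612] (nat_lit 0) [] false,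
   Spec.mk (nat_lit 10620) (nat_lit 1) [nat_lit 23742, nat_lit 6246, nat_lit 14994, nat_lit 12078, nat_lit 10134, nat_lit 10782, nat_lit 10566, nat_lit 10638, nat_lit 10614] (nat_lit 0) [] false,
   Spec.mk (nat_lit 10638) (nat_lit 3) [nat_lit 23760, nat_lit 6264, nat_lit 15012, nat_lit 12096, nat_lit 10152, nat_lit 10800, nat_lit 10584, nat_lit 10620] (nat_lit 0) [] false,
   Spec.mk (nat_lit 10694) (nat_lit 1) [nat_lit 23816, nat_lit 6320, nat_lit 15068, nat_lit 12152, nat_lit 10532, nat_lit 10696] (nat_lit 0) [nat_lit 30376] false,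
   Spec.mk (nat_lit 10696) (nat_lit 2) [nat_lit 23818, nat_lit 6322, nat_lit 15070, nat_lit 12154, nat_lit 10534, nat_lit 10702, nat_lit 10694, nat_lit 10698] (nat_lit 0) [nat_lit 30378] false,
   Spec.mk (nat_lit 10698) (nat_lit 1) [nat_lit 23820, nat_lit 6324, nat_lit 15072, nat_lit 12156, nat_lit 10536, nat_lit 10704, nat_lit 10696] (nat_lit 0) [] false,
   Spec.mk (nat_lit 10702) (nat_lit 1) [nat_lit 23824, nat_lit 6328, nat_lit 15076, nat_lit 12160, nat_lit 10540, nat_lit 10720, nat_lit 10696, nat_lit 10704] (nat_lit 0) [nat_lit 30384] false,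
   Spec.mk (nat_lit 10704) (nat_lit 2) [nat_lit 23826, nat_lit 6330, nat_lit 15078, nat_lit 12162, nat_lit 10542, nat_lit 10722, nat_lit 10698, nat_lit 10710, nat_lit 10702] (nat_lit 0) [] false,
   Spec.mk (nat_lit 10710) (nat_lit 1) [nat_lit 23832, nat_lit 6336, nat_lit 15084, nat_lit 12168, nat_lit 10548, nat_lit 10728, nat_lit 10704] (nat_lit 0) [] false,
   Spec.mk (nat_lit 10720) (nat_lit 1) [nat_lit 23842, nat_lit 6346, nat_lit 15094, nat_lit 12178, nat_lit 10558, nat_lit 10774, nat_lit 10702, nat_lit 10722] (nat_lit 0) [nat_lit 30402] false,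
   Spec.mk (nat_lit 10722) (nat_lit 1) [nat_lit 23844, nat_lit 6348, nat_lit 15096, nat_lit 12180, nat_lit 10560, nat_lit 10776, nat_lit 10704, nat_lit 10728, nat_lit 10720] (nat_lit 0) [] false,
   Spec.mk (nat_lit 10728) (nat_lit 2) [nat_lit 23850, nat_lit 6354, nat_lit 15102, nat_lit 12186, nat_lit 10566, nat_lit 10782, nat_lit 10710, nat_lit 10746, nat_lit 10722] (nat_lit 0) [] false,
   Spec.mk (nat_lit 10746) (nat_lit 1) [nat_lit 23868, nat_lit 6372, nat_lit 15120, nat_lit 12204, nat_lit 10584, nat_lit 10800, nat_lit 10728] (nat_lit 0) [] false,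
   Spec.mk (nat_lit 10774) (nat_lit 3) [nat_lit 23896, nat_lit 6400, nat_lit 15148, nat_lit 12232, nat_lit 10612, nat_lit 10720, nat_lit 10776] (nat_lit 0) [nat_lit 30456] false,
   Spec.mk (nat_lit 10776) (nat_lit 3) [nat_lit 23898, nat_lit 6402, nat_lit 15150, nat_lit 12234, nat_lit 10614, nat_lit 10722, nat_lit 10782, nat_lit 10774] (nat_lit 0) [] false,
   Spec.mk (nat_lit 10782) (nat_lit 3) [nat_lit 23904, nat_lit 6408, nat_lit 15156, nat_lit 12240, nat_lit 10620, nat_lit 10728, nat_lit 10800, nat_lit 10776] (nat_lit 0) [] false,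
   Spec.mk (nat_lit 10800) (nat_lit 4) [nat_lit 23922, nat_lit 6426, nat_lit 15174, nat_lit 12258, nat_lit 10638, nat_lit 10746, nat_lit 10854, nat_lit 10782] (nat_lit 0) [] false,
   Spec.mk (nat_lit 10854) (nat_lit 5) [nat_lit 23976, nat_lit 6480, nat_lit 15228, nat_lit 12312, nat_lit 10800] (nat_lit 0) [] false,
   Spec.mk (nat_lit 10952) (nat_lit 2) [nat_lit 24074, nat_lit 15326, nat_lit 9494, nat_lit 10970, nat_lit 10958] (nat_lit 0) [nat_lit 30634] false,
   Spec.mk (nat_lit 10958) (nat_lit 0) [nat_lit 24080, nat_lit 15332, nat_lit 9500, nat_lit 10976, nat_lit 10952, nat_lit 10960] (nat_lit 0) [nat_lit 30640] false,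
   Spec.mk (nat_lit 10960) (nat_lit 2) [nat_lit 24082, nat_lit 15334, nat_lit 9502, nat_lit 10978, nat_lit 10958] (nat_lit 0) [nat_lit 30642] false]

noncomputable def sp31 : List Spec :=
  [Spec.mk (nat_lit 10970) (nat_lit 0) [nat_lit 24092, nat_lit 15344, nat_lit 9512, nat_lit 11024, nat_lit 10952, nat_lit 10976] (nat_lit 0) [nat_lit 30652] false,
   Spec.mk (nat_lit 10976) (nat_lit 0) [nat_lit 24098, nat_lit 15350, nat_lit 9518, nat_lit 11030, nat_lit 10958, nat_lit 10994, nat_lit 10970, nat_lit 10982, nat_lit 10978] (nat_lit 0) [nat_lit 30658] false,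
   Spec.mk (nat_lit 10978) (nat_lit 1) [nat_lit 24100, nat_lit 15352, nat_lit 9520, nat_lit 11032, nat_lit 10960, nat_lit 10996, nat_lit 10984, nat_lit 10976] (nat_lit 0) [nat_lit 30660] false,
   Spec.mk (nat_lit 10982) (nat_lit 0) [nat_lit 24104, nat_lit 15356, nat_lit 9524, nat_lit 11036, nat_lit 11000, nat_lit 10976, nat_lit 10984] (nat_lit 2) [nat_lit 30664] false,
   Spec.mk (nat_lit 10984) (nat_lit 1) [nat_lit 24106, nat_lit 15358, nat_lit 9526, nat_lit 11038, nat_lit 11002, nat_lit 10978, nat_lit 10982, nat_lit 10986] (nat_lit 0) [nat_lit 30666] false,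
   Spec.mk (nat_lit 10986) (nat_lit 2) [nat_lit 24108, nat_lit 15360, nat_lit 9528, nat_lit 11040, nat_lit 11004, nat_lit 10984] (nat_lit 0) [] false,
   Spec.mk (nat_lit 10994) (nat_lit 0) [nat_lit 24116, nat_lit 15368, nat_lit 9536, nat_lit 11048, nat_lit 10976, nat_lit 11000, nat_lit 10996] (nat_lit 2) [nat_lit 30676] false,
   Spec.mk (nat_lit 10996) (nat_lit 0) [nat_lit 24118, nat_lit 15370, nat_lit 9538, nat_lit 11050, nat_lit 10978, nat_lit 11002, nat_lit 10994] (nat_lit 2) [nat_lit 30678] false,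
   Spec.mk (nat_lit 11000) (nat_lit 0) [nat_lit 24122, nat_lit 15374, nat_lit 9542, nat_lit 11054, nat_lit 10982, nat_lit 10994, nat_lit 11002] (nat_lit 2) [nat_lit 30682] false,
   Spec.mk (nat_lit 11002) (nat_lit 0) [nat_lit 24124, nat_lit 15376, nat_lit 9544, nat_lit 11056, nat_lit 10984, nat_lit 10996, nat_lit 11008, nat_lit 11000, nat_lit 11004] (nat_lit 0) [nat_lit 30684] false,
   Spec.mk (nat_lit 11004) (nat_lit 0) [nat_lit 24126, nat_lit 15378, nat_lit 9546, nat_lit 11058, nat_lit 10986, nat_lit 11010, nat_lit 11002] (nat_lit 0) [] false,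
   Spec.mk (nat_lit 11008) (nat_lit 0) [nat_lit 24130, nat_lit 15382, nat_lit 9550, nat_lit 11062, nat_lit 11002, nat_lit 11010] (nat_lit 0) [nat_lit 30690] false,
   Spec.mk (nat_lit 11010) (nat_lit 2) [nat_lit 24132, nat_lit 15384, nat_lit 9552, nat_lit 11064, nat_lit 11004, nat_lit 11008] (nat_lit 0) [] false,
   Spec.mk (nat_lit 11024) (nat_lit 0) [nat_lit 24146, nat_lit 15398, nat_lit 9566, nat_lit 11186, nat_lit 10970, nat_lit 11030] (nat_lit 0) [nat_lit 30706] false,
   Spec.mk (nat_lit 11030) (nat_lit 0) [nat_lit 24152, nat_lit 15404, nat_lit 9572, nat_lit 11192, nat_lit 10976, nat_lit 11048, nat_lit 11024, nat_lit 11036, nat_lit 11032] (nat_lit 1) [nat_lit 30712] false,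
   Spec.mk (nat_lit 11032) (nat_lit 0) [nat_lit 24154, nat_lit 15406, nat_lit 9574, nat_lit 11194, nat_lit 10978, nat_lit 11050, nat_lit 11038, nat_lit 11030] (nat_lit 0) [nat_lit 30714] false,
   Spec.mk (nat_lit 11036) (nat_lit 0) [nat_lit 24158, nat_lit 15410, nat_lit 9578, nat_lit 11198, nat_lit 10982, nat_lit 11054, nat_lit 11030, nat_lit 11038] (nat_lit 4) [nat_lit 30718] false,
   Spec.mk (nat_lit 11038) (nat_lit 0) [nat_lit 24160, nat_lit 15412, nat_lit 9580, nat_lit 11200, nat_lit 10984, nat_lit 11056, nat_lit 11032, nat_lit 11036, nat_lit 11040] (nat_lit 1) [nat_lit 30720] false,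
   Spec.mk (nat_lit 11040) (nat_lit 0) [nat_lit 24162, nat_lit 15414, nat_lit 9582, nat_lit 11202, nat_lit 10986, nat_lit 11058, nat_lit 11038] (nat_lit 0) [] false,
   Spec.mk (nat_lit 11048) (nat_lit 0) [nat_lit 24170, nat_lit 15422, nat_lit 9590, nat_lit 11210, nat_lit 10994, nat_lit 11102, nat_lit 11030, nat_lit 11054, nat_lit 11050] (nat_lit 1) [nat_lit 30730] false,
   Spec.mk (nat_lit 11050) (nat_lit 0) [nat_lit 24172, nat_lit 15424, nat_lit 9592, nat_lit 11212, nat_lit 10996, nat_lit 11104, nat_lit 11032, nat_lit 11056, nat_lit 11048] (nat_lit 1) [nat_lit 30732] false,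
   Spec.mk (nat_lit 11054) (nat_lit 0) [nat_lit 24176, nat_lit 15428, nat_lit 9596, nat_lit 11216, nat_lit 11000, nat_lit 11108, nat_lit 11036, nat_lit 11072, nat_lit 11048, nat_lit 11056] (nat_lit 2) [nat_lit 30736] false,
   Spec.mk (nat_lit 11056) (nat_lit 0) [nat_lit 24178, nat_lit 15430, nat_lit 9598, nat_lit 11218, nat_lit 11002, nat_lit 11110, nat_lit 11038, nat_lit 11074, nat_lit 11050, nat_lit 11062, nat_lit 11054, nat_lit 11058] (nat_lit 0) [nat_lit 30738] false,
   Spec.mk (nat_lit 11058) (nat_lit 0) [nat_lit 24180, nat_lit 15432, nat_lit 9600, nat_lit 11220, nat_lit 11004, nat_lit 11112, nat_lit 11040, nat_lit 11076, nat_lit 11064, nat_lit 11056] (nat_lit 0) [] false,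
   Spec.mk (nat_lit 11062) (nat_lit 0) [nat_lit 24184, nat_lit 15436, nat_lit 9604, nat_lit 11224, nat_lit 11008, nat_lit 11116, nat_lit 11080, nat_lit 11056, nat_lit 11064] (nat_lit 1) [nat_lit 30744] false,
   Spec.mk (nat_lit 11064) (nat_lit 1) [nat_lit 24186, nat_lit 15438, nat_lit 9606, nat_lit 11226, nat_lit 11010, nat_lit 11118, nat_lit 11082, nat_lit 11058, nat_lit 11062] (nat_lit 0) [] false,
   Spec.mk (nat_lit 11072) (nat_lit 0) [nat_lit 24194, nat_lit 15446, nat_lit 9614, nat_lit 11234, nat_lit 11126, nat_lit 11054, nat_lit 11074] (nat_lit 2) [nat_lit 30754] false,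
   Spec.mk (nat_lit 11074) (nat_lit 0) [nat_lit 24196, nat_lit 15448, nat_lit 9616, nat_lit 11236, nat_lit 11128, nat_lit 11056, nat_lit 11080, nat_lit 11072, nat_lit 11076] (nat_lit 1) [nat_lit 30756] false,
   Spec.mk (nat_lit 11076) (nat_lit 0) [nat_lit 24198, nat_lit 15450, nat_lit 9618, nat_lit 11238, nat_lit 11130, nat_lit 11058, nat_lit 11082, nat_lit 11074] (nat_lit 2) [] false,
   Spec.mk (nat_lit 11080) (nat_lit 0) [nat_lit 24202, nat_lit 15454, nat_lit 9622, nat_lit 11242, nat_lit 11134, nat_lit 11062, nat_lit 11074, nat_lit 11082] (nat_lit 0) [nat_lit 30762] false,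
   Spec.mk (nat_lit 11082) (nat_lit 1) [nat_lit 24204, nat_lit 15456, nat_lit 9624, nat_lit 11244, nat_lit 11136, nat_lit 11064, nat_lit 11076, nat_lit 11088, nat_lit 11080] (nat_lit 0) [] false,
   Spec.mk (nat_lit 11088) (nat_lit 2) [nat_lit 24210, nat_lit 15462, nat_lit 9630, nat_lit 11250, nat_lit 11142, nat_lit 11082] (nat_lit 0) [] false,
   Spec.mk (nat_lit 11102) (nat_lit 0) [nat_lit 24224, nat_lit 15476, nat_lit 9644, nat_lit 11264, nat_lit 11048, nat_lit 11108, nat_lit 11104] (nat_lit 2) [nat_lit 30784] false,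
   Spec.mk (nat_lit 11104) (nat_lit 0) [nat_lit 24226, nat_lit 15478, nat_lit 9646, nat_lit 11266, nat_lit 11050, nat_lit 11110, nat_lit 11102] (nat_lit 2) [nat_lit 30786] false,
   Spec.mk (nat_lit 11108) (nat_lit 0) [nat_lit 24230, nat_lit 15482, nat_lit 9650, nat_lit 11270, nat_lit 11054, nat_lit 11126, nat_lit 11102, nat_lit 11110] (nat_lit 4) [nat_lit 30790] false,
   Spec.mk (nat_lit 11110) (nat_lit 0) [nat_lit 24232, nat_lit 15484, nat_lit 9652, nat_lit 11272, nat_lit 11056, nat_lit 11128, nat_lit 11104, nat_lit 11116, nat_lit 11108, nat_lit 11112] (nat_lit 2) [nat_lit 30792] false,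
   Spec.mk (nat_lit 11112) (nat_lit 0) [nat_lit 24234, nat_lit 15486, nat_lit 9654, nat_lit 11274, nat_lit 11058, nat_lit 11130, nat_lit 11118, nat_lit 11110] (nat_lit 2) [] false,
   Spec.mk (nat_lit 11116) (nat_lit 0) [nat_lit 24238, nat_lit 15490, nat_lit 9658, nat_lit 11278, nat_lit 11062, nat_lit 11134, nat_lit 11110, nat_lit 11118] (nat_lit 4) [nat_lit 30798] false,
   Spec.mk (nat_lit 11118) (nat_lit 0) [nat_lit 24240, nat_lit 15492, nat_lit 9660, nat_lit 11280, nat_lit 11064, nat_lit 11136, nat_lit 11112, nat_lit 11116] (nat_lit 2) [] false,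
   Spec.mk (nat_lit 11126) (nat_lit 0) [nat_lit 24248, nat_lit 15500, nat_lit 9668, nat_lit 11288, nat_lit 11072, nat_lit 11108, nat_lit 11128] (nat_lit 2) [nat_lit 30808] false,
   Spec.mk (nat_lit 11128) (nat_lit 0) [nat_lit 24250, nat_lit 15502, nat_lit 9670, nat_lit 11290, nat_lit 11074, nat_lit 11110, nat_lit 11134, nat_lit 11126, nat_lit 11130] (nat_lit 1) [nat_lit 30810] false,
   Spec.mk (nat_lit 11130) (nat_lit 0) [nat_lit 24252, nat_lit 15504, nat_lit 9672, nat_lit 11292, nat_lit 11076, nat_lit 11112, nat_lit 11136, nat_lit 11128] (nat_lit 2) [] false,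
   Spec.mk (nat_lit 11134) (nat_lit 0) [nat_lit 24256, nat_lit 15508, nat_lit 9676, nat_lit 11296, nat_lit 11080, nat_lit 11116, nat_lit 11152, nat_lit 11128, nat_lit 11136] (nat_lit 1) [nat_lit 30816] false,
   Spec.mk (nat_lit 11136) (nat_lit 0) [nat_lit 24258, nat_lit 15510, nat_lit 9678, nat_lit 11298, nat_lit 11082, nat_lit 11118, nat_lit 11154, nat_lit 11130, nat_lit 11142, nat_lit 11134] (nat_lit 0) [] false,
   Spec.mk (nat_lit 11142) (nat_lit 0) [nat_lit 24264, nat_lit 15516, nat_lit 9684, nat_lit 11304, nat_lit 11088, nat_lit 11160, nat_lit 11136] (nat_lit 0) [] false,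
   Spec.mk (nat_lit 11152) (nat_lit 0) [nat_lit 24274, nat_lit 15526, nat_lit 9694, nat_lit 11314, nat_lit 11134, nat_lit 11154] (nat_lit 0) [nat_lit 30834] false,
   Spec.mk (nat_lit 11154) (nat_lit 0) [nat_lit 24276, nat_lit 15528, nat_lit 9696, nat_lit 11316, nat_lit 11136, nat_lit 11160, nat_lit 11152] (nat_lit 0) [] false,
   Spec.mk (nat_lit 11160) (nat_lit 2) [nat_lit 24282, nat_lit 15534, nat_lit 9702, nat_lit 11322, nat_lit 11142, nat_lit 11154] (nat_lit 0) [] false,
   Spec.mk (nat_lit 11186) (nat_lit 0) [nat_lit 24308, nat_lit 15560, nat_lit 9728, nat_lit 11672, nat_lit 11024, nat_lit 11192] (nat_lit 0) [nat_lit 30868] false,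
   Spec.mk (nat_lit 11192) (nat_lit 0) [nat_lit 24314, nat_lit 15566, nat_lit 9734, nat_lit 11678, nat_lit 11030, nat_lit 11210, nat_lit 11186, nat_lit 11198, nat_lit 11194] (nat_lit 1) [nat_lit 30874] false,
   Spec.mk (nat_lit 11194) (nat_lit 0) [nat_lit 24316, nat_lit 15568, nat_lit 9736, nat_lit 11680, nat_lit 11032, nat_lit 11212, nat_lit 11200, nat_lit 11192] (nat_lit 0) [nat_lit 30876] false,
   Spec.mk (nat_lit 11198) (nat_lit 0) [nat_lit 24320, nat_lit 15572, nat_lit 9740, nat_lit 11684, nat_lit 11036, nat_lit 11216, nat_lit 11192, nat_lit 11200] (nat_lit 4) [nat_lit 30880] false,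
   Spec.mk (nat_lit 11200) (nat_lit 0) [nat_lit 24322, nat_lit 15574, nat_lit 9742, nat_lit 11686, nat_lit 11038, nat_lit 11218, nat_lit 11194, nat_lit 11198, nat_lit 11202] (nat_lit 1) [nat_lit 30882] false,
   Spec.mk (nat_lit 11202) (nat_lit 0) [nat_lit 24324, nat_lit 15576, nat_lit 9744, nat_lit 11688, nat_lit 11040, nat_lit 11220, nat_lit 11200] (nat_lit 0) [] false,
   Spec.mk (nat_lit 11210) (nat_lit 0) [nat_lit 24332, nat_lit 15584, nat_lit 9752, nat_lit 11696, nat_lit 11048, nat_lit 11264, nat_lit 11192, nat_lit 11216, nat_lit 11212] (nat_lit 2) [nat_lit 30892] false,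
   Spec.mk (nat_lit 11212) (nat_lit 0) [nat_lit 24334, nat_lit 15586, nat_lit 9754, nat_lit 11698, nat_lit 11050, nat_lit 11266, nat_lit 11194, nat_lit 11218, nat_lit 11210] (nat_lit 2) [nat_lit 30894] false,
   Spec.mk (nat_lit 11216) (nat_lit 0) [nat_lit 24338, nat_lit 15590, nat_lit 9758, nat_lit 11702, nat_lit 11054, nat_lit 11270, nat_lit 11198, nat_lit 11234, nat_lit 11210, nat_lit 11218] (nat_lit 3) [nat_lit 30898] false,
   Spec.mk (nat_lit 11218) (nat_lit 0) [nat_lit 24340, nat_lit 15592, nat_lit 9760, nat_lit 11704, nat_lit 11056, nat_lit 11272, nat_lit 11200, nat_lit 11236, nat_lit 11212, nat_lit 11224, nat_lit 11216, nat_lit 11220] (nat_lit 1) [nat_lit 30900] false,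
   Spec.mk (nat_lit 11220) (nat_lit 0) [nat_lit 24342, nat_lit 15594, nat_lit 9762, nat_lit 11706, nat_lit 11058, nat_lit 11274, nat_lit 11202, nat_lit 11238, nat_lit 11226, nat_lit 11218] (nat_lit 1) [] false,
   Spec.mk (nat_lit 11224) (nat_lit 0) [nat_lit 24346, nat_lit 15598, nat_lit 9766, nat_lit 11710, nat_lit 11062, nat_lit 11278, nat_lit 11242, nat_lit 11218, nat_lit 11226] (nat_lit 2) [nat_lit 30906] false]

noncomputable def sp32 : List Spec :=
  [Spec.mk (nat_lit 11226) (nat_lit 0) [nat_lit 24348, nat_lit 15600, nat_lit 9768, nat_lit 11712, nat_lit 11064, nat_lit 11280, nat_lit 11244, nat_lit 11220, nat_lit 11224] (nat_lit 0) [] false,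
   Spec.mk (nat_lit 11234) (nat_lit 0) [nat_lit 24356, nat_lit 15608, nat_lit 9776, nat_lit 11720, nat_lit 11072, nat_lit 11288, nat_lit 11216, nat_lit 11236] (nat_lit 4) [nat_lit 30916] false,
   Spec.mk (nat_lit 11236) (nat_lit 0) [nat_lit 24358, nat_lit 15610, nat_lit 9778, nat_lit 11722, nat_lit 11074, nat_lit 11290, nat_lit 11218, nat_lit 11242, nat_lit 11234, nat_lit 11238] (nat_lit 3) [nat_lit 30918] false,
   Spec.mk (nat_lit 11238) (nat_lit 0) [nat_lit 24360, nat_lit 15612, nat_lit 9780, nat_lit 11724, nat_lit 11076, nat_lit 11292, nat_lit 11220, nat_lit 11244, nat_lit 11236] (nat_lit 4) [] false,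
   Spec.mk (nat_lit 11242) (nat_lit 0) [nat_lit 24364, nat_lit 15616, nat_lit 9784, nat_lit 11728, nat_lit 11080, nat_lit 11296, nat_lit 11224, nat_lit 11236, nat_lit 11244] (nat_lit 2) [nat_lit 30924] false,
   Spec.mk (nat_lit 11244) (nat_lit 0) [nat_lit 24366, nat_lit 15618, nat_lit 9786, nat_lit 11730, nat_lit 11082, nat_lit 11298, nat_lit 11226, nat_lit 11238, nat_lit 11250, nat_lit 11242] (nat_lit 1) [] false,
   Spec.mk (nat_lit 11250) (nat_lit 0) [nat_lit 24372, nat_lit 15624, nat_lit 9792, nat_lit 11736, nat_lit 11088, nat_lit 11304, nat_lit 11244] (nat_lit 0) [] false,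
   Spec.mk (nat_lit 11264) (nat_lit 0) [nat_lit 24386, nat_lit 15638, nat_lit 9806, nat_lit 11750, nat_lit 11102, nat_lit 11426, nat_lit 11210, nat_lit 11270, nat_lit 11266] (nat_lit 1) [nat_lit 30946] false,
   Spec.mk (nat_lit 11266) (nat_lit 0) [nat_lit 24388, nat_lit 15640, nat_lit 9808, nat_lit 11752, nat_lit 11104, nat_lit 11428, nat_lit 11212, nat_lit 11272, nat_lit 11264] (nat_lit 1) [nat_lit 30948] false,
   Spec.mk (nat_lit 11270) (nat_lit 0) [nat_lit 24392, nat_lit 15644, nat_lit 9812, nat_lit 11756, nat_lit 11108, nat_lit 11432, nat_lit 11216, nat_lit 11288, nat_lit 11264, nat_lit 11272] (nat_lit 3) [nat_lit 30952] false,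
   Spec.mk (nat_lit 11272) (nat_lit 0) [nat_lit 24394, nat_lit 15646, nat_lit 9814, nat_lit 11758, nat_lit 11110, nat_lit 11434, nat_lit 11218, nat_lit 11290, nat_lit 11266, nat_lit 11278, nat_lit 11270, nat_lit 11274] (nat_lit 1) [nat_lit 30954] false,
   Spec.mk (nat_lit 11274) (nat_lit 0) [nat_lit 24396, nat_lit 15648, nat_lit 9816, nat_lit 11760, nat_lit 11112, nat_lit 11436, nat_lit 11220, nat_lit 11292, nat_lit 11280, nat_lit 11272] (nat_lit 1) [] false,
   Spec.mk (nat_lit 11278) (nat_lit 0) [nat_lit 24400, nat_lit 15652, nat_lit 9820, nat_lit 11764, nat_lit 11116, nat_lit 11440, nat_lit 11224, nat_lit 11296, nat_lit 11272, nat_lit 11280] (nat_lit 3) [nat_lit 30960] false,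
   Spec.mk (nat_lit 11280) (nat_lit 0) [nat_lit 24402, nat_lit 15654, nat_lit 9822, nat_lit 11766, nat_lit 11118, nat_lit 11442, nat_lit 11226, nat_lit 11298, nat_lit 11274, nat_lit 11278] (nat_lit 1) [] false,
   Spec.mk (nat_lit 11288) (nat_lit 0) [nat_lit 24410, nat_lit 15662, nat_lit 9830, nat_lit 11774, nat_lit 11126, nat_lit 11450, nat_lit 11234, nat_lit 11342, nat_lit 11270, nat_lit 11290] (nat_lit 2) [nat_lit 30970] false,
   Spec.mk (nat_lit 11290) (nat_lit 0) [nat_lit 24412, nat_lit 15664, nat_lit 9832, nat_lit 11776, nat_lit 11128, nat_lit 11452, nat_lit 11236, nat_lit 11344, nat_lit 11272, nat_lit 11296, nat_lit 11288, nat_lit 11292] (nat_lit 1) [nat_lit 30972] false,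
   Spec.mk (nat_lit 11292) (nat_lit 0) [nat_lit 24414, nat_lit 15666, nat_lit 9834, nat_lit 11778, nat_lit 11130, nat_lit 11454, nat_lit 11238, nat_lit 11346, nat_lit 11274, nat_lit 11298, nat_lit 11290] (nat_lit 2) [] false,
   Spec.mk (nat_lit 11296) (nat_lit 0) [nat_lit 24418, nat_lit 15670, nat_lit 9838, nat_lit 11782, nat_lit 11134, nat_lit 11458, nat_lit 11242, nat_lit 11350, nat_lit 11278, nat_lit 11314, nat_lit 11290, nat_lit 11298] (nat_lit 1) [nat_lit 30978] false,
   Spec.mk (nat_lit 11298) (nat_lit 0) [nat_lit 24420, nat_lit 15672, nat_lit 9840, nat_lit 11784, nat_lit 11136, nat_lit 11460, nat_lit 11244, nat_lit 11352, nat_lit 11280, nat_lit 11316, nat_lit 11292, nat_lit 11304, nat_lit 11296] (nat_lit 0) [] false,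
   Spec.mk (nat_lit 11304) (nat_lit 0) [nat_lit 24426, nat_lit 15678, nat_lit 9846, nat_lit 11790, nat_lit 11142, nat_lit 11466, nat_lit 11250, nat_lit 11358, nat_lit 11322, nat_lit 11298] (nat_lit 0) [] false,
   Spec.mk (nat_lit 11314) (nat_lit 0) [nat_lit 24436, nat_lit 15688, nat_lit 9856, nat_lit 11800, nat_lit 11152, nat_lit 11476, nat_lit 11368, nat_lit 11296, nat_lit 11316] (nat_lit 1) [nat_lit 30996] false,
   Spec.mk (nat_lit 11316) (nat_lit 0) [nat_lit 24438, nat_lit 15690, nat_lit 9858, nat_lit 11802, nat_lit 11154, nat_lit 11478, nat_lit 11370, nat_lit 11298, nat_lit 11322, nat_lit 11314] (nat_lit 1) [] false,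
   Spec.mk (nat_lit 11322) (nat_lit 1) [nat_lit 24444, nat_lit 15696, nat_lit 9864, nat_lit 11808, nat_lit 11160, nat_lit 11484, nat_lit 11376, nat_lit 11304, nat_lit 11316] (nat_lit 0) [] false,
   Spec.mk (nat_lit 11342) (nat_lit 0) [nat_lit 24464, nat_lit 15716, nat_lit 9884, nat_lit 11828, nat_lit 11504, nat_lit 11288, nat_lit 11344] (nat_lit 2) [nat_lit 31024] false,
   Spec.mk (nat_lit 11344) (nat_lit 0) [nat_lit 24466, nat_lit 15718, nat_lit 9886, nat_lit 11830, nat_lit 11506, nat_lit 11290, nat_lit 11350, nat_lit 11342, nat_lit 11346] (nat_lit 1) [nat_lit 31026] false,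
   Spec.mk (nat_lit 11346) (nat_lit 0) [nat_lit 24468, nat_lit 15720, nat_lit 9888, nat_lit 11832, nat_lit 11508, nat_lit 11292, nat_lit 11352, nat_lit 11344] (nat_lit 2) [] false,
   Spec.mk (nat_lit 11350) (nat_lit 0) [nat_lit 24472, nat_lit 15724, nat_lit 9892, nat_lit 11836, nat_lit 11512, nat_lit 11296, nat_lit 11368, nat_lit 11344, nat_lit 11352] (nat_lit 2) [nat_lit 31032] false,
   Spec.mk (nat_lit 11352) (nat_lit 0) [nat_lit 24474, nat_lit 15726, nat_lit 9894, nat_lit 11838, nat_lit 11514, nat_lit 11298, nat_lit 11370, nat_lit 11346, nat_lit 11358, nat_lit 11350] (nat_lit 1) [] false,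
   Spec.mk (nat_lit 11358) (nat_lit 0) [nat_lit 24480, nat_lit 15732, nat_lit 9900, nat_lit 11844, nat_lit 11520, nat_lit 11304, nat_lit 11376, nat_lit 11352] (nat_lit 2) [] false,
   Spec.mk (nat_lit 11368) (nat_lit 0) [nat_lit 24490, nat_lit 15742, nat_lit 9910, nat_lit 11854, nat_lit 11530, nat_lit 11314, nat_lit 11350, nat_lit 11370] (nat_lit 0) [nat_lit 31050] false,
   Spec.mk (nat_lit 11370) (nat_lit 0) [nat_lit 24492, nat_lit 15744, nat_lit 9912, nat_lit 11856, nat_lit 11532, nat_lit 11316, nat_lit 11352, nat_lit 11376, nat_lit 11368] (nat_lit 0) [] false,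
   Spec.mk (nat_lit 11376) (nat_lit 1) [nat_lit 24498, nat_lit 15750, nat_lit 9918, nat_lit 11862, nat_lit 11538, nat_lit 11322, nat_lit 11358, nat_lit 11394, nat_lit 11370] (nat_lit 0) [] false,
   Spec.mk (nat_lit 11394) (nat_lit 2) [nat_lit 24516, nat_lit 15768, nat_lit 9936, nat_lit 11880, nat_lit 11556, nat_lit 11376] (nat_lit 0) [] false,
   Spec.mk (nat_lit 11426) (nat_lit 0) [nat_lit 24548, nat_lit 15800, nat_lit 9968, nat_lit 11912, nat_lit 11264, nat_lit 11432, nat_lit 11428] (nat_lit 2) [nat_lit 31108] false,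
   Spec.mk (nat_lit 11428) (nat_lit 0) [nat_lit 24550, nat_lit 15802, nat_lit 9970, nat_lit 11914, nat_lit 11266, nat_lit 11434, nat_lit 11426] (nat_lit 2) [nat_lit 31110] false,
   Spec.mk (nat_lit 11432) (nat_lit 0) [nat_lit 24554, nat_lit 15806, nat_lit 9974, nat_lit 11918, nat_lit 11270, nat_lit 11450, nat_lit 11426, nat_lit 11434] (nat_lit 4) [nat_lit 31114] false,
   Spec.mk (nat_lit 11434) (nat_lit 0) [nat_lit 24556, nat_lit 15808, nat_lit 9976, nat_lit 11920, nat_lit 11272, nat_lit 11452, nat_lit 11428, nat_lit 11440, nat_lit 11432, nat_lit 11436] (nat_lit 2) [nat_lit 31116] false,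
   Spec.mk (nat_lit 11436) (nat_lit 0) [nat_lit 24558, nat_lit 15810, nat_lit 9978, nat_lit 11922, nat_lit 11274, nat_lit 11454, nat_lit 11442, nat_lit 11434] (nat_lit 2) [] false,
   Spec.mk (nat_lit 11440) (nat_lit 0) [nat_lit 24562, nat_lit 15814, nat_lit 9982, nat_lit 11926, nat_lit 11278, nat_lit 11458, nat_lit 11434, nat_lit 11442] (nat_lit 4) [nat_lit 31122] false,
   Spec.mk (nat_lit 11442) (nat_lit 0) [nat_lit 24564, nat_lit 15816, nat_lit 9984, nat_lit 11928, nat_lit 11280, nat_lit 11460, nat_lit 11436, nat_lit 11440] (nat_lit 2) [] false,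
   Spec.mk (nat_lit 11450) (nat_lit 0) [nat_lit 24572, nat_lit 15824, nat_lit 9992, nat_lit 11936, nat_lit 11288, nat_lit 11504, nat_lit 11432, nat_lit 11452] (nat_lit 4) [nat_lit 31132] false,
   Spec.mk (nat_lit 11452) (nat_lit 0) [nat_lit 24574, nat_lit 15826, nat_lit 9994, nat_lit 11938, nat_lit 11290, nat_lit 11506, nat_lit 11434, nat_lit 11458, nat_lit 11450, nat_lit 11454] (nat_lit 3) [nat_lit 31134] false,
   Spec.mk (nat_lit 11454) (nat_lit 0) [nat_lit 24576, nat_lit 15828, nat_lit 9996, nat_lit 11940, nat_lit 11292, nat_lit 11508, nat_lit 11436, nat_lit 11460, nat_lit 11452] (nat_lit 4) [] false,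
   Spec.mk (nat_lit 11458) (nat_lit 0) [nat_lit 24580, nat_lit 15832, nat_lit 10000, nat_lit 11944, nat_lit 11296, nat_lit 11512, nat_lit 11440, nat_lit 11476, nat_lit 11452, nat_lit 11460] (nat_lit 3) [nat_lit 31140] false,
   Spec.mk (nat_lit 11460) (nat_lit 0) [nat_lit 24582, nat_lit 15834, nat_lit 10002, nat_lit 11946, nat_lit 11298, nat_lit 11514, nat_lit 11442, nat_lit 11478, nat_lit 11454, nat_lit 11466, nat_lit 11458] (nat_lit 2) [] false,
   Spec.mk (nat_lit 11466) (nat_lit 0) [nat_lit 24588, nat_lit 15840, nat_lit 10008, nat_lit 11952, nat_lit 11304, nat_lit 11520, nat_lit 11484, nat_lit 11460] (nat_lit 2) [] false,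
   Spec.mk (nat_lit 11476) (nat_lit 0) [nat_lit 24598, nat_lit 15850, nat_lit 10018, nat_lit 11962, nat_lit 11314, nat_lit 11530, nat_lit 11458, nat_lit 11478] (nat_lit 4) [nat_lit 31158] false,
   Spec.mk (nat_lit 11478) (nat_lit 0) [nat_lit 24600, nat_lit 15852, nat_lit 10020, nat_lit 11964, nat_lit 11316, nat_lit 11532, nat_lit 11460, nat_lit 11484, nat_lit 11476] (nat_lit 4) [] false,
   Spec.mk (nat_lit 11484) (nat_lit 0) [nat_lit 24606, nat_lit 15858, nat_lit 10026, nat_lit 11970, nat_lit 11322, nat_lit 11538, nat_lit 11466, nat_lit 11478] (nat_lit 2) [] false,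
   Spec.mk (nat_lit 11504) (nat_lit 0) [nat_lit 24626, nat_lit 15878, nat_lit 10046, nat_lit 11990, nat_lit 11342, nat_lit 11450, nat_lit 11506] (nat_lit 2) [nat_lit 31186] false,
   Spec.mk (nat_lit 11506) (nat_lit 0) [nat_lit 24628, nat_lit 15880, nat_lit 10048, nat_lit 11992, nat_lit 11344, nat_lit 11452, nat_lit 11512, nat_lit 11504, nat_lit 11508] (nat_lit 1) [nat_lit 31188] false,
   Spec.mk (nat_lit 11508) (nat_lit 0) [nat_lit 24630, nat_lit 15882, nat_lit 10050, nat_lit 11994, nat_lit 11346, nat_lit 11454, nat_lit 11514, nat_lit 11506] (nat_lit 2) [] false,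
   Spec.mk (nat_lit 11512) (nat_lit 0) [nat_lit 24634, nat_lit 15886, nat_lit 10054, nat_lit 11998, nat_lit 11350, nat_lit 11458, nat_lit 11530, nat_lit 11506, nat_lit 11514] (nat_lit 2) [nat_lit 31194] false,
   Spec.mk (nat_lit 11514) (nat_lit 0) [nat_lit 24636, nat_lit 15888, nat_lit 10056, nat_lit 12000, nat_lit 11352, nat_lit 11460, nat_lit 11532, nat_lit 11508, nat_lit 11520, nat_lit 11512] (nat_lit 1) [] false,
   Spec.mk (nat_lit 11520) (nat_lit 0) [nat_lit 24642, nat_lit 15894, nat_lit 10062, nat_lit 12006, nat_lit 11358, nat_lit 11466, nat_lit 11538, nat_lit 11514] (nat_lit 2) [] false,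
   Spec.mk (nat_lit 11530) (nat_lit 0) [nat_lit 24652, nat_lit 15904, nat_lit 10072, nat_lit 12016, nat_lit 11368, nat_lit 11476, nat_lit 11584, nat_lit 11512, nat_lit 11532] (nat_lit 1) [nat_lit 31212] false,
   Spec.mk (nat_lit 11532) (nat_lit 0) [nat_lit 24654, nat_lit 15906, nat_lit 10074, nat_lit 12018, nat_lit 11370, nat_lit 11478, nat_lit 11586, nat_lit 11514, nat_lit 11538, nat_lit 11530] (nat_lit 1) [] false,
   Spec.mk (nat_lit 11538) (nat_lit 0) [nat_lit 24660, nat_lit 15912, nat_lit 10080, nat_lit 12024, nat_lit 11376, nat_lit 11484, nat_lit 11592, nat_lit 11520, nat_lit 11556, nat_lit 11532] (nat_lit 0) [] false,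
   Spec.mk (nat_lit 11556) (nat_lit 0) [nat_lit 24678, nat_lit 15930, nat_lit 10098, nat_lit 12042, nat_lit 11394, nat_lit 11610, nat_lit 11538] (nat_lit 0) [] false,
   Spec.mk (nat_lit 11584) (nat_lit 0) [nat_lit 24706, nat_lit 15958, nat_lit 10126, nat_lit 12070, nat_lit 11530, nat_lit 11586] (nat_lit 0) [nat_lit 31266] false]

noncomputable def sp33 : List Spec :=
  [Spec.mk (nat_lit 11586) (nat_lit 0) [nat_lit 24708, nat_lit 15960, nat_lit 10128, nat_lit 12072, nat_lit 11532, nat_lit 11592, nat_lit 11584] (nat_lit 0) [] false,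
   Spec.mk (nat_lit 11592) (nat_lit 0) [nat_lit 24714, nat_lit 15966, nat_lit 10134, nat_lit 12078, nat_lit 11538, nat_lit 11610, nat_lit 11586] (nat_lit 0) [] false,
   Spec.mk (nat_lit 11610) (nat_lit 2) [nat_lit 24732, nat_lit 15984, nat_lit 10152, nat_lit 12096, nat_lit 11556, nat_lit 11592] (nat_lit 0) [] false,
   Spec.mk (nat_lit 11672) (nat_lit 2) [nat_lit 24794, nat_lit 16046, nat_lit 10214, nat_lit 11186, nat_lit 11678] (nat_lit 0) [nat_lit 31354] false,
   Spec.mk (nat_lit 11678) (nat_lit 1) [nat_lit 24800, nat_lit 16052, nat_lit 10220, nat_lit 11192, nat_lit 11696, nat_lit 11672, nat_lit 11684, nat_lit 11680] (nat_lit 0) [nat_lit 31360] false,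
   Spec.mk (nat_lit 11680) (nat_lit 2) [nat_lit 24802, nat_lit 16054, nat_lit 10222, nat_lit 11194, nat_lit 11698, nat_lit 11686, nat_lit 11678] (nat_lit 0) [nat_lit 31362] false,
   Spec.mk (nat_lit 11684) (nat_lit 0) [nat_lit 24806, nat_lit 16058, nat_lit 10226, nat_lit 11198, nat_lit 11702, nat_lit 11678, nat_lit 11686] (nat_lit 2) [nat_lit 31366] false,
   Spec.mk (nat_lit 11686) (nat_lit 1) [nat_lit 24808, nat_lit 16060, nat_lit 10228, nat_lit 11200, nat_lit 11704, nat_lit 11680, nat_lit 11684, nat_lit 11688] (nat_lit 0) [nat_lit 31368] false,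
   Spec.mk (nat_lit 11688) (nat_lit 2) [nat_lit 24810, nat_lit 16062, nat_lit 10230, nat_lit 11202, nat_lit 11706, nat_lit 11686] (nat_lit 0) [] false,
   Spec.mk (nat_lit 11696) (nat_lit 0) [nat_lit 24818, nat_lit 16070, nat_lit 10238, nat_lit 11210, nat_lit 11750, nat_lit 11678, nat_lit 11702, nat_lit 11698] (nat_lit 0) [nat_lit 31378] false,
   Spec.mk (nat_lit 11698) (nat_lit 0) [nat_lit 24820, nat_lit 16072, nat_lit 10240, nat_lit 11212, nat_lit 11752, nat_lit 11680, nat_lit 11704, nat_lit 11696] (nat_lit 0) [nat_lit 31380] false,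
   Spec.mk (nat_lit 11702) (nat_lit 0) [nat_lit 24824, nat_lit 16076, nat_lit 10244, nat_lit 11216, nat_lit 11756, nat_lit 11684, nat_lit 11720, nat_lit 11696, nat_lit 11704] (nat_lit 1) [nat_lit 31384] false,
   Spec.mk (nat_lit 11704) (nat_lit 1) [nat_lit 24826, nat_lit 16078, nat_lit 10246, nat_lit 11218, nat_lit 11758, nat_lit 11686, nat_lit 11722, nat_lit 11698, nat_lit 11710, nat_lit 11702, nat_lit 11706] (nat_lit 0) [nat_lit 31386] false,
   Spec.mk (nat_lit 11706) (nat_lit 1) [nat_lit 24828, nat_lit 16080, nat_lit 10248, nat_lit 11220, nat_lit 11760, nat_lit 11688, nat_lit 11724, nat_lit 11712, nat_lit 11704] (nat_lit 0) [] false,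
   Spec.mk (nat_lit 11710) (nat_lit 0) [nat_lit 24832, nat_lit 16084, nat_lit 10252, nat_lit 11224, nat_lit 11764, nat_lit 11728, nat_lit 11704, nat_lit 11712] (nat_lit 0) [nat_lit 31392] false,
   Spec.mk (nat_lit 11712) (nat_lit 2) [nat_lit 24834, nat_lit 16086, nat_lit 10254, nat_lit 11226, nat_lit 11766, nat_lit 11730, nat_lit 11706, nat_lit 11710] (nat_lit 0) [] false,
   Spec.mk (nat_lit 11720) (nat_lit 0) [nat_lit 24842, nat_lit 16094, nat_lit 10262, nat_lit 11234, nat_lit 11774, nat_lit 11702, nat_lit 11722] (nat_lit 2) [nat_lit 31402] false,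
   Spec.mk (nat_lit 11722) (nat_lit 0) [nat_lit 24844, nat_lit 16096, nat_lit 10264, nat_lit 11236, nat_lit 11776, nat_lit 11704, nat_lit 11728, nat_lit 11720, nat_lit 11724] (nat_lit 1) [nat_lit 31404] false,
   Spec.mk (nat_lit 11724) (nat_lit 0) [nat_lit 24846, nat_lit 16098, nat_lit 10266, nat_lit 11238, nat_lit 11778, nat_lit 11706, nat_lit 11730, nat_lit 11722] (nat_lit 2) [] false,
   Spec.mk (nat_lit 11728) (nat_lit 0) [nat_lit 24850, nat_lit 16102, nat_lit 10270, nat_lit 11242, nat_lit 11782, nat_lit 11710, nat_lit 11722, nat_lit 11730] (nat_lit 0) [nat_lit 31410] false,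
   Spec.mk (nat_lit 11730) (nat_lit 1) [nat_lit 24852, nat_lit 16104, nat_lit 10272, nat_lit 11244, nat_lit 11784, nat_lit 11712, nat_lit 11724, nat_lit 11736, nat_lit 11728] (nat_lit 0) [] false,
   Spec.mk (nat_lit 11736) (nat_lit 2) [nat_lit 24858, nat_lit 16110, nat_lit 10278, nat_lit 11250, nat_lit 11790, nat_lit 11730] (nat_lit 0) [] false,
   Spec.mk (nat_lit 11750) (nat_lit 0) [nat_lit 24872, nat_lit 16124, nat_lit 10292, nat_lit 11264, nat_lit 11912, nat_lit 11696, nat_lit 11756, nat_lit 11752] (nat_lit 0) [nat_lit 31432] false,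
   Spec.mk (nat_lit 11752) (nat_lit 0) [nat_lit 24874, nat_lit 16126, nat_lit 10294, nat_lit 11266, nat_lit 11914, nat_lit 11698, nat_lit 11758, nat_lit 11750] (nat_lit 0) [nat_lit 31434] false,
   Spec.mk (nat_lit 11756) (nat_lit 0) [nat_lit 24878, nat_lit 16130, nat_lit 10298, nat_lit 11270, nat_lit 11918, nat_lit 11702, nat_lit 11774, nat_lit 11750, nat_lit 11758] (nat_lit 2) [nat_lit 31438] false,
   Spec.mk (nat_lit 11758) (nat_lit 0) [nat_lit 24880, nat_lit 16132, nat_lit 10300, nat_lit 11272, nat_lit 11920, nat_lit 11704, nat_lit 11776, nat_lit 11752, nat_lit 11764, nat_lit 11756, nat_lit 11760] (nat_lit 0) [nat_lit 31440] false,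
   Spec.mk (nat_lit 11760) (nat_lit 0) [nat_lit 24882, nat_lit 16134, nat_lit 10302, nat_lit 11274, nat_lit 11922, nat_lit 11706, nat_lit 11778, nat_lit 11766, nat_lit 11758] (nat_lit 0) [] false,
   Spec.mk (nat_lit 11764) (nat_lit 0) [nat_lit 24886, nat_lit 16138, nat_lit 10306, nat_lit 11278, nat_lit 11926, nat_lit 11710, nat_lit 11782, nat_lit 11758, nat_lit 11766] (nat_lit 2) [nat_lit 31446] false,
   Spec.mk (nat_lit 11766) (nat_lit 0) [nat_lit 24888, nat_lit 16140, nat_lit 10308, nat_lit 11280, nat_lit 11928, nat_lit 11712, nat_lit 11784, nat_lit 11760, nat_lit 11764] (nat_lit 0) [] false,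
   Spec.mk (nat_lit 11774) (nat_lit 0) [nat_lit 24896, nat_lit 16148, nat_lit 10316, nat_lit 11288, nat_lit 11936, nat_lit 11720, nat_lit 11828, nat_lit 11756, nat_lit 11776] (nat_lit 1) [nat_lit 31456] false,
   Spec.mk (nat_lit 11776) (nat_lit 0) [nat_lit 24898, nat_lit 16150, nat_lit 10318, nat_lit 11290, nat_lit 11938, nat_lit 11722, nat_lit 11830, nat_lit 11758, nat_lit 11782, nat_lit 11774, nat_lit 11778] (nat_lit 0) [nat_lit 31458] false,
   Spec.mk (nat_lit 11778) (nat_lit 0) [nat_lit 24900, nat_lit 16152, nat_lit 10320, nat_lit 11292, nat_lit 11940, nat_lit 11724, nat_lit 11832, nat_lit 11760, nat_lit 11784, nat_lit 11776] (nat_lit 1) [] false,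
   Spec.mk (nat_lit 11782) (nat_lit 0) [nat_lit 24904, nat_lit 16156, nat_lit 10324, nat_lit 11296, nat_lit 11944, nat_lit 11728, nat_lit 11836, nat_lit 11764, nat_lit 11800, nat_lit 11776, nat_lit 11784] (nat_lit 0) [nat_lit 31464] false,
   Spec.mk (nat_lit 11784) (nat_lit 1) [nat_lit 24906, nat_lit 16158, nat_lit 10326, nat_lit 11298, nat_lit 11946, nat_lit 11730, nat_lit 11838, nat_lit 11766, nat_lit 11802, nat_lit 11778, nat_lit 11790, nat_lit 11782] (nat_lit 0) [] false,
   Spec.mk (nat_lit 11790) (nat_lit 1) [nat_lit 24912, nat_lit 16164, nat_lit 10332, nat_lit 11304, nat_lit 11952, nat_lit 11736, nat_lit 11844, nat_lit 11808, nat_lit 11784] (nat_lit 0) [] false,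
   Spec.mk (nat_lit 11800) (nat_lit 0) [nat_lit 24922, nat_lit 16174, nat_lit 10342, nat_lit 11314, nat_lit 11962, nat_lit 11854, nat_lit 11782, nat_lit 11802] (nat_lit 0) [nat_lit 31482] false,
   Spec.mk (nat_lit 11802) (nat_lit 0) [nat_lit 24924, nat_lit 16176, nat_lit 10344, nat_lit 11316, nat_lit 11964, nat_lit 11856, nat_lit 11784, nat_lit 11808, nat_lit 11800] (nat_lit 0) [] false,
   Spec.mk (nat_lit 11808) (nat_lit 2) [nat_lit 24930, nat_lit 16182, nat_lit 10350, nat_lit 11322, nat_lit 11970, nat_lit 11862, nat_lit 11790, nat_lit 11802] (nat_lit 0) [] false,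
   Spec.mk (nat_lit 11828) (nat_lit 0) [nat_lit 24950, nat_lit 16202, nat_lit 10370, nat_lit 11342, nat_lit 11990, nat_lit 11774, nat_lit 11830] (nat_lit 2) [nat_lit 31510] false,
   Spec.mk (nat_lit 11830) (nat_lit 0) [nat_lit 24952, nat_lit 16204, nat_lit 10372, nat_lit 11344, nat_lit 11992, nat_lit 11776, nat_lit 11836, nat_lit 11828, nat_lit 11832] (nat_lit 1) [nat_lit 31512] false,
   Spec.mk (nat_lit 11832) (nat_lit 0) [nat_lit 24954, nat_lit 16206, nat_lit 10374, nat_lit 11346, nat_lit 11994, nat_lit 11778, nat_lit 11838, nat_lit 11830] (nat_lit 2) [] false,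
   Spec.mk (nat_lit 11836) (nat_lit 0) [nat_lit 24958, nat_lit 16210, nat_lit 10378, nat_lit 11350, nat_lit 11998, nat_lit 11782, nat_lit 11854, nat_lit 11830, nat_lit 11838] (nat_lit 2) [nat_lit 31518] false,
   Spec.mk (nat_lit 11838) (nat_lit 0) [nat_lit 24960, nat_lit 16212, nat_lit 10380, nat_lit 11352, nat_lit 12000, nat_lit 11784, nat_lit 11856, nat_lit 11832, nat_lit 11844, nat_lit 11836] (nat_lit 1) [] false,
   Spec.mk (nat_lit 11844) (nat_lit 0) [nat_lit 24966, nat_lit 16218, nat_lit 10386, nat_lit 11358, nat_lit 12006, nat_lit 11790, nat_lit 11862, nat_lit 11838] (nat_lit 2) [] false,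
   Spec.mk (nat_lit 11854) (nat_lit 0) [nat_lit 24976, nat_lit 16228, nat_lit 10396, nat_lit 11368, nat_lit 12016, nat_lit 11800, nat_lit 11836, nat_lit 11856] (nat_lit 0) [nat_lit 31536] false,
   Spec.mk (nat_lit 11856) (nat_lit 0) [nat_lit 24978, nat_lit 16230, nat_lit 10398, nat_lit 11370, nat_lit 12018, nat_lit 11802, nat_lit 11838, nat_lit 11862, nat_lit 11854] (nat_lit 0) [] false,
   Spec.mk (nat_lit 11862) (nat_lit 1) [nat_lit 24984, nat_lit 16236, nat_lit 10404, nat_lit 11376, nat_lit 12024, nat_lit 11808, nat_lit 11844, nat_lit 11880, nat_lit 11856] (nat_lit 0) [] false,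
   Spec.mk (nat_lit 11880) (nat_lit 2) [nat_lit 25002, nat_lit 16254, nat_lit 10422, nat_lit 11394, nat_lit 12042, nat_lit 11862] (nat_lit 0) [] false,
   Spec.mk (nat_lit 11912) (nat_lit 1) [nat_lit 25034, nat_lit 16286, nat_lit 10454, nat_lit 11426, nat_lit 12398, nat_lit 11750, nat_lit 11918, nat_lit 11914] (nat_lit 0) [nat_lit 31594] false,
   Spec.mk (nat_lit 11914) (nat_lit 1) [nat_lit 25036, nat_lit 16288, nat_lit 10456, nat_lit 11428, nat_lit 12400, nat_lit 11752, nat_lit 11920, nat_lit 11912] (nat_lit 0) [nat_lit 31596] false,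
   Spec.mk (nat_lit 11918) (nat_lit 0) [nat_lit 25040, nat_lit 16292, nat_lit 10460, nat_lit 11432, nat_lit 12404, nat_lit 11756, nat_lit 11936, nat_lit 11912, nat_lit 11920] (nat_lit 1) [nat_lit 31600] false,
   Spec.mk (nat_lit 11920) (nat_lit 1) [nat_lit 25042, nat_lit 16294, nat_lit 10462, nat_lit 11434, nat_lit 12406, nat_lit 11758, nat_lit 11938, nat_lit 11914, nat_lit 11926, nat_lit 11918, nat_lit 11922] (nat_lit 0) [nat_lit 31602] false,
   Spec.mk (nat_lit 11922) (nat_lit 1) [nat_lit 25044, nat_lit 16296, nat_lit 10464, nat_lit 11436, nat_lit 12408, nat_lit 11760, nat_lit 11940, nat_lit 11928, nat_lit 11920] (nat_lit 0) [] false,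
   Spec.mk (nat_lit 11926) (nat_lit 0) [nat_lit 25048, nat_lit 16300, nat_lit 10468, nat_lit 11440, nat_lit 12412, nat_lit 11764, nat_lit 11944, nat_lit 11920, nat_lit 11928] (nat_lit 1) [nat_lit 31608] false,
   Spec.mk (nat_lit 11928) (nat_lit 1) [nat_lit 25050, nat_lit 16302, nat_lit 10470, nat_lit 11442, nat_lit 12414, nat_lit 11766, nat_lit 11946, nat_lit 11922, nat_lit 11926] (nat_lit 0) [] false,
   Spec.mk (nat_lit 11936) (nat_lit 0) [nat_lit 25058, nat_lit 16310, nat_lit 10478, nat_lit 11450, nat_lit 12422, nat_lit 11774, nat_lit 11990, nat_lit 11918, nat_lit 11938] (nat_lit 1) [nat_lit 31618] false,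
   Spec.mk (nat_lit 11938) (nat_lit 0) [nat_lit 25060, nat_lit 16312, nat_lit 10480, nat_lit 11452, nat_lit 12424, nat_lit 11776, nat_lit 11992, nat_lit 11920, nat_lit 11944, nat_lit 11936, nat_lit 11940] (nat_lit 0) [nat_lit 31620] false,
   Spec.mk (nat_lit 11940) (nat_lit 0) [nat_lit 25062, nat_lit 16314, nat_lit 10482, nat_lit 11454, nat_lit 12426, nat_lit 11778, nat_lit 11994, nat_lit 11922, nat_lit 11946, nat_lit 11938] (nat_lit 1) [] false,
   Spec.mk (nat_lit 11944) (nat_lit 0) [nat_lit 25066, nat_lit 16318, nat_lit 10486, nat_lit 11458, nat_lit 12430, nat_lit 11782, nat_lit 11998, nat_lit 11926, nat_lit 11962, nat_lit 11938, nat_lit 11946] (nat_lit 0) [nat_lit 31626] false,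
   Spec.mk (nat_lit 11946) (nat_lit 1) [nat_lit 25068, nat_lit 16320, nat_lit 10488, nat_lit 11460, nat_lit 12432, nat_lit 11784, nat_lit 12000, nat_lit 11928, nat_lit 11964, nat_lit 11940, nat_lit 11952, nat_lit 11944] (nat_lit 0) [] false]

noncomputable def sp34 : List Spec :=
  [Spec.mk (nat_lit 11952) (nat_lit 1) [nat_lit 25074, nat_lit 16326, nat_lit 10494, nat_lit 11466, nat_lit 12438, nat_lit 11790, nat_lit 12006, nat_lit 11970, nat_lit 11946] (nat_lit 0) [] false,
   Spec.mk (nat_lit 11962) (nat_lit 0) [nat_lit 25084, nat_lit 16336, nat_lit 10504, nat_lit 11476, nat_lit 12448, nat_lit 11800, nat_lit 12016, nat_lit 11944, nat_lit 11964] (nat_lit 1) [nat_lit 31644] false,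
   Spec.mk (nat_lit 11964) (nat_lit 0) [nat_lit 25086, nat_lit 16338, nat_lit 10506, nat_lit 11478, nat_lit 12450, nat_lit 11802, nat_lit 12018, nat_lit 11946, nat_lit 11970, nat_lit 11962] (nat_lit 1) [] false,
   Spec.mk (nat_lit 11970) (nat_lit 1) [nat_lit 25092, nat_lit 16344, nat_lit 10512, nat_lit 11484, nat_lit 12456, nat_lit 11808, nat_lit 12024, nat_lit 11952, nat_lit 11964] (nat_lit 0) [] false,
   Spec.mk (nat_lit 11990) (nat_lit 0) [nat_lit 25112, nat_lit 16364, nat_lit 10532, nat_lit 11504, nat_lit 12476, nat_lit 11828, nat_lit 12152, nat_lit 11936, nat_lit 11992] (nat_lit 0) [nat_lit 31672] false,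
   Spec.mk (nat_lit 11992) (nat_lit 1) [nat_lit 25114, nat_lit 16366, nat_lit 10534, nat_lit 11506, nat_lit 12478, nat_lit 11830, nat_lit 12154, nat_lit 11938, nat_lit 11998, nat_lit 11990, nat_lit 11994] (nat_lit 0) [nat_lit 31674] false,
   Spec.mk (nat_lit 11994) (nat_lit 0) [nat_lit 25116, nat_lit 16368, nat_lit 10536, nat_lit 11508, nat_lit 12480, nat_lit 11832, nat_lit 12156, nat_lit 11940, nat_lit 12000, nat_lit 11992] (nat_lit 0) [] false,
   Spec.mk (nat_lit 11998) (nat_lit 0) [nat_lit 25120, nat_lit 16372, nat_lit 10540, nat_lit 11512, nat_lit 12484, nat_lit 11836, nat_lit 12160, nat_lit 11944, nat_lit 12016, nat_lit 11992, nat_lit 12000] (nat_lit 0) [nat_lit 31680] false,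
   Spec.mk (nat_lit 12000) (nat_lit 1) [nat_lit 25122, nat_lit 16374, nat_lit 10542, nat_lit 11514, nat_lit 12486, nat_lit 11838, nat_lit 12162, nat_lit 11946, nat_lit 12018, nat_lit 11994, nat_lit 12006, nat_lit 11998] (nat_lit 0) [] false,
   Spec.mk (nat_lit 12006) (nat_lit 0) [nat_lit 25128, nat_lit 16380, nat_lit 10548, nat_lit 11520, nat_lit 12492, nat_lit 11844, nat_lit 12168, nat_lit 11952, nat_lit 12024, nat_lit 12000] (nat_lit 0) [] false,
   Spec.mk (nat_lit 12016) (nat_lit 1) [nat_lit 25138, nat_lit 16390, nat_lit 10558, nat_lit 11530, nat_lit 12502, nat_lit 11854, nat_lit 12178, nat_lit 11962, nat_lit 12070, nat_lit 11998, nat_lit 12018] (nat_lit 0) [nat_lit 31698] false,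
   Spec.mk (nat_lit 12018) (nat_lit 1) [nat_lit 25140, nat_lit 16392, nat_lit 10560, nat_lit 11532, nat_lit 12504, nat_lit 11856, nat_lit 12180, nat_lit 11964, nat_lit 12072, nat_lit 12000, nat_lit 12024, nat_lit 12016] (nat_lit 0) [] false,
   Spec.mk (nat_lit 12024) (nat_lit 2) [nat_lit 25146, nat_lit 16398, nat_lit 10566, nat_lit 11538, nat_lit 12510, nat_lit 11862, nat_lit 12186, nat_lit 11970, nat_lit 12078, nat_lit 12006, nat_lit 12042, nat_lit 12018] (nat_lit 0) [] false,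
   Spec.mk (nat_lit 12042) (nat_lit 2) [nat_lit 25164, nat_lit 16416, nat_lit 10584, nat_lit 11556, nat_lit 12528, nat_lit 11880, nat_lit 12204, nat_lit 12096, nat_lit 12024] (nat_lit 0) [] false,
   Spec.mk (nat_lit 12070) (nat_lit 1) [nat_lit 25192, nat_lit 16444, nat_lit 10612, nat_lit 11584, nat_lit 12556, nat_lit 12232, nat_lit 12016, nat_lit 12072] (nat_lit 0) [nat_lit 31752] false,
   Spec.mk (nat_lit 12072) (nat_lit 1) [nat_lit 25194, nat_lit 16446, nat_lit 10614, nat_lit 11586, nat_lit 12558, nat_lit 12234, nat_lit 12018, nat_lit 12078, nat_lit 12070] (nat_lit 0) [] false,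
   Spec.mk (nat_lit 12078) (nat_lit 1) [nat_lit 25200, nat_lit 16452, nat_lit 10620, nat_lit 11592, nat_lit 12564, nat_lit 12240, nat_lit 12024, nat_lit 12096, nat_lit 12072] (nat_lit 0) [] false,
   Spec.mk (nat_lit 12096) (nat_lit 3) [nat_lit 25218, nat_lit 16470, nat_lit 10638, nat_lit 11610, nat_lit 12582, nat_lit 12258, nat_lit 12042, nat_lit 12078] (nat_lit 0) [] false,
   Spec.mk (nat_lit 12152) (nat_lit 0) [nat_lit 25274, nat_lit 16526, nat_lit 10694, nat_lit 12638, nat_lit 11990, nat_lit 12154] (nat_lit 0) [nat_lit 31834] false,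
   Spec.mk (nat_lit 12154) (nat_lit 1) [nat_lit 25276, nat_lit 16528, nat_lit 10696, nat_lit 12640, nat_lit 11992, nat_lit 12160, nat_lit 12152, nat_lit 12156] (nat_lit 0) [nat_lit 31836] false,
   Spec.mk (nat_lit 12156) (nat_lit 0) [nat_lit 25278, nat_lit 16530, nat_lit 10698, nat_lit 12642, nat_lit 11994, nat_lit 12162, nat_lit 12154] (nat_lit 0) [] false,
   Spec.mk (nat_lit 12160) (nat_lit 0) [nat_lit 25282, nat_lit 16534, nat_lit 10702, nat_lit 12646, nat_lit 11998, nat_lit 12178, nat_lit 12154, nat_lit 12162] (nat_lit 0) [nat_lit 31842] false,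
   Spec.mk (nat_lit 12162) (nat_lit 1) [nat_lit 25284, nat_lit 16536, nat_lit 10704, nat_lit 12648, nat_lit 12000, nat_lit 12180, nat_lit 12156, nat_lit 12168, nat_lit 12160] (nat_lit 0) [] false,
   Spec.mk (nat_lit 12168) (nat_lit 0) [nat_lit 25290, nat_lit 16542, nat_lit 10710, nat_lit 12654, nat_lit 12006, nat_lit 12186, nat_lit 12162] (nat_lit 0) [] false,
   Spec.mk (nat_lit 12178) (nat_lit 0) [nat_lit 25300, nat_lit 16552, nat_lit 10720, nat_lit 12664, nat_lit 12016, nat_lit 12232, nat_lit 12160, nat_lit 12180] (nat_lit 0) [nat_lit 31860] false,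
   Spec.mk (nat_lit 12180) (nat_lit 0) [nat_lit 25302, nat_lit 16554, nat_lit 10722, nat_lit 12666, nat_lit 12018, nat_lit 12234, nat_lit 12162, nat_lit 12186, nat_lit 12178] (nat_lit 0) [] false,
   Spec.mk (nat_lit 12186) (nat_lit 1) [nat_lit 25308, nat_lit 16560, nat_lit 10728, nat_lit 12672, nat_lit 12024, nat_lit 12240, nat_lit 12168, nat_lit 12204, nat_lit 12180] (nat_lit 0) [] false,
   Spec.mk (nat_lit 12204) (nat_lit 0) [nat_lit 25326, nat_lit 16578, nat_lit 10746, nat_lit 12690, nat_lit 12042, nat_lit 12258, nat_lit 12186] (nat_lit 0) [] false,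
   Spec.mk (nat_lit 12232) (nat_lit 2) [nat_lit 25354, nat_lit 16606, nat_lit 10774, nat_lit 12718, nat_lit 12070, nat_lit 12178, nat_lit 12234] (nat_lit 0) [nat_lit 31914] false,
   Spec.mk (nat_lit 12234) (nat_lit 2) [nat_lit 25356, nat_lit 16608, nat_lit 10776, nat_lit 12720, nat_lit 12072, nat_lit 12180, nat_lit 12240, nat_lit 12232] (nat_lit 0) [] false,
   Spec.mk (nat_lit 12240) (nat_lit 2) [nat_lit 25362, nat_lit 16614, nat_lit 10782, nat_lit 12726, nat_lit 12078, nat_lit 12186, nat_lit 12258, nat_lit 12234] (nat_lit 0) [] false,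
   Spec.mk (nat_lit 12258) (nat_lit 3) [nat_lit 25380, nat_lit 16632, nat_lit 10800, nat_lit 12744, nat_lit 12096, nat_lit 12204, nat_lit 12312, nat_lit 12240] (nat_lit 0) [] false,
   Spec.mk (nat_lit 12312) (nat_lit 4) [nat_lit 25434, nat_lit 16686, nat_lit 10854, nat_lit 12798, nat_lit 12258] (nat_lit 0) [] false,
   Spec.mk (nat_lit 12398) (nat_lit 2) [nat_lit 25520, nat_lit 16772, nat_lit 11912, nat_lit 12404, nat_lit 12400] (nat_lit 0) [nat_lit 32080] false,
   Spec.mk (nat_lit 12400) (nat_lit 2) [nat_lit 25522, nat_lit 16774, nat_lit 11914, nat_lit 12406, nat_lit 12398] (nat_lit 0) [nat_lit 32082] false,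
   Spec.mk (nat_lit 12404) (nat_lit 0) [nat_lit 25526, nat_lit 16778, nat_lit 11918, nat_lit 12422, nat_lit 12398, nat_lit 12406] (nat_lit 0) [nat_lit 32086] false,
   Spec.mk (nat_lit 12406) (nat_lit 2) [nat_lit 25528, nat_lit 16780, nat_lit 11920, nat_lit 12424, nat_lit 12400, nat_lit 12412, nat_lit 12404, nat_lit 12408] (nat_lit 0) [nat_lit 32088] false,
   Spec.mk (nat_lit 12408) (nat_lit 2) [nat_lit 25530, nat_lit 16782, nat_lit 11922, nat_lit 12426, nat_lit 12414, nat_lit 12406] (nat_lit 0) [] false,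
   Spec.mk (nat_lit 12412) (nat_lit 0) [nat_lit 25534, nat_lit 16786, nat_lit 11926, nat_lit 12430, nat_lit 12406, nat_lit 12414] (nat_lit 0) [nat_lit 32094] false,
   Spec.mk (nat_lit 12414) (nat_lit 2) [nat_lit 25536, nat_lit 16788, nat_lit 11928, nat_lit 12432, nat_lit 12408, nat_lit 12412] (nat_lit 0) [] false,
   Spec.mk (nat_lit 12422) (nat_lit 0) [nat_lit 25544, nat_lit 16796, nat_lit 11936, nat_lit 12476, nat_lit 12404, nat_lit 12424] (nat_lit 0) [nat_lit 32104] false,
   Spec.mk (nat_lit 12424) (nat_lit 1) [nat_lit 25546, nat_lit 16798, nat_lit 11938, nat_lit 12478, nat_lit 12406, nat_lit 12430, nat_lit 12422, nat_lit 12426] (nat_lit 0) [nat_lit 32106] false,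
   Spec.mk (nat_lit 12426) (nat_lit 0) [nat_lit 25548, nat_lit 16800, nat_lit 11940, nat_lit 12480, nat_lit 12408, nat_lit 12432, nat_lit 12424] (nat_lit 0) [] false,
   Spec.mk (nat_lit 12430) (nat_lit 1) [nat_lit 25552, nat_lit 16804, nat_lit 11944, nat_lit 12484, nat_lit 12412, nat_lit 12448, nat_lit 12424, nat_lit 12432] (nat_lit 0) [nat_lit 32112] false,
   Spec.mk (nat_lit 12432) (nat_lit 2) [nat_lit 25554, nat_lit 16806, nat_lit 11946, nat_lit 12486, nat_lit 12414, nat_lit 12450, nat_lit 12426, nat_lit 12438, nat_lit 12430] (nat_lit 0) [] false,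
   Spec.mk (nat_lit 12438) (nat_lit 2) [nat_lit 25560, nat_lit 16812, nat_lit 11952, nat_lit 12492, nat_lit 12456, nat_lit 12432] (nat_lit 0) [] false,
   Spec.mk (nat_lit 12448) (nat_lit 0) [nat_lit 25570, nat_lit 16822, nat_lit 11962, nat_lit 12502, nat_lit 12430, nat_lit 12450] (nat_lit 0) [nat_lit 32130] false,
   Spec.mk (nat_lit 12450) (nat_lit 0) [nat_lit 25572, nat_lit 16824, nat_lit 11964, nat_lit 12504, nat_lit 12432, nat_lit 12456, nat_lit 12448] (nat_lit 0) [] false,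
   Spec.mk (nat_lit 12456) (nat_lit 2) [nat_lit 25578, nat_lit 16830, nat_lit 11970, nat_lit 12510, nat_lit 12438, nat_lit 12450] (nat_lit 0) [] false,
   Spec.mk (nat_lit 12476) (nat_lit 0) [nat_lit 25598, nat_lit 16850, nat_lit 11990, nat_lit 12638, nat_lit 12422, nat_lit 12478] (nat_lit 0) [nat_lit 32158] false,
   Spec.mk (nat_lit 12478) (nat_lit 1) [nat_lit 25600, nat_lit 16852, nat_lit 11992, nat_lit 12640, nat_lit 12424, nat_lit 12484, nat_lit 12476, nat_lit 12480] (nat_lit 0) [nat_lit 32160] false,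
   Spec.mk (nat_lit 12480) (nat_lit 0) [nat_lit 25602, nat_lit 16854, nat_lit 11994, nat_lit 12642, nat_lit 12426, nat_lit 12486, nat_lit 12478] (nat_lit 0) [] false,
   Spec.mk (nat_lit 12484) (nat_lit 0) [nat_lit 25606, nat_lit 16858, nat_lit 11998, nat_lit 12646, nat_lit 12430, nat_lit 12502, nat_lit 12478, nat_lit 12486] (nat_lit 0) [nat_lit 32166] false,
   Spec.mk (nat_lit 12486) (nat_lit 1) [nat_lit 25608, nat_lit 16860, nat_lit 12000, nat_lit 12648, nat_lit 12432, nat_lit 12504, nat_lit 12480, nat_lit 12492, nat_lit 12484] (nat_lit 0) [] false,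
   Spec.mk (nat_lit 12492) (nat_lit 0) [nat_lit 25614, nat_lit 16866, nat_lit 12006, nat_lit 12654, nat_lit 12438, nat_lit 12510, nat_lit 12486] (nat_lit 0) [] false,
   Spec.mk (nat_lit 12502) (nat_lit 1) [nat_lit 25624, nat_lit 16876, nat_lit 12016, nat_lit 12664, nat_lit 12448, nat_lit 12556, nat_lit 12484, nat_lit 12504] (nat_lit 0) [nat_lit 32184] false,
   Spec.mk (nat_lit 12504) (nat_lit 1) [nat_lit 25626, nat_lit 16878, nat_lit 12018, nat_lit 12666, nat_lit 12450, nat_lit 12558, nat_lit 12486, nat_lit 12510, nat_lit 12502] (nat_lit 0) [] false,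
   Spec.mk (nat_lit 12510) (nat_lit 2) [nat_lit 25632, nat_lit 16884, nat_lit 12024, nat_lit 12672, nat_lit 12456, nat_lit 12564, nat_lit 12492, nat_lit 12528, nat_lit 12504] (nat_lit 0) [] false,
   Spec.mk (nat_lit 12528) (nat_lit 2) [nat_lit 25650, nat_lit 16902, nat_lit 12042, nat_lit 12690, nat_lit 12582, nat_lit 12510] (nat_lit 0) [] false,
   Spec.mk (nat_lit 12556) (nat_lit 0) [nat_lit 25678, nat_lit 16930, nat_lit 12070, nat_lit 12718, nat_lit 12502, nat_lit 12558] (nat_lit 0) [nat_lit 32238] false]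

noncomputable def sp35 : List Spec :=
  [Spec.mk (nat_lit 12558) (nat_lit 0) [nat_lit 25680, nat_lit 16932, nat_lit 12072, nat_lit 12720, nat_lit 12504, nat_lit 12564, nat_lit 12556] (nat_lit 0) [] false,
   Spec.mk (nat_lit 12564) (nat_lit 0) [nat_lit 25686, nat_lit 16938, nat_lit 12078, nat_lit 12726, nat_lit 12510, nat_lit 12582, nat_lit 12558] (nat_lit 0) [] false,
   Spec.mk (nat_lit 12582) (nat_lit 2) [nat_lit 25704, nat_lit 16956, nat_lit 12096, nat_lit 12744, nat_lit 12528, nat_lit 12564] (nat_lit 0) [] false,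
   Spec.mk (nat_lit 12638) (nat_lit 2) [nat_lit 25760, nat_lit 17012, nat_lit 12152, nat_lit 12476, nat_lit 12640] (nat_lit 0) [nat_lit 32320] false,
   Spec.mk (nat_lit 12640) (nat_lit 3) [nat_lit 25762, nat_lit 17014, nat_lit 12154, nat_lit 12478, nat_lit 12646, nat_lit 12638, nat_lit 12642] (nat_lit 0) [nat_lit 32322] false,
   Spec.mk (nat_lit 12642) (nat_lit 2) [nat_lit 25764, nat_lit 17016, nat_lit 12156, nat_lit 12480, nat_lit 12648, nat_lit 12640] (nat_lit 0) [] false,
   Spec.mk (nat_lit 12646) (nat_lit 2) [nat_lit 25768, nat_lit 17020, nat_lit 12160, nat_lit 12484, nat_lit 12664, nat_lit 12640, nat_lit 12648] (nat_lit 0) [nat_lit 32328] false,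
   Spec.mk (nat_lit 12648) (nat_lit 3) [nat_lit 25770, nat_lit 17022, nat_lit 12162, nat_lit 12486, nat_lit 12666, nat_lit 12642, nat_lit 12654, nat_lit 12646] (nat_lit 0) [] false,
   Spec.mk (nat_lit 12654) (nat_lit 2) [nat_lit 25776, nat_lit 17028, nat_lit 12168, nat_lit 12492, nat_lit 12672, nat_lit 12648] (nat_lit 0) [] false,
   Spec.mk (nat_lit 12664) (nat_lit 2) [nat_lit 25786, nat_lit 17038, nat_lit 12178, nat_lit 12502, nat_lit 12718, nat_lit 12646, nat_lit 12666] (nat_lit 0) [nat_lit 32346] false,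
   Spec.mk (nat_lit 12666) (nat_lit 2) [nat_lit 25788, nat_lit 17040, nat_lit 12180, nat_lit 12504, nat_lit 12720, nat_lit 12648, nat_lit 12672, nat_lit 12664] (nat_lit 0) [] false,
   Spec.mk (nat_lit 12672) (nat_lit 3) [nat_lit 25794, nat_lit 17046, nat_lit 12186, nat_lit 12510, nat_lit 12726, nat_lit 12654, nat_lit 12690, nat_lit 12666] (nat_lit 0) [] false,
   Spec.mk (nat_lit 12690) (nat_lit 2) [nat_lit 25812, nat_lit 17064, nat_lit 12204, nat_lit 12528, nat_lit 12744, nat_lit 12672] (nat_lit 0) [] false,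
   Spec.mk (nat_lit 12718) (nat_lit 3) [nat_lit 25840, nat_lit 17092, nat_lit 12232, nat_lit 12556, nat_lit 12880, nat_lit 12664, nat_lit 12720] (nat_lit 0) [nat_lit 32400] false,
   Spec.mk (nat_lit 12720) (nat_lit 3) [nat_lit 25842, nat_lit 17094, nat_lit 12234, nat_lit 12558, nat_lit 12882, nat_lit 12666, nat_lit 12726, nat_lit 12718] (nat_lit 0) [] false,
   Spec.mk (nat_lit 12726) (nat_lit 3) [nat_lit 25848, nat_lit 17100, nat_lit 12240, nat_lit 12564, nat_lit 12888, nat_lit 12672, nat_lit 12744, nat_lit 12720] (nat_lit 0) [] false,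
   Spec.mk (nat_lit 12744) (nat_lit 4) [nat_lit 25866, nat_lit 17118, nat_lit 12258, nat_lit 12582, nat_lit 12906, nat_lit 12690, nat_lit 12798, nat_lit 12726] (nat_lit 0) [] false,
   Spec.mk (nat_lit 12798) (nat_lit 4) [nat_lit 25920, nat_lit 17172, nat_lit 12312, nat_lit 12960, nat_lit 12744] (nat_lit 0) [] false,
   Spec.mk (nat_lit 12880) (nat_lit 4) [nat_lit 26002, nat_lit 17254, nat_lit 12718, nat_lit 12882] (nat_lit 0) [nat_lit 32562] false,
   Spec.mk (nat_lit 12882) (nat_lit 4) [nat_lit 26004, nat_lit 17256, nat_lit 12720, nat_lit 12888, nat_lit 12880] (nat_lit 0) [] false,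
   Spec.mk (nat_lit 12888) (nat_lit 4) [nat_lit 26010, nat_lit 17262, nat_lit 12726, nat_lit 12906, nat_lit 12882] (nat_lit 0) [] false,
   Spec.mk (nat_lit 12906) (nat_lit 4) [nat_lit 26028, nat_lit 17280, nat_lit 12744, nat_lit 12960, nat_lit 12888] (nat_lit 0) [] false,
   Spec.mk (nat_lit 12960) (nat_lit 6) [nat_lit 26082, nat_lit 17334, nat_lit 12798, nat_lit 12906] (nat_lit 0) [] false,
   Spec.mk (nat_lit 13148) (nat_lit 2) [nat_lit 26270, nat_lit 8774, nat_lit 13166] (nat_lit 0) [nat_lit 32830] false,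
   Spec.mk (nat_lit 13166) (nat_lit 1) [nat_lit 26288, nat_lit 8792, nat_lit 13220, nat_lit 13148, nat_lit 13184, nat_lit 13172] (nat_lit 0) [nat_lit 32848] false,
   Spec.mk (nat_lit 13172) (nat_lit 0) [nat_lit 26294, nat_lit 8798, nat_lit 13226, nat_lit 13190, nat_lit 13166, nat_lit 13174] (nat_lit 0) [nat_lit 32854] false,
   Spec.mk (nat_lit 13174) (nat_lit 2) [nat_lit 26296, nat_lit 8800, nat_lit 13228, nat_lit 13192, nat_lit 13172] (nat_lit 0) [nat_lit 32856] false,
   Spec.mk (nat_lit 13184) (nat_lit 0) [nat_lit 26306, nat_lit 8810, nat_lit 13238, nat_lit 13166, nat_lit 13190] (nat_lit 2) [nat_lit 32866] false,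
   Spec.mk (nat_lit 13190) (nat_lit 0) [nat_lit 26312, nat_lit 8816, nat_lit 13244, nat_lit 13172, nat_lit 13184, nat_lit 13196, nat_lit 13192] (nat_lit 1) [nat_lit 32872] false,
   Spec.mk (nat_lit 13192) (nat_lit 0) [nat_lit 26314, nat_lit 8818, nat_lit 13246, nat_lit 13174, nat_lit 13198, nat_lit 13190] (nat_lit 0) [nat_lit 32874] false,
   Spec.mk (nat_lit 13196) (nat_lit 0) [nat_lit 26318, nat_lit 8822, nat_lit 13250, nat_lit 13190, nat_lit 13198] (nat_lit 2) [nat_lit 32878] false,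
   Spec.mk (nat_lit 13198) (nat_lit 1) [nat_lit 26320, nat_lit 8824, nat_lit 13252, nat_lit 13192, nat_lit 13196, nat_lit 13200] (nat_lit 0) [nat_lit 32880] false,
   Spec.mk (nat_lit 13200) (nat_lit 2) [nat_lit 26322, nat_lit 8826, nat_lit 13254, nat_lit 13198] (nat_lit 0) [] false,
   Spec.mk (nat_lit 13220) (nat_lit 0) [nat_lit 26342, nat_lit 8846, nat_lit 13382, nat_lit 13166, nat_lit 13238, nat_lit 13226] (nat_lit 0) [nat_lit 32902] false,
   Spec.mk (nat_lit 13226) (nat_lit 0) [nat_lit 26348, nat_lit 8852, nat_lit 13388, nat_lit 13172, nat_lit 13244, nat_lit 13220, nat_lit 13228] (nat_lit 2) [nat_lit 32908] false,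
   Spec.mk (nat_lit 13228) (nat_lit 0) [nat_lit 26350, nat_lit 8854, nat_lit 13390, nat_lit 13174, nat_lit 13246, nat_lit 13226] (nat_lit 0) [nat_lit 32910] false,
   Spec.mk (nat_lit 13238) (nat_lit 0) [nat_lit 26360, nat_lit 8864, nat_lit 13400, nat_lit 13184, nat_lit 13292, nat_lit 13220, nat_lit 13244] (nat_lit 1) [nat_lit 32920] false,
   Spec.mk (nat_lit 13244) (nat_lit 0) [nat_lit 26366, nat_lit 8870, nat_lit 13406, nat_lit 13190, nat_lit 13298, nat_lit 13226, nat_lit 13262, nat_lit 13238, nat_lit 13250, nat_lit 13246] (nat_lit 1) [nat_lit 32926] false,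
   Spec.mk (nat_lit 13246) (nat_lit 0) [nat_lit 26368, nat_lit 8872, nat_lit 13408, nat_lit 13192, nat_lit 13300, nat_lit 13228, nat_lit 13264, nat_lit 13252, nat_lit 13244] (nat_lit 0) [nat_lit 32928] false,
   Spec.mk (nat_lit 13250) (nat_lit 0) [nat_lit 26372, nat_lit 8876, nat_lit 13412, nat_lit 13196, nat_lit 13304, nat_lit 13268, nat_lit 13244, nat_lit 13252] (nat_lit 3) [nat_lit 32932] false,
   Spec.mk (nat_lit 13252) (nat_lit 0) [nat_lit 26374, nat_lit 8878, nat_lit 13414, nat_lit 13198, nat_lit 13306, nat_lit 13270, nat_lit 13246, nat_lit 13250, nat_lit 13254] (nat_lit 0) [nat_lit 32934] false,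
   Spec.mk (nat_lit 13254) (nat_lit 1) [nat_lit 26376, nat_lit 8880, nat_lit 13416, nat_lit 13200, nat_lit 13308, nat_lit 13272, nat_lit 13252] (nat_lit 0) [] false,
   Spec.mk (nat_lit 13262) (nat_lit 0) [nat_lit 26384, nat_lit 8888, nat_lit 13424, nat_lit 13316, nat_lit 13244, nat_lit 13268, nat_lit 13264] (nat_lit 2) [nat_lit 32944] false,
   Spec.mk (nat_lit 13264) (nat_lit 0) [nat_lit 26386, nat_lit 8890, nat_lit 13426, nat_lit 13318, nat_lit 13246, nat_lit 13270, nat_lit 13262] (nat_lit 2) [nat_lit 32946] false,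
   Spec.mk (nat_lit 13268) (nat_lit 0) [nat_lit 26390, nat_lit 8894, nat_lit 13430, nat_lit 13322, nat_lit 13250, nat_lit 13262, nat_lit 13270] (nat_lit 2) [nat_lit 32950] false,
   Spec.mk (nat_lit 13270) (nat_lit 0) [nat_lit 26392, nat_lit 8896, nat_lit 13432, nat_lit 13324, nat_lit 13252, nat_lit 13264, nat_lit 13276, nat_lit 13268, nat_lit 13272] (nat_lit 0) [nat_lit 32952] false,
   Spec.mk (nat_lit 13272) (nat_lit 0) [nat_lit 26394, nat_lit 8898, nat_lit 13434, nat_lit 13326, nat_lit 13254, nat_lit 13278, nat_lit 13270] (nat_lit 0) [] false,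
   Spec.mk (nat_lit 13276) (nat_lit 0) [nat_lit 26398, nat_lit 8902, nat_lit 13438, nat_lit 13330, nat_lit 13270, nat_lit 13278] (nat_lit 0) [nat_lit 32958] false,
   Spec.mk (nat_lit 13278) (nat_lit 2) [nat_lit 26400, nat_lit 8904, nat_lit 13440, nat_lit 13332, nat_lit 13272, nat_lit 13276] (nat_lit 0) [] false,
   Spec.mk (nat_lit 13292) (nat_lit 0) [nat_lit 26414, nat_lit 8918, nat_lit 13454, nat_lit 13238, nat_lit 13298] (nat_lit 2) [nat_lit 32974] false,
   Spec.mk (nat_lit 13298) (nat_lit 0) [nat_lit 26420, nat_lit 8924, nat_lit 13460, nat_lit 13244, nat_lit 13316, nat_lit 13292, nat_lit 13304, nat_lit 13300] (nat_lit 3) [nat_lit 32980] false,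
   Spec.mk (nat_lit 13300) (nat_lit 0) [nat_lit 26422, nat_lit 8926, nat_lit 13462, nat_lit 13246, nat_lit 13318, nat_lit 13306, nat_lit 13298] (nat_lit 2) [nat_lit 32982] false,
   Spec.mk (nat_lit 13304) (nat_lit 0) [nat_lit 26426, nat_lit 8930, nat_lit 13466, nat_lit 13250, nat_lit 13322, nat_lit 13298, nat_lit 13306] (nat_lit 6) [nat_lit 32986] false,
   Spec.mk (nat_lit 13306) (nat_lit 0) [nat_lit 26428, nat_lit 8932, nat_lit 13468, nat_lit 13252, nat_lit 13324, nat_lit 13300, nat_lit 13304, nat_lit 13308] (nat_lit 3) [nat_lit 32988] false,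
   Spec.mk (nat_lit 13308) (nat_lit 0) [nat_lit 26430, nat_lit 8934, nat_lit 13470, nat_lit 13254, nat_lit 13326, nat_lit 13306] (nat_lit 2) [] false,
   Spec.mk (nat_lit 13316) (nat_lit 0) [nat_lit 26438, nat_lit 8942, nat_lit 13478, nat_lit 13262, nat_lit 13298, nat_lit 13322, nat_lit 13318] (nat_lit 2) [nat_lit 32998] false,
   Spec.mk (nat_lit 13318) (nat_lit 0) [nat_lit 26440, nat_lit 8944, nat_lit 13480, nat_lit 13264, nat_lit 13300, nat_lit 13324, nat_lit 13316] (nat_lit 2) [nat_lit 33000] false,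
   Spec.mk (nat_lit 13322) (nat_lit 0) [nat_lit 26444, nat_lit 8948, nat_lit 13484, nat_lit 13268, nat_lit 13304, nat_lit 13340, nat_lit 13316, nat_lit 13324] (nat_lit 3) [nat_lit 33004] false,
   Spec.mk (nat_lit 13324) (nat_lit 0) [nat_lit 26446, nat_lit 8950, nat_lit 13486, nat_lit 13270, nat_lit 13306, nat_lit 13342, nat_lit 13318, nat_lit 13330, nat_lit 13322, nat_lit 13326] (nat_lit 1) [nat_lit 33006] false,
   Spec.mk (nat_lit 13326) (nat_lit 0) [nat_lit 26448, nat_lit 8952, nat_lit 13488, nat_lit 13272, nat_lit 13308, nat_lit 13344, nat_lit 13332, nat_lit 13324] (nat_lit 1) [] false]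

noncomputable def sp36 : List Spec :=
  [Spec.mk (nat_lit 13330) (nat_lit 0) [nat_lit 26452, nat_lit 8956, nat_lit 13492, nat_lit 13276, nat_lit 13348, nat_lit 13324, nat_lit 13332] (nat_lit 2) [nat_lit 33012] false,
   Spec.mk (nat_lit 13332) (nat_lit 0) [nat_lit 26454, nat_lit 8958, nat_lit 13494, nat_lit 13278, nat_lit 13350, nat_lit 13326, nat_lit 13330] (nat_lit 0) [] false,
   Spec.mk (nat_lit 13340) (nat_lit 0) [nat_lit 26462, nat_lit 8966, nat_lit 13502, nat_lit 13322, nat_lit 13342] (nat_lit 2) [nat_lit 33022] false,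
   Spec.mk (nat_lit 13342) (nat_lit 0) [nat_lit 26464, nat_lit 8968, nat_lit 13504, nat_lit 13324, nat_lit 13348, nat_lit 13340, nat_lit 13344] (nat_lit 1) [nat_lit 33024] false,
   Spec.mk (nat_lit 13344) (nat_lit 0) [nat_lit 26466, nat_lit 8970, nat_lit 13506, nat_lit 13326, nat_lit 13350, nat_lit 13342] (nat_lit 2) [] false,
   Spec.mk (nat_lit 13348) (nat_lit 0) [nat_lit 26470, nat_lit 8974, nat_lit 13510, nat_lit 13330, nat_lit 13342, nat_lit 13350] (nat_lit 0) [nat_lit 33030] false,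
   Spec.mk (nat_lit 13350) (nat_lit 1) [nat_lit 26472, nat_lit 8976, nat_lit 13512, nat_lit 13332, nat_lit 13344, nat_lit 13356, nat_lit 13348] (nat_lit 0) [] false,
   Spec.mk (nat_lit 13356) (nat_lit 2) [nat_lit 26478, nat_lit 8982, nat_lit 13518, nat_lit 13350] (nat_lit 0) [] false,
   Spec.mk (nat_lit 13382) (nat_lit 0) [nat_lit 26504, nat_lit 9008, nat_lit 13868, nat_lit 13220, nat_lit 13400, nat_lit 13388] (nat_lit 0) [nat_lit 33064] false,
   Spec.mk (nat_lit 13388) (nat_lit 0) [nat_lit 26510, nat_lit 9014, nat_lit 13874, nat_lit 13226, nat_lit 13406, nat_lit 13382, nat_lit 13390] (nat_lit 2) [nat_lit 33070] false,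
   Spec.mk (nat_lit 13390) (nat_lit 0) [nat_lit 26512, nat_lit 9016, nat_lit 13876, nat_lit 13228, nat_lit 13408, nat_lit 13388] (nat_lit 0) [nat_lit 33072] false,
   Spec.mk (nat_lit 13400) (nat_lit 0) [nat_lit 26522, nat_lit 9026, nat_lit 13886, nat_lit 13238, nat_lit 13454, nat_lit 13382, nat_lit 13406] (nat_lit 2) [nat_lit 33082] false,
   Spec.mk (nat_lit 13406) (nat_lit 0) [nat_lit 26528, nat_lit 9032, nat_lit 13892, nat_lit 13244, nat_lit 13460, nat_lit 13388, nat_lit 13424, nat_lit 13400, nat_lit 13412, nat_lit 13408] (nat_lit 2) [nat_lit 33088] false,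
   Spec.mk (nat_lit 13408) (nat_lit 0) [nat_lit 26530, nat_lit 9034, nat_lit 13894, nat_lit 13246, nat_lit 13462, nat_lit 13390, nat_lit 13426, nat_lit 13414, nat_lit 13406] (nat_lit 1) [nat_lit 33090] false,
   Spec.mk (nat_lit 13412) (nat_lit 0) [nat_lit 26534, nat_lit 9038, nat_lit 13898, nat_lit 13250, nat_lit 13466, nat_lit 13430, nat_lit 13406, nat_lit 13414] (nat_lit 4) [nat_lit 33094] false,
   Spec.mk (nat_lit 13414) (nat_lit 0) [nat_lit 26536, nat_lit 9040, nat_lit 13900, nat_lit 13252, nat_lit 13468, nat_lit 13432, nat_lit 13408, nat_lit 13412, nat_lit 13416] (nat_lit 1) [nat_lit 33096] false,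
   Spec.mk (nat_lit 13416) (nat_lit 0) [nat_lit 26538, nat_lit 9042, nat_lit 13902, nat_lit 13254, nat_lit 13470, nat_lit 13434, nat_lit 13414] (nat_lit 0) [] false,
   Spec.mk (nat_lit 13424) (nat_lit 0) [nat_lit 26546, nat_lit 9050, nat_lit 13910, nat_lit 13262, nat_lit 13478, nat_lit 13406, nat_lit 13430, nat_lit 13426] (nat_lit 4) [nat_lit 33106] false,
   Spec.mk (nat_lit 13426) (nat_lit 0) [nat_lit 26548, nat_lit 9052, nat_lit 13912, nat_lit 13264, nat_lit 13480, nat_lit 13408, nat_lit 13432, nat_lit 13424] (nat_lit 4) [nat_lit 33108] false,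
   Spec.mk (nat_lit 13430) (nat_lit 0) [nat_lit 26552, nat_lit 9056, nat_lit 13916, nat_lit 13268, nat_lit 13484, nat_lit 13412, nat_lit 13424, nat_lit 13432] (nat_lit 4) [nat_lit 33112] false,
   Spec.mk (nat_lit 13432) (nat_lit 0) [nat_lit 26554, nat_lit 9058, nat_lit 13918, nat_lit 13270, nat_lit 13486, nat_lit 13414, nat_lit 13426, nat_lit 13438, nat_lit 13430, nat_lit 13434] (nat_lit 2) [nat_lit 33114] false,
   Spec.mk (nat_lit 13434) (nat_lit 0) [nat_lit 26556, nat_lit 9060, nat_lit 13920, nat_lit 13272, nat_lit 13488, nat_lit 13416, nat_lit 13440, nat_lit 13432] (nat_lit 2) [] false,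
   Spec.mk (nat_lit 13438) (nat_lit 0) [nat_lit 26560, nat_lit 9064, nat_lit 13924, nat_lit 13276, nat_lit 13492, nat_lit 13432, nat_lit 13440] (nat_lit 2) [nat_lit 33120] false,
   Spec.mk (nat_lit 13440) (nat_lit 0) [nat_lit 26562, nat_lit 9066, nat_lit 13926, nat_lit 13278, nat_lit 13494, nat_lit 13434, nat_lit 13438] (nat_lit 0) [] false,
   Spec.mk (nat_lit 13454) (nat_lit 0) [nat_lit 26576, nat_lit 9080, nat_lit 13940, nat_lit 13292, nat_lit 13616, nat_lit 13400, nat_lit 13460] (nat_lit 1) [nat_lit 33136] false,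
   Spec.mk (nat_lit 13460) (nat_lit 0) [nat_lit 26582, nat_lit 9086, nat_lit 13946, nat_lit 13298, nat_lit 13622, nat_lit 13406, nat_lit 13478, nat_lit 13454, nat_lit 13466, nat_lit 13462] (nat_lit 2) [nat_lit 33142] false,
   Spec.mk (nat_lit 13462) (nat_lit 0) [nat_lit 26584, nat_lit 9088, nat_lit 13948, nat_lit 13300, nat_lit 13624, nat_lit 13408, nat_lit 13480, nat_lit 13468, nat_lit 13460] (nat_lit 1) [nat_lit 33144] false,
   Spec.mk (nat_lit 13466) (nat_lit 0) [nat_lit 26588, nat_lit 9092, nat_lit 13952, nat_lit 13304, nat_lit 13628, nat_lit 13412, nat_lit 13484, nat_lit 13460, nat_lit 13468] (nat_lit 5) [nat_lit 33148] false,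
   Spec.mk (nat_lit 13468) (nat_lit 0) [nat_lit 26590, nat_lit 9094, nat_lit 13954, nat_lit 13306, nat_lit 13630, nat_lit 13414, nat_lit 13486, nat_lit 13462, nat_lit 13466, nat_lit 13470] (nat_lit 2) [nat_lit 33150] false,
   Spec.mk (nat_lit 13470) (nat_lit 0) [nat_lit 26592, nat_lit 9096, nat_lit 13956, nat_lit 13308, nat_lit 13632, nat_lit 13416, nat_lit 13488, nat_lit 13468] (nat_lit 1) [] false,
   Spec.mk (nat_lit 13478) (nat_lit 0) [nat_lit 26600, nat_lit 9104, nat_lit 13964, nat_lit 13316, nat_lit 13640, nat_lit 13424, nat_lit 13532, nat_lit 13460, nat_lit 13484, nat_lit 13480] (nat_lit 2) [nat_lit 33160] false,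
   Spec.mk (nat_lit 13480) (nat_lit 0) [nat_lit 26602, nat_lit 9106, nat_lit 13966, nat_lit 13318, nat_lit 13642, nat_lit 13426, nat_lit 13534, nat_lit 13462, nat_lit 13486, nat_lit 13478] (nat_lit 2) [nat_lit 33162] false,
   Spec.mk (nat_lit 13484) (nat_lit 0) [nat_lit 26606, nat_lit 9110, nat_lit 13970, nat_lit 13322, nat_lit 13646, nat_lit 13430, nat_lit 13538, nat_lit 13466, nat_lit 13502, nat_lit 13478, nat_lit 13486] (nat_lit 3) [nat_lit 33166] false,
   Spec.mk (nat_lit 13486) (nat_lit 0) [nat_lit 26608, nat_lit 9112, nat_lit 13972, nat_lit 13324, nat_lit 13648, nat_lit 13432, nat_lit 13540, nat_lit 13468, nat_lit 13504, nat_lit 13480, nat_lit 13492, nat_lit 13484, nat_lit 13488] (nat_lit 1) [nat_lit 33168] false,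
   Spec.mk (nat_lit 13488) (nat_lit 0) [nat_lit 26610, nat_lit 9114, nat_lit 13974, nat_lit 13326, nat_lit 13650, nat_lit 13434, nat_lit 13542, nat_lit 13470, nat_lit 13506, nat_lit 13494, nat_lit 13486] (nat_lit 1) [] false,
   Spec.mk (nat_lit 13492) (nat_lit 0) [nat_lit 26614, nat_lit 9118, nat_lit 13978, nat_lit 13330, nat_lit 13654, nat_lit 13438, nat_lit 13546, nat_lit 13510, nat_lit 13486, nat_lit 13494] (nat_lit 2) [nat_lit 33174] false,
   Spec.mk (nat_lit 13494) (nat_lit 0) [nat_lit 26616, nat_lit 9120, nat_lit 13980, nat_lit 13332, nat_lit 13656, nat_lit 13440, nat_lit 13548, nat_lit 13512, nat_lit 13488, nat_lit 13492] (nat_lit 0) [] false,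
   Spec.mk (nat_lit 13502) (nat_lit 0) [nat_lit 26624, nat_lit 9128, nat_lit 13988, nat_lit 13340, nat_lit 13664, nat_lit 13556, nat_lit 13484, nat_lit 13504] (nat_lit 3) [nat_lit 33184] false,
   Spec.mk (nat_lit 13504) (nat_lit 0) [nat_lit 26626, nat_lit 9130, nat_lit 13990, nat_lit 13342, nat_lit 13666, nat_lit 13558, nat_lit 13486, nat_lit 13510, nat_lit 13502, nat_lit 13506] (nat_lit 2) [nat_lit 33186] false,
   Spec.mk (nat_lit 13506) (nat_lit 0) [nat_lit 26628, nat_lit 9132, nat_lit 13992, nat_lit 13344, nat_lit 13668, nat_lit 13560, nat_lit 13488, nat_lit 13512, nat_lit 13504] (nat_lit 3) [] false,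
   Spec.mk (nat_lit 13510) (nat_lit 0) [nat_lit 26632, nat_lit 9136, nat_lit 13996, nat_lit 13348, nat_lit 13672, nat_lit 13564, nat_lit 13492, nat_lit 13504, nat_lit 13512] (nat_lit 1) [nat_lit 33192] false,
   Spec.mk (nat_lit 13512) (nat_lit 0) [nat_lit 26634, nat_lit 9138, nat_lit 13998, nat_lit 13350, nat_lit 13674, nat_lit 13566, nat_lit 13494, nat_lit 13506, nat_lit 13518, nat_lit 13510] (nat_lit 0) [] false,
   Spec.mk (nat_lit 13518) (nat_lit 1) [nat_lit 26640, nat_lit 9144, nat_lit 14004, nat_lit 13356, nat_lit 13680, nat_lit 13572, nat_lit 13512] (nat_lit 0) [] false,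
   Spec.mk (nat_lit 13532) (nat_lit 0) [nat_lit 26654, nat_lit 9158, nat_lit 14018, nat_lit 13694, nat_lit 13478, nat_lit 13538, nat_lit 13534] (nat_lit 2) [nat_lit 33214] false,
   Spec.mk (nat_lit 13534) (nat_lit 0) [nat_lit 26656, nat_lit 9160, nat_lit 14020, nat_lit 13696, nat_lit 13480, nat_lit 13540, nat_lit 13532] (nat_lit 2) [nat_lit 33216] false,
   Spec.mk (nat_lit 13538) (nat_lit 0) [nat_lit 26660, nat_lit 9164, nat_lit 14024, nat_lit 13700, nat_lit 13484, nat_lit 13556, nat_lit 13532, nat_lit 13540] (nat_lit 4) [nat_lit 33220] false,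
   Spec.mk (nat_lit 13540) (nat_lit 0) [nat_lit 26662, nat_lit 9166, nat_lit 14026, nat_lit 13702, nat_lit 13486, nat_lit 13558, nat_lit 13534, nat_lit 13546, nat_lit 13538, nat_lit 13542] (nat_lit 2) [nat_lit 33222] false,
   Spec.mk (nat_lit 13542) (nat_lit 0) [nat_lit 26664, nat_lit 9168, nat_lit 14028, nat_lit 13704, nat_lit 13488, nat_lit 13560, nat_lit 13548, nat_lit 13540] (nat_lit 2) [] false,
   Spec.mk (nat_lit 13546) (nat_lit 0) [nat_lit 26668, nat_lit 9172, nat_lit 14032, nat_lit 13708, nat_lit 13492, nat_lit 13564, nat_lit 13540, nat_lit 13548] (nat_lit 4) [nat_lit 33228] false,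
   Spec.mk (nat_lit 13548) (nat_lit 0) [nat_lit 26670, nat_lit 9174, nat_lit 14034, nat_lit 13710, nat_lit 13494, nat_lit 13566, nat_lit 13542, nat_lit 13546] (nat_lit 2) [] false,
   Spec.mk (nat_lit 13556) (nat_lit 0) [nat_lit 26678, nat_lit 9182, nat_lit 14042, nat_lit 13718, nat_lit 13502, nat_lit 13538, nat_lit 13558] (nat_lit 2) [nat_lit 33238] false,
   Spec.mk (nat_lit 13558) (nat_lit 0) [nat_lit 26680, nat_lit 9184, nat_lit 14044, nat_lit 13720, nat_lit 13504, nat_lit 13540, nat_lit 13564, nat_lit 13556, nat_lit 13560] (nat_lit 1) [nat_lit 33240] false,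
   Spec.mk (nat_lit 13560) (nat_lit 0) [nat_lit 26682, nat_lit 9186, nat_lit 14046, nat_lit 13722, nat_lit 13506, nat_lit 13542, nat_lit 13566, nat_lit 13558] (nat_lit 2) [] false,
   Spec.mk (nat_lit 13564) (nat_lit 0) [nat_lit 26686, nat_lit 9190, nat_lit 14050, nat_lit 13726, nat_lit 13510, nat_lit 13546, nat_lit 13582, nat_lit 13558, nat_lit 13566] (nat_lit 1) [nat_lit 33246] false,
   Spec.mk (nat_lit 13566) (nat_lit 0) [nat_lit 26688, nat_lit 9192, nat_lit 14052, nat_lit 13728, nat_lit 13512, nat_lit 13548, nat_lit 13584, nat_lit 13560, nat_lit 13572, nat_lit 13564] (nat_lit 0) [] false,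
   Spec.mk (nat_lit 13572) (nat_lit 0) [nat_lit 26694, nat_lit 9198, nat_lit 14058, nat_lit 13734, nat_lit 13518, nat_lit 13590, nat_lit 13566] (nat_lit 0) [] false,
   Spec.mk (nat_lit 13582) (nat_lit 0) [nat_lit 26704, nat_lit 9208, nat_lit 14068, nat_lit 13744, nat_lit 13564, nat_lit 13584] (nat_lit 0) [nat_lit 33264] false,
   Spec.mk (nat_lit 13584) (nat_lit 0) [nat_lit 26706, nat_lit 9210, nat_lit 14070, nat_lit 13746, nat_lit 13566, nat_lit 13590, nat_lit 13582] (nat_lit 0) [] false,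
   Spec.mk (nat_lit 13590) (nat_lit 2) [nat_lit 26712, nat_lit 9216, nat_lit 14076, nat_lit 13752, nat_lit 13572, nat_lit 13584] (nat_lit 0) [] false,
   Spec.mk (nat_lit 13616) (nat_lit 0) [nat_lit 26738, nat_lit 9242, nat_lit 14102, nat_lit 13454, nat_lit 13622] (nat_lit 2) [nat_lit 33298] false]

noncomputable def sp37 : List Spec :=
  [Spec.mk (nat_lit 13622) (nat_lit 0) [nat_lit 26744, nat_lit 9248, nat_lit 14108, nat_lit 13460, nat_lit 13640, nat_lit 13616, nat_lit 13628, nat_lit 13624] (nat_lit 3) [nat_lit 33304] false,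
   Spec.mk (nat_lit 13624) (nat_lit 0) [nat_lit 26746, nat_lit 9250, nat_lit 14110, nat_lit 13462, nat_lit 13642, nat_lit 13630, nat_lit 13622] (nat_lit 2) [nat_lit 33306] false,
   Spec.mk (nat_lit 13628) (nat_lit 0) [nat_lit 26750, nat_lit 9254, nat_lit 14114, nat_lit 13466, nat_lit 13646, nat_lit 13622, nat_lit 13630] (nat_lit 6) [nat_lit 33310] false,
   Spec.mk (nat_lit 13630) (nat_lit 0) [nat_lit 26752, nat_lit 9256, nat_lit 14116, nat_lit 13468, nat_lit 13648, nat_lit 13624, nat_lit 13628, nat_lit 13632] (nat_lit 3) [nat_lit 33312] false,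
   Spec.mk (nat_lit 13632) (nat_lit 0) [nat_lit 26754, nat_lit 9258, nat_lit 14118, nat_lit 13470, nat_lit 13650, nat_lit 13630] (nat_lit 2) [] false,
   Spec.mk (nat_lit 13640) (nat_lit 0) [nat_lit 26762, nat_lit 9266, nat_lit 14126, nat_lit 13478, nat_lit 13694, nat_lit 13622, nat_lit 13646, nat_lit 13642] (nat_lit 4) [nat_lit 33322] false,
   Spec.mk (nat_lit 13642) (nat_lit 0) [nat_lit 26764, nat_lit 9268, nat_lit 14128, nat_lit 13480, nat_lit 13696, nat_lit 13624, nat_lit 13648, nat_lit 13640] (nat_lit 4) [nat_lit 33324] false,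
   Spec.mk (nat_lit 13646) (nat_lit 0) [nat_lit 26768, nat_lit 9272, nat_lit 14132, nat_lit 13484, nat_lit 13700, nat_lit 13628, nat_lit 13664, nat_lit 13640, nat_lit 13648] (nat_lit 5) [nat_lit 33328] false,
   Spec.mk (nat_lit 13648) (nat_lit 0) [nat_lit 26770, nat_lit 9274, nat_lit 14134, nat_lit 13486, nat_lit 13702, nat_lit 13630, nat_lit 13666, nat_lit 13642, nat_lit 13654, nat_lit 13646, nat_lit 13650] (nat_lit 3) [nat_lit 33330] false,
   Spec.mk (nat_lit 13650) (nat_lit 0) [nat_lit 26772, nat_lit 9276, nat_lit 14136, nat_lit 13488, nat_lit 13704, nat_lit 13632, nat_lit 13668, nat_lit 13656, nat_lit 13648] (nat_lit 3) [] false,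
   Spec.mk (nat_lit 13654) (nat_lit 0) [nat_lit 26776, nat_lit 9280, nat_lit 14140, nat_lit 13492, nat_lit 13708, nat_lit 13672, nat_lit 13648, nat_lit 13656] (nat_lit 4) [nat_lit 33336] false,
   Spec.mk (nat_lit 13656) (nat_lit 0) [nat_lit 26778, nat_lit 9282, nat_lit 14142, nat_lit 13494, nat_lit 13710, nat_lit 13674, nat_lit 13650, nat_lit 13654] (nat_lit 2) [] false,
   Spec.mk (nat_lit 13664) (nat_lit 0) [nat_lit 26786, nat_lit 9290, nat_lit 14150, nat_lit 13502, nat_lit 13718, nat_lit 13646, nat_lit 13666] (nat_lit 6) [nat_lit 33346] false,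
   Spec.mk (nat_lit 13666) (nat_lit 0) [nat_lit 26788, nat_lit 9292, nat_lit 14152, nat_lit 13504, nat_lit 13720, nat_lit 13648, nat_lit 13672, nat_lit 13664, nat_lit 13668] (nat_lit 5) [nat_lit 33348] false,
   Spec.mk (nat_lit 13668) (nat_lit 0) [nat_lit 26790, nat_lit 9294, nat_lit 14154, nat_lit 13506, nat_lit 13722, nat_lit 13650, nat_lit 13674, nat_lit 13666] (nat_lit 6) [] false,
   Spec.mk (nat_lit 13672) (nat_lit 0) [nat_lit 26794, nat_lit 9298, nat_lit 14158, nat_lit 13510, nat_lit 13726, nat_lit 13654, nat_lit 13666, nat_lit 13674] (nat_lit 4) [nat_lit 33354] false,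
   Spec.mk (nat_lit 13674) (nat_lit 0) [nat_lit 26796, nat_lit 9300, nat_lit 14160, nat_lit 13512, nat_lit 13728, nat_lit 13656, nat_lit 13668, nat_lit 13680, nat_lit 13672] (nat_lit 3) [] false,
   Spec.mk (nat_lit 13680) (nat_lit 0) [nat_lit 26802, nat_lit 9306, nat_lit 14166, nat_lit 13518, nat_lit 13734, nat_lit 13674] (nat_lit 2) [] false,
   Spec.mk (nat_lit 13694) (nat_lit 0) [nat_lit 26816, nat_lit 9320, nat_lit 14180, nat_lit 13532, nat_lit 13640, nat_lit 13700, nat_lit 13696] (nat_lit 2) [nat_lit 33376] false,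
   Spec.mk (nat_lit 13696) (nat_lit 0) [nat_lit 26818, nat_lit 9322, nat_lit 14182, nat_lit 13534, nat_lit 13642, nat_lit 13702, nat_lit 13694] (nat_lit 2) [nat_lit 33378] false,
   Spec.mk (nat_lit 13700) (nat_lit 0) [nat_lit 26822, nat_lit 9326, nat_lit 14186, nat_lit 13538, nat_lit 13646, nat_lit 13718, nat_lit 13694, nat_lit 13702] (nat_lit 4) [nat_lit 33382] false,
   Spec.mk (nat_lit 13702) (nat_lit 0) [nat_lit 26824, nat_lit 9328, nat_lit 14188, nat_lit 13540, nat_lit 13648, nat_lit 13720, nat_lit 13696, nat_lit 13708, nat_lit 13700, nat_lit 13704] (nat_lit 2) [nat_lit 33384] false,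
   Spec.mk (nat_lit 13704) (nat_lit 0) [nat_lit 26826, nat_lit 9330, nat_lit 14190, nat_lit 13542, nat_lit 13650, nat_lit 13722, nat_lit 13710, nat_lit 13702] (nat_lit 2) [] false,
   Spec.mk (nat_lit 13708) (nat_lit 0) [nat_lit 26830, nat_lit 9334, nat_lit 14194, nat_lit 13546, nat_lit 13654, nat_lit 13726, nat_lit 13702, nat_lit 13710] (nat_lit 4) [nat_lit 33390] false,
   Spec.mk (nat_lit 13710) (nat_lit 0) [nat_lit 26832, nat_lit 9336, nat_lit 14196, nat_lit 13548, nat_lit 13656, nat_lit 13728, nat_lit 13704, nat_lit 13708] (nat_lit 2) [] false,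
   Spec.mk (nat_lit 13718) (nat_lit 0) [nat_lit 26840, nat_lit 9344, nat_lit 14204, nat_lit 13556, nat_lit 13664, nat_lit 13772, nat_lit 13700, nat_lit 13720] (nat_lit 3) [nat_lit 33400] false,
   Spec.mk (nat_lit 13720) (nat_lit 0) [nat_lit 26842, nat_lit 9346, nat_lit 14206, nat_lit 13558, nat_lit 13666, nat_lit 13774, nat_lit 13702, nat_lit 13726, nat_lit 13718, nat_lit 13722] (nat_lit 2) [nat_lit 33402] false,
   Spec.mk (nat_lit 13722) (nat_lit 0) [nat_lit 26844, nat_lit 9348, nat_lit 14208, nat_lit 13560, nat_lit 13668, nat_lit 13776, nat_lit 13704, nat_lit 13728, nat_lit 13720] (nat_lit 3) [] false,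
   Spec.mk (nat_lit 13726) (nat_lit 0) [nat_lit 26848, nat_lit 9352, nat_lit 14212, nat_lit 13564, nat_lit 13672, nat_lit 13780, nat_lit 13708, nat_lit 13744, nat_lit 13720, nat_lit 13728] (nat_lit 2) [nat_lit 33408] false,
   Spec.mk (nat_lit 13728) (nat_lit 0) [nat_lit 26850, nat_lit 9354, nat_lit 14214, nat_lit 13566, nat_lit 13674, nat_lit 13782, nat_lit 13710, nat_lit 13746, nat_lit 13722, nat_lit 13734, nat_lit 13726] (nat_lit 1) [] false,
   Spec.mk (nat_lit 13734) (nat_lit 0) [nat_lit 26856, nat_lit 9360, nat_lit 14220, nat_lit 13572, nat_lit 13680, nat_lit 13788, nat_lit 13752, nat_lit 13728] (nat_lit 1) [] false,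
   Spec.mk (nat_lit 13744) (nat_lit 0) [nat_lit 26866, nat_lit 9370, nat_lit 14230, nat_lit 13582, nat_lit 13798, nat_lit 13726, nat_lit 13746] (nat_lit 2) [nat_lit 33426] false,
   Spec.mk (nat_lit 13746) (nat_lit 0) [nat_lit 26868, nat_lit 9372, nat_lit 14232, nat_lit 13584, nat_lit 13800, nat_lit 13728, nat_lit 13752, nat_lit 13744] (nat_lit 2) [] false,
   Spec.mk (nat_lit 13752) (nat_lit 0) [nat_lit 26874, nat_lit 9378, nat_lit 14238, nat_lit 13590, nat_lit 13806, nat_lit 13734, nat_lit 13746] (nat_lit 0) [] false,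
   Spec.mk (nat_lit 13772) (nat_lit 0) [nat_lit 26894, nat_lit 9398, nat_lit 14258, nat_lit 13718, nat_lit 13774] (nat_lit 2) [nat_lit 33454] false,
   Spec.mk (nat_lit 13774) (nat_lit 0) [nat_lit 26896, nat_lit 9400, nat_lit 14260, nat_lit 13720, nat_lit 13780, nat_lit 13772, nat_lit 13776] (nat_lit 1) [nat_lit 33456] false,
   Spec.mk (nat_lit 13776) (nat_lit 0) [nat_lit 26898, nat_lit 9402, nat_lit 14262, nat_lit 13722, nat_lit 13782, nat_lit 13774] (nat_lit 2) [] false,
   Spec.mk (nat_lit 13780) (nat_lit 0) [nat_lit 26902, nat_lit 9406, nat_lit 14266, nat_lit 13726, nat_lit 13798, nat_lit 13774, nat_lit 13782] (nat_lit 2) [nat_lit 33462] false,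
   Spec.mk (nat_lit 13782) (nat_lit 0) [nat_lit 26904, nat_lit 9408, nat_lit 14268, nat_lit 13728, nat_lit 13800, nat_lit 13776, nat_lit 13788, nat_lit 13780] (nat_lit 1) [] false,
   Spec.mk (nat_lit 13788) (nat_lit 0) [nat_lit 26910, nat_lit 9414, nat_lit 14274, nat_lit 13734, nat_lit 13806, nat_lit 13782] (nat_lit 2) [] false,
   Spec.mk (nat_lit 13798) (nat_lit 0) [nat_lit 26920, nat_lit 9424, nat_lit 14284, nat_lit 13744, nat_lit 13780, nat_lit 13800] (nat_lit 0) [nat_lit 33480] false,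
   Spec.mk (nat_lit 13800) (nat_lit 0) [nat_lit 26922, nat_lit 9426, nat_lit 14286, nat_lit 13746, nat_lit 13782, nat_lit 13806, nat_lit 13798] (nat_lit 0) [] false,
   Spec.mk (nat_lit 13806) (nat_lit 1) [nat_lit 26928, nat_lit 9432, nat_lit 14292, nat_lit 13752, nat_lit 13788, nat_lit 13824, nat_lit 13800] (nat_lit 0) [] false,
   Spec.mk (nat_lit 13824) (nat_lit 2) [nat_lit 26946, nat_lit 9450, nat_lit 14310, nat_lit 13806] (nat_lit 0) [] false,
   Spec.mk (nat_lit 13868) (nat_lit 0) [nat_lit 26990, nat_lit 9494, nat_lit 15326, nat_lit 13382, nat_lit 13886, nat_lit 13874] (nat_lit 0) [nat_lit 33550] false,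
   Spec.mk (nat_lit 13874) (nat_lit 0) [nat_lit 26996, nat_lit 9500, nat_lit 15332, nat_lit 13388, nat_lit 13892, nat_lit 13868, nat_lit 13876] (nat_lit 2) [nat_lit 33556] false,
   Spec.mk (nat_lit 13876) (nat_lit 0) [nat_lit 26998, nat_lit 9502, nat_lit 15334, nat_lit 13390, nat_lit 13894, nat_lit 13874] (nat_lit 0) [nat_lit 33558] false,
   Spec.mk (nat_lit 13886) (nat_lit 0) [nat_lit 27008, nat_lit 9512, nat_lit 15344, nat_lit 13400, nat_lit 13940, nat_lit 13868, nat_lit 13892] (nat_lit 2) [nat_lit 33568] false,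
   Spec.mk (nat_lit 13892) (nat_lit 0) [nat_lit 27014, nat_lit 9518, nat_lit 15350, nat_lit 13406, nat_lit 13946, nat_lit 13874, nat_lit 13910, nat_lit 13886, nat_lit 13898, nat_lit 13894] (nat_lit 2) [nat_lit 33574] false,
   Spec.mk (nat_lit 13894) (nat_lit 0) [nat_lit 27016, nat_lit 9520, nat_lit 15352, nat_lit 13408, nat_lit 13948, nat_lit 13876, nat_lit 13912, nat_lit 13900, nat_lit 13892] (nat_lit 1) [nat_lit 33576] false,
   Spec.mk (nat_lit 13898) (nat_lit 0) [nat_lit 27020, nat_lit 9524, nat_lit 15356, nat_lit 13412, nat_lit 13952, nat_lit 13916, nat_lit 13892, nat_lit 13900] (nat_lit 4) [nat_lit 33580] false,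
   Spec.mk (nat_lit 13900) (nat_lit 0) [nat_lit 27022, nat_lit 9526, nat_lit 15358, nat_lit 13414, nat_lit 13954, nat_lit 13918, nat_lit 13894, nat_lit 13898, nat_lit 13902] (nat_lit 1) [nat_lit 33582] false,
   Spec.mk (nat_lit 13902) (nat_lit 0) [nat_lit 27024, nat_lit 9528, nat_lit 15360, nat_lit 13416, nat_lit 13956, nat_lit 13920, nat_lit 13900] (nat_lit 0) [] false,
   Spec.mk (nat_lit 13910) (nat_lit 0) [nat_lit 27032, nat_lit 9536, nat_lit 15368, nat_lit 13424, nat_lit 13964, nat_lit 13892, nat_lit 13916, nat_lit 13912] (nat_lit 4) [nat_lit 33592] false,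
   Spec.mk (nat_lit 13912) (nat_lit 0) [nat_lit 27034, nat_lit 9538, nat_lit 15370, nat_lit 13426, nat_lit 13966, nat_lit 13894, nat_lit 13918, nat_lit 13910] (nat_lit 4) [nat_lit 33594] false,
   Spec.mk (nat_lit 13916) (nat_lit 0) [nat_lit 27038, nat_lit 9542, nat_lit 15374, nat_lit 13430, nat_lit 13970, nat_lit 13898, nat_lit 13910, nat_lit 13918] (nat_lit 4) [nat_lit 33598] false,
   Spec.mk (nat_lit 13918) (nat_lit 0) [nat_lit 27040, nat_lit 9544, nat_lit 15376, nat_lit 13432, nat_lit 13972, nat_lit 13900, nat_lit 13912, nat_lit 13924, nat_lit 13916, nat_lit 13920] (nat_lit 2) [nat_lit 33600] false,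
   Spec.mk (nat_lit 13920) (nat_lit 0) [nat_lit 27042, nat_lit 9546, nat_lit 15378, nat_lit 13434, nat_lit 13974, nat_lit 13902, nat_lit 13926, nat_lit 13918] (nat_lit 2) [] false,
   Spec.mk (nat_lit 13924) (nat_lit 0) [nat_lit 27046, nat_lit 9550, nat_lit 15382, nat_lit 13438, nat_lit 13978, nat_lit 13918, nat_lit 13926] (nat_lit 2) [nat_lit 33606] false,
   Spec.mk (nat_lit 13926) (nat_lit 0) [nat_lit 27048, nat_lit 9552, nat_lit 15384, nat_lit 13440, nat_lit 13980, nat_lit 13920, nat_lit 13924] (nat_lit 0) [] false]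

noncomputable def sp38 : List Spec :=
  [Spec.mk (nat_lit 13940) (nat_lit 0) [nat_lit 27062, nat_lit 9566, nat_lit 15398, nat_lit 13454, nat_lit 14102, nat_lit 13886, nat_lit 13946] (nat_lit 2) [nat_lit 33622] false,
   Spec.mk (nat_lit 13946) (nat_lit 0) [nat_lit 27068, nat_lit 9572, nat_lit 15404, nat_lit 13460, nat_lit 14108, nat_lit 13892, nat_lit 13964, nat_lit 13940, nat_lit 13952, nat_lit 13948] (nat_lit 3) [nat_lit 33628] false,
   Spec.mk (nat_lit 13948) (nat_lit 0) [nat_lit 27070, nat_lit 9574, nat_lit 15406, nat_lit 13462, nat_lit 14110, nat_lit 13894, nat_lit 13966, nat_lit 13954, nat_lit 13946] (nat_lit 2) [nat_lit 33630] false,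
   Spec.mk (nat_lit 13952) (nat_lit 0) [nat_lit 27074, nat_lit 9578, nat_lit 15410, nat_lit 13466, nat_lit 14114, nat_lit 13898, nat_lit 13970, nat_lit 13946, nat_lit 13954] (nat_lit 6) [nat_lit 33634] false,
   Spec.mk (nat_lit 13954) (nat_lit 0) [nat_lit 27076, nat_lit 9580, nat_lit 15412, nat_lit 13468, nat_lit 14116, nat_lit 13900, nat_lit 13972, nat_lit 13948, nat_lit 13952, nat_lit 13956] (nat_lit 3) [nat_lit 33636] false,
   Spec.mk (nat_lit 13956) (nat_lit 0) [nat_lit 27078, nat_lit 9582, nat_lit 15414, nat_lit 13470, nat_lit 14118, nat_lit 13902, nat_lit 13974, nat_lit 13954] (nat_lit 2) [] false,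
   Spec.mk (nat_lit 13964) (nat_lit 0) [nat_lit 27086, nat_lit 9590, nat_lit 15422, nat_lit 13478, nat_lit 14126, nat_lit 13910, nat_lit 14018, nat_lit 13946, nat_lit 13970, nat_lit 13966] (nat_lit 3) [nat_lit 33646] false,
   Spec.mk (nat_lit 13966) (nat_lit 0) [nat_lit 27088, nat_lit 9592, nat_lit 15424, nat_lit 13480, nat_lit 14128, nat_lit 13912, nat_lit 14020, nat_lit 13948, nat_lit 13972, nat_lit 13964] (nat_lit 3) [nat_lit 33648] false,
   Spec.mk (nat_lit 13970) (nat_lit 0) [nat_lit 27092, nat_lit 9596, nat_lit 15428, nat_lit 13484, nat_lit 14132, nat_lit 13916, nat_lit 14024, nat_lit 13952, nat_lit 13988, nat_lit 13964, nat_lit 13972] (nat_lit 4) [nat_lit 33652] false,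
   Spec.mk (nat_lit 13972) (nat_lit 0) [nat_lit 27094, nat_lit 9598, nat_lit 15430, nat_lit 13486, nat_lit 14134, nat_lit 13918, nat_lit 14026, nat_lit 13954, nat_lit 13990, nat_lit 13966, nat_lit 13978, nat_lit 13970, nat_lit 13974] (nat_lit 2) [nat_lit 33654] false,
   Spec.mk (nat_lit 13974) (nat_lit 0) [nat_lit 27096, nat_lit 9600, nat_lit 15432, nat_lit 13488, nat_lit 14136, nat_lit 13920, nat_lit 14028, nat_lit 13956, nat_lit 13992, nat_lit 13980, nat_lit 13972] (nat_lit 2) [] false,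
   Spec.mk (nat_lit 13978) (nat_lit 0) [nat_lit 27100, nat_lit 9604, nat_lit 15436, nat_lit 13492, nat_lit 14140, nat_lit 13924, nat_lit 14032, nat_lit 13996, nat_lit 13972, nat_lit 13980] (nat_lit 3) [nat_lit 33660] false,
   Spec.mk (nat_lit 13980) (nat_lit 0) [nat_lit 27102, nat_lit 9606, nat_lit 15438, nat_lit 13494, nat_lit 14142, nat_lit 13926, nat_lit 14034, nat_lit 13998, nat_lit 13974, nat_lit 13978] (nat_lit 1) [] false,
   Spec.mk (nat_lit 13988) (nat_lit 0) [nat_lit 27110, nat_lit 9614, nat_lit 15446, nat_lit 13502, nat_lit 14150, nat_lit 14042, nat_lit 13970, nat_lit 13990] (nat_lit 4) [nat_lit 33670] false,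
   Spec.mk (nat_lit 13990) (nat_lit 0) [nat_lit 27112, nat_lit 9616, nat_lit 15448, nat_lit 13504, nat_lit 14152, nat_lit 14044, nat_lit 13972, nat_lit 13996, nat_lit 13988, nat_lit 13992] (nat_lit 3) [nat_lit 33672] false,
   Spec.mk (nat_lit 13992) (nat_lit 0) [nat_lit 27114, nat_lit 9618, nat_lit 15450, nat_lit 13506, nat_lit 14154, nat_lit 14046, nat_lit 13974, nat_lit 13998, nat_lit 13990] (nat_lit 4) [] false,
   Spec.mk (nat_lit 13996) (nat_lit 0) [nat_lit 27118, nat_lit 9622, nat_lit 15454, nat_lit 13510, nat_lit 14158, nat_lit 14050, nat_lit 13978, nat_lit 13990, nat_lit 13998] (nat_lit 2) [nat_lit 33678] false,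
   Spec.mk (nat_lit 13998) (nat_lit 0) [nat_lit 27120, nat_lit 9624, nat_lit 15456, nat_lit 13512, nat_lit 14160, nat_lit 14052, nat_lit 13980, nat_lit 13992, nat_lit 14004, nat_lit 13996] (nat_lit 1) [] false,
   Spec.mk (nat_lit 14004) (nat_lit 0) [nat_lit 27126, nat_lit 9630, nat_lit 15462, nat_lit 13518, nat_lit 14166, nat_lit 14058, nat_lit 13998] (nat_lit 0) [] false,
   Spec.mk (nat_lit 14018) (nat_lit 0) [nat_lit 27140, nat_lit 9644, nat_lit 15476, nat_lit 13532, nat_lit 14180, nat_lit 13964, nat_lit 14024, nat_lit 14020] (nat_lit 4) [nat_lit 33700] false,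
   Spec.mk (nat_lit 14020) (nat_lit 0) [nat_lit 27142, nat_lit 9646, nat_lit 15478, nat_lit 13534, nat_lit 14182, nat_lit 13966, nat_lit 14026, nat_lit 14018] (nat_lit 4) [nat_lit 33702] false,
   Spec.mk (nat_lit 14024) (nat_lit 0) [nat_lit 27146, nat_lit 9650, nat_lit 15482, nat_lit 13538, nat_lit 14186, nat_lit 13970, nat_lit 14042, nat_lit 14018, nat_lit 14026] (nat_lit 6) [nat_lit 33706] false,
   Spec.mk (nat_lit 14026) (nat_lit 0) [nat_lit 27148, nat_lit 9652, nat_lit 15484, nat_lit 13540, nat_lit 14188, nat_lit 13972, nat_lit 14044, nat_lit 14020, nat_lit 14032, nat_lit 14024, nat_lit 14028] (nat_lit 4) [nat_lit 33708] false,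
   Spec.mk (nat_lit 14028) (nat_lit 0) [nat_lit 27150, nat_lit 9654, nat_lit 15486, nat_lit 13542, nat_lit 14190, nat_lit 13974, nat_lit 14046, nat_lit 14034, nat_lit 14026] (nat_lit 4) [] false,
   Spec.mk (nat_lit 14032) (nat_lit 0) [nat_lit 27154, nat_lit 9658, nat_lit 15490, nat_lit 13546, nat_lit 14194, nat_lit 13978, nat_lit 14050, nat_lit 14026, nat_lit 14034] (nat_lit 6) [nat_lit 33714] false,
   Spec.mk (nat_lit 14034) (nat_lit 0) [nat_lit 27156, nat_lit 9660, nat_lit 15492, nat_lit 13548, nat_lit 14196, nat_lit 13980, nat_lit 14052, nat_lit 14028, nat_lit 14032] (nat_lit 4) [] false,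
   Spec.mk (nat_lit 14042) (nat_lit 0) [nat_lit 27164, nat_lit 9668, nat_lit 15500, nat_lit 13556, nat_lit 14204, nat_lit 13988, nat_lit 14024, nat_lit 14044] (nat_lit 4) [nat_lit 33724] false,
   Spec.mk (nat_lit 14044) (nat_lit 0) [nat_lit 27166, nat_lit 9670, nat_lit 15502, nat_lit 13558, nat_lit 14206, nat_lit 13990, nat_lit 14026, nat_lit 14050, nat_lit 14042, nat_lit 14046] (nat_lit 3) [nat_lit 33726] false,
   Spec.mk (nat_lit 14046) (nat_lit 0) [nat_lit 27168, nat_lit 9672, nat_lit 15504, nat_lit 13560, nat_lit 14208, nat_lit 13992, nat_lit 14028, nat_lit 14052, nat_lit 14044] (nat_lit 4) [] false,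
   Spec.mk (nat_lit 14050) (nat_lit 0) [nat_lit 27172, nat_lit 9676, nat_lit 15508, nat_lit 13564, nat_lit 14212, nat_lit 13996, nat_lit 14032, nat_lit 14068, nat_lit 14044, nat_lit 14052] (nat_lit 3) [nat_lit 33732] false,
   Spec.mk (nat_lit 14052) (nat_lit 0) [nat_lit 27174, nat_lit 9678, nat_lit 15510, nat_lit 13566, nat_lit 14214, nat_lit 13998, nat_lit 14034, nat_lit 14070, nat_lit 14046, nat_lit 14058, nat_lit 14050] (nat_lit 2) [] false,
   Spec.mk (nat_lit 14058) (nat_lit 0) [nat_lit 27180, nat_lit 9684, nat_lit 15516, nat_lit 13572, nat_lit 14220, nat_lit 14004, nat_lit 14076, nat_lit 14052] (nat_lit 2) [] false,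
   Spec.mk (nat_lit 14068) (nat_lit 0) [nat_lit 27190, nat_lit 9694, nat_lit 15526, nat_lit 13582, nat_lit 14230, nat_lit 14050, nat_lit 14070] (nat_lit 2) [nat_lit 33750] false,
   Spec.mk (nat_lit 14070) (nat_lit 0) [nat_lit 27192, nat_lit 9696, nat_lit 15528, nat_lit 13584, nat_lit 14232, nat_lit 14052, nat_lit 14076, nat_lit 14068] (nat_lit 2) [] false,
   Spec.mk (nat_lit 14076) (nat_lit 0) [nat_lit 27198, nat_lit 9702, nat_lit 15534, nat_lit 13590, nat_lit 14238, nat_lit 14058, nat_lit 14070] (nat_lit 0) [] false,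
   Spec.mk (nat_lit 14102) (nat_lit 0) [nat_lit 27224, nat_lit 9728, nat_lit 15560, nat_lit 13616, nat_lit 14588, nat_lit 13940, nat_lit 14108] (nat_lit 1) [nat_lit 33784] false,
   Spec.mk (nat_lit 14108) (nat_lit 0) [nat_lit 27230, nat_lit 9734, nat_lit 15566, nat_lit 13622, nat_lit 14594, nat_lit 13946, nat_lit 14126, nat_lit 14102, nat_lit 14114, nat_lit 14110] (nat_lit 2) [nat_lit 33790] false,
   Spec.mk (nat_lit 14110) (nat_lit 0) [nat_lit 27232, nat_lit 9736, nat_lit 15568, nat_lit 13624, nat_lit 14596, nat_lit 13948, nat_lit 14128, nat_lit 14116, nat_lit 14108] (nat_lit 1) [nat_lit 33792] false,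
   Spec.mk (nat_lit 14114) (nat_lit 0) [nat_lit 27236, nat_lit 9740, nat_lit 15572, nat_lit 13628, nat_lit 14600, nat_lit 13952, nat_lit 14132, nat_lit 14108, nat_lit 14116] (nat_lit 5) [nat_lit 33796] false,
   Spec.mk (nat_lit 14116) (nat_lit 0) [nat_lit 27238, nat_lit 9742, nat_lit 15574, nat_lit 13630, nat_lit 14602, nat_lit 13954, nat_lit 14134, nat_lit 14110, nat_lit 14114, nat_lit 14118] (nat_lit 2) [nat_lit 33798] false,
   Spec.mk (nat_lit 14118) (nat_lit 0) [nat_lit 27240, nat_lit 9744, nat_lit 15576, nat_lit 13632, nat_lit 14604, nat_lit 13956, nat_lit 14136, nat_lit 14116] (nat_lit 1) [] false,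
   Spec.mk (nat_lit 14126) (nat_lit 0) [nat_lit 27248, nat_lit 9752, nat_lit 15584, nat_lit 13640, nat_lit 14612, nat_lit 13964, nat_lit 14180, nat_lit 14108, nat_lit 14132, nat_lit 14128] (nat_lit 3) [nat_lit 33808] false,
   Spec.mk (nat_lit 14128) (nat_lit 0) [nat_lit 27250, nat_lit 9754, nat_lit 15586, nat_lit 13642, nat_lit 14614, nat_lit 13966, nat_lit 14182, nat_lit 14110, nat_lit 14134, nat_lit 14126] (nat_lit 3) [nat_lit 33810] false,
   Spec.mk (nat_lit 14132) (nat_lit 0) [nat_lit 27254, nat_lit 9758, nat_lit 15590, nat_lit 13646, nat_lit 14618, nat_lit 13970, nat_lit 14186, nat_lit 14114, nat_lit 14150, nat_lit 14126, nat_lit 14134] (nat_lit 4) [nat_lit 33814] false,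
   Spec.mk (nat_lit 14134) (nat_lit 0) [nat_lit 27256, nat_lit 9760, nat_lit 15592, nat_lit 13648, nat_lit 14620, nat_lit 13972, nat_lit 14188, nat_lit 14116, nat_lit 14152, nat_lit 14128, nat_lit 14140, nat_lit 14132, nat_lit 14136] (nat_lit 2) [nat_lit 33816] false,
   Spec.mk (nat_lit 14136) (nat_lit 0) [nat_lit 27258, nat_lit 9762, nat_lit 15594, nat_lit 13650, nat_lit 14622, nat_lit 13974, nat_lit 14190, nat_lit 14118, nat_lit 14154, nat_lit 14142, nat_lit 14134] (nat_lit 2) [] false,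
   Spec.mk (nat_lit 14140) (nat_lit 0) [nat_lit 27262, nat_lit 9766, nat_lit 15598, nat_lit 13654, nat_lit 14626, nat_lit 13978, nat_lit 14194, nat_lit 14158, nat_lit 14134, nat_lit 14142] (nat_lit 3) [nat_lit 33822] false,
   Spec.mk (nat_lit 14142) (nat_lit 0) [nat_lit 27264, nat_lit 9768, nat_lit 15600, nat_lit 13656, nat_lit 14628, nat_lit 13980, nat_lit 14196, nat_lit 14160, nat_lit 14136, nat_lit 14140] (nat_lit 1) [] false,
   Spec.mk (nat_lit 14150) (nat_lit 0) [nat_lit 27272, nat_lit 9776, nat_lit 15608, nat_lit 13664, nat_lit 14636, nat_lit 13988, nat_lit 14204, nat_lit 14132, nat_lit 14152] (nat_lit 5) [nat_lit 33832] false,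
   Spec.mk (nat_lit 14152) (nat_lit 0) [nat_lit 27274, nat_lit 9778, nat_lit 15610, nat_lit 13666, nat_lit 14638, nat_lit 13990, nat_lit 14206, nat_lit 14134, nat_lit 14158, nat_lit 14150, nat_lit 14154] (nat_lit 4) [nat_lit 33834] false,
   Spec.mk (nat_lit 14154) (nat_lit 0) [nat_lit 27276, nat_lit 9780, nat_lit 15612, nat_lit 13668, nat_lit 14640, nat_lit 13992, nat_lit 14208, nat_lit 14136, nat_lit 14160, nat_lit 14152] (nat_lit 5) [] false,
   Spec.mk (nat_lit 14158) (nat_lit 0) [nat_lit 27280, nat_lit 9784, nat_lit 15616, nat_lit 13672, nat_lit 14644, nat_lit 13996, nat_lit 14212, nat_lit 14140, nat_lit 14152, nat_lit 14160] (nat_lit 3) [nat_lit 33840] false,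
   Spec.mk (nat_lit 14160) (nat_lit 0) [nat_lit 27282, nat_lit 9786, nat_lit 15618, nat_lit 13674, nat_lit 14646, nat_lit 13998, nat_lit 14214, nat_lit 14142, nat_lit 14154, nat_lit 14166, nat_lit 14158] (nat_lit 2) [] false,
   Spec.mk (nat_lit 14166) (nat_lit 0) [nat_lit 27288, nat_lit 9792, nat_lit 15624, nat_lit 13680, nat_lit 14652, nat_lit 14004, nat_lit 14220, nat_lit 14160] (nat_lit 1) [] false,
   Spec.mk (nat_lit 14180) (nat_lit 0) [nat_lit 27302, nat_lit 9806, nat_lit 15638, nat_lit 13694, nat_lit 14666, nat_lit 14018, nat_lit 14342, nat_lit 14126, nat_lit 14186, nat_lit 14182] (nat_lit 2) [nat_lit 33862] false,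
   Spec.mk (nat_lit 14182) (nat_lit 0) [nat_lit 27304, nat_lit 9808, nat_lit 15640, nat_lit 13696, nat_lit 14668, nat_lit 14020, nat_lit 14344, nat_lit 14128, nat_lit 14188, nat_lit 14180] (nat_lit 2) [nat_lit 33864] false,
   Spec.mk (nat_lit 14186) (nat_lit 0) [nat_lit 27308, nat_lit 9812, nat_lit 15644, nat_lit 13700, nat_lit 14672, nat_lit 14024, nat_lit 14348, nat_lit 14132, nat_lit 14204, nat_lit 14180, nat_lit 14188] (nat_lit 4) [nat_lit 33868] false,
   Spec.mk (nat_lit 14188) (nat_lit 0) [nat_lit 27310, nat_lit 9814, nat_lit 15646, nat_lit 13702, nat_lit 14674, nat_lit 14026, nat_lit 14350, nat_lit 14134, nat_lit 14206, nat_lit 14182, nat_lit 14194, nat_lit 14186, nat_lit 14190] (nat_lit 2) [nat_lit 33870] false,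
   Spec.mk (nat_lit 14190) (nat_lit 0) [nat_lit 27312, nat_lit 9816, nat_lit 15648, nat_lit 13704, nat_lit 14676, nat_lit 14028, nat_lit 14352, nat_lit 14136, nat_lit 14208, nat_lit 14196, nat_lit 14188] (nat_lit 2) [] false,
   Spec.mk (nat_lit 14194) (nat_lit 0) [nat_lit 27316, nat_lit 9820, nat_lit 15652, nat_lit 13708, nat_lit 14680, nat_lit 14032, nat_lit 14356, nat_lit 14140, nat_lit 14212, nat_lit 14188, nat_lit 14196] (nat_lit 4) [nat_lit 33876] false]

noncomputable def sp39 : List Spec :=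
  [Spec.mk (nat_lit 14196) (nat_lit 0) [nat_lit 27318, nat_lit 9822, nat_lit 15654, nat_lit 13710, nat_lit 14682, nat_lit 14034, nat_lit 14358, nat_lit 14142, nat_lit 14214, nat_lit 14190, nat_lit 14194] (nat_lit 2) [] false,
   Spec.mk (nat_lit 14204) (nat_lit 0) [nat_lit 27326, nat_lit 9830, nat_lit 15662, nat_lit 13718, nat_lit 14690, nat_lit 14042, nat_lit 14366, nat_lit 14150, nat_lit 14258, nat_lit 14186, nat_lit 14206] (nat_lit 3) [nat_lit 33886] false,
   Spec.mk (nat_lit 14206) (nat_lit 0) [nat_lit 27328, nat_lit 9832, nat_lit 15664, nat_lit 13720, nat_lit 14692, nat_lit 14044, nat_lit 14368, nat_lit 14152, nat_lit 14260, nat_lit 14188, nat_lit 14212, nat_lit 14204, nat_lit 14208] (nat_lit 2) [nat_lit 33888] false,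
   Spec.mk (nat_lit 14208) (nat_lit 0) [nat_lit 27330, nat_lit 9834, nat_lit 15666, nat_lit 13722, nat_lit 14694, nat_lit 14046, nat_lit 14370, nat_lit 14154, nat_lit 14262, nat_lit 14190, nat_lit 14214, nat_lit 14206] (nat_lit 3) [] false,
   Spec.mk (nat_lit 14212) (nat_lit 0) [nat_lit 27334, nat_lit 9838, nat_lit 15670, nat_lit 13726, nat_lit 14698, nat_lit 14050, nat_lit 14374, nat_lit 14158, nat_lit 14266, nat_lit 14194, nat_lit 14230, nat_lit 14206, nat_lit 14214] (nat_lit 2) [nat_lit 33894] false,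
   Spec.mk (nat_lit 14214) (nat_lit 0) [nat_lit 27336, nat_lit 9840, nat_lit 15672, nat_lit 13728, nat_lit 14700, nat_lit 14052, nat_lit 14376, nat_lit 14160, nat_lit 14268, nat_lit 14196, nat_lit 14232, nat_lit 14208, nat_lit 14220, nat_lit 14212] (nat_lit 1) [] false,
   Spec.mk (nat_lit 14220) (nat_lit 0) [nat_lit 27342, nat_lit 9846, nat_lit 15678, nat_lit 13734, nat_lit 14706, nat_lit 14058, nat_lit 14382, nat_lit 14166, nat_lit 14274, nat_lit 14238, nat_lit 14214] (nat_lit 1) [] false,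
   Spec.mk (nat_lit 14230) (nat_lit 0) [nat_lit 27352, nat_lit 9856, nat_lit 15688, nat_lit 13744, nat_lit 14716, nat_lit 14068, nat_lit 14392, nat_lit 14284, nat_lit 14212, nat_lit 14232] (nat_lit 2) [nat_lit 33912] false,
   Spec.mk (nat_lit 14232) (nat_lit 0) [nat_lit 27354, nat_lit 9858, nat_lit 15690, nat_lit 13746, nat_lit 14718, nat_lit 14070, nat_lit 14394, nat_lit 14286, nat_lit 14214, nat_lit 14238, nat_lit 14230] (nat_lit 2) [] false,
   Spec.mk (nat_lit 14238) (nat_lit 0) [nat_lit 27360, nat_lit 9864, nat_lit 15696, nat_lit 13752, nat_lit 14724, nat_lit 14076, nat_lit 14400, nat_lit 14292, nat_lit 14220, nat_lit 14232] (nat_lit 0) [] false,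
   Spec.mk (nat_lit 14258) (nat_lit 0) [nat_lit 27380, nat_lit 9884, nat_lit 15716, nat_lit 13772, nat_lit 14744, nat_lit 14420, nat_lit 14204, nat_lit 14260] (nat_lit 3) [nat_lit 33940] false,
   Spec.mk (nat_lit 14260) (nat_lit 0) [nat_lit 27382, nat_lit 9886, nat_lit 15718, nat_lit 13774, nat_lit 14746, nat_lit 14422, nat_lit 14206, nat_lit 14266, nat_lit 14258, nat_lit 14262] (nat_lit 2) [nat_lit 33942] false,
   Spec.mk (nat_lit 14262) (nat_lit 0) [nat_lit 27384, nat_lit 9888, nat_lit 15720, nat_lit 13776, nat_lit 14748, nat_lit 14424, nat_lit 14208, nat_lit 14268, nat_lit 14260] (nat_lit 3) [] false,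
   Spec.mk (nat_lit 14266) (nat_lit 0) [nat_lit 27388, nat_lit 9892, nat_lit 15724, nat_lit 13780, nat_lit 14752, nat_lit 14428, nat_lit 14212, nat_lit 14284, nat_lit 14260, nat_lit 14268] (nat_lit 3) [nat_lit 33948] false,
   Spec.mk (nat_lit 14268) (nat_lit 0) [nat_lit 27390, nat_lit 9894, nat_lit 15726, nat_lit 13782, nat_lit 14754, nat_lit 14430, nat_lit 14214, nat_lit 14286, nat_lit 14262, nat_lit 14274, nat_lit 14266] (nat_lit 2) [] false,
   Spec.mk (nat_lit 14274) (nat_lit 0) [nat_lit 27396, nat_lit 9900, nat_lit 15732, nat_lit 13788, nat_lit 14760, nat_lit 14436, nat_lit 14220, nat_lit 14292, nat_lit 14268] (nat_lit 3) [] false,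
   Spec.mk (nat_lit 14284) (nat_lit 0) [nat_lit 27406, nat_lit 9910, nat_lit 15742, nat_lit 13798, nat_lit 14770, nat_lit 14446, nat_lit 14230, nat_lit 14266, nat_lit 14286] (nat_lit 1) [nat_lit 33966] false,
   Spec.mk (nat_lit 14286) (nat_lit 0) [nat_lit 27408, nat_lit 9912, nat_lit 15744, nat_lit 13800, nat_lit 14772, nat_lit 14448, nat_lit 14232, nat_lit 14268, nat_lit 14292, nat_lit 14284] (nat_lit 1) [] false,
   Spec.mk (nat_lit 14292) (nat_lit 0) [nat_lit 27414, nat_lit 9918, nat_lit 15750, nat_lit 13806, nat_lit 14778, nat_lit 14454, nat_lit 14238, nat_lit 14274, nat_lit 14310, nat_lit 14286] (nat_lit 0) [] false,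
   Spec.mk (nat_lit 14310) (nat_lit 1) [nat_lit 27432, nat_lit 9936, nat_lit 15768, nat_lit 13824, nat_lit 14796, nat_lit 14472, nat_lit 14292] (nat_lit 0) [] false,
   Spec.mk (nat_lit 14342) (nat_lit 0) [nat_lit 27464, nat_lit 9968, nat_lit 15800, nat_lit 14828, nat_lit 14180, nat_lit 14348, nat_lit 14344] (nat_lit 2) [nat_lit 34024] false,
   Spec.mk (nat_lit 14344) (nat_lit 0) [nat_lit 27466, nat_lit 9970, nat_lit 15802, nat_lit 14830, nat_lit 14182, nat_lit 14350, nat_lit 14342] (nat_lit 2) [nat_lit 34026] false,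
   Spec.mk (nat_lit 14348) (nat_lit 0) [nat_lit 27470, nat_lit 9974, nat_lit 15806, nat_lit 14834, nat_lit 14186, nat_lit 14366, nat_lit 14342, nat_lit 14350] (nat_lit 4) [nat_lit 34030] false,
   Spec.mk (nat_lit 14350) (nat_lit 0) [nat_lit 27472, nat_lit 9976, nat_lit 15808, nat_lit 14836, nat_lit 14188, nat_lit 14368, nat_lit 14344, nat_lit 14356, nat_lit 14348, nat_lit 14352] (nat_lit 2) [nat_lit 34032] false,
   Spec.mk (nat_lit 14352) (nat_lit 0) [nat_lit 27474, nat_lit 9978, nat_lit 15810, nat_lit 14838, nat_lit 14190, nat_lit 14370, nat_lit 14358, nat_lit 14350] (nat_lit 2) [] false,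
   Spec.mk (nat_lit 14356) (nat_lit 0) [nat_lit 27478, nat_lit 9982, nat_lit 15814, nat_lit 14842, nat_lit 14194, nat_lit 14374, nat_lit 14350, nat_lit 14358] (nat_lit 4) [nat_lit 34038] false,
   Spec.mk (nat_lit 14358) (nat_lit 0) [nat_lit 27480, nat_lit 9984, nat_lit 15816, nat_lit 14844, nat_lit 14196, nat_lit 14376, nat_lit 14352, nat_lit 14356] (nat_lit 2) [] false,
   Spec.mk (nat_lit 14366) (nat_lit 0) [nat_lit 27488, nat_lit 9992, nat_lit 15824, nat_lit 14852, nat_lit 14204, nat_lit 14420, nat_lit 14348, nat_lit 14368] (nat_lit 4) [nat_lit 34048] false,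
   Spec.mk (nat_lit 14368) (nat_lit 0) [nat_lit 27490, nat_lit 9994, nat_lit 15826, nat_lit 14854, nat_lit 14206, nat_lit 14422, nat_lit 14350, nat_lit 14374, nat_lit 14366, nat_lit 14370] (nat_lit 3) [nat_lit 34050] false,
   Spec.mk (nat_lit 14370) (nat_lit 0) [nat_lit 27492, nat_lit 9996, nat_lit 15828, nat_lit 14856, nat_lit 14208, nat_lit 14424, nat_lit 14352, nat_lit 14376, nat_lit 14368] (nat_lit 4) [] false,
   Spec.mk (nat_lit 14374) (nat_lit 0) [nat_lit 27496, nat_lit 10000, nat_lit 15832, nat_lit 14860, nat_lit 14212, nat_lit 14428, nat_lit 14356, nat_lit 14392, nat_lit 14368, nat_lit 14376] (nat_lit 3) [nat_lit 34056] false,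
   Spec.mk (nat_lit 14376) (nat_lit 0) [nat_lit 27498, nat_lit 10002, nat_lit 15834, nat_lit 14862, nat_lit 14214, nat_lit 14430, nat_lit 14358, nat_lit 14394, nat_lit 14370, nat_lit 14382, nat_lit 14374] (nat_lit 2) [] false,
   Spec.mk (nat_lit 14382) (nat_lit 0) [nat_lit 27504, nat_lit 10008, nat_lit 15840, nat_lit 14868, nat_lit 14220, nat_lit 14436, nat_lit 14400, nat_lit 14376] (nat_lit 2) [] false,
   Spec.mk (nat_lit 14392) (nat_lit 0) [nat_lit 27514, nat_lit 10018, nat_lit 15850, nat_lit 14878, nat_lit 14230, nat_lit 14446, nat_lit 14374, nat_lit 14394] (nat_lit 4) [nat_lit 34074] false,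
   Spec.mk (nat_lit 14394) (nat_lit 0) [nat_lit 27516, nat_lit 10020, nat_lit 15852, nat_lit 14880, nat_lit 14232, nat_lit 14448, nat_lit 14376, nat_lit 14400, nat_lit 14392] (nat_lit 4) [] false,
   Spec.mk (nat_lit 14400) (nat_lit 0) [nat_lit 27522, nat_lit 10026, nat_lit 15858, nat_lit 14886, nat_lit 14238, nat_lit 14454, nat_lit 14382, nat_lit 14394] (nat_lit 2) [] false,
   Spec.mk (nat_lit 14420) (nat_lit 0) [nat_lit 27542, nat_lit 10046, nat_lit 15878, nat_lit 14906, nat_lit 14258, nat_lit 14366, nat_lit 14422] (nat_lit 2) [nat_lit 34102] false,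
   Spec.mk (nat_lit 14422) (nat_lit 0) [nat_lit 27544, nat_lit 10048, nat_lit 15880, nat_lit 14908, nat_lit 14260, nat_lit 14368, nat_lit 14428, nat_lit 14420, nat_lit 14424] (nat_lit 1) [nat_lit 34104] false,
   Spec.mk (nat_lit 14424) (nat_lit 0) [nat_lit 27546, nat_lit 10050, nat_lit 15882, nat_lit 14910, nat_lit 14262, nat_lit 14370, nat_lit 14430, nat_lit 14422] (nat_lit 2) [] false,
   Spec.mk (nat_lit 14428) (nat_lit 0) [nat_lit 27550, nat_lit 10054, nat_lit 15886, nat_lit 14914, nat_lit 14266, nat_lit 14374, nat_lit 14446, nat_lit 14422, nat_lit 14430] (nat_lit 2) [nat_lit 34110] false,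
   Spec.mk (nat_lit 14430) (nat_lit 0) [nat_lit 27552, nat_lit 10056, nat_lit 15888, nat_lit 14916, nat_lit 14268, nat_lit 14376, nat_lit 14448, nat_lit 14424, nat_lit 14436, nat_lit 14428] (nat_lit 1) [] false,
   Spec.mk (nat_lit 14436) (nat_lit 0) [nat_lit 27558, nat_lit 10062, nat_lit 15894, nat_lit 14922, nat_lit 14274, nat_lit 14382, nat_lit 14454, nat_lit 14430] (nat_lit 2) [] false,
   Spec.mk (nat_lit 14446) (nat_lit 0) [nat_lit 27568, nat_lit 10072, nat_lit 15904, nat_lit 14932, nat_lit 14284, nat_lit 14392, nat_lit 14500, nat_lit 14428, nat_lit 14448] (nat_lit 1) [nat_lit 34128] false,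
   Spec.mk (nat_lit 14448) (nat_lit 0) [nat_lit 27570, nat_lit 10074, nat_lit 15906, nat_lit 14934, nat_lit 14286, nat_lit 14394, nat_lit 14502, nat_lit 14430, nat_lit 14454, nat_lit 14446] (nat_lit 1) [] false,
   Spec.mk (nat_lit 14454) (nat_lit 0) [nat_lit 27576, nat_lit 10080, nat_lit 15912, nat_lit 14940, nat_lit 14292, nat_lit 14400, nat_lit 14508, nat_lit 14436, nat_lit 14472, nat_lit 14448] (nat_lit 0) [] false,
   Spec.mk (nat_lit 14472) (nat_lit 0) [nat_lit 27594, nat_lit 10098, nat_lit 15930, nat_lit 14958, nat_lit 14310, nat_lit 14526, nat_lit 14454] (nat_lit 0) [] false,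
   Spec.mk (nat_lit 14500) (nat_lit 0) [nat_lit 27622, nat_lit 10126, nat_lit 15958, nat_lit 14986, nat_lit 14446, nat_lit 14502] (nat_lit 0) [nat_lit 34182] false,
   Spec.mk (nat_lit 14502) (nat_lit 0) [nat_lit 27624, nat_lit 10128, nat_lit 15960, nat_lit 14988, nat_lit 14448, nat_lit 14508, nat_lit 14500] (nat_lit 0) [] false,
   Spec.mk (nat_lit 14508) (nat_lit 0) [nat_lit 27630, nat_lit 10134, nat_lit 15966, nat_lit 14994, nat_lit 14454, nat_lit 14526, nat_lit 14502] (nat_lit 0) [] false,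
   Spec.mk (nat_lit 14526) (nat_lit 2) [nat_lit 27648, nat_lit 10152, nat_lit 15984, nat_lit 15012, nat_lit 14472, nat_lit 14508] (nat_lit 0) [] false,
   Spec.mk (nat_lit 14588) (nat_lit 0) [nat_lit 27710, nat_lit 10214, nat_lit 16046, nat_lit 14102, nat_lit 14594] (nat_lit 2) [nat_lit 34270] false,
   Spec.mk (nat_lit 14594) (nat_lit 0) [nat_lit 27716, nat_lit 10220, nat_lit 16052, nat_lit 14108, nat_lit 14612, nat_lit 14588, nat_lit 14600, nat_lit 14596] (nat_lit 3) [nat_lit 34276] false,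
   Spec.mk (nat_lit 14596) (nat_lit 0) [nat_lit 27718, nat_lit 10222, nat_lit 16054, nat_lit 14110, nat_lit 14614, nat_lit 14602, nat_lit 14594] (nat_lit 2) [nat_lit 34278] false,
   Spec.mk (nat_lit 14600) (nat_lit 0) [nat_lit 27722, nat_lit 10226, nat_lit 16058, nat_lit 14114, nat_lit 14618, nat_lit 14594, nat_lit 14602] (nat_lit 6) [nat_lit 34282] false,
   Spec.mk (nat_lit 14602) (nat_lit 0) [nat_lit 27724, nat_lit 10228, nat_lit 16060, nat_lit 14116, nat_lit 14620, nat_lit 14596, nat_lit 14600, nat_lit 14604] (nat_lit 3) [nat_lit 34284] false,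
   Spec.mk (nat_lit 14604) (nat_lit 0) [nat_lit 27726, nat_lit 10230, nat_lit 16062, nat_lit 14118, nat_lit 14622, nat_lit 14602] (nat_lit 2) [] false,
   Spec.mk (nat_lit 14612) (nat_lit 0) [nat_lit 27734, nat_lit 10238, nat_lit 16070, nat_lit 14126, nat_lit 14666, nat_lit 14594, nat_lit 14618, nat_lit 14614] (nat_lit 4) [nat_lit 34294] false,
   Spec.mk (nat_lit 14614) (nat_lit 0) [nat_lit 27736, nat_lit 10240, nat_lit 16072, nat_lit 14128, nat_lit 14668, nat_lit 14596, nat_lit 14620, nat_lit 14612] (nat_lit 4) [nat_lit 34296] false,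
   Spec.mk (nat_lit 14618) (nat_lit 0) [nat_lit 27740, nat_lit 10244, nat_lit 16076, nat_lit 14132, nat_lit 14672, nat_lit 14600, nat_lit 14636, nat_lit 14612, nat_lit 14620] (nat_lit 5) [nat_lit 34300] false,
   Spec.mk (nat_lit 14620) (nat_lit 0) [nat_lit 27742, nat_lit 10246, nat_lit 16078, nat_lit 14134, nat_lit 14674, nat_lit 14602, nat_lit 14638, nat_lit 14614, nat_lit 14626, nat_lit 14618, nat_lit 14622] (nat_lit 3) [nat_lit 34302] false]

noncomputable def sp40 : List Spec :=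
  [Spec.mk (nat_lit 14622) (nat_lit 0) [nat_lit 27744, nat_lit 10248, nat_lit 16080, nat_lit 14136, nat_lit 14676, nat_lit 14604, nat_lit 14640, nat_lit 14628, nat_lit 14620] (nat_lit 3) [] false,
   Spec.mk (nat_lit 14626) (nat_lit 0) [nat_lit 27748, nat_lit 10252, nat_lit 16084, nat_lit 14140, nat_lit 14680, nat_lit 14644, nat_lit 14620, nat_lit 14628] (nat_lit 4) [nat_lit 34308] false,
   Spec.mk (nat_lit 14628) (nat_lit 0) [nat_lit 27750, nat_lit 10254, nat_lit 16086, nat_lit 14142, nat_lit 14682, nat_lit 14646, nat_lit 14622, nat_lit 14626] (nat_lit 2) [] false,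
   Spec.mk (nat_lit 14636) (nat_lit 0) [nat_lit 27758, nat_lit 10262, nat_lit 16094, nat_lit 14150, nat_lit 14690, nat_lit 14618, nat_lit 14638] (nat_lit 6) [nat_lit 34318] false,
   Spec.mk (nat_lit 14638) (nat_lit 0) [nat_lit 27760, nat_lit 10264, nat_lit 16096, nat_lit 14152, nat_lit 14692, nat_lit 14620, nat_lit 14644, nat_lit 14636, nat_lit 14640] (nat_lit 5) [nat_lit 34320] false,
   Spec.mk (nat_lit 14640) (nat_lit 0) [nat_lit 27762, nat_lit 10266, nat_lit 16098, nat_lit 14154, nat_lit 14694, nat_lit 14622, nat_lit 14646, nat_lit 14638] (nat_lit 6) [] false,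
   Spec.mk (nat_lit 14644) (nat_lit 0) [nat_lit 27766, nat_lit 10270, nat_lit 16102, nat_lit 14158, nat_lit 14698, nat_lit 14626, nat_lit 14638, nat_lit 14646] (nat_lit 4) [nat_lit 34326] false,
   Spec.mk (nat_lit 14646) (nat_lit 0) [nat_lit 27768, nat_lit 10272, nat_lit 16104, nat_lit 14160, nat_lit 14700, nat_lit 14628, nat_lit 14640, nat_lit 14652, nat_lit 14644] (nat_lit 3) [] false,
   Spec.mk (nat_lit 14652) (nat_lit 0) [nat_lit 27774, nat_lit 10278, nat_lit 16110, nat_lit 14166, nat_lit 14706, nat_lit 14646] (nat_lit 2) [] false,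
   Spec.mk (nat_lit 14666) (nat_lit 0) [nat_lit 27788, nat_lit 10292, nat_lit 16124, nat_lit 14180, nat_lit 14828, nat_lit 14612, nat_lit 14672, nat_lit 14668] (nat_lit 4) [nat_lit 34348] false,
   Spec.mk (nat_lit 14668) (nat_lit 0) [nat_lit 27790, nat_lit 10294, nat_lit 16126, nat_lit 14182, nat_lit 14830, nat_lit 14614, nat_lit 14674, nat_lit 14666] (nat_lit 4) [nat_lit 34350] false,
   Spec.mk (nat_lit 14672) (nat_lit 0) [nat_lit 27794, nat_lit 10298, nat_lit 16130, nat_lit 14186, nat_lit 14834, nat_lit 14618, nat_lit 14690, nat_lit 14666, nat_lit 14674] (nat_lit 6) [nat_lit 34354] false,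
   Spec.mk (nat_lit 14674) (nat_lit 0) [nat_lit 27796, nat_lit 10300, nat_lit 16132, nat_lit 14188, nat_lit 14836, nat_lit 14620, nat_lit 14692, nat_lit 14668, nat_lit 14680, nat_lit 14672, nat_lit 14676] (nat_lit 4) [nat_lit 34356] false,
   Spec.mk (nat_lit 14676) (nat_lit 0) [nat_lit 27798, nat_lit 10302, nat_lit 16134, nat_lit 14190, nat_lit 14838, nat_lit 14622, nat_lit 14694, nat_lit 14682, nat_lit 14674] (nat_lit 4) [] false,
   Spec.mk (nat_lit 14680) (nat_lit 0) [nat_lit 27802, nat_lit 10306, nat_lit 16138, nat_lit 14194, nat_lit 14842, nat_lit 14626, nat_lit 14698, nat_lit 14674, nat_lit 14682] (nat_lit 6) [nat_lit 34362] false,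
   Spec.mk (nat_lit 14682) (nat_lit 0) [nat_lit 27804, nat_lit 10308, nat_lit 16140, nat_lit 14196, nat_lit 14844, nat_lit 14628, nat_lit 14700, nat_lit 14676, nat_lit 14680] (nat_lit 4) [] false,
   Spec.mk (nat_lit 14690) (nat_lit 0) [nat_lit 27812, nat_lit 10316, nat_lit 16148, nat_lit 14204, nat_lit 14852, nat_lit 14636, nat_lit 14744, nat_lit 14672, nat_lit 14692] (nat_lit 5) [nat_lit 34372] false,
   Spec.mk (nat_lit 14692) (nat_lit 0) [nat_lit 27814, nat_lit 10318, nat_lit 16150, nat_lit 14206, nat_lit 14854, nat_lit 14638, nat_lit 14746, nat_lit 14674, nat_lit 14698, nat_lit 14690, nat_lit 14694] (nat_lit 4) [nat_lit 34374] false,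
   Spec.mk (nat_lit 14694) (nat_lit 0) [nat_lit 27816, nat_lit 10320, nat_lit 16152, nat_lit 14208, nat_lit 14856, nat_lit 14640, nat_lit 14748, nat_lit 14676, nat_lit 14700, nat_lit 14692] (nat_lit 5) [] false,
   Spec.mk (nat_lit 14698) (nat_lit 0) [nat_lit 27820, nat_lit 10324, nat_lit 16156, nat_lit 14212, nat_lit 14860, nat_lit 14644, nat_lit 14752, nat_lit 14680, nat_lit 14716, nat_lit 14692, nat_lit 14700] (nat_lit 4) [nat_lit 34380] false,
   Spec.mk (nat_lit 14700) (nat_lit 0) [nat_lit 27822, nat_lit 10326, nat_lit 16158, nat_lit 14214, nat_lit 14862, nat_lit 14646, nat_lit 14754, nat_lit 14682, nat_lit 14718, nat_lit 14694, nat_lit 14706, nat_lit 14698] (nat_lit 3) [] false,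
   Spec.mk (nat_lit 14706) (nat_lit 0) [nat_lit 27828, nat_lit 10332, nat_lit 16164, nat_lit 14220, nat_lit 14868, nat_lit 14652, nat_lit 14760, nat_lit 14724, nat_lit 14700] (nat_lit 3) [] false,
   Spec.mk (nat_lit 14716) (nat_lit 0) [nat_lit 27838, nat_lit 10342, nat_lit 16174, nat_lit 14230, nat_lit 14878, nat_lit 14770, nat_lit 14698, nat_lit 14718] (nat_lit 4) [nat_lit 34398] false,
   Spec.mk (nat_lit 14718) (nat_lit 0) [nat_lit 27840, nat_lit 10344, nat_lit 16176, nat_lit 14232, nat_lit 14880, nat_lit 14772, nat_lit 14700, nat_lit 14724, nat_lit 14716] (nat_lit 4) [] false,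
   Spec.mk (nat_lit 14724) (nat_lit 0) [nat_lit 27846, nat_lit 10350, nat_lit 16182, nat_lit 14238, nat_lit 14886, nat_lit 14778, nat_lit 14706, nat_lit 14718] (nat_lit 2) [] false,
   Spec.mk (nat_lit 14744) (nat_lit 0) [nat_lit 27866, nat_lit 10370, nat_lit 16202, nat_lit 14258, nat_lit 14906, nat_lit 14690, nat_lit 14746] (nat_lit 6) [nat_lit 34426] false,
   Spec.mk (nat_lit 14746) (nat_lit 0) [nat_lit 27868, nat_lit 10372, nat_lit 16204, nat_lit 14260, nat_lit 14908, nat_lit 14692, nat_lit 14752, nat_lit 14744, nat_lit 14748] (nat_lit 5) [nat_lit 34428] false,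
   Spec.mk (nat_lit 14748) (nat_lit 0) [nat_lit 27870, nat_lit 10374, nat_lit 16206, nat_lit 14262, nat_lit 14910, nat_lit 14694, nat_lit 14754, nat_lit 14746] (nat_lit 6) [] false,
   Spec.mk (nat_lit 14752) (nat_lit 0) [nat_lit 27874, nat_lit 10378, nat_lit 16210, nat_lit 14266, nat_lit 14914, nat_lit 14698, nat_lit 14770, nat_lit 14746, nat_lit 14754] (nat_lit 6) [nat_lit 34434] false,
   Spec.mk (nat_lit 14754) (nat_lit 0) [nat_lit 27876, nat_lit 10380, nat_lit 16212, nat_lit 14268, nat_lit 14916, nat_lit 14700, nat_lit 14772, nat_lit 14748, nat_lit 14760, nat_lit 14752] (nat_lit 5) [] false,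
   Spec.mk (nat_lit 14760) (nat_lit 0) [nat_lit 27882, nat_lit 10386, nat_lit 16218, nat_lit 14274, nat_lit 14922, nat_lit 14706, nat_lit 14778, nat_lit 14754] (nat_lit 6) [] false,
   Spec.mk (nat_lit 14770) (nat_lit 0) [nat_lit 27892, nat_lit 10396, nat_lit 16228, nat_lit 14284, nat_lit 14932, nat_lit 14716, nat_lit 14752, nat_lit 14772] (nat_lit 4) [nat_lit 34452] false,
   Spec.mk (nat_lit 14772) (nat_lit 0) [nat_lit 27894, nat_lit 10398, nat_lit 16230, nat_lit 14286, nat_lit 14934, nat_lit 14718, nat_lit 14754, nat_lit 14778, nat_lit 14770] (nat_lit 4) [] false,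
   Spec.mk (nat_lit 14778) (nat_lit 0) [nat_lit 27900, nat_lit 10404, nat_lit 16236, nat_lit 14292, nat_lit 14940, nat_lit 14724, nat_lit 14760, nat_lit 14796, nat_lit 14772] (nat_lit 3) [] false,
   Spec.mk (nat_lit 14796) (nat_lit 0) [nat_lit 27918, nat_lit 10422, nat_lit 16254, nat_lit 14310, nat_lit 14958, nat_lit 14778] (nat_lit 2) [] false,
   Spec.mk (nat_lit 14828) (nat_lit 0) [nat_lit 27950, nat_lit 10454, nat_lit 16286, nat_lit 14342, nat_lit 14666, nat_lit 14834, nat_lit 14830] (nat_lit 2) [nat_lit 34510] false,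
   Spec.mk (nat_lit 14830) (nat_lit 0) [nat_lit 27952, nat_lit 10456, nat_lit 16288, nat_lit 14344, nat_lit 14668, nat_lit 14836, nat_lit 14828] (nat_lit 2) [nat_lit 34512] false,
   Spec.mk (nat_lit 14834) (nat_lit 0) [nat_lit 27956, nat_lit 10460, nat_lit 16292, nat_lit 14348, nat_lit 14672, nat_lit 14852, nat_lit 14828, nat_lit 14836] (nat_lit 4) [nat_lit 34516] false,
   Spec.mk (nat_lit 14836) (nat_lit 0) [nat_lit 27958, nat_lit 10462, nat_lit 16294, nat_lit 14350, nat_lit 14674, nat_lit 14854, nat_lit 14830, nat_lit 14842, nat_lit 14834, nat_lit 14838] (nat_lit 2) [nat_lit 34518] false,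
   Spec.mk (nat_lit 14838) (nat_lit 0) [nat_lit 27960, nat_lit 10464, nat_lit 16296, nat_lit 14352, nat_lit 14676, nat_lit 14856, nat_lit 14844, nat_lit 14836] (nat_lit 2) [] false,
   Spec.mk (nat_lit 14842) (nat_lit 0) [nat_lit 27964, nat_lit 10468, nat_lit 16300, nat_lit 14356, nat_lit 14680, nat_lit 14860, nat_lit 14836, nat_lit 14844] (nat_lit 4) [nat_lit 34524] false,
   Spec.mk (nat_lit 14844) (nat_lit 0) [nat_lit 27966, nat_lit 10470, nat_lit 16302, nat_lit 14358, nat_lit 14682, nat_lit 14862, nat_lit 14838, nat_lit 14842] (nat_lit 2) [] false,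
   Spec.mk (nat_lit 14852) (nat_lit 0) [nat_lit 27974, nat_lit 10478, nat_lit 16310, nat_lit 14366, nat_lit 14690, nat_lit 14906, nat_lit 14834, nat_lit 14854] (nat_lit 4) [nat_lit 34534] false,
   Spec.mk (nat_lit 14854) (nat_lit 0) [nat_lit 27976, nat_lit 10480, nat_lit 16312, nat_lit 14368, nat_lit 14692, nat_lit 14908, nat_lit 14836, nat_lit 14860, nat_lit 14852, nat_lit 14856] (nat_lit 3) [nat_lit 34536] false,
   Spec.mk (nat_lit 14856) (nat_lit 0) [nat_lit 27978, nat_lit 10482, nat_lit 16314, nat_lit 14370, nat_lit 14694, nat_lit 14910, nat_lit 14838, nat_lit 14862, nat_lit 14854] (nat_lit 4) [] false,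
   Spec.mk (nat_lit 14860) (nat_lit 0) [nat_lit 27982, nat_lit 10486, nat_lit 16318, nat_lit 14374, nat_lit 14698, nat_lit 14914, nat_lit 14842, nat_lit 14878, nat_lit 14854, nat_lit 14862] (nat_lit 3) [nat_lit 34542] false,
   Spec.mk (nat_lit 14862) (nat_lit 0) [nat_lit 27984, nat_lit 10488, nat_lit 16320, nat_lit 14376, nat_lit 14700, nat_lit 14916, nat_lit 14844, nat_lit 14880, nat_lit 14856, nat_lit 14868, nat_lit 14860] (nat_lit 2) [] false,
   Spec.mk (nat_lit 14868) (nat_lit 0) [nat_lit 27990, nat_lit 10494, nat_lit 16326, nat_lit 14382, nat_lit 14706, nat_lit 14922, nat_lit 14886, nat_lit 14862] (nat_lit 2) [] false,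
   Spec.mk (nat_lit 14878) (nat_lit 0) [nat_lit 28000, nat_lit 10504, nat_lit 16336, nat_lit 14392, nat_lit 14716, nat_lit 14932, nat_lit 14860, nat_lit 14880] (nat_lit 4) [nat_lit 34560] false,
   Spec.mk (nat_lit 14880) (nat_lit 0) [nat_lit 28002, nat_lit 10506, nat_lit 16338, nat_lit 14394, nat_lit 14718, nat_lit 14934, nat_lit 14862, nat_lit 14886, nat_lit 14878] (nat_lit 4) [] false,
   Spec.mk (nat_lit 14886) (nat_lit 0) [nat_lit 28008, nat_lit 10512, nat_lit 16344, nat_lit 14400, nat_lit 14724, nat_lit 14940, nat_lit 14868, nat_lit 14880] (nat_lit 2) [] false,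
   Spec.mk (nat_lit 14906) (nat_lit 0) [nat_lit 28028, nat_lit 10532, nat_lit 16364, nat_lit 14420, nat_lit 14744, nat_lit 15068, nat_lit 14852, nat_lit 14908] (nat_lit 3) [nat_lit 34588] false,
   Spec.mk (nat_lit 14908) (nat_lit 0) [nat_lit 28030, nat_lit 10534, nat_lit 16366, nat_lit 14422, nat_lit 14746, nat_lit 15070, nat_lit 14854, nat_lit 14914, nat_lit 14906, nat_lit 14910] (nat_lit 2) [nat_lit 34590] false,
   Spec.mk (nat_lit 14910) (nat_lit 0) [nat_lit 28032, nat_lit 10536, nat_lit 16368, nat_lit 14424, nat_lit 14748, nat_lit 15072, nat_lit 14856, nat_lit 14916, nat_lit 14908] (nat_lit 3) [] false,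
   Spec.mk (nat_lit 14914) (nat_lit 0) [nat_lit 28036, nat_lit 10540, nat_lit 16372, nat_lit 14428, nat_lit 14752, nat_lit 15076, nat_lit 14860, nat_lit 14932, nat_lit 14908, nat_lit 14916] (nat_lit 3) [nat_lit 34596] false,
   Spec.mk (nat_lit 14916) (nat_lit 0) [nat_lit 28038, nat_lit 10542, nat_lit 16374, nat_lit 14430, nat_lit 14754, nat_lit 15078, nat_lit 14862, nat_lit 14934, nat_lit 14910, nat_lit 14922, nat_lit 14914] (nat_lit 2) [] false,
   Spec.mk (nat_lit 14922) (nat_lit 0) [nat_lit 28044, nat_lit 10548, nat_lit 16380, nat_lit 14436, nat_lit 14760, nat_lit 15084, nat_lit 14868, nat_lit 14940, nat_lit 14916] (nat_lit 3) [] false,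
   Spec.mk (nat_lit 14932) (nat_lit 0) [nat_lit 28054, nat_lit 10558, nat_lit 16390, nat_lit 14446, nat_lit 14770, nat_lit 15094, nat_lit 14878, nat_lit 14986, nat_lit 14914, nat_lit 14934] (nat_lit 2) [nat_lit 34614] false,
   Spec.mk (nat_lit 14934) (nat_lit 0) [nat_lit 28056, nat_lit 10560, nat_lit 16392, nat_lit 14448, nat_lit 14772, nat_lit 15096, nat_lit 14880, nat_lit 14988, nat_lit 14916, nat_lit 14940, nat_lit 14932] (nat_lit 2) [] false,
   Spec.mk (nat_lit 14940) (nat_lit 0) [nat_lit 28062, nat_lit 10566, nat_lit 16398, nat_lit 14454, nat_lit 14778, nat_lit 15102, nat_lit 14886, nat_lit 14994, nat_lit 14922, nat_lit 14958, nat_lit 14934] (nat_lit 1) [] false]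

noncomputable def sp41 : List Spec :=
  [Spec.mk (nat_lit 14958) (nat_lit 0) [nat_lit 28080, nat_lit 10584, nat_lit 16416, nat_lit 14472, nat_lit 14796, nat_lit 15120, nat_lit 15012, nat_lit 14940] (nat_lit 1) [] false,
   Spec.mk (nat_lit 14986) (nat_lit 0) [nat_lit 28108, nat_lit 10612, nat_lit 16444, nat_lit 14500, nat_lit 15148, nat_lit 14932, nat_lit 14988] (nat_lit 2) [nat_lit 34668] false,
   Spec.mk (nat_lit 14988) (nat_lit 0) [nat_lit 28110, nat_lit 10614, nat_lit 16446, nat_lit 14502, nat_lit 15150, nat_lit 14934, nat_lit 14994, nat_lit 14986] (nat_lit 2) [] false,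
   Spec.mk (nat_lit 14994) (nat_lit 0) [nat_lit 28116, nat_lit 10620, nat_lit 16452, nat_lit 14508, nat_lit 15156, nat_lit 14940, nat_lit 15012, nat_lit 14988] (nat_lit 2) [] false,
   Spec.mk (nat_lit 15012) (nat_lit 0) [nat_lit 28134, nat_lit 10638, nat_lit 16470, nat_lit 14526, nat_lit 15174, nat_lit 14958, nat_lit 14994] (nat_lit 0) [] false,
   Spec.mk (nat_lit 15068) (nat_lit 0) [nat_lit 28190, nat_lit 10694, nat_lit 16526, nat_lit 14906, nat_lit 15070] (nat_lit 2) [nat_lit 34750] false,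
   Spec.mk (nat_lit 15070) (nat_lit 0) [nat_lit 28192, nat_lit 10696, nat_lit 16528, nat_lit 14908, nat_lit 15076, nat_lit 15068, nat_lit 15072] (nat_lit 1) [nat_lit 34752] false,
   Spec.mk (nat_lit 15072) (nat_lit 0) [nat_lit 28194, nat_lit 10698, nat_lit 16530, nat_lit 14910, nat_lit 15078, nat_lit 15070] (nat_lit 2) [] false,
   Spec.mk (nat_lit 15076) (nat_lit 0) [nat_lit 28198, nat_lit 10702, nat_lit 16534, nat_lit 14914, nat_lit 15094, nat_lit 15070, nat_lit 15078] (nat_lit 2) [nat_lit 34758] false,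
   Spec.mk (nat_lit 15078) (nat_lit 0) [nat_lit 28200, nat_lit 10704, nat_lit 16536, nat_lit 14916, nat_lit 15096, nat_lit 15072, nat_lit 15084, nat_lit 15076] (nat_lit 1) [] false,
   Spec.mk (nat_lit 15084) (nat_lit 0) [nat_lit 28206, nat_lit 10710, nat_lit 16542, nat_lit 14922, nat_lit 15102, nat_lit 15078] (nat_lit 2) [] false,
   Spec.mk (nat_lit 15094) (nat_lit 0) [nat_lit 28216, nat_lit 10720, nat_lit 16552, nat_lit 14932, nat_lit 15148, nat_lit 15076, nat_lit 15096] (nat_lit 2) [nat_lit 34776] false,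
   Spec.mk (nat_lit 15096) (nat_lit 0) [nat_lit 28218, nat_lit 10722, nat_lit 16554, nat_lit 14934, nat_lit 15150, nat_lit 15078, nat_lit 15102, nat_lit 15094] (nat_lit 2) [] false,
   Spec.mk (nat_lit 15102) (nat_lit 0) [nat_lit 28224, nat_lit 10728, nat_lit 16560, nat_lit 14940, nat_lit 15156, nat_lit 15084, nat_lit 15120, nat_lit 15096] (nat_lit 1) [] false,
   Spec.mk (nat_lit 15120) (nat_lit 0) [nat_lit 28242, nat_lit 10746, nat_lit 16578, nat_lit 14958, nat_lit 15174, nat_lit 15102] (nat_lit 2) [] false,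
   Spec.mk (nat_lit 15148) (nat_lit 0) [nat_lit 28270, nat_lit 10774, nat_lit 16606, nat_lit 14986, nat_lit 15094, nat_lit 15150] (nat_lit 0) [nat_lit 34830] false,
   Spec.mk (nat_lit 15150) (nat_lit 0) [nat_lit 28272, nat_lit 10776, nat_lit 16608, nat_lit 14988, nat_lit 15096, nat_lit 15156, nat_lit 15148] (nat_lit 0) [] false,
   Spec.mk (nat_lit 15156) (nat_lit 0) [nat_lit 28278, nat_lit 10782, nat_lit 16614, nat_lit 14994, nat_lit 15102, nat_lit 15174, nat_lit 15150] (nat_lit 0) [] false,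
   Spec.mk (nat_lit 15174) (nat_lit 1) [nat_lit 28296, nat_lit 10800, nat_lit 16632, nat_lit 15012, nat_lit 15120, nat_lit 15228, nat_lit 15156] (nat_lit 0) [] false,
   Spec.mk (nat_lit 15228) (nat_lit 2) [nat_lit 28350, nat_lit 10854, nat_lit 16686, nat_lit 15174] (nat_lit 0) [] false,
   Spec.mk (nat_lit 15326) (nat_lit 2) [nat_lit 28448, nat_lit 10952, nat_lit 13868, nat_lit 15344, nat_lit 15332] (nat_lit 0) [nat_lit 35008] false,
   Spec.mk (nat_lit 15332) (nat_lit 0) [nat_lit 28454, nat_lit 10958, nat_lit 13874, nat_lit 15350, nat_lit 15326, nat_lit 15334] (nat_lit 0) [nat_lit 35014] false,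
   Spec.mk (nat_lit 15334) (nat_lit 2) [nat_lit 28456, nat_lit 10960, nat_lit 13876, nat_lit 15352, nat_lit 15332] (nat_lit 0) [nat_lit 35016] false,
   Spec.mk (nat_lit 15344) (nat_lit 0) [nat_lit 28466, nat_lit 10970, nat_lit 13886, nat_lit 15398, nat_lit 15326, nat_lit 15350] (nat_lit 0) [nat_lit 35026] false,
   Spec.mk (nat_lit 15350) (nat_lit 0) [nat_lit 28472, nat_lit 10976, nat_lit 13892, nat_lit 15404, nat_lit 15332, nat_lit 15368, nat_lit 15344, nat_lit 15356, nat_lit 15352] (nat_lit 0) [nat_lit 35032] false,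
   Spec.mk (nat_lit 15352) (nat_lit 1) [nat_lit 28474, nat_lit 10978, nat_lit 13894, nat_lit 15406, nat_lit 15334, nat_lit 15370, nat_lit 15358, nat_lit 15350] (nat_lit 0) [nat_lit 35034] false,
   Spec.mk (nat_lit 15356) (nat_lit 0) [nat_lit 28478, nat_lit 10982, nat_lit 13898, nat_lit 15410, nat_lit 15374, nat_lit 15350, nat_lit 15358] (nat_lit 2) [nat_lit 35038] false,
   Spec.mk (nat_lit 15358) (nat_lit 1) [nat_lit 28480, nat_lit 10984, nat_lit 13900, nat_lit 15412, nat_lit 15376, nat_lit 15352, nat_lit 15356, nat_lit 15360] (nat_lit 0) [nat_lit 35040] false,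
   Spec.mk (nat_lit 15360) (nat_lit 2) [nat_lit 28482, nat_lit 10986, nat_lit 13902, nat_lit 15414, nat_lit 15378, nat_lit 15358] (nat_lit 0) [] false,
   Spec.mk (nat_lit 15368) (nat_lit 0) [nat_lit 28490, nat_lit 10994, nat_lit 13910, nat_lit 15422, nat_lit 15350, nat_lit 15374, nat_lit 15370] (nat_lit 2) [nat_lit 35050] false,
   Spec.mk (nat_lit 15370) (nat_lit 0) [nat_lit 28492, nat_lit 10996, nat_lit 13912, nat_lit 15424, nat_lit 15352, nat_lit 15376, nat_lit 15368] (nat_lit 2) [nat_lit 35052] false,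
   Spec.mk (nat_lit 15374) (nat_lit 0) [nat_lit 28496, nat_lit 11000, nat_lit 13916, nat_lit 15428, nat_lit 15356, nat_lit 15368, nat_lit 15376] (nat_lit 2) [nat_lit 35056] false,
   Spec.mk (nat_lit 15376) (nat_lit 0) [nat_lit 28498, nat_lit 11002, nat_lit 13918, nat_lit 15430, nat_lit 15358, nat_lit 15370, nat_lit 15382, nat_lit 15374, nat_lit 15378] (nat_lit 0) [nat_lit 35058] false,
   Spec.mk (nat_lit 15378) (nat_lit 0) [nat_lit 28500, nat_lit 11004, nat_lit 13920, nat_lit 15432, nat_lit 15360, nat_lit 15384, nat_lit 15376] (nat_lit 0) [] false,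
   Spec.mk (nat_lit 15382) (nat_lit 0) [nat_lit 28504, nat_lit 11008, nat_lit 13924, nat_lit 15436, nat_lit 15376, nat_lit 15384] (nat_lit 0) [nat_lit 35064] false,
   Spec.mk (nat_lit 15384) (nat_lit 2) [nat_lit 28506, nat_lit 11010, nat_lit 13926, nat_lit 15438, nat_lit 15378, nat_lit 15382] (nat_lit 0) [] false,
   Spec.mk (nat_lit 15398) (nat_lit 0) [nat_lit 28520, nat_lit 11024, nat_lit 13940, nat_lit 15560, nat_lit 15344, nat_lit 15404] (nat_lit 0) [nat_lit 35080] false,
   Spec.mk (nat_lit 15404) (nat_lit 0) [nat_lit 28526, nat_lit 11030, nat_lit 13946, nat_lit 15566, nat_lit 15350, nat_lit 15422, nat_lit 15398, nat_lit 15410, nat_lit 15406] (nat_lit 1) [nat_lit 35086] false,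
   Spec.mk (nat_lit 15406) (nat_lit 0) [nat_lit 28528, nat_lit 11032, nat_lit 13948, nat_lit 15568, nat_lit 15352, nat_lit 15424, nat_lit 15412, nat_lit 15404] (nat_lit 0) [nat_lit 35088] false,
   Spec.mk (nat_lit 15410) (nat_lit 0) [nat_lit 28532, nat_lit 11036, nat_lit 13952, nat_lit 15572, nat_lit 15356, nat_lit 15428, nat_lit 15404, nat_lit 15412] (nat_lit 4) [nat_lit 35092] false,
   Spec.mk (nat_lit 15412) (nat_lit 0) [nat_lit 28534, nat_lit 11038, nat_lit 13954, nat_lit 15574, nat_lit 15358, nat_lit 15430, nat_lit 15406, nat_lit 15410, nat_lit 15414] (nat_lit 1) [nat_lit 35094] false,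
   Spec.mk (nat_lit 15414) (nat_lit 0) [nat_lit 28536, nat_lit 11040, nat_lit 13956, nat_lit 15576, nat_lit 15360, nat_lit 15432, nat_lit 15412] (nat_lit 0) [] false,
   Spec.mk (nat_lit 15422) (nat_lit 0) [nat_lit 28544, nat_lit 11048, nat_lit 13964, nat_lit 15584, nat_lit 15368, nat_lit 15476, nat_lit 15404, nat_lit 15428, nat_lit 15424] (nat_lit 1) [nat_lit 35104] false,
   Spec.mk (nat_lit 15424) (nat_lit 0) [nat_lit 28546, nat_lit 11050, nat_lit 13966, nat_lit 15586, nat_lit 15370, nat_lit 15478, nat_lit 15406, nat_lit 15430, nat_lit 15422] (nat_lit 1) [nat_lit 35106] false,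
   Spec.mk (nat_lit 15428) (nat_lit 0) [nat_lit 28550, nat_lit 11054, nat_lit 13970, nat_lit 15590, nat_lit 15374, nat_lit 15482, nat_lit 15410, nat_lit 15446, nat_lit 15422, nat_lit 15430] (nat_lit 2) [nat_lit 35110] false,
   Spec.mk (nat_lit 15430) (nat_lit 0) [nat_lit 28552, nat_lit 11056, nat_lit 13972, nat_lit 15592, nat_lit 15376, nat_lit 15484, nat_lit 15412, nat_lit 15448, nat_lit 15424, nat_lit 15436, nat_lit 15428, nat_lit 15432] (nat_lit 0) [nat_lit 35112] false,
   Spec.mk (nat_lit 15432) (nat_lit 0) [nat_lit 28554, nat_lit 11058, nat_lit 13974, nat_lit 15594, nat_lit 15378, nat_lit 15486, nat_lit 15414, nat_lit 15450, nat_lit 15438, nat_lit 15430] (nat_lit 0) [] false,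
   Spec.mk (nat_lit 15436) (nat_lit 0) [nat_lit 28558, nat_lit 11062, nat_lit 13978, nat_lit 15598, nat_lit 15382, nat_lit 15490, nat_lit 15454, nat_lit 15430, nat_lit 15438] (nat_lit 1) [nat_lit 35118] false,
   Spec.mk (nat_lit 15438) (nat_lit 1) [nat_lit 28560, nat_lit 11064, nat_lit 13980, nat_lit 15600, nat_lit 15384, nat_lit 15492, nat_lit 15456, nat_lit 15432, nat_lit 15436] (nat_lit 0) [] false,
   Spec.mk (nat_lit 15446) (nat_lit 0) [nat_lit 28568, nat_lit 11072, nat_lit 13988, nat_lit 15608, nat_lit 15500, nat_lit 15428, nat_lit 15448] (nat_lit 2) [nat_lit 35128] false,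
   Spec.mk (nat_lit 15448) (nat_lit 0) [nat_lit 28570, nat_lit 11074, nat_lit 13990, nat_lit 15610, nat_lit 15502, nat_lit 15430, nat_lit 15454, nat_lit 15446, nat_lit 15450] (nat_lit 1) [nat_lit 35130] false,
   Spec.mk (nat_lit 15450) (nat_lit 0) [nat_lit 28572, nat_lit 11076, nat_lit 13992, nat_lit 15612, nat_lit 15504, nat_lit 15432, nat_lit 15456, nat_lit 15448] (nat_lit 2) [] false,
   Spec.mk (nat_lit 15454) (nat_lit 0) [nat_lit 28576, nat_lit 11080, nat_lit 13996, nat_lit 15616, nat_lit 15508, nat_lit 15436, nat_lit 15448, nat_lit 15456] (nat_lit 0) [nat_lit 35136] false,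
   Spec.mk (nat_lit 15456) (nat_lit 1) [nat_lit 28578, nat_lit 11082, nat_lit 13998, nat_lit 15618, nat_lit 15510, nat_lit 15438, nat_lit 15450, nat_lit 15462, nat_lit 15454] (nat_lit 0) [] false,
   Spec.mk (nat_lit 15462) (nat_lit 2) [nat_lit 28584, nat_lit 11088, nat_lit 14004, nat_lit 15624, nat_lit 15516, nat_lit 15456] (nat_lit 0) [] false,
   Spec.mk (nat_lit 15476) (nat_lit 0) [nat_lit 28598, nat_lit 11102, nat_lit 14018, nat_lit 15638, nat_lit 15422, nat_lit 15482, nat_lit 15478] (nat_lit 2) [nat_lit 35158] false,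
   Spec.mk (nat_lit 15478) (nat_lit 0) [nat_lit 28600, nat_lit 11104, nat_lit 14020, nat_lit 15640, nat_lit 15424, nat_lit 15484, nat_lit 15476] (nat_lit 2) [nat_lit 35160] false,
   Spec.mk (nat_lit 15482) (nat_lit 0) [nat_lit 28604, nat_lit 11108, nat_lit 14024, nat_lit 15644, nat_lit 15428, nat_lit 15500, nat_lit 15476, nat_lit 15484] (nat_lit 4) [nat_lit 35164] false,
   Spec.mk (nat_lit 15484) (nat_lit 0) [nat_lit 28606, nat_lit 11110, nat_lit 14026, nat_lit 15646, nat_lit 15430, nat_lit 15502, nat_lit 15478, nat_lit 15490, nat_lit 15482, nat_lit 15486] (nat_lit 2) [nat_lit 35166] false,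
   Spec.mk (nat_lit 15486) (nat_lit 0) [nat_lit 28608, nat_lit 11112, nat_lit 14028, nat_lit 15648, nat_lit 15432, nat_lit 15504, nat_lit 15492, nat_lit 15484] (nat_lit 2) [] false]

noncomputable def sp42 : List Spec :=
  [Spec.mk (nat_lit 15490) (nat_lit 0) [nat_lit 28612, nat_lit 11116, nat_lit 14032, nat_lit 15652, nat_lit 15436, nat_lit 15508, nat_lit 15484, nat_lit 15492] (nat_lit 4) [nat_lit 35172] false,
   Spec.mk (nat_lit 15492) (nat_lit 0) [nat_lit 28614, nat_lit 11118, nat_lit 14034, nat_lit 15654, nat_lit 15438, nat_lit 15510, nat_lit 15486, nat_lit 15490] (nat_lit 2) [] false,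
   Spec.mk (nat_lit 15500) (nat_lit 0) [nat_lit 28622, nat_lit 11126, nat_lit 14042, nat_lit 15662, nat_lit 15446, nat_lit 15482, nat_lit 15502] (nat_lit 2) [nat_lit 35182] false,
   Spec.mk (nat_lit 15502) (nat_lit 0) [nat_lit 28624, nat_lit 11128, nat_lit 14044, nat_lit 15664, nat_lit 15448, nat_lit 15484, nat_lit 15508, nat_lit 15500, nat_lit 15504] (nat_lit 1) [nat_lit 35184] false,
   Spec.mk (nat_lit 15504) (nat_lit 0) [nat_lit 28626, nat_lit 11130, nat_lit 14046, nat_lit 15666, nat_lit 15450, nat_lit 15486, nat_lit 15510, nat_lit 15502] (nat_lit 2) [] false,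
   Spec.mk (nat_lit 15508) (nat_lit 0) [nat_lit 28630, nat_lit 11134, nat_lit 14050, nat_lit 15670, nat_lit 15454, nat_lit 15490, nat_lit 15526, nat_lit 15502, nat_lit 15510] (nat_lit 1) [nat_lit 35190] false,
   Spec.mk (nat_lit 15510) (nat_lit 0) [nat_lit 28632, nat_lit 11136, nat_lit 14052, nat_lit 15672, nat_lit 15456, nat_lit 15492, nat_lit 15528, nat_lit 15504, nat_lit 15516, nat_lit 15508] (nat_lit 0) [] false,
   Spec.mk (nat_lit 15516) (nat_lit 0) [nat_lit 28638, nat_lit 11142, nat_lit 14058, nat_lit 15678, nat_lit 15462, nat_lit 15534, nat_lit 15510] (nat_lit 0) [] false,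
   Spec.mk (nat_lit 15526) (nat_lit 0) [nat_lit 28648, nat_lit 11152, nat_lit 14068, nat_lit 15688, nat_lit 15508, nat_lit 15528] (nat_lit 0) [nat_lit 35208] false,
   Spec.mk (nat_lit 15528) (nat_lit 0) [nat_lit 28650, nat_lit 11154, nat_lit 14070, nat_lit 15690, nat_lit 15510, nat_lit 15534, nat_lit 15526] (nat_lit 0) [] false,
   Spec.mk (nat_lit 15534) (nat_lit 2) [nat_lit 28656, nat_lit 11160, nat_lit 14076, nat_lit 15696, nat_lit 15516, nat_lit 15528] (nat_lit 0) [] false,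
   Spec.mk (nat_lit 15560) (nat_lit 0) [nat_lit 28682, nat_lit 11186, nat_lit 14102, nat_lit 16046, nat_lit 15398, nat_lit 15566] (nat_lit 0) [nat_lit 35242] false,
   Spec.mk (nat_lit 15566) (nat_lit 0) [nat_lit 28688, nat_lit 11192, nat_lit 14108, nat_lit 16052, nat_lit 15404, nat_lit 15584, nat_lit 15560, nat_lit 15572, nat_lit 15568] (nat_lit 1) [nat_lit 35248] false,
   Spec.mk (nat_lit 15568) (nat_lit 0) [nat_lit 28690, nat_lit 11194, nat_lit 14110, nat_lit 16054, nat_lit 15406, nat_lit 15586, nat_lit 15574, nat_lit 15566] (nat_lit 0) [nat_lit 35250] false,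
   Spec.mk (nat_lit 15572) (nat_lit 0) [nat_lit 28694, nat_lit 11198, nat_lit 14114, nat_lit 16058, nat_lit 15410, nat_lit 15590, nat_lit 15566, nat_lit 15574] (nat_lit 4) [nat_lit 35254] false,
   Spec.mk (nat_lit 15574) (nat_lit 0) [nat_lit 28696, nat_lit 11200, nat_lit 14116, nat_lit 16060, nat_lit 15412, nat_lit 15592, nat_lit 15568, nat_lit 15572, nat_lit 15576] (nat_lit 1) [nat_lit 35256] false,
   Spec.mk (nat_lit 15576) (nat_lit 0) [nat_lit 28698, nat_lit 11202, nat_lit 14118, nat_lit 16062, nat_lit 15414, nat_lit 15594, nat_lit 15574] (nat_lit 0) [] false,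
   Spec.mk (nat_lit 15584) (nat_lit 0) [nat_lit 28706, nat_lit 11210, nat_lit 14126, nat_lit 16070, nat_lit 15422, nat_lit 15638, nat_lit 15566, nat_lit 15590, nat_lit 15586] (nat_lit 2) [nat_lit 35266] false,
   Spec.mk (nat_lit 15586) (nat_lit 0) [nat_lit 28708, nat_lit 11212, nat_lit 14128, nat_lit 16072, nat_lit 15424, nat_lit 15640, nat_lit 15568, nat_lit 15592, nat_lit 15584] (nat_lit 2) [nat_lit 35268] false,
   Spec.mk (nat_lit 15590) (nat_lit 0) [nat_lit 28712, nat_lit 11216, nat_lit 14132, nat_lit 16076, nat_lit 15428, nat_lit 15644, nat_lit 15572, nat_lit 15608, nat_lit 15584, nat_lit 15592] (nat_lit 3) [nat_lit 35272] false,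
   Spec.mk (nat_lit 15592) (nat_lit 0) [nat_lit 28714, nat_lit 11218, nat_lit 14134, nat_lit 16078, nat_lit 15430, nat_lit 15646, nat_lit 15574, nat_lit 15610, nat_lit 15586, nat_lit 15598, nat_lit 15590, nat_lit 15594] (nat_lit 1) [nat_lit 35274] false,
   Spec.mk (nat_lit 15594) (nat_lit 0) [nat_lit 28716, nat_lit 11220, nat_lit 14136, nat_lit 16080, nat_lit 15432, nat_lit 15648, nat_lit 15576, nat_lit 15612, nat_lit 15600, nat_lit 15592] (nat_lit 1) [] false,
   Spec.mk (nat_lit 15598) (nat_lit 0) [nat_lit 28720, nat_lit 11224, nat_lit 14140, nat_lit 16084, nat_lit 15436, nat_lit 15652, nat_lit 15616, nat_lit 15592, nat_lit 15600] (nat_lit 2) [nat_lit 35280] false,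
   Spec.mk (nat_lit 15600) (nat_lit 0) [nat_lit 28722, nat_lit 11226, nat_lit 14142, nat_lit 16086, nat_lit 15438, nat_lit 15654, nat_lit 15618, nat_lit 15594, nat_lit 15598] (nat_lit 0) [] false,
   Spec.mk (nat_lit 15608) (nat_lit 0) [nat_lit 28730, nat_lit 11234, nat_lit 14150, nat_lit 16094, nat_lit 15446, nat_lit 15662, nat_lit 15590, nat_lit 15610] (nat_lit 4) [nat_lit 35290] false,
   Spec.mk (nat_lit 15610) (nat_lit 0) [nat_lit 28732, nat_lit 11236, nat_lit 14152, nat_lit 16096, nat_lit 15448, nat_lit 15664, nat_lit 15592, nat_lit 15616, nat_lit 15608, nat_lit 15612] (nat_lit 3) [nat_lit 35292] false,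
   Spec.mk (nat_lit 15612) (nat_lit 0) [nat_lit 28734, nat_lit 11238, nat_lit 14154, nat_lit 16098, nat_lit 15450, nat_lit 15666, nat_lit 15594, nat_lit 15618, nat_lit 15610] (nat_lit 4) [] false,
   Spec.mk (nat_lit 15616) (nat_lit 0) [nat_lit 28738, nat_lit 11242, nat_lit 14158, nat_lit 16102, nat_lit 15454, nat_lit 15670, nat_lit 15598, nat_lit 15610, nat_lit 15618] (nat_lit 2) [nat_lit 35298] false,
   Spec.mk (nat_lit 15618) (nat_lit 0) [nat_lit 28740, nat_lit 11244, nat_lit 14160, nat_lit 16104, nat_lit 15456, nat_lit 15672, nat_lit 15600, nat_lit 15612, nat_lit 15624, nat_lit 15616] (nat_lit 1) [] false,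
   Spec.mk (nat_lit 15624) (nat_lit 0) [nat_lit 28746, nat_lit 11250, nat_lit 14166, nat_lit 16110, nat_lit 15462, nat_lit 15678, nat_lit 15618] (nat_lit 0) [] false,
   Spec.mk (nat_lit 15638) (nat_lit 0) [nat_lit 28760, nat_lit 11264, nat_lit 14180, nat_lit 16124, nat_lit 15476, nat_lit 15800, nat_lit 15584, nat_lit 15644, nat_lit 15640] (nat_lit 1) [nat_lit 35320] false,
   Spec.mk (nat_lit 15640) (nat_lit 0) [nat_lit 28762, nat_lit 11266, nat_lit 14182, nat_lit 16126, nat_lit 15478, nat_lit 15802, nat_lit 15586, nat_lit 15646, nat_lit 15638] (nat_lit 1) [nat_lit 35322] false,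
   Spec.mk (nat_lit 15644) (nat_lit 0) [nat_lit 28766, nat_lit 11270, nat_lit 14186, nat_lit 16130, nat_lit 15482, nat_lit 15806, nat_lit 15590, nat_lit 15662, nat_lit 15638, nat_lit 15646] (nat_lit 3) [nat_lit 35326] false,
   Spec.mk (nat_lit 15646) (nat_lit 0) [nat_lit 28768, nat_lit 11272, nat_lit 14188, nat_lit 16132, nat_lit 15484, nat_lit 15808, nat_lit 15592, nat_lit 15664, nat_lit 15640, nat_lit 15652, nat_lit 15644, nat_lit 15648] (nat_lit 1) [nat_lit 35328] false,
   Spec.mk (nat_lit 15648) (nat_lit 0) [nat_lit 28770, nat_lit 11274, nat_lit 14190, nat_lit 16134, nat_lit 15486, nat_lit 15810, nat_lit 15594, nat_lit 15666, nat_lit 15654, nat_lit 15646] (nat_lit 1) [] false,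
   Spec.mk (nat_lit 15652) (nat_lit 0) [nat_lit 28774, nat_lit 11278, nat_lit 14194, nat_lit 16138, nat_lit 15490, nat_lit 15814, nat_lit 15598, nat_lit 15670, nat_lit 15646, nat_lit 15654] (nat_lit 3) [nat_lit 35334] false,
   Spec.mk (nat_lit 15654) (nat_lit 0) [nat_lit 28776, nat_lit 11280, nat_lit 14196, nat_lit 16140, nat_lit 15492, nat_lit 15816, nat_lit 15600, nat_lit 15672, nat_lit 15648, nat_lit 15652] (nat_lit 1) [] false,
   Spec.mk (nat_lit 15662) (nat_lit 0) [nat_lit 28784, nat_lit 11288, nat_lit 14204, nat_lit 16148, nat_lit 15500, nat_lit 15824, nat_lit 15608, nat_lit 15716, nat_lit 15644, nat_lit 15664] (nat_lit 2) [nat_lit 35344] false,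
   Spec.mk (nat_lit 15664) (nat_lit 0) [nat_lit 28786, nat_lit 11290, nat_lit 14206, nat_lit 16150, nat_lit 15502, nat_lit 15826, nat_lit 15610, nat_lit 15718, nat_lit 15646, nat_lit 15670, nat_lit 15662, nat_lit 15666] (nat_lit 1) [nat_lit 35346] false,
   Spec.mk (nat_lit 15666) (nat_lit 0) [nat_lit 28788, nat_lit 11292, nat_lit 14208, nat_lit 16152, nat_lit 15504, nat_lit 15828, nat_lit 15612, nat_lit 15720, nat_lit 15648, nat_lit 15672, nat_lit 15664] (nat_lit 2) [] false,
   Spec.mk (nat_lit 15670) (nat_lit 0) [nat_lit 28792, nat_lit 11296, nat_lit 14212, nat_lit 16156, nat_lit 15508, nat_lit 15832, nat_lit 15616, nat_lit 15724, nat_lit 15652, nat_lit 15688, nat_lit 15664, nat_lit 15672] (nat_lit 1) [nat_lit 35352] false,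
   Spec.mk (nat_lit 15672) (nat_lit 0) [nat_lit 28794, nat_lit 11298, nat_lit 14214, nat_lit 16158, nat_lit 15510, nat_lit 15834, nat_lit 15618, nat_lit 15726, nat_lit 15654, nat_lit 15690, nat_lit 15666, nat_lit 15678, nat_lit 15670] (nat_lit 0) [] false,
   Spec.mk (nat_lit 15678) (nat_lit 0) [nat_lit 28800, nat_lit 11304, nat_lit 14220, nat_lit 16164, nat_lit 15516, nat_lit 15840, nat_lit 15624, nat_lit 15732, nat_lit 15696, nat_lit 15672] (nat_lit 0) [] false,
   Spec.mk (nat_lit 15688) (nat_lit 0) [nat_lit 28810, nat_lit 11314, nat_lit 14230, nat_lit 16174, nat_lit 15526, nat_lit 15850, nat_lit 15742, nat_lit 15670, nat_lit 15690] (nat_lit 1) [nat_lit 35370] false,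
   Spec.mk (nat_lit 15690) (nat_lit 0) [nat_lit 28812, nat_lit 11316, nat_lit 14232, nat_lit 16176, nat_lit 15528, nat_lit 15852, nat_lit 15744, nat_lit 15672, nat_lit 15696, nat_lit 15688] (nat_lit 1) [] false,
   Spec.mk (nat_lit 15696) (nat_lit 1) [nat_lit 28818, nat_lit 11322, nat_lit 14238, nat_lit 16182, nat_lit 15534, nat_lit 15858, nat_lit 15750, nat_lit 15678, nat_lit 15690] (nat_lit 0) [] false,
   Spec.mk (nat_lit 15716) (nat_lit 0) [nat_lit 28838, nat_lit 11342, nat_lit 14258, nat_lit 16202, nat_lit 15878, nat_lit 15662, nat_lit 15718] (nat_lit 2) [nat_lit 35398] false,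
   Spec.mk (nat_lit 15718) (nat_lit 0) [nat_lit 28840, nat_lit 11344, nat_lit 14260, nat_lit 16204, nat_lit 15880, nat_lit 15664, nat_lit 15724, nat_lit 15716, nat_lit 15720] (nat_lit 1) [nat_lit 35400] false,
   Spec.mk (nat_lit 15720) (nat_lit 0) [nat_lit 28842, nat_lit 11346, nat_lit 14262, nat_lit 16206, nat_lit 15882, nat_lit 15666, nat_lit 15726, nat_lit 15718] (nat_lit 2) [] false,
   Spec.mk (nat_lit 15724) (nat_lit 0) [nat_lit 28846, nat_lit 11350, nat_lit 14266, nat_lit 16210, nat_lit 15886, nat_lit 15670, nat_lit 15742, nat_lit 15718, nat_lit 15726] (nat_lit 2) [nat_lit 35406] false,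
   Spec.mk (nat_lit 15726) (nat_lit 0) [nat_lit 28848, nat_lit 11352, nat_lit 14268, nat_lit 16212, nat_lit 15888, nat_lit 15672, nat_lit 15744, nat_lit 15720, nat_lit 15732, nat_lit 15724] (nat_lit 1) [] false,
   Spec.mk (nat_lit 15732) (nat_lit 0) [nat_lit 28854, nat_lit 11358, nat_lit 14274, nat_lit 16218, nat_lit 15894, nat_lit 15678, nat_lit 15750, nat_lit 15726] (nat_lit 2) [] false,
   Spec.mk (nat_lit 15742) (nat_lit 0) [nat_lit 28864, nat_lit 11368, nat_lit 14284, nat_lit 16228, nat_lit 15904, nat_lit 15688, nat_lit 15724, nat_lit 15744] (nat_lit 0) [nat_lit 35424] false,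
   Spec.mk (nat_lit 15744) (nat_lit 0) [nat_lit 28866, nat_lit 11370, nat_lit 14286, nat_lit 16230, nat_lit 15906, nat_lit 15690, nat_lit 15726, nat_lit 15750, nat_lit 15742] (nat_lit 0) [] false,
   Spec.mk (nat_lit 15750) (nat_lit 1) [nat_lit 28872, nat_lit 11376, nat_lit 14292, nat_lit 16236, nat_lit 15912, nat_lit 15696, nat_lit 15732, nat_lit 15768, nat_lit 15744] (nat_lit 0) [] false,
   Spec.mk (nat_lit 15768) (nat_lit 2) [nat_lit 28890, nat_lit 11394, nat_lit 14310, nat_lit 16254, nat_lit 15930, nat_lit 15750] (nat_lit 0) [] false,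
   Spec.mk (nat_lit 15800) (nat_lit 0) [nat_lit 28922, nat_lit 11426, nat_lit 14342, nat_lit 16286, nat_lit 15638, nat_lit 15806, nat_lit 15802] (nat_lit 2) [nat_lit 35482] false,
   Spec.mk (nat_lit 15802) (nat_lit 0) [nat_lit 28924, nat_lit 11428, nat_lit 14344, nat_lit 16288, nat_lit 15640, nat_lit 15808, nat_lit 15800] (nat_lit 2) [nat_lit 35484] false,
   Spec.mk (nat_lit 15806) (nat_lit 0) [nat_lit 28928, nat_lit 11432, nat_lit 14348, nat_lit 16292, nat_lit 15644, nat_lit 15824, nat_lit 15800, nat_lit 15808] (nat_lit 4) [nat_lit 35488] false,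
   Spec.mk (nat_lit 15808) (nat_lit 0) [nat_lit 28930, nat_lit 11434, nat_lit 14350, nat_lit 16294, nat_lit 15646, nat_lit 15826, nat_lit 15802, nat_lit 15814, nat_lit 15806, nat_lit 15810] (nat_lit 2) [nat_lit 35490] false]

noncomputable def sp43 : List Spec :=
  [Spec.mk (nat_lit 15810) (nat_lit 0) [nat_lit 28932, nat_lit 11436, nat_lit 14352, nat_lit 16296, nat_lit 15648, nat_lit 15828, nat_lit 15816, nat_lit 15808] (nat_lit 2) [] false,
   Spec.mk (nat_lit 15814) (nat_lit 0) [nat_lit 28936, nat_lit 11440, nat_lit 14356, nat_lit 16300, nat_lit 15652, nat_lit 15832, nat_lit 15808, nat_lit 15816] (nat_lit 4) [nat_lit 35496] false,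
   Spec.mk (nat_lit 15816) (nat_lit 0) [nat_lit 28938, nat_lit 11442, nat_lit 14358, nat_lit 16302, nat_lit 15654, nat_lit 15834, nat_lit 15810, nat_lit 15814] (nat_lit 2) [] false,
   Spec.mk (nat_lit 15824) (nat_lit 0) [nat_lit 28946, nat_lit 11450, nat_lit 14366, nat_lit 16310, nat_lit 15662, nat_lit 15878, nat_lit 15806, nat_lit 15826] (nat_lit 4) [nat_lit 35506] false,
   Spec.mk (nat_lit 15826) (nat_lit 0) [nat_lit 28948, nat_lit 11452, nat_lit 14368, nat_lit 16312, nat_lit 15664, nat_lit 15880, nat_lit 15808, nat_lit 15832, nat_lit 15824, nat_lit 15828] (nat_lit 3) [nat_lit 35508] false,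
   Spec.mk (nat_lit 15828) (nat_lit 0) [nat_lit 28950, nat_lit 11454, nat_lit 14370, nat_lit 16314, nat_lit 15666, nat_lit 15882, nat_lit 15810, nat_lit 15834, nat_lit 15826] (nat_lit 4) [] false,
   Spec.mk (nat_lit 15832) (nat_lit 0) [nat_lit 28954, nat_lit 11458, nat_lit 14374, nat_lit 16318, nat_lit 15670, nat_lit 15886, nat_lit 15814, nat_lit 15850, nat_lit 15826, nat_lit 15834] (nat_lit 3) [nat_lit 35514] false,
   Spec.mk (nat_lit 15834) (nat_lit 0) [nat_lit 28956, nat_lit 11460, nat_lit 14376, nat_lit 16320, nat_lit 15672, nat_lit 15888, nat_lit 15816, nat_lit 15852, nat_lit 15828, nat_lit 15840, nat_lit 15832] (nat_lit 2) [] false,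
   Spec.mk (nat_lit 15840) (nat_lit 0) [nat_lit 28962, nat_lit 11466, nat_lit 14382, nat_lit 16326, nat_lit 15678, nat_lit 15894, nat_lit 15858, nat_lit 15834] (nat_lit 2) [] false,
   Spec.mk (nat_lit 15850) (nat_lit 0) [nat_lit 28972, nat_lit 11476, nat_lit 14392, nat_lit 16336, nat_lit 15688, nat_lit 15904, nat_lit 15832, nat_lit 15852] (nat_lit 4) [nat_lit 35532] false,
   Spec.mk (nat_lit 15852) (nat_lit 0) [nat_lit 28974, nat_lit 11478, nat_lit 14394, nat_lit 16338, nat_lit 15690, nat_lit 15906, nat_lit 15834, nat_lit 15858, nat_lit 15850] (nat_lit 4) [] false,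
   Spec.mk (nat_lit 15858) (nat_lit 0) [nat_lit 28980, nat_lit 11484, nat_lit 14400, nat_lit 16344, nat_lit 15696, nat_lit 15912, nat_lit 15840, nat_lit 15852] (nat_lit 2) [] false,
   Spec.mk (nat_lit 15878) (nat_lit 0) [nat_lit 29000, nat_lit 11504, nat_lit 14420, nat_lit 16364, nat_lit 15716, nat_lit 15824, nat_lit 15880] (nat_lit 2) [nat_lit 35560] false,
   Spec.mk (nat_lit 15880) (nat_lit 0) [nat_lit 29002, nat_lit 11506, nat_lit 14422, nat_lit 16366, nat_lit 15718, nat_lit 15826, nat_lit 15886, nat_lit 15878, nat_lit 15882] (nat_lit 1) [nat_lit 35562] false,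
   Spec.mk (nat_lit 15882) (nat_lit 0) [nat_lit 29004, nat_lit 11508, nat_lit 14424, nat_lit 16368, nat_lit 15720, nat_lit 15828, nat_lit 15888, nat_lit 15880] (nat_lit 2) [] false,
   Spec.mk (nat_lit 15886) (nat_lit 0) [nat_lit 29008, nat_lit 11512, nat_lit 14428, nat_lit 16372, nat_lit 15724, nat_lit 15832, nat_lit 15904, nat_lit 15880, nat_lit 15888] (nat_lit 2) [nat_lit 35568] false,
   Spec.mk (nat_lit 15888) (nat_lit 0) [nat_lit 29010, nat_lit 11514, nat_lit 14430, nat_lit 16374, nat_lit 15726, nat_lit 15834, nat_lit 15906, nat_lit 15882, nat_lit 15894, nat_lit 15886] (nat_lit 1) [] false,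
   Spec.mk (nat_lit 15894) (nat_lit 0) [nat_lit 29016, nat_lit 11520, nat_lit 14436, nat_lit 16380, nat_lit 15732, nat_lit 15840, nat_lit 15912, nat_lit 15888] (nat_lit 2) [] false,
   Spec.mk (nat_lit 15904) (nat_lit 0) [nat_lit 29026, nat_lit 11530, nat_lit 14446, nat_lit 16390, nat_lit 15742, nat_lit 15850, nat_lit 15958, nat_lit 15886, nat_lit 15906] (nat_lit 1) [nat_lit 35586] false,
   Spec.mk (nat_lit 15906) (nat_lit 0) [nat_lit 29028, nat_lit 11532, nat_lit 14448, nat_lit 16392, nat_lit 15744, nat_lit 15852, nat_lit 15960, nat_lit 15888, nat_lit 15912, nat_lit 15904] (nat_lit 1) [] false,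
   Spec.mk (nat_lit 15912) (nat_lit 0) [nat_lit 29034, nat_lit 11538, nat_lit 14454, nat_lit 16398, nat_lit 15750, nat_lit 15858, nat_lit 15966, nat_lit 15894, nat_lit 15930, nat_lit 15906] (nat_lit 0) [] false,
   Spec.mk (nat_lit 15930) (nat_lit 0) [nat_lit 29052, nat_lit 11556, nat_lit 14472, nat_lit 16416, nat_lit 15768, nat_lit 15984, nat_lit 15912] (nat_lit 0) [] false,
   Spec.mk (nat_lit 15958) (nat_lit 0) [nat_lit 29080, nat_lit 11584, nat_lit 14500, nat_lit 16444, nat_lit 15904, nat_lit 15960] (nat_lit 0) [nat_lit 35640] false,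
   Spec.mk (nat_lit 15960) (nat_lit 0) [nat_lit 29082, nat_lit 11586, nat_lit 14502, nat_lit 16446, nat_lit 15906, nat_lit 15966, nat_lit 15958] (nat_lit 0) [] false,
   Spec.mk (nat_lit 15966) (nat_lit 0) [nat_lit 29088, nat_lit 11592, nat_lit 14508, nat_lit 16452, nat_lit 15912, nat_lit 15984, nat_lit 15960] (nat_lit 0) [] false,
   Spec.mk (nat_lit 15984) (nat_lit 2) [nat_lit 29106, nat_lit 11610, nat_lit 14526, nat_lit 16470, nat_lit 15930, nat_lit 15966] (nat_lit 0) [] false,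
   Spec.mk (nat_lit 16046) (nat_lit 1) [nat_lit 29168, nat_lit 11672, nat_lit 14588, nat_lit 17504, nat_lit 15560, nat_lit 16052] (nat_lit 0) [nat_lit 35728] false,
   Spec.mk (nat_lit 16052) (nat_lit 0) [nat_lit 29174, nat_lit 11678, nat_lit 14594, nat_lit 17510, nat_lit 15566, nat_lit 16070, nat_lit 16046, nat_lit 16058, nat_lit 16054] (nat_lit 0) [nat_lit 35734] false,
   Spec.mk (nat_lit 16054) (nat_lit 1) [nat_lit 29176, nat_lit 11680, nat_lit 14596, nat_lit 17512, nat_lit 15568, nat_lit 16072, nat_lit 16060, nat_lit 16052] (nat_lit 0) [nat_lit 35736] false,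
   Spec.mk (nat_lit 16058) (nat_lit 0) [nat_lit 29180, nat_lit 11684, nat_lit 14600, nat_lit 17516, nat_lit 15572, nat_lit 16076, nat_lit 16052, nat_lit 16060] (nat_lit 3) [nat_lit 35740] false,
   Spec.mk (nat_lit 16060) (nat_lit 0) [nat_lit 29182, nat_lit 11686, nat_lit 14602, nat_lit 17518, nat_lit 15574, nat_lit 16078, nat_lit 16054, nat_lit 16058, nat_lit 16062] (nat_lit 0) [nat_lit 35742] false,
   Spec.mk (nat_lit 16062) (nat_lit 1) [nat_lit 29184, nat_lit 11688, nat_lit 14604, nat_lit 17520, nat_lit 15576, nat_lit 16080, nat_lit 16060] (nat_lit 0) [] false,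
   Spec.mk (nat_lit 16070) (nat_lit 0) [nat_lit 29192, nat_lit 11696, nat_lit 14612, nat_lit 17528, nat_lit 15584, nat_lit 16124, nat_lit 16052, nat_lit 16076, nat_lit 16072] (nat_lit 1) [nat_lit 35752] false,
   Spec.mk (nat_lit 16072) (nat_lit 0) [nat_lit 29194, nat_lit 11698, nat_lit 14614, nat_lit 17530, nat_lit 15586, nat_lit 16126, nat_lit 16054, nat_lit 16078, nat_lit 16070] (nat_lit 1) [nat_lit 35754] false,
   Spec.mk (nat_lit 16076) (nat_lit 0) [nat_lit 29198, nat_lit 11702, nat_lit 14618, nat_lit 17534, nat_lit 15590, nat_lit 16130, nat_lit 16058, nat_lit 16094, nat_lit 16070, nat_lit 16078] (nat_lit 2) [nat_lit 35758] false,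
   Spec.mk (nat_lit 16078) (nat_lit 0) [nat_lit 29200, nat_lit 11704, nat_lit 14620, nat_lit 17536, nat_lit 15592, nat_lit 16132, nat_lit 16060, nat_lit 16096, nat_lit 16072, nat_lit 16084, nat_lit 16076, nat_lit 16080] (nat_lit 0) [nat_lit 35760] false,
   Spec.mk (nat_lit 16080) (nat_lit 0) [nat_lit 29202, nat_lit 11706, nat_lit 14622, nat_lit 17538, nat_lit 15594, nat_lit 16134, nat_lit 16062, nat_lit 16098, nat_lit 16086, nat_lit 16078] (nat_lit 0) [] false,
   Spec.mk (nat_lit 16084) (nat_lit 0) [nat_lit 29206, nat_lit 11710, nat_lit 14626, nat_lit 17542, nat_lit 15598, nat_lit 16138, nat_lit 16102, nat_lit 16078, nat_lit 16086] (nat_lit 1) [nat_lit 35766] false,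
   Spec.mk (nat_lit 16086) (nat_lit 1) [nat_lit 29208, nat_lit 11712, nat_lit 14628, nat_lit 17544, nat_lit 15600, nat_lit 16140, nat_lit 16104, nat_lit 16080, nat_lit 16084] (nat_lit 0) [] false,
   Spec.mk (nat_lit 16094) (nat_lit 0) [nat_lit 29216, nat_lit 11720, nat_lit 14636, nat_lit 17552, nat_lit 15608, nat_lit 16148, nat_lit 16076, nat_lit 16096] (nat_lit 3) [nat_lit 35776] false,
   Spec.mk (nat_lit 16096) (nat_lit 0) [nat_lit 29218, nat_lit 11722, nat_lit 14638, nat_lit 17554, nat_lit 15610, nat_lit 16150, nat_lit 16078, nat_lit 16102, nat_lit 16094, nat_lit 16098] (nat_lit 2) [nat_lit 35778] false,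
   Spec.mk (nat_lit 16098) (nat_lit 0) [nat_lit 29220, nat_lit 11724, nat_lit 14640, nat_lit 17556, nat_lit 15612, nat_lit 16152, nat_lit 16080, nat_lit 16104, nat_lit 16096] (nat_lit 3) [] false,
   Spec.mk (nat_lit 16102) (nat_lit 0) [nat_lit 29224, nat_lit 11728, nat_lit 14644, nat_lit 17560, nat_lit 15616, nat_lit 16156, nat_lit 16084, nat_lit 16096, nat_lit 16104] (nat_lit 1) [nat_lit 35784] false,
   Spec.mk (nat_lit 16104) (nat_lit 0) [nat_lit 29226, nat_lit 11730, nat_lit 14646, nat_lit 17562, nat_lit 15618, nat_lit 16158, nat_lit 16086, nat_lit 16098, nat_lit 16110, nat_lit 16102] (nat_lit 0) [] false,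
   Spec.mk (nat_lit 16110) (nat_lit 1) [nat_lit 29232, nat_lit 11736, nat_lit 14652, nat_lit 17568, nat_lit 15624, nat_lit 16164, nat_lit 16104] (nat_lit 0) [] false,
   Spec.mk (nat_lit 16124) (nat_lit 0) [nat_lit 29246, nat_lit 11750, nat_lit 14666, nat_lit 17582, nat_lit 15638, nat_lit 16286, nat_lit 16070, nat_lit 16130, nat_lit 16126] (nat_lit 1) [nat_lit 35806] false,
   Spec.mk (nat_lit 16126) (nat_lit 0) [nat_lit 29248, nat_lit 11752, nat_lit 14668, nat_lit 17584, nat_lit 15640, nat_lit 16288, nat_lit 16072, nat_lit 16132, nat_lit 16124] (nat_lit 1) [nat_lit 35808] false,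
   Spec.mk (nat_lit 16130) (nat_lit 0) [nat_lit 29252, nat_lit 11756, nat_lit 14672, nat_lit 17588, nat_lit 15644, nat_lit 16292, nat_lit 16076, nat_lit 16148, nat_lit 16124, nat_lit 16132] (nat_lit 3) [nat_lit 35812] false,
   Spec.mk (nat_lit 16132) (nat_lit 0) [nat_lit 29254, nat_lit 11758, nat_lit 14674, nat_lit 17590, nat_lit 15646, nat_lit 16294, nat_lit 16078, nat_lit 16150, nat_lit 16126, nat_lit 16138, nat_lit 16130, nat_lit 16134] (nat_lit 1) [nat_lit 35814] false,
   Spec.mk (nat_lit 16134) (nat_lit 0) [nat_lit 29256, nat_lit 11760, nat_lit 14676, nat_lit 17592, nat_lit 15648, nat_lit 16296, nat_lit 16080, nat_lit 16152, nat_lit 16140, nat_lit 16132] (nat_lit 1) [] false,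
   Spec.mk (nat_lit 16138) (nat_lit 0) [nat_lit 29260, nat_lit 11764, nat_lit 14680, nat_lit 17596, nat_lit 15652, nat_lit 16300, nat_lit 16084, nat_lit 16156, nat_lit 16132, nat_lit 16140] (nat_lit 3) [nat_lit 35820] false,
   Spec.mk (nat_lit 16140) (nat_lit 0) [nat_lit 29262, nat_lit 11766, nat_lit 14682, nat_lit 17598, nat_lit 15654, nat_lit 16302, nat_lit 16086, nat_lit 16158, nat_lit 16134, nat_lit 16138] (nat_lit 1) [] false,
   Spec.mk (nat_lit 16148) (nat_lit 0) [nat_lit 29270, nat_lit 11774, nat_lit 14690, nat_lit 17606, nat_lit 15662, nat_lit 16310, nat_lit 16094, nat_lit 16202, nat_lit 16130, nat_lit 16150] (nat_lit 2) [nat_lit 35830] false,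
   Spec.mk (nat_lit 16150) (nat_lit 0) [nat_lit 29272, nat_lit 11776, nat_lit 14692, nat_lit 17608, nat_lit 15664, nat_lit 16312, nat_lit 16096, nat_lit 16204, nat_lit 16132, nat_lit 16156, nat_lit 16148, nat_lit 16152] (nat_lit 1) [nat_lit 35832] false,
   Spec.mk (nat_lit 16152) (nat_lit 0) [nat_lit 29274, nat_lit 11778, nat_lit 14694, nat_lit 17610, nat_lit 15666, nat_lit 16314, nat_lit 16098, nat_lit 16206, nat_lit 16134, nat_lit 16158, nat_lit 16150] (nat_lit 2) [] false,
   Spec.mk (nat_lit 16156) (nat_lit 0) [nat_lit 29278, nat_lit 11782, nat_lit 14698, nat_lit 17614, nat_lit 15670, nat_lit 16318, nat_lit 16102, nat_lit 16210, nat_lit 16138, nat_lit 16174, nat_lit 16150, nat_lit 16158] (nat_lit 1) [nat_lit 35838] false,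
   Spec.mk (nat_lit 16158) (nat_lit 0) [nat_lit 29280, nat_lit 11784, nat_lit 14700, nat_lit 17616, nat_lit 15672, nat_lit 16320, nat_lit 16104, nat_lit 16212, nat_lit 16140, nat_lit 16176, nat_lit 16152, nat_lit 16164, nat_lit 16156] (nat_lit 0) [] false,
   Spec.mk (nat_lit 16164) (nat_lit 0) [nat_lit 29286, nat_lit 11790, nat_lit 14706, nat_lit 17622, nat_lit 15678, nat_lit 16326, nat_lit 16110, nat_lit 16218, nat_lit 16182, nat_lit 16158] (nat_lit 0) [] false,
   Spec.mk (nat_lit 16174) (nat_lit 0) [nat_lit 29296, nat_lit 11800, nat_lit 14716, nat_lit 17632, nat_lit 15688, nat_lit 16336, nat_lit 16228, nat_lit 16156, nat_lit 16176] (nat_lit 1) [nat_lit 35856] false,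
   Spec.mk (nat_lit 16176) (nat_lit 0) [nat_lit 29298, nat_lit 11802, nat_lit 14718, nat_lit 17634, nat_lit 15690, nat_lit 16338, nat_lit 16230, nat_lit 16158, nat_lit 16182, nat_lit 16174] (nat_lit 1) [] false]

noncomputable def sp44 : List Spec :=
  [Spec.mk (nat_lit 16182) (nat_lit 1) [nat_lit 29304, nat_lit 11808, nat_lit 14724, nat_lit 17640, nat_lit 15696, nat_lit 16344, nat_lit 16236, nat_lit 16164, nat_lit 16176] (nat_lit 0) [] false,
   Spec.mk (nat_lit 16202) (nat_lit 0) [nat_lit 29324, nat_lit 11828, nat_lit 14744, nat_lit 17660, nat_lit 15716, nat_lit 16364, nat_lit 16148, nat_lit 16204] (nat_lit 3) [nat_lit 35884] false,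
   Spec.mk (nat_lit 16204) (nat_lit 0) [nat_lit 29326, nat_lit 11830, nat_lit 14746, nat_lit 17662, nat_lit 15718, nat_lit 16366, nat_lit 16150, nat_lit 16210, nat_lit 16202, nat_lit 16206] (nat_lit 2) [nat_lit 35886] false,
   Spec.mk (nat_lit 16206) (nat_lit 0) [nat_lit 29328, nat_lit 11832, nat_lit 14748, nat_lit 17664, nat_lit 15720, nat_lit 16368, nat_lit 16152, nat_lit 16212, nat_lit 16204] (nat_lit 3) [] false,
   Spec.mk (nat_lit 16210) (nat_lit 0) [nat_lit 29332, nat_lit 11836, nat_lit 14752, nat_lit 17668, nat_lit 15724, nat_lit 16372, nat_lit 16156, nat_lit 16228, nat_lit 16204, nat_lit 16212] (nat_lit 3) [nat_lit 35892] false,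
   Spec.mk (nat_lit 16212) (nat_lit 0) [nat_lit 29334, nat_lit 11838, nat_lit 14754, nat_lit 17670, nat_lit 15726, nat_lit 16374, nat_lit 16158, nat_lit 16230, nat_lit 16206, nat_lit 16218, nat_lit 16210] (nat_lit 2) [] false,
   Spec.mk (nat_lit 16218) (nat_lit 0) [nat_lit 29340, nat_lit 11844, nat_lit 14760, nat_lit 17676, nat_lit 15732, nat_lit 16380, nat_lit 16164, nat_lit 16236, nat_lit 16212] (nat_lit 3) [] false,
   Spec.mk (nat_lit 16228) (nat_lit 0) [nat_lit 29350, nat_lit 11854, nat_lit 14770, nat_lit 17686, nat_lit 15742, nat_lit 16390, nat_lit 16174, nat_lit 16210, nat_lit 16230] (nat_lit 1) [nat_lit 35910] false,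
   Spec.mk (nat_lit 16230) (nat_lit 0) [nat_lit 29352, nat_lit 11856, nat_lit 14772, nat_lit 17688, nat_lit 15744, nat_lit 16392, nat_lit 16176, nat_lit 16212, nat_lit 16236, nat_lit 16228] (nat_lit 1) [] false,
   Spec.mk (nat_lit 16236) (nat_lit 0) [nat_lit 29358, nat_lit 11862, nat_lit 14778, nat_lit 17694, nat_lit 15750, nat_lit 16398, nat_lit 16182, nat_lit 16218, nat_lit 16254, nat_lit 16230] (nat_lit 0) [] false,
   Spec.mk (nat_lit 16254) (nat_lit 1) [nat_lit 29376, nat_lit 11880, nat_lit 14796, nat_lit 17712, nat_lit 15768, nat_lit 16416, nat_lit 16236] (nat_lit 0) [] false,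
   Spec.mk (nat_lit 16286) (nat_lit 0) [nat_lit 29408, nat_lit 11912, nat_lit 14828, nat_lit 17744, nat_lit 15800, nat_lit 16772, nat_lit 16124, nat_lit 16292, nat_lit 16288] (nat_lit 0) [nat_lit 35968] false,
   Spec.mk (nat_lit 16288) (nat_lit 0) [nat_lit 29410, nat_lit 11914, nat_lit 14830, nat_lit 17746, nat_lit 15802, nat_lit 16774, nat_lit 16126, nat_lit 16294, nat_lit 16286] (nat_lit 0) [nat_lit 35970] false,
   Spec.mk (nat_lit 16292) (nat_lit 0) [nat_lit 29414, nat_lit 11918, nat_lit 14834, nat_lit 17750, nat_lit 15806, nat_lit 16778, nat_lit 16130, nat_lit 16310, nat_lit 16286, nat_lit 16294] (nat_lit 2) [nat_lit 35974] false,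
   Spec.mk (nat_lit 16294) (nat_lit 0) [nat_lit 29416, nat_lit 11920, nat_lit 14836, nat_lit 17752, nat_lit 15808, nat_lit 16780, nat_lit 16132, nat_lit 16312, nat_lit 16288, nat_lit 16300, nat_lit 16292, nat_lit 16296] (nat_lit 0) [nat_lit 35976] false,
   Spec.mk (nat_lit 16296) (nat_lit 0) [nat_lit 29418, nat_lit 11922, nat_lit 14838, nat_lit 17754, nat_lit 15810, nat_lit 16782, nat_lit 16134, nat_lit 16314, nat_lit 16302, nat_lit 16294] (nat_lit 0) [] false,
   Spec.mk (nat_lit 16300) (nat_lit 0) [nat_lit 29422, nat_lit 11926, nat_lit 14842, nat_lit 17758, nat_lit 15814, nat_lit 16786, nat_lit 16138, nat_lit 16318, nat_lit 16294, nat_lit 16302] (nat_lit 2) [nat_lit 35982] false,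
   Spec.mk (nat_lit 16302) (nat_lit 0) [nat_lit 29424, nat_lit 11928, nat_lit 14844, nat_lit 17760, nat_lit 15816, nat_lit 16788, nat_lit 16140, nat_lit 16320, nat_lit 16296, nat_lit 16300] (nat_lit 0) [] false,
   Spec.mk (nat_lit 16310) (nat_lit 0) [nat_lit 29432, nat_lit 11936, nat_lit 14852, nat_lit 17768, nat_lit 15824, nat_lit 16796, nat_lit 16148, nat_lit 16364, nat_lit 16292, nat_lit 16312] (nat_lit 2) [nat_lit 35992] false,
   Spec.mk (nat_lit 16312) (nat_lit 0) [nat_lit 29434, nat_lit 11938, nat_lit 14854, nat_lit 17770, nat_lit 15826, nat_lit 16798, nat_lit 16150, nat_lit 16366, nat_lit 16294, nat_lit 16318, nat_lit 16310, nat_lit 16314] (nat_lit 1) [nat_lit 35994] false,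
   Spec.mk (nat_lit 16314) (nat_lit 0) [nat_lit 29436, nat_lit 11940, nat_lit 14856, nat_lit 17772, nat_lit 15828, nat_lit 16800, nat_lit 16152, nat_lit 16368, nat_lit 16296, nat_lit 16320, nat_lit 16312] (nat_lit 2) [] false,
   Spec.mk (nat_lit 16318) (nat_lit 0) [nat_lit 29440, nat_lit 11944, nat_lit 14860, nat_lit 17776, nat_lit 15832, nat_lit 16804, nat_lit 16156, nat_lit 16372, nat_lit 16300, nat_lit 16336, nat_lit 16312, nat_lit 16320] (nat_lit 1) [nat_lit 36000] false,
   Spec.mk (nat_lit 16320) (nat_lit 0) [nat_lit 29442, nat_lit 11946, nat_lit 14862, nat_lit 17778, nat_lit 15834, nat_lit 16806, nat_lit 16158, nat_lit 16374, nat_lit 16302, nat_lit 16338, nat_lit 16314, nat_lit 16326, nat_lit 16318] (nat_lit 0) [] false,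
   Spec.mk (nat_lit 16326) (nat_lit 0) [nat_lit 29448, nat_lit 11952, nat_lit 14868, nat_lit 17784, nat_lit 15840, nat_lit 16812, nat_lit 16164, nat_lit 16380, nat_lit 16344, nat_lit 16320] (nat_lit 0) [] false,
   Spec.mk (nat_lit 16336) (nat_lit 0) [nat_lit 29458, nat_lit 11962, nat_lit 14878, nat_lit 17794, nat_lit 15850, nat_lit 16822, nat_lit 16174, nat_lit 16390, nat_lit 16318, nat_lit 16338] (nat_lit 2) [nat_lit 36018] false,
   Spec.mk (nat_lit 16338) (nat_lit 0) [nat_lit 29460, nat_lit 11964, nat_lit 14880, nat_lit 17796, nat_lit 15852, nat_lit 16824, nat_lit 16176, nat_lit 16392, nat_lit 16320, nat_lit 16344, nat_lit 16336] (nat_lit 2) [] false,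
   Spec.mk (nat_lit 16344) (nat_lit 0) [nat_lit 29466, nat_lit 11970, nat_lit 14886, nat_lit 17802, nat_lit 15858, nat_lit 16830, nat_lit 16182, nat_lit 16398, nat_lit 16326, nat_lit 16338] (nat_lit 0) [] false,
   Spec.mk (nat_lit 16364) (nat_lit 0) [nat_lit 29486, nat_lit 11990, nat_lit 14906, nat_lit 17822, nat_lit 15878, nat_lit 16850, nat_lit 16202, nat_lit 16526, nat_lit 16310, nat_lit 16366] (nat_lit 1) [nat_lit 36046] false,
   Spec.mk (nat_lit 16366) (nat_lit 0) [nat_lit 29488, nat_lit 11992, nat_lit 14908, nat_lit 17824, nat_lit 15880, nat_lit 16852, nat_lit 16204, nat_lit 16528, nat_lit 16312, nat_lit 16372, nat_lit 16364, nat_lit 16368] (nat_lit 0) [nat_lit 36048] false,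
   Spec.mk (nat_lit 16368) (nat_lit 0) [nat_lit 29490, nat_lit 11994, nat_lit 14910, nat_lit 17826, nat_lit 15882, nat_lit 16854, nat_lit 16206, nat_lit 16530, nat_lit 16314, nat_lit 16374, nat_lit 16366] (nat_lit 1) [] false,
   Spec.mk (nat_lit 16372) (nat_lit 0) [nat_lit 29494, nat_lit 11998, nat_lit 14914, nat_lit 17830, nat_lit 15886, nat_lit 16858, nat_lit 16210, nat_lit 16534, nat_lit 16318, nat_lit 16390, nat_lit 16366, nat_lit 16374] (nat_lit 1) [nat_lit 36054] false,
   Spec.mk (nat_lit 16374) (nat_lit 0) [nat_lit 29496, nat_lit 12000, nat_lit 14916, nat_lit 17832, nat_lit 15888, nat_lit 16860, nat_lit 16212, nat_lit 16536, nat_lit 16320, nat_lit 16392, nat_lit 16368, nat_lit 16380, nat_lit 16372] (nat_lit 0) [] false,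
   Spec.mk (nat_lit 16380) (nat_lit 0) [nat_lit 29502, nat_lit 12006, nat_lit 14922, nat_lit 17838, nat_lit 15894, nat_lit 16866, nat_lit 16218, nat_lit 16542, nat_lit 16326, nat_lit 16398, nat_lit 16374] (nat_lit 1) [] false,
   Spec.mk (nat_lit 16390) (nat_lit 0) [nat_lit 29512, nat_lit 12016, nat_lit 14932, nat_lit 17848, nat_lit 15904, nat_lit 16876, nat_lit 16228, nat_lit 16552, nat_lit 16336, nat_lit 16444, nat_lit 16372, nat_lit 16392] (nat_lit 0) [nat_lit 36072] false,
   Spec.mk (nat_lit 16392) (nat_lit 0) [nat_lit 29514, nat_lit 12018, nat_lit 14934, nat_lit 17850, nat_lit 15906, nat_lit 16878, nat_lit 16230, nat_lit 16554, nat_lit 16338, nat_lit 16446, nat_lit 16374, nat_lit 16398, nat_lit 16390] (nat_lit 0) [] false,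
   Spec.mk (nat_lit 16398) (nat_lit 1) [nat_lit 29520, nat_lit 12024, nat_lit 14940, nat_lit 17856, nat_lit 15912, nat_lit 16884, nat_lit 16236, nat_lit 16560, nat_lit 16344, nat_lit 16452, nat_lit 16380, nat_lit 16416, nat_lit 16392] (nat_lit 0) [] false,
   Spec.mk (nat_lit 16416) (nat_lit 1) [nat_lit 29538, nat_lit 12042, nat_lit 14958, nat_lit 17874, nat_lit 15930, nat_lit 16902, nat_lit 16254, nat_lit 16578, nat_lit 16470, nat_lit 16398] (nat_lit 0) [] false,
   Spec.mk (nat_lit 16444) (nat_lit 0) [nat_lit 29566, nat_lit 12070, nat_lit 14986, nat_lit 17902, nat_lit 15958, nat_lit 16930, nat_lit 16606, nat_lit 16390, nat_lit 16446] (nat_lit 0) [nat_lit 36126] false,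
   Spec.mk (nat_lit 16446) (nat_lit 0) [nat_lit 29568, nat_lit 12072, nat_lit 14988, nat_lit 17904, nat_lit 15960, nat_lit 16932, nat_lit 16608, nat_lit 16392, nat_lit 16452, nat_lit 16444] (nat_lit 0) [] false,
   Spec.mk (nat_lit 16452) (nat_lit 0) [nat_lit 29574, nat_lit 12078, nat_lit 14994, nat_lit 17910, nat_lit 15966, nat_lit 16938, nat_lit 16614, nat_lit 16398, nat_lit 16470, nat_lit 16446] (nat_lit 0) [] false,
   Spec.mk (nat_lit 16470) (nat_lit 2) [nat_lit 29592, nat_lit 12096, nat_lit 15012, nat_lit 17928, nat_lit 15984, nat_lit 16956, nat_lit 16632, nat_lit 16416, nat_lit 16452] (nat_lit 0) [] false,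
   Spec.mk (nat_lit 16526) (nat_lit 0) [nat_lit 29648, nat_lit 12152, nat_lit 15068, nat_lit 17984, nat_lit 17012, nat_lit 16364, nat_lit 16528] (nat_lit 1) [nat_lit 36208] false,
   Spec.mk (nat_lit 16528) (nat_lit 0) [nat_lit 29650, nat_lit 12154, nat_lit 15070, nat_lit 17986, nat_lit 17014, nat_lit 16366, nat_lit 16534, nat_lit 16526, nat_lit 16530] (nat_lit 0) [nat_lit 36210] false,
   Spec.mk (nat_lit 16530) (nat_lit 0) [nat_lit 29652, nat_lit 12156, nat_lit 15072, nat_lit 17988, nat_lit 17016, nat_lit 16368, nat_lit 16536, nat_lit 16528] (nat_lit 1) [] false,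
   Spec.mk (nat_lit 16534) (nat_lit 0) [nat_lit 29656, nat_lit 12160, nat_lit 15076, nat_lit 17992, nat_lit 17020, nat_lit 16372, nat_lit 16552, nat_lit 16528, nat_lit 16536] (nat_lit 1) [nat_lit 36216] false,
   Spec.mk (nat_lit 16536) (nat_lit 0) [nat_lit 29658, nat_lit 12162, nat_lit 15078, nat_lit 17994, nat_lit 17022, nat_lit 16374, nat_lit 16554, nat_lit 16530, nat_lit 16542, nat_lit 16534] (nat_lit 0) [] false,
   Spec.mk (nat_lit 16542) (nat_lit 0) [nat_lit 29664, nat_lit 12168, nat_lit 15084, nat_lit 18000, nat_lit 17028, nat_lit 16380, nat_lit 16560, nat_lit 16536] (nat_lit 1) [] false,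
   Spec.mk (nat_lit 16552) (nat_lit 0) [nat_lit 29674, nat_lit 12178, nat_lit 15094, nat_lit 18010, nat_lit 17038, nat_lit 16390, nat_lit 16606, nat_lit 16534, nat_lit 16554] (nat_lit 1) [nat_lit 36234] false,
   Spec.mk (nat_lit 16554) (nat_lit 0) [nat_lit 29676, nat_lit 12180, nat_lit 15096, nat_lit 18012, nat_lit 17040, nat_lit 16392, nat_lit 16608, nat_lit 16536, nat_lit 16560, nat_lit 16552] (nat_lit 1) [] false,
   Spec.mk (nat_lit 16560) (nat_lit 0) [nat_lit 29682, nat_lit 12186, nat_lit 15102, nat_lit 18018, nat_lit 17046, nat_lit 16398, nat_lit 16614, nat_lit 16542, nat_lit 16578, nat_lit 16554] (nat_lit 0) [] false,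
   Spec.mk (nat_lit 16578) (nat_lit 0) [nat_lit 29700, nat_lit 12204, nat_lit 15120, nat_lit 18036, nat_lit 17064, nat_lit 16416, nat_lit 16632, nat_lit 16560] (nat_lit 1) [] false,
   Spec.mk (nat_lit 16606) (nat_lit 1) [nat_lit 29728, nat_lit 12232, nat_lit 15148, nat_lit 18064, nat_lit 17092, nat_lit 16444, nat_lit 16552, nat_lit 16608] (nat_lit 0) [nat_lit 36288] false,
   Spec.mk (nat_lit 16608) (nat_lit 1) [nat_lit 29730, nat_lit 12234, nat_lit 15150, nat_lit 18066, nat_lit 17094, nat_lit 16446, nat_lit 16554, nat_lit 16614, nat_lit 16606] (nat_lit 0) [] false,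
   Spec.mk (nat_lit 16614) (nat_lit 1) [nat_lit 29736, nat_lit 12240, nat_lit 15156, nat_lit 18072, nat_lit 17100, nat_lit 16452, nat_lit 16560, nat_lit 16632, nat_lit 16608] (nat_lit 0) [] false,
   Spec.mk (nat_lit 16632) (nat_lit 2) [nat_lit 29754, nat_lit 12258, nat_lit 15174, nat_lit 18090, nat_lit 17118, nat_lit 16470, nat_lit 16578, nat_lit 16686, nat_lit 16614] (nat_lit 0) [] false,
   Spec.mk (nat_lit 16686) (nat_lit 3) [nat_lit 29808, nat_lit 12312, nat_lit 15228, nat_lit 18144, nat_lit 17172, nat_lit 16632] (nat_lit 0) [] false,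
   Spec.mk (nat_lit 16772) (nat_lit 0) [nat_lit 29894, nat_lit 12398, nat_lit 18230, nat_lit 16286, nat_lit 16778, nat_lit 16774] (nat_lit 0) [nat_lit 36454] false,
   Spec.mk (nat_lit 16774) (nat_lit 0) [nat_lit 29896, nat_lit 12400, nat_lit 18232, nat_lit 16288, nat_lit 16780, nat_lit 16772] (nat_lit 0) [nat_lit 36456] false,
   Spec.mk (nat_lit 16778) (nat_lit 0) [nat_lit 29900, nat_lit 12404, nat_lit 18236, nat_lit 16292, nat_lit 16796, nat_lit 16772, nat_lit 16780] (nat_lit 2) [nat_lit 36460] false,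
   Spec.mk (nat_lit 16780) (nat_lit 0) [nat_lit 29902, nat_lit 12406, nat_lit 18238, nat_lit 16294, nat_lit 16798, nat_lit 16774, nat_lit 16786, nat_lit 16778, nat_lit 16782] (nat_lit 0) [nat_lit 36462] false]

noncomputable def sp45 : List Spec :=
  [Spec.mk (nat_lit 16782) (nat_lit 0) [nat_lit 29904, nat_lit 12408, nat_lit 18240, nat_lit 16296, nat_lit 16800, nat_lit 16788, nat_lit 16780] (nat_lit 0) [] false,
   Spec.mk (nat_lit 16786) (nat_lit 0) [nat_lit 29908, nat_lit 12412, nat_lit 18244, nat_lit 16300, nat_lit 16804, nat_lit 16780, nat_lit 16788] (nat_lit 2) [nat_lit 36468] false,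
   Spec.mk (nat_lit 16788) (nat_lit 0) [nat_lit 29910, nat_lit 12414, nat_lit 18246, nat_lit 16302, nat_lit 16806, nat_lit 16782, nat_lit 16786] (nat_lit 0) [] false,
   Spec.mk (nat_lit 16796) (nat_lit 0) [nat_lit 29918, nat_lit 12422, nat_lit 18254, nat_lit 16310, nat_lit 16850, nat_lit 16778, nat_lit 16798] (nat_lit 2) [nat_lit 36478] false,
   Spec.mk (nat_lit 16798) (nat_lit 0) [nat_lit 29920, nat_lit 12424, nat_lit 18256, nat_lit 16312, nat_lit 16852, nat_lit 16780, nat_lit 16804, nat_lit 16796, nat_lit 16800] (nat_lit 1) [nat_lit 36480] false,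
   Spec.mk (nat_lit 16800) (nat_lit 0) [nat_lit 29922, nat_lit 12426, nat_lit 18258, nat_lit 16314, nat_lit 16854, nat_lit 16782, nat_lit 16806, nat_lit 16798] (nat_lit 2) [] false,
   Spec.mk (nat_lit 16804) (nat_lit 0) [nat_lit 29926, nat_lit 12430, nat_lit 18262, nat_lit 16318, nat_lit 16858, nat_lit 16786, nat_lit 16822, nat_lit 16798, nat_lit 16806] (nat_lit 1) [nat_lit 36486] false,
   Spec.mk (nat_lit 16806) (nat_lit 0) [nat_lit 29928, nat_lit 12432, nat_lit 18264, nat_lit 16320, nat_lit 16860, nat_lit 16788, nat_lit 16824, nat_lit 16800, nat_lit 16812, nat_lit 16804] (nat_lit 0) [] false,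
   Spec.mk (nat_lit 16812) (nat_lit 0) [nat_lit 29934, nat_lit 12438, nat_lit 18270, nat_lit 16326, nat_lit 16866, nat_lit 16830, nat_lit 16806] (nat_lit 0) [] false,
   Spec.mk (nat_lit 16822) (nat_lit 0) [nat_lit 29944, nat_lit 12448, nat_lit 18280, nat_lit 16336, nat_lit 16876, nat_lit 16804, nat_lit 16824] (nat_lit 2) [nat_lit 36504] false,
   Spec.mk (nat_lit 16824) (nat_lit 0) [nat_lit 29946, nat_lit 12450, nat_lit 18282, nat_lit 16338, nat_lit 16878, nat_lit 16806, nat_lit 16830, nat_lit 16822] (nat_lit 2) [] false,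
   Spec.mk (nat_lit 16830) (nat_lit 0) [nat_lit 29952, nat_lit 12456, nat_lit 18288, nat_lit 16344, nat_lit 16884, nat_lit 16812, nat_lit 16824] (nat_lit 0) [] false,
   Spec.mk (nat_lit 16850) (nat_lit 0) [nat_lit 29972, nat_lit 12476, nat_lit 18308, nat_lit 16364, nat_lit 17012, nat_lit 16796, nat_lit 16852] (nat_lit 2) [nat_lit 36532] false,
   Spec.mk (nat_lit 16852) (nat_lit 0) [nat_lit 29974, nat_lit 12478, nat_lit 18310, nat_lit 16366, nat_lit 17014, nat_lit 16798, nat_lit 16858, nat_lit 16850, nat_lit 16854] (nat_lit 1) [nat_lit 36534] false,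
   Spec.mk (nat_lit 16854) (nat_lit 0) [nat_lit 29976, nat_lit 12480, nat_lit 18312, nat_lit 16368, nat_lit 17016, nat_lit 16800, nat_lit 16860, nat_lit 16852] (nat_lit 2) [] false,
   Spec.mk (nat_lit 16858) (nat_lit 0) [nat_lit 29980, nat_lit 12484, nat_lit 18316, nat_lit 16372, nat_lit 17020, nat_lit 16804, nat_lit 16876, nat_lit 16852, nat_lit 16860] (nat_lit 2) [nat_lit 36540] false,
   Spec.mk (nat_lit 16860) (nat_lit 0) [nat_lit 29982, nat_lit 12486, nat_lit 18318, nat_lit 16374, nat_lit 17022, nat_lit 16806, nat_lit 16878, nat_lit 16854, nat_lit 16866, nat_lit 16858] (nat_lit 1) [] false,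
   Spec.mk (nat_lit 16866) (nat_lit 0) [nat_lit 29988, nat_lit 12492, nat_lit 18324, nat_lit 16380, nat_lit 17028, nat_lit 16812, nat_lit 16884, nat_lit 16860] (nat_lit 2) [] false,
   Spec.mk (nat_lit 16876) (nat_lit 0) [nat_lit 29998, nat_lit 12502, nat_lit 18334, nat_lit 16390, nat_lit 17038, nat_lit 16822, nat_lit 16930, nat_lit 16858, nat_lit 16878] (nat_lit 1) [nat_lit 36558] false,
   Spec.mk (nat_lit 16878) (nat_lit 0) [nat_lit 30000, nat_lit 12504, nat_lit 18336, nat_lit 16392, nat_lit 17040, nat_lit 16824, nat_lit 16932, nat_lit 16860, nat_lit 16884, nat_lit 16876] (nat_lit 1) [] false,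
   Spec.mk (nat_lit 16884) (nat_lit 0) [nat_lit 30006, nat_lit 12510, nat_lit 18342, nat_lit 16398, nat_lit 17046, nat_lit 16830, nat_lit 16938, nat_lit 16866, nat_lit 16902, nat_lit 16878] (nat_lit 0) [] false,
   Spec.mk (nat_lit 16902) (nat_lit 0) [nat_lit 30024, nat_lit 12528, nat_lit 18360, nat_lit 16416, nat_lit 17064, nat_lit 16956, nat_lit 16884] (nat_lit 0) [] false,
   Spec.mk (nat_lit 16930) (nat_lit 0) [nat_lit 30052, nat_lit 12556, nat_lit 18388, nat_lit 16444, nat_lit 17092, nat_lit 16876, nat_lit 16932] (nat_lit 2) [nat_lit 36612] false,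
   Spec.mk (nat_lit 16932) (nat_lit 0) [nat_lit 30054, nat_lit 12558, nat_lit 18390, nat_lit 16446, nat_lit 17094, nat_lit 16878, nat_lit 16938, nat_lit 16930] (nat_lit 2) [] false,
   Spec.mk (nat_lit 16938) (nat_lit 0) [nat_lit 30060, nat_lit 12564, nat_lit 18396, nat_lit 16452, nat_lit 17100, nat_lit 16884, nat_lit 16956, nat_lit 16932] (nat_lit 2) [] false,
   Spec.mk (nat_lit 16956) (nat_lit 0) [nat_lit 30078, nat_lit 12582, nat_lit 18414, nat_lit 16470, nat_lit 17118, nat_lit 16902, nat_lit 16938] (nat_lit 0) [] false,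
   Spec.mk (nat_lit 17012) (nat_lit 0) [nat_lit 30134, nat_lit 12638, nat_lit 18470, nat_lit 16526, nat_lit 16850, nat_lit 17014] (nat_lit 0) [nat_lit 36694] false,
   Spec.mk (nat_lit 17014) (nat_lit 1) [nat_lit 30136, nat_lit 12640, nat_lit 18472, nat_lit 16528, nat_lit 16852, nat_lit 17020, nat_lit 17012, nat_lit 17016] (nat_lit 0) [nat_lit 36696] false,
   Spec.mk (nat_lit 17016) (nat_lit 0) [nat_lit 30138, nat_lit 12642, nat_lit 18474, nat_lit 16530, nat_lit 16854, nat_lit 17022, nat_lit 17014] (nat_lit 0) [] false,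
   Spec.mk (nat_lit 17020) (nat_lit 0) [nat_lit 30142, nat_lit 12646, nat_lit 18478, nat_lit 16534, nat_lit 16858, nat_lit 17038, nat_lit 17014, nat_lit 17022] (nat_lit 0) [nat_lit 36702] false,
   Spec.mk (nat_lit 17022) (nat_lit 1) [nat_lit 30144, nat_lit 12648, nat_lit 18480, nat_lit 16536, nat_lit 16860, nat_lit 17040, nat_lit 17016, nat_lit 17028, nat_lit 17020] (nat_lit 0) [] false,
   Spec.mk (nat_lit 17028) (nat_lit 0) [nat_lit 30150, nat_lit 12654, nat_lit 18486, nat_lit 16542, nat_lit 16866, nat_lit 17046, nat_lit 17022] (nat_lit 0) [] false,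
   Spec.mk (nat_lit 17038) (nat_lit 0) [nat_lit 30160, nat_lit 12664, nat_lit 18496, nat_lit 16552, nat_lit 16876, nat_lit 17092, nat_lit 17020, nat_lit 17040] (nat_lit 0) [nat_lit 36720] false,
   Spec.mk (nat_lit 17040) (nat_lit 0) [nat_lit 30162, nat_lit 12666, nat_lit 18498, nat_lit 16554, nat_lit 16878, nat_lit 17094, nat_lit 17022, nat_lit 17046, nat_lit 17038] (nat_lit 0) [] false,
   Spec.mk (nat_lit 17046) (nat_lit 1) [nat_lit 30168, nat_lit 12672, nat_lit 18504, nat_lit 16560, nat_lit 16884, nat_lit 17100, nat_lit 17028, nat_lit 17064, nat_lit 17040] (nat_lit 0) [] false,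
   Spec.mk (nat_lit 17064) (nat_lit 0) [nat_lit 30186, nat_lit 12690, nat_lit 18522, nat_lit 16578, nat_lit 16902, nat_lit 17118, nat_lit 17046] (nat_lit 0) [] false,
   Spec.mk (nat_lit 17092) (nat_lit 1) [nat_lit 30214, nat_lit 12718, nat_lit 18550, nat_lit 16606, nat_lit 16930, nat_lit 17254, nat_lit 17038, nat_lit 17094] (nat_lit 0) [nat_lit 36774] false,
   Spec.mk (nat_lit 17094) (nat_lit 1) [nat_lit 30216, nat_lit 12720, nat_lit 18552, nat_lit 16608, nat_lit 16932, nat_lit 17256, nat_lit 17040, nat_lit 17100, nat_lit 17092] (nat_lit 0) [] false,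
   Spec.mk (nat_lit 17100) (nat_lit 1) [nat_lit 30222, nat_lit 12726, nat_lit 18558, nat_lit 16614, nat_lit 16938, nat_lit 17262, nat_lit 17046, nat_lit 17118, nat_lit 17094] (nat_lit 0) [] false,
   Spec.mk (nat_lit 17118) (nat_lit 2) [nat_lit 30240, nat_lit 12744, nat_lit 18576, nat_lit 16632, nat_lit 16956, nat_lit 17280, nat_lit 17064, nat_lit 17172, nat_lit 17100] (nat_lit 0) [] false,
   Spec.mk (nat_lit 17172) (nat_lit 2) [nat_lit 30294, nat_lit 12798, nat_lit 18630, nat_lit 16686, nat_lit 17334, nat_lit 17118] (nat_lit 0) [] false,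
   Spec.mk (nat_lit 17254) (nat_lit 2) [nat_lit 30376, nat_lit 12880, nat_lit 18712, nat_lit 17092, nat_lit 17256] (nat_lit 0) [nat_lit 36936] false,
   Spec.mk (nat_lit 17256) (nat_lit 2) [nat_lit 30378, nat_lit 12882, nat_lit 18714, nat_lit 17094, nat_lit 17262, nat_lit 17254] (nat_lit 0) [] false,
   Spec.mk (nat_lit 17262) (nat_lit 2) [nat_lit 30384, nat_lit 12888, nat_lit 18720, nat_lit 17100, nat_lit 17280, nat_lit 17256] (nat_lit 0) [] false,
   Spec.mk (nat_lit 17280) (nat_lit 2) [nat_lit 30402, nat_lit 12906, nat_lit 18738, nat_lit 17118, nat_lit 17334, nat_lit 17262] (nat_lit 0) [] false,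
   Spec.mk (nat_lit 17334) (nat_lit 4) [nat_lit 30456, nat_lit 12960, nat_lit 18792, nat_lit 17172, nat_lit 17280] (nat_lit 0) [] false,
   Spec.mk (nat_lit 17504) (nat_lit 2) [nat_lit 30626, nat_lit 16046, nat_lit 17510] (nat_lit 0) [nat_lit 37186] false,
   Spec.mk (nat_lit 17510) (nat_lit 1) [nat_lit 30632, nat_lit 16052, nat_lit 17528, nat_lit 17504, nat_lit 17516, nat_lit 17512] (nat_lit 0) [nat_lit 37192] false,
   Spec.mk (nat_lit 17512) (nat_lit 2) [nat_lit 30634, nat_lit 16054, nat_lit 17530, nat_lit 17518, nat_lit 17510] (nat_lit 0) [nat_lit 37194] false,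
   Spec.mk (nat_lit 17516) (nat_lit 0) [nat_lit 30638, nat_lit 16058, nat_lit 17534, nat_lit 17510, nat_lit 17518] (nat_lit 2) [nat_lit 37198] false,
   Spec.mk (nat_lit 17518) (nat_lit 1) [nat_lit 30640, nat_lit 16060, nat_lit 17536, nat_lit 17512, nat_lit 17516, nat_lit 17520] (nat_lit 0) [nat_lit 37200] false,
   Spec.mk (nat_lit 17520) (nat_lit 2) [nat_lit 30642, nat_lit 16062, nat_lit 17538, nat_lit 17518] (nat_lit 0) [] false,
   Spec.mk (nat_lit 17528) (nat_lit 0) [nat_lit 30650, nat_lit 16070, nat_lit 17582, nat_lit 17510, nat_lit 17534, nat_lit 17530] (nat_lit 0) [nat_lit 37210] false,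
   Spec.mk (nat_lit 17530) (nat_lit 0) [nat_lit 30652, nat_lit 16072, nat_lit 17584, nat_lit 17512, nat_lit 17536, nat_lit 17528] (nat_lit 0) [nat_lit 37212] false,
   Spec.mk (nat_lit 17534) (nat_lit 0) [nat_lit 30656, nat_lit 16076, nat_lit 17588, nat_lit 17516, nat_lit 17552, nat_lit 17528, nat_lit 17536] (nat_lit 1) [nat_lit 37216] false,
   Spec.mk (nat_lit 17536) (nat_lit 1) [nat_lit 30658, nat_lit 16078, nat_lit 17590, nat_lit 17518, nat_lit 17554, nat_lit 17530, nat_lit 17542, nat_lit 17534, nat_lit 17538] (nat_lit 0) [nat_lit 37218] false,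
   Spec.mk (nat_lit 17538) (nat_lit 1) [nat_lit 30660, nat_lit 16080, nat_lit 17592, nat_lit 17520, nat_lit 17556, nat_lit 17544, nat_lit 17536] (nat_lit 0) [] false,
   Spec.mk (nat_lit 17542) (nat_lit 0) [nat_lit 30664, nat_lit 16084, nat_lit 17596, nat_lit 17560, nat_lit 17536, nat_lit 17544] (nat_lit 0) [nat_lit 37224] false,
   Spec.mk (nat_lit 17544) (nat_lit 2) [nat_lit 30666, nat_lit 16086, nat_lit 17598, nat_lit 17562, nat_lit 17538, nat_lit 17542] (nat_lit 0) [] false,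
   Spec.mk (nat_lit 17552) (nat_lit 0) [nat_lit 30674, nat_lit 16094, nat_lit 17606, nat_lit 17534, nat_lit 17554] (nat_lit 2) [nat_lit 37234] false]

noncomputable def sp46 : List Spec :=
  [Spec.mk (nat_lit 17554) (nat_lit 0) [nat_lit 30676, nat_lit 16096, nat_lit 17608, nat_lit 17536, nat_lit 17560, nat_lit 17552, nat_lit 17556] (nat_lit 1) [nat_lit 37236] false,
   Spec.mk (nat_lit 17556) (nat_lit 0) [nat_lit 30678, nat_lit 16098, nat_lit 17610, nat_lit 17538, nat_lit 17562, nat_lit 17554] (nat_lit 2) [] false,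
   Spec.mk (nat_lit 17560) (nat_lit 0) [nat_lit 30682, nat_lit 16102, nat_lit 17614, nat_lit 17542, nat_lit 17554, nat_lit 17562] (nat_lit 0) [nat_lit 37242] false,
   Spec.mk (nat_lit 17562) (nat_lit 1) [nat_lit 30684, nat_lit 16104, nat_lit 17616, nat_lit 17544, nat_lit 17556, nat_lit 17568, nat_lit 17560] (nat_lit 0) [] false,
   Spec.mk (nat_lit 17568) (nat_lit 2) [nat_lit 30690, nat_lit 16110, nat_lit 17622, nat_lit 17562] (nat_lit 0) [] false,
   Spec.mk (nat_lit 17582) (nat_lit 0) [nat_lit 30704, nat_lit 16124, nat_lit 17744, nat_lit 17528, nat_lit 17588, nat_lit 17584] (nat_lit 0) [nat_lit 37264] false,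
   Spec.mk (nat_lit 17584) (nat_lit 0) [nat_lit 30706, nat_lit 16126, nat_lit 17746, nat_lit 17530, nat_lit 17590, nat_lit 17582] (nat_lit 0) [nat_lit 37266] false,
   Spec.mk (nat_lit 17588) (nat_lit 0) [nat_lit 30710, nat_lit 16130, nat_lit 17750, nat_lit 17534, nat_lit 17606, nat_lit 17582, nat_lit 17590] (nat_lit 2) [nat_lit 37270] false,
   Spec.mk (nat_lit 17590) (nat_lit 0) [nat_lit 30712, nat_lit 16132, nat_lit 17752, nat_lit 17536, nat_lit 17608, nat_lit 17584, nat_lit 17596, nat_lit 17588, nat_lit 17592] (nat_lit 0) [nat_lit 37272] false,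
   Spec.mk (nat_lit 17592) (nat_lit 0) [nat_lit 30714, nat_lit 16134, nat_lit 17754, nat_lit 17538, nat_lit 17610, nat_lit 17598, nat_lit 17590] (nat_lit 0) [] false,
   Spec.mk (nat_lit 17596) (nat_lit 0) [nat_lit 30718, nat_lit 16138, nat_lit 17758, nat_lit 17542, nat_lit 17614, nat_lit 17590, nat_lit 17598] (nat_lit 2) [nat_lit 37278] false,
   Spec.mk (nat_lit 17598) (nat_lit 0) [nat_lit 30720, nat_lit 16140, nat_lit 17760, nat_lit 17544, nat_lit 17616, nat_lit 17592, nat_lit 17596] (nat_lit 0) [] false,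
   Spec.mk (nat_lit 17606) (nat_lit 0) [nat_lit 30728, nat_lit 16148, nat_lit 17768, nat_lit 17552, nat_lit 17660, nat_lit 17588, nat_lit 17608] (nat_lit 1) [nat_lit 37288] false,
   Spec.mk (nat_lit 17608) (nat_lit 0) [nat_lit 30730, nat_lit 16150, nat_lit 17770, nat_lit 17554, nat_lit 17662, nat_lit 17590, nat_lit 17614, nat_lit 17606, nat_lit 17610] (nat_lit 0) [nat_lit 37290] false,
   Spec.mk (nat_lit 17610) (nat_lit 0) [nat_lit 30732, nat_lit 16152, nat_lit 17772, nat_lit 17556, nat_lit 17664, nat_lit 17592, nat_lit 17616, nat_lit 17608] (nat_lit 1) [] false,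
   Spec.mk (nat_lit 17614) (nat_lit 0) [nat_lit 30736, nat_lit 16156, nat_lit 17776, nat_lit 17560, nat_lit 17668, nat_lit 17596, nat_lit 17632, nat_lit 17608, nat_lit 17616] (nat_lit 0) [nat_lit 37296] false,
   Spec.mk (nat_lit 17616) (nat_lit 1) [nat_lit 30738, nat_lit 16158, nat_lit 17778, nat_lit 17562, nat_lit 17670, nat_lit 17598, nat_lit 17634, nat_lit 17610, nat_lit 17622, nat_lit 17614] (nat_lit 0) [] false,
   Spec.mk (nat_lit 17622) (nat_lit 1) [nat_lit 30744, nat_lit 16164, nat_lit 17784, nat_lit 17568, nat_lit 17676, nat_lit 17640, nat_lit 17616] (nat_lit 0) [] false,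
   Spec.mk (nat_lit 17632) (nat_lit 0) [nat_lit 30754, nat_lit 16174, nat_lit 17794, nat_lit 17686, nat_lit 17614, nat_lit 17634] (nat_lit 0) [nat_lit 37314] false,
   Spec.mk (nat_lit 17634) (nat_lit 0) [nat_lit 30756, nat_lit 16176, nat_lit 17796, nat_lit 17688, nat_lit 17616, nat_lit 17640, nat_lit 17632] (nat_lit 0) [] false,
   Spec.mk (nat_lit 17640) (nat_lit 2) [nat_lit 30762, nat_lit 16182, nat_lit 17802, nat_lit 17694, nat_lit 17622, nat_lit 17634] (nat_lit 0) [] false,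
   Spec.mk (nat_lit 17660) (nat_lit 0) [nat_lit 30782, nat_lit 16202, nat_lit 17822, nat_lit 17606, nat_lit 17662] (nat_lit 2) [nat_lit 37342] false,
   Spec.mk (nat_lit 17662) (nat_lit 0) [nat_lit 30784, nat_lit 16204, nat_lit 17824, nat_lit 17608, nat_lit 17668, nat_lit 17660, nat_lit 17664] (nat_lit 1) [nat_lit 37344] false,
   Spec.mk (nat_lit 17664) (nat_lit 0) [nat_lit 30786, nat_lit 16206, nat_lit 17826, nat_lit 17610, nat_lit 17670, nat_lit 17662] (nat_lit 2) [] false,
   Spec.mk (nat_lit 17668) (nat_lit 0) [nat_lit 30790, nat_lit 16210, nat_lit 17830, nat_lit 17614, nat_lit 17686, nat_lit 17662, nat_lit 17670] (nat_lit 2) [nat_lit 37350] false,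
   Spec.mk (nat_lit 17670) (nat_lit 0) [nat_lit 30792, nat_lit 16212, nat_lit 17832, nat_lit 17616, nat_lit 17688, nat_lit 17664, nat_lit 17676, nat_lit 17668] (nat_lit 1) [] false,
   Spec.mk (nat_lit 17676) (nat_lit 0) [nat_lit 30798, nat_lit 16218, nat_lit 17838, nat_lit 17622, nat_lit 17694, nat_lit 17670] (nat_lit 2) [] false,
   Spec.mk (nat_lit 17686) (nat_lit 0) [nat_lit 30808, nat_lit 16228, nat_lit 17848, nat_lit 17632, nat_lit 17668, nat_lit 17688] (nat_lit 0) [nat_lit 37368] false,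
   Spec.mk (nat_lit 17688) (nat_lit 0) [nat_lit 30810, nat_lit 16230, nat_lit 17850, nat_lit 17634, nat_lit 17670, nat_lit 17694, nat_lit 17686] (nat_lit 0) [] false,
   Spec.mk (nat_lit 17694) (nat_lit 1) [nat_lit 30816, nat_lit 16236, nat_lit 17856, nat_lit 17640, nat_lit 17676, nat_lit 17712, nat_lit 17688] (nat_lit 0) [] false,
   Spec.mk (nat_lit 17712) (nat_lit 2) [nat_lit 30834, nat_lit 16254, nat_lit 17874, nat_lit 17694] (nat_lit 0) [] false,
   Spec.mk (nat_lit 17744) (nat_lit 0) [nat_lit 30866, nat_lit 16286, nat_lit 18230, nat_lit 17582, nat_lit 17750, nat_lit 17746] (nat_lit 0) [nat_lit 37426] false,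
   Spec.mk (nat_lit 17746) (nat_lit 0) [nat_lit 30868, nat_lit 16288, nat_lit 18232, nat_lit 17584, nat_lit 17752, nat_lit 17744] (nat_lit 0) [nat_lit 37428] false,
   Spec.mk (nat_lit 17750) (nat_lit 0) [nat_lit 30872, nat_lit 16292, nat_lit 18236, nat_lit 17588, nat_lit 17768, nat_lit 17744, nat_lit 17752] (nat_lit 2) [nat_lit 37432] false,
   Spec.mk (nat_lit 17752) (nat_lit 0) [nat_lit 30874, nat_lit 16294, nat_lit 18238, nat_lit 17590, nat_lit 17770, nat_lit 17746, nat_lit 17758, nat_lit 17750, nat_lit 17754] (nat_lit 0) [nat_lit 37434] false,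
   Spec.mk (nat_lit 17754) (nat_lit 0) [nat_lit 30876, nat_lit 16296, nat_lit 18240, nat_lit 17592, nat_lit 17772, nat_lit 17760, nat_lit 17752] (nat_lit 0) [] false,
   Spec.mk (nat_lit 17758) (nat_lit 0) [nat_lit 30880, nat_lit 16300, nat_lit 18244, nat_lit 17596, nat_lit 17776, nat_lit 17752, nat_lit 17760] (nat_lit 2) [nat_lit 37440] false,
   Spec.mk (nat_lit 17760) (nat_lit 0) [nat_lit 30882, nat_lit 16302, nat_lit 18246, nat_lit 17598, nat_lit 17778, nat_lit 17754, nat_lit 17758] (nat_lit 0) [] false,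
   Spec.mk (nat_lit 17768) (nat_lit 0) [nat_lit 30890, nat_lit 16310, nat_lit 18254, nat_lit 17606, nat_lit 17822, nat_lit 17750, nat_lit 17770] (nat_lit 2) [nat_lit 37450] false,
   Spec.mk (nat_lit 17770) (nat_lit 0) [nat_lit 30892, nat_lit 16312, nat_lit 18256, nat_lit 17608, nat_lit 17824, nat_lit 17752, nat_lit 17776, nat_lit 17768, nat_lit 17772] (nat_lit 1) [nat_lit 37452] false,
   Spec.mk (nat_lit 17772) (nat_lit 0) [nat_lit 30894, nat_lit 16314, nat_lit 18258, nat_lit 17610, nat_lit 17826, nat_lit 17754, nat_lit 17778, nat_lit 17770] (nat_lit 2) [] false,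
   Spec.mk (nat_lit 17776) (nat_lit 0) [nat_lit 30898, nat_lit 16318, nat_lit 18262, nat_lit 17614, nat_lit 17830, nat_lit 17758, nat_lit 17794, nat_lit 17770, nat_lit 17778] (nat_lit 1) [nat_lit 37458] false,
   Spec.mk (nat_lit 17778) (nat_lit 0) [nat_lit 30900, nat_lit 16320, nat_lit 18264, nat_lit 17616, nat_lit 17832, nat_lit 17760, nat_lit 17796, nat_lit 17772, nat_lit 17784, nat_lit 17776] (nat_lit 0) [] false,
   Spec.mk (nat_lit 17784) (nat_lit 0) [nat_lit 30906, nat_lit 16326, nat_lit 18270, nat_lit 17622, nat_lit 17838, nat_lit 17802, nat_lit 17778] (nat_lit 0) [] false,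
   Spec.mk (nat_lit 17794) (nat_lit 0) [nat_lit 30916, nat_lit 16336, nat_lit 18280, nat_lit 17632, nat_lit 17848, nat_lit 17776, nat_lit 17796] (nat_lit 2) [nat_lit 37476] false,
   Spec.mk (nat_lit 17796) (nat_lit 0) [nat_lit 30918, nat_lit 16338, nat_lit 18282, nat_lit 17634, nat_lit 17850, nat_lit 17778, nat_lit 17802, nat_lit 17794] (nat_lit 2) [] false,
   Spec.mk (nat_lit 17802) (nat_lit 0) [nat_lit 30924, nat_lit 16344, nat_lit 18288, nat_lit 17640, nat_lit 17856, nat_lit 17784, nat_lit 17796] (nat_lit 0) [] false,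
   Spec.mk (nat_lit 17822) (nat_lit 0) [nat_lit 30944, nat_lit 16364, nat_lit 18308, nat_lit 17660, nat_lit 17984, nat_lit 17768, nat_lit 17824] (nat_lit 1) [nat_lit 37504] false,
   Spec.mk (nat_lit 17824) (nat_lit 0) [nat_lit 30946, nat_lit 16366, nat_lit 18310, nat_lit 17662, nat_lit 17986, nat_lit 17770, nat_lit 17830, nat_lit 17822, nat_lit 17826] (nat_lit 0) [nat_lit 37506] false,
   Spec.mk (nat_lit 17826) (nat_lit 0) [nat_lit 30948, nat_lit 16368, nat_lit 18312, nat_lit 17664, nat_lit 17988, nat_lit 17772, nat_lit 17832, nat_lit 17824] (nat_lit 1) [] false,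
   Spec.mk (nat_lit 17830) (nat_lit 0) [nat_lit 30952, nat_lit 16372, nat_lit 18316, nat_lit 17668, nat_lit 17992, nat_lit 17776, nat_lit 17848, nat_lit 17824, nat_lit 17832] (nat_lit 1) [nat_lit 37512] false,
   Spec.mk (nat_lit 17832) (nat_lit 0) [nat_lit 30954, nat_lit 16374, nat_lit 18318, nat_lit 17670, nat_lit 17994, nat_lit 17778, nat_lit 17850, nat_lit 17826, nat_lit 17838, nat_lit 17830] (nat_lit 0) [] false,
   Spec.mk (nat_lit 17838) (nat_lit 0) [nat_lit 30960, nat_lit 16380, nat_lit 18324, nat_lit 17676, nat_lit 18000, nat_lit 17784, nat_lit 17856, nat_lit 17832] (nat_lit 1) [] false,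
   Spec.mk (nat_lit 17848) (nat_lit 0) [nat_lit 30970, nat_lit 16390, nat_lit 18334, nat_lit 17686, nat_lit 18010, nat_lit 17794, nat_lit 17902, nat_lit 17830, nat_lit 17850] (nat_lit 0) [nat_lit 37530] false,
   Spec.mk (nat_lit 17850) (nat_lit 0) [nat_lit 30972, nat_lit 16392, nat_lit 18336, nat_lit 17688, nat_lit 18012, nat_lit 17796, nat_lit 17904, nat_lit 17832, nat_lit 17856, nat_lit 17848] (nat_lit 0) [] false,
   Spec.mk (nat_lit 17856) (nat_lit 1) [nat_lit 30978, nat_lit 16398, nat_lit 18342, nat_lit 17694, nat_lit 18018, nat_lit 17802, nat_lit 17910, nat_lit 17838, nat_lit 17874, nat_lit 17850] (nat_lit 0) [] false,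
   Spec.mk (nat_lit 17874) (nat_lit 1) [nat_lit 30996, nat_lit 16416, nat_lit 18360, nat_lit 17712, nat_lit 18036, nat_lit 17928, nat_lit 17856] (nat_lit 0) [] false,
   Spec.mk (nat_lit 17902) (nat_lit 0) [nat_lit 31024, nat_lit 16444, nat_lit 18388, nat_lit 18064, nat_lit 17848, nat_lit 17904] (nat_lit 0) [nat_lit 37584] false,
   Spec.mk (nat_lit 17904) (nat_lit 0) [nat_lit 31026, nat_lit 16446, nat_lit 18390, nat_lit 18066, nat_lit 17850, nat_lit 17910, nat_lit 17902] (nat_lit 0) [] false,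
   Spec.mk (nat_lit 17910) (nat_lit 0) [nat_lit 31032, nat_lit 16452, nat_lit 18396, nat_lit 18072, nat_lit 17856, nat_lit 17928, nat_lit 17904] (nat_lit 0) [] false]

noncomputable def sp47 : List Spec :=
  [Spec.mk (nat_lit 17928) (nat_lit 2) [nat_lit 31050, nat_lit 16470, nat_lit 18414, nat_lit 18090, nat_lit 17874, nat_lit 17910] (nat_lit 0) [] false,
   Spec.mk (nat_lit 17984) (nat_lit 0) [nat_lit 31106, nat_lit 16526, nat_lit 18470, nat_lit 17822, nat_lit 17986] (nat_lit 2) [nat_lit 37666] false,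
   Spec.mk (nat_lit 17986) (nat_lit 0) [nat_lit 31108, nat_lit 16528, nat_lit 18472, nat_lit 17824, nat_lit 17992, nat_lit 17984, nat_lit 17988] (nat_lit 1) [nat_lit 37668] false,
   Spec.mk (nat_lit 17988) (nat_lit 0) [nat_lit 31110, nat_lit 16530, nat_lit 18474, nat_lit 17826, nat_lit 17994, nat_lit 17986] (nat_lit 2) [] false,
   Spec.mk (nat_lit 17992) (nat_lit 0) [nat_lit 31114, nat_lit 16534, nat_lit 18478, nat_lit 17830, nat_lit 18010, nat_lit 17986, nat_lit 17994] (nat_lit 2) [nat_lit 37674] false,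
   Spec.mk (nat_lit 17994) (nat_lit 0) [nat_lit 31116, nat_lit 16536, nat_lit 18480, nat_lit 17832, nat_lit 18012, nat_lit 17988, nat_lit 18000, nat_lit 17992] (nat_lit 1) [] false,
   Spec.mk (nat_lit 18000) (nat_lit 0) [nat_lit 31122, nat_lit 16542, nat_lit 18486, nat_lit 17838, nat_lit 18018, nat_lit 17994] (nat_lit 2) [] false,
   Spec.mk (nat_lit 18010) (nat_lit 0) [nat_lit 31132, nat_lit 16552, nat_lit 18496, nat_lit 17848, nat_lit 18064, nat_lit 17992, nat_lit 18012] (nat_lit 2) [nat_lit 37692] false,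
   Spec.mk (nat_lit 18012) (nat_lit 0) [nat_lit 31134, nat_lit 16554, nat_lit 18498, nat_lit 17850, nat_lit 18066, nat_lit 17994, nat_lit 18018, nat_lit 18010] (nat_lit 2) [] false,
   Spec.mk (nat_lit 18018) (nat_lit 0) [nat_lit 31140, nat_lit 16560, nat_lit 18504, nat_lit 17856, nat_lit 18072, nat_lit 18000, nat_lit 18036, nat_lit 18012] (nat_lit 1) [] false,
   Spec.mk (nat_lit 18036) (nat_lit 0) [nat_lit 31158, nat_lit 16578, nat_lit 18522, nat_lit 17874, nat_lit 18090, nat_lit 18018] (nat_lit 2) [] false,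
   Spec.mk (nat_lit 18064) (nat_lit 0) [nat_lit 31186, nat_lit 16606, nat_lit 18550, nat_lit 17902, nat_lit 18010, nat_lit 18066] (nat_lit 0) [nat_lit 37746] false,
   Spec.mk (nat_lit 18066) (nat_lit 0) [nat_lit 31188, nat_lit 16608, nat_lit 18552, nat_lit 17904, nat_lit 18012, nat_lit 18072, nat_lit 18064] (nat_lit 0) [] false,
   Spec.mk (nat_lit 18072) (nat_lit 0) [nat_lit 31194, nat_lit 16614, nat_lit 18558, nat_lit 17910, nat_lit 18018, nat_lit 18090, nat_lit 18066] (nat_lit 0) [] false,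
   Spec.mk (nat_lit 18090) (nat_lit 1) [nat_lit 31212, nat_lit 16632, nat_lit 18576, nat_lit 17928, nat_lit 18036, nat_lit 18144, nat_lit 18072] (nat_lit 0) [] false,
   Spec.mk (nat_lit 18144) (nat_lit 2) [nat_lit 31266, nat_lit 16686, nat_lit 18630, nat_lit 18090] (nat_lit 0) [] false,
   Spec.mk (nat_lit 18230) (nat_lit 2) [nat_lit 31352, nat_lit 16772, nat_lit 17744, nat_lit 18236, nat_lit 18232] (nat_lit 0) [nat_lit 37912] false,
   Spec.mk (nat_lit 18232) (nat_lit 2) [nat_lit 31354, nat_lit 16774, nat_lit 17746, nat_lit 18238, nat_lit 18230] (nat_lit 0) [nat_lit 37914] false,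
   Spec.mk (nat_lit 18236) (nat_lit 0) [nat_lit 31358, nat_lit 16778, nat_lit 17750, nat_lit 18254, nat_lit 18230, nat_lit 18238] (nat_lit 0) [nat_lit 37918] false,
   Spec.mk (nat_lit 18238) (nat_lit 2) [nat_lit 31360, nat_lit 16780, nat_lit 17752, nat_lit 18256, nat_lit 18232, nat_lit 18244, nat_lit 18236, nat_lit 18240] (nat_lit 0) [nat_lit 37920] false,
   Spec.mk (nat_lit 18240) (nat_lit 2) [nat_lit 31362, nat_lit 16782, nat_lit 17754, nat_lit 18258, nat_lit 18246, nat_lit 18238] (nat_lit 0) [] false,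
   Spec.mk (nat_lit 18244) (nat_lit 0) [nat_lit 31366, nat_lit 16786, nat_lit 17758, nat_lit 18262, nat_lit 18238, nat_lit 18246] (nat_lit 0) [nat_lit 37926] false,
   Spec.mk (nat_lit 18246) (nat_lit 2) [nat_lit 31368, nat_lit 16788, nat_lit 17760, nat_lit 18264, nat_lit 18240, nat_lit 18244] (nat_lit 0) [] false,
   Spec.mk (nat_lit 18254) (nat_lit 0) [nat_lit 31376, nat_lit 16796, nat_lit 17768, nat_lit 18308, nat_lit 18236, nat_lit 18256] (nat_lit 0) [nat_lit 37936] false,
   Spec.mk (nat_lit 18256) (nat_lit 1) [nat_lit 31378, nat_lit 16798, nat_lit 17770, nat_lit 18310, nat_lit 18238, nat_lit 18262, nat_lit 18254, nat_lit 18258] (nat_lit 0) [nat_lit 37938] false,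
   Spec.mk (nat_lit 18258) (nat_lit 0) [nat_lit 31380, nat_lit 16800, nat_lit 17772, nat_lit 18312, nat_lit 18240, nat_lit 18264, nat_lit 18256] (nat_lit 0) [] false,
   Spec.mk (nat_lit 18262) (nat_lit 1) [nat_lit 31384, nat_lit 16804, nat_lit 17776, nat_lit 18316, nat_lit 18244, nat_lit 18280, nat_lit 18256, nat_lit 18264] (nat_lit 0) [nat_lit 37944] false,
   Spec.mk (nat_lit 18264) (nat_lit 2) [nat_lit 31386, nat_lit 16806, nat_lit 17778, nat_lit 18318, nat_lit 18246, nat_lit 18282, nat_lit 18258, nat_lit 18270, nat_lit 18262] (nat_lit 0) [] false,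
   Spec.mk (nat_lit 18270) (nat_lit 2) [nat_lit 31392, nat_lit 16812, nat_lit 17784, nat_lit 18324, nat_lit 18288, nat_lit 18264] (nat_lit 0) [] false,
   Spec.mk (nat_lit 18280) (nat_lit 0) [nat_lit 31402, nat_lit 16822, nat_lit 17794, nat_lit 18334, nat_lit 18262, nat_lit 18282] (nat_lit 0) [nat_lit 37962] false,
   Spec.mk (nat_lit 18282) (nat_lit 0) [nat_lit 31404, nat_lit 16824, nat_lit 17796, nat_lit 18336, nat_lit 18264, nat_lit 18288, nat_lit 18280] (nat_lit 0) [] false,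
   Spec.mk (nat_lit 18288) (nat_lit 2) [nat_lit 31410, nat_lit 16830, nat_lit 17802, nat_lit 18342, nat_lit 18270, nat_lit 18282] (nat_lit 0) [] false,
   Spec.mk (nat_lit 18308) (nat_lit 0) [nat_lit 31430, nat_lit 16850, nat_lit 17822, nat_lit 18470, nat_lit 18254, nat_lit 18310] (nat_lit 0) [nat_lit 37990] false,
   Spec.mk (nat_lit 18310) (nat_lit 1) [nat_lit 31432, nat_lit 16852, nat_lit 17824, nat_lit 18472, nat_lit 18256, nat_lit 18316, nat_lit 18308, nat_lit 18312] (nat_lit 0) [nat_lit 37992] false,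
   Spec.mk (nat_lit 18312) (nat_lit 0) [nat_lit 31434, nat_lit 16854, nat_lit 17826, nat_lit 18474, nat_lit 18258, nat_lit 18318, nat_lit 18310] (nat_lit 0) [] false,
   Spec.mk (nat_lit 18316) (nat_lit 0) [nat_lit 31438, nat_lit 16858, nat_lit 17830, nat_lit 18478, nat_lit 18262, nat_lit 18334, nat_lit 18310, nat_lit 18318] (nat_lit 0) [nat_lit 37998] false,
   Spec.mk (nat_lit 18318) (nat_lit 1) [nat_lit 31440, nat_lit 16860, nat_lit 17832, nat_lit 18480, nat_lit 18264, nat_lit 18336, nat_lit 18312, nat_lit 18324, nat_lit 18316] (nat_lit 0) [] false,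
   Spec.mk (nat_lit 18324) (nat_lit 0) [nat_lit 31446, nat_lit 16866, nat_lit 17838, nat_lit 18486, nat_lit 18270, nat_lit 18342, nat_lit 18318] (nat_lit 0) [] false,
   Spec.mk (nat_lit 18334) (nat_lit 1) [nat_lit 31456, nat_lit 16876, nat_lit 17848, nat_lit 18496, nat_lit 18280, nat_lit 18388, nat_lit 18316, nat_lit 18336] (nat_lit 0) [nat_lit 38016] false,
   Spec.mk (nat_lit 18336) (nat_lit 1) [nat_lit 31458, nat_lit 16878, nat_lit 17850, nat_lit 18498, nat_lit 18282, nat_lit 18390, nat_lit 18318, nat_lit 18342, nat_lit 18334] (nat_lit 0) [] false,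
   Spec.mk (nat_lit 18342) (nat_lit 2) [nat_lit 31464, nat_lit 16884, nat_lit 17856, nat_lit 18504, nat_lit 18288, nat_lit 18396, nat_lit 18324, nat_lit 18360, nat_lit 18336] (nat_lit 0) [] false,
   Spec.mk (nat_lit 18360) (nat_lit 2) [nat_lit 31482, nat_lit 16902, nat_lit 17874, nat_lit 18522, nat_lit 18414, nat_lit 18342] (nat_lit 0) [] false,
   Spec.mk (nat_lit 18388) (nat_lit 0) [nat_lit 31510, nat_lit 16930, nat_lit 17902, nat_lit 18550, nat_lit 18334, nat_lit 18390] (nat_lit 0) [nat_lit 38070] false,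
   Spec.mk (nat_lit 18390) (nat_lit 0) [nat_lit 31512, nat_lit 16932, nat_lit 17904, nat_lit 18552, nat_lit 18336, nat_lit 18396, nat_lit 18388] (nat_lit 0) [] false,
   Spec.mk (nat_lit 18396) (nat_lit 0) [nat_lit 31518, nat_lit 16938, nat_lit 17910, nat_lit 18558, nat_lit 18342, nat_lit 18414, nat_lit 18390] (nat_lit 0) [] false,
   Spec.mk (nat_lit 18414) (nat_lit 2) [nat_lit 31536, nat_lit 16956, nat_lit 17928, nat_lit 18576, nat_lit 18360, nat_lit 18396] (nat_lit 0) [] false,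
   Spec.mk (nat_lit 18470) (nat_lit 1) [nat_lit 31592, nat_lit 17012, nat_lit 17984, nat_lit 18956, nat_lit 18308, nat_lit 18472] (nat_lit 0) [nat_lit 38152] false,
   Spec.mk (nat_lit 18472) (nat_lit 2) [nat_lit 31594, nat_lit 17014, nat_lit 17986, nat_lit 18958, nat_lit 18310, nat_lit 18478, nat_lit 18470, nat_lit 18474] (nat_lit 0) [nat_lit 38154] false,
   Spec.mk (nat_lit 18474) (nat_lit 1) [nat_lit 31596, nat_lit 17016, nat_lit 17988, nat_lit 18960, nat_lit 18312, nat_lit 18480, nat_lit 18472] (nat_lit 0) [] false,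
   Spec.mk (nat_lit 18478) (nat_lit 1) [nat_lit 31600, nat_lit 17020, nat_lit 17992, nat_lit 18964, nat_lit 18316, nat_lit 18496, nat_lit 18472, nat_lit 18480] (nat_lit 0) [nat_lit 38160] false,
   Spec.mk (nat_lit 18480) (nat_lit 2) [nat_lit 31602, nat_lit 17022, nat_lit 17994, nat_lit 18966, nat_lit 18318, nat_lit 18498, nat_lit 18474, nat_lit 18486, nat_lit 18478] (nat_lit 0) [] false,
   Spec.mk (nat_lit 18486) (nat_lit 1) [nat_lit 31608, nat_lit 17028, nat_lit 18000, nat_lit 18972, nat_lit 18324, nat_lit 18504, nat_lit 18480] (nat_lit 0) [] false,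
   Spec.mk (nat_lit 18496) (nat_lit 1) [nat_lit 31618, nat_lit 17038, nat_lit 18010, nat_lit 18982, nat_lit 18334, nat_lit 18550, nat_lit 18478, nat_lit 18498] (nat_lit 0) [nat_lit 38178] false,
   Spec.mk (nat_lit 18498) (nat_lit 1) [nat_lit 31620, nat_lit 17040, nat_lit 18012, nat_lit 18984, nat_lit 18336, nat_lit 18552, nat_lit 18480, nat_lit 18504, nat_lit 18496] (nat_lit 0) [] false,
   Spec.mk (nat_lit 18504) (nat_lit 2) [nat_lit 31626, nat_lit 17046, nat_lit 18018, nat_lit 18990, nat_lit 18342, nat_lit 18558, nat_lit 18486, nat_lit 18522, nat_lit 18498] (nat_lit 0) [] false,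
   Spec.mk (nat_lit 18522) (nat_lit 1) [nat_lit 31644, nat_lit 17064, nat_lit 18036, nat_lit 19008, nat_lit 18360, nat_lit 18576, nat_lit 18504] (nat_lit 0) [] false,
   Spec.mk (nat_lit 18550) (nat_lit 2) [nat_lit 31672, nat_lit 17092, nat_lit 18064, nat_lit 19036, nat_lit 18388, nat_lit 18712, nat_lit 18496, nat_lit 18552] (nat_lit 0) [nat_lit 38232] false,
   Spec.mk (nat_lit 18552) (nat_lit 2) [nat_lit 31674, nat_lit 17094, nat_lit 18066, nat_lit 19038, nat_lit 18390, nat_lit 18714, nat_lit 18498, nat_lit 18558, nat_lit 18550] (nat_lit 0) [] false,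
   Spec.mk (nat_lit 18558) (nat_lit 2) [nat_lit 31680, nat_lit 17100, nat_lit 18072, nat_lit 19044, nat_lit 18396, nat_lit 18720, nat_lit 18504, nat_lit 18576, nat_lit 18552] (nat_lit 0) [] false,
   Spec.mk (nat_lit 18576) (nat_lit 3) [nat_lit 31698, nat_lit 17118, nat_lit 18090, nat_lit 19062, nat_lit 18414, nat_lit 18738, nat_lit 18522, nat_lit 18630, nat_lit 18558] (nat_lit 0) [] false]

noncomputable def sp48 : List Spec :=
  [Spec.mk (nat_lit 18630) (nat_lit 3) [nat_lit 31752, nat_lit 17172, nat_lit 18144, nat_lit 19116, nat_lit 18792, nat_lit 18576] (nat_lit 0) [] false,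
   Spec.mk (nat_lit 18712) (nat_lit 2) [nat_lit 31834, nat_lit 17254, nat_lit 19198, nat_lit 18550, nat_lit 18714] (nat_lit 0) [nat_lit 38394] false,
   Spec.mk (nat_lit 18714) (nat_lit 2) [nat_lit 31836, nat_lit 17256, nat_lit 19200, nat_lit 18552, nat_lit 18720, nat_lit 18712] (nat_lit 0) [] false,
   Spec.mk (nat_lit 18720) (nat_lit 2) [nat_lit 31842, nat_lit 17262, nat_lit 19206, nat_lit 18558, nat_lit 18738, nat_lit 18714] (nat_lit 0) [] false,
   Spec.mk (nat_lit 18738) (nat_lit 2) [nat_lit 31860, nat_lit 17280, nat_lit 19224, nat_lit 18576, nat_lit 18792, nat_lit 18720] (nat_lit 0) [] false,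
   Spec.mk (nat_lit 18792) (nat_lit 4) [nat_lit 31914, nat_lit 17334, nat_lit 19278, nat_lit 18630, nat_lit 18738] (nat_lit 0) [] false,
   Spec.mk (nat_lit 18956) (nat_lit 2) [nat_lit 32078, nat_lit 18470, nat_lit 18958] (nat_lit 0) [nat_lit 38638] false,
   Spec.mk (nat_lit 18958) (nat_lit 3) [nat_lit 32080, nat_lit 18472, nat_lit 18964, nat_lit 18956, nat_lit 18960] (nat_lit 0) [nat_lit 38640] false,
   Spec.mk (nat_lit 18960) (nat_lit 2) [nat_lit 32082, nat_lit 18474, nat_lit 18966, nat_lit 18958] (nat_lit 0) [] false,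
   Spec.mk (nat_lit 18964) (nat_lit 2) [nat_lit 32086, nat_lit 18478, nat_lit 18982, nat_lit 18958, nat_lit 18966] (nat_lit 0) [nat_lit 38646] false,
   Spec.mk (nat_lit 18966) (nat_lit 3) [nat_lit 32088, nat_lit 18480, nat_lit 18984, nat_lit 18960, nat_lit 18972, nat_lit 18964] (nat_lit 0) [] false,
   Spec.mk (nat_lit 18972) (nat_lit 2) [nat_lit 32094, nat_lit 18486, nat_lit 18990, nat_lit 18966] (nat_lit 0) [] false,
   Spec.mk (nat_lit 18982) (nat_lit 2) [nat_lit 32104, nat_lit 18496, nat_lit 19036, nat_lit 18964, nat_lit 18984] (nat_lit 0) [nat_lit 38664] false,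
   Spec.mk (nat_lit 18984) (nat_lit 2) [nat_lit 32106, nat_lit 18498, nat_lit 19038, nat_lit 18966, nat_lit 18990, nat_lit 18982] (nat_lit 0) [] false,
   Spec.mk (nat_lit 18990) (nat_lit 3) [nat_lit 32112, nat_lit 18504, nat_lit 19044, nat_lit 18972, nat_lit 19008, nat_lit 18984] (nat_lit 0) [] false,
   Spec.mk (nat_lit 19008) (nat_lit 2) [nat_lit 32130, nat_lit 18522, nat_lit 19062, nat_lit 18990] (nat_lit 0) [] false,
   Spec.mk (nat_lit 19036) (nat_lit 2) [nat_lit 32158, nat_lit 18550, nat_lit 19198, nat_lit 18982, nat_lit 19038] (nat_lit 0) [nat_lit 38718] false,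
   Spec.mk (nat_lit 19038) (nat_lit 2) [nat_lit 32160, nat_lit 18552, nat_lit 19200, nat_lit 18984, nat_lit 19044, nat_lit 19036] (nat_lit 0) [] false,
   Spec.mk (nat_lit 19044) (nat_lit 2) [nat_lit 32166, nat_lit 18558, nat_lit 19206, nat_lit 18990, nat_lit 19062, nat_lit 19038] (nat_lit 0) [] false,
   Spec.mk (nat_lit 19062) (nat_lit 3) [nat_lit 32184, nat_lit 18576, nat_lit 19224, nat_lit 19008, nat_lit 19116, nat_lit 19044] (nat_lit 0) [] false,
   Spec.mk (nat_lit 19116) (nat_lit 2) [nat_lit 32238, nat_lit 18630, nat_lit 19278, nat_lit 19062] (nat_lit 0) [] false,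
   Spec.mk (nat_lit 19198) (nat_lit 4) [nat_lit 32320, nat_lit 18712, nat_lit 19036, nat_lit 19200] (nat_lit 0) [nat_lit 38880] false,
   Spec.mk (nat_lit 19200) (nat_lit 4) [nat_lit 32322, nat_lit 18714, nat_lit 19038, nat_lit 19206, nat_lit 19198] (nat_lit 0) [] false,
   Spec.mk (nat_lit 19206) (nat_lit 4) [nat_lit 32328, nat_lit 18720, nat_lit 19044, nat_lit 19224, nat_lit 19200] (nat_lit 0) [] false,
   Spec.mk (nat_lit 19224) (nat_lit 4) [nat_lit 32346, nat_lit 18738, nat_lit 19062, nat_lit 19278, nat_lit 19206] (nat_lit 0) [] false,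
   Spec.mk (nat_lit 19278) (nat_lit 5) [nat_lit 32400, nat_lit 18792, nat_lit 19116, nat_lit 19440, nat_lit 19224] (nat_lit 0) [] false,
   Spec.mk (nat_lit 19440) (nat_lit 6) [nat_lit 32562, nat_lit 19278] (nat_lit 0) [] false,
   Spec.mk (nat_lit 19736) (nat_lit 6) [nat_lit 6614, nat_lit 19790, nat_lit 19754] (nat_lit 0) [nat_lit 39418] false,
   Spec.mk (nat_lit 19754) (nat_lit 4) [nat_lit 6632, nat_lit 19808, nat_lit 19736, nat_lit 19760] (nat_lit 0) [nat_lit 39436] false,
   Spec.mk (nat_lit 19760) (nat_lit 4) [nat_lit 6638, nat_lit 19814, nat_lit 19754, nat_lit 19762] (nat_lit 0) [nat_lit 39442] false,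
   Spec.mk (nat_lit 19762) (nat_lit 5) [nat_lit 6640, nat_lit 19816, nat_lit 19760] (nat_lit 0) [nat_lit 39444, nat_lit 80] false,
   Spec.mk (nat_lit 19790) (nat_lit 4) [nat_lit 6668, nat_lit 19952, nat_lit 19736, nat_lit 19808] (nat_lit 0) [nat_lit 39472] false,
   Spec.mk (nat_lit 19808) (nat_lit 4) [nat_lit 6686, nat_lit 19970, nat_lit 19754, nat_lit 19862, nat_lit 19790, nat_lit 19826, nat_lit 19814] (nat_lit 0) [nat_lit 39490] false,
   Spec.mk (nat_lit 19814) (nat_lit 3) [nat_lit 6692, nat_lit 19976, nat_lit 19760, nat_lit 19868, nat_lit 19832, nat_lit 19808, nat_lit 19816] (nat_lit 0) [nat_lit 39496] false,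
   Spec.mk (nat_lit 19816) (nat_lit 4) [nat_lit 6694, nat_lit 19978, nat_lit 19762, nat_lit 19870, nat_lit 19834, nat_lit 19814] (nat_lit 0) [nat_lit 39498, nat_lit 134] false,
   Spec.mk (nat_lit 19826) (nat_lit 2) [nat_lit 6704, nat_lit 19988, nat_lit 19880, nat_lit 19808, nat_lit 19832] (nat_lit 0) [nat_lit 39508] false,
   Spec.mk (nat_lit 19832) (nat_lit 3) [nat_lit 6710, nat_lit 19994, nat_lit 19886, nat_lit 19814, nat_lit 19826, nat_lit 19838, nat_lit 19834] (nat_lit 0) [nat_lit 39514] false,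
   Spec.mk (nat_lit 19834) (nat_lit 3) [nat_lit 6712, nat_lit 19996, nat_lit 19888, nat_lit 19816, nat_lit 19840, nat_lit 19832] (nat_lit 0) [nat_lit 39516, nat_lit 152] false,
   Spec.mk (nat_lit 19838) (nat_lit 2) [nat_lit 6716, nat_lit 20000, nat_lit 19892, nat_lit 19832, nat_lit 19840] (nat_lit 0) [nat_lit 39520] false,
   Spec.mk (nat_lit 19840) (nat_lit 4) [nat_lit 6718, nat_lit 20002, nat_lit 19894, nat_lit 19834, nat_lit 19838, nat_lit 19842] (nat_lit 0) [nat_lit 39522, nat_lit 158] false,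
   Spec.mk (nat_lit 19842) (nat_lit 4) [nat_lit 6720, nat_lit 20004, nat_lit 19896, nat_lit 19840] (nat_lit 0) [nat_lit 160] false,
   Spec.mk (nat_lit 19862) (nat_lit 2) [nat_lit 6740, nat_lit 20024, nat_lit 19808, nat_lit 19880, nat_lit 19868] (nat_lit 0) [nat_lit 39544] false,
   Spec.mk (nat_lit 19868) (nat_lit 0) [nat_lit 6746, nat_lit 20030, nat_lit 19814, nat_lit 19886, nat_lit 19862, nat_lit 19870] (nat_lit 0) [nat_lit 39550] false,
   Spec.mk (nat_lit 19870) (nat_lit 1) [nat_lit 6748, nat_lit 20032, nat_lit 19816, nat_lit 19888, nat_lit 19868] (nat_lit 0) [nat_lit 39552, nat_lit 188] false,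
   Spec.mk (nat_lit 19880) (nat_lit 2) [nat_lit 6758, nat_lit 20042, nat_lit 19826, nat_lit 19862, nat_lit 19886] (nat_lit 0) [nat_lit 39562] false,
   Spec.mk (nat_lit 19886) (nat_lit 2) [nat_lit 6764, nat_lit 20048, nat_lit 19832, nat_lit 19868, nat_lit 19904, nat_lit 19880, nat_lit 19892, nat_lit 19888] (nat_lit 0) [nat_lit 39568] false,
   Spec.mk (nat_lit 19888) (nat_lit 2) [nat_lit 6766, nat_lit 20050, nat_lit 19834, nat_lit 19870, nat_lit 19906, nat_lit 19894, nat_lit 19886] (nat_lit 0) [nat_lit 39570, nat_lit 206] false,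
   Spec.mk (nat_lit 19892) (nat_lit 0) [nat_lit 6770, nat_lit 20054, nat_lit 19838, nat_lit 19910, nat_lit 19886, nat_lit 19894] (nat_lit 0) [nat_lit 39574] false,
   Spec.mk (nat_lit 19894) (nat_lit 2) [nat_lit 6772, nat_lit 20056, nat_lit 19840, nat_lit 19912, nat_lit 19888, nat_lit 19892, nat_lit 19896] (nat_lit 0) [nat_lit 39576, nat_lit 212] false,
   Spec.mk (nat_lit 19896) (nat_lit 2) [nat_lit 6774, nat_lit 20058, nat_lit 19842, nat_lit 19914, nat_lit 19894] (nat_lit 0) [nat_lit 214] false,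
   Spec.mk (nat_lit 19904) (nat_lit 2) [nat_lit 6782, nat_lit 20066, nat_lit 19886, nat_lit 19910, nat_lit 19906] (nat_lit 0) [nat_lit 39586] false,
   Spec.mk (nat_lit 19906) (nat_lit 1) [nat_lit 6784, nat_lit 20068, nat_lit 19888, nat_lit 19912, nat_lit 19904] (nat_lit 0) [nat_lit 39588, nat_lit 224] false,
   Spec.mk (nat_lit 19910) (nat_lit 2) [nat_lit 6788, nat_lit 20072, nat_lit 19892, nat_lit 19904, nat_lit 19912] (nat_lit 0) [nat_lit 39592] false,
   Spec.mk (nat_lit 19912) (nat_lit 3) [nat_lit 6790, nat_lit 20074, nat_lit 19894, nat_lit 19906, nat_lit 19918, nat_lit 19910, nat_lit 19914] (nat_lit 0) [nat_lit 39594, nat_lit 230] false,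
   Spec.mk (nat_lit 19914) (nat_lit 2) [nat_lit 6792, nat_lit 20076, nat_lit 19896, nat_lit 19920, nat_lit 19912] (nat_lit 0) [nat_lit 232] false,
   Spec.mk (nat_lit 19918) (nat_lit 3) [nat_lit 6796, nat_lit 20080, nat_lit 19912, nat_lit 19920] (nat_lit 0) [nat_lit 39600, nat_lit 236] false,
   Spec.mk (nat_lit 19920) (nat_lit 4) [nat_lit 6798, nat_lit 20082, nat_lit 19914, nat_lit 19918] (nat_lit 0) [nat_lit 238] false,
   Spec.mk (nat_lit 19952) (nat_lit 4) [nat_lit 6830, nat_lit 20438, nat_lit 19790, nat_lit 19970] (nat_lit 0) [nat_lit 39634] false,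
   Spec.mk (nat_lit 19970) (nat_lit 3) [nat_lit 6848, nat_lit 20456, nat_lit 19808, nat_lit 20024, nat_lit 19952, nat_lit 19988, nat_lit 19976] (nat_lit 0) [nat_lit 39652] false,
   Spec.mk (nat_lit 19976) (nat_lit 2) [nat_lit 6854, nat_lit 20462, nat_lit 19814, nat_lit 20030, nat_lit 19994, nat_lit 19970, nat_lit 19978] (nat_lit 0) [nat_lit 39658] false]

noncomputable def sp49 : List Spec :=
  [Spec.mk (nat_lit 19978) (nat_lit 3) [nat_lit 6856, nat_lit 20464, nat_lit 19816, nat_lit 20032, nat_lit 19996, nat_lit 19976] (nat_lit 0) [nat_lit 39660, nat_lit 296] false,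
   Spec.mk (nat_lit 19988) (nat_lit 0) [nat_lit 6866, nat_lit 20474, nat_lit 19826, nat_lit 20042, nat_lit 19970, nat_lit 19994] (nat_lit 0) [nat_lit 39670] false,
   Spec.mk (nat_lit 19994) (nat_lit 1) [nat_lit 6872, nat_lit 20480, nat_lit 19832, nat_lit 20048, nat_lit 19976, nat_lit 19988, nat_lit 20000, nat_lit 19996] (nat_lit 0) [nat_lit 39676] false,
   Spec.mk (nat_lit 19996) (nat_lit 1) [nat_lit 6874, nat_lit 20482, nat_lit 19834, nat_lit 20050, nat_lit 19978, nat_lit 20002, nat_lit 19994] (nat_lit 0) [nat_lit 39678, nat_lit 314] false,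
   Spec.mk (nat_lit 20000) (nat_lit 0) [nat_lit 6878, nat_lit 20486, nat_lit 19838, nat_lit 20054, nat_lit 19994, nat_lit 20002] (nat_lit 0) [nat_lit 39682] false,
   Spec.mk (nat_lit 20002) (nat_lit 2) [nat_lit 6880, nat_lit 20488, nat_lit 19840, nat_lit 20056, nat_lit 19996, nat_lit 20000, nat_lit 20004] (nat_lit 0) [nat_lit 39684, nat_lit 320] false,
   Spec.mk (nat_lit 20004) (nat_lit 2) [nat_lit 6882, nat_lit 20490, nat_lit 19842, nat_lit 20058, nat_lit 20002] (nat_lit 0) [nat_lit 322] false,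
   Spec.mk (nat_lit 20024) (nat_lit 3) [nat_lit 6902, nat_lit 20510, nat_lit 19862, nat_lit 20186, nat_lit 19970, nat_lit 20042, nat_lit 20030] (nat_lit 0) [nat_lit 39706] false,
   Spec.mk (nat_lit 20030) (nat_lit 1) [nat_lit 6908, nat_lit 20516, nat_lit 19868, nat_lit 20192, nat_lit 19976, nat_lit 20048, nat_lit 20024, nat_lit 20032] (nat_lit 0) [nat_lit 39712] false,
   Spec.mk (nat_lit 20032) (nat_lit 2) [nat_lit 6910, nat_lit 20518, nat_lit 19870, nat_lit 20194, nat_lit 19978, nat_lit 20050, nat_lit 20030] (nat_lit 0) [nat_lit 39714, nat_lit 350] false,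
   Spec.mk (nat_lit 20042) (nat_lit 2) [nat_lit 6920, nat_lit 20528, nat_lit 19880, nat_lit 20204, nat_lit 19988, nat_lit 20096, nat_lit 20024, nat_lit 20048] (nat_lit 0) [nat_lit 39724] false,
   Spec.mk (nat_lit 20048) (nat_lit 2) [nat_lit 6926, nat_lit 20534, nat_lit 19886, nat_lit 20210, nat_lit 19994, nat_lit 20102, nat_lit 20030, nat_lit 20066, nat_lit 20042, nat_lit 20054, nat_lit 20050] (nat_lit 0) [nat_lit 39730] false,
   Spec.mk (nat_lit 20050) (nat_lit 2) [nat_lit 6928, nat_lit 20536, nat_lit 19888, nat_lit 20212, nat_lit 19996, nat_lit 20104, nat_lit 20032, nat_lit 20068, nat_lit 20056, nat_lit 20048] (nat_lit 0) [nat_lit 39732, nat_lit 368] false,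
   Spec.mk (nat_lit 20054) (nat_lit 0) [nat_lit 6932, nat_lit 20540, nat_lit 19892, nat_lit 20216, nat_lit 20000, nat_lit 20108, nat_lit 20072, nat_lit 20048, nat_lit 20056] (nat_lit 0) [nat_lit 39736] false,
   Spec.mk (nat_lit 20056) (nat_lit 2) [nat_lit 6934, nat_lit 20542, nat_lit 19894, nat_lit 20218, nat_lit 20002, nat_lit 20110, nat_lit 20074, nat_lit 20050, nat_lit 20054, nat_lit 20058] (nat_lit 0) [nat_lit 39738, nat_lit 374] false,
   Spec.mk (nat_lit 20058) (nat_lit 2) [nat_lit 6936, nat_lit 20544, nat_lit 19896, nat_lit 20220, nat_lit 20004, nat_lit 20112, nat_lit 20076, nat_lit 20056] (nat_lit 0) [nat_lit 376] false,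
   Spec.mk (nat_lit 20066) (nat_lit 1) [nat_lit 6944, nat_lit 20552, nat_lit 19904, nat_lit 20228, nat_lit 20120, nat_lit 20048, nat_lit 20072, nat_lit 20068] (nat_lit 0) [nat_lit 39748] false,
   Spec.mk (nat_lit 20068) (nat_lit 0) [nat_lit 6946, nat_lit 20554, nat_lit 19906, nat_lit 20230, nat_lit 20122, nat_lit 20050, nat_lit 20074, nat_lit 20066] (nat_lit 0) [nat_lit 39750, nat_lit 386] false,
   Spec.mk (nat_lit 20072) (nat_lit 1) [nat_lit 6950, nat_lit 20558, nat_lit 19910, nat_lit 20234, nat_lit 20126, nat_lit 20054, nat_lit 20066, nat_lit 20074] (nat_lit 0) [nat_lit 39754] false,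
   Spec.mk (nat_lit 20074) (nat_lit 2) [nat_lit 6952, nat_lit 20560, nat_lit 19912, nat_lit 20236, nat_lit 20128, nat_lit 20056, nat_lit 20068, nat_lit 20080, nat_lit 20072, nat_lit 20076] (nat_lit 0) [nat_lit 39756, nat_lit 392] false,
   Spec.mk (nat_lit 20076) (nat_lit 1) [nat_lit 6954, nat_lit 20562, nat_lit 19914, nat_lit 20238, nat_lit 20130, nat_lit 20058, nat_lit 20082, nat_lit 20074] (nat_lit 0) [nat_lit 394] false,
   Spec.mk (nat_lit 20080) (nat_lit 2) [nat_lit 6958, nat_lit 20566, nat_lit 19918, nat_lit 20242, nat_lit 20134, nat_lit 20074, nat_lit 20082] (nat_lit 0) [nat_lit 39762, nat_lit 398] false,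
   Spec.mk (nat_lit 20082) (nat_lit 3) [nat_lit 6960, nat_lit 20568, nat_lit 19920, nat_lit 20244, nat_lit 20136, nat_lit 20076, nat_lit 20080] (nat_lit 0) [nat_lit 400] false,
   Spec.mk (nat_lit 20096) (nat_lit 2) [nat_lit 6974, nat_lit 20582, nat_lit 20258, nat_lit 20042, nat_lit 20102] (nat_lit 0) [nat_lit 39778] false,
   Spec.mk (nat_lit 20102) (nat_lit 1) [nat_lit 6980, nat_lit 20588, nat_lit 20264, nat_lit 20048, nat_lit 20120, nat_lit 20096, nat_lit 20108, nat_lit 20104] (nat_lit 0) [nat_lit 39784] false,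
   Spec.mk (nat_lit 20104) (nat_lit 1) [nat_lit 6982, nat_lit 20590, nat_lit 20266, nat_lit 20050, nat_lit 20122, nat_lit 20110, nat_lit 20102] (nat_lit 0) [nat_lit 39786, nat_lit 422] false,
   Spec.mk (nat_lit 20108) (nat_lit 0) [nat_lit 6986, nat_lit 20594, nat_lit 20270, nat_lit 20054, nat_lit 20126, nat_lit 20102, nat_lit 20110] (nat_lit 2) [nat_lit 39790] false,
   Spec.mk (nat_lit 20110) (nat_lit 0) [nat_lit 6988, nat_lit 20596, nat_lit 20272, nat_lit 20056, nat_lit 20128, nat_lit 20104, nat_lit 20108, nat_lit 20112] (nat_lit 0) [nat_lit 39792, nat_lit 428] false,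
   Spec.mk (nat_lit 20112) (nat_lit 0) [nat_lit 6990, nat_lit 20598, nat_lit 20274, nat_lit 20058, nat_lit 20130, nat_lit 20110] (nat_lit 0) [nat_lit 430] false,
   Spec.mk (nat_lit 20120) (nat_lit 2) [nat_lit 6998, nat_lit 20606, nat_lit 20282, nat_lit 20066, nat_lit 20102, nat_lit 20126, nat_lit 20122] (nat_lit 0) [nat_lit 39802] false,
   Spec.mk (nat_lit 20122) (nat_lit 1) [nat_lit 7000, nat_lit 20608, nat_lit 20284, nat_lit 20068, nat_lit 20104, nat_lit 20128, nat_lit 20120] (nat_lit 0) [nat_lit 39804, nat_lit 440] false,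
   Spec.mk (nat_lit 20126) (nat_lit 1) [nat_lit 7004, nat_lit 20612, nat_lit 20288, nat_lit 20072, nat_lit 20108, nat_lit 20144, nat_lit 20120, nat_lit 20128] (nat_lit 0) [nat_lit 39808] false,
   Spec.mk (nat_lit 20128) (nat_lit 2) [nat_lit 7006, nat_lit 20614, nat_lit 20290, nat_lit 20074, nat_lit 20110, nat_lit 20146, nat_lit 20122, nat_lit 20134, nat_lit 20126, nat_lit 20130] (nat_lit 0) [nat_lit 39810, nat_lit 446] false,
   Spec.mk (nat_lit 20130) (nat_lit 1) [nat_lit 7008, nat_lit 20616, nat_lit 20292, nat_lit 20076, nat_lit 20112, nat_lit 20148, nat_lit 20136, nat_lit 20128] (nat_lit 0) [nat_lit 448] false,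
   Spec.mk (nat_lit 20134) (nat_lit 1) [nat_lit 7012, nat_lit 20620, nat_lit 20296, nat_lit 20080, nat_lit 20152, nat_lit 20128, nat_lit 20136] (nat_lit 0) [nat_lit 39816, nat_lit 452] false,
   Spec.mk (nat_lit 20136) (nat_lit 2) [nat_lit 7014, nat_lit 20622, nat_lit 20298, nat_lit 20082, nat_lit 20154, nat_lit 20130, nat_lit 20134] (nat_lit 0) [nat_lit 454] false,
   Spec.mk (nat_lit 20144) (nat_lit 2) [nat_lit 7022, nat_lit 20630, nat_lit 20306, nat_lit 20126, nat_lit 20146] (nat_lit 0) [nat_lit 39826] false,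
   Spec.mk (nat_lit 20146) (nat_lit 2) [nat_lit 7024, nat_lit 20632, nat_lit 20308, nat_lit 20128, nat_lit 20152, nat_lit 20144, nat_lit 20148] (nat_lit 0) [nat_lit 39828, nat_lit 464] false,
   Spec.mk (nat_lit 20148) (nat_lit 0) [nat_lit 7026, nat_lit 20634, nat_lit 20310, nat_lit 20130, nat_lit 20154, nat_lit 20146] (nat_lit 0) [nat_lit 466] false,
   Spec.mk (nat_lit 20152) (nat_lit 3) [nat_lit 7030, nat_lit 20638, nat_lit 20314, nat_lit 20134, nat_lit 20146, nat_lit 20154] (nat_lit 0) [nat_lit 39834, nat_lit 470] false,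
   Spec.mk (nat_lit 20154) (nat_lit 3) [nat_lit 7032, nat_lit 20640, nat_lit 20316, nat_lit 20136, nat_lit 20148, nat_lit 20160, nat_lit 20152] (nat_lit 0) [nat_lit 472] false,
   Spec.mk (nat_lit 20160) (nat_lit 4) [nat_lit 7038, nat_lit 20646, nat_lit 20322, nat_lit 20154] (nat_lit 0) [nat_lit 478] false,
   Spec.mk (nat_lit 20186) (nat_lit 2) [nat_lit 7064, nat_lit 20672, nat_lit 20024, nat_lit 20204, nat_lit 20192] (nat_lit 0) [nat_lit 39868] false,
   Spec.mk (nat_lit 20192) (nat_lit 0) [nat_lit 7070, nat_lit 20678, nat_lit 20030, nat_lit 20210, nat_lit 20186, nat_lit 20194] (nat_lit 0) [nat_lit 39874] false,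
   Spec.mk (nat_lit 20194) (nat_lit 1) [nat_lit 7072, nat_lit 20680, nat_lit 20032, nat_lit 20212, nat_lit 20192] (nat_lit 0) [nat_lit 39876, nat_lit 512] false,
   Spec.mk (nat_lit 20204) (nat_lit 0) [nat_lit 7082, nat_lit 20690, nat_lit 20042, nat_lit 20258, nat_lit 20186, nat_lit 20210] (nat_lit 0) [nat_lit 39886] false,
   Spec.mk (nat_lit 20210) (nat_lit 0) [nat_lit 7088, nat_lit 20696, nat_lit 20048, nat_lit 20264, nat_lit 20192, nat_lit 20228, nat_lit 20204, nat_lit 20216, nat_lit 20212] (nat_lit 0) [nat_lit 39892] false,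
   Spec.mk (nat_lit 20212) (nat_lit 0) [nat_lit 7090, nat_lit 20698, nat_lit 20050, nat_lit 20266, nat_lit 20194, nat_lit 20230, nat_lit 20218, nat_lit 20210] (nat_lit 0) [nat_lit 39894, nat_lit 530] false,
   Spec.mk (nat_lit 20216) (nat_lit 0) [nat_lit 7094, nat_lit 20702, nat_lit 20054, nat_lit 20270, nat_lit 20234, nat_lit 20210, nat_lit 20218] (nat_lit 2) [nat_lit 39898] false,
   Spec.mk (nat_lit 20218) (nat_lit 0) [nat_lit 7096, nat_lit 20704, nat_lit 20056, nat_lit 20272, nat_lit 20236, nat_lit 20212, nat_lit 20216, nat_lit 20220] (nat_lit 0) [nat_lit 39900, nat_lit 536] false,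
   Spec.mk (nat_lit 20220) (nat_lit 0) [nat_lit 7098, nat_lit 20706, nat_lit 20058, nat_lit 20274, nat_lit 20238, nat_lit 20218] (nat_lit 0) [nat_lit 538] false,
   Spec.mk (nat_lit 20228) (nat_lit 0) [nat_lit 7106, nat_lit 20714, nat_lit 20066, nat_lit 20282, nat_lit 20210, nat_lit 20234, nat_lit 20230] (nat_lit 2) [nat_lit 39910] false,
   Spec.mk (nat_lit 20230) (nat_lit 0) [nat_lit 7108, nat_lit 20716, nat_lit 20068, nat_lit 20284, nat_lit 20212, nat_lit 20236, nat_lit 20228] (nat_lit 3) [nat_lit 39912, nat_lit 548] false,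
   Spec.mk (nat_lit 20234) (nat_lit 0) [nat_lit 7112, nat_lit 20720, nat_lit 20072, nat_lit 20288, nat_lit 20216, nat_lit 20228, nat_lit 20236] (nat_lit 2) [nat_lit 39916] false,
   Spec.mk (nat_lit 20236) (nat_lit 0) [nat_lit 7114, nat_lit 20722, nat_lit 20074, nat_lit 20290, nat_lit 20218, nat_lit 20230, nat_lit 20242, nat_lit 20234, nat_lit 20238] (nat_lit 1) [nat_lit 39918, nat_lit 554] false,
   Spec.mk (nat_lit 20238) (nat_lit 0) [nat_lit 7116, nat_lit 20724, nat_lit 20076, nat_lit 20292, nat_lit 20220, nat_lit 20244, nat_lit 20236] (nat_lit 2) [nat_lit 556] false,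
   Spec.mk (nat_lit 20242) (nat_lit 0) [nat_lit 7120, nat_lit 20728, nat_lit 20080, nat_lit 20296, nat_lit 20236, nat_lit 20244] (nat_lit 1) [nat_lit 39924, nat_lit 560] false,
   Spec.mk (nat_lit 20244) (nat_lit 0) [nat_lit 7122, nat_lit 20730, nat_lit 20082, nat_lit 20298, nat_lit 20238, nat_lit 20242] (nat_lit 0) [nat_lit 562] false,
   Spec.mk (nat_lit 20258) (nat_lit 2) [nat_lit 7136, nat_lit 20744, nat_lit 20096, nat_lit 20204, nat_lit 20264] (nat_lit 0) [nat_lit 39940] false,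
   Spec.mk (nat_lit 20264) (nat_lit 1) [nat_lit 7142, nat_lit 20750, nat_lit 20102, nat_lit 20210, nat_lit 20282, nat_lit 20258, nat_lit 20270, nat_lit 20266] (nat_lit 0) [nat_lit 39946] false]

noncomputable def sp50 : List Spec :=
  [Spec.mk (nat_lit 20266) (nat_lit 1) [nat_lit 7144, nat_lit 20752, nat_lit 20104, nat_lit 20212, nat_lit 20284, nat_lit 20272, nat_lit 20264] (nat_lit 0) [nat_lit 39948, nat_lit 584] false,
   Spec.mk (nat_lit 20270) (nat_lit 0) [nat_lit 7148, nat_lit 20756, nat_lit 20108, nat_lit 20216, nat_lit 20288, nat_lit 20264, nat_lit 20272] (nat_lit 2) [nat_lit 39952] false,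
   Spec.mk (nat_lit 20272) (nat_lit 0) [nat_lit 7150, nat_lit 20758, nat_lit 20110, nat_lit 20218, nat_lit 20290, nat_lit 20266, nat_lit 20270, nat_lit 20274] (nat_lit 0) [nat_lit 39954, nat_lit 590] false,
   Spec.mk (nat_lit 20274) (nat_lit 0) [nat_lit 7152, nat_lit 20760, nat_lit 20112, nat_lit 20220, nat_lit 20292, nat_lit 20272] (nat_lit 0) [nat_lit 592] false,
   Spec.mk (nat_lit 20282) (nat_lit 1) [nat_lit 7160, nat_lit 20768, nat_lit 20120, nat_lit 20228, nat_lit 20336, nat_lit 20264, nat_lit 20288, nat_lit 20284] (nat_lit 0) [nat_lit 39964] false,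
   Spec.mk (nat_lit 20284) (nat_lit 0) [nat_lit 7162, nat_lit 20770, nat_lit 20122, nat_lit 20230, nat_lit 20338, nat_lit 20266, nat_lit 20290, nat_lit 20282] (nat_lit 0) [nat_lit 39966, nat_lit 602] false,
   Spec.mk (nat_lit 20288) (nat_lit 0) [nat_lit 7166, nat_lit 20774, nat_lit 20126, nat_lit 20234, nat_lit 20342, nat_lit 20270, nat_lit 20306, nat_lit 20282, nat_lit 20290] (nat_lit 0) [nat_lit 39970] false,
   Spec.mk (nat_lit 20290) (nat_lit 1) [nat_lit 7168, nat_lit 20776, nat_lit 20128, nat_lit 20236, nat_lit 20344, nat_lit 20272, nat_lit 20308, nat_lit 20284, nat_lit 20296, nat_lit 20288, nat_lit 20292] (nat_lit 0) [nat_lit 39972, nat_lit 608] false,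
   Spec.mk (nat_lit 20292) (nat_lit 0) [nat_lit 7170, nat_lit 20778, nat_lit 20130, nat_lit 20238, nat_lit 20346, nat_lit 20274, nat_lit 20310, nat_lit 20298, nat_lit 20290] (nat_lit 0) [nat_lit 610] false,
   Spec.mk (nat_lit 20296) (nat_lit 0) [nat_lit 7174, nat_lit 20782, nat_lit 20134, nat_lit 20242, nat_lit 20350, nat_lit 20314, nat_lit 20290, nat_lit 20298] (nat_lit 0) [nat_lit 39978, nat_lit 614] false,
   Spec.mk (nat_lit 20298) (nat_lit 1) [nat_lit 7176, nat_lit 20784, nat_lit 20136, nat_lit 20244, nat_lit 20352, nat_lit 20316, nat_lit 20292, nat_lit 20296] (nat_lit 0) [nat_lit 616] false,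
   Spec.mk (nat_lit 20306) (nat_lit 0) [nat_lit 7184, nat_lit 20792, nat_lit 20144, nat_lit 20360, nat_lit 20288, nat_lit 20308] (nat_lit 0) [nat_lit 39988] false,
   Spec.mk (nat_lit 20308) (nat_lit 0) [nat_lit 7186, nat_lit 20794, nat_lit 20146, nat_lit 20362, nat_lit 20290, nat_lit 20314, nat_lit 20306, nat_lit 20310] (nat_lit 0) [nat_lit 39990, nat_lit 626] false,
   Spec.mk (nat_lit 20310) (nat_lit 0) [nat_lit 7188, nat_lit 20796, nat_lit 20148, nat_lit 20364, nat_lit 20292, nat_lit 20316, nat_lit 20308] (nat_lit 2) [nat_lit 628] false,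
   Spec.mk (nat_lit 20314) (nat_lit 1) [nat_lit 7192, nat_lit 20800, nat_lit 20152, nat_lit 20368, nat_lit 20296, nat_lit 20308, nat_lit 20316] (nat_lit 0) [nat_lit 39996, nat_lit 632] false,
   Spec.mk (nat_lit 20316) (nat_lit 1) [nat_lit 7194, nat_lit 20802, nat_lit 20154, nat_lit 20370, nat_lit 20298, nat_lit 20310, nat_lit 20322, nat_lit 20314] (nat_lit 0) [nat_lit 634] false,
   Spec.mk (nat_lit 20322) (nat_lit 2) [nat_lit 7200, nat_lit 20808, nat_lit 20160, nat_lit 20376, nat_lit 20316] (nat_lit 0) [nat_lit 640] false,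
   Spec.mk (nat_lit 20336) (nat_lit 2) [nat_lit 7214, nat_lit 20822, nat_lit 20282, nat_lit 20342, nat_lit 20338] (nat_lit 0) [nat_lit 40018] false,
   Spec.mk (nat_lit 20338) (nat_lit 1) [nat_lit 7216, nat_lit 20824, nat_lit 20284, nat_lit 20344, nat_lit 20336] (nat_lit 0) [nat_lit 40020, nat_lit 656] false,
   Spec.mk (nat_lit 20342) (nat_lit 0) [nat_lit 7220, nat_lit 20828, nat_lit 20288, nat_lit 20360, nat_lit 20336, nat_lit 20344] (nat_lit 0) [nat_lit 40024] false,
   Spec.mk (nat_lit 20344) (nat_lit 1) [nat_lit 7222, nat_lit 20830, nat_lit 20290, nat_lit 20362, nat_lit 20338, nat_lit 20350, nat_lit 20342, nat_lit 20346] (nat_lit 0) [nat_lit 40026, nat_lit 662] false,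
   Spec.mk (nat_lit 20346) (nat_lit 0) [nat_lit 7224, nat_lit 20832, nat_lit 20292, nat_lit 20364, nat_lit 20352, nat_lit 20344] (nat_lit 0) [nat_lit 664] false,
   Spec.mk (nat_lit 20350) (nat_lit 0) [nat_lit 7228, nat_lit 20836, nat_lit 20296, nat_lit 20368, nat_lit 20344, nat_lit 20352] (nat_lit 1) [nat_lit 40032, nat_lit 668] false,
   Spec.mk (nat_lit 20352) (nat_lit 0) [nat_lit 7230, nat_lit 20838, nat_lit 20298, nat_lit 20370, nat_lit 20346, nat_lit 20350] (nat_lit 0) [nat_lit 670] false,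
   Spec.mk (nat_lit 20360) (nat_lit 2) [nat_lit 7238, nat_lit 20846, nat_lit 20306, nat_lit 20342, nat_lit 20362] (nat_lit 0) [nat_lit 40042] false,
   Spec.mk (nat_lit 20362) (nat_lit 2) [nat_lit 7240, nat_lit 20848, nat_lit 20308, nat_lit 20344, nat_lit 20368, nat_lit 20360, nat_lit 20364] (nat_lit 0) [nat_lit 40044, nat_lit 680] false,
   Spec.mk (nat_lit 20364) (nat_lit 0) [nat_lit 7242, nat_lit 20850, nat_lit 20310, nat_lit 20346, nat_lit 20370, nat_lit 20362] (nat_lit 0) [nat_lit 682] false,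
   Spec.mk (nat_lit 20368) (nat_lit 2) [nat_lit 7246, nat_lit 20854, nat_lit 20314, nat_lit 20350, nat_lit 20386, nat_lit 20362, nat_lit 20370] (nat_lit 0) [nat_lit 40050, nat_lit 686] false,
   Spec.mk (nat_lit 20370) (nat_lit 2) [nat_lit 7248, nat_lit 20856, nat_lit 20316, nat_lit 20352, nat_lit 20388, nat_lit 20364, nat_lit 20376, nat_lit 20368] (nat_lit 0) [nat_lit 688] false,
   Spec.mk (nat_lit 20376) (nat_lit 2) [nat_lit 7254, nat_lit 20862, nat_lit 20322, nat_lit 20394, nat_lit 20370] (nat_lit 0) [nat_lit 694] false,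
   Spec.mk (nat_lit 20386) (nat_lit 3) [nat_lit 7264, nat_lit 20872, nat_lit 20368, nat_lit 20388] (nat_lit 0) [nat_lit 40068, nat_lit 704] false,
   Spec.mk (nat_lit 20388) (nat_lit 2) [nat_lit 7266, nat_lit 20874, nat_lit 20370, nat_lit 20394, nat_lit 20386] (nat_lit 0) [nat_lit 706] false,
   Spec.mk (nat_lit 20394) (nat_lit 4) [nat_lit 7272, nat_lit 20880, nat_lit 20376, nat_lit 20388] (nat_lit 0) [nat_lit 712] false,
   Spec.mk (nat_lit 20438) (nat_lit 4) [nat_lit 7316, nat_lit 21896, nat_lit 19952, nat_lit 20456] (nat_lit 0) [nat_lit 40120] false,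
   Spec.mk (nat_lit 20456) (nat_lit 3) [nat_lit 7334, nat_lit 21914, nat_lit 19970, nat_lit 20510, nat_lit 20438, nat_lit 20474, nat_lit 20462] (nat_lit 0) [nat_lit 40138] false,
   Spec.mk (nat_lit 20462) (nat_lit 2) [nat_lit 7340, nat_lit 21920, nat_lit 19976, nat_lit 20516, nat_lit 20480, nat_lit 20456, nat_lit 20464] (nat_lit 0) [nat_lit 40144] false,
   Spec.mk (nat_lit 20464) (nat_lit 3) [nat_lit 7342, nat_lit 21922, nat_lit 19978, nat_lit 20518, nat_lit 20482, nat_lit 20462] (nat_lit 0) [nat_lit 40146, nat_lit 782] false,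
   Spec.mk (nat_lit 20474) (nat_lit 0) [nat_lit 7352, nat_lit 21932, nat_lit 19988, nat_lit 20528, nat_lit 20456, nat_lit 20480] (nat_lit 0) [nat_lit 40156] false,
   Spec.mk (nat_lit 20480) (nat_lit 1) [nat_lit 7358, nat_lit 21938, nat_lit 19994, nat_lit 20534, nat_lit 20462, nat_lit 20474, nat_lit 20486, nat_lit 20482] (nat_lit 0) [nat_lit 40162] false,
   Spec.mk (nat_lit 20482) (nat_lit 1) [nat_lit 7360, nat_lit 21940, nat_lit 19996, nat_lit 20536, nat_lit 20464, nat_lit 20488, nat_lit 20480] (nat_lit 0) [nat_lit 40164, nat_lit 800] false,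
   Spec.mk (nat_lit 20486) (nat_lit 0) [nat_lit 7364, nat_lit 21944, nat_lit 20000, nat_lit 20540, nat_lit 20480, nat_lit 20488] (nat_lit 0) [nat_lit 40168] false,
   Spec.mk (nat_lit 20488) (nat_lit 2) [nat_lit 7366, nat_lit 21946, nat_lit 20002, nat_lit 20542, nat_lit 20482, nat_lit 20486, nat_lit 20490] (nat_lit 0) [nat_lit 40170, nat_lit 806] false,
   Spec.mk (nat_lit 20490) (nat_lit 2) [nat_lit 7368, nat_lit 21948, nat_lit 20004, nat_lit 20544, nat_lit 20488] (nat_lit 0) [nat_lit 808] false,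
   Spec.mk (nat_lit 20510) (nat_lit 2) [nat_lit 7388, nat_lit 21968, nat_lit 20024, nat_lit 20672, nat_lit 20456, nat_lit 20528, nat_lit 20516] (nat_lit 0) [nat_lit 40192] false,
   Spec.mk (nat_lit 20516) (nat_lit 0) [nat_lit 7394, nat_lit 21974, nat_lit 20030, nat_lit 20678, nat_lit 20462, nat_lit 20534, nat_lit 20510, nat_lit 20518] (nat_lit 0) [nat_lit 40198] false,
   Spec.mk (nat_lit 20518) (nat_lit 1) [nat_lit 7396, nat_lit 21976, nat_lit 20032, nat_lit 20680, nat_lit 20464, nat_lit 20536, nat_lit 20516] (nat_lit 0) [nat_lit 40200, nat_lit 836] false,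
   Spec.mk (nat_lit 20528) (nat_lit 1) [nat_lit 7406, nat_lit 21986, nat_lit 20042, nat_lit 20690, nat_lit 20474, nat_lit 20582, nat_lit 20510, nat_lit 20534] (nat_lit 0) [nat_lit 40210] false,
   Spec.mk (nat_lit 20534) (nat_lit 1) [nat_lit 7412, nat_lit 21992, nat_lit 20048, nat_lit 20696, nat_lit 20480, nat_lit 20588, nat_lit 20516, nat_lit 20552, nat_lit 20528, nat_lit 20540, nat_lit 20536] (nat_lit 0) [nat_lit 40216] false,
   Spec.mk (nat_lit 20536) (nat_lit 1) [nat_lit 7414, nat_lit 21994, nat_lit 20050, nat_lit 20698, nat_lit 20482, nat_lit 20590, nat_lit 20518, nat_lit 20554, nat_lit 20542, nat_lit 20534] (nat_lit 0) [nat_lit 40218, nat_lit 854] false,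
   Spec.mk (nat_lit 20540) (nat_lit 0) [nat_lit 7418, nat_lit 21998, nat_lit 20054, nat_lit 20702, nat_lit 20486, nat_lit 20594, nat_lit 20558, nat_lit 20534, nat_lit 20542] (nat_lit 1) [nat_lit 40222] false,
   Spec.mk (nat_lit 20542) (nat_lit 1) [nat_lit 7420, nat_lit 22000, nat_lit 20056, nat_lit 20704, nat_lit 20488, nat_lit 20596, nat_lit 20560, nat_lit 20536, nat_lit 20540, nat_lit 20544] (nat_lit 0) [nat_lit 40224, nat_lit 860] false,
   Spec.mk (nat_lit 20544) (nat_lit 1) [nat_lit 7422, nat_lit 22002, nat_lit 20058, nat_lit 20706, nat_lit 20490, nat_lit 20598, nat_lit 20562, nat_lit 20542] (nat_lit 0) [nat_lit 862] false,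
   Spec.mk (nat_lit 20552) (nat_lit 0) [nat_lit 7430, nat_lit 22010, nat_lit 20066, nat_lit 20714, nat_lit 20606, nat_lit 20534, nat_lit 20558, nat_lit 20554] (nat_lit 0) [nat_lit 40234] false,
   Spec.mk (nat_lit 20554) (nat_lit 0) [nat_lit 7432, nat_lit 22012, nat_lit 20068, nat_lit 20716, nat_lit 20608, nat_lit 20536, nat_lit 20560, nat_lit 20552] (nat_lit 1) [nat_lit 40236, nat_lit 872] false,
   Spec.mk (nat_lit 20558) (nat_lit 0) [nat_lit 7436, nat_lit 22016, nat_lit 20072, nat_lit 20720, nat_lit 20612, nat_lit 20540, nat_lit 20552, nat_lit 20560] (nat_lit 0) [nat_lit 40240] false,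
   Spec.mk (nat_lit 20560) (nat_lit 1) [nat_lit 7438, nat_lit 22018, nat_lit 20074, nat_lit 20722, nat_lit 20614, nat_lit 20542, nat_lit 20554, nat_lit 20566, nat_lit 20558, nat_lit 20562] (nat_lit 0) [nat_lit 40242, nat_lit 878] false,
   Spec.mk (nat_lit 20562) (nat_lit 0) [nat_lit 7440, nat_lit 22020, nat_lit 20076, nat_lit 20724, nat_lit 20616, nat_lit 20544, nat_lit 20568, nat_lit 20560] (nat_lit 0) [nat_lit 880] false,
   Spec.mk (nat_lit 20566) (nat_lit 1) [nat_lit 7444, nat_lit 22024, nat_lit 20080, nat_lit 20728, nat_lit 20620, nat_lit 20560, nat_lit 20568] (nat_lit 0) [nat_lit 40248, nat_lit 884] false,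
   Spec.mk (nat_lit 20568) (nat_lit 2) [nat_lit 7446, nat_lit 22026, nat_lit 20082, nat_lit 20730, nat_lit 20622, nat_lit 20562, nat_lit 20566] (nat_lit 0) [nat_lit 886] false,
   Spec.mk (nat_lit 20582) (nat_lit 0) [nat_lit 7460, nat_lit 22040, nat_lit 20096, nat_lit 20744, nat_lit 20528, nat_lit 20588] (nat_lit 0) [nat_lit 40264] false]

noncomputable def sp51 : List Spec :=
  [Spec.mk (nat_lit 20588) (nat_lit 0) [nat_lit 7466, nat_lit 22046, nat_lit 20102, nat_lit 20750, nat_lit 20534, nat_lit 20606, nat_lit 20582, nat_lit 20594, nat_lit 20590] (nat_lit 1) [nat_lit 40270] false,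
   Spec.mk (nat_lit 20590) (nat_lit 0) [nat_lit 7468, nat_lit 22048, nat_lit 20104, nat_lit 20752, nat_lit 20536, nat_lit 20608, nat_lit 20596, nat_lit 20588] (nat_lit 1) [nat_lit 40272, nat_lit 908] false,
   Spec.mk (nat_lit 20594) (nat_lit 0) [nat_lit 7472, nat_lit 22052, nat_lit 20108, nat_lit 20756, nat_lit 20540, nat_lit 20612, nat_lit 20588, nat_lit 20596] (nat_lit 4) [nat_lit 40276] false,
   Spec.mk (nat_lit 20596) (nat_lit 0) [nat_lit 7474, nat_lit 22054, nat_lit 20110, nat_lit 20758, nat_lit 20542, nat_lit 20614, nat_lit 20590, nat_lit 20594, nat_lit 20598] (nat_lit 2) [nat_lit 40278, nat_lit 914] false,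
   Spec.mk (nat_lit 20598) (nat_lit 0) [nat_lit 7476, nat_lit 22056, nat_lit 20112, nat_lit 20760, nat_lit 20544, nat_lit 20616, nat_lit 20596] (nat_lit 2) [nat_lit 916] false,
   Spec.mk (nat_lit 20606) (nat_lit 0) [nat_lit 7484, nat_lit 22064, nat_lit 20120, nat_lit 20768, nat_lit 20552, nat_lit 20588, nat_lit 20612, nat_lit 20608] (nat_lit 0) [nat_lit 40288] false,
   Spec.mk (nat_lit 20608) (nat_lit 0) [nat_lit 7486, nat_lit 22066, nat_lit 20122, nat_lit 20770, nat_lit 20554, nat_lit 20590, nat_lit 20614, nat_lit 20606] (nat_lit 1) [nat_lit 40290, nat_lit 926] false,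
   Spec.mk (nat_lit 20612) (nat_lit 0) [nat_lit 7490, nat_lit 22070, nat_lit 20126, nat_lit 20774, nat_lit 20558, nat_lit 20594, nat_lit 20630, nat_lit 20606, nat_lit 20614] (nat_lit 1) [nat_lit 40294] false,
   Spec.mk (nat_lit 20614) (nat_lit 0) [nat_lit 7492, nat_lit 22072, nat_lit 20128, nat_lit 20776, nat_lit 20560, nat_lit 20596, nat_lit 20632, nat_lit 20608, nat_lit 20620, nat_lit 20612, nat_lit 20616] (nat_lit 0) [nat_lit 40296, nat_lit 932] false,
   Spec.mk (nat_lit 20616) (nat_lit 0) [nat_lit 7494, nat_lit 22074, nat_lit 20130, nat_lit 20778, nat_lit 20562, nat_lit 20598, nat_lit 20634, nat_lit 20622, nat_lit 20614] (nat_lit 1) [nat_lit 934] false,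
   Spec.mk (nat_lit 20620) (nat_lit 0) [nat_lit 7498, nat_lit 22078, nat_lit 20134, nat_lit 20782, nat_lit 20566, nat_lit 20638, nat_lit 20614, nat_lit 20622] (nat_lit 1) [nat_lit 40302, nat_lit 938] false,
   Spec.mk (nat_lit 20622) (nat_lit 0) [nat_lit 7500, nat_lit 22080, nat_lit 20136, nat_lit 20784, nat_lit 20568, nat_lit 20640, nat_lit 20616, nat_lit 20620] (nat_lit 0) [nat_lit 940] false,
   Spec.mk (nat_lit 20630) (nat_lit 0) [nat_lit 7508, nat_lit 22088, nat_lit 20144, nat_lit 20792, nat_lit 20612, nat_lit 20632] (nat_lit 0) [nat_lit 40312] false,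
   Spec.mk (nat_lit 20632) (nat_lit 0) [nat_lit 7510, nat_lit 22090, nat_lit 20146, nat_lit 20794, nat_lit 20614, nat_lit 20638, nat_lit 20630, nat_lit 20634] (nat_lit 0) [nat_lit 40314, nat_lit 950] false,
   Spec.mk (nat_lit 20634) (nat_lit 0) [nat_lit 7512, nat_lit 22092, nat_lit 20148, nat_lit 20796, nat_lit 20616, nat_lit 20640, nat_lit 20632] (nat_lit 2) [nat_lit 952] false,
   Spec.mk (nat_lit 20638) (nat_lit 1) [nat_lit 7516, nat_lit 22096, nat_lit 20152, nat_lit 20800, nat_lit 20620, nat_lit 20632, nat_lit 20640] (nat_lit 0) [nat_lit 40320, nat_lit 956] false,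
   Spec.mk (nat_lit 20640) (nat_lit 1) [nat_lit 7518, nat_lit 22098, nat_lit 20154, nat_lit 20802, nat_lit 20622, nat_lit 20634, nat_lit 20646, nat_lit 20638] (nat_lit 0) [nat_lit 958] false,
   Spec.mk (nat_lit 20646) (nat_lit 2) [nat_lit 7524, nat_lit 22104, nat_lit 20160, nat_lit 20808, nat_lit 20640] (nat_lit 0) [nat_lit 964] false,
   Spec.mk (nat_lit 20672) (nat_lit 3) [nat_lit 7550, nat_lit 22130, nat_lit 20186, nat_lit 21158, nat_lit 20510, nat_lit 20690, nat_lit 20678] (nat_lit 0) [nat_lit 40354] false,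
   Spec.mk (nat_lit 20678) (nat_lit 1) [nat_lit 7556, nat_lit 22136, nat_lit 20192, nat_lit 21164, nat_lit 20516, nat_lit 20696, nat_lit 20672, nat_lit 20680] (nat_lit 0) [nat_lit 40360] false,
   Spec.mk (nat_lit 20680) (nat_lit 2) [nat_lit 7558, nat_lit 22138, nat_lit 20194, nat_lit 21166, nat_lit 20518, nat_lit 20698, nat_lit 20678] (nat_lit 0) [nat_lit 40362, nat_lit 998] false,
   Spec.mk (nat_lit 20690) (nat_lit 1) [nat_lit 7568, nat_lit 22148, nat_lit 20204, nat_lit 21176, nat_lit 20528, nat_lit 20744, nat_lit 20672, nat_lit 20696] (nat_lit 0) [nat_lit 40372] false,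
   Spec.mk (nat_lit 20696) (nat_lit 1) [nat_lit 7574, nat_lit 22154, nat_lit 20210, nat_lit 21182, nat_lit 20534, nat_lit 20750, nat_lit 20678, nat_lit 20714, nat_lit 20690, nat_lit 20702, nat_lit 20698] (nat_lit 0) [nat_lit 40378] false,
   Spec.mk (nat_lit 20698) (nat_lit 1) [nat_lit 7576, nat_lit 22156, nat_lit 20212, nat_lit 21184, nat_lit 20536, nat_lit 20752, nat_lit 20680, nat_lit 20716, nat_lit 20704, nat_lit 20696] (nat_lit 0) [nat_lit 40380, nat_lit 1016] false,
   Spec.mk (nat_lit 20702) (nat_lit 0) [nat_lit 7580, nat_lit 22160, nat_lit 20216, nat_lit 21188, nat_lit 20540, nat_lit 20756, nat_lit 20720, nat_lit 20696, nat_lit 20704] (nat_lit 1) [nat_lit 40384] false,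
   Spec.mk (nat_lit 20704) (nat_lit 1) [nat_lit 7582, nat_lit 22162, nat_lit 20218, nat_lit 21190, nat_lit 20542, nat_lit 20758, nat_lit 20722, nat_lit 20698, nat_lit 20702, nat_lit 20706] (nat_lit 0) [nat_lit 40386, nat_lit 1022] false,
   Spec.mk (nat_lit 20706) (nat_lit 1) [nat_lit 7584, nat_lit 22164, nat_lit 20220, nat_lit 21192, nat_lit 20544, nat_lit 20760, nat_lit 20724, nat_lit 20704] (nat_lit 0) [nat_lit 1024] false,
   Spec.mk (nat_lit 20714) (nat_lit 0) [nat_lit 7592, nat_lit 22172, nat_lit 20228, nat_lit 21200, nat_lit 20552, nat_lit 20768, nat_lit 20696, nat_lit 20720, nat_lit 20716] (nat_lit 1) [nat_lit 40396] false,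
   Spec.mk (nat_lit 20716) (nat_lit 0) [nat_lit 7594, nat_lit 22174, nat_lit 20230, nat_lit 21202, nat_lit 20554, nat_lit 20770, nat_lit 20698, nat_lit 20722, nat_lit 20714] (nat_lit 2) [nat_lit 40398, nat_lit 1034] false,
   Spec.mk (nat_lit 20720) (nat_lit 0) [nat_lit 7598, nat_lit 22178, nat_lit 20234, nat_lit 21206, nat_lit 20558, nat_lit 20774, nat_lit 20702, nat_lit 20714, nat_lit 20722] (nat_lit 1) [nat_lit 40402] false,
   Spec.mk (nat_lit 20722) (nat_lit 0) [nat_lit 7600, nat_lit 22180, nat_lit 20236, nat_lit 21208, nat_lit 20560, nat_lit 20776, nat_lit 20704, nat_lit 20716, nat_lit 20728, nat_lit 20720, nat_lit 20724] (nat_lit 0) [nat_lit 40404, nat_lit 1040] false,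
   Spec.mk (nat_lit 20724) (nat_lit 0) [nat_lit 7602, nat_lit 22182, nat_lit 20238, nat_lit 21210, nat_lit 20562, nat_lit 20778, nat_lit 20706, nat_lit 20730, nat_lit 20722] (nat_lit 1) [nat_lit 1042] false,
   Spec.mk (nat_lit 20728) (nat_lit 0) [nat_lit 7606, nat_lit 22186, nat_lit 20242, nat_lit 21214, nat_lit 20566, nat_lit 20782, nat_lit 20722, nat_lit 20730] (nat_lit 0) [nat_lit 40410, nat_lit 1046] false,
   Spec.mk (nat_lit 20730) (nat_lit 1) [nat_lit 7608, nat_lit 22188, nat_lit 20244, nat_lit 21216, nat_lit 20568, nat_lit 20784, nat_lit 20724, nat_lit 20728] (nat_lit 0) [nat_lit 1048] false,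
   Spec.mk (nat_lit 20744) (nat_lit 2) [nat_lit 7622, nat_lit 22202, nat_lit 20258, nat_lit 21230, nat_lit 20582, nat_lit 20906, nat_lit 20690, nat_lit 20750] (nat_lit 0) [nat_lit 40426] false,
   Spec.mk (nat_lit 20750) (nat_lit 1) [nat_lit 7628, nat_lit 22208, nat_lit 20264, nat_lit 21236, nat_lit 20588, nat_lit 20912, nat_lit 20696, nat_lit 20768, nat_lit 20744, nat_lit 20756, nat_lit 20752] (nat_lit 0) [nat_lit 40432] false,
   Spec.mk (nat_lit 20752) (nat_lit 1) [nat_lit 7630, nat_lit 22210, nat_lit 20266, nat_lit 21238, nat_lit 20590, nat_lit 20914, nat_lit 20698, nat_lit 20770, nat_lit 20758, nat_lit 20750] (nat_lit 0) [nat_lit 40434, nat_lit 1070] false,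
   Spec.mk (nat_lit 20756) (nat_lit 0) [nat_lit 7634, nat_lit 22214, nat_lit 20270, nat_lit 21242, nat_lit 20594, nat_lit 20918, nat_lit 20702, nat_lit 20774, nat_lit 20750, nat_lit 20758] (nat_lit 2) [nat_lit 40438] false,
   Spec.mk (nat_lit 20758) (nat_lit 0) [nat_lit 7636, nat_lit 22216, nat_lit 20272, nat_lit 21244, nat_lit 20596, nat_lit 20920, nat_lit 20704, nat_lit 20776, nat_lit 20752, nat_lit 20756, nat_lit 20760] (nat_lit 0) [nat_lit 40440, nat_lit 1076] false,
   Spec.mk (nat_lit 20760) (nat_lit 0) [nat_lit 7638, nat_lit 22218, nat_lit 20274, nat_lit 21246, nat_lit 20598, nat_lit 20922, nat_lit 20706, nat_lit 20778, nat_lit 20758] (nat_lit 0) [nat_lit 1078] false,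
   Spec.mk (nat_lit 20768) (nat_lit 1) [nat_lit 7646, nat_lit 22226, nat_lit 20282, nat_lit 21254, nat_lit 20606, nat_lit 20930, nat_lit 20714, nat_lit 20822, nat_lit 20750, nat_lit 20774, nat_lit 20770] (nat_lit 0) [nat_lit 40450] false,
   Spec.mk (nat_lit 20770) (nat_lit 0) [nat_lit 7648, nat_lit 22228, nat_lit 20284, nat_lit 21256, nat_lit 20608, nat_lit 20932, nat_lit 20716, nat_lit 20824, nat_lit 20752, nat_lit 20776, nat_lit 20768] (nat_lit 0) [nat_lit 40452, nat_lit 1088] false,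
   Spec.mk (nat_lit 20774) (nat_lit 0) [nat_lit 7652, nat_lit 22232, nat_lit 20288, nat_lit 21260, nat_lit 20612, nat_lit 20936, nat_lit 20720, nat_lit 20828, nat_lit 20756, nat_lit 20792, nat_lit 20768, nat_lit 20776] (nat_lit 0) [nat_lit 40456] false,
   Spec.mk (nat_lit 20776) (nat_lit 1) [nat_lit 7654, nat_lit 22234, nat_lit 20290, nat_lit 21262, nat_lit 20614, nat_lit 20938, nat_lit 20722, nat_lit 20830, nat_lit 20758, nat_lit 20794, nat_lit 20770, nat_lit 20782, nat_lit 20774, nat_lit 20778] (nat_lit 0) [nat_lit 40458, nat_lit 1094] false,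
   Spec.mk (nat_lit 20778) (nat_lit 0) [nat_lit 7656, nat_lit 22236, nat_lit 20292, nat_lit 21264, nat_lit 20616, nat_lit 20940, nat_lit 20724, nat_lit 20832, nat_lit 20760, nat_lit 20796, nat_lit 20784, nat_lit 20776] (nat_lit 0) [nat_lit 1096] false,
   Spec.mk (nat_lit 20782) (nat_lit 0) [nat_lit 7660, nat_lit 22240, nat_lit 20296, nat_lit 21268, nat_lit 20620, nat_lit 20944, nat_lit 20728, nat_lit 20836, nat_lit 20800, nat_lit 20776, nat_lit 20784] (nat_lit 0) [nat_lit 40464, nat_lit 1100] false,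
   Spec.mk (nat_lit 20784) (nat_lit 1) [nat_lit 7662, nat_lit 22242, nat_lit 20298, nat_lit 21270, nat_lit 20622, nat_lit 20946, nat_lit 20730, nat_lit 20838, nat_lit 20802, nat_lit 20778, nat_lit 20782] (nat_lit 0) [nat_lit 1102] false,
   Spec.mk (nat_lit 20792) (nat_lit 0) [nat_lit 7670, nat_lit 22250, nat_lit 20306, nat_lit 21278, nat_lit 20630, nat_lit 20954, nat_lit 20846, nat_lit 20774, nat_lit 20794] (nat_lit 0) [nat_lit 40474] false,
   Spec.mk (nat_lit 20794) (nat_lit 0) [nat_lit 7672, nat_lit 22252, nat_lit 20308, nat_lit 21280, nat_lit 20632, nat_lit 20956, nat_lit 20848, nat_lit 20776, nat_lit 20800, nat_lit 20792, nat_lit 20796] (nat_lit 0) [nat_lit 40476, nat_lit 1112] false,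
   Spec.mk (nat_lit 20796) (nat_lit 0) [nat_lit 7674, nat_lit 22254, nat_lit 20310, nat_lit 21282, nat_lit 20634, nat_lit 20958, nat_lit 20850, nat_lit 20778, nat_lit 20802, nat_lit 20794] (nat_lit 2) [nat_lit 1114] false,
   Spec.mk (nat_lit 20800) (nat_lit 1) [nat_lit 7678, nat_lit 22258, nat_lit 20314, nat_lit 21286, nat_lit 20638, nat_lit 20962, nat_lit 20854, nat_lit 20782, nat_lit 20794, nat_lit 20802] (nat_lit 0) [nat_lit 40482, nat_lit 1118] false,
   Spec.mk (nat_lit 20802) (nat_lit 1) [nat_lit 7680, nat_lit 22260, nat_lit 20316, nat_lit 21288, nat_lit 20640, nat_lit 20964, nat_lit 20856, nat_lit 20784, nat_lit 20796, nat_lit 20808, nat_lit 20800] (nat_lit 0) [nat_lit 1120] false,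
   Spec.mk (nat_lit 20808) (nat_lit 2) [nat_lit 7686, nat_lit 22266, nat_lit 20322, nat_lit 21294, nat_lit 20646, nat_lit 20970, nat_lit 20862, nat_lit 20802] (nat_lit 0) [nat_lit 1126] false,
   Spec.mk (nat_lit 20822) (nat_lit 1) [nat_lit 7700, nat_lit 22280, nat_lit 20336, nat_lit 21308, nat_lit 20984, nat_lit 20768, nat_lit 20828, nat_lit 20824] (nat_lit 0) [nat_lit 40504] false,
   Spec.mk (nat_lit 20824) (nat_lit 0) [nat_lit 7702, nat_lit 22282, nat_lit 20338, nat_lit 21310, nat_lit 20986, nat_lit 20770, nat_lit 20830, nat_lit 20822] (nat_lit 0) [nat_lit 40506, nat_lit 1142] false,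
   Spec.mk (nat_lit 20828) (nat_lit 0) [nat_lit 7706, nat_lit 22286, nat_lit 20342, nat_lit 21314, nat_lit 20990, nat_lit 20774, nat_lit 20846, nat_lit 20822, nat_lit 20830] (nat_lit 1) [nat_lit 40510] false,
   Spec.mk (nat_lit 20830) (nat_lit 0) [nat_lit 7708, nat_lit 22288, nat_lit 20344, nat_lit 21316, nat_lit 20992, nat_lit 20776, nat_lit 20848, nat_lit 20824, nat_lit 20836, nat_lit 20828, nat_lit 20832] (nat_lit 0) [nat_lit 40512, nat_lit 1148] false,
   Spec.mk (nat_lit 20832) (nat_lit 0) [nat_lit 7710, nat_lit 22290, nat_lit 20346, nat_lit 21318, nat_lit 20994, nat_lit 20778, nat_lit 20850, nat_lit 20838, nat_lit 20830] (nat_lit 1) [nat_lit 1150] false,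
   Spec.mk (nat_lit 20836) (nat_lit 0) [nat_lit 7714, nat_lit 22294, nat_lit 20350, nat_lit 21322, nat_lit 20998, nat_lit 20782, nat_lit 20854, nat_lit 20830, nat_lit 20838] (nat_lit 2) [nat_lit 40518, nat_lit 1154] false,
   Spec.mk (nat_lit 20838) (nat_lit 0) [nat_lit 7716, nat_lit 22296, nat_lit 20352, nat_lit 21324, nat_lit 21000, nat_lit 20784, nat_lit 20856, nat_lit 20832, nat_lit 20836] (nat_lit 1) [nat_lit 1156] false]

noncomputable def sp52 : List Spec :=
  [Spec.mk (nat_lit 20846) (nat_lit 1) [nat_lit 7724, nat_lit 22304, nat_lit 20360, nat_lit 21332, nat_lit 21008, nat_lit 20792, nat_lit 20828, nat_lit 20848] (nat_lit 0) [nat_lit 40528] false,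
   Spec.mk (nat_lit 20848) (nat_lit 1) [nat_lit 7726, nat_lit 22306, nat_lit 20362, nat_lit 21334, nat_lit 21010, nat_lit 20794, nat_lit 20830, nat_lit 20854, nat_lit 20846, nat_lit 20850] (nat_lit 0) [nat_lit 40530, nat_lit 1166] false,
   Spec.mk (nat_lit 20850) (nat_lit 0) [nat_lit 7728, nat_lit 22308, nat_lit 20364, nat_lit 21336, nat_lit 21012, nat_lit 20796, nat_lit 20832, nat_lit 20856, nat_lit 20848] (nat_lit 1) [nat_lit 1168] false,
   Spec.mk (nat_lit 20854) (nat_lit 1) [nat_lit 7732, nat_lit 22312, nat_lit 20368, nat_lit 21340, nat_lit 21016, nat_lit 20800, nat_lit 20836, nat_lit 20872, nat_lit 20848, nat_lit 20856] (nat_lit 0) [nat_lit 40536, nat_lit 1172] false,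
   Spec.mk (nat_lit 20856) (nat_lit 1) [nat_lit 7734, nat_lit 22314, nat_lit 20370, nat_lit 21342, nat_lit 21018, nat_lit 20802, nat_lit 20838, nat_lit 20874, nat_lit 20850, nat_lit 20862, nat_lit 20854] (nat_lit 0) [nat_lit 1174] false,
   Spec.mk (nat_lit 20862) (nat_lit 1) [nat_lit 7740, nat_lit 22320, nat_lit 20376, nat_lit 21348, nat_lit 21024, nat_lit 20808, nat_lit 20880, nat_lit 20856] (nat_lit 0) [nat_lit 1180] false,
   Spec.mk (nat_lit 20872) (nat_lit 2) [nat_lit 7750, nat_lit 22330, nat_lit 20386, nat_lit 21358, nat_lit 21034, nat_lit 20854, nat_lit 20874] (nat_lit 0) [nat_lit 40554, nat_lit 1190] false,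
   Spec.mk (nat_lit 20874) (nat_lit 1) [nat_lit 7752, nat_lit 22332, nat_lit 20388, nat_lit 21360, nat_lit 21036, nat_lit 20856, nat_lit 20880, nat_lit 20872] (nat_lit 0) [nat_lit 1192] false,
   Spec.mk (nat_lit 20880) (nat_lit 3) [nat_lit 7758, nat_lit 22338, nat_lit 20394, nat_lit 21366, nat_lit 21042, nat_lit 20862, nat_lit 20874] (nat_lit 0) [nat_lit 1198] false,
   Spec.mk (nat_lit 20906) (nat_lit 2) [nat_lit 7784, nat_lit 22364, nat_lit 21392, nat_lit 20744, nat_lit 20912] (nat_lit 0) [nat_lit 40588] false,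
   Spec.mk (nat_lit 20912) (nat_lit 1) [nat_lit 7790, nat_lit 22370, nat_lit 21398, nat_lit 20750, nat_lit 20930, nat_lit 20906, nat_lit 20918, nat_lit 20914] (nat_lit 0) [nat_lit 40594] false,
   Spec.mk (nat_lit 20914) (nat_lit 1) [nat_lit 7792, nat_lit 22372, nat_lit 21400, nat_lit 20752, nat_lit 20932, nat_lit 20920, nat_lit 20912] (nat_lit 0) [nat_lit 40596, nat_lit 1232] false,
   Spec.mk (nat_lit 20918) (nat_lit 0) [nat_lit 7796, nat_lit 22376, nat_lit 21404, nat_lit 20756, nat_lit 20936, nat_lit 20912, nat_lit 20920] (nat_lit 2) [nat_lit 40600] false,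
   Spec.mk (nat_lit 20920) (nat_lit 0) [nat_lit 7798, nat_lit 22378, nat_lit 21406, nat_lit 20758, nat_lit 20938, nat_lit 20914, nat_lit 20918, nat_lit 20922] (nat_lit 0) [nat_lit 40602, nat_lit 1238] false,
   Spec.mk (nat_lit 20922) (nat_lit 0) [nat_lit 7800, nat_lit 22380, nat_lit 21408, nat_lit 20760, nat_lit 20940, nat_lit 20920] (nat_lit 0) [nat_lit 1240] false,
   Spec.mk (nat_lit 20930) (nat_lit 0) [nat_lit 7808, nat_lit 22388, nat_lit 21416, nat_lit 20768, nat_lit 20984, nat_lit 20912, nat_lit 20936, nat_lit 20932] (nat_lit 0) [nat_lit 40612] false,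
   Spec.mk (nat_lit 20932) (nat_lit 0) [nat_lit 7810, nat_lit 22390, nat_lit 21418, nat_lit 20770, nat_lit 20986, nat_lit 20914, nat_lit 20938, nat_lit 20930] (nat_lit 1) [nat_lit 40614, nat_lit 1250] false,
   Spec.mk (nat_lit 20936) (nat_lit 0) [nat_lit 7814, nat_lit 22394, nat_lit 21422, nat_lit 20774, nat_lit 20990, nat_lit 20918, nat_lit 20954, nat_lit 20930, nat_lit 20938] (nat_lit 1) [nat_lit 40618] false,
   Spec.mk (nat_lit 20938) (nat_lit 0) [nat_lit 7816, nat_lit 22396, nat_lit 21424, nat_lit 20776, nat_lit 20992, nat_lit 20920, nat_lit 20956, nat_lit 20932, nat_lit 20944, nat_lit 20936, nat_lit 20940] (nat_lit 0) [nat_lit 40620, nat_lit 1256] false,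
   Spec.mk (nat_lit 20940) (nat_lit 0) [nat_lit 7818, nat_lit 22398, nat_lit 21426, nat_lit 20778, nat_lit 20994, nat_lit 20922, nat_lit 20958, nat_lit 20946, nat_lit 20938] (nat_lit 1) [nat_lit 1258] false,
   Spec.mk (nat_lit 20944) (nat_lit 0) [nat_lit 7822, nat_lit 22402, nat_lit 21430, nat_lit 20782, nat_lit 20998, nat_lit 20962, nat_lit 20938, nat_lit 20946] (nat_lit 1) [nat_lit 40626, nat_lit 1262] false,
   Spec.mk (nat_lit 20946) (nat_lit 0) [nat_lit 7824, nat_lit 22404, nat_lit 21432, nat_lit 20784, nat_lit 21000, nat_lit 20964, nat_lit 20940, nat_lit 20944] (nat_lit 0) [nat_lit 1264] false,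
   Spec.mk (nat_lit 20954) (nat_lit 0) [nat_lit 7832, nat_lit 22412, nat_lit 21440, nat_lit 20792, nat_lit 21008, nat_lit 20936, nat_lit 20956] (nat_lit 2) [nat_lit 40636] false,
   Spec.mk (nat_lit 20956) (nat_lit 0) [nat_lit 7834, nat_lit 22414, nat_lit 21442, nat_lit 20794, nat_lit 21010, nat_lit 20938, nat_lit 20962, nat_lit 20954, nat_lit 20958] (nat_lit 2) [nat_lit 40638, nat_lit 1274] false,
   Spec.mk (nat_lit 20958) (nat_lit 0) [nat_lit 7836, nat_lit 22416, nat_lit 21444, nat_lit 20796, nat_lit 21012, nat_lit 20940, nat_lit 20964, nat_lit 20956] (nat_lit 4) [nat_lit 1276] false,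
   Spec.mk (nat_lit 20962) (nat_lit 0) [nat_lit 7840, nat_lit 22420, nat_lit 21448, nat_lit 20800, nat_lit 21016, nat_lit 20944, nat_lit 20956, nat_lit 20964] (nat_lit 1) [nat_lit 40644, nat_lit 1280] false,
   Spec.mk (nat_lit 20964) (nat_lit 0) [nat_lit 7842, nat_lit 22422, nat_lit 21450, nat_lit 20802, nat_lit 21018, nat_lit 20946, nat_lit 20958, nat_lit 20970, nat_lit 20962] (nat_lit 1) [nat_lit 1282] false,
   Spec.mk (nat_lit 20970) (nat_lit 0) [nat_lit 7848, nat_lit 22428, nat_lit 21456, nat_lit 20808, nat_lit 21024, nat_lit 20964] (nat_lit 0) [nat_lit 1288] false,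
   Spec.mk (nat_lit 20984) (nat_lit 2) [nat_lit 7862, nat_lit 22442, nat_lit 21470, nat_lit 20822, nat_lit 20930, nat_lit 20990, nat_lit 20986] (nat_lit 0) [nat_lit 40666] false,
   Spec.mk (nat_lit 20986) (nat_lit 1) [nat_lit 7864, nat_lit 22444, nat_lit 21472, nat_lit 20824, nat_lit 20932, nat_lit 20992, nat_lit 20984] (nat_lit 0) [nat_lit 40668, nat_lit 1304] false,
   Spec.mk (nat_lit 20990) (nat_lit 0) [nat_lit 7868, nat_lit 22448, nat_lit 21476, nat_lit 20828, nat_lit 20936, nat_lit 21008, nat_lit 20984, nat_lit 20992] (nat_lit 0) [nat_lit 40672] false,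
   Spec.mk (nat_lit 20992) (nat_lit 1) [nat_lit 7870, nat_lit 22450, nat_lit 21478, nat_lit 20830, nat_lit 20938, nat_lit 21010, nat_lit 20986, nat_lit 20998, nat_lit 20990, nat_lit 20994] (nat_lit 0) [nat_lit 40674, nat_lit 1310] false,
   Spec.mk (nat_lit 20994) (nat_lit 0) [nat_lit 7872, nat_lit 22452, nat_lit 21480, nat_lit 20832, nat_lit 20940, nat_lit 21012, nat_lit 21000, nat_lit 20992] (nat_lit 0) [nat_lit 1312] false,
   Spec.mk (nat_lit 20998) (nat_lit 0) [nat_lit 7876, nat_lit 22456, nat_lit 21484, nat_lit 20836, nat_lit 20944, nat_lit 21016, nat_lit 20992, nat_lit 21000] (nat_lit 1) [nat_lit 40680, nat_lit 1316] false,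
   Spec.mk (nat_lit 21000) (nat_lit 0) [nat_lit 7878, nat_lit 22458, nat_lit 21486, nat_lit 20838, nat_lit 20946, nat_lit 21018, nat_lit 20994, nat_lit 20998] (nat_lit 0) [nat_lit 1318] false,
   Spec.mk (nat_lit 21008) (nat_lit 1) [nat_lit 7886, nat_lit 22466, nat_lit 21494, nat_lit 20846, nat_lit 20954, nat_lit 21062, nat_lit 20990, nat_lit 21010] (nat_lit 0) [nat_lit 40690] false,
   Spec.mk (nat_lit 21010) (nat_lit 1) [nat_lit 7888, nat_lit 22468, nat_lit 21496, nat_lit 20848, nat_lit 20956, nat_lit 21064, nat_lit 20992, nat_lit 21016, nat_lit 21008, nat_lit 21012] (nat_lit 0) [nat_lit 40692, nat_lit 1328] false,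
   Spec.mk (nat_lit 21012) (nat_lit 0) [nat_lit 7890, nat_lit 22470, nat_lit 21498, nat_lit 20850, nat_lit 20958, nat_lit 21066, nat_lit 20994, nat_lit 21018, nat_lit 21010] (nat_lit 1) [nat_lit 1330] false,
   Spec.mk (nat_lit 21016) (nat_lit 1) [nat_lit 7894, nat_lit 22474, nat_lit 21502, nat_lit 20854, nat_lit 20962, nat_lit 21070, nat_lit 20998, nat_lit 21034, nat_lit 21010, nat_lit 21018] (nat_lit 0) [nat_lit 40698, nat_lit 1334] false,
   Spec.mk (nat_lit 21018) (nat_lit 1) [nat_lit 7896, nat_lit 22476, nat_lit 21504, nat_lit 20856, nat_lit 20964, nat_lit 21072, nat_lit 21000, nat_lit 21036, nat_lit 21012, nat_lit 21024, nat_lit 21016] (nat_lit 0) [nat_lit 1336] false,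
   Spec.mk (nat_lit 21024) (nat_lit 1) [nat_lit 7902, nat_lit 22482, nat_lit 21510, nat_lit 20862, nat_lit 20970, nat_lit 21078, nat_lit 21042, nat_lit 21018] (nat_lit 0) [nat_lit 1342] false,
   Spec.mk (nat_lit 21034) (nat_lit 1) [nat_lit 7912, nat_lit 22492, nat_lit 21520, nat_lit 20872, nat_lit 21088, nat_lit 21016, nat_lit 21036] (nat_lit 0) [nat_lit 40716, nat_lit 1352] false,
   Spec.mk (nat_lit 21036) (nat_lit 0) [nat_lit 7914, nat_lit 22494, nat_lit 21522, nat_lit 20874, nat_lit 21090, nat_lit 21018, nat_lit 21042, nat_lit 21034] (nat_lit 0) [nat_lit 1354] false,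
   Spec.mk (nat_lit 21042) (nat_lit 2) [nat_lit 7920, nat_lit 22500, nat_lit 21528, nat_lit 20880, nat_lit 21096, nat_lit 21024, nat_lit 21036] (nat_lit 0) [nat_lit 1360] false,
   Spec.mk (nat_lit 21062) (nat_lit 2) [nat_lit 7940, nat_lit 22520, nat_lit 21548, nat_lit 21008, nat_lit 21064] (nat_lit 0) [nat_lit 40744] false,
   Spec.mk (nat_lit 21064) (nat_lit 2) [nat_lit 7942, nat_lit 22522, nat_lit 21550, nat_lit 21010, nat_lit 21070, nat_lit 21062, nat_lit 21066] (nat_lit 0) [nat_lit 40746, nat_lit 1382] false,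
   Spec.mk (nat_lit 21066) (nat_lit 0) [nat_lit 7944, nat_lit 22524, nat_lit 21552, nat_lit 21012, nat_lit 21072, nat_lit 21064] (nat_lit 0) [nat_lit 1384] false,
   Spec.mk (nat_lit 21070) (nat_lit 1) [nat_lit 7948, nat_lit 22528, nat_lit 21556, nat_lit 21016, nat_lit 21088, nat_lit 21064, nat_lit 21072] (nat_lit 0) [nat_lit 40752, nat_lit 1388] false,
   Spec.mk (nat_lit 21072) (nat_lit 1) [nat_lit 7950, nat_lit 22530, nat_lit 21558, nat_lit 21018, nat_lit 21090, nat_lit 21066, nat_lit 21078, nat_lit 21070] (nat_lit 0) [nat_lit 1390] false,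
   Spec.mk (nat_lit 21078) (nat_lit 0) [nat_lit 7956, nat_lit 22536, nat_lit 21564, nat_lit 21024, nat_lit 21096, nat_lit 21072] (nat_lit 0) [nat_lit 1396] false,
   Spec.mk (nat_lit 21088) (nat_lit 3) [nat_lit 7966, nat_lit 22546, nat_lit 21574, nat_lit 21034, nat_lit 21070, nat_lit 21090] (nat_lit 0) [nat_lit 40770, nat_lit 1406] false,
   Spec.mk (nat_lit 21090) (nat_lit 2) [nat_lit 7968, nat_lit 22548, nat_lit 21576, nat_lit 21036, nat_lit 21072, nat_lit 21096, nat_lit 21088] (nat_lit 0) [nat_lit 1408] false,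
   Spec.mk (nat_lit 21096) (nat_lit 3) [nat_lit 7974, nat_lit 22554, nat_lit 21582, nat_lit 21042, nat_lit 21078, nat_lit 21114, nat_lit 21090] (nat_lit 0) [nat_lit 1414] false,
   Spec.mk (nat_lit 21114) (nat_lit 4) [nat_lit 7992, nat_lit 22572, nat_lit 21600, nat_lit 21096] (nat_lit 0) [nat_lit 1432] false,
   Spec.mk (nat_lit 21158) (nat_lit 2) [nat_lit 8036, nat_lit 22616, nat_lit 20672, nat_lit 21176, nat_lit 21164] (nat_lit 0) [nat_lit 40840] false,
   Spec.mk (nat_lit 21164) (nat_lit 0) [nat_lit 8042, nat_lit 22622, nat_lit 20678, nat_lit 21182, nat_lit 21158, nat_lit 21166] (nat_lit 0) [nat_lit 40846] false,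
   Spec.mk (nat_lit 21166) (nat_lit 1) [nat_lit 8044, nat_lit 22624, nat_lit 20680, nat_lit 21184, nat_lit 21164] (nat_lit 0) [nat_lit 40848, nat_lit 1484] false,
   Spec.mk (nat_lit 21176) (nat_lit 0) [nat_lit 8054, nat_lit 22634, nat_lit 20690, nat_lit 21230, nat_lit 21158, nat_lit 21182] (nat_lit 0) [nat_lit 40858] false,
   Spec.mk (nat_lit 21182) (nat_lit 0) [nat_lit 8060, nat_lit 22640, nat_lit 20696, nat_lit 21236, nat_lit 21164, nat_lit 21200, nat_lit 21176, nat_lit 21188, nat_lit 21184] (nat_lit 0) [nat_lit 40864] false,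
   Spec.mk (nat_lit 21184) (nat_lit 0) [nat_lit 8062, nat_lit 22642, nat_lit 20698, nat_lit 21238, nat_lit 21166, nat_lit 21202, nat_lit 21190, nat_lit 21182] (nat_lit 0) [nat_lit 40866, nat_lit 1502] false]

noncomputable def sp53 : List Spec :=
  [Spec.mk (nat_lit 21188) (nat_lit 0) [nat_lit 8066, nat_lit 22646, nat_lit 20702, nat_lit 21242, nat_lit 21206, nat_lit 21182, nat_lit 21190] (nat_lit 2) [nat_lit 40870] false,
   Spec.mk (nat_lit 21190) (nat_lit 0) [nat_lit 8068, nat_lit 22648, nat_lit 20704, nat_lit 21244, nat_lit 21208, nat_lit 21184, nat_lit 21188, nat_lit 21192] (nat_lit 0) [nat_lit 40872, nat_lit 1508] false,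
   Spec.mk (nat_lit 21192) (nat_lit 0) [nat_lit 8070, nat_lit 22650, nat_lit 20706, nat_lit 21246, nat_lit 21210, nat_lit 21190] (nat_lit 0) [nat_lit 1510] false,
   Spec.mk (nat_lit 21200) (nat_lit 0) [nat_lit 8078, nat_lit 22658, nat_lit 20714, nat_lit 21254, nat_lit 21182, nat_lit 21206, nat_lit 21202] (nat_lit 2) [nat_lit 40882] false,
   Spec.mk (nat_lit 21202) (nat_lit 0) [nat_lit 8080, nat_lit 22660, nat_lit 20716, nat_lit 21256, nat_lit 21184, nat_lit 21208, nat_lit 21200] (nat_lit 3) [nat_lit 40884, nat_lit 1520] false,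
   Spec.mk (nat_lit 21206) (nat_lit 0) [nat_lit 8084, nat_lit 22664, nat_lit 20720, nat_lit 21260, nat_lit 21188, nat_lit 21200, nat_lit 21208] (nat_lit 2) [nat_lit 40888] false,
   Spec.mk (nat_lit 21208) (nat_lit 0) [nat_lit 8086, nat_lit 22666, nat_lit 20722, nat_lit 21262, nat_lit 21190, nat_lit 21202, nat_lit 21214, nat_lit 21206, nat_lit 21210] (nat_lit 1) [nat_lit 40890, nat_lit 1526] false,
   Spec.mk (nat_lit 21210) (nat_lit 0) [nat_lit 8088, nat_lit 22668, nat_lit 20724, nat_lit 21264, nat_lit 21192, nat_lit 21216, nat_lit 21208] (nat_lit 2) [nat_lit 1528] false,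
   Spec.mk (nat_lit 21214) (nat_lit 0) [nat_lit 8092, nat_lit 22672, nat_lit 20728, nat_lit 21268, nat_lit 21208, nat_lit 21216] (nat_lit 1) [nat_lit 40896, nat_lit 1532] false,
   Spec.mk (nat_lit 21216) (nat_lit 0) [nat_lit 8094, nat_lit 22674, nat_lit 20730, nat_lit 21270, nat_lit 21210, nat_lit 21214] (nat_lit 0) [nat_lit 1534] false,
   Spec.mk (nat_lit 21230) (nat_lit 0) [nat_lit 8108, nat_lit 22688, nat_lit 20744, nat_lit 21392, nat_lit 21176, nat_lit 21236] (nat_lit 0) [nat_lit 40912] false,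
   Spec.mk (nat_lit 21236) (nat_lit 0) [nat_lit 8114, nat_lit 22694, nat_lit 20750, nat_lit 21398, nat_lit 21182, nat_lit 21254, nat_lit 21230, nat_lit 21242, nat_lit 21238] (nat_lit 1) [nat_lit 40918] false,
   Spec.mk (nat_lit 21238) (nat_lit 0) [nat_lit 8116, nat_lit 22696, nat_lit 20752, nat_lit 21400, nat_lit 21184, nat_lit 21256, nat_lit 21244, nat_lit 21236] (nat_lit 1) [nat_lit 40920, nat_lit 1556] false,
   Spec.mk (nat_lit 21242) (nat_lit 0) [nat_lit 8120, nat_lit 22700, nat_lit 20756, nat_lit 21404, nat_lit 21188, nat_lit 21260, nat_lit 21236, nat_lit 21244] (nat_lit 4) [nat_lit 40924] false,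
   Spec.mk (nat_lit 21244) (nat_lit 0) [nat_lit 8122, nat_lit 22702, nat_lit 20758, nat_lit 21406, nat_lit 21190, nat_lit 21262, nat_lit 21238, nat_lit 21242, nat_lit 21246] (nat_lit 2) [nat_lit 40926, nat_lit 1562] false,
   Spec.mk (nat_lit 21246) (nat_lit 0) [nat_lit 8124, nat_lit 22704, nat_lit 20760, nat_lit 21408, nat_lit 21192, nat_lit 21264, nat_lit 21244] (nat_lit 2) [nat_lit 1564] false,
   Spec.mk (nat_lit 21254) (nat_lit 0) [nat_lit 8132, nat_lit 22712, nat_lit 20768, nat_lit 21416, nat_lit 21200, nat_lit 21308, nat_lit 21236, nat_lit 21260, nat_lit 21256] (nat_lit 1) [nat_lit 40936] false,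
   Spec.mk (nat_lit 21256) (nat_lit 0) [nat_lit 8134, nat_lit 22714, nat_lit 20770, nat_lit 21418, nat_lit 21202, nat_lit 21310, nat_lit 21238, nat_lit 21262, nat_lit 21254] (nat_lit 2) [nat_lit 40938, nat_lit 1574] false,
   Spec.mk (nat_lit 21260) (nat_lit 0) [nat_lit 8138, nat_lit 22718, nat_lit 20774, nat_lit 21422, nat_lit 21206, nat_lit 21314, nat_lit 21242, nat_lit 21278, nat_lit 21254, nat_lit 21262] (nat_lit 2) [nat_lit 40942] false,
   Spec.mk (nat_lit 21262) (nat_lit 0) [nat_lit 8140, nat_lit 22720, nat_lit 20776, nat_lit 21424, nat_lit 21208, nat_lit 21316, nat_lit 21244, nat_lit 21280, nat_lit 21256, nat_lit 21268, nat_lit 21260, nat_lit 21264] (nat_lit 1) [nat_lit 40944, nat_lit 1580] false,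
   Spec.mk (nat_lit 21264) (nat_lit 0) [nat_lit 8142, nat_lit 22722, nat_lit 20778, nat_lit 21426, nat_lit 21210, nat_lit 21318, nat_lit 21246, nat_lit 21282, nat_lit 21270, nat_lit 21262] (nat_lit 2) [nat_lit 1582] false,
   Spec.mk (nat_lit 21268) (nat_lit 0) [nat_lit 8146, nat_lit 22726, nat_lit 20782, nat_lit 21430, nat_lit 21214, nat_lit 21322, nat_lit 21286, nat_lit 21262, nat_lit 21270] (nat_lit 2) [nat_lit 40950, nat_lit 1586] false,
   Spec.mk (nat_lit 21270) (nat_lit 0) [nat_lit 8148, nat_lit 22728, nat_lit 20784, nat_lit 21432, nat_lit 21216, nat_lit 21324, nat_lit 21288, nat_lit 21264, nat_lit 21268] (nat_lit 1) [nat_lit 1588] false,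
   Spec.mk (nat_lit 21278) (nat_lit 0) [nat_lit 8156, nat_lit 22736, nat_lit 20792, nat_lit 21440, nat_lit 21332, nat_lit 21260, nat_lit 21280] (nat_lit 2) [nat_lit 40960] false,
   Spec.mk (nat_lit 21280) (nat_lit 0) [nat_lit 8158, nat_lit 22738, nat_lit 20794, nat_lit 21442, nat_lit 21334, nat_lit 21262, nat_lit 21286, nat_lit 21278, nat_lit 21282] (nat_lit 2) [nat_lit 40962, nat_lit 1598] false,
   Spec.mk (nat_lit 21282) (nat_lit 0) [nat_lit 8160, nat_lit 22740, nat_lit 20796, nat_lit 21444, nat_lit 21336, nat_lit 21264, nat_lit 21288, nat_lit 21280] (nat_lit 4) [nat_lit 1600] false,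
   Spec.mk (nat_lit 21286) (nat_lit 0) [nat_lit 8164, nat_lit 22744, nat_lit 20800, nat_lit 21448, nat_lit 21340, nat_lit 21268, nat_lit 21280, nat_lit 21288] (nat_lit 1) [nat_lit 40968, nat_lit 1604] false,
   Spec.mk (nat_lit 21288) (nat_lit 0) [nat_lit 8166, nat_lit 22746, nat_lit 20802, nat_lit 21450, nat_lit 21342, nat_lit 21270, nat_lit 21282, nat_lit 21294, nat_lit 21286] (nat_lit 1) [nat_lit 1606] false,
   Spec.mk (nat_lit 21294) (nat_lit 0) [nat_lit 8172, nat_lit 22752, nat_lit 20808, nat_lit 21456, nat_lit 21348, nat_lit 21288] (nat_lit 0) [nat_lit 1612] false,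
   Spec.mk (nat_lit 21308) (nat_lit 0) [nat_lit 8186, nat_lit 22766, nat_lit 20822, nat_lit 21470, nat_lit 21254, nat_lit 21314, nat_lit 21310] (nat_lit 2) [nat_lit 40990] false,
   Spec.mk (nat_lit 21310) (nat_lit 0) [nat_lit 8188, nat_lit 22768, nat_lit 20824, nat_lit 21472, nat_lit 21256, nat_lit 21316, nat_lit 21308] (nat_lit 3) [nat_lit 40992, nat_lit 1628] false,
   Spec.mk (nat_lit 21314) (nat_lit 0) [nat_lit 8192, nat_lit 22772, nat_lit 20828, nat_lit 21476, nat_lit 21260, nat_lit 21332, nat_lit 21308, nat_lit 21316] (nat_lit 4) [nat_lit 40996] false,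
   Spec.mk (nat_lit 21316) (nat_lit 0) [nat_lit 8194, nat_lit 22774, nat_lit 20830, nat_lit 21478, nat_lit 21262, nat_lit 21334, nat_lit 21310, nat_lit 21322, nat_lit 21314, nat_lit 21318] (nat_lit 3) [nat_lit 40998, nat_lit 1634] false,
   Spec.mk (nat_lit 21318) (nat_lit 0) [nat_lit 8196, nat_lit 22776, nat_lit 20832, nat_lit 21480, nat_lit 21264, nat_lit 21336, nat_lit 21324, nat_lit 21316] (nat_lit 4) [nat_lit 1636] false,
   Spec.mk (nat_lit 21322) (nat_lit 0) [nat_lit 8200, nat_lit 22780, nat_lit 20836, nat_lit 21484, nat_lit 21268, nat_lit 21340, nat_lit 21316, nat_lit 21324] (nat_lit 5) [nat_lit 41004, nat_lit 1640] false,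
   Spec.mk (nat_lit 21324) (nat_lit 0) [nat_lit 8202, nat_lit 22782, nat_lit 20838, nat_lit 21486, nat_lit 21270, nat_lit 21342, nat_lit 21318, nat_lit 21322] (nat_lit 4) [nat_lit 1642] false,
   Spec.mk (nat_lit 21332) (nat_lit 0) [nat_lit 8210, nat_lit 22790, nat_lit 20846, nat_lit 21494, nat_lit 21278, nat_lit 21314, nat_lit 21334] (nat_lit 2) [nat_lit 41014] false,
   Spec.mk (nat_lit 21334) (nat_lit 0) [nat_lit 8212, nat_lit 22792, nat_lit 20848, nat_lit 21496, nat_lit 21280, nat_lit 21316, nat_lit 21340, nat_lit 21332, nat_lit 21336] (nat_lit 2) [nat_lit 41016, nat_lit 1652] false,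
   Spec.mk (nat_lit 21336) (nat_lit 0) [nat_lit 8214, nat_lit 22794, nat_lit 20850, nat_lit 21498, nat_lit 21282, nat_lit 21318, nat_lit 21342, nat_lit 21334] (nat_lit 4) [nat_lit 1654] false,
   Spec.mk (nat_lit 21340) (nat_lit 0) [nat_lit 8218, nat_lit 22798, nat_lit 20854, nat_lit 21502, nat_lit 21286, nat_lit 21322, nat_lit 21358, nat_lit 21334, nat_lit 21342] (nat_lit 2) [nat_lit 41022, nat_lit 1658] false,
   Spec.mk (nat_lit 21342) (nat_lit 0) [nat_lit 8220, nat_lit 22800, nat_lit 20856, nat_lit 21504, nat_lit 21288, nat_lit 21324, nat_lit 21360, nat_lit 21336, nat_lit 21348, nat_lit 21340] (nat_lit 2) [nat_lit 1660] false,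
   Spec.mk (nat_lit 21348) (nat_lit 0) [nat_lit 8226, nat_lit 22806, nat_lit 20862, nat_lit 21510, nat_lit 21294, nat_lit 21366, nat_lit 21342] (nat_lit 2) [nat_lit 1666] false,
   Spec.mk (nat_lit 21358) (nat_lit 0) [nat_lit 8236, nat_lit 22816, nat_lit 20872, nat_lit 21520, nat_lit 21340, nat_lit 21360] (nat_lit 1) [nat_lit 41040, nat_lit 1676] false,
   Spec.mk (nat_lit 21360) (nat_lit 0) [nat_lit 8238, nat_lit 22818, nat_lit 20874, nat_lit 21522, nat_lit 21342, nat_lit 21366, nat_lit 21358] (nat_lit 2) [nat_lit 1678] false,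
   Spec.mk (nat_lit 21366) (nat_lit 0) [nat_lit 8244, nat_lit 22824, nat_lit 20880, nat_lit 21528, nat_lit 21348, nat_lit 21360] (nat_lit 0) [nat_lit 1684] false,
   Spec.mk (nat_lit 21392) (nat_lit 2) [nat_lit 8270, nat_lit 22850, nat_lit 20906, nat_lit 21230, nat_lit 21398] (nat_lit 0) [nat_lit 41074] false,
   Spec.mk (nat_lit 21398) (nat_lit 1) [nat_lit 8276, nat_lit 22856, nat_lit 20912, nat_lit 21236, nat_lit 21416, nat_lit 21392, nat_lit 21404, nat_lit 21400] (nat_lit 0) [nat_lit 41080] false,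
   Spec.mk (nat_lit 21400) (nat_lit 1) [nat_lit 8278, nat_lit 22858, nat_lit 20914, nat_lit 21238, nat_lit 21418, nat_lit 21406, nat_lit 21398] (nat_lit 0) [nat_lit 41082, nat_lit 1718] false,
   Spec.mk (nat_lit 21404) (nat_lit 0) [nat_lit 8282, nat_lit 22862, nat_lit 20918, nat_lit 21242, nat_lit 21422, nat_lit 21398, nat_lit 21406] (nat_lit 2) [nat_lit 41086] false,
   Spec.mk (nat_lit 21406) (nat_lit 0) [nat_lit 8284, nat_lit 22864, nat_lit 20920, nat_lit 21244, nat_lit 21424, nat_lit 21400, nat_lit 21404, nat_lit 21408] (nat_lit 0) [nat_lit 41088, nat_lit 1724] false,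
   Spec.mk (nat_lit 21408) (nat_lit 0) [nat_lit 8286, nat_lit 22866, nat_lit 20922, nat_lit 21246, nat_lit 21426, nat_lit 21406] (nat_lit 0) [nat_lit 1726] false,
   Spec.mk (nat_lit 21416) (nat_lit 0) [nat_lit 8294, nat_lit 22874, nat_lit 20930, nat_lit 21254, nat_lit 21470, nat_lit 21398, nat_lit 21422, nat_lit 21418] (nat_lit 0) [nat_lit 41098] false,
   Spec.mk (nat_lit 21418) (nat_lit 0) [nat_lit 8296, nat_lit 22876, nat_lit 20932, nat_lit 21256, nat_lit 21472, nat_lit 21400, nat_lit 21424, nat_lit 21416] (nat_lit 1) [nat_lit 41100, nat_lit 1736] false,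
   Spec.mk (nat_lit 21422) (nat_lit 0) [nat_lit 8300, nat_lit 22880, nat_lit 20936, nat_lit 21260, nat_lit 21476, nat_lit 21404, nat_lit 21440, nat_lit 21416, nat_lit 21424] (nat_lit 1) [nat_lit 41104] false,
   Spec.mk (nat_lit 21424) (nat_lit 0) [nat_lit 8302, nat_lit 22882, nat_lit 20938, nat_lit 21262, nat_lit 21478, nat_lit 21406, nat_lit 21442, nat_lit 21418, nat_lit 21430, nat_lit 21422, nat_lit 21426] (nat_lit 0) [nat_lit 41106, nat_lit 1742] false,
   Spec.mk (nat_lit 21426) (nat_lit 0) [nat_lit 8304, nat_lit 22884, nat_lit 20940, nat_lit 21264, nat_lit 21480, nat_lit 21408, nat_lit 21444, nat_lit 21432, nat_lit 21424] (nat_lit 1) [nat_lit 1744] false,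
   Spec.mk (nat_lit 21430) (nat_lit 0) [nat_lit 8308, nat_lit 22888, nat_lit 20944, nat_lit 21268, nat_lit 21484, nat_lit 21448, nat_lit 21424, nat_lit 21432] (nat_lit 1) [nat_lit 41112, nat_lit 1748] false,
   Spec.mk (nat_lit 21432) (nat_lit 0) [nat_lit 8310, nat_lit 22890, nat_lit 20946, nat_lit 21270, nat_lit 21486, nat_lit 21450, nat_lit 21426, nat_lit 21430] (nat_lit 0) [nat_lit 1750] false,
   Spec.mk (nat_lit 21440) (nat_lit 0) [nat_lit 8318, nat_lit 22898, nat_lit 20954, nat_lit 21278, nat_lit 21494, nat_lit 21422, nat_lit 21442] (nat_lit 2) [nat_lit 41122] false,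
   Spec.mk (nat_lit 21442) (nat_lit 0) [nat_lit 8320, nat_lit 22900, nat_lit 20956, nat_lit 21280, nat_lit 21496, nat_lit 21424, nat_lit 21448, nat_lit 21440, nat_lit 21444] (nat_lit 2) [nat_lit 41124, nat_lit 1760] false]

noncomputable def sp54 : List Spec :=
  [Spec.mk (nat_lit 21444) (nat_lit 0) [nat_lit 8322, nat_lit 22902, nat_lit 20958, nat_lit 21282, nat_lit 21498, nat_lit 21426, nat_lit 21450, nat_lit 21442] (nat_lit 4) [nat_lit 1762] false,
   Spec.mk (nat_lit 21448) (nat_lit 0) [nat_lit 8326, nat_lit 22906, nat_lit 20962, nat_lit 21286, nat_lit 21502, nat_lit 21430, nat_lit 21442, nat_lit 21450] (nat_lit 1) [nat_lit 41130, nat_lit 1766] false,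
   Spec.mk (nat_lit 21450) (nat_lit 0) [nat_lit 8328, nat_lit 22908, nat_lit 20964, nat_lit 21288, nat_lit 21504, nat_lit 21432, nat_lit 21444, nat_lit 21456, nat_lit 21448] (nat_lit 1) [nat_lit 1768] false,
   Spec.mk (nat_lit 21456) (nat_lit 0) [nat_lit 8334, nat_lit 22914, nat_lit 20970, nat_lit 21294, nat_lit 21510, nat_lit 21450] (nat_lit 0) [nat_lit 1774] false,
   Spec.mk (nat_lit 21470) (nat_lit 1) [nat_lit 8348, nat_lit 22928, nat_lit 20984, nat_lit 21308, nat_lit 21632, nat_lit 21416, nat_lit 21476, nat_lit 21472] (nat_lit 0) [nat_lit 41152] false,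
   Spec.mk (nat_lit 21472) (nat_lit 0) [nat_lit 8350, nat_lit 22930, nat_lit 20986, nat_lit 21310, nat_lit 21634, nat_lit 21418, nat_lit 21478, nat_lit 21470] (nat_lit 0) [nat_lit 41154, nat_lit 1790] false,
   Spec.mk (nat_lit 21476) (nat_lit 0) [nat_lit 8354, nat_lit 22934, nat_lit 20990, nat_lit 21314, nat_lit 21638, nat_lit 21422, nat_lit 21494, nat_lit 21470, nat_lit 21478] (nat_lit 1) [nat_lit 41158] false,
   Spec.mk (nat_lit 21478) (nat_lit 0) [nat_lit 8356, nat_lit 22936, nat_lit 20992, nat_lit 21316, nat_lit 21640, nat_lit 21424, nat_lit 21496, nat_lit 21472, nat_lit 21484, nat_lit 21476, nat_lit 21480] (nat_lit 0) [nat_lit 41160, nat_lit 1796] false,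
   Spec.mk (nat_lit 21480) (nat_lit 0) [nat_lit 8358, nat_lit 22938, nat_lit 20994, nat_lit 21318, nat_lit 21642, nat_lit 21426, nat_lit 21498, nat_lit 21486, nat_lit 21478] (nat_lit 1) [nat_lit 1798] false,
   Spec.mk (nat_lit 21484) (nat_lit 0) [nat_lit 8362, nat_lit 22942, nat_lit 20998, nat_lit 21322, nat_lit 21646, nat_lit 21430, nat_lit 21502, nat_lit 21478, nat_lit 21486] (nat_lit 2) [nat_lit 41166, nat_lit 1802] false,
   Spec.mk (nat_lit 21486) (nat_lit 0) [nat_lit 8364, nat_lit 22944, nat_lit 21000, nat_lit 21324, nat_lit 21648, nat_lit 21432, nat_lit 21504, nat_lit 21480, nat_lit 21484] (nat_lit 1) [nat_lit 1804] false,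
   Spec.mk (nat_lit 21494) (nat_lit 0) [nat_lit 8372, nat_lit 22952, nat_lit 21008, nat_lit 21332, nat_lit 21656, nat_lit 21440, nat_lit 21548, nat_lit 21476, nat_lit 21496] (nat_lit 0) [nat_lit 41176] false,
   Spec.mk (nat_lit 21496) (nat_lit 0) [nat_lit 8374, nat_lit 22954, nat_lit 21010, nat_lit 21334, nat_lit 21658, nat_lit 21442, nat_lit 21550, nat_lit 21478, nat_lit 21502, nat_lit 21494, nat_lit 21498] (nat_lit 0) [nat_lit 41178, nat_lit 1814] false,
   Spec.mk (nat_lit 21498) (nat_lit 0) [nat_lit 8376, nat_lit 22956, nat_lit 21012, nat_lit 21336, nat_lit 21660, nat_lit 21444, nat_lit 21552, nat_lit 21480, nat_lit 21504, nat_lit 21496] (nat_lit 2) [nat_lit 1816] false,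
   Spec.mk (nat_lit 21502) (nat_lit 0) [nat_lit 8380, nat_lit 22960, nat_lit 21016, nat_lit 21340, nat_lit 21664, nat_lit 21448, nat_lit 21556, nat_lit 21484, nat_lit 21520, nat_lit 21496, nat_lit 21504] (nat_lit 0) [nat_lit 41184, nat_lit 1820] false,
   Spec.mk (nat_lit 21504) (nat_lit 0) [nat_lit 8382, nat_lit 22962, nat_lit 21018, nat_lit 21342, nat_lit 21666, nat_lit 21450, nat_lit 21558, nat_lit 21486, nat_lit 21522, nat_lit 21498, nat_lit 21510, nat_lit 21502] (nat_lit 0) [nat_lit 1822] false,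
   Spec.mk (nat_lit 21510) (nat_lit 0) [nat_lit 8388, nat_lit 22968, nat_lit 21024, nat_lit 21348, nat_lit 21672, nat_lit 21456, nat_lit 21564, nat_lit 21528, nat_lit 21504] (nat_lit 0) [nat_lit 1828] false,
   Spec.mk (nat_lit 21520) (nat_lit 0) [nat_lit 8398, nat_lit 22978, nat_lit 21034, nat_lit 21358, nat_lit 21682, nat_lit 21574, nat_lit 21502, nat_lit 21522] (nat_lit 0) [nat_lit 41202, nat_lit 1838] false,
   Spec.mk (nat_lit 21522) (nat_lit 0) [nat_lit 8400, nat_lit 22980, nat_lit 21036, nat_lit 21360, nat_lit 21684, nat_lit 21576, nat_lit 21504, nat_lit 21528, nat_lit 21520] (nat_lit 1) [nat_lit 1840] false,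
   Spec.mk (nat_lit 21528) (nat_lit 1) [nat_lit 8406, nat_lit 22986, nat_lit 21042, nat_lit 21366, nat_lit 21690, nat_lit 21582, nat_lit 21510, nat_lit 21522] (nat_lit 0) [nat_lit 1846] false,
   Spec.mk (nat_lit 21548) (nat_lit 0) [nat_lit 8426, nat_lit 23006, nat_lit 21062, nat_lit 21710, nat_lit 21494, nat_lit 21550] (nat_lit 0) [nat_lit 41230] false,
   Spec.mk (nat_lit 21550) (nat_lit 0) [nat_lit 8428, nat_lit 23008, nat_lit 21064, nat_lit 21712, nat_lit 21496, nat_lit 21556, nat_lit 21548, nat_lit 21552] (nat_lit 0) [nat_lit 41232, nat_lit 1868] false,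
   Spec.mk (nat_lit 21552) (nat_lit 0) [nat_lit 8430, nat_lit 23010, nat_lit 21066, nat_lit 21714, nat_lit 21498, nat_lit 21558, nat_lit 21550] (nat_lit 2) [nat_lit 1870] false,
   Spec.mk (nat_lit 21556) (nat_lit 0) [nat_lit 8434, nat_lit 23014, nat_lit 21070, nat_lit 21718, nat_lit 21502, nat_lit 21574, nat_lit 21550, nat_lit 21558] (nat_lit 1) [nat_lit 41238, nat_lit 1874] false,
   Spec.mk (nat_lit 21558) (nat_lit 0) [nat_lit 8436, nat_lit 23016, nat_lit 21072, nat_lit 21720, nat_lit 21504, nat_lit 21576, nat_lit 21552, nat_lit 21564, nat_lit 21556] (nat_lit 1) [nat_lit 1876] false,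
   Spec.mk (nat_lit 21564) (nat_lit 0) [nat_lit 8442, nat_lit 23022, nat_lit 21078, nat_lit 21726, nat_lit 21510, nat_lit 21582, nat_lit 21558] (nat_lit 2) [nat_lit 1882] false,
   Spec.mk (nat_lit 21574) (nat_lit 1) [nat_lit 8452, nat_lit 23032, nat_lit 21088, nat_lit 21736, nat_lit 21520, nat_lit 21556, nat_lit 21576] (nat_lit 0) [nat_lit 41256, nat_lit 1892] false,
   Spec.mk (nat_lit 21576) (nat_lit 0) [nat_lit 8454, nat_lit 23034, nat_lit 21090, nat_lit 21738, nat_lit 21522, nat_lit 21558, nat_lit 21582, nat_lit 21574] (nat_lit 0) [nat_lit 1894] false,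
   Spec.mk (nat_lit 21582) (nat_lit 1) [nat_lit 8460, nat_lit 23040, nat_lit 21096, nat_lit 21744, nat_lit 21528, nat_lit 21564, nat_lit 21600, nat_lit 21576] (nat_lit 0) [nat_lit 1900] false,
   Spec.mk (nat_lit 21600) (nat_lit 2) [nat_lit 8478, nat_lit 23058, nat_lit 21114, nat_lit 21762, nat_lit 21582] (nat_lit 0) [nat_lit 1918] false,
   Spec.mk (nat_lit 21632) (nat_lit 2) [nat_lit 8510, nat_lit 23090, nat_lit 21470, nat_lit 21638, nat_lit 21634] (nat_lit 0) [nat_lit 41314] false,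
   Spec.mk (nat_lit 21634) (nat_lit 1) [nat_lit 8512, nat_lit 23092, nat_lit 21472, nat_lit 21640, nat_lit 21632] (nat_lit 0) [nat_lit 41316, nat_lit 1952] false,
   Spec.mk (nat_lit 21638) (nat_lit 0) [nat_lit 8516, nat_lit 23096, nat_lit 21476, nat_lit 21656, nat_lit 21632, nat_lit 21640] (nat_lit 0) [nat_lit 41320] false,
   Spec.mk (nat_lit 21640) (nat_lit 1) [nat_lit 8518, nat_lit 23098, nat_lit 21478, nat_lit 21658, nat_lit 21634, nat_lit 21646, nat_lit 21638, nat_lit 21642] (nat_lit 0) [nat_lit 41322, nat_lit 1958] false,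
   Spec.mk (nat_lit 21642) (nat_lit 0) [nat_lit 8520, nat_lit 23100, nat_lit 21480, nat_lit 21660, nat_lit 21648, nat_lit 21640] (nat_lit 0) [nat_lit 1960] false,
   Spec.mk (nat_lit 21646) (nat_lit 0) [nat_lit 8524, nat_lit 23104, nat_lit 21484, nat_lit 21664, nat_lit 21640, nat_lit 21648] (nat_lit 1) [nat_lit 41328, nat_lit 1964] false,
   Spec.mk (nat_lit 21648) (nat_lit 0) [nat_lit 8526, nat_lit 23106, nat_lit 21486, nat_lit 21666, nat_lit 21642, nat_lit 21646] (nat_lit 0) [nat_lit 1966] false,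
   Spec.mk (nat_lit 21656) (nat_lit 0) [nat_lit 8534, nat_lit 23114, nat_lit 21494, nat_lit 21710, nat_lit 21638, nat_lit 21658] (nat_lit 0) [nat_lit 41338] false,
   Spec.mk (nat_lit 21658) (nat_lit 0) [nat_lit 8536, nat_lit 23116, nat_lit 21496, nat_lit 21712, nat_lit 21640, nat_lit 21664, nat_lit 21656, nat_lit 21660] (nat_lit 0) [nat_lit 41340, nat_lit 1976] false,
   Spec.mk (nat_lit 21660) (nat_lit 0) [nat_lit 8538, nat_lit 23118, nat_lit 21498, nat_lit 21714, nat_lit 21642, nat_lit 21666, nat_lit 21658] (nat_lit 2) [nat_lit 1978] false,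
   Spec.mk (nat_lit 21664) (nat_lit 0) [nat_lit 8542, nat_lit 23122, nat_lit 21502, nat_lit 21718, nat_lit 21646, nat_lit 21682, nat_lit 21658, nat_lit 21666] (nat_lit 0) [nat_lit 41346, nat_lit 1982] false,
   Spec.mk (nat_lit 21666) (nat_lit 0) [nat_lit 8544, nat_lit 23124, nat_lit 21504, nat_lit 21720, nat_lit 21648, nat_lit 21684, nat_lit 21660, nat_lit 21672, nat_lit 21664] (nat_lit 0) [nat_lit 1984] false,
   Spec.mk (nat_lit 21672) (nat_lit 0) [nat_lit 8550, nat_lit 23130, nat_lit 21510, nat_lit 21726, nat_lit 21690, nat_lit 21666] (nat_lit 0) [nat_lit 1990] false,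
   Spec.mk (nat_lit 21682) (nat_lit 0) [nat_lit 8560, nat_lit 23140, nat_lit 21520, nat_lit 21736, nat_lit 21664, nat_lit 21684] (nat_lit 1) [nat_lit 41364, nat_lit 2000] false,
   Spec.mk (nat_lit 21684) (nat_lit 0) [nat_lit 8562, nat_lit 23142, nat_lit 21522, nat_lit 21738, nat_lit 21666, nat_lit 21690, nat_lit 21682] (nat_lit 2) [nat_lit 2002] false,
   Spec.mk (nat_lit 21690) (nat_lit 0) [nat_lit 8568, nat_lit 23148, nat_lit 21528, nat_lit 21744, nat_lit 21672, nat_lit 21684] (nat_lit 0) [nat_lit 2008] false,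
   Spec.mk (nat_lit 21710) (nat_lit 2) [nat_lit 8588, nat_lit 23168, nat_lit 21548, nat_lit 21656, nat_lit 21712] (nat_lit 0) [nat_lit 41392] false,
   Spec.mk (nat_lit 21712) (nat_lit 2) [nat_lit 8590, nat_lit 23170, nat_lit 21550, nat_lit 21658, nat_lit 21718, nat_lit 21710, nat_lit 21714] (nat_lit 0) [nat_lit 41394, nat_lit 2030] false,
   Spec.mk (nat_lit 21714) (nat_lit 0) [nat_lit 8592, nat_lit 23172, nat_lit 21552, nat_lit 21660, nat_lit 21720, nat_lit 21712] (nat_lit 0) [nat_lit 2032] false,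
   Spec.mk (nat_lit 21718) (nat_lit 1) [nat_lit 8596, nat_lit 23176, nat_lit 21556, nat_lit 21664, nat_lit 21736, nat_lit 21712, nat_lit 21720] (nat_lit 0) [nat_lit 41400, nat_lit 2036] false,
   Spec.mk (nat_lit 21720) (nat_lit 1) [nat_lit 8598, nat_lit 23178, nat_lit 21558, nat_lit 21666, nat_lit 21738, nat_lit 21714, nat_lit 21726, nat_lit 21718] (nat_lit 0) [nat_lit 2038] false,
   Spec.mk (nat_lit 21726) (nat_lit 0) [nat_lit 8604, nat_lit 23184, nat_lit 21564, nat_lit 21672, nat_lit 21744, nat_lit 21720] (nat_lit 0) [nat_lit 2044] false,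
   Spec.mk (nat_lit 21736) (nat_lit 2) [nat_lit 8614, nat_lit 23194, nat_lit 21574, nat_lit 21682, nat_lit 21790, nat_lit 21718, nat_lit 21738] (nat_lit 0) [nat_lit 41418, nat_lit 2054] false,
   Spec.mk (nat_lit 21738) (nat_lit 1) [nat_lit 8616, nat_lit 23196, nat_lit 21576, nat_lit 21684, nat_lit 21792, nat_lit 21720, nat_lit 21744, nat_lit 21736] (nat_lit 0) [nat_lit 2056] false,
   Spec.mk (nat_lit 21744) (nat_lit 2) [nat_lit 8622, nat_lit 23202, nat_lit 21582, nat_lit 21690, nat_lit 21798, nat_lit 21726, nat_lit 21762, nat_lit 21738] (nat_lit 0) [nat_lit 2062] false,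
   Spec.mk (nat_lit 21762) (nat_lit 2) [nat_lit 8640, nat_lit 23220, nat_lit 21600, nat_lit 21816, nat_lit 21744] (nat_lit 0) [nat_lit 2080] false,
   Spec.mk (nat_lit 21790) (nat_lit 3) [nat_lit 8668, nat_lit 23248, nat_lit 21736, nat_lit 21792] (nat_lit 0) [nat_lit 41472, nat_lit 2108] false,
   Spec.mk (nat_lit 21792) (nat_lit 2) [nat_lit 8670, nat_lit 23250, nat_lit 21738, nat_lit 21798, nat_lit 21790] (nat_lit 0) [nat_lit 2110] false,
   Spec.mk (nat_lit 21798) (nat_lit 2) [nat_lit 8676, nat_lit 23256, nat_lit 21744, nat_lit 21816, nat_lit 21792] (nat_lit 0) [nat_lit 2116] false,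
   Spec.mk (nat_lit 21816) (nat_lit 4) [nat_lit 8694, nat_lit 23274, nat_lit 21762, nat_lit 21798] (nat_lit 0) [nat_lit 2134] false]

noncomputable def sp55 : List Spec :=
  [Spec.mk (nat_lit 21896) (nat_lit 4) [nat_lit 8774, nat_lit 26270, nat_lit 20438, nat_lit 21914] (nat_lit 0) [nat_lit 41578] false,
   Spec.mk (nat_lit 21914) (nat_lit 3) [nat_lit 8792, nat_lit 26288, nat_lit 20456, nat_lit 21968, nat_lit 21896, nat_lit 21932, nat_lit 21920] (nat_lit 0) [nat_lit 41596] false,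
   Spec.mk (nat_lit 21920) (nat_lit 2) [nat_lit 8798, nat_lit 26294, nat_lit 20462, nat_lit 21974, nat_lit 21938, nat_lit 21914, nat_lit 21922] (nat_lit 0) [nat_lit 41602] false,
   Spec.mk (nat_lit 21922) (nat_lit 3) [nat_lit 8800, nat_lit 26296, nat_lit 20464, nat_lit 21976, nat_lit 21940, nat_lit 21920] (nat_lit 0) [nat_lit 41604, nat_lit 2240] false,
   Spec.mk (nat_lit 21932) (nat_lit 0) [nat_lit 8810, nat_lit 26306, nat_lit 20474, nat_lit 21986, nat_lit 21914, nat_lit 21938] (nat_lit 0) [nat_lit 41614] false,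
   Spec.mk (nat_lit 21938) (nat_lit 1) [nat_lit 8816, nat_lit 26312, nat_lit 20480, nat_lit 21992, nat_lit 21920, nat_lit 21932, nat_lit 21944, nat_lit 21940] (nat_lit 0) [nat_lit 41620] false,
   Spec.mk (nat_lit 21940) (nat_lit 1) [nat_lit 8818, nat_lit 26314, nat_lit 20482, nat_lit 21994, nat_lit 21922, nat_lit 21946, nat_lit 21938] (nat_lit 0) [nat_lit 41622, nat_lit 2258] false,
   Spec.mk (nat_lit 21944) (nat_lit 0) [nat_lit 8822, nat_lit 26318, nat_lit 20486, nat_lit 21998, nat_lit 21938, nat_lit 21946] (nat_lit 0) [nat_lit 41626] false,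
   Spec.mk (nat_lit 21946) (nat_lit 2) [nat_lit 8824, nat_lit 26320, nat_lit 20488, nat_lit 22000, nat_lit 21940, nat_lit 21944, nat_lit 21948] (nat_lit 0) [nat_lit 41628, nat_lit 2264] false,
   Spec.mk (nat_lit 21948) (nat_lit 2) [nat_lit 8826, nat_lit 26322, nat_lit 20490, nat_lit 22002, nat_lit 21946] (nat_lit 0) [nat_lit 2266] false,
   Spec.mk (nat_lit 21968) (nat_lit 2) [nat_lit 8846, nat_lit 26342, nat_lit 20510, nat_lit 22130, nat_lit 21914, nat_lit 21986, nat_lit 21974] (nat_lit 0) [nat_lit 41650] false,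
   Spec.mk (nat_lit 21974) (nat_lit 0) [nat_lit 8852, nat_lit 26348, nat_lit 20516, nat_lit 22136, nat_lit 21920, nat_lit 21992, nat_lit 21968, nat_lit 21976] (nat_lit 0) [nat_lit 41656] false,
   Spec.mk (nat_lit 21976) (nat_lit 1) [nat_lit 8854, nat_lit 26350, nat_lit 20518, nat_lit 22138, nat_lit 21922, nat_lit 21994, nat_lit 21974] (nat_lit 0) [nat_lit 41658, nat_lit 2294] false,
   Spec.mk (nat_lit 21986) (nat_lit 1) [nat_lit 8864, nat_lit 26360, nat_lit 20528, nat_lit 22148, nat_lit 21932, nat_lit 22040, nat_lit 21968, nat_lit 21992] (nat_lit 0) [nat_lit 41668] false,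
   Spec.mk (nat_lit 21992) (nat_lit 1) [nat_lit 8870, nat_lit 26366, nat_lit 20534, nat_lit 22154, nat_lit 21938, nat_lit 22046, nat_lit 21974, nat_lit 22010, nat_lit 21986, nat_lit 21998, nat_lit 21994] (nat_lit 0) [nat_lit 41674] false,
   Spec.mk (nat_lit 21994) (nat_lit 1) [nat_lit 8872, nat_lit 26368, nat_lit 20536, nat_lit 22156, nat_lit 21940, nat_lit 22048, nat_lit 21976, nat_lit 22012, nat_lit 22000, nat_lit 21992] (nat_lit 0) [nat_lit 41676, nat_lit 2312] false,
   Spec.mk (nat_lit 21998) (nat_lit 0) [nat_lit 8876, nat_lit 26372, nat_lit 20540, nat_lit 22160, nat_lit 21944, nat_lit 22052, nat_lit 22016, nat_lit 21992, nat_lit 22000] (nat_lit 1) [nat_lit 41680] false,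
   Spec.mk (nat_lit 22000) (nat_lit 1) [nat_lit 8878, nat_lit 26374, nat_lit 20542, nat_lit 22162, nat_lit 21946, nat_lit 22054, nat_lit 22018, nat_lit 21994, nat_lit 21998, nat_lit 22002] (nat_lit 0) [nat_lit 41682, nat_lit 2318] false,
   Spec.mk (nat_lit 22002) (nat_lit 1) [nat_lit 8880, nat_lit 26376, nat_lit 20544, nat_lit 22164, nat_lit 21948, nat_lit 22056, nat_lit 22020, nat_lit 22000] (nat_lit 0) [nat_lit 2320] false,
   Spec.mk (nat_lit 22010) (nat_lit 0) [nat_lit 8888, nat_lit 26384, nat_lit 20552, nat_lit 22172, nat_lit 22064, nat_lit 21992, nat_lit 22016, nat_lit 22012] (nat_lit 0) [nat_lit 41692] false,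
   Spec.mk (nat_lit 22012) (nat_lit 0) [nat_lit 8890, nat_lit 26386, nat_lit 20554, nat_lit 22174, nat_lit 22066, nat_lit 21994, nat_lit 22018, nat_lit 22010] (nat_lit 1) [nat_lit 41694, nat_lit 2330] false,
   Spec.mk (nat_lit 22016) (nat_lit 0) [nat_lit 8894, nat_lit 26390, nat_lit 20558, nat_lit 22178, nat_lit 22070, nat_lit 21998, nat_lit 22010, nat_lit 22018] (nat_lit 0) [nat_lit 41698] false,
   Spec.mk (nat_lit 22018) (nat_lit 1) [nat_lit 8896, nat_lit 26392, nat_lit 20560, nat_lit 22180, nat_lit 22072, nat_lit 22000, nat_lit 22012, nat_lit 22024, nat_lit 22016, nat_lit 22020] (nat_lit 0) [nat_lit 41700, nat_lit 2336] false,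
   Spec.mk (nat_lit 22020) (nat_lit 0) [nat_lit 8898, nat_lit 26394, nat_lit 20562, nat_lit 22182, nat_lit 22074, nat_lit 22002, nat_lit 22026, nat_lit 22018] (nat_lit 0) [nat_lit 2338] false,
   Spec.mk (nat_lit 22024) (nat_lit 1) [nat_lit 8902, nat_lit 26398, nat_lit 20566, nat_lit 22186, nat_lit 22078, nat_lit 22018, nat_lit 22026] (nat_lit 0) [nat_lit 41706, nat_lit 2342] false,
   Spec.mk (nat_lit 22026) (nat_lit 2) [nat_lit 8904, nat_lit 26400, nat_lit 20568, nat_lit 22188, nat_lit 22080, nat_lit 22020, nat_lit 22024] (nat_lit 0) [nat_lit 2344] false,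
   Spec.mk (nat_lit 22040) (nat_lit 0) [nat_lit 8918, nat_lit 26414, nat_lit 20582, nat_lit 22202, nat_lit 21986, nat_lit 22046] (nat_lit 0) [nat_lit 41722] false,
   Spec.mk (nat_lit 22046) (nat_lit 0) [nat_lit 8924, nat_lit 26420, nat_lit 20588, nat_lit 22208, nat_lit 21992, nat_lit 22064, nat_lit 22040, nat_lit 22052, nat_lit 22048] (nat_lit 1) [nat_lit 41728] false,
   Spec.mk (nat_lit 22048) (nat_lit 0) [nat_lit 8926, nat_lit 26422, nat_lit 20590, nat_lit 22210, nat_lit 21994, nat_lit 22066, nat_lit 22054, nat_lit 22046] (nat_lit 1) [nat_lit 41730, nat_lit 2366] false,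
   Spec.mk (nat_lit 22052) (nat_lit 0) [nat_lit 8930, nat_lit 26426, nat_lit 20594, nat_lit 22214, nat_lit 21998, nat_lit 22070, nat_lit 22046, nat_lit 22054] (nat_lit 4) [nat_lit 41734] false,
   Spec.mk (nat_lit 22054) (nat_lit 0) [nat_lit 8932, nat_lit 26428, nat_lit 20596, nat_lit 22216, nat_lit 22000, nat_lit 22072, nat_lit 22048, nat_lit 22052, nat_lit 22056] (nat_lit 2) [nat_lit 41736, nat_lit 2372] false,
   Spec.mk (nat_lit 22056) (nat_lit 0) [nat_lit 8934, nat_lit 26430, nat_lit 20598, nat_lit 22218, nat_lit 22002, nat_lit 22074, nat_lit 22054] (nat_lit 2) [nat_lit 2374] false,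
   Spec.mk (nat_lit 22064) (nat_lit 0) [nat_lit 8942, nat_lit 26438, nat_lit 20606, nat_lit 22226, nat_lit 22010, nat_lit 22046, nat_lit 22070, nat_lit 22066] (nat_lit 0) [nat_lit 41746] false,
   Spec.mk (nat_lit 22066) (nat_lit 0) [nat_lit 8944, nat_lit 26440, nat_lit 20608, nat_lit 22228, nat_lit 22012, nat_lit 22048, nat_lit 22072, nat_lit 22064] (nat_lit 1) [nat_lit 41748, nat_lit 2384] false,
   Spec.mk (nat_lit 22070) (nat_lit 0) [nat_lit 8948, nat_lit 26444, nat_lit 20612, nat_lit 22232, nat_lit 22016, nat_lit 22052, nat_lit 22088, nat_lit 22064, nat_lit 22072] (nat_lit 1) [nat_lit 41752] false,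
   Spec.mk (nat_lit 22072) (nat_lit 0) [nat_lit 8950, nat_lit 26446, nat_lit 20614, nat_lit 22234, nat_lit 22018, nat_lit 22054, nat_lit 22090, nat_lit 22066, nat_lit 22078, nat_lit 22070, nat_lit 22074] (nat_lit 0) [nat_lit 41754, nat_lit 2390] false,
   Spec.mk (nat_lit 22074) (nat_lit 0) [nat_lit 8952, nat_lit 26448, nat_lit 20616, nat_lit 22236, nat_lit 22020, nat_lit 22056, nat_lit 22092, nat_lit 22080, nat_lit 22072] (nat_lit 1) [nat_lit 2392] false,
   Spec.mk (nat_lit 22078) (nat_lit 0) [nat_lit 8956, nat_lit 26452, nat_lit 20620, nat_lit 22240, nat_lit 22024, nat_lit 22096, nat_lit 22072, nat_lit 22080] (nat_lit 1) [nat_lit 41760, nat_lit 2396] false,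
   Spec.mk (nat_lit 22080) (nat_lit 0) [nat_lit 8958, nat_lit 26454, nat_lit 20622, nat_lit 22242, nat_lit 22026, nat_lit 22098, nat_lit 22074, nat_lit 22078] (nat_lit 0) [nat_lit 2398] false,
   Spec.mk (nat_lit 22088) (nat_lit 0) [nat_lit 8966, nat_lit 26462, nat_lit 20630, nat_lit 22250, nat_lit 22070, nat_lit 22090] (nat_lit 0) [nat_lit 41770] false,
   Spec.mk (nat_lit 22090) (nat_lit 0) [nat_lit 8968, nat_lit 26464, nat_lit 20632, nat_lit 22252, nat_lit 22072, nat_lit 22096, nat_lit 22088, nat_lit 22092] (nat_lit 0) [nat_lit 41772, nat_lit 2408] false,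
   Spec.mk (nat_lit 22092) (nat_lit 0) [nat_lit 8970, nat_lit 26466, nat_lit 20634, nat_lit 22254, nat_lit 22074, nat_lit 22098, nat_lit 22090] (nat_lit 2) [nat_lit 2410] false,
   Spec.mk (nat_lit 22096) (nat_lit 1) [nat_lit 8974, nat_lit 26470, nat_lit 20638, nat_lit 22258, nat_lit 22078, nat_lit 22090, nat_lit 22098] (nat_lit 0) [nat_lit 41778, nat_lit 2414] false,
   Spec.mk (nat_lit 22098) (nat_lit 1) [nat_lit 8976, nat_lit 26472, nat_lit 20640, nat_lit 22260, nat_lit 22080, nat_lit 22092, nat_lit 22104, nat_lit 22096] (nat_lit 0) [nat_lit 2416] false,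
   Spec.mk (nat_lit 22104) (nat_lit 2) [nat_lit 8982, nat_lit 26478, nat_lit 20646, nat_lit 22266, nat_lit 22098] (nat_lit 0) [nat_lit 2422] false,
   Spec.mk (nat_lit 22130) (nat_lit 2) [nat_lit 9008, nat_lit 26504, nat_lit 20672, nat_lit 22616, nat_lit 21968, nat_lit 22148, nat_lit 22136] (nat_lit 0) [nat_lit 41812] false,
   Spec.mk (nat_lit 22136) (nat_lit 0) [nat_lit 9014, nat_lit 26510, nat_lit 20678, nat_lit 22622, nat_lit 21974, nat_lit 22154, nat_lit 22130, nat_lit 22138] (nat_lit 0) [nat_lit 41818] false,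
   Spec.mk (nat_lit 22138) (nat_lit 1) [nat_lit 9016, nat_lit 26512, nat_lit 20680, nat_lit 22624, nat_lit 21976, nat_lit 22156, nat_lit 22136] (nat_lit 0) [nat_lit 41820, nat_lit 2456] false,
   Spec.mk (nat_lit 22148) (nat_lit 0) [nat_lit 9026, nat_lit 26522, nat_lit 20690, nat_lit 22634, nat_lit 21986, nat_lit 22202, nat_lit 22130, nat_lit 22154] (nat_lit 0) [nat_lit 41830] false,
   Spec.mk (nat_lit 22154) (nat_lit 0) [nat_lit 9032, nat_lit 26528, nat_lit 20696, nat_lit 22640, nat_lit 21992, nat_lit 22208, nat_lit 22136, nat_lit 22172, nat_lit 22148, nat_lit 22160, nat_lit 22156] (nat_lit 0) [nat_lit 41836] false,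
   Spec.mk (nat_lit 22156) (nat_lit 0) [nat_lit 9034, nat_lit 26530, nat_lit 20698, nat_lit 22642, nat_lit 21994, nat_lit 22210, nat_lit 22138, nat_lit 22174, nat_lit 22162, nat_lit 22154] (nat_lit 0) [nat_lit 41838, nat_lit 2474] false,
   Spec.mk (nat_lit 22160) (nat_lit 0) [nat_lit 9038, nat_lit 26534, nat_lit 20702, nat_lit 22646, nat_lit 21998, nat_lit 22214, nat_lit 22178, nat_lit 22154, nat_lit 22162] (nat_lit 2) [nat_lit 41842] false,
   Spec.mk (nat_lit 22162) (nat_lit 0) [nat_lit 9040, nat_lit 26536, nat_lit 20704, nat_lit 22648, nat_lit 22000, nat_lit 22216, nat_lit 22180, nat_lit 22156, nat_lit 22160, nat_lit 22164] (nat_lit 0) [nat_lit 41844, nat_lit 2480] false,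
   Spec.mk (nat_lit 22164) (nat_lit 0) [nat_lit 9042, nat_lit 26538, nat_lit 20706, nat_lit 22650, nat_lit 22002, nat_lit 22218, nat_lit 22182, nat_lit 22162] (nat_lit 0) [nat_lit 2482] false,
   Spec.mk (nat_lit 22172) (nat_lit 0) [nat_lit 9050, nat_lit 26546, nat_lit 20714, nat_lit 22658, nat_lit 22010, nat_lit 22226, nat_lit 22154, nat_lit 22178, nat_lit 22174] (nat_lit 2) [nat_lit 41854] false,
   Spec.mk (nat_lit 22174) (nat_lit 0) [nat_lit 9052, nat_lit 26548, nat_lit 20716, nat_lit 22660, nat_lit 22012, nat_lit 22228, nat_lit 22156, nat_lit 22180, nat_lit 22172] (nat_lit 3) [nat_lit 41856, nat_lit 2492] false,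
   Spec.mk (nat_lit 22178) (nat_lit 0) [nat_lit 9056, nat_lit 26552, nat_lit 20720, nat_lit 22664, nat_lit 22016, nat_lit 22232, nat_lit 22160, nat_lit 22172, nat_lit 22180] (nat_lit 2) [nat_lit 41860] false,
   Spec.mk (nat_lit 22180) (nat_lit 0) [nat_lit 9058, nat_lit 26554, nat_lit 20722, nat_lit 22666, nat_lit 22018, nat_lit 22234, nat_lit 22162, nat_lit 22174, nat_lit 22186, nat_lit 22178, nat_lit 22182] (nat_lit 1) [nat_lit 41862, nat_lit 2498] false,
   Spec.mk (nat_lit 22182) (nat_lit 0) [nat_lit 9060, nat_lit 26556, nat_lit 20724, nat_lit 22668, nat_lit 22020, nat_lit 22236, nat_lit 22164, nat_lit 22188, nat_lit 22180] (nat_lit 2) [nat_lit 2500] false,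
   Spec.mk (nat_lit 22186) (nat_lit 0) [nat_lit 9064, nat_lit 26560, nat_lit 20728, nat_lit 22672, nat_lit 22024, nat_lit 22240, nat_lit 22180, nat_lit 22188] (nat_lit 1) [nat_lit 41868, nat_lit 2504] false]

noncomputable def sp56 : List Spec :=
  [Spec.mk (nat_lit 22188) (nat_lit 0) [nat_lit 9066, nat_lit 26562, nat_lit 20730, nat_lit 22674, nat_lit 22026, nat_lit 22242, nat_lit 22182, nat_lit 22186] (nat_lit 0) [nat_lit 2506] false,
   Spec.mk (nat_lit 22202) (nat_lit 1) [nat_lit 9080, nat_lit 26576, nat_lit 20744, nat_lit 22688, nat_lit 22040, nat_lit 22364, nat_lit 22148, nat_lit 22208] (nat_lit 0) [nat_lit 41884] false,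
   Spec.mk (nat_lit 22208) (nat_lit 0) [nat_lit 9086, nat_lit 26582, nat_lit 20750, nat_lit 22694, nat_lit 22046, nat_lit 22370, nat_lit 22154, nat_lit 22226, nat_lit 22202, nat_lit 22214, nat_lit 22210] (nat_lit 0) [nat_lit 41890] false,
   Spec.mk (nat_lit 22210) (nat_lit 0) [nat_lit 9088, nat_lit 26584, nat_lit 20752, nat_lit 22696, nat_lit 22048, nat_lit 22372, nat_lit 22156, nat_lit 22228, nat_lit 22216, nat_lit 22208] (nat_lit 0) [nat_lit 41892, nat_lit 2528] false,
   Spec.mk (nat_lit 22214) (nat_lit 0) [nat_lit 9092, nat_lit 26588, nat_lit 20756, nat_lit 22700, nat_lit 22052, nat_lit 22376, nat_lit 22160, nat_lit 22232, nat_lit 22208, nat_lit 22216] (nat_lit 3) [nat_lit 41896] false,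
   Spec.mk (nat_lit 22216) (nat_lit 0) [nat_lit 9094, nat_lit 26590, nat_lit 20758, nat_lit 22702, nat_lit 22054, nat_lit 22378, nat_lit 22162, nat_lit 22234, nat_lit 22210, nat_lit 22214, nat_lit 22218] (nat_lit 1) [nat_lit 41898, nat_lit 2534] false,
   Spec.mk (nat_lit 22218) (nat_lit 0) [nat_lit 9096, nat_lit 26592, nat_lit 20760, nat_lit 22704, nat_lit 22056, nat_lit 22380, nat_lit 22164, nat_lit 22236, nat_lit 22216] (nat_lit 1) [nat_lit 2536] false,
   Spec.mk (nat_lit 22226) (nat_lit 0) [nat_lit 9104, nat_lit 26600, nat_lit 20768, nat_lit 22712, nat_lit 22064, nat_lit 22388, nat_lit 22172, nat_lit 22280, nat_lit 22208, nat_lit 22232, nat_lit 22228] (nat_lit 0) [nat_lit 41908] false,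
   Spec.mk (nat_lit 22228) (nat_lit 0) [nat_lit 9106, nat_lit 26602, nat_lit 20770, nat_lit 22714, nat_lit 22066, nat_lit 22390, nat_lit 22174, nat_lit 22282, nat_lit 22210, nat_lit 22234, nat_lit 22226] (nat_lit 1) [nat_lit 41910, nat_lit 2546] false,
   Spec.mk (nat_lit 22232) (nat_lit 0) [nat_lit 9110, nat_lit 26606, nat_lit 20774, nat_lit 22718, nat_lit 22070, nat_lit 22394, nat_lit 22178, nat_lit 22286, nat_lit 22214, nat_lit 22250, nat_lit 22226, nat_lit 22234] (nat_lit 1) [nat_lit 41914] false,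
   Spec.mk (nat_lit 22234) (nat_lit 0) [nat_lit 9112, nat_lit 26608, nat_lit 20776, nat_lit 22720, nat_lit 22072, nat_lit 22396, nat_lit 22180, nat_lit 22288, nat_lit 22216, nat_lit 22252, nat_lit 22228, nat_lit 22240, nat_lit 22232, nat_lit 22236] (nat_lit 0) [nat_lit 41916, nat_lit 2552] false,
   Spec.mk (nat_lit 22236) (nat_lit 0) [nat_lit 9114, nat_lit 26610, nat_lit 20778, nat_lit 22722, nat_lit 22074, nat_lit 22398, nat_lit 22182, nat_lit 22290, nat_lit 22218, nat_lit 22254, nat_lit 22242, nat_lit 22234] (nat_lit 1) [nat_lit 2554] false,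
   Spec.mk (nat_lit 22240) (nat_lit 0) [nat_lit 9118, nat_lit 26614, nat_lit 20782, nat_lit 22726, nat_lit 22078, nat_lit 22402, nat_lit 22186, nat_lit 22294, nat_lit 22258, nat_lit 22234, nat_lit 22242] (nat_lit 1) [nat_lit 41922, nat_lit 2558] false,
   Spec.mk (nat_lit 22242) (nat_lit 0) [nat_lit 9120, nat_lit 26616, nat_lit 20784, nat_lit 22728, nat_lit 22080, nat_lit 22404, nat_lit 22188, nat_lit 22296, nat_lit 22260, nat_lit 22236, nat_lit 22240] (nat_lit 0) [nat_lit 2560] false,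
   Spec.mk (nat_lit 22250) (nat_lit 0) [nat_lit 9128, nat_lit 26624, nat_lit 20792, nat_lit 22736, nat_lit 22088, nat_lit 22412, nat_lit 22304, nat_lit 22232, nat_lit 22252] (nat_lit 1) [nat_lit 41932] false,
   Spec.mk (nat_lit 22252) (nat_lit 0) [nat_lit 9130, nat_lit 26626, nat_lit 20794, nat_lit 22738, nat_lit 22090, nat_lit 22414, nat_lit 22306, nat_lit 22234, nat_lit 22258, nat_lit 22250, nat_lit 22254] (nat_lit 1) [nat_lit 41934, nat_lit 2570] false,
   Spec.mk (nat_lit 22254) (nat_lit 0) [nat_lit 9132, nat_lit 26628, nat_lit 20796, nat_lit 22740, nat_lit 22092, nat_lit 22416, nat_lit 22308, nat_lit 22236, nat_lit 22260, nat_lit 22252] (nat_lit 3) [nat_lit 2572] false,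
   Spec.mk (nat_lit 22258) (nat_lit 0) [nat_lit 9136, nat_lit 26632, nat_lit 20800, nat_lit 22744, nat_lit 22096, nat_lit 22420, nat_lit 22312, nat_lit 22240, nat_lit 22252, nat_lit 22260] (nat_lit 0) [nat_lit 41940, nat_lit 2576] false,
   Spec.mk (nat_lit 22260) (nat_lit 0) [nat_lit 9138, nat_lit 26634, nat_lit 20802, nat_lit 22746, nat_lit 22098, nat_lit 22422, nat_lit 22314, nat_lit 22242, nat_lit 22254, nat_lit 22266, nat_lit 22258] (nat_lit 0) [nat_lit 2578] false,
   Spec.mk (nat_lit 22266) (nat_lit 1) [nat_lit 9144, nat_lit 26640, nat_lit 20808, nat_lit 22752, nat_lit 22104, nat_lit 22428, nat_lit 22320, nat_lit 22260] (nat_lit 0) [nat_lit 2584] false,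
   Spec.mk (nat_lit 22280) (nat_lit 0) [nat_lit 9158, nat_lit 26654, nat_lit 20822, nat_lit 22766, nat_lit 22442, nat_lit 22226, nat_lit 22286, nat_lit 22282] (nat_lit 0) [nat_lit 41962] false,
   Spec.mk (nat_lit 22282) (nat_lit 0) [nat_lit 9160, nat_lit 26656, nat_lit 20824, nat_lit 22768, nat_lit 22444, nat_lit 22228, nat_lit 22288, nat_lit 22280] (nat_lit 1) [nat_lit 41964, nat_lit 2600] false,
   Spec.mk (nat_lit 22286) (nat_lit 0) [nat_lit 9164, nat_lit 26660, nat_lit 20828, nat_lit 22772, nat_lit 22448, nat_lit 22232, nat_lit 22304, nat_lit 22280, nat_lit 22288] (nat_lit 2) [nat_lit 41968] false,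
   Spec.mk (nat_lit 22288) (nat_lit 0) [nat_lit 9166, nat_lit 26662, nat_lit 20830, nat_lit 22774, nat_lit 22450, nat_lit 22234, nat_lit 22306, nat_lit 22282, nat_lit 22294, nat_lit 22286, nat_lit 22290] (nat_lit 1) [nat_lit 41970, nat_lit 2606] false,
   Spec.mk (nat_lit 22290) (nat_lit 0) [nat_lit 9168, nat_lit 26664, nat_lit 20832, nat_lit 22776, nat_lit 22452, nat_lit 22236, nat_lit 22308, nat_lit 22296, nat_lit 22288] (nat_lit 2) [nat_lit 2608] false,
   Spec.mk (nat_lit 22294) (nat_lit 0) [nat_lit 9172, nat_lit 26668, nat_lit 20836, nat_lit 22780, nat_lit 22456, nat_lit 22240, nat_lit 22312, nat_lit 22288, nat_lit 22296] (nat_lit 3) [nat_lit 41976, nat_lit 2612] false,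
   Spec.mk (nat_lit 22296) (nat_lit 0) [nat_lit 9174, nat_lit 26670, nat_lit 20838, nat_lit 22782, nat_lit 22458, nat_lit 22242, nat_lit 22314, nat_lit 22290, nat_lit 22294] (nat_lit 2) [nat_lit 2614] false,
   Spec.mk (nat_lit 22304) (nat_lit 0) [nat_lit 9182, nat_lit 26678, nat_lit 20846, nat_lit 22790, nat_lit 22466, nat_lit 22250, nat_lit 22286, nat_lit 22306] (nat_lit 0) [nat_lit 41986] false,
   Spec.mk (nat_lit 22306) (nat_lit 0) [nat_lit 9184, nat_lit 26680, nat_lit 20848, nat_lit 22792, nat_lit 22468, nat_lit 22252, nat_lit 22288, nat_lit 22312, nat_lit 22304, nat_lit 22308] (nat_lit 0) [nat_lit 41988, nat_lit 2624] false,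
   Spec.mk (nat_lit 22308) (nat_lit 0) [nat_lit 9186, nat_lit 26682, nat_lit 20850, nat_lit 22794, nat_lit 22470, nat_lit 22254, nat_lit 22290, nat_lit 22314, nat_lit 22306] (nat_lit 2) [nat_lit 2626] false,
   Spec.mk (nat_lit 22312) (nat_lit 0) [nat_lit 9190, nat_lit 26686, nat_lit 20854, nat_lit 22798, nat_lit 22474, nat_lit 22258, nat_lit 22294, nat_lit 22330, nat_lit 22306, nat_lit 22314] (nat_lit 0) [nat_lit 41994, nat_lit 2630] false,
   Spec.mk (nat_lit 22314) (nat_lit 0) [nat_lit 9192, nat_lit 26688, nat_lit 20856, nat_lit 22800, nat_lit 22476, nat_lit 22260, nat_lit 22296, nat_lit 22332, nat_lit 22308, nat_lit 22320, nat_lit 22312] (nat_lit 0) [nat_lit 2632] false,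
   Spec.mk (nat_lit 22320) (nat_lit 0) [nat_lit 9198, nat_lit 26694, nat_lit 20862, nat_lit 22806, nat_lit 22482, nat_lit 22266, nat_lit 22338, nat_lit 22314] (nat_lit 0) [nat_lit 2638] false,
   Spec.mk (nat_lit 22330) (nat_lit 1) [nat_lit 9208, nat_lit 26704, nat_lit 20872, nat_lit 22816, nat_lit 22492, nat_lit 22312, nat_lit 22332] (nat_lit 0) [nat_lit 42012, nat_lit 2648] false,
   Spec.mk (nat_lit 22332) (nat_lit 0) [nat_lit 9210, nat_lit 26706, nat_lit 20874, nat_lit 22818, nat_lit 22494, nat_lit 22314, nat_lit 22338, nat_lit 22330] (nat_lit 0) [nat_lit 2650] false,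
   Spec.mk (nat_lit 22338) (nat_lit 2) [nat_lit 9216, nat_lit 26712, nat_lit 20880, nat_lit 22824, nat_lit 22500, nat_lit 22320, nat_lit 22332] (nat_lit 0) [nat_lit 2656] false,
   Spec.mk (nat_lit 22364) (nat_lit 0) [nat_lit 9242, nat_lit 26738, nat_lit 20906, nat_lit 22850, nat_lit 22202, nat_lit 22370] (nat_lit 0) [nat_lit 42046] false,
   Spec.mk (nat_lit 22370) (nat_lit 0) [nat_lit 9248, nat_lit 26744, nat_lit 20912, nat_lit 22856, nat_lit 22208, nat_lit 22388, nat_lit 22364, nat_lit 22376, nat_lit 22372] (nat_lit 1) [nat_lit 42052] false,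
   Spec.mk (nat_lit 22372) (nat_lit 0) [nat_lit 9250, nat_lit 26746, nat_lit 20914, nat_lit 22858, nat_lit 22210, nat_lit 22390, nat_lit 22378, nat_lit 22370] (nat_lit 1) [nat_lit 42054, nat_lit 2690] false,
   Spec.mk (nat_lit 22376) (nat_lit 0) [nat_lit 9254, nat_lit 26750, nat_lit 20918, nat_lit 22862, nat_lit 22214, nat_lit 22394, nat_lit 22370, nat_lit 22378] (nat_lit 4) [nat_lit 42058] false,
   Spec.mk (nat_lit 22378) (nat_lit 0) [nat_lit 9256, nat_lit 26752, nat_lit 20920, nat_lit 22864, nat_lit 22216, nat_lit 22396, nat_lit 22372, nat_lit 22376, nat_lit 22380] (nat_lit 2) [nat_lit 42060, nat_lit 2696] false,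
   Spec.mk (nat_lit 22380) (nat_lit 0) [nat_lit 9258, nat_lit 26754, nat_lit 20922, nat_lit 22866, nat_lit 22218, nat_lit 22398, nat_lit 22378] (nat_lit 2) [nat_lit 2698] false,
   Spec.mk (nat_lit 22388) (nat_lit 0) [nat_lit 9266, nat_lit 26762, nat_lit 20930, nat_lit 22874, nat_lit 22226, nat_lit 22442, nat_lit 22370, nat_lit 22394, nat_lit 22390] (nat_lit 2) [nat_lit 42070] false,
   Spec.mk (nat_lit 22390) (nat_lit 0) [nat_lit 9268, nat_lit 26764, nat_lit 20932, nat_lit 22876, nat_lit 22228, nat_lit 22444, nat_lit 22372, nat_lit 22396, nat_lit 22388] (nat_lit 3) [nat_lit 42072, nat_lit 2708] false,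
   Spec.mk (nat_lit 22394) (nat_lit 0) [nat_lit 9272, nat_lit 26768, nat_lit 20936, nat_lit 22880, nat_lit 22232, nat_lit 22448, nat_lit 22376, nat_lit 22412, nat_lit 22388, nat_lit 22396] (nat_lit 3) [nat_lit 42076] false,
   Spec.mk (nat_lit 22396) (nat_lit 0) [nat_lit 9274, nat_lit 26770, nat_lit 20938, nat_lit 22882, nat_lit 22234, nat_lit 22450, nat_lit 22378, nat_lit 22414, nat_lit 22390, nat_lit 22402, nat_lit 22394, nat_lit 22398] (nat_lit 2) [nat_lit 42078, nat_lit 2714] false,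
   Spec.mk (nat_lit 22398) (nat_lit 0) [nat_lit 9276, nat_lit 26772, nat_lit 20940, nat_lit 22884, nat_lit 22236, nat_lit 22452, nat_lit 22380, nat_lit 22416, nat_lit 22404, nat_lit 22396] (nat_lit 3) [nat_lit 2716] false,
   Spec.mk (nat_lit 22402) (nat_lit 0) [nat_lit 9280, nat_lit 26776, nat_lit 20944, nat_lit 22888, nat_lit 22240, nat_lit 22456, nat_lit 22420, nat_lit 22396, nat_lit 22404] (nat_lit 3) [nat_lit 42084, nat_lit 2720] false,
   Spec.mk (nat_lit 22404) (nat_lit 0) [nat_lit 9282, nat_lit 26778, nat_lit 20946, nat_lit 22890, nat_lit 22242, nat_lit 22458, nat_lit 22422, nat_lit 22398, nat_lit 22402] (nat_lit 2) [nat_lit 2722] false,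
   Spec.mk (nat_lit 22412) (nat_lit 0) [nat_lit 9290, nat_lit 26786, nat_lit 20954, nat_lit 22898, nat_lit 22250, nat_lit 22466, nat_lit 22394, nat_lit 22414] (nat_lit 4) [nat_lit 42094] false,
   Spec.mk (nat_lit 22414) (nat_lit 0) [nat_lit 9292, nat_lit 26788, nat_lit 20956, nat_lit 22900, nat_lit 22252, nat_lit 22468, nat_lit 22396, nat_lit 22420, nat_lit 22412, nat_lit 22416] (nat_lit 4) [nat_lit 42096, nat_lit 2732] false,
   Spec.mk (nat_lit 22416) (nat_lit 0) [nat_lit 9294, nat_lit 26790, nat_lit 20958, nat_lit 22902, nat_lit 22254, nat_lit 22470, nat_lit 22398, nat_lit 22422, nat_lit 22414] (nat_lit 6) [nat_lit 2734] false,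
   Spec.mk (nat_lit 22420) (nat_lit 0) [nat_lit 9298, nat_lit 26794, nat_lit 20962, nat_lit 22906, nat_lit 22258, nat_lit 22474, nat_lit 22402, nat_lit 22414, nat_lit 22422] (nat_lit 3) [nat_lit 42102, nat_lit 2738] false,
   Spec.mk (nat_lit 22422) (nat_lit 0) [nat_lit 9300, nat_lit 26796, nat_lit 20964, nat_lit 22908, nat_lit 22260, nat_lit 22476, nat_lit 22404, nat_lit 22416, nat_lit 22428, nat_lit 22420] (nat_lit 3) [nat_lit 2740] false,
   Spec.mk (nat_lit 22428) (nat_lit 0) [nat_lit 9306, nat_lit 26802, nat_lit 20970, nat_lit 22914, nat_lit 22266, nat_lit 22482, nat_lit 22422] (nat_lit 2) [nat_lit 2746] false,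
   Spec.mk (nat_lit 22442) (nat_lit 0) [nat_lit 9320, nat_lit 26816, nat_lit 20984, nat_lit 22928, nat_lit 22280, nat_lit 22388, nat_lit 22448, nat_lit 22444] (nat_lit 0) [nat_lit 42124] false,
   Spec.mk (nat_lit 22444) (nat_lit 0) [nat_lit 9322, nat_lit 26818, nat_lit 20986, nat_lit 22930, nat_lit 22282, nat_lit 22390, nat_lit 22450, nat_lit 22442] (nat_lit 1) [nat_lit 42126, nat_lit 2762] false,
   Spec.mk (nat_lit 22448) (nat_lit 0) [nat_lit 9326, nat_lit 26822, nat_lit 20990, nat_lit 22934, nat_lit 22286, nat_lit 22394, nat_lit 22466, nat_lit 22442, nat_lit 22450] (nat_lit 2) [nat_lit 42130] false,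
   Spec.mk (nat_lit 22450) (nat_lit 0) [nat_lit 9328, nat_lit 26824, nat_lit 20992, nat_lit 22936, nat_lit 22288, nat_lit 22396, nat_lit 22468, nat_lit 22444, nat_lit 22456, nat_lit 22448, nat_lit 22452] (nat_lit 1) [nat_lit 42132, nat_lit 2768] false,
   Spec.mk (nat_lit 22452) (nat_lit 0) [nat_lit 9330, nat_lit 26826, nat_lit 20994, nat_lit 22938, nat_lit 22290, nat_lit 22398, nat_lit 22470, nat_lit 22458, nat_lit 22450] (nat_lit 2) [nat_lit 2770] false]

noncomputable def sp57 : List Spec :=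
  [Spec.mk (nat_lit 22456) (nat_lit 0) [nat_lit 9334, nat_lit 26830, nat_lit 20998, nat_lit 22942, nat_lit 22294, nat_lit 22402, nat_lit 22474, nat_lit 22450, nat_lit 22458] (nat_lit 3) [nat_lit 42138, nat_lit 2774] false,
   Spec.mk (nat_lit 22458) (nat_lit 0) [nat_lit 9336, nat_lit 26832, nat_lit 21000, nat_lit 22944, nat_lit 22296, nat_lit 22404, nat_lit 22476, nat_lit 22452, nat_lit 22456] (nat_lit 2) [nat_lit 2776] false,
   Spec.mk (nat_lit 22466) (nat_lit 0) [nat_lit 9344, nat_lit 26840, nat_lit 21008, nat_lit 22952, nat_lit 22304, nat_lit 22412, nat_lit 22520, nat_lit 22448, nat_lit 22468] (nat_lit 1) [nat_lit 42148] false,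
   Spec.mk (nat_lit 22468) (nat_lit 0) [nat_lit 9346, nat_lit 26842, nat_lit 21010, nat_lit 22954, nat_lit 22306, nat_lit 22414, nat_lit 22522, nat_lit 22450, nat_lit 22474, nat_lit 22466, nat_lit 22470] (nat_lit 1) [nat_lit 42150, nat_lit 2786] false,
   Spec.mk (nat_lit 22470) (nat_lit 0) [nat_lit 9348, nat_lit 26844, nat_lit 21012, nat_lit 22956, nat_lit 22308, nat_lit 22416, nat_lit 22524, nat_lit 22452, nat_lit 22476, nat_lit 22468] (nat_lit 3) [nat_lit 2788] false,
   Spec.mk (nat_lit 22474) (nat_lit 0) [nat_lit 9352, nat_lit 26848, nat_lit 21016, nat_lit 22960, nat_lit 22312, nat_lit 22420, nat_lit 22528, nat_lit 22456, nat_lit 22492, nat_lit 22468, nat_lit 22476] (nat_lit 1) [nat_lit 42156, nat_lit 2792] false,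
   Spec.mk (nat_lit 22476) (nat_lit 0) [nat_lit 9354, nat_lit 26850, nat_lit 21018, nat_lit 22962, nat_lit 22314, nat_lit 22422, nat_lit 22530, nat_lit 22458, nat_lit 22494, nat_lit 22470, nat_lit 22482, nat_lit 22474] (nat_lit 1) [nat_lit 2794] false,
   Spec.mk (nat_lit 22482) (nat_lit 0) [nat_lit 9360, nat_lit 26856, nat_lit 21024, nat_lit 22968, nat_lit 22320, nat_lit 22428, nat_lit 22536, nat_lit 22500, nat_lit 22476] (nat_lit 1) [nat_lit 2800] false,
   Spec.mk (nat_lit 22492) (nat_lit 0) [nat_lit 9370, nat_lit 26866, nat_lit 21034, nat_lit 22978, nat_lit 22330, nat_lit 22546, nat_lit 22474, nat_lit 22494] (nat_lit 1) [nat_lit 42174, nat_lit 2810] false,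
   Spec.mk (nat_lit 22494) (nat_lit 0) [nat_lit 9372, nat_lit 26868, nat_lit 21036, nat_lit 22980, nat_lit 22332, nat_lit 22548, nat_lit 22476, nat_lit 22500, nat_lit 22492] (nat_lit 2) [nat_lit 2812] false,
   Spec.mk (nat_lit 22500) (nat_lit 0) [nat_lit 9378, nat_lit 26874, nat_lit 21042, nat_lit 22986, nat_lit 22338, nat_lit 22554, nat_lit 22482, nat_lit 22494] (nat_lit 0) [nat_lit 2818] false,
   Spec.mk (nat_lit 22520) (nat_lit 0) [nat_lit 9398, nat_lit 26894, nat_lit 21062, nat_lit 23006, nat_lit 22466, nat_lit 22522] (nat_lit 0) [nat_lit 42202] false,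
   Spec.mk (nat_lit 22522) (nat_lit 0) [nat_lit 9400, nat_lit 26896, nat_lit 21064, nat_lit 23008, nat_lit 22468, nat_lit 22528, nat_lit 22520, nat_lit 22524] (nat_lit 0) [nat_lit 42204, nat_lit 2840] false,
   Spec.mk (nat_lit 22524) (nat_lit 0) [nat_lit 9402, nat_lit 26898, nat_lit 21066, nat_lit 23010, nat_lit 22470, nat_lit 22530, nat_lit 22522] (nat_lit 2) [nat_lit 2842] false,
   Spec.mk (nat_lit 22528) (nat_lit 0) [nat_lit 9406, nat_lit 26902, nat_lit 21070, nat_lit 23014, nat_lit 22474, nat_lit 22546, nat_lit 22522, nat_lit 22530] (nat_lit 1) [nat_lit 42210, nat_lit 2846] false,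
   Spec.mk (nat_lit 22530) (nat_lit 0) [nat_lit 9408, nat_lit 26904, nat_lit 21072, nat_lit 23016, nat_lit 22476, nat_lit 22548, nat_lit 22524, nat_lit 22536, nat_lit 22528] (nat_lit 1) [nat_lit 2848] false,
   Spec.mk (nat_lit 22536) (nat_lit 0) [nat_lit 9414, nat_lit 26910, nat_lit 21078, nat_lit 23022, nat_lit 22482, nat_lit 22554, nat_lit 22530] (nat_lit 2) [nat_lit 2854] false,
   Spec.mk (nat_lit 22546) (nat_lit 1) [nat_lit 9424, nat_lit 26920, nat_lit 21088, nat_lit 23032, nat_lit 22492, nat_lit 22528, nat_lit 22548] (nat_lit 0) [nat_lit 42228, nat_lit 2864] false,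
   Spec.mk (nat_lit 22548) (nat_lit 0) [nat_lit 9426, nat_lit 26922, nat_lit 21090, nat_lit 23034, nat_lit 22494, nat_lit 22530, nat_lit 22554, nat_lit 22546] (nat_lit 0) [nat_lit 2866] false,
   Spec.mk (nat_lit 22554) (nat_lit 1) [nat_lit 9432, nat_lit 26928, nat_lit 21096, nat_lit 23040, nat_lit 22500, nat_lit 22536, nat_lit 22572, nat_lit 22548] (nat_lit 0) [nat_lit 2872] false,
   Spec.mk (nat_lit 22572) (nat_lit 2) [nat_lit 9450, nat_lit 26946, nat_lit 21114, nat_lit 23058, nat_lit 22554] (nat_lit 0) [nat_lit 2890] false,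
   Spec.mk (nat_lit 22616) (nat_lit 3) [nat_lit 9494, nat_lit 26990, nat_lit 21158, nat_lit 24074, nat_lit 22130, nat_lit 22634, nat_lit 22622] (nat_lit 0) [nat_lit 42298] false,
   Spec.mk (nat_lit 22622) (nat_lit 1) [nat_lit 9500, nat_lit 26996, nat_lit 21164, nat_lit 24080, nat_lit 22136, nat_lit 22640, nat_lit 22616, nat_lit 22624] (nat_lit 0) [nat_lit 42304] false,
   Spec.mk (nat_lit 22624) (nat_lit 2) [nat_lit 9502, nat_lit 26998, nat_lit 21166, nat_lit 24082, nat_lit 22138, nat_lit 22642, nat_lit 22622] (nat_lit 0) [nat_lit 42306, nat_lit 2942] false,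
   Spec.mk (nat_lit 22634) (nat_lit 1) [nat_lit 9512, nat_lit 27008, nat_lit 21176, nat_lit 24092, nat_lit 22148, nat_lit 22688, nat_lit 22616, nat_lit 22640] (nat_lit 0) [nat_lit 42316] false,
   Spec.mk (nat_lit 22640) (nat_lit 1) [nat_lit 9518, nat_lit 27014, nat_lit 21182, nat_lit 24098, nat_lit 22154, nat_lit 22694, nat_lit 22622, nat_lit 22658, nat_lit 22634, nat_lit 22646, nat_lit 22642] (nat_lit 0) [nat_lit 42322] false,
   Spec.mk (nat_lit 22642) (nat_lit 1) [nat_lit 9520, nat_lit 27016, nat_lit 21184, nat_lit 24100, nat_lit 22156, nat_lit 22696, nat_lit 22624, nat_lit 22660, nat_lit 22648, nat_lit 22640] (nat_lit 0) [nat_lit 42324, nat_lit 2960] false,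
   Spec.mk (nat_lit 22646) (nat_lit 0) [nat_lit 9524, nat_lit 27020, nat_lit 21188, nat_lit 24104, nat_lit 22160, nat_lit 22700, nat_lit 22664, nat_lit 22640, nat_lit 22648] (nat_lit 1) [nat_lit 42328] false,
   Spec.mk (nat_lit 22648) (nat_lit 1) [nat_lit 9526, nat_lit 27022, nat_lit 21190, nat_lit 24106, nat_lit 22162, nat_lit 22702, nat_lit 22666, nat_lit 22642, nat_lit 22646, nat_lit 22650] (nat_lit 0) [nat_lit 42330, nat_lit 2966] false,
   Spec.mk (nat_lit 22650) (nat_lit 1) [nat_lit 9528, nat_lit 27024, nat_lit 21192, nat_lit 24108, nat_lit 22164, nat_lit 22704, nat_lit 22668, nat_lit 22648] (nat_lit 0) [nat_lit 2968] false,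
   Spec.mk (nat_lit 22658) (nat_lit 0) [nat_lit 9536, nat_lit 27032, nat_lit 21200, nat_lit 24116, nat_lit 22172, nat_lit 22712, nat_lit 22640, nat_lit 22664, nat_lit 22660] (nat_lit 1) [nat_lit 42340] false,
   Spec.mk (nat_lit 22660) (nat_lit 0) [nat_lit 9538, nat_lit 27034, nat_lit 21202, nat_lit 24118, nat_lit 22174, nat_lit 22714, nat_lit 22642, nat_lit 22666, nat_lit 22658] (nat_lit 2) [nat_lit 42342, nat_lit 2978] false,
   Spec.mk (nat_lit 22664) (nat_lit 0) [nat_lit 9542, nat_lit 27038, nat_lit 21206, nat_lit 24122, nat_lit 22178, nat_lit 22718, nat_lit 22646, nat_lit 22658, nat_lit 22666] (nat_lit 1) [nat_lit 42346] false,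
   Spec.mk (nat_lit 22666) (nat_lit 0) [nat_lit 9544, nat_lit 27040, nat_lit 21208, nat_lit 24124, nat_lit 22180, nat_lit 22720, nat_lit 22648, nat_lit 22660, nat_lit 22672, nat_lit 22664, nat_lit 22668] (nat_lit 0) [nat_lit 42348, nat_lit 2984] false,
   Spec.mk (nat_lit 22668) (nat_lit 0) [nat_lit 9546, nat_lit 27042, nat_lit 21210, nat_lit 24126, nat_lit 22182, nat_lit 22722, nat_lit 22650, nat_lit 22674, nat_lit 22666] (nat_lit 1) [nat_lit 2986] false,
   Spec.mk (nat_lit 22672) (nat_lit 0) [nat_lit 9550, nat_lit 27046, nat_lit 21214, nat_lit 24130, nat_lit 22186, nat_lit 22726, nat_lit 22666, nat_lit 22674] (nat_lit 0) [nat_lit 42354, nat_lit 2990] false,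
   Spec.mk (nat_lit 22674) (nat_lit 1) [nat_lit 9552, nat_lit 27048, nat_lit 21216, nat_lit 24132, nat_lit 22188, nat_lit 22728, nat_lit 22668, nat_lit 22672] (nat_lit 0) [nat_lit 2992] false,
   Spec.mk (nat_lit 22688) (nat_lit 1) [nat_lit 9566, nat_lit 27062, nat_lit 21230, nat_lit 24146, nat_lit 22202, nat_lit 22850, nat_lit 22634, nat_lit 22694] (nat_lit 0) [nat_lit 42370] false,
   Spec.mk (nat_lit 22694) (nat_lit 0) [nat_lit 9572, nat_lit 27068, nat_lit 21236, nat_lit 24152, nat_lit 22208, nat_lit 22856, nat_lit 22640, nat_lit 22712, nat_lit 22688, nat_lit 22700, nat_lit 22696] (nat_lit 0) [nat_lit 42376] false,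
   Spec.mk (nat_lit 22696) (nat_lit 0) [nat_lit 9574, nat_lit 27070, nat_lit 21238, nat_lit 24154, nat_lit 22210, nat_lit 22858, nat_lit 22642, nat_lit 22714, nat_lit 22702, nat_lit 22694] (nat_lit 0) [nat_lit 42378, nat_lit 3014] false,
   Spec.mk (nat_lit 22700) (nat_lit 0) [nat_lit 9578, nat_lit 27074, nat_lit 21242, nat_lit 24158, nat_lit 22214, nat_lit 22862, nat_lit 22646, nat_lit 22718, nat_lit 22694, nat_lit 22702] (nat_lit 3) [nat_lit 42382] false,
   Spec.mk (nat_lit 22702) (nat_lit 0) [nat_lit 9580, nat_lit 27076, nat_lit 21244, nat_lit 24160, nat_lit 22216, nat_lit 22864, nat_lit 22648, nat_lit 22720, nat_lit 22696, nat_lit 22700, nat_lit 22704] (nat_lit 1) [nat_lit 42384, nat_lit 3020] false,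
   Spec.mk (nat_lit 22704) (nat_lit 0) [nat_lit 9582, nat_lit 27078, nat_lit 21246, nat_lit 24162, nat_lit 22218, nat_lit 22866, nat_lit 22650, nat_lit 22722, nat_lit 22702] (nat_lit 1) [nat_lit 3022] false,
   Spec.mk (nat_lit 22712) (nat_lit 0) [nat_lit 9590, nat_lit 27086, nat_lit 21254, nat_lit 24170, nat_lit 22226, nat_lit 22874, nat_lit 22658, nat_lit 22766, nat_lit 22694, nat_lit 22718, nat_lit 22714] (nat_lit 0) [nat_lit 42394] false,
   Spec.mk (nat_lit 22714) (nat_lit 0) [nat_lit 9592, nat_lit 27088, nat_lit 21256, nat_lit 24172, nat_lit 22228, nat_lit 22876, nat_lit 22660, nat_lit 22768, nat_lit 22696, nat_lit 22720, nat_lit 22712] (nat_lit 1) [nat_lit 42396, nat_lit 3032] false,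
   Spec.mk (nat_lit 22718) (nat_lit 0) [nat_lit 9596, nat_lit 27092, nat_lit 21260, nat_lit 24176, nat_lit 22232, nat_lit 22880, nat_lit 22664, nat_lit 22772, nat_lit 22700, nat_lit 22736, nat_lit 22712, nat_lit 22720] (nat_lit 1) [nat_lit 42400] false,
   Spec.mk (nat_lit 22720) (nat_lit 0) [nat_lit 9598, nat_lit 27094, nat_lit 21262, nat_lit 24178, nat_lit 22234, nat_lit 22882, nat_lit 22666, nat_lit 22774, nat_lit 22702, nat_lit 22738, nat_lit 22714, nat_lit 22726, nat_lit 22718, nat_lit 22722] (nat_lit 0) [nat_lit 42402, nat_lit 3038] false,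
   Spec.mk (nat_lit 22722) (nat_lit 0) [nat_lit 9600, nat_lit 27096, nat_lit 21264, nat_lit 24180, nat_lit 22236, nat_lit 22884, nat_lit 22668, nat_lit 22776, nat_lit 22704, nat_lit 22740, nat_lit 22728, nat_lit 22720] (nat_lit 1) [nat_lit 3040] false,
   Spec.mk (nat_lit 22726) (nat_lit 0) [nat_lit 9604, nat_lit 27100, nat_lit 21268, nat_lit 24184, nat_lit 22240, nat_lit 22888, nat_lit 22672, nat_lit 22780, nat_lit 22744, nat_lit 22720, nat_lit 22728] (nat_lit 1) [nat_lit 42408, nat_lit 3044] false,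
   Spec.mk (nat_lit 22728) (nat_lit 0) [nat_lit 9606, nat_lit 27102, nat_lit 21270, nat_lit 24186, nat_lit 22242, nat_lit 22890, nat_lit 22674, nat_lit 22782, nat_lit 22746, nat_lit 22722, nat_lit 22726] (nat_lit 0) [nat_lit 3046] false,
   Spec.mk (nat_lit 22736) (nat_lit 0) [nat_lit 9614, nat_lit 27110, nat_lit 21278, nat_lit 24194, nat_lit 22250, nat_lit 22898, nat_lit 22790, nat_lit 22718, nat_lit 22738] (nat_lit 1) [nat_lit 42418] false,
   Spec.mk (nat_lit 22738) (nat_lit 0) [nat_lit 9616, nat_lit 27112, nat_lit 21280, nat_lit 24196, nat_lit 22252, nat_lit 22900, nat_lit 22792, nat_lit 22720, nat_lit 22744, nat_lit 22736, nat_lit 22740] (nat_lit 1) [nat_lit 42420, nat_lit 3056] false,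
   Spec.mk (nat_lit 22740) (nat_lit 0) [nat_lit 9618, nat_lit 27114, nat_lit 21282, nat_lit 24198, nat_lit 22254, nat_lit 22902, nat_lit 22794, nat_lit 22722, nat_lit 22746, nat_lit 22738] (nat_lit 3) [nat_lit 3058] false,
   Spec.mk (nat_lit 22744) (nat_lit 0) [nat_lit 9622, nat_lit 27118, nat_lit 21286, nat_lit 24202, nat_lit 22258, nat_lit 22906, nat_lit 22798, nat_lit 22726, nat_lit 22738, nat_lit 22746] (nat_lit 0) [nat_lit 42426, nat_lit 3062] false,
   Spec.mk (nat_lit 22746) (nat_lit 0) [nat_lit 9624, nat_lit 27120, nat_lit 21288, nat_lit 24204, nat_lit 22260, nat_lit 22908, nat_lit 22800, nat_lit 22728, nat_lit 22740, nat_lit 22752, nat_lit 22744] (nat_lit 0) [nat_lit 3064] false,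
   Spec.mk (nat_lit 22752) (nat_lit 1) [nat_lit 9630, nat_lit 27126, nat_lit 21294, nat_lit 24210, nat_lit 22266, nat_lit 22914, nat_lit 22806, nat_lit 22746] (nat_lit 0) [nat_lit 3070] false,
   Spec.mk (nat_lit 22766) (nat_lit 0) [nat_lit 9644, nat_lit 27140, nat_lit 21308, nat_lit 24224, nat_lit 22280, nat_lit 22928, nat_lit 22712, nat_lit 22772, nat_lit 22768] (nat_lit 1) [nat_lit 42448] false,
   Spec.mk (nat_lit 22768) (nat_lit 0) [nat_lit 9646, nat_lit 27142, nat_lit 21310, nat_lit 24226, nat_lit 22282, nat_lit 22930, nat_lit 22714, nat_lit 22774, nat_lit 22766] (nat_lit 2) [nat_lit 42450, nat_lit 3086] false,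
   Spec.mk (nat_lit 22772) (nat_lit 0) [nat_lit 9650, nat_lit 27146, nat_lit 21314, nat_lit 24230, nat_lit 22286, nat_lit 22934, nat_lit 22718, nat_lit 22790, nat_lit 22766, nat_lit 22774] (nat_lit 3) [nat_lit 42454] false,
   Spec.mk (nat_lit 22774) (nat_lit 0) [nat_lit 9652, nat_lit 27148, nat_lit 21316, nat_lit 24232, nat_lit 22288, nat_lit 22936, nat_lit 22720, nat_lit 22792, nat_lit 22768, nat_lit 22780, nat_lit 22772, nat_lit 22776] (nat_lit 2) [nat_lit 42456, nat_lit 3092] false]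

noncomputable def sp58 : List Spec :=
  [Spec.mk (nat_lit 22776) (nat_lit 0) [nat_lit 9654, nat_lit 27150, nat_lit 21318, nat_lit 24234, nat_lit 22290, nat_lit 22938, nat_lit 22722, nat_lit 22794, nat_lit 22782, nat_lit 22774] (nat_lit 3) [nat_lit 3094] false,
   Spec.mk (nat_lit 22780) (nat_lit 0) [nat_lit 9658, nat_lit 27154, nat_lit 21322, nat_lit 24238, nat_lit 22294, nat_lit 22942, nat_lit 22726, nat_lit 22798, nat_lit 22774, nat_lit 22782] (nat_lit 4) [nat_lit 42462, nat_lit 3098] false,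
   Spec.mk (nat_lit 22782) (nat_lit 0) [nat_lit 9660, nat_lit 27156, nat_lit 21324, nat_lit 24240, nat_lit 22296, nat_lit 22944, nat_lit 22728, nat_lit 22800, nat_lit 22776, nat_lit 22780] (nat_lit 3) [nat_lit 3100] false,
   Spec.mk (nat_lit 22790) (nat_lit 0) [nat_lit 9668, nat_lit 27164, nat_lit 21332, nat_lit 24248, nat_lit 22304, nat_lit 22952, nat_lit 22736, nat_lit 22772, nat_lit 22792] (nat_lit 1) [nat_lit 42472] false,
   Spec.mk (nat_lit 22792) (nat_lit 0) [nat_lit 9670, nat_lit 27166, nat_lit 21334, nat_lit 24250, nat_lit 22306, nat_lit 22954, nat_lit 22738, nat_lit 22774, nat_lit 22798, nat_lit 22790, nat_lit 22794] (nat_lit 1) [nat_lit 42474, nat_lit 3110] false,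
   Spec.mk (nat_lit 22794) (nat_lit 0) [nat_lit 9672, nat_lit 27168, nat_lit 21336, nat_lit 24252, nat_lit 22308, nat_lit 22956, nat_lit 22740, nat_lit 22776, nat_lit 22800, nat_lit 22792] (nat_lit 3) [nat_lit 3112] false,
   Spec.mk (nat_lit 22798) (nat_lit 0) [nat_lit 9676, nat_lit 27172, nat_lit 21340, nat_lit 24256, nat_lit 22312, nat_lit 22960, nat_lit 22744, nat_lit 22780, nat_lit 22816, nat_lit 22792, nat_lit 22800] (nat_lit 1) [nat_lit 42480, nat_lit 3116] false,
   Spec.mk (nat_lit 22800) (nat_lit 0) [nat_lit 9678, nat_lit 27174, nat_lit 21342, nat_lit 24258, nat_lit 22314, nat_lit 22962, nat_lit 22746, nat_lit 22782, nat_lit 22818, nat_lit 22794, nat_lit 22806, nat_lit 22798] (nat_lit 1) [nat_lit 3118] false,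
   Spec.mk (nat_lit 22806) (nat_lit 0) [nat_lit 9684, nat_lit 27180, nat_lit 21348, nat_lit 24264, nat_lit 22320, nat_lit 22968, nat_lit 22752, nat_lit 22824, nat_lit 22800] (nat_lit 1) [nat_lit 3124] false,
   Spec.mk (nat_lit 22816) (nat_lit 0) [nat_lit 9694, nat_lit 27190, nat_lit 21358, nat_lit 24274, nat_lit 22330, nat_lit 22978, nat_lit 22798, nat_lit 22818] (nat_lit 0) [nat_lit 42498, nat_lit 3134] false,
   Spec.mk (nat_lit 22818) (nat_lit 0) [nat_lit 9696, nat_lit 27192, nat_lit 21360, nat_lit 24276, nat_lit 22332, nat_lit 22980, nat_lit 22800, nat_lit 22824, nat_lit 22816] (nat_lit 1) [nat_lit 3136] false,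
   Spec.mk (nat_lit 22824) (nat_lit 1) [nat_lit 9702, nat_lit 27198, nat_lit 21366, nat_lit 24282, nat_lit 22338, nat_lit 22986, nat_lit 22806, nat_lit 22818] (nat_lit 0) [nat_lit 3142] false,
   Spec.mk (nat_lit 22850) (nat_lit 2) [nat_lit 9728, nat_lit 27224, nat_lit 21392, nat_lit 24308, nat_lit 22364, nat_lit 23336, nat_lit 22688, nat_lit 22856] (nat_lit 0) [nat_lit 42532] false,
   Spec.mk (nat_lit 22856) (nat_lit 1) [nat_lit 9734, nat_lit 27230, nat_lit 21398, nat_lit 24314, nat_lit 22370, nat_lit 23342, nat_lit 22694, nat_lit 22874, nat_lit 22850, nat_lit 22862, nat_lit 22858] (nat_lit 0) [nat_lit 42538] false,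
   Spec.mk (nat_lit 22858) (nat_lit 1) [nat_lit 9736, nat_lit 27232, nat_lit 21400, nat_lit 24316, nat_lit 22372, nat_lit 23344, nat_lit 22696, nat_lit 22876, nat_lit 22864, nat_lit 22856] (nat_lit 0) [nat_lit 42540, nat_lit 3176] false,
   Spec.mk (nat_lit 22862) (nat_lit 0) [nat_lit 9740, nat_lit 27236, nat_lit 21404, nat_lit 24320, nat_lit 22376, nat_lit 23348, nat_lit 22700, nat_lit 22880, nat_lit 22856, nat_lit 22864] (nat_lit 2) [nat_lit 42544] false,
   Spec.mk (nat_lit 22864) (nat_lit 0) [nat_lit 9742, nat_lit 27238, nat_lit 21406, nat_lit 24322, nat_lit 22378, nat_lit 23350, nat_lit 22702, nat_lit 22882, nat_lit 22858, nat_lit 22862, nat_lit 22866] (nat_lit 0) [nat_lit 42546, nat_lit 3182] false,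
   Spec.mk (nat_lit 22866) (nat_lit 0) [nat_lit 9744, nat_lit 27240, nat_lit 21408, nat_lit 24324, nat_lit 22380, nat_lit 23352, nat_lit 22704, nat_lit 22884, nat_lit 22864] (nat_lit 0) [nat_lit 3184] false,
   Spec.mk (nat_lit 22874) (nat_lit 0) [nat_lit 9752, nat_lit 27248, nat_lit 21416, nat_lit 24332, nat_lit 22388, nat_lit 23360, nat_lit 22712, nat_lit 22928, nat_lit 22856, nat_lit 22880, nat_lit 22876] (nat_lit 0) [nat_lit 42556] false,
   Spec.mk (nat_lit 22876) (nat_lit 0) [nat_lit 9754, nat_lit 27250, nat_lit 21418, nat_lit 24334, nat_lit 22390, nat_lit 23362, nat_lit 22714, nat_lit 22930, nat_lit 22858, nat_lit 22882, nat_lit 22874] (nat_lit 1) [nat_lit 42558, nat_lit 3194] false,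
   Spec.mk (nat_lit 22880) (nat_lit 0) [nat_lit 9758, nat_lit 27254, nat_lit 21422, nat_lit 24338, nat_lit 22394, nat_lit 23366, nat_lit 22718, nat_lit 22934, nat_lit 22862, nat_lit 22898, nat_lit 22874, nat_lit 22882] (nat_lit 1) [nat_lit 42562] false,
   Spec.mk (nat_lit 22882) (nat_lit 0) [nat_lit 9760, nat_lit 27256, nat_lit 21424, nat_lit 24340, nat_lit 22396, nat_lit 23368, nat_lit 22720, nat_lit 22936, nat_lit 22864, nat_lit 22900, nat_lit 22876, nat_lit 22888, nat_lit 22880, nat_lit 22884] (nat_lit 0) [nat_lit 42564, nat_lit 3200] false,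
   Spec.mk (nat_lit 22884) (nat_lit 0) [nat_lit 9762, nat_lit 27258, nat_lit 21426, nat_lit 24342, nat_lit 22398, nat_lit 23370, nat_lit 22722, nat_lit 22938, nat_lit 22866, nat_lit 22902, nat_lit 22890, nat_lit 22882] (nat_lit 1) [nat_lit 3202] false,
   Spec.mk (nat_lit 22888) (nat_lit 0) [nat_lit 9766, nat_lit 27262, nat_lit 21430, nat_lit 24346, nat_lit 22402, nat_lit 23374, nat_lit 22726, nat_lit 22942, nat_lit 22906, nat_lit 22882, nat_lit 22890] (nat_lit 1) [nat_lit 42570, nat_lit 3206] false,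
   Spec.mk (nat_lit 22890) (nat_lit 0) [nat_lit 9768, nat_lit 27264, nat_lit 21432, nat_lit 24348, nat_lit 22404, nat_lit 23376, nat_lit 22728, nat_lit 22944, nat_lit 22908, nat_lit 22884, nat_lit 22888] (nat_lit 0) [nat_lit 3208] false,
   Spec.mk (nat_lit 22898) (nat_lit 0) [nat_lit 9776, nat_lit 27272, nat_lit 21440, nat_lit 24356, nat_lit 22412, nat_lit 23384, nat_lit 22736, nat_lit 22952, nat_lit 22880, nat_lit 22900] (nat_lit 2) [nat_lit 42580] false,
   Spec.mk (nat_lit 22900) (nat_lit 0) [nat_lit 9778, nat_lit 27274, nat_lit 21442, nat_lit 24358, nat_lit 22414, nat_lit 23386, nat_lit 22738, nat_lit 22954, nat_lit 22882, nat_lit 22906, nat_lit 22898, nat_lit 22902] (nat_lit 2) [nat_lit 42582, nat_lit 3218] false,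
   Spec.mk (nat_lit 22902) (nat_lit 0) [nat_lit 9780, nat_lit 27276, nat_lit 21444, nat_lit 24360, nat_lit 22416, nat_lit 23388, nat_lit 22740, nat_lit 22956, nat_lit 22884, nat_lit 22908, nat_lit 22900] (nat_lit 4) [nat_lit 3220] false,
   Spec.mk (nat_lit 22906) (nat_lit 0) [nat_lit 9784, nat_lit 27280, nat_lit 21448, nat_lit 24364, nat_lit 22420, nat_lit 23392, nat_lit 22744, nat_lit 22960, nat_lit 22888, nat_lit 22900, nat_lit 22908] (nat_lit 1) [nat_lit 42588, nat_lit 3224] false,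
   Spec.mk (nat_lit 22908) (nat_lit 0) [nat_lit 9786, nat_lit 27282, nat_lit 21450, nat_lit 24366, nat_lit 22422, nat_lit 23394, nat_lit 22746, nat_lit 22962, nat_lit 22890, nat_lit 22902, nat_lit 22914, nat_lit 22906] (nat_lit 1) [nat_lit 3226] false,
   Spec.mk (nat_lit 22914) (nat_lit 0) [nat_lit 9792, nat_lit 27288, nat_lit 21456, nat_lit 24372, nat_lit 22428, nat_lit 23400, nat_lit 22752, nat_lit 22968, nat_lit 22908] (nat_lit 0) [nat_lit 3232] false,
   Spec.mk (nat_lit 22928) (nat_lit 1) [nat_lit 9806, nat_lit 27302, nat_lit 21470, nat_lit 24386, nat_lit 22442, nat_lit 23414, nat_lit 22766, nat_lit 23090, nat_lit 22874, nat_lit 22934, nat_lit 22930] (nat_lit 0) [nat_lit 42610] false,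
   Spec.mk (nat_lit 22930) (nat_lit 0) [nat_lit 9808, nat_lit 27304, nat_lit 21472, nat_lit 24388, nat_lit 22444, nat_lit 23416, nat_lit 22768, nat_lit 23092, nat_lit 22876, nat_lit 22936, nat_lit 22928] (nat_lit 0) [nat_lit 42612, nat_lit 3248] false,
   Spec.mk (nat_lit 22934) (nat_lit 0) [nat_lit 9812, nat_lit 27308, nat_lit 21476, nat_lit 24392, nat_lit 22448, nat_lit 23420, nat_lit 22772, nat_lit 23096, nat_lit 22880, nat_lit 22952, nat_lit 22928, nat_lit 22936] (nat_lit 1) [nat_lit 42616] false,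
   Spec.mk (nat_lit 22936) (nat_lit 0) [nat_lit 9814, nat_lit 27310, nat_lit 21478, nat_lit 24394, nat_lit 22450, nat_lit 23422, nat_lit 22774, nat_lit 23098, nat_lit 22882, nat_lit 22954, nat_lit 22930, nat_lit 22942, nat_lit 22934, nat_lit 22938] (nat_lit 0) [nat_lit 42618, nat_lit 3254] false,
   Spec.mk (nat_lit 22938) (nat_lit 0) [nat_lit 9816, nat_lit 27312, nat_lit 21480, nat_lit 24396, nat_lit 22452, nat_lit 23424, nat_lit 22776, nat_lit 23100, nat_lit 22884, nat_lit 22956, nat_lit 22944, nat_lit 22936] (nat_lit 1) [nat_lit 3256] false,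
   Spec.mk (nat_lit 22942) (nat_lit 0) [nat_lit 9820, nat_lit 27316, nat_lit 21484, nat_lit 24400, nat_lit 22456, nat_lit 23428, nat_lit 22780, nat_lit 23104, nat_lit 22888, nat_lit 22960, nat_lit 22936, nat_lit 22944] (nat_lit 2) [nat_lit 42624, nat_lit 3260] false,
   Spec.mk (nat_lit 22944) (nat_lit 0) [nat_lit 9822, nat_lit 27318, nat_lit 21486, nat_lit 24402, nat_lit 22458, nat_lit 23430, nat_lit 22782, nat_lit 23106, nat_lit 22890, nat_lit 22962, nat_lit 22938, nat_lit 22942] (nat_lit 1) [nat_lit 3262] false,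
   Spec.mk (nat_lit 22952) (nat_lit 0) [nat_lit 9830, nat_lit 27326, nat_lit 21494, nat_lit 24410, nat_lit 22466, nat_lit 23438, nat_lit 22790, nat_lit 23114, nat_lit 22898, nat_lit 23006, nat_lit 22934, nat_lit 22954] (nat_lit 0) [nat_lit 42634] false,
   Spec.mk (nat_lit 22954) (nat_lit 0) [nat_lit 9832, nat_lit 27328, nat_lit 21496, nat_lit 24412, nat_lit 22468, nat_lit 23440, nat_lit 22792, nat_lit 23116, nat_lit 22900, nat_lit 23008, nat_lit 22936, nat_lit 22960, nat_lit 22952, nat_lit 22956] (nat_lit 0) [nat_lit 42636, nat_lit 3272] false,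
   Spec.mk (nat_lit 22956) (nat_lit 0) [nat_lit 9834, nat_lit 27330, nat_lit 21498, nat_lit 24414, nat_lit 22470, nat_lit 23442, nat_lit 22794, nat_lit 23118, nat_lit 22902, nat_lit 23010, nat_lit 22938, nat_lit 22962, nat_lit 22954] (nat_lit 2) [nat_lit 3274] false,
   Spec.mk (nat_lit 22960) (nat_lit 0) [nat_lit 9838, nat_lit 27334, nat_lit 21502, nat_lit 24418, nat_lit 22474, nat_lit 23446, nat_lit 22798, nat_lit 23122, nat_lit 22906, nat_lit 23014, nat_lit 22942, nat_lit 22978, nat_lit 22954, nat_lit 22962] (nat_lit 0) [nat_lit 42642, nat_lit 3278] false,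
   Spec.mk (nat_lit 22962) (nat_lit 0) [nat_lit 9840, nat_lit 27336, nat_lit 21504, nat_lit 24420, nat_lit 22476, nat_lit 23448, nat_lit 22800, nat_lit 23124, nat_lit 22908, nat_lit 23016, nat_lit 22944, nat_lit 22980, nat_lit 22956, nat_lit 22968, nat_lit 22960] (nat_lit 0) [nat_lit 3280] false,
   Spec.mk (nat_lit 22968) (nat_lit 0) [nat_lit 9846, nat_lit 27342, nat_lit 21510, nat_lit 24426, nat_lit 22482, nat_lit 23454, nat_lit 22806, nat_lit 23130, nat_lit 22914, nat_lit 23022, nat_lit 22986, nat_lit 22962] (nat_lit 0) [nat_lit 3286] false,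
   Spec.mk (nat_lit 22978) (nat_lit 0) [nat_lit 9856, nat_lit 27352, nat_lit 21520, nat_lit 24436, nat_lit 22492, nat_lit 23464, nat_lit 22816, nat_lit 23140, nat_lit 23032, nat_lit 22960, nat_lit 22980] (nat_lit 0) [nat_lit 42660, nat_lit 3296] false,
   Spec.mk (nat_lit 22980) (nat_lit 0) [nat_lit 9858, nat_lit 27354, nat_lit 21522, nat_lit 24438, nat_lit 22494, nat_lit 23466, nat_lit 22818, nat_lit 23142, nat_lit 23034, nat_lit 22962, nat_lit 22986, nat_lit 22978] (nat_lit 1) [nat_lit 3298] false,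
   Spec.mk (nat_lit 22986) (nat_lit 1) [nat_lit 9864, nat_lit 27360, nat_lit 21528, nat_lit 24444, nat_lit 22500, nat_lit 23472, nat_lit 22824, nat_lit 23148, nat_lit 23040, nat_lit 22968, nat_lit 22980] (nat_lit 0) [nat_lit 3304] false,
   Spec.mk (nat_lit 23006) (nat_lit 0) [nat_lit 9884, nat_lit 27380, nat_lit 21548, nat_lit 24464, nat_lit 22520, nat_lit 23492, nat_lit 23168, nat_lit 22952, nat_lit 23008] (nat_lit 0) [nat_lit 42688] false,
   Spec.mk (nat_lit 23008) (nat_lit 0) [nat_lit 9886, nat_lit 27382, nat_lit 21550, nat_lit 24466, nat_lit 22522, nat_lit 23494, nat_lit 23170, nat_lit 22954, nat_lit 23014, nat_lit 23006, nat_lit 23010] (nat_lit 0) [nat_lit 42690, nat_lit 3326] false,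
   Spec.mk (nat_lit 23010) (nat_lit 0) [nat_lit 9888, nat_lit 27384, nat_lit 21552, nat_lit 24468, nat_lit 22524, nat_lit 23496, nat_lit 23172, nat_lit 22956, nat_lit 23016, nat_lit 23008] (nat_lit 2) [nat_lit 3328] false,
   Spec.mk (nat_lit 23014) (nat_lit 0) [nat_lit 9892, nat_lit 27388, nat_lit 21556, nat_lit 24472, nat_lit 22528, nat_lit 23500, nat_lit 23176, nat_lit 22960, nat_lit 23032, nat_lit 23008, nat_lit 23016] (nat_lit 1) [nat_lit 42696, nat_lit 3332] false,
   Spec.mk (nat_lit 23016) (nat_lit 0) [nat_lit 9894, nat_lit 27390, nat_lit 21558, nat_lit 24474, nat_lit 22530, nat_lit 23502, nat_lit 23178, nat_lit 22962, nat_lit 23034, nat_lit 23010, nat_lit 23022, nat_lit 23014] (nat_lit 1) [nat_lit 3334] false,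
   Spec.mk (nat_lit 23022) (nat_lit 0) [nat_lit 9900, nat_lit 27396, nat_lit 21564, nat_lit 24480, nat_lit 22536, nat_lit 23508, nat_lit 23184, nat_lit 22968, nat_lit 23040, nat_lit 23016] (nat_lit 2) [nat_lit 3340] false,
   Spec.mk (nat_lit 23032) (nat_lit 1) [nat_lit 9910, nat_lit 27406, nat_lit 21574, nat_lit 24490, nat_lit 22546, nat_lit 23518, nat_lit 23194, nat_lit 22978, nat_lit 23014, nat_lit 23034] (nat_lit 0) [nat_lit 42714, nat_lit 3350] false,
   Spec.mk (nat_lit 23034) (nat_lit 0) [nat_lit 9912, nat_lit 27408, nat_lit 21576, nat_lit 24492, nat_lit 22548, nat_lit 23520, nat_lit 23196, nat_lit 22980, nat_lit 23016, nat_lit 23040, nat_lit 23032] (nat_lit 0) [nat_lit 3352] false,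
   Spec.mk (nat_lit 23040) (nat_lit 1) [nat_lit 9918, nat_lit 27414, nat_lit 21582, nat_lit 24498, nat_lit 22554, nat_lit 23526, nat_lit 23202, nat_lit 22986, nat_lit 23022, nat_lit 23058, nat_lit 23034] (nat_lit 0) [nat_lit 3358] false,
   Spec.mk (nat_lit 23058) (nat_lit 2) [nat_lit 9936, nat_lit 27432, nat_lit 21600, nat_lit 24516, nat_lit 22572, nat_lit 23544, nat_lit 23220, nat_lit 23040] (nat_lit 0) [nat_lit 3376] false,
   Spec.mk (nat_lit 23090) (nat_lit 1) [nat_lit 9968, nat_lit 27464, nat_lit 21632, nat_lit 24548, nat_lit 23576, nat_lit 22928, nat_lit 23096, nat_lit 23092] (nat_lit 0) [nat_lit 42772] false,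
   Spec.mk (nat_lit 23092) (nat_lit 0) [nat_lit 9970, nat_lit 27466, nat_lit 21634, nat_lit 24550, nat_lit 23578, nat_lit 22930, nat_lit 23098, nat_lit 23090] (nat_lit 0) [nat_lit 42774, nat_lit 3410] false,
   Spec.mk (nat_lit 23096) (nat_lit 0) [nat_lit 9974, nat_lit 27470, nat_lit 21638, nat_lit 24554, nat_lit 23582, nat_lit 22934, nat_lit 23114, nat_lit 23090, nat_lit 23098] (nat_lit 1) [nat_lit 42778] false]

noncomputable def sp59 : List Spec :=
  [Spec.mk (nat_lit 23098) (nat_lit 0) [nat_lit 9976, nat_lit 27472, nat_lit 21640, nat_lit 24556, nat_lit 23584, nat_lit 22936, nat_lit 23116, nat_lit 23092, nat_lit 23104, nat_lit 23096, nat_lit 23100] (nat_lit 0) [nat_lit 42780, nat_lit 3416] false,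
   Spec.mk (nat_lit 23100) (nat_lit 0) [nat_lit 9978, nat_lit 27474, nat_lit 21642, nat_lit 24558, nat_lit 23586, nat_lit 22938, nat_lit 23118, nat_lit 23106, nat_lit 23098] (nat_lit 1) [nat_lit 3418] false,
   Spec.mk (nat_lit 23104) (nat_lit 0) [nat_lit 9982, nat_lit 27478, nat_lit 21646, nat_lit 24562, nat_lit 23590, nat_lit 22942, nat_lit 23122, nat_lit 23098, nat_lit 23106] (nat_lit 2) [nat_lit 42786, nat_lit 3422] false,
   Spec.mk (nat_lit 23106) (nat_lit 0) [nat_lit 9984, nat_lit 27480, nat_lit 21648, nat_lit 24564, nat_lit 23592, nat_lit 22944, nat_lit 23124, nat_lit 23100, nat_lit 23104] (nat_lit 1) [nat_lit 3424] false,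
   Spec.mk (nat_lit 23114) (nat_lit 0) [nat_lit 9992, nat_lit 27488, nat_lit 21656, nat_lit 24572, nat_lit 23600, nat_lit 22952, nat_lit 23168, nat_lit 23096, nat_lit 23116] (nat_lit 1) [nat_lit 42796] false,
   Spec.mk (nat_lit 23116) (nat_lit 0) [nat_lit 9994, nat_lit 27490, nat_lit 21658, nat_lit 24574, nat_lit 23602, nat_lit 22954, nat_lit 23170, nat_lit 23098, nat_lit 23122, nat_lit 23114, nat_lit 23118] (nat_lit 1) [nat_lit 42798, nat_lit 3434] false,
   Spec.mk (nat_lit 23118) (nat_lit 0) [nat_lit 9996, nat_lit 27492, nat_lit 21660, nat_lit 24576, nat_lit 23604, nat_lit 22956, nat_lit 23172, nat_lit 23100, nat_lit 23124, nat_lit 23116] (nat_lit 3) [nat_lit 3436] false,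
   Spec.mk (nat_lit 23122) (nat_lit 0) [nat_lit 10000, nat_lit 27496, nat_lit 21664, nat_lit 24580, nat_lit 23608, nat_lit 22960, nat_lit 23176, nat_lit 23104, nat_lit 23140, nat_lit 23116, nat_lit 23124] (nat_lit 1) [nat_lit 42804, nat_lit 3440] false,
   Spec.mk (nat_lit 23124) (nat_lit 0) [nat_lit 10002, nat_lit 27498, nat_lit 21666, nat_lit 24582, nat_lit 23610, nat_lit 22962, nat_lit 23178, nat_lit 23106, nat_lit 23142, nat_lit 23118, nat_lit 23130, nat_lit 23122] (nat_lit 1) [nat_lit 3442] false,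
   Spec.mk (nat_lit 23130) (nat_lit 0) [nat_lit 10008, nat_lit 27504, nat_lit 21672, nat_lit 24588, nat_lit 23616, nat_lit 22968, nat_lit 23184, nat_lit 23148, nat_lit 23124] (nat_lit 1) [nat_lit 3448] false,
   Spec.mk (nat_lit 23140) (nat_lit 0) [nat_lit 10018, nat_lit 27514, nat_lit 21682, nat_lit 24598, nat_lit 23626, nat_lit 22978, nat_lit 23194, nat_lit 23122, nat_lit 23142] (nat_lit 2) [nat_lit 42822, nat_lit 3458] false,
   Spec.mk (nat_lit 23142) (nat_lit 0) [nat_lit 10020, nat_lit 27516, nat_lit 21684, nat_lit 24600, nat_lit 23628, nat_lit 22980, nat_lit 23196, nat_lit 23124, nat_lit 23148, nat_lit 23140] (nat_lit 3) [nat_lit 3460] false,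
   Spec.mk (nat_lit 23148) (nat_lit 0) [nat_lit 10026, nat_lit 27522, nat_lit 21690, nat_lit 24606, nat_lit 23634, nat_lit 22986, nat_lit 23202, nat_lit 23130, nat_lit 23142] (nat_lit 1) [nat_lit 3466] false,
   Spec.mk (nat_lit 23168) (nat_lit 1) [nat_lit 10046, nat_lit 27542, nat_lit 21710, nat_lit 24626, nat_lit 23654, nat_lit 23006, nat_lit 23114, nat_lit 23170] (nat_lit 0) [nat_lit 42850] false,
   Spec.mk (nat_lit 23170) (nat_lit 1) [nat_lit 10048, nat_lit 27544, nat_lit 21712, nat_lit 24628, nat_lit 23656, nat_lit 23008, nat_lit 23116, nat_lit 23176, nat_lit 23168, nat_lit 23172] (nat_lit 0) [nat_lit 42852, nat_lit 3488] false,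
   Spec.mk (nat_lit 23172) (nat_lit 0) [nat_lit 10050, nat_lit 27546, nat_lit 21714, nat_lit 24630, nat_lit 23658, nat_lit 23010, nat_lit 23118, nat_lit 23178, nat_lit 23170] (nat_lit 1) [nat_lit 3490] false,
   Spec.mk (nat_lit 23176) (nat_lit 0) [nat_lit 10054, nat_lit 27550, nat_lit 21718, nat_lit 24634, nat_lit 23662, nat_lit 23014, nat_lit 23122, nat_lit 23194, nat_lit 23170, nat_lit 23178] (nat_lit 0) [nat_lit 42858, nat_lit 3494] false,
   Spec.mk (nat_lit 23178) (nat_lit 0) [nat_lit 10056, nat_lit 27552, nat_lit 21720, nat_lit 24636, nat_lit 23664, nat_lit 23016, nat_lit 23124, nat_lit 23196, nat_lit 23172, nat_lit 23184, nat_lit 23176] (nat_lit 0) [nat_lit 3496] false,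
   Spec.mk (nat_lit 23184) (nat_lit 0) [nat_lit 10062, nat_lit 27558, nat_lit 21726, nat_lit 24642, nat_lit 23670, nat_lit 23022, nat_lit 23130, nat_lit 23202, nat_lit 23178] (nat_lit 1) [nat_lit 3502] false,
   Spec.mk (nat_lit 23194) (nat_lit 1) [nat_lit 10072, nat_lit 27568, nat_lit 21736, nat_lit 24652, nat_lit 23680, nat_lit 23032, nat_lit 23140, nat_lit 23248, nat_lit 23176, nat_lit 23196] (nat_lit 0) [nat_lit 42876, nat_lit 3512] false,
   Spec.mk (nat_lit 23196) (nat_lit 0) [nat_lit 10074, nat_lit 27570, nat_lit 21738, nat_lit 24654, nat_lit 23682, nat_lit 23034, nat_lit 23142, nat_lit 23250, nat_lit 23178, nat_lit 23202, nat_lit 23194] (nat_lit 0) [nat_lit 3514] false,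
   Spec.mk (nat_lit 23202) (nat_lit 1) [nat_lit 10080, nat_lit 27576, nat_lit 21744, nat_lit 24660, nat_lit 23688, nat_lit 23040, nat_lit 23148, nat_lit 23256, nat_lit 23184, nat_lit 23220, nat_lit 23196] (nat_lit 0) [nat_lit 3520] false,
   Spec.mk (nat_lit 23220) (nat_lit 1) [nat_lit 10098, nat_lit 27594, nat_lit 21762, nat_lit 24678, nat_lit 23706, nat_lit 23058, nat_lit 23274, nat_lit 23202] (nat_lit 0) [nat_lit 3538] false,
   Spec.mk (nat_lit 23248) (nat_lit 2) [nat_lit 10126, nat_lit 27622, nat_lit 21790, nat_lit 24706, nat_lit 23734, nat_lit 23194, nat_lit 23250] (nat_lit 0) [nat_lit 42930, nat_lit 3566] false,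
   Spec.mk (nat_lit 23250) (nat_lit 1) [nat_lit 10128, nat_lit 27624, nat_lit 21792, nat_lit 24708, nat_lit 23736, nat_lit 23196, nat_lit 23256, nat_lit 23248] (nat_lit 0) [nat_lit 3568] false,
   Spec.mk (nat_lit 23256) (nat_lit 1) [nat_lit 10134, nat_lit 27630, nat_lit 21798, nat_lit 24714, nat_lit 23742, nat_lit 23202, nat_lit 23274, nat_lit 23250] (nat_lit 0) [nat_lit 3574] false,
   Spec.mk (nat_lit 23274) (nat_lit 3) [nat_lit 10152, nat_lit 27648, nat_lit 21816, nat_lit 24732, nat_lit 23760, nat_lit 23220, nat_lit 23256] (nat_lit 0) [nat_lit 3592] false,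
   Spec.mk (nat_lit 23336) (nat_lit 2) [nat_lit 10214, nat_lit 27710, nat_lit 24794, nat_lit 22850, nat_lit 23342] (nat_lit 0) [nat_lit 43018] false,
   Spec.mk (nat_lit 23342) (nat_lit 1) [nat_lit 10220, nat_lit 27716, nat_lit 24800, nat_lit 22856, nat_lit 23360, nat_lit 23336, nat_lit 23348, nat_lit 23344] (nat_lit 0) [nat_lit 43024] false,
   Spec.mk (nat_lit 23344) (nat_lit 1) [nat_lit 10222, nat_lit 27718, nat_lit 24802, nat_lit 22858, nat_lit 23362, nat_lit 23350, nat_lit 23342] (nat_lit 0) [nat_lit 43026, nat_lit 3662] false,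
   Spec.mk (nat_lit 23348) (nat_lit 0) [nat_lit 10226, nat_lit 27722, nat_lit 24806, nat_lit 22862, nat_lit 23366, nat_lit 23342, nat_lit 23350] (nat_lit 2) [nat_lit 43030] false,
   Spec.mk (nat_lit 23350) (nat_lit 0) [nat_lit 10228, nat_lit 27724, nat_lit 24808, nat_lit 22864, nat_lit 23368, nat_lit 23344, nat_lit 23348, nat_lit 23352] (nat_lit 0) [nat_lit 43032, nat_lit 3668] false,
   Spec.mk (nat_lit 23352) (nat_lit 0) [nat_lit 10230, nat_lit 27726, nat_lit 24810, nat_lit 22866, nat_lit 23370, nat_lit 23350] (nat_lit 0) [nat_lit 3670] false,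
   Spec.mk (nat_lit 23360) (nat_lit 0) [nat_lit 10238, nat_lit 27734, nat_lit 24818, nat_lit 22874, nat_lit 23414, nat_lit 23342, nat_lit 23366, nat_lit 23362] (nat_lit 0) [nat_lit 43042] false,
   Spec.mk (nat_lit 23362) (nat_lit 0) [nat_lit 10240, nat_lit 27736, nat_lit 24820, nat_lit 22876, nat_lit 23416, nat_lit 23344, nat_lit 23368, nat_lit 23360] (nat_lit 1) [nat_lit 43044, nat_lit 3680] false,
   Spec.mk (nat_lit 23366) (nat_lit 0) [nat_lit 10244, nat_lit 27740, nat_lit 24824, nat_lit 22880, nat_lit 23420, nat_lit 23348, nat_lit 23384, nat_lit 23360, nat_lit 23368] (nat_lit 1) [nat_lit 43048] false,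
   Spec.mk (nat_lit 23368) (nat_lit 0) [nat_lit 10246, nat_lit 27742, nat_lit 24826, nat_lit 22882, nat_lit 23422, nat_lit 23350, nat_lit 23386, nat_lit 23362, nat_lit 23374, nat_lit 23366, nat_lit 23370] (nat_lit 0) [nat_lit 43050, nat_lit 3686] false,
   Spec.mk (nat_lit 23370) (nat_lit 0) [nat_lit 10248, nat_lit 27744, nat_lit 24828, nat_lit 22884, nat_lit 23424, nat_lit 23352, nat_lit 23388, nat_lit 23376, nat_lit 23368] (nat_lit 1) [nat_lit 3688] false,
   Spec.mk (nat_lit 23374) (nat_lit 0) [nat_lit 10252, nat_lit 27748, nat_lit 24832, nat_lit 22888, nat_lit 23428, nat_lit 23392, nat_lit 23368, nat_lit 23376] (nat_lit 1) [nat_lit 43056, nat_lit 3692] false,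
   Spec.mk (nat_lit 23376) (nat_lit 0) [nat_lit 10254, nat_lit 27750, nat_lit 24834, nat_lit 22890, nat_lit 23430, nat_lit 23394, nat_lit 23370, nat_lit 23374] (nat_lit 0) [nat_lit 3694] false,
   Spec.mk (nat_lit 23384) (nat_lit 0) [nat_lit 10262, nat_lit 27758, nat_lit 24842, nat_lit 22898, nat_lit 23438, nat_lit 23366, nat_lit 23386] (nat_lit 2) [nat_lit 43066] false,
   Spec.mk (nat_lit 23386) (nat_lit 0) [nat_lit 10264, nat_lit 27760, nat_lit 24844, nat_lit 22900, nat_lit 23440, nat_lit 23368, nat_lit 23392, nat_lit 23384, nat_lit 23388] (nat_lit 2) [nat_lit 43068, nat_lit 3704] false,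
   Spec.mk (nat_lit 23388) (nat_lit 0) [nat_lit 10266, nat_lit 27762, nat_lit 24846, nat_lit 22902, nat_lit 23442, nat_lit 23370, nat_lit 23394, nat_lit 23386] (nat_lit 4) [nat_lit 3706] false,
   Spec.mk (nat_lit 23392) (nat_lit 0) [nat_lit 10270, nat_lit 27766, nat_lit 24850, nat_lit 22906, nat_lit 23446, nat_lit 23374, nat_lit 23386, nat_lit 23394] (nat_lit 1) [nat_lit 43074, nat_lit 3710] false,
   Spec.mk (nat_lit 23394) (nat_lit 0) [nat_lit 10272, nat_lit 27768, nat_lit 24852, nat_lit 22908, nat_lit 23448, nat_lit 23376, nat_lit 23388, nat_lit 23400, nat_lit 23392] (nat_lit 1) [nat_lit 3712] false,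
   Spec.mk (nat_lit 23400) (nat_lit 0) [nat_lit 10278, nat_lit 27774, nat_lit 24858, nat_lit 22914, nat_lit 23454, nat_lit 23394] (nat_lit 0) [nat_lit 3718] false,
   Spec.mk (nat_lit 23414) (nat_lit 0) [nat_lit 10292, nat_lit 27788, nat_lit 24872, nat_lit 22928, nat_lit 23576, nat_lit 23360, nat_lit 23420, nat_lit 23416] (nat_lit 0) [nat_lit 43096] false,
   Spec.mk (nat_lit 23416) (nat_lit 0) [nat_lit 10294, nat_lit 27790, nat_lit 24874, nat_lit 22930, nat_lit 23578, nat_lit 23362, nat_lit 23422, nat_lit 23414] (nat_lit 1) [nat_lit 43098, nat_lit 3734] false,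
   Spec.mk (nat_lit 23420) (nat_lit 0) [nat_lit 10298, nat_lit 27794, nat_lit 24878, nat_lit 22934, nat_lit 23582, nat_lit 23366, nat_lit 23438, nat_lit 23414, nat_lit 23422] (nat_lit 2) [nat_lit 43102] false,
   Spec.mk (nat_lit 23422) (nat_lit 0) [nat_lit 10300, nat_lit 27796, nat_lit 24880, nat_lit 22936, nat_lit 23584, nat_lit 23368, nat_lit 23440, nat_lit 23416, nat_lit 23428, nat_lit 23420, nat_lit 23424] (nat_lit 1) [nat_lit 43104, nat_lit 3740] false,
   Spec.mk (nat_lit 23424) (nat_lit 0) [nat_lit 10302, nat_lit 27798, nat_lit 24882, nat_lit 22938, nat_lit 23586, nat_lit 23370, nat_lit 23442, nat_lit 23430, nat_lit 23422] (nat_lit 2) [nat_lit 3742] false,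
   Spec.mk (nat_lit 23428) (nat_lit 0) [nat_lit 10306, nat_lit 27802, nat_lit 24886, nat_lit 22942, nat_lit 23590, nat_lit 23374, nat_lit 23446, nat_lit 23422, nat_lit 23430] (nat_lit 3) [nat_lit 43110, nat_lit 3746] false,
   Spec.mk (nat_lit 23430) (nat_lit 0) [nat_lit 10308, nat_lit 27804, nat_lit 24888, nat_lit 22944, nat_lit 23592, nat_lit 23376, nat_lit 23448, nat_lit 23424, nat_lit 23428] (nat_lit 2) [nat_lit 3748] false,
   Spec.mk (nat_lit 23438) (nat_lit 0) [nat_lit 10316, nat_lit 27812, nat_lit 24896, nat_lit 22952, nat_lit 23600, nat_lit 23384, nat_lit 23492, nat_lit 23420, nat_lit 23440] (nat_lit 1) [nat_lit 43120] false,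
   Spec.mk (nat_lit 23440) (nat_lit 0) [nat_lit 10318, nat_lit 27814, nat_lit 24898, nat_lit 22954, nat_lit 23602, nat_lit 23386, nat_lit 23494, nat_lit 23422, nat_lit 23446, nat_lit 23438, nat_lit 23442] (nat_lit 1) [nat_lit 43122, nat_lit 3758] false,
   Spec.mk (nat_lit 23442) (nat_lit 0) [nat_lit 10320, nat_lit 27816, nat_lit 24900, nat_lit 22956, nat_lit 23604, nat_lit 23388, nat_lit 23496, nat_lit 23424, nat_lit 23448, nat_lit 23440] (nat_lit 3) [nat_lit 3760] false,
   Spec.mk (nat_lit 23446) (nat_lit 0) [nat_lit 10324, nat_lit 27820, nat_lit 24904, nat_lit 22960, nat_lit 23608, nat_lit 23392, nat_lit 23500, nat_lit 23428, nat_lit 23464, nat_lit 23440, nat_lit 23448] (nat_lit 1) [nat_lit 43128, nat_lit 3764] false,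
   Spec.mk (nat_lit 23448) (nat_lit 0) [nat_lit 10326, nat_lit 27822, nat_lit 24906, nat_lit 22962, nat_lit 23610, nat_lit 23394, nat_lit 23502, nat_lit 23430, nat_lit 23466, nat_lit 23442, nat_lit 23454, nat_lit 23446] (nat_lit 1) [nat_lit 3766] false,
   Spec.mk (nat_lit 23454) (nat_lit 0) [nat_lit 10332, nat_lit 27828, nat_lit 24912, nat_lit 22968, nat_lit 23616, nat_lit 23400, nat_lit 23508, nat_lit 23472, nat_lit 23448] (nat_lit 1) [nat_lit 3772] false,
   Spec.mk (nat_lit 23464) (nat_lit 0) [nat_lit 10342, nat_lit 27838, nat_lit 24922, nat_lit 22978, nat_lit 23626, nat_lit 23518, nat_lit 23446, nat_lit 23466] (nat_lit 1) [nat_lit 43146, nat_lit 3782] false]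

noncomputable def sp60 : List Spec :=
  [Spec.mk (nat_lit 23466) (nat_lit 0) [nat_lit 10344, nat_lit 27840, nat_lit 24924, nat_lit 22980, nat_lit 23628, nat_lit 23520, nat_lit 23448, nat_lit 23472, nat_lit 23464] (nat_lit 2) [nat_lit 3784] false,
   Spec.mk (nat_lit 23472) (nat_lit 0) [nat_lit 10350, nat_lit 27846, nat_lit 24930, nat_lit 22986, nat_lit 23634, nat_lit 23526, nat_lit 23454, nat_lit 23466] (nat_lit 0) [nat_lit 3790] false,
   Spec.mk (nat_lit 23492) (nat_lit 0) [nat_lit 10370, nat_lit 27866, nat_lit 24950, nat_lit 23006, nat_lit 23654, nat_lit 23438, nat_lit 23494] (nat_lit 2) [nat_lit 43174] false,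
   Spec.mk (nat_lit 23494) (nat_lit 0) [nat_lit 10372, nat_lit 27868, nat_lit 24952, nat_lit 23008, nat_lit 23656, nat_lit 23440, nat_lit 23500, nat_lit 23492, nat_lit 23496] (nat_lit 2) [nat_lit 43176, nat_lit 3812] false,
   Spec.mk (nat_lit 23496) (nat_lit 0) [nat_lit 10374, nat_lit 27870, nat_lit 24954, nat_lit 23010, nat_lit 23658, nat_lit 23442, nat_lit 23502, nat_lit 23494] (nat_lit 4) [nat_lit 3814] false,
   Spec.mk (nat_lit 23500) (nat_lit 0) [nat_lit 10378, nat_lit 27874, nat_lit 24958, nat_lit 23014, nat_lit 23662, nat_lit 23446, nat_lit 23518, nat_lit 23494, nat_lit 23502] (nat_lit 3) [nat_lit 43182, nat_lit 3818] false,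
   Spec.mk (nat_lit 23502) (nat_lit 0) [nat_lit 10380, nat_lit 27876, nat_lit 24960, nat_lit 23016, nat_lit 23664, nat_lit 23448, nat_lit 23520, nat_lit 23496, nat_lit 23508, nat_lit 23500] (nat_lit 3) [nat_lit 3820] false,
   Spec.mk (nat_lit 23508) (nat_lit 0) [nat_lit 10386, nat_lit 27882, nat_lit 24966, nat_lit 23022, nat_lit 23670, nat_lit 23454, nat_lit 23526, nat_lit 23502] (nat_lit 4) [nat_lit 3826] false,
   Spec.mk (nat_lit 23518) (nat_lit 0) [nat_lit 10396, nat_lit 27892, nat_lit 24976, nat_lit 23032, nat_lit 23680, nat_lit 23464, nat_lit 23500, nat_lit 23520] (nat_lit 1) [nat_lit 43200, nat_lit 3836] false,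
   Spec.mk (nat_lit 23520) (nat_lit 0) [nat_lit 10398, nat_lit 27894, nat_lit 24978, nat_lit 23034, nat_lit 23682, nat_lit 23466, nat_lit 23502, nat_lit 23526, nat_lit 23518] (nat_lit 2) [nat_lit 3838] false,
   Spec.mk (nat_lit 23526) (nat_lit 0) [nat_lit 10404, nat_lit 27900, nat_lit 24984, nat_lit 23040, nat_lit 23688, nat_lit 23472, nat_lit 23508, nat_lit 23544, nat_lit 23520] (nat_lit 1) [nat_lit 3844] false,
   Spec.mk (nat_lit 23544) (nat_lit 0) [nat_lit 10422, nat_lit 27918, nat_lit 25002, nat_lit 23058, nat_lit 23706, nat_lit 23526] (nat_lit 0) [nat_lit 3862] false,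
   Spec.mk (nat_lit 23576) (nat_lit 2) [nat_lit 10454, nat_lit 27950, nat_lit 25034, nat_lit 23090, nat_lit 23414, nat_lit 23582, nat_lit 23578] (nat_lit 0) [nat_lit 43258] false,
   Spec.mk (nat_lit 23578) (nat_lit 1) [nat_lit 10456, nat_lit 27952, nat_lit 25036, nat_lit 23092, nat_lit 23416, nat_lit 23584, nat_lit 23576] (nat_lit 0) [nat_lit 43260, nat_lit 3896] false,
   Spec.mk (nat_lit 23582) (nat_lit 0) [nat_lit 10460, nat_lit 27956, nat_lit 25040, nat_lit 23096, nat_lit 23420, nat_lit 23600, nat_lit 23576, nat_lit 23584] (nat_lit 0) [nat_lit 43264] false,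
   Spec.mk (nat_lit 23584) (nat_lit 1) [nat_lit 10462, nat_lit 27958, nat_lit 25042, nat_lit 23098, nat_lit 23422, nat_lit 23602, nat_lit 23578, nat_lit 23590, nat_lit 23582, nat_lit 23586] (nat_lit 0) [nat_lit 43266, nat_lit 3902] false,
   Spec.mk (nat_lit 23586) (nat_lit 0) [nat_lit 10464, nat_lit 27960, nat_lit 25044, nat_lit 23100, nat_lit 23424, nat_lit 23604, nat_lit 23592, nat_lit 23584] (nat_lit 0) [nat_lit 3904] false,
   Spec.mk (nat_lit 23590) (nat_lit 0) [nat_lit 10468, nat_lit 27964, nat_lit 25048, nat_lit 23104, nat_lit 23428, nat_lit 23608, nat_lit 23584, nat_lit 23592] (nat_lit 1) [nat_lit 43272, nat_lit 3908] false,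
   Spec.mk (nat_lit 23592) (nat_lit 0) [nat_lit 10470, nat_lit 27966, nat_lit 25050, nat_lit 23106, nat_lit 23430, nat_lit 23610, nat_lit 23586, nat_lit 23590] (nat_lit 0) [nat_lit 3910] false,
   Spec.mk (nat_lit 23600) (nat_lit 0) [nat_lit 10478, nat_lit 27974, nat_lit 25058, nat_lit 23114, nat_lit 23438, nat_lit 23654, nat_lit 23582, nat_lit 23602] (nat_lit 0) [nat_lit 43282] false,
   Spec.mk (nat_lit 23602) (nat_lit 0) [nat_lit 10480, nat_lit 27976, nat_lit 25060, nat_lit 23116, nat_lit 23440, nat_lit 23656, nat_lit 23584, nat_lit 23608, nat_lit 23600, nat_lit 23604] (nat_lit 0) [nat_lit 43284, nat_lit 3920] false,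
   Spec.mk (nat_lit 23604) (nat_lit 0) [nat_lit 10482, nat_lit 27978, nat_lit 25062, nat_lit 23118, nat_lit 23442, nat_lit 23658, nat_lit 23586, nat_lit 23610, nat_lit 23602] (nat_lit 2) [nat_lit 3922] false,
   Spec.mk (nat_lit 23608) (nat_lit 0) [nat_lit 10486, nat_lit 27982, nat_lit 25066, nat_lit 23122, nat_lit 23446, nat_lit 23662, nat_lit 23590, nat_lit 23626, nat_lit 23602, nat_lit 23610] (nat_lit 0) [nat_lit 43290, nat_lit 3926] false,
   Spec.mk (nat_lit 23610) (nat_lit 0) [nat_lit 10488, nat_lit 27984, nat_lit 25068, nat_lit 23124, nat_lit 23448, nat_lit 23664, nat_lit 23592, nat_lit 23628, nat_lit 23604, nat_lit 23616, nat_lit 23608] (nat_lit 0) [nat_lit 3928] false,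
   Spec.mk (nat_lit 23616) (nat_lit 0) [nat_lit 10494, nat_lit 27990, nat_lit 25074, nat_lit 23130, nat_lit 23454, nat_lit 23670, nat_lit 23634, nat_lit 23610] (nat_lit 0) [nat_lit 3934] false,
   Spec.mk (nat_lit 23626) (nat_lit 0) [nat_lit 10504, nat_lit 28000, nat_lit 25084, nat_lit 23140, nat_lit 23464, nat_lit 23680, nat_lit 23608, nat_lit 23628] (nat_lit 1) [nat_lit 43308, nat_lit 3944] false,
   Spec.mk (nat_lit 23628) (nat_lit 0) [nat_lit 10506, nat_lit 28002, nat_lit 25086, nat_lit 23142, nat_lit 23466, nat_lit 23682, nat_lit 23610, nat_lit 23634, nat_lit 23626] (nat_lit 2) [nat_lit 3946] false,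
   Spec.mk (nat_lit 23634) (nat_lit 0) [nat_lit 10512, nat_lit 28008, nat_lit 25092, nat_lit 23148, nat_lit 23472, nat_lit 23688, nat_lit 23616, nat_lit 23628] (nat_lit 0) [nat_lit 3952] false,
   Spec.mk (nat_lit 23654) (nat_lit 1) [nat_lit 10532, nat_lit 28028, nat_lit 25112, nat_lit 23168, nat_lit 23492, nat_lit 23816, nat_lit 23600, nat_lit 23656] (nat_lit 0) [nat_lit 43336] false,
   Spec.mk (nat_lit 23656) (nat_lit 1) [nat_lit 10534, nat_lit 28030, nat_lit 25114, nat_lit 23170, nat_lit 23494, nat_lit 23818, nat_lit 23602, nat_lit 23662, nat_lit 23654, nat_lit 23658] (nat_lit 0) [nat_lit 43338, nat_lit 3974] false,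
   Spec.mk (nat_lit 23658) (nat_lit 0) [nat_lit 10536, nat_lit 28032, nat_lit 25116, nat_lit 23172, nat_lit 23496, nat_lit 23820, nat_lit 23604, nat_lit 23664, nat_lit 23656] (nat_lit 1) [nat_lit 3976] false,
   Spec.mk (nat_lit 23662) (nat_lit 0) [nat_lit 10540, nat_lit 28036, nat_lit 25120, nat_lit 23176, nat_lit 23500, nat_lit 23824, nat_lit 23608, nat_lit 23680, nat_lit 23656, nat_lit 23664] (nat_lit 0) [nat_lit 43344, nat_lit 3980] false,
   Spec.mk (nat_lit 23664) (nat_lit 0) [nat_lit 10542, nat_lit 28038, nat_lit 25122, nat_lit 23178, nat_lit 23502, nat_lit 23826, nat_lit 23610, nat_lit 23682, nat_lit 23658, nat_lit 23670, nat_lit 23662] (nat_lit 0) [nat_lit 3982] false,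
   Spec.mk (nat_lit 23670) (nat_lit 0) [nat_lit 10548, nat_lit 28044, nat_lit 25128, nat_lit 23184, nat_lit 23508, nat_lit 23832, nat_lit 23616, nat_lit 23688, nat_lit 23664] (nat_lit 1) [nat_lit 3988] false,
   Spec.mk (nat_lit 23680) (nat_lit 1) [nat_lit 10558, nat_lit 28054, nat_lit 25138, nat_lit 23194, nat_lit 23518, nat_lit 23842, nat_lit 23626, nat_lit 23734, nat_lit 23662, nat_lit 23682] (nat_lit 0) [nat_lit 43362, nat_lit 3998] false,
   Spec.mk (nat_lit 23682) (nat_lit 0) [nat_lit 10560, nat_lit 28056, nat_lit 25140, nat_lit 23196, nat_lit 23520, nat_lit 23844, nat_lit 23628, nat_lit 23736, nat_lit 23664, nat_lit 23688, nat_lit 23680] (nat_lit 0) [nat_lit 4000] false,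
   Spec.mk (nat_lit 23688) (nat_lit 1) [nat_lit 10566, nat_lit 28062, nat_lit 25146, nat_lit 23202, nat_lit 23526, nat_lit 23850, nat_lit 23634, nat_lit 23742, nat_lit 23670, nat_lit 23706, nat_lit 23682] (nat_lit 0) [nat_lit 4006] false,
   Spec.mk (nat_lit 23706) (nat_lit 1) [nat_lit 10584, nat_lit 28080, nat_lit 25164, nat_lit 23220, nat_lit 23544, nat_lit 23868, nat_lit 23760, nat_lit 23688] (nat_lit 0) [nat_lit 4024] false,
   Spec.mk (nat_lit 23734) (nat_lit 1) [nat_lit 10612, nat_lit 28108, nat_lit 25192, nat_lit 23248, nat_lit 23896, nat_lit 23680, nat_lit 23736] (nat_lit 0) [nat_lit 43416, nat_lit 4052] false,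
   Spec.mk (nat_lit 23736) (nat_lit 0) [nat_lit 10614, nat_lit 28110, nat_lit 25194, nat_lit 23250, nat_lit 23898, nat_lit 23682, nat_lit 23742, nat_lit 23734] (nat_lit 0) [nat_lit 4054] false,
   Spec.mk (nat_lit 23742) (nat_lit 0) [nat_lit 10620, nat_lit 28116, nat_lit 25200, nat_lit 23256, nat_lit 23904, nat_lit 23688, nat_lit 23760, nat_lit 23736] (nat_lit 0) [nat_lit 4060] false,
   Spec.mk (nat_lit 23760) (nat_lit 2) [nat_lit 10638, nat_lit 28134, nat_lit 25218, nat_lit 23274, nat_lit 23922, nat_lit 23706, nat_lit 23742] (nat_lit 0) [nat_lit 4078] false,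
   Spec.mk (nat_lit 23816) (nat_lit 2) [nat_lit 10694, nat_lit 28190, nat_lit 25274, nat_lit 23654, nat_lit 23818] (nat_lit 0) [nat_lit 43498] false,
   Spec.mk (nat_lit 23818) (nat_lit 2) [nat_lit 10696, nat_lit 28192, nat_lit 25276, nat_lit 23656, nat_lit 23824, nat_lit 23816, nat_lit 23820] (nat_lit 0) [nat_lit 43500, nat_lit 4136] false,
   Spec.mk (nat_lit 23820) (nat_lit 0) [nat_lit 10698, nat_lit 28194, nat_lit 25278, nat_lit 23658, nat_lit 23826, nat_lit 23818] (nat_lit 0) [nat_lit 4138] false,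
   Spec.mk (nat_lit 23824) (nat_lit 1) [nat_lit 10702, nat_lit 28198, nat_lit 25282, nat_lit 23662, nat_lit 23842, nat_lit 23818, nat_lit 23826] (nat_lit 0) [nat_lit 43506, nat_lit 4142] false,
   Spec.mk (nat_lit 23826) (nat_lit 1) [nat_lit 10704, nat_lit 28200, nat_lit 25284, nat_lit 23664, nat_lit 23844, nat_lit 23820, nat_lit 23832, nat_lit 23824] (nat_lit 0) [nat_lit 4144] false,
   Spec.mk (nat_lit 23832) (nat_lit 0) [nat_lit 10710, nat_lit 28206, nat_lit 25290, nat_lit 23670, nat_lit 23850, nat_lit 23826] (nat_lit 0) [nat_lit 4150] false,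
   Spec.mk (nat_lit 23842) (nat_lit 1) [nat_lit 10720, nat_lit 28216, nat_lit 25300, nat_lit 23680, nat_lit 23896, nat_lit 23824, nat_lit 23844] (nat_lit 0) [nat_lit 43524, nat_lit 4160] false,
   Spec.mk (nat_lit 23844) (nat_lit 0) [nat_lit 10722, nat_lit 28218, nat_lit 25302, nat_lit 23682, nat_lit 23898, nat_lit 23826, nat_lit 23850, nat_lit 23842] (nat_lit 0) [nat_lit 4162] false,
   Spec.mk (nat_lit 23850) (nat_lit 1) [nat_lit 10728, nat_lit 28224, nat_lit 25308, nat_lit 23688, nat_lit 23904, nat_lit 23832, nat_lit 23868, nat_lit 23844] (nat_lit 0) [nat_lit 4168] false,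
   Spec.mk (nat_lit 23868) (nat_lit 0) [nat_lit 10746, nat_lit 28242, nat_lit 25326, nat_lit 23706, nat_lit 23922, nat_lit 23850] (nat_lit 0) [nat_lit 4186] false,
   Spec.mk (nat_lit 23896) (nat_lit 3) [nat_lit 10774, nat_lit 28270, nat_lit 25354, nat_lit 23734, nat_lit 23842, nat_lit 23898] (nat_lit 0) [nat_lit 43578, nat_lit 4214] false,
   Spec.mk (nat_lit 23898) (nat_lit 2) [nat_lit 10776, nat_lit 28272, nat_lit 25356, nat_lit 23736, nat_lit 23844, nat_lit 23904, nat_lit 23896] (nat_lit 0) [nat_lit 4216] false,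
   Spec.mk (nat_lit 23904) (nat_lit 2) [nat_lit 10782, nat_lit 28278, nat_lit 25362, nat_lit 23742, nat_lit 23850, nat_lit 23922, nat_lit 23898] (nat_lit 0) [nat_lit 4222] false,
   Spec.mk (nat_lit 23922) (nat_lit 3) [nat_lit 10800, nat_lit 28296, nat_lit 25380, nat_lit 23760, nat_lit 23868, nat_lit 23976, nat_lit 23904] (nat_lit 0) [nat_lit 4240] false,
   Spec.mk (nat_lit 23976) (nat_lit 4) [nat_lit 10854, nat_lit 28350, nat_lit 25434, nat_lit 23922] (nat_lit 0) [nat_lit 4294] false,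
   Spec.mk (nat_lit 24074) (nat_lit 2) [nat_lit 10952, nat_lit 28448, nat_lit 22616, nat_lit 24092, nat_lit 24080] (nat_lit 0) [nat_lit 43756] false,
   Spec.mk (nat_lit 24080) (nat_lit 0) [nat_lit 10958, nat_lit 28454, nat_lit 22622, nat_lit 24098, nat_lit 24074, nat_lit 24082] (nat_lit 0) [nat_lit 43762] false,
   Spec.mk (nat_lit 24082) (nat_lit 1) [nat_lit 10960, nat_lit 28456, nat_lit 22624, nat_lit 24100, nat_lit 24080] (nat_lit 0) [nat_lit 43764, nat_lit 4400] false]

noncomputable def sp61 : List Spec :=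
  [Spec.mk (nat_lit 24092) (nat_lit 0) [nat_lit 10970, nat_lit 28466, nat_lit 22634, nat_lit 24146, nat_lit 24074, nat_lit 24098] (nat_lit 0) [nat_lit 43774] false,
   Spec.mk (nat_lit 24098) (nat_lit 0) [nat_lit 10976, nat_lit 28472, nat_lit 22640, nat_lit 24152, nat_lit 24080, nat_lit 24116, nat_lit 24092, nat_lit 24104, nat_lit 24100] (nat_lit 0) [nat_lit 43780] false,
   Spec.mk (nat_lit 24100) (nat_lit 0) [nat_lit 10978, nat_lit 28474, nat_lit 22642, nat_lit 24154, nat_lit 24082, nat_lit 24118, nat_lit 24106, nat_lit 24098] (nat_lit 0) [nat_lit 43782, nat_lit 4418] false,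
   Spec.mk (nat_lit 24104) (nat_lit 0) [nat_lit 10982, nat_lit 28478, nat_lit 22646, nat_lit 24158, nat_lit 24122, nat_lit 24098, nat_lit 24106] (nat_lit 2) [nat_lit 43786] false,
   Spec.mk (nat_lit 24106) (nat_lit 0) [nat_lit 10984, nat_lit 28480, nat_lit 22648, nat_lit 24160, nat_lit 24124, nat_lit 24100, nat_lit 24104, nat_lit 24108] (nat_lit 0) [nat_lit 43788, nat_lit 4424] false,
   Spec.mk (nat_lit 24108) (nat_lit 0) [nat_lit 10986, nat_lit 28482, nat_lit 22650, nat_lit 24162, nat_lit 24126, nat_lit 24106] (nat_lit 0) [nat_lit 4426] false,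
   Spec.mk (nat_lit 24116) (nat_lit 0) [nat_lit 10994, nat_lit 28490, nat_lit 22658, nat_lit 24170, nat_lit 24098, nat_lit 24122, nat_lit 24118] (nat_lit 2) [nat_lit 43798] false,
   Spec.mk (nat_lit 24118) (nat_lit 0) [nat_lit 10996, nat_lit 28492, nat_lit 22660, nat_lit 24172, nat_lit 24100, nat_lit 24124, nat_lit 24116] (nat_lit 3) [nat_lit 43800, nat_lit 4436] false,
   Spec.mk (nat_lit 24122) (nat_lit 0) [nat_lit 11000, nat_lit 28496, nat_lit 22664, nat_lit 24176, nat_lit 24104, nat_lit 24116, nat_lit 24124] (nat_lit 2) [nat_lit 43804] false,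
   Spec.mk (nat_lit 24124) (nat_lit 0) [nat_lit 11002, nat_lit 28498, nat_lit 22666, nat_lit 24178, nat_lit 24106, nat_lit 24118, nat_lit 24130, nat_lit 24122, nat_lit 24126] (nat_lit 1) [nat_lit 43806, nat_lit 4442] false,
   Spec.mk (nat_lit 24126) (nat_lit 0) [nat_lit 11004, nat_lit 28500, nat_lit 22668, nat_lit 24180, nat_lit 24108, nat_lit 24132, nat_lit 24124] (nat_lit 2) [nat_lit 4444] false,
   Spec.mk (nat_lit 24130) (nat_lit 0) [nat_lit 11008, nat_lit 28504, nat_lit 22672, nat_lit 24184, nat_lit 24124, nat_lit 24132] (nat_lit 1) [nat_lit 43812, nat_lit 4448] false,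
   Spec.mk (nat_lit 24132) (nat_lit 0) [nat_lit 11010, nat_lit 28506, nat_lit 22674, nat_lit 24186, nat_lit 24126, nat_lit 24130] (nat_lit 0) [nat_lit 4450] false,
   Spec.mk (nat_lit 24146) (nat_lit 0) [nat_lit 11024, nat_lit 28520, nat_lit 22688, nat_lit 24308, nat_lit 24092, nat_lit 24152] (nat_lit 0) [nat_lit 43828] false,
   Spec.mk (nat_lit 24152) (nat_lit 0) [nat_lit 11030, nat_lit 28526, nat_lit 22694, nat_lit 24314, nat_lit 24098, nat_lit 24170, nat_lit 24146, nat_lit 24158, nat_lit 24154] (nat_lit 1) [nat_lit 43834] false,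
   Spec.mk (nat_lit 24154) (nat_lit 0) [nat_lit 11032, nat_lit 28528, nat_lit 22696, nat_lit 24316, nat_lit 24100, nat_lit 24172, nat_lit 24160, nat_lit 24152] (nat_lit 1) [nat_lit 43836, nat_lit 4472] false,
   Spec.mk (nat_lit 24158) (nat_lit 0) [nat_lit 11036, nat_lit 28532, nat_lit 22700, nat_lit 24320, nat_lit 24104, nat_lit 24176, nat_lit 24152, nat_lit 24160] (nat_lit 4) [nat_lit 43840] false,
   Spec.mk (nat_lit 24160) (nat_lit 0) [nat_lit 11038, nat_lit 28534, nat_lit 22702, nat_lit 24322, nat_lit 24106, nat_lit 24178, nat_lit 24154, nat_lit 24158, nat_lit 24162] (nat_lit 2) [nat_lit 43842, nat_lit 4478] false,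
   Spec.mk (nat_lit 24162) (nat_lit 0) [nat_lit 11040, nat_lit 28536, nat_lit 22704, nat_lit 24324, nat_lit 24108, nat_lit 24180, nat_lit 24160] (nat_lit 2) [nat_lit 4480] false,
   Spec.mk (nat_lit 24170) (nat_lit 0) [nat_lit 11048, nat_lit 28544, nat_lit 22712, nat_lit 24332, nat_lit 24116, nat_lit 24224, nat_lit 24152, nat_lit 24176, nat_lit 24172] (nat_lit 1) [nat_lit 43852] false,
   Spec.mk (nat_lit 24172) (nat_lit 0) [nat_lit 11050, nat_lit 28546, nat_lit 22714, nat_lit 24334, nat_lit 24118, nat_lit 24226, nat_lit 24154, nat_lit 24178, nat_lit 24170] (nat_lit 2) [nat_lit 43854, nat_lit 4490] false,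
   Spec.mk (nat_lit 24176) (nat_lit 0) [nat_lit 11054, nat_lit 28550, nat_lit 22718, nat_lit 24338, nat_lit 24122, nat_lit 24230, nat_lit 24158, nat_lit 24194, nat_lit 24170, nat_lit 24178] (nat_lit 2) [nat_lit 43858] false,
   Spec.mk (nat_lit 24178) (nat_lit 0) [nat_lit 11056, nat_lit 28552, nat_lit 22720, nat_lit 24340, nat_lit 24124, nat_lit 24232, nat_lit 24160, nat_lit 24196, nat_lit 24172, nat_lit 24184, nat_lit 24176, nat_lit 24180] (nat_lit 1) [nat_lit 43860, nat_lit 4496] false,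
   Spec.mk (nat_lit 24180) (nat_lit 0) [nat_lit 11058, nat_lit 28554, nat_lit 22722, nat_lit 24342, nat_lit 24126, nat_lit 24234, nat_lit 24162, nat_lit 24198, nat_lit 24186, nat_lit 24178] (nat_lit 2) [nat_lit 4498] false,
   Spec.mk (nat_lit 24184) (nat_lit 0) [nat_lit 11062, nat_lit 28558, nat_lit 22726, nat_lit 24346, nat_lit 24130, nat_lit 24238, nat_lit 24202, nat_lit 24178, nat_lit 24186] (nat_lit 2) [nat_lit 43866, nat_lit 4502] false,
   Spec.mk (nat_lit 24186) (nat_lit 0) [nat_lit 11064, nat_lit 28560, nat_lit 22728, nat_lit 24348, nat_lit 24132, nat_lit 24240, nat_lit 24204, nat_lit 24180, nat_lit 24184] (nat_lit 1) [nat_lit 4504] false,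
   Spec.mk (nat_lit 24194) (nat_lit 0) [nat_lit 11072, nat_lit 28568, nat_lit 22736, nat_lit 24356, nat_lit 24248, nat_lit 24176, nat_lit 24196] (nat_lit 2) [nat_lit 43876] false,
   Spec.mk (nat_lit 24196) (nat_lit 0) [nat_lit 11074, nat_lit 28570, nat_lit 22738, nat_lit 24358, nat_lit 24250, nat_lit 24178, nat_lit 24202, nat_lit 24194, nat_lit 24198] (nat_lit 2) [nat_lit 43878, nat_lit 4514] false,
   Spec.mk (nat_lit 24198) (nat_lit 0) [nat_lit 11076, nat_lit 28572, nat_lit 22740, nat_lit 24360, nat_lit 24252, nat_lit 24180, nat_lit 24204, nat_lit 24196] (nat_lit 4) [nat_lit 4516] false,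
   Spec.mk (nat_lit 24202) (nat_lit 0) [nat_lit 11080, nat_lit 28576, nat_lit 22744, nat_lit 24364, nat_lit 24256, nat_lit 24184, nat_lit 24196, nat_lit 24204] (nat_lit 1) [nat_lit 43884, nat_lit 4520] false,
   Spec.mk (nat_lit 24204) (nat_lit 0) [nat_lit 11082, nat_lit 28578, nat_lit 22746, nat_lit 24366, nat_lit 24258, nat_lit 24186, nat_lit 24198, nat_lit 24210, nat_lit 24202] (nat_lit 1) [nat_lit 4522] false,
   Spec.mk (nat_lit 24210) (nat_lit 0) [nat_lit 11088, nat_lit 28584, nat_lit 22752, nat_lit 24372, nat_lit 24264, nat_lit 24204] (nat_lit 0) [nat_lit 4528] false,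
   Spec.mk (nat_lit 24224) (nat_lit 0) [nat_lit 11102, nat_lit 28598, nat_lit 22766, nat_lit 24386, nat_lit 24170, nat_lit 24230, nat_lit 24226] (nat_lit 2) [nat_lit 43906] false,
   Spec.mk (nat_lit 24226) (nat_lit 0) [nat_lit 11104, nat_lit 28600, nat_lit 22768, nat_lit 24388, nat_lit 24172, nat_lit 24232, nat_lit 24224] (nat_lit 3) [nat_lit 43908, nat_lit 4544] false,
   Spec.mk (nat_lit 24230) (nat_lit 0) [nat_lit 11108, nat_lit 28604, nat_lit 22772, nat_lit 24392, nat_lit 24176, nat_lit 24248, nat_lit 24224, nat_lit 24232] (nat_lit 4) [nat_lit 43912] false,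
   Spec.mk (nat_lit 24232) (nat_lit 0) [nat_lit 11110, nat_lit 28606, nat_lit 22774, nat_lit 24394, nat_lit 24178, nat_lit 24250, nat_lit 24226, nat_lit 24238, nat_lit 24230, nat_lit 24234] (nat_lit 3) [nat_lit 43914, nat_lit 4550] false,
   Spec.mk (nat_lit 24234) (nat_lit 0) [nat_lit 11112, nat_lit 28608, nat_lit 22776, nat_lit 24396, nat_lit 24180, nat_lit 24252, nat_lit 24240, nat_lit 24232] (nat_lit 4) [nat_lit 4552] false,
   Spec.mk (nat_lit 24238) (nat_lit 0) [nat_lit 11116, nat_lit 28612, nat_lit 22780, nat_lit 24400, nat_lit 24184, nat_lit 24256, nat_lit 24232, nat_lit 24240] (nat_lit 5) [nat_lit 43920, nat_lit 4556] false,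
   Spec.mk (nat_lit 24240) (nat_lit 0) [nat_lit 11118, nat_lit 28614, nat_lit 22782, nat_lit 24402, nat_lit 24186, nat_lit 24258, nat_lit 24234, nat_lit 24238] (nat_lit 4) [nat_lit 4558] false,
   Spec.mk (nat_lit 24248) (nat_lit 0) [nat_lit 11126, nat_lit 28622, nat_lit 22790, nat_lit 24410, nat_lit 24194, nat_lit 24230, nat_lit 24250] (nat_lit 2) [nat_lit 43930] false,
   Spec.mk (nat_lit 24250) (nat_lit 0) [nat_lit 11128, nat_lit 28624, nat_lit 22792, nat_lit 24412, nat_lit 24196, nat_lit 24232, nat_lit 24256, nat_lit 24248, nat_lit 24252] (nat_lit 2) [nat_lit 43932, nat_lit 4568] false,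
   Spec.mk (nat_lit 24252) (nat_lit 0) [nat_lit 11130, nat_lit 28626, nat_lit 22794, nat_lit 24414, nat_lit 24198, nat_lit 24234, nat_lit 24258, nat_lit 24250] (nat_lit 4) [nat_lit 4570] false,
   Spec.mk (nat_lit 24256) (nat_lit 0) [nat_lit 11134, nat_lit 28630, nat_lit 22798, nat_lit 24418, nat_lit 24202, nat_lit 24238, nat_lit 24274, nat_lit 24250, nat_lit 24258] (nat_lit 2) [nat_lit 43938, nat_lit 4574] false,
   Spec.mk (nat_lit 24258) (nat_lit 0) [nat_lit 11136, nat_lit 28632, nat_lit 22800, nat_lit 24420, nat_lit 24204, nat_lit 24240, nat_lit 24276, nat_lit 24252, nat_lit 24264, nat_lit 24256] (nat_lit 2) [nat_lit 4576] false,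
   Spec.mk (nat_lit 24264) (nat_lit 0) [nat_lit 11142, nat_lit 28638, nat_lit 22806, nat_lit 24426, nat_lit 24210, nat_lit 24282, nat_lit 24258] (nat_lit 2) [nat_lit 4582] false,
   Spec.mk (nat_lit 24274) (nat_lit 0) [nat_lit 11152, nat_lit 28648, nat_lit 22816, nat_lit 24436, nat_lit 24256, nat_lit 24276] (nat_lit 1) [nat_lit 43956, nat_lit 4592] false,
   Spec.mk (nat_lit 24276) (nat_lit 0) [nat_lit 11154, nat_lit 28650, nat_lit 22818, nat_lit 24438, nat_lit 24258, nat_lit 24282, nat_lit 24274] (nat_lit 2) [nat_lit 4594] false,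
   Spec.mk (nat_lit 24282) (nat_lit 0) [nat_lit 11160, nat_lit 28656, nat_lit 22824, nat_lit 24444, nat_lit 24264, nat_lit 24276] (nat_lit 0) [nat_lit 4600] false,
   Spec.mk (nat_lit 24308) (nat_lit 0) [nat_lit 11186, nat_lit 28682, nat_lit 22850, nat_lit 24794, nat_lit 24146, nat_lit 24314] (nat_lit 0) [nat_lit 43990] false,
   Spec.mk (nat_lit 24314) (nat_lit 0) [nat_lit 11192, nat_lit 28688, nat_lit 22856, nat_lit 24800, nat_lit 24152, nat_lit 24332, nat_lit 24308, nat_lit 24320, nat_lit 24316] (nat_lit 1) [nat_lit 43996] false,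
   Spec.mk (nat_lit 24316) (nat_lit 0) [nat_lit 11194, nat_lit 28690, nat_lit 22858, nat_lit 24802, nat_lit 24154, nat_lit 24334, nat_lit 24322, nat_lit 24314] (nat_lit 1) [nat_lit 43998, nat_lit 4634] false,
   Spec.mk (nat_lit 24320) (nat_lit 0) [nat_lit 11198, nat_lit 28694, nat_lit 22862, nat_lit 24806, nat_lit 24158, nat_lit 24338, nat_lit 24314, nat_lit 24322] (nat_lit 4) [nat_lit 44002] false,
   Spec.mk (nat_lit 24322) (nat_lit 0) [nat_lit 11200, nat_lit 28696, nat_lit 22864, nat_lit 24808, nat_lit 24160, nat_lit 24340, nat_lit 24316, nat_lit 24320, nat_lit 24324] (nat_lit 2) [nat_lit 44004, nat_lit 4640] false,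
   Spec.mk (nat_lit 24324) (nat_lit 0) [nat_lit 11202, nat_lit 28698, nat_lit 22866, nat_lit 24810, nat_lit 24162, nat_lit 24342, nat_lit 24322] (nat_lit 2) [nat_lit 4642] false,
   Spec.mk (nat_lit 24332) (nat_lit 0) [nat_lit 11210, nat_lit 28706, nat_lit 22874, nat_lit 24818, nat_lit 24170, nat_lit 24386, nat_lit 24314, nat_lit 24338, nat_lit 24334] (nat_lit 2) [nat_lit 44014] false,
   Spec.mk (nat_lit 24334) (nat_lit 0) [nat_lit 11212, nat_lit 28708, nat_lit 22876, nat_lit 24820, nat_lit 24172, nat_lit 24388, nat_lit 24316, nat_lit 24340, nat_lit 24332] (nat_lit 3) [nat_lit 44016, nat_lit 4652] false,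
   Spec.mk (nat_lit 24338) (nat_lit 0) [nat_lit 11216, nat_lit 28712, nat_lit 22880, nat_lit 24824, nat_lit 24176, nat_lit 24392, nat_lit 24320, nat_lit 24356, nat_lit 24332, nat_lit 24340] (nat_lit 3) [nat_lit 44020] false,
   Spec.mk (nat_lit 24340) (nat_lit 0) [nat_lit 11218, nat_lit 28714, nat_lit 22882, nat_lit 24826, nat_lit 24178, nat_lit 24394, nat_lit 24322, nat_lit 24358, nat_lit 24334, nat_lit 24346, nat_lit 24338, nat_lit 24342] (nat_lit 2) [nat_lit 44022, nat_lit 4658] false,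
   Spec.mk (nat_lit 24342) (nat_lit 0) [nat_lit 11220, nat_lit 28716, nat_lit 22884, nat_lit 24828, nat_lit 24180, nat_lit 24396, nat_lit 24324, nat_lit 24360, nat_lit 24348, nat_lit 24340] (nat_lit 3) [nat_lit 4660] false,
   Spec.mk (nat_lit 24346) (nat_lit 0) [nat_lit 11224, nat_lit 28720, nat_lit 22888, nat_lit 24832, nat_lit 24184, nat_lit 24400, nat_lit 24364, nat_lit 24340, nat_lit 24348] (nat_lit 3) [nat_lit 44028, nat_lit 4664] false]

noncomputable def sp62 : List Spec :=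
  [Spec.mk (nat_lit 24348) (nat_lit 0) [nat_lit 11226, nat_lit 28722, nat_lit 22890, nat_lit 24834, nat_lit 24186, nat_lit 24402, nat_lit 24366, nat_lit 24342, nat_lit 24346] (nat_lit 2) [nat_lit 4666] false,
   Spec.mk (nat_lit 24356) (nat_lit 0) [nat_lit 11234, nat_lit 28730, nat_lit 22898, nat_lit 24842, nat_lit 24194, nat_lit 24410, nat_lit 24338, nat_lit 24358] (nat_lit 4) [nat_lit 44038] false,
   Spec.mk (nat_lit 24358) (nat_lit 0) [nat_lit 11236, nat_lit 28732, nat_lit 22900, nat_lit 24844, nat_lit 24196, nat_lit 24412, nat_lit 24340, nat_lit 24364, nat_lit 24356, nat_lit 24360] (nat_lit 4) [nat_lit 44040, nat_lit 4676] false,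
   Spec.mk (nat_lit 24360) (nat_lit 0) [nat_lit 11238, nat_lit 28734, nat_lit 22902, nat_lit 24846, nat_lit 24198, nat_lit 24414, nat_lit 24342, nat_lit 24366, nat_lit 24358] (nat_lit 6) [nat_lit 4678] false,
   Spec.mk (nat_lit 24364) (nat_lit 0) [nat_lit 11242, nat_lit 28738, nat_lit 22906, nat_lit 24850, nat_lit 24202, nat_lit 24418, nat_lit 24346, nat_lit 24358, nat_lit 24366] (nat_lit 3) [nat_lit 44046, nat_lit 4682] false,
   Spec.mk (nat_lit 24366) (nat_lit 0) [nat_lit 11244, nat_lit 28740, nat_lit 22908, nat_lit 24852, nat_lit 24204, nat_lit 24420, nat_lit 24348, nat_lit 24360, nat_lit 24372, nat_lit 24364] (nat_lit 3) [nat_lit 4684] false,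
   Spec.mk (nat_lit 24372) (nat_lit 0) [nat_lit 11250, nat_lit 28746, nat_lit 22914, nat_lit 24858, nat_lit 24210, nat_lit 24426, nat_lit 24366] (nat_lit 2) [nat_lit 4690] false,
   Spec.mk (nat_lit 24386) (nat_lit 0) [nat_lit 11264, nat_lit 28760, nat_lit 22928, nat_lit 24872, nat_lit 24224, nat_lit 24548, nat_lit 24332, nat_lit 24392, nat_lit 24388] (nat_lit 1) [nat_lit 44068] false,
   Spec.mk (nat_lit 24388) (nat_lit 0) [nat_lit 11266, nat_lit 28762, nat_lit 22930, nat_lit 24874, nat_lit 24226, nat_lit 24550, nat_lit 24334, nat_lit 24394, nat_lit 24386] (nat_lit 2) [nat_lit 44070, nat_lit 4706] false,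
   Spec.mk (nat_lit 24392) (nat_lit 0) [nat_lit 11270, nat_lit 28766, nat_lit 22934, nat_lit 24878, nat_lit 24230, nat_lit 24554, nat_lit 24338, nat_lit 24410, nat_lit 24386, nat_lit 24394] (nat_lit 3) [nat_lit 44074] false,
   Spec.mk (nat_lit 24394) (nat_lit 0) [nat_lit 11272, nat_lit 28768, nat_lit 22936, nat_lit 24880, nat_lit 24232, nat_lit 24556, nat_lit 24340, nat_lit 24412, nat_lit 24388, nat_lit 24400, nat_lit 24392, nat_lit 24396] (nat_lit 2) [nat_lit 44076, nat_lit 4712] false,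
   Spec.mk (nat_lit 24396) (nat_lit 0) [nat_lit 11274, nat_lit 28770, nat_lit 22938, nat_lit 24882, nat_lit 24234, nat_lit 24558, nat_lit 24342, nat_lit 24414, nat_lit 24402, nat_lit 24394] (nat_lit 3) [nat_lit 4714] false,
   Spec.mk (nat_lit 24400) (nat_lit 0) [nat_lit 11278, nat_lit 28774, nat_lit 22942, nat_lit 24886, nat_lit 24238, nat_lit 24562, nat_lit 24346, nat_lit 24418, nat_lit 24394, nat_lit 24402] (nat_lit 4) [nat_lit 44082, nat_lit 4718] false,
   Spec.mk (nat_lit 24402) (nat_lit 0) [nat_lit 11280, nat_lit 28776, nat_lit 22944, nat_lit 24888, nat_lit 24240, nat_lit 24564, nat_lit 24348, nat_lit 24420, nat_lit 24396, nat_lit 24400] (nat_lit 3) [nat_lit 4720] false,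
   Spec.mk (nat_lit 24410) (nat_lit 0) [nat_lit 11288, nat_lit 28784, nat_lit 22952, nat_lit 24896, nat_lit 24248, nat_lit 24572, nat_lit 24356, nat_lit 24464, nat_lit 24392, nat_lit 24412] (nat_lit 2) [nat_lit 44092] false,
   Spec.mk (nat_lit 24412) (nat_lit 0) [nat_lit 11290, nat_lit 28786, nat_lit 22954, nat_lit 24898, nat_lit 24250, nat_lit 24574, nat_lit 24358, nat_lit 24466, nat_lit 24394, nat_lit 24418, nat_lit 24410, nat_lit 24414] (nat_lit 2) [nat_lit 44094, nat_lit 4730] false,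
   Spec.mk (nat_lit 24414) (nat_lit 0) [nat_lit 11292, nat_lit 28788, nat_lit 22956, nat_lit 24900, nat_lit 24252, nat_lit 24576, nat_lit 24360, nat_lit 24468, nat_lit 24396, nat_lit 24420, nat_lit 24412] (nat_lit 4) [nat_lit 4732] false,
   Spec.mk (nat_lit 24418) (nat_lit 0) [nat_lit 11296, nat_lit 28792, nat_lit 22960, nat_lit 24904, nat_lit 24256, nat_lit 24580, nat_lit 24364, nat_lit 24472, nat_lit 24400, nat_lit 24436, nat_lit 24412, nat_lit 24420] (nat_lit 2) [nat_lit 44100, nat_lit 4736] false,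
   Spec.mk (nat_lit 24420) (nat_lit 0) [nat_lit 11298, nat_lit 28794, nat_lit 22962, nat_lit 24906, nat_lit 24258, nat_lit 24582, nat_lit 24366, nat_lit 24474, nat_lit 24402, nat_lit 24438, nat_lit 24414, nat_lit 24426, nat_lit 24418] (nat_lit 2) [nat_lit 4738] false,
   Spec.mk (nat_lit 24426) (nat_lit 0) [nat_lit 11304, nat_lit 28800, nat_lit 22968, nat_lit 24912, nat_lit 24264, nat_lit 24588, nat_lit 24372, nat_lit 24480, nat_lit 24444, nat_lit 24420] (nat_lit 2) [nat_lit 4744] false,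
   Spec.mk (nat_lit 24436) (nat_lit 0) [nat_lit 11314, nat_lit 28810, nat_lit 22978, nat_lit 24922, nat_lit 24274, nat_lit 24598, nat_lit 24490, nat_lit 24418, nat_lit 24438] (nat_lit 2) [nat_lit 44118, nat_lit 4754] false,
   Spec.mk (nat_lit 24438) (nat_lit 0) [nat_lit 11316, nat_lit 28812, nat_lit 22980, nat_lit 24924, nat_lit 24276, nat_lit 24600, nat_lit 24492, nat_lit 24420, nat_lit 24444, nat_lit 24436] (nat_lit 3) [nat_lit 4756] false,
   Spec.mk (nat_lit 24444) (nat_lit 0) [nat_lit 11322, nat_lit 28818, nat_lit 22986, nat_lit 24930, nat_lit 24282, nat_lit 24606, nat_lit 24498, nat_lit 24426, nat_lit 24438] (nat_lit 1) [nat_lit 4762] false,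
   Spec.mk (nat_lit 24464) (nat_lit 0) [nat_lit 11342, nat_lit 28838, nat_lit 23006, nat_lit 24950, nat_lit 24626, nat_lit 24410, nat_lit 24466] (nat_lit 2) [nat_lit 44146] false,
   Spec.mk (nat_lit 24466) (nat_lit 0) [nat_lit 11344, nat_lit 28840, nat_lit 23008, nat_lit 24952, nat_lit 24628, nat_lit 24412, nat_lit 24472, nat_lit 24464, nat_lit 24468] (nat_lit 2) [nat_lit 44148, nat_lit 4784] false,
   Spec.mk (nat_lit 24468) (nat_lit 0) [nat_lit 11346, nat_lit 28842, nat_lit 23010, nat_lit 24954, nat_lit 24630, nat_lit 24414, nat_lit 24474, nat_lit 24466] (nat_lit 4) [nat_lit 4786] false,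
   Spec.mk (nat_lit 24472) (nat_lit 0) [nat_lit 11350, nat_lit 28846, nat_lit 23014, nat_lit 24958, nat_lit 24634, nat_lit 24418, nat_lit 24490, nat_lit 24466, nat_lit 24474] (nat_lit 3) [nat_lit 44154, nat_lit 4790] false,
   Spec.mk (nat_lit 24474) (nat_lit 0) [nat_lit 11352, nat_lit 28848, nat_lit 23016, nat_lit 24960, nat_lit 24636, nat_lit 24420, nat_lit 24492, nat_lit 24468, nat_lit 24480, nat_lit 24472] (nat_lit 3) [nat_lit 4792] false,
   Spec.mk (nat_lit 24480) (nat_lit 0) [nat_lit 11358, nat_lit 28854, nat_lit 23022, nat_lit 24966, nat_lit 24642, nat_lit 24426, nat_lit 24498, nat_lit 24474] (nat_lit 4) [nat_lit 4798] false,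
   Spec.mk (nat_lit 24490) (nat_lit 0) [nat_lit 11368, nat_lit 28864, nat_lit 23032, nat_lit 24976, nat_lit 24652, nat_lit 24436, nat_lit 24472, nat_lit 24492] (nat_lit 1) [nat_lit 44172, nat_lit 4808] false,
   Spec.mk (nat_lit 24492) (nat_lit 0) [nat_lit 11370, nat_lit 28866, nat_lit 23034, nat_lit 24978, nat_lit 24654, nat_lit 24438, nat_lit 24474, nat_lit 24498, nat_lit 24490] (nat_lit 2) [nat_lit 4810] false,
   Spec.mk (nat_lit 24498) (nat_lit 0) [nat_lit 11376, nat_lit 28872, nat_lit 23040, nat_lit 24984, nat_lit 24660, nat_lit 24444, nat_lit 24480, nat_lit 24516, nat_lit 24492] (nat_lit 1) [nat_lit 4816] false,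
   Spec.mk (nat_lit 24516) (nat_lit 0) [nat_lit 11394, nat_lit 28890, nat_lit 23058, nat_lit 25002, nat_lit 24678, nat_lit 24498] (nat_lit 0) [nat_lit 4834] false,
   Spec.mk (nat_lit 24548) (nat_lit 0) [nat_lit 11426, nat_lit 28922, nat_lit 23090, nat_lit 25034, nat_lit 24386, nat_lit 24554, nat_lit 24550] (nat_lit 2) [nat_lit 44230] false,
   Spec.mk (nat_lit 24550) (nat_lit 0) [nat_lit 11428, nat_lit 28924, nat_lit 23092, nat_lit 25036, nat_lit 24388, nat_lit 24556, nat_lit 24548] (nat_lit 3) [nat_lit 44232, nat_lit 4868] false,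
   Spec.mk (nat_lit 24554) (nat_lit 0) [nat_lit 11432, nat_lit 28928, nat_lit 23096, nat_lit 25040, nat_lit 24392, nat_lit 24572, nat_lit 24548, nat_lit 24556] (nat_lit 4) [nat_lit 44236] false,
   Spec.mk (nat_lit 24556) (nat_lit 0) [nat_lit 11434, nat_lit 28930, nat_lit 23098, nat_lit 25042, nat_lit 24394, nat_lit 24574, nat_lit 24550, nat_lit 24562, nat_lit 24554, nat_lit 24558] (nat_lit 3) [nat_lit 44238, nat_lit 4874] false,
   Spec.mk (nat_lit 24558) (nat_lit 0) [nat_lit 11436, nat_lit 28932, nat_lit 23100, nat_lit 25044, nat_lit 24396, nat_lit 24576, nat_lit 24564, nat_lit 24556] (nat_lit 4) [nat_lit 4876] false,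
   Spec.mk (nat_lit 24562) (nat_lit 0) [nat_lit 11440, nat_lit 28936, nat_lit 23104, nat_lit 25048, nat_lit 24400, nat_lit 24580, nat_lit 24556, nat_lit 24564] (nat_lit 5) [nat_lit 44244, nat_lit 4880] false,
   Spec.mk (nat_lit 24564) (nat_lit 0) [nat_lit 11442, nat_lit 28938, nat_lit 23106, nat_lit 25050, nat_lit 24402, nat_lit 24582, nat_lit 24558, nat_lit 24562] (nat_lit 4) [nat_lit 4882] false,
   Spec.mk (nat_lit 24572) (nat_lit 0) [nat_lit 11450, nat_lit 28946, nat_lit 23114, nat_lit 25058, nat_lit 24410, nat_lit 24626, nat_lit 24554, nat_lit 24574] (nat_lit 4) [nat_lit 44254] false,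
   Spec.mk (nat_lit 24574) (nat_lit 0) [nat_lit 11452, nat_lit 28948, nat_lit 23116, nat_lit 25060, nat_lit 24412, nat_lit 24628, nat_lit 24556, nat_lit 24580, nat_lit 24572, nat_lit 24576] (nat_lit 4) [nat_lit 44256, nat_lit 4892] false,
   Spec.mk (nat_lit 24576) (nat_lit 0) [nat_lit 11454, nat_lit 28950, nat_lit 23118, nat_lit 25062, nat_lit 24414, nat_lit 24630, nat_lit 24558, nat_lit 24582, nat_lit 24574] (nat_lit 6) [nat_lit 4894] false,
   Spec.mk (nat_lit 24580) (nat_lit 0) [nat_lit 11458, nat_lit 28954, nat_lit 23122, nat_lit 25066, nat_lit 24418, nat_lit 24634, nat_lit 24562, nat_lit 24598, nat_lit 24574, nat_lit 24582] (nat_lit 4) [nat_lit 44262, nat_lit 4898] false,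
   Spec.mk (nat_lit 24582) (nat_lit 0) [nat_lit 11460, nat_lit 28956, nat_lit 23124, nat_lit 25068, nat_lit 24420, nat_lit 24636, nat_lit 24564, nat_lit 24600, nat_lit 24576, nat_lit 24588, nat_lit 24580] (nat_lit 4) [nat_lit 4900] false,
   Spec.mk (nat_lit 24588) (nat_lit 0) [nat_lit 11466, nat_lit 28962, nat_lit 23130, nat_lit 25074, nat_lit 24426, nat_lit 24642, nat_lit 24606, nat_lit 24582] (nat_lit 4) [nat_lit 4906] false,
   Spec.mk (nat_lit 24598) (nat_lit 0) [nat_lit 11476, nat_lit 28972, nat_lit 23140, nat_lit 25084, nat_lit 24436, nat_lit 24652, nat_lit 24580, nat_lit 24600] (nat_lit 5) [nat_lit 44280, nat_lit 4916] false,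
   Spec.mk (nat_lit 24600) (nat_lit 0) [nat_lit 11478, nat_lit 28974, nat_lit 23142, nat_lit 25086, nat_lit 24438, nat_lit 24654, nat_lit 24582, nat_lit 24606, nat_lit 24598] (nat_lit 6) [nat_lit 4918] false,
   Spec.mk (nat_lit 24606) (nat_lit 0) [nat_lit 11484, nat_lit 28980, nat_lit 23148, nat_lit 25092, nat_lit 24444, nat_lit 24660, nat_lit 24588, nat_lit 24600] (nat_lit 4) [nat_lit 4924] false,
   Spec.mk (nat_lit 24626) (nat_lit 0) [nat_lit 11504, nat_lit 29000, nat_lit 23168, nat_lit 25112, nat_lit 24464, nat_lit 24572, nat_lit 24628] (nat_lit 2) [nat_lit 44308] false,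
   Spec.mk (nat_lit 24628) (nat_lit 0) [nat_lit 11506, nat_lit 29002, nat_lit 23170, nat_lit 25114, nat_lit 24466, nat_lit 24574, nat_lit 24634, nat_lit 24626, nat_lit 24630] (nat_lit 2) [nat_lit 44310, nat_lit 4946] false,
   Spec.mk (nat_lit 24630) (nat_lit 0) [nat_lit 11508, nat_lit 29004, nat_lit 23172, nat_lit 25116, nat_lit 24468, nat_lit 24576, nat_lit 24636, nat_lit 24628] (nat_lit 4) [nat_lit 4948] false,
   Spec.mk (nat_lit 24634) (nat_lit 0) [nat_lit 11512, nat_lit 29008, nat_lit 23176, nat_lit 25120, nat_lit 24472, nat_lit 24580, nat_lit 24652, nat_lit 24628, nat_lit 24636] (nat_lit 3) [nat_lit 44316, nat_lit 4952] false,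
   Spec.mk (nat_lit 24636) (nat_lit 0) [nat_lit 11514, nat_lit 29010, nat_lit 23178, nat_lit 25122, nat_lit 24474, nat_lit 24582, nat_lit 24654, nat_lit 24630, nat_lit 24642, nat_lit 24634] (nat_lit 3) [nat_lit 4954] false,
   Spec.mk (nat_lit 24642) (nat_lit 0) [nat_lit 11520, nat_lit 29016, nat_lit 23184, nat_lit 25128, nat_lit 24480, nat_lit 24588, nat_lit 24660, nat_lit 24636] (nat_lit 4) [nat_lit 4960] false,
   Spec.mk (nat_lit 24652) (nat_lit 0) [nat_lit 11530, nat_lit 29026, nat_lit 23194, nat_lit 25138, nat_lit 24490, nat_lit 24598, nat_lit 24706, nat_lit 24634, nat_lit 24654] (nat_lit 2) [nat_lit 44334, nat_lit 4970] false,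
   Spec.mk (nat_lit 24654) (nat_lit 0) [nat_lit 11532, nat_lit 29028, nat_lit 23196, nat_lit 25140, nat_lit 24492, nat_lit 24600, nat_lit 24708, nat_lit 24636, nat_lit 24660, nat_lit 24652] (nat_lit 3) [nat_lit 4972] false,
   Spec.mk (nat_lit 24660) (nat_lit 0) [nat_lit 11538, nat_lit 29034, nat_lit 23202, nat_lit 25146, nat_lit 24498, nat_lit 24606, nat_lit 24714, nat_lit 24642, nat_lit 24678, nat_lit 24654] (nat_lit 2) [nat_lit 4978] false,
   Spec.mk (nat_lit 24678) (nat_lit 0) [nat_lit 11556, nat_lit 29052, nat_lit 23220, nat_lit 25164, nat_lit 24516, nat_lit 24732, nat_lit 24660] (nat_lit 2) [nat_lit 4996] false,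
   Spec.mk (nat_lit 24706) (nat_lit 0) [nat_lit 11584, nat_lit 29080, nat_lit 23248, nat_lit 25192, nat_lit 24652, nat_lit 24708] (nat_lit 1) [nat_lit 44388, nat_lit 5024] false]

noncomputable def sp63 : List Spec :=
  [Spec.mk (nat_lit 24708) (nat_lit 0) [nat_lit 11586, nat_lit 29082, nat_lit 23250, nat_lit 25194, nat_lit 24654, nat_lit 24714, nat_lit 24706] (nat_lit 2) [nat_lit 5026] false,
   Spec.mk (nat_lit 24714) (nat_lit 0) [nat_lit 11592, nat_lit 29088, nat_lit 23256, nat_lit 25200, nat_lit 24660, nat_lit 24732, nat_lit 24708] (nat_lit 2) [nat_lit 5032] false,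
   Spec.mk (nat_lit 24732) (nat_lit 0) [nat_lit 11610, nat_lit 29106, nat_lit 23274, nat_lit 25218, nat_lit 24678, nat_lit 24714] (nat_lit 0) [nat_lit 5050] false,
   Spec.mk (nat_lit 24794) (nat_lit 2) [nat_lit 11672, nat_lit 29168, nat_lit 23336, nat_lit 24308, nat_lit 24800] (nat_lit 0) [nat_lit 44476] false,
   Spec.mk (nat_lit 24800) (nat_lit 1) [nat_lit 11678, nat_lit 29174, nat_lit 23342, nat_lit 24314, nat_lit 24818, nat_lit 24794, nat_lit 24806, nat_lit 24802] (nat_lit 0) [nat_lit 44482] false,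
   Spec.mk (nat_lit 24802) (nat_lit 1) [nat_lit 11680, nat_lit 29176, nat_lit 23344, nat_lit 24316, nat_lit 24820, nat_lit 24808, nat_lit 24800] (nat_lit 0) [nat_lit 44484, nat_lit 5120] false,
   Spec.mk (nat_lit 24806) (nat_lit 0) [nat_lit 11684, nat_lit 29180, nat_lit 23348, nat_lit 24320, nat_lit 24824, nat_lit 24800, nat_lit 24808] (nat_lit 2) [nat_lit 44488] false,
   Spec.mk (nat_lit 24808) (nat_lit 0) [nat_lit 11686, nat_lit 29182, nat_lit 23350, nat_lit 24322, nat_lit 24826, nat_lit 24802, nat_lit 24806, nat_lit 24810] (nat_lit 0) [nat_lit 44490, nat_lit 5126] false,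
   Spec.mk (nat_lit 24810) (nat_lit 0) [nat_lit 11688, nat_lit 29184, nat_lit 23352, nat_lit 24324, nat_lit 24828, nat_lit 24808] (nat_lit 0) [nat_lit 5128] false,
   Spec.mk (nat_lit 24818) (nat_lit 0) [nat_lit 11696, nat_lit 29192, nat_lit 23360, nat_lit 24332, nat_lit 24872, nat_lit 24800, nat_lit 24824, nat_lit 24820] (nat_lit 0) [nat_lit 44500] false,
   Spec.mk (nat_lit 24820) (nat_lit 0) [nat_lit 11698, nat_lit 29194, nat_lit 23362, nat_lit 24334, nat_lit 24874, nat_lit 24802, nat_lit 24826, nat_lit 24818] (nat_lit 1) [nat_lit 44502, nat_lit 5138] false,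
   Spec.mk (nat_lit 24824) (nat_lit 0) [nat_lit 11702, nat_lit 29198, nat_lit 23366, nat_lit 24338, nat_lit 24878, nat_lit 24806, nat_lit 24842, nat_lit 24818, nat_lit 24826] (nat_lit 1) [nat_lit 44506] false,
   Spec.mk (nat_lit 24826) (nat_lit 0) [nat_lit 11704, nat_lit 29200, nat_lit 23368, nat_lit 24340, nat_lit 24880, nat_lit 24808, nat_lit 24844, nat_lit 24820, nat_lit 24832, nat_lit 24824, nat_lit 24828] (nat_lit 0) [nat_lit 44508, nat_lit 5144] false,
   Spec.mk (nat_lit 24828) (nat_lit 0) [nat_lit 11706, nat_lit 29202, nat_lit 23370, nat_lit 24342, nat_lit 24882, nat_lit 24810, nat_lit 24846, nat_lit 24834, nat_lit 24826] (nat_lit 1) [nat_lit 5146] false,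
   Spec.mk (nat_lit 24832) (nat_lit 0) [nat_lit 11710, nat_lit 29206, nat_lit 23374, nat_lit 24346, nat_lit 24886, nat_lit 24850, nat_lit 24826, nat_lit 24834] (nat_lit 1) [nat_lit 44514, nat_lit 5150] false,
   Spec.mk (nat_lit 24834) (nat_lit 0) [nat_lit 11712, nat_lit 29208, nat_lit 23376, nat_lit 24348, nat_lit 24888, nat_lit 24852, nat_lit 24828, nat_lit 24832] (nat_lit 0) [nat_lit 5152] false,
   Spec.mk (nat_lit 24842) (nat_lit 0) [nat_lit 11720, nat_lit 29216, nat_lit 23384, nat_lit 24356, nat_lit 24896, nat_lit 24824, nat_lit 24844] (nat_lit 2) [nat_lit 44524] false,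
   Spec.mk (nat_lit 24844) (nat_lit 0) [nat_lit 11722, nat_lit 29218, nat_lit 23386, nat_lit 24358, nat_lit 24898, nat_lit 24826, nat_lit 24850, nat_lit 24842, nat_lit 24846] (nat_lit 2) [nat_lit 44526, nat_lit 5162] false,
   Spec.mk (nat_lit 24846) (nat_lit 0) [nat_lit 11724, nat_lit 29220, nat_lit 23388, nat_lit 24360, nat_lit 24900, nat_lit 24828, nat_lit 24852, nat_lit 24844] (nat_lit 4) [nat_lit 5164] false,
   Spec.mk (nat_lit 24850) (nat_lit 0) [nat_lit 11728, nat_lit 29224, nat_lit 23392, nat_lit 24364, nat_lit 24904, nat_lit 24832, nat_lit 24844, nat_lit 24852] (nat_lit 1) [nat_lit 44532, nat_lit 5168] false,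
   Spec.mk (nat_lit 24852) (nat_lit 0) [nat_lit 11730, nat_lit 29226, nat_lit 23394, nat_lit 24366, nat_lit 24906, nat_lit 24834, nat_lit 24846, nat_lit 24858, nat_lit 24850] (nat_lit 1) [nat_lit 5170] false,
   Spec.mk (nat_lit 24858) (nat_lit 0) [nat_lit 11736, nat_lit 29232, nat_lit 23400, nat_lit 24372, nat_lit 24912, nat_lit 24852] (nat_lit 0) [nat_lit 5176] false,
   Spec.mk (nat_lit 24872) (nat_lit 0) [nat_lit 11750, nat_lit 29246, nat_lit 23414, nat_lit 24386, nat_lit 25034, nat_lit 24818, nat_lit 24878, nat_lit 24874] (nat_lit 0) [nat_lit 44554] false,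
   Spec.mk (nat_lit 24874) (nat_lit 0) [nat_lit 11752, nat_lit 29248, nat_lit 23416, nat_lit 24388, nat_lit 25036, nat_lit 24820, nat_lit 24880, nat_lit 24872] (nat_lit 1) [nat_lit 44556, nat_lit 5192] false,
   Spec.mk (nat_lit 24878) (nat_lit 0) [nat_lit 11756, nat_lit 29252, nat_lit 23420, nat_lit 24392, nat_lit 25040, nat_lit 24824, nat_lit 24896, nat_lit 24872, nat_lit 24880] (nat_lit 2) [nat_lit 44560] false,
   Spec.mk (nat_lit 24880) (nat_lit 0) [nat_lit 11758, nat_lit 29254, nat_lit 23422, nat_lit 24394, nat_lit 25042, nat_lit 24826, nat_lit 24898, nat_lit 24874, nat_lit 24886, nat_lit 24878, nat_lit 24882] (nat_lit 1) [nat_lit 44562, nat_lit 5198] false,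
   Spec.mk (nat_lit 24882) (nat_lit 0) [nat_lit 11760, nat_lit 29256, nat_lit 23424, nat_lit 24396, nat_lit 25044, nat_lit 24828, nat_lit 24900, nat_lit 24888, nat_lit 24880] (nat_lit 2) [nat_lit 5200] false,
   Spec.mk (nat_lit 24886) (nat_lit 0) [nat_lit 11764, nat_lit 29260, nat_lit 23428, nat_lit 24400, nat_lit 25048, nat_lit 24832, nat_lit 24904, nat_lit 24880, nat_lit 24888] (nat_lit 3) [nat_lit 44568, nat_lit 5204] false,
   Spec.mk (nat_lit 24888) (nat_lit 0) [nat_lit 11766, nat_lit 29262, nat_lit 23430, nat_lit 24402, nat_lit 25050, nat_lit 24834, nat_lit 24906, nat_lit 24882, nat_lit 24886] (nat_lit 2) [nat_lit 5206] false,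
   Spec.mk (nat_lit 24896) (nat_lit 0) [nat_lit 11774, nat_lit 29270, nat_lit 23438, nat_lit 24410, nat_lit 25058, nat_lit 24842, nat_lit 24950, nat_lit 24878, nat_lit 24898] (nat_lit 1) [nat_lit 44578] false,
   Spec.mk (nat_lit 24898) (nat_lit 0) [nat_lit 11776, nat_lit 29272, nat_lit 23440, nat_lit 24412, nat_lit 25060, nat_lit 24844, nat_lit 24952, nat_lit 24880, nat_lit 24904, nat_lit 24896, nat_lit 24900] (nat_lit 1) [nat_lit 44580, nat_lit 5216] false,
   Spec.mk (nat_lit 24900) (nat_lit 0) [nat_lit 11778, nat_lit 29274, nat_lit 23442, nat_lit 24414, nat_lit 25062, nat_lit 24846, nat_lit 24954, nat_lit 24882, nat_lit 24906, nat_lit 24898] (nat_lit 3) [nat_lit 5218] false,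
   Spec.mk (nat_lit 24904) (nat_lit 0) [nat_lit 11782, nat_lit 29278, nat_lit 23446, nat_lit 24418, nat_lit 25066, nat_lit 24850, nat_lit 24958, nat_lit 24886, nat_lit 24922, nat_lit 24898, nat_lit 24906] (nat_lit 1) [nat_lit 44586, nat_lit 5222] false,
   Spec.mk (nat_lit 24906) (nat_lit 0) [nat_lit 11784, nat_lit 29280, nat_lit 23448, nat_lit 24420, nat_lit 25068, nat_lit 24852, nat_lit 24960, nat_lit 24888, nat_lit 24924, nat_lit 24900, nat_lit 24912, nat_lit 24904] (nat_lit 1) [nat_lit 5224] false,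
   Spec.mk (nat_lit 24912) (nat_lit 0) [nat_lit 11790, nat_lit 29286, nat_lit 23454, nat_lit 24426, nat_lit 25074, nat_lit 24858, nat_lit 24966, nat_lit 24930, nat_lit 24906] (nat_lit 1) [nat_lit 5230] false,
   Spec.mk (nat_lit 24922) (nat_lit 0) [nat_lit 11800, nat_lit 29296, nat_lit 23464, nat_lit 24436, nat_lit 25084, nat_lit 24976, nat_lit 24904, nat_lit 24924] (nat_lit 1) [nat_lit 44604, nat_lit 5240] false,
   Spec.mk (nat_lit 24924) (nat_lit 0) [nat_lit 11802, nat_lit 29298, nat_lit 23466, nat_lit 24438, nat_lit 25086, nat_lit 24978, nat_lit 24906, nat_lit 24930, nat_lit 24922] (nat_lit 2) [nat_lit 5242] false,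
   Spec.mk (nat_lit 24930) (nat_lit 0) [nat_lit 11808, nat_lit 29304, nat_lit 23472, nat_lit 24444, nat_lit 25092, nat_lit 24984, nat_lit 24912, nat_lit 24924] (nat_lit 0) [nat_lit 5248] false,
   Spec.mk (nat_lit 24950) (nat_lit 0) [nat_lit 11828, nat_lit 29324, nat_lit 23492, nat_lit 24464, nat_lit 25112, nat_lit 24896, nat_lit 24952] (nat_lit 2) [nat_lit 44632] false,
   Spec.mk (nat_lit 24952) (nat_lit 0) [nat_lit 11830, nat_lit 29326, nat_lit 23494, nat_lit 24466, nat_lit 25114, nat_lit 24898, nat_lit 24958, nat_lit 24950, nat_lit 24954] (nat_lit 2) [nat_lit 44634, nat_lit 5270] false,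
   Spec.mk (nat_lit 24954) (nat_lit 0) [nat_lit 11832, nat_lit 29328, nat_lit 23496, nat_lit 24468, nat_lit 25116, nat_lit 24900, nat_lit 24960, nat_lit 24952] (nat_lit 4) [nat_lit 5272] false,
   Spec.mk (nat_lit 24958) (nat_lit 0) [nat_lit 11836, nat_lit 29332, nat_lit 23500, nat_lit 24472, nat_lit 25120, nat_lit 24904, nat_lit 24976, nat_lit 24952, nat_lit 24960] (nat_lit 3) [nat_lit 44640, nat_lit 5276] false,
   Spec.mk (nat_lit 24960) (nat_lit 0) [nat_lit 11838, nat_lit 29334, nat_lit 23502, nat_lit 24474, nat_lit 25122, nat_lit 24906, nat_lit 24978, nat_lit 24954, nat_lit 24966, nat_lit 24958] (nat_lit 3) [nat_lit 5278] false,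
   Spec.mk (nat_lit 24966) (nat_lit 0) [nat_lit 11844, nat_lit 29340, nat_lit 23508, nat_lit 24480, nat_lit 25128, nat_lit 24912, nat_lit 24984, nat_lit 24960] (nat_lit 4) [nat_lit 5284] false,
   Spec.mk (nat_lit 24976) (nat_lit 0) [nat_lit 11854, nat_lit 29350, nat_lit 23518, nat_lit 24490, nat_lit 25138, nat_lit 24922, nat_lit 24958, nat_lit 24978] (nat_lit 1) [nat_lit 44658, nat_lit 5294] false,
   Spec.mk (nat_lit 24978) (nat_lit 0) [nat_lit 11856, nat_lit 29352, nat_lit 23520, nat_lit 24492, nat_lit 25140, nat_lit 24924, nat_lit 24960, nat_lit 24984, nat_lit 24976] (nat_lit 2) [nat_lit 5296] false,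
   Spec.mk (nat_lit 24984) (nat_lit 0) [nat_lit 11862, nat_lit 29358, nat_lit 23526, nat_lit 24498, nat_lit 25146, nat_lit 24930, nat_lit 24966, nat_lit 25002, nat_lit 24978] (nat_lit 1) [nat_lit 5302] false,
   Spec.mk (nat_lit 25002) (nat_lit 0) [nat_lit 11880, nat_lit 29376, nat_lit 23544, nat_lit 24516, nat_lit 25164, nat_lit 24984] (nat_lit 0) [nat_lit 5320] false,
   Spec.mk (nat_lit 25034) (nat_lit 1) [nat_lit 11912, nat_lit 29408, nat_lit 23576, nat_lit 24548, nat_lit 25520, nat_lit 24872, nat_lit 25040, nat_lit 25036] (nat_lit 0) [nat_lit 44716] false,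
   Spec.mk (nat_lit 25036) (nat_lit 0) [nat_lit 11914, nat_lit 29410, nat_lit 23578, nat_lit 24550, nat_lit 25522, nat_lit 24874, nat_lit 25042, nat_lit 25034] (nat_lit 0) [nat_lit 44718, nat_lit 5354] false,
   Spec.mk (nat_lit 25040) (nat_lit 0) [nat_lit 11918, nat_lit 29414, nat_lit 23582, nat_lit 24554, nat_lit 25526, nat_lit 24878, nat_lit 25058, nat_lit 25034, nat_lit 25042] (nat_lit 1) [nat_lit 44722] false,
   Spec.mk (nat_lit 25042) (nat_lit 0) [nat_lit 11920, nat_lit 29416, nat_lit 23584, nat_lit 24556, nat_lit 25528, nat_lit 24880, nat_lit 25060, nat_lit 25036, nat_lit 25048, nat_lit 25040, nat_lit 25044] (nat_lit 0) [nat_lit 44724, nat_lit 5360] false,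
   Spec.mk (nat_lit 25044) (nat_lit 0) [nat_lit 11922, nat_lit 29418, nat_lit 23586, nat_lit 24558, nat_lit 25530, nat_lit 24882, nat_lit 25062, nat_lit 25050, nat_lit 25042] (nat_lit 1) [nat_lit 5362] false,
   Spec.mk (nat_lit 25048) (nat_lit 0) [nat_lit 11926, nat_lit 29422, nat_lit 23590, nat_lit 24562, nat_lit 25534, nat_lit 24886, nat_lit 25066, nat_lit 25042, nat_lit 25050] (nat_lit 2) [nat_lit 44730, nat_lit 5366] false,
   Spec.mk (nat_lit 25050) (nat_lit 0) [nat_lit 11928, nat_lit 29424, nat_lit 23592, nat_lit 24564, nat_lit 25536, nat_lit 24888, nat_lit 25068, nat_lit 25044, nat_lit 25048] (nat_lit 1) [nat_lit 5368] false,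
   Spec.mk (nat_lit 25058) (nat_lit 0) [nat_lit 11936, nat_lit 29432, nat_lit 23600, nat_lit 24572, nat_lit 25544, nat_lit 24896, nat_lit 25112, nat_lit 25040, nat_lit 25060] (nat_lit 1) [nat_lit 44740] false,
   Spec.mk (nat_lit 25060) (nat_lit 0) [nat_lit 11938, nat_lit 29434, nat_lit 23602, nat_lit 24574, nat_lit 25546, nat_lit 24898, nat_lit 25114, nat_lit 25042, nat_lit 25066, nat_lit 25058, nat_lit 25062] (nat_lit 1) [nat_lit 44742, nat_lit 5378] false,
   Spec.mk (nat_lit 25062) (nat_lit 0) [nat_lit 11940, nat_lit 29436, nat_lit 23604, nat_lit 24576, nat_lit 25548, nat_lit 24900, nat_lit 25116, nat_lit 25044, nat_lit 25068, nat_lit 25060] (nat_lit 3) [nat_lit 5380] false,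
   Spec.mk (nat_lit 25066) (nat_lit 0) [nat_lit 11944, nat_lit 29440, nat_lit 23608, nat_lit 24580, nat_lit 25552, nat_lit 24904, nat_lit 25120, nat_lit 25048, nat_lit 25084, nat_lit 25060, nat_lit 25068] (nat_lit 1) [nat_lit 44748, nat_lit 5384] false,
   Spec.mk (nat_lit 25068) (nat_lit 0) [nat_lit 11946, nat_lit 29442, nat_lit 23610, nat_lit 24582, nat_lit 25554, nat_lit 24906, nat_lit 25122, nat_lit 25050, nat_lit 25086, nat_lit 25062, nat_lit 25074, nat_lit 25066] (nat_lit 1) [nat_lit 5386] false]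

noncomputable def sp64 : List Spec :=
  [Spec.mk (nat_lit 25074) (nat_lit 0) [nat_lit 11952, nat_lit 29448, nat_lit 23616, nat_lit 24588, nat_lit 25560, nat_lit 24912, nat_lit 25128, nat_lit 25092, nat_lit 25068] (nat_lit 1) [nat_lit 5392] false,
   Spec.mk (nat_lit 25084) (nat_lit 0) [nat_lit 11962, nat_lit 29458, nat_lit 23626, nat_lit 24598, nat_lit 25570, nat_lit 24922, nat_lit 25138, nat_lit 25066, nat_lit 25086] (nat_lit 2) [nat_lit 44766, nat_lit 5402] false,
   Spec.mk (nat_lit 25086) (nat_lit 0) [nat_lit 11964, nat_lit 29460, nat_lit 23628, nat_lit 24600, nat_lit 25572, nat_lit 24924, nat_lit 25140, nat_lit 25068, nat_lit 25092, nat_lit 25084] (nat_lit 3) [nat_lit 5404] false,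
   Spec.mk (nat_lit 25092) (nat_lit 0) [nat_lit 11970, nat_lit 29466, nat_lit 23634, nat_lit 24606, nat_lit 25578, nat_lit 24930, nat_lit 25146, nat_lit 25074, nat_lit 25086] (nat_lit 1) [nat_lit 5410] false,
   Spec.mk (nat_lit 25112) (nat_lit 0) [nat_lit 11990, nat_lit 29486, nat_lit 23654, nat_lit 24626, nat_lit 25598, nat_lit 24950, nat_lit 25274, nat_lit 25058, nat_lit 25114] (nat_lit 0) [nat_lit 44794] false,
   Spec.mk (nat_lit 25114) (nat_lit 0) [nat_lit 11992, nat_lit 29488, nat_lit 23656, nat_lit 24628, nat_lit 25600, nat_lit 24952, nat_lit 25276, nat_lit 25060, nat_lit 25120, nat_lit 25112, nat_lit 25116] (nat_lit 0) [nat_lit 44796, nat_lit 5432] false,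
   Spec.mk (nat_lit 25116) (nat_lit 0) [nat_lit 11994, nat_lit 29490, nat_lit 23658, nat_lit 24630, nat_lit 25602, nat_lit 24954, nat_lit 25278, nat_lit 25062, nat_lit 25122, nat_lit 25114] (nat_lit 2) [nat_lit 5434] false,
   Spec.mk (nat_lit 25120) (nat_lit 0) [nat_lit 11998, nat_lit 29494, nat_lit 23662, nat_lit 24634, nat_lit 25606, nat_lit 24958, nat_lit 25282, nat_lit 25066, nat_lit 25138, nat_lit 25114, nat_lit 25122] (nat_lit 1) [nat_lit 44802, nat_lit 5438] false,
   Spec.mk (nat_lit 25122) (nat_lit 0) [nat_lit 12000, nat_lit 29496, nat_lit 23664, nat_lit 24636, nat_lit 25608, nat_lit 24960, nat_lit 25284, nat_lit 25068, nat_lit 25140, nat_lit 25116, nat_lit 25128, nat_lit 25120] (nat_lit 1) [nat_lit 5440] false,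
   Spec.mk (nat_lit 25128) (nat_lit 0) [nat_lit 12006, nat_lit 29502, nat_lit 23670, nat_lit 24642, nat_lit 25614, nat_lit 24966, nat_lit 25290, nat_lit 25074, nat_lit 25146, nat_lit 25122] (nat_lit 2) [nat_lit 5446] false,
   Spec.mk (nat_lit 25138) (nat_lit 0) [nat_lit 12016, nat_lit 29512, nat_lit 23680, nat_lit 24652, nat_lit 25624, nat_lit 24976, nat_lit 25300, nat_lit 25084, nat_lit 25192, nat_lit 25120, nat_lit 25140] (nat_lit 0) [nat_lit 44820, nat_lit 5456] false,
   Spec.mk (nat_lit 25140) (nat_lit 0) [nat_lit 12018, nat_lit 29514, nat_lit 23682, nat_lit 24654, nat_lit 25626, nat_lit 24978, nat_lit 25302, nat_lit 25086, nat_lit 25194, nat_lit 25122, nat_lit 25146, nat_lit 25138] (nat_lit 1) [nat_lit 5458] false,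
   Spec.mk (nat_lit 25146) (nat_lit 0) [nat_lit 12024, nat_lit 29520, nat_lit 23688, nat_lit 24660, nat_lit 25632, nat_lit 24984, nat_lit 25308, nat_lit 25092, nat_lit 25200, nat_lit 25128, nat_lit 25164, nat_lit 25140] (nat_lit 0) [nat_lit 5464] false,
   Spec.mk (nat_lit 25164) (nat_lit 0) [nat_lit 12042, nat_lit 29538, nat_lit 23706, nat_lit 24678, nat_lit 25650, nat_lit 25002, nat_lit 25326, nat_lit 25218, nat_lit 25146] (nat_lit 0) [nat_lit 5482] false,
   Spec.mk (nat_lit 25192) (nat_lit 0) [nat_lit 12070, nat_lit 29566, nat_lit 23734, nat_lit 24706, nat_lit 25678, nat_lit 25354, nat_lit 25138, nat_lit 25194] (nat_lit 0) [nat_lit 44874, nat_lit 5510] false,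
   Spec.mk (nat_lit 25194) (nat_lit 0) [nat_lit 12072, nat_lit 29568, nat_lit 23736, nat_lit 24708, nat_lit 25680, nat_lit 25356, nat_lit 25140, nat_lit 25200, nat_lit 25192] (nat_lit 1) [nat_lit 5512] false,
   Spec.mk (nat_lit 25200) (nat_lit 0) [nat_lit 12078, nat_lit 29574, nat_lit 23742, nat_lit 24714, nat_lit 25686, nat_lit 25362, nat_lit 25146, nat_lit 25218, nat_lit 25194] (nat_lit 1) [nat_lit 5518] false,
   Spec.mk (nat_lit 25218) (nat_lit 1) [nat_lit 12096, nat_lit 29592, nat_lit 23760, nat_lit 24732, nat_lit 25704, nat_lit 25380, nat_lit 25164, nat_lit 25200] (nat_lit 0) [nat_lit 5536] false,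
   Spec.mk (nat_lit 25274) (nat_lit 0) [nat_lit 12152, nat_lit 29648, nat_lit 23816, nat_lit 25760, nat_lit 25112, nat_lit 25276] (nat_lit 0) [nat_lit 44956] false,
   Spec.mk (nat_lit 25276) (nat_lit 0) [nat_lit 12154, nat_lit 29650, nat_lit 23818, nat_lit 25762, nat_lit 25114, nat_lit 25282, nat_lit 25274, nat_lit 25278] (nat_lit 0) [nat_lit 44958, nat_lit 5594] false,
   Spec.mk (nat_lit 25278) (nat_lit 0) [nat_lit 12156, nat_lit 29652, nat_lit 23820, nat_lit 25764, nat_lit 25116, nat_lit 25284, nat_lit 25276] (nat_lit 2) [nat_lit 5596] false,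
   Spec.mk (nat_lit 25282) (nat_lit 0) [nat_lit 12160, nat_lit 29656, nat_lit 23824, nat_lit 25768, nat_lit 25120, nat_lit 25300, nat_lit 25276, nat_lit 25284] (nat_lit 1) [nat_lit 44964, nat_lit 5600] false,
   Spec.mk (nat_lit 25284) (nat_lit 0) [nat_lit 12162, nat_lit 29658, nat_lit 23826, nat_lit 25770, nat_lit 25122, nat_lit 25302, nat_lit 25278, nat_lit 25290, nat_lit 25282] (nat_lit 1) [nat_lit 5602] false,
   Spec.mk (nat_lit 25290) (nat_lit 0) [nat_lit 12168, nat_lit 29664, nat_lit 23832, nat_lit 25776, nat_lit 25128, nat_lit 25308, nat_lit 25284] (nat_lit 2) [nat_lit 5608] false,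
   Spec.mk (nat_lit 25300) (nat_lit 0) [nat_lit 12178, nat_lit 29674, nat_lit 23842, nat_lit 25786, nat_lit 25138, nat_lit 25354, nat_lit 25282, nat_lit 25302] (nat_lit 1) [nat_lit 44982, nat_lit 5618] false,
   Spec.mk (nat_lit 25302) (nat_lit 0) [nat_lit 12180, nat_lit 29676, nat_lit 23844, nat_lit 25788, nat_lit 25140, nat_lit 25356, nat_lit 25284, nat_lit 25308, nat_lit 25300] (nat_lit 2) [nat_lit 5620] false,
   Spec.mk (nat_lit 25308) (nat_lit 0) [nat_lit 12186, nat_lit 29682, nat_lit 23850, nat_lit 25794, nat_lit 25146, nat_lit 25362, nat_lit 25290, nat_lit 25326, nat_lit 25302] (nat_lit 1) [nat_lit 5626] false,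
   Spec.mk (nat_lit 25326) (nat_lit 0) [nat_lit 12204, nat_lit 29700, nat_lit 23868, nat_lit 25812, nat_lit 25164, nat_lit 25380, nat_lit 25308] (nat_lit 2) [nat_lit 5644] false,
   Spec.mk (nat_lit 25354) (nat_lit 1) [nat_lit 12232, nat_lit 29728, nat_lit 23896, nat_lit 25840, nat_lit 25192, nat_lit 25300, nat_lit 25356] (nat_lit 0) [nat_lit 45036, nat_lit 5672] false,
   Spec.mk (nat_lit 25356) (nat_lit 0) [nat_lit 12234, nat_lit 29730, nat_lit 23898, nat_lit 25842, nat_lit 25194, nat_lit 25302, nat_lit 25362, nat_lit 25354] (nat_lit 0) [nat_lit 5674] false,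
   Spec.mk (nat_lit 25362) (nat_lit 0) [nat_lit 12240, nat_lit 29736, nat_lit 23904, nat_lit 25848, nat_lit 25200, nat_lit 25308, nat_lit 25380, nat_lit 25356] (nat_lit 0) [nat_lit 5680] false,
   Spec.mk (nat_lit 25380) (nat_lit 1) [nat_lit 12258, nat_lit 29754, nat_lit 23922, nat_lit 25866, nat_lit 25218, nat_lit 25326, nat_lit 25434, nat_lit 25362] (nat_lit 0) [nat_lit 5698] false,
   Spec.mk (nat_lit 25434) (nat_lit 2) [nat_lit 12312, nat_lit 29808, nat_lit 23976, nat_lit 25920, nat_lit 25380] (nat_lit 0) [nat_lit 5752] false,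
   Spec.mk (nat_lit 25520) (nat_lit 2) [nat_lit 12398, nat_lit 29894, nat_lit 25034, nat_lit 25526, nat_lit 25522] (nat_lit 0) [nat_lit 45202] false,
   Spec.mk (nat_lit 25522) (nat_lit 1) [nat_lit 12400, nat_lit 29896, nat_lit 25036, nat_lit 25528, nat_lit 25520] (nat_lit 0) [nat_lit 45204, nat_lit 5840] false,
   Spec.mk (nat_lit 25526) (nat_lit 0) [nat_lit 12404, nat_lit 29900, nat_lit 25040, nat_lit 25544, nat_lit 25520, nat_lit 25528] (nat_lit 0) [nat_lit 45208] false,
   Spec.mk (nat_lit 25528) (nat_lit 1) [nat_lit 12406, nat_lit 29902, nat_lit 25042, nat_lit 25546, nat_lit 25522, nat_lit 25534, nat_lit 25526, nat_lit 25530] (nat_lit 0) [nat_lit 45210, nat_lit 5846] false,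
   Spec.mk (nat_lit 25530) (nat_lit 0) [nat_lit 12408, nat_lit 29904, nat_lit 25044, nat_lit 25548, nat_lit 25536, nat_lit 25528] (nat_lit 0) [nat_lit 5848] false,
   Spec.mk (nat_lit 25534) (nat_lit 0) [nat_lit 12412, nat_lit 29908, nat_lit 25048, nat_lit 25552, nat_lit 25528, nat_lit 25536] (nat_lit 1) [nat_lit 45216, nat_lit 5852] false,
   Spec.mk (nat_lit 25536) (nat_lit 0) [nat_lit 12414, nat_lit 29910, nat_lit 25050, nat_lit 25554, nat_lit 25530, nat_lit 25534] (nat_lit 0) [nat_lit 5854] false,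
   Spec.mk (nat_lit 25544) (nat_lit 0) [nat_lit 12422, nat_lit 29918, nat_lit 25058, nat_lit 25598, nat_lit 25526, nat_lit 25546] (nat_lit 0) [nat_lit 45226] false,
   Spec.mk (nat_lit 25546) (nat_lit 0) [nat_lit 12424, nat_lit 29920, nat_lit 25060, nat_lit 25600, nat_lit 25528, nat_lit 25552, nat_lit 25544, nat_lit 25548] (nat_lit 0) [nat_lit 45228, nat_lit 5864] false,
   Spec.mk (nat_lit 25548) (nat_lit 0) [nat_lit 12426, nat_lit 29922, nat_lit 25062, nat_lit 25602, nat_lit 25530, nat_lit 25554, nat_lit 25546] (nat_lit 2) [nat_lit 5866] false,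
   Spec.mk (nat_lit 25552) (nat_lit 0) [nat_lit 12430, nat_lit 29926, nat_lit 25066, nat_lit 25606, nat_lit 25534, nat_lit 25570, nat_lit 25546, nat_lit 25554] (nat_lit 0) [nat_lit 45234, nat_lit 5870] false,
   Spec.mk (nat_lit 25554) (nat_lit 0) [nat_lit 12432, nat_lit 29928, nat_lit 25068, nat_lit 25608, nat_lit 25536, nat_lit 25572, nat_lit 25548, nat_lit 25560, nat_lit 25552] (nat_lit 0) [nat_lit 5872] false,
   Spec.mk (nat_lit 25560) (nat_lit 0) [nat_lit 12438, nat_lit 29934, nat_lit 25074, nat_lit 25614, nat_lit 25578, nat_lit 25554] (nat_lit 0) [nat_lit 5878] false,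
   Spec.mk (nat_lit 25570) (nat_lit 0) [nat_lit 12448, nat_lit 29944, nat_lit 25084, nat_lit 25624, nat_lit 25552, nat_lit 25572] (nat_lit 1) [nat_lit 45252, nat_lit 5888] false,
   Spec.mk (nat_lit 25572) (nat_lit 0) [nat_lit 12450, nat_lit 29946, nat_lit 25086, nat_lit 25626, nat_lit 25554, nat_lit 25578, nat_lit 25570] (nat_lit 2) [nat_lit 5890] false,
   Spec.mk (nat_lit 25578) (nat_lit 0) [nat_lit 12456, nat_lit 29952, nat_lit 25092, nat_lit 25632, nat_lit 25560, nat_lit 25572] (nat_lit 0) [nat_lit 5896] false,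
   Spec.mk (nat_lit 25598) (nat_lit 0) [nat_lit 12476, nat_lit 29972, nat_lit 25112, nat_lit 25760, nat_lit 25544, nat_lit 25600] (nat_lit 0) [nat_lit 45280] false,
   Spec.mk (nat_lit 25600) (nat_lit 0) [nat_lit 12478, nat_lit 29974, nat_lit 25114, nat_lit 25762, nat_lit 25546, nat_lit 25606, nat_lit 25598, nat_lit 25602] (nat_lit 0) [nat_lit 45282, nat_lit 5918] false,
   Spec.mk (nat_lit 25602) (nat_lit 0) [nat_lit 12480, nat_lit 29976, nat_lit 25116, nat_lit 25764, nat_lit 25548, nat_lit 25608, nat_lit 25600] (nat_lit 2) [nat_lit 5920] false,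
   Spec.mk (nat_lit 25606) (nat_lit 0) [nat_lit 12484, nat_lit 29980, nat_lit 25120, nat_lit 25768, nat_lit 25552, nat_lit 25624, nat_lit 25600, nat_lit 25608] (nat_lit 1) [nat_lit 45288, nat_lit 5924] false,
   Spec.mk (nat_lit 25608) (nat_lit 0) [nat_lit 12486, nat_lit 29982, nat_lit 25122, nat_lit 25770, nat_lit 25554, nat_lit 25626, nat_lit 25602, nat_lit 25614, nat_lit 25606] (nat_lit 1) [nat_lit 5926] false,
   Spec.mk (nat_lit 25614) (nat_lit 0) [nat_lit 12492, nat_lit 29988, nat_lit 25128, nat_lit 25776, nat_lit 25560, nat_lit 25632, nat_lit 25608] (nat_lit 2) [nat_lit 5932] false,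
   Spec.mk (nat_lit 25624) (nat_lit 0) [nat_lit 12502, nat_lit 29998, nat_lit 25138, nat_lit 25786, nat_lit 25570, nat_lit 25678, nat_lit 25606, nat_lit 25626] (nat_lit 0) [nat_lit 45306, nat_lit 5942] false,
   Spec.mk (nat_lit 25626) (nat_lit 0) [nat_lit 12504, nat_lit 30000, nat_lit 25140, nat_lit 25788, nat_lit 25572, nat_lit 25680, nat_lit 25608, nat_lit 25632, nat_lit 25624] (nat_lit 1) [nat_lit 5944] false,
   Spec.mk (nat_lit 25632) (nat_lit 0) [nat_lit 12510, nat_lit 30006, nat_lit 25146, nat_lit 25794, nat_lit 25578, nat_lit 25686, nat_lit 25614, nat_lit 25650, nat_lit 25626] (nat_lit 0) [nat_lit 5950] false,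
   Spec.mk (nat_lit 25650) (nat_lit 0) [nat_lit 12528, nat_lit 30024, nat_lit 25164, nat_lit 25812, nat_lit 25704, nat_lit 25632] (nat_lit 0) [nat_lit 5968] false,
   Spec.mk (nat_lit 25678) (nat_lit 0) [nat_lit 12556, nat_lit 30052, nat_lit 25192, nat_lit 25840, nat_lit 25624, nat_lit 25680] (nat_lit 1) [nat_lit 45360, nat_lit 5996] false]

noncomputable def sp65 : List Spec :=
  [Spec.mk (nat_lit 25680) (nat_lit 0) [nat_lit 12558, nat_lit 30054, nat_lit 25194, nat_lit 25842, nat_lit 25626, nat_lit 25686, nat_lit 25678] (nat_lit 2) [nat_lit 5998] false,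
   Spec.mk (nat_lit 25686) (nat_lit 0) [nat_lit 12564, nat_lit 30060, nat_lit 25200, nat_lit 25848, nat_lit 25632, nat_lit 25704, nat_lit 25680] (nat_lit 2) [nat_lit 6004] false,
   Spec.mk (nat_lit 25704) (nat_lit 0) [nat_lit 12582, nat_lit 30078, nat_lit 25218, nat_lit 25866, nat_lit 25650, nat_lit 25686] (nat_lit 0) [nat_lit 6022] false,
   Spec.mk (nat_lit 25760) (nat_lit 2) [nat_lit 12638, nat_lit 30134, nat_lit 25274, nat_lit 25598, nat_lit 25762] (nat_lit 0) [nat_lit 45442] false,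
   Spec.mk (nat_lit 25762) (nat_lit 2) [nat_lit 12640, nat_lit 30136, nat_lit 25276, nat_lit 25600, nat_lit 25768, nat_lit 25760, nat_lit 25764] (nat_lit 0) [nat_lit 45444, nat_lit 6080] false,
   Spec.mk (nat_lit 25764) (nat_lit 0) [nat_lit 12642, nat_lit 30138, nat_lit 25278, nat_lit 25602, nat_lit 25770, nat_lit 25762] (nat_lit 0) [nat_lit 6082] false,
   Spec.mk (nat_lit 25768) (nat_lit 1) [nat_lit 12646, nat_lit 30142, nat_lit 25282, nat_lit 25606, nat_lit 25786, nat_lit 25762, nat_lit 25770] (nat_lit 0) [nat_lit 45450, nat_lit 6086] false,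
   Spec.mk (nat_lit 25770) (nat_lit 1) [nat_lit 12648, nat_lit 30144, nat_lit 25284, nat_lit 25608, nat_lit 25788, nat_lit 25764, nat_lit 25776, nat_lit 25768] (nat_lit 0) [nat_lit 6088] false,
   Spec.mk (nat_lit 25776) (nat_lit 0) [nat_lit 12654, nat_lit 30150, nat_lit 25290, nat_lit 25614, nat_lit 25794, nat_lit 25770] (nat_lit 0) [nat_lit 6094] false,
   Spec.mk (nat_lit 25786) (nat_lit 1) [nat_lit 12664, nat_lit 30160, nat_lit 25300, nat_lit 25624, nat_lit 25840, nat_lit 25768, nat_lit 25788] (nat_lit 0) [nat_lit 45468, nat_lit 6104] false,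
   Spec.mk (nat_lit 25788) (nat_lit 0) [nat_lit 12666, nat_lit 30162, nat_lit 25302, nat_lit 25626, nat_lit 25842, nat_lit 25770, nat_lit 25794, nat_lit 25786] (nat_lit 0) [nat_lit 6106] false,
   Spec.mk (nat_lit 25794) (nat_lit 1) [nat_lit 12672, nat_lit 30168, nat_lit 25308, nat_lit 25632, nat_lit 25848, nat_lit 25776, nat_lit 25812, nat_lit 25788] (nat_lit 0) [nat_lit 6112] false,
   Spec.mk (nat_lit 25812) (nat_lit 0) [nat_lit 12690, nat_lit 30186, nat_lit 25326, nat_lit 25650, nat_lit 25866, nat_lit 25794] (nat_lit 0) [nat_lit 6130] false,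
   Spec.mk (nat_lit 25840) (nat_lit 2) [nat_lit 12718, nat_lit 30214, nat_lit 25354, nat_lit 25678, nat_lit 26002, nat_lit 25786, nat_lit 25842] (nat_lit 0) [nat_lit 45522, nat_lit 6158] false,
   Spec.mk (nat_lit 25842) (nat_lit 1) [nat_lit 12720, nat_lit 30216, nat_lit 25356, nat_lit 25680, nat_lit 26004, nat_lit 25788, nat_lit 25848, nat_lit 25840] (nat_lit 0) [nat_lit 6160] false,
   Spec.mk (nat_lit 25848) (nat_lit 1) [nat_lit 12726, nat_lit 30222, nat_lit 25362, nat_lit 25686, nat_lit 26010, nat_lit 25794, nat_lit 25866, nat_lit 25842] (nat_lit 0) [nat_lit 6166] false,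
   Spec.mk (nat_lit 25866) (nat_lit 2) [nat_lit 12744, nat_lit 30240, nat_lit 25380, nat_lit 25704, nat_lit 26028, nat_lit 25812, nat_lit 25920, nat_lit 25848] (nat_lit 0) [nat_lit 6184] false,
   Spec.mk (nat_lit 25920) (nat_lit 2) [nat_lit 12798, nat_lit 30294, nat_lit 25434, nat_lit 26082, nat_lit 25866] (nat_lit 0) [nat_lit 6238] false,
   Spec.mk (nat_lit 26002) (nat_lit 3) [nat_lit 12880, nat_lit 30376, nat_lit 25840, nat_lit 26004] (nat_lit 0) [nat_lit 45684, nat_lit 6320] false,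
   Spec.mk (nat_lit 26004) (nat_lit 2) [nat_lit 12882, nat_lit 30378, nat_lit 25842, nat_lit 26010, nat_lit 26002] (nat_lit 0) [nat_lit 6322] false,
   Spec.mk (nat_lit 26010) (nat_lit 2) [nat_lit 12888, nat_lit 30384, nat_lit 25848, nat_lit 26028, nat_lit 26004] (nat_lit 0) [nat_lit 6328] false,
   Spec.mk (nat_lit 26028) (nat_lit 2) [nat_lit 12906, nat_lit 30402, nat_lit 25866, nat_lit 26082, nat_lit 26010] (nat_lit 0) [nat_lit 6346] false,
   Spec.mk (nat_lit 26082) (nat_lit 4) [nat_lit 12960, nat_lit 30456, nat_lit 25920, nat_lit 26028] (nat_lit 0) [nat_lit 6400] false,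
   Spec.mk (nat_lit 26270) (nat_lit 5) [nat_lit 13148, nat_lit 39392, nat_lit 21896, nat_lit 26288] (nat_lit 0) [nat_lit 45952] false,
   Spec.mk (nat_lit 26288) (nat_lit 4) [nat_lit 13166, nat_lit 39410, nat_lit 21914, nat_lit 26342, nat_lit 26270, nat_lit 26306, nat_lit 26294] (nat_lit 0) [nat_lit 45970] false,
   Spec.mk (nat_lit 26294) (nat_lit 3) [nat_lit 13172, nat_lit 39416, nat_lit 21920, nat_lit 26348, nat_lit 26312, nat_lit 26288, nat_lit 26296] (nat_lit 0) [nat_lit 45976] false,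
   Spec.mk (nat_lit 26296) (nat_lit 4) [nat_lit 13174, nat_lit 39418, nat_lit 21922, nat_lit 26350, nat_lit 26314, nat_lit 26294] (nat_lit 0) [nat_lit 45978, nat_lit 6614] false,
   Spec.mk (nat_lit 26306) (nat_lit 1) [nat_lit 13184, nat_lit 39428, nat_lit 21932, nat_lit 26360, nat_lit 26288, nat_lit 26312] (nat_lit 0) [nat_lit 45988] false,
   Spec.mk (nat_lit 26312) (nat_lit 2) [nat_lit 13190, nat_lit 39434, nat_lit 21938, nat_lit 26366, nat_lit 26294, nat_lit 26306, nat_lit 26318, nat_lit 26314] (nat_lit 0) [nat_lit 45994] false,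
   Spec.mk (nat_lit 26314) (nat_lit 2) [nat_lit 13192, nat_lit 39436, nat_lit 21940, nat_lit 26368, nat_lit 26296, nat_lit 26320, nat_lit 26312] (nat_lit 0) [nat_lit 45996, nat_lit 6632] false,
   Spec.mk (nat_lit 26318) (nat_lit 1) [nat_lit 13196, nat_lit 39440, nat_lit 21944, nat_lit 26372, nat_lit 26312, nat_lit 26320] (nat_lit 0) [nat_lit 46000] false,
   Spec.mk (nat_lit 26320) (nat_lit 3) [nat_lit 13198, nat_lit 39442, nat_lit 21946, nat_lit 26374, nat_lit 26314, nat_lit 26318, nat_lit 26322] (nat_lit 0) [nat_lit 46002, nat_lit 6638] false,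
   Spec.mk (nat_lit 26322) (nat_lit 3) [nat_lit 13200, nat_lit 39444, nat_lit 21948, nat_lit 26376, nat_lit 26320] (nat_lit 0) [nat_lit 6640] false,
   Spec.mk (nat_lit 26342) (nat_lit 3) [nat_lit 13220, nat_lit 39464, nat_lit 21968, nat_lit 26504, nat_lit 26288, nat_lit 26360, nat_lit 26348] (nat_lit 0) [nat_lit 46024] false,
   Spec.mk (nat_lit 26348) (nat_lit 1) [nat_lit 13226, nat_lit 39470, nat_lit 21974, nat_lit 26510, nat_lit 26294, nat_lit 26366, nat_lit 26342, nat_lit 26350] (nat_lit 0) [nat_lit 46030] false,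
   Spec.mk (nat_lit 26350) (nat_lit 2) [nat_lit 13228, nat_lit 39472, nat_lit 21976, nat_lit 26512, nat_lit 26296, nat_lit 26368, nat_lit 26348] (nat_lit 0) [nat_lit 46032, nat_lit 6668] false,
   Spec.mk (nat_lit 26360) (nat_lit 2) [nat_lit 13238, nat_lit 39482, nat_lit 21986, nat_lit 26522, nat_lit 26306, nat_lit 26414, nat_lit 26342, nat_lit 26366] (nat_lit 0) [nat_lit 46042] false,
   Spec.mk (nat_lit 26366) (nat_lit 2) [nat_lit 13244, nat_lit 39488, nat_lit 21992, nat_lit 26528, nat_lit 26312, nat_lit 26420, nat_lit 26348, nat_lit 26384, nat_lit 26360, nat_lit 26372, nat_lit 26368] (nat_lit 0) [nat_lit 46048] false,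
   Spec.mk (nat_lit 26368) (nat_lit 2) [nat_lit 13246, nat_lit 39490, nat_lit 21994, nat_lit 26530, nat_lit 26314, nat_lit 26422, nat_lit 26350, nat_lit 26386, nat_lit 26374, nat_lit 26366] (nat_lit 0) [nat_lit 46050, nat_lit 6686] false,
   Spec.mk (nat_lit 26372) (nat_lit 0) [nat_lit 13250, nat_lit 39494, nat_lit 21998, nat_lit 26534, nat_lit 26318, nat_lit 26426, nat_lit 26390, nat_lit 26366, nat_lit 26374] (nat_lit 0) [nat_lit 46054] false,
   Spec.mk (nat_lit 26374) (nat_lit 2) [nat_lit 13252, nat_lit 39496, nat_lit 22000, nat_lit 26536, nat_lit 26320, nat_lit 26428, nat_lit 26392, nat_lit 26368, nat_lit 26372, nat_lit 26376] (nat_lit 0) [nat_lit 46056, nat_lit 6692] false,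
   Spec.mk (nat_lit 26376) (nat_lit 2) [nat_lit 13254, nat_lit 39498, nat_lit 22002, nat_lit 26538, nat_lit 26322, nat_lit 26430, nat_lit 26394, nat_lit 26374] (nat_lit 0) [nat_lit 6694] false,
   Spec.mk (nat_lit 26384) (nat_lit 1) [nat_lit 13262, nat_lit 39506, nat_lit 22010, nat_lit 26546, nat_lit 26438, nat_lit 26366, nat_lit 26390, nat_lit 26386] (nat_lit 0) [nat_lit 46066] false,
   Spec.mk (nat_lit 26386) (nat_lit 0) [nat_lit 13264, nat_lit 39508, nat_lit 22012, nat_lit 26548, nat_lit 26440, nat_lit 26368, nat_lit 26392, nat_lit 26384] (nat_lit 0) [nat_lit 46068, nat_lit 6704] false,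
   Spec.mk (nat_lit 26390) (nat_lit 1) [nat_lit 13268, nat_lit 39512, nat_lit 22016, nat_lit 26552, nat_lit 26444, nat_lit 26372, nat_lit 26384, nat_lit 26392] (nat_lit 0) [nat_lit 46072] false,
   Spec.mk (nat_lit 26392) (nat_lit 2) [nat_lit 13270, nat_lit 39514, nat_lit 22018, nat_lit 26554, nat_lit 26446, nat_lit 26374, nat_lit 26386, nat_lit 26398, nat_lit 26390, nat_lit 26394] (nat_lit 0) [nat_lit 46074, nat_lit 6710] false,
   Spec.mk (nat_lit 26394) (nat_lit 1) [nat_lit 13272, nat_lit 39516, nat_lit 22020, nat_lit 26556, nat_lit 26448, nat_lit 26376, nat_lit 26400, nat_lit 26392] (nat_lit 0) [nat_lit 6712] false,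
   Spec.mk (nat_lit 26398) (nat_lit 2) [nat_lit 13276, nat_lit 39520, nat_lit 22024, nat_lit 26560, nat_lit 26452, nat_lit 26392, nat_lit 26400] (nat_lit 0) [nat_lit 46080, nat_lit 6716] false,
   Spec.mk (nat_lit 26400) (nat_lit 3) [nat_lit 13278, nat_lit 39522, nat_lit 22026, nat_lit 26562, nat_lit 26454, nat_lit 26394, nat_lit 26398] (nat_lit 0) [nat_lit 6718] false,
   Spec.mk (nat_lit 26414) (nat_lit 1) [nat_lit 13292, nat_lit 39536, nat_lit 22040, nat_lit 26576, nat_lit 26360, nat_lit 26420] (nat_lit 0) [nat_lit 46096] false,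
   Spec.mk (nat_lit 26420) (nat_lit 0) [nat_lit 13298, nat_lit 39542, nat_lit 22046, nat_lit 26582, nat_lit 26366, nat_lit 26438, nat_lit 26414, nat_lit 26426, nat_lit 26422] (nat_lit 0) [nat_lit 46102] false,
   Spec.mk (nat_lit 26422) (nat_lit 0) [nat_lit 13300, nat_lit 39544, nat_lit 22048, nat_lit 26584, nat_lit 26368, nat_lit 26440, nat_lit 26428, nat_lit 26420] (nat_lit 0) [nat_lit 46104, nat_lit 6740] false,
   Spec.mk (nat_lit 26426) (nat_lit 0) [nat_lit 13304, nat_lit 39548, nat_lit 22052, nat_lit 26588, nat_lit 26372, nat_lit 26444, nat_lit 26420, nat_lit 26428] (nat_lit 3) [nat_lit 46108] false,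
   Spec.mk (nat_lit 26428) (nat_lit 0) [nat_lit 13306, nat_lit 39550, nat_lit 22054, nat_lit 26590, nat_lit 26374, nat_lit 26446, nat_lit 26422, nat_lit 26426, nat_lit 26430] (nat_lit 1) [nat_lit 46110, nat_lit 6746] false,
   Spec.mk (nat_lit 26430) (nat_lit 0) [nat_lit 13308, nat_lit 39552, nat_lit 22056, nat_lit 26592, nat_lit 26376, nat_lit 26448, nat_lit 26428] (nat_lit 1) [nat_lit 6748] false,
   Spec.mk (nat_lit 26438) (nat_lit 1) [nat_lit 13316, nat_lit 39560, nat_lit 22064, nat_lit 26600, nat_lit 26384, nat_lit 26420, nat_lit 26444, nat_lit 26440] (nat_lit 0) [nat_lit 46120] false,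
   Spec.mk (nat_lit 26440) (nat_lit 0) [nat_lit 13318, nat_lit 39562, nat_lit 22066, nat_lit 26602, nat_lit 26386, nat_lit 26422, nat_lit 26446, nat_lit 26438] (nat_lit 0) [nat_lit 46122, nat_lit 6758] false,
   Spec.mk (nat_lit 26444) (nat_lit 0) [nat_lit 13322, nat_lit 39566, nat_lit 22070, nat_lit 26606, nat_lit 26390, nat_lit 26426, nat_lit 26462, nat_lit 26438, nat_lit 26446] (nat_lit 0) [nat_lit 46126] false,
   Spec.mk (nat_lit 26446) (nat_lit 1) [nat_lit 13324, nat_lit 39568, nat_lit 22072, nat_lit 26608, nat_lit 26392, nat_lit 26428, nat_lit 26464, nat_lit 26440, nat_lit 26452, nat_lit 26444, nat_lit 26448] (nat_lit 0) [nat_lit 46128, nat_lit 6764] false,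
   Spec.mk (nat_lit 26448) (nat_lit 0) [nat_lit 13326, nat_lit 39570, nat_lit 22074, nat_lit 26610, nat_lit 26394, nat_lit 26430, nat_lit 26466, nat_lit 26454, nat_lit 26446] (nat_lit 0) [nat_lit 6766] false]

noncomputable def sp66 : List Spec :=
  [Spec.mk (nat_lit 26452) (nat_lit 0) [nat_lit 13330, nat_lit 39574, nat_lit 22078, nat_lit 26614, nat_lit 26398, nat_lit 26470, nat_lit 26446, nat_lit 26454] (nat_lit 0) [nat_lit 46134, nat_lit 6770] false,
   Spec.mk (nat_lit 26454) (nat_lit 1) [nat_lit 13332, nat_lit 39576, nat_lit 22080, nat_lit 26616, nat_lit 26400, nat_lit 26472, nat_lit 26448, nat_lit 26452] (nat_lit 0) [nat_lit 6772] false,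
   Spec.mk (nat_lit 26462) (nat_lit 1) [nat_lit 13340, nat_lit 39584, nat_lit 22088, nat_lit 26624, nat_lit 26444, nat_lit 26464] (nat_lit 0) [nat_lit 46144] false,
   Spec.mk (nat_lit 26464) (nat_lit 1) [nat_lit 13342, nat_lit 39586, nat_lit 22090, nat_lit 26626, nat_lit 26446, nat_lit 26470, nat_lit 26462, nat_lit 26466] (nat_lit 0) [nat_lit 46146, nat_lit 6782] false,
   Spec.mk (nat_lit 26466) (nat_lit 0) [nat_lit 13344, nat_lit 39588, nat_lit 22092, nat_lit 26628, nat_lit 26448, nat_lit 26472, nat_lit 26464] (nat_lit 1) [nat_lit 6784] false,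
   Spec.mk (nat_lit 26470) (nat_lit 2) [nat_lit 13348, nat_lit 39592, nat_lit 22096, nat_lit 26632, nat_lit 26452, nat_lit 26464, nat_lit 26472] (nat_lit 0) [nat_lit 46152, nat_lit 6788] false,
   Spec.mk (nat_lit 26472) (nat_lit 2) [nat_lit 13350, nat_lit 39594, nat_lit 22098, nat_lit 26634, nat_lit 26454, nat_lit 26466, nat_lit 26478, nat_lit 26470] (nat_lit 0) [nat_lit 6790] false,
   Spec.mk (nat_lit 26478) (nat_lit 3) [nat_lit 13356, nat_lit 39600, nat_lit 22104, nat_lit 26640, nat_lit 26472] (nat_lit 0) [nat_lit 6796] false,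
   Spec.mk (nat_lit 26504) (nat_lit 3) [nat_lit 13382, nat_lit 39626, nat_lit 22130, nat_lit 26990, nat_lit 26342, nat_lit 26522, nat_lit 26510] (nat_lit 0) [nat_lit 46186] false,
   Spec.mk (nat_lit 26510) (nat_lit 1) [nat_lit 13388, nat_lit 39632, nat_lit 22136, nat_lit 26996, nat_lit 26348, nat_lit 26528, nat_lit 26504, nat_lit 26512] (nat_lit 0) [nat_lit 46192] false,
   Spec.mk (nat_lit 26512) (nat_lit 2) [nat_lit 13390, nat_lit 39634, nat_lit 22138, nat_lit 26998, nat_lit 26350, nat_lit 26530, nat_lit 26510] (nat_lit 0) [nat_lit 46194, nat_lit 6830] false,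
   Spec.mk (nat_lit 26522) (nat_lit 1) [nat_lit 13400, nat_lit 39644, nat_lit 22148, nat_lit 27008, nat_lit 26360, nat_lit 26576, nat_lit 26504, nat_lit 26528] (nat_lit 0) [nat_lit 46204] false,
   Spec.mk (nat_lit 26528) (nat_lit 1) [nat_lit 13406, nat_lit 39650, nat_lit 22154, nat_lit 27014, nat_lit 26366, nat_lit 26582, nat_lit 26510, nat_lit 26546, nat_lit 26522, nat_lit 26534, nat_lit 26530] (nat_lit 0) [nat_lit 46210] false,
   Spec.mk (nat_lit 26530) (nat_lit 1) [nat_lit 13408, nat_lit 39652, nat_lit 22156, nat_lit 27016, nat_lit 26368, nat_lit 26584, nat_lit 26512, nat_lit 26548, nat_lit 26536, nat_lit 26528] (nat_lit 0) [nat_lit 46212, nat_lit 6848] false,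
   Spec.mk (nat_lit 26534) (nat_lit 0) [nat_lit 13412, nat_lit 39656, nat_lit 22160, nat_lit 27020, nat_lit 26372, nat_lit 26588, nat_lit 26552, nat_lit 26528, nat_lit 26536] (nat_lit 1) [nat_lit 46216] false,
   Spec.mk (nat_lit 26536) (nat_lit 1) [nat_lit 13414, nat_lit 39658, nat_lit 22162, nat_lit 27022, nat_lit 26374, nat_lit 26590, nat_lit 26554, nat_lit 26530, nat_lit 26534, nat_lit 26538] (nat_lit 0) [nat_lit 46218, nat_lit 6854] false,
   Spec.mk (nat_lit 26538) (nat_lit 1) [nat_lit 13416, nat_lit 39660, nat_lit 22164, nat_lit 27024, nat_lit 26376, nat_lit 26592, nat_lit 26556, nat_lit 26536] (nat_lit 0) [nat_lit 6856] false,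
   Spec.mk (nat_lit 26546) (nat_lit 0) [nat_lit 13424, nat_lit 39668, nat_lit 22172, nat_lit 27032, nat_lit 26384, nat_lit 26600, nat_lit 26528, nat_lit 26552, nat_lit 26548] (nat_lit 1) [nat_lit 46228] false,
   Spec.mk (nat_lit 26548) (nat_lit 0) [nat_lit 13426, nat_lit 39670, nat_lit 22174, nat_lit 27034, nat_lit 26386, nat_lit 26602, nat_lit 26530, nat_lit 26554, nat_lit 26546] (nat_lit 2) [nat_lit 46230, nat_lit 6866] false,
   Spec.mk (nat_lit 26552) (nat_lit 0) [nat_lit 13430, nat_lit 39674, nat_lit 22178, nat_lit 27038, nat_lit 26390, nat_lit 26606, nat_lit 26534, nat_lit 26546, nat_lit 26554] (nat_lit 1) [nat_lit 46234] false,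
   Spec.mk (nat_lit 26554) (nat_lit 0) [nat_lit 13432, nat_lit 39676, nat_lit 22180, nat_lit 27040, nat_lit 26392, nat_lit 26608, nat_lit 26536, nat_lit 26548, nat_lit 26560, nat_lit 26552, nat_lit 26556] (nat_lit 0) [nat_lit 46236, nat_lit 6872] false,
   Spec.mk (nat_lit 26556) (nat_lit 0) [nat_lit 13434, nat_lit 39678, nat_lit 22182, nat_lit 27042, nat_lit 26394, nat_lit 26610, nat_lit 26538, nat_lit 26562, nat_lit 26554] (nat_lit 1) [nat_lit 6874] false,
   Spec.mk (nat_lit 26560) (nat_lit 0) [nat_lit 13438, nat_lit 39682, nat_lit 22186, nat_lit 27046, nat_lit 26398, nat_lit 26614, nat_lit 26554, nat_lit 26562] (nat_lit 0) [nat_lit 46242, nat_lit 6878] false,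
   Spec.mk (nat_lit 26562) (nat_lit 1) [nat_lit 13440, nat_lit 39684, nat_lit 22188, nat_lit 27048, nat_lit 26400, nat_lit 26616, nat_lit 26556, nat_lit 26560] (nat_lit 0) [nat_lit 6880] false,
   Spec.mk (nat_lit 26576) (nat_lit 2) [nat_lit 13454, nat_lit 39698, nat_lit 22202, nat_lit 27062, nat_lit 26414, nat_lit 26738, nat_lit 26522, nat_lit 26582] (nat_lit 0) [nat_lit 46258] false,
   Spec.mk (nat_lit 26582) (nat_lit 1) [nat_lit 13460, nat_lit 39704, nat_lit 22208, nat_lit 27068, nat_lit 26420, nat_lit 26744, nat_lit 26528, nat_lit 26600, nat_lit 26576, nat_lit 26588, nat_lit 26584] (nat_lit 0) [nat_lit 46264] false,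
   Spec.mk (nat_lit 26584) (nat_lit 1) [nat_lit 13462, nat_lit 39706, nat_lit 22210, nat_lit 27070, nat_lit 26422, nat_lit 26746, nat_lit 26530, nat_lit 26602, nat_lit 26590, nat_lit 26582] (nat_lit 0) [nat_lit 46266, nat_lit 6902] false,
   Spec.mk (nat_lit 26588) (nat_lit 0) [nat_lit 13466, nat_lit 39710, nat_lit 22214, nat_lit 27074, nat_lit 26426, nat_lit 26750, nat_lit 26534, nat_lit 26606, nat_lit 26582, nat_lit 26590] (nat_lit 2) [nat_lit 46270] false,
   Spec.mk (nat_lit 26590) (nat_lit 0) [nat_lit 13468, nat_lit 39712, nat_lit 22216, nat_lit 27076, nat_lit 26428, nat_lit 26752, nat_lit 26536, nat_lit 26608, nat_lit 26584, nat_lit 26588, nat_lit 26592] (nat_lit 0) [nat_lit 46272, nat_lit 6908] false,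
   Spec.mk (nat_lit 26592) (nat_lit 0) [nat_lit 13470, nat_lit 39714, nat_lit 22218, nat_lit 27078, nat_lit 26430, nat_lit 26754, nat_lit 26538, nat_lit 26610, nat_lit 26590] (nat_lit 0) [nat_lit 6910] false,
   Spec.mk (nat_lit 26600) (nat_lit 1) [nat_lit 13478, nat_lit 39722, nat_lit 22226, nat_lit 27086, nat_lit 26438, nat_lit 26762, nat_lit 26546, nat_lit 26654, nat_lit 26582, nat_lit 26606, nat_lit 26602] (nat_lit 0) [nat_lit 46282] false,
   Spec.mk (nat_lit 26602) (nat_lit 0) [nat_lit 13480, nat_lit 39724, nat_lit 22228, nat_lit 27088, nat_lit 26440, nat_lit 26764, nat_lit 26548, nat_lit 26656, nat_lit 26584, nat_lit 26608, nat_lit 26600] (nat_lit 0) [nat_lit 46284, nat_lit 6920] false,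
   Spec.mk (nat_lit 26606) (nat_lit 0) [nat_lit 13484, nat_lit 39728, nat_lit 22232, nat_lit 27092, nat_lit 26444, nat_lit 26768, nat_lit 26552, nat_lit 26660, nat_lit 26588, nat_lit 26624, nat_lit 26600, nat_lit 26608] (nat_lit 0) [nat_lit 46288] false,
   Spec.mk (nat_lit 26608) (nat_lit 1) [nat_lit 13486, nat_lit 39730, nat_lit 22234, nat_lit 27094, nat_lit 26446, nat_lit 26770, nat_lit 26554, nat_lit 26662, nat_lit 26590, nat_lit 26626, nat_lit 26602, nat_lit 26614, nat_lit 26606, nat_lit 26610] (nat_lit 0) [nat_lit 46290, nat_lit 6926] false,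
   Spec.mk (nat_lit 26610) (nat_lit 0) [nat_lit 13488, nat_lit 39732, nat_lit 22236, nat_lit 27096, nat_lit 26448, nat_lit 26772, nat_lit 26556, nat_lit 26664, nat_lit 26592, nat_lit 26628, nat_lit 26616, nat_lit 26608] (nat_lit 0) [nat_lit 6928] false,
   Spec.mk (nat_lit 26614) (nat_lit 0) [nat_lit 13492, nat_lit 39736, nat_lit 22240, nat_lit 27100, nat_lit 26452, nat_lit 26776, nat_lit 26560, nat_lit 26668, nat_lit 26632, nat_lit 26608, nat_lit 26616] (nat_lit 0) [nat_lit 46296, nat_lit 6932] false,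
   Spec.mk (nat_lit 26616) (nat_lit 1) [nat_lit 13494, nat_lit 39738, nat_lit 22242, nat_lit 27102, nat_lit 26454, nat_lit 26778, nat_lit 26562, nat_lit 26670, nat_lit 26634, nat_lit 26610, nat_lit 26614] (nat_lit 0) [nat_lit 6934] false,
   Spec.mk (nat_lit 26624) (nat_lit 0) [nat_lit 13502, nat_lit 39746, nat_lit 22250, nat_lit 27110, nat_lit 26462, nat_lit 26786, nat_lit 26678, nat_lit 26606, nat_lit 26626] (nat_lit 0) [nat_lit 46306] false,
   Spec.mk (nat_lit 26626) (nat_lit 0) [nat_lit 13504, nat_lit 39748, nat_lit 22252, nat_lit 27112, nat_lit 26464, nat_lit 26788, nat_lit 26680, nat_lit 26608, nat_lit 26632, nat_lit 26624, nat_lit 26628] (nat_lit 0) [nat_lit 46308, nat_lit 6944] false,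
   Spec.mk (nat_lit 26628) (nat_lit 0) [nat_lit 13506, nat_lit 39750, nat_lit 22254, nat_lit 27114, nat_lit 26466, nat_lit 26790, nat_lit 26682, nat_lit 26610, nat_lit 26634, nat_lit 26626] (nat_lit 2) [nat_lit 6946] false,
   Spec.mk (nat_lit 26632) (nat_lit 1) [nat_lit 13510, nat_lit 39754, nat_lit 22258, nat_lit 27118, nat_lit 26470, nat_lit 26794, nat_lit 26686, nat_lit 26614, nat_lit 26626, nat_lit 26634] (nat_lit 0) [nat_lit 46314, nat_lit 6950] false,
   Spec.mk (nat_lit 26634) (nat_lit 1) [nat_lit 13512, nat_lit 39756, nat_lit 22260, nat_lit 27120, nat_lit 26472, nat_lit 26796, nat_lit 26688, nat_lit 26616, nat_lit 26628, nat_lit 26640, nat_lit 26632] (nat_lit 0) [nat_lit 6952] false,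
   Spec.mk (nat_lit 26640) (nat_lit 2) [nat_lit 13518, nat_lit 39762, nat_lit 22266, nat_lit 27126, nat_lit 26478, nat_lit 26802, nat_lit 26694, nat_lit 26634] (nat_lit 0) [nat_lit 6958] false,
   Spec.mk (nat_lit 26654) (nat_lit 1) [nat_lit 13532, nat_lit 39776, nat_lit 22280, nat_lit 27140, nat_lit 26816, nat_lit 26600, nat_lit 26660, nat_lit 26656] (nat_lit 0) [nat_lit 46336] false,
   Spec.mk (nat_lit 26656) (nat_lit 0) [nat_lit 13534, nat_lit 39778, nat_lit 22282, nat_lit 27142, nat_lit 26818, nat_lit 26602, nat_lit 26662, nat_lit 26654] (nat_lit 0) [nat_lit 46338, nat_lit 6974] false,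
   Spec.mk (nat_lit 26660) (nat_lit 0) [nat_lit 13538, nat_lit 39782, nat_lit 22286, nat_lit 27146, nat_lit 26822, nat_lit 26606, nat_lit 26678, nat_lit 26654, nat_lit 26662] (nat_lit 1) [nat_lit 46342] false,
   Spec.mk (nat_lit 26662) (nat_lit 0) [nat_lit 13540, nat_lit 39784, nat_lit 22288, nat_lit 27148, nat_lit 26824, nat_lit 26608, nat_lit 26680, nat_lit 26656, nat_lit 26668, nat_lit 26660, nat_lit 26664] (nat_lit 0) [nat_lit 46344, nat_lit 6980] false,
   Spec.mk (nat_lit 26664) (nat_lit 0) [nat_lit 13542, nat_lit 39786, nat_lit 22290, nat_lit 27150, nat_lit 26826, nat_lit 26610, nat_lit 26682, nat_lit 26670, nat_lit 26662] (nat_lit 1) [nat_lit 6982] false,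
   Spec.mk (nat_lit 26668) (nat_lit 0) [nat_lit 13546, nat_lit 39790, nat_lit 22294, nat_lit 27154, nat_lit 26830, nat_lit 26614, nat_lit 26686, nat_lit 26662, nat_lit 26670] (nat_lit 2) [nat_lit 46350, nat_lit 6986] false,
   Spec.mk (nat_lit 26670) (nat_lit 0) [nat_lit 13548, nat_lit 39792, nat_lit 22296, nat_lit 27156, nat_lit 26832, nat_lit 26616, nat_lit 26688, nat_lit 26664, nat_lit 26668] (nat_lit 1) [nat_lit 6988] false,
   Spec.mk (nat_lit 26678) (nat_lit 1) [nat_lit 13556, nat_lit 39800, nat_lit 22304, nat_lit 27164, nat_lit 26840, nat_lit 26624, nat_lit 26660, nat_lit 26680] (nat_lit 0) [nat_lit 46360] false,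
   Spec.mk (nat_lit 26680) (nat_lit 1) [nat_lit 13558, nat_lit 39802, nat_lit 22306, nat_lit 27166, nat_lit 26842, nat_lit 26626, nat_lit 26662, nat_lit 26686, nat_lit 26678, nat_lit 26682] (nat_lit 0) [nat_lit 46362, nat_lit 6998] false,
   Spec.mk (nat_lit 26682) (nat_lit 0) [nat_lit 13560, nat_lit 39804, nat_lit 22308, nat_lit 27168, nat_lit 26844, nat_lit 26628, nat_lit 26664, nat_lit 26688, nat_lit 26680] (nat_lit 1) [nat_lit 7000] false,
   Spec.mk (nat_lit 26686) (nat_lit 1) [nat_lit 13564, nat_lit 39808, nat_lit 22312, nat_lit 27172, nat_lit 26848, nat_lit 26632, nat_lit 26668, nat_lit 26704, nat_lit 26680, nat_lit 26688] (nat_lit 0) [nat_lit 46368, nat_lit 7004] false,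
   Spec.mk (nat_lit 26688) (nat_lit 1) [nat_lit 13566, nat_lit 39810, nat_lit 22314, nat_lit 27174, nat_lit 26850, nat_lit 26634, nat_lit 26670, nat_lit 26706, nat_lit 26682, nat_lit 26694, nat_lit 26686] (nat_lit 0) [nat_lit 7006] false,
   Spec.mk (nat_lit 26694) (nat_lit 1) [nat_lit 13572, nat_lit 39816, nat_lit 22320, nat_lit 27180, nat_lit 26856, nat_lit 26640, nat_lit 26712, nat_lit 26688] (nat_lit 0) [nat_lit 7012] false,
   Spec.mk (nat_lit 26704) (nat_lit 2) [nat_lit 13582, nat_lit 39826, nat_lit 22330, nat_lit 27190, nat_lit 26866, nat_lit 26686, nat_lit 26706] (nat_lit 0) [nat_lit 46386, nat_lit 7022] false,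
   Spec.mk (nat_lit 26706) (nat_lit 1) [nat_lit 13584, nat_lit 39828, nat_lit 22332, nat_lit 27192, nat_lit 26868, nat_lit 26688, nat_lit 26712, nat_lit 26704] (nat_lit 0) [nat_lit 7024] false,
   Spec.mk (nat_lit 26712) (nat_lit 3) [nat_lit 13590, nat_lit 39834, nat_lit 22338, nat_lit 27198, nat_lit 26874, nat_lit 26694, nat_lit 26706] (nat_lit 0) [nat_lit 7030] false,
   Spec.mk (nat_lit 26738) (nat_lit 1) [nat_lit 13616, nat_lit 39860, nat_lit 22364, nat_lit 27224, nat_lit 26576, nat_lit 26744] (nat_lit 0) [nat_lit 46420] false]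

noncomputable def sp67 : List Spec :=
  [Spec.mk (nat_lit 26744) (nat_lit 0) [nat_lit 13622, nat_lit 39866, nat_lit 22370, nat_lit 27230, nat_lit 26582, nat_lit 26762, nat_lit 26738, nat_lit 26750, nat_lit 26746] (nat_lit 0) [nat_lit 46426] false,
   Spec.mk (nat_lit 26746) (nat_lit 0) [nat_lit 13624, nat_lit 39868, nat_lit 22372, nat_lit 27232, nat_lit 26584, nat_lit 26764, nat_lit 26752, nat_lit 26744] (nat_lit 0) [nat_lit 46428, nat_lit 7064] false,
   Spec.mk (nat_lit 26750) (nat_lit 0) [nat_lit 13628, nat_lit 39872, nat_lit 22376, nat_lit 27236, nat_lit 26588, nat_lit 26768, nat_lit 26744, nat_lit 26752] (nat_lit 3) [nat_lit 46432] false,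
   Spec.mk (nat_lit 26752) (nat_lit 0) [nat_lit 13630, nat_lit 39874, nat_lit 22378, nat_lit 27238, nat_lit 26590, nat_lit 26770, nat_lit 26746, nat_lit 26750, nat_lit 26754] (nat_lit 1) [nat_lit 46434, nat_lit 7070] false,
   Spec.mk (nat_lit 26754) (nat_lit 0) [nat_lit 13632, nat_lit 39876, nat_lit 22380, nat_lit 27240, nat_lit 26592, nat_lit 26772, nat_lit 26752] (nat_lit 1) [nat_lit 7072] false,
   Spec.mk (nat_lit 26762) (nat_lit 0) [nat_lit 13640, nat_lit 39884, nat_lit 22388, nat_lit 27248, nat_lit 26600, nat_lit 26816, nat_lit 26744, nat_lit 26768, nat_lit 26764] (nat_lit 1) [nat_lit 46444] false,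
   Spec.mk (nat_lit 26764) (nat_lit 0) [nat_lit 13642, nat_lit 39886, nat_lit 22390, nat_lit 27250, nat_lit 26602, nat_lit 26818, nat_lit 26746, nat_lit 26770, nat_lit 26762] (nat_lit 2) [nat_lit 46446, nat_lit 7082] false,
   Spec.mk (nat_lit 26768) (nat_lit 0) [nat_lit 13646, nat_lit 39890, nat_lit 22394, nat_lit 27254, nat_lit 26606, nat_lit 26822, nat_lit 26750, nat_lit 26786, nat_lit 26762, nat_lit 26770] (nat_lit 2) [nat_lit 46450] false,
   Spec.mk (nat_lit 26770) (nat_lit 0) [nat_lit 13648, nat_lit 39892, nat_lit 22396, nat_lit 27256, nat_lit 26608, nat_lit 26824, nat_lit 26752, nat_lit 26788, nat_lit 26764, nat_lit 26776, nat_lit 26768, nat_lit 26772] (nat_lit 1) [nat_lit 46452, nat_lit 7088] false,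
   Spec.mk (nat_lit 26772) (nat_lit 0) [nat_lit 13650, nat_lit 39894, nat_lit 22398, nat_lit 27258, nat_lit 26610, nat_lit 26826, nat_lit 26754, nat_lit 26790, nat_lit 26778, nat_lit 26770] (nat_lit 2) [nat_lit 7090] false,
   Spec.mk (nat_lit 26776) (nat_lit 0) [nat_lit 13654, nat_lit 39898, nat_lit 22402, nat_lit 27262, nat_lit 26614, nat_lit 26830, nat_lit 26794, nat_lit 26770, nat_lit 26778] (nat_lit 2) [nat_lit 46458, nat_lit 7094] false,
   Spec.mk (nat_lit 26778) (nat_lit 0) [nat_lit 13656, nat_lit 39900, nat_lit 22404, nat_lit 27264, nat_lit 26616, nat_lit 26832, nat_lit 26796, nat_lit 26772, nat_lit 26776] (nat_lit 1) [nat_lit 7096] false,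
   Spec.mk (nat_lit 26786) (nat_lit 0) [nat_lit 13664, nat_lit 39908, nat_lit 22412, nat_lit 27272, nat_lit 26624, nat_lit 26840, nat_lit 26768, nat_lit 26788] (nat_lit 3) [nat_lit 46468] false,
   Spec.mk (nat_lit 26788) (nat_lit 0) [nat_lit 13666, nat_lit 39910, nat_lit 22414, nat_lit 27274, nat_lit 26626, nat_lit 26842, nat_lit 26770, nat_lit 26794, nat_lit 26786, nat_lit 26790] (nat_lit 3) [nat_lit 46470, nat_lit 7106] false,
   Spec.mk (nat_lit 26790) (nat_lit 0) [nat_lit 13668, nat_lit 39912, nat_lit 22416, nat_lit 27276, nat_lit 26628, nat_lit 26844, nat_lit 26772, nat_lit 26796, nat_lit 26788] (nat_lit 5) [nat_lit 7108] false,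
   Spec.mk (nat_lit 26794) (nat_lit 0) [nat_lit 13672, nat_lit 39916, nat_lit 22420, nat_lit 27280, nat_lit 26632, nat_lit 26848, nat_lit 26776, nat_lit 26788, nat_lit 26796] (nat_lit 2) [nat_lit 46476, nat_lit 7112] false,
   Spec.mk (nat_lit 26796) (nat_lit 0) [nat_lit 13674, nat_lit 39918, nat_lit 22422, nat_lit 27282, nat_lit 26634, nat_lit 26850, nat_lit 26778, nat_lit 26790, nat_lit 26802, nat_lit 26794] (nat_lit 2) [nat_lit 7114] false,
   Spec.mk (nat_lit 26802) (nat_lit 0) [nat_lit 13680, nat_lit 39924, nat_lit 22428, nat_lit 27288, nat_lit 26640, nat_lit 26856, nat_lit 26796] (nat_lit 1) [nat_lit 7120] false,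
   Spec.mk (nat_lit 26816) (nat_lit 1) [nat_lit 13694, nat_lit 39938, nat_lit 22442, nat_lit 27302, nat_lit 26654, nat_lit 26762, nat_lit 26822, nat_lit 26818] (nat_lit 0) [nat_lit 46498] false,
   Spec.mk (nat_lit 26818) (nat_lit 0) [nat_lit 13696, nat_lit 39940, nat_lit 22444, nat_lit 27304, nat_lit 26656, nat_lit 26764, nat_lit 26824, nat_lit 26816] (nat_lit 0) [nat_lit 46500, nat_lit 7136] false,
   Spec.mk (nat_lit 26822) (nat_lit 0) [nat_lit 13700, nat_lit 39944, nat_lit 22448, nat_lit 27308, nat_lit 26660, nat_lit 26768, nat_lit 26840, nat_lit 26816, nat_lit 26824] (nat_lit 1) [nat_lit 46504] false,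
   Spec.mk (nat_lit 26824) (nat_lit 0) [nat_lit 13702, nat_lit 39946, nat_lit 22450, nat_lit 27310, nat_lit 26662, nat_lit 26770, nat_lit 26842, nat_lit 26818, nat_lit 26830, nat_lit 26822, nat_lit 26826] (nat_lit 0) [nat_lit 46506, nat_lit 7142] false,
   Spec.mk (nat_lit 26826) (nat_lit 0) [nat_lit 13704, nat_lit 39948, nat_lit 22452, nat_lit 27312, nat_lit 26664, nat_lit 26772, nat_lit 26844, nat_lit 26832, nat_lit 26824] (nat_lit 1) [nat_lit 7144] false,
   Spec.mk (nat_lit 26830) (nat_lit 0) [nat_lit 13708, nat_lit 39952, nat_lit 22456, nat_lit 27316, nat_lit 26668, nat_lit 26776, nat_lit 26848, nat_lit 26824, nat_lit 26832] (nat_lit 2) [nat_lit 46512, nat_lit 7148] false,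
   Spec.mk (nat_lit 26832) (nat_lit 0) [nat_lit 13710, nat_lit 39954, nat_lit 22458, nat_lit 27318, nat_lit 26670, nat_lit 26778, nat_lit 26850, nat_lit 26826, nat_lit 26830] (nat_lit 1) [nat_lit 7150] false,
   Spec.mk (nat_lit 26840) (nat_lit 0) [nat_lit 13718, nat_lit 39962, nat_lit 22466, nat_lit 27326, nat_lit 26678, nat_lit 26786, nat_lit 26894, nat_lit 26822, nat_lit 26842] (nat_lit 0) [nat_lit 46522] false,
   Spec.mk (nat_lit 26842) (nat_lit 0) [nat_lit 13720, nat_lit 39964, nat_lit 22468, nat_lit 27328, nat_lit 26680, nat_lit 26788, nat_lit 26896, nat_lit 26824, nat_lit 26848, nat_lit 26840, nat_lit 26844] (nat_lit 0) [nat_lit 46524, nat_lit 7160] false,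
   Spec.mk (nat_lit 26844) (nat_lit 0) [nat_lit 13722, nat_lit 39966, nat_lit 22470, nat_lit 27330, nat_lit 26682, nat_lit 26790, nat_lit 26898, nat_lit 26826, nat_lit 26850, nat_lit 26842] (nat_lit 2) [nat_lit 7162] false,
   Spec.mk (nat_lit 26848) (nat_lit 0) [nat_lit 13726, nat_lit 39970, nat_lit 22474, nat_lit 27334, nat_lit 26686, nat_lit 26794, nat_lit 26902, nat_lit 26830, nat_lit 26866, nat_lit 26842, nat_lit 26850] (nat_lit 0) [nat_lit 46530, nat_lit 7166] false,
   Spec.mk (nat_lit 26850) (nat_lit 0) [nat_lit 13728, nat_lit 39972, nat_lit 22476, nat_lit 27336, nat_lit 26688, nat_lit 26796, nat_lit 26904, nat_lit 26832, nat_lit 26868, nat_lit 26844, nat_lit 26856, nat_lit 26848] (nat_lit 0) [nat_lit 7168] false,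
   Spec.mk (nat_lit 26856) (nat_lit 0) [nat_lit 13734, nat_lit 39978, nat_lit 22482, nat_lit 27342, nat_lit 26694, nat_lit 26802, nat_lit 26910, nat_lit 26874, nat_lit 26850] (nat_lit 0) [nat_lit 7174] false,
   Spec.mk (nat_lit 26866) (nat_lit 0) [nat_lit 13744, nat_lit 39988, nat_lit 22492, nat_lit 27352, nat_lit 26704, nat_lit 26920, nat_lit 26848, nat_lit 26868] (nat_lit 0) [nat_lit 46548, nat_lit 7184] false,
   Spec.mk (nat_lit 26868) (nat_lit 0) [nat_lit 13746, nat_lit 39990, nat_lit 22494, nat_lit 27354, nat_lit 26706, nat_lit 26922, nat_lit 26850, nat_lit 26874, nat_lit 26866] (nat_lit 1) [nat_lit 7186] false,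
   Spec.mk (nat_lit 26874) (nat_lit 1) [nat_lit 13752, nat_lit 39996, nat_lit 22500, nat_lit 27360, nat_lit 26712, nat_lit 26928, nat_lit 26856, nat_lit 26868] (nat_lit 0) [nat_lit 7192] false,
   Spec.mk (nat_lit 26894) (nat_lit 1) [nat_lit 13772, nat_lit 40016, nat_lit 22520, nat_lit 27380, nat_lit 26840, nat_lit 26896] (nat_lit 0) [nat_lit 46576] false,
   Spec.mk (nat_lit 26896) (nat_lit 1) [nat_lit 13774, nat_lit 40018, nat_lit 22522, nat_lit 27382, nat_lit 26842, nat_lit 26902, nat_lit 26894, nat_lit 26898] (nat_lit 0) [nat_lit 46578, nat_lit 7214] false,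
   Spec.mk (nat_lit 26898) (nat_lit 0) [nat_lit 13776, nat_lit 40020, nat_lit 22524, nat_lit 27384, nat_lit 26844, nat_lit 26904, nat_lit 26896] (nat_lit 1) [nat_lit 7216] false,
   Spec.mk (nat_lit 26902) (nat_lit 0) [nat_lit 13780, nat_lit 40024, nat_lit 22528, nat_lit 27388, nat_lit 26848, nat_lit 26920, nat_lit 26896, nat_lit 26904] (nat_lit 0) [nat_lit 46584, nat_lit 7220] false,
   Spec.mk (nat_lit 26904) (nat_lit 0) [nat_lit 13782, nat_lit 40026, nat_lit 22530, nat_lit 27390, nat_lit 26850, nat_lit 26922, nat_lit 26898, nat_lit 26910, nat_lit 26902] (nat_lit 0) [nat_lit 7222] false,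
   Spec.mk (nat_lit 26910) (nat_lit 0) [nat_lit 13788, nat_lit 40032, nat_lit 22536, nat_lit 27396, nat_lit 26856, nat_lit 26928, nat_lit 26904] (nat_lit 1) [nat_lit 7228] false,
   Spec.mk (nat_lit 26920) (nat_lit 2) [nat_lit 13798, nat_lit 40042, nat_lit 22546, nat_lit 27406, nat_lit 26866, nat_lit 26902, nat_lit 26922] (nat_lit 0) [nat_lit 46602, nat_lit 7238] false,
   Spec.mk (nat_lit 26922) (nat_lit 1) [nat_lit 13800, nat_lit 40044, nat_lit 22548, nat_lit 27408, nat_lit 26868, nat_lit 26904, nat_lit 26928, nat_lit 26920] (nat_lit 0) [nat_lit 7240] false,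
   Spec.mk (nat_lit 26928) (nat_lit 2) [nat_lit 13806, nat_lit 40050, nat_lit 22554, nat_lit 27414, nat_lit 26874, nat_lit 26910, nat_lit 26946, nat_lit 26922] (nat_lit 0) [nat_lit 7246] false,
   Spec.mk (nat_lit 26946) (nat_lit 3) [nat_lit 13824, nat_lit 40068, nat_lit 22572, nat_lit 27432, nat_lit 26928] (nat_lit 0) [nat_lit 7264] false,
   Spec.mk (nat_lit 26990) (nat_lit 3) [nat_lit 13868, nat_lit 40112, nat_lit 22616, nat_lit 28448, nat_lit 26504, nat_lit 27008, nat_lit 26996] (nat_lit 0) [nat_lit 46672] false,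
   Spec.mk (nat_lit 26996) (nat_lit 1) [nat_lit 13874, nat_lit 40118, nat_lit 22622, nat_lit 28454, nat_lit 26510, nat_lit 27014, nat_lit 26990, nat_lit 26998] (nat_lit 0) [nat_lit 46678] false,
   Spec.mk (nat_lit 26998) (nat_lit 2) [nat_lit 13876, nat_lit 40120, nat_lit 22624, nat_lit 28456, nat_lit 26512, nat_lit 27016, nat_lit 26996] (nat_lit 0) [nat_lit 46680, nat_lit 7316] false,
   Spec.mk (nat_lit 27008) (nat_lit 1) [nat_lit 13886, nat_lit 40130, nat_lit 22634, nat_lit 28466, nat_lit 26522, nat_lit 27062, nat_lit 26990, nat_lit 27014] (nat_lit 0) [nat_lit 46690] false,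
   Spec.mk (nat_lit 27014) (nat_lit 1) [nat_lit 13892, nat_lit 40136, nat_lit 22640, nat_lit 28472, nat_lit 26528, nat_lit 27068, nat_lit 26996, nat_lit 27032, nat_lit 27008, nat_lit 27020, nat_lit 27016] (nat_lit 0) [nat_lit 46696] false,
   Spec.mk (nat_lit 27016) (nat_lit 1) [nat_lit 13894, nat_lit 40138, nat_lit 22642, nat_lit 28474, nat_lit 26530, nat_lit 27070, nat_lit 26998, nat_lit 27034, nat_lit 27022, nat_lit 27014] (nat_lit 0) [nat_lit 46698, nat_lit 7334] false,
   Spec.mk (nat_lit 27020) (nat_lit 0) [nat_lit 13898, nat_lit 40142, nat_lit 22646, nat_lit 28478, nat_lit 26534, nat_lit 27074, nat_lit 27038, nat_lit 27014, nat_lit 27022] (nat_lit 1) [nat_lit 46702] false,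
   Spec.mk (nat_lit 27022) (nat_lit 1) [nat_lit 13900, nat_lit 40144, nat_lit 22648, nat_lit 28480, nat_lit 26536, nat_lit 27076, nat_lit 27040, nat_lit 27016, nat_lit 27020, nat_lit 27024] (nat_lit 0) [nat_lit 46704, nat_lit 7340] false,
   Spec.mk (nat_lit 27024) (nat_lit 1) [nat_lit 13902, nat_lit 40146, nat_lit 22650, nat_lit 28482, nat_lit 26538, nat_lit 27078, nat_lit 27042, nat_lit 27022] (nat_lit 0) [nat_lit 7342] false,
   Spec.mk (nat_lit 27032) (nat_lit 0) [nat_lit 13910, nat_lit 40154, nat_lit 22658, nat_lit 28490, nat_lit 26546, nat_lit 27086, nat_lit 27014, nat_lit 27038, nat_lit 27034] (nat_lit 1) [nat_lit 46714] false,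
   Spec.mk (nat_lit 27034) (nat_lit 0) [nat_lit 13912, nat_lit 40156, nat_lit 22660, nat_lit 28492, nat_lit 26548, nat_lit 27088, nat_lit 27016, nat_lit 27040, nat_lit 27032] (nat_lit 2) [nat_lit 46716, nat_lit 7352] false,
   Spec.mk (nat_lit 27038) (nat_lit 0) [nat_lit 13916, nat_lit 40160, nat_lit 22664, nat_lit 28496, nat_lit 26552, nat_lit 27092, nat_lit 27020, nat_lit 27032, nat_lit 27040] (nat_lit 1) [nat_lit 46720] false,
   Spec.mk (nat_lit 27040) (nat_lit 0) [nat_lit 13918, nat_lit 40162, nat_lit 22666, nat_lit 28498, nat_lit 26554, nat_lit 27094, nat_lit 27022, nat_lit 27034, nat_lit 27046, nat_lit 27038, nat_lit 27042] (nat_lit 0) [nat_lit 46722, nat_lit 7358] false,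
   Spec.mk (nat_lit 27042) (nat_lit 0) [nat_lit 13920, nat_lit 40164, nat_lit 22668, nat_lit 28500, nat_lit 26556, nat_lit 27096, nat_lit 27024, nat_lit 27048, nat_lit 27040] (nat_lit 1) [nat_lit 7360] false,
   Spec.mk (nat_lit 27046) (nat_lit 0) [nat_lit 13924, nat_lit 40168, nat_lit 22672, nat_lit 28504, nat_lit 26560, nat_lit 27100, nat_lit 27040, nat_lit 27048] (nat_lit 0) [nat_lit 46728, nat_lit 7364] false,
   Spec.mk (nat_lit 27048) (nat_lit 1) [nat_lit 13926, nat_lit 40170, nat_lit 22674, nat_lit 28506, nat_lit 26562, nat_lit 27102, nat_lit 27042, nat_lit 27046] (nat_lit 0) [nat_lit 7366] false]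

noncomputable def sp68 : List Spec :=
  [Spec.mk (nat_lit 27062) (nat_lit 1) [nat_lit 13940, nat_lit 40184, nat_lit 22688, nat_lit 28520, nat_lit 26576, nat_lit 27224, nat_lit 27008, nat_lit 27068] (nat_lit 0) [nat_lit 46744] false,
   Spec.mk (nat_lit 27068) (nat_lit 0) [nat_lit 13946, nat_lit 40190, nat_lit 22694, nat_lit 28526, nat_lit 26582, nat_lit 27230, nat_lit 27014, nat_lit 27086, nat_lit 27062, nat_lit 27074, nat_lit 27070] (nat_lit 0) [nat_lit 46750] false,
   Spec.mk (nat_lit 27070) (nat_lit 0) [nat_lit 13948, nat_lit 40192, nat_lit 22696, nat_lit 28528, nat_lit 26584, nat_lit 27232, nat_lit 27016, nat_lit 27088, nat_lit 27076, nat_lit 27068] (nat_lit 0) [nat_lit 46752, nat_lit 7388] false,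
   Spec.mk (nat_lit 27074) (nat_lit 0) [nat_lit 13952, nat_lit 40196, nat_lit 22700, nat_lit 28532, nat_lit 26588, nat_lit 27236, nat_lit 27020, nat_lit 27092, nat_lit 27068, nat_lit 27076] (nat_lit 3) [nat_lit 46756] false,
   Spec.mk (nat_lit 27076) (nat_lit 0) [nat_lit 13954, nat_lit 40198, nat_lit 22702, nat_lit 28534, nat_lit 26590, nat_lit 27238, nat_lit 27022, nat_lit 27094, nat_lit 27070, nat_lit 27074, nat_lit 27078] (nat_lit 1) [nat_lit 46758, nat_lit 7394] false,
   Spec.mk (nat_lit 27078) (nat_lit 0) [nat_lit 13956, nat_lit 40200, nat_lit 22704, nat_lit 28536, nat_lit 26592, nat_lit 27240, nat_lit 27024, nat_lit 27096, nat_lit 27076] (nat_lit 1) [nat_lit 7396] false,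
   Spec.mk (nat_lit 27086) (nat_lit 0) [nat_lit 13964, nat_lit 40208, nat_lit 22712, nat_lit 28544, nat_lit 26600, nat_lit 27248, nat_lit 27032, nat_lit 27140, nat_lit 27068, nat_lit 27092, nat_lit 27088] (nat_lit 0) [nat_lit 46768] false,
   Spec.mk (nat_lit 27088) (nat_lit 0) [nat_lit 13966, nat_lit 40210, nat_lit 22714, nat_lit 28546, nat_lit 26602, nat_lit 27250, nat_lit 27034, nat_lit 27142, nat_lit 27070, nat_lit 27094, nat_lit 27086] (nat_lit 1) [nat_lit 46770, nat_lit 7406] false,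
   Spec.mk (nat_lit 27092) (nat_lit 0) [nat_lit 13970, nat_lit 40214, nat_lit 22718, nat_lit 28550, nat_lit 26606, nat_lit 27254, nat_lit 27038, nat_lit 27146, nat_lit 27074, nat_lit 27110, nat_lit 27086, nat_lit 27094] (nat_lit 1) [nat_lit 46774] false,
   Spec.mk (nat_lit 27094) (nat_lit 0) [nat_lit 13972, nat_lit 40216, nat_lit 22720, nat_lit 28552, nat_lit 26608, nat_lit 27256, nat_lit 27040, nat_lit 27148, nat_lit 27076, nat_lit 27112, nat_lit 27088, nat_lit 27100, nat_lit 27092, nat_lit 27096] (nat_lit 0) [nat_lit 46776, nat_lit 7412] false,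
   Spec.mk (nat_lit 27096) (nat_lit 0) [nat_lit 13974, nat_lit 40218, nat_lit 22722, nat_lit 28554, nat_lit 26610, nat_lit 27258, nat_lit 27042, nat_lit 27150, nat_lit 27078, nat_lit 27114, nat_lit 27102, nat_lit 27094] (nat_lit 1) [nat_lit 7414] false,
   Spec.mk (nat_lit 27100) (nat_lit 0) [nat_lit 13978, nat_lit 40222, nat_lit 22726, nat_lit 28558, nat_lit 26614, nat_lit 27262, nat_lit 27046, nat_lit 27154, nat_lit 27118, nat_lit 27094, nat_lit 27102] (nat_lit 1) [nat_lit 46782, nat_lit 7418] false,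
   Spec.mk (nat_lit 27102) (nat_lit 0) [nat_lit 13980, nat_lit 40224, nat_lit 22728, nat_lit 28560, nat_lit 26616, nat_lit 27264, nat_lit 27048, nat_lit 27156, nat_lit 27120, nat_lit 27096, nat_lit 27100] (nat_lit 0) [nat_lit 7420] false,
   Spec.mk (nat_lit 27110) (nat_lit 0) [nat_lit 13988, nat_lit 40232, nat_lit 22736, nat_lit 28568, nat_lit 26624, nat_lit 27272, nat_lit 27164, nat_lit 27092, nat_lit 27112] (nat_lit 1) [nat_lit 46792] false,
   Spec.mk (nat_lit 27112) (nat_lit 0) [nat_lit 13990, nat_lit 40234, nat_lit 22738, nat_lit 28570, nat_lit 26626, nat_lit 27274, nat_lit 27166, nat_lit 27094, nat_lit 27118, nat_lit 27110, nat_lit 27114] (nat_lit 1) [nat_lit 46794, nat_lit 7430] false,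
   Spec.mk (nat_lit 27114) (nat_lit 0) [nat_lit 13992, nat_lit 40236, nat_lit 22740, nat_lit 28572, nat_lit 26628, nat_lit 27276, nat_lit 27168, nat_lit 27096, nat_lit 27120, nat_lit 27112] (nat_lit 3) [nat_lit 7432] false,
   Spec.mk (nat_lit 27118) (nat_lit 0) [nat_lit 13996, nat_lit 40240, nat_lit 22744, nat_lit 28576, nat_lit 26632, nat_lit 27280, nat_lit 27172, nat_lit 27100, nat_lit 27112, nat_lit 27120] (nat_lit 0) [nat_lit 46800, nat_lit 7436] false,
   Spec.mk (nat_lit 27120) (nat_lit 0) [nat_lit 13998, nat_lit 40242, nat_lit 22746, nat_lit 28578, nat_lit 26634, nat_lit 27282, nat_lit 27174, nat_lit 27102, nat_lit 27114, nat_lit 27126, nat_lit 27118] (nat_lit 0) [nat_lit 7438] false,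
   Spec.mk (nat_lit 27126) (nat_lit 1) [nat_lit 14004, nat_lit 40248, nat_lit 22752, nat_lit 28584, nat_lit 26640, nat_lit 27288, nat_lit 27180, nat_lit 27120] (nat_lit 0) [nat_lit 7444] false,
   Spec.mk (nat_lit 27140) (nat_lit 0) [nat_lit 14018, nat_lit 40262, nat_lit 22766, nat_lit 28598, nat_lit 26654, nat_lit 27302, nat_lit 27086, nat_lit 27146, nat_lit 27142] (nat_lit 1) [nat_lit 46822] false,
   Spec.mk (nat_lit 27142) (nat_lit 0) [nat_lit 14020, nat_lit 40264, nat_lit 22768, nat_lit 28600, nat_lit 26656, nat_lit 27304, nat_lit 27088, nat_lit 27148, nat_lit 27140] (nat_lit 2) [nat_lit 46824, nat_lit 7460] false,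
   Spec.mk (nat_lit 27146) (nat_lit 0) [nat_lit 14024, nat_lit 40268, nat_lit 22772, nat_lit 28604, nat_lit 26660, nat_lit 27308, nat_lit 27092, nat_lit 27164, nat_lit 27140, nat_lit 27148] (nat_lit 3) [nat_lit 46828] false,
   Spec.mk (nat_lit 27148) (nat_lit 0) [nat_lit 14026, nat_lit 40270, nat_lit 22774, nat_lit 28606, nat_lit 26662, nat_lit 27310, nat_lit 27094, nat_lit 27166, nat_lit 27142, nat_lit 27154, nat_lit 27146, nat_lit 27150] (nat_lit 2) [nat_lit 46830, nat_lit 7466] false,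
   Spec.mk (nat_lit 27150) (nat_lit 0) [nat_lit 14028, nat_lit 40272, nat_lit 22776, nat_lit 28608, nat_lit 26664, nat_lit 27312, nat_lit 27096, nat_lit 27168, nat_lit 27156, nat_lit 27148] (nat_lit 3) [nat_lit 7468] false,
   Spec.mk (nat_lit 27154) (nat_lit 0) [nat_lit 14032, nat_lit 40276, nat_lit 22780, nat_lit 28612, nat_lit 26668, nat_lit 27316, nat_lit 27100, nat_lit 27172, nat_lit 27148, nat_lit 27156] (nat_lit 4) [nat_lit 46836, nat_lit 7472] false,
   Spec.mk (nat_lit 27156) (nat_lit 0) [nat_lit 14034, nat_lit 40278, nat_lit 22782, nat_lit 28614, nat_lit 26670, nat_lit 27318, nat_lit 27102, nat_lit 27174, nat_lit 27150, nat_lit 27154] (nat_lit 3) [nat_lit 7474] false,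
   Spec.mk (nat_lit 27164) (nat_lit 0) [nat_lit 14042, nat_lit 40286, nat_lit 22790, nat_lit 28622, nat_lit 26678, nat_lit 27326, nat_lit 27110, nat_lit 27146, nat_lit 27166] (nat_lit 1) [nat_lit 46846] false,
   Spec.mk (nat_lit 27166) (nat_lit 0) [nat_lit 14044, nat_lit 40288, nat_lit 22792, nat_lit 28624, nat_lit 26680, nat_lit 27328, nat_lit 27112, nat_lit 27148, nat_lit 27172, nat_lit 27164, nat_lit 27168] (nat_lit 1) [nat_lit 46848, nat_lit 7484] false,
   Spec.mk (nat_lit 27168) (nat_lit 0) [nat_lit 14046, nat_lit 40290, nat_lit 22794, nat_lit 28626, nat_lit 26682, nat_lit 27330, nat_lit 27114, nat_lit 27150, nat_lit 27174, nat_lit 27166] (nat_lit 3) [nat_lit 7486] false,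
   Spec.mk (nat_lit 27172) (nat_lit 0) [nat_lit 14050, nat_lit 40294, nat_lit 22798, nat_lit 28630, nat_lit 26686, nat_lit 27334, nat_lit 27118, nat_lit 27154, nat_lit 27190, nat_lit 27166, nat_lit 27174] (nat_lit 1) [nat_lit 46854, nat_lit 7490] false,
   Spec.mk (nat_lit 27174) (nat_lit 0) [nat_lit 14052, nat_lit 40296, nat_lit 22800, nat_lit 28632, nat_lit 26688, nat_lit 27336, nat_lit 27120, nat_lit 27156, nat_lit 27192, nat_lit 27168, nat_lit 27180, nat_lit 27172] (nat_lit 1) [nat_lit 7492] false,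
   Spec.mk (nat_lit 27180) (nat_lit 0) [nat_lit 14058, nat_lit 40302, nat_lit 22806, nat_lit 28638, nat_lit 26694, nat_lit 27342, nat_lit 27126, nat_lit 27198, nat_lit 27174] (nat_lit 1) [nat_lit 7498] false,
   Spec.mk (nat_lit 27190) (nat_lit 0) [nat_lit 14068, nat_lit 40312, nat_lit 22816, nat_lit 28648, nat_lit 26704, nat_lit 27352, nat_lit 27172, nat_lit 27192] (nat_lit 0) [nat_lit 46872, nat_lit 7508] false,
   Spec.mk (nat_lit 27192) (nat_lit 0) [nat_lit 14070, nat_lit 40314, nat_lit 22818, nat_lit 28650, nat_lit 26706, nat_lit 27354, nat_lit 27174, nat_lit 27198, nat_lit 27190] (nat_lit 1) [nat_lit 7510] false,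
   Spec.mk (nat_lit 27198) (nat_lit 1) [nat_lit 14076, nat_lit 40320, nat_lit 22824, nat_lit 28656, nat_lit 26712, nat_lit 27360, nat_lit 27180, nat_lit 27192] (nat_lit 0) [nat_lit 7516] false,
   Spec.mk (nat_lit 27224) (nat_lit 2) [nat_lit 14102, nat_lit 40346, nat_lit 22850, nat_lit 28682, nat_lit 26738, nat_lit 27710, nat_lit 27062, nat_lit 27230] (nat_lit 0) [nat_lit 46906] false,
   Spec.mk (nat_lit 27230) (nat_lit 1) [nat_lit 14108, nat_lit 40352, nat_lit 22856, nat_lit 28688, nat_lit 26744, nat_lit 27716, nat_lit 27068, nat_lit 27248, nat_lit 27224, nat_lit 27236, nat_lit 27232] (nat_lit 0) [nat_lit 46912] false,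
   Spec.mk (nat_lit 27232) (nat_lit 1) [nat_lit 14110, nat_lit 40354, nat_lit 22858, nat_lit 28690, nat_lit 26746, nat_lit 27718, nat_lit 27070, nat_lit 27250, nat_lit 27238, nat_lit 27230] (nat_lit 0) [nat_lit 46914, nat_lit 7550] false,
   Spec.mk (nat_lit 27236) (nat_lit 0) [nat_lit 14114, nat_lit 40358, nat_lit 22862, nat_lit 28694, nat_lit 26750, nat_lit 27722, nat_lit 27074, nat_lit 27254, nat_lit 27230, nat_lit 27238] (nat_lit 2) [nat_lit 46918] false,
   Spec.mk (nat_lit 27238) (nat_lit 0) [nat_lit 14116, nat_lit 40360, nat_lit 22864, nat_lit 28696, nat_lit 26752, nat_lit 27724, nat_lit 27076, nat_lit 27256, nat_lit 27232, nat_lit 27236, nat_lit 27240] (nat_lit 0) [nat_lit 46920, nat_lit 7556] false,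
   Spec.mk (nat_lit 27240) (nat_lit 0) [nat_lit 14118, nat_lit 40362, nat_lit 22866, nat_lit 28698, nat_lit 26754, nat_lit 27726, nat_lit 27078, nat_lit 27258, nat_lit 27238] (nat_lit 0) [nat_lit 7558] false,
   Spec.mk (nat_lit 27248) (nat_lit 0) [nat_lit 14126, nat_lit 40370, nat_lit 22874, nat_lit 28706, nat_lit 26762, nat_lit 27734, nat_lit 27086, nat_lit 27302, nat_lit 27230, nat_lit 27254, nat_lit 27250] (nat_lit 0) [nat_lit 46930] false,
   Spec.mk (nat_lit 27250) (nat_lit 0) [nat_lit 14128, nat_lit 40372, nat_lit 22876, nat_lit 28708, nat_lit 26764, nat_lit 27736, nat_lit 27088, nat_lit 27304, nat_lit 27232, nat_lit 27256, nat_lit 27248] (nat_lit 1) [nat_lit 46932, nat_lit 7568] false,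
   Spec.mk (nat_lit 27254) (nat_lit 0) [nat_lit 14132, nat_lit 40376, nat_lit 22880, nat_lit 28712, nat_lit 26768, nat_lit 27740, nat_lit 27092, nat_lit 27308, nat_lit 27236, nat_lit 27272, nat_lit 27248, nat_lit 27256] (nat_lit 1) [nat_lit 46936] false,
   Spec.mk (nat_lit 27256) (nat_lit 0) [nat_lit 14134, nat_lit 40378, nat_lit 22882, nat_lit 28714, nat_lit 26770, nat_lit 27742, nat_lit 27094, nat_lit 27310, nat_lit 27238, nat_lit 27274, nat_lit 27250, nat_lit 27262, nat_lit 27254, nat_lit 27258] (nat_lit 0) [nat_lit 46938, nat_lit 7574] false,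
   Spec.mk (nat_lit 27258) (nat_lit 0) [nat_lit 14136, nat_lit 40380, nat_lit 22884, nat_lit 28716, nat_lit 26772, nat_lit 27744, nat_lit 27096, nat_lit 27312, nat_lit 27240, nat_lit 27276, nat_lit 27264, nat_lit 27256] (nat_lit 1) [nat_lit 7576] false,
   Spec.mk (nat_lit 27262) (nat_lit 0) [nat_lit 14140, nat_lit 40384, nat_lit 22888, nat_lit 28720, nat_lit 26776, nat_lit 27748, nat_lit 27100, nat_lit 27316, nat_lit 27280, nat_lit 27256, nat_lit 27264] (nat_lit 1) [nat_lit 46944, nat_lit 7580] false,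
   Spec.mk (nat_lit 27264) (nat_lit 0) [nat_lit 14142, nat_lit 40386, nat_lit 22890, nat_lit 28722, nat_lit 26778, nat_lit 27750, nat_lit 27102, nat_lit 27318, nat_lit 27282, nat_lit 27258, nat_lit 27262] (nat_lit 0) [nat_lit 7582] false,
   Spec.mk (nat_lit 27272) (nat_lit 0) [nat_lit 14150, nat_lit 40394, nat_lit 22898, nat_lit 28730, nat_lit 26786, nat_lit 27758, nat_lit 27110, nat_lit 27326, nat_lit 27254, nat_lit 27274] (nat_lit 2) [nat_lit 46954] false,
   Spec.mk (nat_lit 27274) (nat_lit 0) [nat_lit 14152, nat_lit 40396, nat_lit 22900, nat_lit 28732, nat_lit 26788, nat_lit 27760, nat_lit 27112, nat_lit 27328, nat_lit 27256, nat_lit 27280, nat_lit 27272, nat_lit 27276] (nat_lit 2) [nat_lit 46956, nat_lit 7592] false,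
   Spec.mk (nat_lit 27276) (nat_lit 0) [nat_lit 14154, nat_lit 40398, nat_lit 22902, nat_lit 28734, nat_lit 26790, nat_lit 27762, nat_lit 27114, nat_lit 27330, nat_lit 27258, nat_lit 27282, nat_lit 27274] (nat_lit 4) [nat_lit 7594] false,
   Spec.mk (nat_lit 27280) (nat_lit 0) [nat_lit 14158, nat_lit 40402, nat_lit 22906, nat_lit 28738, nat_lit 26794, nat_lit 27766, nat_lit 27118, nat_lit 27334, nat_lit 27262, nat_lit 27274, nat_lit 27282] (nat_lit 1) [nat_lit 46962, nat_lit 7598] false,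
   Spec.mk (nat_lit 27282) (nat_lit 0) [nat_lit 14160, nat_lit 40404, nat_lit 22908, nat_lit 28740, nat_lit 26796, nat_lit 27768, nat_lit 27120, nat_lit 27336, nat_lit 27264, nat_lit 27276, nat_lit 27288, nat_lit 27280] (nat_lit 1) [nat_lit 7600] false,
   Spec.mk (nat_lit 27288) (nat_lit 0) [nat_lit 14166, nat_lit 40410, nat_lit 22914, nat_lit 28746, nat_lit 26802, nat_lit 27774, nat_lit 27126, nat_lit 27342, nat_lit 27282] (nat_lit 0) [nat_lit 7606] false,
   Spec.mk (nat_lit 27302) (nat_lit 1) [nat_lit 14180, nat_lit 40424, nat_lit 22928, nat_lit 28760, nat_lit 26816, nat_lit 27788, nat_lit 27140, nat_lit 27464, nat_lit 27248, nat_lit 27308, nat_lit 27304] (nat_lit 0) [nat_lit 46984] false,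
   Spec.mk (nat_lit 27304) (nat_lit 0) [nat_lit 14182, nat_lit 40426, nat_lit 22930, nat_lit 28762, nat_lit 26818, nat_lit 27790, nat_lit 27142, nat_lit 27466, nat_lit 27250, nat_lit 27310, nat_lit 27302] (nat_lit 0) [nat_lit 46986, nat_lit 7622] false,
   Spec.mk (nat_lit 27308) (nat_lit 0) [nat_lit 14186, nat_lit 40430, nat_lit 22934, nat_lit 28766, nat_lit 26822, nat_lit 27794, nat_lit 27146, nat_lit 27470, nat_lit 27254, nat_lit 27326, nat_lit 27302, nat_lit 27310] (nat_lit 1) [nat_lit 46990] false,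
   Spec.mk (nat_lit 27310) (nat_lit 0) [nat_lit 14188, nat_lit 40432, nat_lit 22936, nat_lit 28768, nat_lit 26824, nat_lit 27796, nat_lit 27148, nat_lit 27472, nat_lit 27256, nat_lit 27328, nat_lit 27304, nat_lit 27316, nat_lit 27308, nat_lit 27312] (nat_lit 0) [nat_lit 46992, nat_lit 7628] false,
   Spec.mk (nat_lit 27312) (nat_lit 0) [nat_lit 14190, nat_lit 40434, nat_lit 22938, nat_lit 28770, nat_lit 26826, nat_lit 27798, nat_lit 27150, nat_lit 27474, nat_lit 27258, nat_lit 27330, nat_lit 27318, nat_lit 27310] (nat_lit 1) [nat_lit 7630] false,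
   Spec.mk (nat_lit 27316) (nat_lit 0) [nat_lit 14194, nat_lit 40438, nat_lit 22942, nat_lit 28774, nat_lit 26830, nat_lit 27802, nat_lit 27154, nat_lit 27478, nat_lit 27262, nat_lit 27334, nat_lit 27310, nat_lit 27318] (nat_lit 2) [nat_lit 46998, nat_lit 7634] false]

noncomputable def sp69 : List Spec :=
  [Spec.mk (nat_lit 27318) (nat_lit 0) [nat_lit 14196, nat_lit 40440, nat_lit 22944, nat_lit 28776, nat_lit 26832, nat_lit 27804, nat_lit 27156, nat_lit 27480, nat_lit 27264, nat_lit 27336, nat_lit 27312, nat_lit 27316] (nat_lit 1) [nat_lit 7636] false,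
   Spec.mk (nat_lit 27326) (nat_lit 0) [nat_lit 14204, nat_lit 40448, nat_lit 22952, nat_lit 28784, nat_lit 26840, nat_lit 27812, nat_lit 27164, nat_lit 27488, nat_lit 27272, nat_lit 27380, nat_lit 27308, nat_lit 27328] (nat_lit 0) [nat_lit 47008] false,
   Spec.mk (nat_lit 27328) (nat_lit 0) [nat_lit 14206, nat_lit 40450, nat_lit 22954, nat_lit 28786, nat_lit 26842, nat_lit 27814, nat_lit 27166, nat_lit 27490, nat_lit 27274, nat_lit 27382, nat_lit 27310, nat_lit 27334, nat_lit 27326, nat_lit 27330] (nat_lit 0) [nat_lit 47010, nat_lit 7646] false,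
   Spec.mk (nat_lit 27330) (nat_lit 0) [nat_lit 14208, nat_lit 40452, nat_lit 22956, nat_lit 28788, nat_lit 26844, nat_lit 27816, nat_lit 27168, nat_lit 27492, nat_lit 27276, nat_lit 27384, nat_lit 27312, nat_lit 27336, nat_lit 27328] (nat_lit 2) [nat_lit 7648] false,
   Spec.mk (nat_lit 27334) (nat_lit 0) [nat_lit 14212, nat_lit 40456, nat_lit 22960, nat_lit 28792, nat_lit 26848, nat_lit 27820, nat_lit 27172, nat_lit 27496, nat_lit 27280, nat_lit 27388, nat_lit 27316, nat_lit 27352, nat_lit 27328, nat_lit 27336] (nat_lit 0) [nat_lit 47016, nat_lit 7652] false,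
   Spec.mk (nat_lit 27336) (nat_lit 0) [nat_lit 14214, nat_lit 40458, nat_lit 22962, nat_lit 28794, nat_lit 26850, nat_lit 27822, nat_lit 27174, nat_lit 27498, nat_lit 27282, nat_lit 27390, nat_lit 27318, nat_lit 27354, nat_lit 27330, nat_lit 27342, nat_lit 27334] (nat_lit 0) [nat_lit 7654] false,
   Spec.mk (nat_lit 27342) (nat_lit 0) [nat_lit 14220, nat_lit 40464, nat_lit 22968, nat_lit 28800, nat_lit 26856, nat_lit 27828, nat_lit 27180, nat_lit 27504, nat_lit 27288, nat_lit 27396, nat_lit 27360, nat_lit 27336] (nat_lit 0) [nat_lit 7660] false,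
   Spec.mk (nat_lit 27352) (nat_lit 0) [nat_lit 14230, nat_lit 40474, nat_lit 22978, nat_lit 28810, nat_lit 26866, nat_lit 27838, nat_lit 27190, nat_lit 27514, nat_lit 27406, nat_lit 27334, nat_lit 27354] (nat_lit 0) [nat_lit 47034, nat_lit 7670] false,
   Spec.mk (nat_lit 27354) (nat_lit 0) [nat_lit 14232, nat_lit 40476, nat_lit 22980, nat_lit 28812, nat_lit 26868, nat_lit 27840, nat_lit 27192, nat_lit 27516, nat_lit 27408, nat_lit 27336, nat_lit 27360, nat_lit 27352] (nat_lit 1) [nat_lit 7672] false,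
   Spec.mk (nat_lit 27360) (nat_lit 1) [nat_lit 14238, nat_lit 40482, nat_lit 22986, nat_lit 28818, nat_lit 26874, nat_lit 27846, nat_lit 27198, nat_lit 27522, nat_lit 27414, nat_lit 27342, nat_lit 27354] (nat_lit 0) [nat_lit 7678] false,
   Spec.mk (nat_lit 27380) (nat_lit 0) [nat_lit 14258, nat_lit 40502, nat_lit 23006, nat_lit 28838, nat_lit 26894, nat_lit 27866, nat_lit 27542, nat_lit 27326, nat_lit 27382] (nat_lit 0) [nat_lit 47062] false,
   Spec.mk (nat_lit 27382) (nat_lit 0) [nat_lit 14260, nat_lit 40504, nat_lit 23008, nat_lit 28840, nat_lit 26896, nat_lit 27868, nat_lit 27544, nat_lit 27328, nat_lit 27388, nat_lit 27380, nat_lit 27384] (nat_lit 0) [nat_lit 47064, nat_lit 7700] false,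
   Spec.mk (nat_lit 27384) (nat_lit 0) [nat_lit 14262, nat_lit 40506, nat_lit 23010, nat_lit 28842, nat_lit 26898, nat_lit 27870, nat_lit 27546, nat_lit 27330, nat_lit 27390, nat_lit 27382] (nat_lit 2) [nat_lit 7702] false,
   Spec.mk (nat_lit 27388) (nat_lit 0) [nat_lit 14266, nat_lit 40510, nat_lit 23014, nat_lit 28846, nat_lit 26902, nat_lit 27874, nat_lit 27550, nat_lit 27334, nat_lit 27406, nat_lit 27382, nat_lit 27390] (nat_lit 1) [nat_lit 47070, nat_lit 7706] false,
   Spec.mk (nat_lit 27390) (nat_lit 0) [nat_lit 14268, nat_lit 40512, nat_lit 23016, nat_lit 28848, nat_lit 26904, nat_lit 27876, nat_lit 27552, nat_lit 27336, nat_lit 27408, nat_lit 27384, nat_lit 27396, nat_lit 27388] (nat_lit 1) [nat_lit 7708] false,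
   Spec.mk (nat_lit 27396) (nat_lit 0) [nat_lit 14274, nat_lit 40518, nat_lit 23022, nat_lit 28854, nat_lit 26910, nat_lit 27882, nat_lit 27558, nat_lit 27342, nat_lit 27414, nat_lit 27390] (nat_lit 2) [nat_lit 7714] false,
   Spec.mk (nat_lit 27406) (nat_lit 1) [nat_lit 14284, nat_lit 40528, nat_lit 23032, nat_lit 28864, nat_lit 26920, nat_lit 27892, nat_lit 27568, nat_lit 27352, nat_lit 27388, nat_lit 27408] (nat_lit 0) [nat_lit 47088, nat_lit 7724] false,
   Spec.mk (nat_lit 27408) (nat_lit 0) [nat_lit 14286, nat_lit 40530, nat_lit 23034, nat_lit 28866, nat_lit 26922, nat_lit 27894, nat_lit 27570, nat_lit 27354, nat_lit 27390, nat_lit 27414, nat_lit 27406] (nat_lit 0) [nat_lit 7726] false,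
   Spec.mk (nat_lit 27414) (nat_lit 1) [nat_lit 14292, nat_lit 40536, nat_lit 23040, nat_lit 28872, nat_lit 26928, nat_lit 27900, nat_lit 27576, nat_lit 27360, nat_lit 27396, nat_lit 27432, nat_lit 27408] (nat_lit 0) [nat_lit 7732] false,
   Spec.mk (nat_lit 27432) (nat_lit 2) [nat_lit 14310, nat_lit 40554, nat_lit 23058, nat_lit 28890, nat_lit 26946, nat_lit 27918, nat_lit 27594, nat_lit 27414] (nat_lit 0) [nat_lit 7750] false,
   Spec.mk (nat_lit 27464) (nat_lit 1) [nat_lit 14342, nat_lit 40586, nat_lit 23090, nat_lit 28922, nat_lit 27950, nat_lit 27302, nat_lit 27470, nat_lit 27466] (nat_lit 0) [nat_lit 47146] false,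
   Spec.mk (nat_lit 27466) (nat_lit 0) [nat_lit 14344, nat_lit 40588, nat_lit 23092, nat_lit 28924, nat_lit 27952, nat_lit 27304, nat_lit 27472, nat_lit 27464] (nat_lit 0) [nat_lit 47148, nat_lit 7784] false,
   Spec.mk (nat_lit 27470) (nat_lit 0) [nat_lit 14348, nat_lit 40592, nat_lit 23096, nat_lit 28928, nat_lit 27956, nat_lit 27308, nat_lit 27488, nat_lit 27464, nat_lit 27472] (nat_lit 1) [nat_lit 47152] false,
   Spec.mk (nat_lit 27472) (nat_lit 0) [nat_lit 14350, nat_lit 40594, nat_lit 23098, nat_lit 28930, nat_lit 27958, nat_lit 27310, nat_lit 27490, nat_lit 27466, nat_lit 27478, nat_lit 27470, nat_lit 27474] (nat_lit 0) [nat_lit 47154, nat_lit 7790] false,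
   Spec.mk (nat_lit 27474) (nat_lit 0) [nat_lit 14352, nat_lit 40596, nat_lit 23100, nat_lit 28932, nat_lit 27960, nat_lit 27312, nat_lit 27492, nat_lit 27480, nat_lit 27472] (nat_lit 1) [nat_lit 7792] false,
   Spec.mk (nat_lit 27478) (nat_lit 0) [nat_lit 14356, nat_lit 40600, nat_lit 23104, nat_lit 28936, nat_lit 27964, nat_lit 27316, nat_lit 27496, nat_lit 27472, nat_lit 27480] (nat_lit 2) [nat_lit 47160, nat_lit 7796] false,
   Spec.mk (nat_lit 27480) (nat_lit 0) [nat_lit 14358, nat_lit 40602, nat_lit 23106, nat_lit 28938, nat_lit 27966, nat_lit 27318, nat_lit 27498, nat_lit 27474, nat_lit 27478] (nat_lit 1) [nat_lit 7798] false,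
   Spec.mk (nat_lit 27488) (nat_lit 0) [nat_lit 14366, nat_lit 40610, nat_lit 23114, nat_lit 28946, nat_lit 27974, nat_lit 27326, nat_lit 27542, nat_lit 27470, nat_lit 27490] (nat_lit 1) [nat_lit 47170] false,
   Spec.mk (nat_lit 27490) (nat_lit 0) [nat_lit 14368, nat_lit 40612, nat_lit 23116, nat_lit 28948, nat_lit 27976, nat_lit 27328, nat_lit 27544, nat_lit 27472, nat_lit 27496, nat_lit 27488, nat_lit 27492] (nat_lit 1) [nat_lit 47172, nat_lit 7808] false,
   Spec.mk (nat_lit 27492) (nat_lit 0) [nat_lit 14370, nat_lit 40614, nat_lit 23118, nat_lit 28950, nat_lit 27978, nat_lit 27330, nat_lit 27546, nat_lit 27474, nat_lit 27498, nat_lit 27490] (nat_lit 3) [nat_lit 7810] false,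
   Spec.mk (nat_lit 27496) (nat_lit 0) [nat_lit 14374, nat_lit 40618, nat_lit 23122, nat_lit 28954, nat_lit 27982, nat_lit 27334, nat_lit 27550, nat_lit 27478, nat_lit 27514, nat_lit 27490, nat_lit 27498] (nat_lit 1) [nat_lit 47178, nat_lit 7814] false,
   Spec.mk (nat_lit 27498) (nat_lit 0) [nat_lit 14376, nat_lit 40620, nat_lit 23124, nat_lit 28956, nat_lit 27984, nat_lit 27336, nat_lit 27552, nat_lit 27480, nat_lit 27516, nat_lit 27492, nat_lit 27504, nat_lit 27496] (nat_lit 1) [nat_lit 7816] false,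
   Spec.mk (nat_lit 27504) (nat_lit 0) [nat_lit 14382, nat_lit 40626, nat_lit 23130, nat_lit 28962, nat_lit 27990, nat_lit 27342, nat_lit 27558, nat_lit 27522, nat_lit 27498] (nat_lit 1) [nat_lit 7822] false,
   Spec.mk (nat_lit 27514) (nat_lit 0) [nat_lit 14392, nat_lit 40636, nat_lit 23140, nat_lit 28972, nat_lit 28000, nat_lit 27352, nat_lit 27568, nat_lit 27496, nat_lit 27516] (nat_lit 2) [nat_lit 47196, nat_lit 7832] false,
   Spec.mk (nat_lit 27516) (nat_lit 0) [nat_lit 14394, nat_lit 40638, nat_lit 23142, nat_lit 28974, nat_lit 28002, nat_lit 27354, nat_lit 27570, nat_lit 27498, nat_lit 27522, nat_lit 27514] (nat_lit 3) [nat_lit 7834] false,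
   Spec.mk (nat_lit 27522) (nat_lit 0) [nat_lit 14400, nat_lit 40644, nat_lit 23148, nat_lit 28980, nat_lit 28008, nat_lit 27360, nat_lit 27576, nat_lit 27504, nat_lit 27516] (nat_lit 1) [nat_lit 7840] false,
   Spec.mk (nat_lit 27542) (nat_lit 1) [nat_lit 14420, nat_lit 40664, nat_lit 23168, nat_lit 29000, nat_lit 28028, nat_lit 27380, nat_lit 27488, nat_lit 27544] (nat_lit 0) [nat_lit 47224] false,
   Spec.mk (nat_lit 27544) (nat_lit 1) [nat_lit 14422, nat_lit 40666, nat_lit 23170, nat_lit 29002, nat_lit 28030, nat_lit 27382, nat_lit 27490, nat_lit 27550, nat_lit 27542, nat_lit 27546] (nat_lit 0) [nat_lit 47226, nat_lit 7862] false,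
   Spec.mk (nat_lit 27546) (nat_lit 0) [nat_lit 14424, nat_lit 40668, nat_lit 23172, nat_lit 29004, nat_lit 28032, nat_lit 27384, nat_lit 27492, nat_lit 27552, nat_lit 27544] (nat_lit 1) [nat_lit 7864] false,
   Spec.mk (nat_lit 27550) (nat_lit 0) [nat_lit 14428, nat_lit 40672, nat_lit 23176, nat_lit 29008, nat_lit 28036, nat_lit 27388, nat_lit 27496, nat_lit 27568, nat_lit 27544, nat_lit 27552] (nat_lit 0) [nat_lit 47232, nat_lit 7868] false,
   Spec.mk (nat_lit 27552) (nat_lit 0) [nat_lit 14430, nat_lit 40674, nat_lit 23178, nat_lit 29010, nat_lit 28038, nat_lit 27390, nat_lit 27498, nat_lit 27570, nat_lit 27546, nat_lit 27558, nat_lit 27550] (nat_lit 0) [nat_lit 7870] false,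
   Spec.mk (nat_lit 27558) (nat_lit 0) [nat_lit 14436, nat_lit 40680, nat_lit 23184, nat_lit 29016, nat_lit 28044, nat_lit 27396, nat_lit 27504, nat_lit 27576, nat_lit 27552] (nat_lit 1) [nat_lit 7876] false,
   Spec.mk (nat_lit 27568) (nat_lit 1) [nat_lit 14446, nat_lit 40690, nat_lit 23194, nat_lit 29026, nat_lit 28054, nat_lit 27406, nat_lit 27514, nat_lit 27622, nat_lit 27550, nat_lit 27570] (nat_lit 0) [nat_lit 47250, nat_lit 7886] false,
   Spec.mk (nat_lit 27570) (nat_lit 0) [nat_lit 14448, nat_lit 40692, nat_lit 23196, nat_lit 29028, nat_lit 28056, nat_lit 27408, nat_lit 27516, nat_lit 27624, nat_lit 27552, nat_lit 27576, nat_lit 27568] (nat_lit 0) [nat_lit 7888] false,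
   Spec.mk (nat_lit 27576) (nat_lit 1) [nat_lit 14454, nat_lit 40698, nat_lit 23202, nat_lit 29034, nat_lit 28062, nat_lit 27414, nat_lit 27522, nat_lit 27630, nat_lit 27558, nat_lit 27594, nat_lit 27570] (nat_lit 0) [nat_lit 7894] false,
   Spec.mk (nat_lit 27594) (nat_lit 1) [nat_lit 14472, nat_lit 40716, nat_lit 23220, nat_lit 29052, nat_lit 28080, nat_lit 27432, nat_lit 27648, nat_lit 27576] (nat_lit 0) [nat_lit 7912] false,
   Spec.mk (nat_lit 27622) (nat_lit 2) [nat_lit 14500, nat_lit 40744, nat_lit 23248, nat_lit 29080, nat_lit 28108, nat_lit 27568, nat_lit 27624] (nat_lit 0) [nat_lit 47304, nat_lit 7940] false,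
   Spec.mk (nat_lit 27624) (nat_lit 1) [nat_lit 14502, nat_lit 40746, nat_lit 23250, nat_lit 29082, nat_lit 28110, nat_lit 27570, nat_lit 27630, nat_lit 27622] (nat_lit 0) [nat_lit 7942] false,
   Spec.mk (nat_lit 27630) (nat_lit 1) [nat_lit 14508, nat_lit 40752, nat_lit 23256, nat_lit 29088, nat_lit 28116, nat_lit 27576, nat_lit 27648, nat_lit 27624] (nat_lit 0) [nat_lit 7948] false,
   Spec.mk (nat_lit 27648) (nat_lit 3) [nat_lit 14526, nat_lit 40770, nat_lit 23274, nat_lit 29106, nat_lit 28134, nat_lit 27594, nat_lit 27630] (nat_lit 0) [nat_lit 7966] false,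
   Spec.mk (nat_lit 27710) (nat_lit 1) [nat_lit 14588, nat_lit 40832, nat_lit 23336, nat_lit 29168, nat_lit 27224, nat_lit 27716] (nat_lit 0) [nat_lit 47392] false,
   Spec.mk (nat_lit 27716) (nat_lit 0) [nat_lit 14594, nat_lit 40838, nat_lit 23342, nat_lit 29174, nat_lit 27230, nat_lit 27734, nat_lit 27710, nat_lit 27722, nat_lit 27718] (nat_lit 0) [nat_lit 47398] false,
   Spec.mk (nat_lit 27718) (nat_lit 0) [nat_lit 14596, nat_lit 40840, nat_lit 23344, nat_lit 29176, nat_lit 27232, nat_lit 27736, nat_lit 27724, nat_lit 27716] (nat_lit 0) [nat_lit 47400, nat_lit 8036] false,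
   Spec.mk (nat_lit 27722) (nat_lit 0) [nat_lit 14600, nat_lit 40844, nat_lit 23348, nat_lit 29180, nat_lit 27236, nat_lit 27740, nat_lit 27716, nat_lit 27724] (nat_lit 3) [nat_lit 47404] false,
   Spec.mk (nat_lit 27724) (nat_lit 0) [nat_lit 14602, nat_lit 40846, nat_lit 23350, nat_lit 29182, nat_lit 27238, nat_lit 27742, nat_lit 27718, nat_lit 27722, nat_lit 27726] (nat_lit 1) [nat_lit 47406, nat_lit 8042] false,
   Spec.mk (nat_lit 27726) (nat_lit 0) [nat_lit 14604, nat_lit 40848, nat_lit 23352, nat_lit 29184, nat_lit 27240, nat_lit 27744, nat_lit 27724] (nat_lit 1) [nat_lit 8044] false,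
   Spec.mk (nat_lit 27734) (nat_lit 0) [nat_lit 14612, nat_lit 40856, nat_lit 23360, nat_lit 29192, nat_lit 27248, nat_lit 27788, nat_lit 27716, nat_lit 27740, nat_lit 27736] (nat_lit 1) [nat_lit 47416] false,
   Spec.mk (nat_lit 27736) (nat_lit 0) [nat_lit 14614, nat_lit 40858, nat_lit 23362, nat_lit 29194, nat_lit 27250, nat_lit 27790, nat_lit 27718, nat_lit 27742, nat_lit 27734] (nat_lit 2) [nat_lit 47418, nat_lit 8054] false,
   Spec.mk (nat_lit 27740) (nat_lit 0) [nat_lit 14618, nat_lit 40862, nat_lit 23366, nat_lit 29198, nat_lit 27254, nat_lit 27794, nat_lit 27722, nat_lit 27758, nat_lit 27734, nat_lit 27742] (nat_lit 2) [nat_lit 47422] false,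
   Spec.mk (nat_lit 27742) (nat_lit 0) [nat_lit 14620, nat_lit 40864, nat_lit 23368, nat_lit 29200, nat_lit 27256, nat_lit 27796, nat_lit 27724, nat_lit 27760, nat_lit 27736, nat_lit 27748, nat_lit 27740, nat_lit 27744] (nat_lit 1) [nat_lit 47424, nat_lit 8060] false]

noncomputable def sp70 : List Spec :=
  [Spec.mk (nat_lit 27744) (nat_lit 0) [nat_lit 14622, nat_lit 40866, nat_lit 23370, nat_lit 29202, nat_lit 27258, nat_lit 27798, nat_lit 27726, nat_lit 27762, nat_lit 27750, nat_lit 27742] (nat_lit 2) [nat_lit 8062] false,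
   Spec.mk (nat_lit 27748) (nat_lit 0) [nat_lit 14626, nat_lit 40870, nat_lit 23374, nat_lit 29206, nat_lit 27262, nat_lit 27802, nat_lit 27766, nat_lit 27742, nat_lit 27750] (nat_lit 2) [nat_lit 47430, nat_lit 8066] false,
   Spec.mk (nat_lit 27750) (nat_lit 0) [nat_lit 14628, nat_lit 40872, nat_lit 23376, nat_lit 29208, nat_lit 27264, nat_lit 27804, nat_lit 27768, nat_lit 27744, nat_lit 27748] (nat_lit 1) [nat_lit 8068] false,
   Spec.mk (nat_lit 27758) (nat_lit 0) [nat_lit 14636, nat_lit 40880, nat_lit 23384, nat_lit 29216, nat_lit 27272, nat_lit 27812, nat_lit 27740, nat_lit 27760] (nat_lit 3) [nat_lit 47440] false,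
   Spec.mk (nat_lit 27760) (nat_lit 0) [nat_lit 14638, nat_lit 40882, nat_lit 23386, nat_lit 29218, nat_lit 27274, nat_lit 27814, nat_lit 27742, nat_lit 27766, nat_lit 27758, nat_lit 27762] (nat_lit 3) [nat_lit 47442, nat_lit 8078] false,
   Spec.mk (nat_lit 27762) (nat_lit 0) [nat_lit 14640, nat_lit 40884, nat_lit 23388, nat_lit 29220, nat_lit 27276, nat_lit 27816, nat_lit 27744, nat_lit 27768, nat_lit 27760] (nat_lit 5) [nat_lit 8080] false,
   Spec.mk (nat_lit 27766) (nat_lit 0) [nat_lit 14644, nat_lit 40888, nat_lit 23392, nat_lit 29224, nat_lit 27280, nat_lit 27820, nat_lit 27748, nat_lit 27760, nat_lit 27768] (nat_lit 2) [nat_lit 47448, nat_lit 8084] false,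
   Spec.mk (nat_lit 27768) (nat_lit 0) [nat_lit 14646, nat_lit 40890, nat_lit 23394, nat_lit 29226, nat_lit 27282, nat_lit 27822, nat_lit 27750, nat_lit 27762, nat_lit 27774, nat_lit 27766] (nat_lit 2) [nat_lit 8086] false,
   Spec.mk (nat_lit 27774) (nat_lit 0) [nat_lit 14652, nat_lit 40896, nat_lit 23400, nat_lit 29232, nat_lit 27288, nat_lit 27828, nat_lit 27768] (nat_lit 1) [nat_lit 8092] false,
   Spec.mk (nat_lit 27788) (nat_lit 0) [nat_lit 14666, nat_lit 40910, nat_lit 23414, nat_lit 29246, nat_lit 27302, nat_lit 27950, nat_lit 27734, nat_lit 27794, nat_lit 27790] (nat_lit 1) [nat_lit 47470] false,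
   Spec.mk (nat_lit 27790) (nat_lit 0) [nat_lit 14668, nat_lit 40912, nat_lit 23416, nat_lit 29248, nat_lit 27304, nat_lit 27952, nat_lit 27736, nat_lit 27796, nat_lit 27788] (nat_lit 2) [nat_lit 47472, nat_lit 8108] false,
   Spec.mk (nat_lit 27794) (nat_lit 0) [nat_lit 14672, nat_lit 40916, nat_lit 23420, nat_lit 29252, nat_lit 27308, nat_lit 27956, nat_lit 27740, nat_lit 27812, nat_lit 27788, nat_lit 27796] (nat_lit 3) [nat_lit 47476] false,
   Spec.mk (nat_lit 27796) (nat_lit 0) [nat_lit 14674, nat_lit 40918, nat_lit 23422, nat_lit 29254, nat_lit 27310, nat_lit 27958, nat_lit 27742, nat_lit 27814, nat_lit 27790, nat_lit 27802, nat_lit 27794, nat_lit 27798] (nat_lit 2) [nat_lit 47478, nat_lit 8114] false,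
   Spec.mk (nat_lit 27798) (nat_lit 0) [nat_lit 14676, nat_lit 40920, nat_lit 23424, nat_lit 29256, nat_lit 27312, nat_lit 27960, nat_lit 27744, nat_lit 27816, nat_lit 27804, nat_lit 27796] (nat_lit 3) [nat_lit 8116] false,
   Spec.mk (nat_lit 27802) (nat_lit 0) [nat_lit 14680, nat_lit 40924, nat_lit 23428, nat_lit 29260, nat_lit 27316, nat_lit 27964, nat_lit 27748, nat_lit 27820, nat_lit 27796, nat_lit 27804] (nat_lit 4) [nat_lit 47484, nat_lit 8120] false,
   Spec.mk (nat_lit 27804) (nat_lit 0) [nat_lit 14682, nat_lit 40926, nat_lit 23430, nat_lit 29262, nat_lit 27318, nat_lit 27966, nat_lit 27750, nat_lit 27822, nat_lit 27798, nat_lit 27802] (nat_lit 3) [nat_lit 8122] false,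
   Spec.mk (nat_lit 27812) (nat_lit 0) [nat_lit 14690, nat_lit 40934, nat_lit 23438, nat_lit 29270, nat_lit 27326, nat_lit 27974, nat_lit 27758, nat_lit 27866, nat_lit 27794, nat_lit 27814] (nat_lit 2) [nat_lit 47494] false,
   Spec.mk (nat_lit 27814) (nat_lit 0) [nat_lit 14692, nat_lit 40936, nat_lit 23440, nat_lit 29272, nat_lit 27328, nat_lit 27976, nat_lit 27760, nat_lit 27868, nat_lit 27796, nat_lit 27820, nat_lit 27812, nat_lit 27816] (nat_lit 2) [nat_lit 47496, nat_lit 8132] false,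
   Spec.mk (nat_lit 27816) (nat_lit 0) [nat_lit 14694, nat_lit 40938, nat_lit 23442, nat_lit 29274, nat_lit 27330, nat_lit 27978, nat_lit 27762, nat_lit 27870, nat_lit 27798, nat_lit 27822, nat_lit 27814] (nat_lit 4) [nat_lit 8134] false,
   Spec.mk (nat_lit 27820) (nat_lit 0) [nat_lit 14698, nat_lit 40942, nat_lit 23446, nat_lit 29278, nat_lit 27334, nat_lit 27982, nat_lit 27766, nat_lit 27874, nat_lit 27802, nat_lit 27838, nat_lit 27814, nat_lit 27822] (nat_lit 2) [nat_lit 47502, nat_lit 8138] false,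
   Spec.mk (nat_lit 27822) (nat_lit 0) [nat_lit 14700, nat_lit 40944, nat_lit 23448, nat_lit 29280, nat_lit 27336, nat_lit 27984, nat_lit 27768, nat_lit 27876, nat_lit 27804, nat_lit 27840, nat_lit 27816, nat_lit 27828, nat_lit 27820] (nat_lit 2) [nat_lit 8140] false,
   Spec.mk (nat_lit 27828) (nat_lit 0) [nat_lit 14706, nat_lit 40950, nat_lit 23454, nat_lit 29286, nat_lit 27342, nat_lit 27990, nat_lit 27774, nat_lit 27882, nat_lit 27846, nat_lit 27822] (nat_lit 2) [nat_lit 8146] false,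
   Spec.mk (nat_lit 27838) (nat_lit 0) [nat_lit 14716, nat_lit 40960, nat_lit 23464, nat_lit 29296, nat_lit 27352, nat_lit 28000, nat_lit 27892, nat_lit 27820, nat_lit 27840] (nat_lit 2) [nat_lit 47520, nat_lit 8156] false,
   Spec.mk (nat_lit 27840) (nat_lit 0) [nat_lit 14718, nat_lit 40962, nat_lit 23466, nat_lit 29298, nat_lit 27354, nat_lit 28002, nat_lit 27894, nat_lit 27822, nat_lit 27846, nat_lit 27838] (nat_lit 3) [nat_lit 8158] false,
   Spec.mk (nat_lit 27846) (nat_lit 0) [nat_lit 14724, nat_lit 40968, nat_lit 23472, nat_lit 29304, nat_lit 27360, nat_lit 28008, nat_lit 27900, nat_lit 27828, nat_lit 27840] (nat_lit 1) [nat_lit 8164] false,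
   Spec.mk (nat_lit 27866) (nat_lit 0) [nat_lit 14744, nat_lit 40988, nat_lit 23492, nat_lit 29324, nat_lit 27380, nat_lit 28028, nat_lit 27812, nat_lit 27868] (nat_lit 3) [nat_lit 47548] false,
   Spec.mk (nat_lit 27868) (nat_lit 0) [nat_lit 14746, nat_lit 40990, nat_lit 23494, nat_lit 29326, nat_lit 27382, nat_lit 28030, nat_lit 27814, nat_lit 27874, nat_lit 27866, nat_lit 27870] (nat_lit 3) [nat_lit 47550, nat_lit 8186] false,
   Spec.mk (nat_lit 27870) (nat_lit 0) [nat_lit 14748, nat_lit 40992, nat_lit 23496, nat_lit 29328, nat_lit 27384, nat_lit 28032, nat_lit 27816, nat_lit 27876, nat_lit 27868] (nat_lit 5) [nat_lit 8188] false,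
   Spec.mk (nat_lit 27874) (nat_lit 0) [nat_lit 14752, nat_lit 40996, nat_lit 23500, nat_lit 29332, nat_lit 27388, nat_lit 28036, nat_lit 27820, nat_lit 27892, nat_lit 27868, nat_lit 27876] (nat_lit 4) [nat_lit 47556, nat_lit 8192] false,
   Spec.mk (nat_lit 27876) (nat_lit 0) [nat_lit 14754, nat_lit 40998, nat_lit 23502, nat_lit 29334, nat_lit 27390, nat_lit 28038, nat_lit 27822, nat_lit 27894, nat_lit 27870, nat_lit 27882, nat_lit 27874] (nat_lit 4) [nat_lit 8194] false,
   Spec.mk (nat_lit 27882) (nat_lit 0) [nat_lit 14760, nat_lit 41004, nat_lit 23508, nat_lit 29340, nat_lit 27396, nat_lit 28044, nat_lit 27828, nat_lit 27900, nat_lit 27876] (nat_lit 5) [nat_lit 8200] false,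
   Spec.mk (nat_lit 27892) (nat_lit 0) [nat_lit 14770, nat_lit 41014, nat_lit 23518, nat_lit 29350, nat_lit 27406, nat_lit 28054, nat_lit 27838, nat_lit 27874, nat_lit 27894] (nat_lit 2) [nat_lit 47574, nat_lit 8210] false,
   Spec.mk (nat_lit 27894) (nat_lit 0) [nat_lit 14772, nat_lit 41016, nat_lit 23520, nat_lit 29352, nat_lit 27408, nat_lit 28056, nat_lit 27840, nat_lit 27876, nat_lit 27900, nat_lit 27892] (nat_lit 3) [nat_lit 8212] false,
   Spec.mk (nat_lit 27900) (nat_lit 0) [nat_lit 14778, nat_lit 41022, nat_lit 23526, nat_lit 29358, nat_lit 27414, nat_lit 28062, nat_lit 27846, nat_lit 27882, nat_lit 27918, nat_lit 27894] (nat_lit 2) [nat_lit 8218] false,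
   Spec.mk (nat_lit 27918) (nat_lit 0) [nat_lit 14796, nat_lit 41040, nat_lit 23544, nat_lit 29376, nat_lit 27432, nat_lit 28080, nat_lit 27900] (nat_lit 1) [nat_lit 8236] false,
   Spec.mk (nat_lit 27950) (nat_lit 1) [nat_lit 14828, nat_lit 41072, nat_lit 23576, nat_lit 29408, nat_lit 27464, nat_lit 27788, nat_lit 27956, nat_lit 27952] (nat_lit 0) [nat_lit 47632] false,
   Spec.mk (nat_lit 27952) (nat_lit 0) [nat_lit 14830, nat_lit 41074, nat_lit 23578, nat_lit 29410, nat_lit 27466, nat_lit 27790, nat_lit 27958, nat_lit 27950] (nat_lit 0) [nat_lit 47634, nat_lit 8270] false,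
   Spec.mk (nat_lit 27956) (nat_lit 0) [nat_lit 14834, nat_lit 41078, nat_lit 23582, nat_lit 29414, nat_lit 27470, nat_lit 27794, nat_lit 27974, nat_lit 27950, nat_lit 27958] (nat_lit 1) [nat_lit 47638] false,
   Spec.mk (nat_lit 27958) (nat_lit 0) [nat_lit 14836, nat_lit 41080, nat_lit 23584, nat_lit 29416, nat_lit 27472, nat_lit 27796, nat_lit 27976, nat_lit 27952, nat_lit 27964, nat_lit 27956, nat_lit 27960] (nat_lit 0) [nat_lit 47640, nat_lit 8276] false,
   Spec.mk (nat_lit 27960) (nat_lit 0) [nat_lit 14838, nat_lit 41082, nat_lit 23586, nat_lit 29418, nat_lit 27474, nat_lit 27798, nat_lit 27978, nat_lit 27966, nat_lit 27958] (nat_lit 1) [nat_lit 8278] false,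
   Spec.mk (nat_lit 27964) (nat_lit 0) [nat_lit 14842, nat_lit 41086, nat_lit 23590, nat_lit 29422, nat_lit 27478, nat_lit 27802, nat_lit 27982, nat_lit 27958, nat_lit 27966] (nat_lit 2) [nat_lit 47646, nat_lit 8282] false,
   Spec.mk (nat_lit 27966) (nat_lit 0) [nat_lit 14844, nat_lit 41088, nat_lit 23592, nat_lit 29424, nat_lit 27480, nat_lit 27804, nat_lit 27984, nat_lit 27960, nat_lit 27964] (nat_lit 1) [nat_lit 8284] false,
   Spec.mk (nat_lit 27974) (nat_lit 0) [nat_lit 14852, nat_lit 41096, nat_lit 23600, nat_lit 29432, nat_lit 27488, nat_lit 27812, nat_lit 28028, nat_lit 27956, nat_lit 27976] (nat_lit 1) [nat_lit 47656] false,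
   Spec.mk (nat_lit 27976) (nat_lit 0) [nat_lit 14854, nat_lit 41098, nat_lit 23602, nat_lit 29434, nat_lit 27490, nat_lit 27814, nat_lit 28030, nat_lit 27958, nat_lit 27982, nat_lit 27974, nat_lit 27978] (nat_lit 1) [nat_lit 47658, nat_lit 8294] false,
   Spec.mk (nat_lit 27978) (nat_lit 0) [nat_lit 14856, nat_lit 41100, nat_lit 23604, nat_lit 29436, nat_lit 27492, nat_lit 27816, nat_lit 28032, nat_lit 27960, nat_lit 27984, nat_lit 27976] (nat_lit 3) [nat_lit 8296] false,
   Spec.mk (nat_lit 27982) (nat_lit 0) [nat_lit 14860, nat_lit 41104, nat_lit 23608, nat_lit 29440, nat_lit 27496, nat_lit 27820, nat_lit 28036, nat_lit 27964, nat_lit 28000, nat_lit 27976, nat_lit 27984] (nat_lit 1) [nat_lit 47664, nat_lit 8300] false,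
   Spec.mk (nat_lit 27984) (nat_lit 0) [nat_lit 14862, nat_lit 41106, nat_lit 23610, nat_lit 29442, nat_lit 27498, nat_lit 27822, nat_lit 28038, nat_lit 27966, nat_lit 28002, nat_lit 27978, nat_lit 27990, nat_lit 27982] (nat_lit 1) [nat_lit 8302] false,
   Spec.mk (nat_lit 27990) (nat_lit 0) [nat_lit 14868, nat_lit 41112, nat_lit 23616, nat_lit 29448, nat_lit 27504, nat_lit 27828, nat_lit 28044, nat_lit 28008, nat_lit 27984] (nat_lit 1) [nat_lit 8308] false,
   Spec.mk (nat_lit 28000) (nat_lit 0) [nat_lit 14878, nat_lit 41122, nat_lit 23626, nat_lit 29458, nat_lit 27514, nat_lit 27838, nat_lit 28054, nat_lit 27982, nat_lit 28002] (nat_lit 2) [nat_lit 47682, nat_lit 8318] false,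
   Spec.mk (nat_lit 28002) (nat_lit 0) [nat_lit 14880, nat_lit 41124, nat_lit 23628, nat_lit 29460, nat_lit 27516, nat_lit 27840, nat_lit 28056, nat_lit 27984, nat_lit 28008, nat_lit 28000] (nat_lit 3) [nat_lit 8320] false,
   Spec.mk (nat_lit 28008) (nat_lit 0) [nat_lit 14886, nat_lit 41130, nat_lit 23634, nat_lit 29466, nat_lit 27522, nat_lit 27846, nat_lit 28062, nat_lit 27990, nat_lit 28002] (nat_lit 1) [nat_lit 8326] false,
   Spec.mk (nat_lit 28028) (nat_lit 0) [nat_lit 14906, nat_lit 41150, nat_lit 23654, nat_lit 29486, nat_lit 27542, nat_lit 27866, nat_lit 28190, nat_lit 27974, nat_lit 28030] (nat_lit 0) [nat_lit 47710] false,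
   Spec.mk (nat_lit 28030) (nat_lit 0) [nat_lit 14908, nat_lit 41152, nat_lit 23656, nat_lit 29488, nat_lit 27544, nat_lit 27868, nat_lit 28192, nat_lit 27976, nat_lit 28036, nat_lit 28028, nat_lit 28032] (nat_lit 0) [nat_lit 47712, nat_lit 8348] false,
   Spec.mk (nat_lit 28032) (nat_lit 0) [nat_lit 14910, nat_lit 41154, nat_lit 23658, nat_lit 29490, nat_lit 27546, nat_lit 27870, nat_lit 28194, nat_lit 27978, nat_lit 28038, nat_lit 28030] (nat_lit 2) [nat_lit 8350] false,
   Spec.mk (nat_lit 28036) (nat_lit 0) [nat_lit 14914, nat_lit 41158, nat_lit 23662, nat_lit 29494, nat_lit 27550, nat_lit 27874, nat_lit 28198, nat_lit 27982, nat_lit 28054, nat_lit 28030, nat_lit 28038] (nat_lit 1) [nat_lit 47718, nat_lit 8354] false,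
   Spec.mk (nat_lit 28038) (nat_lit 0) [nat_lit 14916, nat_lit 41160, nat_lit 23664, nat_lit 29496, nat_lit 27552, nat_lit 27876, nat_lit 28200, nat_lit 27984, nat_lit 28056, nat_lit 28032, nat_lit 28044, nat_lit 28036] (nat_lit 1) [nat_lit 8356] false,
   Spec.mk (nat_lit 28044) (nat_lit 0) [nat_lit 14922, nat_lit 41166, nat_lit 23670, nat_lit 29502, nat_lit 27558, nat_lit 27882, nat_lit 28206, nat_lit 27990, nat_lit 28062, nat_lit 28038] (nat_lit 2) [nat_lit 8362] false,
   Spec.mk (nat_lit 28054) (nat_lit 0) [nat_lit 14932, nat_lit 41176, nat_lit 23680, nat_lit 29512, nat_lit 27568, nat_lit 27892, nat_lit 28216, nat_lit 28000, nat_lit 28108, nat_lit 28036, nat_lit 28056] (nat_lit 0) [nat_lit 47736, nat_lit 8372] false,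
   Spec.mk (nat_lit 28056) (nat_lit 0) [nat_lit 14934, nat_lit 41178, nat_lit 23682, nat_lit 29514, nat_lit 27570, nat_lit 27894, nat_lit 28218, nat_lit 28002, nat_lit 28110, nat_lit 28038, nat_lit 28062, nat_lit 28054] (nat_lit 1) [nat_lit 8374] false,
   Spec.mk (nat_lit 28062) (nat_lit 0) [nat_lit 14940, nat_lit 41184, nat_lit 23688, nat_lit 29520, nat_lit 27576, nat_lit 27900, nat_lit 28224, nat_lit 28008, nat_lit 28116, nat_lit 28044, nat_lit 28080, nat_lit 28056] (nat_lit 0) [nat_lit 8380] false]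

noncomputable def sp71 : List Spec :=
  [Spec.mk (nat_lit 28080) (nat_lit 0) [nat_lit 14958, nat_lit 41202, nat_lit 23706, nat_lit 29538, nat_lit 27594, nat_lit 27918, nat_lit 28242, nat_lit 28134, nat_lit 28062] (nat_lit 0) [nat_lit 8398] false,
   Spec.mk (nat_lit 28108) (nat_lit 0) [nat_lit 14986, nat_lit 41230, nat_lit 23734, nat_lit 29566, nat_lit 27622, nat_lit 28270, nat_lit 28054, nat_lit 28110] (nat_lit 0) [nat_lit 47790, nat_lit 8426] false,
   Spec.mk (nat_lit 28110) (nat_lit 0) [nat_lit 14988, nat_lit 41232, nat_lit 23736, nat_lit 29568, nat_lit 27624, nat_lit 28272, nat_lit 28056, nat_lit 28116, nat_lit 28108] (nat_lit 1) [nat_lit 8428] false,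
   Spec.mk (nat_lit 28116) (nat_lit 0) [nat_lit 14994, nat_lit 41238, nat_lit 23742, nat_lit 29574, nat_lit 27630, nat_lit 28278, nat_lit 28062, nat_lit 28134, nat_lit 28110] (nat_lit 1) [nat_lit 8434] false,
   Spec.mk (nat_lit 28134) (nat_lit 1) [nat_lit 15012, nat_lit 41256, nat_lit 23760, nat_lit 29592, nat_lit 27648, nat_lit 28296, nat_lit 28080, nat_lit 28116] (nat_lit 0) [nat_lit 8452] false,
   Spec.mk (nat_lit 28190) (nat_lit 1) [nat_lit 15068, nat_lit 41312, nat_lit 23816, nat_lit 29648, nat_lit 28028, nat_lit 28192] (nat_lit 0) [nat_lit 47872] false,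
   Spec.mk (nat_lit 28192) (nat_lit 1) [nat_lit 15070, nat_lit 41314, nat_lit 23818, nat_lit 29650, nat_lit 28030, nat_lit 28198, nat_lit 28190, nat_lit 28194] (nat_lit 0) [nat_lit 47874, nat_lit 8510] false,
   Spec.mk (nat_lit 28194) (nat_lit 0) [nat_lit 15072, nat_lit 41316, nat_lit 23820, nat_lit 29652, nat_lit 28032, nat_lit 28200, nat_lit 28192] (nat_lit 1) [nat_lit 8512] false,
   Spec.mk (nat_lit 28198) (nat_lit 0) [nat_lit 15076, nat_lit 41320, nat_lit 23824, nat_lit 29656, nat_lit 28036, nat_lit 28216, nat_lit 28192, nat_lit 28200] (nat_lit 0) [nat_lit 47880, nat_lit 8516] false,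
   Spec.mk (nat_lit 28200) (nat_lit 0) [nat_lit 15078, nat_lit 41322, nat_lit 23826, nat_lit 29658, nat_lit 28038, nat_lit 28218, nat_lit 28194, nat_lit 28206, nat_lit 28198] (nat_lit 0) [nat_lit 8518] false,
   Spec.mk (nat_lit 28206) (nat_lit 0) [nat_lit 15084, nat_lit 41328, nat_lit 23832, nat_lit 29664, nat_lit 28044, nat_lit 28224, nat_lit 28200] (nat_lit 1) [nat_lit 8524] false,
   Spec.mk (nat_lit 28216) (nat_lit 0) [nat_lit 15094, nat_lit 41338, nat_lit 23842, nat_lit 29674, nat_lit 28054, nat_lit 28270, nat_lit 28198, nat_lit 28218] (nat_lit 0) [nat_lit 47898, nat_lit 8534] false,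
   Spec.mk (nat_lit 28218) (nat_lit 0) [nat_lit 15096, nat_lit 41340, nat_lit 23844, nat_lit 29676, nat_lit 28056, nat_lit 28272, nat_lit 28200, nat_lit 28224, nat_lit 28216] (nat_lit 1) [nat_lit 8536] false,
   Spec.mk (nat_lit 28224) (nat_lit 0) [nat_lit 15102, nat_lit 41346, nat_lit 23850, nat_lit 29682, nat_lit 28062, nat_lit 28278, nat_lit 28206, nat_lit 28242, nat_lit 28218] (nat_lit 0) [nat_lit 8542] false,
   Spec.mk (nat_lit 28242) (nat_lit 0) [nat_lit 15120, nat_lit 41364, nat_lit 23868, nat_lit 29700, nat_lit 28080, nat_lit 28296, nat_lit 28224] (nat_lit 1) [nat_lit 8560] false,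
   Spec.mk (nat_lit 28270) (nat_lit 2) [nat_lit 15148, nat_lit 41392, nat_lit 23896, nat_lit 29728, nat_lit 28108, nat_lit 28216, nat_lit 28272] (nat_lit 0) [nat_lit 47952, nat_lit 8588] false,
   Spec.mk (nat_lit 28272) (nat_lit 1) [nat_lit 15150, nat_lit 41394, nat_lit 23898, nat_lit 29730, nat_lit 28110, nat_lit 28218, nat_lit 28278, nat_lit 28270] (nat_lit 0) [nat_lit 8590] false,
   Spec.mk (nat_lit 28278) (nat_lit 1) [nat_lit 15156, nat_lit 41400, nat_lit 23904, nat_lit 29736, nat_lit 28116, nat_lit 28224, nat_lit 28296, nat_lit 28272] (nat_lit 0) [nat_lit 8596] false,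
   Spec.mk (nat_lit 28296) (nat_lit 2) [nat_lit 15174, nat_lit 41418, nat_lit 23922, nat_lit 29754, nat_lit 28134, nat_lit 28242, nat_lit 28350, nat_lit 28278] (nat_lit 0) [nat_lit 8614] false,
   Spec.mk (nat_lit 28350) (nat_lit 3) [nat_lit 15228, nat_lit 41472, nat_lit 23976, nat_lit 29808, nat_lit 28296] (nat_lit 0) [nat_lit 8668] false,
   Spec.mk (nat_lit 28448) (nat_lit 4) [nat_lit 15326, nat_lit 41570, nat_lit 24074, nat_lit 32822, nat_lit 26990, nat_lit 28466, nat_lit 28454] (nat_lit 0) [nat_lit 48130] false,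
   Spec.mk (nat_lit 28454) (nat_lit 2) [nat_lit 15332, nat_lit 41576, nat_lit 24080, nat_lit 32828, nat_lit 26996, nat_lit 28472, nat_lit 28448, nat_lit 28456] (nat_lit 0) [nat_lit 48136] false,
   Spec.mk (nat_lit 28456) (nat_lit 3) [nat_lit 15334, nat_lit 41578, nat_lit 24082, nat_lit 32830, nat_lit 26998, nat_lit 28474, nat_lit 28454] (nat_lit 0) [nat_lit 48138, nat_lit 8774] false,
   Spec.mk (nat_lit 28466) (nat_lit 2) [nat_lit 15344, nat_lit 41588, nat_lit 24092, nat_lit 32840, nat_lit 27008, nat_lit 28520, nat_lit 28448, nat_lit 28472] (nat_lit 0) [nat_lit 48148] false,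
   Spec.mk (nat_lit 28472) (nat_lit 2) [nat_lit 15350, nat_lit 41594, nat_lit 24098, nat_lit 32846, nat_lit 27014, nat_lit 28526, nat_lit 28454, nat_lit 28490, nat_lit 28466, nat_lit 28478, nat_lit 28474] (nat_lit 0) [nat_lit 48154] false,
   Spec.mk (nat_lit 28474) (nat_lit 2) [nat_lit 15352, nat_lit 41596, nat_lit 24100, nat_lit 32848, nat_lit 27016, nat_lit 28528, nat_lit 28456, nat_lit 28492, nat_lit 28480, nat_lit 28472] (nat_lit 0) [nat_lit 48156, nat_lit 8792] false,
   Spec.mk (nat_lit 28478) (nat_lit 0) [nat_lit 15356, nat_lit 41600, nat_lit 24104, nat_lit 32852, nat_lit 27020, nat_lit 28532, nat_lit 28496, nat_lit 28472, nat_lit 28480] (nat_lit 0) [nat_lit 48160] false,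
   Spec.mk (nat_lit 28480) (nat_lit 2) [nat_lit 15358, nat_lit 41602, nat_lit 24106, nat_lit 32854, nat_lit 27022, nat_lit 28534, nat_lit 28498, nat_lit 28474, nat_lit 28478, nat_lit 28482] (nat_lit 0) [nat_lit 48162, nat_lit 8798] false,
   Spec.mk (nat_lit 28482) (nat_lit 2) [nat_lit 15360, nat_lit 41604, nat_lit 24108, nat_lit 32856, nat_lit 27024, nat_lit 28536, nat_lit 28500, nat_lit 28480] (nat_lit 0) [nat_lit 8800] false,
   Spec.mk (nat_lit 28490) (nat_lit 0) [nat_lit 15368, nat_lit 41612, nat_lit 24116, nat_lit 32864, nat_lit 27032, nat_lit 28544, nat_lit 28472, nat_lit 28496, nat_lit 28492] (nat_lit 0) [nat_lit 48172] false,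
   Spec.mk (nat_lit 28492) (nat_lit 0) [nat_lit 15370, nat_lit 41614, nat_lit 24118, nat_lit 32866, nat_lit 27034, nat_lit 28546, nat_lit 28474, nat_lit 28498, nat_lit 28490] (nat_lit 1) [nat_lit 48174, nat_lit 8810] false,
   Spec.mk (nat_lit 28496) (nat_lit 0) [nat_lit 15374, nat_lit 41618, nat_lit 24122, nat_lit 32870, nat_lit 27038, nat_lit 28550, nat_lit 28478, nat_lit 28490, nat_lit 28498] (nat_lit 0) [nat_lit 48178] false,
   Spec.mk (nat_lit 28498) (nat_lit 1) [nat_lit 15376, nat_lit 41620, nat_lit 24124, nat_lit 32872, nat_lit 27040, nat_lit 28552, nat_lit 28480, nat_lit 28492, nat_lit 28504, nat_lit 28496, nat_lit 28500] (nat_lit 0) [nat_lit 48180, nat_lit 8816] false,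
   Spec.mk (nat_lit 28500) (nat_lit 0) [nat_lit 15378, nat_lit 41622, nat_lit 24126, nat_lit 32874, nat_lit 27042, nat_lit 28554, nat_lit 28482, nat_lit 28506, nat_lit 28498] (nat_lit 0) [nat_lit 8818] false,
   Spec.mk (nat_lit 28504) (nat_lit 1) [nat_lit 15382, nat_lit 41626, nat_lit 24130, nat_lit 32878, nat_lit 27046, nat_lit 28558, nat_lit 28498, nat_lit 28506] (nat_lit 0) [nat_lit 48186, nat_lit 8822] false,
   Spec.mk (nat_lit 28506) (nat_lit 2) [nat_lit 15384, nat_lit 41628, nat_lit 24132, nat_lit 32880, nat_lit 27048, nat_lit 28560, nat_lit 28500, nat_lit 28504] (nat_lit 0) [nat_lit 8824] false,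
   Spec.mk (nat_lit 28520) (nat_lit 2) [nat_lit 15398, nat_lit 41642, nat_lit 24146, nat_lit 32894, nat_lit 27062, nat_lit 28682, nat_lit 28466, nat_lit 28526] (nat_lit 0) [nat_lit 48202] false,
   Spec.mk (nat_lit 28526) (nat_lit 1) [nat_lit 15404, nat_lit 41648, nat_lit 24152, nat_lit 32900, nat_lit 27068, nat_lit 28688, nat_lit 28472, nat_lit 28544, nat_lit 28520, nat_lit 28532, nat_lit 28528] (nat_lit 0) [nat_lit 48208] false,
   Spec.mk (nat_lit 28528) (nat_lit 1) [nat_lit 15406, nat_lit 41650, nat_lit 24154, nat_lit 32902, nat_lit 27070, nat_lit 28690, nat_lit 28474, nat_lit 28546, nat_lit 28534, nat_lit 28526] (nat_lit 0) [nat_lit 48210, nat_lit 8846] false,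
   Spec.mk (nat_lit 28532) (nat_lit 0) [nat_lit 15410, nat_lit 41654, nat_lit 24158, nat_lit 32906, nat_lit 27074, nat_lit 28694, nat_lit 28478, nat_lit 28550, nat_lit 28526, nat_lit 28534] (nat_lit 2) [nat_lit 48214] false,
   Spec.mk (nat_lit 28534) (nat_lit 0) [nat_lit 15412, nat_lit 41656, nat_lit 24160, nat_lit 32908, nat_lit 27076, nat_lit 28696, nat_lit 28480, nat_lit 28552, nat_lit 28528, nat_lit 28532, nat_lit 28536] (nat_lit 0) [nat_lit 48216, nat_lit 8852] false,
   Spec.mk (nat_lit 28536) (nat_lit 0) [nat_lit 15414, nat_lit 41658, nat_lit 24162, nat_lit 32910, nat_lit 27078, nat_lit 28698, nat_lit 28482, nat_lit 28554, nat_lit 28534] (nat_lit 0) [nat_lit 8854] false,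
   Spec.mk (nat_lit 28544) (nat_lit 1) [nat_lit 15422, nat_lit 41666, nat_lit 24170, nat_lit 32918, nat_lit 27086, nat_lit 28706, nat_lit 28490, nat_lit 28598, nat_lit 28526, nat_lit 28550, nat_lit 28546] (nat_lit 0) [nat_lit 48226] false,
   Spec.mk (nat_lit 28546) (nat_lit 0) [nat_lit 15424, nat_lit 41668, nat_lit 24172, nat_lit 32920, nat_lit 27088, nat_lit 28708, nat_lit 28492, nat_lit 28600, nat_lit 28528, nat_lit 28552, nat_lit 28544] (nat_lit 0) [nat_lit 48228, nat_lit 8864] false,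
   Spec.mk (nat_lit 28550) (nat_lit 0) [nat_lit 15428, nat_lit 41672, nat_lit 24176, nat_lit 32924, nat_lit 27092, nat_lit 28712, nat_lit 28496, nat_lit 28604, nat_lit 28532, nat_lit 28568, nat_lit 28544, nat_lit 28552] (nat_lit 0) [nat_lit 48232] false,
   Spec.mk (nat_lit 28552) (nat_lit 1) [nat_lit 15430, nat_lit 41674, nat_lit 24178, nat_lit 32926, nat_lit 27094, nat_lit 28714, nat_lit 28498, nat_lit 28606, nat_lit 28534, nat_lit 28570, nat_lit 28546, nat_lit 28558, nat_lit 28550, nat_lit 28554] (nat_lit 0) [nat_lit 48234, nat_lit 8870] false,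
   Spec.mk (nat_lit 28554) (nat_lit 0) [nat_lit 15432, nat_lit 41676, nat_lit 24180, nat_lit 32928, nat_lit 27096, nat_lit 28716, nat_lit 28500, nat_lit 28608, nat_lit 28536, nat_lit 28572, nat_lit 28560, nat_lit 28552] (nat_lit 0) [nat_lit 8872] false,
   Spec.mk (nat_lit 28558) (nat_lit 0) [nat_lit 15436, nat_lit 41680, nat_lit 24184, nat_lit 32932, nat_lit 27100, nat_lit 28720, nat_lit 28504, nat_lit 28612, nat_lit 28576, nat_lit 28552, nat_lit 28560] (nat_lit 0) [nat_lit 48240, nat_lit 8876] false,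
   Spec.mk (nat_lit 28560) (nat_lit 1) [nat_lit 15438, nat_lit 41682, nat_lit 24186, nat_lit 32934, nat_lit 27102, nat_lit 28722, nat_lit 28506, nat_lit 28614, nat_lit 28578, nat_lit 28554, nat_lit 28558] (nat_lit 0) [nat_lit 8878] false,
   Spec.mk (nat_lit 28568) (nat_lit 0) [nat_lit 15446, nat_lit 41690, nat_lit 24194, nat_lit 32942, nat_lit 27110, nat_lit 28730, nat_lit 28622, nat_lit 28550, nat_lit 28570] (nat_lit 0) [nat_lit 48250] false,
   Spec.mk (nat_lit 28570) (nat_lit 0) [nat_lit 15448, nat_lit 41692, nat_lit 24196, nat_lit 32944, nat_lit 27112, nat_lit 28732, nat_lit 28624, nat_lit 28552, nat_lit 28576, nat_lit 28568, nat_lit 28572] (nat_lit 0) [nat_lit 48252, nat_lit 8888] false,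
   Spec.mk (nat_lit 28572) (nat_lit 0) [nat_lit 15450, nat_lit 41694, nat_lit 24198, nat_lit 32946, nat_lit 27114, nat_lit 28734, nat_lit 28626, nat_lit 28554, nat_lit 28578, nat_lit 28570] (nat_lit 2) [nat_lit 8890] false,
   Spec.mk (nat_lit 28576) (nat_lit 1) [nat_lit 15454, nat_lit 41698, nat_lit 24202, nat_lit 32950, nat_lit 27118, nat_lit 28738, nat_lit 28630, nat_lit 28558, nat_lit 28570, nat_lit 28578] (nat_lit 0) [nat_lit 48258, nat_lit 8894] false,
   Spec.mk (nat_lit 28578) (nat_lit 1) [nat_lit 15456, nat_lit 41700, nat_lit 24204, nat_lit 32952, nat_lit 27120, nat_lit 28740, nat_lit 28632, nat_lit 28560, nat_lit 28572, nat_lit 28584, nat_lit 28576] (nat_lit 0) [nat_lit 8896] false,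
   Spec.mk (nat_lit 28584) (nat_lit 2) [nat_lit 15462, nat_lit 41706, nat_lit 24210, nat_lit 32958, nat_lit 27126, nat_lit 28746, nat_lit 28638, nat_lit 28578] (nat_lit 0) [nat_lit 8902] false,
   Spec.mk (nat_lit 28598) (nat_lit 0) [nat_lit 15476, nat_lit 41720, nat_lit 24224, nat_lit 32972, nat_lit 27140, nat_lit 28760, nat_lit 28544, nat_lit 28604, nat_lit 28600] (nat_lit 0) [nat_lit 48280] false,
   Spec.mk (nat_lit 28600) (nat_lit 0) [nat_lit 15478, nat_lit 41722, nat_lit 24226, nat_lit 32974, nat_lit 27142, nat_lit 28762, nat_lit 28546, nat_lit 28606, nat_lit 28598] (nat_lit 1) [nat_lit 48282, nat_lit 8918] false,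
   Spec.mk (nat_lit 28604) (nat_lit 0) [nat_lit 15482, nat_lit 41726, nat_lit 24230, nat_lit 32978, nat_lit 27146, nat_lit 28766, nat_lit 28550, nat_lit 28622, nat_lit 28598, nat_lit 28606] (nat_lit 2) [nat_lit 48286] false,
   Spec.mk (nat_lit 28606) (nat_lit 0) [nat_lit 15484, nat_lit 41728, nat_lit 24232, nat_lit 32980, nat_lit 27148, nat_lit 28768, nat_lit 28552, nat_lit 28624, nat_lit 28600, nat_lit 28612, nat_lit 28604, nat_lit 28608] (nat_lit 1) [nat_lit 48288, nat_lit 8924] false,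
   Spec.mk (nat_lit 28608) (nat_lit 0) [nat_lit 15486, nat_lit 41730, nat_lit 24234, nat_lit 32982, nat_lit 27150, nat_lit 28770, nat_lit 28554, nat_lit 28626, nat_lit 28614, nat_lit 28606] (nat_lit 2) [nat_lit 8926] false]

noncomputable def sp72 : List Spec :=
  [Spec.mk (nat_lit 28612) (nat_lit 0) [nat_lit 15490, nat_lit 41734, nat_lit 24238, nat_lit 32986, nat_lit 27154, nat_lit 28774, nat_lit 28558, nat_lit 28630, nat_lit 28606, nat_lit 28614] (nat_lit 3) [nat_lit 48294, nat_lit 8930] false,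
   Spec.mk (nat_lit 28614) (nat_lit 0) [nat_lit 15492, nat_lit 41736, nat_lit 24240, nat_lit 32988, nat_lit 27156, nat_lit 28776, nat_lit 28560, nat_lit 28632, nat_lit 28608, nat_lit 28612] (nat_lit 2) [nat_lit 8932] false,
   Spec.mk (nat_lit 28622) (nat_lit 0) [nat_lit 15500, nat_lit 41744, nat_lit 24248, nat_lit 32996, nat_lit 27164, nat_lit 28784, nat_lit 28568, nat_lit 28604, nat_lit 28624] (nat_lit 0) [nat_lit 48304] false,
   Spec.mk (nat_lit 28624) (nat_lit 0) [nat_lit 15502, nat_lit 41746, nat_lit 24250, nat_lit 32998, nat_lit 27166, nat_lit 28786, nat_lit 28570, nat_lit 28606, nat_lit 28630, nat_lit 28622, nat_lit 28626] (nat_lit 0) [nat_lit 48306, nat_lit 8942] false,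
   Spec.mk (nat_lit 28626) (nat_lit 0) [nat_lit 15504, nat_lit 41748, nat_lit 24252, nat_lit 33000, nat_lit 27168, nat_lit 28788, nat_lit 28572, nat_lit 28608, nat_lit 28632, nat_lit 28624] (nat_lit 2) [nat_lit 8944] false,
   Spec.mk (nat_lit 28630) (nat_lit 0) [nat_lit 15508, nat_lit 41752, nat_lit 24256, nat_lit 33004, nat_lit 27172, nat_lit 28792, nat_lit 28576, nat_lit 28612, nat_lit 28648, nat_lit 28624, nat_lit 28632] (nat_lit 0) [nat_lit 48312, nat_lit 8948] false,
   Spec.mk (nat_lit 28632) (nat_lit 0) [nat_lit 15510, nat_lit 41754, nat_lit 24258, nat_lit 33006, nat_lit 27174, nat_lit 28794, nat_lit 28578, nat_lit 28614, nat_lit 28650, nat_lit 28626, nat_lit 28638, nat_lit 28630] (nat_lit 0) [nat_lit 8950] false,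
   Spec.mk (nat_lit 28638) (nat_lit 0) [nat_lit 15516, nat_lit 41760, nat_lit 24264, nat_lit 33012, nat_lit 27180, nat_lit 28800, nat_lit 28584, nat_lit 28656, nat_lit 28632] (nat_lit 0) [nat_lit 8956] false,
   Spec.mk (nat_lit 28648) (nat_lit 1) [nat_lit 15526, nat_lit 41770, nat_lit 24274, nat_lit 33022, nat_lit 27190, nat_lit 28810, nat_lit 28630, nat_lit 28650] (nat_lit 0) [nat_lit 48330, nat_lit 8966] false,
   Spec.mk (nat_lit 28650) (nat_lit 0) [nat_lit 15528, nat_lit 41772, nat_lit 24276, nat_lit 33024, nat_lit 27192, nat_lit 28812, nat_lit 28632, nat_lit 28656, nat_lit 28648] (nat_lit 0) [nat_lit 8968] false,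
   Spec.mk (nat_lit 28656) (nat_lit 2) [nat_lit 15534, nat_lit 41778, nat_lit 24282, nat_lit 33030, nat_lit 27198, nat_lit 28818, nat_lit 28638, nat_lit 28650] (nat_lit 0) [nat_lit 8974] false,
   Spec.mk (nat_lit 28682) (nat_lit 2) [nat_lit 15560, nat_lit 41804, nat_lit 24308, nat_lit 33056, nat_lit 27224, nat_lit 29168, nat_lit 28520, nat_lit 28688] (nat_lit 0) [nat_lit 48364] false,
   Spec.mk (nat_lit 28688) (nat_lit 1) [nat_lit 15566, nat_lit 41810, nat_lit 24314, nat_lit 33062, nat_lit 27230, nat_lit 29174, nat_lit 28526, nat_lit 28706, nat_lit 28682, nat_lit 28694, nat_lit 28690] (nat_lit 0) [nat_lit 48370] false,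
   Spec.mk (nat_lit 28690) (nat_lit 1) [nat_lit 15568, nat_lit 41812, nat_lit 24316, nat_lit 33064, nat_lit 27232, nat_lit 29176, nat_lit 28528, nat_lit 28708, nat_lit 28696, nat_lit 28688] (nat_lit 0) [nat_lit 48372, nat_lit 9008] false,
   Spec.mk (nat_lit 28694) (nat_lit 0) [nat_lit 15572, nat_lit 41816, nat_lit 24320, nat_lit 33068, nat_lit 27236, nat_lit 29180, nat_lit 28532, nat_lit 28712, nat_lit 28688, nat_lit 28696] (nat_lit 2) [nat_lit 48376] false,
   Spec.mk (nat_lit 28696) (nat_lit 0) [nat_lit 15574, nat_lit 41818, nat_lit 24322, nat_lit 33070, nat_lit 27238, nat_lit 29182, nat_lit 28534, nat_lit 28714, nat_lit 28690, nat_lit 28694, nat_lit 28698] (nat_lit 0) [nat_lit 48378, nat_lit 9014] false,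
   Spec.mk (nat_lit 28698) (nat_lit 0) [nat_lit 15576, nat_lit 41820, nat_lit 24324, nat_lit 33072, nat_lit 27240, nat_lit 29184, nat_lit 28536, nat_lit 28716, nat_lit 28696] (nat_lit 0) [nat_lit 9016] false,
   Spec.mk (nat_lit 28706) (nat_lit 0) [nat_lit 15584, nat_lit 41828, nat_lit 24332, nat_lit 33080, nat_lit 27248, nat_lit 29192, nat_lit 28544, nat_lit 28760, nat_lit 28688, nat_lit 28712, nat_lit 28708] (nat_lit 0) [nat_lit 48388] false,
   Spec.mk (nat_lit 28708) (nat_lit 0) [nat_lit 15586, nat_lit 41830, nat_lit 24334, nat_lit 33082, nat_lit 27250, nat_lit 29194, nat_lit 28546, nat_lit 28762, nat_lit 28690, nat_lit 28714, nat_lit 28706] (nat_lit 1) [nat_lit 48390, nat_lit 9026] false,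
   Spec.mk (nat_lit 28712) (nat_lit 0) [nat_lit 15590, nat_lit 41834, nat_lit 24338, nat_lit 33086, nat_lit 27254, nat_lit 29198, nat_lit 28550, nat_lit 28766, nat_lit 28694, nat_lit 28730, nat_lit 28706, nat_lit 28714] (nat_lit 1) [nat_lit 48394] false,
   Spec.mk (nat_lit 28714) (nat_lit 0) [nat_lit 15592, nat_lit 41836, nat_lit 24340, nat_lit 33088, nat_lit 27256, nat_lit 29200, nat_lit 28552, nat_lit 28768, nat_lit 28696, nat_lit 28732, nat_lit 28708, nat_lit 28720, nat_lit 28712, nat_lit 28716] (nat_lit 0) [nat_lit 48396, nat_lit 9032] false,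
   Spec.mk (nat_lit 28716) (nat_lit 0) [nat_lit 15594, nat_lit 41838, nat_lit 24342, nat_lit 33090, nat_lit 27258, nat_lit 29202, nat_lit 28554, nat_lit 28770, nat_lit 28698, nat_lit 28734, nat_lit 28722, nat_lit 28714] (nat_lit 1) [nat_lit 9034] false,
   Spec.mk (nat_lit 28720) (nat_lit 0) [nat_lit 15598, nat_lit 41842, nat_lit 24346, nat_lit 33094, nat_lit 27262, nat_lit 29206, nat_lit 28558, nat_lit 28774, nat_lit 28738, nat_lit 28714, nat_lit 28722] (nat_lit 1) [nat_lit 48402, nat_lit 9038] false,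
   Spec.mk (nat_lit 28722) (nat_lit 0) [nat_lit 15600, nat_lit 41844, nat_lit 24348, nat_lit 33096, nat_lit 27264, nat_lit 29208, nat_lit 28560, nat_lit 28776, nat_lit 28740, nat_lit 28716, nat_lit 28720] (nat_lit 0) [nat_lit 9040] false,
   Spec.mk (nat_lit 28730) (nat_lit 0) [nat_lit 15608, nat_lit 41852, nat_lit 24356, nat_lit 33104, nat_lit 27272, nat_lit 29216, nat_lit 28568, nat_lit 28784, nat_lit 28712, nat_lit 28732] (nat_lit 2) [nat_lit 48412] false,
   Spec.mk (nat_lit 28732) (nat_lit 0) [nat_lit 15610, nat_lit 41854, nat_lit 24358, nat_lit 33106, nat_lit 27274, nat_lit 29218, nat_lit 28570, nat_lit 28786, nat_lit 28714, nat_lit 28738, nat_lit 28730, nat_lit 28734] (nat_lit 2) [nat_lit 48414, nat_lit 9050] false,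
   Spec.mk (nat_lit 28734) (nat_lit 0) [nat_lit 15612, nat_lit 41856, nat_lit 24360, nat_lit 33108, nat_lit 27276, nat_lit 29220, nat_lit 28572, nat_lit 28788, nat_lit 28716, nat_lit 28740, nat_lit 28732] (nat_lit 4) [nat_lit 9052] false,
   Spec.mk (nat_lit 28738) (nat_lit 0) [nat_lit 15616, nat_lit 41860, nat_lit 24364, nat_lit 33112, nat_lit 27280, nat_lit 29224, nat_lit 28576, nat_lit 28792, nat_lit 28720, nat_lit 28732, nat_lit 28740] (nat_lit 1) [nat_lit 48420, nat_lit 9056] false,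
   Spec.mk (nat_lit 28740) (nat_lit 0) [nat_lit 15618, nat_lit 41862, nat_lit 24366, nat_lit 33114, nat_lit 27282, nat_lit 29226, nat_lit 28578, nat_lit 28794, nat_lit 28722, nat_lit 28734, nat_lit 28746, nat_lit 28738] (nat_lit 1) [nat_lit 9058] false,
   Spec.mk (nat_lit 28746) (nat_lit 0) [nat_lit 15624, nat_lit 41868, nat_lit 24372, nat_lit 33120, nat_lit 27288, nat_lit 29232, nat_lit 28584, nat_lit 28800, nat_lit 28740] (nat_lit 0) [nat_lit 9064] false,
   Spec.mk (nat_lit 28760) (nat_lit 1) [nat_lit 15638, nat_lit 41882, nat_lit 24386, nat_lit 33134, nat_lit 27302, nat_lit 29246, nat_lit 28598, nat_lit 28922, nat_lit 28706, nat_lit 28766, nat_lit 28762] (nat_lit 0) [nat_lit 48442] false,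
   Spec.mk (nat_lit 28762) (nat_lit 0) [nat_lit 15640, nat_lit 41884, nat_lit 24388, nat_lit 33136, nat_lit 27304, nat_lit 29248, nat_lit 28600, nat_lit 28924, nat_lit 28708, nat_lit 28768, nat_lit 28760] (nat_lit 0) [nat_lit 48444, nat_lit 9080] false,
   Spec.mk (nat_lit 28766) (nat_lit 0) [nat_lit 15644, nat_lit 41888, nat_lit 24392, nat_lit 33140, nat_lit 27308, nat_lit 29252, nat_lit 28604, nat_lit 28928, nat_lit 28712, nat_lit 28784, nat_lit 28760, nat_lit 28768] (nat_lit 1) [nat_lit 48448] false,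
   Spec.mk (nat_lit 28768) (nat_lit 0) [nat_lit 15646, nat_lit 41890, nat_lit 24394, nat_lit 33142, nat_lit 27310, nat_lit 29254, nat_lit 28606, nat_lit 28930, nat_lit 28714, nat_lit 28786, nat_lit 28762, nat_lit 28774, nat_lit 28766, nat_lit 28770] (nat_lit 0) [nat_lit 48450, nat_lit 9086] false,
   Spec.mk (nat_lit 28770) (nat_lit 0) [nat_lit 15648, nat_lit 41892, nat_lit 24396, nat_lit 33144, nat_lit 27312, nat_lit 29256, nat_lit 28608, nat_lit 28932, nat_lit 28716, nat_lit 28788, nat_lit 28776, nat_lit 28768] (nat_lit 1) [nat_lit 9088] false,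
   Spec.mk (nat_lit 28774) (nat_lit 0) [nat_lit 15652, nat_lit 41896, nat_lit 24400, nat_lit 33148, nat_lit 27316, nat_lit 29260, nat_lit 28612, nat_lit 28936, nat_lit 28720, nat_lit 28792, nat_lit 28768, nat_lit 28776] (nat_lit 2) [nat_lit 48456, nat_lit 9092] false,
   Spec.mk (nat_lit 28776) (nat_lit 0) [nat_lit 15654, nat_lit 41898, nat_lit 24402, nat_lit 33150, nat_lit 27318, nat_lit 29262, nat_lit 28614, nat_lit 28938, nat_lit 28722, nat_lit 28794, nat_lit 28770, nat_lit 28774] (nat_lit 1) [nat_lit 9094] false,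
   Spec.mk (nat_lit 28784) (nat_lit 0) [nat_lit 15662, nat_lit 41906, nat_lit 24410, nat_lit 33158, nat_lit 27326, nat_lit 29270, nat_lit 28622, nat_lit 28946, nat_lit 28730, nat_lit 28838, nat_lit 28766, nat_lit 28786] (nat_lit 0) [nat_lit 48466] false,
   Spec.mk (nat_lit 28786) (nat_lit 0) [nat_lit 15664, nat_lit 41908, nat_lit 24412, nat_lit 33160, nat_lit 27328, nat_lit 29272, nat_lit 28624, nat_lit 28948, nat_lit 28732, nat_lit 28840, nat_lit 28768, nat_lit 28792, nat_lit 28784, nat_lit 28788] (nat_lit 0) [nat_lit 48468, nat_lit 9104] false,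
   Spec.mk (nat_lit 28788) (nat_lit 0) [nat_lit 15666, nat_lit 41910, nat_lit 24414, nat_lit 33162, nat_lit 27330, nat_lit 29274, nat_lit 28626, nat_lit 28950, nat_lit 28734, nat_lit 28842, nat_lit 28770, nat_lit 28794, nat_lit 28786] (nat_lit 2) [nat_lit 9106] false,
   Spec.mk (nat_lit 28792) (nat_lit 0) [nat_lit 15670, nat_lit 41914, nat_lit 24418, nat_lit 33166, nat_lit 27334, nat_lit 29278, nat_lit 28630, nat_lit 28954, nat_lit 28738, nat_lit 28846, nat_lit 28774, nat_lit 28810, nat_lit 28786, nat_lit 28794] (nat_lit 0) [nat_lit 48474, nat_lit 9110] false,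
   Spec.mk (nat_lit 28794) (nat_lit 0) [nat_lit 15672, nat_lit 41916, nat_lit 24420, nat_lit 33168, nat_lit 27336, nat_lit 29280, nat_lit 28632, nat_lit 28956, nat_lit 28740, nat_lit 28848, nat_lit 28776, nat_lit 28812, nat_lit 28788, nat_lit 28800, nat_lit 28792] (nat_lit 0) [nat_lit 9112] false,
   Spec.mk (nat_lit 28800) (nat_lit 0) [nat_lit 15678, nat_lit 41922, nat_lit 24426, nat_lit 33174, nat_lit 27342, nat_lit 29286, nat_lit 28638, nat_lit 28962, nat_lit 28746, nat_lit 28854, nat_lit 28818, nat_lit 28794] (nat_lit 0) [nat_lit 9118] false,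
   Spec.mk (nat_lit 28810) (nat_lit 0) [nat_lit 15688, nat_lit 41932, nat_lit 24436, nat_lit 33184, nat_lit 27352, nat_lit 29296, nat_lit 28648, nat_lit 28972, nat_lit 28864, nat_lit 28792, nat_lit 28812] (nat_lit 0) [nat_lit 48492, nat_lit 9128] false,
   Spec.mk (nat_lit 28812) (nat_lit 0) [nat_lit 15690, nat_lit 41934, nat_lit 24438, nat_lit 33186, nat_lit 27354, nat_lit 29298, nat_lit 28650, nat_lit 28974, nat_lit 28866, nat_lit 28794, nat_lit 28818, nat_lit 28810] (nat_lit 1) [nat_lit 9130] false,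
   Spec.mk (nat_lit 28818) (nat_lit 1) [nat_lit 15696, nat_lit 41940, nat_lit 24444, nat_lit 33192, nat_lit 27360, nat_lit 29304, nat_lit 28656, nat_lit 28980, nat_lit 28872, nat_lit 28800, nat_lit 28812] (nat_lit 0) [nat_lit 9136] false,
   Spec.mk (nat_lit 28838) (nat_lit 0) [nat_lit 15716, nat_lit 41960, nat_lit 24464, nat_lit 33212, nat_lit 27380, nat_lit 29324, nat_lit 29000, nat_lit 28784, nat_lit 28840] (nat_lit 0) [nat_lit 48520] false,
   Spec.mk (nat_lit 28840) (nat_lit 0) [nat_lit 15718, nat_lit 41962, nat_lit 24466, nat_lit 33214, nat_lit 27382, nat_lit 29326, nat_lit 29002, nat_lit 28786, nat_lit 28846, nat_lit 28838, nat_lit 28842] (nat_lit 0) [nat_lit 48522, nat_lit 9158] false,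
   Spec.mk (nat_lit 28842) (nat_lit 0) [nat_lit 15720, nat_lit 41964, nat_lit 24468, nat_lit 33216, nat_lit 27384, nat_lit 29328, nat_lit 29004, nat_lit 28788, nat_lit 28848, nat_lit 28840] (nat_lit 2) [nat_lit 9160] false,
   Spec.mk (nat_lit 28846) (nat_lit 0) [nat_lit 15724, nat_lit 41968, nat_lit 24472, nat_lit 33220, nat_lit 27388, nat_lit 29332, nat_lit 29008, nat_lit 28792, nat_lit 28864, nat_lit 28840, nat_lit 28848] (nat_lit 1) [nat_lit 48528, nat_lit 9164] false,
   Spec.mk (nat_lit 28848) (nat_lit 0) [nat_lit 15726, nat_lit 41970, nat_lit 24474, nat_lit 33222, nat_lit 27390, nat_lit 29334, nat_lit 29010, nat_lit 28794, nat_lit 28866, nat_lit 28842, nat_lit 28854, nat_lit 28846] (nat_lit 1) [nat_lit 9166] false,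
   Spec.mk (nat_lit 28854) (nat_lit 0) [nat_lit 15732, nat_lit 41976, nat_lit 24480, nat_lit 33228, nat_lit 27396, nat_lit 29340, nat_lit 29016, nat_lit 28800, nat_lit 28872, nat_lit 28848] (nat_lit 2) [nat_lit 9172] false,
   Spec.mk (nat_lit 28864) (nat_lit 1) [nat_lit 15742, nat_lit 41986, nat_lit 24490, nat_lit 33238, nat_lit 27406, nat_lit 29350, nat_lit 29026, nat_lit 28810, nat_lit 28846, nat_lit 28866] (nat_lit 0) [nat_lit 48546, nat_lit 9182] false,
   Spec.mk (nat_lit 28866) (nat_lit 0) [nat_lit 15744, nat_lit 41988, nat_lit 24492, nat_lit 33240, nat_lit 27408, nat_lit 29352, nat_lit 29028, nat_lit 28812, nat_lit 28848, nat_lit 28872, nat_lit 28864] (nat_lit 0) [nat_lit 9184] false,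
   Spec.mk (nat_lit 28872) (nat_lit 1) [nat_lit 15750, nat_lit 41994, nat_lit 24498, nat_lit 33246, nat_lit 27414, nat_lit 29358, nat_lit 29034, nat_lit 28818, nat_lit 28854, nat_lit 28890, nat_lit 28866] (nat_lit 0) [nat_lit 9190] false,
   Spec.mk (nat_lit 28890) (nat_lit 2) [nat_lit 15768, nat_lit 42012, nat_lit 24516, nat_lit 33264, nat_lit 27432, nat_lit 29376, nat_lit 29052, nat_lit 28872] (nat_lit 0) [nat_lit 9208] false,
   Spec.mk (nat_lit 28922) (nat_lit 0) [nat_lit 15800, nat_lit 42044, nat_lit 24548, nat_lit 33296, nat_lit 27464, nat_lit 29408, nat_lit 28760, nat_lit 28928, nat_lit 28924] (nat_lit 0) [nat_lit 48604] false,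
   Spec.mk (nat_lit 28924) (nat_lit 0) [nat_lit 15802, nat_lit 42046, nat_lit 24550, nat_lit 33298, nat_lit 27466, nat_lit 29410, nat_lit 28762, nat_lit 28930, nat_lit 28922] (nat_lit 1) [nat_lit 48606, nat_lit 9242] false,
   Spec.mk (nat_lit 28928) (nat_lit 0) [nat_lit 15806, nat_lit 42050, nat_lit 24554, nat_lit 33302, nat_lit 27470, nat_lit 29414, nat_lit 28766, nat_lit 28946, nat_lit 28922, nat_lit 28930] (nat_lit 2) [nat_lit 48610] false,
   Spec.mk (nat_lit 28930) (nat_lit 0) [nat_lit 15808, nat_lit 42052, nat_lit 24556, nat_lit 33304, nat_lit 27472, nat_lit 29416, nat_lit 28768, nat_lit 28948, nat_lit 28924, nat_lit 28936, nat_lit 28928, nat_lit 28932] (nat_lit 1) [nat_lit 48612, nat_lit 9248] false]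

noncomputable def sp73 : List Spec :=
  [Spec.mk (nat_lit 28932) (nat_lit 0) [nat_lit 15810, nat_lit 42054, nat_lit 24558, nat_lit 33306, nat_lit 27474, nat_lit 29418, nat_lit 28770, nat_lit 28950, nat_lit 28938, nat_lit 28930] (nat_lit 2) [nat_lit 9250] false,
   Spec.mk (nat_lit 28936) (nat_lit 0) [nat_lit 15814, nat_lit 42058, nat_lit 24562, nat_lit 33310, nat_lit 27478, nat_lit 29422, nat_lit 28774, nat_lit 28954, nat_lit 28930, nat_lit 28938] (nat_lit 3) [nat_lit 48618, nat_lit 9254] false,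
   Spec.mk (nat_lit 28938) (nat_lit 0) [nat_lit 15816, nat_lit 42060, nat_lit 24564, nat_lit 33312, nat_lit 27480, nat_lit 29424, nat_lit 28776, nat_lit 28956, nat_lit 28932, nat_lit 28936] (nat_lit 2) [nat_lit 9256] false,
   Spec.mk (nat_lit 28946) (nat_lit 0) [nat_lit 15824, nat_lit 42068, nat_lit 24572, nat_lit 33320, nat_lit 27488, nat_lit 29432, nat_lit 28784, nat_lit 29000, nat_lit 28928, nat_lit 28948] (nat_lit 2) [nat_lit 48628] false,
   Spec.mk (nat_lit 28948) (nat_lit 0) [nat_lit 15826, nat_lit 42070, nat_lit 24574, nat_lit 33322, nat_lit 27490, nat_lit 29434, nat_lit 28786, nat_lit 29002, nat_lit 28930, nat_lit 28954, nat_lit 28946, nat_lit 28950] (nat_lit 2) [nat_lit 48630, nat_lit 9266] false,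
   Spec.mk (nat_lit 28950) (nat_lit 0) [nat_lit 15828, nat_lit 42072, nat_lit 24576, nat_lit 33324, nat_lit 27492, nat_lit 29436, nat_lit 28788, nat_lit 29004, nat_lit 28932, nat_lit 28956, nat_lit 28948] (nat_lit 4) [nat_lit 9268] false,
   Spec.mk (nat_lit 28954) (nat_lit 0) [nat_lit 15832, nat_lit 42076, nat_lit 24580, nat_lit 33328, nat_lit 27496, nat_lit 29440, nat_lit 28792, nat_lit 29008, nat_lit 28936, nat_lit 28972, nat_lit 28948, nat_lit 28956] (nat_lit 2) [nat_lit 48636, nat_lit 9272] false,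
   Spec.mk (nat_lit 28956) (nat_lit 0) [nat_lit 15834, nat_lit 42078, nat_lit 24582, nat_lit 33330, nat_lit 27498, nat_lit 29442, nat_lit 28794, nat_lit 29010, nat_lit 28938, nat_lit 28974, nat_lit 28950, nat_lit 28962, nat_lit 28954] (nat_lit 2) [nat_lit 9274] false,
   Spec.mk (nat_lit 28962) (nat_lit 0) [nat_lit 15840, nat_lit 42084, nat_lit 24588, nat_lit 33336, nat_lit 27504, nat_lit 29448, nat_lit 28800, nat_lit 29016, nat_lit 28980, nat_lit 28956] (nat_lit 2) [nat_lit 9280] false,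
   Spec.mk (nat_lit 28972) (nat_lit 0) [nat_lit 15850, nat_lit 42094, nat_lit 24598, nat_lit 33346, nat_lit 27514, nat_lit 29458, nat_lit 28810, nat_lit 29026, nat_lit 28954, nat_lit 28974] (nat_lit 3) [nat_lit 48654, nat_lit 9290] false,
   Spec.mk (nat_lit 28974) (nat_lit 0) [nat_lit 15852, nat_lit 42096, nat_lit 24600, nat_lit 33348, nat_lit 27516, nat_lit 29460, nat_lit 28812, nat_lit 29028, nat_lit 28956, nat_lit 28980, nat_lit 28972] (nat_lit 4) [nat_lit 9292] false,
   Spec.mk (nat_lit 28980) (nat_lit 0) [nat_lit 15858, nat_lit 42102, nat_lit 24606, nat_lit 33354, nat_lit 27522, nat_lit 29466, nat_lit 28818, nat_lit 29034, nat_lit 28962, nat_lit 28974] (nat_lit 2) [nat_lit 9298] false,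
   Spec.mk (nat_lit 29000) (nat_lit 0) [nat_lit 15878, nat_lit 42122, nat_lit 24626, nat_lit 33374, nat_lit 27542, nat_lit 29486, nat_lit 28838, nat_lit 28946, nat_lit 29002] (nat_lit 0) [nat_lit 48682] false,
   Spec.mk (nat_lit 29002) (nat_lit 0) [nat_lit 15880, nat_lit 42124, nat_lit 24628, nat_lit 33376, nat_lit 27544, nat_lit 29488, nat_lit 28840, nat_lit 28948, nat_lit 29008, nat_lit 29000, nat_lit 29004] (nat_lit 0) [nat_lit 48684, nat_lit 9320] false,
   Spec.mk (nat_lit 29004) (nat_lit 0) [nat_lit 15882, nat_lit 42126, nat_lit 24630, nat_lit 33378, nat_lit 27546, nat_lit 29490, nat_lit 28842, nat_lit 28950, nat_lit 29010, nat_lit 29002] (nat_lit 2) [nat_lit 9322] false,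
   Spec.mk (nat_lit 29008) (nat_lit 0) [nat_lit 15886, nat_lit 42130, nat_lit 24634, nat_lit 33382, nat_lit 27550, nat_lit 29494, nat_lit 28846, nat_lit 28954, nat_lit 29026, nat_lit 29002, nat_lit 29010] (nat_lit 1) [nat_lit 48690, nat_lit 9326] false,
   Spec.mk (nat_lit 29010) (nat_lit 0) [nat_lit 15888, nat_lit 42132, nat_lit 24636, nat_lit 33384, nat_lit 27552, nat_lit 29496, nat_lit 28848, nat_lit 28956, nat_lit 29028, nat_lit 29004, nat_lit 29016, nat_lit 29008] (nat_lit 1) [nat_lit 9328] false,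
   Spec.mk (nat_lit 29016) (nat_lit 0) [nat_lit 15894, nat_lit 42138, nat_lit 24642, nat_lit 33390, nat_lit 27558, nat_lit 29502, nat_lit 28854, nat_lit 28962, nat_lit 29034, nat_lit 29010] (nat_lit 2) [nat_lit 9334] false,
   Spec.mk (nat_lit 29026) (nat_lit 0) [nat_lit 15904, nat_lit 42148, nat_lit 24652, nat_lit 33400, nat_lit 27568, nat_lit 29512, nat_lit 28864, nat_lit 28972, nat_lit 29080, nat_lit 29008, nat_lit 29028] (nat_lit 0) [nat_lit 48708, nat_lit 9344] false,
   Spec.mk (nat_lit 29028) (nat_lit 0) [nat_lit 15906, nat_lit 42150, nat_lit 24654, nat_lit 33402, nat_lit 27570, nat_lit 29514, nat_lit 28866, nat_lit 28974, nat_lit 29082, nat_lit 29010, nat_lit 29034, nat_lit 29026] (nat_lit 1) [nat_lit 9346] false,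
   Spec.mk (nat_lit 29034) (nat_lit 0) [nat_lit 15912, nat_lit 42156, nat_lit 24660, nat_lit 33408, nat_lit 27576, nat_lit 29520, nat_lit 28872, nat_lit 28980, nat_lit 29088, nat_lit 29016, nat_lit 29052, nat_lit 29028] (nat_lit 0) [nat_lit 9352] false,
   Spec.mk (nat_lit 29052) (nat_lit 0) [nat_lit 15930, nat_lit 42174, nat_lit 24678, nat_lit 33426, nat_lit 27594, nat_lit 29538, nat_lit 28890, nat_lit 29106, nat_lit 29034] (nat_lit 0) [nat_lit 9370] false,
   Spec.mk (nat_lit 29080) (nat_lit 1) [nat_lit 15958, nat_lit 42202, nat_lit 24706, nat_lit 33454, nat_lit 27622, nat_lit 29566, nat_lit 29026, nat_lit 29082] (nat_lit 0) [nat_lit 48762, nat_lit 9398] false,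
   Spec.mk (nat_lit 29082) (nat_lit 0) [nat_lit 15960, nat_lit 42204, nat_lit 24708, nat_lit 33456, nat_lit 27624, nat_lit 29568, nat_lit 29028, nat_lit 29088, nat_lit 29080] (nat_lit 0) [nat_lit 9400] false,
   Spec.mk (nat_lit 29088) (nat_lit 0) [nat_lit 15966, nat_lit 42210, nat_lit 24714, nat_lit 33462, nat_lit 27630, nat_lit 29574, nat_lit 29034, nat_lit 29106, nat_lit 29082] (nat_lit 0) [nat_lit 9406] false,
   Spec.mk (nat_lit 29106) (nat_lit 2) [nat_lit 15984, nat_lit 42228, nat_lit 24732, nat_lit 33480, nat_lit 27648, nat_lit 29592, nat_lit 29052, nat_lit 29088] (nat_lit 0) [nat_lit 9424] false,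
   Spec.mk (nat_lit 29168) (nat_lit 3) [nat_lit 16046, nat_lit 42290, nat_lit 24794, nat_lit 33542, nat_lit 27710, nat_lit 30626, nat_lit 28682, nat_lit 29174] (nat_lit 0) [nat_lit 48850] false,
   Spec.mk (nat_lit 29174) (nat_lit 2) [nat_lit 16052, nat_lit 42296, nat_lit 24800, nat_lit 33548, nat_lit 27716, nat_lit 30632, nat_lit 28688, nat_lit 29192, nat_lit 29168, nat_lit 29180, nat_lit 29176] (nat_lit 0) [nat_lit 48856] false,
   Spec.mk (nat_lit 29176) (nat_lit 2) [nat_lit 16054, nat_lit 42298, nat_lit 24802, nat_lit 33550, nat_lit 27718, nat_lit 30634, nat_lit 28690, nat_lit 29194, nat_lit 29182, nat_lit 29174] (nat_lit 0) [nat_lit 48858, nat_lit 9494] false,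
   Spec.mk (nat_lit 29180) (nat_lit 0) [nat_lit 16058, nat_lit 42302, nat_lit 24806, nat_lit 33554, nat_lit 27722, nat_lit 30638, nat_lit 28694, nat_lit 29198, nat_lit 29174, nat_lit 29182] (nat_lit 1) [nat_lit 48862] false,
   Spec.mk (nat_lit 29182) (nat_lit 1) [nat_lit 16060, nat_lit 42304, nat_lit 24808, nat_lit 33556, nat_lit 27724, nat_lit 30640, nat_lit 28696, nat_lit 29200, nat_lit 29176, nat_lit 29180, nat_lit 29184] (nat_lit 0) [nat_lit 48864, nat_lit 9500] false,
   Spec.mk (nat_lit 29184) (nat_lit 1) [nat_lit 16062, nat_lit 42306, nat_lit 24810, nat_lit 33558, nat_lit 27726, nat_lit 30642, nat_lit 28698, nat_lit 29202, nat_lit 29182] (nat_lit 0) [nat_lit 9502] false,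
   Spec.mk (nat_lit 29192) (nat_lit 1) [nat_lit 16070, nat_lit 42314, nat_lit 24818, nat_lit 33566, nat_lit 27734, nat_lit 30650, nat_lit 28706, nat_lit 29246, nat_lit 29174, nat_lit 29198, nat_lit 29194] (nat_lit 0) [nat_lit 48874] false,
   Spec.mk (nat_lit 29194) (nat_lit 0) [nat_lit 16072, nat_lit 42316, nat_lit 24820, nat_lit 33568, nat_lit 27736, nat_lit 30652, nat_lit 28708, nat_lit 29248, nat_lit 29176, nat_lit 29200, nat_lit 29192] (nat_lit 0) [nat_lit 48876, nat_lit 9512] false,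
   Spec.mk (nat_lit 29198) (nat_lit 0) [nat_lit 16076, nat_lit 42320, nat_lit 24824, nat_lit 33572, nat_lit 27740, nat_lit 30656, nat_lit 28712, nat_lit 29252, nat_lit 29180, nat_lit 29216, nat_lit 29192, nat_lit 29200] (nat_lit 0) [nat_lit 48880] false,
   Spec.mk (nat_lit 29200) (nat_lit 1) [nat_lit 16078, nat_lit 42322, nat_lit 24826, nat_lit 33574, nat_lit 27742, nat_lit 30658, nat_lit 28714, nat_lit 29254, nat_lit 29182, nat_lit 29218, nat_lit 29194, nat_lit 29206, nat_lit 29198, nat_lit 29202] (nat_lit 0) [nat_lit 48882, nat_lit 9518] false,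
   Spec.mk (nat_lit 29202) (nat_lit 0) [nat_lit 16080, nat_lit 42324, nat_lit 24828, nat_lit 33576, nat_lit 27744, nat_lit 30660, nat_lit 28716, nat_lit 29256, nat_lit 29184, nat_lit 29220, nat_lit 29208, nat_lit 29200] (nat_lit 0) [nat_lit 9520] false,
   Spec.mk (nat_lit 29206) (nat_lit 0) [nat_lit 16084, nat_lit 42328, nat_lit 24832, nat_lit 33580, nat_lit 27748, nat_lit 30664, nat_lit 28720, nat_lit 29260, nat_lit 29224, nat_lit 29200, nat_lit 29208] (nat_lit 0) [nat_lit 48888, nat_lit 9524] false,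
   Spec.mk (nat_lit 29208) (nat_lit 1) [nat_lit 16086, nat_lit 42330, nat_lit 24834, nat_lit 33582, nat_lit 27750, nat_lit 30666, nat_lit 28722, nat_lit 29262, nat_lit 29226, nat_lit 29202, nat_lit 29206] (nat_lit 0) [nat_lit 9526] false,
   Spec.mk (nat_lit 29216) (nat_lit 0) [nat_lit 16094, nat_lit 42338, nat_lit 24842, nat_lit 33590, nat_lit 27758, nat_lit 30674, nat_lit 28730, nat_lit 29270, nat_lit 29198, nat_lit 29218] (nat_lit 1) [nat_lit 48898] false,
   Spec.mk (nat_lit 29218) (nat_lit 0) [nat_lit 16096, nat_lit 42340, nat_lit 24844, nat_lit 33592, nat_lit 27760, nat_lit 30676, nat_lit 28732, nat_lit 29272, nat_lit 29200, nat_lit 29224, nat_lit 29216, nat_lit 29220] (nat_lit 1) [nat_lit 48900, nat_lit 9536] false,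
   Spec.mk (nat_lit 29220) (nat_lit 0) [nat_lit 16098, nat_lit 42342, nat_lit 24846, nat_lit 33594, nat_lit 27762, nat_lit 30678, nat_lit 28734, nat_lit 29274, nat_lit 29202, nat_lit 29226, nat_lit 29218] (nat_lit 3) [nat_lit 9538] false,
   Spec.mk (nat_lit 29224) (nat_lit 0) [nat_lit 16102, nat_lit 42346, nat_lit 24850, nat_lit 33598, nat_lit 27766, nat_lit 30682, nat_lit 28738, nat_lit 29278, nat_lit 29206, nat_lit 29218, nat_lit 29226] (nat_lit 0) [nat_lit 48906, nat_lit 9542] false,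
   Spec.mk (nat_lit 29226) (nat_lit 0) [nat_lit 16104, nat_lit 42348, nat_lit 24852, nat_lit 33600, nat_lit 27768, nat_lit 30684, nat_lit 28740, nat_lit 29280, nat_lit 29208, nat_lit 29220, nat_lit 29232, nat_lit 29224] (nat_lit 0) [nat_lit 9544] false,
   Spec.mk (nat_lit 29232) (nat_lit 1) [nat_lit 16110, nat_lit 42354, nat_lit 24858, nat_lit 33606, nat_lit 27774, nat_lit 30690, nat_lit 28746, nat_lit 29286, nat_lit 29226] (nat_lit 0) [nat_lit 9550] false,
   Spec.mk (nat_lit 29246) (nat_lit 1) [nat_lit 16124, nat_lit 42368, nat_lit 24872, nat_lit 33620, nat_lit 27788, nat_lit 30704, nat_lit 28760, nat_lit 29408, nat_lit 29192, nat_lit 29252, nat_lit 29248] (nat_lit 0) [nat_lit 48928] false,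
   Spec.mk (nat_lit 29248) (nat_lit 0) [nat_lit 16126, nat_lit 42370, nat_lit 24874, nat_lit 33622, nat_lit 27790, nat_lit 30706, nat_lit 28762, nat_lit 29410, nat_lit 29194, nat_lit 29254, nat_lit 29246] (nat_lit 0) [nat_lit 48930, nat_lit 9566] false,
   Spec.mk (nat_lit 29252) (nat_lit 0) [nat_lit 16130, nat_lit 42374, nat_lit 24878, nat_lit 33626, nat_lit 27794, nat_lit 30710, nat_lit 28766, nat_lit 29414, nat_lit 29198, nat_lit 29270, nat_lit 29246, nat_lit 29254] (nat_lit 1) [nat_lit 48934] false,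
   Spec.mk (nat_lit 29254) (nat_lit 0) [nat_lit 16132, nat_lit 42376, nat_lit 24880, nat_lit 33628, nat_lit 27796, nat_lit 30712, nat_lit 28768, nat_lit 29416, nat_lit 29200, nat_lit 29272, nat_lit 29248, nat_lit 29260, nat_lit 29252, nat_lit 29256] (nat_lit 0) [nat_lit 48936, nat_lit 9572] false,
   Spec.mk (nat_lit 29256) (nat_lit 0) [nat_lit 16134, nat_lit 42378, nat_lit 24882, nat_lit 33630, nat_lit 27798, nat_lit 30714, nat_lit 28770, nat_lit 29418, nat_lit 29202, nat_lit 29274, nat_lit 29262, nat_lit 29254] (nat_lit 1) [nat_lit 9574] false,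
   Spec.mk (nat_lit 29260) (nat_lit 0) [nat_lit 16138, nat_lit 42382, nat_lit 24886, nat_lit 33634, nat_lit 27802, nat_lit 30718, nat_lit 28774, nat_lit 29422, nat_lit 29206, nat_lit 29278, nat_lit 29254, nat_lit 29262] (nat_lit 2) [nat_lit 48942, nat_lit 9578] false,
   Spec.mk (nat_lit 29262) (nat_lit 0) [nat_lit 16140, nat_lit 42384, nat_lit 24888, nat_lit 33636, nat_lit 27804, nat_lit 30720, nat_lit 28776, nat_lit 29424, nat_lit 29208, nat_lit 29280, nat_lit 29256, nat_lit 29260] (nat_lit 1) [nat_lit 9580] false,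
   Spec.mk (nat_lit 29270) (nat_lit 0) [nat_lit 16148, nat_lit 42392, nat_lit 24896, nat_lit 33644, nat_lit 27812, nat_lit 30728, nat_lit 28784, nat_lit 29432, nat_lit 29216, nat_lit 29324, nat_lit 29252, nat_lit 29272] (nat_lit 0) [nat_lit 48952] false,
   Spec.mk (nat_lit 29272) (nat_lit 0) [nat_lit 16150, nat_lit 42394, nat_lit 24898, nat_lit 33646, nat_lit 27814, nat_lit 30730, nat_lit 28786, nat_lit 29434, nat_lit 29218, nat_lit 29326, nat_lit 29254, nat_lit 29278, nat_lit 29270, nat_lit 29274] (nat_lit 0) [nat_lit 48954, nat_lit 9590] false,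
   Spec.mk (nat_lit 29274) (nat_lit 0) [nat_lit 16152, nat_lit 42396, nat_lit 24900, nat_lit 33648, nat_lit 27816, nat_lit 30732, nat_lit 28788, nat_lit 29436, nat_lit 29220, nat_lit 29328, nat_lit 29256, nat_lit 29280, nat_lit 29272] (nat_lit 2) [nat_lit 9592] false,
   Spec.mk (nat_lit 29278) (nat_lit 0) [nat_lit 16156, nat_lit 42400, nat_lit 24904, nat_lit 33652, nat_lit 27820, nat_lit 30736, nat_lit 28792, nat_lit 29440, nat_lit 29224, nat_lit 29332, nat_lit 29260, nat_lit 29296, nat_lit 29272, nat_lit 29280] (nat_lit 0) [nat_lit 48960, nat_lit 9596] false,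
   Spec.mk (nat_lit 29280) (nat_lit 0) [nat_lit 16158, nat_lit 42402, nat_lit 24906, nat_lit 33654, nat_lit 27822, nat_lit 30738, nat_lit 28794, nat_lit 29442, nat_lit 29226, nat_lit 29334, nat_lit 29262, nat_lit 29298, nat_lit 29274, nat_lit 29286, nat_lit 29278] (nat_lit 0) [nat_lit 9598] false,
   Spec.mk (nat_lit 29286) (nat_lit 0) [nat_lit 16164, nat_lit 42408, nat_lit 24912, nat_lit 33660, nat_lit 27828, nat_lit 30744, nat_lit 28800, nat_lit 29448, nat_lit 29232, nat_lit 29340, nat_lit 29304, nat_lit 29280] (nat_lit 0) [nat_lit 9604] false,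
   Spec.mk (nat_lit 29296) (nat_lit 0) [nat_lit 16174, nat_lit 42418, nat_lit 24922, nat_lit 33670, nat_lit 27838, nat_lit 30754, nat_lit 28810, nat_lit 29458, nat_lit 29350, nat_lit 29278, nat_lit 29298] (nat_lit 0) [nat_lit 48978, nat_lit 9614] false,
   Spec.mk (nat_lit 29298) (nat_lit 0) [nat_lit 16176, nat_lit 42420, nat_lit 24924, nat_lit 33672, nat_lit 27840, nat_lit 30756, nat_lit 28812, nat_lit 29460, nat_lit 29352, nat_lit 29280, nat_lit 29304, nat_lit 29296] (nat_lit 1) [nat_lit 9616] false]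

noncomputable def sp74 : List Spec :=
  [Spec.mk (nat_lit 29304) (nat_lit 1) [nat_lit 16182, nat_lit 42426, nat_lit 24930, nat_lit 33678, nat_lit 27846, nat_lit 30762, nat_lit 28818, nat_lit 29466, nat_lit 29358, nat_lit 29286, nat_lit 29298] (nat_lit 0) [nat_lit 9622] false,
   Spec.mk (nat_lit 29324) (nat_lit 0) [nat_lit 16202, nat_lit 42446, nat_lit 24950, nat_lit 33698, nat_lit 27866, nat_lit 30782, nat_lit 28838, nat_lit 29486, nat_lit 29270, nat_lit 29326] (nat_lit 1) [nat_lit 49006] false,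
   Spec.mk (nat_lit 29326) (nat_lit 0) [nat_lit 16204, nat_lit 42448, nat_lit 24952, nat_lit 33700, nat_lit 27868, nat_lit 30784, nat_lit 28840, nat_lit 29488, nat_lit 29272, nat_lit 29332, nat_lit 29324, nat_lit 29328] (nat_lit 1) [nat_lit 49008, nat_lit 9644] false,
   Spec.mk (nat_lit 29328) (nat_lit 0) [nat_lit 16206, nat_lit 42450, nat_lit 24954, nat_lit 33702, nat_lit 27870, nat_lit 30786, nat_lit 28842, nat_lit 29490, nat_lit 29274, nat_lit 29334, nat_lit 29326] (nat_lit 3) [nat_lit 9646] false,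
   Spec.mk (nat_lit 29332) (nat_lit 0) [nat_lit 16210, nat_lit 42454, nat_lit 24958, nat_lit 33706, nat_lit 27874, nat_lit 30790, nat_lit 28846, nat_lit 29494, nat_lit 29278, nat_lit 29350, nat_lit 29326, nat_lit 29334] (nat_lit 2) [nat_lit 49014, nat_lit 9650] false,
   Spec.mk (nat_lit 29334) (nat_lit 0) [nat_lit 16212, nat_lit 42456, nat_lit 24960, nat_lit 33708, nat_lit 27876, nat_lit 30792, nat_lit 28848, nat_lit 29496, nat_lit 29280, nat_lit 29352, nat_lit 29328, nat_lit 29340, nat_lit 29332] (nat_lit 2) [nat_lit 9652] false,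
   Spec.mk (nat_lit 29340) (nat_lit 0) [nat_lit 16218, nat_lit 42462, nat_lit 24966, nat_lit 33714, nat_lit 27882, nat_lit 30798, nat_lit 28854, nat_lit 29502, nat_lit 29286, nat_lit 29358, nat_lit 29334] (nat_lit 3) [nat_lit 9658] false,
   Spec.mk (nat_lit 29350) (nat_lit 0) [nat_lit 16228, nat_lit 42472, nat_lit 24976, nat_lit 33724, nat_lit 27892, nat_lit 30808, nat_lit 28864, nat_lit 29512, nat_lit 29296, nat_lit 29332, nat_lit 29352] (nat_lit 0) [nat_lit 49032, nat_lit 9668] false,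
   Spec.mk (nat_lit 29352) (nat_lit 0) [nat_lit 16230, nat_lit 42474, nat_lit 24978, nat_lit 33726, nat_lit 27894, nat_lit 30810, nat_lit 28866, nat_lit 29514, nat_lit 29298, nat_lit 29334, nat_lit 29358, nat_lit 29350] (nat_lit 1) [nat_lit 9670] false,
   Spec.mk (nat_lit 29358) (nat_lit 0) [nat_lit 16236, nat_lit 42480, nat_lit 24984, nat_lit 33732, nat_lit 27900, nat_lit 30816, nat_lit 28872, nat_lit 29520, nat_lit 29304, nat_lit 29340, nat_lit 29376, nat_lit 29352] (nat_lit 0) [nat_lit 9676] false,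
   Spec.mk (nat_lit 29376) (nat_lit 1) [nat_lit 16254, nat_lit 42498, nat_lit 25002, nat_lit 33750, nat_lit 27918, nat_lit 30834, nat_lit 28890, nat_lit 29538, nat_lit 29358] (nat_lit 0) [nat_lit 9694] false,
   Spec.mk (nat_lit 29408) (nat_lit 2) [nat_lit 16286, nat_lit 42530, nat_lit 25034, nat_lit 33782, nat_lit 27950, nat_lit 30866, nat_lit 28922, nat_lit 29894, nat_lit 29246, nat_lit 29414, nat_lit 29410] (nat_lit 0) [nat_lit 49090] false,
   Spec.mk (nat_lit 29410) (nat_lit 1) [nat_lit 16288, nat_lit 42532, nat_lit 25036, nat_lit 33784, nat_lit 27952, nat_lit 30868, nat_lit 28924, nat_lit 29896, nat_lit 29248, nat_lit 29416, nat_lit 29408] (nat_lit 0) [nat_lit 49092, nat_lit 9728] false,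
   Spec.mk (nat_lit 29414) (nat_lit 0) [nat_lit 16292, nat_lit 42536, nat_lit 25040, nat_lit 33788, nat_lit 27956, nat_lit 30872, nat_lit 28928, nat_lit 29900, nat_lit 29252, nat_lit 29432, nat_lit 29408, nat_lit 29416] (nat_lit 0) [nat_lit 49096] false,
   Spec.mk (nat_lit 29416) (nat_lit 1) [nat_lit 16294, nat_lit 42538, nat_lit 25042, nat_lit 33790, nat_lit 27958, nat_lit 30874, nat_lit 28930, nat_lit 29902, nat_lit 29254, nat_lit 29434, nat_lit 29410, nat_lit 29422, nat_lit 29414, nat_lit 29418] (nat_lit 0) [nat_lit 49098, nat_lit 9734] false,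
   Spec.mk (nat_lit 29418) (nat_lit 0) [nat_lit 16296, nat_lit 42540, nat_lit 25044, nat_lit 33792, nat_lit 27960, nat_lit 30876, nat_lit 28932, nat_lit 29904, nat_lit 29256, nat_lit 29436, nat_lit 29424, nat_lit 29416] (nat_lit 0) [nat_lit 9736] false,
   Spec.mk (nat_lit 29422) (nat_lit 0) [nat_lit 16300, nat_lit 42544, nat_lit 25048, nat_lit 33796, nat_lit 27964, nat_lit 30880, nat_lit 28936, nat_lit 29908, nat_lit 29260, nat_lit 29440, nat_lit 29416, nat_lit 29424] (nat_lit 1) [nat_lit 49104, nat_lit 9740] false,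
   Spec.mk (nat_lit 29424) (nat_lit 0) [nat_lit 16302, nat_lit 42546, nat_lit 25050, nat_lit 33798, nat_lit 27966, nat_lit 30882, nat_lit 28938, nat_lit 29910, nat_lit 29262, nat_lit 29442, nat_lit 29418, nat_lit 29422] (nat_lit 0) [nat_lit 9742] false,
   Spec.mk (nat_lit 29432) (nat_lit 0) [nat_lit 16310, nat_lit 42554, nat_lit 25058, nat_lit 33806, nat_lit 27974, nat_lit 30890, nat_lit 28946, nat_lit 29918, nat_lit 29270, nat_lit 29486, nat_lit 29414, nat_lit 29434] (nat_lit 0) [nat_lit 49114] false,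
   Spec.mk (nat_lit 29434) (nat_lit 0) [nat_lit 16312, nat_lit 42556, nat_lit 25060, nat_lit 33808, nat_lit 27976, nat_lit 30892, nat_lit 28948, nat_lit 29920, nat_lit 29272, nat_lit 29488, nat_lit 29416, nat_lit 29440, nat_lit 29432, nat_lit 29436] (nat_lit 0) [nat_lit 49116, nat_lit 9752] false,
   Spec.mk (nat_lit 29436) (nat_lit 0) [nat_lit 16314, nat_lit 42558, nat_lit 25062, nat_lit 33810, nat_lit 27978, nat_lit 30894, nat_lit 28950, nat_lit 29922, nat_lit 29274, nat_lit 29490, nat_lit 29418, nat_lit 29442, nat_lit 29434] (nat_lit 2) [nat_lit 9754] false,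
   Spec.mk (nat_lit 29440) (nat_lit 0) [nat_lit 16318, nat_lit 42562, nat_lit 25066, nat_lit 33814, nat_lit 27982, nat_lit 30898, nat_lit 28954, nat_lit 29926, nat_lit 29278, nat_lit 29494, nat_lit 29422, nat_lit 29458, nat_lit 29434, nat_lit 29442] (nat_lit 0) [nat_lit 49122, nat_lit 9758] false,
   Spec.mk (nat_lit 29442) (nat_lit 0) [nat_lit 16320, nat_lit 42564, nat_lit 25068, nat_lit 33816, nat_lit 27984, nat_lit 30900, nat_lit 28956, nat_lit 29928, nat_lit 29280, nat_lit 29496, nat_lit 29424, nat_lit 29460, nat_lit 29436, nat_lit 29448, nat_lit 29440] (nat_lit 0) [nat_lit 9760] false,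
   Spec.mk (nat_lit 29448) (nat_lit 0) [nat_lit 16326, nat_lit 42570, nat_lit 25074, nat_lit 33822, nat_lit 27990, nat_lit 30906, nat_lit 28962, nat_lit 29934, nat_lit 29286, nat_lit 29502, nat_lit 29466, nat_lit 29442] (nat_lit 0) [nat_lit 9766] false,
   Spec.mk (nat_lit 29458) (nat_lit 0) [nat_lit 16336, nat_lit 42580, nat_lit 25084, nat_lit 33832, nat_lit 28000, nat_lit 30916, nat_lit 28972, nat_lit 29944, nat_lit 29296, nat_lit 29512, nat_lit 29440, nat_lit 29460] (nat_lit 1) [nat_lit 49140, nat_lit 9776] false,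
   Spec.mk (nat_lit 29460) (nat_lit 0) [nat_lit 16338, nat_lit 42582, nat_lit 25086, nat_lit 33834, nat_lit 28002, nat_lit 30918, nat_lit 28974, nat_lit 29946, nat_lit 29298, nat_lit 29514, nat_lit 29442, nat_lit 29466, nat_lit 29458] (nat_lit 2) [nat_lit 9778] false,
   Spec.mk (nat_lit 29466) (nat_lit 0) [nat_lit 16344, nat_lit 42588, nat_lit 25092, nat_lit 33840, nat_lit 28008, nat_lit 30924, nat_lit 28980, nat_lit 29952, nat_lit 29304, nat_lit 29520, nat_lit 29448, nat_lit 29460] (nat_lit 0) [nat_lit 9784] false,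
   Spec.mk (nat_lit 29486) (nat_lit 1) [nat_lit 16364, nat_lit 42608, nat_lit 25112, nat_lit 33860, nat_lit 28028, nat_lit 30944, nat_lit 29000, nat_lit 29972, nat_lit 29324, nat_lit 29648, nat_lit 29432, nat_lit 29488] (nat_lit 0) [nat_lit 49168] false,
   Spec.mk (nat_lit 29488) (nat_lit 1) [nat_lit 16366, nat_lit 42610, nat_lit 25114, nat_lit 33862, nat_lit 28030, nat_lit 30946, nat_lit 29002, nat_lit 29974, nat_lit 29326, nat_lit 29650, nat_lit 29434, nat_lit 29494, nat_lit 29486, nat_lit 29490] (nat_lit 0) [nat_lit 49170, nat_lit 9806] false,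
   Spec.mk (nat_lit 29490) (nat_lit 0) [nat_lit 16368, nat_lit 42612, nat_lit 25116, nat_lit 33864, nat_lit 28032, nat_lit 30948, nat_lit 29004, nat_lit 29976, nat_lit 29328, nat_lit 29652, nat_lit 29436, nat_lit 29496, nat_lit 29488] (nat_lit 1) [nat_lit 9808] false,
   Spec.mk (nat_lit 29494) (nat_lit 0) [nat_lit 16372, nat_lit 42616, nat_lit 25120, nat_lit 33868, nat_lit 28036, nat_lit 30952, nat_lit 29008, nat_lit 29980, nat_lit 29332, nat_lit 29656, nat_lit 29440, nat_lit 29512, nat_lit 29488, nat_lit 29496] (nat_lit 0) [nat_lit 49176, nat_lit 9812] false,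
   Spec.mk (nat_lit 29496) (nat_lit 0) [nat_lit 16374, nat_lit 42618, nat_lit 25122, nat_lit 33870, nat_lit 28038, nat_lit 30954, nat_lit 29010, nat_lit 29982, nat_lit 29334, nat_lit 29658, nat_lit 29442, nat_lit 29514, nat_lit 29490, nat_lit 29502, nat_lit 29494] (nat_lit 0) [nat_lit 9814] false,
   Spec.mk (nat_lit 29502) (nat_lit 0) [nat_lit 16380, nat_lit 42624, nat_lit 25128, nat_lit 33876, nat_lit 28044, nat_lit 30960, nat_lit 29016, nat_lit 29988, nat_lit 29340, nat_lit 29664, nat_lit 29448, nat_lit 29520, nat_lit 29496] (nat_lit 1) [nat_lit 9820] false,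
   Spec.mk (nat_lit 29512) (nat_lit 1) [nat_lit 16390, nat_lit 42634, nat_lit 25138, nat_lit 33886, nat_lit 28054, nat_lit 30970, nat_lit 29026, nat_lit 29998, nat_lit 29350, nat_lit 29674, nat_lit 29458, nat_lit 29566, nat_lit 29494, nat_lit 29514] (nat_lit 0) [nat_lit 49194, nat_lit 9830] false,
   Spec.mk (nat_lit 29514) (nat_lit 0) [nat_lit 16392, nat_lit 42636, nat_lit 25140, nat_lit 33888, nat_lit 28056, nat_lit 30972, nat_lit 29028, nat_lit 30000, nat_lit 29352, nat_lit 29676, nat_lit 29460, nat_lit 29568, nat_lit 29496, nat_lit 29520, nat_lit 29512] (nat_lit 0) [nat_lit 9832] false,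
   Spec.mk (nat_lit 29520) (nat_lit 1) [nat_lit 16398, nat_lit 42642, nat_lit 25146, nat_lit 33894, nat_lit 28062, nat_lit 30978, nat_lit 29034, nat_lit 30006, nat_lit 29358, nat_lit 29682, nat_lit 29466, nat_lit 29574, nat_lit 29502, nat_lit 29538, nat_lit 29514] (nat_lit 0) [nat_lit 9838] false,
   Spec.mk (nat_lit 29538) (nat_lit 1) [nat_lit 16416, nat_lit 42660, nat_lit 25164, nat_lit 33912, nat_lit 28080, nat_lit 30996, nat_lit 29052, nat_lit 30024, nat_lit 29376, nat_lit 29700, nat_lit 29592, nat_lit 29520] (nat_lit 0) [nat_lit 9856] false,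
   Spec.mk (nat_lit 29566) (nat_lit 1) [nat_lit 16444, nat_lit 42688, nat_lit 25192, nat_lit 33940, nat_lit 28108, nat_lit 31024, nat_lit 29080, nat_lit 30052, nat_lit 29728, nat_lit 29512, nat_lit 29568] (nat_lit 0) [nat_lit 49248, nat_lit 9884] false,
   Spec.mk (nat_lit 29568) (nat_lit 0) [nat_lit 16446, nat_lit 42690, nat_lit 25194, nat_lit 33942, nat_lit 28110, nat_lit 31026, nat_lit 29082, nat_lit 30054, nat_lit 29730, nat_lit 29514, nat_lit 29574, nat_lit 29566] (nat_lit 0) [nat_lit 9886] false,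
   Spec.mk (nat_lit 29574) (nat_lit 0) [nat_lit 16452, nat_lit 42696, nat_lit 25200, nat_lit 33948, nat_lit 28116, nat_lit 31032, nat_lit 29088, nat_lit 30060, nat_lit 29736, nat_lit 29520, nat_lit 29592, nat_lit 29568] (nat_lit 0) [nat_lit 9892] false,
   Spec.mk (nat_lit 29592) (nat_lit 2) [nat_lit 16470, nat_lit 42714, nat_lit 25218, nat_lit 33966, nat_lit 28134, nat_lit 31050, nat_lit 29106, nat_lit 30078, nat_lit 29754, nat_lit 29538, nat_lit 29574] (nat_lit 0) [nat_lit 9910] false,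
   Spec.mk (nat_lit 29648) (nat_lit 1) [nat_lit 16526, nat_lit 42770, nat_lit 25274, nat_lit 34022, nat_lit 28190, nat_lit 31106, nat_lit 30134, nat_lit 29486, nat_lit 29650] (nat_lit 0) [nat_lit 49330] false,
   Spec.mk (nat_lit 29650) (nat_lit 1) [nat_lit 16528, nat_lit 42772, nat_lit 25276, nat_lit 34024, nat_lit 28192, nat_lit 31108, nat_lit 30136, nat_lit 29488, nat_lit 29656, nat_lit 29648, nat_lit 29652] (nat_lit 0) [nat_lit 49332, nat_lit 9968] false,
   Spec.mk (nat_lit 29652) (nat_lit 0) [nat_lit 16530, nat_lit 42774, nat_lit 25278, nat_lit 34026, nat_lit 28194, nat_lit 31110, nat_lit 30138, nat_lit 29490, nat_lit 29658, nat_lit 29650] (nat_lit 1) [nat_lit 9970] false,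
   Spec.mk (nat_lit 29656) (nat_lit 0) [nat_lit 16534, nat_lit 42778, nat_lit 25282, nat_lit 34030, nat_lit 28198, nat_lit 31114, nat_lit 30142, nat_lit 29494, nat_lit 29674, nat_lit 29650, nat_lit 29658] (nat_lit 0) [nat_lit 49338, nat_lit 9974] false,
   Spec.mk (nat_lit 29658) (nat_lit 0) [nat_lit 16536, nat_lit 42780, nat_lit 25284, nat_lit 34032, nat_lit 28200, nat_lit 31116, nat_lit 30144, nat_lit 29496, nat_lit 29676, nat_lit 29652, nat_lit 29664, nat_lit 29656] (nat_lit 0) [nat_lit 9976] false,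
   Spec.mk (nat_lit 29664) (nat_lit 0) [nat_lit 16542, nat_lit 42786, nat_lit 25290, nat_lit 34038, nat_lit 28206, nat_lit 31122, nat_lit 30150, nat_lit 29502, nat_lit 29682, nat_lit 29658] (nat_lit 1) [nat_lit 9982] false,
   Spec.mk (nat_lit 29674) (nat_lit 0) [nat_lit 16552, nat_lit 42796, nat_lit 25300, nat_lit 34048, nat_lit 28216, nat_lit 31132, nat_lit 30160, nat_lit 29512, nat_lit 29728, nat_lit 29656, nat_lit 29676] (nat_lit 0) [nat_lit 49356, nat_lit 9992] false,
   Spec.mk (nat_lit 29676) (nat_lit 0) [nat_lit 16554, nat_lit 42798, nat_lit 25302, nat_lit 34050, nat_lit 28218, nat_lit 31134, nat_lit 30162, nat_lit 29514, nat_lit 29730, nat_lit 29658, nat_lit 29682, nat_lit 29674] (nat_lit 1) [nat_lit 9994] false,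
   Spec.mk (nat_lit 29682) (nat_lit 0) [nat_lit 16560, nat_lit 42804, nat_lit 25308, nat_lit 34056, nat_lit 28224, nat_lit 31140, nat_lit 30168, nat_lit 29520, nat_lit 29736, nat_lit 29664, nat_lit 29700, nat_lit 29676] (nat_lit 0) [nat_lit 10000] false,
   Spec.mk (nat_lit 29700) (nat_lit 0) [nat_lit 16578, nat_lit 42822, nat_lit 25326, nat_lit 34074, nat_lit 28242, nat_lit 31158, nat_lit 30186, nat_lit 29538, nat_lit 29754, nat_lit 29682] (nat_lit 1) [nat_lit 10018] false,
   Spec.mk (nat_lit 29728) (nat_lit 2) [nat_lit 16606, nat_lit 42850, nat_lit 25354, nat_lit 34102, nat_lit 28270, nat_lit 31186, nat_lit 30214, nat_lit 29566, nat_lit 29674, nat_lit 29730] (nat_lit 0) [nat_lit 49410, nat_lit 10046] false,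
   Spec.mk (nat_lit 29730) (nat_lit 1) [nat_lit 16608, nat_lit 42852, nat_lit 25356, nat_lit 34104, nat_lit 28272, nat_lit 31188, nat_lit 30216, nat_lit 29568, nat_lit 29676, nat_lit 29736, nat_lit 29728] (nat_lit 0) [nat_lit 10048] false,
   Spec.mk (nat_lit 29736) (nat_lit 1) [nat_lit 16614, nat_lit 42858, nat_lit 25362, nat_lit 34110, nat_lit 28278, nat_lit 31194, nat_lit 30222, nat_lit 29574, nat_lit 29682, nat_lit 29754, nat_lit 29730] (nat_lit 0) [nat_lit 10054] false,
   Spec.mk (nat_lit 29754) (nat_lit 2) [nat_lit 16632, nat_lit 42876, nat_lit 25380, nat_lit 34128, nat_lit 28296, nat_lit 31212, nat_lit 30240, nat_lit 29592, nat_lit 29700, nat_lit 29808, nat_lit 29736] (nat_lit 0) [nat_lit 10072] false,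
   Spec.mk (nat_lit 29808) (nat_lit 3) [nat_lit 16686, nat_lit 42930, nat_lit 25434, nat_lit 34182, nat_lit 28350, nat_lit 31266, nat_lit 30294, nat_lit 29754] (nat_lit 0) [nat_lit 10126] false,
   Spec.mk (nat_lit 29894) (nat_lit 2) [nat_lit 16772, nat_lit 43016, nat_lit 25520, nat_lit 34268, nat_lit 31352, nat_lit 29408, nat_lit 29900, nat_lit 29896] (nat_lit 0) [nat_lit 49576] false,
   Spec.mk (nat_lit 29896) (nat_lit 1) [nat_lit 16774, nat_lit 43018, nat_lit 25522, nat_lit 34270, nat_lit 31354, nat_lit 29410, nat_lit 29902, nat_lit 29894] (nat_lit 0) [nat_lit 49578, nat_lit 10214] false,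
   Spec.mk (nat_lit 29900) (nat_lit 0) [nat_lit 16778, nat_lit 43022, nat_lit 25526, nat_lit 34274, nat_lit 31358, nat_lit 29414, nat_lit 29918, nat_lit 29894, nat_lit 29902] (nat_lit 0) [nat_lit 49582] false,
   Spec.mk (nat_lit 29902) (nat_lit 1) [nat_lit 16780, nat_lit 43024, nat_lit 25528, nat_lit 34276, nat_lit 31360, nat_lit 29416, nat_lit 29920, nat_lit 29896, nat_lit 29908, nat_lit 29900, nat_lit 29904] (nat_lit 0) [nat_lit 49584, nat_lit 10220] false]

noncomputable def sp75 : List Spec :=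
  [Spec.mk (nat_lit 29904) (nat_lit 0) [nat_lit 16782, nat_lit 43026, nat_lit 25530, nat_lit 34278, nat_lit 31362, nat_lit 29418, nat_lit 29922, nat_lit 29910, nat_lit 29902] (nat_lit 0) [nat_lit 10222] false,
   Spec.mk (nat_lit 29908) (nat_lit 0) [nat_lit 16786, nat_lit 43030, nat_lit 25534, nat_lit 34282, nat_lit 31366, nat_lit 29422, nat_lit 29926, nat_lit 29902, nat_lit 29910] (nat_lit 1) [nat_lit 49590, nat_lit 10226] false,
   Spec.mk (nat_lit 29910) (nat_lit 0) [nat_lit 16788, nat_lit 43032, nat_lit 25536, nat_lit 34284, nat_lit 31368, nat_lit 29424, nat_lit 29928, nat_lit 29904, nat_lit 29908] (nat_lit 0) [nat_lit 10228] false,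
   Spec.mk (nat_lit 29918) (nat_lit 0) [nat_lit 16796, nat_lit 43040, nat_lit 25544, nat_lit 34292, nat_lit 31376, nat_lit 29432, nat_lit 29972, nat_lit 29900, nat_lit 29920] (nat_lit 0) [nat_lit 49600] false,
   Spec.mk (nat_lit 29920) (nat_lit 0) [nat_lit 16798, nat_lit 43042, nat_lit 25546, nat_lit 34294, nat_lit 31378, nat_lit 29434, nat_lit 29974, nat_lit 29902, nat_lit 29926, nat_lit 29918, nat_lit 29922] (nat_lit 0) [nat_lit 49602, nat_lit 10238] false,
   Spec.mk (nat_lit 29922) (nat_lit 0) [nat_lit 16800, nat_lit 43044, nat_lit 25548, nat_lit 34296, nat_lit 31380, nat_lit 29436, nat_lit 29976, nat_lit 29904, nat_lit 29928, nat_lit 29920] (nat_lit 2) [nat_lit 10240] false,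
   Spec.mk (nat_lit 29926) (nat_lit 0) [nat_lit 16804, nat_lit 43048, nat_lit 25552, nat_lit 34300, nat_lit 31384, nat_lit 29440, nat_lit 29980, nat_lit 29908, nat_lit 29944, nat_lit 29920, nat_lit 29928] (nat_lit 0) [nat_lit 49608, nat_lit 10244] false,
   Spec.mk (nat_lit 29928) (nat_lit 0) [nat_lit 16806, nat_lit 43050, nat_lit 25554, nat_lit 34302, nat_lit 31386, nat_lit 29442, nat_lit 29982, nat_lit 29910, nat_lit 29946, nat_lit 29922, nat_lit 29934, nat_lit 29926] (nat_lit 0) [nat_lit 10246] false,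
   Spec.mk (nat_lit 29934) (nat_lit 0) [nat_lit 16812, nat_lit 43056, nat_lit 25560, nat_lit 34308, nat_lit 31392, nat_lit 29448, nat_lit 29988, nat_lit 29952, nat_lit 29928] (nat_lit 0) [nat_lit 10252] false,
   Spec.mk (nat_lit 29944) (nat_lit 0) [nat_lit 16822, nat_lit 43066, nat_lit 25570, nat_lit 34318, nat_lit 31402, nat_lit 29458, nat_lit 29998, nat_lit 29926, nat_lit 29946] (nat_lit 1) [nat_lit 49626, nat_lit 10262] false,
   Spec.mk (nat_lit 29946) (nat_lit 0) [nat_lit 16824, nat_lit 43068, nat_lit 25572, nat_lit 34320, nat_lit 31404, nat_lit 29460, nat_lit 30000, nat_lit 29928, nat_lit 29952, nat_lit 29944] (nat_lit 2) [nat_lit 10264] false,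
   Spec.mk (nat_lit 29952) (nat_lit 0) [nat_lit 16830, nat_lit 43074, nat_lit 25578, nat_lit 34326, nat_lit 31410, nat_lit 29466, nat_lit 30006, nat_lit 29934, nat_lit 29946] (nat_lit 0) [nat_lit 10270] false,
   Spec.mk (nat_lit 29972) (nat_lit 0) [nat_lit 16850, nat_lit 43094, nat_lit 25598, nat_lit 34346, nat_lit 31430, nat_lit 29486, nat_lit 30134, nat_lit 29918, nat_lit 29974] (nat_lit 0) [nat_lit 49654] false,
   Spec.mk (nat_lit 29974) (nat_lit 0) [nat_lit 16852, nat_lit 43096, nat_lit 25600, nat_lit 34348, nat_lit 31432, nat_lit 29488, nat_lit 30136, nat_lit 29920, nat_lit 29980, nat_lit 29972, nat_lit 29976] (nat_lit 0) [nat_lit 49656, nat_lit 10292] false,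
   Spec.mk (nat_lit 29976) (nat_lit 0) [nat_lit 16854, nat_lit 43098, nat_lit 25602, nat_lit 34350, nat_lit 31434, nat_lit 29490, nat_lit 30138, nat_lit 29922, nat_lit 29982, nat_lit 29974] (nat_lit 2) [nat_lit 10294] false,
   Spec.mk (nat_lit 29980) (nat_lit 0) [nat_lit 16858, nat_lit 43102, nat_lit 25606, nat_lit 34354, nat_lit 31438, nat_lit 29494, nat_lit 30142, nat_lit 29926, nat_lit 29998, nat_lit 29974, nat_lit 29982] (nat_lit 1) [nat_lit 49662, nat_lit 10298] false,
   Spec.mk (nat_lit 29982) (nat_lit 0) [nat_lit 16860, nat_lit 43104, nat_lit 25608, nat_lit 34356, nat_lit 31440, nat_lit 29496, nat_lit 30144, nat_lit 29928, nat_lit 30000, nat_lit 29976, nat_lit 29988, nat_lit 29980] (nat_lit 1) [nat_lit 10300] false,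
   Spec.mk (nat_lit 29988) (nat_lit 0) [nat_lit 16866, nat_lit 43110, nat_lit 25614, nat_lit 34362, nat_lit 31446, nat_lit 29502, nat_lit 30150, nat_lit 29934, nat_lit 30006, nat_lit 29982] (nat_lit 2) [nat_lit 10306] false,
   Spec.mk (nat_lit 29998) (nat_lit 0) [nat_lit 16876, nat_lit 43120, nat_lit 25624, nat_lit 34372, nat_lit 31456, nat_lit 29512, nat_lit 30160, nat_lit 29944, nat_lit 30052, nat_lit 29980, nat_lit 30000] (nat_lit 0) [nat_lit 49680, nat_lit 10316] false,
   Spec.mk (nat_lit 30000) (nat_lit 0) [nat_lit 16878, nat_lit 43122, nat_lit 25626, nat_lit 34374, nat_lit 31458, nat_lit 29514, nat_lit 30162, nat_lit 29946, nat_lit 30054, nat_lit 29982, nat_lit 30006, nat_lit 29998] (nat_lit 1) [nat_lit 10318] false,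
   Spec.mk (nat_lit 30006) (nat_lit 0) [nat_lit 16884, nat_lit 43128, nat_lit 25632, nat_lit 34380, nat_lit 31464, nat_lit 29520, nat_lit 30168, nat_lit 29952, nat_lit 30060, nat_lit 29988, nat_lit 30024, nat_lit 30000] (nat_lit 0) [nat_lit 10324] false,
   Spec.mk (nat_lit 30024) (nat_lit 0) [nat_lit 16902, nat_lit 43146, nat_lit 25650, nat_lit 34398, nat_lit 31482, nat_lit 29538, nat_lit 30186, nat_lit 30078, nat_lit 30006] (nat_lit 0) [nat_lit 10342] false,
   Spec.mk (nat_lit 30052) (nat_lit 0) [nat_lit 16930, nat_lit 43174, nat_lit 25678, nat_lit 34426, nat_lit 31510, nat_lit 29566, nat_lit 30214, nat_lit 29998, nat_lit 30054] (nat_lit 1) [nat_lit 49734, nat_lit 10370] false,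
   Spec.mk (nat_lit 30054) (nat_lit 0) [nat_lit 16932, nat_lit 43176, nat_lit 25680, nat_lit 34428, nat_lit 31512, nat_lit 29568, nat_lit 30216, nat_lit 30000, nat_lit 30060, nat_lit 30052] (nat_lit 2) [nat_lit 10372] false,
   Spec.mk (nat_lit 30060) (nat_lit 0) [nat_lit 16938, nat_lit 43182, nat_lit 25686, nat_lit 34434, nat_lit 31518, nat_lit 29574, nat_lit 30222, nat_lit 30006, nat_lit 30078, nat_lit 30054] (nat_lit 2) [nat_lit 10378] false,
   Spec.mk (nat_lit 30078) (nat_lit 0) [nat_lit 16956, nat_lit 43200, nat_lit 25704, nat_lit 34452, nat_lit 31536, nat_lit 29592, nat_lit 30240, nat_lit 30024, nat_lit 30060] (nat_lit 0) [nat_lit 10396] false,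
   Spec.mk (nat_lit 30134) (nat_lit 2) [nat_lit 17012, nat_lit 43256, nat_lit 25760, nat_lit 34508, nat_lit 31592, nat_lit 29648, nat_lit 29972, nat_lit 30136] (nat_lit 0) [nat_lit 49816] false,
   Spec.mk (nat_lit 30136) (nat_lit 2) [nat_lit 17014, nat_lit 43258, nat_lit 25762, nat_lit 34510, nat_lit 31594, nat_lit 29650, nat_lit 29974, nat_lit 30142, nat_lit 30134, nat_lit 30138] (nat_lit 0) [nat_lit 49818, nat_lit 10454] false,
   Spec.mk (nat_lit 30138) (nat_lit 0) [nat_lit 17016, nat_lit 43260, nat_lit 25764, nat_lit 34512, nat_lit 31596, nat_lit 29652, nat_lit 29976, nat_lit 30144, nat_lit 30136] (nat_lit 0) [nat_lit 10456] false,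
   Spec.mk (nat_lit 30142) (nat_lit 1) [nat_lit 17020, nat_lit 43264, nat_lit 25768, nat_lit 34516, nat_lit 31600, nat_lit 29656, nat_lit 29980, nat_lit 30160, nat_lit 30136, nat_lit 30144] (nat_lit 0) [nat_lit 49824, nat_lit 10460] false,
   Spec.mk (nat_lit 30144) (nat_lit 1) [nat_lit 17022, nat_lit 43266, nat_lit 25770, nat_lit 34518, nat_lit 31602, nat_lit 29658, nat_lit 29982, nat_lit 30162, nat_lit 30138, nat_lit 30150, nat_lit 30142] (nat_lit 0) [nat_lit 10462] false,
   Spec.mk (nat_lit 30150) (nat_lit 0) [nat_lit 17028, nat_lit 43272, nat_lit 25776, nat_lit 34524, nat_lit 31608, nat_lit 29664, nat_lit 29988, nat_lit 30168, nat_lit 30144] (nat_lit 0) [nat_lit 10468] false,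
   Spec.mk (nat_lit 30160) (nat_lit 1) [nat_lit 17038, nat_lit 43282, nat_lit 25786, nat_lit 34534, nat_lit 31618, nat_lit 29674, nat_lit 29998, nat_lit 30214, nat_lit 30142, nat_lit 30162] (nat_lit 0) [nat_lit 49842, nat_lit 10478] false,
   Spec.mk (nat_lit 30162) (nat_lit 0) [nat_lit 17040, nat_lit 43284, nat_lit 25788, nat_lit 34536, nat_lit 31620, nat_lit 29676, nat_lit 30000, nat_lit 30216, nat_lit 30144, nat_lit 30168, nat_lit 30160] (nat_lit 0) [nat_lit 10480] false,
   Spec.mk (nat_lit 30168) (nat_lit 1) [nat_lit 17046, nat_lit 43290, nat_lit 25794, nat_lit 34542, nat_lit 31626, nat_lit 29682, nat_lit 30006, nat_lit 30222, nat_lit 30150, nat_lit 30186, nat_lit 30162] (nat_lit 0) [nat_lit 10486] false,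
   Spec.mk (nat_lit 30186) (nat_lit 0) [nat_lit 17064, nat_lit 43308, nat_lit 25812, nat_lit 34560, nat_lit 31644, nat_lit 29700, nat_lit 30024, nat_lit 30240, nat_lit 30168] (nat_lit 0) [nat_lit 10504] false,
   Spec.mk (nat_lit 30214) (nat_lit 2) [nat_lit 17092, nat_lit 43336, nat_lit 25840, nat_lit 34588, nat_lit 31672, nat_lit 29728, nat_lit 30052, nat_lit 30376, nat_lit 30160, nat_lit 30216] (nat_lit 0) [nat_lit 49896, nat_lit 10532] false,
   Spec.mk (nat_lit 30216) (nat_lit 1) [nat_lit 17094, nat_lit 43338, nat_lit 25842, nat_lit 34590, nat_lit 31674, nat_lit 29730, nat_lit 30054, nat_lit 30378, nat_lit 30162, nat_lit 30222, nat_lit 30214] (nat_lit 0) [nat_lit 10534] false,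
   Spec.mk (nat_lit 30222) (nat_lit 1) [nat_lit 17100, nat_lit 43344, nat_lit 25848, nat_lit 34596, nat_lit 31680, nat_lit 29736, nat_lit 30060, nat_lit 30384, nat_lit 30168, nat_lit 30240, nat_lit 30216] (nat_lit 0) [nat_lit 10540] false,
   Spec.mk (nat_lit 30240) (nat_lit 2) [nat_lit 17118, nat_lit 43362, nat_lit 25866, nat_lit 34614, nat_lit 31698, nat_lit 29754, nat_lit 30078, nat_lit 30402, nat_lit 30186, nat_lit 30294, nat_lit 30222] (nat_lit 0) [nat_lit 10558] false,
   Spec.mk (nat_lit 30294) (nat_lit 2) [nat_lit 17172, nat_lit 43416, nat_lit 25920, nat_lit 34668, nat_lit 31752, nat_lit 29808, nat_lit 30456, nat_lit 30240] (nat_lit 0) [nat_lit 10612] false,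
   Spec.mk (nat_lit 30376) (nat_lit 3) [nat_lit 17254, nat_lit 43498, nat_lit 26002, nat_lit 34750, nat_lit 31834, nat_lit 30214, nat_lit 30378] (nat_lit 0) [nat_lit 50058, nat_lit 10694] false,
   Spec.mk (nat_lit 30378) (nat_lit 2) [nat_lit 17256, nat_lit 43500, nat_lit 26004, nat_lit 34752, nat_lit 31836, nat_lit 30216, nat_lit 30384, nat_lit 30376] (nat_lit 0) [nat_lit 10696] false,
   Spec.mk (nat_lit 30384) (nat_lit 2) [nat_lit 17262, nat_lit 43506, nat_lit 26010, nat_lit 34758, nat_lit 31842, nat_lit 30222, nat_lit 30402, nat_lit 30378] (nat_lit 0) [nat_lit 10702] false,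
   Spec.mk (nat_lit 30402) (nat_lit 2) [nat_lit 17280, nat_lit 43524, nat_lit 26028, nat_lit 34776, nat_lit 31860, nat_lit 30240, nat_lit 30456, nat_lit 30384] (nat_lit 0) [nat_lit 10720] false,
   Spec.mk (nat_lit 30456) (nat_lit 4) [nat_lit 17334, nat_lit 43578, nat_lit 26082, nat_lit 34830, nat_lit 31914, nat_lit 30294, nat_lit 30402] (nat_lit 0) [nat_lit 10774] false,
   Spec.mk (nat_lit 30626) (nat_lit 3) [nat_lit 17504, nat_lit 43748, nat_lit 35000, nat_lit 29168, nat_lit 30632] (nat_lit 0) [nat_lit 50308] false,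
   Spec.mk (nat_lit 30632) (nat_lit 2) [nat_lit 17510, nat_lit 43754, nat_lit 35006, nat_lit 29174, nat_lit 30650, nat_lit 30626, nat_lit 30638, nat_lit 30634] (nat_lit 0) [nat_lit 50314] false,
   Spec.mk (nat_lit 30634) (nat_lit 2) [nat_lit 17512, nat_lit 43756, nat_lit 35008, nat_lit 29176, nat_lit 30652, nat_lit 30640, nat_lit 30632] (nat_lit 0) [nat_lit 50316, nat_lit 10952] false,
   Spec.mk (nat_lit 30638) (nat_lit 0) [nat_lit 17516, nat_lit 43760, nat_lit 35012, nat_lit 29180, nat_lit 30656, nat_lit 30632, nat_lit 30640] (nat_lit 1) [nat_lit 50320] false,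
   Spec.mk (nat_lit 30640) (nat_lit 1) [nat_lit 17518, nat_lit 43762, nat_lit 35014, nat_lit 29182, nat_lit 30658, nat_lit 30634, nat_lit 30638, nat_lit 30642] (nat_lit 0) [nat_lit 50322, nat_lit 10958] false,
   Spec.mk (nat_lit 30642) (nat_lit 1) [nat_lit 17520, nat_lit 43764, nat_lit 35016, nat_lit 29184, nat_lit 30660, nat_lit 30640] (nat_lit 0) [nat_lit 10960] false,
   Spec.mk (nat_lit 30650) (nat_lit 1) [nat_lit 17528, nat_lit 43772, nat_lit 35024, nat_lit 29192, nat_lit 30704, nat_lit 30632, nat_lit 30656, nat_lit 30652] (nat_lit 0) [nat_lit 50332] false,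
   Spec.mk (nat_lit 30652) (nat_lit 0) [nat_lit 17530, nat_lit 43774, nat_lit 35026, nat_lit 29194, nat_lit 30706, nat_lit 30634, nat_lit 30658, nat_lit 30650] (nat_lit 0) [nat_lit 50334, nat_lit 10970] false,
   Spec.mk (nat_lit 30656) (nat_lit 0) [nat_lit 17534, nat_lit 43778, nat_lit 35030, nat_lit 29198, nat_lit 30710, nat_lit 30638, nat_lit 30674, nat_lit 30650, nat_lit 30658] (nat_lit 0) [nat_lit 50338] false,
   Spec.mk (nat_lit 30658) (nat_lit 1) [nat_lit 17536, nat_lit 43780, nat_lit 35032, nat_lit 29200, nat_lit 30712, nat_lit 30640, nat_lit 30676, nat_lit 30652, nat_lit 30664, nat_lit 30656, nat_lit 30660] (nat_lit 0) [nat_lit 50340, nat_lit 10976] false,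
   Spec.mk (nat_lit 30660) (nat_lit 0) [nat_lit 17538, nat_lit 43782, nat_lit 35034, nat_lit 29202, nat_lit 30714, nat_lit 30642, nat_lit 30678, nat_lit 30666, nat_lit 30658] (nat_lit 0) [nat_lit 10978] false,
   Spec.mk (nat_lit 30664) (nat_lit 0) [nat_lit 17542, nat_lit 43786, nat_lit 35038, nat_lit 29206, nat_lit 30718, nat_lit 30682, nat_lit 30658, nat_lit 30666] (nat_lit 0) [nat_lit 50346, nat_lit 10982] false,
   Spec.mk (nat_lit 30666) (nat_lit 1) [nat_lit 17544, nat_lit 43788, nat_lit 35040, nat_lit 29208, nat_lit 30720, nat_lit 30684, nat_lit 30660, nat_lit 30664] (nat_lit 0) [nat_lit 10984] false,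
   Spec.mk (nat_lit 30674) (nat_lit 0) [nat_lit 17552, nat_lit 43796, nat_lit 35048, nat_lit 29216, nat_lit 30728, nat_lit 30656, nat_lit 30676] (nat_lit 1) [nat_lit 50356] false]

noncomputable def sp76 : List Spec :=
  [Spec.mk (nat_lit 30676) (nat_lit 0) [nat_lit 17554, nat_lit 43798, nat_lit 35050, nat_lit 29218, nat_lit 30730, nat_lit 30658, nat_lit 30682, nat_lit 30674, nat_lit 30678] (nat_lit 1) [nat_lit 50358, nat_lit 10994] false,
   Spec.mk (nat_lit 30678) (nat_lit 0) [nat_lit 17556, nat_lit 43800, nat_lit 35052, nat_lit 29220, nat_lit 30732, nat_lit 30660, nat_lit 30684, nat_lit 30676] (nat_lit 3) [nat_lit 10996] false,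
   Spec.mk (nat_lit 30682) (nat_lit 0) [nat_lit 17560, nat_lit 43804, nat_lit 35056, nat_lit 29224, nat_lit 30736, nat_lit 30664, nat_lit 30676, nat_lit 30684] (nat_lit 0) [nat_lit 50364, nat_lit 11000] false,
   Spec.mk (nat_lit 30684) (nat_lit 0) [nat_lit 17562, nat_lit 43806, nat_lit 35058, nat_lit 29226, nat_lit 30738, nat_lit 30666, nat_lit 30678, nat_lit 30690, nat_lit 30682] (nat_lit 0) [nat_lit 11002] false,
   Spec.mk (nat_lit 30690) (nat_lit 1) [nat_lit 17568, nat_lit 43812, nat_lit 35064, nat_lit 29232, nat_lit 30744, nat_lit 30684] (nat_lit 0) [nat_lit 11008] false,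
   Spec.mk (nat_lit 30704) (nat_lit 1) [nat_lit 17582, nat_lit 43826, nat_lit 35078, nat_lit 29246, nat_lit 30866, nat_lit 30650, nat_lit 30710, nat_lit 30706] (nat_lit 0) [nat_lit 50386] false,
   Spec.mk (nat_lit 30706) (nat_lit 0) [nat_lit 17584, nat_lit 43828, nat_lit 35080, nat_lit 29248, nat_lit 30868, nat_lit 30652, nat_lit 30712, nat_lit 30704] (nat_lit 0) [nat_lit 50388, nat_lit 11024] false,
   Spec.mk (nat_lit 30710) (nat_lit 0) [nat_lit 17588, nat_lit 43832, nat_lit 35084, nat_lit 29252, nat_lit 30872, nat_lit 30656, nat_lit 30728, nat_lit 30704, nat_lit 30712] (nat_lit 1) [nat_lit 50392] false,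
   Spec.mk (nat_lit 30712) (nat_lit 0) [nat_lit 17590, nat_lit 43834, nat_lit 35086, nat_lit 29254, nat_lit 30874, nat_lit 30658, nat_lit 30730, nat_lit 30706, nat_lit 30718, nat_lit 30710, nat_lit 30714] (nat_lit 0) [nat_lit 50394, nat_lit 11030] false,
   Spec.mk (nat_lit 30714) (nat_lit 0) [nat_lit 17592, nat_lit 43836, nat_lit 35088, nat_lit 29256, nat_lit 30876, nat_lit 30660, nat_lit 30732, nat_lit 30720, nat_lit 30712] (nat_lit 1) [nat_lit 11032] false,
   Spec.mk (nat_lit 30718) (nat_lit 0) [nat_lit 17596, nat_lit 43840, nat_lit 35092, nat_lit 29260, nat_lit 30880, nat_lit 30664, nat_lit 30736, nat_lit 30712, nat_lit 30720] (nat_lit 2) [nat_lit 50400, nat_lit 11036] false,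
   Spec.mk (nat_lit 30720) (nat_lit 0) [nat_lit 17598, nat_lit 43842, nat_lit 35094, nat_lit 29262, nat_lit 30882, nat_lit 30666, nat_lit 30738, nat_lit 30714, nat_lit 30718] (nat_lit 1) [nat_lit 11038] false,
   Spec.mk (nat_lit 30728) (nat_lit 0) [nat_lit 17606, nat_lit 43850, nat_lit 35102, nat_lit 29270, nat_lit 30890, nat_lit 30674, nat_lit 30782, nat_lit 30710, nat_lit 30730] (nat_lit 0) [nat_lit 50410] false,
   Spec.mk (nat_lit 30730) (nat_lit 0) [nat_lit 17608, nat_lit 43852, nat_lit 35104, nat_lit 29272, nat_lit 30892, nat_lit 30676, nat_lit 30784, nat_lit 30712, nat_lit 30736, nat_lit 30728, nat_lit 30732] (nat_lit 0) [nat_lit 50412, nat_lit 11048] false,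
   Spec.mk (nat_lit 30732) (nat_lit 0) [nat_lit 17610, nat_lit 43854, nat_lit 35106, nat_lit 29274, nat_lit 30894, nat_lit 30678, nat_lit 30786, nat_lit 30714, nat_lit 30738, nat_lit 30730] (nat_lit 2) [nat_lit 11050] false,
   Spec.mk (nat_lit 30736) (nat_lit 0) [nat_lit 17614, nat_lit 43858, nat_lit 35110, nat_lit 29278, nat_lit 30898, nat_lit 30682, nat_lit 30790, nat_lit 30718, nat_lit 30754, nat_lit 30730, nat_lit 30738] (nat_lit 0) [nat_lit 50418, nat_lit 11054] false,
   Spec.mk (nat_lit 30738) (nat_lit 0) [nat_lit 17616, nat_lit 43860, nat_lit 35112, nat_lit 29280, nat_lit 30900, nat_lit 30684, nat_lit 30792, nat_lit 30720, nat_lit 30756, nat_lit 30732, nat_lit 30744, nat_lit 30736] (nat_lit 0) [nat_lit 11056] false,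
   Spec.mk (nat_lit 30744) (nat_lit 0) [nat_lit 17622, nat_lit 43866, nat_lit 35118, nat_lit 29286, nat_lit 30906, nat_lit 30690, nat_lit 30798, nat_lit 30762, nat_lit 30738] (nat_lit 0) [nat_lit 11062] false,
   Spec.mk (nat_lit 30754) (nat_lit 0) [nat_lit 17632, nat_lit 43876, nat_lit 35128, nat_lit 29296, nat_lit 30916, nat_lit 30808, nat_lit 30736, nat_lit 30756] (nat_lit 0) [nat_lit 50436, nat_lit 11072] false,
   Spec.mk (nat_lit 30756) (nat_lit 0) [nat_lit 17634, nat_lit 43878, nat_lit 35130, nat_lit 29298, nat_lit 30918, nat_lit 30810, nat_lit 30738, nat_lit 30762, nat_lit 30754] (nat_lit 1) [nat_lit 11074] false,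
   Spec.mk (nat_lit 30762) (nat_lit 1) [nat_lit 17640, nat_lit 43884, nat_lit 35136, nat_lit 29304, nat_lit 30924, nat_lit 30816, nat_lit 30744, nat_lit 30756] (nat_lit 0) [nat_lit 11080] false,
   Spec.mk (nat_lit 30782) (nat_lit 0) [nat_lit 17660, nat_lit 43904, nat_lit 35156, nat_lit 29324, nat_lit 30944, nat_lit 30728, nat_lit 30784] (nat_lit 1) [nat_lit 50464] false,
   Spec.mk (nat_lit 30784) (nat_lit 0) [nat_lit 17662, nat_lit 43906, nat_lit 35158, nat_lit 29326, nat_lit 30946, nat_lit 30730, nat_lit 30790, nat_lit 30782, nat_lit 30786] (nat_lit 1) [nat_lit 50466, nat_lit 11102] false,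
   Spec.mk (nat_lit 30786) (nat_lit 0) [nat_lit 17664, nat_lit 43908, nat_lit 35160, nat_lit 29328, nat_lit 30948, nat_lit 30732, nat_lit 30792, nat_lit 30784] (nat_lit 3) [nat_lit 11104] false,
   Spec.mk (nat_lit 30790) (nat_lit 0) [nat_lit 17668, nat_lit 43912, nat_lit 35164, nat_lit 29332, nat_lit 30952, nat_lit 30736, nat_lit 30808, nat_lit 30784, nat_lit 30792] (nat_lit 2) [nat_lit 50472, nat_lit 11108] false,
   Spec.mk (nat_lit 30792) (nat_lit 0) [nat_lit 17670, nat_lit 43914, nat_lit 35166, nat_lit 29334, nat_lit 30954, nat_lit 30738, nat_lit 30810, nat_lit 30786, nat_lit 30798, nat_lit 30790] (nat_lit 2) [nat_lit 11110] false,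
   Spec.mk (nat_lit 30798) (nat_lit 0) [nat_lit 17676, nat_lit 43920, nat_lit 35172, nat_lit 29340, nat_lit 30960, nat_lit 30744, nat_lit 30816, nat_lit 30792] (nat_lit 3) [nat_lit 11116] false,
   Spec.mk (nat_lit 30808) (nat_lit 0) [nat_lit 17686, nat_lit 43930, nat_lit 35182, nat_lit 29350, nat_lit 30970, nat_lit 30754, nat_lit 30790, nat_lit 30810] (nat_lit 0) [nat_lit 50490, nat_lit 11126] false,
   Spec.mk (nat_lit 30810) (nat_lit 0) [nat_lit 17688, nat_lit 43932, nat_lit 35184, nat_lit 29352, nat_lit 30972, nat_lit 30756, nat_lit 30792, nat_lit 30816, nat_lit 30808] (nat_lit 1) [nat_lit 11128] false,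
   Spec.mk (nat_lit 30816) (nat_lit 0) [nat_lit 17694, nat_lit 43938, nat_lit 35190, nat_lit 29358, nat_lit 30978, nat_lit 30762, nat_lit 30798, nat_lit 30834, nat_lit 30810] (nat_lit 0) [nat_lit 11134] false,
   Spec.mk (nat_lit 30834) (nat_lit 1) [nat_lit 17712, nat_lit 43956, nat_lit 35208, nat_lit 29376, nat_lit 30996, nat_lit 30816] (nat_lit 0) [nat_lit 11152] false,
   Spec.mk (nat_lit 30866) (nat_lit 1) [nat_lit 17744, nat_lit 43988, nat_lit 35240, nat_lit 29408, nat_lit 31352, nat_lit 30704, nat_lit 30872, nat_lit 30868] (nat_lit 0) [nat_lit 50548] false,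
   Spec.mk (nat_lit 30868) (nat_lit 0) [nat_lit 17746, nat_lit 43990, nat_lit 35242, nat_lit 29410, nat_lit 31354, nat_lit 30706, nat_lit 30874, nat_lit 30866] (nat_lit 0) [nat_lit 50550, nat_lit 11186] false,
   Spec.mk (nat_lit 30872) (nat_lit 0) [nat_lit 17750, nat_lit 43994, nat_lit 35246, nat_lit 29414, nat_lit 31358, nat_lit 30710, nat_lit 30890, nat_lit 30866, nat_lit 30874] (nat_lit 1) [nat_lit 50554] false,
   Spec.mk (nat_lit 30874) (nat_lit 0) [nat_lit 17752, nat_lit 43996, nat_lit 35248, nat_lit 29416, nat_lit 31360, nat_lit 30712, nat_lit 30892, nat_lit 30868, nat_lit 30880, nat_lit 30872, nat_lit 30876] (nat_lit 0) [nat_lit 50556, nat_lit 11192] false,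
   Spec.mk (nat_lit 30876) (nat_lit 0) [nat_lit 17754, nat_lit 43998, nat_lit 35250, nat_lit 29418, nat_lit 31362, nat_lit 30714, nat_lit 30894, nat_lit 30882, nat_lit 30874] (nat_lit 1) [nat_lit 11194] false,
   Spec.mk (nat_lit 30880) (nat_lit 0) [nat_lit 17758, nat_lit 44002, nat_lit 35254, nat_lit 29422, nat_lit 31366, nat_lit 30718, nat_lit 30898, nat_lit 30874, nat_lit 30882] (nat_lit 2) [nat_lit 50562, nat_lit 11198] false,
   Spec.mk (nat_lit 30882) (nat_lit 0) [nat_lit 17760, nat_lit 44004, nat_lit 35256, nat_lit 29424, nat_lit 31368, nat_lit 30720, nat_lit 30900, nat_lit 30876, nat_lit 30880] (nat_lit 1) [nat_lit 11200] false,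
   Spec.mk (nat_lit 30890) (nat_lit 0) [nat_lit 17768, nat_lit 44012, nat_lit 35264, nat_lit 29432, nat_lit 31376, nat_lit 30728, nat_lit 30944, nat_lit 30872, nat_lit 30892] (nat_lit 1) [nat_lit 50572] false,
   Spec.mk (nat_lit 30892) (nat_lit 0) [nat_lit 17770, nat_lit 44014, nat_lit 35266, nat_lit 29434, nat_lit 31378, nat_lit 30730, nat_lit 30946, nat_lit 30874, nat_lit 30898, nat_lit 30890, nat_lit 30894] (nat_lit 1) [nat_lit 50574, nat_lit 11210] false,
   Spec.mk (nat_lit 30894) (nat_lit 0) [nat_lit 17772, nat_lit 44016, nat_lit 35268, nat_lit 29436, nat_lit 31380, nat_lit 30732, nat_lit 30948, nat_lit 30876, nat_lit 30900, nat_lit 30892] (nat_lit 3) [nat_lit 11212] false,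
   Spec.mk (nat_lit 30898) (nat_lit 0) [nat_lit 17776, nat_lit 44020, nat_lit 35272, nat_lit 29440, nat_lit 31384, nat_lit 30736, nat_lit 30952, nat_lit 30880, nat_lit 30916, nat_lit 30892, nat_lit 30900] (nat_lit 1) [nat_lit 50580, nat_lit 11216] false,
   Spec.mk (nat_lit 30900) (nat_lit 0) [nat_lit 17778, nat_lit 44022, nat_lit 35274, nat_lit 29442, nat_lit 31386, nat_lit 30738, nat_lit 30954, nat_lit 30882, nat_lit 30918, nat_lit 30894, nat_lit 30906, nat_lit 30898] (nat_lit 1) [nat_lit 11218] false,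
   Spec.mk (nat_lit 30906) (nat_lit 0) [nat_lit 17784, nat_lit 44028, nat_lit 35280, nat_lit 29448, nat_lit 31392, nat_lit 30744, nat_lit 30960, nat_lit 30924, nat_lit 30900] (nat_lit 1) [nat_lit 11224] false,
   Spec.mk (nat_lit 30916) (nat_lit 0) [nat_lit 17794, nat_lit 44038, nat_lit 35290, nat_lit 29458, nat_lit 31402, nat_lit 30754, nat_lit 30970, nat_lit 30898, nat_lit 30918] (nat_lit 2) [nat_lit 50598, nat_lit 11234] false,
   Spec.mk (nat_lit 30918) (nat_lit 0) [nat_lit 17796, nat_lit 44040, nat_lit 35292, nat_lit 29460, nat_lit 31404, nat_lit 30756, nat_lit 30972, nat_lit 30900, nat_lit 30924, nat_lit 30916] (nat_lit 3) [nat_lit 11236] false,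
   Spec.mk (nat_lit 30924) (nat_lit 0) [nat_lit 17802, nat_lit 44046, nat_lit 35298, nat_lit 29466, nat_lit 31410, nat_lit 30762, nat_lit 30978, nat_lit 30906, nat_lit 30918] (nat_lit 1) [nat_lit 11242] false,
   Spec.mk (nat_lit 30944) (nat_lit 0) [nat_lit 17822, nat_lit 44066, nat_lit 35318, nat_lit 29486, nat_lit 31430, nat_lit 30782, nat_lit 31106, nat_lit 30890, nat_lit 30946] (nat_lit 0) [nat_lit 50626] false,
   Spec.mk (nat_lit 30946) (nat_lit 0) [nat_lit 17824, nat_lit 44068, nat_lit 35320, nat_lit 29488, nat_lit 31432, nat_lit 30784, nat_lit 31108, nat_lit 30892, nat_lit 30952, nat_lit 30944, nat_lit 30948] (nat_lit 0) [nat_lit 50628, nat_lit 11264] false,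
   Spec.mk (nat_lit 30948) (nat_lit 0) [nat_lit 17826, nat_lit 44070, nat_lit 35322, nat_lit 29490, nat_lit 31434, nat_lit 30786, nat_lit 31110, nat_lit 30894, nat_lit 30954, nat_lit 30946] (nat_lit 2) [nat_lit 11266] false,
   Spec.mk (nat_lit 30952) (nat_lit 0) [nat_lit 17830, nat_lit 44074, nat_lit 35326, nat_lit 29494, nat_lit 31438, nat_lit 30790, nat_lit 31114, nat_lit 30898, nat_lit 30970, nat_lit 30946, nat_lit 30954] (nat_lit 1) [nat_lit 50634, nat_lit 11270] false,
   Spec.mk (nat_lit 30954) (nat_lit 0) [nat_lit 17832, nat_lit 44076, nat_lit 35328, nat_lit 29496, nat_lit 31440, nat_lit 30792, nat_lit 31116, nat_lit 30900, nat_lit 30972, nat_lit 30948, nat_lit 30960, nat_lit 30952] (nat_lit 1) [nat_lit 11272] false,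
   Spec.mk (nat_lit 30960) (nat_lit 0) [nat_lit 17838, nat_lit 44082, nat_lit 35334, nat_lit 29502, nat_lit 31446, nat_lit 30798, nat_lit 31122, nat_lit 30906, nat_lit 30978, nat_lit 30954] (nat_lit 2) [nat_lit 11278] false,
   Spec.mk (nat_lit 30970) (nat_lit 0) [nat_lit 17848, nat_lit 44092, nat_lit 35344, nat_lit 29512, nat_lit 31456, nat_lit 30808, nat_lit 31132, nat_lit 30916, nat_lit 31024, nat_lit 30952, nat_lit 30972] (nat_lit 0) [nat_lit 50652, nat_lit 11288] false,
   Spec.mk (nat_lit 30972) (nat_lit 0) [nat_lit 17850, nat_lit 44094, nat_lit 35346, nat_lit 29514, nat_lit 31458, nat_lit 30810, nat_lit 31134, nat_lit 30918, nat_lit 31026, nat_lit 30954, nat_lit 30978, nat_lit 30970] (nat_lit 1) [nat_lit 11290] false,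
   Spec.mk (nat_lit 30978) (nat_lit 0) [nat_lit 17856, nat_lit 44100, nat_lit 35352, nat_lit 29520, nat_lit 31464, nat_lit 30816, nat_lit 31140, nat_lit 30924, nat_lit 31032, nat_lit 30960, nat_lit 30996, nat_lit 30972] (nat_lit 0) [nat_lit 11296] false,
   Spec.mk (nat_lit 30996) (nat_lit 0) [nat_lit 17874, nat_lit 44118, nat_lit 35370, nat_lit 29538, nat_lit 31482, nat_lit 30834, nat_lit 31158, nat_lit 31050, nat_lit 30978] (nat_lit 0) [nat_lit 11314] false,
   Spec.mk (nat_lit 31024) (nat_lit 0) [nat_lit 17902, nat_lit 44146, nat_lit 35398, nat_lit 29566, nat_lit 31510, nat_lit 31186, nat_lit 30970, nat_lit 31026] (nat_lit 0) [nat_lit 50706, nat_lit 11342] false,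
   Spec.mk (nat_lit 31026) (nat_lit 0) [nat_lit 17904, nat_lit 44148, nat_lit 35400, nat_lit 29568, nat_lit 31512, nat_lit 31188, nat_lit 30972, nat_lit 31032, nat_lit 31024] (nat_lit 1) [nat_lit 11344] false,
   Spec.mk (nat_lit 31032) (nat_lit 0) [nat_lit 17910, nat_lit 44154, nat_lit 35406, nat_lit 29574, nat_lit 31518, nat_lit 31194, nat_lit 30978, nat_lit 31050, nat_lit 31026] (nat_lit 1) [nat_lit 11350] false]

noncomputable def sp77 : List Spec :=
  [Spec.mk (nat_lit 31050) (nat_lit 1) [nat_lit 17928, nat_lit 44172, nat_lit 35424, nat_lit 29592, nat_lit 31536, nat_lit 31212, nat_lit 30996, nat_lit 31032] (nat_lit 0) [nat_lit 11368] false,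
   Spec.mk (nat_lit 31106) (nat_lit 0) [nat_lit 17984, nat_lit 44228, nat_lit 35480, nat_lit 29648, nat_lit 31592, nat_lit 30944, nat_lit 31108] (nat_lit 1) [nat_lit 50788] false,
   Spec.mk (nat_lit 31108) (nat_lit 0) [nat_lit 17986, nat_lit 44230, nat_lit 35482, nat_lit 29650, nat_lit 31594, nat_lit 30946, nat_lit 31114, nat_lit 31106, nat_lit 31110] (nat_lit 1) [nat_lit 50790, nat_lit 11426] false,
   Spec.mk (nat_lit 31110) (nat_lit 0) [nat_lit 17988, nat_lit 44232, nat_lit 35484, nat_lit 29652, nat_lit 31596, nat_lit 30948, nat_lit 31116, nat_lit 31108] (nat_lit 3) [nat_lit 11428] false,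
   Spec.mk (nat_lit 31114) (nat_lit 0) [nat_lit 17992, nat_lit 44236, nat_lit 35488, nat_lit 29656, nat_lit 31600, nat_lit 30952, nat_lit 31132, nat_lit 31108, nat_lit 31116] (nat_lit 2) [nat_lit 50796, nat_lit 11432] false,
   Spec.mk (nat_lit 31116) (nat_lit 0) [nat_lit 17994, nat_lit 44238, nat_lit 35490, nat_lit 29658, nat_lit 31602, nat_lit 30954, nat_lit 31134, nat_lit 31110, nat_lit 31122, nat_lit 31114] (nat_lit 2) [nat_lit 11434] false,
   Spec.mk (nat_lit 31122) (nat_lit 0) [nat_lit 18000, nat_lit 44244, nat_lit 35496, nat_lit 29664, nat_lit 31608, nat_lit 30960, nat_lit 31140, nat_lit 31116] (nat_lit 3) [nat_lit 11440] false,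
   Spec.mk (nat_lit 31132) (nat_lit 0) [nat_lit 18010, nat_lit 44254, nat_lit 35506, nat_lit 29674, nat_lit 31618, nat_lit 30970, nat_lit 31186, nat_lit 31114, nat_lit 31134] (nat_lit 2) [nat_lit 50814, nat_lit 11450] false,
   Spec.mk (nat_lit 31134) (nat_lit 0) [nat_lit 18012, nat_lit 44256, nat_lit 35508, nat_lit 29676, nat_lit 31620, nat_lit 30972, nat_lit 31188, nat_lit 31116, nat_lit 31140, nat_lit 31132] (nat_lit 3) [nat_lit 11452] false,
   Spec.mk (nat_lit 31140) (nat_lit 0) [nat_lit 18018, nat_lit 44262, nat_lit 35514, nat_lit 29682, nat_lit 31626, nat_lit 30978, nat_lit 31194, nat_lit 31122, nat_lit 31158, nat_lit 31134] (nat_lit 2) [nat_lit 11458] false,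
   Spec.mk (nat_lit 31158) (nat_lit 0) [nat_lit 18036, nat_lit 44280, nat_lit 35532, nat_lit 29700, nat_lit 31644, nat_lit 30996, nat_lit 31212, nat_lit 31140] (nat_lit 3) [nat_lit 11476] false,
   Spec.mk (nat_lit 31186) (nat_lit 0) [nat_lit 18064, nat_lit 44308, nat_lit 35560, nat_lit 29728, nat_lit 31672, nat_lit 31024, nat_lit 31132, nat_lit 31188] (nat_lit 0) [nat_lit 50868, nat_lit 11504] false,
   Spec.mk (nat_lit 31188) (nat_lit 0) [nat_lit 18066, nat_lit 44310, nat_lit 35562, nat_lit 29730, nat_lit 31674, nat_lit 31026, nat_lit 31134, nat_lit 31194, nat_lit 31186] (nat_lit 1) [nat_lit 11506] false,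
   Spec.mk (nat_lit 31194) (nat_lit 0) [nat_lit 18072, nat_lit 44316, nat_lit 35568, nat_lit 29736, nat_lit 31680, nat_lit 31032, nat_lit 31140, nat_lit 31212, nat_lit 31188] (nat_lit 1) [nat_lit 11512] false,
   Spec.mk (nat_lit 31212) (nat_lit 0) [nat_lit 18090, nat_lit 44334, nat_lit 35586, nat_lit 29754, nat_lit 31698, nat_lit 31050, nat_lit 31158, nat_lit 31266, nat_lit 31194] (nat_lit 0) [nat_lit 11530] false,
   Spec.mk (nat_lit 31266) (nat_lit 1) [nat_lit 18144, nat_lit 44388, nat_lit 35640, nat_lit 29808, nat_lit 31752, nat_lit 31212] (nat_lit 0) [nat_lit 11584] false,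
   Spec.mk (nat_lit 31352) (nat_lit 3) [nat_lit 18230, nat_lit 44474, nat_lit 35726, nat_lit 29894, nat_lit 30866, nat_lit 31358, nat_lit 31354] (nat_lit 0) [nat_lit 51034] false,
   Spec.mk (nat_lit 31354) (nat_lit 2) [nat_lit 18232, nat_lit 44476, nat_lit 35728, nat_lit 29896, nat_lit 30868, nat_lit 31360, nat_lit 31352] (nat_lit 0) [nat_lit 51036, nat_lit 11672] false,
   Spec.mk (nat_lit 31358) (nat_lit 1) [nat_lit 18236, nat_lit 44480, nat_lit 35732, nat_lit 29900, nat_lit 30872, nat_lit 31376, nat_lit 31352, nat_lit 31360] (nat_lit 0) [nat_lit 51040] false,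
   Spec.mk (nat_lit 31360) (nat_lit 2) [nat_lit 18238, nat_lit 44482, nat_lit 35734, nat_lit 29902, nat_lit 30874, nat_lit 31378, nat_lit 31354, nat_lit 31366, nat_lit 31358, nat_lit 31362] (nat_lit 0) [nat_lit 51042, nat_lit 11678] false,
   Spec.mk (nat_lit 31362) (nat_lit 1) [nat_lit 18240, nat_lit 44484, nat_lit 35736, nat_lit 29904, nat_lit 30876, nat_lit 31380, nat_lit 31368, nat_lit 31360] (nat_lit 0) [nat_lit 11680] false,
   Spec.mk (nat_lit 31366) (nat_lit 0) [nat_lit 18244, nat_lit 44488, nat_lit 35740, nat_lit 29908, nat_lit 30880, nat_lit 31384, nat_lit 31360, nat_lit 31368] (nat_lit 0) [nat_lit 51048, nat_lit 11684] false,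
   Spec.mk (nat_lit 31368) (nat_lit 1) [nat_lit 18246, nat_lit 44490, nat_lit 35742, nat_lit 29910, nat_lit 30882, nat_lit 31386, nat_lit 31362, nat_lit 31366] (nat_lit 0) [nat_lit 11686] false,
   Spec.mk (nat_lit 31376) (nat_lit 1) [nat_lit 18254, nat_lit 44498, nat_lit 35750, nat_lit 29918, nat_lit 30890, nat_lit 31430, nat_lit 31358, nat_lit 31378] (nat_lit 0) [nat_lit 51058] false,
   Spec.mk (nat_lit 31378) (nat_lit 1) [nat_lit 18256, nat_lit 44500, nat_lit 35752, nat_lit 29920, nat_lit 30892, nat_lit 31432, nat_lit 31360, nat_lit 31384, nat_lit 31376, nat_lit 31380] (nat_lit 0) [nat_lit 51060, nat_lit 11696] false,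
   Spec.mk (nat_lit 31380) (nat_lit 0) [nat_lit 18258, nat_lit 44502, nat_lit 35754, nat_lit 29922, nat_lit 30894, nat_lit 31434, nat_lit 31362, nat_lit 31386, nat_lit 31378] (nat_lit 1) [nat_lit 11698] false,
   Spec.mk (nat_lit 31384) (nat_lit 1) [nat_lit 18262, nat_lit 44506, nat_lit 35758, nat_lit 29926, nat_lit 30898, nat_lit 31438, nat_lit 31366, nat_lit 31402, nat_lit 31378, nat_lit 31386] (nat_lit 0) [nat_lit 51066, nat_lit 11702] false,
   Spec.mk (nat_lit 31386) (nat_lit 1) [nat_lit 18264, nat_lit 44508, nat_lit 35760, nat_lit 29928, nat_lit 30900, nat_lit 31440, nat_lit 31368, nat_lit 31404, nat_lit 31380, nat_lit 31392, nat_lit 31384] (nat_lit 0) [nat_lit 11704] false,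
   Spec.mk (nat_lit 31392) (nat_lit 1) [nat_lit 18270, nat_lit 44514, nat_lit 35766, nat_lit 29934, nat_lit 30906, nat_lit 31446, nat_lit 31410, nat_lit 31386] (nat_lit 0) [nat_lit 11710] false,
   Spec.mk (nat_lit 31402) (nat_lit 0) [nat_lit 18280, nat_lit 44524, nat_lit 35776, nat_lit 29944, nat_lit 30916, nat_lit 31456, nat_lit 31384, nat_lit 31404] (nat_lit 0) [nat_lit 51084, nat_lit 11720] false,
   Spec.mk (nat_lit 31404) (nat_lit 0) [nat_lit 18282, nat_lit 44526, nat_lit 35778, nat_lit 29946, nat_lit 30918, nat_lit 31458, nat_lit 31386, nat_lit 31410, nat_lit 31402] (nat_lit 1) [nat_lit 11722] false,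
   Spec.mk (nat_lit 31410) (nat_lit 1) [nat_lit 18288, nat_lit 44532, nat_lit 35784, nat_lit 29952, nat_lit 30924, nat_lit 31464, nat_lit 31392, nat_lit 31404] (nat_lit 0) [nat_lit 11728] false,
   Spec.mk (nat_lit 31430) (nat_lit 1) [nat_lit 18308, nat_lit 44552, nat_lit 35804, nat_lit 29972, nat_lit 30944, nat_lit 31592, nat_lit 31376, nat_lit 31432] (nat_lit 0) [nat_lit 51112] false,
   Spec.mk (nat_lit 31432) (nat_lit 1) [nat_lit 18310, nat_lit 44554, nat_lit 35806, nat_lit 29974, nat_lit 30946, nat_lit 31594, nat_lit 31378, nat_lit 31438, nat_lit 31430, nat_lit 31434] (nat_lit 0) [nat_lit 51114, nat_lit 11750] false,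
   Spec.mk (nat_lit 31434) (nat_lit 0) [nat_lit 18312, nat_lit 44556, nat_lit 35808, nat_lit 29976, nat_lit 30948, nat_lit 31596, nat_lit 31380, nat_lit 31440, nat_lit 31432] (nat_lit 1) [nat_lit 11752] false,
   Spec.mk (nat_lit 31438) (nat_lit 0) [nat_lit 18316, nat_lit 44560, nat_lit 35812, nat_lit 29980, nat_lit 30952, nat_lit 31600, nat_lit 31384, nat_lit 31456, nat_lit 31432, nat_lit 31440] (nat_lit 0) [nat_lit 51120, nat_lit 11756] false,
   Spec.mk (nat_lit 31440) (nat_lit 0) [nat_lit 18318, nat_lit 44562, nat_lit 35814, nat_lit 29982, nat_lit 30954, nat_lit 31602, nat_lit 31386, nat_lit 31458, nat_lit 31434, nat_lit 31446, nat_lit 31438] (nat_lit 0) [nat_lit 11758] false,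
   Spec.mk (nat_lit 31446) (nat_lit 0) [nat_lit 18324, nat_lit 44568, nat_lit 35820, nat_lit 29988, nat_lit 30960, nat_lit 31608, nat_lit 31392, nat_lit 31464, nat_lit 31440] (nat_lit 1) [nat_lit 11764] false,
   Spec.mk (nat_lit 31456) (nat_lit 1) [nat_lit 18334, nat_lit 44578, nat_lit 35830, nat_lit 29998, nat_lit 30970, nat_lit 31618, nat_lit 31402, nat_lit 31510, nat_lit 31438, nat_lit 31458] (nat_lit 0) [nat_lit 51138, nat_lit 11774] false,
   Spec.mk (nat_lit 31458) (nat_lit 0) [nat_lit 18336, nat_lit 44580, nat_lit 35832, nat_lit 30000, nat_lit 30972, nat_lit 31620, nat_lit 31404, nat_lit 31512, nat_lit 31440, nat_lit 31464, nat_lit 31456] (nat_lit 0) [nat_lit 11776] false,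
   Spec.mk (nat_lit 31464) (nat_lit 1) [nat_lit 18342, nat_lit 44586, nat_lit 35838, nat_lit 30006, nat_lit 30978, nat_lit 31626, nat_lit 31410, nat_lit 31518, nat_lit 31446, nat_lit 31482, nat_lit 31458] (nat_lit 0) [nat_lit 11782] false,
   Spec.mk (nat_lit 31482) (nat_lit 1) [nat_lit 18360, nat_lit 44604, nat_lit 35856, nat_lit 30024, nat_lit 30996, nat_lit 31644, nat_lit 31536, nat_lit 31464] (nat_lit 0) [nat_lit 11800] false,
   Spec.mk (nat_lit 31510) (nat_lit 0) [nat_lit 18388, nat_lit 44632, nat_lit 35884, nat_lit 30052, nat_lit 31024, nat_lit 31672, nat_lit 31456, nat_lit 31512] (nat_lit 0) [nat_lit 51192, nat_lit 11828] false,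
   Spec.mk (nat_lit 31512) (nat_lit 0) [nat_lit 18390, nat_lit 44634, nat_lit 35886, nat_lit 30054, nat_lit 31026, nat_lit 31674, nat_lit 31458, nat_lit 31518, nat_lit 31510] (nat_lit 1) [nat_lit 11830] false,
   Spec.mk (nat_lit 31518) (nat_lit 0) [nat_lit 18396, nat_lit 44640, nat_lit 35892, nat_lit 30060, nat_lit 31032, nat_lit 31680, nat_lit 31464, nat_lit 31536, nat_lit 31512] (nat_lit 1) [nat_lit 11836] false,
   Spec.mk (nat_lit 31536) (nat_lit 1) [nat_lit 18414, nat_lit 44658, nat_lit 35910, nat_lit 30078, nat_lit 31050, nat_lit 31698, nat_lit 31482, nat_lit 31518] (nat_lit 0) [nat_lit 11854] false,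
   Spec.mk (nat_lit 31592) (nat_lit 2) [nat_lit 18470, nat_lit 44714, nat_lit 35966, nat_lit 30134, nat_lit 31106, nat_lit 32078, nat_lit 31430, nat_lit 31594] (nat_lit 0) [nat_lit 51274] false,
   Spec.mk (nat_lit 31594) (nat_lit 2) [nat_lit 18472, nat_lit 44716, nat_lit 35968, nat_lit 30136, nat_lit 31108, nat_lit 32080, nat_lit 31432, nat_lit 31600, nat_lit 31592, nat_lit 31596] (nat_lit 0) [nat_lit 51276, nat_lit 11912] false,
   Spec.mk (nat_lit 31596) (nat_lit 0) [nat_lit 18474, nat_lit 44718, nat_lit 35970, nat_lit 30138, nat_lit 31110, nat_lit 32082, nat_lit 31434, nat_lit 31602, nat_lit 31594] (nat_lit 0) [nat_lit 11914] false,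
   Spec.mk (nat_lit 31600) (nat_lit 1) [nat_lit 18478, nat_lit 44722, nat_lit 35974, nat_lit 30142, nat_lit 31114, nat_lit 32086, nat_lit 31438, nat_lit 31618, nat_lit 31594, nat_lit 31602] (nat_lit 0) [nat_lit 51282, nat_lit 11918] false,
   Spec.mk (nat_lit 31602) (nat_lit 1) [nat_lit 18480, nat_lit 44724, nat_lit 35976, nat_lit 30144, nat_lit 31116, nat_lit 32088, nat_lit 31440, nat_lit 31620, nat_lit 31596, nat_lit 31608, nat_lit 31600] (nat_lit 0) [nat_lit 11920] false,
   Spec.mk (nat_lit 31608) (nat_lit 0) [nat_lit 18486, nat_lit 44730, nat_lit 35982, nat_lit 30150, nat_lit 31122, nat_lit 32094, nat_lit 31446, nat_lit 31626, nat_lit 31602] (nat_lit 0) [nat_lit 11926] false,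
   Spec.mk (nat_lit 31618) (nat_lit 1) [nat_lit 18496, nat_lit 44740, nat_lit 35992, nat_lit 30160, nat_lit 31132, nat_lit 32104, nat_lit 31456, nat_lit 31672, nat_lit 31600, nat_lit 31620] (nat_lit 0) [nat_lit 51300, nat_lit 11936] false,
   Spec.mk (nat_lit 31620) (nat_lit 0) [nat_lit 18498, nat_lit 44742, nat_lit 35994, nat_lit 30162, nat_lit 31134, nat_lit 32106, nat_lit 31458, nat_lit 31674, nat_lit 31602, nat_lit 31626, nat_lit 31618] (nat_lit 0) [nat_lit 11938] false,
   Spec.mk (nat_lit 31626) (nat_lit 1) [nat_lit 18504, nat_lit 44748, nat_lit 36000, nat_lit 30168, nat_lit 31140, nat_lit 32112, nat_lit 31464, nat_lit 31680, nat_lit 31608, nat_lit 31644, nat_lit 31620] (nat_lit 0) [nat_lit 11944] false,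
   Spec.mk (nat_lit 31644) (nat_lit 0) [nat_lit 18522, nat_lit 44766, nat_lit 36018, nat_lit 30186, nat_lit 31158, nat_lit 32130, nat_lit 31482, nat_lit 31698, nat_lit 31626] (nat_lit 0) [nat_lit 11962] false,
   Spec.mk (nat_lit 31672) (nat_lit 2) [nat_lit 18550, nat_lit 44794, nat_lit 36046, nat_lit 30214, nat_lit 31186, nat_lit 32158, nat_lit 31510, nat_lit 31834, nat_lit 31618, nat_lit 31674] (nat_lit 0) [nat_lit 51354, nat_lit 11990] false,
   Spec.mk (nat_lit 31674) (nat_lit 1) [nat_lit 18552, nat_lit 44796, nat_lit 36048, nat_lit 30216, nat_lit 31188, nat_lit 32160, nat_lit 31512, nat_lit 31836, nat_lit 31620, nat_lit 31680, nat_lit 31672] (nat_lit 0) [nat_lit 11992] false,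
   Spec.mk (nat_lit 31680) (nat_lit 1) [nat_lit 18558, nat_lit 44802, nat_lit 36054, nat_lit 30222, nat_lit 31194, nat_lit 32166, nat_lit 31518, nat_lit 31842, nat_lit 31626, nat_lit 31698, nat_lit 31674] (nat_lit 0) [nat_lit 11998] false,
   Spec.mk (nat_lit 31698) (nat_lit 2) [nat_lit 18576, nat_lit 44820, nat_lit 36072, nat_lit 30240, nat_lit 31212, nat_lit 32184, nat_lit 31536, nat_lit 31860, nat_lit 31644, nat_lit 31752, nat_lit 31680] (nat_lit 0) [nat_lit 12016] false]

noncomputable def sp78 : List Spec :=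
  [Spec.mk (nat_lit 31752) (nat_lit 2) [nat_lit 18630, nat_lit 44874, nat_lit 36126, nat_lit 30294, nat_lit 31266, nat_lit 32238, nat_lit 31914, nat_lit 31698] (nat_lit 0) [nat_lit 12070] false,
   Spec.mk (nat_lit 31834) (nat_lit 2) [nat_lit 18712, nat_lit 44956, nat_lit 36208, nat_lit 30376, nat_lit 32320, nat_lit 31672, nat_lit 31836] (nat_lit 0) [nat_lit 51516, nat_lit 12152] false,
   Spec.mk (nat_lit 31836) (nat_lit 1) [nat_lit 18714, nat_lit 44958, nat_lit 36210, nat_lit 30378, nat_lit 32322, nat_lit 31674, nat_lit 31842, nat_lit 31834] (nat_lit 0) [nat_lit 12154] false,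
   Spec.mk (nat_lit 31842) (nat_lit 1) [nat_lit 18720, nat_lit 44964, nat_lit 36216, nat_lit 30384, nat_lit 32328, nat_lit 31680, nat_lit 31860, nat_lit 31836] (nat_lit 0) [nat_lit 12160] false,
   Spec.mk (nat_lit 31860) (nat_lit 1) [nat_lit 18738, nat_lit 44982, nat_lit 36234, nat_lit 30402, nat_lit 32346, nat_lit 31698, nat_lit 31914, nat_lit 31842] (nat_lit 0) [nat_lit 12178] false,
   Spec.mk (nat_lit 31914) (nat_lit 3) [nat_lit 18792, nat_lit 45036, nat_lit 36288, nat_lit 30456, nat_lit 32400, nat_lit 31752, nat_lit 31860] (nat_lit 0) [nat_lit 12232] false,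
   Spec.mk (nat_lit 32078) (nat_lit 3) [nat_lit 18956, nat_lit 45200, nat_lit 36452, nat_lit 31592, nat_lit 32080] (nat_lit 0) [nat_lit 51760] false,
   Spec.mk (nat_lit 32080) (nat_lit 3) [nat_lit 18958, nat_lit 45202, nat_lit 36454, nat_lit 31594, nat_lit 32086, nat_lit 32078, nat_lit 32082] (nat_lit 0) [nat_lit 51762, nat_lit 12398] false,
   Spec.mk (nat_lit 32082) (nat_lit 1) [nat_lit 18960, nat_lit 45204, nat_lit 36456, nat_lit 31596, nat_lit 32088, nat_lit 32080] (nat_lit 0) [nat_lit 12400] false,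
   Spec.mk (nat_lit 32086) (nat_lit 2) [nat_lit 18964, nat_lit 45208, nat_lit 36460, nat_lit 31600, nat_lit 32104, nat_lit 32080, nat_lit 32088] (nat_lit 0) [nat_lit 51768, nat_lit 12404] false,
   Spec.mk (nat_lit 32088) (nat_lit 2) [nat_lit 18966, nat_lit 45210, nat_lit 36462, nat_lit 31602, nat_lit 32106, nat_lit 32082, nat_lit 32094, nat_lit 32086] (nat_lit 0) [nat_lit 12406] false,
   Spec.mk (nat_lit 32094) (nat_lit 1) [nat_lit 18972, nat_lit 45216, nat_lit 36468, nat_lit 31608, nat_lit 32112, nat_lit 32088] (nat_lit 0) [nat_lit 12412] false,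
   Spec.mk (nat_lit 32104) (nat_lit 2) [nat_lit 18982, nat_lit 45226, nat_lit 36478, nat_lit 31618, nat_lit 32158, nat_lit 32086, nat_lit 32106] (nat_lit 0) [nat_lit 51786, nat_lit 12422] false,
   Spec.mk (nat_lit 32106) (nat_lit 1) [nat_lit 18984, nat_lit 45228, nat_lit 36480, nat_lit 31620, nat_lit 32160, nat_lit 32088, nat_lit 32112, nat_lit 32104] (nat_lit 0) [nat_lit 12424] false,
   Spec.mk (nat_lit 32112) (nat_lit 2) [nat_lit 18990, nat_lit 45234, nat_lit 36486, nat_lit 31626, nat_lit 32166, nat_lit 32094, nat_lit 32130, nat_lit 32106] (nat_lit 0) [nat_lit 12430] false,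
   Spec.mk (nat_lit 32130) (nat_lit 1) [nat_lit 19008, nat_lit 45252, nat_lit 36504, nat_lit 31644, nat_lit 32184, nat_lit 32112] (nat_lit 0) [nat_lit 12448] false,
   Spec.mk (nat_lit 32158) (nat_lit 2) [nat_lit 19036, nat_lit 45280, nat_lit 36532, nat_lit 31672, nat_lit 32320, nat_lit 32104, nat_lit 32160] (nat_lit 0) [nat_lit 51840, nat_lit 12476] false,
   Spec.mk (nat_lit 32160) (nat_lit 1) [nat_lit 19038, nat_lit 45282, nat_lit 36534, nat_lit 31674, nat_lit 32322, nat_lit 32106, nat_lit 32166, nat_lit 32158] (nat_lit 0) [nat_lit 12478] false,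
   Spec.mk (nat_lit 32166) (nat_lit 1) [nat_lit 19044, nat_lit 45288, nat_lit 36540, nat_lit 31680, nat_lit 32328, nat_lit 32112, nat_lit 32184, nat_lit 32160] (nat_lit 0) [nat_lit 12484] false,
   Spec.mk (nat_lit 32184) (nat_lit 2) [nat_lit 19062, nat_lit 45306, nat_lit 36558, nat_lit 31698, nat_lit 32346, nat_lit 32130, nat_lit 32238, nat_lit 32166] (nat_lit 0) [nat_lit 12502] false,
   Spec.mk (nat_lit 32238) (nat_lit 1) [nat_lit 19116, nat_lit 45360, nat_lit 36612, nat_lit 31752, nat_lit 32400, nat_lit 32184] (nat_lit 0) [nat_lit 12556] false,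
   Spec.mk (nat_lit 32320) (nat_lit 4) [nat_lit 19198, nat_lit 45442, nat_lit 36694, nat_lit 31834, nat_lit 32158, nat_lit 32322] (nat_lit 0) [nat_lit 52002, nat_lit 12638] false,
   Spec.mk (nat_lit 32322) (nat_lit 3) [nat_lit 19200, nat_lit 45444, nat_lit 36696, nat_lit 31836, nat_lit 32160, nat_lit 32328, nat_lit 32320] (nat_lit 0) [nat_lit 12640] false,
   Spec.mk (nat_lit 32328) (nat_lit 3) [nat_lit 19206, nat_lit 45450, nat_lit 36702, nat_lit 31842, nat_lit 32166, nat_lit 32346, nat_lit 32322] (nat_lit 0) [nat_lit 12646] false,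
   Spec.mk (nat_lit 32346) (nat_lit 3) [nat_lit 19224, nat_lit 45468, nat_lit 36720, nat_lit 31860, nat_lit 32184, nat_lit 32400, nat_lit 32328] (nat_lit 0) [nat_lit 12664] false,
   Spec.mk (nat_lit 32400) (nat_lit 4) [nat_lit 19278, nat_lit 45522, nat_lit 36774, nat_lit 31914, nat_lit 32238, nat_lit 32562, nat_lit 32346] (nat_lit 0) [nat_lit 12718] false,
   Spec.mk (nat_lit 32562) (nat_lit 5) [nat_lit 19440, nat_lit 45684, nat_lit 36936, nat_lit 32400] (nat_lit 0) [nat_lit 12880] false,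
   Spec.mk (nat_lit 32822) (nat_lit 4) [nat_lit 45944, nat_lit 28448, nat_lit 32840, nat_lit 32828] (nat_lit 0) [nat_lit 52504] false,
   Spec.mk (nat_lit 32828) (nat_lit 2) [nat_lit 45950, nat_lit 28454, nat_lit 32846, nat_lit 32822, nat_lit 32830] (nat_lit 0) [nat_lit 52510] false,
   Spec.mk (nat_lit 32830) (nat_lit 3) [nat_lit 45952, nat_lit 28456, nat_lit 32848, nat_lit 32828] (nat_lit 0) [nat_lit 52512, nat_lit 13148] false,
   Spec.mk (nat_lit 32840) (nat_lit 2) [nat_lit 45962, nat_lit 28466, nat_lit 32894, nat_lit 32822, nat_lit 32846] (nat_lit 0) [nat_lit 52522] false,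
   Spec.mk (nat_lit 32846) (nat_lit 2) [nat_lit 45968, nat_lit 28472, nat_lit 32900, nat_lit 32828, nat_lit 32864, nat_lit 32840, nat_lit 32852, nat_lit 32848] (nat_lit 0) [nat_lit 52528] false,
   Spec.mk (nat_lit 32848) (nat_lit 2) [nat_lit 45970, nat_lit 28474, nat_lit 32902, nat_lit 32830, nat_lit 32866, nat_lit 32854, nat_lit 32846] (nat_lit 0) [nat_lit 52530, nat_lit 13166] false,
   Spec.mk (nat_lit 32852) (nat_lit 0) [nat_lit 45974, nat_lit 28478, nat_lit 32906, nat_lit 32870, nat_lit 32846, nat_lit 32854] (nat_lit 0) [nat_lit 52534] false,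
   Spec.mk (nat_lit 32854) (nat_lit 2) [nat_lit 45976, nat_lit 28480, nat_lit 32908, nat_lit 32872, nat_lit 32848, nat_lit 32852, nat_lit 32856] (nat_lit 0) [nat_lit 52536, nat_lit 13172] false,
   Spec.mk (nat_lit 32856) (nat_lit 2) [nat_lit 45978, nat_lit 28482, nat_lit 32910, nat_lit 32874, nat_lit 32854] (nat_lit 0) [nat_lit 13174] false,
   Spec.mk (nat_lit 32864) (nat_lit 0) [nat_lit 45986, nat_lit 28490, nat_lit 32918, nat_lit 32846, nat_lit 32870, nat_lit 32866] (nat_lit 0) [nat_lit 52546] false,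
   Spec.mk (nat_lit 32866) (nat_lit 0) [nat_lit 45988, nat_lit 28492, nat_lit 32920, nat_lit 32848, nat_lit 32872, nat_lit 32864] (nat_lit 1) [nat_lit 52548, nat_lit 13184] false,
   Spec.mk (nat_lit 32870) (nat_lit 0) [nat_lit 45992, nat_lit 28496, nat_lit 32924, nat_lit 32852, nat_lit 32864, nat_lit 32872] (nat_lit 0) [nat_lit 52552] false,
   Spec.mk (nat_lit 32872) (nat_lit 1) [nat_lit 45994, nat_lit 28498, nat_lit 32926, nat_lit 32854, nat_lit 32866, nat_lit 32878, nat_lit 32870, nat_lit 32874] (nat_lit 0) [nat_lit 52554, nat_lit 13190] false,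
   Spec.mk (nat_lit 32874) (nat_lit 0) [nat_lit 45996, nat_lit 28500, nat_lit 32928, nat_lit 32856, nat_lit 32880, nat_lit 32872] (nat_lit 0) [nat_lit 13192] false,
   Spec.mk (nat_lit 32878) (nat_lit 1) [nat_lit 46000, nat_lit 28504, nat_lit 32932, nat_lit 32872, nat_lit 32880] (nat_lit 0) [nat_lit 52560, nat_lit 13196] false,
   Spec.mk (nat_lit 32880) (nat_lit 2) [nat_lit 46002, nat_lit 28506, nat_lit 32934, nat_lit 32874, nat_lit 32878] (nat_lit 0) [nat_lit 13198] false,
   Spec.mk (nat_lit 32894) (nat_lit 2) [nat_lit 46016, nat_lit 28520, nat_lit 33056, nat_lit 32840, nat_lit 32900] (nat_lit 0) [nat_lit 52576] false,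
   Spec.mk (nat_lit 32900) (nat_lit 1) [nat_lit 46022, nat_lit 28526, nat_lit 33062, nat_lit 32846, nat_lit 32918, nat_lit 32894, nat_lit 32906, nat_lit 32902] (nat_lit 0) [nat_lit 52582] false,
   Spec.mk (nat_lit 32902) (nat_lit 1) [nat_lit 46024, nat_lit 28528, nat_lit 33064, nat_lit 32848, nat_lit 32920, nat_lit 32908, nat_lit 32900] (nat_lit 0) [nat_lit 52584, nat_lit 13220] false,
   Spec.mk (nat_lit 32906) (nat_lit 0) [nat_lit 46028, nat_lit 28532, nat_lit 33068, nat_lit 32852, nat_lit 32924, nat_lit 32900, nat_lit 32908] (nat_lit 2) [nat_lit 52588] false,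
   Spec.mk (nat_lit 32908) (nat_lit 0) [nat_lit 46030, nat_lit 28534, nat_lit 33070, nat_lit 32854, nat_lit 32926, nat_lit 32902, nat_lit 32906, nat_lit 32910] (nat_lit 0) [nat_lit 52590, nat_lit 13226] false,
   Spec.mk (nat_lit 32910) (nat_lit 0) [nat_lit 46032, nat_lit 28536, nat_lit 33072, nat_lit 32856, nat_lit 32928, nat_lit 32908] (nat_lit 0) [nat_lit 13228] false,
   Spec.mk (nat_lit 32918) (nat_lit 1) [nat_lit 46040, nat_lit 28544, nat_lit 33080, nat_lit 32864, nat_lit 32972, nat_lit 32900, nat_lit 32924, nat_lit 32920] (nat_lit 0) [nat_lit 52600] false,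
   Spec.mk (nat_lit 32920) (nat_lit 0) [nat_lit 46042, nat_lit 28546, nat_lit 33082, nat_lit 32866, nat_lit 32974, nat_lit 32902, nat_lit 32926, nat_lit 32918] (nat_lit 0) [nat_lit 52602, nat_lit 13238] false,
   Spec.mk (nat_lit 32924) (nat_lit 0) [nat_lit 46046, nat_lit 28550, nat_lit 33086, nat_lit 32870, nat_lit 32978, nat_lit 32906, nat_lit 32942, nat_lit 32918, nat_lit 32926] (nat_lit 0) [nat_lit 52606] false,
   Spec.mk (nat_lit 32926) (nat_lit 1) [nat_lit 46048, nat_lit 28552, nat_lit 33088, nat_lit 32872, nat_lit 32980, nat_lit 32908, nat_lit 32944, nat_lit 32920, nat_lit 32932, nat_lit 32924, nat_lit 32928] (nat_lit 0) [nat_lit 52608, nat_lit 13244] false,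
   Spec.mk (nat_lit 32928) (nat_lit 0) [nat_lit 46050, nat_lit 28554, nat_lit 33090, nat_lit 32874, nat_lit 32982, nat_lit 32910, nat_lit 32946, nat_lit 32934, nat_lit 32926] (nat_lit 0) [nat_lit 13246] false,
   Spec.mk (nat_lit 32932) (nat_lit 0) [nat_lit 46054, nat_lit 28558, nat_lit 33094, nat_lit 32878, nat_lit 32986, nat_lit 32950, nat_lit 32926, nat_lit 32934] (nat_lit 0) [nat_lit 52614, nat_lit 13250] false,
   Spec.mk (nat_lit 32934) (nat_lit 1) [nat_lit 46056, nat_lit 28560, nat_lit 33096, nat_lit 32880, nat_lit 32988, nat_lit 32952, nat_lit 32928, nat_lit 32932] (nat_lit 0) [nat_lit 13252] false,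
   Spec.mk (nat_lit 32942) (nat_lit 0) [nat_lit 46064, nat_lit 28568, nat_lit 33104, nat_lit 32996, nat_lit 32924, nat_lit 32944] (nat_lit 0) [nat_lit 52624] false,
   Spec.mk (nat_lit 32944) (nat_lit 0) [nat_lit 46066, nat_lit 28570, nat_lit 33106, nat_lit 32998, nat_lit 32926, nat_lit 32950, nat_lit 32942, nat_lit 32946] (nat_lit 0) [nat_lit 52626, nat_lit 13262] false,
   Spec.mk (nat_lit 32946) (nat_lit 0) [nat_lit 46068, nat_lit 28572, nat_lit 33108, nat_lit 33000, nat_lit 32928, nat_lit 32952, nat_lit 32944] (nat_lit 2) [nat_lit 13264] false,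
   Spec.mk (nat_lit 32950) (nat_lit 1) [nat_lit 46072, nat_lit 28576, nat_lit 33112, nat_lit 33004, nat_lit 32932, nat_lit 32944, nat_lit 32952] (nat_lit 0) [nat_lit 52632, nat_lit 13268] false]

noncomputable def sp79 : List Spec :=
  [Spec.mk (nat_lit 32952) (nat_lit 1) [nat_lit 46074, nat_lit 28578, nat_lit 33114, nat_lit 33006, nat_lit 32934, nat_lit 32946, nat_lit 32958, nat_lit 32950] (nat_lit 0) [nat_lit 13270] false,
   Spec.mk (nat_lit 32958) (nat_lit 2) [nat_lit 46080, nat_lit 28584, nat_lit 33120, nat_lit 33012, nat_lit 32952] (nat_lit 0) [nat_lit 13276] false,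
   Spec.mk (nat_lit 32972) (nat_lit 0) [nat_lit 46094, nat_lit 28598, nat_lit 33134, nat_lit 32918, nat_lit 32978, nat_lit 32974] (nat_lit 0) [nat_lit 52654] false,
   Spec.mk (nat_lit 32974) (nat_lit 0) [nat_lit 46096, nat_lit 28600, nat_lit 33136, nat_lit 32920, nat_lit 32980, nat_lit 32972] (nat_lit 1) [nat_lit 52656, nat_lit 13292] false,
   Spec.mk (nat_lit 32978) (nat_lit 0) [nat_lit 46100, nat_lit 28604, nat_lit 33140, nat_lit 32924, nat_lit 32996, nat_lit 32972, nat_lit 32980] (nat_lit 2) [nat_lit 52660] false,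
   Spec.mk (nat_lit 32980) (nat_lit 0) [nat_lit 46102, nat_lit 28606, nat_lit 33142, nat_lit 32926, nat_lit 32998, nat_lit 32974, nat_lit 32986, nat_lit 32978, nat_lit 32982] (nat_lit 1) [nat_lit 52662, nat_lit 13298] false,
   Spec.mk (nat_lit 32982) (nat_lit 0) [nat_lit 46104, nat_lit 28608, nat_lit 33144, nat_lit 32928, nat_lit 33000, nat_lit 32988, nat_lit 32980] (nat_lit 2) [nat_lit 13300] false,
   Spec.mk (nat_lit 32986) (nat_lit 0) [nat_lit 46108, nat_lit 28612, nat_lit 33148, nat_lit 32932, nat_lit 33004, nat_lit 32980, nat_lit 32988] (nat_lit 3) [nat_lit 52668, nat_lit 13304] false,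
   Spec.mk (nat_lit 32988) (nat_lit 0) [nat_lit 46110, nat_lit 28614, nat_lit 33150, nat_lit 32934, nat_lit 33006, nat_lit 32982, nat_lit 32986] (nat_lit 2) [nat_lit 13306] false,
   Spec.mk (nat_lit 32996) (nat_lit 0) [nat_lit 46118, nat_lit 28622, nat_lit 33158, nat_lit 32942, nat_lit 32978, nat_lit 32998] (nat_lit 0) [nat_lit 52678] false,
   Spec.mk (nat_lit 32998) (nat_lit 0) [nat_lit 46120, nat_lit 28624, nat_lit 33160, nat_lit 32944, nat_lit 32980, nat_lit 33004, nat_lit 32996, nat_lit 33000] (nat_lit 0) [nat_lit 52680, nat_lit 13316] false,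
   Spec.mk (nat_lit 33000) (nat_lit 0) [nat_lit 46122, nat_lit 28626, nat_lit 33162, nat_lit 32946, nat_lit 32982, nat_lit 33006, nat_lit 32998] (nat_lit 2) [nat_lit 13318] false,
   Spec.mk (nat_lit 33004) (nat_lit 0) [nat_lit 46126, nat_lit 28630, nat_lit 33166, nat_lit 32950, nat_lit 32986, nat_lit 33022, nat_lit 32998, nat_lit 33006] (nat_lit 0) [nat_lit 52686, nat_lit 13322] false,
   Spec.mk (nat_lit 33006) (nat_lit 0) [nat_lit 46128, nat_lit 28632, nat_lit 33168, nat_lit 32952, nat_lit 32988, nat_lit 33024, nat_lit 33000, nat_lit 33012, nat_lit 33004] (nat_lit 0) [nat_lit 13324] false,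
   Spec.mk (nat_lit 33012) (nat_lit 0) [nat_lit 46134, nat_lit 28638, nat_lit 33174, nat_lit 32958, nat_lit 33030, nat_lit 33006] (nat_lit 0) [nat_lit 13330] false,
   Spec.mk (nat_lit 33022) (nat_lit 1) [nat_lit 46144, nat_lit 28648, nat_lit 33184, nat_lit 33004, nat_lit 33024] (nat_lit 0) [nat_lit 52704, nat_lit 13340] false,
   Spec.mk (nat_lit 33024) (nat_lit 0) [nat_lit 46146, nat_lit 28650, nat_lit 33186, nat_lit 33006, nat_lit 33030, nat_lit 33022] (nat_lit 0) [nat_lit 13342] false,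
   Spec.mk (nat_lit 33030) (nat_lit 2) [nat_lit 46152, nat_lit 28656, nat_lit 33192, nat_lit 33012, nat_lit 33024] (nat_lit 0) [nat_lit 13348] false,
   Spec.mk (nat_lit 33056) (nat_lit 2) [nat_lit 46178, nat_lit 28682, nat_lit 33542, nat_lit 32894, nat_lit 33062] (nat_lit 0) [nat_lit 52738] false,
   Spec.mk (nat_lit 33062) (nat_lit 1) [nat_lit 46184, nat_lit 28688, nat_lit 33548, nat_lit 32900, nat_lit 33080, nat_lit 33056, nat_lit 33068, nat_lit 33064] (nat_lit 0) [nat_lit 52744] false,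
   Spec.mk (nat_lit 33064) (nat_lit 1) [nat_lit 46186, nat_lit 28690, nat_lit 33550, nat_lit 32902, nat_lit 33082, nat_lit 33070, nat_lit 33062] (nat_lit 0) [nat_lit 52746, nat_lit 13382] false,
   Spec.mk (nat_lit 33068) (nat_lit 0) [nat_lit 46190, nat_lit 28694, nat_lit 33554, nat_lit 32906, nat_lit 33086, nat_lit 33062, nat_lit 33070] (nat_lit 2) [nat_lit 52750] false,
   Spec.mk (nat_lit 33070) (nat_lit 0) [nat_lit 46192, nat_lit 28696, nat_lit 33556, nat_lit 32908, nat_lit 33088, nat_lit 33064, nat_lit 33068, nat_lit 33072] (nat_lit 0) [nat_lit 52752, nat_lit 13388] false,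
   Spec.mk (nat_lit 33072) (nat_lit 0) [nat_lit 46194, nat_lit 28698, nat_lit 33558, nat_lit 32910, nat_lit 33090, nat_lit 33070] (nat_lit 0) [nat_lit 13390] false,
   Spec.mk (nat_lit 33080) (nat_lit 0) [nat_lit 46202, nat_lit 28706, nat_lit 33566, nat_lit 32918, nat_lit 33134, nat_lit 33062, nat_lit 33086, nat_lit 33082] (nat_lit 0) [nat_lit 52762] false,
   Spec.mk (nat_lit 33082) (nat_lit 0) [nat_lit 46204, nat_lit 28708, nat_lit 33568, nat_lit 32920, nat_lit 33136, nat_lit 33064, nat_lit 33088, nat_lit 33080] (nat_lit 1) [nat_lit 52764, nat_lit 13400] false,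
   Spec.mk (nat_lit 33086) (nat_lit 0) [nat_lit 46208, nat_lit 28712, nat_lit 33572, nat_lit 32924, nat_lit 33140, nat_lit 33068, nat_lit 33104, nat_lit 33080, nat_lit 33088] (nat_lit 1) [nat_lit 52768] false,
   Spec.mk (nat_lit 33088) (nat_lit 0) [nat_lit 46210, nat_lit 28714, nat_lit 33574, nat_lit 32926, nat_lit 33142, nat_lit 33070, nat_lit 33106, nat_lit 33082, nat_lit 33094, nat_lit 33086, nat_lit 33090] (nat_lit 0) [nat_lit 52770, nat_lit 13406] false,
   Spec.mk (nat_lit 33090) (nat_lit 0) [nat_lit 46212, nat_lit 28716, nat_lit 33576, nat_lit 32928, nat_lit 33144, nat_lit 33072, nat_lit 33108, nat_lit 33096, nat_lit 33088] (nat_lit 1) [nat_lit 13408] false,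
   Spec.mk (nat_lit 33094) (nat_lit 0) [nat_lit 46216, nat_lit 28720, nat_lit 33580, nat_lit 32932, nat_lit 33148, nat_lit 33112, nat_lit 33088, nat_lit 33096] (nat_lit 1) [nat_lit 52776, nat_lit 13412] false,
   Spec.mk (nat_lit 33096) (nat_lit 0) [nat_lit 46218, nat_lit 28722, nat_lit 33582, nat_lit 32934, nat_lit 33150, nat_lit 33114, nat_lit 33090, nat_lit 33094] (nat_lit 0) [nat_lit 13414] false,
   Spec.mk (nat_lit 33104) (nat_lit 0) [nat_lit 46226, nat_lit 28730, nat_lit 33590, nat_lit 32942, nat_lit 33158, nat_lit 33086, nat_lit 33106] (nat_lit 2) [nat_lit 52786] false,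
   Spec.mk (nat_lit 33106) (nat_lit 0) [nat_lit 46228, nat_lit 28732, nat_lit 33592, nat_lit 32944, nat_lit 33160, nat_lit 33088, nat_lit 33112, nat_lit 33104, nat_lit 33108] (nat_lit 2) [nat_lit 52788, nat_lit 13424] false,
   Spec.mk (nat_lit 33108) (nat_lit 0) [nat_lit 46230, nat_lit 28734, nat_lit 33594, nat_lit 32946, nat_lit 33162, nat_lit 33090, nat_lit 33114, nat_lit 33106] (nat_lit 4) [nat_lit 13426] false,
   Spec.mk (nat_lit 33112) (nat_lit 0) [nat_lit 46234, nat_lit 28738, nat_lit 33598, nat_lit 32950, nat_lit 33166, nat_lit 33094, nat_lit 33106, nat_lit 33114] (nat_lit 1) [nat_lit 52794, nat_lit 13430] false,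
   Spec.mk (nat_lit 33114) (nat_lit 0) [nat_lit 46236, nat_lit 28740, nat_lit 33600, nat_lit 32952, nat_lit 33168, nat_lit 33096, nat_lit 33108, nat_lit 33120, nat_lit 33112] (nat_lit 1) [nat_lit 13432] false,
   Spec.mk (nat_lit 33120) (nat_lit 0) [nat_lit 46242, nat_lit 28746, nat_lit 33606, nat_lit 32958, nat_lit 33174, nat_lit 33114] (nat_lit 0) [nat_lit 13438] false,
   Spec.mk (nat_lit 33134) (nat_lit 1) [nat_lit 46256, nat_lit 28760, nat_lit 33620, nat_lit 32972, nat_lit 33296, nat_lit 33080, nat_lit 33140, nat_lit 33136] (nat_lit 0) [nat_lit 52816] false,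
   Spec.mk (nat_lit 33136) (nat_lit 0) [nat_lit 46258, nat_lit 28762, nat_lit 33622, nat_lit 32974, nat_lit 33298, nat_lit 33082, nat_lit 33142, nat_lit 33134] (nat_lit 0) [nat_lit 52818, nat_lit 13454] false,
   Spec.mk (nat_lit 33140) (nat_lit 0) [nat_lit 46262, nat_lit 28766, nat_lit 33626, nat_lit 32978, nat_lit 33302, nat_lit 33086, nat_lit 33158, nat_lit 33134, nat_lit 33142] (nat_lit 1) [nat_lit 52822] false,
   Spec.mk (nat_lit 33142) (nat_lit 0) [nat_lit 46264, nat_lit 28768, nat_lit 33628, nat_lit 32980, nat_lit 33304, nat_lit 33088, nat_lit 33160, nat_lit 33136, nat_lit 33148, nat_lit 33140, nat_lit 33144] (nat_lit 0) [nat_lit 52824, nat_lit 13460] false,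
   Spec.mk (nat_lit 33144) (nat_lit 0) [nat_lit 46266, nat_lit 28770, nat_lit 33630, nat_lit 32982, nat_lit 33306, nat_lit 33090, nat_lit 33162, nat_lit 33150, nat_lit 33142] (nat_lit 1) [nat_lit 13462] false,
   Spec.mk (nat_lit 33148) (nat_lit 0) [nat_lit 46270, nat_lit 28774, nat_lit 33634, nat_lit 32986, nat_lit 33310, nat_lit 33094, nat_lit 33166, nat_lit 33142, nat_lit 33150] (nat_lit 2) [nat_lit 52830, nat_lit 13466] false,
   Spec.mk (nat_lit 33150) (nat_lit 0) [nat_lit 46272, nat_lit 28776, nat_lit 33636, nat_lit 32988, nat_lit 33312, nat_lit 33096, nat_lit 33168, nat_lit 33144, nat_lit 33148] (nat_lit 1) [nat_lit 13468] false,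
   Spec.mk (nat_lit 33158) (nat_lit 0) [nat_lit 46280, nat_lit 28784, nat_lit 33644, nat_lit 32996, nat_lit 33320, nat_lit 33104, nat_lit 33212, nat_lit 33140, nat_lit 33160] (nat_lit 0) [nat_lit 52840] false,
   Spec.mk (nat_lit 33160) (nat_lit 0) [nat_lit 46282, nat_lit 28786, nat_lit 33646, nat_lit 32998, nat_lit 33322, nat_lit 33106, nat_lit 33214, nat_lit 33142, nat_lit 33166, nat_lit 33158, nat_lit 33162] (nat_lit 0) [nat_lit 52842, nat_lit 13478] false,
   Spec.mk (nat_lit 33162) (nat_lit 0) [nat_lit 46284, nat_lit 28788, nat_lit 33648, nat_lit 33000, nat_lit 33324, nat_lit 33108, nat_lit 33216, nat_lit 33144, nat_lit 33168, nat_lit 33160] (nat_lit 2) [nat_lit 13480] false,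
   Spec.mk (nat_lit 33166) (nat_lit 0) [nat_lit 46288, nat_lit 28792, nat_lit 33652, nat_lit 33004, nat_lit 33328, nat_lit 33112, nat_lit 33220, nat_lit 33148, nat_lit 33184, nat_lit 33160, nat_lit 33168] (nat_lit 0) [nat_lit 52848, nat_lit 13484] false,
   Spec.mk (nat_lit 33168) (nat_lit 0) [nat_lit 46290, nat_lit 28794, nat_lit 33654, nat_lit 33006, nat_lit 33330, nat_lit 33114, nat_lit 33222, nat_lit 33150, nat_lit 33186, nat_lit 33162, nat_lit 33174, nat_lit 33166] (nat_lit 0) [nat_lit 13486] false,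
   Spec.mk (nat_lit 33174) (nat_lit 0) [nat_lit 46296, nat_lit 28800, nat_lit 33660, nat_lit 33012, nat_lit 33336, nat_lit 33120, nat_lit 33228, nat_lit 33192, nat_lit 33168] (nat_lit 0) [nat_lit 13492] false,
   Spec.mk (nat_lit 33184) (nat_lit 0) [nat_lit 46306, nat_lit 28810, nat_lit 33670, nat_lit 33022, nat_lit 33346, nat_lit 33238, nat_lit 33166, nat_lit 33186] (nat_lit 0) [nat_lit 52866, nat_lit 13502] false,
   Spec.mk (nat_lit 33186) (nat_lit 0) [nat_lit 46308, nat_lit 28812, nat_lit 33672, nat_lit 33024, nat_lit 33348, nat_lit 33240, nat_lit 33168, nat_lit 33192, nat_lit 33184] (nat_lit 1) [nat_lit 13504] false,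
   Spec.mk (nat_lit 33192) (nat_lit 1) [nat_lit 46314, nat_lit 28818, nat_lit 33678, nat_lit 33030, nat_lit 33354, nat_lit 33246, nat_lit 33174, nat_lit 33186] (nat_lit 0) [nat_lit 13510] false,
   Spec.mk (nat_lit 33212) (nat_lit 0) [nat_lit 46334, nat_lit 28838, nat_lit 33698, nat_lit 33374, nat_lit 33158, nat_lit 33214] (nat_lit 0) [nat_lit 52894] false,
   Spec.mk (nat_lit 33214) (nat_lit 0) [nat_lit 46336, nat_lit 28840, nat_lit 33700, nat_lit 33376, nat_lit 33160, nat_lit 33220, nat_lit 33212, nat_lit 33216] (nat_lit 0) [nat_lit 52896, nat_lit 13532] false,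
   Spec.mk (nat_lit 33216) (nat_lit 0) [nat_lit 46338, nat_lit 28842, nat_lit 33702, nat_lit 33378, nat_lit 33162, nat_lit 33222, nat_lit 33214] (nat_lit 2) [nat_lit 13534] false,
   Spec.mk (nat_lit 33220) (nat_lit 0) [nat_lit 46342, nat_lit 28846, nat_lit 33706, nat_lit 33382, nat_lit 33166, nat_lit 33238, nat_lit 33214, nat_lit 33222] (nat_lit 1) [nat_lit 52902, nat_lit 13538] false,
   Spec.mk (nat_lit 33222) (nat_lit 0) [nat_lit 46344, nat_lit 28848, nat_lit 33708, nat_lit 33384, nat_lit 33168, nat_lit 33240, nat_lit 33216, nat_lit 33228, nat_lit 33220] (nat_lit 1) [nat_lit 13540] false,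
   Spec.mk (nat_lit 33228) (nat_lit 0) [nat_lit 46350, nat_lit 28854, nat_lit 33714, nat_lit 33390, nat_lit 33174, nat_lit 33246, nat_lit 33222] (nat_lit 2) [nat_lit 13546] false,
   Spec.mk (nat_lit 33238) (nat_lit 1) [nat_lit 46360, nat_lit 28864, nat_lit 33724, nat_lit 33400, nat_lit 33184, nat_lit 33220, nat_lit 33240] (nat_lit 0) [nat_lit 52920, nat_lit 13556] false]

noncomputable def sp80 : List Spec :=
  [Spec.mk (nat_lit 33240) (nat_lit 0) [nat_lit 46362, nat_lit 28866, nat_lit 33726, nat_lit 33402, nat_lit 33186, nat_lit 33222, nat_lit 33246, nat_lit 33238] (nat_lit 0) [nat_lit 13558] false,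
   Spec.mk (nat_lit 33246) (nat_lit 1) [nat_lit 46368, nat_lit 28872, nat_lit 33732, nat_lit 33408, nat_lit 33192, nat_lit 33228, nat_lit 33264, nat_lit 33240] (nat_lit 0) [nat_lit 13564] false,
   Spec.mk (nat_lit 33264) (nat_lit 2) [nat_lit 46386, nat_lit 28890, nat_lit 33750, nat_lit 33426, nat_lit 33246] (nat_lit 0) [nat_lit 13582] false,
   Spec.mk (nat_lit 33296) (nat_lit 0) [nat_lit 46418, nat_lit 28922, nat_lit 33782, nat_lit 33134, nat_lit 33302, nat_lit 33298] (nat_lit 0) [nat_lit 52978] false,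
   Spec.mk (nat_lit 33298) (nat_lit 0) [nat_lit 46420, nat_lit 28924, nat_lit 33784, nat_lit 33136, nat_lit 33304, nat_lit 33296] (nat_lit 1) [nat_lit 52980, nat_lit 13616] false,
   Spec.mk (nat_lit 33302) (nat_lit 0) [nat_lit 46424, nat_lit 28928, nat_lit 33788, nat_lit 33140, nat_lit 33320, nat_lit 33296, nat_lit 33304] (nat_lit 2) [nat_lit 52984] false,
   Spec.mk (nat_lit 33304) (nat_lit 0) [nat_lit 46426, nat_lit 28930, nat_lit 33790, nat_lit 33142, nat_lit 33322, nat_lit 33298, nat_lit 33310, nat_lit 33302, nat_lit 33306] (nat_lit 1) [nat_lit 52986, nat_lit 13622] false,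
   Spec.mk (nat_lit 33306) (nat_lit 0) [nat_lit 46428, nat_lit 28932, nat_lit 33792, nat_lit 33144, nat_lit 33324, nat_lit 33312, nat_lit 33304] (nat_lit 2) [nat_lit 13624] false,
   Spec.mk (nat_lit 33310) (nat_lit 0) [nat_lit 46432, nat_lit 28936, nat_lit 33796, nat_lit 33148, nat_lit 33328, nat_lit 33304, nat_lit 33312] (nat_lit 3) [nat_lit 52992, nat_lit 13628] false,
   Spec.mk (nat_lit 33312) (nat_lit 0) [nat_lit 46434, nat_lit 28938, nat_lit 33798, nat_lit 33150, nat_lit 33330, nat_lit 33306, nat_lit 33310] (nat_lit 2) [nat_lit 13630] false,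
   Spec.mk (nat_lit 33320) (nat_lit 0) [nat_lit 46442, nat_lit 28946, nat_lit 33806, nat_lit 33158, nat_lit 33374, nat_lit 33302, nat_lit 33322] (nat_lit 2) [nat_lit 53002] false,
   Spec.mk (nat_lit 33322) (nat_lit 0) [nat_lit 46444, nat_lit 28948, nat_lit 33808, nat_lit 33160, nat_lit 33376, nat_lit 33304, nat_lit 33328, nat_lit 33320, nat_lit 33324] (nat_lit 2) [nat_lit 53004, nat_lit 13640] false,
   Spec.mk (nat_lit 33324) (nat_lit 0) [nat_lit 46446, nat_lit 28950, nat_lit 33810, nat_lit 33162, nat_lit 33378, nat_lit 33306, nat_lit 33330, nat_lit 33322] (nat_lit 4) [nat_lit 13642] false,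
   Spec.mk (nat_lit 33328) (nat_lit 0) [nat_lit 46450, nat_lit 28954, nat_lit 33814, nat_lit 33166, nat_lit 33382, nat_lit 33310, nat_lit 33346, nat_lit 33322, nat_lit 33330] (nat_lit 2) [nat_lit 53010, nat_lit 13646] false,
   Spec.mk (nat_lit 33330) (nat_lit 0) [nat_lit 46452, nat_lit 28956, nat_lit 33816, nat_lit 33168, nat_lit 33384, nat_lit 33312, nat_lit 33348, nat_lit 33324, nat_lit 33336, nat_lit 33328] (nat_lit 2) [nat_lit 13648] false,
   Spec.mk (nat_lit 33336) (nat_lit 0) [nat_lit 46458, nat_lit 28962, nat_lit 33822, nat_lit 33174, nat_lit 33390, nat_lit 33354, nat_lit 33330] (nat_lit 2) [nat_lit 13654] false,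
   Spec.mk (nat_lit 33346) (nat_lit 0) [nat_lit 46468, nat_lit 28972, nat_lit 33832, nat_lit 33184, nat_lit 33400, nat_lit 33328, nat_lit 33348] (nat_lit 3) [nat_lit 53028, nat_lit 13664] false,
   Spec.mk (nat_lit 33348) (nat_lit 0) [nat_lit 46470, nat_lit 28974, nat_lit 33834, nat_lit 33186, nat_lit 33402, nat_lit 33330, nat_lit 33354, nat_lit 33346] (nat_lit 4) [nat_lit 13666] false,
   Spec.mk (nat_lit 33354) (nat_lit 0) [nat_lit 46476, nat_lit 28980, nat_lit 33840, nat_lit 33192, nat_lit 33408, nat_lit 33336, nat_lit 33348] (nat_lit 2) [nat_lit 13672] false,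
   Spec.mk (nat_lit 33374) (nat_lit 0) [nat_lit 46496, nat_lit 29000, nat_lit 33860, nat_lit 33212, nat_lit 33320, nat_lit 33376] (nat_lit 0) [nat_lit 53056] false,
   Spec.mk (nat_lit 33376) (nat_lit 0) [nat_lit 46498, nat_lit 29002, nat_lit 33862, nat_lit 33214, nat_lit 33322, nat_lit 33382, nat_lit 33374, nat_lit 33378] (nat_lit 0) [nat_lit 53058, nat_lit 13694] false,
   Spec.mk (nat_lit 33378) (nat_lit 0) [nat_lit 46500, nat_lit 29004, nat_lit 33864, nat_lit 33216, nat_lit 33324, nat_lit 33384, nat_lit 33376] (nat_lit 2) [nat_lit 13696] false,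
   Spec.mk (nat_lit 33382) (nat_lit 0) [nat_lit 46504, nat_lit 29008, nat_lit 33868, nat_lit 33220, nat_lit 33328, nat_lit 33400, nat_lit 33376, nat_lit 33384] (nat_lit 1) [nat_lit 53064, nat_lit 13700] false,
   Spec.mk (nat_lit 33384) (nat_lit 0) [nat_lit 46506, nat_lit 29010, nat_lit 33870, nat_lit 33222, nat_lit 33330, nat_lit 33402, nat_lit 33378, nat_lit 33390, nat_lit 33382] (nat_lit 1) [nat_lit 13702] false,
   Spec.mk (nat_lit 33390) (nat_lit 0) [nat_lit 46512, nat_lit 29016, nat_lit 33876, nat_lit 33228, nat_lit 33336, nat_lit 33408, nat_lit 33384] (nat_lit 2) [nat_lit 13708] false,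
   Spec.mk (nat_lit 33400) (nat_lit 0) [nat_lit 46522, nat_lit 29026, nat_lit 33886, nat_lit 33238, nat_lit 33346, nat_lit 33454, nat_lit 33382, nat_lit 33402] (nat_lit 0) [nat_lit 53082, nat_lit 13718] false,
   Spec.mk (nat_lit 33402) (nat_lit 0) [nat_lit 46524, nat_lit 29028, nat_lit 33888, nat_lit 33240, nat_lit 33348, nat_lit 33456, nat_lit 33384, nat_lit 33408, nat_lit 33400] (nat_lit 1) [nat_lit 13720] false,
   Spec.mk (nat_lit 33408) (nat_lit 0) [nat_lit 46530, nat_lit 29034, nat_lit 33894, nat_lit 33246, nat_lit 33354, nat_lit 33462, nat_lit 33390, nat_lit 33426, nat_lit 33402] (nat_lit 0) [nat_lit 13726] false,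
   Spec.mk (nat_lit 33426) (nat_lit 0) [nat_lit 46548, nat_lit 29052, nat_lit 33912, nat_lit 33264, nat_lit 33480, nat_lit 33408] (nat_lit 0) [nat_lit 13744] false,
   Spec.mk (nat_lit 33454) (nat_lit 1) [nat_lit 46576, nat_lit 29080, nat_lit 33940, nat_lit 33400, nat_lit 33456] (nat_lit 0) [nat_lit 53136, nat_lit 13772] false,
   Spec.mk (nat_lit 33456) (nat_lit 0) [nat_lit 46578, nat_lit 29082, nat_lit 33942, nat_lit 33402, nat_lit 33462, nat_lit 33454] (nat_lit 0) [nat_lit 13774] false,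
   Spec.mk (nat_lit 33462) (nat_lit 0) [nat_lit 46584, nat_lit 29088, nat_lit 33948, nat_lit 33408, nat_lit 33480, nat_lit 33456] (nat_lit 0) [nat_lit 13780] false,
   Spec.mk (nat_lit 33480) (nat_lit 2) [nat_lit 46602, nat_lit 29106, nat_lit 33966, nat_lit 33426, nat_lit 33462] (nat_lit 0) [nat_lit 13798] false,
   Spec.mk (nat_lit 33542) (nat_lit 2) [nat_lit 46664, nat_lit 29168, nat_lit 35000, nat_lit 33056, nat_lit 33548] (nat_lit 0) [nat_lit 53224] false,
   Spec.mk (nat_lit 33548) (nat_lit 1) [nat_lit 46670, nat_lit 29174, nat_lit 35006, nat_lit 33062, nat_lit 33566, nat_lit 33542, nat_lit 33554, nat_lit 33550] (nat_lit 0) [nat_lit 53230] false,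
   Spec.mk (nat_lit 33550) (nat_lit 1) [nat_lit 46672, nat_lit 29176, nat_lit 35008, nat_lit 33064, nat_lit 33568, nat_lit 33556, nat_lit 33548] (nat_lit 0) [nat_lit 53232, nat_lit 13868] false,
   Spec.mk (nat_lit 33554) (nat_lit 0) [nat_lit 46676, nat_lit 29180, nat_lit 35012, nat_lit 33068, nat_lit 33572, nat_lit 33548, nat_lit 33556] (nat_lit 2) [nat_lit 53236] false,
   Spec.mk (nat_lit 33556) (nat_lit 0) [nat_lit 46678, nat_lit 29182, nat_lit 35014, nat_lit 33070, nat_lit 33574, nat_lit 33550, nat_lit 33554, nat_lit 33558] (nat_lit 0) [nat_lit 53238, nat_lit 13874] false,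
   Spec.mk (nat_lit 33558) (nat_lit 0) [nat_lit 46680, nat_lit 29184, nat_lit 35016, nat_lit 33072, nat_lit 33576, nat_lit 33556] (nat_lit 0) [nat_lit 13876] false,
   Spec.mk (nat_lit 33566) (nat_lit 0) [nat_lit 46688, nat_lit 29192, nat_lit 35024, nat_lit 33080, nat_lit 33620, nat_lit 33548, nat_lit 33572, nat_lit 33568] (nat_lit 0) [nat_lit 53248] false,
   Spec.mk (nat_lit 33568) (nat_lit 0) [nat_lit 46690, nat_lit 29194, nat_lit 35026, nat_lit 33082, nat_lit 33622, nat_lit 33550, nat_lit 33574, nat_lit 33566] (nat_lit 1) [nat_lit 53250, nat_lit 13886] false,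
   Spec.mk (nat_lit 33572) (nat_lit 0) [nat_lit 46694, nat_lit 29198, nat_lit 35030, nat_lit 33086, nat_lit 33626, nat_lit 33554, nat_lit 33590, nat_lit 33566, nat_lit 33574] (nat_lit 1) [nat_lit 53254] false,
   Spec.mk (nat_lit 33574) (nat_lit 0) [nat_lit 46696, nat_lit 29200, nat_lit 35032, nat_lit 33088, nat_lit 33628, nat_lit 33556, nat_lit 33592, nat_lit 33568, nat_lit 33580, nat_lit 33572, nat_lit 33576] (nat_lit 0) [nat_lit 53256, nat_lit 13892] false,
   Spec.mk (nat_lit 33576) (nat_lit 0) [nat_lit 46698, nat_lit 29202, nat_lit 35034, nat_lit 33090, nat_lit 33630, nat_lit 33558, nat_lit 33594, nat_lit 33582, nat_lit 33574] (nat_lit 1) [nat_lit 13894] false,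
   Spec.mk (nat_lit 33580) (nat_lit 0) [nat_lit 46702, nat_lit 29206, nat_lit 35038, nat_lit 33094, nat_lit 33634, nat_lit 33598, nat_lit 33574, nat_lit 33582] (nat_lit 1) [nat_lit 53262, nat_lit 13898] false,
   Spec.mk (nat_lit 33582) (nat_lit 0) [nat_lit 46704, nat_lit 29208, nat_lit 35040, nat_lit 33096, nat_lit 33636, nat_lit 33600, nat_lit 33576, nat_lit 33580] (nat_lit 0) [nat_lit 13900] false,
   Spec.mk (nat_lit 33590) (nat_lit 0) [nat_lit 46712, nat_lit 29216, nat_lit 35048, nat_lit 33104, nat_lit 33644, nat_lit 33572, nat_lit 33592] (nat_lit 2) [nat_lit 53272] false,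
   Spec.mk (nat_lit 33592) (nat_lit 0) [nat_lit 46714, nat_lit 29218, nat_lit 35050, nat_lit 33106, nat_lit 33646, nat_lit 33574, nat_lit 33598, nat_lit 33590, nat_lit 33594] (nat_lit 2) [nat_lit 53274, nat_lit 13910] false,
   Spec.mk (nat_lit 33594) (nat_lit 0) [nat_lit 46716, nat_lit 29220, nat_lit 35052, nat_lit 33108, nat_lit 33648, nat_lit 33576, nat_lit 33600, nat_lit 33592] (nat_lit 4) [nat_lit 13912] false,
   Spec.mk (nat_lit 33598) (nat_lit 0) [nat_lit 46720, nat_lit 29224, nat_lit 35056, nat_lit 33112, nat_lit 33652, nat_lit 33580, nat_lit 33592, nat_lit 33600] (nat_lit 1) [nat_lit 53280, nat_lit 13916] false,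
   Spec.mk (nat_lit 33600) (nat_lit 0) [nat_lit 46722, nat_lit 29226, nat_lit 35058, nat_lit 33114, nat_lit 33654, nat_lit 33582, nat_lit 33594, nat_lit 33606, nat_lit 33598] (nat_lit 1) [nat_lit 13918] false,
   Spec.mk (nat_lit 33606) (nat_lit 0) [nat_lit 46728, nat_lit 29232, nat_lit 35064, nat_lit 33120, nat_lit 33660, nat_lit 33600] (nat_lit 0) [nat_lit 13924] false,
   Spec.mk (nat_lit 33620) (nat_lit 0) [nat_lit 46742, nat_lit 29246, nat_lit 35078, nat_lit 33134, nat_lit 33782, nat_lit 33566, nat_lit 33626, nat_lit 33622] (nat_lit 0) [nat_lit 53302] false,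
   Spec.mk (nat_lit 33622) (nat_lit 0) [nat_lit 46744, nat_lit 29248, nat_lit 35080, nat_lit 33136, nat_lit 33784, nat_lit 33568, nat_lit 33628, nat_lit 33620] (nat_lit 1) [nat_lit 53304, nat_lit 13940] false,
   Spec.mk (nat_lit 33626) (nat_lit 0) [nat_lit 46748, nat_lit 29252, nat_lit 35084, nat_lit 33140, nat_lit 33788, nat_lit 33572, nat_lit 33644, nat_lit 33620, nat_lit 33628] (nat_lit 2) [nat_lit 53308] false,
   Spec.mk (nat_lit 33628) (nat_lit 0) [nat_lit 46750, nat_lit 29254, nat_lit 35086, nat_lit 33142, nat_lit 33790, nat_lit 33574, nat_lit 33646, nat_lit 33622, nat_lit 33634, nat_lit 33626, nat_lit 33630] (nat_lit 1) [nat_lit 53310, nat_lit 13946] false,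
   Spec.mk (nat_lit 33630) (nat_lit 0) [nat_lit 46752, nat_lit 29256, nat_lit 35088, nat_lit 33144, nat_lit 33792, nat_lit 33576, nat_lit 33648, nat_lit 33636, nat_lit 33628] (nat_lit 2) [nat_lit 13948] false,
   Spec.mk (nat_lit 33634) (nat_lit 0) [nat_lit 46756, nat_lit 29260, nat_lit 35092, nat_lit 33148, nat_lit 33796, nat_lit 33580, nat_lit 33652, nat_lit 33628, nat_lit 33636] (nat_lit 3) [nat_lit 53316, nat_lit 13952] false,
   Spec.mk (nat_lit 33636) (nat_lit 0) [nat_lit 46758, nat_lit 29262, nat_lit 35094, nat_lit 33150, nat_lit 33798, nat_lit 33582, nat_lit 33654, nat_lit 33630, nat_lit 33634] (nat_lit 2) [nat_lit 13954] false,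
   Spec.mk (nat_lit 33644) (nat_lit 0) [nat_lit 46766, nat_lit 29270, nat_lit 35102, nat_lit 33158, nat_lit 33806, nat_lit 33590, nat_lit 33698, nat_lit 33626, nat_lit 33646] (nat_lit 1) [nat_lit 53326] false]

noncomputable def sp81 : List Spec :=
  [Spec.mk (nat_lit 33646) (nat_lit 0) [nat_lit 46768, nat_lit 29272, nat_lit 35104, nat_lit 33160, nat_lit 33808, nat_lit 33592, nat_lit 33700, nat_lit 33628, nat_lit 33652, nat_lit 33644, nat_lit 33648] (nat_lit 1) [nat_lit 53328, nat_lit 13964] false,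
   Spec.mk (nat_lit 33648) (nat_lit 0) [nat_lit 46770, nat_lit 29274, nat_lit 35106, nat_lit 33162, nat_lit 33810, nat_lit 33594, nat_lit 33702, nat_lit 33630, nat_lit 33654, nat_lit 33646] (nat_lit 3) [nat_lit 13966] false,
   Spec.mk (nat_lit 33652) (nat_lit 0) [nat_lit 46774, nat_lit 29278, nat_lit 35110, nat_lit 33166, nat_lit 33814, nat_lit 33598, nat_lit 33706, nat_lit 33634, nat_lit 33670, nat_lit 33646, nat_lit 33654] (nat_lit 1) [nat_lit 53334, nat_lit 13970] false,
   Spec.mk (nat_lit 33654) (nat_lit 0) [nat_lit 46776, nat_lit 29280, nat_lit 35112, nat_lit 33168, nat_lit 33816, nat_lit 33600, nat_lit 33708, nat_lit 33636, nat_lit 33672, nat_lit 33648, nat_lit 33660, nat_lit 33652] (nat_lit 1) [nat_lit 13972] false,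
   Spec.mk (nat_lit 33660) (nat_lit 0) [nat_lit 46782, nat_lit 29286, nat_lit 35118, nat_lit 33174, nat_lit 33822, nat_lit 33606, nat_lit 33714, nat_lit 33678, nat_lit 33654] (nat_lit 1) [nat_lit 13978] false,
   Spec.mk (nat_lit 33670) (nat_lit 0) [nat_lit 46792, nat_lit 29296, nat_lit 35128, nat_lit 33184, nat_lit 33832, nat_lit 33724, nat_lit 33652, nat_lit 33672] (nat_lit 1) [nat_lit 53352, nat_lit 13988] false,
   Spec.mk (nat_lit 33672) (nat_lit 0) [nat_lit 46794, nat_lit 29298, nat_lit 35130, nat_lit 33186, nat_lit 33834, nat_lit 33726, nat_lit 33654, nat_lit 33678, nat_lit 33670] (nat_lit 2) [nat_lit 13990] false,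
   Spec.mk (nat_lit 33678) (nat_lit 0) [nat_lit 46800, nat_lit 29304, nat_lit 35136, nat_lit 33192, nat_lit 33840, nat_lit 33732, nat_lit 33660, nat_lit 33672] (nat_lit 0) [nat_lit 13996] false,
   Spec.mk (nat_lit 33698) (nat_lit 0) [nat_lit 46820, nat_lit 29324, nat_lit 35156, nat_lit 33212, nat_lit 33860, nat_lit 33644, nat_lit 33700] (nat_lit 2) [nat_lit 53380] false,
   Spec.mk (nat_lit 33700) (nat_lit 0) [nat_lit 46822, nat_lit 29326, nat_lit 35158, nat_lit 33214, nat_lit 33862, nat_lit 33646, nat_lit 33706, nat_lit 33698, nat_lit 33702] (nat_lit 2) [nat_lit 53382, nat_lit 14018] false,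
   Spec.mk (nat_lit 33702) (nat_lit 0) [nat_lit 46824, nat_lit 29328, nat_lit 35160, nat_lit 33216, nat_lit 33864, nat_lit 33648, nat_lit 33708, nat_lit 33700] (nat_lit 4) [nat_lit 14020] false,
   Spec.mk (nat_lit 33706) (nat_lit 0) [nat_lit 46828, nat_lit 29332, nat_lit 35164, nat_lit 33220, nat_lit 33868, nat_lit 33652, nat_lit 33724, nat_lit 33700, nat_lit 33708] (nat_lit 3) [nat_lit 53388, nat_lit 14024] false,
   Spec.mk (nat_lit 33708) (nat_lit 0) [nat_lit 46830, nat_lit 29334, nat_lit 35166, nat_lit 33222, nat_lit 33870, nat_lit 33654, nat_lit 33726, nat_lit 33702, nat_lit 33714, nat_lit 33706] (nat_lit 3) [nat_lit 14026] false,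
   Spec.mk (nat_lit 33714) (nat_lit 0) [nat_lit 46836, nat_lit 29340, nat_lit 35172, nat_lit 33228, nat_lit 33876, nat_lit 33660, nat_lit 33732, nat_lit 33708] (nat_lit 4) [nat_lit 14032] false,
   Spec.mk (nat_lit 33724) (nat_lit 0) [nat_lit 46846, nat_lit 29350, nat_lit 35182, nat_lit 33238, nat_lit 33886, nat_lit 33670, nat_lit 33706, nat_lit 33726] (nat_lit 1) [nat_lit 53406, nat_lit 14042] false,
   Spec.mk (nat_lit 33726) (nat_lit 0) [nat_lit 46848, nat_lit 29352, nat_lit 35184, nat_lit 33240, nat_lit 33888, nat_lit 33672, nat_lit 33708, nat_lit 33732, nat_lit 33724] (nat_lit 2) [nat_lit 14044] false,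
   Spec.mk (nat_lit 33732) (nat_lit 0) [nat_lit 46854, nat_lit 29358, nat_lit 35190, nat_lit 33246, nat_lit 33894, nat_lit 33678, nat_lit 33714, nat_lit 33750, nat_lit 33726] (nat_lit 1) [nat_lit 14050] false,
   Spec.mk (nat_lit 33750) (nat_lit 0) [nat_lit 46872, nat_lit 29376, nat_lit 35208, nat_lit 33264, nat_lit 33912, nat_lit 33732] (nat_lit 0) [nat_lit 14068] false,
   Spec.mk (nat_lit 33782) (nat_lit 1) [nat_lit 46904, nat_lit 29408, nat_lit 35240, nat_lit 33296, nat_lit 34268, nat_lit 33620, nat_lit 33788, nat_lit 33784] (nat_lit 0) [nat_lit 53464] false,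
   Spec.mk (nat_lit 33784) (nat_lit 0) [nat_lit 46906, nat_lit 29410, nat_lit 35242, nat_lit 33298, nat_lit 34270, nat_lit 33622, nat_lit 33790, nat_lit 33782] (nat_lit 0) [nat_lit 53466, nat_lit 14102] false,
   Spec.mk (nat_lit 33788) (nat_lit 0) [nat_lit 46910, nat_lit 29414, nat_lit 35246, nat_lit 33302, nat_lit 34274, nat_lit 33626, nat_lit 33806, nat_lit 33782, nat_lit 33790] (nat_lit 1) [nat_lit 53470] false,
   Spec.mk (nat_lit 33790) (nat_lit 0) [nat_lit 46912, nat_lit 29416, nat_lit 35248, nat_lit 33304, nat_lit 34276, nat_lit 33628, nat_lit 33808, nat_lit 33784, nat_lit 33796, nat_lit 33788, nat_lit 33792] (nat_lit 0) [nat_lit 53472, nat_lit 14108] false,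
   Spec.mk (nat_lit 33792) (nat_lit 0) [nat_lit 46914, nat_lit 29418, nat_lit 35250, nat_lit 33306, nat_lit 34278, nat_lit 33630, nat_lit 33810, nat_lit 33798, nat_lit 33790] (nat_lit 1) [nat_lit 14110] false,
   Spec.mk (nat_lit 33796) (nat_lit 0) [nat_lit 46918, nat_lit 29422, nat_lit 35254, nat_lit 33310, nat_lit 34282, nat_lit 33634, nat_lit 33814, nat_lit 33790, nat_lit 33798] (nat_lit 2) [nat_lit 53478, nat_lit 14114] false,
   Spec.mk (nat_lit 33798) (nat_lit 0) [nat_lit 46920, nat_lit 29424, nat_lit 35256, nat_lit 33312, nat_lit 34284, nat_lit 33636, nat_lit 33816, nat_lit 33792, nat_lit 33796] (nat_lit 1) [nat_lit 14116] false,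
   Spec.mk (nat_lit 33806) (nat_lit 0) [nat_lit 46928, nat_lit 29432, nat_lit 35264, nat_lit 33320, nat_lit 34292, nat_lit 33644, nat_lit 33860, nat_lit 33788, nat_lit 33808] (nat_lit 1) [nat_lit 53488] false,
   Spec.mk (nat_lit 33808) (nat_lit 0) [nat_lit 46930, nat_lit 29434, nat_lit 35266, nat_lit 33322, nat_lit 34294, nat_lit 33646, nat_lit 33862, nat_lit 33790, nat_lit 33814, nat_lit 33806, nat_lit 33810] (nat_lit 1) [nat_lit 53490, nat_lit 14126] false,
   Spec.mk (nat_lit 33810) (nat_lit 0) [nat_lit 46932, nat_lit 29436, nat_lit 35268, nat_lit 33324, nat_lit 34296, nat_lit 33648, nat_lit 33864, nat_lit 33792, nat_lit 33816, nat_lit 33808] (nat_lit 3) [nat_lit 14128] false,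
   Spec.mk (nat_lit 33814) (nat_lit 0) [nat_lit 46936, nat_lit 29440, nat_lit 35272, nat_lit 33328, nat_lit 34300, nat_lit 33652, nat_lit 33868, nat_lit 33796, nat_lit 33832, nat_lit 33808, nat_lit 33816] (nat_lit 1) [nat_lit 53496, nat_lit 14132] false,
   Spec.mk (nat_lit 33816) (nat_lit 0) [nat_lit 46938, nat_lit 29442, nat_lit 35274, nat_lit 33330, nat_lit 34302, nat_lit 33654, nat_lit 33870, nat_lit 33798, nat_lit 33834, nat_lit 33810, nat_lit 33822, nat_lit 33814] (nat_lit 1) [nat_lit 14134] false,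
   Spec.mk (nat_lit 33822) (nat_lit 0) [nat_lit 46944, nat_lit 29448, nat_lit 35280, nat_lit 33336, nat_lit 34308, nat_lit 33660, nat_lit 33876, nat_lit 33840, nat_lit 33816] (nat_lit 1) [nat_lit 14140] false,
   Spec.mk (nat_lit 33832) (nat_lit 0) [nat_lit 46954, nat_lit 29458, nat_lit 35290, nat_lit 33346, nat_lit 34318, nat_lit 33670, nat_lit 33886, nat_lit 33814, nat_lit 33834] (nat_lit 2) [nat_lit 53514, nat_lit 14150] false,
   Spec.mk (nat_lit 33834) (nat_lit 0) [nat_lit 46956, nat_lit 29460, nat_lit 35292, nat_lit 33348, nat_lit 34320, nat_lit 33672, nat_lit 33888, nat_lit 33816, nat_lit 33840, nat_lit 33832] (nat_lit 3) [nat_lit 14152] false,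
   Spec.mk (nat_lit 33840) (nat_lit 0) [nat_lit 46962, nat_lit 29466, nat_lit 35298, nat_lit 33354, nat_lit 34326, nat_lit 33678, nat_lit 33894, nat_lit 33822, nat_lit 33834] (nat_lit 1) [nat_lit 14158] false,
   Spec.mk (nat_lit 33860) (nat_lit 0) [nat_lit 46982, nat_lit 29486, nat_lit 35318, nat_lit 33374, nat_lit 34346, nat_lit 33698, nat_lit 34022, nat_lit 33806, nat_lit 33862] (nat_lit 0) [nat_lit 53542] false,
   Spec.mk (nat_lit 33862) (nat_lit 0) [nat_lit 46984, nat_lit 29488, nat_lit 35320, nat_lit 33376, nat_lit 34348, nat_lit 33700, nat_lit 34024, nat_lit 33808, nat_lit 33868, nat_lit 33860, nat_lit 33864] (nat_lit 0) [nat_lit 53544, nat_lit 14180] false,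
   Spec.mk (nat_lit 33864) (nat_lit 0) [nat_lit 46986, nat_lit 29490, nat_lit 35322, nat_lit 33378, nat_lit 34350, nat_lit 33702, nat_lit 34026, nat_lit 33810, nat_lit 33870, nat_lit 33862] (nat_lit 2) [nat_lit 14182] false,
   Spec.mk (nat_lit 33868) (nat_lit 0) [nat_lit 46990, nat_lit 29494, nat_lit 35326, nat_lit 33382, nat_lit 34354, nat_lit 33706, nat_lit 34030, nat_lit 33814, nat_lit 33886, nat_lit 33862, nat_lit 33870] (nat_lit 1) [nat_lit 53550, nat_lit 14186] false,
   Spec.mk (nat_lit 33870) (nat_lit 0) [nat_lit 46992, nat_lit 29496, nat_lit 35328, nat_lit 33384, nat_lit 34356, nat_lit 33708, nat_lit 34032, nat_lit 33816, nat_lit 33888, nat_lit 33864, nat_lit 33876, nat_lit 33868] (nat_lit 1) [nat_lit 14188] false,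
   Spec.mk (nat_lit 33876) (nat_lit 0) [nat_lit 46998, nat_lit 29502, nat_lit 35334, nat_lit 33390, nat_lit 34362, nat_lit 33714, nat_lit 34038, nat_lit 33822, nat_lit 33894, nat_lit 33870] (nat_lit 2) [nat_lit 14194] false,
   Spec.mk (nat_lit 33886) (nat_lit 0) [nat_lit 47008, nat_lit 29512, nat_lit 35344, nat_lit 33400, nat_lit 34372, nat_lit 33724, nat_lit 34048, nat_lit 33832, nat_lit 33940, nat_lit 33868, nat_lit 33888] (nat_lit 0) [nat_lit 53568, nat_lit 14204] false,
   Spec.mk (nat_lit 33888) (nat_lit 0) [nat_lit 47010, nat_lit 29514, nat_lit 35346, nat_lit 33402, nat_lit 34374, nat_lit 33726, nat_lit 34050, nat_lit 33834, nat_lit 33942, nat_lit 33870, nat_lit 33894, nat_lit 33886] (nat_lit 1) [nat_lit 14206] false,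
   Spec.mk (nat_lit 33894) (nat_lit 0) [nat_lit 47016, nat_lit 29520, nat_lit 35352, nat_lit 33408, nat_lit 34380, nat_lit 33732, nat_lit 34056, nat_lit 33840, nat_lit 33948, nat_lit 33876, nat_lit 33912, nat_lit 33888] (nat_lit 0) [nat_lit 14212] false,
   Spec.mk (nat_lit 33912) (nat_lit 0) [nat_lit 47034, nat_lit 29538, nat_lit 35370, nat_lit 33426, nat_lit 34398, nat_lit 33750, nat_lit 34074, nat_lit 33966, nat_lit 33894] (nat_lit 0) [nat_lit 14230] false,
   Spec.mk (nat_lit 33940) (nat_lit 0) [nat_lit 47062, nat_lit 29566, nat_lit 35398, nat_lit 33454, nat_lit 34426, nat_lit 34102, nat_lit 33886, nat_lit 33942] (nat_lit 0) [nat_lit 53622, nat_lit 14258] false,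
   Spec.mk (nat_lit 33942) (nat_lit 0) [nat_lit 47064, nat_lit 29568, nat_lit 35400, nat_lit 33456, nat_lit 34428, nat_lit 34104, nat_lit 33888, nat_lit 33948, nat_lit 33940] (nat_lit 1) [nat_lit 14260] false,
   Spec.mk (nat_lit 33948) (nat_lit 0) [nat_lit 47070, nat_lit 29574, nat_lit 35406, nat_lit 33462, nat_lit 34434, nat_lit 34110, nat_lit 33894, nat_lit 33966, nat_lit 33942] (nat_lit 1) [nat_lit 14266] false,
   Spec.mk (nat_lit 33966) (nat_lit 1) [nat_lit 47088, nat_lit 29592, nat_lit 35424, nat_lit 33480, nat_lit 34452, nat_lit 34128, nat_lit 33912, nat_lit 33948] (nat_lit 0) [nat_lit 14284] false,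
   Spec.mk (nat_lit 34022) (nat_lit 0) [nat_lit 47144, nat_lit 29648, nat_lit 35480, nat_lit 34508, nat_lit 33860, nat_lit 34024] (nat_lit 0) [nat_lit 53704] false,
   Spec.mk (nat_lit 34024) (nat_lit 0) [nat_lit 47146, nat_lit 29650, nat_lit 35482, nat_lit 34510, nat_lit 33862, nat_lit 34030, nat_lit 34022, nat_lit 34026] (nat_lit 0) [nat_lit 53706, nat_lit 14342] false,
   Spec.mk (nat_lit 34026) (nat_lit 0) [nat_lit 47148, nat_lit 29652, nat_lit 35484, nat_lit 34512, nat_lit 33864, nat_lit 34032, nat_lit 34024] (nat_lit 2) [nat_lit 14344] false,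
   Spec.mk (nat_lit 34030) (nat_lit 0) [nat_lit 47152, nat_lit 29656, nat_lit 35488, nat_lit 34516, nat_lit 33868, nat_lit 34048, nat_lit 34024, nat_lit 34032] (nat_lit 1) [nat_lit 53712, nat_lit 14348] false,
   Spec.mk (nat_lit 34032) (nat_lit 0) [nat_lit 47154, nat_lit 29658, nat_lit 35490, nat_lit 34518, nat_lit 33870, nat_lit 34050, nat_lit 34026, nat_lit 34038, nat_lit 34030] (nat_lit 1) [nat_lit 14350] false,
   Spec.mk (nat_lit 34038) (nat_lit 0) [nat_lit 47160, nat_lit 29664, nat_lit 35496, nat_lit 34524, nat_lit 33876, nat_lit 34056, nat_lit 34032] (nat_lit 2) [nat_lit 14356] false,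
   Spec.mk (nat_lit 34048) (nat_lit 0) [nat_lit 47170, nat_lit 29674, nat_lit 35506, nat_lit 34534, nat_lit 33886, nat_lit 34102, nat_lit 34030, nat_lit 34050] (nat_lit 1) [nat_lit 53730, nat_lit 14366] false,
   Spec.mk (nat_lit 34050) (nat_lit 0) [nat_lit 47172, nat_lit 29676, nat_lit 35508, nat_lit 34536, nat_lit 33888, nat_lit 34104, nat_lit 34032, nat_lit 34056, nat_lit 34048] (nat_lit 2) [nat_lit 14368] false,
   Spec.mk (nat_lit 34056) (nat_lit 0) [nat_lit 47178, nat_lit 29682, nat_lit 35514, nat_lit 34542, nat_lit 33894, nat_lit 34110, nat_lit 34038, nat_lit 34074, nat_lit 34050] (nat_lit 1) [nat_lit 14374] false,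
   Spec.mk (nat_lit 34074) (nat_lit 0) [nat_lit 47196, nat_lit 29700, nat_lit 35532, nat_lit 34560, nat_lit 33912, nat_lit 34128, nat_lit 34056] (nat_lit 2) [nat_lit 14392] false,
   Spec.mk (nat_lit 34102) (nat_lit 1) [nat_lit 47224, nat_lit 29728, nat_lit 35560, nat_lit 34588, nat_lit 33940, nat_lit 34048, nat_lit 34104] (nat_lit 0) [nat_lit 53784, nat_lit 14420] false,
   Spec.mk (nat_lit 34104) (nat_lit 0) [nat_lit 47226, nat_lit 29730, nat_lit 35562, nat_lit 34590, nat_lit 33942, nat_lit 34050, nat_lit 34110, nat_lit 34102] (nat_lit 0) [nat_lit 14422] false]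

noncomputable def sp82 : List Spec :=
  [Spec.mk (nat_lit 34110) (nat_lit 0) [nat_lit 47232, nat_lit 29736, nat_lit 35568, nat_lit 34596, nat_lit 33948, nat_lit 34056, nat_lit 34128, nat_lit 34104] (nat_lit 0) [nat_lit 14428] false,
   Spec.mk (nat_lit 34128) (nat_lit 1) [nat_lit 47250, nat_lit 29754, nat_lit 35586, nat_lit 34614, nat_lit 33966, nat_lit 34074, nat_lit 34182, nat_lit 34110] (nat_lit 0) [nat_lit 14446] false,
   Spec.mk (nat_lit 34182) (nat_lit 2) [nat_lit 47304, nat_lit 29808, nat_lit 35640, nat_lit 34668, nat_lit 34128] (nat_lit 0) [nat_lit 14500] false,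
   Spec.mk (nat_lit 34268) (nat_lit 0) [nat_lit 47390, nat_lit 29894, nat_lit 35726, nat_lit 33782, nat_lit 34274, nat_lit 34270] (nat_lit 0) [nat_lit 53950] false,
   Spec.mk (nat_lit 34270) (nat_lit 0) [nat_lit 47392, nat_lit 29896, nat_lit 35728, nat_lit 33784, nat_lit 34276, nat_lit 34268] (nat_lit 1) [nat_lit 53952, nat_lit 14588] false,
   Spec.mk (nat_lit 34274) (nat_lit 0) [nat_lit 47396, nat_lit 29900, nat_lit 35732, nat_lit 33788, nat_lit 34292, nat_lit 34268, nat_lit 34276] (nat_lit 2) [nat_lit 53956] false,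
   Spec.mk (nat_lit 34276) (nat_lit 0) [nat_lit 47398, nat_lit 29902, nat_lit 35734, nat_lit 33790, nat_lit 34294, nat_lit 34270, nat_lit 34282, nat_lit 34274, nat_lit 34278] (nat_lit 1) [nat_lit 53958, nat_lit 14594] false,
   Spec.mk (nat_lit 34278) (nat_lit 0) [nat_lit 47400, nat_lit 29904, nat_lit 35736, nat_lit 33792, nat_lit 34296, nat_lit 34284, nat_lit 34276] (nat_lit 2) [nat_lit 14596] false,
   Spec.mk (nat_lit 34282) (nat_lit 0) [nat_lit 47404, nat_lit 29908, nat_lit 35740, nat_lit 33796, nat_lit 34300, nat_lit 34276, nat_lit 34284] (nat_lit 3) [nat_lit 53964, nat_lit 14600] false,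
   Spec.mk (nat_lit 34284) (nat_lit 0) [nat_lit 47406, nat_lit 29910, nat_lit 35742, nat_lit 33798, nat_lit 34302, nat_lit 34278, nat_lit 34282] (nat_lit 2) [nat_lit 14602] false,
   Spec.mk (nat_lit 34292) (nat_lit 0) [nat_lit 47414, nat_lit 29918, nat_lit 35750, nat_lit 33806, nat_lit 34346, nat_lit 34274, nat_lit 34294] (nat_lit 2) [nat_lit 53974] false,
   Spec.mk (nat_lit 34294) (nat_lit 0) [nat_lit 47416, nat_lit 29920, nat_lit 35752, nat_lit 33808, nat_lit 34348, nat_lit 34276, nat_lit 34300, nat_lit 34292, nat_lit 34296] (nat_lit 2) [nat_lit 53976, nat_lit 14612] false,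
   Spec.mk (nat_lit 34296) (nat_lit 0) [nat_lit 47418, nat_lit 29922, nat_lit 35754, nat_lit 33810, nat_lit 34350, nat_lit 34278, nat_lit 34302, nat_lit 34294] (nat_lit 4) [nat_lit 14614] false,
   Spec.mk (nat_lit 34300) (nat_lit 0) [nat_lit 47422, nat_lit 29926, nat_lit 35758, nat_lit 33814, nat_lit 34354, nat_lit 34282, nat_lit 34318, nat_lit 34294, nat_lit 34302] (nat_lit 2) [nat_lit 53982, nat_lit 14618] false,
   Spec.mk (nat_lit 34302) (nat_lit 0) [nat_lit 47424, nat_lit 29928, nat_lit 35760, nat_lit 33816, nat_lit 34356, nat_lit 34284, nat_lit 34320, nat_lit 34296, nat_lit 34308, nat_lit 34300] (nat_lit 2) [nat_lit 14620] false,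
   Spec.mk (nat_lit 34308) (nat_lit 0) [nat_lit 47430, nat_lit 29934, nat_lit 35766, nat_lit 33822, nat_lit 34362, nat_lit 34326, nat_lit 34302] (nat_lit 2) [nat_lit 14626] false,
   Spec.mk (nat_lit 34318) (nat_lit 0) [nat_lit 47440, nat_lit 29944, nat_lit 35776, nat_lit 33832, nat_lit 34372, nat_lit 34300, nat_lit 34320] (nat_lit 3) [nat_lit 54000, nat_lit 14636] false,
   Spec.mk (nat_lit 34320) (nat_lit 0) [nat_lit 47442, nat_lit 29946, nat_lit 35778, nat_lit 33834, nat_lit 34374, nat_lit 34302, nat_lit 34326, nat_lit 34318] (nat_lit 4) [nat_lit 14638] false,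
   Spec.mk (nat_lit 34326) (nat_lit 0) [nat_lit 47448, nat_lit 29952, nat_lit 35784, nat_lit 33840, nat_lit 34380, nat_lit 34308, nat_lit 34320] (nat_lit 2) [nat_lit 14644] false,
   Spec.mk (nat_lit 34346) (nat_lit 0) [nat_lit 47468, nat_lit 29972, nat_lit 35804, nat_lit 33860, nat_lit 34508, nat_lit 34292, nat_lit 34348] (nat_lit 2) [nat_lit 54028] false,
   Spec.mk (nat_lit 34348) (nat_lit 0) [nat_lit 47470, nat_lit 29974, nat_lit 35806, nat_lit 33862, nat_lit 34510, nat_lit 34294, nat_lit 34354, nat_lit 34346, nat_lit 34350] (nat_lit 2) [nat_lit 54030, nat_lit 14666] false,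
   Spec.mk (nat_lit 34350) (nat_lit 0) [nat_lit 47472, nat_lit 29976, nat_lit 35808, nat_lit 33864, nat_lit 34512, nat_lit 34296, nat_lit 34356, nat_lit 34348] (nat_lit 4) [nat_lit 14668] false,
   Spec.mk (nat_lit 34354) (nat_lit 0) [nat_lit 47476, nat_lit 29980, nat_lit 35812, nat_lit 33868, nat_lit 34516, nat_lit 34300, nat_lit 34372, nat_lit 34348, nat_lit 34356] (nat_lit 3) [nat_lit 54036, nat_lit 14672] false,
   Spec.mk (nat_lit 34356) (nat_lit 0) [nat_lit 47478, nat_lit 29982, nat_lit 35814, nat_lit 33870, nat_lit 34518, nat_lit 34302, nat_lit 34374, nat_lit 34350, nat_lit 34362, nat_lit 34354] (nat_lit 3) [nat_lit 14674] false,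
   Spec.mk (nat_lit 34362) (nat_lit 0) [nat_lit 47484, nat_lit 29988, nat_lit 35820, nat_lit 33876, nat_lit 34524, nat_lit 34308, nat_lit 34380, nat_lit 34356] (nat_lit 4) [nat_lit 14680] false,
   Spec.mk (nat_lit 34372) (nat_lit 0) [nat_lit 47494, nat_lit 29998, nat_lit 35830, nat_lit 33886, nat_lit 34534, nat_lit 34318, nat_lit 34426, nat_lit 34354, nat_lit 34374] (nat_lit 2) [nat_lit 54054, nat_lit 14690] false,
   Spec.mk (nat_lit 34374) (nat_lit 0) [nat_lit 47496, nat_lit 30000, nat_lit 35832, nat_lit 33888, nat_lit 34536, nat_lit 34320, nat_lit 34428, nat_lit 34356, nat_lit 34380, nat_lit 34372] (nat_lit 3) [nat_lit 14692] false,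
   Spec.mk (nat_lit 34380) (nat_lit 0) [nat_lit 47502, nat_lit 30006, nat_lit 35838, nat_lit 33894, nat_lit 34542, nat_lit 34326, nat_lit 34434, nat_lit 34362, nat_lit 34398, nat_lit 34374] (nat_lit 2) [nat_lit 14698] false,
   Spec.mk (nat_lit 34398) (nat_lit 0) [nat_lit 47520, nat_lit 30024, nat_lit 35856, nat_lit 33912, nat_lit 34560, nat_lit 34452, nat_lit 34380] (nat_lit 2) [nat_lit 14716] false,
   Spec.mk (nat_lit 34426) (nat_lit 0) [nat_lit 47548, nat_lit 30052, nat_lit 35884, nat_lit 33940, nat_lit 34588, nat_lit 34372, nat_lit 34428] (nat_lit 3) [nat_lit 54108, nat_lit 14744] false,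
   Spec.mk (nat_lit 34428) (nat_lit 0) [nat_lit 47550, nat_lit 30054, nat_lit 35886, nat_lit 33942, nat_lit 34590, nat_lit 34374, nat_lit 34434, nat_lit 34426] (nat_lit 4) [nat_lit 14746] false,
   Spec.mk (nat_lit 34434) (nat_lit 0) [nat_lit 47556, nat_lit 30060, nat_lit 35892, nat_lit 33948, nat_lit 34596, nat_lit 34380, nat_lit 34452, nat_lit 34428] (nat_lit 4) [nat_lit 14752] false,
   Spec.mk (nat_lit 34452) (nat_lit 0) [nat_lit 47574, nat_lit 30078, nat_lit 35910, nat_lit 33966, nat_lit 34614, nat_lit 34398, nat_lit 34434] (nat_lit 2) [nat_lit 14770] false,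
   Spec.mk (nat_lit 34508) (nat_lit 0) [nat_lit 47630, nat_lit 30134, nat_lit 35966, nat_lit 34022, nat_lit 34346, nat_lit 34510] (nat_lit 0) [nat_lit 54190] false,
   Spec.mk (nat_lit 34510) (nat_lit 0) [nat_lit 47632, nat_lit 30136, nat_lit 35968, nat_lit 34024, nat_lit 34348, nat_lit 34516, nat_lit 34508, nat_lit 34512] (nat_lit 0) [nat_lit 54192, nat_lit 14828] false,
   Spec.mk (nat_lit 34512) (nat_lit 0) [nat_lit 47634, nat_lit 30138, nat_lit 35970, nat_lit 34026, nat_lit 34350, nat_lit 34518, nat_lit 34510] (nat_lit 2) [nat_lit 14830] false,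
   Spec.mk (nat_lit 34516) (nat_lit 0) [nat_lit 47638, nat_lit 30142, nat_lit 35974, nat_lit 34030, nat_lit 34354, nat_lit 34534, nat_lit 34510, nat_lit 34518] (nat_lit 1) [nat_lit 54198, nat_lit 14834] false,
   Spec.mk (nat_lit 34518) (nat_lit 0) [nat_lit 47640, nat_lit 30144, nat_lit 35976, nat_lit 34032, nat_lit 34356, nat_lit 34536, nat_lit 34512, nat_lit 34524, nat_lit 34516] (nat_lit 1) [nat_lit 14836] false,
   Spec.mk (nat_lit 34524) (nat_lit 0) [nat_lit 47646, nat_lit 30150, nat_lit 35982, nat_lit 34038, nat_lit 34362, nat_lit 34542, nat_lit 34518] (nat_lit 2) [nat_lit 14842] false,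
   Spec.mk (nat_lit 34534) (nat_lit 0) [nat_lit 47656, nat_lit 30160, nat_lit 35992, nat_lit 34048, nat_lit 34372, nat_lit 34588, nat_lit 34516, nat_lit 34536] (nat_lit 1) [nat_lit 54216, nat_lit 14852] false,
   Spec.mk (nat_lit 34536) (nat_lit 0) [nat_lit 47658, nat_lit 30162, nat_lit 35994, nat_lit 34050, nat_lit 34374, nat_lit 34590, nat_lit 34518, nat_lit 34542, nat_lit 34534] (nat_lit 2) [nat_lit 14854] false,
   Spec.mk (nat_lit 34542) (nat_lit 0) [nat_lit 47664, nat_lit 30168, nat_lit 36000, nat_lit 34056, nat_lit 34380, nat_lit 34596, nat_lit 34524, nat_lit 34560, nat_lit 34536] (nat_lit 1) [nat_lit 14860] false,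
   Spec.mk (nat_lit 34560) (nat_lit 0) [nat_lit 47682, nat_lit 30186, nat_lit 36018, nat_lit 34074, nat_lit 34398, nat_lit 34614, nat_lit 34542] (nat_lit 2) [nat_lit 14878] false,
   Spec.mk (nat_lit 34588) (nat_lit 0) [nat_lit 47710, nat_lit 30214, nat_lit 36046, nat_lit 34102, nat_lit 34426, nat_lit 34750, nat_lit 34534, nat_lit 34590] (nat_lit 0) [nat_lit 54270, nat_lit 14906] false,
   Spec.mk (nat_lit 34590) (nat_lit 0) [nat_lit 47712, nat_lit 30216, nat_lit 36048, nat_lit 34104, nat_lit 34428, nat_lit 34752, nat_lit 34536, nat_lit 34596, nat_lit 34588] (nat_lit 1) [nat_lit 14908] false,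
   Spec.mk (nat_lit 34596) (nat_lit 0) [nat_lit 47718, nat_lit 30222, nat_lit 36054, nat_lit 34110, nat_lit 34434, nat_lit 34758, nat_lit 34542, nat_lit 34614, nat_lit 34590] (nat_lit 1) [nat_lit 14914] false,
   Spec.mk (nat_lit 34614) (nat_lit 0) [nat_lit 47736, nat_lit 30240, nat_lit 36072, nat_lit 34128, nat_lit 34452, nat_lit 34776, nat_lit 34560, nat_lit 34668, nat_lit 34596] (nat_lit 0) [nat_lit 14932] false,
   Spec.mk (nat_lit 34668) (nat_lit 0) [nat_lit 47790, nat_lit 30294, nat_lit 36126, nat_lit 34182, nat_lit 34830, nat_lit 34614] (nat_lit 0) [nat_lit 14986] false,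
   Spec.mk (nat_lit 34750) (nat_lit 1) [nat_lit 47872, nat_lit 30376, nat_lit 36208, nat_lit 34588, nat_lit 34752] (nat_lit 0) [nat_lit 54432, nat_lit 15068] false,
   Spec.mk (nat_lit 34752) (nat_lit 0) [nat_lit 47874, nat_lit 30378, nat_lit 36210, nat_lit 34590, nat_lit 34758, nat_lit 34750] (nat_lit 0) [nat_lit 15070] false,
   Spec.mk (nat_lit 34758) (nat_lit 0) [nat_lit 47880, nat_lit 30384, nat_lit 36216, nat_lit 34596, nat_lit 34776, nat_lit 34752] (nat_lit 0) [nat_lit 15076] false,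
   Spec.mk (nat_lit 34776) (nat_lit 0) [nat_lit 47898, nat_lit 30402, nat_lit 36234, nat_lit 34614, nat_lit 34830, nat_lit 34758] (nat_lit 0) [nat_lit 15094] false,
   Spec.mk (nat_lit 34830) (nat_lit 2) [nat_lit 47952, nat_lit 30456, nat_lit 36288, nat_lit 34668, nat_lit 34776] (nat_lit 0) [nat_lit 15148] false,
   Spec.mk (nat_lit 35000) (nat_lit 4) [nat_lit 48122, nat_lit 30626, nat_lit 33542, nat_lit 35006] (nat_lit 0) [nat_lit 54682] false,
   Spec.mk (nat_lit 35006) (nat_lit 3) [nat_lit 48128, nat_lit 30632, nat_lit 33548, nat_lit 35024, nat_lit 35000, nat_lit 35012, nat_lit 35008] (nat_lit 0) [nat_lit 54688] false,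
   Spec.mk (nat_lit 35008) (nat_lit 3) [nat_lit 48130, nat_lit 30634, nat_lit 33550, nat_lit 35026, nat_lit 35014, nat_lit 35006] (nat_lit 0) [nat_lit 54690, nat_lit 15326] false,
   Spec.mk (nat_lit 35012) (nat_lit 0) [nat_lit 48134, nat_lit 30638, nat_lit 33554, nat_lit 35030, nat_lit 35006, nat_lit 35014] (nat_lit 0) [nat_lit 54694] false,
   Spec.mk (nat_lit 35014) (nat_lit 2) [nat_lit 48136, nat_lit 30640, nat_lit 33556, nat_lit 35032, nat_lit 35008, nat_lit 35012, nat_lit 35016] (nat_lit 0) [nat_lit 54696, nat_lit 15332] false,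
   Spec.mk (nat_lit 35016) (nat_lit 2) [nat_lit 48138, nat_lit 30642, nat_lit 33558, nat_lit 35034, nat_lit 35014] (nat_lit 0) [nat_lit 15334] false,
   Spec.mk (nat_lit 35024) (nat_lit 2) [nat_lit 48146, nat_lit 30650, nat_lit 33566, nat_lit 35078, nat_lit 35006, nat_lit 35030, nat_lit 35026] (nat_lit 0) [nat_lit 54706] false]

noncomputable def sp83 : List Spec :=
  [Spec.mk (nat_lit 35026) (nat_lit 1) [nat_lit 48148, nat_lit 30652, nat_lit 33568, nat_lit 35080, nat_lit 35008, nat_lit 35032, nat_lit 35024] (nat_lit 0) [nat_lit 54708, nat_lit 15344] false,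
   Spec.mk (nat_lit 35030) (nat_lit 1) [nat_lit 48152, nat_lit 30656, nat_lit 33572, nat_lit 35084, nat_lit 35012, nat_lit 35048, nat_lit 35024, nat_lit 35032] (nat_lit 0) [nat_lit 54712] false,
   Spec.mk (nat_lit 35032) (nat_lit 2) [nat_lit 48154, nat_lit 30658, nat_lit 33574, nat_lit 35086, nat_lit 35014, nat_lit 35050, nat_lit 35026, nat_lit 35038, nat_lit 35030, nat_lit 35034] (nat_lit 0) [nat_lit 54714, nat_lit 15350] false,
   Spec.mk (nat_lit 35034) (nat_lit 1) [nat_lit 48156, nat_lit 30660, nat_lit 33576, nat_lit 35088, nat_lit 35016, nat_lit 35052, nat_lit 35040, nat_lit 35032] (nat_lit 0) [nat_lit 15352] false,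
   Spec.mk (nat_lit 35038) (nat_lit 1) [nat_lit 48160, nat_lit 30664, nat_lit 33580, nat_lit 35092, nat_lit 35056, nat_lit 35032, nat_lit 35040] (nat_lit 0) [nat_lit 54720, nat_lit 15356] false,
   Spec.mk (nat_lit 35040) (nat_lit 2) [nat_lit 48162, nat_lit 30666, nat_lit 33582, nat_lit 35094, nat_lit 35058, nat_lit 35034, nat_lit 35038] (nat_lit 0) [nat_lit 15358] false,
   Spec.mk (nat_lit 35048) (nat_lit 0) [nat_lit 48170, nat_lit 30674, nat_lit 33590, nat_lit 35102, nat_lit 35030, nat_lit 35050] (nat_lit 0) [nat_lit 54730] false,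
   Spec.mk (nat_lit 35050) (nat_lit 0) [nat_lit 48172, nat_lit 30676, nat_lit 33592, nat_lit 35104, nat_lit 35032, nat_lit 35056, nat_lit 35048, nat_lit 35052] (nat_lit 0) [nat_lit 54732, nat_lit 15368] false,
   Spec.mk (nat_lit 35052) (nat_lit 0) [nat_lit 48174, nat_lit 30678, nat_lit 33594, nat_lit 35106, nat_lit 35034, nat_lit 35058, nat_lit 35050] (nat_lit 2) [nat_lit 15370] false,
   Spec.mk (nat_lit 35056) (nat_lit 1) [nat_lit 48178, nat_lit 30682, nat_lit 33598, nat_lit 35110, nat_lit 35038, nat_lit 35050, nat_lit 35058] (nat_lit 0) [nat_lit 54738, nat_lit 15374] false,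
   Spec.mk (nat_lit 35058) (nat_lit 1) [nat_lit 48180, nat_lit 30684, nat_lit 33600, nat_lit 35112, nat_lit 35040, nat_lit 35052, nat_lit 35064, nat_lit 35056] (nat_lit 0) [nat_lit 15376] false,
   Spec.mk (nat_lit 35064) (nat_lit 2) [nat_lit 48186, nat_lit 30690, nat_lit 33606, nat_lit 35118, nat_lit 35058] (nat_lit 0) [nat_lit 15382] false,
   Spec.mk (nat_lit 35078) (nat_lit 2) [nat_lit 48200, nat_lit 30704, nat_lit 33620, nat_lit 35240, nat_lit 35024, nat_lit 35084, nat_lit 35080] (nat_lit 0) [nat_lit 54760] false,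
   Spec.mk (nat_lit 35080) (nat_lit 1) [nat_lit 48202, nat_lit 30706, nat_lit 33622, nat_lit 35242, nat_lit 35026, nat_lit 35086, nat_lit 35078] (nat_lit 0) [nat_lit 54762, nat_lit 15398] false,
   Spec.mk (nat_lit 35084) (nat_lit 0) [nat_lit 48206, nat_lit 30710, nat_lit 33626, nat_lit 35246, nat_lit 35030, nat_lit 35102, nat_lit 35078, nat_lit 35086] (nat_lit 0) [nat_lit 54766] false,
   Spec.mk (nat_lit 35086) (nat_lit 1) [nat_lit 48208, nat_lit 30712, nat_lit 33628, nat_lit 35248, nat_lit 35032, nat_lit 35104, nat_lit 35080, nat_lit 35092, nat_lit 35084, nat_lit 35088] (nat_lit 0) [nat_lit 54768, nat_lit 15404] false,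
   Spec.mk (nat_lit 35088) (nat_lit 0) [nat_lit 48210, nat_lit 30714, nat_lit 33630, nat_lit 35250, nat_lit 35034, nat_lit 35106, nat_lit 35094, nat_lit 35086] (nat_lit 0) [nat_lit 15406] false,
   Spec.mk (nat_lit 35092) (nat_lit 0) [nat_lit 48214, nat_lit 30718, nat_lit 33634, nat_lit 35254, nat_lit 35038, nat_lit 35110, nat_lit 35086, nat_lit 35094] (nat_lit 1) [nat_lit 54774, nat_lit 15410] false,
   Spec.mk (nat_lit 35094) (nat_lit 0) [nat_lit 48216, nat_lit 30720, nat_lit 33636, nat_lit 35256, nat_lit 35040, nat_lit 35112, nat_lit 35088, nat_lit 35092] (nat_lit 0) [nat_lit 15412] false,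
   Spec.mk (nat_lit 35102) (nat_lit 1) [nat_lit 48224, nat_lit 30728, nat_lit 33644, nat_lit 35264, nat_lit 35048, nat_lit 35156, nat_lit 35084, nat_lit 35104] (nat_lit 0) [nat_lit 54784] false,
   Spec.mk (nat_lit 35104) (nat_lit 1) [nat_lit 48226, nat_lit 30730, nat_lit 33646, nat_lit 35266, nat_lit 35050, nat_lit 35158, nat_lit 35086, nat_lit 35110, nat_lit 35102, nat_lit 35106] (nat_lit 0) [nat_lit 54786, nat_lit 15422] false,
   Spec.mk (nat_lit 35106) (nat_lit 0) [nat_lit 48228, nat_lit 30732, nat_lit 33648, nat_lit 35268, nat_lit 35052, nat_lit 35160, nat_lit 35088, nat_lit 35112, nat_lit 35104] (nat_lit 1) [nat_lit 15424] false,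
   Spec.mk (nat_lit 35110) (nat_lit 1) [nat_lit 48232, nat_lit 30736, nat_lit 33652, nat_lit 35272, nat_lit 35056, nat_lit 35164, nat_lit 35092, nat_lit 35128, nat_lit 35104, nat_lit 35112] (nat_lit 0) [nat_lit 54792, nat_lit 15428] false,
   Spec.mk (nat_lit 35112) (nat_lit 1) [nat_lit 48234, nat_lit 30738, nat_lit 33654, nat_lit 35274, nat_lit 35058, nat_lit 35166, nat_lit 35094, nat_lit 35130, nat_lit 35106, nat_lit 35118, nat_lit 35110] (nat_lit 0) [nat_lit 15430] false,
   Spec.mk (nat_lit 35118) (nat_lit 1) [nat_lit 48240, nat_lit 30744, nat_lit 33660, nat_lit 35280, nat_lit 35064, nat_lit 35172, nat_lit 35136, nat_lit 35112] (nat_lit 0) [nat_lit 15436] false,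
   Spec.mk (nat_lit 35128) (nat_lit 1) [nat_lit 48250, nat_lit 30754, nat_lit 33670, nat_lit 35290, nat_lit 35182, nat_lit 35110, nat_lit 35130] (nat_lit 0) [nat_lit 54810, nat_lit 15446] false,
   Spec.mk (nat_lit 35130) (nat_lit 0) [nat_lit 48252, nat_lit 30756, nat_lit 33672, nat_lit 35292, nat_lit 35184, nat_lit 35112, nat_lit 35136, nat_lit 35128] (nat_lit 0) [nat_lit 15448] false,
   Spec.mk (nat_lit 35136) (nat_lit 2) [nat_lit 48258, nat_lit 30762, nat_lit 33678, nat_lit 35298, nat_lit 35190, nat_lit 35118, nat_lit 35130] (nat_lit 0) [nat_lit 15454] false,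
   Spec.mk (nat_lit 35156) (nat_lit 0) [nat_lit 48278, nat_lit 30782, nat_lit 33698, nat_lit 35318, nat_lit 35102, nat_lit 35158] (nat_lit 0) [nat_lit 54838] false,
   Spec.mk (nat_lit 35158) (nat_lit 0) [nat_lit 48280, nat_lit 30784, nat_lit 33700, nat_lit 35320, nat_lit 35104, nat_lit 35164, nat_lit 35156, nat_lit 35160] (nat_lit 0) [nat_lit 54840, nat_lit 15476] false,
   Spec.mk (nat_lit 35160) (nat_lit 0) [nat_lit 48282, nat_lit 30786, nat_lit 33702, nat_lit 35322, nat_lit 35106, nat_lit 35166, nat_lit 35158] (nat_lit 2) [nat_lit 15478] false,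
   Spec.mk (nat_lit 35164) (nat_lit 0) [nat_lit 48286, nat_lit 30790, nat_lit 33706, nat_lit 35326, nat_lit 35110, nat_lit 35182, nat_lit 35158, nat_lit 35166] (nat_lit 1) [nat_lit 54846, nat_lit 15482] false,
   Spec.mk (nat_lit 35166) (nat_lit 0) [nat_lit 48288, nat_lit 30792, nat_lit 33708, nat_lit 35328, nat_lit 35112, nat_lit 35184, nat_lit 35160, nat_lit 35172, nat_lit 35164] (nat_lit 1) [nat_lit 15484] false,
   Spec.mk (nat_lit 35172) (nat_lit 0) [nat_lit 48294, nat_lit 30798, nat_lit 33714, nat_lit 35334, nat_lit 35118, nat_lit 35190, nat_lit 35166] (nat_lit 2) [nat_lit 15490] false,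
   Spec.mk (nat_lit 35182) (nat_lit 1) [nat_lit 48304, nat_lit 30808, nat_lit 33724, nat_lit 35344, nat_lit 35128, nat_lit 35164, nat_lit 35184] (nat_lit 0) [nat_lit 54864, nat_lit 15500] false,
   Spec.mk (nat_lit 35184) (nat_lit 0) [nat_lit 48306, nat_lit 30810, nat_lit 33726, nat_lit 35346, nat_lit 35130, nat_lit 35166, nat_lit 35190, nat_lit 35182] (nat_lit 0) [nat_lit 15502] false,
   Spec.mk (nat_lit 35190) (nat_lit 1) [nat_lit 48312, nat_lit 30816, nat_lit 33732, nat_lit 35352, nat_lit 35136, nat_lit 35172, nat_lit 35208, nat_lit 35184] (nat_lit 0) [nat_lit 15508] false,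
   Spec.mk (nat_lit 35208) (nat_lit 2) [nat_lit 48330, nat_lit 30834, nat_lit 33750, nat_lit 35370, nat_lit 35190] (nat_lit 0) [nat_lit 15526] false,
   Spec.mk (nat_lit 35240) (nat_lit 2) [nat_lit 48362, nat_lit 30866, nat_lit 33782, nat_lit 35726, nat_lit 35078, nat_lit 35246, nat_lit 35242] (nat_lit 0) [nat_lit 54922] false,
   Spec.mk (nat_lit 35242) (nat_lit 1) [nat_lit 48364, nat_lit 30868, nat_lit 33784, nat_lit 35728, nat_lit 35080, nat_lit 35248, nat_lit 35240] (nat_lit 0) [nat_lit 54924, nat_lit 15560] false,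
   Spec.mk (nat_lit 35246) (nat_lit 0) [nat_lit 48368, nat_lit 30872, nat_lit 33788, nat_lit 35732, nat_lit 35084, nat_lit 35264, nat_lit 35240, nat_lit 35248] (nat_lit 0) [nat_lit 54928] false,
   Spec.mk (nat_lit 35248) (nat_lit 1) [nat_lit 48370, nat_lit 30874, nat_lit 33790, nat_lit 35734, nat_lit 35086, nat_lit 35266, nat_lit 35242, nat_lit 35254, nat_lit 35246, nat_lit 35250] (nat_lit 0) [nat_lit 54930, nat_lit 15566] false,
   Spec.mk (nat_lit 35250) (nat_lit 0) [nat_lit 48372, nat_lit 30876, nat_lit 33792, nat_lit 35736, nat_lit 35088, nat_lit 35268, nat_lit 35256, nat_lit 35248] (nat_lit 0) [nat_lit 15568] false,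
   Spec.mk (nat_lit 35254) (nat_lit 0) [nat_lit 48376, nat_lit 30880, nat_lit 33796, nat_lit 35740, nat_lit 35092, nat_lit 35272, nat_lit 35248, nat_lit 35256] (nat_lit 1) [nat_lit 54936, nat_lit 15572] false,
   Spec.mk (nat_lit 35256) (nat_lit 0) [nat_lit 48378, nat_lit 30882, nat_lit 33798, nat_lit 35742, nat_lit 35094, nat_lit 35274, nat_lit 35250, nat_lit 35254] (nat_lit 0) [nat_lit 15574] false,
   Spec.mk (nat_lit 35264) (nat_lit 0) [nat_lit 48386, nat_lit 30890, nat_lit 33806, nat_lit 35750, nat_lit 35102, nat_lit 35318, nat_lit 35246, nat_lit 35266] (nat_lit 0) [nat_lit 54946] false,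
   Spec.mk (nat_lit 35266) (nat_lit 0) [nat_lit 48388, nat_lit 30892, nat_lit 33808, nat_lit 35752, nat_lit 35104, nat_lit 35320, nat_lit 35248, nat_lit 35272, nat_lit 35264, nat_lit 35268] (nat_lit 0) [nat_lit 54948, nat_lit 15584] false,
   Spec.mk (nat_lit 35268) (nat_lit 0) [nat_lit 48390, nat_lit 30894, nat_lit 33810, nat_lit 35754, nat_lit 35106, nat_lit 35322, nat_lit 35250, nat_lit 35274, nat_lit 35266] (nat_lit 2) [nat_lit 15586] false,
   Spec.mk (nat_lit 35272) (nat_lit 0) [nat_lit 48394, nat_lit 30898, nat_lit 33814, nat_lit 35758, nat_lit 35110, nat_lit 35326, nat_lit 35254, nat_lit 35290, nat_lit 35266, nat_lit 35274] (nat_lit 0) [nat_lit 54954, nat_lit 15590] false,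
   Spec.mk (nat_lit 35274) (nat_lit 0) [nat_lit 48396, nat_lit 30900, nat_lit 33816, nat_lit 35760, nat_lit 35112, nat_lit 35328, nat_lit 35256, nat_lit 35292, nat_lit 35268, nat_lit 35280, nat_lit 35272] (nat_lit 0) [nat_lit 15592] false,
   Spec.mk (nat_lit 35280) (nat_lit 0) [nat_lit 48402, nat_lit 30906, nat_lit 33822, nat_lit 35766, nat_lit 35118, nat_lit 35334, nat_lit 35298, nat_lit 35274] (nat_lit 0) [nat_lit 15598] false,
   Spec.mk (nat_lit 35290) (nat_lit 0) [nat_lit 48412, nat_lit 30916, nat_lit 33832, nat_lit 35776, nat_lit 35128, nat_lit 35344, nat_lit 35272, nat_lit 35292] (nat_lit 1) [nat_lit 54972, nat_lit 15608] false,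
   Spec.mk (nat_lit 35292) (nat_lit 0) [nat_lit 48414, nat_lit 30918, nat_lit 33834, nat_lit 35778, nat_lit 35130, nat_lit 35346, nat_lit 35274, nat_lit 35298, nat_lit 35290] (nat_lit 2) [nat_lit 15610] false,
   Spec.mk (nat_lit 35298) (nat_lit 0) [nat_lit 48420, nat_lit 30924, nat_lit 33840, nat_lit 35784, nat_lit 35136, nat_lit 35352, nat_lit 35280, nat_lit 35292] (nat_lit 0) [nat_lit 15616] false,
   Spec.mk (nat_lit 35318) (nat_lit 1) [nat_lit 48440, nat_lit 30944, nat_lit 33860, nat_lit 35804, nat_lit 35156, nat_lit 35480, nat_lit 35264, nat_lit 35320] (nat_lit 0) [nat_lit 55000] false,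
   Spec.mk (nat_lit 35320) (nat_lit 1) [nat_lit 48442, nat_lit 30946, nat_lit 33862, nat_lit 35806, nat_lit 35158, nat_lit 35482, nat_lit 35266, nat_lit 35326, nat_lit 35318, nat_lit 35322] (nat_lit 0) [nat_lit 55002, nat_lit 15638] false,
   Spec.mk (nat_lit 35322) (nat_lit 0) [nat_lit 48444, nat_lit 30948, nat_lit 33864, nat_lit 35808, nat_lit 35160, nat_lit 35484, nat_lit 35268, nat_lit 35328, nat_lit 35320] (nat_lit 1) [nat_lit 15640] false,
   Spec.mk (nat_lit 35326) (nat_lit 0) [nat_lit 48448, nat_lit 30952, nat_lit 33868, nat_lit 35812, nat_lit 35164, nat_lit 35488, nat_lit 35272, nat_lit 35344, nat_lit 35320, nat_lit 35328] (nat_lit 0) [nat_lit 55008, nat_lit 15644] false,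
   Spec.mk (nat_lit 35328) (nat_lit 0) [nat_lit 48450, nat_lit 30954, nat_lit 33870, nat_lit 35814, nat_lit 35166, nat_lit 35490, nat_lit 35274, nat_lit 35346, nat_lit 35322, nat_lit 35334, nat_lit 35326] (nat_lit 0) [nat_lit 15646] false,
   Spec.mk (nat_lit 35334) (nat_lit 0) [nat_lit 48456, nat_lit 30960, nat_lit 33876, nat_lit 35820, nat_lit 35172, nat_lit 35496, nat_lit 35280, nat_lit 35352, nat_lit 35328] (nat_lit 1) [nat_lit 15652] false]

noncomputable def sp84 : List Spec :=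
  [Spec.mk (nat_lit 35344) (nat_lit 1) [nat_lit 48466, nat_lit 30970, nat_lit 33886, nat_lit 35830, nat_lit 35182, nat_lit 35506, nat_lit 35290, nat_lit 35398, nat_lit 35326, nat_lit 35346] (nat_lit 0) [nat_lit 55026, nat_lit 15662] false,
   Spec.mk (nat_lit 35346) (nat_lit 0) [nat_lit 48468, nat_lit 30972, nat_lit 33888, nat_lit 35832, nat_lit 35184, nat_lit 35508, nat_lit 35292, nat_lit 35400, nat_lit 35328, nat_lit 35352, nat_lit 35344] (nat_lit 0) [nat_lit 15664] false,
   Spec.mk (nat_lit 35352) (nat_lit 1) [nat_lit 48474, nat_lit 30978, nat_lit 33894, nat_lit 35838, nat_lit 35190, nat_lit 35514, nat_lit 35298, nat_lit 35406, nat_lit 35334, nat_lit 35370, nat_lit 35346] (nat_lit 0) [nat_lit 15670] false,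
   Spec.mk (nat_lit 35370) (nat_lit 1) [nat_lit 48492, nat_lit 30996, nat_lit 33912, nat_lit 35856, nat_lit 35208, nat_lit 35532, nat_lit 35424, nat_lit 35352] (nat_lit 0) [nat_lit 15688] false,
   Spec.mk (nat_lit 35398) (nat_lit 1) [nat_lit 48520, nat_lit 31024, nat_lit 33940, nat_lit 35884, nat_lit 35560, nat_lit 35344, nat_lit 35400] (nat_lit 0) [nat_lit 55080, nat_lit 15716] false,
   Spec.mk (nat_lit 35400) (nat_lit 0) [nat_lit 48522, nat_lit 31026, nat_lit 33942, nat_lit 35886, nat_lit 35562, nat_lit 35346, nat_lit 35406, nat_lit 35398] (nat_lit 0) [nat_lit 15718] false,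
   Spec.mk (nat_lit 35406) (nat_lit 0) [nat_lit 48528, nat_lit 31032, nat_lit 33948, nat_lit 35892, nat_lit 35568, nat_lit 35352, nat_lit 35424, nat_lit 35400] (nat_lit 0) [nat_lit 15724] false,
   Spec.mk (nat_lit 35424) (nat_lit 2) [nat_lit 48546, nat_lit 31050, nat_lit 33966, nat_lit 35910, nat_lit 35586, nat_lit 35370, nat_lit 35406] (nat_lit 0) [nat_lit 15742] false,
   Spec.mk (nat_lit 35480) (nat_lit 0) [nat_lit 48602, nat_lit 31106, nat_lit 34022, nat_lit 35966, nat_lit 35318, nat_lit 35482] (nat_lit 0) [nat_lit 55162] false,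
   Spec.mk (nat_lit 35482) (nat_lit 0) [nat_lit 48604, nat_lit 31108, nat_lit 34024, nat_lit 35968, nat_lit 35320, nat_lit 35488, nat_lit 35480, nat_lit 35484] (nat_lit 0) [nat_lit 55164, nat_lit 15800] false,
   Spec.mk (nat_lit 35484) (nat_lit 0) [nat_lit 48606, nat_lit 31110, nat_lit 34026, nat_lit 35970, nat_lit 35322, nat_lit 35490, nat_lit 35482] (nat_lit 2) [nat_lit 15802] false,
   Spec.mk (nat_lit 35488) (nat_lit 0) [nat_lit 48610, nat_lit 31114, nat_lit 34030, nat_lit 35974, nat_lit 35326, nat_lit 35506, nat_lit 35482, nat_lit 35490] (nat_lit 1) [nat_lit 55170, nat_lit 15806] false,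
   Spec.mk (nat_lit 35490) (nat_lit 0) [nat_lit 48612, nat_lit 31116, nat_lit 34032, nat_lit 35976, nat_lit 35328, nat_lit 35508, nat_lit 35484, nat_lit 35496, nat_lit 35488] (nat_lit 1) [nat_lit 15808] false,
   Spec.mk (nat_lit 35496) (nat_lit 0) [nat_lit 48618, nat_lit 31122, nat_lit 34038, nat_lit 35982, nat_lit 35334, nat_lit 35514, nat_lit 35490] (nat_lit 2) [nat_lit 15814] false,
   Spec.mk (nat_lit 35506) (nat_lit 0) [nat_lit 48628, nat_lit 31132, nat_lit 34048, nat_lit 35992, nat_lit 35344, nat_lit 35560, nat_lit 35488, nat_lit 35508] (nat_lit 1) [nat_lit 55188, nat_lit 15824] false,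
   Spec.mk (nat_lit 35508) (nat_lit 0) [nat_lit 48630, nat_lit 31134, nat_lit 34050, nat_lit 35994, nat_lit 35346, nat_lit 35562, nat_lit 35490, nat_lit 35514, nat_lit 35506] (nat_lit 2) [nat_lit 15826] false,
   Spec.mk (nat_lit 35514) (nat_lit 0) [nat_lit 48636, nat_lit 31140, nat_lit 34056, nat_lit 36000, nat_lit 35352, nat_lit 35568, nat_lit 35496, nat_lit 35532, nat_lit 35508] (nat_lit 1) [nat_lit 15832] false,
   Spec.mk (nat_lit 35532) (nat_lit 0) [nat_lit 48654, nat_lit 31158, nat_lit 34074, nat_lit 36018, nat_lit 35370, nat_lit 35586, nat_lit 35514] (nat_lit 2) [nat_lit 15850] false,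
   Spec.mk (nat_lit 35560) (nat_lit 1) [nat_lit 48682, nat_lit 31186, nat_lit 34102, nat_lit 36046, nat_lit 35398, nat_lit 35506, nat_lit 35562] (nat_lit 0) [nat_lit 55242, nat_lit 15878] false,
   Spec.mk (nat_lit 35562) (nat_lit 0) [nat_lit 48684, nat_lit 31188, nat_lit 34104, nat_lit 36048, nat_lit 35400, nat_lit 35508, nat_lit 35568, nat_lit 35560] (nat_lit 0) [nat_lit 15880] false,
   Spec.mk (nat_lit 35568) (nat_lit 0) [nat_lit 48690, nat_lit 31194, nat_lit 34110, nat_lit 36054, nat_lit 35406, nat_lit 35514, nat_lit 35586, nat_lit 35562] (nat_lit 0) [nat_lit 15886] false,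
   Spec.mk (nat_lit 35586) (nat_lit 1) [nat_lit 48708, nat_lit 31212, nat_lit 34128, nat_lit 36072, nat_lit 35424, nat_lit 35532, nat_lit 35640, nat_lit 35568] (nat_lit 0) [nat_lit 15904] false,
   Spec.mk (nat_lit 35640) (nat_lit 2) [nat_lit 48762, nat_lit 31266, nat_lit 34182, nat_lit 36126, nat_lit 35586] (nat_lit 0) [nat_lit 15958] false,
   Spec.mk (nat_lit 35726) (nat_lit 3) [nat_lit 48848, nat_lit 31352, nat_lit 34268, nat_lit 37184, nat_lit 35240, nat_lit 35732, nat_lit 35728] (nat_lit 0) [nat_lit 55408] false,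
   Spec.mk (nat_lit 35728) (nat_lit 2) [nat_lit 48850, nat_lit 31354, nat_lit 34270, nat_lit 37186, nat_lit 35242, nat_lit 35734, nat_lit 35726] (nat_lit 0) [nat_lit 55410, nat_lit 16046] false,
   Spec.mk (nat_lit 35732) (nat_lit 1) [nat_lit 48854, nat_lit 31358, nat_lit 34274, nat_lit 37190, nat_lit 35246, nat_lit 35750, nat_lit 35726, nat_lit 35734] (nat_lit 0) [nat_lit 55414] false,
   Spec.mk (nat_lit 35734) (nat_lit 2) [nat_lit 48856, nat_lit 31360, nat_lit 34276, nat_lit 37192, nat_lit 35248, nat_lit 35752, nat_lit 35728, nat_lit 35740, nat_lit 35732, nat_lit 35736] (nat_lit 0) [nat_lit 55416, nat_lit 16052] false,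
   Spec.mk (nat_lit 35736) (nat_lit 1) [nat_lit 48858, nat_lit 31362, nat_lit 34278, nat_lit 37194, nat_lit 35250, nat_lit 35754, nat_lit 35742, nat_lit 35734] (nat_lit 0) [nat_lit 16054] false,
   Spec.mk (nat_lit 35740) (nat_lit 0) [nat_lit 48862, nat_lit 31366, nat_lit 34282, nat_lit 37198, nat_lit 35254, nat_lit 35758, nat_lit 35734, nat_lit 35742] (nat_lit 0) [nat_lit 55422, nat_lit 16058] false,
   Spec.mk (nat_lit 35742) (nat_lit 1) [nat_lit 48864, nat_lit 31368, nat_lit 34284, nat_lit 37200, nat_lit 35256, nat_lit 35760, nat_lit 35736, nat_lit 35740] (nat_lit 0) [nat_lit 16060] false,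
   Spec.mk (nat_lit 35750) (nat_lit 1) [nat_lit 48872, nat_lit 31376, nat_lit 34292, nat_lit 37208, nat_lit 35264, nat_lit 35804, nat_lit 35732, nat_lit 35752] (nat_lit 0) [nat_lit 55432] false,
   Spec.mk (nat_lit 35752) (nat_lit 1) [nat_lit 48874, nat_lit 31378, nat_lit 34294, nat_lit 37210, nat_lit 35266, nat_lit 35806, nat_lit 35734, nat_lit 35758, nat_lit 35750, nat_lit 35754] (nat_lit 0) [nat_lit 55434, nat_lit 16070] false,
   Spec.mk (nat_lit 35754) (nat_lit 0) [nat_lit 48876, nat_lit 31380, nat_lit 34296, nat_lit 37212, nat_lit 35268, nat_lit 35808, nat_lit 35736, nat_lit 35760, nat_lit 35752] (nat_lit 1) [nat_lit 16072] false,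
   Spec.mk (nat_lit 35758) (nat_lit 1) [nat_lit 48880, nat_lit 31384, nat_lit 34300, nat_lit 37216, nat_lit 35272, nat_lit 35812, nat_lit 35740, nat_lit 35776, nat_lit 35752, nat_lit 35760] (nat_lit 0) [nat_lit 55440, nat_lit 16076] false,
   Spec.mk (nat_lit 35760) (nat_lit 1) [nat_lit 48882, nat_lit 31386, nat_lit 34302, nat_lit 37218, nat_lit 35274, nat_lit 35814, nat_lit 35742, nat_lit 35778, nat_lit 35754, nat_lit 35766, nat_lit 35758] (nat_lit 0) [nat_lit 16078] false,
   Spec.mk (nat_lit 35766) (nat_lit 1) [nat_lit 48888, nat_lit 31392, nat_lit 34308, nat_lit 37224, nat_lit 35280, nat_lit 35820, nat_lit 35784, nat_lit 35760] (nat_lit 0) [nat_lit 16084] false,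
   Spec.mk (nat_lit 35776) (nat_lit 0) [nat_lit 48898, nat_lit 31402, nat_lit 34318, nat_lit 37234, nat_lit 35290, nat_lit 35830, nat_lit 35758, nat_lit 35778] (nat_lit 0) [nat_lit 55458, nat_lit 16094] false,
   Spec.mk (nat_lit 35778) (nat_lit 0) [nat_lit 48900, nat_lit 31404, nat_lit 34320, nat_lit 37236, nat_lit 35292, nat_lit 35832, nat_lit 35760, nat_lit 35784, nat_lit 35776] (nat_lit 1) [nat_lit 16096] false,
   Spec.mk (nat_lit 35784) (nat_lit 1) [nat_lit 48906, nat_lit 31410, nat_lit 34326, nat_lit 37242, nat_lit 35298, nat_lit 35838, nat_lit 35766, nat_lit 35778] (nat_lit 0) [nat_lit 16102] false,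
   Spec.mk (nat_lit 35804) (nat_lit 1) [nat_lit 48926, nat_lit 31430, nat_lit 34346, nat_lit 37262, nat_lit 35318, nat_lit 35966, nat_lit 35750, nat_lit 35806] (nat_lit 0) [nat_lit 55486] false,
   Spec.mk (nat_lit 35806) (nat_lit 1) [nat_lit 48928, nat_lit 31432, nat_lit 34348, nat_lit 37264, nat_lit 35320, nat_lit 35968, nat_lit 35752, nat_lit 35812, nat_lit 35804, nat_lit 35808] (nat_lit 0) [nat_lit 55488, nat_lit 16124] false,
   Spec.mk (nat_lit 35808) (nat_lit 0) [nat_lit 48930, nat_lit 31434, nat_lit 34350, nat_lit 37266, nat_lit 35322, nat_lit 35970, nat_lit 35754, nat_lit 35814, nat_lit 35806] (nat_lit 1) [nat_lit 16126] false,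
   Spec.mk (nat_lit 35812) (nat_lit 0) [nat_lit 48934, nat_lit 31438, nat_lit 34354, nat_lit 37270, nat_lit 35326, nat_lit 35974, nat_lit 35758, nat_lit 35830, nat_lit 35806, nat_lit 35814] (nat_lit 0) [nat_lit 55494, nat_lit 16130] false,
   Spec.mk (nat_lit 35814) (nat_lit 0) [nat_lit 48936, nat_lit 31440, nat_lit 34356, nat_lit 37272, nat_lit 35328, nat_lit 35976, nat_lit 35760, nat_lit 35832, nat_lit 35808, nat_lit 35820, nat_lit 35812] (nat_lit 0) [nat_lit 16132] false,
   Spec.mk (nat_lit 35820) (nat_lit 0) [nat_lit 48942, nat_lit 31446, nat_lit 34362, nat_lit 37278, nat_lit 35334, nat_lit 35982, nat_lit 35766, nat_lit 35838, nat_lit 35814] (nat_lit 1) [nat_lit 16138] false,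
   Spec.mk (nat_lit 35830) (nat_lit 1) [nat_lit 48952, nat_lit 31456, nat_lit 34372, nat_lit 37288, nat_lit 35344, nat_lit 35992, nat_lit 35776, nat_lit 35884, nat_lit 35812, nat_lit 35832] (nat_lit 0) [nat_lit 55512, nat_lit 16148] false,
   Spec.mk (nat_lit 35832) (nat_lit 0) [nat_lit 48954, nat_lit 31458, nat_lit 34374, nat_lit 37290, nat_lit 35346, nat_lit 35994, nat_lit 35778, nat_lit 35886, nat_lit 35814, nat_lit 35838, nat_lit 35830] (nat_lit 0) [nat_lit 16150] false,
   Spec.mk (nat_lit 35838) (nat_lit 1) [nat_lit 48960, nat_lit 31464, nat_lit 34380, nat_lit 37296, nat_lit 35352, nat_lit 36000, nat_lit 35784, nat_lit 35892, nat_lit 35820, nat_lit 35856, nat_lit 35832] (nat_lit 0) [nat_lit 16156] false,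
   Spec.mk (nat_lit 35856) (nat_lit 1) [nat_lit 48978, nat_lit 31482, nat_lit 34398, nat_lit 37314, nat_lit 35370, nat_lit 36018, nat_lit 35910, nat_lit 35838] (nat_lit 0) [nat_lit 16174] false,
   Spec.mk (nat_lit 35884) (nat_lit 0) [nat_lit 49006, nat_lit 31510, nat_lit 34426, nat_lit 37342, nat_lit 35398, nat_lit 36046, nat_lit 35830, nat_lit 35886] (nat_lit 0) [nat_lit 55566, nat_lit 16202] false,
   Spec.mk (nat_lit 35886) (nat_lit 0) [nat_lit 49008, nat_lit 31512, nat_lit 34428, nat_lit 37344, nat_lit 35400, nat_lit 36048, nat_lit 35832, nat_lit 35892, nat_lit 35884] (nat_lit 1) [nat_lit 16204] false,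
   Spec.mk (nat_lit 35892) (nat_lit 0) [nat_lit 49014, nat_lit 31518, nat_lit 34434, nat_lit 37350, nat_lit 35406, nat_lit 36054, nat_lit 35838, nat_lit 35910, nat_lit 35886] (nat_lit 1) [nat_lit 16210] false,
   Spec.mk (nat_lit 35910) (nat_lit 1) [nat_lit 49032, nat_lit 31536, nat_lit 34452, nat_lit 37368, nat_lit 35424, nat_lit 36072, nat_lit 35856, nat_lit 35892] (nat_lit 0) [nat_lit 16228] false,
   Spec.mk (nat_lit 35966) (nat_lit 2) [nat_lit 49088, nat_lit 31592, nat_lit 34508, nat_lit 37424, nat_lit 35480, nat_lit 36452, nat_lit 35804, nat_lit 35968] (nat_lit 0) [nat_lit 55648] false,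
   Spec.mk (nat_lit 35968) (nat_lit 2) [nat_lit 49090, nat_lit 31594, nat_lit 34510, nat_lit 37426, nat_lit 35482, nat_lit 36454, nat_lit 35806, nat_lit 35974, nat_lit 35966, nat_lit 35970] (nat_lit 0) [nat_lit 55650, nat_lit 16286] false,
   Spec.mk (nat_lit 35970) (nat_lit 0) [nat_lit 49092, nat_lit 31596, nat_lit 34512, nat_lit 37428, nat_lit 35484, nat_lit 36456, nat_lit 35808, nat_lit 35976, nat_lit 35968] (nat_lit 0) [nat_lit 16288] false,
   Spec.mk (nat_lit 35974) (nat_lit 1) [nat_lit 49096, nat_lit 31600, nat_lit 34516, nat_lit 37432, nat_lit 35488, nat_lit 36460, nat_lit 35812, nat_lit 35992, nat_lit 35968, nat_lit 35976] (nat_lit 0) [nat_lit 55656, nat_lit 16292] false,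
   Spec.mk (nat_lit 35976) (nat_lit 1) [nat_lit 49098, nat_lit 31602, nat_lit 34518, nat_lit 37434, nat_lit 35490, nat_lit 36462, nat_lit 35814, nat_lit 35994, nat_lit 35970, nat_lit 35982, nat_lit 35974] (nat_lit 0) [nat_lit 16294] false,
   Spec.mk (nat_lit 35982) (nat_lit 0) [nat_lit 49104, nat_lit 31608, nat_lit 34524, nat_lit 37440, nat_lit 35496, nat_lit 36468, nat_lit 35820, nat_lit 36000, nat_lit 35976] (nat_lit 0) [nat_lit 16300] false,
   Spec.mk (nat_lit 35992) (nat_lit 1) [nat_lit 49114, nat_lit 31618, nat_lit 34534, nat_lit 37450, nat_lit 35506, nat_lit 36478, nat_lit 35830, nat_lit 36046, nat_lit 35974, nat_lit 35994] (nat_lit 0) [nat_lit 55674, nat_lit 16310] false]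

noncomputable def sp85 : List Spec :=
  [Spec.mk (nat_lit 35994) (nat_lit 0) [nat_lit 49116, nat_lit 31620, nat_lit 34536, nat_lit 37452, nat_lit 35508, nat_lit 36480, nat_lit 35832, nat_lit 36048, nat_lit 35976, nat_lit 36000, nat_lit 35992] (nat_lit 0) [nat_lit 16312] false,
   Spec.mk (nat_lit 36000) (nat_lit 1) [nat_lit 49122, nat_lit 31626, nat_lit 34542, nat_lit 37458, nat_lit 35514, nat_lit 36486, nat_lit 35838, nat_lit 36054, nat_lit 35982, nat_lit 36018, nat_lit 35994] (nat_lit 0) [nat_lit 16318] false,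
   Spec.mk (nat_lit 36018) (nat_lit 0) [nat_lit 49140, nat_lit 31644, nat_lit 34560, nat_lit 37476, nat_lit 35532, nat_lit 36504, nat_lit 35856, nat_lit 36072, nat_lit 36000] (nat_lit 0) [nat_lit 16336] false,
   Spec.mk (nat_lit 36046) (nat_lit 2) [nat_lit 49168, nat_lit 31672, nat_lit 34588, nat_lit 37504, nat_lit 35560, nat_lit 36532, nat_lit 35884, nat_lit 36208, nat_lit 35992, nat_lit 36048] (nat_lit 0) [nat_lit 55728, nat_lit 16364] false,
   Spec.mk (nat_lit 36048) (nat_lit 1) [nat_lit 49170, nat_lit 31674, nat_lit 34590, nat_lit 37506, nat_lit 35562, nat_lit 36534, nat_lit 35886, nat_lit 36210, nat_lit 35994, nat_lit 36054, nat_lit 36046] (nat_lit 0) [nat_lit 16366] false,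
   Spec.mk (nat_lit 36054) (nat_lit 1) [nat_lit 49176, nat_lit 31680, nat_lit 34596, nat_lit 37512, nat_lit 35568, nat_lit 36540, nat_lit 35892, nat_lit 36216, nat_lit 36000, nat_lit 36072, nat_lit 36048] (nat_lit 0) [nat_lit 16372] false,
   Spec.mk (nat_lit 36072) (nat_lit 2) [nat_lit 49194, nat_lit 31698, nat_lit 34614, nat_lit 37530, nat_lit 35586, nat_lit 36558, nat_lit 35910, nat_lit 36234, nat_lit 36018, nat_lit 36126, nat_lit 36054] (nat_lit 0) [nat_lit 16390] false,
   Spec.mk (nat_lit 36126) (nat_lit 2) [nat_lit 49248, nat_lit 31752, nat_lit 34668, nat_lit 37584, nat_lit 35640, nat_lit 36612, nat_lit 36288, nat_lit 36072] (nat_lit 0) [nat_lit 16444] false,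
   Spec.mk (nat_lit 36208) (nat_lit 2) [nat_lit 49330, nat_lit 31834, nat_lit 34750, nat_lit 37666, nat_lit 36694, nat_lit 36046, nat_lit 36210] (nat_lit 0) [nat_lit 55890, nat_lit 16526] false,
   Spec.mk (nat_lit 36210) (nat_lit 1) [nat_lit 49332, nat_lit 31836, nat_lit 34752, nat_lit 37668, nat_lit 36696, nat_lit 36048, nat_lit 36216, nat_lit 36208] (nat_lit 0) [nat_lit 16528] false,
   Spec.mk (nat_lit 36216) (nat_lit 1) [nat_lit 49338, nat_lit 31842, nat_lit 34758, nat_lit 37674, nat_lit 36702, nat_lit 36054, nat_lit 36234, nat_lit 36210] (nat_lit 0) [nat_lit 16534] false,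
   Spec.mk (nat_lit 36234) (nat_lit 1) [nat_lit 49356, nat_lit 31860, nat_lit 34776, nat_lit 37692, nat_lit 36720, nat_lit 36072, nat_lit 36288, nat_lit 36216] (nat_lit 0) [nat_lit 16552] false,
   Spec.mk (nat_lit 36288) (nat_lit 3) [nat_lit 49410, nat_lit 31914, nat_lit 34830, nat_lit 37746, nat_lit 36774, nat_lit 36126, nat_lit 36234] (nat_lit 0) [nat_lit 16606] false,
   Spec.mk (nat_lit 36452) (nat_lit 2) [nat_lit 49574, nat_lit 32078, nat_lit 37910, nat_lit 35966, nat_lit 36454] (nat_lit 0) [nat_lit 56134] false,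
   Spec.mk (nat_lit 36454) (nat_lit 2) [nat_lit 49576, nat_lit 32080, nat_lit 37912, nat_lit 35968, nat_lit 36460, nat_lit 36452, nat_lit 36456] (nat_lit 0) [nat_lit 56136, nat_lit 16772] false,
   Spec.mk (nat_lit 36456) (nat_lit 0) [nat_lit 49578, nat_lit 32082, nat_lit 37914, nat_lit 35970, nat_lit 36462, nat_lit 36454] (nat_lit 0) [nat_lit 16774] false,
   Spec.mk (nat_lit 36460) (nat_lit 1) [nat_lit 49582, nat_lit 32086, nat_lit 37918, nat_lit 35974, nat_lit 36478, nat_lit 36454, nat_lit 36462] (nat_lit 0) [nat_lit 56142, nat_lit 16778] false,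
   Spec.mk (nat_lit 36462) (nat_lit 1) [nat_lit 49584, nat_lit 32088, nat_lit 37920, nat_lit 35976, nat_lit 36480, nat_lit 36456, nat_lit 36468, nat_lit 36460] (nat_lit 0) [nat_lit 16780] false,
   Spec.mk (nat_lit 36468) (nat_lit 0) [nat_lit 49590, nat_lit 32094, nat_lit 37926, nat_lit 35982, nat_lit 36486, nat_lit 36462] (nat_lit 0) [nat_lit 16786] false,
   Spec.mk (nat_lit 36478) (nat_lit 1) [nat_lit 49600, nat_lit 32104, nat_lit 37936, nat_lit 35992, nat_lit 36532, nat_lit 36460, nat_lit 36480] (nat_lit 0) [nat_lit 56160, nat_lit 16796] false,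
   Spec.mk (nat_lit 36480) (nat_lit 0) [nat_lit 49602, nat_lit 32106, nat_lit 37938, nat_lit 35994, nat_lit 36534, nat_lit 36462, nat_lit 36486, nat_lit 36478] (nat_lit 0) [nat_lit 16798] false,
   Spec.mk (nat_lit 36486) (nat_lit 1) [nat_lit 49608, nat_lit 32112, nat_lit 37944, nat_lit 36000, nat_lit 36540, nat_lit 36468, nat_lit 36504, nat_lit 36480] (nat_lit 0) [nat_lit 16804] false,
   Spec.mk (nat_lit 36504) (nat_lit 0) [nat_lit 49626, nat_lit 32130, nat_lit 37962, nat_lit 36018, nat_lit 36558, nat_lit 36486] (nat_lit 0) [nat_lit 16822] false,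
   Spec.mk (nat_lit 36532) (nat_lit 1) [nat_lit 49654, nat_lit 32158, nat_lit 37990, nat_lit 36046, nat_lit 36694, nat_lit 36478, nat_lit 36534] (nat_lit 0) [nat_lit 56214, nat_lit 16850] false,
   Spec.mk (nat_lit 36534) (nat_lit 0) [nat_lit 49656, nat_lit 32160, nat_lit 37992, nat_lit 36048, nat_lit 36696, nat_lit 36480, nat_lit 36540, nat_lit 36532] (nat_lit 0) [nat_lit 16852] false,
   Spec.mk (nat_lit 36540) (nat_lit 0) [nat_lit 49662, nat_lit 32166, nat_lit 37998, nat_lit 36054, nat_lit 36702, nat_lit 36486, nat_lit 36558, nat_lit 36534] (nat_lit 0) [nat_lit 16858] false,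
   Spec.mk (nat_lit 36558) (nat_lit 1) [nat_lit 49680, nat_lit 32184, nat_lit 38016, nat_lit 36072, nat_lit 36720, nat_lit 36504, nat_lit 36612, nat_lit 36540] (nat_lit 0) [nat_lit 16876] false,
   Spec.mk (nat_lit 36612) (nat_lit 0) [nat_lit 49734, nat_lit 32238, nat_lit 38070, nat_lit 36126, nat_lit 36774, nat_lit 36558] (nat_lit 0) [nat_lit 16930] false,
   Spec.mk (nat_lit 36694) (nat_lit 3) [nat_lit 49816, nat_lit 32320, nat_lit 38152, nat_lit 36208, nat_lit 36532, nat_lit 36696] (nat_lit 0) [nat_lit 56376, nat_lit 17012] false,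
   Spec.mk (nat_lit 36696) (nat_lit 2) [nat_lit 49818, nat_lit 32322, nat_lit 38154, nat_lit 36210, nat_lit 36534, nat_lit 36702, nat_lit 36694] (nat_lit 0) [nat_lit 17014] false,
   Spec.mk (nat_lit 36702) (nat_lit 2) [nat_lit 49824, nat_lit 32328, nat_lit 38160, nat_lit 36216, nat_lit 36540, nat_lit 36720, nat_lit 36696] (nat_lit 0) [nat_lit 17020] false,
   Spec.mk (nat_lit 36720) (nat_lit 2) [nat_lit 49842, nat_lit 32346, nat_lit 38178, nat_lit 36234, nat_lit 36558, nat_lit 36774, nat_lit 36702] (nat_lit 0) [nat_lit 17038] false,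
   Spec.mk (nat_lit 36774) (nat_lit 3) [nat_lit 49896, nat_lit 32400, nat_lit 38232, nat_lit 36288, nat_lit 36612, nat_lit 36936, nat_lit 36720] (nat_lit 0) [nat_lit 17092] false,
   Spec.mk (nat_lit 36936) (nat_lit 4) [nat_lit 50058, nat_lit 32562, nat_lit 38394, nat_lit 36774] (nat_lit 0) [nat_lit 17254] false,
   Spec.mk (nat_lit 37184) (nat_lit 4) [nat_lit 50306, nat_lit 35726, nat_lit 37190, nat_lit 37186] (nat_lit 0) [nat_lit 56866] false,
   Spec.mk (nat_lit 37186) (nat_lit 3) [nat_lit 50308, nat_lit 35728, nat_lit 37192, nat_lit 37184] (nat_lit 0) [nat_lit 56868, nat_lit 17504] false,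
   Spec.mk (nat_lit 37190) (nat_lit 2) [nat_lit 50312, nat_lit 35732, nat_lit 37208, nat_lit 37184, nat_lit 37192] (nat_lit 0) [nat_lit 56872] false,
   Spec.mk (nat_lit 37192) (nat_lit 3) [nat_lit 50314, nat_lit 35734, nat_lit 37210, nat_lit 37186, nat_lit 37198, nat_lit 37190, nat_lit 37194] (nat_lit 0) [nat_lit 56874, nat_lit 17510] false,
   Spec.mk (nat_lit 37194) (nat_lit 2) [nat_lit 50316, nat_lit 35736, nat_lit 37212, nat_lit 37200, nat_lit 37192] (nat_lit 0) [nat_lit 17512] false,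
   Spec.mk (nat_lit 37198) (nat_lit 1) [nat_lit 50320, nat_lit 35740, nat_lit 37216, nat_lit 37192, nat_lit 37200] (nat_lit 0) [nat_lit 56880, nat_lit 17516] false,
   Spec.mk (nat_lit 37200) (nat_lit 2) [nat_lit 50322, nat_lit 35742, nat_lit 37218, nat_lit 37194, nat_lit 37198] (nat_lit 0) [nat_lit 17518] false,
   Spec.mk (nat_lit 37208) (nat_lit 2) [nat_lit 50330, nat_lit 35750, nat_lit 37262, nat_lit 37190, nat_lit 37210] (nat_lit 0) [nat_lit 56890] false,
   Spec.mk (nat_lit 37210) (nat_lit 2) [nat_lit 50332, nat_lit 35752, nat_lit 37264, nat_lit 37192, nat_lit 37216, nat_lit 37208, nat_lit 37212] (nat_lit 0) [nat_lit 56892, nat_lit 17528] false,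
   Spec.mk (nat_lit 37212) (nat_lit 0) [nat_lit 50334, nat_lit 35754, nat_lit 37266, nat_lit 37194, nat_lit 37218, nat_lit 37210] (nat_lit 0) [nat_lit 17530] false,
   Spec.mk (nat_lit 37216) (nat_lit 2) [nat_lit 50338, nat_lit 35758, nat_lit 37270, nat_lit 37198, nat_lit 37234, nat_lit 37210, nat_lit 37218] (nat_lit 0) [nat_lit 56898, nat_lit 17534] false,
   Spec.mk (nat_lit 37218) (nat_lit 2) [nat_lit 50340, nat_lit 35760, nat_lit 37272, nat_lit 37200, nat_lit 37236, nat_lit 37212, nat_lit 37224, nat_lit 37216] (nat_lit 0) [nat_lit 17536] false,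
   Spec.mk (nat_lit 37224) (nat_lit 2) [nat_lit 50346, nat_lit 35766, nat_lit 37278, nat_lit 37242, nat_lit 37218] (nat_lit 0) [nat_lit 17542] false,
   Spec.mk (nat_lit 37234) (nat_lit 1) [nat_lit 50356, nat_lit 35776, nat_lit 37288, nat_lit 37216, nat_lit 37236] (nat_lit 0) [nat_lit 56916, nat_lit 17552] false,
   Spec.mk (nat_lit 37236) (nat_lit 0) [nat_lit 50358, nat_lit 35778, nat_lit 37290, nat_lit 37218, nat_lit 37242, nat_lit 37234] (nat_lit 0) [nat_lit 17554] false,
   Spec.mk (nat_lit 37242) (nat_lit 2) [nat_lit 50364, nat_lit 35784, nat_lit 37296, nat_lit 37224, nat_lit 37236] (nat_lit 0) [nat_lit 17560] false,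
   Spec.mk (nat_lit 37262) (nat_lit 2) [nat_lit 50384, nat_lit 35804, nat_lit 37424, nat_lit 37208, nat_lit 37264] (nat_lit 0) [nat_lit 56944] false,
   Spec.mk (nat_lit 37264) (nat_lit 2) [nat_lit 50386, nat_lit 35806, nat_lit 37426, nat_lit 37210, nat_lit 37270, nat_lit 37262, nat_lit 37266] (nat_lit 0) [nat_lit 56946, nat_lit 17582] false,
   Spec.mk (nat_lit 37266) (nat_lit 0) [nat_lit 50388, nat_lit 35808, nat_lit 37428, nat_lit 37212, nat_lit 37272, nat_lit 37264] (nat_lit 0) [nat_lit 17584] false,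
   Spec.mk (nat_lit 37270) (nat_lit 1) [nat_lit 50392, nat_lit 35812, nat_lit 37432, nat_lit 37216, nat_lit 37288, nat_lit 37264, nat_lit 37272] (nat_lit 0) [nat_lit 56952, nat_lit 17588] false,
   Spec.mk (nat_lit 37272) (nat_lit 1) [nat_lit 50394, nat_lit 35814, nat_lit 37434, nat_lit 37218, nat_lit 37290, nat_lit 37266, nat_lit 37278, nat_lit 37270] (nat_lit 0) [nat_lit 17590] false,
   Spec.mk (nat_lit 37278) (nat_lit 0) [nat_lit 50400, nat_lit 35820, nat_lit 37440, nat_lit 37224, nat_lit 37296, nat_lit 37272] (nat_lit 0) [nat_lit 17596] false,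
   Spec.mk (nat_lit 37288) (nat_lit 2) [nat_lit 50410, nat_lit 35830, nat_lit 37450, nat_lit 37234, nat_lit 37342, nat_lit 37270, nat_lit 37290] (nat_lit 0) [nat_lit 56970, nat_lit 17606] false,
   Spec.mk (nat_lit 37290) (nat_lit 1) [nat_lit 50412, nat_lit 35832, nat_lit 37452, nat_lit 37236, nat_lit 37344, nat_lit 37272, nat_lit 37296, nat_lit 37288] (nat_lit 0) [nat_lit 17608] false,
   Spec.mk (nat_lit 37296) (nat_lit 2) [nat_lit 50418, nat_lit 35838, nat_lit 37458, nat_lit 37242, nat_lit 37350, nat_lit 37278, nat_lit 37314, nat_lit 37290] (nat_lit 0) [nat_lit 17614] false,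
   Spec.mk (nat_lit 37314) (nat_lit 2) [nat_lit 50436, nat_lit 35856, nat_lit 37476, nat_lit 37368, nat_lit 37296] (nat_lit 0) [nat_lit 17632] false]

noncomputable def sp86 : List Spec :=
  [Spec.mk (nat_lit 37342) (nat_lit 1) [nat_lit 50464, nat_lit 35884, nat_lit 37504, nat_lit 37288, nat_lit 37344] (nat_lit 0) [nat_lit 57024, nat_lit 17660] false,
   Spec.mk (nat_lit 37344) (nat_lit 0) [nat_lit 50466, nat_lit 35886, nat_lit 37506, nat_lit 37290, nat_lit 37350, nat_lit 37342] (nat_lit 0) [nat_lit 17662] false,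
   Spec.mk (nat_lit 37350) (nat_lit 0) [nat_lit 50472, nat_lit 35892, nat_lit 37512, nat_lit 37296, nat_lit 37368, nat_lit 37344] (nat_lit 0) [nat_lit 17668] false,
   Spec.mk (nat_lit 37368) (nat_lit 2) [nat_lit 50490, nat_lit 35910, nat_lit 37530, nat_lit 37314, nat_lit 37350] (nat_lit 0) [nat_lit 17686] false,
   Spec.mk (nat_lit 37424) (nat_lit 2) [nat_lit 50546, nat_lit 35966, nat_lit 37910, nat_lit 37262, nat_lit 37426] (nat_lit 0) [nat_lit 57106] false,
   Spec.mk (nat_lit 37426) (nat_lit 2) [nat_lit 50548, nat_lit 35968, nat_lit 37912, nat_lit 37264, nat_lit 37432, nat_lit 37424, nat_lit 37428] (nat_lit 0) [nat_lit 57108, nat_lit 17744] false,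
   Spec.mk (nat_lit 37428) (nat_lit 0) [nat_lit 50550, nat_lit 35970, nat_lit 37914, nat_lit 37266, nat_lit 37434, nat_lit 37426] (nat_lit 0) [nat_lit 17746] false,
   Spec.mk (nat_lit 37432) (nat_lit 1) [nat_lit 50554, nat_lit 35974, nat_lit 37918, nat_lit 37270, nat_lit 37450, nat_lit 37426, nat_lit 37434] (nat_lit 0) [nat_lit 57114, nat_lit 17750] false,
   Spec.mk (nat_lit 37434) (nat_lit 1) [nat_lit 50556, nat_lit 35976, nat_lit 37920, nat_lit 37272, nat_lit 37452, nat_lit 37428, nat_lit 37440, nat_lit 37432] (nat_lit 0) [nat_lit 17752] false,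
   Spec.mk (nat_lit 37440) (nat_lit 0) [nat_lit 50562, nat_lit 35982, nat_lit 37926, nat_lit 37278, nat_lit 37458, nat_lit 37434] (nat_lit 0) [nat_lit 17758] false,
   Spec.mk (nat_lit 37450) (nat_lit 1) [nat_lit 50572, nat_lit 35992, nat_lit 37936, nat_lit 37288, nat_lit 37504, nat_lit 37432, nat_lit 37452] (nat_lit 0) [nat_lit 57132, nat_lit 17768] false,
   Spec.mk (nat_lit 37452) (nat_lit 0) [nat_lit 50574, nat_lit 35994, nat_lit 37938, nat_lit 37290, nat_lit 37506, nat_lit 37434, nat_lit 37458, nat_lit 37450] (nat_lit 0) [nat_lit 17770] false,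
   Spec.mk (nat_lit 37458) (nat_lit 1) [nat_lit 50580, nat_lit 36000, nat_lit 37944, nat_lit 37296, nat_lit 37512, nat_lit 37440, nat_lit 37476, nat_lit 37452] (nat_lit 0) [nat_lit 17776] false,
   Spec.mk (nat_lit 37476) (nat_lit 0) [nat_lit 50598, nat_lit 36018, nat_lit 37962, nat_lit 37314, nat_lit 37530, nat_lit 37458] (nat_lit 0) [nat_lit 17794] false,
   Spec.mk (nat_lit 37504) (nat_lit 2) [nat_lit 50626, nat_lit 36046, nat_lit 37990, nat_lit 37342, nat_lit 37666, nat_lit 37450, nat_lit 37506] (nat_lit 0) [nat_lit 57186, nat_lit 17822] false,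
   Spec.mk (nat_lit 37506) (nat_lit 1) [nat_lit 50628, nat_lit 36048, nat_lit 37992, nat_lit 37344, nat_lit 37668, nat_lit 37452, nat_lit 37512, nat_lit 37504] (nat_lit 0) [nat_lit 17824] false,
   Spec.mk (nat_lit 37512) (nat_lit 1) [nat_lit 50634, nat_lit 36054, nat_lit 37998, nat_lit 37350, nat_lit 37674, nat_lit 37458, nat_lit 37530, nat_lit 37506] (nat_lit 0) [nat_lit 17830] false,
   Spec.mk (nat_lit 37530) (nat_lit 2) [nat_lit 50652, nat_lit 36072, nat_lit 38016, nat_lit 37368, nat_lit 37692, nat_lit 37476, nat_lit 37584, nat_lit 37512] (nat_lit 0) [nat_lit 17848] false,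
   Spec.mk (nat_lit 37584) (nat_lit 2) [nat_lit 50706, nat_lit 36126, nat_lit 38070, nat_lit 37746, nat_lit 37530] (nat_lit 0) [nat_lit 17902] false,
   Spec.mk (nat_lit 37666) (nat_lit 1) [nat_lit 50788, nat_lit 36208, nat_lit 38152, nat_lit 37504, nat_lit 37668] (nat_lit 0) [nat_lit 57348, nat_lit 17984] false,
   Spec.mk (nat_lit 37668) (nat_lit 0) [nat_lit 50790, nat_lit 36210, nat_lit 38154, nat_lit 37506, nat_lit 37674, nat_lit 37666] (nat_lit 0) [nat_lit 17986] false,
   Spec.mk (nat_lit 37674) (nat_lit 0) [nat_lit 50796, nat_lit 36216, nat_lit 38160, nat_lit 37512, nat_lit 37692, nat_lit 37668] (nat_lit 0) [nat_lit 17992] false,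
   Spec.mk (nat_lit 37692) (nat_lit 0) [nat_lit 50814, nat_lit 36234, nat_lit 38178, nat_lit 37530, nat_lit 37746, nat_lit 37674] (nat_lit 0) [nat_lit 18010] false,
   Spec.mk (nat_lit 37746) (nat_lit 2) [nat_lit 50868, nat_lit 36288, nat_lit 38232, nat_lit 37584, nat_lit 37692] (nat_lit 0) [nat_lit 18064] false,
   Spec.mk (nat_lit 37910) (nat_lit 4) [nat_lit 51032, nat_lit 36452, nat_lit 37424, nat_lit 37912] (nat_lit 0) [nat_lit 57592] false,
   Spec.mk (nat_lit 37912) (nat_lit 4) [nat_lit 51034, nat_lit 36454, nat_lit 37426, nat_lit 37918, nat_lit 37910, nat_lit 37914] (nat_lit 0) [nat_lit 57594, nat_lit 18230] false,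
   Spec.mk (nat_lit 37914) (nat_lit 2) [nat_lit 51036, nat_lit 36456, nat_lit 37428, nat_lit 37920, nat_lit 37912] (nat_lit 0) [nat_lit 18232] false,
   Spec.mk (nat_lit 37918) (nat_lit 3) [nat_lit 51040, nat_lit 36460, nat_lit 37432, nat_lit 37936, nat_lit 37912, nat_lit 37920] (nat_lit 0) [nat_lit 57600, nat_lit 18236] false,
   Spec.mk (nat_lit 37920) (nat_lit 3) [nat_lit 51042, nat_lit 36462, nat_lit 37434, nat_lit 37938, nat_lit 37914, nat_lit 37926, nat_lit 37918] (nat_lit 0) [nat_lit 18238] false,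
   Spec.mk (nat_lit 37926) (nat_lit 2) [nat_lit 51048, nat_lit 36468, nat_lit 37440, nat_lit 37944, nat_lit 37920] (nat_lit 0) [nat_lit 18244] false,
   Spec.mk (nat_lit 37936) (nat_lit 3) [nat_lit 51058, nat_lit 36478, nat_lit 37450, nat_lit 37990, nat_lit 37918, nat_lit 37938] (nat_lit 0) [nat_lit 57618, nat_lit 18254] false,
   Spec.mk (nat_lit 37938) (nat_lit 2) [nat_lit 51060, nat_lit 36480, nat_lit 37452, nat_lit 37992, nat_lit 37920, nat_lit 37944, nat_lit 37936] (nat_lit 0) [nat_lit 18256] false,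
   Spec.mk (nat_lit 37944) (nat_lit 3) [nat_lit 51066, nat_lit 36486, nat_lit 37458, nat_lit 37998, nat_lit 37926, nat_lit 37962, nat_lit 37938] (nat_lit 0) [nat_lit 18262] false,
   Spec.mk (nat_lit 37962) (nat_lit 2) [nat_lit 51084, nat_lit 36504, nat_lit 37476, nat_lit 38016, nat_lit 37944] (nat_lit 0) [nat_lit 18280] false,
   Spec.mk (nat_lit 37990) (nat_lit 3) [nat_lit 51112, nat_lit 36532, nat_lit 37504, nat_lit 38152, nat_lit 37936, nat_lit 37992] (nat_lit 0) [nat_lit 57672, nat_lit 18308] false,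
   Spec.mk (nat_lit 37992) (nat_lit 2) [nat_lit 51114, nat_lit 36534, nat_lit 37506, nat_lit 38154, nat_lit 37938, nat_lit 37998, nat_lit 37990] (nat_lit 0) [nat_lit 18310] false,
   Spec.mk (nat_lit 37998) (nat_lit 2) [nat_lit 51120, nat_lit 36540, nat_lit 37512, nat_lit 38160, nat_lit 37944, nat_lit 38016, nat_lit 37992] (nat_lit 0) [nat_lit 18316] false,
   Spec.mk (nat_lit 38016) (nat_lit 3) [nat_lit 51138, nat_lit 36558, nat_lit 37530, nat_lit 38178, nat_lit 37962, nat_lit 38070, nat_lit 37998] (nat_lit 0) [nat_lit 18334] false,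
   Spec.mk (nat_lit 38070) (nat_lit 2) [nat_lit 51192, nat_lit 36612, nat_lit 37584, nat_lit 38232, nat_lit 38016] (nat_lit 0) [nat_lit 18388] false,
   Spec.mk (nat_lit 38152) (nat_lit 4) [nat_lit 51274, nat_lit 36694, nat_lit 37666, nat_lit 38638, nat_lit 37990, nat_lit 38154] (nat_lit 0) [nat_lit 57834, nat_lit 18470] false,
   Spec.mk (nat_lit 38154) (nat_lit 3) [nat_lit 51276, nat_lit 36696, nat_lit 37668, nat_lit 38640, nat_lit 37992, nat_lit 38160, nat_lit 38152] (nat_lit 0) [nat_lit 18472] false,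
   Spec.mk (nat_lit 38160) (nat_lit 3) [nat_lit 51282, nat_lit 36702, nat_lit 37674, nat_lit 38646, nat_lit 37998, nat_lit 38178, nat_lit 38154] (nat_lit 0) [nat_lit 18478] false,
   Spec.mk (nat_lit 38178) (nat_lit 3) [nat_lit 51300, nat_lit 36720, nat_lit 37692, nat_lit 38664, nat_lit 38016, nat_lit 38232, nat_lit 38160] (nat_lit 0) [nat_lit 18496] false,
   Spec.mk (nat_lit 38232) (nat_lit 4) [nat_lit 51354, nat_lit 36774, nat_lit 37746, nat_lit 38718, nat_lit 38070, nat_lit 38394, nat_lit 38178] (nat_lit 0) [nat_lit 18550] false,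
   Spec.mk (nat_lit 38394) (nat_lit 4) [nat_lit 51516, nat_lit 36936, nat_lit 38880, nat_lit 38232] (nat_lit 0) [nat_lit 18712] false,
   Spec.mk (nat_lit 38638) (nat_lit 5) [nat_lit 51760, nat_lit 38152, nat_lit 38640] (nat_lit 0) [nat_lit 58320, nat_lit 18956] false,
   Spec.mk (nat_lit 38640) (nat_lit 4) [nat_lit 51762, nat_lit 38154, nat_lit 38646, nat_lit 38638] (nat_lit 0) [nat_lit 18958] false,
   Spec.mk (nat_lit 38646) (nat_lit 4) [nat_lit 51768, nat_lit 38160, nat_lit 38664, nat_lit 38640] (nat_lit 0) [nat_lit 18964] false,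
   Spec.mk (nat_lit 38664) (nat_lit 4) [nat_lit 51786, nat_lit 38178, nat_lit 38718, nat_lit 38646] (nat_lit 0) [nat_lit 18982] false,
   Spec.mk (nat_lit 38718) (nat_lit 4) [nat_lit 51840, nat_lit 38232, nat_lit 38880, nat_lit 38664] (nat_lit 0) [nat_lit 19036] false,
   Spec.mk (nat_lit 38880) (nat_lit 6) [nat_lit 52002, nat_lit 38394, nat_lit 38718] (nat_lit 0) [nat_lit 19198] false,
   Spec.mk (nat_lit 39392) (nat_lit 6) [nat_lit 26270, nat_lit 39410] (nat_lit 0) [] false,
   Spec.mk (nat_lit 39410) (nat_lit 5) [nat_lit 26288, nat_lit 39464, nat_lit 39392, nat_lit 39428, nat_lit 39416] (nat_lit 0) [] false,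
   Spec.mk (nat_lit 39416) (nat_lit 4) [nat_lit 26294, nat_lit 39470, nat_lit 39434, nat_lit 39410, nat_lit 39418] (nat_lit 0) [] false,
   Spec.mk (nat_lit 39418) (nat_lit 4) [nat_lit 26296, nat_lit 39472, nat_lit 39436, nat_lit 39416] (nat_lit 0) [nat_lit 19736] false,
   Spec.mk (nat_lit 39428) (nat_lit 2) [nat_lit 26306, nat_lit 39482, nat_lit 39410, nat_lit 39434] (nat_lit 0) [] false,
   Spec.mk (nat_lit 39434) (nat_lit 3) [nat_lit 26312, nat_lit 39488, nat_lit 39416, nat_lit 39428, nat_lit 39440, nat_lit 39436] (nat_lit 0) [] false,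
   Spec.mk (nat_lit 39436) (nat_lit 2) [nat_lit 26314, nat_lit 39490, nat_lit 39418, nat_lit 39442, nat_lit 39434] (nat_lit 0) [nat_lit 19754] false,
   Spec.mk (nat_lit 39440) (nat_lit 2) [nat_lit 26318, nat_lit 39494, nat_lit 39434, nat_lit 39442] (nat_lit 0) [] false,
   Spec.mk (nat_lit 39442) (nat_lit 3) [nat_lit 26320, nat_lit 39496, nat_lit 39436, nat_lit 39440, nat_lit 39444] (nat_lit 0) [nat_lit 19760] false]

noncomputable def sp87 : List Spec :=
  [Spec.mk (nat_lit 39444) (nat_lit 2) [nat_lit 26322, nat_lit 39498, nat_lit 39442] (nat_lit 0) [nat_lit 19762] false,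
   Spec.mk (nat_lit 39464) (nat_lit 4) [nat_lit 26342, nat_lit 39626, nat_lit 39410, nat_lit 39482, nat_lit 39470] (nat_lit 0) [] false,
   Spec.mk (nat_lit 39470) (nat_lit 2) [nat_lit 26348, nat_lit 39632, nat_lit 39416, nat_lit 39488, nat_lit 39464, nat_lit 39472] (nat_lit 0) [] false,
   Spec.mk (nat_lit 39472) (nat_lit 2) [nat_lit 26350, nat_lit 39634, nat_lit 39418, nat_lit 39490, nat_lit 39470] (nat_lit 0) [nat_lit 19790] false,
   Spec.mk (nat_lit 39482) (nat_lit 3) [nat_lit 26360, nat_lit 39644, nat_lit 39428, nat_lit 39536, nat_lit 39464, nat_lit 39488] (nat_lit 0) [] false,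
   Spec.mk (nat_lit 39488) (nat_lit 3) [nat_lit 26366, nat_lit 39650, nat_lit 39434, nat_lit 39542, nat_lit 39470, nat_lit 39506, nat_lit 39482, nat_lit 39494, nat_lit 39490] (nat_lit 0) [] false,
   Spec.mk (nat_lit 39490) (nat_lit 2) [nat_lit 26368, nat_lit 39652, nat_lit 39436, nat_lit 39544, nat_lit 39472, nat_lit 39508, nat_lit 39496, nat_lit 39488] (nat_lit 0) [nat_lit 19808] false,
   Spec.mk (nat_lit 39494) (nat_lit 1) [nat_lit 26372, nat_lit 39656, nat_lit 39440, nat_lit 39548, nat_lit 39512, nat_lit 39488, nat_lit 39496] (nat_lit 0) [] false,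
   Spec.mk (nat_lit 39496) (nat_lit 2) [nat_lit 26374, nat_lit 39658, nat_lit 39442, nat_lit 39550, nat_lit 39514, nat_lit 39490, nat_lit 39494, nat_lit 39498] (nat_lit 0) [nat_lit 19814] false,
   Spec.mk (nat_lit 39498) (nat_lit 1) [nat_lit 26376, nat_lit 39660, nat_lit 39444, nat_lit 39552, nat_lit 39516, nat_lit 39496] (nat_lit 0) [nat_lit 19816] false,
   Spec.mk (nat_lit 39506) (nat_lit 2) [nat_lit 26384, nat_lit 39668, nat_lit 39560, nat_lit 39488, nat_lit 39512, nat_lit 39508] (nat_lit 0) [] false,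
   Spec.mk (nat_lit 39508) (nat_lit 0) [nat_lit 26386, nat_lit 39670, nat_lit 39562, nat_lit 39490, nat_lit 39514, nat_lit 39506] (nat_lit 0) [nat_lit 19826] false,
   Spec.mk (nat_lit 39512) (nat_lit 2) [nat_lit 26390, nat_lit 39674, nat_lit 39566, nat_lit 39494, nat_lit 39506, nat_lit 39514] (nat_lit 0) [] false,
   Spec.mk (nat_lit 39514) (nat_lit 2) [nat_lit 26392, nat_lit 39676, nat_lit 39568, nat_lit 39496, nat_lit 39508, nat_lit 39520, nat_lit 39512, nat_lit 39516] (nat_lit 0) [nat_lit 19832] false,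
   Spec.mk (nat_lit 39516) (nat_lit 0) [nat_lit 26394, nat_lit 39678, nat_lit 39570, nat_lit 39498, nat_lit 39522, nat_lit 39514] (nat_lit 0) [nat_lit 19834] false,
   Spec.mk (nat_lit 39520) (nat_lit 2) [nat_lit 26398, nat_lit 39682, nat_lit 39574, nat_lit 39514, nat_lit 39522] (nat_lit 0) [nat_lit 19838] false,
   Spec.mk (nat_lit 39522) (nat_lit 2) [nat_lit 26400, nat_lit 39684, nat_lit 39576, nat_lit 39516, nat_lit 39520] (nat_lit 0) [nat_lit 19840] false,
   Spec.mk (nat_lit 39536) (nat_lit 2) [nat_lit 26414, nat_lit 39698, nat_lit 39482, nat_lit 39542] (nat_lit 0) [] false,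
   Spec.mk (nat_lit 39542) (nat_lit 1) [nat_lit 26420, nat_lit 39704, nat_lit 39488, nat_lit 39560, nat_lit 39536, nat_lit 39548, nat_lit 39544] (nat_lit 0) [] false,
   Spec.mk (nat_lit 39544) (nat_lit 0) [nat_lit 26422, nat_lit 39706, nat_lit 39490, nat_lit 39562, nat_lit 39550, nat_lit 39542] (nat_lit 0) [nat_lit 19862] false,
   Spec.mk (nat_lit 39548) (nat_lit 0) [nat_lit 26426, nat_lit 39710, nat_lit 39494, nat_lit 39566, nat_lit 39542, nat_lit 39550] (nat_lit 2) [] false,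
   Spec.mk (nat_lit 39550) (nat_lit 0) [nat_lit 26428, nat_lit 39712, nat_lit 39496, nat_lit 39568, nat_lit 39544, nat_lit 39548, nat_lit 39552] (nat_lit 1) [nat_lit 19868] false,
   Spec.mk (nat_lit 39552) (nat_lit 0) [nat_lit 26430, nat_lit 39714, nat_lit 39498, nat_lit 39570, nat_lit 39550] (nat_lit 2) [nat_lit 19870] false,
   Spec.mk (nat_lit 39560) (nat_lit 2) [nat_lit 26438, nat_lit 39722, nat_lit 39506, nat_lit 39542, nat_lit 39566, nat_lit 39562] (nat_lit 0) [] false,
   Spec.mk (nat_lit 39562) (nat_lit 0) [nat_lit 26440, nat_lit 39724, nat_lit 39508, nat_lit 39544, nat_lit 39568, nat_lit 39560] (nat_lit 0) [nat_lit 19880] false,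
   Spec.mk (nat_lit 39566) (nat_lit 1) [nat_lit 26444, nat_lit 39728, nat_lit 39512, nat_lit 39548, nat_lit 39584, nat_lit 39560, nat_lit 39568] (nat_lit 0) [] false,
   Spec.mk (nat_lit 39568) (nat_lit 1) [nat_lit 26446, nat_lit 39730, nat_lit 39514, nat_lit 39550, nat_lit 39586, nat_lit 39562, nat_lit 39574, nat_lit 39566, nat_lit 39570] (nat_lit 0) [nat_lit 19886] false,
   Spec.mk (nat_lit 39570) (nat_lit 0) [nat_lit 26448, nat_lit 39732, nat_lit 39516, nat_lit 39552, nat_lit 39588, nat_lit 39576, nat_lit 39568] (nat_lit 1) [nat_lit 19888] false,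
   Spec.mk (nat_lit 39574) (nat_lit 0) [nat_lit 26452, nat_lit 39736, nat_lit 39520, nat_lit 39592, nat_lit 39568, nat_lit 39576] (nat_lit 0) [nat_lit 19892] false,
   Spec.mk (nat_lit 39576) (nat_lit 0) [nat_lit 26454, nat_lit 39738, nat_lit 39522, nat_lit 39594, nat_lit 39570, nat_lit 39574] (nat_lit 0) [nat_lit 19894] false,
   Spec.mk (nat_lit 39584) (nat_lit 2) [nat_lit 26462, nat_lit 39746, nat_lit 39566, nat_lit 39586] (nat_lit 0) [] false,
   Spec.mk (nat_lit 39586) (nat_lit 1) [nat_lit 26464, nat_lit 39748, nat_lit 39568, nat_lit 39592, nat_lit 39584, nat_lit 39588] (nat_lit 0) [nat_lit 19904] false,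
   Spec.mk (nat_lit 39588) (nat_lit 0) [nat_lit 26466, nat_lit 39750, nat_lit 39570, nat_lit 39594, nat_lit 39586] (nat_lit 2) [nat_lit 19906] false,
   Spec.mk (nat_lit 39592) (nat_lit 2) [nat_lit 26470, nat_lit 39754, nat_lit 39574, nat_lit 39586, nat_lit 39594] (nat_lit 0) [nat_lit 19910] false,
   Spec.mk (nat_lit 39594) (nat_lit 1) [nat_lit 26472, nat_lit 39756, nat_lit 39576, nat_lit 39588, nat_lit 39600, nat_lit 39592] (nat_lit 0) [nat_lit 19912] false,
   Spec.mk (nat_lit 39600) (nat_lit 2) [nat_lit 26478, nat_lit 39762, nat_lit 39594] (nat_lit 0) [nat_lit 19918] false,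
   Spec.mk (nat_lit 39626) (nat_lit 4) [nat_lit 26504, nat_lit 40112, nat_lit 39464, nat_lit 39644, nat_lit 39632] (nat_lit 0) [] false,
   Spec.mk (nat_lit 39632) (nat_lit 2) [nat_lit 26510, nat_lit 40118, nat_lit 39470, nat_lit 39650, nat_lit 39626, nat_lit 39634] (nat_lit 0) [] false,
   Spec.mk (nat_lit 39634) (nat_lit 2) [nat_lit 26512, nat_lit 40120, nat_lit 39472, nat_lit 39652, nat_lit 39632] (nat_lit 0) [nat_lit 19952] false,
   Spec.mk (nat_lit 39644) (nat_lit 2) [nat_lit 26522, nat_lit 40130, nat_lit 39482, nat_lit 39698, nat_lit 39626, nat_lit 39650] (nat_lit 0) [] false,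
   Spec.mk (nat_lit 39650) (nat_lit 2) [nat_lit 26528, nat_lit 40136, nat_lit 39488, nat_lit 39704, nat_lit 39632, nat_lit 39668, nat_lit 39644, nat_lit 39656, nat_lit 39652] (nat_lit 0) [] false,
   Spec.mk (nat_lit 39652) (nat_lit 1) [nat_lit 26530, nat_lit 40138, nat_lit 39490, nat_lit 39706, nat_lit 39634, nat_lit 39670, nat_lit 39658, nat_lit 39650] (nat_lit 0) [nat_lit 19970] false,
   Spec.mk (nat_lit 39656) (nat_lit 0) [nat_lit 26534, nat_lit 40142, nat_lit 39494, nat_lit 39710, nat_lit 39674, nat_lit 39650, nat_lit 39658] (nat_lit 0) [] false,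
   Spec.mk (nat_lit 39658) (nat_lit 1) [nat_lit 26536, nat_lit 40144, nat_lit 39496, nat_lit 39712, nat_lit 39676, nat_lit 39652, nat_lit 39656, nat_lit 39660] (nat_lit 0) [nat_lit 19976] false,
   Spec.mk (nat_lit 39660) (nat_lit 0) [nat_lit 26538, nat_lit 40146, nat_lit 39498, nat_lit 39714, nat_lit 39678, nat_lit 39658] (nat_lit 0) [nat_lit 19978] false,
   Spec.mk (nat_lit 39668) (nat_lit 0) [nat_lit 26546, nat_lit 40154, nat_lit 39506, nat_lit 39722, nat_lit 39650, nat_lit 39674, nat_lit 39670] (nat_lit 0) [] false,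
   Spec.mk (nat_lit 39670) (nat_lit 0) [nat_lit 26548, nat_lit 40156, nat_lit 39508, nat_lit 39724, nat_lit 39652, nat_lit 39676, nat_lit 39668] (nat_lit 2) [nat_lit 19988] false,
   Spec.mk (nat_lit 39674) (nat_lit 0) [nat_lit 26552, nat_lit 40160, nat_lit 39512, nat_lit 39728, nat_lit 39656, nat_lit 39668, nat_lit 39676] (nat_lit 0) [] false,
   Spec.mk (nat_lit 39676) (nat_lit 0) [nat_lit 26554, nat_lit 40162, nat_lit 39514, nat_lit 39730, nat_lit 39658, nat_lit 39670, nat_lit 39682, nat_lit 39674, nat_lit 39678] (nat_lit 0) [nat_lit 19994] false,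
   Spec.mk (nat_lit 39678) (nat_lit 0) [nat_lit 26556, nat_lit 40164, nat_lit 39516, nat_lit 39732, nat_lit 39660, nat_lit 39684, nat_lit 39676] (nat_lit 2) [nat_lit 19996] false,
   Spec.mk (nat_lit 39682) (nat_lit 0) [nat_lit 26560, nat_lit 40168, nat_lit 39520, nat_lit 39736, nat_lit 39676, nat_lit 39684] (nat_lit 0) [nat_lit 20000] false,
   Spec.mk (nat_lit 39684) (nat_lit 0) [nat_lit 26562, nat_lit 40170, nat_lit 39522, nat_lit 39738, nat_lit 39678, nat_lit 39682] (nat_lit 0) [nat_lit 20002] false,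
   Spec.mk (nat_lit 39698) (nat_lit 3) [nat_lit 26576, nat_lit 40184, nat_lit 39536, nat_lit 39860, nat_lit 39644, nat_lit 39704] (nat_lit 0) [] false,
   Spec.mk (nat_lit 39704) (nat_lit 2) [nat_lit 26582, nat_lit 40190, nat_lit 39542, nat_lit 39866, nat_lit 39650, nat_lit 39722, nat_lit 39698, nat_lit 39710, nat_lit 39706] (nat_lit 0) [] false,
   Spec.mk (nat_lit 39706) (nat_lit 1) [nat_lit 26584, nat_lit 40192, nat_lit 39544, nat_lit 39868, nat_lit 39652, nat_lit 39724, nat_lit 39712, nat_lit 39704] (nat_lit 0) [nat_lit 20024] false,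
   Spec.mk (nat_lit 39710) (nat_lit 0) [nat_lit 26588, nat_lit 40196, nat_lit 39548, nat_lit 39872, nat_lit 39656, nat_lit 39728, nat_lit 39704, nat_lit 39712] (nat_lit 1) [] false,
   Spec.mk (nat_lit 39712) (nat_lit 0) [nat_lit 26590, nat_lit 40198, nat_lit 39550, nat_lit 39874, nat_lit 39658, nat_lit 39730, nat_lit 39706, nat_lit 39710, nat_lit 39714] (nat_lit 0) [nat_lit 20030] false,
   Spec.mk (nat_lit 39714) (nat_lit 0) [nat_lit 26592, nat_lit 40200, nat_lit 39552, nat_lit 39876, nat_lit 39660, nat_lit 39732, nat_lit 39712] (nat_lit 1) [nat_lit 20032] false,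
   Spec.mk (nat_lit 39722) (nat_lit 2) [nat_lit 26600, nat_lit 40208, nat_lit 39560, nat_lit 39884, nat_lit 39668, nat_lit 39776, nat_lit 39704, nat_lit 39728, nat_lit 39724] (nat_lit 0) [] false,
   Spec.mk (nat_lit 39724) (nat_lit 0) [nat_lit 26602, nat_lit 40210, nat_lit 39562, nat_lit 39886, nat_lit 39670, nat_lit 39778, nat_lit 39706, nat_lit 39730, nat_lit 39722] (nat_lit 0) [nat_lit 20042] false]

noncomputable def sp88 : List Spec :=
  [Spec.mk (nat_lit 39728) (nat_lit 1) [nat_lit 26606, nat_lit 40214, nat_lit 39566, nat_lit 39890, nat_lit 39674, nat_lit 39782, nat_lit 39710, nat_lit 39746, nat_lit 39722, nat_lit 39730] (nat_lit 0) [] false,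
   Spec.mk (nat_lit 39730) (nat_lit 1) [nat_lit 26608, nat_lit 40216, nat_lit 39568, nat_lit 39892, nat_lit 39676, nat_lit 39784, nat_lit 39712, nat_lit 39748, nat_lit 39724, nat_lit 39736, nat_lit 39728, nat_lit 39732] (nat_lit 0) [nat_lit 20048] false,
   Spec.mk (nat_lit 39732) (nat_lit 0) [nat_lit 26610, nat_lit 40218, nat_lit 39570, nat_lit 39894, nat_lit 39678, nat_lit 39786, nat_lit 39714, nat_lit 39750, nat_lit 39738, nat_lit 39730] (nat_lit 1) [nat_lit 20050] false,
   Spec.mk (nat_lit 39736) (nat_lit 0) [nat_lit 26614, nat_lit 40222, nat_lit 39574, nat_lit 39898, nat_lit 39682, nat_lit 39790, nat_lit 39754, nat_lit 39730, nat_lit 39738] (nat_lit 0) [nat_lit 20054] false,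
   Spec.mk (nat_lit 39738) (nat_lit 0) [nat_lit 26616, nat_lit 40224, nat_lit 39576, nat_lit 39900, nat_lit 39684, nat_lit 39792, nat_lit 39756, nat_lit 39732, nat_lit 39736] (nat_lit 0) [nat_lit 20056] false,
   Spec.mk (nat_lit 39746) (nat_lit 1) [nat_lit 26624, nat_lit 40232, nat_lit 39584, nat_lit 39908, nat_lit 39800, nat_lit 39728, nat_lit 39748] (nat_lit 0) [] false,
   Spec.mk (nat_lit 39748) (nat_lit 0) [nat_lit 26626, nat_lit 40234, nat_lit 39586, nat_lit 39910, nat_lit 39802, nat_lit 39730, nat_lit 39754, nat_lit 39746, nat_lit 39750] (nat_lit 0) [nat_lit 20066] false,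
   Spec.mk (nat_lit 39750) (nat_lit 0) [nat_lit 26628, nat_lit 40236, nat_lit 39588, nat_lit 39912, nat_lit 39804, nat_lit 39732, nat_lit 39756, nat_lit 39748] (nat_lit 3) [nat_lit 20068] false,
   Spec.mk (nat_lit 39754) (nat_lit 1) [nat_lit 26632, nat_lit 40240, nat_lit 39592, nat_lit 39916, nat_lit 39808, nat_lit 39736, nat_lit 39748, nat_lit 39756] (nat_lit 0) [nat_lit 20072] false,
   Spec.mk (nat_lit 39756) (nat_lit 0) [nat_lit 26634, nat_lit 40242, nat_lit 39594, nat_lit 39918, nat_lit 39810, nat_lit 39738, nat_lit 39750, nat_lit 39762, nat_lit 39754] (nat_lit 0) [nat_lit 20074] false,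
   Spec.mk (nat_lit 39762) (nat_lit 1) [nat_lit 26640, nat_lit 40248, nat_lit 39600, nat_lit 39924, nat_lit 39816, nat_lit 39756] (nat_lit 0) [nat_lit 20080] false,
   Spec.mk (nat_lit 39776) (nat_lit 2) [nat_lit 26654, nat_lit 40262, nat_lit 39938, nat_lit 39722, nat_lit 39782, nat_lit 39778] (nat_lit 0) [] false,
   Spec.mk (nat_lit 39778) (nat_lit 0) [nat_lit 26656, nat_lit 40264, nat_lit 39940, nat_lit 39724, nat_lit 39784, nat_lit 39776] (nat_lit 0) [nat_lit 20096] false,
   Spec.mk (nat_lit 39782) (nat_lit 0) [nat_lit 26660, nat_lit 40268, nat_lit 39944, nat_lit 39728, nat_lit 39800, nat_lit 39776, nat_lit 39784] (nat_lit 0) [] false,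
   Spec.mk (nat_lit 39784) (nat_lit 0) [nat_lit 26662, nat_lit 40270, nat_lit 39946, nat_lit 39730, nat_lit 39802, nat_lit 39778, nat_lit 39790, nat_lit 39782, nat_lit 39786] (nat_lit 0) [nat_lit 20102] false,
   Spec.mk (nat_lit 39786) (nat_lit 0) [nat_lit 26664, nat_lit 40272, nat_lit 39948, nat_lit 39732, nat_lit 39804, nat_lit 39792, nat_lit 39784] (nat_lit 2) [nat_lit 20104] false,
   Spec.mk (nat_lit 39790) (nat_lit 0) [nat_lit 26668, nat_lit 40276, nat_lit 39952, nat_lit 39736, nat_lit 39808, nat_lit 39784, nat_lit 39792] (nat_lit 2) [nat_lit 20108] false,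
   Spec.mk (nat_lit 39792) (nat_lit 0) [nat_lit 26670, nat_lit 40278, nat_lit 39954, nat_lit 39738, nat_lit 39810, nat_lit 39786, nat_lit 39790] (nat_lit 2) [nat_lit 20110] false,
   Spec.mk (nat_lit 39800) (nat_lit 2) [nat_lit 26678, nat_lit 40286, nat_lit 39962, nat_lit 39746, nat_lit 39782, nat_lit 39802] (nat_lit 0) [] false,
   Spec.mk (nat_lit 39802) (nat_lit 1) [nat_lit 26680, nat_lit 40288, nat_lit 39964, nat_lit 39748, nat_lit 39784, nat_lit 39808, nat_lit 39800, nat_lit 39804] (nat_lit 0) [nat_lit 20120] false,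
   Spec.mk (nat_lit 39804) (nat_lit 0) [nat_lit 26682, nat_lit 40290, nat_lit 39966, nat_lit 39750, nat_lit 39786, nat_lit 39810, nat_lit 39802] (nat_lit 2) [nat_lit 20122] false,
   Spec.mk (nat_lit 39808) (nat_lit 1) [nat_lit 26686, nat_lit 40294, nat_lit 39970, nat_lit 39754, nat_lit 39790, nat_lit 39826, nat_lit 39802, nat_lit 39810] (nat_lit 0) [nat_lit 20126] false,
   Spec.mk (nat_lit 39810) (nat_lit 0) [nat_lit 26688, nat_lit 40296, nat_lit 39972, nat_lit 39756, nat_lit 39792, nat_lit 39828, nat_lit 39804, nat_lit 39816, nat_lit 39808] (nat_lit 0) [nat_lit 20128] false,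
   Spec.mk (nat_lit 39816) (nat_lit 0) [nat_lit 26694, nat_lit 40302, nat_lit 39978, nat_lit 39762, nat_lit 39834, nat_lit 39810] (nat_lit 0) [nat_lit 20134] false,
   Spec.mk (nat_lit 39826) (nat_lit 2) [nat_lit 26704, nat_lit 40312, nat_lit 39988, nat_lit 39808, nat_lit 39828] (nat_lit 0) [nat_lit 20144] false,
   Spec.mk (nat_lit 39828) (nat_lit 0) [nat_lit 26706, nat_lit 40314, nat_lit 39990, nat_lit 39810, nat_lit 39834, nat_lit 39826] (nat_lit 0) [nat_lit 20146] false,
   Spec.mk (nat_lit 39834) (nat_lit 2) [nat_lit 26712, nat_lit 40320, nat_lit 39996, nat_lit 39816, nat_lit 39828] (nat_lit 0) [nat_lit 20152] false,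
   Spec.mk (nat_lit 39860) (nat_lit 2) [nat_lit 26738, nat_lit 40346, nat_lit 39698, nat_lit 39866] (nat_lit 0) [] false,
   Spec.mk (nat_lit 39866) (nat_lit 1) [nat_lit 26744, nat_lit 40352, nat_lit 39704, nat_lit 39884, nat_lit 39860, nat_lit 39872, nat_lit 39868] (nat_lit 0) [] false,
   Spec.mk (nat_lit 39868) (nat_lit 0) [nat_lit 26746, nat_lit 40354, nat_lit 39706, nat_lit 39886, nat_lit 39874, nat_lit 39866] (nat_lit 0) [nat_lit 20186] false,
   Spec.mk (nat_lit 39872) (nat_lit 0) [nat_lit 26750, nat_lit 40358, nat_lit 39710, nat_lit 39890, nat_lit 39866, nat_lit 39874] (nat_lit 2) [] false,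
   Spec.mk (nat_lit 39874) (nat_lit 0) [nat_lit 26752, nat_lit 40360, nat_lit 39712, nat_lit 39892, nat_lit 39868, nat_lit 39872, nat_lit 39876] (nat_lit 1) [nat_lit 20192] false,
   Spec.mk (nat_lit 39876) (nat_lit 0) [nat_lit 26754, nat_lit 40362, nat_lit 39714, nat_lit 39894, nat_lit 39874] (nat_lit 2) [nat_lit 20194] false,
   Spec.mk (nat_lit 39884) (nat_lit 0) [nat_lit 26762, nat_lit 40370, nat_lit 39722, nat_lit 39938, nat_lit 39866, nat_lit 39890, nat_lit 39886] (nat_lit 0) [] false,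
   Spec.mk (nat_lit 39886) (nat_lit 0) [nat_lit 26764, nat_lit 40372, nat_lit 39724, nat_lit 39940, nat_lit 39868, nat_lit 39892, nat_lit 39884] (nat_lit 2) [nat_lit 20204] false,
   Spec.mk (nat_lit 39890) (nat_lit 0) [nat_lit 26768, nat_lit 40376, nat_lit 39728, nat_lit 39944, nat_lit 39872, nat_lit 39908, nat_lit 39884, nat_lit 39892] (nat_lit 1) [] false,
   Spec.mk (nat_lit 39892) (nat_lit 0) [nat_lit 26770, nat_lit 40378, nat_lit 39730, nat_lit 39946, nat_lit 39874, nat_lit 39910, nat_lit 39886, nat_lit 39898, nat_lit 39890, nat_lit 39894] (nat_lit 1) [nat_lit 20210] false,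
   Spec.mk (nat_lit 39894) (nat_lit 0) [nat_lit 26772, nat_lit 40380, nat_lit 39732, nat_lit 39948, nat_lit 39876, nat_lit 39912, nat_lit 39900, nat_lit 39892] (nat_lit 3) [nat_lit 20212] false,
   Spec.mk (nat_lit 39898) (nat_lit 0) [nat_lit 26776, nat_lit 40384, nat_lit 39736, nat_lit 39952, nat_lit 39916, nat_lit 39892, nat_lit 39900] (nat_lit 2) [nat_lit 20216] false,
   Spec.mk (nat_lit 39900) (nat_lit 0) [nat_lit 26778, nat_lit 40386, nat_lit 39738, nat_lit 39954, nat_lit 39918, nat_lit 39894, nat_lit 39898] (nat_lit 2) [nat_lit 20218] false,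
   Spec.mk (nat_lit 39908) (nat_lit 0) [nat_lit 26786, nat_lit 40394, nat_lit 39746, nat_lit 39962, nat_lit 39890, nat_lit 39910] (nat_lit 2) [] false,
   Spec.mk (nat_lit 39910) (nat_lit 0) [nat_lit 26788, nat_lit 40396, nat_lit 39748, nat_lit 39964, nat_lit 39892, nat_lit 39916, nat_lit 39908, nat_lit 39912] (nat_lit 3) [nat_lit 20228] false,
   Spec.mk (nat_lit 39912) (nat_lit 0) [nat_lit 26790, nat_lit 40398, nat_lit 39750, nat_lit 39966, nat_lit 39894, nat_lit 39918, nat_lit 39910] (nat_lit 6) [nat_lit 20230] false,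
   Spec.mk (nat_lit 39916) (nat_lit 0) [nat_lit 26794, nat_lit 40402, nat_lit 39754, nat_lit 39970, nat_lit 39898, nat_lit 39910, nat_lit 39918] (nat_lit 2) [nat_lit 20234] false,
   Spec.mk (nat_lit 39918) (nat_lit 0) [nat_lit 26796, nat_lit 40404, nat_lit 39756, nat_lit 39972, nat_lit 39900, nat_lit 39912, nat_lit 39924, nat_lit 39916] (nat_lit 3) [nat_lit 20236] false,
   Spec.mk (nat_lit 39924) (nat_lit 0) [nat_lit 26802, nat_lit 40410, nat_lit 39762, nat_lit 39978, nat_lit 39918] (nat_lit 2) [nat_lit 20242] false,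
   Spec.mk (nat_lit 39938) (nat_lit 2) [nat_lit 26816, nat_lit 40424, nat_lit 39776, nat_lit 39884, nat_lit 39944, nat_lit 39940] (nat_lit 0) [] false,
   Spec.mk (nat_lit 39940) (nat_lit 0) [nat_lit 26818, nat_lit 40426, nat_lit 39778, nat_lit 39886, nat_lit 39946, nat_lit 39938] (nat_lit 0) [nat_lit 20258] false,
   Spec.mk (nat_lit 39944) (nat_lit 0) [nat_lit 26822, nat_lit 40430, nat_lit 39782, nat_lit 39890, nat_lit 39962, nat_lit 39938, nat_lit 39946] (nat_lit 0) [] false,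
   Spec.mk (nat_lit 39946) (nat_lit 0) [nat_lit 26824, nat_lit 40432, nat_lit 39784, nat_lit 39892, nat_lit 39964, nat_lit 39940, nat_lit 39952, nat_lit 39944, nat_lit 39948] (nat_lit 0) [nat_lit 20264] false,
   Spec.mk (nat_lit 39948) (nat_lit 0) [nat_lit 26826, nat_lit 40434, nat_lit 39786, nat_lit 39894, nat_lit 39966, nat_lit 39954, nat_lit 39946] (nat_lit 2) [nat_lit 20266] false,
   Spec.mk (nat_lit 39952) (nat_lit 0) [nat_lit 26830, nat_lit 40438, nat_lit 39790, nat_lit 39898, nat_lit 39970, nat_lit 39946, nat_lit 39954] (nat_lit 2) [nat_lit 20270] false,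
   Spec.mk (nat_lit 39954) (nat_lit 0) [nat_lit 26832, nat_lit 40440, nat_lit 39792, nat_lit 39900, nat_lit 39972, nat_lit 39948, nat_lit 39952] (nat_lit 2) [nat_lit 20272] false,
   Spec.mk (nat_lit 39962) (nat_lit 1) [nat_lit 26840, nat_lit 40448, nat_lit 39800, nat_lit 39908, nat_lit 40016, nat_lit 39944, nat_lit 39964] (nat_lit 0) [] false,
   Spec.mk (nat_lit 39964) (nat_lit 0) [nat_lit 26842, nat_lit 40450, nat_lit 39802, nat_lit 39910, nat_lit 40018, nat_lit 39946, nat_lit 39970, nat_lit 39962, nat_lit 39966] (nat_lit 0) [nat_lit 20282] false,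
   Spec.mk (nat_lit 39966) (nat_lit 0) [nat_lit 26844, nat_lit 40452, nat_lit 39804, nat_lit 39912, nat_lit 40020, nat_lit 39948, nat_lit 39972, nat_lit 39964] (nat_lit 3) [nat_lit 20284] false,
   Spec.mk (nat_lit 39970) (nat_lit 0) [nat_lit 26848, nat_lit 40456, nat_lit 39808, nat_lit 39916, nat_lit 40024, nat_lit 39952, nat_lit 39988, nat_lit 39964, nat_lit 39972] (nat_lit 0) [nat_lit 20288] false,
   Spec.mk (nat_lit 39972) (nat_lit 0) [nat_lit 26850, nat_lit 40458, nat_lit 39810, nat_lit 39918, nat_lit 40026, nat_lit 39954, nat_lit 39990, nat_lit 39966, nat_lit 39978, nat_lit 39970] (nat_lit 1) [nat_lit 20290] false,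
   Spec.mk (nat_lit 39978) (nat_lit 0) [nat_lit 26856, nat_lit 40464, nat_lit 39816, nat_lit 39924, nat_lit 40032, nat_lit 39996, nat_lit 39972] (nat_lit 1) [nat_lit 20296] false,
   Spec.mk (nat_lit 39988) (nat_lit 0) [nat_lit 26866, nat_lit 40474, nat_lit 39826, nat_lit 40042, nat_lit 39970, nat_lit 39990] (nat_lit 0) [nat_lit 20306] false]

noncomputable def sp89 : List Spec :=
  [Spec.mk (nat_lit 39990) (nat_lit 0) [nat_lit 26868, nat_lit 40476, nat_lit 39828, nat_lit 40044, nat_lit 39972, nat_lit 39996, nat_lit 39988] (nat_lit 2) [nat_lit 20308] false,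
   Spec.mk (nat_lit 39996) (nat_lit 0) [nat_lit 26874, nat_lit 40482, nat_lit 39834, nat_lit 40050, nat_lit 39978, nat_lit 39990] (nat_lit 0) [nat_lit 20314] false,
   Spec.mk (nat_lit 40016) (nat_lit 2) [nat_lit 26894, nat_lit 40502, nat_lit 39962, nat_lit 40018] (nat_lit 0) [] false,
   Spec.mk (nat_lit 40018) (nat_lit 1) [nat_lit 26896, nat_lit 40504, nat_lit 39964, nat_lit 40024, nat_lit 40016, nat_lit 40020] (nat_lit 0) [nat_lit 20336] false,
   Spec.mk (nat_lit 40020) (nat_lit 0) [nat_lit 26898, nat_lit 40506, nat_lit 39966, nat_lit 40026, nat_lit 40018] (nat_lit 2) [nat_lit 20338] false,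
   Spec.mk (nat_lit 40024) (nat_lit 0) [nat_lit 26902, nat_lit 40510, nat_lit 39970, nat_lit 40042, nat_lit 40018, nat_lit 40026] (nat_lit 0) [nat_lit 20342] false,
   Spec.mk (nat_lit 40026) (nat_lit 0) [nat_lit 26904, nat_lit 40512, nat_lit 39972, nat_lit 40044, nat_lit 40020, nat_lit 40032, nat_lit 40024] (nat_lit 1) [nat_lit 20344] false,
   Spec.mk (nat_lit 40032) (nat_lit 0) [nat_lit 26910, nat_lit 40518, nat_lit 39978, nat_lit 40050, nat_lit 40026] (nat_lit 2) [nat_lit 20350] false,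
   Spec.mk (nat_lit 40042) (nat_lit 2) [nat_lit 26920, nat_lit 40528, nat_lit 39988, nat_lit 40024, nat_lit 40044] (nat_lit 0) [nat_lit 20360] false,
   Spec.mk (nat_lit 40044) (nat_lit 0) [nat_lit 26922, nat_lit 40530, nat_lit 39990, nat_lit 40026, nat_lit 40050, nat_lit 40042] (nat_lit 0) [nat_lit 20362] false,
   Spec.mk (nat_lit 40050) (nat_lit 1) [nat_lit 26928, nat_lit 40536, nat_lit 39996, nat_lit 40032, nat_lit 40068, nat_lit 40044] (nat_lit 0) [nat_lit 20368] false,
   Spec.mk (nat_lit 40068) (nat_lit 2) [nat_lit 26946, nat_lit 40554, nat_lit 40050] (nat_lit 0) [nat_lit 20386] false,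
   Spec.mk (nat_lit 40112) (nat_lit 4) [nat_lit 26990, nat_lit 41570, nat_lit 39626, nat_lit 40130, nat_lit 40118] (nat_lit 0) [] false,
   Spec.mk (nat_lit 40118) (nat_lit 2) [nat_lit 26996, nat_lit 41576, nat_lit 39632, nat_lit 40136, nat_lit 40112, nat_lit 40120] (nat_lit 0) [] false,
   Spec.mk (nat_lit 40120) (nat_lit 2) [nat_lit 26998, nat_lit 41578, nat_lit 39634, nat_lit 40138, nat_lit 40118] (nat_lit 0) [nat_lit 20438] false,
   Spec.mk (nat_lit 40130) (nat_lit 2) [nat_lit 27008, nat_lit 41588, nat_lit 39644, nat_lit 40184, nat_lit 40112, nat_lit 40136] (nat_lit 0) [] false,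
   Spec.mk (nat_lit 40136) (nat_lit 2) [nat_lit 27014, nat_lit 41594, nat_lit 39650, nat_lit 40190, nat_lit 40118, nat_lit 40154, nat_lit 40130, nat_lit 40142, nat_lit 40138] (nat_lit 0) [] false,
   Spec.mk (nat_lit 40138) (nat_lit 1) [nat_lit 27016, nat_lit 41596, nat_lit 39652, nat_lit 40192, nat_lit 40120, nat_lit 40156, nat_lit 40144, nat_lit 40136] (nat_lit 0) [nat_lit 20456] false,
   Spec.mk (nat_lit 40142) (nat_lit 0) [nat_lit 27020, nat_lit 41600, nat_lit 39656, nat_lit 40196, nat_lit 40160, nat_lit 40136, nat_lit 40144] (nat_lit 0) [] false,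
   Spec.mk (nat_lit 40144) (nat_lit 1) [nat_lit 27022, nat_lit 41602, nat_lit 39658, nat_lit 40198, nat_lit 40162, nat_lit 40138, nat_lit 40142, nat_lit 40146] (nat_lit 0) [nat_lit 20462] false,
   Spec.mk (nat_lit 40146) (nat_lit 0) [nat_lit 27024, nat_lit 41604, nat_lit 39660, nat_lit 40200, nat_lit 40164, nat_lit 40144] (nat_lit 0) [nat_lit 20464] false,
   Spec.mk (nat_lit 40154) (nat_lit 0) [nat_lit 27032, nat_lit 41612, nat_lit 39668, nat_lit 40208, nat_lit 40136, nat_lit 40160, nat_lit 40156] (nat_lit 0) [] false,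
   Spec.mk (nat_lit 40156) (nat_lit 0) [nat_lit 27034, nat_lit 41614, nat_lit 39670, nat_lit 40210, nat_lit 40138, nat_lit 40162, nat_lit 40154] (nat_lit 2) [nat_lit 20474] false,
   Spec.mk (nat_lit 40160) (nat_lit 0) [nat_lit 27038, nat_lit 41618, nat_lit 39674, nat_lit 40214, nat_lit 40142, nat_lit 40154, nat_lit 40162] (nat_lit 0) [] false,
   Spec.mk (nat_lit 40162) (nat_lit 0) [nat_lit 27040, nat_lit 41620, nat_lit 39676, nat_lit 40216, nat_lit 40144, nat_lit 40156, nat_lit 40168, nat_lit 40160, nat_lit 40164] (nat_lit 0) [nat_lit 20480] false,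
   Spec.mk (nat_lit 40164) (nat_lit 0) [nat_lit 27042, nat_lit 41622, nat_lit 39678, nat_lit 40218, nat_lit 40146, nat_lit 40170, nat_lit 40162] (nat_lit 2) [nat_lit 20482] false,
   Spec.mk (nat_lit 40168) (nat_lit 0) [nat_lit 27046, nat_lit 41626, nat_lit 39682, nat_lit 40222, nat_lit 40162, nat_lit 40170] (nat_lit 0) [nat_lit 20486] false,
   Spec.mk (nat_lit 40170) (nat_lit 0) [nat_lit 27048, nat_lit 41628, nat_lit 39684, nat_lit 40224, nat_lit 40164, nat_lit 40168] (nat_lit 0) [nat_lit 20488] false,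
   Spec.mk (nat_lit 40184) (nat_lit 2) [nat_lit 27062, nat_lit 41642, nat_lit 39698, nat_lit 40346, nat_lit 40130, nat_lit 40190] (nat_lit 0) [] false,
   Spec.mk (nat_lit 40190) (nat_lit 1) [nat_lit 27068, nat_lit 41648, nat_lit 39704, nat_lit 40352, nat_lit 40136, nat_lit 40208, nat_lit 40184, nat_lit 40196, nat_lit 40192] (nat_lit 0) [] false,
   Spec.mk (nat_lit 40192) (nat_lit 0) [nat_lit 27070, nat_lit 41650, nat_lit 39706, nat_lit 40354, nat_lit 40138, nat_lit 40210, nat_lit 40198, nat_lit 40190] (nat_lit 0) [nat_lit 20510] false,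
   Spec.mk (nat_lit 40196) (nat_lit 0) [nat_lit 27074, nat_lit 41654, nat_lit 39710, nat_lit 40358, nat_lit 40142, nat_lit 40214, nat_lit 40190, nat_lit 40198] (nat_lit 2) [] false,
   Spec.mk (nat_lit 40198) (nat_lit 0) [nat_lit 27076, nat_lit 41656, nat_lit 39712, nat_lit 40360, nat_lit 40144, nat_lit 40216, nat_lit 40192, nat_lit 40196, nat_lit 40200] (nat_lit 1) [nat_lit 20516] false,
   Spec.mk (nat_lit 40200) (nat_lit 0) [nat_lit 27078, nat_lit 41658, nat_lit 39714, nat_lit 40362, nat_lit 40146, nat_lit 40218, nat_lit 40198] (nat_lit 2) [nat_lit 20518] false,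
   Spec.mk (nat_lit 40208) (nat_lit 1) [nat_lit 27086, nat_lit 41666, nat_lit 39722, nat_lit 40370, nat_lit 40154, nat_lit 40262, nat_lit 40190, nat_lit 40214, nat_lit 40210] (nat_lit 0) [] false,
   Spec.mk (nat_lit 40210) (nat_lit 0) [nat_lit 27088, nat_lit 41668, nat_lit 39724, nat_lit 40372, nat_lit 40156, nat_lit 40264, nat_lit 40192, nat_lit 40216, nat_lit 40208] (nat_lit 1) [nat_lit 20528] false,
   Spec.mk (nat_lit 40214) (nat_lit 0) [nat_lit 27092, nat_lit 41672, nat_lit 39728, nat_lit 40376, nat_lit 40160, nat_lit 40268, nat_lit 40196, nat_lit 40232, nat_lit 40208, nat_lit 40216] (nat_lit 0) [] false,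
   Spec.mk (nat_lit 40216) (nat_lit 0) [nat_lit 27094, nat_lit 41674, nat_lit 39730, nat_lit 40378, nat_lit 40162, nat_lit 40270, nat_lit 40198, nat_lit 40234, nat_lit 40210, nat_lit 40222, nat_lit 40214, nat_lit 40218] (nat_lit 0) [nat_lit 20534] false,
   Spec.mk (nat_lit 40218) (nat_lit 0) [nat_lit 27096, nat_lit 41676, nat_lit 39732, nat_lit 40380, nat_lit 40164, nat_lit 40272, nat_lit 40200, nat_lit 40236, nat_lit 40224, nat_lit 40216] (nat_lit 2) [nat_lit 20536] false,
   Spec.mk (nat_lit 40222) (nat_lit 0) [nat_lit 27100, nat_lit 41680, nat_lit 39736, nat_lit 40384, nat_lit 40168, nat_lit 40276, nat_lit 40240, nat_lit 40216, nat_lit 40224] (nat_lit 1) [nat_lit 20540] false,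
   Spec.mk (nat_lit 40224) (nat_lit 0) [nat_lit 27102, nat_lit 41682, nat_lit 39738, nat_lit 40386, nat_lit 40170, nat_lit 40278, nat_lit 40242, nat_lit 40218, nat_lit 40222] (nat_lit 1) [nat_lit 20542] false,
   Spec.mk (nat_lit 40232) (nat_lit 0) [nat_lit 27110, nat_lit 41690, nat_lit 39746, nat_lit 40394, nat_lit 40286, nat_lit 40214, nat_lit 40234] (nat_lit 0) [] false,
   Spec.mk (nat_lit 40234) (nat_lit 0) [nat_lit 27112, nat_lit 41692, nat_lit 39748, nat_lit 40396, nat_lit 40288, nat_lit 40216, nat_lit 40240, nat_lit 40232, nat_lit 40236] (nat_lit 1) [nat_lit 20552] false,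
   Spec.mk (nat_lit 40236) (nat_lit 0) [nat_lit 27114, nat_lit 41694, nat_lit 39750, nat_lit 40398, nat_lit 40290, nat_lit 40218, nat_lit 40242, nat_lit 40234] (nat_lit 4) [nat_lit 20554] false,
   Spec.mk (nat_lit 40240) (nat_lit 0) [nat_lit 27118, nat_lit 41698, nat_lit 39754, nat_lit 40402, nat_lit 40294, nat_lit 40222, nat_lit 40234, nat_lit 40242] (nat_lit 0) [nat_lit 20558] false,
   Spec.mk (nat_lit 40242) (nat_lit 0) [nat_lit 27120, nat_lit 41700, nat_lit 39756, nat_lit 40404, nat_lit 40296, nat_lit 40224, nat_lit 40236, nat_lit 40248, nat_lit 40240] (nat_lit 1) [nat_lit 20560] false,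
   Spec.mk (nat_lit 40248) (nat_lit 0) [nat_lit 27126, nat_lit 41706, nat_lit 39762, nat_lit 40410, nat_lit 40302, nat_lit 40242] (nat_lit 0) [nat_lit 20566] false,
   Spec.mk (nat_lit 40262) (nat_lit 0) [nat_lit 27140, nat_lit 41720, nat_lit 39776, nat_lit 40424, nat_lit 40208, nat_lit 40268, nat_lit 40264] (nat_lit 0) [] false,
   Spec.mk (nat_lit 40264) (nat_lit 0) [nat_lit 27142, nat_lit 41722, nat_lit 39778, nat_lit 40426, nat_lit 40210, nat_lit 40270, nat_lit 40262] (nat_lit 2) [nat_lit 20582] false,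
   Spec.mk (nat_lit 40268) (nat_lit 0) [nat_lit 27146, nat_lit 41726, nat_lit 39782, nat_lit 40430, nat_lit 40214, nat_lit 40286, nat_lit 40262, nat_lit 40270] (nat_lit 2) [] false,
   Spec.mk (nat_lit 40270) (nat_lit 0) [nat_lit 27148, nat_lit 41728, nat_lit 39784, nat_lit 40432, nat_lit 40216, nat_lit 40288, nat_lit 40264, nat_lit 40276, nat_lit 40268, nat_lit 40272] (nat_lit 2) [nat_lit 20588] false,
   Spec.mk (nat_lit 40272) (nat_lit 0) [nat_lit 27150, nat_lit 41730, nat_lit 39786, nat_lit 40434, nat_lit 40218, nat_lit 40290, nat_lit 40278, nat_lit 40270] (nat_lit 4) [nat_lit 20590] false,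
   Spec.mk (nat_lit 40276) (nat_lit 0) [nat_lit 27154, nat_lit 41734, nat_lit 39790, nat_lit 40438, nat_lit 40222, nat_lit 40294, nat_lit 40270, nat_lit 40278] (nat_lit 4) [nat_lit 20594] false,
   Spec.mk (nat_lit 40278) (nat_lit 0) [nat_lit 27156, nat_lit 41736, nat_lit 39792, nat_lit 40440, nat_lit 40224, nat_lit 40296, nat_lit 40272, nat_lit 40276] (nat_lit 4) [nat_lit 20596] false,
   Spec.mk (nat_lit 40286) (nat_lit 0) [nat_lit 27164, nat_lit 41744, nat_lit 39800, nat_lit 40448, nat_lit 40232, nat_lit 40268, nat_lit 40288] (nat_lit 0) [] false,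
   Spec.mk (nat_lit 40288) (nat_lit 0) [nat_lit 27166, nat_lit 41746, nat_lit 39802, nat_lit 40450, nat_lit 40234, nat_lit 40270, nat_lit 40294, nat_lit 40286, nat_lit 40290] (nat_lit 1) [nat_lit 20606] false,
   Spec.mk (nat_lit 40290) (nat_lit 0) [nat_lit 27168, nat_lit 41748, nat_lit 39804, nat_lit 40452, nat_lit 40236, nat_lit 40272, nat_lit 40296, nat_lit 40288] (nat_lit 4) [nat_lit 20608] false,
   Spec.mk (nat_lit 40294) (nat_lit 0) [nat_lit 27172, nat_lit 41752, nat_lit 39808, nat_lit 40456, nat_lit 40240, nat_lit 40276, nat_lit 40312, nat_lit 40288, nat_lit 40296] (nat_lit 1) [nat_lit 20612] false,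
   Spec.mk (nat_lit 40296) (nat_lit 0) [nat_lit 27174, nat_lit 41754, nat_lit 39810, nat_lit 40458, nat_lit 40242, nat_lit 40278, nat_lit 40314, nat_lit 40290, nat_lit 40302, nat_lit 40294] (nat_lit 2) [nat_lit 20614] false,
   Spec.mk (nat_lit 40302) (nat_lit 0) [nat_lit 27180, nat_lit 41760, nat_lit 39816, nat_lit 40464, nat_lit 40248, nat_lit 40320, nat_lit 40296] (nat_lit 2) [nat_lit 20620] false]

noncomputable def sp90 : List Spec :=
  [Spec.mk (nat_lit 40312) (nat_lit 0) [nat_lit 27190, nat_lit 41770, nat_lit 39826, nat_lit 40474, nat_lit 40294, nat_lit 40314] (nat_lit 0) [nat_lit 20630] false,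
   Spec.mk (nat_lit 40314) (nat_lit 0) [nat_lit 27192, nat_lit 41772, nat_lit 39828, nat_lit 40476, nat_lit 40296, nat_lit 40320, nat_lit 40312] (nat_lit 2) [nat_lit 20632] false,
   Spec.mk (nat_lit 40320) (nat_lit 0) [nat_lit 27198, nat_lit 41778, nat_lit 39834, nat_lit 40482, nat_lit 40302, nat_lit 40314] (nat_lit 0) [nat_lit 20638] false,
   Spec.mk (nat_lit 40346) (nat_lit 3) [nat_lit 27224, nat_lit 41804, nat_lit 39860, nat_lit 40832, nat_lit 40184, nat_lit 40352] (nat_lit 0) [] false,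
   Spec.mk (nat_lit 40352) (nat_lit 2) [nat_lit 27230, nat_lit 41810, nat_lit 39866, nat_lit 40838, nat_lit 40190, nat_lit 40370, nat_lit 40346, nat_lit 40358, nat_lit 40354] (nat_lit 0) [] false,
   Spec.mk (nat_lit 40354) (nat_lit 1) [nat_lit 27232, nat_lit 41812, nat_lit 39868, nat_lit 40840, nat_lit 40192, nat_lit 40372, nat_lit 40360, nat_lit 40352] (nat_lit 0) [nat_lit 20672] false,
   Spec.mk (nat_lit 40358) (nat_lit 0) [nat_lit 27236, nat_lit 41816, nat_lit 39872, nat_lit 40844, nat_lit 40196, nat_lit 40376, nat_lit 40352, nat_lit 40360] (nat_lit 1) [] false,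
   Spec.mk (nat_lit 40360) (nat_lit 0) [nat_lit 27238, nat_lit 41818, nat_lit 39874, nat_lit 40846, nat_lit 40198, nat_lit 40378, nat_lit 40354, nat_lit 40358, nat_lit 40362] (nat_lit 0) [nat_lit 20678] false,
   Spec.mk (nat_lit 40362) (nat_lit 0) [nat_lit 27240, nat_lit 41820, nat_lit 39876, nat_lit 40848, nat_lit 40200, nat_lit 40380, nat_lit 40360] (nat_lit 1) [nat_lit 20680] false,
   Spec.mk (nat_lit 40370) (nat_lit 1) [nat_lit 27248, nat_lit 41828, nat_lit 39884, nat_lit 40856, nat_lit 40208, nat_lit 40424, nat_lit 40352, nat_lit 40376, nat_lit 40372] (nat_lit 0) [] false,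
   Spec.mk (nat_lit 40372) (nat_lit 0) [nat_lit 27250, nat_lit 41830, nat_lit 39886, nat_lit 40858, nat_lit 40210, nat_lit 40426, nat_lit 40354, nat_lit 40378, nat_lit 40370] (nat_lit 1) [nat_lit 20690] false,
   Spec.mk (nat_lit 40376) (nat_lit 0) [nat_lit 27254, nat_lit 41834, nat_lit 39890, nat_lit 40862, nat_lit 40214, nat_lit 40430, nat_lit 40358, nat_lit 40394, nat_lit 40370, nat_lit 40378] (nat_lit 0) [] false,
   Spec.mk (nat_lit 40378) (nat_lit 0) [nat_lit 27256, nat_lit 41836, nat_lit 39892, nat_lit 40864, nat_lit 40216, nat_lit 40432, nat_lit 40360, nat_lit 40396, nat_lit 40372, nat_lit 40384, nat_lit 40376, nat_lit 40380] (nat_lit 0) [nat_lit 20696] false,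
   Spec.mk (nat_lit 40380) (nat_lit 0) [nat_lit 27258, nat_lit 41838, nat_lit 39894, nat_lit 40866, nat_lit 40218, nat_lit 40434, nat_lit 40362, nat_lit 40398, nat_lit 40386, nat_lit 40378] (nat_lit 2) [nat_lit 20698] false,
   Spec.mk (nat_lit 40384) (nat_lit 0) [nat_lit 27262, nat_lit 41842, nat_lit 39898, nat_lit 40870, nat_lit 40222, nat_lit 40438, nat_lit 40402, nat_lit 40378, nat_lit 40386] (nat_lit 1) [nat_lit 20702] false,
   Spec.mk (nat_lit 40386) (nat_lit 0) [nat_lit 27264, nat_lit 41844, nat_lit 39900, nat_lit 40872, nat_lit 40224, nat_lit 40440, nat_lit 40404, nat_lit 40380, nat_lit 40384] (nat_lit 1) [nat_lit 20704] false,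
   Spec.mk (nat_lit 40394) (nat_lit 0) [nat_lit 27272, nat_lit 41852, nat_lit 39908, nat_lit 40880, nat_lit 40232, nat_lit 40448, nat_lit 40376, nat_lit 40396] (nat_lit 1) [] false,
   Spec.mk (nat_lit 40396) (nat_lit 0) [nat_lit 27274, nat_lit 41854, nat_lit 39910, nat_lit 40882, nat_lit 40234, nat_lit 40450, nat_lit 40378, nat_lit 40402, nat_lit 40394, nat_lit 40398] (nat_lit 2) [nat_lit 20714] false,
   Spec.mk (nat_lit 40398) (nat_lit 0) [nat_lit 27276, nat_lit 41856, nat_lit 39912, nat_lit 40884, nat_lit 40236, nat_lit 40452, nat_lit 40380, nat_lit 40404, nat_lit 40396] (nat_lit 5) [nat_lit 20716] false,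
   Spec.mk (nat_lit 40402) (nat_lit 0) [nat_lit 27280, nat_lit 41860, nat_lit 39916, nat_lit 40888, nat_lit 40240, nat_lit 40456, nat_lit 40384, nat_lit 40396, nat_lit 40404] (nat_lit 1) [nat_lit 20720] false,
   Spec.mk (nat_lit 40404) (nat_lit 0) [nat_lit 27282, nat_lit 41862, nat_lit 39918, nat_lit 40890, nat_lit 40242, nat_lit 40458, nat_lit 40386, nat_lit 40398, nat_lit 40410, nat_lit 40402] (nat_lit 2) [nat_lit 20722] false,
   Spec.mk (nat_lit 40410) (nat_lit 0) [nat_lit 27288, nat_lit 41868, nat_lit 39924, nat_lit 40896, nat_lit 40248, nat_lit 40464, nat_lit 40404] (nat_lit 1) [nat_lit 20728] false,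
   Spec.mk (nat_lit 40424) (nat_lit 2) [nat_lit 27302, nat_lit 41882, nat_lit 39938, nat_lit 40910, nat_lit 40262, nat_lit 40586, nat_lit 40370, nat_lit 40430, nat_lit 40426] (nat_lit 0) [] false,
   Spec.mk (nat_lit 40426) (nat_lit 0) [nat_lit 27304, nat_lit 41884, nat_lit 39940, nat_lit 40912, nat_lit 40264, nat_lit 40588, nat_lit 40372, nat_lit 40432, nat_lit 40424] (nat_lit 0) [nat_lit 20744] false,
   Spec.mk (nat_lit 40430) (nat_lit 0) [nat_lit 27308, nat_lit 41888, nat_lit 39944, nat_lit 40916, nat_lit 40268, nat_lit 40592, nat_lit 40376, nat_lit 40448, nat_lit 40424, nat_lit 40432] (nat_lit 0) [] false,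
   Spec.mk (nat_lit 40432) (nat_lit 0) [nat_lit 27310, nat_lit 41890, nat_lit 39946, nat_lit 40918, nat_lit 40270, nat_lit 40594, nat_lit 40378, nat_lit 40450, nat_lit 40426, nat_lit 40438, nat_lit 40430, nat_lit 40434] (nat_lit 0) [nat_lit 20750] false,
   Spec.mk (nat_lit 40434) (nat_lit 0) [nat_lit 27312, nat_lit 41892, nat_lit 39948, nat_lit 40920, nat_lit 40272, nat_lit 40596, nat_lit 40380, nat_lit 40452, nat_lit 40440, nat_lit 40432] (nat_lit 2) [nat_lit 20752] false,
   Spec.mk (nat_lit 40438) (nat_lit 0) [nat_lit 27316, nat_lit 41896, nat_lit 39952, nat_lit 40924, nat_lit 40276, nat_lit 40600, nat_lit 40384, nat_lit 40456, nat_lit 40432, nat_lit 40440] (nat_lit 2) [nat_lit 20756] false,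
   Spec.mk (nat_lit 40440) (nat_lit 0) [nat_lit 27318, nat_lit 41898, nat_lit 39954, nat_lit 40926, nat_lit 40278, nat_lit 40602, nat_lit 40386, nat_lit 40458, nat_lit 40434, nat_lit 40438] (nat_lit 2) [nat_lit 20758] false,
   Spec.mk (nat_lit 40448) (nat_lit 1) [nat_lit 27326, nat_lit 41906, nat_lit 39962, nat_lit 40934, nat_lit 40286, nat_lit 40610, nat_lit 40394, nat_lit 40502, nat_lit 40430, nat_lit 40450] (nat_lit 0) [] false,
   Spec.mk (nat_lit 40450) (nat_lit 0) [nat_lit 27328, nat_lit 41908, nat_lit 39964, nat_lit 40936, nat_lit 40288, nat_lit 40612, nat_lit 40396, nat_lit 40504, nat_lit 40432, nat_lit 40456, nat_lit 40448, nat_lit 40452] (nat_lit 0) [nat_lit 20768] false,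
   Spec.mk (nat_lit 40452) (nat_lit 0) [nat_lit 27330, nat_lit 41910, nat_lit 39966, nat_lit 40938, nat_lit 40290, nat_lit 40614, nat_lit 40398, nat_lit 40506, nat_lit 40434, nat_lit 40458, nat_lit 40450] (nat_lit 3) [nat_lit 20770] false,
   Spec.mk (nat_lit 40456) (nat_lit 0) [nat_lit 27334, nat_lit 41914, nat_lit 39970, nat_lit 40942, nat_lit 40294, nat_lit 40618, nat_lit 40402, nat_lit 40510, nat_lit 40438, nat_lit 40474, nat_lit 40450, nat_lit 40458] (nat_lit 0) [nat_lit 20774] false,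
   Spec.mk (nat_lit 40458) (nat_lit 0) [nat_lit 27336, nat_lit 41916, nat_lit 39972, nat_lit 40944, nat_lit 40296, nat_lit 40620, nat_lit 40404, nat_lit 40512, nat_lit 40440, nat_lit 40476, nat_lit 40452, nat_lit 40464, nat_lit 40456] (nat_lit 1) [nat_lit 20776] false,
   Spec.mk (nat_lit 40464) (nat_lit 0) [nat_lit 27342, nat_lit 41922, nat_lit 39978, nat_lit 40950, nat_lit 40302, nat_lit 40626, nat_lit 40410, nat_lit 40518, nat_lit 40482, nat_lit 40458] (nat_lit 1) [nat_lit 20782] false,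
   Spec.mk (nat_lit 40474) (nat_lit 0) [nat_lit 27352, nat_lit 41932, nat_lit 39988, nat_lit 40960, nat_lit 40312, nat_lit 40636, nat_lit 40528, nat_lit 40456, nat_lit 40476] (nat_lit 0) [nat_lit 20792] false,
   Spec.mk (nat_lit 40476) (nat_lit 0) [nat_lit 27354, nat_lit 41934, nat_lit 39990, nat_lit 40962, nat_lit 40314, nat_lit 40638, nat_lit 40530, nat_lit 40458, nat_lit 40482, nat_lit 40474] (nat_lit 2) [nat_lit 20794] false,
   Spec.mk (nat_lit 40482) (nat_lit 0) [nat_lit 27360, nat_lit 41940, nat_lit 39996, nat_lit 40968, nat_lit 40320, nat_lit 40644, nat_lit 40536, nat_lit 40464, nat_lit 40476] (nat_lit 0) [nat_lit 20800] false,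
   Spec.mk (nat_lit 40502) (nat_lit 1) [nat_lit 27380, nat_lit 41960, nat_lit 40016, nat_lit 40988, nat_lit 40664, nat_lit 40448, nat_lit 40504] (nat_lit 0) [] false,
   Spec.mk (nat_lit 40504) (nat_lit 0) [nat_lit 27382, nat_lit 41962, nat_lit 40018, nat_lit 40990, nat_lit 40666, nat_lit 40450, nat_lit 40510, nat_lit 40502, nat_lit 40506] (nat_lit 0) [nat_lit 20822] false,
   Spec.mk (nat_lit 40506) (nat_lit 0) [nat_lit 27384, nat_lit 41964, nat_lit 40020, nat_lit 40992, nat_lit 40668, nat_lit 40452, nat_lit 40512, nat_lit 40504] (nat_lit 3) [nat_lit 20824] false,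
   Spec.mk (nat_lit 40510) (nat_lit 0) [nat_lit 27388, nat_lit 41968, nat_lit 40024, nat_lit 40996, nat_lit 40672, nat_lit 40456, nat_lit 40528, nat_lit 40504, nat_lit 40512] (nat_lit 1) [nat_lit 20828] false,
   Spec.mk (nat_lit 40512) (nat_lit 0) [nat_lit 27390, nat_lit 41970, nat_lit 40026, nat_lit 40998, nat_lit 40674, nat_lit 40458, nat_lit 40530, nat_lit 40506, nat_lit 40518, nat_lit 40510] (nat_lit 2) [nat_lit 20830] false,
   Spec.mk (nat_lit 40518) (nat_lit 0) [nat_lit 27396, nat_lit 41976, nat_lit 40032, nat_lit 41004, nat_lit 40680, nat_lit 40464, nat_lit 40536, nat_lit 40512] (nat_lit 3) [nat_lit 20836] false,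
   Spec.mk (nat_lit 40528) (nat_lit 1) [nat_lit 27406, nat_lit 41986, nat_lit 40042, nat_lit 41014, nat_lit 40690, nat_lit 40474, nat_lit 40510, nat_lit 40530] (nat_lit 0) [nat_lit 20846] false,
   Spec.mk (nat_lit 40530) (nat_lit 0) [nat_lit 27408, nat_lit 41988, nat_lit 40044, nat_lit 41016, nat_lit 40692, nat_lit 40476, nat_lit 40512, nat_lit 40536, nat_lit 40528] (nat_lit 1) [nat_lit 20848] false,
   Spec.mk (nat_lit 40536) (nat_lit 0) [nat_lit 27414, nat_lit 41994, nat_lit 40050, nat_lit 41022, nat_lit 40698, nat_lit 40482, nat_lit 40518, nat_lit 40554, nat_lit 40530] (nat_lit 0) [nat_lit 20854] false,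
   Spec.mk (nat_lit 40554) (nat_lit 1) [nat_lit 27432, nat_lit 42012, nat_lit 40068, nat_lit 41040, nat_lit 40716, nat_lit 40536] (nat_lit 0) [nat_lit 20872] false,
   Spec.mk (nat_lit 40586) (nat_lit 2) [nat_lit 27464, nat_lit 42044, nat_lit 41072, nat_lit 40424, nat_lit 40592, nat_lit 40588] (nat_lit 0) [] false,
   Spec.mk (nat_lit 40588) (nat_lit 0) [nat_lit 27466, nat_lit 42046, nat_lit 41074, nat_lit 40426, nat_lit 40594, nat_lit 40586] (nat_lit 0) [nat_lit 20906] false,
   Spec.mk (nat_lit 40592) (nat_lit 0) [nat_lit 27470, nat_lit 42050, nat_lit 41078, nat_lit 40430, nat_lit 40610, nat_lit 40586, nat_lit 40594] (nat_lit 0) [] false,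
   Spec.mk (nat_lit 40594) (nat_lit 0) [nat_lit 27472, nat_lit 42052, nat_lit 41080, nat_lit 40432, nat_lit 40612, nat_lit 40588, nat_lit 40600, nat_lit 40592, nat_lit 40596] (nat_lit 0) [nat_lit 20912] false,
   Spec.mk (nat_lit 40596) (nat_lit 0) [nat_lit 27474, nat_lit 42054, nat_lit 41082, nat_lit 40434, nat_lit 40614, nat_lit 40602, nat_lit 40594] (nat_lit 2) [nat_lit 20914] false,
   Spec.mk (nat_lit 40600) (nat_lit 0) [nat_lit 27478, nat_lit 42058, nat_lit 41086, nat_lit 40438, nat_lit 40618, nat_lit 40594, nat_lit 40602] (nat_lit 2) [nat_lit 20918] false,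
   Spec.mk (nat_lit 40602) (nat_lit 0) [nat_lit 27480, nat_lit 42060, nat_lit 41088, nat_lit 40440, nat_lit 40620, nat_lit 40596, nat_lit 40600] (nat_lit 2) [nat_lit 20920] false,
   Spec.mk (nat_lit 40610) (nat_lit 0) [nat_lit 27488, nat_lit 42068, nat_lit 41096, nat_lit 40448, nat_lit 40664, nat_lit 40592, nat_lit 40612] (nat_lit 0) [] false,
   Spec.mk (nat_lit 40612) (nat_lit 0) [nat_lit 27490, nat_lit 42070, nat_lit 41098, nat_lit 40450, nat_lit 40666, nat_lit 40594, nat_lit 40618, nat_lit 40610, nat_lit 40614] (nat_lit 1) [nat_lit 20930] false,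
   Spec.mk (nat_lit 40614) (nat_lit 0) [nat_lit 27492, nat_lit 42072, nat_lit 41100, nat_lit 40452, nat_lit 40668, nat_lit 40596, nat_lit 40620, nat_lit 40612] (nat_lit 4) [nat_lit 20932] false,
   Spec.mk (nat_lit 40618) (nat_lit 0) [nat_lit 27496, nat_lit 42076, nat_lit 41104, nat_lit 40456, nat_lit 40672, nat_lit 40600, nat_lit 40636, nat_lit 40612, nat_lit 40620] (nat_lit 1) [nat_lit 20936] false,
   Spec.mk (nat_lit 40620) (nat_lit 0) [nat_lit 27498, nat_lit 42078, nat_lit 41106, nat_lit 40458, nat_lit 40674, nat_lit 40602, nat_lit 40638, nat_lit 40614, nat_lit 40626, nat_lit 40618] (nat_lit 2) [nat_lit 20938] false]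

noncomputable def sp91 : List Spec :=
  [Spec.mk (nat_lit 40626) (nat_lit 0) [nat_lit 27504, nat_lit 42084, nat_lit 41112, nat_lit 40464, nat_lit 40680, nat_lit 40644, nat_lit 40620] (nat_lit 2) [nat_lit 20944] false,
   Spec.mk (nat_lit 40636) (nat_lit 0) [nat_lit 27514, nat_lit 42094, nat_lit 41122, nat_lit 40474, nat_lit 40690, nat_lit 40618, nat_lit 40638] (nat_lit 2) [nat_lit 20954] false,
   Spec.mk (nat_lit 40638) (nat_lit 0) [nat_lit 27516, nat_lit 42096, nat_lit 41124, nat_lit 40476, nat_lit 40692, nat_lit 40620, nat_lit 40644, nat_lit 40636] (nat_lit 4) [nat_lit 20956] false,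
   Spec.mk (nat_lit 40644) (nat_lit 0) [nat_lit 27522, nat_lit 42102, nat_lit 41130, nat_lit 40482, nat_lit 40698, nat_lit 40626, nat_lit 40638] (nat_lit 2) [nat_lit 20962] false,
   Spec.mk (nat_lit 40664) (nat_lit 2) [nat_lit 27542, nat_lit 42122, nat_lit 41150, nat_lit 40502, nat_lit 40610, nat_lit 40666] (nat_lit 0) [] false,
   Spec.mk (nat_lit 40666) (nat_lit 1) [nat_lit 27544, nat_lit 42124, nat_lit 41152, nat_lit 40504, nat_lit 40612, nat_lit 40672, nat_lit 40664, nat_lit 40668] (nat_lit 0) [nat_lit 20984] false,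
   Spec.mk (nat_lit 40668) (nat_lit 0) [nat_lit 27546, nat_lit 42126, nat_lit 41154, nat_lit 40506, nat_lit 40614, nat_lit 40674, nat_lit 40666] (nat_lit 2) [nat_lit 20986] false,
   Spec.mk (nat_lit 40672) (nat_lit 0) [nat_lit 27550, nat_lit 42130, nat_lit 41158, nat_lit 40510, nat_lit 40618, nat_lit 40690, nat_lit 40666, nat_lit 40674] (nat_lit 0) [nat_lit 20990] false,
   Spec.mk (nat_lit 40674) (nat_lit 0) [nat_lit 27552, nat_lit 42132, nat_lit 41160, nat_lit 40512, nat_lit 40620, nat_lit 40692, nat_lit 40668, nat_lit 40680, nat_lit 40672] (nat_lit 1) [nat_lit 20992] false,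
   Spec.mk (nat_lit 40680) (nat_lit 0) [nat_lit 27558, nat_lit 42138, nat_lit 41166, nat_lit 40518, nat_lit 40626, nat_lit 40698, nat_lit 40674] (nat_lit 2) [nat_lit 20998] false,
   Spec.mk (nat_lit 40690) (nat_lit 1) [nat_lit 27568, nat_lit 42148, nat_lit 41176, nat_lit 40528, nat_lit 40636, nat_lit 40744, nat_lit 40672, nat_lit 40692] (nat_lit 0) [nat_lit 21008] false,
   Spec.mk (nat_lit 40692) (nat_lit 0) [nat_lit 27570, nat_lit 42150, nat_lit 41178, nat_lit 40530, nat_lit 40638, nat_lit 40746, nat_lit 40674, nat_lit 40698, nat_lit 40690] (nat_lit 1) [nat_lit 21010] false,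
   Spec.mk (nat_lit 40698) (nat_lit 0) [nat_lit 27576, nat_lit 42156, nat_lit 41184, nat_lit 40536, nat_lit 40644, nat_lit 40752, nat_lit 40680, nat_lit 40716, nat_lit 40692] (nat_lit 0) [nat_lit 21016] false,
   Spec.mk (nat_lit 40716) (nat_lit 0) [nat_lit 27594, nat_lit 42174, nat_lit 41202, nat_lit 40554, nat_lit 40770, nat_lit 40698] (nat_lit 0) [nat_lit 21034] false,
   Spec.mk (nat_lit 40744) (nat_lit 2) [nat_lit 27622, nat_lit 42202, nat_lit 41230, nat_lit 40690, nat_lit 40746] (nat_lit 0) [nat_lit 21062] false,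
   Spec.mk (nat_lit 40746) (nat_lit 0) [nat_lit 27624, nat_lit 42204, nat_lit 41232, nat_lit 40692, nat_lit 40752, nat_lit 40744] (nat_lit 0) [nat_lit 21064] false,
   Spec.mk (nat_lit 40752) (nat_lit 0) [nat_lit 27630, nat_lit 42210, nat_lit 41238, nat_lit 40698, nat_lit 40770, nat_lit 40746] (nat_lit 0) [nat_lit 21070] false,
   Spec.mk (nat_lit 40770) (nat_lit 2) [nat_lit 27648, nat_lit 42228, nat_lit 41256, nat_lit 40716, nat_lit 40752] (nat_lit 0) [nat_lit 21088] false,
   Spec.mk (nat_lit 40832) (nat_lit 2) [nat_lit 27710, nat_lit 42290, nat_lit 40346, nat_lit 40838] (nat_lit 0) [] false,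
   Spec.mk (nat_lit 40838) (nat_lit 1) [nat_lit 27716, nat_lit 42296, nat_lit 40352, nat_lit 40856, nat_lit 40832, nat_lit 40844, nat_lit 40840] (nat_lit 0) [] false,
   Spec.mk (nat_lit 40840) (nat_lit 0) [nat_lit 27718, nat_lit 42298, nat_lit 40354, nat_lit 40858, nat_lit 40846, nat_lit 40838] (nat_lit 0) [nat_lit 21158] false,
   Spec.mk (nat_lit 40844) (nat_lit 0) [nat_lit 27722, nat_lit 42302, nat_lit 40358, nat_lit 40862, nat_lit 40838, nat_lit 40846] (nat_lit 2) [] false,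
   Spec.mk (nat_lit 40846) (nat_lit 0) [nat_lit 27724, nat_lit 42304, nat_lit 40360, nat_lit 40864, nat_lit 40840, nat_lit 40844, nat_lit 40848] (nat_lit 1) [nat_lit 21164] false,
   Spec.mk (nat_lit 40848) (nat_lit 0) [nat_lit 27726, nat_lit 42306, nat_lit 40362, nat_lit 40866, nat_lit 40846] (nat_lit 2) [nat_lit 21166] false,
   Spec.mk (nat_lit 40856) (nat_lit 0) [nat_lit 27734, nat_lit 42314, nat_lit 40370, nat_lit 40910, nat_lit 40838, nat_lit 40862, nat_lit 40858] (nat_lit 0) [] false,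
   Spec.mk (nat_lit 40858) (nat_lit 0) [nat_lit 27736, nat_lit 42316, nat_lit 40372, nat_lit 40912, nat_lit 40840, nat_lit 40864, nat_lit 40856] (nat_lit 2) [nat_lit 21176] false,
   Spec.mk (nat_lit 40862) (nat_lit 0) [nat_lit 27740, nat_lit 42320, nat_lit 40376, nat_lit 40916, nat_lit 40844, nat_lit 40880, nat_lit 40856, nat_lit 40864] (nat_lit 1) [] false,
   Spec.mk (nat_lit 40864) (nat_lit 0) [nat_lit 27742, nat_lit 42322, nat_lit 40378, nat_lit 40918, nat_lit 40846, nat_lit 40882, nat_lit 40858, nat_lit 40870, nat_lit 40862, nat_lit 40866] (nat_lit 1) [nat_lit 21182] false,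
   Spec.mk (nat_lit 40866) (nat_lit 0) [nat_lit 27744, nat_lit 42324, nat_lit 40380, nat_lit 40920, nat_lit 40848, nat_lit 40884, nat_lit 40872, nat_lit 40864] (nat_lit 3) [nat_lit 21184] false,
   Spec.mk (nat_lit 40870) (nat_lit 0) [nat_lit 27748, nat_lit 42328, nat_lit 40384, nat_lit 40924, nat_lit 40888, nat_lit 40864, nat_lit 40872] (nat_lit 2) [nat_lit 21188] false,
   Spec.mk (nat_lit 40872) (nat_lit 0) [nat_lit 27750, nat_lit 42330, nat_lit 40386, nat_lit 40926, nat_lit 40890, nat_lit 40866, nat_lit 40870] (nat_lit 2) [nat_lit 21190] false,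
   Spec.mk (nat_lit 40880) (nat_lit 0) [nat_lit 27758, nat_lit 42338, nat_lit 40394, nat_lit 40934, nat_lit 40862, nat_lit 40882] (nat_lit 2) [] false,
   Spec.mk (nat_lit 40882) (nat_lit 0) [nat_lit 27760, nat_lit 42340, nat_lit 40396, nat_lit 40936, nat_lit 40864, nat_lit 40888, nat_lit 40880, nat_lit 40884] (nat_lit 3) [nat_lit 21200] false,
   Spec.mk (nat_lit 40884) (nat_lit 0) [nat_lit 27762, nat_lit 42342, nat_lit 40398, nat_lit 40938, nat_lit 40866, nat_lit 40890, nat_lit 40882] (nat_lit 6) [nat_lit 21202] false,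
   Spec.mk (nat_lit 40888) (nat_lit 0) [nat_lit 27766, nat_lit 42346, nat_lit 40402, nat_lit 40942, nat_lit 40870, nat_lit 40882, nat_lit 40890] (nat_lit 2) [nat_lit 21206] false,
   Spec.mk (nat_lit 40890) (nat_lit 0) [nat_lit 27768, nat_lit 42348, nat_lit 40404, nat_lit 40944, nat_lit 40872, nat_lit 40884, nat_lit 40896, nat_lit 40888] (nat_lit 3) [nat_lit 21208] false,
   Spec.mk (nat_lit 40896) (nat_lit 0) [nat_lit 27774, nat_lit 42354, nat_lit 40410, nat_lit 40950, nat_lit 40890] (nat_lit 2) [nat_lit 21214] false,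
   Spec.mk (nat_lit 40910) (nat_lit 0) [nat_lit 27788, nat_lit 42368, nat_lit 40424, nat_lit 41072, nat_lit 40856, nat_lit 40916, nat_lit 40912] (nat_lit 0) [] false,
   Spec.mk (nat_lit 40912) (nat_lit 0) [nat_lit 27790, nat_lit 42370, nat_lit 40426, nat_lit 41074, nat_lit 40858, nat_lit 40918, nat_lit 40910] (nat_lit 2) [nat_lit 21230] false,
   Spec.mk (nat_lit 40916) (nat_lit 0) [nat_lit 27794, nat_lit 42374, nat_lit 40430, nat_lit 41078, nat_lit 40862, nat_lit 40934, nat_lit 40910, nat_lit 40918] (nat_lit 2) [] false,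
   Spec.mk (nat_lit 40918) (nat_lit 0) [nat_lit 27796, nat_lit 42376, nat_lit 40432, nat_lit 41080, nat_lit 40864, nat_lit 40936, nat_lit 40912, nat_lit 40924, nat_lit 40916, nat_lit 40920] (nat_lit 2) [nat_lit 21236] false,
   Spec.mk (nat_lit 40920) (nat_lit 0) [nat_lit 27798, nat_lit 42378, nat_lit 40434, nat_lit 41082, nat_lit 40866, nat_lit 40938, nat_lit 40926, nat_lit 40918] (nat_lit 4) [nat_lit 21238] false,
   Spec.mk (nat_lit 40924) (nat_lit 0) [nat_lit 27802, nat_lit 42382, nat_lit 40438, nat_lit 41086, nat_lit 40870, nat_lit 40942, nat_lit 40918, nat_lit 40926] (nat_lit 4) [nat_lit 21242] false,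
   Spec.mk (nat_lit 40926) (nat_lit 0) [nat_lit 27804, nat_lit 42384, nat_lit 40440, nat_lit 41088, nat_lit 40872, nat_lit 40944, nat_lit 40920, nat_lit 40924] (nat_lit 4) [nat_lit 21244] false,
   Spec.mk (nat_lit 40934) (nat_lit 0) [nat_lit 27812, nat_lit 42392, nat_lit 40448, nat_lit 41096, nat_lit 40880, nat_lit 40988, nat_lit 40916, nat_lit 40936] (nat_lit 1) [] false,
   Spec.mk (nat_lit 40936) (nat_lit 0) [nat_lit 27814, nat_lit 42394, nat_lit 40450, nat_lit 41098, nat_lit 40882, nat_lit 40990, nat_lit 40918, nat_lit 40942, nat_lit 40934, nat_lit 40938] (nat_lit 2) [nat_lit 21254] false,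
   Spec.mk (nat_lit 40938) (nat_lit 0) [nat_lit 27816, nat_lit 42396, nat_lit 40452, nat_lit 41100, nat_lit 40884, nat_lit 40992, nat_lit 40920, nat_lit 40944, nat_lit 40936] (nat_lit 5) [nat_lit 21256] false,
   Spec.mk (nat_lit 40942) (nat_lit 0) [nat_lit 27820, nat_lit 42400, nat_lit 40456, nat_lit 41104, nat_lit 40888, nat_lit 40996, nat_lit 40924, nat_lit 40960, nat_lit 40936, nat_lit 40944] (nat_lit 2) [nat_lit 21260] false,
   Spec.mk (nat_lit 40944) (nat_lit 0) [nat_lit 27822, nat_lit 42402, nat_lit 40458, nat_lit 41106, nat_lit 40890, nat_lit 40998, nat_lit 40926, nat_lit 40962, nat_lit 40938, nat_lit 40950, nat_lit 40942] (nat_lit 3) [nat_lit 21262] false,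
   Spec.mk (nat_lit 40950) (nat_lit 0) [nat_lit 27828, nat_lit 42408, nat_lit 40464, nat_lit 41112, nat_lit 40896, nat_lit 41004, nat_lit 40968, nat_lit 40944] (nat_lit 3) [nat_lit 21268] false,
   Spec.mk (nat_lit 40960) (nat_lit 0) [nat_lit 27838, nat_lit 42418, nat_lit 40474, nat_lit 41122, nat_lit 41014, nat_lit 40942, nat_lit 40962] (nat_lit 2) [nat_lit 21278] false,
   Spec.mk (nat_lit 40962) (nat_lit 0) [nat_lit 27840, nat_lit 42420, nat_lit 40476, nat_lit 41124, nat_lit 41016, nat_lit 40944, nat_lit 40968, nat_lit 40960] (nat_lit 4) [nat_lit 21280] false,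
   Spec.mk (nat_lit 40968) (nat_lit 0) [nat_lit 27846, nat_lit 42426, nat_lit 40482, nat_lit 41130, nat_lit 41022, nat_lit 40950, nat_lit 40962] (nat_lit 2) [nat_lit 21286] false,
   Spec.mk (nat_lit 40988) (nat_lit 0) [nat_lit 27866, nat_lit 42446, nat_lit 40502, nat_lit 41150, nat_lit 40934, nat_lit 40990] (nat_lit 2) [] false,
   Spec.mk (nat_lit 40990) (nat_lit 0) [nat_lit 27868, nat_lit 42448, nat_lit 40504, nat_lit 41152, nat_lit 40936, nat_lit 40996, nat_lit 40988, nat_lit 40992] (nat_lit 3) [nat_lit 21308] false,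
   Spec.mk (nat_lit 40992) (nat_lit 0) [nat_lit 27870, nat_lit 42450, nat_lit 40506, nat_lit 41154, nat_lit 40938, nat_lit 40998, nat_lit 40990] (nat_lit 6) [nat_lit 21310] false,
   Spec.mk (nat_lit 40996) (nat_lit 0) [nat_lit 27874, nat_lit 42454, nat_lit 40510, nat_lit 41158, nat_lit 40942, nat_lit 41014, nat_lit 40990, nat_lit 40998] (nat_lit 4) [nat_lit 21314] false,
   Spec.mk (nat_lit 40998) (nat_lit 0) [nat_lit 27876, nat_lit 42456, nat_lit 40512, nat_lit 41160, nat_lit 40944, nat_lit 41016, nat_lit 40992, nat_lit 41004, nat_lit 40996] (nat_lit 5) [nat_lit 21316] false,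
   Spec.mk (nat_lit 41004) (nat_lit 0) [nat_lit 27882, nat_lit 42462, nat_lit 40518, nat_lit 41166, nat_lit 40950, nat_lit 41022, nat_lit 40998] (nat_lit 6) [nat_lit 21322] false,
   Spec.mk (nat_lit 41014) (nat_lit 0) [nat_lit 27892, nat_lit 42472, nat_lit 40528, nat_lit 41176, nat_lit 40960, nat_lit 40996, nat_lit 41016] (nat_lit 2) [nat_lit 21332] false]

noncomputable def sp92 : List Spec :=
  [Spec.mk (nat_lit 41016) (nat_lit 0) [nat_lit 27894, nat_lit 42474, nat_lit 40530, nat_lit 41178, nat_lit 40962, nat_lit 40998, nat_lit 41022, nat_lit 41014] (nat_lit 4) [nat_lit 21334] false,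
   Spec.mk (nat_lit 41022) (nat_lit 0) [nat_lit 27900, nat_lit 42480, nat_lit 40536, nat_lit 41184, nat_lit 40968, nat_lit 41004, nat_lit 41040, nat_lit 41016] (nat_lit 3) [nat_lit 21340] false,
   Spec.mk (nat_lit 41040) (nat_lit 0) [nat_lit 27918, nat_lit 42498, nat_lit 40554, nat_lit 41202, nat_lit 41022] (nat_lit 2) [nat_lit 21358] false,
   Spec.mk (nat_lit 41072) (nat_lit 2) [nat_lit 27950, nat_lit 42530, nat_lit 40586, nat_lit 40910, nat_lit 41078, nat_lit 41074] (nat_lit 0) [] false,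
   Spec.mk (nat_lit 41074) (nat_lit 0) [nat_lit 27952, nat_lit 42532, nat_lit 40588, nat_lit 40912, nat_lit 41080, nat_lit 41072] (nat_lit 0) [nat_lit 21392] false,
   Spec.mk (nat_lit 41078) (nat_lit 0) [nat_lit 27956, nat_lit 42536, nat_lit 40592, nat_lit 40916, nat_lit 41096, nat_lit 41072, nat_lit 41080] (nat_lit 0) [] false,
   Spec.mk (nat_lit 41080) (nat_lit 0) [nat_lit 27958, nat_lit 42538, nat_lit 40594, nat_lit 40918, nat_lit 41098, nat_lit 41074, nat_lit 41086, nat_lit 41078, nat_lit 41082] (nat_lit 0) [nat_lit 21398] false,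
   Spec.mk (nat_lit 41082) (nat_lit 0) [nat_lit 27960, nat_lit 42540, nat_lit 40596, nat_lit 40920, nat_lit 41100, nat_lit 41088, nat_lit 41080] (nat_lit 2) [nat_lit 21400] false,
   Spec.mk (nat_lit 41086) (nat_lit 0) [nat_lit 27964, nat_lit 42544, nat_lit 40600, nat_lit 40924, nat_lit 41104, nat_lit 41080, nat_lit 41088] (nat_lit 2) [nat_lit 21404] false,
   Spec.mk (nat_lit 41088) (nat_lit 0) [nat_lit 27966, nat_lit 42546, nat_lit 40602, nat_lit 40926, nat_lit 41106, nat_lit 41082, nat_lit 41086] (nat_lit 2) [nat_lit 21406] false,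
   Spec.mk (nat_lit 41096) (nat_lit 0) [nat_lit 27974, nat_lit 42554, nat_lit 40610, nat_lit 40934, nat_lit 41150, nat_lit 41078, nat_lit 41098] (nat_lit 0) [] false,
   Spec.mk (nat_lit 41098) (nat_lit 0) [nat_lit 27976, nat_lit 42556, nat_lit 40612, nat_lit 40936, nat_lit 41152, nat_lit 41080, nat_lit 41104, nat_lit 41096, nat_lit 41100] (nat_lit 1) [nat_lit 21416] false,
   Spec.mk (nat_lit 41100) (nat_lit 0) [nat_lit 27978, nat_lit 42558, nat_lit 40614, nat_lit 40938, nat_lit 41154, nat_lit 41082, nat_lit 41106, nat_lit 41098] (nat_lit 4) [nat_lit 21418] false,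
   Spec.mk (nat_lit 41104) (nat_lit 0) [nat_lit 27982, nat_lit 42562, nat_lit 40618, nat_lit 40942, nat_lit 41158, nat_lit 41086, nat_lit 41122, nat_lit 41098, nat_lit 41106] (nat_lit 1) [nat_lit 21422] false,
   Spec.mk (nat_lit 41106) (nat_lit 0) [nat_lit 27984, nat_lit 42564, nat_lit 40620, nat_lit 40944, nat_lit 41160, nat_lit 41088, nat_lit 41124, nat_lit 41100, nat_lit 41112, nat_lit 41104] (nat_lit 2) [nat_lit 21424] false,
   Spec.mk (nat_lit 41112) (nat_lit 0) [nat_lit 27990, nat_lit 42570, nat_lit 40626, nat_lit 40950, nat_lit 41166, nat_lit 41130, nat_lit 41106] (nat_lit 2) [nat_lit 21430] false,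
   Spec.mk (nat_lit 41122) (nat_lit 0) [nat_lit 28000, nat_lit 42580, nat_lit 40636, nat_lit 40960, nat_lit 41176, nat_lit 41104, nat_lit 41124] (nat_lit 2) [nat_lit 21440] false,
   Spec.mk (nat_lit 41124) (nat_lit 0) [nat_lit 28002, nat_lit 42582, nat_lit 40638, nat_lit 40962, nat_lit 41178, nat_lit 41106, nat_lit 41130, nat_lit 41122] (nat_lit 4) [nat_lit 21442] false,
   Spec.mk (nat_lit 41130) (nat_lit 0) [nat_lit 28008, nat_lit 42588, nat_lit 40644, nat_lit 40968, nat_lit 41184, nat_lit 41112, nat_lit 41124] (nat_lit 2) [nat_lit 21448] false,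
   Spec.mk (nat_lit 41150) (nat_lit 1) [nat_lit 28028, nat_lit 42608, nat_lit 40664, nat_lit 40988, nat_lit 41312, nat_lit 41096, nat_lit 41152] (nat_lit 0) [] false,
   Spec.mk (nat_lit 41152) (nat_lit 0) [nat_lit 28030, nat_lit 42610, nat_lit 40666, nat_lit 40990, nat_lit 41314, nat_lit 41098, nat_lit 41158, nat_lit 41150, nat_lit 41154] (nat_lit 0) [nat_lit 21470] false,
   Spec.mk (nat_lit 41154) (nat_lit 0) [nat_lit 28032, nat_lit 42612, nat_lit 40668, nat_lit 40992, nat_lit 41316, nat_lit 41100, nat_lit 41160, nat_lit 41152] (nat_lit 3) [nat_lit 21472] false,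
   Spec.mk (nat_lit 41158) (nat_lit 0) [nat_lit 28036, nat_lit 42616, nat_lit 40672, nat_lit 40996, nat_lit 41320, nat_lit 41104, nat_lit 41176, nat_lit 41152, nat_lit 41160] (nat_lit 1) [nat_lit 21476] false,
   Spec.mk (nat_lit 41160) (nat_lit 0) [nat_lit 28038, nat_lit 42618, nat_lit 40674, nat_lit 40998, nat_lit 41322, nat_lit 41106, nat_lit 41178, nat_lit 41154, nat_lit 41166, nat_lit 41158] (nat_lit 2) [nat_lit 21478] false,
   Spec.mk (nat_lit 41166) (nat_lit 0) [nat_lit 28044, nat_lit 42624, nat_lit 40680, nat_lit 41004, nat_lit 41328, nat_lit 41112, nat_lit 41184, nat_lit 41160] (nat_lit 3) [nat_lit 21484] false,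
   Spec.mk (nat_lit 41176) (nat_lit 0) [nat_lit 28054, nat_lit 42634, nat_lit 40690, nat_lit 41014, nat_lit 41338, nat_lit 41122, nat_lit 41230, nat_lit 41158, nat_lit 41178] (nat_lit 0) [nat_lit 21494] false,
   Spec.mk (nat_lit 41178) (nat_lit 0) [nat_lit 28056, nat_lit 42636, nat_lit 40692, nat_lit 41016, nat_lit 41340, nat_lit 41124, nat_lit 41232, nat_lit 41160, nat_lit 41184, nat_lit 41176] (nat_lit 2) [nat_lit 21496] false,
   Spec.mk (nat_lit 41184) (nat_lit 0) [nat_lit 28062, nat_lit 42642, nat_lit 40698, nat_lit 41022, nat_lit 41346, nat_lit 41130, nat_lit 41238, nat_lit 41166, nat_lit 41202, nat_lit 41178] (nat_lit 1) [nat_lit 21502] false,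
   Spec.mk (nat_lit 41202) (nat_lit 0) [nat_lit 28080, nat_lit 42660, nat_lit 40716, nat_lit 41040, nat_lit 41364, nat_lit 41256, nat_lit 41184] (nat_lit 1) [nat_lit 21520] false,
   Spec.mk (nat_lit 41230) (nat_lit 0) [nat_lit 28108, nat_lit 42688, nat_lit 40744, nat_lit 41392, nat_lit 41176, nat_lit 41232] (nat_lit 0) [nat_lit 21548] false,
   Spec.mk (nat_lit 41232) (nat_lit 0) [nat_lit 28110, nat_lit 42690, nat_lit 40746, nat_lit 41394, nat_lit 41178, nat_lit 41238, nat_lit 41230] (nat_lit 2) [nat_lit 21550] false,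
   Spec.mk (nat_lit 41238) (nat_lit 0) [nat_lit 28116, nat_lit 42696, nat_lit 40752, nat_lit 41400, nat_lit 41184, nat_lit 41256, nat_lit 41232] (nat_lit 2) [nat_lit 21556] false,
   Spec.mk (nat_lit 41256) (nat_lit 0) [nat_lit 28134, nat_lit 42714, nat_lit 40770, nat_lit 41418, nat_lit 41202, nat_lit 41238] (nat_lit 0) [nat_lit 21574] false,
   Spec.mk (nat_lit 41312) (nat_lit 2) [nat_lit 28190, nat_lit 42770, nat_lit 41150, nat_lit 41314] (nat_lit 0) [] false,
   Spec.mk (nat_lit 41314) (nat_lit 1) [nat_lit 28192, nat_lit 42772, nat_lit 41152, nat_lit 41320, nat_lit 41312, nat_lit 41316] (nat_lit 0) [nat_lit 21632] false,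
   Spec.mk (nat_lit 41316) (nat_lit 0) [nat_lit 28194, nat_lit 42774, nat_lit 41154, nat_lit 41322, nat_lit 41314] (nat_lit 2) [nat_lit 21634] false,
   Spec.mk (nat_lit 41320) (nat_lit 0) [nat_lit 28198, nat_lit 42778, nat_lit 41158, nat_lit 41338, nat_lit 41314, nat_lit 41322] (nat_lit 0) [nat_lit 21638] false,
   Spec.mk (nat_lit 41322) (nat_lit 0) [nat_lit 28200, nat_lit 42780, nat_lit 41160, nat_lit 41340, nat_lit 41316, nat_lit 41328, nat_lit 41320] (nat_lit 1) [nat_lit 21640] false,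
   Spec.mk (nat_lit 41328) (nat_lit 0) [nat_lit 28206, nat_lit 42786, nat_lit 41166, nat_lit 41346, nat_lit 41322] (nat_lit 2) [nat_lit 21646] false,
   Spec.mk (nat_lit 41338) (nat_lit 0) [nat_lit 28216, nat_lit 42796, nat_lit 41176, nat_lit 41392, nat_lit 41320, nat_lit 41340] (nat_lit 0) [nat_lit 21656] false,
   Spec.mk (nat_lit 41340) (nat_lit 0) [nat_lit 28218, nat_lit 42798, nat_lit 41178, nat_lit 41394, nat_lit 41322, nat_lit 41346, nat_lit 41338] (nat_lit 2) [nat_lit 21658] false,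
   Spec.mk (nat_lit 41346) (nat_lit 0) [nat_lit 28224, nat_lit 42804, nat_lit 41184, nat_lit 41400, nat_lit 41328, nat_lit 41364, nat_lit 41340] (nat_lit 1) [nat_lit 21664] false,
   Spec.mk (nat_lit 41364) (nat_lit 0) [nat_lit 28242, nat_lit 42822, nat_lit 41202, nat_lit 41418, nat_lit 41346] (nat_lit 2) [nat_lit 21682] false,
   Spec.mk (nat_lit 41392) (nat_lit 2) [nat_lit 28270, nat_lit 42850, nat_lit 41230, nat_lit 41338, nat_lit 41394] (nat_lit 0) [nat_lit 21710] false,
   Spec.mk (nat_lit 41394) (nat_lit 0) [nat_lit 28272, nat_lit 42852, nat_lit 41232, nat_lit 41340, nat_lit 41400, nat_lit 41392] (nat_lit 0) [nat_lit 21712] false,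
   Spec.mk (nat_lit 41400) (nat_lit 0) [nat_lit 28278, nat_lit 42858, nat_lit 41238, nat_lit 41346, nat_lit 41418, nat_lit 41394] (nat_lit 0) [nat_lit 21718] false,
   Spec.mk (nat_lit 41418) (nat_lit 1) [nat_lit 28296, nat_lit 42876, nat_lit 41256, nat_lit 41364, nat_lit 41472, nat_lit 41400] (nat_lit 0) [nat_lit 21736] false,
   Spec.mk (nat_lit 41472) (nat_lit 2) [nat_lit 28350, nat_lit 42930, nat_lit 41418] (nat_lit 0) [nat_lit 21790] false,
   Spec.mk (nat_lit 41570) (nat_lit 4) [nat_lit 28448, nat_lit 45944, nat_lit 40112, nat_lit 41588, nat_lit 41576] (nat_lit 0) [] false,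
   Spec.mk (nat_lit 41576) (nat_lit 2) [nat_lit 28454, nat_lit 45950, nat_lit 40118, nat_lit 41594, nat_lit 41570, nat_lit 41578] (nat_lit 0) [] false,
   Spec.mk (nat_lit 41578) (nat_lit 2) [nat_lit 28456, nat_lit 45952, nat_lit 40120, nat_lit 41596, nat_lit 41576] (nat_lit 0) [nat_lit 21896] false,
   Spec.mk (nat_lit 41588) (nat_lit 2) [nat_lit 28466, nat_lit 45962, nat_lit 40130, nat_lit 41642, nat_lit 41570, nat_lit 41594] (nat_lit 0) [] false,
   Spec.mk (nat_lit 41594) (nat_lit 2) [nat_lit 28472, nat_lit 45968, nat_lit 40136, nat_lit 41648, nat_lit 41576, nat_lit 41612, nat_lit 41588, nat_lit 41600, nat_lit 41596] (nat_lit 0) [] false,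
   Spec.mk (nat_lit 41596) (nat_lit 1) [nat_lit 28474, nat_lit 45970, nat_lit 40138, nat_lit 41650, nat_lit 41578, nat_lit 41614, nat_lit 41602, nat_lit 41594] (nat_lit 0) [nat_lit 21914] false,
   Spec.mk (nat_lit 41600) (nat_lit 0) [nat_lit 28478, nat_lit 45974, nat_lit 40142, nat_lit 41654, nat_lit 41618, nat_lit 41594, nat_lit 41602] (nat_lit 0) [] false,
   Spec.mk (nat_lit 41602) (nat_lit 1) [nat_lit 28480, nat_lit 45976, nat_lit 40144, nat_lit 41656, nat_lit 41620, nat_lit 41596, nat_lit 41600, nat_lit 41604] (nat_lit 0) [nat_lit 21920] false,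
   Spec.mk (nat_lit 41604) (nat_lit 0) [nat_lit 28482, nat_lit 45978, nat_lit 40146, nat_lit 41658, nat_lit 41622, nat_lit 41602] (nat_lit 0) [nat_lit 21922] false,
   Spec.mk (nat_lit 41612) (nat_lit 0) [nat_lit 28490, nat_lit 45986, nat_lit 40154, nat_lit 41666, nat_lit 41594, nat_lit 41618, nat_lit 41614] (nat_lit 0) [] false,
   Spec.mk (nat_lit 41614) (nat_lit 0) [nat_lit 28492, nat_lit 45988, nat_lit 40156, nat_lit 41668, nat_lit 41596, nat_lit 41620, nat_lit 41612] (nat_lit 2) [nat_lit 21932] false,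
   Spec.mk (nat_lit 41618) (nat_lit 0) [nat_lit 28496, nat_lit 45992, nat_lit 40160, nat_lit 41672, nat_lit 41600, nat_lit 41612, nat_lit 41620] (nat_lit 0) [] false]

noncomputable def sp93 : List Spec :=
  [Spec.mk (nat_lit 41620) (nat_lit 0) [nat_lit 28498, nat_lit 45994, nat_lit 40162, nat_lit 41674, nat_lit 41602, nat_lit 41614, nat_lit 41626, nat_lit 41618, nat_lit 41622] (nat_lit 0) [nat_lit 21938] false,
   Spec.mk (nat_lit 41622) (nat_lit 0) [nat_lit 28500, nat_lit 45996, nat_lit 40164, nat_lit 41676, nat_lit 41604, nat_lit 41628, nat_lit 41620] (nat_lit 2) [nat_lit 21940] false,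
   Spec.mk (nat_lit 41626) (nat_lit 0) [nat_lit 28504, nat_lit 46000, nat_lit 40168, nat_lit 41680, nat_lit 41620, nat_lit 41628] (nat_lit 0) [nat_lit 21944] false,
   Spec.mk (nat_lit 41628) (nat_lit 0) [nat_lit 28506, nat_lit 46002, nat_lit 40170, nat_lit 41682, nat_lit 41622, nat_lit 41626] (nat_lit 0) [nat_lit 21946] false,
   Spec.mk (nat_lit 41642) (nat_lit 2) [nat_lit 28520, nat_lit 46016, nat_lit 40184, nat_lit 41804, nat_lit 41588, nat_lit 41648] (nat_lit 0) [] false,
   Spec.mk (nat_lit 41648) (nat_lit 1) [nat_lit 28526, nat_lit 46022, nat_lit 40190, nat_lit 41810, nat_lit 41594, nat_lit 41666, nat_lit 41642, nat_lit 41654, nat_lit 41650] (nat_lit 0) [] false,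
   Spec.mk (nat_lit 41650) (nat_lit 0) [nat_lit 28528, nat_lit 46024, nat_lit 40192, nat_lit 41812, nat_lit 41596, nat_lit 41668, nat_lit 41656, nat_lit 41648] (nat_lit 0) [nat_lit 21968] false,
   Spec.mk (nat_lit 41654) (nat_lit 0) [nat_lit 28532, nat_lit 46028, nat_lit 40196, nat_lit 41816, nat_lit 41600, nat_lit 41672, nat_lit 41648, nat_lit 41656] (nat_lit 2) [] false,
   Spec.mk (nat_lit 41656) (nat_lit 0) [nat_lit 28534, nat_lit 46030, nat_lit 40198, nat_lit 41818, nat_lit 41602, nat_lit 41674, nat_lit 41650, nat_lit 41654, nat_lit 41658] (nat_lit 1) [nat_lit 21974] false,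
   Spec.mk (nat_lit 41658) (nat_lit 0) [nat_lit 28536, nat_lit 46032, nat_lit 40200, nat_lit 41820, nat_lit 41604, nat_lit 41676, nat_lit 41656] (nat_lit 2) [nat_lit 21976] false,
   Spec.mk (nat_lit 41666) (nat_lit 1) [nat_lit 28544, nat_lit 46040, nat_lit 40208, nat_lit 41828, nat_lit 41612, nat_lit 41720, nat_lit 41648, nat_lit 41672, nat_lit 41668] (nat_lit 0) [] false,
   Spec.mk (nat_lit 41668) (nat_lit 0) [nat_lit 28546, nat_lit 46042, nat_lit 40210, nat_lit 41830, nat_lit 41614, nat_lit 41722, nat_lit 41650, nat_lit 41674, nat_lit 41666] (nat_lit 1) [nat_lit 21986] false,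
   Spec.mk (nat_lit 41672) (nat_lit 0) [nat_lit 28550, nat_lit 46046, nat_lit 40214, nat_lit 41834, nat_lit 41618, nat_lit 41726, nat_lit 41654, nat_lit 41690, nat_lit 41666, nat_lit 41674] (nat_lit 0) [] false,
   Spec.mk (nat_lit 41674) (nat_lit 0) [nat_lit 28552, nat_lit 46048, nat_lit 40216, nat_lit 41836, nat_lit 41620, nat_lit 41728, nat_lit 41656, nat_lit 41692, nat_lit 41668, nat_lit 41680, nat_lit 41672, nat_lit 41676] (nat_lit 0) [nat_lit 21992] false,
   Spec.mk (nat_lit 41676) (nat_lit 0) [nat_lit 28554, nat_lit 46050, nat_lit 40218, nat_lit 41838, nat_lit 41622, nat_lit 41730, nat_lit 41658, nat_lit 41694, nat_lit 41682, nat_lit 41674] (nat_lit 2) [nat_lit 21994] false,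
   Spec.mk (nat_lit 41680) (nat_lit 0) [nat_lit 28558, nat_lit 46054, nat_lit 40222, nat_lit 41842, nat_lit 41626, nat_lit 41734, nat_lit 41698, nat_lit 41674, nat_lit 41682] (nat_lit 1) [nat_lit 21998] false,
   Spec.mk (nat_lit 41682) (nat_lit 0) [nat_lit 28560, nat_lit 46056, nat_lit 40224, nat_lit 41844, nat_lit 41628, nat_lit 41736, nat_lit 41700, nat_lit 41676, nat_lit 41680] (nat_lit 1) [nat_lit 22000] false,
   Spec.mk (nat_lit 41690) (nat_lit 0) [nat_lit 28568, nat_lit 46064, nat_lit 40232, nat_lit 41852, nat_lit 41744, nat_lit 41672, nat_lit 41692] (nat_lit 0) [] false,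
   Spec.mk (nat_lit 41692) (nat_lit 0) [nat_lit 28570, nat_lit 46066, nat_lit 40234, nat_lit 41854, nat_lit 41746, nat_lit 41674, nat_lit 41698, nat_lit 41690, nat_lit 41694] (nat_lit 1) [nat_lit 22010] false,
   Spec.mk (nat_lit 41694) (nat_lit 0) [nat_lit 28572, nat_lit 46068, nat_lit 40236, nat_lit 41856, nat_lit 41748, nat_lit 41676, nat_lit 41700, nat_lit 41692] (nat_lit 4) [nat_lit 22012] false,
   Spec.mk (nat_lit 41698) (nat_lit 0) [nat_lit 28576, nat_lit 46072, nat_lit 40240, nat_lit 41860, nat_lit 41752, nat_lit 41680, nat_lit 41692, nat_lit 41700] (nat_lit 0) [nat_lit 22016] false,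
   Spec.mk (nat_lit 41700) (nat_lit 0) [nat_lit 28578, nat_lit 46074, nat_lit 40242, nat_lit 41862, nat_lit 41754, nat_lit 41682, nat_lit 41694, nat_lit 41706, nat_lit 41698] (nat_lit 1) [nat_lit 22018] false,
   Spec.mk (nat_lit 41706) (nat_lit 0) [nat_lit 28584, nat_lit 46080, nat_lit 40248, nat_lit 41868, nat_lit 41760, nat_lit 41700] (nat_lit 0) [nat_lit 22024] false,
   Spec.mk (nat_lit 41720) (nat_lit 0) [nat_lit 28598, nat_lit 46094, nat_lit 40262, nat_lit 41882, nat_lit 41666, nat_lit 41726, nat_lit 41722] (nat_lit 0) [] false,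
   Spec.mk (nat_lit 41722) (nat_lit 0) [nat_lit 28600, nat_lit 46096, nat_lit 40264, nat_lit 41884, nat_lit 41668, nat_lit 41728, nat_lit 41720] (nat_lit 2) [nat_lit 22040] false,
   Spec.mk (nat_lit 41726) (nat_lit 0) [nat_lit 28604, nat_lit 46100, nat_lit 40268, nat_lit 41888, nat_lit 41672, nat_lit 41744, nat_lit 41720, nat_lit 41728] (nat_lit 2) [] false,
   Spec.mk (nat_lit 41728) (nat_lit 0) [nat_lit 28606, nat_lit 46102, nat_lit 40270, nat_lit 41890, nat_lit 41674, nat_lit 41746, nat_lit 41722, nat_lit 41734, nat_lit 41726, nat_lit 41730] (nat_lit 2) [nat_lit 22046] false,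
   Spec.mk (nat_lit 41730) (nat_lit 0) [nat_lit 28608, nat_lit 46104, nat_lit 40272, nat_lit 41892, nat_lit 41676, nat_lit 41748, nat_lit 41736, nat_lit 41728] (nat_lit 4) [nat_lit 22048] false,
   Spec.mk (nat_lit 41734) (nat_lit 0) [nat_lit 28612, nat_lit 46108, nat_lit 40276, nat_lit 41896, nat_lit 41680, nat_lit 41752, nat_lit 41728, nat_lit 41736] (nat_lit 4) [nat_lit 22052] false,
   Spec.mk (nat_lit 41736) (nat_lit 0) [nat_lit 28614, nat_lit 46110, nat_lit 40278, nat_lit 41898, nat_lit 41682, nat_lit 41754, nat_lit 41730, nat_lit 41734] (nat_lit 4) [nat_lit 22054] false,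
   Spec.mk (nat_lit 41744) (nat_lit 0) [nat_lit 28622, nat_lit 46118, nat_lit 40286, nat_lit 41906, nat_lit 41690, nat_lit 41726, nat_lit 41746] (nat_lit 0) [] false,
   Spec.mk (nat_lit 41746) (nat_lit 0) [nat_lit 28624, nat_lit 46120, nat_lit 40288, nat_lit 41908, nat_lit 41692, nat_lit 41728, nat_lit 41752, nat_lit 41744, nat_lit 41748] (nat_lit 1) [nat_lit 22064] false,
   Spec.mk (nat_lit 41748) (nat_lit 0) [nat_lit 28626, nat_lit 46122, nat_lit 40290, nat_lit 41910, nat_lit 41694, nat_lit 41730, nat_lit 41754, nat_lit 41746] (nat_lit 4) [nat_lit 22066] false,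
   Spec.mk (nat_lit 41752) (nat_lit 0) [nat_lit 28630, nat_lit 46126, nat_lit 40294, nat_lit 41914, nat_lit 41698, nat_lit 41734, nat_lit 41770, nat_lit 41746, nat_lit 41754] (nat_lit 1) [nat_lit 22070] false,
   Spec.mk (nat_lit 41754) (nat_lit 0) [nat_lit 28632, nat_lit 46128, nat_lit 40296, nat_lit 41916, nat_lit 41700, nat_lit 41736, nat_lit 41772, nat_lit 41748, nat_lit 41760, nat_lit 41752] (nat_lit 2) [nat_lit 22072] false,
   Spec.mk (nat_lit 41760) (nat_lit 0) [nat_lit 28638, nat_lit 46134, nat_lit 40302, nat_lit 41922, nat_lit 41706, nat_lit 41778, nat_lit 41754] (nat_lit 2) [nat_lit 22078] false,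
   Spec.mk (nat_lit 41770) (nat_lit 0) [nat_lit 28648, nat_lit 46144, nat_lit 40312, nat_lit 41932, nat_lit 41752, nat_lit 41772] (nat_lit 0) [nat_lit 22088] false,
   Spec.mk (nat_lit 41772) (nat_lit 0) [nat_lit 28650, nat_lit 46146, nat_lit 40314, nat_lit 41934, nat_lit 41754, nat_lit 41778, nat_lit 41770] (nat_lit 2) [nat_lit 22090] false,
   Spec.mk (nat_lit 41778) (nat_lit 0) [nat_lit 28656, nat_lit 46152, nat_lit 40320, nat_lit 41940, nat_lit 41760, nat_lit 41772] (nat_lit 0) [nat_lit 22096] false,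
   Spec.mk (nat_lit 41804) (nat_lit 2) [nat_lit 28682, nat_lit 46178, nat_lit 40346, nat_lit 42290, nat_lit 41642, nat_lit 41810] (nat_lit 0) [] false,
   Spec.mk (nat_lit 41810) (nat_lit 1) [nat_lit 28688, nat_lit 46184, nat_lit 40352, nat_lit 42296, nat_lit 41648, nat_lit 41828, nat_lit 41804, nat_lit 41816, nat_lit 41812] (nat_lit 0) [] false,
   Spec.mk (nat_lit 41812) (nat_lit 0) [nat_lit 28690, nat_lit 46186, nat_lit 40354, nat_lit 42298, nat_lit 41650, nat_lit 41830, nat_lit 41818, nat_lit 41810] (nat_lit 0) [nat_lit 22130] false,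
   Spec.mk (nat_lit 41816) (nat_lit 0) [nat_lit 28694, nat_lit 46190, nat_lit 40358, nat_lit 42302, nat_lit 41654, nat_lit 41834, nat_lit 41810, nat_lit 41818] (nat_lit 2) [] false,
   Spec.mk (nat_lit 41818) (nat_lit 0) [nat_lit 28696, nat_lit 46192, nat_lit 40360, nat_lit 42304, nat_lit 41656, nat_lit 41836, nat_lit 41812, nat_lit 41816, nat_lit 41820] (nat_lit 1) [nat_lit 22136] false,
   Spec.mk (nat_lit 41820) (nat_lit 0) [nat_lit 28698, nat_lit 46194, nat_lit 40362, nat_lit 42306, nat_lit 41658, nat_lit 41838, nat_lit 41818] (nat_lit 2) [nat_lit 22138] false,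
   Spec.mk (nat_lit 41828) (nat_lit 0) [nat_lit 28706, nat_lit 46202, nat_lit 40370, nat_lit 42314, nat_lit 41666, nat_lit 41882, nat_lit 41810, nat_lit 41834, nat_lit 41830] (nat_lit 0) [] false,
   Spec.mk (nat_lit 41830) (nat_lit 0) [nat_lit 28708, nat_lit 46204, nat_lit 40372, nat_lit 42316, nat_lit 41668, nat_lit 41884, nat_lit 41812, nat_lit 41836, nat_lit 41828] (nat_lit 2) [nat_lit 22148] false,
   Spec.mk (nat_lit 41834) (nat_lit 0) [nat_lit 28712, nat_lit 46208, nat_lit 40376, nat_lit 42320, nat_lit 41672, nat_lit 41888, nat_lit 41816, nat_lit 41852, nat_lit 41828, nat_lit 41836] (nat_lit 1) [] false,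
   Spec.mk (nat_lit 41836) (nat_lit 0) [nat_lit 28714, nat_lit 46210, nat_lit 40378, nat_lit 42322, nat_lit 41674, nat_lit 41890, nat_lit 41818, nat_lit 41854, nat_lit 41830, nat_lit 41842, nat_lit 41834, nat_lit 41838] (nat_lit 1) [nat_lit 22154] false,
   Spec.mk (nat_lit 41838) (nat_lit 0) [nat_lit 28716, nat_lit 46212, nat_lit 40380, nat_lit 42324, nat_lit 41676, nat_lit 41892, nat_lit 41820, nat_lit 41856, nat_lit 41844, nat_lit 41836] (nat_lit 3) [nat_lit 22156] false,
   Spec.mk (nat_lit 41842) (nat_lit 0) [nat_lit 28720, nat_lit 46216, nat_lit 40384, nat_lit 42328, nat_lit 41680, nat_lit 41896, nat_lit 41860, nat_lit 41836, nat_lit 41844] (nat_lit 2) [nat_lit 22160] false,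
   Spec.mk (nat_lit 41844) (nat_lit 0) [nat_lit 28722, nat_lit 46218, nat_lit 40386, nat_lit 42330, nat_lit 41682, nat_lit 41898, nat_lit 41862, nat_lit 41838, nat_lit 41842] (nat_lit 2) [nat_lit 22162] false,
   Spec.mk (nat_lit 41852) (nat_lit 0) [nat_lit 28730, nat_lit 46226, nat_lit 40394, nat_lit 42338, nat_lit 41690, nat_lit 41906, nat_lit 41834, nat_lit 41854] (nat_lit 2) [] false,
   Spec.mk (nat_lit 41854) (nat_lit 0) [nat_lit 28732, nat_lit 46228, nat_lit 40396, nat_lit 42340, nat_lit 41692, nat_lit 41908, nat_lit 41836, nat_lit 41860, nat_lit 41852, nat_lit 41856] (nat_lit 3) [nat_lit 22172] false,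
   Spec.mk (nat_lit 41856) (nat_lit 0) [nat_lit 28734, nat_lit 46230, nat_lit 40398, nat_lit 42342, nat_lit 41694, nat_lit 41910, nat_lit 41838, nat_lit 41862, nat_lit 41854] (nat_lit 6) [nat_lit 22174] false,
   Spec.mk (nat_lit 41860) (nat_lit 0) [nat_lit 28738, nat_lit 46234, nat_lit 40402, nat_lit 42346, nat_lit 41698, nat_lit 41914, nat_lit 41842, nat_lit 41854, nat_lit 41862] (nat_lit 2) [nat_lit 22178] false,
   Spec.mk (nat_lit 41862) (nat_lit 0) [nat_lit 28740, nat_lit 46236, nat_lit 40404, nat_lit 42348, nat_lit 41700, nat_lit 41916, nat_lit 41844, nat_lit 41856, nat_lit 41868, nat_lit 41860] (nat_lit 3) [nat_lit 22180] false,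
   Spec.mk (nat_lit 41868) (nat_lit 0) [nat_lit 28746, nat_lit 46242, nat_lit 40410, nat_lit 42354, nat_lit 41706, nat_lit 41922, nat_lit 41862] (nat_lit 2) [nat_lit 22186] false,
   Spec.mk (nat_lit 41882) (nat_lit 1) [nat_lit 28760, nat_lit 46256, nat_lit 40424, nat_lit 42368, nat_lit 41720, nat_lit 42044, nat_lit 41828, nat_lit 41888, nat_lit 41884] (nat_lit 0) [] false,
   Spec.mk (nat_lit 41884) (nat_lit 0) [nat_lit 28762, nat_lit 46258, nat_lit 40426, nat_lit 42370, nat_lit 41722, nat_lit 42046, nat_lit 41830, nat_lit 41890, nat_lit 41882] (nat_lit 1) [nat_lit 22202] false]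

noncomputable def sp94 : List Spec :=
  [Spec.mk (nat_lit 41888) (nat_lit 0) [nat_lit 28766, nat_lit 46262, nat_lit 40430, nat_lit 42374, nat_lit 41726, nat_lit 42050, nat_lit 41834, nat_lit 41906, nat_lit 41882, nat_lit 41890] (nat_lit 1) [] false,
   Spec.mk (nat_lit 41890) (nat_lit 0) [nat_lit 28768, nat_lit 46264, nat_lit 40432, nat_lit 42376, nat_lit 41728, nat_lit 42052, nat_lit 41836, nat_lit 41908, nat_lit 41884, nat_lit 41896, nat_lit 41888, nat_lit 41892] (nat_lit 1) [nat_lit 22208] false,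
   Spec.mk (nat_lit 41892) (nat_lit 0) [nat_lit 28770, nat_lit 46266, nat_lit 40434, nat_lit 42378, nat_lit 41730, nat_lit 42054, nat_lit 41838, nat_lit 41910, nat_lit 41898, nat_lit 41890] (nat_lit 3) [nat_lit 22210] false,
   Spec.mk (nat_lit 41896) (nat_lit 0) [nat_lit 28774, nat_lit 46270, nat_lit 40438, nat_lit 42382, nat_lit 41734, nat_lit 42058, nat_lit 41842, nat_lit 41914, nat_lit 41890, nat_lit 41898] (nat_lit 3) [nat_lit 22214] false,
   Spec.mk (nat_lit 41898) (nat_lit 0) [nat_lit 28776, nat_lit 46272, nat_lit 40440, nat_lit 42384, nat_lit 41736, nat_lit 42060, nat_lit 41844, nat_lit 41916, nat_lit 41892, nat_lit 41896] (nat_lit 3) [nat_lit 22216] false,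
   Spec.mk (nat_lit 41906) (nat_lit 0) [nat_lit 28784, nat_lit 46280, nat_lit 40448, nat_lit 42392, nat_lit 41744, nat_lit 42068, nat_lit 41852, nat_lit 41960, nat_lit 41888, nat_lit 41908] (nat_lit 0) [] false,
   Spec.mk (nat_lit 41908) (nat_lit 0) [nat_lit 28786, nat_lit 46282, nat_lit 40450, nat_lit 42394, nat_lit 41746, nat_lit 42070, nat_lit 41854, nat_lit 41962, nat_lit 41890, nat_lit 41914, nat_lit 41906, nat_lit 41910] (nat_lit 1) [nat_lit 22226] false,
   Spec.mk (nat_lit 41910) (nat_lit 0) [nat_lit 28788, nat_lit 46284, nat_lit 40452, nat_lit 42396, nat_lit 41748, nat_lit 42072, nat_lit 41856, nat_lit 41964, nat_lit 41892, nat_lit 41916, nat_lit 41908] (nat_lit 4) [nat_lit 22228] false,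
   Spec.mk (nat_lit 41914) (nat_lit 0) [nat_lit 28792, nat_lit 46288, nat_lit 40456, nat_lit 42400, nat_lit 41752, nat_lit 42076, nat_lit 41860, nat_lit 41968, nat_lit 41896, nat_lit 41932, nat_lit 41908, nat_lit 41916] (nat_lit 1) [nat_lit 22232] false,
   Spec.mk (nat_lit 41916) (nat_lit 0) [nat_lit 28794, nat_lit 46290, nat_lit 40458, nat_lit 42402, nat_lit 41754, nat_lit 42078, nat_lit 41862, nat_lit 41970, nat_lit 41898, nat_lit 41934, nat_lit 41910, nat_lit 41922, nat_lit 41914] (nat_lit 2) [nat_lit 22234] false,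
   Spec.mk (nat_lit 41922) (nat_lit 0) [nat_lit 28800, nat_lit 46296, nat_lit 40464, nat_lit 42408, nat_lit 41760, nat_lit 42084, nat_lit 41868, nat_lit 41976, nat_lit 41940, nat_lit 41916] (nat_lit 2) [nat_lit 22240] false,
   Spec.mk (nat_lit 41932) (nat_lit 0) [nat_lit 28810, nat_lit 46306, nat_lit 40474, nat_lit 42418, nat_lit 41770, nat_lit 42094, nat_lit 41986, nat_lit 41914, nat_lit 41934] (nat_lit 1) [nat_lit 22250] false,
   Spec.mk (nat_lit 41934) (nat_lit 0) [nat_lit 28812, nat_lit 46308, nat_lit 40476, nat_lit 42420, nat_lit 41772, nat_lit 42096, nat_lit 41988, nat_lit 41916, nat_lit 41940, nat_lit 41932] (nat_lit 3) [nat_lit 22252] false,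
   Spec.mk (nat_lit 41940) (nat_lit 0) [nat_lit 28818, nat_lit 46314, nat_lit 40482, nat_lit 42426, nat_lit 41778, nat_lit 42102, nat_lit 41994, nat_lit 41922, nat_lit 41934] (nat_lit 1) [nat_lit 22258] false,
   Spec.mk (nat_lit 41960) (nat_lit 0) [nat_lit 28838, nat_lit 46334, nat_lit 40502, nat_lit 42446, nat_lit 42122, nat_lit 41906, nat_lit 41962] (nat_lit 0) [] false,
   Spec.mk (nat_lit 41962) (nat_lit 0) [nat_lit 28840, nat_lit 46336, nat_lit 40504, nat_lit 42448, nat_lit 42124, nat_lit 41908, nat_lit 41968, nat_lit 41960, nat_lit 41964] (nat_lit 1) [nat_lit 22280] false,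
   Spec.mk (nat_lit 41964) (nat_lit 0) [nat_lit 28842, nat_lit 46338, nat_lit 40506, nat_lit 42450, nat_lit 42126, nat_lit 41910, nat_lit 41970, nat_lit 41962] (nat_lit 4) [nat_lit 22282] false,
   Spec.mk (nat_lit 41968) (nat_lit 0) [nat_lit 28846, nat_lit 46342, nat_lit 40510, nat_lit 42454, nat_lit 42130, nat_lit 41914, nat_lit 41986, nat_lit 41962, nat_lit 41970] (nat_lit 2) [nat_lit 22286] false,
   Spec.mk (nat_lit 41970) (nat_lit 0) [nat_lit 28848, nat_lit 46344, nat_lit 40512, nat_lit 42456, nat_lit 42132, nat_lit 41916, nat_lit 41988, nat_lit 41964, nat_lit 41976, nat_lit 41968] (nat_lit 3) [nat_lit 22288] false,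
   Spec.mk (nat_lit 41976) (nat_lit 0) [nat_lit 28854, nat_lit 46350, nat_lit 40518, nat_lit 42462, nat_lit 42138, nat_lit 41922, nat_lit 41994, nat_lit 41970] (nat_lit 4) [nat_lit 22294] false,
   Spec.mk (nat_lit 41986) (nat_lit 0) [nat_lit 28864, nat_lit 46360, nat_lit 40528, nat_lit 42472, nat_lit 42148, nat_lit 41932, nat_lit 41968, nat_lit 41988] (nat_lit 0) [nat_lit 22304] false,
   Spec.mk (nat_lit 41988) (nat_lit 0) [nat_lit 28866, nat_lit 46362, nat_lit 40530, nat_lit 42474, nat_lit 42150, nat_lit 41934, nat_lit 41970, nat_lit 41994, nat_lit 41986] (nat_lit 2) [nat_lit 22306] false,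
   Spec.mk (nat_lit 41994) (nat_lit 0) [nat_lit 28872, nat_lit 46368, nat_lit 40536, nat_lit 42480, nat_lit 42156, nat_lit 41940, nat_lit 41976, nat_lit 42012, nat_lit 41988] (nat_lit 1) [nat_lit 22312] false,
   Spec.mk (nat_lit 42012) (nat_lit 0) [nat_lit 28890, nat_lit 46386, nat_lit 40554, nat_lit 42498, nat_lit 42174, nat_lit 41994] (nat_lit 0) [nat_lit 22330] false,
   Spec.mk (nat_lit 42044) (nat_lit 0) [nat_lit 28922, nat_lit 46418, nat_lit 40586, nat_lit 42530, nat_lit 41882, nat_lit 42050, nat_lit 42046] (nat_lit 0) [] false,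
   Spec.mk (nat_lit 42046) (nat_lit 0) [nat_lit 28924, nat_lit 46420, nat_lit 40588, nat_lit 42532, nat_lit 41884, nat_lit 42052, nat_lit 42044] (nat_lit 2) [nat_lit 22364] false,
   Spec.mk (nat_lit 42050) (nat_lit 0) [nat_lit 28928, nat_lit 46424, nat_lit 40592, nat_lit 42536, nat_lit 41888, nat_lit 42068, nat_lit 42044, nat_lit 42052] (nat_lit 2) [] false,
   Spec.mk (nat_lit 42052) (nat_lit 0) [nat_lit 28930, nat_lit 46426, nat_lit 40594, nat_lit 42538, nat_lit 41890, nat_lit 42070, nat_lit 42046, nat_lit 42058, nat_lit 42050, nat_lit 42054] (nat_lit 2) [nat_lit 22370] false,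
   Spec.mk (nat_lit 42054) (nat_lit 0) [nat_lit 28932, nat_lit 46428, nat_lit 40596, nat_lit 42540, nat_lit 41892, nat_lit 42072, nat_lit 42060, nat_lit 42052] (nat_lit 4) [nat_lit 22372] false,
   Spec.mk (nat_lit 42058) (nat_lit 0) [nat_lit 28936, nat_lit 46432, nat_lit 40600, nat_lit 42544, nat_lit 41896, nat_lit 42076, nat_lit 42052, nat_lit 42060] (nat_lit 4) [nat_lit 22376] false,
   Spec.mk (nat_lit 42060) (nat_lit 0) [nat_lit 28938, nat_lit 46434, nat_lit 40602, nat_lit 42546, nat_lit 41898, nat_lit 42078, nat_lit 42054, nat_lit 42058] (nat_lit 4) [nat_lit 22378] false,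
   Spec.mk (nat_lit 42068) (nat_lit 0) [nat_lit 28946, nat_lit 46442, nat_lit 40610, nat_lit 42554, nat_lit 41906, nat_lit 42122, nat_lit 42050, nat_lit 42070] (nat_lit 2) [] false,
   Spec.mk (nat_lit 42070) (nat_lit 0) [nat_lit 28948, nat_lit 46444, nat_lit 40612, nat_lit 42556, nat_lit 41908, nat_lit 42124, nat_lit 42052, nat_lit 42076, nat_lit 42068, nat_lit 42072] (nat_lit 3) [nat_lit 22388] false,
   Spec.mk (nat_lit 42072) (nat_lit 0) [nat_lit 28950, nat_lit 46446, nat_lit 40614, nat_lit 42558, nat_lit 41910, nat_lit 42126, nat_lit 42054, nat_lit 42078, nat_lit 42070] (nat_lit 6) [nat_lit 22390] false,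
   Spec.mk (nat_lit 42076) (nat_lit 0) [nat_lit 28954, nat_lit 46450, nat_lit 40618, nat_lit 42562, nat_lit 41914, nat_lit 42130, nat_lit 42058, nat_lit 42094, nat_lit 42070, nat_lit 42078] (nat_lit 3) [nat_lit 22394] false,
   Spec.mk (nat_lit 42078) (nat_lit 0) [nat_lit 28956, nat_lit 46452, nat_lit 40620, nat_lit 42564, nat_lit 41916, nat_lit 42132, nat_lit 42060, nat_lit 42096, nat_lit 42072, nat_lit 42084, nat_lit 42076] (nat_lit 4) [nat_lit 22396] false,
   Spec.mk (nat_lit 42084) (nat_lit 0) [nat_lit 28962, nat_lit 46458, nat_lit 40626, nat_lit 42570, nat_lit 41922, nat_lit 42138, nat_lit 42102, nat_lit 42078] (nat_lit 4) [nat_lit 22402] false,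
   Spec.mk (nat_lit 42094) (nat_lit 0) [nat_lit 28972, nat_lit 46468, nat_lit 40636, nat_lit 42580, nat_lit 41932, nat_lit 42148, nat_lit 42076, nat_lit 42096] (nat_lit 4) [nat_lit 22412] false,
   Spec.mk (nat_lit 42096) (nat_lit 0) [nat_lit 28974, nat_lit 46470, nat_lit 40638, nat_lit 42582, nat_lit 41934, nat_lit 42150, nat_lit 42078, nat_lit 42102, nat_lit 42094] (nat_lit 6) [nat_lit 22414] false,
   Spec.mk (nat_lit 42102) (nat_lit 0) [nat_lit 28980, nat_lit 46476, nat_lit 40644, nat_lit 42588, nat_lit 41940, nat_lit 42156, nat_lit 42084, nat_lit 42096] (nat_lit 4) [nat_lit 22420] false,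
   Spec.mk (nat_lit 42122) (nat_lit 0) [nat_lit 29000, nat_lit 46496, nat_lit 40664, nat_lit 42608, nat_lit 41960, nat_lit 42068, nat_lit 42124] (nat_lit 0) [] false,
   Spec.mk (nat_lit 42124) (nat_lit 0) [nat_lit 29002, nat_lit 46498, nat_lit 40666, nat_lit 42610, nat_lit 41962, nat_lit 42070, nat_lit 42130, nat_lit 42122, nat_lit 42126] (nat_lit 1) [nat_lit 22442] false,
   Spec.mk (nat_lit 42126) (nat_lit 0) [nat_lit 29004, nat_lit 46500, nat_lit 40668, nat_lit 42612, nat_lit 41964, nat_lit 42072, nat_lit 42132, nat_lit 42124] (nat_lit 4) [nat_lit 22444] false,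
   Spec.mk (nat_lit 42130) (nat_lit 0) [nat_lit 29008, nat_lit 46504, nat_lit 40672, nat_lit 42616, nat_lit 41968, nat_lit 42076, nat_lit 42148, nat_lit 42124, nat_lit 42132] (nat_lit 2) [nat_lit 22448] false,
   Spec.mk (nat_lit 42132) (nat_lit 0) [nat_lit 29010, nat_lit 46506, nat_lit 40674, nat_lit 42618, nat_lit 41970, nat_lit 42078, nat_lit 42150, nat_lit 42126, nat_lit 42138, nat_lit 42130] (nat_lit 3) [nat_lit 22450] false,
   Spec.mk (nat_lit 42138) (nat_lit 0) [nat_lit 29016, nat_lit 46512, nat_lit 40680, nat_lit 42624, nat_lit 41976, nat_lit 42084, nat_lit 42156, nat_lit 42132] (nat_lit 4) [nat_lit 22456] false,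
   Spec.mk (nat_lit 42148) (nat_lit 0) [nat_lit 29026, nat_lit 46522, nat_lit 40690, nat_lit 42634, nat_lit 41986, nat_lit 42094, nat_lit 42202, nat_lit 42130, nat_lit 42150] (nat_lit 1) [nat_lit 22466] false,
   Spec.mk (nat_lit 42150) (nat_lit 0) [nat_lit 29028, nat_lit 46524, nat_lit 40692, nat_lit 42636, nat_lit 41988, nat_lit 42096, nat_lit 42204, nat_lit 42132, nat_lit 42156, nat_lit 42148] (nat_lit 3) [nat_lit 22468] false,
   Spec.mk (nat_lit 42156) (nat_lit 0) [nat_lit 29034, nat_lit 46530, nat_lit 40698, nat_lit 42642, nat_lit 41994, nat_lit 42102, nat_lit 42210, nat_lit 42138, nat_lit 42174, nat_lit 42150] (nat_lit 2) [nat_lit 22474] false,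
   Spec.mk (nat_lit 42174) (nat_lit 0) [nat_lit 29052, nat_lit 46548, nat_lit 40716, nat_lit 42660, nat_lit 42012, nat_lit 42228, nat_lit 42156] (nat_lit 2) [nat_lit 22492] false,
   Spec.mk (nat_lit 42202) (nat_lit 0) [nat_lit 29080, nat_lit 46576, nat_lit 40744, nat_lit 42688, nat_lit 42148, nat_lit 42204] (nat_lit 0) [nat_lit 22520] false,
   Spec.mk (nat_lit 42204) (nat_lit 0) [nat_lit 29082, nat_lit 46578, nat_lit 40746, nat_lit 42690, nat_lit 42150, nat_lit 42210, nat_lit 42202] (nat_lit 2) [nat_lit 22522] false,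
   Spec.mk (nat_lit 42210) (nat_lit 0) [nat_lit 29088, nat_lit 46584, nat_lit 40752, nat_lit 42696, nat_lit 42156, nat_lit 42228, nat_lit 42204] (nat_lit 2) [nat_lit 22528] false,
   Spec.mk (nat_lit 42228) (nat_lit 0) [nat_lit 29106, nat_lit 46602, nat_lit 40770, nat_lit 42714, nat_lit 42174, nat_lit 42210] (nat_lit 0) [nat_lit 22546] false,
   Spec.mk (nat_lit 42290) (nat_lit 3) [nat_lit 29168, nat_lit 46664, nat_lit 40832, nat_lit 43748, nat_lit 41804, nat_lit 42296] (nat_lit 0) [] false,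
   Spec.mk (nat_lit 42296) (nat_lit 2) [nat_lit 29174, nat_lit 46670, nat_lit 40838, nat_lit 43754, nat_lit 41810, nat_lit 42314, nat_lit 42290, nat_lit 42302, nat_lit 42298] (nat_lit 0) [] false,
   Spec.mk (nat_lit 42298) (nat_lit 1) [nat_lit 29176, nat_lit 46672, nat_lit 40840, nat_lit 43756, nat_lit 41812, nat_lit 42316, nat_lit 42304, nat_lit 42296] (nat_lit 0) [nat_lit 22616] false,
   Spec.mk (nat_lit 42302) (nat_lit 0) [nat_lit 29180, nat_lit 46676, nat_lit 40844, nat_lit 43760, nat_lit 41816, nat_lit 42320, nat_lit 42296, nat_lit 42304] (nat_lit 1) [] false,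
   Spec.mk (nat_lit 42304) (nat_lit 0) [nat_lit 29182, nat_lit 46678, nat_lit 40846, nat_lit 43762, nat_lit 41818, nat_lit 42322, nat_lit 42298, nat_lit 42302, nat_lit 42306] (nat_lit 0) [nat_lit 22622] false,
   Spec.mk (nat_lit 42306) (nat_lit 0) [nat_lit 29184, nat_lit 46680, nat_lit 40848, nat_lit 43764, nat_lit 41820, nat_lit 42324, nat_lit 42304] (nat_lit 1) [nat_lit 22624] false]

noncomputable def sp95 : List Spec :=
  [Spec.mk (nat_lit 42314) (nat_lit 1) [nat_lit 29192, nat_lit 46688, nat_lit 40856, nat_lit 43772, nat_lit 41828, nat_lit 42368, nat_lit 42296, nat_lit 42320, nat_lit 42316] (nat_lit 0) [] false,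
   Spec.mk (nat_lit 42316) (nat_lit 0) [nat_lit 29194, nat_lit 46690, nat_lit 40858, nat_lit 43774, nat_lit 41830, nat_lit 42370, nat_lit 42298, nat_lit 42322, nat_lit 42314] (nat_lit 1) [nat_lit 22634] false,
   Spec.mk (nat_lit 42320) (nat_lit 0) [nat_lit 29198, nat_lit 46694, nat_lit 40862, nat_lit 43778, nat_lit 41834, nat_lit 42374, nat_lit 42302, nat_lit 42338, nat_lit 42314, nat_lit 42322] (nat_lit 0) [] false,
   Spec.mk (nat_lit 42322) (nat_lit 0) [nat_lit 29200, nat_lit 46696, nat_lit 40864, nat_lit 43780, nat_lit 41836, nat_lit 42376, nat_lit 42304, nat_lit 42340, nat_lit 42316, nat_lit 42328, nat_lit 42320, nat_lit 42324] (nat_lit 0) [nat_lit 22640] false,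
   Spec.mk (nat_lit 42324) (nat_lit 0) [nat_lit 29202, nat_lit 46698, nat_lit 40866, nat_lit 43782, nat_lit 41838, nat_lit 42378, nat_lit 42306, nat_lit 42342, nat_lit 42330, nat_lit 42322] (nat_lit 2) [nat_lit 22642] false,
   Spec.mk (nat_lit 42328) (nat_lit 0) [nat_lit 29206, nat_lit 46702, nat_lit 40870, nat_lit 43786, nat_lit 41842, nat_lit 42382, nat_lit 42346, nat_lit 42322, nat_lit 42330] (nat_lit 1) [nat_lit 22646] false,
   Spec.mk (nat_lit 42330) (nat_lit 0) [nat_lit 29208, nat_lit 46704, nat_lit 40872, nat_lit 43788, nat_lit 41844, nat_lit 42384, nat_lit 42348, nat_lit 42324, nat_lit 42328] (nat_lit 1) [nat_lit 22648] false,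
   Spec.mk (nat_lit 42338) (nat_lit 0) [nat_lit 29216, nat_lit 46712, nat_lit 40880, nat_lit 43796, nat_lit 41852, nat_lit 42392, nat_lit 42320, nat_lit 42340] (nat_lit 1) [] false,
   Spec.mk (nat_lit 42340) (nat_lit 0) [nat_lit 29218, nat_lit 46714, nat_lit 40882, nat_lit 43798, nat_lit 41854, nat_lit 42394, nat_lit 42322, nat_lit 42346, nat_lit 42338, nat_lit 42342] (nat_lit 2) [nat_lit 22658] false,
   Spec.mk (nat_lit 42342) (nat_lit 0) [nat_lit 29220, nat_lit 46716, nat_lit 40884, nat_lit 43800, nat_lit 41856, nat_lit 42396, nat_lit 42324, nat_lit 42348, nat_lit 42340] (nat_lit 5) [nat_lit 22660] false,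
   Spec.mk (nat_lit 42346) (nat_lit 0) [nat_lit 29224, nat_lit 46720, nat_lit 40888, nat_lit 43804, nat_lit 41860, nat_lit 42400, nat_lit 42328, nat_lit 42340, nat_lit 42348] (nat_lit 1) [nat_lit 22664] false,
   Spec.mk (nat_lit 42348) (nat_lit 0) [nat_lit 29226, nat_lit 46722, nat_lit 40890, nat_lit 43806, nat_lit 41862, nat_lit 42402, nat_lit 42330, nat_lit 42342, nat_lit 42354, nat_lit 42346] (nat_lit 2) [nat_lit 22666] false,
   Spec.mk (nat_lit 42354) (nat_lit 0) [nat_lit 29232, nat_lit 46728, nat_lit 40896, nat_lit 43812, nat_lit 41868, nat_lit 42408, nat_lit 42348] (nat_lit 1) [nat_lit 22672] false,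
   Spec.mk (nat_lit 42368) (nat_lit 1) [nat_lit 29246, nat_lit 46742, nat_lit 40910, nat_lit 43826, nat_lit 41882, nat_lit 42530, nat_lit 42314, nat_lit 42374, nat_lit 42370] (nat_lit 0) [] false,
   Spec.mk (nat_lit 42370) (nat_lit 0) [nat_lit 29248, nat_lit 46744, nat_lit 40912, nat_lit 43828, nat_lit 41884, nat_lit 42532, nat_lit 42316, nat_lit 42376, nat_lit 42368] (nat_lit 1) [nat_lit 22688] false,
   Spec.mk (nat_lit 42374) (nat_lit 0) [nat_lit 29252, nat_lit 46748, nat_lit 40916, nat_lit 43832, nat_lit 41888, nat_lit 42536, nat_lit 42320, nat_lit 42392, nat_lit 42368, nat_lit 42376] (nat_lit 1) [] false,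
   Spec.mk (nat_lit 42376) (nat_lit 0) [nat_lit 29254, nat_lit 46750, nat_lit 40918, nat_lit 43834, nat_lit 41890, nat_lit 42538, nat_lit 42322, nat_lit 42394, nat_lit 42370, nat_lit 42382, nat_lit 42374, nat_lit 42378] (nat_lit 1) [nat_lit 22694] false,
   Spec.mk (nat_lit 42378) (nat_lit 0) [nat_lit 29256, nat_lit 46752, nat_lit 40920, nat_lit 43836, nat_lit 41892, nat_lit 42540, nat_lit 42324, nat_lit 42396, nat_lit 42384, nat_lit 42376] (nat_lit 3) [nat_lit 22696] false,
   Spec.mk (nat_lit 42382) (nat_lit 0) [nat_lit 29260, nat_lit 46756, nat_lit 40924, nat_lit 43840, nat_lit 41896, nat_lit 42544, nat_lit 42328, nat_lit 42400, nat_lit 42376, nat_lit 42384] (nat_lit 3) [nat_lit 22700] false,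
   Spec.mk (nat_lit 42384) (nat_lit 0) [nat_lit 29262, nat_lit 46758, nat_lit 40926, nat_lit 43842, nat_lit 41898, nat_lit 42546, nat_lit 42330, nat_lit 42402, nat_lit 42378, nat_lit 42382] (nat_lit 3) [nat_lit 22702] false,
   Spec.mk (nat_lit 42392) (nat_lit 0) [nat_lit 29270, nat_lit 46766, nat_lit 40934, nat_lit 43850, nat_lit 41906, nat_lit 42554, nat_lit 42338, nat_lit 42446, nat_lit 42374, nat_lit 42394] (nat_lit 0) [] false,
   Spec.mk (nat_lit 42394) (nat_lit 0) [nat_lit 29272, nat_lit 46768, nat_lit 40936, nat_lit 43852, nat_lit 41908, nat_lit 42556, nat_lit 42340, nat_lit 42448, nat_lit 42376, nat_lit 42400, nat_lit 42392, nat_lit 42396] (nat_lit 1) [nat_lit 22712] false,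
   Spec.mk (nat_lit 42396) (nat_lit 0) [nat_lit 29274, nat_lit 46770, nat_lit 40938, nat_lit 43854, nat_lit 41910, nat_lit 42558, nat_lit 42342, nat_lit 42450, nat_lit 42378, nat_lit 42402, nat_lit 42394] (nat_lit 4) [nat_lit 22714] false,
   Spec.mk (nat_lit 42400) (nat_lit 0) [nat_lit 29278, nat_lit 46774, nat_lit 40942, nat_lit 43858, nat_lit 41914, nat_lit 42562, nat_lit 42346, nat_lit 42454, nat_lit 42382, nat_lit 42418, nat_lit 42394, nat_lit 42402] (nat_lit 1) [nat_lit 22718] false,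
   Spec.mk (nat_lit 42402) (nat_lit 0) [nat_lit 29280, nat_lit 46776, nat_lit 40944, nat_lit 43860, nat_lit 41916, nat_lit 42564, nat_lit 42348, nat_lit 42456, nat_lit 42384, nat_lit 42420, nat_lit 42396, nat_lit 42408, nat_lit 42400] (nat_lit 2) [nat_lit 22720] false,
   Spec.mk (nat_lit 42408) (nat_lit 0) [nat_lit 29286, nat_lit 46782, nat_lit 40950, nat_lit 43866, nat_lit 41922, nat_lit 42570, nat_lit 42354, nat_lit 42462, nat_lit 42426, nat_lit 42402] (nat_lit 2) [nat_lit 22726] false,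
   Spec.mk (nat_lit 42418) (nat_lit 0) [nat_lit 29296, nat_lit 46792, nat_lit 40960, nat_lit 43876, nat_lit 41932, nat_lit 42580, nat_lit 42472, nat_lit 42400, nat_lit 42420] (nat_lit 1) [nat_lit 22736] false,
   Spec.mk (nat_lit 42420) (nat_lit 0) [nat_lit 29298, nat_lit 46794, nat_lit 40962, nat_lit 43878, nat_lit 41934, nat_lit 42582, nat_lit 42474, nat_lit 42402, nat_lit 42426, nat_lit 42418] (nat_lit 3) [nat_lit 22738] false,
   Spec.mk (nat_lit 42426) (nat_lit 0) [nat_lit 29304, nat_lit 46800, nat_lit 40968, nat_lit 43884, nat_lit 41940, nat_lit 42588, nat_lit 42480, nat_lit 42408, nat_lit 42420] (nat_lit 1) [nat_lit 22744] false,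
   Spec.mk (nat_lit 42446) (nat_lit 0) [nat_lit 29324, nat_lit 46820, nat_lit 40988, nat_lit 43904, nat_lit 41960, nat_lit 42608, nat_lit 42392, nat_lit 42448] (nat_lit 1) [] false,
   Spec.mk (nat_lit 42448) (nat_lit 0) [nat_lit 29326, nat_lit 46822, nat_lit 40990, nat_lit 43906, nat_lit 41962, nat_lit 42610, nat_lit 42394, nat_lit 42454, nat_lit 42446, nat_lit 42450] (nat_lit 2) [nat_lit 22766] false,
   Spec.mk (nat_lit 42450) (nat_lit 0) [nat_lit 29328, nat_lit 46824, nat_lit 40992, nat_lit 43908, nat_lit 41964, nat_lit 42612, nat_lit 42396, nat_lit 42456, nat_lit 42448] (nat_lit 5) [nat_lit 22768] false,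
   Spec.mk (nat_lit 42454) (nat_lit 0) [nat_lit 29332, nat_lit 46828, nat_lit 40996, nat_lit 43912, nat_lit 41968, nat_lit 42616, nat_lit 42400, nat_lit 42472, nat_lit 42448, nat_lit 42456] (nat_lit 3) [nat_lit 22772] false,
   Spec.mk (nat_lit 42456) (nat_lit 0) [nat_lit 29334, nat_lit 46830, nat_lit 40998, nat_lit 43914, nat_lit 41970, nat_lit 42618, nat_lit 42402, nat_lit 42474, nat_lit 42450, nat_lit 42462, nat_lit 42454] (nat_lit 4) [nat_lit 22774] false,
   Spec.mk (nat_lit 42462) (nat_lit 0) [nat_lit 29340, nat_lit 46836, nat_lit 41004, nat_lit 43920, nat_lit 41976, nat_lit 42624, nat_lit 42408, nat_lit 42480, nat_lit 42456] (nat_lit 5) [nat_lit 22780] false,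
   Spec.mk (nat_lit 42472) (nat_lit 0) [nat_lit 29350, nat_lit 46846, nat_lit 41014, nat_lit 43930, nat_lit 41986, nat_lit 42634, nat_lit 42418, nat_lit 42454, nat_lit 42474] (nat_lit 1) [nat_lit 22790] false,
   Spec.mk (nat_lit 42474) (nat_lit 0) [nat_lit 29352, nat_lit 46848, nat_lit 41016, nat_lit 43932, nat_lit 41988, nat_lit 42636, nat_lit 42420, nat_lit 42456, nat_lit 42480, nat_lit 42472] (nat_lit 3) [nat_lit 22792] false,
   Spec.mk (nat_lit 42480) (nat_lit 0) [nat_lit 29358, nat_lit 46854, nat_lit 41022, nat_lit 43938, nat_lit 41994, nat_lit 42642, nat_lit 42426, nat_lit 42462, nat_lit 42498, nat_lit 42474] (nat_lit 2) [nat_lit 22798] false,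
   Spec.mk (nat_lit 42498) (nat_lit 0) [nat_lit 29376, nat_lit 46872, nat_lit 41040, nat_lit 43956, nat_lit 42012, nat_lit 42660, nat_lit 42480] (nat_lit 1) [nat_lit 22816] false,
   Spec.mk (nat_lit 42530) (nat_lit 2) [nat_lit 29408, nat_lit 46904, nat_lit 41072, nat_lit 43988, nat_lit 42044, nat_lit 43016, nat_lit 42368, nat_lit 42536, nat_lit 42532] (nat_lit 0) [] false,
   Spec.mk (nat_lit 42532) (nat_lit 0) [nat_lit 29410, nat_lit 46906, nat_lit 41074, nat_lit 43990, nat_lit 42046, nat_lit 43018, nat_lit 42370, nat_lit 42538, nat_lit 42530] (nat_lit 0) [nat_lit 22850] false,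
   Spec.mk (nat_lit 42536) (nat_lit 0) [nat_lit 29414, nat_lit 46910, nat_lit 41078, nat_lit 43994, nat_lit 42050, nat_lit 43022, nat_lit 42374, nat_lit 42554, nat_lit 42530, nat_lit 42538] (nat_lit 0) [] false,
   Spec.mk (nat_lit 42538) (nat_lit 0) [nat_lit 29416, nat_lit 46912, nat_lit 41080, nat_lit 43996, nat_lit 42052, nat_lit 43024, nat_lit 42376, nat_lit 42556, nat_lit 42532, nat_lit 42544, nat_lit 42536, nat_lit 42540] (nat_lit 0) [nat_lit 22856] false,
   Spec.mk (nat_lit 42540) (nat_lit 0) [nat_lit 29418, nat_lit 46914, nat_lit 41082, nat_lit 43998, nat_lit 42054, nat_lit 43026, nat_lit 42378, nat_lit 42558, nat_lit 42546, nat_lit 42538] (nat_lit 2) [nat_lit 22858] false,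
   Spec.mk (nat_lit 42544) (nat_lit 0) [nat_lit 29422, nat_lit 46918, nat_lit 41086, nat_lit 44002, nat_lit 42058, nat_lit 43030, nat_lit 42382, nat_lit 42562, nat_lit 42538, nat_lit 42546] (nat_lit 2) [nat_lit 22862] false,
   Spec.mk (nat_lit 42546) (nat_lit 0) [nat_lit 29424, nat_lit 46920, nat_lit 41088, nat_lit 44004, nat_lit 42060, nat_lit 43032, nat_lit 42384, nat_lit 42564, nat_lit 42540, nat_lit 42544] (nat_lit 2) [nat_lit 22864] false,
   Spec.mk (nat_lit 42554) (nat_lit 0) [nat_lit 29432, nat_lit 46928, nat_lit 41096, nat_lit 44012, nat_lit 42068, nat_lit 43040, nat_lit 42392, nat_lit 42608, nat_lit 42536, nat_lit 42556] (nat_lit 0) [] false,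
   Spec.mk (nat_lit 42556) (nat_lit 0) [nat_lit 29434, nat_lit 46930, nat_lit 41098, nat_lit 44014, nat_lit 42070, nat_lit 43042, nat_lit 42394, nat_lit 42610, nat_lit 42538, nat_lit 42562, nat_lit 42554, nat_lit 42558] (nat_lit 1) [nat_lit 22874] false,
   Spec.mk (nat_lit 42558) (nat_lit 0) [nat_lit 29436, nat_lit 46932, nat_lit 41100, nat_lit 44016, nat_lit 42072, nat_lit 43044, nat_lit 42396, nat_lit 42612, nat_lit 42540, nat_lit 42564, nat_lit 42556] (nat_lit 4) [nat_lit 22876] false,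
   Spec.mk (nat_lit 42562) (nat_lit 0) [nat_lit 29440, nat_lit 46936, nat_lit 41104, nat_lit 44020, nat_lit 42076, nat_lit 43048, nat_lit 42400, nat_lit 42616, nat_lit 42544, nat_lit 42580, nat_lit 42556, nat_lit 42564] (nat_lit 1) [nat_lit 22880] false,
   Spec.mk (nat_lit 42564) (nat_lit 0) [nat_lit 29442, nat_lit 46938, nat_lit 41106, nat_lit 44022, nat_lit 42078, nat_lit 43050, nat_lit 42402, nat_lit 42618, nat_lit 42546, nat_lit 42582, nat_lit 42558, nat_lit 42570, nat_lit 42562] (nat_lit 2) [nat_lit 22882] false,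
   Spec.mk (nat_lit 42570) (nat_lit 0) [nat_lit 29448, nat_lit 46944, nat_lit 41112, nat_lit 44028, nat_lit 42084, nat_lit 43056, nat_lit 42408, nat_lit 42624, nat_lit 42588, nat_lit 42564] (nat_lit 2) [nat_lit 22888] false,
   Spec.mk (nat_lit 42580) (nat_lit 0) [nat_lit 29458, nat_lit 46954, nat_lit 41122, nat_lit 44038, nat_lit 42094, nat_lit 43066, nat_lit 42418, nat_lit 42634, nat_lit 42562, nat_lit 42582] (nat_lit 2) [nat_lit 22898] false,
   Spec.mk (nat_lit 42582) (nat_lit 0) [nat_lit 29460, nat_lit 46956, nat_lit 41124, nat_lit 44040, nat_lit 42096, nat_lit 43068, nat_lit 42420, nat_lit 42636, nat_lit 42564, nat_lit 42588, nat_lit 42580] (nat_lit 4) [nat_lit 22900] false,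
   Spec.mk (nat_lit 42588) (nat_lit 0) [nat_lit 29466, nat_lit 46962, nat_lit 41130, nat_lit 44046, nat_lit 42102, nat_lit 43074, nat_lit 42426, nat_lit 42642, nat_lit 42570, nat_lit 42582] (nat_lit 2) [nat_lit 22906] false,
   Spec.mk (nat_lit 42608) (nat_lit 1) [nat_lit 29486, nat_lit 46982, nat_lit 41150, nat_lit 44066, nat_lit 42122, nat_lit 43094, nat_lit 42446, nat_lit 42770, nat_lit 42554, nat_lit 42610] (nat_lit 0) [] false,
   Spec.mk (nat_lit 42610) (nat_lit 0) [nat_lit 29488, nat_lit 46984, nat_lit 41152, nat_lit 44068, nat_lit 42124, nat_lit 43096, nat_lit 42448, nat_lit 42772, nat_lit 42556, nat_lit 42616, nat_lit 42608, nat_lit 42612] (nat_lit 0) [nat_lit 22928] false,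
   Spec.mk (nat_lit 42612) (nat_lit 0) [nat_lit 29490, nat_lit 46986, nat_lit 41154, nat_lit 44070, nat_lit 42126, nat_lit 43098, nat_lit 42450, nat_lit 42774, nat_lit 42558, nat_lit 42618, nat_lit 42610] (nat_lit 3) [nat_lit 22930] false,
   Spec.mk (nat_lit 42616) (nat_lit 0) [nat_lit 29494, nat_lit 46990, nat_lit 41158, nat_lit 44074, nat_lit 42130, nat_lit 43102, nat_lit 42454, nat_lit 42778, nat_lit 42562, nat_lit 42634, nat_lit 42610, nat_lit 42618] (nat_lit 1) [nat_lit 22934] false,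
   Spec.mk (nat_lit 42618) (nat_lit 0) [nat_lit 29496, nat_lit 46992, nat_lit 41160, nat_lit 44076, nat_lit 42132, nat_lit 43104, nat_lit 42456, nat_lit 42780, nat_lit 42564, nat_lit 42636, nat_lit 42612, nat_lit 42624, nat_lit 42616] (nat_lit 2) [nat_lit 22936] false]

noncomputable def sp96 : List Spec :=
  [Spec.mk (nat_lit 42624) (nat_lit 0) [nat_lit 29502, nat_lit 46998, nat_lit 41166, nat_lit 44082, nat_lit 42138, nat_lit 43110, nat_lit 42462, nat_lit 42786, nat_lit 42570, nat_lit 42642, nat_lit 42618] (nat_lit 3) [nat_lit 22942] false,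
   Spec.mk (nat_lit 42634) (nat_lit 0) [nat_lit 29512, nat_lit 47008, nat_lit 41176, nat_lit 44092, nat_lit 42148, nat_lit 43120, nat_lit 42472, nat_lit 42796, nat_lit 42580, nat_lit 42688, nat_lit 42616, nat_lit 42636] (nat_lit 0) [nat_lit 22952] false,
   Spec.mk (nat_lit 42636) (nat_lit 0) [nat_lit 29514, nat_lit 47010, nat_lit 41178, nat_lit 44094, nat_lit 42150, nat_lit 43122, nat_lit 42474, nat_lit 42798, nat_lit 42582, nat_lit 42690, nat_lit 42618, nat_lit 42642, nat_lit 42634] (nat_lit 2) [nat_lit 22954] false,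
   Spec.mk (nat_lit 42642) (nat_lit 0) [nat_lit 29520, nat_lit 47016, nat_lit 41184, nat_lit 44100, nat_lit 42156, nat_lit 43128, nat_lit 42480, nat_lit 42804, nat_lit 42588, nat_lit 42696, nat_lit 42624, nat_lit 42660, nat_lit 42636] (nat_lit 1) [nat_lit 22960] false,
   Spec.mk (nat_lit 42660) (nat_lit 0) [nat_lit 29538, nat_lit 47034, nat_lit 41202, nat_lit 44118, nat_lit 42174, nat_lit 43146, nat_lit 42498, nat_lit 42822, nat_lit 42714, nat_lit 42642] (nat_lit 1) [nat_lit 22978] false,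
   Spec.mk (nat_lit 42688) (nat_lit 0) [nat_lit 29566, nat_lit 47062, nat_lit 41230, nat_lit 44146, nat_lit 42202, nat_lit 43174, nat_lit 42850, nat_lit 42634, nat_lit 42690] (nat_lit 0) [nat_lit 23006] false,
   Spec.mk (nat_lit 42690) (nat_lit 0) [nat_lit 29568, nat_lit 47064, nat_lit 41232, nat_lit 44148, nat_lit 42204, nat_lit 43176, nat_lit 42852, nat_lit 42636, nat_lit 42696, nat_lit 42688] (nat_lit 2) [nat_lit 23008] false,
   Spec.mk (nat_lit 42696) (nat_lit 0) [nat_lit 29574, nat_lit 47070, nat_lit 41238, nat_lit 44154, nat_lit 42210, nat_lit 43182, nat_lit 42858, nat_lit 42642, nat_lit 42714, nat_lit 42690] (nat_lit 2) [nat_lit 23014] false,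
   Spec.mk (nat_lit 42714) (nat_lit 0) [nat_lit 29592, nat_lit 47088, nat_lit 41256, nat_lit 44172, nat_lit 42228, nat_lit 43200, nat_lit 42876, nat_lit 42660, nat_lit 42696] (nat_lit 0) [nat_lit 23032] false,
   Spec.mk (nat_lit 42770) (nat_lit 1) [nat_lit 29648, nat_lit 47144, nat_lit 41312, nat_lit 44228, nat_lit 43256, nat_lit 42608, nat_lit 42772] (nat_lit 0) [] false,
   Spec.mk (nat_lit 42772) (nat_lit 0) [nat_lit 29650, nat_lit 47146, nat_lit 41314, nat_lit 44230, nat_lit 43258, nat_lit 42610, nat_lit 42778, nat_lit 42770, nat_lit 42774] (nat_lit 0) [nat_lit 23090] false,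
   Spec.mk (nat_lit 42774) (nat_lit 0) [nat_lit 29652, nat_lit 47148, nat_lit 41316, nat_lit 44232, nat_lit 43260, nat_lit 42612, nat_lit 42780, nat_lit 42772] (nat_lit 3) [nat_lit 23092] false,
   Spec.mk (nat_lit 42778) (nat_lit 0) [nat_lit 29656, nat_lit 47152, nat_lit 41320, nat_lit 44236, nat_lit 43264, nat_lit 42616, nat_lit 42796, nat_lit 42772, nat_lit 42780] (nat_lit 1) [nat_lit 23096] false,
   Spec.mk (nat_lit 42780) (nat_lit 0) [nat_lit 29658, nat_lit 47154, nat_lit 41322, nat_lit 44238, nat_lit 43266, nat_lit 42618, nat_lit 42798, nat_lit 42774, nat_lit 42786, nat_lit 42778] (nat_lit 2) [nat_lit 23098] false,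
   Spec.mk (nat_lit 42786) (nat_lit 0) [nat_lit 29664, nat_lit 47160, nat_lit 41328, nat_lit 44244, nat_lit 43272, nat_lit 42624, nat_lit 42804, nat_lit 42780] (nat_lit 3) [nat_lit 23104] false,
   Spec.mk (nat_lit 42796) (nat_lit 0) [nat_lit 29674, nat_lit 47170, nat_lit 41338, nat_lit 44254, nat_lit 43282, nat_lit 42634, nat_lit 42850, nat_lit 42778, nat_lit 42798] (nat_lit 1) [nat_lit 23114] false,
   Spec.mk (nat_lit 42798) (nat_lit 0) [nat_lit 29676, nat_lit 47172, nat_lit 41340, nat_lit 44256, nat_lit 43284, nat_lit 42636, nat_lit 42852, nat_lit 42780, nat_lit 42804, nat_lit 42796] (nat_lit 3) [nat_lit 23116] false,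
   Spec.mk (nat_lit 42804) (nat_lit 0) [nat_lit 29682, nat_lit 47178, nat_lit 41346, nat_lit 44262, nat_lit 43290, nat_lit 42642, nat_lit 42858, nat_lit 42786, nat_lit 42822, nat_lit 42798] (nat_lit 2) [nat_lit 23122] false,
   Spec.mk (nat_lit 42822) (nat_lit 0) [nat_lit 29700, nat_lit 47196, nat_lit 41364, nat_lit 44280, nat_lit 43308, nat_lit 42660, nat_lit 42876, nat_lit 42804] (nat_lit 3) [nat_lit 23140] false,
   Spec.mk (nat_lit 42850) (nat_lit 1) [nat_lit 29728, nat_lit 47224, nat_lit 41392, nat_lit 44308, nat_lit 43336, nat_lit 42688, nat_lit 42796, nat_lit 42852] (nat_lit 0) [nat_lit 23168] false,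
   Spec.mk (nat_lit 42852) (nat_lit 0) [nat_lit 29730, nat_lit 47226, nat_lit 41394, nat_lit 44310, nat_lit 43338, nat_lit 42690, nat_lit 42798, nat_lit 42858, nat_lit 42850] (nat_lit 1) [nat_lit 23170] false,
   Spec.mk (nat_lit 42858) (nat_lit 0) [nat_lit 29736, nat_lit 47232, nat_lit 41400, nat_lit 44316, nat_lit 43344, nat_lit 42696, nat_lit 42804, nat_lit 42876, nat_lit 42852] (nat_lit 1) [nat_lit 23176] false,
   Spec.mk (nat_lit 42876) (nat_lit 0) [nat_lit 29754, nat_lit 47250, nat_lit 41418, nat_lit 44334, nat_lit 43362, nat_lit 42714, nat_lit 42822, nat_lit 42930, nat_lit 42858] (nat_lit 0) [nat_lit 23194] false,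
   Spec.mk (nat_lit 42930) (nat_lit 1) [nat_lit 29808, nat_lit 47304, nat_lit 41472, nat_lit 44388, nat_lit 43416, nat_lit 42876] (nat_lit 0) [nat_lit 23248] false,
   Spec.mk (nat_lit 43016) (nat_lit 2) [nat_lit 29894, nat_lit 47390, nat_lit 44474, nat_lit 42530, nat_lit 43022, nat_lit 43018] (nat_lit 0) [] false,
   Spec.mk (nat_lit 43018) (nat_lit 0) [nat_lit 29896, nat_lit 47392, nat_lit 44476, nat_lit 42532, nat_lit 43024, nat_lit 43016] (nat_lit 0) [nat_lit 23336] false,
   Spec.mk (nat_lit 43022) (nat_lit 0) [nat_lit 29900, nat_lit 47396, nat_lit 44480, nat_lit 42536, nat_lit 43040, nat_lit 43016, nat_lit 43024] (nat_lit 0) [] false,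
   Spec.mk (nat_lit 43024) (nat_lit 0) [nat_lit 29902, nat_lit 47398, nat_lit 44482, nat_lit 42538, nat_lit 43042, nat_lit 43018, nat_lit 43030, nat_lit 43022, nat_lit 43026] (nat_lit 0) [nat_lit 23342] false,
   Spec.mk (nat_lit 43026) (nat_lit 0) [nat_lit 29904, nat_lit 47400, nat_lit 44484, nat_lit 42540, nat_lit 43044, nat_lit 43032, nat_lit 43024] (nat_lit 2) [nat_lit 23344] false,
   Spec.mk (nat_lit 43030) (nat_lit 0) [nat_lit 29908, nat_lit 47404, nat_lit 44488, nat_lit 42544, nat_lit 43048, nat_lit 43024, nat_lit 43032] (nat_lit 2) [nat_lit 23348] false,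
   Spec.mk (nat_lit 43032) (nat_lit 0) [nat_lit 29910, nat_lit 47406, nat_lit 44490, nat_lit 42546, nat_lit 43050, nat_lit 43026, nat_lit 43030] (nat_lit 2) [nat_lit 23350] false,
   Spec.mk (nat_lit 43040) (nat_lit 0) [nat_lit 29918, nat_lit 47414, nat_lit 44498, nat_lit 42554, nat_lit 43094, nat_lit 43022, nat_lit 43042] (nat_lit 0) [] false,
   Spec.mk (nat_lit 43042) (nat_lit 0) [nat_lit 29920, nat_lit 47416, nat_lit 44500, nat_lit 42556, nat_lit 43096, nat_lit 43024, nat_lit 43048, nat_lit 43040, nat_lit 43044] (nat_lit 1) [nat_lit 23360] false,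
   Spec.mk (nat_lit 43044) (nat_lit 0) [nat_lit 29922, nat_lit 47418, nat_lit 44502, nat_lit 42558, nat_lit 43098, nat_lit 43026, nat_lit 43050, nat_lit 43042] (nat_lit 4) [nat_lit 23362] false,
   Spec.mk (nat_lit 43048) (nat_lit 0) [nat_lit 29926, nat_lit 47422, nat_lit 44506, nat_lit 42562, nat_lit 43102, nat_lit 43030, nat_lit 43066, nat_lit 43042, nat_lit 43050] (nat_lit 1) [nat_lit 23366] false,
   Spec.mk (nat_lit 43050) (nat_lit 0) [nat_lit 29928, nat_lit 47424, nat_lit 44508, nat_lit 42564, nat_lit 43104, nat_lit 43032, nat_lit 43068, nat_lit 43044, nat_lit 43056, nat_lit 43048] (nat_lit 2) [nat_lit 23368] false,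
   Spec.mk (nat_lit 43056) (nat_lit 0) [nat_lit 29934, nat_lit 47430, nat_lit 44514, nat_lit 42570, nat_lit 43110, nat_lit 43074, nat_lit 43050] (nat_lit 2) [nat_lit 23374] false,
   Spec.mk (nat_lit 43066) (nat_lit 0) [nat_lit 29944, nat_lit 47440, nat_lit 44524, nat_lit 42580, nat_lit 43120, nat_lit 43048, nat_lit 43068] (nat_lit 2) [nat_lit 23384] false,
   Spec.mk (nat_lit 43068) (nat_lit 0) [nat_lit 29946, nat_lit 47442, nat_lit 44526, nat_lit 42582, nat_lit 43122, nat_lit 43050, nat_lit 43074, nat_lit 43066] (nat_lit 4) [nat_lit 23386] false,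
   Spec.mk (nat_lit 43074) (nat_lit 0) [nat_lit 29952, nat_lit 47448, nat_lit 44532, nat_lit 42588, nat_lit 43128, nat_lit 43056, nat_lit 43068] (nat_lit 2) [nat_lit 23392] false,
   Spec.mk (nat_lit 43094) (nat_lit 0) [nat_lit 29972, nat_lit 47468, nat_lit 44552, nat_lit 42608, nat_lit 43256, nat_lit 43040, nat_lit 43096] (nat_lit 0) [] false,
   Spec.mk (nat_lit 43096) (nat_lit 0) [nat_lit 29974, nat_lit 47470, nat_lit 44554, nat_lit 42610, nat_lit 43258, nat_lit 43042, nat_lit 43102, nat_lit 43094, nat_lit 43098] (nat_lit 1) [nat_lit 23414] false,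
   Spec.mk (nat_lit 43098) (nat_lit 0) [nat_lit 29976, nat_lit 47472, nat_lit 44556, nat_lit 42612, nat_lit 43260, nat_lit 43044, nat_lit 43104, nat_lit 43096] (nat_lit 4) [nat_lit 23416] false,
   Spec.mk (nat_lit 43102) (nat_lit 0) [nat_lit 29980, nat_lit 47476, nat_lit 44560, nat_lit 42616, nat_lit 43264, nat_lit 43048, nat_lit 43120, nat_lit 43096, nat_lit 43104] (nat_lit 2) [nat_lit 23420] false,
   Spec.mk (nat_lit 43104) (nat_lit 0) [nat_lit 29982, nat_lit 47478, nat_lit 44562, nat_lit 42618, nat_lit 43266, nat_lit 43050, nat_lit 43122, nat_lit 43098, nat_lit 43110, nat_lit 43102] (nat_lit 3) [nat_lit 23422] false,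
   Spec.mk (nat_lit 43110) (nat_lit 0) [nat_lit 29988, nat_lit 47484, nat_lit 44568, nat_lit 42624, nat_lit 43272, nat_lit 43056, nat_lit 43128, nat_lit 43104] (nat_lit 4) [nat_lit 23428] false,
   Spec.mk (nat_lit 43120) (nat_lit 0) [nat_lit 29998, nat_lit 47494, nat_lit 44578, nat_lit 42634, nat_lit 43282, nat_lit 43066, nat_lit 43174, nat_lit 43102, nat_lit 43122] (nat_lit 1) [nat_lit 23438] false,
   Spec.mk (nat_lit 43122) (nat_lit 0) [nat_lit 30000, nat_lit 47496, nat_lit 44580, nat_lit 42636, nat_lit 43284, nat_lit 43068, nat_lit 43176, nat_lit 43104, nat_lit 43128, nat_lit 43120] (nat_lit 3) [nat_lit 23440] false,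
   Spec.mk (nat_lit 43128) (nat_lit 0) [nat_lit 30006, nat_lit 47502, nat_lit 44586, nat_lit 42642, nat_lit 43290, nat_lit 43074, nat_lit 43182, nat_lit 43110, nat_lit 43146, nat_lit 43122] (nat_lit 2) [nat_lit 23446] false,
   Spec.mk (nat_lit 43146) (nat_lit 0) [nat_lit 30024, nat_lit 47520, nat_lit 44604, nat_lit 42660, nat_lit 43308, nat_lit 43200, nat_lit 43128] (nat_lit 2) [nat_lit 23464] false,
   Spec.mk (nat_lit 43174) (nat_lit 0) [nat_lit 30052, nat_lit 47548, nat_lit 44632, nat_lit 42688, nat_lit 43336, nat_lit 43120, nat_lit 43176] (nat_lit 2) [nat_lit 23492] false,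
   Spec.mk (nat_lit 43176) (nat_lit 0) [nat_lit 30054, nat_lit 47550, nat_lit 44634, nat_lit 42690, nat_lit 43338, nat_lit 43122, nat_lit 43182, nat_lit 43174] (nat_lit 4) [nat_lit 23494] false,
   Spec.mk (nat_lit 43182) (nat_lit 0) [nat_lit 30060, nat_lit 47556, nat_lit 44640, nat_lit 42696, nat_lit 43344, nat_lit 43128, nat_lit 43200, nat_lit 43176] (nat_lit 4) [nat_lit 23500] false,
   Spec.mk (nat_lit 43200) (nat_lit 0) [nat_lit 30078, nat_lit 47574, nat_lit 44658, nat_lit 42714, nat_lit 43362, nat_lit 43146, nat_lit 43182] (nat_lit 2) [nat_lit 23518] false,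
   Spec.mk (nat_lit 43256) (nat_lit 2) [nat_lit 30134, nat_lit 47630, nat_lit 44714, nat_lit 42770, nat_lit 43094, nat_lit 43258] (nat_lit 0) [] false,
   Spec.mk (nat_lit 43258) (nat_lit 1) [nat_lit 30136, nat_lit 47632, nat_lit 44716, nat_lit 42772, nat_lit 43096, nat_lit 43264, nat_lit 43256, nat_lit 43260] (nat_lit 0) [nat_lit 23576] false,
   Spec.mk (nat_lit 43260) (nat_lit 0) [nat_lit 30138, nat_lit 47634, nat_lit 44718, nat_lit 42774, nat_lit 43098, nat_lit 43266, nat_lit 43258] (nat_lit 2) [nat_lit 23578] false,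
   Spec.mk (nat_lit 43264) (nat_lit 0) [nat_lit 30142, nat_lit 47638, nat_lit 44722, nat_lit 42778, nat_lit 43102, nat_lit 43282, nat_lit 43258, nat_lit 43266] (nat_lit 0) [nat_lit 23582] false,
   Spec.mk (nat_lit 43266) (nat_lit 0) [nat_lit 30144, nat_lit 47640, nat_lit 44724, nat_lit 42780, nat_lit 43104, nat_lit 43284, nat_lit 43260, nat_lit 43272, nat_lit 43264] (nat_lit 1) [nat_lit 23584] false,
   Spec.mk (nat_lit 43272) (nat_lit 0) [nat_lit 30150, nat_lit 47646, nat_lit 44730, nat_lit 42786, nat_lit 43110, nat_lit 43290, nat_lit 43266] (nat_lit 2) [nat_lit 23590] false]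

noncomputable def sp97 : List Spec :=
  [Spec.mk (nat_lit 43282) (nat_lit 0) [nat_lit 30160, nat_lit 47656, nat_lit 44740, nat_lit 42796, nat_lit 43120, nat_lit 43336, nat_lit 43264, nat_lit 43284] (nat_lit 0) [nat_lit 23600] false,
   Spec.mk (nat_lit 43284) (nat_lit 0) [nat_lit 30162, nat_lit 47658, nat_lit 44742, nat_lit 42798, nat_lit 43122, nat_lit 43338, nat_lit 43266, nat_lit 43290, nat_lit 43282] (nat_lit 2) [nat_lit 23602] false,
   Spec.mk (nat_lit 43290) (nat_lit 0) [nat_lit 30168, nat_lit 47664, nat_lit 44748, nat_lit 42804, nat_lit 43128, nat_lit 43344, nat_lit 43272, nat_lit 43308, nat_lit 43284] (nat_lit 1) [nat_lit 23608] false,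
   Spec.mk (nat_lit 43308) (nat_lit 0) [nat_lit 30186, nat_lit 47682, nat_lit 44766, nat_lit 42822, nat_lit 43146, nat_lit 43362, nat_lit 43290] (nat_lit 2) [nat_lit 23626] false,
   Spec.mk (nat_lit 43336) (nat_lit 1) [nat_lit 30214, nat_lit 47710, nat_lit 44794, nat_lit 42850, nat_lit 43174, nat_lit 43498, nat_lit 43282, nat_lit 43338] (nat_lit 0) [nat_lit 23654] false,
   Spec.mk (nat_lit 43338) (nat_lit 0) [nat_lit 30216, nat_lit 47712, nat_lit 44796, nat_lit 42852, nat_lit 43176, nat_lit 43500, nat_lit 43284, nat_lit 43344, nat_lit 43336] (nat_lit 1) [nat_lit 23656] false,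
   Spec.mk (nat_lit 43344) (nat_lit 0) [nat_lit 30222, nat_lit 47718, nat_lit 44802, nat_lit 42858, nat_lit 43182, nat_lit 43506, nat_lit 43290, nat_lit 43362, nat_lit 43338] (nat_lit 1) [nat_lit 23662] false,
   Spec.mk (nat_lit 43362) (nat_lit 0) [nat_lit 30240, nat_lit 47736, nat_lit 44820, nat_lit 42876, nat_lit 43200, nat_lit 43524, nat_lit 43308, nat_lit 43416, nat_lit 43344] (nat_lit 0) [nat_lit 23680] false,
   Spec.mk (nat_lit 43416) (nat_lit 0) [nat_lit 30294, nat_lit 47790, nat_lit 44874, nat_lit 42930, nat_lit 43578, nat_lit 43362] (nat_lit 0) [nat_lit 23734] false,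
   Spec.mk (nat_lit 43498) (nat_lit 2) [nat_lit 30376, nat_lit 47872, nat_lit 44956, nat_lit 43336, nat_lit 43500] (nat_lit 0) [nat_lit 23816] false,
   Spec.mk (nat_lit 43500) (nat_lit 0) [nat_lit 30378, nat_lit 47874, nat_lit 44958, nat_lit 43338, nat_lit 43506, nat_lit 43498] (nat_lit 0) [nat_lit 23818] false,
   Spec.mk (nat_lit 43506) (nat_lit 0) [nat_lit 30384, nat_lit 47880, nat_lit 44964, nat_lit 43344, nat_lit 43524, nat_lit 43500] (nat_lit 0) [nat_lit 23824] false,
   Spec.mk (nat_lit 43524) (nat_lit 0) [nat_lit 30402, nat_lit 47898, nat_lit 44982, nat_lit 43362, nat_lit 43578, nat_lit 43506] (nat_lit 0) [nat_lit 23842] false,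
   Spec.mk (nat_lit 43578) (nat_lit 2) [nat_lit 30456, nat_lit 47952, nat_lit 45036, nat_lit 43416, nat_lit 43524] (nat_lit 0) [nat_lit 23896] false,
   Spec.mk (nat_lit 43748) (nat_lit 2) [nat_lit 30626, nat_lit 48122, nat_lit 42290, nat_lit 43754] (nat_lit 0) [] false,
   Spec.mk (nat_lit 43754) (nat_lit 1) [nat_lit 30632, nat_lit 48128, nat_lit 42296, nat_lit 43772, nat_lit 43748, nat_lit 43760, nat_lit 43756] (nat_lit 0) [] false,
   Spec.mk (nat_lit 43756) (nat_lit 0) [nat_lit 30634, nat_lit 48130, nat_lit 42298, nat_lit 43774, nat_lit 43762, nat_lit 43754] (nat_lit 0) [nat_lit 24074] false,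
   Spec.mk (nat_lit 43760) (nat_lit 0) [nat_lit 30638, nat_lit 48134, nat_lit 42302, nat_lit 43778, nat_lit 43754, nat_lit 43762] (nat_lit 2) [] false,
   Spec.mk (nat_lit 43762) (nat_lit 0) [nat_lit 30640, nat_lit 48136, nat_lit 42304, nat_lit 43780, nat_lit 43756, nat_lit 43760, nat_lit 43764] (nat_lit 1) [nat_lit 24080] false,
   Spec.mk (nat_lit 43764) (nat_lit 0) [nat_lit 30642, nat_lit 48138, nat_lit 42306, nat_lit 43782, nat_lit 43762] (nat_lit 2) [nat_lit 24082] false,
   Spec.mk (nat_lit 43772) (nat_lit 0) [nat_lit 30650, nat_lit 48146, nat_lit 42314, nat_lit 43826, nat_lit 43754, nat_lit 43778, nat_lit 43774] (nat_lit 0) [] false,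
   Spec.mk (nat_lit 43774) (nat_lit 0) [nat_lit 30652, nat_lit 48148, nat_lit 42316, nat_lit 43828, nat_lit 43756, nat_lit 43780, nat_lit 43772] (nat_lit 2) [nat_lit 24092] false,
   Spec.mk (nat_lit 43778) (nat_lit 0) [nat_lit 30656, nat_lit 48152, nat_lit 42320, nat_lit 43832, nat_lit 43760, nat_lit 43796, nat_lit 43772, nat_lit 43780] (nat_lit 1) [] false,
   Spec.mk (nat_lit 43780) (nat_lit 0) [nat_lit 30658, nat_lit 48154, nat_lit 42322, nat_lit 43834, nat_lit 43762, nat_lit 43798, nat_lit 43774, nat_lit 43786, nat_lit 43778, nat_lit 43782] (nat_lit 1) [nat_lit 24098] false,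
   Spec.mk (nat_lit 43782) (nat_lit 0) [nat_lit 30660, nat_lit 48156, nat_lit 42324, nat_lit 43836, nat_lit 43764, nat_lit 43800, nat_lit 43788, nat_lit 43780] (nat_lit 3) [nat_lit 24100] false,
   Spec.mk (nat_lit 43786) (nat_lit 0) [nat_lit 30664, nat_lit 48160, nat_lit 42328, nat_lit 43840, nat_lit 43804, nat_lit 43780, nat_lit 43788] (nat_lit 2) [nat_lit 24104] false,
   Spec.mk (nat_lit 43788) (nat_lit 0) [nat_lit 30666, nat_lit 48162, nat_lit 42330, nat_lit 43842, nat_lit 43806, nat_lit 43782, nat_lit 43786] (nat_lit 2) [nat_lit 24106] false,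
   Spec.mk (nat_lit 43796) (nat_lit 0) [nat_lit 30674, nat_lit 48170, nat_lit 42338, nat_lit 43850, nat_lit 43778, nat_lit 43798] (nat_lit 2) [] false,
   Spec.mk (nat_lit 43798) (nat_lit 0) [nat_lit 30676, nat_lit 48172, nat_lit 42340, nat_lit 43852, nat_lit 43780, nat_lit 43804, nat_lit 43796, nat_lit 43800] (nat_lit 3) [nat_lit 24116] false,
   Spec.mk (nat_lit 43800) (nat_lit 0) [nat_lit 30678, nat_lit 48174, nat_lit 42342, nat_lit 43854, nat_lit 43782, nat_lit 43806, nat_lit 43798] (nat_lit 6) [nat_lit 24118] false,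
   Spec.mk (nat_lit 43804) (nat_lit 0) [nat_lit 30682, nat_lit 48178, nat_lit 42346, nat_lit 43858, nat_lit 43786, nat_lit 43798, nat_lit 43806] (nat_lit 2) [nat_lit 24122] false,
   Spec.mk (nat_lit 43806) (nat_lit 0) [nat_lit 30684, nat_lit 48180, nat_lit 42348, nat_lit 43860, nat_lit 43788, nat_lit 43800, nat_lit 43812, nat_lit 43804] (nat_lit 3) [nat_lit 24124] false,
   Spec.mk (nat_lit 43812) (nat_lit 0) [nat_lit 30690, nat_lit 48186, nat_lit 42354, nat_lit 43866, nat_lit 43806] (nat_lit 2) [nat_lit 24130] false,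
   Spec.mk (nat_lit 43826) (nat_lit 0) [nat_lit 30704, nat_lit 48200, nat_lit 42368, nat_lit 43988, nat_lit 43772, nat_lit 43832, nat_lit 43828] (nat_lit 0) [] false,
   Spec.mk (nat_lit 43828) (nat_lit 0) [nat_lit 30706, nat_lit 48202, nat_lit 42370, nat_lit 43990, nat_lit 43774, nat_lit 43834, nat_lit 43826] (nat_lit 2) [nat_lit 24146] false,
   Spec.mk (nat_lit 43832) (nat_lit 0) [nat_lit 30710, nat_lit 48206, nat_lit 42374, nat_lit 43994, nat_lit 43778, nat_lit 43850, nat_lit 43826, nat_lit 43834] (nat_lit 2) [] false,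
   Spec.mk (nat_lit 43834) (nat_lit 0) [nat_lit 30712, nat_lit 48208, nat_lit 42376, nat_lit 43996, nat_lit 43780, nat_lit 43852, nat_lit 43828, nat_lit 43840, nat_lit 43832, nat_lit 43836] (nat_lit 2) [nat_lit 24152] false,
   Spec.mk (nat_lit 43836) (nat_lit 0) [nat_lit 30714, nat_lit 48210, nat_lit 42378, nat_lit 43998, nat_lit 43782, nat_lit 43854, nat_lit 43842, nat_lit 43834] (nat_lit 4) [nat_lit 24154] false,
   Spec.mk (nat_lit 43840) (nat_lit 0) [nat_lit 30718, nat_lit 48214, nat_lit 42382, nat_lit 44002, nat_lit 43786, nat_lit 43858, nat_lit 43834, nat_lit 43842] (nat_lit 4) [nat_lit 24158] false,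
   Spec.mk (nat_lit 43842) (nat_lit 0) [nat_lit 30720, nat_lit 48216, nat_lit 42384, nat_lit 44004, nat_lit 43788, nat_lit 43860, nat_lit 43836, nat_lit 43840] (nat_lit 4) [nat_lit 24160] false,
   Spec.mk (nat_lit 43850) (nat_lit 0) [nat_lit 30728, nat_lit 48224, nat_lit 42392, nat_lit 44012, nat_lit 43796, nat_lit 43904, nat_lit 43832, nat_lit 43852] (nat_lit 1) [] false,
   Spec.mk (nat_lit 43852) (nat_lit 0) [nat_lit 30730, nat_lit 48226, nat_lit 42394, nat_lit 44014, nat_lit 43798, nat_lit 43906, nat_lit 43834, nat_lit 43858, nat_lit 43850, nat_lit 43854] (nat_lit 2) [nat_lit 24170] false,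
   Spec.mk (nat_lit 43854) (nat_lit 0) [nat_lit 30732, nat_lit 48228, nat_lit 42396, nat_lit 44016, nat_lit 43800, nat_lit 43908, nat_lit 43836, nat_lit 43860, nat_lit 43852] (nat_lit 5) [nat_lit 24172] false,
   Spec.mk (nat_lit 43858) (nat_lit 0) [nat_lit 30736, nat_lit 48232, nat_lit 42400, nat_lit 44020, nat_lit 43804, nat_lit 43912, nat_lit 43840, nat_lit 43876, nat_lit 43852, nat_lit 43860] (nat_lit 2) [nat_lit 24176] false,
   Spec.mk (nat_lit 43860) (nat_lit 0) [nat_lit 30738, nat_lit 48234, nat_lit 42402, nat_lit 44022, nat_lit 43806, nat_lit 43914, nat_lit 43842, nat_lit 43878, nat_lit 43854, nat_lit 43866, nat_lit 43858] (nat_lit 3) [nat_lit 24178] false,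
   Spec.mk (nat_lit 43866) (nat_lit 0) [nat_lit 30744, nat_lit 48240, nat_lit 42408, nat_lit 44028, nat_lit 43812, nat_lit 43920, nat_lit 43884, nat_lit 43860] (nat_lit 3) [nat_lit 24184] false,
   Spec.mk (nat_lit 43876) (nat_lit 0) [nat_lit 30754, nat_lit 48250, nat_lit 42418, nat_lit 44038, nat_lit 43930, nat_lit 43858, nat_lit 43878] (nat_lit 2) [nat_lit 24194] false,
   Spec.mk (nat_lit 43878) (nat_lit 0) [nat_lit 30756, nat_lit 48252, nat_lit 42420, nat_lit 44040, nat_lit 43932, nat_lit 43860, nat_lit 43884, nat_lit 43876] (nat_lit 4) [nat_lit 24196] false,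
   Spec.mk (nat_lit 43884) (nat_lit 0) [nat_lit 30762, nat_lit 48258, nat_lit 42426, nat_lit 44046, nat_lit 43938, nat_lit 43866, nat_lit 43878] (nat_lit 2) [nat_lit 24202] false,
   Spec.mk (nat_lit 43904) (nat_lit 0) [nat_lit 30782, nat_lit 48278, nat_lit 42446, nat_lit 44066, nat_lit 43850, nat_lit 43906] (nat_lit 2) [] false,
   Spec.mk (nat_lit 43906) (nat_lit 0) [nat_lit 30784, nat_lit 48280, nat_lit 42448, nat_lit 44068, nat_lit 43852, nat_lit 43912, nat_lit 43904, nat_lit 43908] (nat_lit 3) [nat_lit 24224] false,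
   Spec.mk (nat_lit 43908) (nat_lit 0) [nat_lit 30786, nat_lit 48282, nat_lit 42450, nat_lit 44070, nat_lit 43854, nat_lit 43914, nat_lit 43906] (nat_lit 6) [nat_lit 24226] false,
   Spec.mk (nat_lit 43912) (nat_lit 0) [nat_lit 30790, nat_lit 48286, nat_lit 42454, nat_lit 44074, nat_lit 43858, nat_lit 43930, nat_lit 43906, nat_lit 43914] (nat_lit 4) [nat_lit 24230] false,
   Spec.mk (nat_lit 43914) (nat_lit 0) [nat_lit 30792, nat_lit 48288, nat_lit 42456, nat_lit 44076, nat_lit 43860, nat_lit 43932, nat_lit 43908, nat_lit 43920, nat_lit 43912] (nat_lit 5) [nat_lit 24232] false,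
   Spec.mk (nat_lit 43920) (nat_lit 0) [nat_lit 30798, nat_lit 48294, nat_lit 42462, nat_lit 44082, nat_lit 43866, nat_lit 43938, nat_lit 43914] (nat_lit 6) [nat_lit 24238] false,
   Spec.mk (nat_lit 43930) (nat_lit 0) [nat_lit 30808, nat_lit 48304, nat_lit 42472, nat_lit 44092, nat_lit 43876, nat_lit 43912, nat_lit 43932] (nat_lit 2) [nat_lit 24248] false,
   Spec.mk (nat_lit 43932) (nat_lit 0) [nat_lit 30810, nat_lit 48306, nat_lit 42474, nat_lit 44094, nat_lit 43878, nat_lit 43914, nat_lit 43938, nat_lit 43930] (nat_lit 4) [nat_lit 24250] false,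
   Spec.mk (nat_lit 43938) (nat_lit 0) [nat_lit 30816, nat_lit 48312, nat_lit 42480, nat_lit 44100, nat_lit 43884, nat_lit 43920, nat_lit 43956, nat_lit 43932] (nat_lit 3) [nat_lit 24256] false,
   Spec.mk (nat_lit 43956) (nat_lit 0) [nat_lit 30834, nat_lit 48330, nat_lit 42498, nat_lit 44118, nat_lit 43938] (nat_lit 2) [nat_lit 24274] false,
   Spec.mk (nat_lit 43988) (nat_lit 0) [nat_lit 30866, nat_lit 48362, nat_lit 42530, nat_lit 44474, nat_lit 43826, nat_lit 43994, nat_lit 43990] (nat_lit 0) [] false]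

noncomputable def sp98 : List Spec :=
  [Spec.mk (nat_lit 43990) (nat_lit 0) [nat_lit 30868, nat_lit 48364, nat_lit 42532, nat_lit 44476, nat_lit 43828, nat_lit 43996, nat_lit 43988] (nat_lit 2) [nat_lit 24308] false,
   Spec.mk (nat_lit 43994) (nat_lit 0) [nat_lit 30872, nat_lit 48368, nat_lit 42536, nat_lit 44480, nat_lit 43832, nat_lit 44012, nat_lit 43988, nat_lit 43996] (nat_lit 2) [] false,
   Spec.mk (nat_lit 43996) (nat_lit 0) [nat_lit 30874, nat_lit 48370, nat_lit 42538, nat_lit 44482, nat_lit 43834, nat_lit 44014, nat_lit 43990, nat_lit 44002, nat_lit 43994, nat_lit 43998] (nat_lit 2) [nat_lit 24314] false,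
   Spec.mk (nat_lit 43998) (nat_lit 0) [nat_lit 30876, nat_lit 48372, nat_lit 42540, nat_lit 44484, nat_lit 43836, nat_lit 44016, nat_lit 44004, nat_lit 43996] (nat_lit 4) [nat_lit 24316] false,
   Spec.mk (nat_lit 44002) (nat_lit 0) [nat_lit 30880, nat_lit 48376, nat_lit 42544, nat_lit 44488, nat_lit 43840, nat_lit 44020, nat_lit 43996, nat_lit 44004] (nat_lit 4) [nat_lit 24320] false,
   Spec.mk (nat_lit 44004) (nat_lit 0) [nat_lit 30882, nat_lit 48378, nat_lit 42546, nat_lit 44490, nat_lit 43842, nat_lit 44022, nat_lit 43998, nat_lit 44002] (nat_lit 4) [nat_lit 24322] false,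
   Spec.mk (nat_lit 44012) (nat_lit 0) [nat_lit 30890, nat_lit 48386, nat_lit 42554, nat_lit 44498, nat_lit 43850, nat_lit 44066, nat_lit 43994, nat_lit 44014] (nat_lit 2) [] false,
   Spec.mk (nat_lit 44014) (nat_lit 0) [nat_lit 30892, nat_lit 48388, nat_lit 42556, nat_lit 44500, nat_lit 43852, nat_lit 44068, nat_lit 43996, nat_lit 44020, nat_lit 44012, nat_lit 44016] (nat_lit 3) [nat_lit 24332] false,
   Spec.mk (nat_lit 44016) (nat_lit 0) [nat_lit 30894, nat_lit 48390, nat_lit 42558, nat_lit 44502, nat_lit 43854, nat_lit 44070, nat_lit 43998, nat_lit 44022, nat_lit 44014] (nat_lit 6) [nat_lit 24334] false,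
   Spec.mk (nat_lit 44020) (nat_lit 0) [nat_lit 30898, nat_lit 48394, nat_lit 42562, nat_lit 44506, nat_lit 43858, nat_lit 44074, nat_lit 44002, nat_lit 44038, nat_lit 44014, nat_lit 44022] (nat_lit 3) [nat_lit 24338] false,
   Spec.mk (nat_lit 44022) (nat_lit 0) [nat_lit 30900, nat_lit 48396, nat_lit 42564, nat_lit 44508, nat_lit 43860, nat_lit 44076, nat_lit 44004, nat_lit 44040, nat_lit 44016, nat_lit 44028, nat_lit 44020] (nat_lit 4) [nat_lit 24340] false,
   Spec.mk (nat_lit 44028) (nat_lit 0) [nat_lit 30906, nat_lit 48402, nat_lit 42570, nat_lit 44514, nat_lit 43866, nat_lit 44082, nat_lit 44046, nat_lit 44022] (nat_lit 4) [nat_lit 24346] false,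
   Spec.mk (nat_lit 44038) (nat_lit 0) [nat_lit 30916, nat_lit 48412, nat_lit 42580, nat_lit 44524, nat_lit 43876, nat_lit 44092, nat_lit 44020, nat_lit 44040] (nat_lit 4) [nat_lit 24356] false,
   Spec.mk (nat_lit 44040) (nat_lit 0) [nat_lit 30918, nat_lit 48414, nat_lit 42582, nat_lit 44526, nat_lit 43878, nat_lit 44094, nat_lit 44022, nat_lit 44046, nat_lit 44038] (nat_lit 6) [nat_lit 24358] false,
   Spec.mk (nat_lit 44046) (nat_lit 0) [nat_lit 30924, nat_lit 48420, nat_lit 42588, nat_lit 44532, nat_lit 43884, nat_lit 44100, nat_lit 44028, nat_lit 44040] (nat_lit 4) [nat_lit 24364] false,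
   Spec.mk (nat_lit 44066) (nat_lit 0) [nat_lit 30944, nat_lit 48440, nat_lit 42608, nat_lit 44552, nat_lit 43904, nat_lit 44228, nat_lit 44012, nat_lit 44068] (nat_lit 1) [] false,
   Spec.mk (nat_lit 44068) (nat_lit 0) [nat_lit 30946, nat_lit 48442, nat_lit 42610, nat_lit 44554, nat_lit 43906, nat_lit 44230, nat_lit 44014, nat_lit 44074, nat_lit 44066, nat_lit 44070] (nat_lit 2) [nat_lit 24386] false,
   Spec.mk (nat_lit 44070) (nat_lit 0) [nat_lit 30948, nat_lit 48444, nat_lit 42612, nat_lit 44556, nat_lit 43908, nat_lit 44232, nat_lit 44016, nat_lit 44076, nat_lit 44068] (nat_lit 5) [nat_lit 24388] false,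
   Spec.mk (nat_lit 44074) (nat_lit 0) [nat_lit 30952, nat_lit 48448, nat_lit 42616, nat_lit 44560, nat_lit 43912, nat_lit 44236, nat_lit 44020, nat_lit 44092, nat_lit 44068, nat_lit 44076] (nat_lit 3) [nat_lit 24392] false,
   Spec.mk (nat_lit 44076) (nat_lit 0) [nat_lit 30954, nat_lit 48450, nat_lit 42618, nat_lit 44562, nat_lit 43914, nat_lit 44238, nat_lit 44022, nat_lit 44094, nat_lit 44070, nat_lit 44082, nat_lit 44074] (nat_lit 4) [nat_lit 24394] false,
   Spec.mk (nat_lit 44082) (nat_lit 0) [nat_lit 30960, nat_lit 48456, nat_lit 42624, nat_lit 44568, nat_lit 43920, nat_lit 44244, nat_lit 44028, nat_lit 44100, nat_lit 44076] (nat_lit 5) [nat_lit 24400] false,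
   Spec.mk (nat_lit 44092) (nat_lit 0) [nat_lit 30970, nat_lit 48466, nat_lit 42634, nat_lit 44578, nat_lit 43930, nat_lit 44254, nat_lit 44038, nat_lit 44146, nat_lit 44074, nat_lit 44094] (nat_lit 2) [nat_lit 24410] false,
   Spec.mk (nat_lit 44094) (nat_lit 0) [nat_lit 30972, nat_lit 48468, nat_lit 42636, nat_lit 44580, nat_lit 43932, nat_lit 44256, nat_lit 44040, nat_lit 44148, nat_lit 44076, nat_lit 44100, nat_lit 44092] (nat_lit 4) [nat_lit 24412] false,
   Spec.mk (nat_lit 44100) (nat_lit 0) [nat_lit 30978, nat_lit 48474, nat_lit 42642, nat_lit 44586, nat_lit 43938, nat_lit 44262, nat_lit 44046, nat_lit 44154, nat_lit 44082, nat_lit 44118, nat_lit 44094] (nat_lit 3) [nat_lit 24418] false,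
   Spec.mk (nat_lit 44118) (nat_lit 0) [nat_lit 30996, nat_lit 48492, nat_lit 42660, nat_lit 44604, nat_lit 43956, nat_lit 44280, nat_lit 44172, nat_lit 44100] (nat_lit 3) [nat_lit 24436] false,
   Spec.mk (nat_lit 44146) (nat_lit 0) [nat_lit 31024, nat_lit 48520, nat_lit 42688, nat_lit 44632, nat_lit 44308, nat_lit 44092, nat_lit 44148] (nat_lit 2) [nat_lit 24464] false,
   Spec.mk (nat_lit 44148) (nat_lit 0) [nat_lit 31026, nat_lit 48522, nat_lit 42690, nat_lit 44634, nat_lit 44310, nat_lit 44094, nat_lit 44154, nat_lit 44146] (nat_lit 4) [nat_lit 24466] false,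
   Spec.mk (nat_lit 44154) (nat_lit 0) [nat_lit 31032, nat_lit 48528, nat_lit 42696, nat_lit 44640, nat_lit 44316, nat_lit 44100, nat_lit 44172, nat_lit 44148] (nat_lit 4) [nat_lit 24472] false,
   Spec.mk (nat_lit 44172) (nat_lit 0) [nat_lit 31050, nat_lit 48546, nat_lit 42714, nat_lit 44658, nat_lit 44334, nat_lit 44118, nat_lit 44154] (nat_lit 2) [nat_lit 24490] false,
   Spec.mk (nat_lit 44228) (nat_lit 0) [nat_lit 31106, nat_lit 48602, nat_lit 42770, nat_lit 44714, nat_lit 44066, nat_lit 44230] (nat_lit 2) [] false,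
   Spec.mk (nat_lit 44230) (nat_lit 0) [nat_lit 31108, nat_lit 48604, nat_lit 42772, nat_lit 44716, nat_lit 44068, nat_lit 44236, nat_lit 44228, nat_lit 44232] (nat_lit 3) [nat_lit 24548] false,
   Spec.mk (nat_lit 44232) (nat_lit 0) [nat_lit 31110, nat_lit 48606, nat_lit 42774, nat_lit 44718, nat_lit 44070, nat_lit 44238, nat_lit 44230] (nat_lit 6) [nat_lit 24550] false,
   Spec.mk (nat_lit 44236) (nat_lit 0) [nat_lit 31114, nat_lit 48610, nat_lit 42778, nat_lit 44722, nat_lit 44074, nat_lit 44254, nat_lit 44230, nat_lit 44238] (nat_lit 4) [nat_lit 24554] false,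
   Spec.mk (nat_lit 44238) (nat_lit 0) [nat_lit 31116, nat_lit 48612, nat_lit 42780, nat_lit 44724, nat_lit 44076, nat_lit 44256, nat_lit 44232, nat_lit 44244, nat_lit 44236] (nat_lit 5) [nat_lit 24556] false,
   Spec.mk (nat_lit 44244) (nat_lit 0) [nat_lit 31122, nat_lit 48618, nat_lit 42786, nat_lit 44730, nat_lit 44082, nat_lit 44262, nat_lit 44238] (nat_lit 6) [nat_lit 24562] false,
   Spec.mk (nat_lit 44254) (nat_lit 0) [nat_lit 31132, nat_lit 48628, nat_lit 42796, nat_lit 44740, nat_lit 44092, nat_lit 44308, nat_lit 44236, nat_lit 44256] (nat_lit 4) [nat_lit 24572] false,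
   Spec.mk (nat_lit 44256) (nat_lit 0) [nat_lit 31134, nat_lit 48630, nat_lit 42798, nat_lit 44742, nat_lit 44094, nat_lit 44310, nat_lit 44238, nat_lit 44262, nat_lit 44254] (nat_lit 6) [nat_lit 24574] false,
   Spec.mk (nat_lit 44262) (nat_lit 0) [nat_lit 31140, nat_lit 48636, nat_lit 42804, nat_lit 44748, nat_lit 44100, nat_lit 44316, nat_lit 44244, nat_lit 44280, nat_lit 44256] (nat_lit 5) [nat_lit 24580] false,
   Spec.mk (nat_lit 44280) (nat_lit 0) [nat_lit 31158, nat_lit 48654, nat_lit 42822, nat_lit 44766, nat_lit 44118, nat_lit 44334, nat_lit 44262] (nat_lit 6) [nat_lit 24598] false,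
   Spec.mk (nat_lit 44308) (nat_lit 0) [nat_lit 31186, nat_lit 48682, nat_lit 42850, nat_lit 44794, nat_lit 44146, nat_lit 44254, nat_lit 44310] (nat_lit 2) [nat_lit 24626] false,
   Spec.mk (nat_lit 44310) (nat_lit 0) [nat_lit 31188, nat_lit 48684, nat_lit 42852, nat_lit 44796, nat_lit 44148, nat_lit 44256, nat_lit 44316, nat_lit 44308] (nat_lit 4) [nat_lit 24628] false,
   Spec.mk (nat_lit 44316) (nat_lit 0) [nat_lit 31194, nat_lit 48690, nat_lit 42858, nat_lit 44802, nat_lit 44154, nat_lit 44262, nat_lit 44334, nat_lit 44310] (nat_lit 4) [nat_lit 24634] false,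
   Spec.mk (nat_lit 44334) (nat_lit 0) [nat_lit 31212, nat_lit 48708, nat_lit 42876, nat_lit 44820, nat_lit 44172, nat_lit 44280, nat_lit 44388, nat_lit 44316] (nat_lit 3) [nat_lit 24652] false,
   Spec.mk (nat_lit 44388) (nat_lit 0) [nat_lit 31266, nat_lit 48762, nat_lit 42930, nat_lit 44874, nat_lit 44334] (nat_lit 2) [nat_lit 24706] false,
   Spec.mk (nat_lit 44474) (nat_lit 2) [nat_lit 31352, nat_lit 48848, nat_lit 43016, nat_lit 43988, nat_lit 44480, nat_lit 44476] (nat_lit 0) [] false,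
   Spec.mk (nat_lit 44476) (nat_lit 0) [nat_lit 31354, nat_lit 48850, nat_lit 43018, nat_lit 43990, nat_lit 44482, nat_lit 44474] (nat_lit 0) [nat_lit 24794] false,
   Spec.mk (nat_lit 44480) (nat_lit 0) [nat_lit 31358, nat_lit 48854, nat_lit 43022, nat_lit 43994, nat_lit 44498, nat_lit 44474, nat_lit 44482] (nat_lit 0) [] false,
   Spec.mk (nat_lit 44482) (nat_lit 0) [nat_lit 31360, nat_lit 48856, nat_lit 43024, nat_lit 43996, nat_lit 44500, nat_lit 44476, nat_lit 44488, nat_lit 44480, nat_lit 44484] (nat_lit 0) [nat_lit 24800] false,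
   Spec.mk (nat_lit 44484) (nat_lit 0) [nat_lit 31362, nat_lit 48858, nat_lit 43026, nat_lit 43998, nat_lit 44502, nat_lit 44490, nat_lit 44482] (nat_lit 2) [nat_lit 24802] false,
   Spec.mk (nat_lit 44488) (nat_lit 0) [nat_lit 31366, nat_lit 48862, nat_lit 43030, nat_lit 44002, nat_lit 44506, nat_lit 44482, nat_lit 44490] (nat_lit 2) [nat_lit 24806] false,
   Spec.mk (nat_lit 44490) (nat_lit 0) [nat_lit 31368, nat_lit 48864, nat_lit 43032, nat_lit 44004, nat_lit 44508, nat_lit 44484, nat_lit 44488] (nat_lit 2) [nat_lit 24808] false,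
   Spec.mk (nat_lit 44498) (nat_lit 0) [nat_lit 31376, nat_lit 48872, nat_lit 43040, nat_lit 44012, nat_lit 44552, nat_lit 44480, nat_lit 44500] (nat_lit 0) [] false,
   Spec.mk (nat_lit 44500) (nat_lit 0) [nat_lit 31378, nat_lit 48874, nat_lit 43042, nat_lit 44014, nat_lit 44554, nat_lit 44482, nat_lit 44506, nat_lit 44498, nat_lit 44502] (nat_lit 1) [nat_lit 24818] false,
   Spec.mk (nat_lit 44502) (nat_lit 0) [nat_lit 31380, nat_lit 48876, nat_lit 43044, nat_lit 44016, nat_lit 44556, nat_lit 44484, nat_lit 44508, nat_lit 44500] (nat_lit 4) [nat_lit 24820] false,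
   Spec.mk (nat_lit 44506) (nat_lit 0) [nat_lit 31384, nat_lit 48880, nat_lit 43048, nat_lit 44020, nat_lit 44560, nat_lit 44488, nat_lit 44524, nat_lit 44500, nat_lit 44508] (nat_lit 1) [nat_lit 24824] false,
   Spec.mk (nat_lit 44508) (nat_lit 0) [nat_lit 31386, nat_lit 48882, nat_lit 43050, nat_lit 44022, nat_lit 44562, nat_lit 44490, nat_lit 44526, nat_lit 44502, nat_lit 44514, nat_lit 44506] (nat_lit 2) [nat_lit 24826] false,
   Spec.mk (nat_lit 44514) (nat_lit 0) [nat_lit 31392, nat_lit 48888, nat_lit 43056, nat_lit 44028, nat_lit 44568, nat_lit 44532, nat_lit 44508] (nat_lit 2) [nat_lit 24832] false,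
   Spec.mk (nat_lit 44524) (nat_lit 0) [nat_lit 31402, nat_lit 48898, nat_lit 43066, nat_lit 44038, nat_lit 44578, nat_lit 44506, nat_lit 44526] (nat_lit 2) [nat_lit 24842] false,
   Spec.mk (nat_lit 44526) (nat_lit 0) [nat_lit 31404, nat_lit 48900, nat_lit 43068, nat_lit 44040, nat_lit 44580, nat_lit 44508, nat_lit 44532, nat_lit 44524] (nat_lit 4) [nat_lit 24844] false,
   Spec.mk (nat_lit 44532) (nat_lit 0) [nat_lit 31410, nat_lit 48906, nat_lit 43074, nat_lit 44046, nat_lit 44586, nat_lit 44514, nat_lit 44526] (nat_lit 2) [nat_lit 24850] false]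

noncomputable def sp99 : List Spec :=
  [Spec.mk (nat_lit 44552) (nat_lit 0) [nat_lit 31430, nat_lit 48926, nat_lit 43094, nat_lit 44066, nat_lit 44714, nat_lit 44498, nat_lit 44554] (nat_lit 0) [] false,
   Spec.mk (nat_lit 44554) (nat_lit 0) [nat_lit 31432, nat_lit 48928, nat_lit 43096, nat_lit 44068, nat_lit 44716, nat_lit 44500, nat_lit 44560, nat_lit 44552, nat_lit 44556] (nat_lit 1) [nat_lit 24872] false,
   Spec.mk (nat_lit 44556) (nat_lit 0) [nat_lit 31434, nat_lit 48930, nat_lit 43098, nat_lit 44070, nat_lit 44718, nat_lit 44502, nat_lit 44562, nat_lit 44554] (nat_lit 4) [nat_lit 24874] false,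
   Spec.mk (nat_lit 44560) (nat_lit 0) [nat_lit 31438, nat_lit 48934, nat_lit 43102, nat_lit 44074, nat_lit 44722, nat_lit 44506, nat_lit 44578, nat_lit 44554, nat_lit 44562] (nat_lit 2) [nat_lit 24878] false,
   Spec.mk (nat_lit 44562) (nat_lit 0) [nat_lit 31440, nat_lit 48936, nat_lit 43104, nat_lit 44076, nat_lit 44724, nat_lit 44508, nat_lit 44580, nat_lit 44556, nat_lit 44568, nat_lit 44560] (nat_lit 3) [nat_lit 24880] false,
   Spec.mk (nat_lit 44568) (nat_lit 0) [nat_lit 31446, nat_lit 48942, nat_lit 43110, nat_lit 44082, nat_lit 44730, nat_lit 44514, nat_lit 44586, nat_lit 44562] (nat_lit 4) [nat_lit 24886] false,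
   Spec.mk (nat_lit 44578) (nat_lit 0) [nat_lit 31456, nat_lit 48952, nat_lit 43120, nat_lit 44092, nat_lit 44740, nat_lit 44524, nat_lit 44632, nat_lit 44560, nat_lit 44580] (nat_lit 1) [nat_lit 24896] false,
   Spec.mk (nat_lit 44580) (nat_lit 0) [nat_lit 31458, nat_lit 48954, nat_lit 43122, nat_lit 44094, nat_lit 44742, nat_lit 44526, nat_lit 44634, nat_lit 44562, nat_lit 44586, nat_lit 44578] (nat_lit 3) [nat_lit 24898] false,
   Spec.mk (nat_lit 44586) (nat_lit 0) [nat_lit 31464, nat_lit 48960, nat_lit 43128, nat_lit 44100, nat_lit 44748, nat_lit 44532, nat_lit 44640, nat_lit 44568, nat_lit 44604, nat_lit 44580] (nat_lit 2) [nat_lit 24904] false,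
   Spec.mk (nat_lit 44604) (nat_lit 0) [nat_lit 31482, nat_lit 48978, nat_lit 43146, nat_lit 44118, nat_lit 44766, nat_lit 44658, nat_lit 44586] (nat_lit 2) [nat_lit 24922] false,
   Spec.mk (nat_lit 44632) (nat_lit 0) [nat_lit 31510, nat_lit 49006, nat_lit 43174, nat_lit 44146, nat_lit 44794, nat_lit 44578, nat_lit 44634] (nat_lit 2) [nat_lit 24950] false,
   Spec.mk (nat_lit 44634) (nat_lit 0) [nat_lit 31512, nat_lit 49008, nat_lit 43176, nat_lit 44148, nat_lit 44796, nat_lit 44580, nat_lit 44640, nat_lit 44632] (nat_lit 4) [nat_lit 24952] false,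
   Spec.mk (nat_lit 44640) (nat_lit 0) [nat_lit 31518, nat_lit 49014, nat_lit 43182, nat_lit 44154, nat_lit 44802, nat_lit 44586, nat_lit 44658, nat_lit 44634] (nat_lit 4) [nat_lit 24958] false,
   Spec.mk (nat_lit 44658) (nat_lit 0) [nat_lit 31536, nat_lit 49032, nat_lit 43200, nat_lit 44172, nat_lit 44820, nat_lit 44604, nat_lit 44640] (nat_lit 2) [nat_lit 24976] false,
   Spec.mk (nat_lit 44714) (nat_lit 1) [nat_lit 31592, nat_lit 49088, nat_lit 43256, nat_lit 44228, nat_lit 45200, nat_lit 44552, nat_lit 44716] (nat_lit 0) [] false,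
   Spec.mk (nat_lit 44716) (nat_lit 0) [nat_lit 31594, nat_lit 49090, nat_lit 43258, nat_lit 44230, nat_lit 45202, nat_lit 44554, nat_lit 44722, nat_lit 44714, nat_lit 44718] (nat_lit 0) [nat_lit 25034] false,
   Spec.mk (nat_lit 44718) (nat_lit 0) [nat_lit 31596, nat_lit 49092, nat_lit 43260, nat_lit 44232, nat_lit 45204, nat_lit 44556, nat_lit 44724, nat_lit 44716] (nat_lit 3) [nat_lit 25036] false,
   Spec.mk (nat_lit 44722) (nat_lit 0) [nat_lit 31600, nat_lit 49096, nat_lit 43264, nat_lit 44236, nat_lit 45208, nat_lit 44560, nat_lit 44740, nat_lit 44716, nat_lit 44724] (nat_lit 1) [nat_lit 25040] false,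
   Spec.mk (nat_lit 44724) (nat_lit 0) [nat_lit 31602, nat_lit 49098, nat_lit 43266, nat_lit 44238, nat_lit 45210, nat_lit 44562, nat_lit 44742, nat_lit 44718, nat_lit 44730, nat_lit 44722] (nat_lit 2) [nat_lit 25042] false,
   Spec.mk (nat_lit 44730) (nat_lit 0) [nat_lit 31608, nat_lit 49104, nat_lit 43272, nat_lit 44244, nat_lit 45216, nat_lit 44568, nat_lit 44748, nat_lit 44724] (nat_lit 3) [nat_lit 25048] false,
   Spec.mk (nat_lit 44740) (nat_lit 0) [nat_lit 31618, nat_lit 49114, nat_lit 43282, nat_lit 44254, nat_lit 45226, nat_lit 44578, nat_lit 44794, nat_lit 44722, nat_lit 44742] (nat_lit 1) [nat_lit 25058] false,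
   Spec.mk (nat_lit 44742) (nat_lit 0) [nat_lit 31620, nat_lit 49116, nat_lit 43284, nat_lit 44256, nat_lit 45228, nat_lit 44580, nat_lit 44796, nat_lit 44724, nat_lit 44748, nat_lit 44740] (nat_lit 3) [nat_lit 25060] false,
   Spec.mk (nat_lit 44748) (nat_lit 0) [nat_lit 31626, nat_lit 49122, nat_lit 43290, nat_lit 44262, nat_lit 45234, nat_lit 44586, nat_lit 44802, nat_lit 44730, nat_lit 44766, nat_lit 44742] (nat_lit 2) [nat_lit 25066] false,
   Spec.mk (nat_lit 44766) (nat_lit 0) [nat_lit 31644, nat_lit 49140, nat_lit 43308, nat_lit 44280, nat_lit 45252, nat_lit 44604, nat_lit 44820, nat_lit 44748] (nat_lit 3) [nat_lit 25084] false,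
   Spec.mk (nat_lit 44794) (nat_lit 0) [nat_lit 31672, nat_lit 49168, nat_lit 43336, nat_lit 44308, nat_lit 45280, nat_lit 44632, nat_lit 44956, nat_lit 44740, nat_lit 44796] (nat_lit 0) [nat_lit 25112] false,
   Spec.mk (nat_lit 44796) (nat_lit 0) [nat_lit 31674, nat_lit 49170, nat_lit 43338, nat_lit 44310, nat_lit 45282, nat_lit 44634, nat_lit 44958, nat_lit 44742, nat_lit 44802, nat_lit 44794] (nat_lit 2) [nat_lit 25114] false,
   Spec.mk (nat_lit 44802) (nat_lit 0) [nat_lit 31680, nat_lit 49176, nat_lit 43344, nat_lit 44316, nat_lit 45288, nat_lit 44640, nat_lit 44964, nat_lit 44748, nat_lit 44820, nat_lit 44796] (nat_lit 2) [nat_lit 25120] false,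
   Spec.mk (nat_lit 44820) (nat_lit 0) [nat_lit 31698, nat_lit 49194, nat_lit 43362, nat_lit 44334, nat_lit 45306, nat_lit 44658, nat_lit 44982, nat_lit 44766, nat_lit 44874, nat_lit 44802] (nat_lit 1) [nat_lit 25138] false,
   Spec.mk (nat_lit 44874) (nat_lit 0) [nat_lit 31752, nat_lit 49248, nat_lit 43416, nat_lit 44388, nat_lit 45360, nat_lit 45036, nat_lit 44820] (nat_lit 1) [nat_lit 25192] false,
   Spec.mk (nat_lit 44956) (nat_lit 0) [nat_lit 31834, nat_lit 49330, nat_lit 43498, nat_lit 45442, nat_lit 44794, nat_lit 44958] (nat_lit 0) [nat_lit 25274] false,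
   Spec.mk (nat_lit 44958) (nat_lit 0) [nat_lit 31836, nat_lit 49332, nat_lit 43500, nat_lit 45444, nat_lit 44796, nat_lit 44964, nat_lit 44956] (nat_lit 2) [nat_lit 25276] false,
   Spec.mk (nat_lit 44964) (nat_lit 0) [nat_lit 31842, nat_lit 49338, nat_lit 43506, nat_lit 45450, nat_lit 44802, nat_lit 44982, nat_lit 44958] (nat_lit 2) [nat_lit 25282] false,
   Spec.mk (nat_lit 44982) (nat_lit 0) [nat_lit 31860, nat_lit 49356, nat_lit 43524, nat_lit 45468, nat_lit 44820, nat_lit 45036, nat_lit 44964] (nat_lit 2) [nat_lit 25300] false,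
   Spec.mk (nat_lit 45036) (nat_lit 0) [nat_lit 31914, nat_lit 49410, nat_lit 43578, nat_lit 45522, nat_lit 44874, nat_lit 44982] (nat_lit 0) [nat_lit 25354] false,
   Spec.mk (nat_lit 45200) (nat_lit 2) [nat_lit 32078, nat_lit 49574, nat_lit 44714, nat_lit 45202] (nat_lit 0) [] false,
   Spec.mk (nat_lit 45202) (nat_lit 1) [nat_lit 32080, nat_lit 49576, nat_lit 44716, nat_lit 45208, nat_lit 45200, nat_lit 45204] (nat_lit 0) [nat_lit 25520] false,
   Spec.mk (nat_lit 45204) (nat_lit 0) [nat_lit 32082, nat_lit 49578, nat_lit 44718, nat_lit 45210, nat_lit 45202] (nat_lit 2) [nat_lit 25522] false,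
   Spec.mk (nat_lit 45208) (nat_lit 0) [nat_lit 32086, nat_lit 49582, nat_lit 44722, nat_lit 45226, nat_lit 45202, nat_lit 45210] (nat_lit 0) [nat_lit 25526] false,
   Spec.mk (nat_lit 45210) (nat_lit 0) [nat_lit 32088, nat_lit 49584, nat_lit 44724, nat_lit 45228, nat_lit 45204, nat_lit 45216, nat_lit 45208] (nat_lit 1) [nat_lit 25528] false,
   Spec.mk (nat_lit 45216) (nat_lit 0) [nat_lit 32094, nat_lit 49590, nat_lit 44730, nat_lit 45234, nat_lit 45210] (nat_lit 2) [nat_lit 25534] false,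
   Spec.mk (nat_lit 45226) (nat_lit 0) [nat_lit 32104, nat_lit 49600, nat_lit 44740, nat_lit 45280, nat_lit 45208, nat_lit 45228] (nat_lit 0) [nat_lit 25544] false,
   Spec.mk (nat_lit 45228) (nat_lit 0) [nat_lit 32106, nat_lit 49602, nat_lit 44742, nat_lit 45282, nat_lit 45210, nat_lit 45234, nat_lit 45226] (nat_lit 2) [nat_lit 25546] false,
   Spec.mk (nat_lit 45234) (nat_lit 0) [nat_lit 32112, nat_lit 49608, nat_lit 44748, nat_lit 45288, nat_lit 45216, nat_lit 45252, nat_lit 45228] (nat_lit 1) [nat_lit 25552] false,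
   Spec.mk (nat_lit 45252) (nat_lit 0) [nat_lit 32130, nat_lit 49626, nat_lit 44766, nat_lit 45306, nat_lit 45234] (nat_lit 2) [nat_lit 25570] false,
   Spec.mk (nat_lit 45280) (nat_lit 0) [nat_lit 32158, nat_lit 49654, nat_lit 44794, nat_lit 45442, nat_lit 45226, nat_lit 45282] (nat_lit 0) [nat_lit 25598] false,
   Spec.mk (nat_lit 45282) (nat_lit 0) [nat_lit 32160, nat_lit 49656, nat_lit 44796, nat_lit 45444, nat_lit 45228, nat_lit 45288, nat_lit 45280] (nat_lit 2) [nat_lit 25600] false,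
   Spec.mk (nat_lit 45288) (nat_lit 0) [nat_lit 32166, nat_lit 49662, nat_lit 44802, nat_lit 45450, nat_lit 45234, nat_lit 45306, nat_lit 45282] (nat_lit 2) [nat_lit 25606] false,
   Spec.mk (nat_lit 45306) (nat_lit 0) [nat_lit 32184, nat_lit 49680, nat_lit 44820, nat_lit 45468, nat_lit 45252, nat_lit 45360, nat_lit 45288] (nat_lit 1) [nat_lit 25624] false,
   Spec.mk (nat_lit 45360) (nat_lit 0) [nat_lit 32238, nat_lit 49734, nat_lit 44874, nat_lit 45522, nat_lit 45306] (nat_lit 2) [nat_lit 25678] false,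
   Spec.mk (nat_lit 45442) (nat_lit 2) [nat_lit 32320, nat_lit 49816, nat_lit 44956, nat_lit 45280, nat_lit 45444] (nat_lit 0) [nat_lit 25760] false,
   Spec.mk (nat_lit 45444) (nat_lit 0) [nat_lit 32322, nat_lit 49818, nat_lit 44958, nat_lit 45282, nat_lit 45450, nat_lit 45442] (nat_lit 0) [nat_lit 25762] false,
   Spec.mk (nat_lit 45450) (nat_lit 0) [nat_lit 32328, nat_lit 49824, nat_lit 44964, nat_lit 45288, nat_lit 45468, nat_lit 45444] (nat_lit 0) [nat_lit 25768] false,
   Spec.mk (nat_lit 45468) (nat_lit 0) [nat_lit 32346, nat_lit 49842, nat_lit 44982, nat_lit 45306, nat_lit 45522, nat_lit 45450] (nat_lit 0) [nat_lit 25786] false,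
   Spec.mk (nat_lit 45522) (nat_lit 1) [nat_lit 32400, nat_lit 49896, nat_lit 45036, nat_lit 45360, nat_lit 45684, nat_lit 45468] (nat_lit 0) [nat_lit 25840] false,
   Spec.mk (nat_lit 45684) (nat_lit 2) [nat_lit 32562, nat_lit 50058, nat_lit 45522] (nat_lit 0) [nat_lit 26002] false,
   Spec.mk (nat_lit 45944) (nat_lit 6) [nat_lit 32822, nat_lit 41570, nat_lit 45962, nat_lit 45950] (nat_lit 0) [] false,
   Spec.mk (nat_lit 45950) (nat_lit 4) [nat_lit 32828, nat_lit 41576, nat_lit 45968, nat_lit 45944, nat_lit 45952] (nat_lit 0) [] false,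
   Spec.mk (nat_lit 45952) (nat_lit 4) [nat_lit 32830, nat_lit 41578, nat_lit 45970, nat_lit 45950] (nat_lit 0) [nat_lit 26270] false,
   Spec.mk (nat_lit 45962) (nat_lit 4) [nat_lit 32840, nat_lit 41588, nat_lit 46016, nat_lit 45944, nat_lit 45968] (nat_lit 0) [] false,
   Spec.mk (nat_lit 45968) (nat_lit 4) [nat_lit 32846, nat_lit 41594, nat_lit 46022, nat_lit 45950, nat_lit 45986, nat_lit 45962, nat_lit 45974, nat_lit 45970] (nat_lit 0) [] false]

noncomputable def sp100 : List Spec :=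
  [Spec.mk (nat_lit 45970) (nat_lit 3) [nat_lit 32848, nat_lit 41596, nat_lit 46024, nat_lit 45952, nat_lit 45988, nat_lit 45976, nat_lit 45968] (nat_lit 0) [nat_lit 26288] false,
   Spec.mk (nat_lit 45974) (nat_lit 2) [nat_lit 32852, nat_lit 41600, nat_lit 46028, nat_lit 45992, nat_lit 45968, nat_lit 45976] (nat_lit 0) [] false,
   Spec.mk (nat_lit 45976) (nat_lit 3) [nat_lit 32854, nat_lit 41602, nat_lit 46030, nat_lit 45994, nat_lit 45970, nat_lit 45974, nat_lit 45978] (nat_lit 0) [nat_lit 26294] false,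
   Spec.mk (nat_lit 45978) (nat_lit 2) [nat_lit 32856, nat_lit 41604, nat_lit 46032, nat_lit 45996, nat_lit 45976] (nat_lit 0) [nat_lit 26296] false,
   Spec.mk (nat_lit 45986) (nat_lit 2) [nat_lit 32864, nat_lit 41612, nat_lit 46040, nat_lit 45968, nat_lit 45992, nat_lit 45988] (nat_lit 0) [] false,
   Spec.mk (nat_lit 45988) (nat_lit 0) [nat_lit 32866, nat_lit 41614, nat_lit 46042, nat_lit 45970, nat_lit 45994, nat_lit 45986] (nat_lit 0) [nat_lit 26306] false,
   Spec.mk (nat_lit 45992) (nat_lit 2) [nat_lit 32870, nat_lit 41618, nat_lit 46046, nat_lit 45974, nat_lit 45986, nat_lit 45994] (nat_lit 0) [] false,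
   Spec.mk (nat_lit 45994) (nat_lit 2) [nat_lit 32872, nat_lit 41620, nat_lit 46048, nat_lit 45976, nat_lit 45988, nat_lit 46000, nat_lit 45992, nat_lit 45996] (nat_lit 0) [nat_lit 26312] false,
   Spec.mk (nat_lit 45996) (nat_lit 0) [nat_lit 32874, nat_lit 41622, nat_lit 46050, nat_lit 45978, nat_lit 46002, nat_lit 45994] (nat_lit 0) [nat_lit 26314] false,
   Spec.mk (nat_lit 46000) (nat_lit 2) [nat_lit 32878, nat_lit 41626, nat_lit 46054, nat_lit 45994, nat_lit 46002] (nat_lit 0) [nat_lit 26318] false,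
   Spec.mk (nat_lit 46002) (nat_lit 2) [nat_lit 32880, nat_lit 41628, nat_lit 46056, nat_lit 45996, nat_lit 46000] (nat_lit 0) [nat_lit 26320] false,
   Spec.mk (nat_lit 46016) (nat_lit 4) [nat_lit 32894, nat_lit 41642, nat_lit 46178, nat_lit 45962, nat_lit 46022] (nat_lit 0) [] false,
   Spec.mk (nat_lit 46022) (nat_lit 3) [nat_lit 32900, nat_lit 41648, nat_lit 46184, nat_lit 45968, nat_lit 46040, nat_lit 46016, nat_lit 46028, nat_lit 46024] (nat_lit 0) [] false,
   Spec.mk (nat_lit 46024) (nat_lit 2) [nat_lit 32902, nat_lit 41650, nat_lit 46186, nat_lit 45970, nat_lit 46042, nat_lit 46030, nat_lit 46022] (nat_lit 0) [nat_lit 26342] false,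
   Spec.mk (nat_lit 46028) (nat_lit 0) [nat_lit 32906, nat_lit 41654, nat_lit 46190, nat_lit 45974, nat_lit 46046, nat_lit 46022, nat_lit 46030] (nat_lit 0) [] false,
   Spec.mk (nat_lit 46030) (nat_lit 1) [nat_lit 32908, nat_lit 41656, nat_lit 46192, nat_lit 45976, nat_lit 46048, nat_lit 46024, nat_lit 46028, nat_lit 46032] (nat_lit 0) [nat_lit 26348] false,
   Spec.mk (nat_lit 46032) (nat_lit 0) [nat_lit 32910, nat_lit 41658, nat_lit 46194, nat_lit 45978, nat_lit 46050, nat_lit 46030] (nat_lit 0) [nat_lit 26350] false,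
   Spec.mk (nat_lit 46040) (nat_lit 3) [nat_lit 32918, nat_lit 41666, nat_lit 46202, nat_lit 45986, nat_lit 46094, nat_lit 46022, nat_lit 46046, nat_lit 46042] (nat_lit 0) [] false,
   Spec.mk (nat_lit 46042) (nat_lit 1) [nat_lit 32920, nat_lit 41668, nat_lit 46204, nat_lit 45988, nat_lit 46096, nat_lit 46024, nat_lit 46048, nat_lit 46040] (nat_lit 0) [nat_lit 26360] false,
   Spec.mk (nat_lit 46046) (nat_lit 2) [nat_lit 32924, nat_lit 41672, nat_lit 46208, nat_lit 45992, nat_lit 46100, nat_lit 46028, nat_lit 46064, nat_lit 46040, nat_lit 46048] (nat_lit 0) [] false,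
   Spec.mk (nat_lit 46048) (nat_lit 2) [nat_lit 32926, nat_lit 41674, nat_lit 46210, nat_lit 45994, nat_lit 46102, nat_lit 46030, nat_lit 46066, nat_lit 46042, nat_lit 46054, nat_lit 46046, nat_lit 46050] (nat_lit 0) [nat_lit 26366] false,
   Spec.mk (nat_lit 46050) (nat_lit 0) [nat_lit 32928, nat_lit 41676, nat_lit 46212, nat_lit 45996, nat_lit 46104, nat_lit 46032, nat_lit 46068, nat_lit 46056, nat_lit 46048] (nat_lit 0) [nat_lit 26368] false,
   Spec.mk (nat_lit 46054) (nat_lit 1) [nat_lit 32932, nat_lit 41680, nat_lit 46216, nat_lit 46000, nat_lit 46108, nat_lit 46072, nat_lit 46048, nat_lit 46056] (nat_lit 0) [nat_lit 26372] false,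
   Spec.mk (nat_lit 46056) (nat_lit 1) [nat_lit 32934, nat_lit 41682, nat_lit 46218, nat_lit 46002, nat_lit 46110, nat_lit 46074, nat_lit 46050, nat_lit 46054] (nat_lit 0) [nat_lit 26374] false,
   Spec.mk (nat_lit 46064) (nat_lit 2) [nat_lit 32942, nat_lit 41690, nat_lit 46226, nat_lit 46118, nat_lit 46046, nat_lit 46066] (nat_lit 0) [] false,
   Spec.mk (nat_lit 46066) (nat_lit 1) [nat_lit 32944, nat_lit 41692, nat_lit 46228, nat_lit 46120, nat_lit 46048, nat_lit 46072, nat_lit 46064, nat_lit 46068] (nat_lit 0) [nat_lit 26384] false,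
   Spec.mk (nat_lit 46068) (nat_lit 0) [nat_lit 32946, nat_lit 41694, nat_lit 46230, nat_lit 46122, nat_lit 46050, nat_lit 46074, nat_lit 46066] (nat_lit 2) [nat_lit 26386] false,
   Spec.mk (nat_lit 46072) (nat_lit 2) [nat_lit 32950, nat_lit 41698, nat_lit 46234, nat_lit 46126, nat_lit 46054, nat_lit 46066, nat_lit 46074] (nat_lit 0) [nat_lit 26390] false,
   Spec.mk (nat_lit 46074) (nat_lit 1) [nat_lit 32952, nat_lit 41700, nat_lit 46236, nat_lit 46128, nat_lit 46056, nat_lit 46068, nat_lit 46080, nat_lit 46072] (nat_lit 0) [nat_lit 26392] false,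
   Spec.mk (nat_lit 46080) (nat_lit 2) [nat_lit 32958, nat_lit 41706, nat_lit 46242, nat_lit 46134, nat_lit 46074] (nat_lit 0) [nat_lit 26398] false,
   Spec.mk (nat_lit 46094) (nat_lit 2) [nat_lit 32972, nat_lit 41720, nat_lit 46256, nat_lit 46040, nat_lit 46100, nat_lit 46096] (nat_lit 0) [] false,
   Spec.mk (nat_lit 46096) (nat_lit 0) [nat_lit 32974, nat_lit 41722, nat_lit 46258, nat_lit 46042, nat_lit 46102, nat_lit 46094] (nat_lit 0) [nat_lit 26414] false,
   Spec.mk (nat_lit 46100) (nat_lit 0) [nat_lit 32978, nat_lit 41726, nat_lit 46262, nat_lit 46046, nat_lit 46118, nat_lit 46094, nat_lit 46102] (nat_lit 0) [] false,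
   Spec.mk (nat_lit 46102) (nat_lit 0) [nat_lit 32980, nat_lit 41728, nat_lit 46264, nat_lit 46048, nat_lit 46120, nat_lit 46096, nat_lit 46108, nat_lit 46100, nat_lit 46104] (nat_lit 0) [nat_lit 26420] false,
   Spec.mk (nat_lit 46104) (nat_lit 0) [nat_lit 32982, nat_lit 41730, nat_lit 46266, nat_lit 46050, nat_lit 46122, nat_lit 46110, nat_lit 46102] (nat_lit 2) [nat_lit 26422] false,
   Spec.mk (nat_lit 46108) (nat_lit 0) [nat_lit 32986, nat_lit 41734, nat_lit 46270, nat_lit 46054, nat_lit 46126, nat_lit 46102, nat_lit 46110] (nat_lit 2) [nat_lit 26426] false,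
   Spec.mk (nat_lit 46110) (nat_lit 0) [nat_lit 32988, nat_lit 41736, nat_lit 46272, nat_lit 46056, nat_lit 46128, nat_lit 46104, nat_lit 46108] (nat_lit 2) [nat_lit 26428] false,
   Spec.mk (nat_lit 46118) (nat_lit 2) [nat_lit 32996, nat_lit 41744, nat_lit 46280, nat_lit 46064, nat_lit 46100, nat_lit 46120] (nat_lit 0) [] false,
   Spec.mk (nat_lit 46120) (nat_lit 1) [nat_lit 32998, nat_lit 41746, nat_lit 46282, nat_lit 46066, nat_lit 46102, nat_lit 46126, nat_lit 46118, nat_lit 46122] (nat_lit 0) [nat_lit 26438] false,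
   Spec.mk (nat_lit 46122) (nat_lit 0) [nat_lit 33000, nat_lit 41748, nat_lit 46284, nat_lit 46068, nat_lit 46104, nat_lit 46128, nat_lit 46120] (nat_lit 2) [nat_lit 26440] false,
   Spec.mk (nat_lit 46126) (nat_lit 1) [nat_lit 33004, nat_lit 41752, nat_lit 46288, nat_lit 46072, nat_lit 46108, nat_lit 46144, nat_lit 46120, nat_lit 46128] (nat_lit 0) [nat_lit 26444] false,
   Spec.mk (nat_lit 46128) (nat_lit 0) [nat_lit 33006, nat_lit 41754, nat_lit 46290, nat_lit 46074, nat_lit 46110, nat_lit 46146, nat_lit 46122, nat_lit 46134, nat_lit 46126] (nat_lit 0) [nat_lit 26446] false,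
   Spec.mk (nat_lit 46134) (nat_lit 0) [nat_lit 33012, nat_lit 41760, nat_lit 46296, nat_lit 46080, nat_lit 46152, nat_lit 46128] (nat_lit 0) [nat_lit 26452] false,
   Spec.mk (nat_lit 46144) (nat_lit 2) [nat_lit 33022, nat_lit 41770, nat_lit 46306, nat_lit 46126, nat_lit 46146] (nat_lit 0) [nat_lit 26462] false,
   Spec.mk (nat_lit 46146) (nat_lit 0) [nat_lit 33024, nat_lit 41772, nat_lit 46308, nat_lit 46128, nat_lit 46152, nat_lit 46144] (nat_lit 0) [nat_lit 26464] false,
   Spec.mk (nat_lit 46152) (nat_lit 2) [nat_lit 33030, nat_lit 41778, nat_lit 46314, nat_lit 46134, nat_lit 46146] (nat_lit 0) [nat_lit 26470] false,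
   Spec.mk (nat_lit 46178) (nat_lit 4) [nat_lit 33056, nat_lit 41804, nat_lit 46664, nat_lit 46016, nat_lit 46184] (nat_lit 0) [] false,
   Spec.mk (nat_lit 46184) (nat_lit 3) [nat_lit 33062, nat_lit 41810, nat_lit 46670, nat_lit 46022, nat_lit 46202, nat_lit 46178, nat_lit 46190, nat_lit 46186] (nat_lit 0) [] false,
   Spec.mk (nat_lit 46186) (nat_lit 2) [nat_lit 33064, nat_lit 41812, nat_lit 46672, nat_lit 46024, nat_lit 46204, nat_lit 46192, nat_lit 46184] (nat_lit 0) [nat_lit 26504] false,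
   Spec.mk (nat_lit 46190) (nat_lit 0) [nat_lit 33068, nat_lit 41816, nat_lit 46676, nat_lit 46028, nat_lit 46208, nat_lit 46184, nat_lit 46192] (nat_lit 0) [] false,
   Spec.mk (nat_lit 46192) (nat_lit 1) [nat_lit 33070, nat_lit 41818, nat_lit 46678, nat_lit 46030, nat_lit 46210, nat_lit 46186, nat_lit 46190, nat_lit 46194] (nat_lit 0) [nat_lit 26510] false,
   Spec.mk (nat_lit 46194) (nat_lit 0) [nat_lit 33072, nat_lit 41820, nat_lit 46680, nat_lit 46032, nat_lit 46212, nat_lit 46192] (nat_lit 0) [nat_lit 26512] false,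
   Spec.mk (nat_lit 46202) (nat_lit 2) [nat_lit 33080, nat_lit 41828, nat_lit 46688, nat_lit 46040, nat_lit 46256, nat_lit 46184, nat_lit 46208, nat_lit 46204] (nat_lit 0) [] false,
   Spec.mk (nat_lit 46204) (nat_lit 0) [nat_lit 33082, nat_lit 41830, nat_lit 46690, nat_lit 46042, nat_lit 46258, nat_lit 46186, nat_lit 46210, nat_lit 46202] (nat_lit 0) [nat_lit 26522] false,
   Spec.mk (nat_lit 46208) (nat_lit 1) [nat_lit 33086, nat_lit 41834, nat_lit 46694, nat_lit 46046, nat_lit 46262, nat_lit 46190, nat_lit 46226, nat_lit 46202, nat_lit 46210] (nat_lit 0) [] false,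
   Spec.mk (nat_lit 46210) (nat_lit 1) [nat_lit 33088, nat_lit 41836, nat_lit 46696, nat_lit 46048, nat_lit 46264, nat_lit 46192, nat_lit 46228, nat_lit 46204, nat_lit 46216, nat_lit 46208, nat_lit 46212] (nat_lit 0) [nat_lit 26528] false,
   Spec.mk (nat_lit 46212) (nat_lit 0) [nat_lit 33090, nat_lit 41838, nat_lit 46698, nat_lit 46050, nat_lit 46266, nat_lit 46194, nat_lit 46230, nat_lit 46218, nat_lit 46210] (nat_lit 1) [nat_lit 26530] false,
   Spec.mk (nat_lit 46216) (nat_lit 0) [nat_lit 33094, nat_lit 41842, nat_lit 46702, nat_lit 46054, nat_lit 46270, nat_lit 46234, nat_lit 46210, nat_lit 46218] (nat_lit 0) [nat_lit 26534] false,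
   Spec.mk (nat_lit 46218) (nat_lit 0) [nat_lit 33096, nat_lit 41844, nat_lit 46704, nat_lit 46056, nat_lit 46272, nat_lit 46236, nat_lit 46212, nat_lit 46216] (nat_lit 0) [nat_lit 26536] false,
   Spec.mk (nat_lit 46226) (nat_lit 0) [nat_lit 33104, nat_lit 41852, nat_lit 46712, nat_lit 46064, nat_lit 46280, nat_lit 46208, nat_lit 46228] (nat_lit 0) [] false]

noncomputable def sp101 : List Spec :=
  [Spec.mk (nat_lit 46228) (nat_lit 0) [nat_lit 33106, nat_lit 41854, nat_lit 46714, nat_lit 46066, nat_lit 46282, nat_lit 46210, nat_lit 46234, nat_lit 46226, nat_lit 46230] (nat_lit 1) [nat_lit 26546] false,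
   Spec.mk (nat_lit 46230) (nat_lit 0) [nat_lit 33108, nat_lit 41856, nat_lit 46716, nat_lit 46068, nat_lit 46284, nat_lit 46212, nat_lit 46236, nat_lit 46228] (nat_lit 4) [nat_lit 26548] false,
   Spec.mk (nat_lit 46234) (nat_lit 0) [nat_lit 33112, nat_lit 41860, nat_lit 46720, nat_lit 46072, nat_lit 46288, nat_lit 46216, nat_lit 46228, nat_lit 46236] (nat_lit 0) [nat_lit 26552] false,
   Spec.mk (nat_lit 46236) (nat_lit 0) [nat_lit 33114, nat_lit 41862, nat_lit 46722, nat_lit 46074, nat_lit 46290, nat_lit 46218, nat_lit 46230, nat_lit 46242, nat_lit 46234] (nat_lit 1) [nat_lit 26554] false,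
   Spec.mk (nat_lit 46242) (nat_lit 0) [nat_lit 33120, nat_lit 41868, nat_lit 46728, nat_lit 46080, nat_lit 46296, nat_lit 46236] (nat_lit 0) [nat_lit 26560] false,
   Spec.mk (nat_lit 46256) (nat_lit 3) [nat_lit 33134, nat_lit 41882, nat_lit 46742, nat_lit 46094, nat_lit 46418, nat_lit 46202, nat_lit 46262, nat_lit 46258] (nat_lit 0) [] false,
   Spec.mk (nat_lit 46258) (nat_lit 1) [nat_lit 33136, nat_lit 41884, nat_lit 46744, nat_lit 46096, nat_lit 46420, nat_lit 46204, nat_lit 46264, nat_lit 46256] (nat_lit 0) [nat_lit 26576] false,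
   Spec.mk (nat_lit 46262) (nat_lit 1) [nat_lit 33140, nat_lit 41888, nat_lit 46748, nat_lit 46100, nat_lit 46424, nat_lit 46208, nat_lit 46280, nat_lit 46256, nat_lit 46264] (nat_lit 0) [] false,
   Spec.mk (nat_lit 46264) (nat_lit 1) [nat_lit 33142, nat_lit 41890, nat_lit 46750, nat_lit 46102, nat_lit 46426, nat_lit 46210, nat_lit 46282, nat_lit 46258, nat_lit 46270, nat_lit 46262, nat_lit 46266] (nat_lit 0) [nat_lit 26582] false,
   Spec.mk (nat_lit 46266) (nat_lit 0) [nat_lit 33144, nat_lit 41892, nat_lit 46752, nat_lit 46104, nat_lit 46428, nat_lit 46212, nat_lit 46284, nat_lit 46272, nat_lit 46264] (nat_lit 1) [nat_lit 26584] false,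
   Spec.mk (nat_lit 46270) (nat_lit 0) [nat_lit 33148, nat_lit 41896, nat_lit 46756, nat_lit 46108, nat_lit 46432, nat_lit 46216, nat_lit 46288, nat_lit 46264, nat_lit 46272] (nat_lit 1) [nat_lit 26588] false,
   Spec.mk (nat_lit 46272) (nat_lit 0) [nat_lit 33150, nat_lit 41898, nat_lit 46758, nat_lit 46110, nat_lit 46434, nat_lit 46218, nat_lit 46290, nat_lit 46266, nat_lit 46270] (nat_lit 1) [nat_lit 26590] false,
   Spec.mk (nat_lit 46280) (nat_lit 2) [nat_lit 33158, nat_lit 41906, nat_lit 46766, nat_lit 46118, nat_lit 46442, nat_lit 46226, nat_lit 46334, nat_lit 46262, nat_lit 46282] (nat_lit 0) [] false,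
   Spec.mk (nat_lit 46282) (nat_lit 1) [nat_lit 33160, nat_lit 41908, nat_lit 46768, nat_lit 46120, nat_lit 46444, nat_lit 46228, nat_lit 46336, nat_lit 46264, nat_lit 46288, nat_lit 46280, nat_lit 46284] (nat_lit 0) [nat_lit 26600] false,
   Spec.mk (nat_lit 46284) (nat_lit 0) [nat_lit 33162, nat_lit 41910, nat_lit 46770, nat_lit 46122, nat_lit 46446, nat_lit 46230, nat_lit 46338, nat_lit 46266, nat_lit 46290, nat_lit 46282] (nat_lit 2) [nat_lit 26602] false,
   Spec.mk (nat_lit 46288) (nat_lit 1) [nat_lit 33166, nat_lit 41914, nat_lit 46774, nat_lit 46126, nat_lit 46450, nat_lit 46234, nat_lit 46342, nat_lit 46270, nat_lit 46306, nat_lit 46282, nat_lit 46290] (nat_lit 0) [nat_lit 26606] false,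
   Spec.mk (nat_lit 46290) (nat_lit 0) [nat_lit 33168, nat_lit 41916, nat_lit 46776, nat_lit 46128, nat_lit 46452, nat_lit 46236, nat_lit 46344, nat_lit 46272, nat_lit 46308, nat_lit 46284, nat_lit 46296, nat_lit 46288] (nat_lit 0) [nat_lit 26608] false,
   Spec.mk (nat_lit 46296) (nat_lit 0) [nat_lit 33174, nat_lit 41922, nat_lit 46782, nat_lit 46134, nat_lit 46458, nat_lit 46242, nat_lit 46350, nat_lit 46314, nat_lit 46290] (nat_lit 0) [nat_lit 26614] false,
   Spec.mk (nat_lit 46306) (nat_lit 1) [nat_lit 33184, nat_lit 41932, nat_lit 46792, nat_lit 46144, nat_lit 46468, nat_lit 46360, nat_lit 46288, nat_lit 46308] (nat_lit 0) [nat_lit 26624] false,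
   Spec.mk (nat_lit 46308) (nat_lit 0) [nat_lit 33186, nat_lit 41934, nat_lit 46794, nat_lit 46146, nat_lit 46470, nat_lit 46362, nat_lit 46290, nat_lit 46314, nat_lit 46306] (nat_lit 1) [nat_lit 26626] false,
   Spec.mk (nat_lit 46314) (nat_lit 1) [nat_lit 33192, nat_lit 41940, nat_lit 46800, nat_lit 46152, nat_lit 46476, nat_lit 46368, nat_lit 46296, nat_lit 46308] (nat_lit 0) [nat_lit 26632] false,
   Spec.mk (nat_lit 46334) (nat_lit 2) [nat_lit 33212, nat_lit 41960, nat_lit 46820, nat_lit 46496, nat_lit 46280, nat_lit 46336] (nat_lit 0) [] false,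
   Spec.mk (nat_lit 46336) (nat_lit 1) [nat_lit 33214, nat_lit 41962, nat_lit 46822, nat_lit 46498, nat_lit 46282, nat_lit 46342, nat_lit 46334, nat_lit 46338] (nat_lit 0) [nat_lit 26654] false,
   Spec.mk (nat_lit 46338) (nat_lit 0) [nat_lit 33216, nat_lit 41964, nat_lit 46824, nat_lit 46500, nat_lit 46284, nat_lit 46344, nat_lit 46336] (nat_lit 2) [nat_lit 26656] false,
   Spec.mk (nat_lit 46342) (nat_lit 0) [nat_lit 33220, nat_lit 41968, nat_lit 46828, nat_lit 46504, nat_lit 46288, nat_lit 46360, nat_lit 46336, nat_lit 46344] (nat_lit 0) [nat_lit 26660] false,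
   Spec.mk (nat_lit 46344) (nat_lit 0) [nat_lit 33222, nat_lit 41970, nat_lit 46830, nat_lit 46506, nat_lit 46290, nat_lit 46362, nat_lit 46338, nat_lit 46350, nat_lit 46342] (nat_lit 1) [nat_lit 26662] false,
   Spec.mk (nat_lit 46350) (nat_lit 0) [nat_lit 33228, nat_lit 41976, nat_lit 46836, nat_lit 46512, nat_lit 46296, nat_lit 46368, nat_lit 46344] (nat_lit 2) [nat_lit 26668] false,
   Spec.mk (nat_lit 46360) (nat_lit 2) [nat_lit 33238, nat_lit 41986, nat_lit 46846, nat_lit 46522, nat_lit 46306, nat_lit 46342, nat_lit 46362] (nat_lit 0) [nat_lit 26678] false,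
   Spec.mk (nat_lit 46362) (nat_lit 0) [nat_lit 33240, nat_lit 41988, nat_lit 46848, nat_lit 46524, nat_lit 46308, nat_lit 46344, nat_lit 46368, nat_lit 46360] (nat_lit 0) [nat_lit 26680] false,
   Spec.mk (nat_lit 46368) (nat_lit 1) [nat_lit 33246, nat_lit 41994, nat_lit 46854, nat_lit 46530, nat_lit 46314, nat_lit 46350, nat_lit 46386, nat_lit 46362] (nat_lit 0) [nat_lit 26686] false,
   Spec.mk (nat_lit 46386) (nat_lit 2) [nat_lit 33264, nat_lit 42012, nat_lit 46872, nat_lit 46548, nat_lit 46368] (nat_lit 0) [nat_lit 26704] false,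
   Spec.mk (nat_lit 46418) (nat_lit 2) [nat_lit 33296, nat_lit 42044, nat_lit 46904, nat_lit 46256, nat_lit 46424, nat_lit 46420] (nat_lit 0) [] false,
   Spec.mk (nat_lit 46420) (nat_lit 0) [nat_lit 33298, nat_lit 42046, nat_lit 46906, nat_lit 46258, nat_lit 46426, nat_lit 46418] (nat_lit 0) [nat_lit 26738] false,
   Spec.mk (nat_lit 46424) (nat_lit 0) [nat_lit 33302, nat_lit 42050, nat_lit 46910, nat_lit 46262, nat_lit 46442, nat_lit 46418, nat_lit 46426] (nat_lit 0) [] false,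
   Spec.mk (nat_lit 46426) (nat_lit 0) [nat_lit 33304, nat_lit 42052, nat_lit 46912, nat_lit 46264, nat_lit 46444, nat_lit 46420, nat_lit 46432, nat_lit 46424, nat_lit 46428] (nat_lit 0) [nat_lit 26744] false,
   Spec.mk (nat_lit 46428) (nat_lit 0) [nat_lit 33306, nat_lit 42054, nat_lit 46914, nat_lit 46266, nat_lit 46446, nat_lit 46434, nat_lit 46426] (nat_lit 2) [nat_lit 26746] false,
   Spec.mk (nat_lit 46432) (nat_lit 0) [nat_lit 33310, nat_lit 42058, nat_lit 46918, nat_lit 46270, nat_lit 46450, nat_lit 46426, nat_lit 46434] (nat_lit 2) [nat_lit 26750] false,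
   Spec.mk (nat_lit 46434) (nat_lit 0) [nat_lit 33312, nat_lit 42060, nat_lit 46920, nat_lit 46272, nat_lit 46452, nat_lit 46428, nat_lit 46432] (nat_lit 2) [nat_lit 26752] false,
   Spec.mk (nat_lit 46442) (nat_lit 0) [nat_lit 33320, nat_lit 42068, nat_lit 46928, nat_lit 46280, nat_lit 46496, nat_lit 46424, nat_lit 46444] (nat_lit 0) [] false,
   Spec.mk (nat_lit 46444) (nat_lit 0) [nat_lit 33322, nat_lit 42070, nat_lit 46930, nat_lit 46282, nat_lit 46498, nat_lit 46426, nat_lit 46450, nat_lit 46442, nat_lit 46446] (nat_lit 1) [nat_lit 26762] false,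
   Spec.mk (nat_lit 46446) (nat_lit 0) [nat_lit 33324, nat_lit 42072, nat_lit 46932, nat_lit 46284, nat_lit 46500, nat_lit 46428, nat_lit 46452, nat_lit 46444] (nat_lit 4) [nat_lit 26764] false,
   Spec.mk (nat_lit 46450) (nat_lit 0) [nat_lit 33328, nat_lit 42076, nat_lit 46936, nat_lit 46288, nat_lit 46504, nat_lit 46432, nat_lit 46468, nat_lit 46444, nat_lit 46452] (nat_lit 1) [nat_lit 26768] false,
   Spec.mk (nat_lit 46452) (nat_lit 0) [nat_lit 33330, nat_lit 42078, nat_lit 46938, nat_lit 46290, nat_lit 46506, nat_lit 46434, nat_lit 46470, nat_lit 46446, nat_lit 46458, nat_lit 46450] (nat_lit 2) [nat_lit 26770] false,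
   Spec.mk (nat_lit 46458) (nat_lit 0) [nat_lit 33336, nat_lit 42084, nat_lit 46944, nat_lit 46296, nat_lit 46512, nat_lit 46476, nat_lit 46452] (nat_lit 2) [nat_lit 26776] false,
   Spec.mk (nat_lit 46468) (nat_lit 0) [nat_lit 33346, nat_lit 42094, nat_lit 46954, nat_lit 46306, nat_lit 46522, nat_lit 46450, nat_lit 46470] (nat_lit 2) [nat_lit 26786] false,
   Spec.mk (nat_lit 46470) (nat_lit 0) [nat_lit 33348, nat_lit 42096, nat_lit 46956, nat_lit 46308, nat_lit 46524, nat_lit 46452, nat_lit 46476, nat_lit 46468] (nat_lit 4) [nat_lit 26788] false,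
   Spec.mk (nat_lit 46476) (nat_lit 0) [nat_lit 33354, nat_lit 42102, nat_lit 46962, nat_lit 46314, nat_lit 46530, nat_lit 46458, nat_lit 46470] (nat_lit 2) [nat_lit 26794] false,
   Spec.mk (nat_lit 46496) (nat_lit 2) [nat_lit 33374, nat_lit 42122, nat_lit 46982, nat_lit 46334, nat_lit 46442, nat_lit 46498] (nat_lit 0) [] false,
   Spec.mk (nat_lit 46498) (nat_lit 1) [nat_lit 33376, nat_lit 42124, nat_lit 46984, nat_lit 46336, nat_lit 46444, nat_lit 46504, nat_lit 46496, nat_lit 46500] (nat_lit 0) [nat_lit 26816] false,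
   Spec.mk (nat_lit 46500) (nat_lit 0) [nat_lit 33378, nat_lit 42126, nat_lit 46986, nat_lit 46338, nat_lit 46446, nat_lit 46506, nat_lit 46498] (nat_lit 2) [nat_lit 26818] false,
   Spec.mk (nat_lit 46504) (nat_lit 0) [nat_lit 33382, nat_lit 42130, nat_lit 46990, nat_lit 46342, nat_lit 46450, nat_lit 46522, nat_lit 46498, nat_lit 46506] (nat_lit 0) [nat_lit 26822] false,
   Spec.mk (nat_lit 46506) (nat_lit 0) [nat_lit 33384, nat_lit 42132, nat_lit 46992, nat_lit 46344, nat_lit 46452, nat_lit 46524, nat_lit 46500, nat_lit 46512, nat_lit 46504] (nat_lit 1) [nat_lit 26824] false,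
   Spec.mk (nat_lit 46512) (nat_lit 0) [nat_lit 33390, nat_lit 42138, nat_lit 46998, nat_lit 46350, nat_lit 46458, nat_lit 46530, nat_lit 46506] (nat_lit 2) [nat_lit 26830] false,
   Spec.mk (nat_lit 46522) (nat_lit 1) [nat_lit 33400, nat_lit 42148, nat_lit 47008, nat_lit 46360, nat_lit 46468, nat_lit 46576, nat_lit 46504, nat_lit 46524] (nat_lit 0) [nat_lit 26840] false,
   Spec.mk (nat_lit 46524) (nat_lit 0) [nat_lit 33402, nat_lit 42150, nat_lit 47010, nat_lit 46362, nat_lit 46470, nat_lit 46578, nat_lit 46506, nat_lit 46530, nat_lit 46522] (nat_lit 1) [nat_lit 26842] false,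
   Spec.mk (nat_lit 46530) (nat_lit 0) [nat_lit 33408, nat_lit 42156, nat_lit 47016, nat_lit 46368, nat_lit 46476, nat_lit 46584, nat_lit 46512, nat_lit 46548, nat_lit 46524] (nat_lit 0) [nat_lit 26848] false,
   Spec.mk (nat_lit 46548) (nat_lit 0) [nat_lit 33426, nat_lit 42174, nat_lit 47034, nat_lit 46386, nat_lit 46602, nat_lit 46530] (nat_lit 0) [nat_lit 26866] false,
   Spec.mk (nat_lit 46576) (nat_lit 2) [nat_lit 33454, nat_lit 42202, nat_lit 47062, nat_lit 46522, nat_lit 46578] (nat_lit 0) [nat_lit 26894] false,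
   Spec.mk (nat_lit 46578) (nat_lit 0) [nat_lit 33456, nat_lit 42204, nat_lit 47064, nat_lit 46524, nat_lit 46584, nat_lit 46576] (nat_lit 0) [nat_lit 26896] false,
   Spec.mk (nat_lit 46584) (nat_lit 0) [nat_lit 33462, nat_lit 42210, nat_lit 47070, nat_lit 46530, nat_lit 46602, nat_lit 46578] (nat_lit 0) [nat_lit 26902] false]

noncomputable def sp102 : List Spec :=
  [Spec.mk (nat_lit 46602) (nat_lit 2) [nat_lit 33480, nat_lit 42228, nat_lit 47088, nat_lit 46548, nat_lit 46584] (nat_lit 0) [nat_lit 26920] false,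
   Spec.mk (nat_lit 46664) (nat_lit 4) [nat_lit 33542, nat_lit 42290, nat_lit 48122, nat_lit 46178, nat_lit 46670] (nat_lit 0) [] false,
   Spec.mk (nat_lit 46670) (nat_lit 3) [nat_lit 33548, nat_lit 42296, nat_lit 48128, nat_lit 46184, nat_lit 46688, nat_lit 46664, nat_lit 46676, nat_lit 46672] (nat_lit 0) [] false,
   Spec.mk (nat_lit 46672) (nat_lit 2) [nat_lit 33550, nat_lit 42298, nat_lit 48130, nat_lit 46186, nat_lit 46690, nat_lit 46678, nat_lit 46670] (nat_lit 0) [nat_lit 26990] false,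
   Spec.mk (nat_lit 46676) (nat_lit 0) [nat_lit 33554, nat_lit 42302, nat_lit 48134, nat_lit 46190, nat_lit 46694, nat_lit 46670, nat_lit 46678] (nat_lit 0) [] false,
   Spec.mk (nat_lit 46678) (nat_lit 1) [nat_lit 33556, nat_lit 42304, nat_lit 48136, nat_lit 46192, nat_lit 46696, nat_lit 46672, nat_lit 46676, nat_lit 46680] (nat_lit 0) [nat_lit 26996] false,
   Spec.mk (nat_lit 46680) (nat_lit 0) [nat_lit 33558, nat_lit 42306, nat_lit 48138, nat_lit 46194, nat_lit 46698, nat_lit 46678] (nat_lit 0) [nat_lit 26998] false,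
   Spec.mk (nat_lit 46688) (nat_lit 2) [nat_lit 33566, nat_lit 42314, nat_lit 48146, nat_lit 46202, nat_lit 46742, nat_lit 46670, nat_lit 46694, nat_lit 46690] (nat_lit 0) [] false,
   Spec.mk (nat_lit 46690) (nat_lit 0) [nat_lit 33568, nat_lit 42316, nat_lit 48148, nat_lit 46204, nat_lit 46744, nat_lit 46672, nat_lit 46696, nat_lit 46688] (nat_lit 0) [nat_lit 27008] false,
   Spec.mk (nat_lit 46694) (nat_lit 1) [nat_lit 33572, nat_lit 42320, nat_lit 48152, nat_lit 46208, nat_lit 46748, nat_lit 46676, nat_lit 46712, nat_lit 46688, nat_lit 46696] (nat_lit 0) [] false,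
   Spec.mk (nat_lit 46696) (nat_lit 1) [nat_lit 33574, nat_lit 42322, nat_lit 48154, nat_lit 46210, nat_lit 46750, nat_lit 46678, nat_lit 46714, nat_lit 46690, nat_lit 46702, nat_lit 46694, nat_lit 46698] (nat_lit 0) [nat_lit 27014] false,
   Spec.mk (nat_lit 46698) (nat_lit 0) [nat_lit 33576, nat_lit 42324, nat_lit 48156, nat_lit 46212, nat_lit 46752, nat_lit 46680, nat_lit 46716, nat_lit 46704, nat_lit 46696] (nat_lit 1) [nat_lit 27016] false,
   Spec.mk (nat_lit 46702) (nat_lit 0) [nat_lit 33580, nat_lit 42328, nat_lit 48160, nat_lit 46216, nat_lit 46756, nat_lit 46720, nat_lit 46696, nat_lit 46704] (nat_lit 0) [nat_lit 27020] false,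
   Spec.mk (nat_lit 46704) (nat_lit 0) [nat_lit 33582, nat_lit 42330, nat_lit 48162, nat_lit 46218, nat_lit 46758, nat_lit 46722, nat_lit 46698, nat_lit 46702] (nat_lit 0) [nat_lit 27022] false,
   Spec.mk (nat_lit 46712) (nat_lit 0) [nat_lit 33590, nat_lit 42338, nat_lit 48170, nat_lit 46226, nat_lit 46766, nat_lit 46694, nat_lit 46714] (nat_lit 0) [] false,
   Spec.mk (nat_lit 46714) (nat_lit 0) [nat_lit 33592, nat_lit 42340, nat_lit 48172, nat_lit 46228, nat_lit 46768, nat_lit 46696, nat_lit 46720, nat_lit 46712, nat_lit 46716] (nat_lit 1) [nat_lit 27032] false,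
   Spec.mk (nat_lit 46716) (nat_lit 0) [nat_lit 33594, nat_lit 42342, nat_lit 48174, nat_lit 46230, nat_lit 46770, nat_lit 46698, nat_lit 46722, nat_lit 46714] (nat_lit 4) [nat_lit 27034] false,
   Spec.mk (nat_lit 46720) (nat_lit 0) [nat_lit 33598, nat_lit 42346, nat_lit 48178, nat_lit 46234, nat_lit 46774, nat_lit 46702, nat_lit 46714, nat_lit 46722] (nat_lit 0) [nat_lit 27038] false,
   Spec.mk (nat_lit 46722) (nat_lit 0) [nat_lit 33600, nat_lit 42348, nat_lit 48180, nat_lit 46236, nat_lit 46776, nat_lit 46704, nat_lit 46716, nat_lit 46728, nat_lit 46720] (nat_lit 1) [nat_lit 27040] false,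
   Spec.mk (nat_lit 46728) (nat_lit 0) [nat_lit 33606, nat_lit 42354, nat_lit 48186, nat_lit 46242, nat_lit 46782, nat_lit 46722] (nat_lit 0) [nat_lit 27046] false,
   Spec.mk (nat_lit 46742) (nat_lit 2) [nat_lit 33620, nat_lit 42368, nat_lit 48200, nat_lit 46256, nat_lit 46904, nat_lit 46688, nat_lit 46748, nat_lit 46744] (nat_lit 0) [] false,
   Spec.mk (nat_lit 46744) (nat_lit 0) [nat_lit 33622, nat_lit 42370, nat_lit 48202, nat_lit 46258, nat_lit 46906, nat_lit 46690, nat_lit 46750, nat_lit 46742] (nat_lit 0) [nat_lit 27062] false,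
   Spec.mk (nat_lit 46748) (nat_lit 0) [nat_lit 33626, nat_lit 42374, nat_lit 48206, nat_lit 46262, nat_lit 46910, nat_lit 46694, nat_lit 46766, nat_lit 46742, nat_lit 46750] (nat_lit 0) [] false,
   Spec.mk (nat_lit 46750) (nat_lit 0) [nat_lit 33628, nat_lit 42376, nat_lit 48208, nat_lit 46264, nat_lit 46912, nat_lit 46696, nat_lit 46768, nat_lit 46744, nat_lit 46756, nat_lit 46748, nat_lit 46752] (nat_lit 0) [nat_lit 27068] false,
   Spec.mk (nat_lit 46752) (nat_lit 0) [nat_lit 33630, nat_lit 42378, nat_lit 48210, nat_lit 46266, nat_lit 46914, nat_lit 46698, nat_lit 46770, nat_lit 46758, nat_lit 46750] (nat_lit 2) [nat_lit 27070] false,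
   Spec.mk (nat_lit 46756) (nat_lit 0) [nat_lit 33634, nat_lit 42382, nat_lit 48214, nat_lit 46270, nat_lit 46918, nat_lit 46702, nat_lit 46774, nat_lit 46750, nat_lit 46758] (nat_lit 2) [nat_lit 27074] false,
   Spec.mk (nat_lit 46758) (nat_lit 0) [nat_lit 33636, nat_lit 42384, nat_lit 48216, nat_lit 46272, nat_lit 46920, nat_lit 46704, nat_lit 46776, nat_lit 46752, nat_lit 46756] (nat_lit 2) [nat_lit 27076] false,
   Spec.mk (nat_lit 46766) (nat_lit 1) [nat_lit 33644, nat_lit 42392, nat_lit 48224, nat_lit 46280, nat_lit 46928, nat_lit 46712, nat_lit 46820, nat_lit 46748, nat_lit 46768] (nat_lit 0) [] false,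
   Spec.mk (nat_lit 46768) (nat_lit 0) [nat_lit 33646, nat_lit 42394, nat_lit 48226, nat_lit 46282, nat_lit 46930, nat_lit 46714, nat_lit 46822, nat_lit 46750, nat_lit 46774, nat_lit 46766, nat_lit 46770] (nat_lit 0) [nat_lit 27086] false,
   Spec.mk (nat_lit 46770) (nat_lit 0) [nat_lit 33648, nat_lit 42396, nat_lit 48228, nat_lit 46284, nat_lit 46932, nat_lit 46716, nat_lit 46824, nat_lit 46752, nat_lit 46776, nat_lit 46768] (nat_lit 3) [nat_lit 27088] false,
   Spec.mk (nat_lit 46774) (nat_lit 0) [nat_lit 33652, nat_lit 42400, nat_lit 48232, nat_lit 46288, nat_lit 46936, nat_lit 46720, nat_lit 46828, nat_lit 46756, nat_lit 46792, nat_lit 46768, nat_lit 46776] (nat_lit 0) [nat_lit 27092] false,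
   Spec.mk (nat_lit 46776) (nat_lit 0) [nat_lit 33654, nat_lit 42402, nat_lit 48234, nat_lit 46290, nat_lit 46938, nat_lit 46722, nat_lit 46830, nat_lit 46758, nat_lit 46794, nat_lit 46770, nat_lit 46782, nat_lit 46774] (nat_lit 1) [nat_lit 27094] false,
   Spec.mk (nat_lit 46782) (nat_lit 0) [nat_lit 33660, nat_lit 42408, nat_lit 48240, nat_lit 46296, nat_lit 46944, nat_lit 46728, nat_lit 46836, nat_lit 46800, nat_lit 46776] (nat_lit 1) [nat_lit 27100] false,
   Spec.mk (nat_lit 46792) (nat_lit 0) [nat_lit 33670, nat_lit 42418, nat_lit 48250, nat_lit 46306, nat_lit 46954, nat_lit 46846, nat_lit 46774, nat_lit 46794] (nat_lit 0) [nat_lit 27110] false,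
   Spec.mk (nat_lit 46794) (nat_lit 0) [nat_lit 33672, nat_lit 42420, nat_lit 48252, nat_lit 46308, nat_lit 46956, nat_lit 46848, nat_lit 46776, nat_lit 46800, nat_lit 46792] (nat_lit 2) [nat_lit 27112] false,
   Spec.mk (nat_lit 46800) (nat_lit 0) [nat_lit 33678, nat_lit 42426, nat_lit 48258, nat_lit 46314, nat_lit 46962, nat_lit 46854, nat_lit 46782, nat_lit 46794] (nat_lit 0) [nat_lit 27118] false,
   Spec.mk (nat_lit 46820) (nat_lit 0) [nat_lit 33698, nat_lit 42446, nat_lit 48278, nat_lit 46334, nat_lit 46982, nat_lit 46766, nat_lit 46822] (nat_lit 0) [] false,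
   Spec.mk (nat_lit 46822) (nat_lit 0) [nat_lit 33700, nat_lit 42448, nat_lit 48280, nat_lit 46336, nat_lit 46984, nat_lit 46768, nat_lit 46828, nat_lit 46820, nat_lit 46824] (nat_lit 1) [nat_lit 27140] false,
   Spec.mk (nat_lit 46824) (nat_lit 0) [nat_lit 33702, nat_lit 42450, nat_lit 48282, nat_lit 46338, nat_lit 46986, nat_lit 46770, nat_lit 46830, nat_lit 46822] (nat_lit 4) [nat_lit 27142] false,
   Spec.mk (nat_lit 46828) (nat_lit 0) [nat_lit 33706, nat_lit 42454, nat_lit 48286, nat_lit 46342, nat_lit 46990, nat_lit 46774, nat_lit 46846, nat_lit 46822, nat_lit 46830] (nat_lit 2) [nat_lit 27146] false,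
   Spec.mk (nat_lit 46830) (nat_lit 0) [nat_lit 33708, nat_lit 42456, nat_lit 48288, nat_lit 46344, nat_lit 46992, nat_lit 46776, nat_lit 46848, nat_lit 46824, nat_lit 46836, nat_lit 46828] (nat_lit 3) [nat_lit 27148] false,
   Spec.mk (nat_lit 46836) (nat_lit 0) [nat_lit 33714, nat_lit 42462, nat_lit 48294, nat_lit 46350, nat_lit 46998, nat_lit 46782, nat_lit 46854, nat_lit 46830] (nat_lit 4) [nat_lit 27154] false,
   Spec.mk (nat_lit 46846) (nat_lit 0) [nat_lit 33724, nat_lit 42472, nat_lit 48304, nat_lit 46360, nat_lit 47008, nat_lit 46792, nat_lit 46828, nat_lit 46848] (nat_lit 0) [nat_lit 27164] false,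
   Spec.mk (nat_lit 46848) (nat_lit 0) [nat_lit 33726, nat_lit 42474, nat_lit 48306, nat_lit 46362, nat_lit 47010, nat_lit 46794, nat_lit 46830, nat_lit 46854, nat_lit 46846] (nat_lit 2) [nat_lit 27166] false,
   Spec.mk (nat_lit 46854) (nat_lit 0) [nat_lit 33732, nat_lit 42480, nat_lit 48312, nat_lit 46368, nat_lit 47016, nat_lit 46800, nat_lit 46836, nat_lit 46872, nat_lit 46848] (nat_lit 1) [nat_lit 27172] false,
   Spec.mk (nat_lit 46872) (nat_lit 0) [nat_lit 33750, nat_lit 42498, nat_lit 48330, nat_lit 46386, nat_lit 47034, nat_lit 46854] (nat_lit 0) [nat_lit 27190] false,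
   Spec.mk (nat_lit 46904) (nat_lit 3) [nat_lit 33782, nat_lit 42530, nat_lit 48362, nat_lit 46418, nat_lit 47390, nat_lit 46742, nat_lit 46910, nat_lit 46906] (nat_lit 0) [] false,
   Spec.mk (nat_lit 46906) (nat_lit 1) [nat_lit 33784, nat_lit 42532, nat_lit 48364, nat_lit 46420, nat_lit 47392, nat_lit 46744, nat_lit 46912, nat_lit 46904] (nat_lit 0) [nat_lit 27224] false,
   Spec.mk (nat_lit 46910) (nat_lit 1) [nat_lit 33788, nat_lit 42536, nat_lit 48368, nat_lit 46424, nat_lit 47396, nat_lit 46748, nat_lit 46928, nat_lit 46904, nat_lit 46912] (nat_lit 0) [] false,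
   Spec.mk (nat_lit 46912) (nat_lit 1) [nat_lit 33790, nat_lit 42538, nat_lit 48370, nat_lit 46426, nat_lit 47398, nat_lit 46750, nat_lit 46930, nat_lit 46906, nat_lit 46918, nat_lit 46910, nat_lit 46914] (nat_lit 0) [nat_lit 27230] false,
   Spec.mk (nat_lit 46914) (nat_lit 0) [nat_lit 33792, nat_lit 42540, nat_lit 48372, nat_lit 46428, nat_lit 47400, nat_lit 46752, nat_lit 46932, nat_lit 46920, nat_lit 46912] (nat_lit 1) [nat_lit 27232] false,
   Spec.mk (nat_lit 46918) (nat_lit 0) [nat_lit 33796, nat_lit 42544, nat_lit 48376, nat_lit 46432, nat_lit 47404, nat_lit 46756, nat_lit 46936, nat_lit 46912, nat_lit 46920] (nat_lit 1) [nat_lit 27236] false,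
   Spec.mk (nat_lit 46920) (nat_lit 0) [nat_lit 33798, nat_lit 42546, nat_lit 48378, nat_lit 46434, nat_lit 47406, nat_lit 46758, nat_lit 46938, nat_lit 46914, nat_lit 46918] (nat_lit 1) [nat_lit 27238] false,
   Spec.mk (nat_lit 46928) (nat_lit 1) [nat_lit 33806, nat_lit 42554, nat_lit 48386, nat_lit 46442, nat_lit 47414, nat_lit 46766, nat_lit 46982, nat_lit 46910, nat_lit 46930] (nat_lit 0) [] false,
   Spec.mk (nat_lit 46930) (nat_lit 0) [nat_lit 33808, nat_lit 42556, nat_lit 48388, nat_lit 46444, nat_lit 47416, nat_lit 46768, nat_lit 46984, nat_lit 46912, nat_lit 46936, nat_lit 46928, nat_lit 46932] (nat_lit 0) [nat_lit 27248] false,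
   Spec.mk (nat_lit 46932) (nat_lit 0) [nat_lit 33810, nat_lit 42558, nat_lit 48390, nat_lit 46446, nat_lit 47418, nat_lit 46770, nat_lit 46986, nat_lit 46914, nat_lit 46938, nat_lit 46930] (nat_lit 3) [nat_lit 27250] false,
   Spec.mk (nat_lit 46936) (nat_lit 0) [nat_lit 33814, nat_lit 42562, nat_lit 48394, nat_lit 46450, nat_lit 47422, nat_lit 46774, nat_lit 46990, nat_lit 46918, nat_lit 46954, nat_lit 46930, nat_lit 46938] (nat_lit 0) [nat_lit 27254] false,
   Spec.mk (nat_lit 46938) (nat_lit 0) [nat_lit 33816, nat_lit 42564, nat_lit 48396, nat_lit 46452, nat_lit 47424, nat_lit 46776, nat_lit 46992, nat_lit 46920, nat_lit 46956, nat_lit 46932, nat_lit 46944, nat_lit 46936] (nat_lit 1) [nat_lit 27256] false,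
   Spec.mk (nat_lit 46944) (nat_lit 0) [nat_lit 33822, nat_lit 42570, nat_lit 48402, nat_lit 46458, nat_lit 47430, nat_lit 46782, nat_lit 46998, nat_lit 46962, nat_lit 46938] (nat_lit 1) [nat_lit 27262] false,
   Spec.mk (nat_lit 46954) (nat_lit 0) [nat_lit 33832, nat_lit 42580, nat_lit 48412, nat_lit 46468, nat_lit 47440, nat_lit 46792, nat_lit 47008, nat_lit 46936, nat_lit 46956] (nat_lit 1) [nat_lit 27272] false]

noncomputable def sp103 : List Spec :=
  [Spec.mk (nat_lit 46956) (nat_lit 0) [nat_lit 33834, nat_lit 42582, nat_lit 48414, nat_lit 46470, nat_lit 47442, nat_lit 46794, nat_lit 47010, nat_lit 46938, nat_lit 46962, nat_lit 46954] (nat_lit 3) [nat_lit 27274] false,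
   Spec.mk (nat_lit 46962) (nat_lit 0) [nat_lit 33840, nat_lit 42588, nat_lit 48420, nat_lit 46476, nat_lit 47448, nat_lit 46800, nat_lit 47016, nat_lit 46944, nat_lit 46956] (nat_lit 1) [nat_lit 27280] false,
   Spec.mk (nat_lit 46982) (nat_lit 2) [nat_lit 33860, nat_lit 42608, nat_lit 48440, nat_lit 46496, nat_lit 47468, nat_lit 46820, nat_lit 47144, nat_lit 46928, nat_lit 46984] (nat_lit 0) [] false,
   Spec.mk (nat_lit 46984) (nat_lit 1) [nat_lit 33862, nat_lit 42610, nat_lit 48442, nat_lit 46498, nat_lit 47470, nat_lit 46822, nat_lit 47146, nat_lit 46930, nat_lit 46990, nat_lit 46982, nat_lit 46986] (nat_lit 0) [nat_lit 27302] false,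
   Spec.mk (nat_lit 46986) (nat_lit 0) [nat_lit 33864, nat_lit 42612, nat_lit 48444, nat_lit 46500, nat_lit 47472, nat_lit 46824, nat_lit 47148, nat_lit 46932, nat_lit 46992, nat_lit 46984] (nat_lit 2) [nat_lit 27304] false,
   Spec.mk (nat_lit 46990) (nat_lit 0) [nat_lit 33868, nat_lit 42616, nat_lit 48448, nat_lit 46504, nat_lit 47476, nat_lit 46828, nat_lit 47152, nat_lit 46936, nat_lit 47008, nat_lit 46984, nat_lit 46992] (nat_lit 0) [nat_lit 27308] false,
   Spec.mk (nat_lit 46992) (nat_lit 0) [nat_lit 33870, nat_lit 42618, nat_lit 48450, nat_lit 46506, nat_lit 47478, nat_lit 46830, nat_lit 47154, nat_lit 46938, nat_lit 47010, nat_lit 46986, nat_lit 46998, nat_lit 46990] (nat_lit 1) [nat_lit 27310] false,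
   Spec.mk (nat_lit 46998) (nat_lit 0) [nat_lit 33876, nat_lit 42624, nat_lit 48456, nat_lit 46512, nat_lit 47484, nat_lit 46836, nat_lit 47160, nat_lit 46944, nat_lit 47016, nat_lit 46992] (nat_lit 2) [nat_lit 27316] false,
   Spec.mk (nat_lit 47008) (nat_lit 1) [nat_lit 33886, nat_lit 42634, nat_lit 48466, nat_lit 46522, nat_lit 47494, nat_lit 46846, nat_lit 47170, nat_lit 46954, nat_lit 47062, nat_lit 46990, nat_lit 47010] (nat_lit 0) [nat_lit 27326] false,
   Spec.mk (nat_lit 47010) (nat_lit 0) [nat_lit 33888, nat_lit 42636, nat_lit 48468, nat_lit 46524, nat_lit 47496, nat_lit 46848, nat_lit 47172, nat_lit 46956, nat_lit 47064, nat_lit 46992, nat_lit 47016, nat_lit 47008] (nat_lit 1) [nat_lit 27328] false,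
   Spec.mk (nat_lit 47016) (nat_lit 0) [nat_lit 33894, nat_lit 42642, nat_lit 48474, nat_lit 46530, nat_lit 47502, nat_lit 46854, nat_lit 47178, nat_lit 46962, nat_lit 47070, nat_lit 46998, nat_lit 47034, nat_lit 47010] (nat_lit 0) [nat_lit 27334] false,
   Spec.mk (nat_lit 47034) (nat_lit 0) [nat_lit 33912, nat_lit 42660, nat_lit 48492, nat_lit 46548, nat_lit 47520, nat_lit 46872, nat_lit 47196, nat_lit 47088, nat_lit 47016] (nat_lit 0) [nat_lit 27352] false,
   Spec.mk (nat_lit 47062) (nat_lit 1) [nat_lit 33940, nat_lit 42688, nat_lit 48520, nat_lit 46576, nat_lit 47548, nat_lit 47224, nat_lit 47008, nat_lit 47064] (nat_lit 0) [nat_lit 27380] false,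
   Spec.mk (nat_lit 47064) (nat_lit 0) [nat_lit 33942, nat_lit 42690, nat_lit 48522, nat_lit 46578, nat_lit 47550, nat_lit 47226, nat_lit 47010, nat_lit 47070, nat_lit 47062] (nat_lit 1) [nat_lit 27382] false,
   Spec.mk (nat_lit 47070) (nat_lit 0) [nat_lit 33948, nat_lit 42696, nat_lit 48528, nat_lit 46584, nat_lit 47556, nat_lit 47232, nat_lit 47016, nat_lit 47088, nat_lit 47064] (nat_lit 1) [nat_lit 27388] false,
   Spec.mk (nat_lit 47088) (nat_lit 1) [nat_lit 33966, nat_lit 42714, nat_lit 48546, nat_lit 46602, nat_lit 47574, nat_lit 47250, nat_lit 47034, nat_lit 47070] (nat_lit 0) [nat_lit 27406] false,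
   Spec.mk (nat_lit 47144) (nat_lit 2) [nat_lit 34022, nat_lit 42770, nat_lit 48602, nat_lit 47630, nat_lit 46982, nat_lit 47146] (nat_lit 0) [] false,
   Spec.mk (nat_lit 47146) (nat_lit 1) [nat_lit 34024, nat_lit 42772, nat_lit 48604, nat_lit 47632, nat_lit 46984, nat_lit 47152, nat_lit 47144, nat_lit 47148] (nat_lit 0) [nat_lit 27464] false,
   Spec.mk (nat_lit 47148) (nat_lit 0) [nat_lit 34026, nat_lit 42774, nat_lit 48606, nat_lit 47634, nat_lit 46986, nat_lit 47154, nat_lit 47146] (nat_lit 2) [nat_lit 27466] false,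
   Spec.mk (nat_lit 47152) (nat_lit 0) [nat_lit 34030, nat_lit 42778, nat_lit 48610, nat_lit 47638, nat_lit 46990, nat_lit 47170, nat_lit 47146, nat_lit 47154] (nat_lit 0) [nat_lit 27470] false,
   Spec.mk (nat_lit 47154) (nat_lit 0) [nat_lit 34032, nat_lit 42780, nat_lit 48612, nat_lit 47640, nat_lit 46992, nat_lit 47172, nat_lit 47148, nat_lit 47160, nat_lit 47152] (nat_lit 1) [nat_lit 27472] false,
   Spec.mk (nat_lit 47160) (nat_lit 0) [nat_lit 34038, nat_lit 42786, nat_lit 48618, nat_lit 47646, nat_lit 46998, nat_lit 47178, nat_lit 47154] (nat_lit 2) [nat_lit 27478] false,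
   Spec.mk (nat_lit 47170) (nat_lit 0) [nat_lit 34048, nat_lit 42796, nat_lit 48628, nat_lit 47656, nat_lit 47008, nat_lit 47224, nat_lit 47152, nat_lit 47172] (nat_lit 0) [nat_lit 27488] false,
   Spec.mk (nat_lit 47172) (nat_lit 0) [nat_lit 34050, nat_lit 42798, nat_lit 48630, nat_lit 47658, nat_lit 47010, nat_lit 47226, nat_lit 47154, nat_lit 47178, nat_lit 47170] (nat_lit 2) [nat_lit 27490] false,
   Spec.mk (nat_lit 47178) (nat_lit 0) [nat_lit 34056, nat_lit 42804, nat_lit 48636, nat_lit 47664, nat_lit 47016, nat_lit 47232, nat_lit 47160, nat_lit 47196, nat_lit 47172] (nat_lit 1) [nat_lit 27496] false,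
   Spec.mk (nat_lit 47196) (nat_lit 0) [nat_lit 34074, nat_lit 42822, nat_lit 48654, nat_lit 47682, nat_lit 47034, nat_lit 47250, nat_lit 47178] (nat_lit 2) [nat_lit 27514] false,
   Spec.mk (nat_lit 47224) (nat_lit 2) [nat_lit 34102, nat_lit 42850, nat_lit 48682, nat_lit 47710, nat_lit 47062, nat_lit 47170, nat_lit 47226] (nat_lit 0) [nat_lit 27542] false,
   Spec.mk (nat_lit 47226) (nat_lit 0) [nat_lit 34104, nat_lit 42852, nat_lit 48684, nat_lit 47712, nat_lit 47064, nat_lit 47172, nat_lit 47232, nat_lit 47224] (nat_lit 0) [nat_lit 27544] false,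
   Spec.mk (nat_lit 47232) (nat_lit 0) [nat_lit 34110, nat_lit 42858, nat_lit 48690, nat_lit 47718, nat_lit 47070, nat_lit 47178, nat_lit 47250, nat_lit 47226] (nat_lit 0) [nat_lit 27550] false,
   Spec.mk (nat_lit 47250) (nat_lit 1) [nat_lit 34128, nat_lit 42876, nat_lit 48708, nat_lit 47736, nat_lit 47088, nat_lit 47196, nat_lit 47304, nat_lit 47232] (nat_lit 0) [nat_lit 27568] false,
   Spec.mk (nat_lit 47304) (nat_lit 2) [nat_lit 34182, nat_lit 42930, nat_lit 48762, nat_lit 47790, nat_lit 47250] (nat_lit 0) [nat_lit 27622] false,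
   Spec.mk (nat_lit 47390) (nat_lit 2) [nat_lit 34268, nat_lit 43016, nat_lit 48848, nat_lit 46904, nat_lit 47396, nat_lit 47392] (nat_lit 0) [] false,
   Spec.mk (nat_lit 47392) (nat_lit 0) [nat_lit 34270, nat_lit 43018, nat_lit 48850, nat_lit 46906, nat_lit 47398, nat_lit 47390] (nat_lit 0) [nat_lit 27710] false,
   Spec.mk (nat_lit 47396) (nat_lit 0) [nat_lit 34274, nat_lit 43022, nat_lit 48854, nat_lit 46910, nat_lit 47414, nat_lit 47390, nat_lit 47398] (nat_lit 0) [] false,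
   Spec.mk (nat_lit 47398) (nat_lit 0) [nat_lit 34276, nat_lit 43024, nat_lit 48856, nat_lit 46912, nat_lit 47416, nat_lit 47392, nat_lit 47404, nat_lit 47396, nat_lit 47400] (nat_lit 0) [nat_lit 27716] false,
   Spec.mk (nat_lit 47400) (nat_lit 0) [nat_lit 34278, nat_lit 43026, nat_lit 48858, nat_lit 46914, nat_lit 47418, nat_lit 47406, nat_lit 47398] (nat_lit 2) [nat_lit 27718] false,
   Spec.mk (nat_lit 47404) (nat_lit 0) [nat_lit 34282, nat_lit 43030, nat_lit 48862, nat_lit 46918, nat_lit 47422, nat_lit 47398, nat_lit 47406] (nat_lit 2) [nat_lit 27722] false,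
   Spec.mk (nat_lit 47406) (nat_lit 0) [nat_lit 34284, nat_lit 43032, nat_lit 48864, nat_lit 46920, nat_lit 47424, nat_lit 47400, nat_lit 47404] (nat_lit 2) [nat_lit 27724] false,
   Spec.mk (nat_lit 47414) (nat_lit 0) [nat_lit 34292, nat_lit 43040, nat_lit 48872, nat_lit 46928, nat_lit 47468, nat_lit 47396, nat_lit 47416] (nat_lit 0) [] false,
   Spec.mk (nat_lit 47416) (nat_lit 0) [nat_lit 34294, nat_lit 43042, nat_lit 48874, nat_lit 46930, nat_lit 47470, nat_lit 47398, nat_lit 47422, nat_lit 47414, nat_lit 47418] (nat_lit 1) [nat_lit 27734] false,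
   Spec.mk (nat_lit 47418) (nat_lit 0) [nat_lit 34296, nat_lit 43044, nat_lit 48876, nat_lit 46932, nat_lit 47472, nat_lit 47400, nat_lit 47424, nat_lit 47416] (nat_lit 4) [nat_lit 27736] false,
   Spec.mk (nat_lit 47422) (nat_lit 0) [nat_lit 34300, nat_lit 43048, nat_lit 48880, nat_lit 46936, nat_lit 47476, nat_lit 47404, nat_lit 47440, nat_lit 47416, nat_lit 47424] (nat_lit 1) [nat_lit 27740] false,
   Spec.mk (nat_lit 47424) (nat_lit 0) [nat_lit 34302, nat_lit 43050, nat_lit 48882, nat_lit 46938, nat_lit 47478, nat_lit 47406, nat_lit 47442, nat_lit 47418, nat_lit 47430, nat_lit 47422] (nat_lit 2) [nat_lit 27742] false,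
   Spec.mk (nat_lit 47430) (nat_lit 0) [nat_lit 34308, nat_lit 43056, nat_lit 48888, nat_lit 46944, nat_lit 47484, nat_lit 47448, nat_lit 47424] (nat_lit 2) [nat_lit 27748] false,
   Spec.mk (nat_lit 47440) (nat_lit 0) [nat_lit 34318, nat_lit 43066, nat_lit 48898, nat_lit 46954, nat_lit 47494, nat_lit 47422, nat_lit 47442] (nat_lit 2) [nat_lit 27758] false,
   Spec.mk (nat_lit 47442) (nat_lit 0) [nat_lit 34320, nat_lit 43068, nat_lit 48900, nat_lit 46956, nat_lit 47496, nat_lit 47424, nat_lit 47448, nat_lit 47440] (nat_lit 4) [nat_lit 27760] false,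
   Spec.mk (nat_lit 47448) (nat_lit 0) [nat_lit 34326, nat_lit 43074, nat_lit 48906, nat_lit 46962, nat_lit 47502, nat_lit 47430, nat_lit 47442] (nat_lit 2) [nat_lit 27766] false,
   Spec.mk (nat_lit 47468) (nat_lit 0) [nat_lit 34346, nat_lit 43094, nat_lit 48926, nat_lit 46982, nat_lit 47630, nat_lit 47414, nat_lit 47470] (nat_lit 0) [] false,
   Spec.mk (nat_lit 47470) (nat_lit 0) [nat_lit 34348, nat_lit 43096, nat_lit 48928, nat_lit 46984, nat_lit 47632, nat_lit 47416, nat_lit 47476, nat_lit 47468, nat_lit 47472] (nat_lit 1) [nat_lit 27788] false,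
   Spec.mk (nat_lit 47472) (nat_lit 0) [nat_lit 34350, nat_lit 43098, nat_lit 48930, nat_lit 46986, nat_lit 47634, nat_lit 47418, nat_lit 47478, nat_lit 47470] (nat_lit 4) [nat_lit 27790] false,
   Spec.mk (nat_lit 47476) (nat_lit 0) [nat_lit 34354, nat_lit 43102, nat_lit 48934, nat_lit 46990, nat_lit 47638, nat_lit 47422, nat_lit 47494, nat_lit 47470, nat_lit 47478] (nat_lit 2) [nat_lit 27794] false,
   Spec.mk (nat_lit 47478) (nat_lit 0) [nat_lit 34356, nat_lit 43104, nat_lit 48936, nat_lit 46992, nat_lit 47640, nat_lit 47424, nat_lit 47496, nat_lit 47472, nat_lit 47484, nat_lit 47476] (nat_lit 3) [nat_lit 27796] false,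
   Spec.mk (nat_lit 47484) (nat_lit 0) [nat_lit 34362, nat_lit 43110, nat_lit 48942, nat_lit 46998, nat_lit 47646, nat_lit 47430, nat_lit 47502, nat_lit 47478] (nat_lit 4) [nat_lit 27802] false,
   Spec.mk (nat_lit 47494) (nat_lit 0) [nat_lit 34372, nat_lit 43120, nat_lit 48952, nat_lit 47008, nat_lit 47656, nat_lit 47440, nat_lit 47548, nat_lit 47476, nat_lit 47496] (nat_lit 1) [nat_lit 27812] false,
   Spec.mk (nat_lit 47496) (nat_lit 0) [nat_lit 34374, nat_lit 43122, nat_lit 48954, nat_lit 47010, nat_lit 47658, nat_lit 47442, nat_lit 47550, nat_lit 47478, nat_lit 47502, nat_lit 47494] (nat_lit 3) [nat_lit 27814] false,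
   Spec.mk (nat_lit 47502) (nat_lit 0) [nat_lit 34380, nat_lit 43128, nat_lit 48960, nat_lit 47016, nat_lit 47664, nat_lit 47448, nat_lit 47556, nat_lit 47484, nat_lit 47520, nat_lit 47496] (nat_lit 2) [nat_lit 27820] false,
   Spec.mk (nat_lit 47520) (nat_lit 0) [nat_lit 34398, nat_lit 43146, nat_lit 48978, nat_lit 47034, nat_lit 47682, nat_lit 47574, nat_lit 47502] (nat_lit 2) [nat_lit 27838] false,
   Spec.mk (nat_lit 47548) (nat_lit 0) [nat_lit 34426, nat_lit 43174, nat_lit 49006, nat_lit 47062, nat_lit 47710, nat_lit 47494, nat_lit 47550] (nat_lit 2) [nat_lit 27866] false,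
   Spec.mk (nat_lit 47550) (nat_lit 0) [nat_lit 34428, nat_lit 43176, nat_lit 49008, nat_lit 47064, nat_lit 47712, nat_lit 47496, nat_lit 47556, nat_lit 47548] (nat_lit 4) [nat_lit 27868] false,
   Spec.mk (nat_lit 47556) (nat_lit 0) [nat_lit 34434, nat_lit 43182, nat_lit 49014, nat_lit 47070, nat_lit 47718, nat_lit 47502, nat_lit 47574, nat_lit 47550] (nat_lit 4) [nat_lit 27874] false]

noncomputable def sp104 : List Spec :=
  [Spec.mk (nat_lit 47574) (nat_lit 0) [nat_lit 34452, nat_lit 43200, nat_lit 49032, nat_lit 47088, nat_lit 47736, nat_lit 47520, nat_lit 47556] (nat_lit 2) [nat_lit 27892] false,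
   Spec.mk (nat_lit 47630) (nat_lit 2) [nat_lit 34508, nat_lit 43256, nat_lit 49088, nat_lit 47144, nat_lit 47468, nat_lit 47632] (nat_lit 0) [] false,
   Spec.mk (nat_lit 47632) (nat_lit 1) [nat_lit 34510, nat_lit 43258, nat_lit 49090, nat_lit 47146, nat_lit 47470, nat_lit 47638, nat_lit 47630, nat_lit 47634] (nat_lit 0) [nat_lit 27950] false,
   Spec.mk (nat_lit 47634) (nat_lit 0) [nat_lit 34512, nat_lit 43260, nat_lit 49092, nat_lit 47148, nat_lit 47472, nat_lit 47640, nat_lit 47632] (nat_lit 2) [nat_lit 27952] false,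
   Spec.mk (nat_lit 47638) (nat_lit 0) [nat_lit 34516, nat_lit 43264, nat_lit 49096, nat_lit 47152, nat_lit 47476, nat_lit 47656, nat_lit 47632, nat_lit 47640] (nat_lit 0) [nat_lit 27956] false,
   Spec.mk (nat_lit 47640) (nat_lit 0) [nat_lit 34518, nat_lit 43266, nat_lit 49098, nat_lit 47154, nat_lit 47478, nat_lit 47658, nat_lit 47634, nat_lit 47646, nat_lit 47638] (nat_lit 1) [nat_lit 27958] false,
   Spec.mk (nat_lit 47646) (nat_lit 0) [nat_lit 34524, nat_lit 43272, nat_lit 49104, nat_lit 47160, nat_lit 47484, nat_lit 47664, nat_lit 47640] (nat_lit 2) [nat_lit 27964] false,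
   Spec.mk (nat_lit 47656) (nat_lit 0) [nat_lit 34534, nat_lit 43282, nat_lit 49114, nat_lit 47170, nat_lit 47494, nat_lit 47710, nat_lit 47638, nat_lit 47658] (nat_lit 0) [nat_lit 27974] false,
   Spec.mk (nat_lit 47658) (nat_lit 0) [nat_lit 34536, nat_lit 43284, nat_lit 49116, nat_lit 47172, nat_lit 47496, nat_lit 47712, nat_lit 47640, nat_lit 47664, nat_lit 47656] (nat_lit 2) [nat_lit 27976] false,
   Spec.mk (nat_lit 47664) (nat_lit 0) [nat_lit 34542, nat_lit 43290, nat_lit 49122, nat_lit 47178, nat_lit 47502, nat_lit 47718, nat_lit 47646, nat_lit 47682, nat_lit 47658] (nat_lit 1) [nat_lit 27982] false,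
   Spec.mk (nat_lit 47682) (nat_lit 0) [nat_lit 34560, nat_lit 43308, nat_lit 49140, nat_lit 47196, nat_lit 47520, nat_lit 47736, nat_lit 47664] (nat_lit 2) [nat_lit 28000] false,
   Spec.mk (nat_lit 47710) (nat_lit 1) [nat_lit 34588, nat_lit 43336, nat_lit 49168, nat_lit 47224, nat_lit 47548, nat_lit 47872, nat_lit 47656, nat_lit 47712] (nat_lit 0) [nat_lit 28028] false,
   Spec.mk (nat_lit 47712) (nat_lit 0) [nat_lit 34590, nat_lit 43338, nat_lit 49170, nat_lit 47226, nat_lit 47550, nat_lit 47874, nat_lit 47658, nat_lit 47718, nat_lit 47710] (nat_lit 1) [nat_lit 28030] false,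
   Spec.mk (nat_lit 47718) (nat_lit 0) [nat_lit 34596, nat_lit 43344, nat_lit 49176, nat_lit 47232, nat_lit 47556, nat_lit 47880, nat_lit 47664, nat_lit 47736, nat_lit 47712] (nat_lit 1) [nat_lit 28036] false,
   Spec.mk (nat_lit 47736) (nat_lit 0) [nat_lit 34614, nat_lit 43362, nat_lit 49194, nat_lit 47250, nat_lit 47574, nat_lit 47898, nat_lit 47682, nat_lit 47790, nat_lit 47718] (nat_lit 0) [nat_lit 28054] false,
   Spec.mk (nat_lit 47790) (nat_lit 0) [nat_lit 34668, nat_lit 43416, nat_lit 49248, nat_lit 47304, nat_lit 47952, nat_lit 47736] (nat_lit 0) [nat_lit 28108] false,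
   Spec.mk (nat_lit 47872) (nat_lit 2) [nat_lit 34750, nat_lit 43498, nat_lit 49330, nat_lit 47710, nat_lit 47874] (nat_lit 0) [nat_lit 28190] false,
   Spec.mk (nat_lit 47874) (nat_lit 0) [nat_lit 34752, nat_lit 43500, nat_lit 49332, nat_lit 47712, nat_lit 47880, nat_lit 47872] (nat_lit 0) [nat_lit 28192] false,
   Spec.mk (nat_lit 47880) (nat_lit 0) [nat_lit 34758, nat_lit 43506, nat_lit 49338, nat_lit 47718, nat_lit 47898, nat_lit 47874] (nat_lit 0) [nat_lit 28198] false,
   Spec.mk (nat_lit 47898) (nat_lit 0) [nat_lit 34776, nat_lit 43524, nat_lit 49356, nat_lit 47736, nat_lit 47952, nat_lit 47880] (nat_lit 0) [nat_lit 28216] false,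
   Spec.mk (nat_lit 47952) (nat_lit 2) [nat_lit 34830, nat_lit 43578, nat_lit 49410, nat_lit 47790, nat_lit 47898] (nat_lit 0) [nat_lit 28270] false,
   Spec.mk (nat_lit 48122) (nat_lit 5) [nat_lit 35000, nat_lit 43748, nat_lit 52496, nat_lit 46664, nat_lit 48128] (nat_lit 0) [] false,
   Spec.mk (nat_lit 48128) (nat_lit 4) [nat_lit 35006, nat_lit 43754, nat_lit 52502, nat_lit 46670, nat_lit 48146, nat_lit 48122, nat_lit 48134, nat_lit 48130] (nat_lit 0) [] false,
   Spec.mk (nat_lit 48130) (nat_lit 3) [nat_lit 35008, nat_lit 43756, nat_lit 52504, nat_lit 46672, nat_lit 48148, nat_lit 48136, nat_lit 48128] (nat_lit 0) [nat_lit 28448] false,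
   Spec.mk (nat_lit 48134) (nat_lit 1) [nat_lit 35012, nat_lit 43760, nat_lit 52508, nat_lit 46676, nat_lit 48152, nat_lit 48128, nat_lit 48136] (nat_lit 0) [] false,
   Spec.mk (nat_lit 48136) (nat_lit 2) [nat_lit 35014, nat_lit 43762, nat_lit 52510, nat_lit 46678, nat_lit 48154, nat_lit 48130, nat_lit 48134, nat_lit 48138] (nat_lit 0) [nat_lit 28454] false,
   Spec.mk (nat_lit 48138) (nat_lit 1) [nat_lit 35016, nat_lit 43764, nat_lit 52512, nat_lit 46680, nat_lit 48156, nat_lit 48136] (nat_lit 0) [nat_lit 28456] false,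
   Spec.mk (nat_lit 48146) (nat_lit 3) [nat_lit 35024, nat_lit 43772, nat_lit 52520, nat_lit 46688, nat_lit 48200, nat_lit 48128, nat_lit 48152, nat_lit 48148] (nat_lit 0) [] false,
   Spec.mk (nat_lit 48148) (nat_lit 1) [nat_lit 35026, nat_lit 43774, nat_lit 52522, nat_lit 46690, nat_lit 48202, nat_lit 48130, nat_lit 48154, nat_lit 48146] (nat_lit 0) [nat_lit 28466] false,
   Spec.mk (nat_lit 48152) (nat_lit 2) [nat_lit 35030, nat_lit 43778, nat_lit 52526, nat_lit 46694, nat_lit 48206, nat_lit 48134, nat_lit 48170, nat_lit 48146, nat_lit 48154] (nat_lit 0) [] false,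
   Spec.mk (nat_lit 48154) (nat_lit 2) [nat_lit 35032, nat_lit 43780, nat_lit 52528, nat_lit 46696, nat_lit 48208, nat_lit 48136, nat_lit 48172, nat_lit 48148, nat_lit 48160, nat_lit 48152, nat_lit 48156] (nat_lit 0) [nat_lit 28472] false,
   Spec.mk (nat_lit 48156) (nat_lit 0) [nat_lit 35034, nat_lit 43782, nat_lit 52530, nat_lit 46698, nat_lit 48210, nat_lit 48138, nat_lit 48174, nat_lit 48162, nat_lit 48154] (nat_lit 0) [nat_lit 28474] false,
   Spec.mk (nat_lit 48160) (nat_lit 1) [nat_lit 35038, nat_lit 43786, nat_lit 52534, nat_lit 46702, nat_lit 48214, nat_lit 48178, nat_lit 48154, nat_lit 48162] (nat_lit 0) [nat_lit 28478] false,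
   Spec.mk (nat_lit 48162) (nat_lit 1) [nat_lit 35040, nat_lit 43788, nat_lit 52536, nat_lit 46704, nat_lit 48216, nat_lit 48180, nat_lit 48156, nat_lit 48160] (nat_lit 0) [nat_lit 28480] false,
   Spec.mk (nat_lit 48170) (nat_lit 1) [nat_lit 35048, nat_lit 43796, nat_lit 52544, nat_lit 46712, nat_lit 48224, nat_lit 48152, nat_lit 48172] (nat_lit 0) [] false,
   Spec.mk (nat_lit 48172) (nat_lit 0) [nat_lit 35050, nat_lit 43798, nat_lit 52546, nat_lit 46714, nat_lit 48226, nat_lit 48154, nat_lit 48178, nat_lit 48170, nat_lit 48174] (nat_lit 0) [nat_lit 28490] false,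
   Spec.mk (nat_lit 48174) (nat_lit 0) [nat_lit 35052, nat_lit 43800, nat_lit 52548, nat_lit 46716, nat_lit 48228, nat_lit 48156, nat_lit 48180, nat_lit 48172] (nat_lit 3) [nat_lit 28492] false,
   Spec.mk (nat_lit 48178) (nat_lit 1) [nat_lit 35056, nat_lit 43804, nat_lit 52552, nat_lit 46720, nat_lit 48232, nat_lit 48160, nat_lit 48172, nat_lit 48180] (nat_lit 0) [nat_lit 28496] false,
   Spec.mk (nat_lit 48180) (nat_lit 0) [nat_lit 35058, nat_lit 43806, nat_lit 52554, nat_lit 46722, nat_lit 48234, nat_lit 48162, nat_lit 48174, nat_lit 48186, nat_lit 48178] (nat_lit 0) [nat_lit 28498] false,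
   Spec.mk (nat_lit 48186) (nat_lit 1) [nat_lit 35064, nat_lit 43812, nat_lit 52560, nat_lit 46728, nat_lit 48240, nat_lit 48180] (nat_lit 0) [nat_lit 28504] false,
   Spec.mk (nat_lit 48200) (nat_lit 3) [nat_lit 35078, nat_lit 43826, nat_lit 52574, nat_lit 46742, nat_lit 48362, nat_lit 48146, nat_lit 48206, nat_lit 48202] (nat_lit 0) [] false,
   Spec.mk (nat_lit 48202) (nat_lit 1) [nat_lit 35080, nat_lit 43828, nat_lit 52576, nat_lit 46744, nat_lit 48364, nat_lit 48148, nat_lit 48208, nat_lit 48200] (nat_lit 0) [nat_lit 28520] false,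
   Spec.mk (nat_lit 48206) (nat_lit 1) [nat_lit 35084, nat_lit 43832, nat_lit 52580, nat_lit 46748, nat_lit 48368, nat_lit 48152, nat_lit 48224, nat_lit 48200, nat_lit 48208] (nat_lit 0) [] false,
   Spec.mk (nat_lit 48208) (nat_lit 1) [nat_lit 35086, nat_lit 43834, nat_lit 52582, nat_lit 46750, nat_lit 48370, nat_lit 48154, nat_lit 48226, nat_lit 48202, nat_lit 48214, nat_lit 48206, nat_lit 48210] (nat_lit 0) [nat_lit 28526] false,
   Spec.mk (nat_lit 48210) (nat_lit 0) [nat_lit 35088, nat_lit 43836, nat_lit 52584, nat_lit 46752, nat_lit 48372, nat_lit 48156, nat_lit 48228, nat_lit 48216, nat_lit 48208] (nat_lit 1) [nat_lit 28528] false,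
   Spec.mk (nat_lit 48214) (nat_lit 0) [nat_lit 35092, nat_lit 43840, nat_lit 52588, nat_lit 46756, nat_lit 48376, nat_lit 48160, nat_lit 48232, nat_lit 48208, nat_lit 48216] (nat_lit 1) [nat_lit 28532] false,
   Spec.mk (nat_lit 48216) (nat_lit 0) [nat_lit 35094, nat_lit 43842, nat_lit 52590, nat_lit 46758, nat_lit 48378, nat_lit 48162, nat_lit 48234, nat_lit 48210, nat_lit 48214] (nat_lit 1) [nat_lit 28534] false,
   Spec.mk (nat_lit 48224) (nat_lit 2) [nat_lit 35102, nat_lit 43850, nat_lit 52598, nat_lit 46766, nat_lit 48386, nat_lit 48170, nat_lit 48278, nat_lit 48206, nat_lit 48226] (nat_lit 0) [] false,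
   Spec.mk (nat_lit 48226) (nat_lit 1) [nat_lit 35104, nat_lit 43852, nat_lit 52600, nat_lit 46768, nat_lit 48388, nat_lit 48172, nat_lit 48280, nat_lit 48208, nat_lit 48232, nat_lit 48224, nat_lit 48228] (nat_lit 0) [nat_lit 28544] false,
   Spec.mk (nat_lit 48228) (nat_lit 0) [nat_lit 35106, nat_lit 43854, nat_lit 52602, nat_lit 46770, nat_lit 48390, nat_lit 48174, nat_lit 48282, nat_lit 48210, nat_lit 48234, nat_lit 48226] (nat_lit 2) [nat_lit 28546] false,
   Spec.mk (nat_lit 48232) (nat_lit 1) [nat_lit 35110, nat_lit 43858, nat_lit 52606, nat_lit 46774, nat_lit 48394, nat_lit 48178, nat_lit 48286, nat_lit 48214, nat_lit 48250, nat_lit 48226, nat_lit 48234] (nat_lit 0) [nat_lit 28550] false,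
   Spec.mk (nat_lit 48234) (nat_lit 0) [nat_lit 35112, nat_lit 43860, nat_lit 52608, nat_lit 46776, nat_lit 48396, nat_lit 48180, nat_lit 48288, nat_lit 48216, nat_lit 48252, nat_lit 48228, nat_lit 48240, nat_lit 48232] (nat_lit 0) [nat_lit 28552] false,
   Spec.mk (nat_lit 48240) (nat_lit 0) [nat_lit 35118, nat_lit 43866, nat_lit 52614, nat_lit 46782, nat_lit 48402, nat_lit 48186, nat_lit 48294, nat_lit 48258, nat_lit 48234] (nat_lit 0) [nat_lit 28558] false,
   Spec.mk (nat_lit 48250) (nat_lit 1) [nat_lit 35128, nat_lit 43876, nat_lit 52624, nat_lit 46792, nat_lit 48412, nat_lit 48304, nat_lit 48232, nat_lit 48252] (nat_lit 0) [nat_lit 28568] false,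
   Spec.mk (nat_lit 48252) (nat_lit 0) [nat_lit 35130, nat_lit 43878, nat_lit 52626, nat_lit 46794, nat_lit 48414, nat_lit 48306, nat_lit 48234, nat_lit 48258, nat_lit 48250] (nat_lit 1) [nat_lit 28570] false,
   Spec.mk (nat_lit 48258) (nat_lit 1) [nat_lit 35136, nat_lit 43884, nat_lit 52632, nat_lit 46800, nat_lit 48420, nat_lit 48312, nat_lit 48240, nat_lit 48252] (nat_lit 0) [nat_lit 28576] false,
   Spec.mk (nat_lit 48278) (nat_lit 1) [nat_lit 35156, nat_lit 43904, nat_lit 52652, nat_lit 46820, nat_lit 48440, nat_lit 48224, nat_lit 48280] (nat_lit 0) [] false,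
   Spec.mk (nat_lit 48280) (nat_lit 0) [nat_lit 35158, nat_lit 43906, nat_lit 52654, nat_lit 46822, nat_lit 48442, nat_lit 48226, nat_lit 48286, nat_lit 48278, nat_lit 48282] (nat_lit 0) [nat_lit 28598] false,
   Spec.mk (nat_lit 48282) (nat_lit 0) [nat_lit 35160, nat_lit 43908, nat_lit 52656, nat_lit 46824, nat_lit 48444, nat_lit 48228, nat_lit 48288, nat_lit 48280] (nat_lit 3) [nat_lit 28600] false,
   Spec.mk (nat_lit 48286) (nat_lit 0) [nat_lit 35164, nat_lit 43912, nat_lit 52660, nat_lit 46828, nat_lit 48448, nat_lit 48232, nat_lit 48304, nat_lit 48280, nat_lit 48288] (nat_lit 1) [nat_lit 28604] false]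

noncomputable def sp105 : List Spec :=
  [Spec.mk (nat_lit 48288) (nat_lit 0) [nat_lit 35166, nat_lit 43914, nat_lit 52662, nat_lit 46830, nat_lit 48450, nat_lit 48234, nat_lit 48306, nat_lit 48282, nat_lit 48294, nat_lit 48286] (nat_lit 2) [nat_lit 28606] false,
   Spec.mk (nat_lit 48294) (nat_lit 0) [nat_lit 35172, nat_lit 43920, nat_lit 52668, nat_lit 46836, nat_lit 48456, nat_lit 48240, nat_lit 48312, nat_lit 48288] (nat_lit 3) [nat_lit 28612] false,
   Spec.mk (nat_lit 48304) (nat_lit 1) [nat_lit 35182, nat_lit 43930, nat_lit 52678, nat_lit 46846, nat_lit 48466, nat_lit 48250, nat_lit 48286, nat_lit 48306] (nat_lit 0) [nat_lit 28622] false,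
   Spec.mk (nat_lit 48306) (nat_lit 0) [nat_lit 35184, nat_lit 43932, nat_lit 52680, nat_lit 46848, nat_lit 48468, nat_lit 48252, nat_lit 48288, nat_lit 48312, nat_lit 48304] (nat_lit 1) [nat_lit 28624] false,
   Spec.mk (nat_lit 48312) (nat_lit 0) [nat_lit 35190, nat_lit 43938, nat_lit 52686, nat_lit 46854, nat_lit 48474, nat_lit 48258, nat_lit 48294, nat_lit 48330, nat_lit 48306] (nat_lit 0) [nat_lit 28630] false,
   Spec.mk (nat_lit 48330) (nat_lit 1) [nat_lit 35208, nat_lit 43956, nat_lit 52704, nat_lit 46872, nat_lit 48492, nat_lit 48312] (nat_lit 0) [nat_lit 28648] false,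
   Spec.mk (nat_lit 48362) (nat_lit 3) [nat_lit 35240, nat_lit 43988, nat_lit 52736, nat_lit 46904, nat_lit 48848, nat_lit 48200, nat_lit 48368, nat_lit 48364] (nat_lit 0) [] false,
   Spec.mk (nat_lit 48364) (nat_lit 1) [nat_lit 35242, nat_lit 43990, nat_lit 52738, nat_lit 46906, nat_lit 48850, nat_lit 48202, nat_lit 48370, nat_lit 48362] (nat_lit 0) [nat_lit 28682] false,
   Spec.mk (nat_lit 48368) (nat_lit 1) [nat_lit 35246, nat_lit 43994, nat_lit 52742, nat_lit 46910, nat_lit 48854, nat_lit 48206, nat_lit 48386, nat_lit 48362, nat_lit 48370] (nat_lit 0) [] false,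
   Spec.mk (nat_lit 48370) (nat_lit 1) [nat_lit 35248, nat_lit 43996, nat_lit 52744, nat_lit 46912, nat_lit 48856, nat_lit 48208, nat_lit 48388, nat_lit 48364, nat_lit 48376, nat_lit 48368, nat_lit 48372] (nat_lit 0) [nat_lit 28688] false,
   Spec.mk (nat_lit 48372) (nat_lit 0) [nat_lit 35250, nat_lit 43998, nat_lit 52746, nat_lit 46914, nat_lit 48858, nat_lit 48210, nat_lit 48390, nat_lit 48378, nat_lit 48370] (nat_lit 1) [nat_lit 28690] false,
   Spec.mk (nat_lit 48376) (nat_lit 0) [nat_lit 35254, nat_lit 44002, nat_lit 52750, nat_lit 46918, nat_lit 48862, nat_lit 48214, nat_lit 48394, nat_lit 48370, nat_lit 48378] (nat_lit 1) [nat_lit 28694] false,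
   Spec.mk (nat_lit 48378) (nat_lit 0) [nat_lit 35256, nat_lit 44004, nat_lit 52752, nat_lit 46920, nat_lit 48864, nat_lit 48216, nat_lit 48396, nat_lit 48372, nat_lit 48376] (nat_lit 1) [nat_lit 28696] false,
   Spec.mk (nat_lit 48386) (nat_lit 1) [nat_lit 35264, nat_lit 44012, nat_lit 52760, nat_lit 46928, nat_lit 48872, nat_lit 48224, nat_lit 48440, nat_lit 48368, nat_lit 48388] (nat_lit 0) [] false,
   Spec.mk (nat_lit 48388) (nat_lit 0) [nat_lit 35266, nat_lit 44014, nat_lit 52762, nat_lit 46930, nat_lit 48874, nat_lit 48226, nat_lit 48442, nat_lit 48370, nat_lit 48394, nat_lit 48386, nat_lit 48390] (nat_lit 0) [nat_lit 28706] false,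
   Spec.mk (nat_lit 48390) (nat_lit 0) [nat_lit 35268, nat_lit 44016, nat_lit 52764, nat_lit 46932, nat_lit 48876, nat_lit 48228, nat_lit 48444, nat_lit 48372, nat_lit 48396, nat_lit 48388] (nat_lit 3) [nat_lit 28708] false,
   Spec.mk (nat_lit 48394) (nat_lit 0) [nat_lit 35272, nat_lit 44020, nat_lit 52768, nat_lit 46936, nat_lit 48880, nat_lit 48232, nat_lit 48448, nat_lit 48376, nat_lit 48412, nat_lit 48388, nat_lit 48396] (nat_lit 0) [nat_lit 28712] false,
   Spec.mk (nat_lit 48396) (nat_lit 0) [nat_lit 35274, nat_lit 44022, nat_lit 52770, nat_lit 46938, nat_lit 48882, nat_lit 48234, nat_lit 48450, nat_lit 48378, nat_lit 48414, nat_lit 48390, nat_lit 48402, nat_lit 48394] (nat_lit 1) [nat_lit 28714] false,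
   Spec.mk (nat_lit 48402) (nat_lit 0) [nat_lit 35280, nat_lit 44028, nat_lit 52776, nat_lit 46944, nat_lit 48888, nat_lit 48240, nat_lit 48456, nat_lit 48420, nat_lit 48396] (nat_lit 1) [nat_lit 28720] false,
   Spec.mk (nat_lit 48412) (nat_lit 0) [nat_lit 35290, nat_lit 44038, nat_lit 52786, nat_lit 46954, nat_lit 48898, nat_lit 48250, nat_lit 48466, nat_lit 48394, nat_lit 48414] (nat_lit 1) [nat_lit 28730] false,
   Spec.mk (nat_lit 48414) (nat_lit 0) [nat_lit 35292, nat_lit 44040, nat_lit 52788, nat_lit 46956, nat_lit 48900, nat_lit 48252, nat_lit 48468, nat_lit 48396, nat_lit 48420, nat_lit 48412] (nat_lit 3) [nat_lit 28732] false,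
   Spec.mk (nat_lit 48420) (nat_lit 0) [nat_lit 35298, nat_lit 44046, nat_lit 52794, nat_lit 46962, nat_lit 48906, nat_lit 48258, nat_lit 48474, nat_lit 48402, nat_lit 48414] (nat_lit 1) [nat_lit 28738] false,
   Spec.mk (nat_lit 48440) (nat_lit 2) [nat_lit 35318, nat_lit 44066, nat_lit 52814, nat_lit 46982, nat_lit 48926, nat_lit 48278, nat_lit 48602, nat_lit 48386, nat_lit 48442] (nat_lit 0) [] false,
   Spec.mk (nat_lit 48442) (nat_lit 1) [nat_lit 35320, nat_lit 44068, nat_lit 52816, nat_lit 46984, nat_lit 48928, nat_lit 48280, nat_lit 48604, nat_lit 48388, nat_lit 48448, nat_lit 48440, nat_lit 48444] (nat_lit 0) [nat_lit 28760] false,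
   Spec.mk (nat_lit 48444) (nat_lit 0) [nat_lit 35322, nat_lit 44070, nat_lit 52818, nat_lit 46986, nat_lit 48930, nat_lit 48282, nat_lit 48606, nat_lit 48390, nat_lit 48450, nat_lit 48442] (nat_lit 2) [nat_lit 28762] false,
   Spec.mk (nat_lit 48448) (nat_lit 0) [nat_lit 35326, nat_lit 44074, nat_lit 52822, nat_lit 46990, nat_lit 48934, nat_lit 48286, nat_lit 48610, nat_lit 48394, nat_lit 48466, nat_lit 48442, nat_lit 48450] (nat_lit 0) [nat_lit 28766] false,
   Spec.mk (nat_lit 48450) (nat_lit 0) [nat_lit 35328, nat_lit 44076, nat_lit 52824, nat_lit 46992, nat_lit 48936, nat_lit 48288, nat_lit 48612, nat_lit 48396, nat_lit 48468, nat_lit 48444, nat_lit 48456, nat_lit 48448] (nat_lit 1) [nat_lit 28768] false,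
   Spec.mk (nat_lit 48456) (nat_lit 0) [nat_lit 35334, nat_lit 44082, nat_lit 52830, nat_lit 46998, nat_lit 48942, nat_lit 48294, nat_lit 48618, nat_lit 48402, nat_lit 48474, nat_lit 48450] (nat_lit 2) [nat_lit 28774] false,
   Spec.mk (nat_lit 48466) (nat_lit 1) [nat_lit 35344, nat_lit 44092, nat_lit 52840, nat_lit 47008, nat_lit 48952, nat_lit 48304, nat_lit 48628, nat_lit 48412, nat_lit 48520, nat_lit 48448, nat_lit 48468] (nat_lit 0) [nat_lit 28784] false,
   Spec.mk (nat_lit 48468) (nat_lit 0) [nat_lit 35346, nat_lit 44094, nat_lit 52842, nat_lit 47010, nat_lit 48954, nat_lit 48306, nat_lit 48630, nat_lit 48414, nat_lit 48522, nat_lit 48450, nat_lit 48474, nat_lit 48466] (nat_lit 1) [nat_lit 28786] false,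
   Spec.mk (nat_lit 48474) (nat_lit 0) [nat_lit 35352, nat_lit 44100, nat_lit 52848, nat_lit 47016, nat_lit 48960, nat_lit 48312, nat_lit 48636, nat_lit 48420, nat_lit 48528, nat_lit 48456, nat_lit 48492, nat_lit 48468] (nat_lit 0) [nat_lit 28792] false,
   Spec.mk (nat_lit 48492) (nat_lit 0) [nat_lit 35370, nat_lit 44118, nat_lit 52866, nat_lit 47034, nat_lit 48978, nat_lit 48330, nat_lit 48654, nat_lit 48546, nat_lit 48474] (nat_lit 0) [nat_lit 28810] false,
   Spec.mk (nat_lit 48520) (nat_lit 1) [nat_lit 35398, nat_lit 44146, nat_lit 52894, nat_lit 47062, nat_lit 49006, nat_lit 48682, nat_lit 48466, nat_lit 48522] (nat_lit 0) [nat_lit 28838] false,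
   Spec.mk (nat_lit 48522) (nat_lit 0) [nat_lit 35400, nat_lit 44148, nat_lit 52896, nat_lit 47064, nat_lit 49008, nat_lit 48684, nat_lit 48468, nat_lit 48528, nat_lit 48520] (nat_lit 1) [nat_lit 28840] false,
   Spec.mk (nat_lit 48528) (nat_lit 0) [nat_lit 35406, nat_lit 44154, nat_lit 52902, nat_lit 47070, nat_lit 49014, nat_lit 48690, nat_lit 48474, nat_lit 48546, nat_lit 48522] (nat_lit 1) [nat_lit 28846] false,
   Spec.mk (nat_lit 48546) (nat_lit 1) [nat_lit 35424, nat_lit 44172, nat_lit 52920, nat_lit 47088, nat_lit 49032, nat_lit 48708, nat_lit 48492, nat_lit 48528] (nat_lit 0) [nat_lit 28864] false,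
   Spec.mk (nat_lit 48602) (nat_lit 1) [nat_lit 35480, nat_lit 44228, nat_lit 52976, nat_lit 47144, nat_lit 49088, nat_lit 48440, nat_lit 48604] (nat_lit 0) [] false,
   Spec.mk (nat_lit 48604) (nat_lit 0) [nat_lit 35482, nat_lit 44230, nat_lit 52978, nat_lit 47146, nat_lit 49090, nat_lit 48442, nat_lit 48610, nat_lit 48602, nat_lit 48606] (nat_lit 0) [nat_lit 28922] false,
   Spec.mk (nat_lit 48606) (nat_lit 0) [nat_lit 35484, nat_lit 44232, nat_lit 52980, nat_lit 47148, nat_lit 49092, nat_lit 48444, nat_lit 48612, nat_lit 48604] (nat_lit 3) [nat_lit 28924] false,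
   Spec.mk (nat_lit 48610) (nat_lit 0) [nat_lit 35488, nat_lit 44236, nat_lit 52984, nat_lit 47152, nat_lit 49096, nat_lit 48448, nat_lit 48628, nat_lit 48604, nat_lit 48612] (nat_lit 1) [nat_lit 28928] false,
   Spec.mk (nat_lit 48612) (nat_lit 0) [nat_lit 35490, nat_lit 44238, nat_lit 52986, nat_lit 47154, nat_lit 49098, nat_lit 48450, nat_lit 48630, nat_lit 48606, nat_lit 48618, nat_lit 48610] (nat_lit 2) [nat_lit 28930] false,
   Spec.mk (nat_lit 48618) (nat_lit 0) [nat_lit 35496, nat_lit 44244, nat_lit 52992, nat_lit 47160, nat_lit 49104, nat_lit 48456, nat_lit 48636, nat_lit 48612] (nat_lit 3) [nat_lit 28936] false,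
   Spec.mk (nat_lit 48628) (nat_lit 0) [nat_lit 35506, nat_lit 44254, nat_lit 53002, nat_lit 47170, nat_lit 49114, nat_lit 48466, nat_lit 48682, nat_lit 48610, nat_lit 48630] (nat_lit 1) [nat_lit 28946] false,
   Spec.mk (nat_lit 48630) (nat_lit 0) [nat_lit 35508, nat_lit 44256, nat_lit 53004, nat_lit 47172, nat_lit 49116, nat_lit 48468, nat_lit 48684, nat_lit 48612, nat_lit 48636, nat_lit 48628] (nat_lit 3) [nat_lit 28948] false,
   Spec.mk (nat_lit 48636) (nat_lit 0) [nat_lit 35514, nat_lit 44262, nat_lit 53010, nat_lit 47178, nat_lit 49122, nat_lit 48474, nat_lit 48690, nat_lit 48618, nat_lit 48654, nat_lit 48630] (nat_lit 2) [nat_lit 28954] false,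
   Spec.mk (nat_lit 48654) (nat_lit 0) [nat_lit 35532, nat_lit 44280, nat_lit 53028, nat_lit 47196, nat_lit 49140, nat_lit 48492, nat_lit 48708, nat_lit 48636] (nat_lit 3) [nat_lit 28972] false,
   Spec.mk (nat_lit 48682) (nat_lit 1) [nat_lit 35560, nat_lit 44308, nat_lit 53056, nat_lit 47224, nat_lit 49168, nat_lit 48520, nat_lit 48628, nat_lit 48684] (nat_lit 0) [nat_lit 29000] false,
   Spec.mk (nat_lit 48684) (nat_lit 0) [nat_lit 35562, nat_lit 44310, nat_lit 53058, nat_lit 47226, nat_lit 49170, nat_lit 48522, nat_lit 48630, nat_lit 48690, nat_lit 48682] (nat_lit 1) [nat_lit 29002] false,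
   Spec.mk (nat_lit 48690) (nat_lit 0) [nat_lit 35568, nat_lit 44316, nat_lit 53064, nat_lit 47232, nat_lit 49176, nat_lit 48528, nat_lit 48636, nat_lit 48708, nat_lit 48684] (nat_lit 1) [nat_lit 29008] false,
   Spec.mk (nat_lit 48708) (nat_lit 0) [nat_lit 35586, nat_lit 44334, nat_lit 53082, nat_lit 47250, nat_lit 49194, nat_lit 48546, nat_lit 48654, nat_lit 48762, nat_lit 48690] (nat_lit 0) [nat_lit 29026] false,
   Spec.mk (nat_lit 48762) (nat_lit 1) [nat_lit 35640, nat_lit 44388, nat_lit 53136, nat_lit 47304, nat_lit 49248, nat_lit 48708] (nat_lit 0) [nat_lit 29080] false,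
   Spec.mk (nat_lit 48848) (nat_lit 4) [nat_lit 35726, nat_lit 44474, nat_lit 53222, nat_lit 47390, nat_lit 50306, nat_lit 48362, nat_lit 48854, nat_lit 48850] (nat_lit 0) [] false,
   Spec.mk (nat_lit 48850) (nat_lit 2) [nat_lit 35728, nat_lit 44476, nat_lit 53224, nat_lit 47392, nat_lit 50308, nat_lit 48364, nat_lit 48856, nat_lit 48848] (nat_lit 0) [nat_lit 29168] false,
   Spec.mk (nat_lit 48854) (nat_lit 2) [nat_lit 35732, nat_lit 44480, nat_lit 53228, nat_lit 47396, nat_lit 50312, nat_lit 48368, nat_lit 48872, nat_lit 48848, nat_lit 48856] (nat_lit 0) [] false,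
   Spec.mk (nat_lit 48856) (nat_lit 2) [nat_lit 35734, nat_lit 44482, nat_lit 53230, nat_lit 47398, nat_lit 50314, nat_lit 48370, nat_lit 48874, nat_lit 48850, nat_lit 48862, nat_lit 48854, nat_lit 48858] (nat_lit 0) [nat_lit 29174] false,
   Spec.mk (nat_lit 48858) (nat_lit 0) [nat_lit 35736, nat_lit 44484, nat_lit 53232, nat_lit 47400, nat_lit 50316, nat_lit 48372, nat_lit 48876, nat_lit 48864, nat_lit 48856] (nat_lit 0) [nat_lit 29176] false,
   Spec.mk (nat_lit 48862) (nat_lit 0) [nat_lit 35740, nat_lit 44488, nat_lit 53236, nat_lit 47404, nat_lit 50320, nat_lit 48376, nat_lit 48880, nat_lit 48856, nat_lit 48864] (nat_lit 0) [nat_lit 29180] false,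
   Spec.mk (nat_lit 48864) (nat_lit 0) [nat_lit 35742, nat_lit 44490, nat_lit 53238, nat_lit 47406, nat_lit 50322, nat_lit 48378, nat_lit 48882, nat_lit 48858, nat_lit 48862] (nat_lit 0) [nat_lit 29182] false,
   Spec.mk (nat_lit 48872) (nat_lit 2) [nat_lit 35750, nat_lit 44498, nat_lit 53246, nat_lit 47414, nat_lit 50330, nat_lit 48386, nat_lit 48926, nat_lit 48854, nat_lit 48874] (nat_lit 0) [] false,
   Spec.mk (nat_lit 48874) (nat_lit 1) [nat_lit 35752, nat_lit 44500, nat_lit 53248, nat_lit 47416, nat_lit 50332, nat_lit 48388, nat_lit 48928, nat_lit 48856, nat_lit 48880, nat_lit 48872, nat_lit 48876] (nat_lit 0) [nat_lit 29192] false]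

noncomputable def sp106 : List Spec :=
  [Spec.mk (nat_lit 48876) (nat_lit 0) [nat_lit 35754, nat_lit 44502, nat_lit 53250, nat_lit 47418, nat_lit 50334, nat_lit 48390, nat_lit 48930, nat_lit 48858, nat_lit 48882, nat_lit 48874] (nat_lit 2) [nat_lit 29194] false,
   Spec.mk (nat_lit 48880) (nat_lit 1) [nat_lit 35758, nat_lit 44506, nat_lit 53254, nat_lit 47422, nat_lit 50338, nat_lit 48394, nat_lit 48934, nat_lit 48862, nat_lit 48898, nat_lit 48874, nat_lit 48882] (nat_lit 0) [nat_lit 29198] false,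
   Spec.mk (nat_lit 48882) (nat_lit 0) [nat_lit 35760, nat_lit 44508, nat_lit 53256, nat_lit 47424, nat_lit 50340, nat_lit 48396, nat_lit 48936, nat_lit 48864, nat_lit 48900, nat_lit 48876, nat_lit 48888, nat_lit 48880] (nat_lit 0) [nat_lit 29200] false,
   Spec.mk (nat_lit 48888) (nat_lit 0) [nat_lit 35766, nat_lit 44514, nat_lit 53262, nat_lit 47430, nat_lit 50346, nat_lit 48402, nat_lit 48942, nat_lit 48906, nat_lit 48882] (nat_lit 0) [nat_lit 29206] false,
   Spec.mk (nat_lit 48898) (nat_lit 0) [nat_lit 35776, nat_lit 44524, nat_lit 53272, nat_lit 47440, nat_lit 50356, nat_lit 48412, nat_lit 48952, nat_lit 48880, nat_lit 48900] (nat_lit 0) [nat_lit 29216] false,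
   Spec.mk (nat_lit 48900) (nat_lit 0) [nat_lit 35778, nat_lit 44526, nat_lit 53274, nat_lit 47442, nat_lit 50358, nat_lit 48414, nat_lit 48954, nat_lit 48882, nat_lit 48906, nat_lit 48898] (nat_lit 2) [nat_lit 29218] false,
   Spec.mk (nat_lit 48906) (nat_lit 0) [nat_lit 35784, nat_lit 44532, nat_lit 53280, nat_lit 47448, nat_lit 50364, nat_lit 48420, nat_lit 48960, nat_lit 48888, nat_lit 48900] (nat_lit 0) [nat_lit 29224] false,
   Spec.mk (nat_lit 48926) (nat_lit 2) [nat_lit 35804, nat_lit 44552, nat_lit 53300, nat_lit 47468, nat_lit 50384, nat_lit 48440, nat_lit 49088, nat_lit 48872, nat_lit 48928] (nat_lit 0) [] false,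
   Spec.mk (nat_lit 48928) (nat_lit 1) [nat_lit 35806, nat_lit 44554, nat_lit 53302, nat_lit 47470, nat_lit 50386, nat_lit 48442, nat_lit 49090, nat_lit 48874, nat_lit 48934, nat_lit 48926, nat_lit 48930] (nat_lit 0) [nat_lit 29246] false,
   Spec.mk (nat_lit 48930) (nat_lit 0) [nat_lit 35808, nat_lit 44556, nat_lit 53304, nat_lit 47472, nat_lit 50388, nat_lit 48444, nat_lit 49092, nat_lit 48876, nat_lit 48936, nat_lit 48928] (nat_lit 2) [nat_lit 29248] false,
   Spec.mk (nat_lit 48934) (nat_lit 0) [nat_lit 35812, nat_lit 44560, nat_lit 53308, nat_lit 47476, nat_lit 50392, nat_lit 48448, nat_lit 49096, nat_lit 48880, nat_lit 48952, nat_lit 48928, nat_lit 48936] (nat_lit 0) [nat_lit 29252] false,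
   Spec.mk (nat_lit 48936) (nat_lit 0) [nat_lit 35814, nat_lit 44562, nat_lit 53310, nat_lit 47478, nat_lit 50394, nat_lit 48450, nat_lit 49098, nat_lit 48882, nat_lit 48954, nat_lit 48930, nat_lit 48942, nat_lit 48934] (nat_lit 1) [nat_lit 29254] false,
   Spec.mk (nat_lit 48942) (nat_lit 0) [nat_lit 35820, nat_lit 44568, nat_lit 53316, nat_lit 47484, nat_lit 50400, nat_lit 48456, nat_lit 49104, nat_lit 48888, nat_lit 48960, nat_lit 48936] (nat_lit 2) [nat_lit 29260] false,
   Spec.mk (nat_lit 48952) (nat_lit 1) [nat_lit 35830, nat_lit 44578, nat_lit 53326, nat_lit 47494, nat_lit 50410, nat_lit 48466, nat_lit 49114, nat_lit 48898, nat_lit 49006, nat_lit 48934, nat_lit 48954] (nat_lit 0) [nat_lit 29270] false,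
   Spec.mk (nat_lit 48954) (nat_lit 0) [nat_lit 35832, nat_lit 44580, nat_lit 53328, nat_lit 47496, nat_lit 50412, nat_lit 48468, nat_lit 49116, nat_lit 48900, nat_lit 49008, nat_lit 48936, nat_lit 48960, nat_lit 48952] (nat_lit 1) [nat_lit 29272] false,
   Spec.mk (nat_lit 48960) (nat_lit 0) [nat_lit 35838, nat_lit 44586, nat_lit 53334, nat_lit 47502, nat_lit 50418, nat_lit 48474, nat_lit 49122, nat_lit 48906, nat_lit 49014, nat_lit 48942, nat_lit 48978, nat_lit 48954] (nat_lit 0) [nat_lit 29278] false,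
   Spec.mk (nat_lit 48978) (nat_lit 0) [nat_lit 35856, nat_lit 44604, nat_lit 53352, nat_lit 47520, nat_lit 50436, nat_lit 48492, nat_lit 49140, nat_lit 49032, nat_lit 48960] (nat_lit 0) [nat_lit 29296] false,
   Spec.mk (nat_lit 49006) (nat_lit 0) [nat_lit 35884, nat_lit 44632, nat_lit 53380, nat_lit 47548, nat_lit 50464, nat_lit 48520, nat_lit 49168, nat_lit 48952, nat_lit 49008] (nat_lit 0) [nat_lit 29324] false,
   Spec.mk (nat_lit 49008) (nat_lit 0) [nat_lit 35886, nat_lit 44634, nat_lit 53382, nat_lit 47550, nat_lit 50466, nat_lit 48522, nat_lit 49170, nat_lit 48954, nat_lit 49014, nat_lit 49006] (nat_lit 2) [nat_lit 29326] false,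
   Spec.mk (nat_lit 49014) (nat_lit 0) [nat_lit 35892, nat_lit 44640, nat_lit 53388, nat_lit 47556, nat_lit 50472, nat_lit 48528, nat_lit 49176, nat_lit 48960, nat_lit 49032, nat_lit 49008] (nat_lit 2) [nat_lit 29332] false,
   Spec.mk (nat_lit 49032) (nat_lit 0) [nat_lit 35910, nat_lit 44658, nat_lit 53406, nat_lit 47574, nat_lit 50490, nat_lit 48546, nat_lit 49194, nat_lit 48978, nat_lit 49014] (nat_lit 0) [nat_lit 29350] false,
   Spec.mk (nat_lit 49088) (nat_lit 3) [nat_lit 35966, nat_lit 44714, nat_lit 53462, nat_lit 47630, nat_lit 50546, nat_lit 48602, nat_lit 49574, nat_lit 48926, nat_lit 49090] (nat_lit 0) [] false,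
   Spec.mk (nat_lit 49090) (nat_lit 2) [nat_lit 35968, nat_lit 44716, nat_lit 53464, nat_lit 47632, nat_lit 50548, nat_lit 48604, nat_lit 49576, nat_lit 48928, nat_lit 49096, nat_lit 49088, nat_lit 49092] (nat_lit 0) [nat_lit 29408] false,
   Spec.mk (nat_lit 49092) (nat_lit 0) [nat_lit 35970, nat_lit 44718, nat_lit 53466, nat_lit 47634, nat_lit 50550, nat_lit 48606, nat_lit 49578, nat_lit 48930, nat_lit 49098, nat_lit 49090] (nat_lit 1) [nat_lit 29410] false,
   Spec.mk (nat_lit 49096) (nat_lit 1) [nat_lit 35974, nat_lit 44722, nat_lit 53470, nat_lit 47638, nat_lit 50554, nat_lit 48610, nat_lit 49582, nat_lit 48934, nat_lit 49114, nat_lit 49090, nat_lit 49098] (nat_lit 0) [nat_lit 29414] false,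
   Spec.mk (nat_lit 49098) (nat_lit 0) [nat_lit 35976, nat_lit 44724, nat_lit 53472, nat_lit 47640, nat_lit 50556, nat_lit 48612, nat_lit 49584, nat_lit 48936, nat_lit 49116, nat_lit 49092, nat_lit 49104, nat_lit 49096] (nat_lit 0) [nat_lit 29416] false,
   Spec.mk (nat_lit 49104) (nat_lit 0) [nat_lit 35982, nat_lit 44730, nat_lit 53478, nat_lit 47646, nat_lit 50562, nat_lit 48618, nat_lit 49590, nat_lit 48942, nat_lit 49122, nat_lit 49098] (nat_lit 1) [nat_lit 29422] false,
   Spec.mk (nat_lit 49114) (nat_lit 1) [nat_lit 35992, nat_lit 44740, nat_lit 53488, nat_lit 47656, nat_lit 50572, nat_lit 48628, nat_lit 49600, nat_lit 48952, nat_lit 49168, nat_lit 49096, nat_lit 49116] (nat_lit 0) [nat_lit 29432] false,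
   Spec.mk (nat_lit 49116) (nat_lit 0) [nat_lit 35994, nat_lit 44742, nat_lit 53490, nat_lit 47658, nat_lit 50574, nat_lit 48630, nat_lit 49602, nat_lit 48954, nat_lit 49170, nat_lit 49098, nat_lit 49122, nat_lit 49114] (nat_lit 1) [nat_lit 29434] false,
   Spec.mk (nat_lit 49122) (nat_lit 0) [nat_lit 36000, nat_lit 44748, nat_lit 53496, nat_lit 47664, nat_lit 50580, nat_lit 48636, nat_lit 49608, nat_lit 48960, nat_lit 49176, nat_lit 49104, nat_lit 49140, nat_lit 49116] (nat_lit 0) [nat_lit 29440] false,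
   Spec.mk (nat_lit 49140) (nat_lit 0) [nat_lit 36018, nat_lit 44766, nat_lit 53514, nat_lit 47682, nat_lit 50598, nat_lit 48654, nat_lit 49626, nat_lit 48978, nat_lit 49194, nat_lit 49122] (nat_lit 1) [nat_lit 29458] false,
   Spec.mk (nat_lit 49168) (nat_lit 2) [nat_lit 36046, nat_lit 44794, nat_lit 53542, nat_lit 47710, nat_lit 50626, nat_lit 48682, nat_lit 49654, nat_lit 49006, nat_lit 49330, nat_lit 49114, nat_lit 49170] (nat_lit 0) [nat_lit 29486] false,
   Spec.mk (nat_lit 49170) (nat_lit 0) [nat_lit 36048, nat_lit 44796, nat_lit 53544, nat_lit 47712, nat_lit 50628, nat_lit 48684, nat_lit 49656, nat_lit 49008, nat_lit 49332, nat_lit 49116, nat_lit 49176, nat_lit 49168] (nat_lit 0) [nat_lit 29488] false,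
   Spec.mk (nat_lit 49176) (nat_lit 0) [nat_lit 36054, nat_lit 44802, nat_lit 53550, nat_lit 47718, nat_lit 50634, nat_lit 48690, nat_lit 49662, nat_lit 49014, nat_lit 49338, nat_lit 49122, nat_lit 49194, nat_lit 49170] (nat_lit 0) [nat_lit 29494] false,
   Spec.mk (nat_lit 49194) (nat_lit 1) [nat_lit 36072, nat_lit 44820, nat_lit 53568, nat_lit 47736, nat_lit 50652, nat_lit 48708, nat_lit 49680, nat_lit 49032, nat_lit 49356, nat_lit 49140, nat_lit 49248, nat_lit 49176] (nat_lit 0) [nat_lit 29512] false,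
   Spec.mk (nat_lit 49248) (nat_lit 1) [nat_lit 36126, nat_lit 44874, nat_lit 53622, nat_lit 47790, nat_lit 50706, nat_lit 48762, nat_lit 49734, nat_lit 49410, nat_lit 49194] (nat_lit 0) [nat_lit 29566] false,
   Spec.mk (nat_lit 49330) (nat_lit 2) [nat_lit 36208, nat_lit 44956, nat_lit 53704, nat_lit 47872, nat_lit 50788, nat_lit 49816, nat_lit 49168, nat_lit 49332] (nat_lit 0) [nat_lit 29648] false,
   Spec.mk (nat_lit 49332) (nat_lit 0) [nat_lit 36210, nat_lit 44958, nat_lit 53706, nat_lit 47874, nat_lit 50790, nat_lit 49818, nat_lit 49170, nat_lit 49338, nat_lit 49330] (nat_lit 0) [nat_lit 29650] false,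
   Spec.mk (nat_lit 49338) (nat_lit 0) [nat_lit 36216, nat_lit 44964, nat_lit 53712, nat_lit 47880, nat_lit 50796, nat_lit 49824, nat_lit 49176, nat_lit 49356, nat_lit 49332] (nat_lit 0) [nat_lit 29656] false,
   Spec.mk (nat_lit 49356) (nat_lit 0) [nat_lit 36234, nat_lit 44982, nat_lit 53730, nat_lit 47898, nat_lit 50814, nat_lit 49842, nat_lit 49194, nat_lit 49410, nat_lit 49338] (nat_lit 0) [nat_lit 29674] false,
   Spec.mk (nat_lit 49410) (nat_lit 2) [nat_lit 36288, nat_lit 45036, nat_lit 53784, nat_lit 47952, nat_lit 50868, nat_lit 49896, nat_lit 49248, nat_lit 49356] (nat_lit 0) [nat_lit 29728] false,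
   Spec.mk (nat_lit 49574) (nat_lit 3) [nat_lit 36452, nat_lit 45200, nat_lit 53948, nat_lit 51032, nat_lit 49088, nat_lit 49576] (nat_lit 0) [] false,
   Spec.mk (nat_lit 49576) (nat_lit 2) [nat_lit 36454, nat_lit 45202, nat_lit 53950, nat_lit 51034, nat_lit 49090, nat_lit 49582, nat_lit 49574, nat_lit 49578] (nat_lit 0) [nat_lit 29894] false,
   Spec.mk (nat_lit 49578) (nat_lit 0) [nat_lit 36456, nat_lit 45204, nat_lit 53952, nat_lit 51036, nat_lit 49092, nat_lit 49584, nat_lit 49576] (nat_lit 1) [nat_lit 29896] false,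
   Spec.mk (nat_lit 49582) (nat_lit 1) [nat_lit 36460, nat_lit 45208, nat_lit 53956, nat_lit 51040, nat_lit 49096, nat_lit 49600, nat_lit 49576, nat_lit 49584] (nat_lit 0) [nat_lit 29900] false,
   Spec.mk (nat_lit 49584) (nat_lit 0) [nat_lit 36462, nat_lit 45210, nat_lit 53958, nat_lit 51042, nat_lit 49098, nat_lit 49602, nat_lit 49578, nat_lit 49590, nat_lit 49582] (nat_lit 0) [nat_lit 29902] false,
   Spec.mk (nat_lit 49590) (nat_lit 0) [nat_lit 36468, nat_lit 45216, nat_lit 53964, nat_lit 51048, nat_lit 49104, nat_lit 49608, nat_lit 49584] (nat_lit 1) [nat_lit 29908] false,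
   Spec.mk (nat_lit 49600) (nat_lit 1) [nat_lit 36478, nat_lit 45226, nat_lit 53974, nat_lit 51058, nat_lit 49114, nat_lit 49654, nat_lit 49582, nat_lit 49602] (nat_lit 0) [nat_lit 29918] false,
   Spec.mk (nat_lit 49602) (nat_lit 0) [nat_lit 36480, nat_lit 45228, nat_lit 53976, nat_lit 51060, nat_lit 49116, nat_lit 49656, nat_lit 49584, nat_lit 49608, nat_lit 49600] (nat_lit 1) [nat_lit 29920] false,
   Spec.mk (nat_lit 49608) (nat_lit 0) [nat_lit 36486, nat_lit 45234, nat_lit 53982, nat_lit 51066, nat_lit 49122, nat_lit 49662, nat_lit 49590, nat_lit 49626, nat_lit 49602] (nat_lit 0) [nat_lit 29926] false,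
   Spec.mk (nat_lit 49626) (nat_lit 0) [nat_lit 36504, nat_lit 45252, nat_lit 54000, nat_lit 51084, nat_lit 49140, nat_lit 49680, nat_lit 49608] (nat_lit 1) [nat_lit 29944] false,
   Spec.mk (nat_lit 49654) (nat_lit 1) [nat_lit 36532, nat_lit 45280, nat_lit 54028, nat_lit 51112, nat_lit 49168, nat_lit 49816, nat_lit 49600, nat_lit 49656] (nat_lit 0) [nat_lit 29972] false,
   Spec.mk (nat_lit 49656) (nat_lit 0) [nat_lit 36534, nat_lit 45282, nat_lit 54030, nat_lit 51114, nat_lit 49170, nat_lit 49818, nat_lit 49602, nat_lit 49662, nat_lit 49654] (nat_lit 1) [nat_lit 29974] false,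
   Spec.mk (nat_lit 49662) (nat_lit 0) [nat_lit 36540, nat_lit 45288, nat_lit 54036, nat_lit 51120, nat_lit 49176, nat_lit 49824, nat_lit 49608, nat_lit 49680, nat_lit 49656] (nat_lit 1) [nat_lit 29980] false,
   Spec.mk (nat_lit 49680) (nat_lit 0) [nat_lit 36558, nat_lit 45306, nat_lit 54054, nat_lit 51138, nat_lit 49194, nat_lit 49842, nat_lit 49626, nat_lit 49734, nat_lit 49662] (nat_lit 0) [nat_lit 29998] false,
   Spec.mk (nat_lit 49734) (nat_lit 0) [nat_lit 36612, nat_lit 45360, nat_lit 54108, nat_lit 51192, nat_lit 49248, nat_lit 49896, nat_lit 49680] (nat_lit 1) [nat_lit 30052] false,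
   Spec.mk (nat_lit 49816) (nat_lit 3) [nat_lit 36694, nat_lit 45442, nat_lit 54190, nat_lit 51274, nat_lit 49330, nat_lit 49654, nat_lit 49818] (nat_lit 0) [nat_lit 30134] false,
   Spec.mk (nat_lit 49818) (nat_lit 1) [nat_lit 36696, nat_lit 45444, nat_lit 54192, nat_lit 51276, nat_lit 49332, nat_lit 49656, nat_lit 49824, nat_lit 49816] (nat_lit 0) [nat_lit 30136] false,
   Spec.mk (nat_lit 49824) (nat_lit 1) [nat_lit 36702, nat_lit 45450, nat_lit 54198, nat_lit 51282, nat_lit 49338, nat_lit 49662, nat_lit 49842, nat_lit 49818] (nat_lit 0) [nat_lit 30142] false,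
   Spec.mk (nat_lit 49842) (nat_lit 1) [nat_lit 36720, nat_lit 45468, nat_lit 54216, nat_lit 51300, nat_lit 49356, nat_lit 49680, nat_lit 49896, nat_lit 49824] (nat_lit 0) [nat_lit 30160] false]

noncomputable def sp107 : List Spec :=
  [Spec.mk (nat_lit 49896) (nat_lit 2) [nat_lit 36774, nat_lit 45522, nat_lit 54270, nat_lit 51354, nat_lit 49410, nat_lit 49734, nat_lit 50058, nat_lit 49842] (nat_lit 0) [nat_lit 30214] false,
   Spec.mk (nat_lit 50058) (nat_lit 3) [nat_lit 36936, nat_lit 45684, nat_lit 54432, nat_lit 51516, nat_lit 49896] (nat_lit 0) [nat_lit 30376] false,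
   Spec.mk (nat_lit 50306) (nat_lit 4) [nat_lit 37184, nat_lit 54680, nat_lit 48848, nat_lit 50312, nat_lit 50308] (nat_lit 0) [] false,
   Spec.mk (nat_lit 50308) (nat_lit 2) [nat_lit 37186, nat_lit 54682, nat_lit 48850, nat_lit 50314, nat_lit 50306] (nat_lit 0) [nat_lit 30626] false,
   Spec.mk (nat_lit 50312) (nat_lit 2) [nat_lit 37190, nat_lit 54686, nat_lit 48854, nat_lit 50330, nat_lit 50306, nat_lit 50314] (nat_lit 0) [] false,
   Spec.mk (nat_lit 50314) (nat_lit 2) [nat_lit 37192, nat_lit 54688, nat_lit 48856, nat_lit 50332, nat_lit 50308, nat_lit 50320, nat_lit 50312, nat_lit 50316] (nat_lit 0) [nat_lit 30632] false,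
   Spec.mk (nat_lit 50316) (nat_lit 0) [nat_lit 37194, nat_lit 54690, nat_lit 48858, nat_lit 50334, nat_lit 50322, nat_lit 50314] (nat_lit 0) [nat_lit 30634] false,
   Spec.mk (nat_lit 50320) (nat_lit 0) [nat_lit 37198, nat_lit 54694, nat_lit 48862, nat_lit 50338, nat_lit 50314, nat_lit 50322] (nat_lit 0) [nat_lit 30638] false,
   Spec.mk (nat_lit 50322) (nat_lit 0) [nat_lit 37200, nat_lit 54696, nat_lit 48864, nat_lit 50340, nat_lit 50316, nat_lit 50320] (nat_lit 0) [nat_lit 30640] false,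
   Spec.mk (nat_lit 50330) (nat_lit 2) [nat_lit 37208, nat_lit 54704, nat_lit 48872, nat_lit 50384, nat_lit 50312, nat_lit 50332] (nat_lit 0) [] false,
   Spec.mk (nat_lit 50332) (nat_lit 1) [nat_lit 37210, nat_lit 54706, nat_lit 48874, nat_lit 50386, nat_lit 50314, nat_lit 50338, nat_lit 50330, nat_lit 50334] (nat_lit 0) [nat_lit 30650] false,
   Spec.mk (nat_lit 50334) (nat_lit 0) [nat_lit 37212, nat_lit 54708, nat_lit 48876, nat_lit 50388, nat_lit 50316, nat_lit 50340, nat_lit 50332] (nat_lit 2) [nat_lit 30652] false,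
   Spec.mk (nat_lit 50338) (nat_lit 1) [nat_lit 37216, nat_lit 54712, nat_lit 48880, nat_lit 50392, nat_lit 50320, nat_lit 50356, nat_lit 50332, nat_lit 50340] (nat_lit 0) [nat_lit 30656] false,
   Spec.mk (nat_lit 50340) (nat_lit 0) [nat_lit 37218, nat_lit 54714, nat_lit 48882, nat_lit 50394, nat_lit 50322, nat_lit 50358, nat_lit 50334, nat_lit 50346, nat_lit 50338] (nat_lit 0) [nat_lit 30658] false,
   Spec.mk (nat_lit 50346) (nat_lit 0) [nat_lit 37224, nat_lit 54720, nat_lit 48888, nat_lit 50400, nat_lit 50364, nat_lit 50340] (nat_lit 0) [nat_lit 30664] false,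
   Spec.mk (nat_lit 50356) (nat_lit 0) [nat_lit 37234, nat_lit 54730, nat_lit 48898, nat_lit 50410, nat_lit 50338, nat_lit 50358] (nat_lit 0) [nat_lit 30674] false,
   Spec.mk (nat_lit 50358) (nat_lit 0) [nat_lit 37236, nat_lit 54732, nat_lit 48900, nat_lit 50412, nat_lit 50340, nat_lit 50364, nat_lit 50356] (nat_lit 2) [nat_lit 30676] false,
   Spec.mk (nat_lit 50364) (nat_lit 0) [nat_lit 37242, nat_lit 54738, nat_lit 48906, nat_lit 50418, nat_lit 50346, nat_lit 50358] (nat_lit 0) [nat_lit 30682] false,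
   Spec.mk (nat_lit 50384) (nat_lit 2) [nat_lit 37262, nat_lit 54758, nat_lit 48926, nat_lit 50546, nat_lit 50330, nat_lit 50386] (nat_lit 0) [] false,
   Spec.mk (nat_lit 50386) (nat_lit 1) [nat_lit 37264, nat_lit 54760, nat_lit 48928, nat_lit 50548, nat_lit 50332, nat_lit 50392, nat_lit 50384, nat_lit 50388] (nat_lit 0) [nat_lit 30704] false,
   Spec.mk (nat_lit 50388) (nat_lit 0) [nat_lit 37266, nat_lit 54762, nat_lit 48930, nat_lit 50550, nat_lit 50334, nat_lit 50394, nat_lit 50386] (nat_lit 2) [nat_lit 30706] false,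
   Spec.mk (nat_lit 50392) (nat_lit 0) [nat_lit 37270, nat_lit 54766, nat_lit 48934, nat_lit 50554, nat_lit 50338, nat_lit 50410, nat_lit 50386, nat_lit 50394] (nat_lit 0) [nat_lit 30710] false,
   Spec.mk (nat_lit 50394) (nat_lit 0) [nat_lit 37272, nat_lit 54768, nat_lit 48936, nat_lit 50556, nat_lit 50340, nat_lit 50412, nat_lit 50388, nat_lit 50400, nat_lit 50392] (nat_lit 1) [nat_lit 30712] false,
   Spec.mk (nat_lit 50400) (nat_lit 0) [nat_lit 37278, nat_lit 54774, nat_lit 48942, nat_lit 50562, nat_lit 50346, nat_lit 50418, nat_lit 50394] (nat_lit 2) [nat_lit 30718] false,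
   Spec.mk (nat_lit 50410) (nat_lit 1) [nat_lit 37288, nat_lit 54784, nat_lit 48952, nat_lit 50572, nat_lit 50356, nat_lit 50464, nat_lit 50392, nat_lit 50412] (nat_lit 0) [nat_lit 30728] false,
   Spec.mk (nat_lit 50412) (nat_lit 0) [nat_lit 37290, nat_lit 54786, nat_lit 48954, nat_lit 50574, nat_lit 50358, nat_lit 50466, nat_lit 50394, nat_lit 50418, nat_lit 50410] (nat_lit 1) [nat_lit 30730] false,
   Spec.mk (nat_lit 50418) (nat_lit 0) [nat_lit 37296, nat_lit 54792, nat_lit 48960, nat_lit 50580, nat_lit 50364, nat_lit 50472, nat_lit 50400, nat_lit 50436, nat_lit 50412] (nat_lit 0) [nat_lit 30736] false,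
   Spec.mk (nat_lit 50436) (nat_lit 0) [nat_lit 37314, nat_lit 54810, nat_lit 48978, nat_lit 50598, nat_lit 50490, nat_lit 50418] (nat_lit 0) [nat_lit 30754] false,
   Spec.mk (nat_lit 50464) (nat_lit 0) [nat_lit 37342, nat_lit 54838, nat_lit 49006, nat_lit 50626, nat_lit 50410, nat_lit 50466] (nat_lit 0) [nat_lit 30782] false,
   Spec.mk (nat_lit 50466) (nat_lit 0) [nat_lit 37344, nat_lit 54840, nat_lit 49008, nat_lit 50628, nat_lit 50412, nat_lit 50472, nat_lit 50464] (nat_lit 2) [nat_lit 30784] false,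
   Spec.mk (nat_lit 50472) (nat_lit 0) [nat_lit 37350, nat_lit 54846, nat_lit 49014, nat_lit 50634, nat_lit 50418, nat_lit 50490, nat_lit 50466] (nat_lit 2) [nat_lit 30790] false,
   Spec.mk (nat_lit 50490) (nat_lit 0) [nat_lit 37368, nat_lit 54864, nat_lit 49032, nat_lit 50652, nat_lit 50436, nat_lit 50472] (nat_lit 0) [nat_lit 30808] false,
   Spec.mk (nat_lit 50546) (nat_lit 2) [nat_lit 37424, nat_lit 54920, nat_lit 49088, nat_lit 51032, nat_lit 50384, nat_lit 50548] (nat_lit 0) [] false,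
   Spec.mk (nat_lit 50548) (nat_lit 1) [nat_lit 37426, nat_lit 54922, nat_lit 49090, nat_lit 51034, nat_lit 50386, nat_lit 50554, nat_lit 50546, nat_lit 50550] (nat_lit 0) [nat_lit 30866] false,
   Spec.mk (nat_lit 50550) (nat_lit 0) [nat_lit 37428, nat_lit 54924, nat_lit 49092, nat_lit 51036, nat_lit 50388, nat_lit 50556, nat_lit 50548] (nat_lit 2) [nat_lit 30868] false,
   Spec.mk (nat_lit 50554) (nat_lit 0) [nat_lit 37432, nat_lit 54928, nat_lit 49096, nat_lit 51040, nat_lit 50392, nat_lit 50572, nat_lit 50548, nat_lit 50556] (nat_lit 0) [nat_lit 30872] false,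
   Spec.mk (nat_lit 50556) (nat_lit 0) [nat_lit 37434, nat_lit 54930, nat_lit 49098, nat_lit 51042, nat_lit 50394, nat_lit 50574, nat_lit 50550, nat_lit 50562, nat_lit 50554] (nat_lit 1) [nat_lit 30874] false,
   Spec.mk (nat_lit 50562) (nat_lit 0) [nat_lit 37440, nat_lit 54936, nat_lit 49104, nat_lit 51048, nat_lit 50400, nat_lit 50580, nat_lit 50556] (nat_lit 2) [nat_lit 30880] false,
   Spec.mk (nat_lit 50572) (nat_lit 0) [nat_lit 37450, nat_lit 54946, nat_lit 49114, nat_lit 51058, nat_lit 50410, nat_lit 50626, nat_lit 50554, nat_lit 50574] (nat_lit 0) [nat_lit 30890] false,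
   Spec.mk (nat_lit 50574) (nat_lit 0) [nat_lit 37452, nat_lit 54948, nat_lit 49116, nat_lit 51060, nat_lit 50412, nat_lit 50628, nat_lit 50556, nat_lit 50580, nat_lit 50572] (nat_lit 2) [nat_lit 30892] false,
   Spec.mk (nat_lit 50580) (nat_lit 0) [nat_lit 37458, nat_lit 54954, nat_lit 49122, nat_lit 51066, nat_lit 50418, nat_lit 50634, nat_lit 50562, nat_lit 50598, nat_lit 50574] (nat_lit 1) [nat_lit 30898] false,
   Spec.mk (nat_lit 50598) (nat_lit 0) [nat_lit 37476, nat_lit 54972, nat_lit 49140, nat_lit 51084, nat_lit 50436, nat_lit 50652, nat_lit 50580] (nat_lit 2) [nat_lit 30916] false,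
   Spec.mk (nat_lit 50626) (nat_lit 1) [nat_lit 37504, nat_lit 55000, nat_lit 49168, nat_lit 51112, nat_lit 50464, nat_lit 50788, nat_lit 50572, nat_lit 50628] (nat_lit 0) [nat_lit 30944] false,
   Spec.mk (nat_lit 50628) (nat_lit 0) [nat_lit 37506, nat_lit 55002, nat_lit 49170, nat_lit 51114, nat_lit 50466, nat_lit 50790, nat_lit 50574, nat_lit 50634, nat_lit 50626] (nat_lit 1) [nat_lit 30946] false,
   Spec.mk (nat_lit 50634) (nat_lit 0) [nat_lit 37512, nat_lit 55008, nat_lit 49176, nat_lit 51120, nat_lit 50472, nat_lit 50796, nat_lit 50580, nat_lit 50652, nat_lit 50628] (nat_lit 1) [nat_lit 30952] false,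
   Spec.mk (nat_lit 50652) (nat_lit 0) [nat_lit 37530, nat_lit 55026, nat_lit 49194, nat_lit 51138, nat_lit 50490, nat_lit 50814, nat_lit 50598, nat_lit 50706, nat_lit 50634] (nat_lit 0) [nat_lit 30970] false,
   Spec.mk (nat_lit 50706) (nat_lit 0) [nat_lit 37584, nat_lit 55080, nat_lit 49248, nat_lit 51192, nat_lit 50868, nat_lit 50652] (nat_lit 0) [nat_lit 31024] false,
   Spec.mk (nat_lit 50788) (nat_lit 0) [nat_lit 37666, nat_lit 55162, nat_lit 49330, nat_lit 51274, nat_lit 50626, nat_lit 50790] (nat_lit 0) [nat_lit 31106] false,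
   Spec.mk (nat_lit 50790) (nat_lit 0) [nat_lit 37668, nat_lit 55164, nat_lit 49332, nat_lit 51276, nat_lit 50628, nat_lit 50796, nat_lit 50788] (nat_lit 2) [nat_lit 31108] false,
   Spec.mk (nat_lit 50796) (nat_lit 0) [nat_lit 37674, nat_lit 55170, nat_lit 49338, nat_lit 51282, nat_lit 50634, nat_lit 50814, nat_lit 50790] (nat_lit 2) [nat_lit 31114] false,
   Spec.mk (nat_lit 50814) (nat_lit 0) [nat_lit 37692, nat_lit 55188, nat_lit 49356, nat_lit 51300, nat_lit 50652, nat_lit 50868, nat_lit 50796] (nat_lit 2) [nat_lit 31132] false,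
   Spec.mk (nat_lit 50868) (nat_lit 0) [nat_lit 37746, nat_lit 55242, nat_lit 49410, nat_lit 51354, nat_lit 50706, nat_lit 50814] (nat_lit 0) [nat_lit 31186] false,
   Spec.mk (nat_lit 51032) (nat_lit 4) [nat_lit 37910, nat_lit 55406, nat_lit 49574, nat_lit 50546, nat_lit 51034] (nat_lit 0) [] false,
   Spec.mk (nat_lit 51034) (nat_lit 3) [nat_lit 37912, nat_lit 55408, nat_lit 49576, nat_lit 50548, nat_lit 51040, nat_lit 51032, nat_lit 51036] (nat_lit 0) [nat_lit 31352] false,
   Spec.mk (nat_lit 51036) (nat_lit 0) [nat_lit 37914, nat_lit 55410, nat_lit 49578, nat_lit 50550, nat_lit 51042, nat_lit 51034] (nat_lit 0) [nat_lit 31354] false,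
   Spec.mk (nat_lit 51040) (nat_lit 2) [nat_lit 37918, nat_lit 55414, nat_lit 49582, nat_lit 50554, nat_lit 51058, nat_lit 51034, nat_lit 51042] (nat_lit 0) [nat_lit 31358] false,
   Spec.mk (nat_lit 51042) (nat_lit 1) [nat_lit 37920, nat_lit 55416, nat_lit 49584, nat_lit 50556, nat_lit 51060, nat_lit 51036, nat_lit 51048, nat_lit 51040] (nat_lit 0) [nat_lit 31360] false,
   Spec.mk (nat_lit 51048) (nat_lit 0) [nat_lit 37926, nat_lit 55422, nat_lit 49590, nat_lit 50562, nat_lit 51066, nat_lit 51042] (nat_lit 0) [nat_lit 31366] false,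
   Spec.mk (nat_lit 51058) (nat_lit 2) [nat_lit 37936, nat_lit 55432, nat_lit 49600, nat_lit 50572, nat_lit 51112, nat_lit 51040, nat_lit 51060] (nat_lit 0) [nat_lit 31376] false,
   Spec.mk (nat_lit 51060) (nat_lit 0) [nat_lit 37938, nat_lit 55434, nat_lit 49602, nat_lit 50574, nat_lit 51114, nat_lit 51042, nat_lit 51066, nat_lit 51058] (nat_lit 0) [nat_lit 31378] false]

noncomputable def sp108 : List Spec :=
  [Spec.mk (nat_lit 51066) (nat_lit 1) [nat_lit 37944, nat_lit 55440, nat_lit 49608, nat_lit 50580, nat_lit 51120, nat_lit 51048, nat_lit 51084, nat_lit 51060] (nat_lit 0) [nat_lit 31384] false,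
   Spec.mk (nat_lit 51084) (nat_lit 0) [nat_lit 37962, nat_lit 55458, nat_lit 49626, nat_lit 50598, nat_lit 51138, nat_lit 51066] (nat_lit 0) [nat_lit 31402] false,
   Spec.mk (nat_lit 51112) (nat_lit 2) [nat_lit 37990, nat_lit 55486, nat_lit 49654, nat_lit 50626, nat_lit 51274, nat_lit 51058, nat_lit 51114] (nat_lit 0) [nat_lit 31430] false,
   Spec.mk (nat_lit 51114) (nat_lit 0) [nat_lit 37992, nat_lit 55488, nat_lit 49656, nat_lit 50628, nat_lit 51276, nat_lit 51060, nat_lit 51120, nat_lit 51112] (nat_lit 0) [nat_lit 31432] false,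
   Spec.mk (nat_lit 51120) (nat_lit 0) [nat_lit 37998, nat_lit 55494, nat_lit 49662, nat_lit 50634, nat_lit 51282, nat_lit 51066, nat_lit 51138, nat_lit 51114] (nat_lit 0) [nat_lit 31438] false,
   Spec.mk (nat_lit 51138) (nat_lit 1) [nat_lit 38016, nat_lit 55512, nat_lit 49680, nat_lit 50652, nat_lit 51300, nat_lit 51084, nat_lit 51192, nat_lit 51120] (nat_lit 0) [nat_lit 31456] false,
   Spec.mk (nat_lit 51192) (nat_lit 0) [nat_lit 38070, nat_lit 55566, nat_lit 49734, nat_lit 50706, nat_lit 51354, nat_lit 51138] (nat_lit 0) [nat_lit 31510] false,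
   Spec.mk (nat_lit 51274) (nat_lit 3) [nat_lit 38152, nat_lit 55648, nat_lit 49816, nat_lit 50788, nat_lit 51760, nat_lit 51112, nat_lit 51276] (nat_lit 0) [nat_lit 31592] false,
   Spec.mk (nat_lit 51276) (nat_lit 1) [nat_lit 38154, nat_lit 55650, nat_lit 49818, nat_lit 50790, nat_lit 51762, nat_lit 51114, nat_lit 51282, nat_lit 51274] (nat_lit 0) [nat_lit 31594] false,
   Spec.mk (nat_lit 51282) (nat_lit 1) [nat_lit 38160, nat_lit 55656, nat_lit 49824, nat_lit 50796, nat_lit 51768, nat_lit 51120, nat_lit 51300, nat_lit 51276] (nat_lit 0) [nat_lit 31600] false,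
   Spec.mk (nat_lit 51300) (nat_lit 1) [nat_lit 38178, nat_lit 55674, nat_lit 49842, nat_lit 50814, nat_lit 51786, nat_lit 51138, nat_lit 51354, nat_lit 51282] (nat_lit 0) [nat_lit 31618] false,
   Spec.mk (nat_lit 51354) (nat_lit 2) [nat_lit 38232, nat_lit 55728, nat_lit 49896, nat_lit 50868, nat_lit 51840, nat_lit 51192, nat_lit 51516, nat_lit 51300] (nat_lit 0) [nat_lit 31672] false,
   Spec.mk (nat_lit 51516) (nat_lit 2) [nat_lit 38394, nat_lit 55890, nat_lit 50058, nat_lit 52002, nat_lit 51354] (nat_lit 0) [nat_lit 31834] false,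
   Spec.mk (nat_lit 51760) (nat_lit 4) [nat_lit 38638, nat_lit 56134, nat_lit 51274, nat_lit 51762] (nat_lit 0) [nat_lit 32078] false,
   Spec.mk (nat_lit 51762) (nat_lit 2) [nat_lit 38640, nat_lit 56136, nat_lit 51276, nat_lit 51768, nat_lit 51760] (nat_lit 0) [nat_lit 32080] false,
   Spec.mk (nat_lit 51768) (nat_lit 2) [nat_lit 38646, nat_lit 56142, nat_lit 51282, nat_lit 51786, nat_lit 51762] (nat_lit 0) [nat_lit 32086] false,
   Spec.mk (nat_lit 51786) (nat_lit 2) [nat_lit 38664, nat_lit 56160, nat_lit 51300, nat_lit 51840, nat_lit 51768] (nat_lit 0) [nat_lit 32104] false,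
   Spec.mk (nat_lit 51840) (nat_lit 2) [nat_lit 38718, nat_lit 56214, nat_lit 51354, nat_lit 52002, nat_lit 51786] (nat_lit 0) [nat_lit 32158] false,
   Spec.mk (nat_lit 52002) (nat_lit 4) [nat_lit 38880, nat_lit 56376, nat_lit 51516, nat_lit 51840] (nat_lit 0) [nat_lit 32320] false,
   Spec.mk (nat_lit 52496) (nat_lit 6) [nat_lit 48122, nat_lit 52502] (nat_lit 0) [] false,
   Spec.mk (nat_lit 52502) (nat_lit 5) [nat_lit 48128, nat_lit 52520, nat_lit 52496, nat_lit 52508, nat_lit 52504] (nat_lit 0) [] false,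
   Spec.mk (nat_lit 52504) (nat_lit 4) [nat_lit 48130, nat_lit 52522, nat_lit 52510, nat_lit 52502] (nat_lit 0) [nat_lit 32822] false,
   Spec.mk (nat_lit 52508) (nat_lit 2) [nat_lit 48134, nat_lit 52526, nat_lit 52502, nat_lit 52510] (nat_lit 0) [] false,
   Spec.mk (nat_lit 52510) (nat_lit 3) [nat_lit 48136, nat_lit 52528, nat_lit 52504, nat_lit 52508, nat_lit 52512] (nat_lit 0) [nat_lit 32828] false,
   Spec.mk (nat_lit 52512) (nat_lit 2) [nat_lit 48138, nat_lit 52530, nat_lit 52510] (nat_lit 0) [nat_lit 32830] false,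
   Spec.mk (nat_lit 52520) (nat_lit 4) [nat_lit 48146, nat_lit 52574, nat_lit 52502, nat_lit 52526, nat_lit 52522] (nat_lit 0) [] false,
   Spec.mk (nat_lit 52522) (nat_lit 2) [nat_lit 48148, nat_lit 52576, nat_lit 52504, nat_lit 52528, nat_lit 52520] (nat_lit 0) [nat_lit 32840] false,
   Spec.mk (nat_lit 52526) (nat_lit 3) [nat_lit 48152, nat_lit 52580, nat_lit 52508, nat_lit 52544, nat_lit 52520, nat_lit 52528] (nat_lit 0) [] false,
   Spec.mk (nat_lit 52528) (nat_lit 3) [nat_lit 48154, nat_lit 52582, nat_lit 52510, nat_lit 52546, nat_lit 52522, nat_lit 52534, nat_lit 52526, nat_lit 52530] (nat_lit 0) [nat_lit 32846] false,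
   Spec.mk (nat_lit 52530) (nat_lit 1) [nat_lit 48156, nat_lit 52584, nat_lit 52512, nat_lit 52548, nat_lit 52536, nat_lit 52528] (nat_lit 0) [nat_lit 32848] false,
   Spec.mk (nat_lit 52534) (nat_lit 2) [nat_lit 48160, nat_lit 52588, nat_lit 52552, nat_lit 52528, nat_lit 52536] (nat_lit 0) [nat_lit 32852] false,
   Spec.mk (nat_lit 52536) (nat_lit 2) [nat_lit 48162, nat_lit 52590, nat_lit 52554, nat_lit 52530, nat_lit 52534] (nat_lit 0) [nat_lit 32854] false,
   Spec.mk (nat_lit 52544) (nat_lit 2) [nat_lit 48170, nat_lit 52598, nat_lit 52526, nat_lit 52546] (nat_lit 0) [] false,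
   Spec.mk (nat_lit 52546) (nat_lit 1) [nat_lit 48172, nat_lit 52600, nat_lit 52528, nat_lit 52552, nat_lit 52544, nat_lit 52548] (nat_lit 0) [nat_lit 32864] false,
   Spec.mk (nat_lit 52548) (nat_lit 0) [nat_lit 48174, nat_lit 52602, nat_lit 52530, nat_lit 52554, nat_lit 52546] (nat_lit 2) [nat_lit 32866] false,
   Spec.mk (nat_lit 52552) (nat_lit 2) [nat_lit 48178, nat_lit 52606, nat_lit 52534, nat_lit 52546, nat_lit 52554] (nat_lit 0) [nat_lit 32870] false,
   Spec.mk (nat_lit 52554) (nat_lit 1) [nat_lit 48180, nat_lit 52608, nat_lit 52536, nat_lit 52548, nat_lit 52560, nat_lit 52552] (nat_lit 0) [nat_lit 32872] false,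
   Spec.mk (nat_lit 52560) (nat_lit 2) [nat_lit 48186, nat_lit 52614, nat_lit 52554] (nat_lit 0) [nat_lit 32878] false,
   Spec.mk (nat_lit 52574) (nat_lit 4) [nat_lit 48200, nat_lit 52736, nat_lit 52520, nat_lit 52580, nat_lit 52576] (nat_lit 0) [] false,
   Spec.mk (nat_lit 52576) (nat_lit 2) [nat_lit 48202, nat_lit 52738, nat_lit 52522, nat_lit 52582, nat_lit 52574] (nat_lit 0) [nat_lit 32894] false,
   Spec.mk (nat_lit 52580) (nat_lit 2) [nat_lit 48206, nat_lit 52742, nat_lit 52526, nat_lit 52598, nat_lit 52574, nat_lit 52582] (nat_lit 0) [] false,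
   Spec.mk (nat_lit 52582) (nat_lit 2) [nat_lit 48208, nat_lit 52744, nat_lit 52528, nat_lit 52600, nat_lit 52576, nat_lit 52588, nat_lit 52580, nat_lit 52584] (nat_lit 0) [nat_lit 32900] false,
   Spec.mk (nat_lit 52584) (nat_lit 0) [nat_lit 48210, nat_lit 52746, nat_lit 52530, nat_lit 52602, nat_lit 52590, nat_lit 52582] (nat_lit 0) [nat_lit 32902] false,
   Spec.mk (nat_lit 52588) (nat_lit 0) [nat_lit 48214, nat_lit 52750, nat_lit 52534, nat_lit 52606, nat_lit 52582, nat_lit 52590] (nat_lit 0) [nat_lit 32906] false,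
   Spec.mk (nat_lit 52590) (nat_lit 0) [nat_lit 48216, nat_lit 52752, nat_lit 52536, nat_lit 52608, nat_lit 52584, nat_lit 52588] (nat_lit 0) [nat_lit 32908] false,
   Spec.mk (nat_lit 52598) (nat_lit 3) [nat_lit 48224, nat_lit 52760, nat_lit 52544, nat_lit 52652, nat_lit 52580, nat_lit 52600] (nat_lit 0) [] false,
   Spec.mk (nat_lit 52600) (nat_lit 2) [nat_lit 48226, nat_lit 52762, nat_lit 52546, nat_lit 52654, nat_lit 52582, nat_lit 52606, nat_lit 52598, nat_lit 52602] (nat_lit 0) [nat_lit 32918] false,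
   Spec.mk (nat_lit 52602) (nat_lit 0) [nat_lit 48228, nat_lit 52764, nat_lit 52548, nat_lit 52656, nat_lit 52584, nat_lit 52608, nat_lit 52600] (nat_lit 1) [nat_lit 32920] false,
   Spec.mk (nat_lit 52606) (nat_lit 2) [nat_lit 48232, nat_lit 52768, nat_lit 52552, nat_lit 52660, nat_lit 52588, nat_lit 52624, nat_lit 52600, nat_lit 52608] (nat_lit 0) [nat_lit 32924] false,
   Spec.mk (nat_lit 52608) (nat_lit 1) [nat_lit 48234, nat_lit 52770, nat_lit 52554, nat_lit 52662, nat_lit 52590, nat_lit 52626, nat_lit 52602, nat_lit 52614, nat_lit 52606] (nat_lit 0) [nat_lit 32926] false,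
   Spec.mk (nat_lit 52614) (nat_lit 1) [nat_lit 48240, nat_lit 52776, nat_lit 52560, nat_lit 52668, nat_lit 52632, nat_lit 52608] (nat_lit 0) [nat_lit 32932] false,
   Spec.mk (nat_lit 52624) (nat_lit 2) [nat_lit 48250, nat_lit 52786, nat_lit 52678, nat_lit 52606, nat_lit 52626] (nat_lit 0) [nat_lit 32942] false,
   Spec.mk (nat_lit 52626) (nat_lit 0) [nat_lit 48252, nat_lit 52788, nat_lit 52680, nat_lit 52608, nat_lit 52632, nat_lit 52624] (nat_lit 0) [nat_lit 32944] false,
   Spec.mk (nat_lit 52632) (nat_lit 2) [nat_lit 48258, nat_lit 52794, nat_lit 52686, nat_lit 52614, nat_lit 52626] (nat_lit 0) [nat_lit 32950] false,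
   Spec.mk (nat_lit 52652) (nat_lit 2) [nat_lit 48278, nat_lit 52814, nat_lit 52598, nat_lit 52654] (nat_lit 0) [] false,
   Spec.mk (nat_lit 52654) (nat_lit 1) [nat_lit 48280, nat_lit 52816, nat_lit 52600, nat_lit 52660, nat_lit 52652, nat_lit 52656] (nat_lit 0) [nat_lit 32972] false,
   Spec.mk (nat_lit 52656) (nat_lit 0) [nat_lit 48282, nat_lit 52818, nat_lit 52602, nat_lit 52662, nat_lit 52654] (nat_lit 2) [nat_lit 32974] false,
   Spec.mk (nat_lit 52660) (nat_lit 0) [nat_lit 48286, nat_lit 52822, nat_lit 52606, nat_lit 52678, nat_lit 52654, nat_lit 52662] (nat_lit 0) [nat_lit 32978] false,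
   Spec.mk (nat_lit 52662) (nat_lit 0) [nat_lit 48288, nat_lit 52824, nat_lit 52608, nat_lit 52680, nat_lit 52656, nat_lit 52668, nat_lit 52660] (nat_lit 1) [nat_lit 32980] false,
   Spec.mk (nat_lit 52668) (nat_lit 0) [nat_lit 48294, nat_lit 52830, nat_lit 52614, nat_lit 52686, nat_lit 52662] (nat_lit 2) [nat_lit 32986] false]

noncomputable def sp109 : List Spec :=
  [Spec.mk (nat_lit 52678) (nat_lit 2) [nat_lit 48304, nat_lit 52840, nat_lit 52624, nat_lit 52660, nat_lit 52680] (nat_lit 0) [nat_lit 32996] false,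
   Spec.mk (nat_lit 52680) (nat_lit 0) [nat_lit 48306, nat_lit 52842, nat_lit 52626, nat_lit 52662, nat_lit 52686, nat_lit 52678] (nat_lit 0) [nat_lit 32998] false,
   Spec.mk (nat_lit 52686) (nat_lit 1) [nat_lit 48312, nat_lit 52848, nat_lit 52632, nat_lit 52668, nat_lit 52704, nat_lit 52680] (nat_lit 0) [nat_lit 33004] false,
   Spec.mk (nat_lit 52704) (nat_lit 2) [nat_lit 48330, nat_lit 52866, nat_lit 52686] (nat_lit 0) [nat_lit 33022] false,
   Spec.mk (nat_lit 52736) (nat_lit 4) [nat_lit 48362, nat_lit 53222, nat_lit 52574, nat_lit 52742, nat_lit 52738] (nat_lit 0) [] false,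
   Spec.mk (nat_lit 52738) (nat_lit 2) [nat_lit 48364, nat_lit 53224, nat_lit 52576, nat_lit 52744, nat_lit 52736] (nat_lit 0) [nat_lit 33056] false,
   Spec.mk (nat_lit 52742) (nat_lit 2) [nat_lit 48368, nat_lit 53228, nat_lit 52580, nat_lit 52760, nat_lit 52736, nat_lit 52744] (nat_lit 0) [] false,
   Spec.mk (nat_lit 52744) (nat_lit 2) [nat_lit 48370, nat_lit 53230, nat_lit 52582, nat_lit 52762, nat_lit 52738, nat_lit 52750, nat_lit 52742, nat_lit 52746] (nat_lit 0) [nat_lit 33062] false,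
   Spec.mk (nat_lit 52746) (nat_lit 0) [nat_lit 48372, nat_lit 53232, nat_lit 52584, nat_lit 52764, nat_lit 52752, nat_lit 52744] (nat_lit 0) [nat_lit 33064] false,
   Spec.mk (nat_lit 52750) (nat_lit 0) [nat_lit 48376, nat_lit 53236, nat_lit 52588, nat_lit 52768, nat_lit 52744, nat_lit 52752] (nat_lit 0) [nat_lit 33068] false,
   Spec.mk (nat_lit 52752) (nat_lit 0) [nat_lit 48378, nat_lit 53238, nat_lit 52590, nat_lit 52770, nat_lit 52746, nat_lit 52750] (nat_lit 0) [nat_lit 33070] false,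
   Spec.mk (nat_lit 52760) (nat_lit 2) [nat_lit 48386, nat_lit 53246, nat_lit 52598, nat_lit 52814, nat_lit 52742, nat_lit 52762] (nat_lit 0) [] false,
   Spec.mk (nat_lit 52762) (nat_lit 1) [nat_lit 48388, nat_lit 53248, nat_lit 52600, nat_lit 52816, nat_lit 52744, nat_lit 52768, nat_lit 52760, nat_lit 52764] (nat_lit 0) [nat_lit 33080] false,
   Spec.mk (nat_lit 52764) (nat_lit 0) [nat_lit 48390, nat_lit 53250, nat_lit 52602, nat_lit 52818, nat_lit 52746, nat_lit 52770, nat_lit 52762] (nat_lit 2) [nat_lit 33082] false,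
   Spec.mk (nat_lit 52768) (nat_lit 1) [nat_lit 48394, nat_lit 53254, nat_lit 52606, nat_lit 52822, nat_lit 52750, nat_lit 52786, nat_lit 52762, nat_lit 52770] (nat_lit 0) [nat_lit 33086] false,
   Spec.mk (nat_lit 52770) (nat_lit 0) [nat_lit 48396, nat_lit 53256, nat_lit 52608, nat_lit 52824, nat_lit 52752, nat_lit 52788, nat_lit 52764, nat_lit 52776, nat_lit 52768] (nat_lit 0) [nat_lit 33088] false,
   Spec.mk (nat_lit 52776) (nat_lit 0) [nat_lit 48402, nat_lit 53262, nat_lit 52614, nat_lit 52830, nat_lit 52794, nat_lit 52770] (nat_lit 0) [nat_lit 33094] false,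
   Spec.mk (nat_lit 52786) (nat_lit 0) [nat_lit 48412, nat_lit 53272, nat_lit 52624, nat_lit 52840, nat_lit 52768, nat_lit 52788] (nat_lit 0) [nat_lit 33104] false,
   Spec.mk (nat_lit 52788) (nat_lit 0) [nat_lit 48414, nat_lit 53274, nat_lit 52626, nat_lit 52842, nat_lit 52770, nat_lit 52794, nat_lit 52786] (nat_lit 2) [nat_lit 33106] false,
   Spec.mk (nat_lit 52794) (nat_lit 0) [nat_lit 48420, nat_lit 53280, nat_lit 52632, nat_lit 52848, nat_lit 52776, nat_lit 52788] (nat_lit 0) [nat_lit 33112] false,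
   Spec.mk (nat_lit 52814) (nat_lit 3) [nat_lit 48440, nat_lit 53300, nat_lit 52652, nat_lit 52976, nat_lit 52760, nat_lit 52816] (nat_lit 0) [] false,
   Spec.mk (nat_lit 52816) (nat_lit 2) [nat_lit 48442, nat_lit 53302, nat_lit 52654, nat_lit 52978, nat_lit 52762, nat_lit 52822, nat_lit 52814, nat_lit 52818] (nat_lit 0) [nat_lit 33134] false,
   Spec.mk (nat_lit 52818) (nat_lit 0) [nat_lit 48444, nat_lit 53304, nat_lit 52656, nat_lit 52980, nat_lit 52764, nat_lit 52824, nat_lit 52816] (nat_lit 1) [nat_lit 33136] false,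
   Spec.mk (nat_lit 52822) (nat_lit 1) [nat_lit 48448, nat_lit 53308, nat_lit 52660, nat_lit 52984, nat_lit 52768, nat_lit 52840, nat_lit 52816, nat_lit 52824] (nat_lit 0) [nat_lit 33140] false,
   Spec.mk (nat_lit 52824) (nat_lit 0) [nat_lit 48450, nat_lit 53310, nat_lit 52662, nat_lit 52986, nat_lit 52770, nat_lit 52842, nat_lit 52818, nat_lit 52830, nat_lit 52822] (nat_lit 0) [nat_lit 33142] false,
   Spec.mk (nat_lit 52830) (nat_lit 0) [nat_lit 48456, nat_lit 53316, nat_lit 52668, nat_lit 52992, nat_lit 52776, nat_lit 52848, nat_lit 52824] (nat_lit 1) [nat_lit 33148] false,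
   Spec.mk (nat_lit 52840) (nat_lit 2) [nat_lit 48466, nat_lit 53326, nat_lit 52678, nat_lit 53002, nat_lit 52786, nat_lit 52894, nat_lit 52822, nat_lit 52842] (nat_lit 0) [nat_lit 33158] false,
   Spec.mk (nat_lit 52842) (nat_lit 0) [nat_lit 48468, nat_lit 53328, nat_lit 52680, nat_lit 53004, nat_lit 52788, nat_lit 52896, nat_lit 52824, nat_lit 52848, nat_lit 52840] (nat_lit 0) [nat_lit 33160] false,
   Spec.mk (nat_lit 52848) (nat_lit 1) [nat_lit 48474, nat_lit 53334, nat_lit 52686, nat_lit 53010, nat_lit 52794, nat_lit 52902, nat_lit 52830, nat_lit 52866, nat_lit 52842] (nat_lit 0) [nat_lit 33166] false,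
   Spec.mk (nat_lit 52866) (nat_lit 1) [nat_lit 48492, nat_lit 53352, nat_lit 52704, nat_lit 53028, nat_lit 52920, nat_lit 52848] (nat_lit 0) [nat_lit 33184] false,
   Spec.mk (nat_lit 52894) (nat_lit 2) [nat_lit 48520, nat_lit 53380, nat_lit 53056, nat_lit 52840, nat_lit 52896] (nat_lit 0) [nat_lit 33212] false,
   Spec.mk (nat_lit 52896) (nat_lit 0) [nat_lit 48522, nat_lit 53382, nat_lit 53058, nat_lit 52842, nat_lit 52902, nat_lit 52894] (nat_lit 0) [nat_lit 33214] false,
   Spec.mk (nat_lit 52902) (nat_lit 0) [nat_lit 48528, nat_lit 53388, nat_lit 53064, nat_lit 52848, nat_lit 52920, nat_lit 52896] (nat_lit 0) [nat_lit 33220] false,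
   Spec.mk (nat_lit 52920) (nat_lit 2) [nat_lit 48546, nat_lit 53406, nat_lit 53082, nat_lit 52866, nat_lit 52902] (nat_lit 0) [nat_lit 33238] false,
   Spec.mk (nat_lit 52976) (nat_lit 2) [nat_lit 48602, nat_lit 53462, nat_lit 52814, nat_lit 52978] (nat_lit 0) [] false,
   Spec.mk (nat_lit 52978) (nat_lit 1) [nat_lit 48604, nat_lit 53464, nat_lit 52816, nat_lit 52984, nat_lit 52976, nat_lit 52980] (nat_lit 0) [nat_lit 33296] false,
   Spec.mk (nat_lit 52980) (nat_lit 0) [nat_lit 48606, nat_lit 53466, nat_lit 52818, nat_lit 52986, nat_lit 52978] (nat_lit 2) [nat_lit 33298] false,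
   Spec.mk (nat_lit 52984) (nat_lit 0) [nat_lit 48610, nat_lit 53470, nat_lit 52822, nat_lit 53002, nat_lit 52978, nat_lit 52986] (nat_lit 0) [nat_lit 33302] false,
   Spec.mk (nat_lit 52986) (nat_lit 0) [nat_lit 48612, nat_lit 53472, nat_lit 52824, nat_lit 53004, nat_lit 52980, nat_lit 52992, nat_lit 52984] (nat_lit 1) [nat_lit 33304] false,
   Spec.mk (nat_lit 52992) (nat_lit 0) [nat_lit 48618, nat_lit 53478, nat_lit 52830, nat_lit 53010, nat_lit 52986] (nat_lit 2) [nat_lit 33310] false,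
   Spec.mk (nat_lit 53002) (nat_lit 0) [nat_lit 48628, nat_lit 53488, nat_lit 52840, nat_lit 53056, nat_lit 52984, nat_lit 53004] (nat_lit 0) [nat_lit 33320] false,
   Spec.mk (nat_lit 53004) (nat_lit 0) [nat_lit 48630, nat_lit 53490, nat_lit 52842, nat_lit 53058, nat_lit 52986, nat_lit 53010, nat_lit 53002] (nat_lit 2) [nat_lit 33322] false,
   Spec.mk (nat_lit 53010) (nat_lit 0) [nat_lit 48636, nat_lit 53496, nat_lit 52848, nat_lit 53064, nat_lit 52992, nat_lit 53028, nat_lit 53004] (nat_lit 1) [nat_lit 33328] false,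
   Spec.mk (nat_lit 53028) (nat_lit 0) [nat_lit 48654, nat_lit 53514, nat_lit 52866, nat_lit 53082, nat_lit 53010] (nat_lit 2) [nat_lit 33346] false,
   Spec.mk (nat_lit 53056) (nat_lit 2) [nat_lit 48682, nat_lit 53542, nat_lit 52894, nat_lit 53002, nat_lit 53058] (nat_lit 0) [nat_lit 33374] false,
   Spec.mk (nat_lit 53058) (nat_lit 0) [nat_lit 48684, nat_lit 53544, nat_lit 52896, nat_lit 53004, nat_lit 53064, nat_lit 53056] (nat_lit 0) [nat_lit 33376] false,
   Spec.mk (nat_lit 53064) (nat_lit 0) [nat_lit 48690, nat_lit 53550, nat_lit 52902, nat_lit 53010, nat_lit 53082, nat_lit 53058] (nat_lit 0) [nat_lit 33382] false,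
   Spec.mk (nat_lit 53082) (nat_lit 1) [nat_lit 48708, nat_lit 53568, nat_lit 52920, nat_lit 53028, nat_lit 53136, nat_lit 53064] (nat_lit 0) [nat_lit 33400] false,
   Spec.mk (nat_lit 53136) (nat_lit 2) [nat_lit 48762, nat_lit 53622, nat_lit 53082] (nat_lit 0) [nat_lit 33454] false,
   Spec.mk (nat_lit 53222) (nat_lit 4) [nat_lit 48848, nat_lit 54680, nat_lit 52736, nat_lit 53228, nat_lit 53224] (nat_lit 0) [] false,
   Spec.mk (nat_lit 53224) (nat_lit 2) [nat_lit 48850, nat_lit 54682, nat_lit 52738, nat_lit 53230, nat_lit 53222] (nat_lit 0) [nat_lit 33542] false,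
   Spec.mk (nat_lit 53228) (nat_lit 2) [nat_lit 48854, nat_lit 54686, nat_lit 52742, nat_lit 53246, nat_lit 53222, nat_lit 53230] (nat_lit 0) [] false,
   Spec.mk (nat_lit 53230) (nat_lit 2) [nat_lit 48856, nat_lit 54688, nat_lit 52744, nat_lit 53248, nat_lit 53224, nat_lit 53236, nat_lit 53228, nat_lit 53232] (nat_lit 0) [nat_lit 33548] false,
   Spec.mk (nat_lit 53232) (nat_lit 0) [nat_lit 48858, nat_lit 54690, nat_lit 52746, nat_lit 53250, nat_lit 53238, nat_lit 53230] (nat_lit 0) [nat_lit 33550] false,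
   Spec.mk (nat_lit 53236) (nat_lit 0) [nat_lit 48862, nat_lit 54694, nat_lit 52750, nat_lit 53254, nat_lit 53230, nat_lit 53238] (nat_lit 0) [nat_lit 33554] false,
   Spec.mk (nat_lit 53238) (nat_lit 0) [nat_lit 48864, nat_lit 54696, nat_lit 52752, nat_lit 53256, nat_lit 53232, nat_lit 53236] (nat_lit 0) [nat_lit 33556] false,
   Spec.mk (nat_lit 53246) (nat_lit 2) [nat_lit 48872, nat_lit 54704, nat_lit 52760, nat_lit 53300, nat_lit 53228, nat_lit 53248] (nat_lit 0) [] false,
   Spec.mk (nat_lit 53248) (nat_lit 1) [nat_lit 48874, nat_lit 54706, nat_lit 52762, nat_lit 53302, nat_lit 53230, nat_lit 53254, nat_lit 53246, nat_lit 53250] (nat_lit 0) [nat_lit 33566] false,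
   Spec.mk (nat_lit 53250) (nat_lit 0) [nat_lit 48876, nat_lit 54708, nat_lit 52764, nat_lit 53304, nat_lit 53232, nat_lit 53256, nat_lit 53248] (nat_lit 2) [nat_lit 33568] false,
   Spec.mk (nat_lit 53254) (nat_lit 1) [nat_lit 48880, nat_lit 54712, nat_lit 52768, nat_lit 53308, nat_lit 53236, nat_lit 53272, nat_lit 53248, nat_lit 53256] (nat_lit 0) [nat_lit 33572] false]

noncomputable def sp110 : List Spec :=
  [Spec.mk (nat_lit 53256) (nat_lit 0) [nat_lit 48882, nat_lit 54714, nat_lit 52770, nat_lit 53310, nat_lit 53238, nat_lit 53274, nat_lit 53250, nat_lit 53262, nat_lit 53254] (nat_lit 0) [nat_lit 33574] false,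
   Spec.mk (nat_lit 53262) (nat_lit 0) [nat_lit 48888, nat_lit 54720, nat_lit 52776, nat_lit 53316, nat_lit 53280, nat_lit 53256] (nat_lit 0) [nat_lit 33580] false,
   Spec.mk (nat_lit 53272) (nat_lit 0) [nat_lit 48898, nat_lit 54730, nat_lit 52786, nat_lit 53326, nat_lit 53254, nat_lit 53274] (nat_lit 0) [nat_lit 33590] false,
   Spec.mk (nat_lit 53274) (nat_lit 0) [nat_lit 48900, nat_lit 54732, nat_lit 52788, nat_lit 53328, nat_lit 53256, nat_lit 53280, nat_lit 53272] (nat_lit 2) [nat_lit 33592] false,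
   Spec.mk (nat_lit 53280) (nat_lit 0) [nat_lit 48906, nat_lit 54738, nat_lit 52794, nat_lit 53334, nat_lit 53262, nat_lit 53274] (nat_lit 0) [nat_lit 33598] false,
   Spec.mk (nat_lit 53300) (nat_lit 2) [nat_lit 48926, nat_lit 54758, nat_lit 52814, nat_lit 53462, nat_lit 53246, nat_lit 53302] (nat_lit 0) [] false,
   Spec.mk (nat_lit 53302) (nat_lit 1) [nat_lit 48928, nat_lit 54760, nat_lit 52816, nat_lit 53464, nat_lit 53248, nat_lit 53308, nat_lit 53300, nat_lit 53304] (nat_lit 0) [nat_lit 33620] false,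
   Spec.mk (nat_lit 53304) (nat_lit 0) [nat_lit 48930, nat_lit 54762, nat_lit 52818, nat_lit 53466, nat_lit 53250, nat_lit 53310, nat_lit 53302] (nat_lit 2) [nat_lit 33622] false,
   Spec.mk (nat_lit 53308) (nat_lit 0) [nat_lit 48934, nat_lit 54766, nat_lit 52822, nat_lit 53470, nat_lit 53254, nat_lit 53326, nat_lit 53302, nat_lit 53310] (nat_lit 0) [nat_lit 33626] false,
   Spec.mk (nat_lit 53310) (nat_lit 0) [nat_lit 48936, nat_lit 54768, nat_lit 52824, nat_lit 53472, nat_lit 53256, nat_lit 53328, nat_lit 53304, nat_lit 53316, nat_lit 53308] (nat_lit 1) [nat_lit 33628] false,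
   Spec.mk (nat_lit 53316) (nat_lit 0) [nat_lit 48942, nat_lit 54774, nat_lit 52830, nat_lit 53478, nat_lit 53262, nat_lit 53334, nat_lit 53310] (nat_lit 2) [nat_lit 33634] false,
   Spec.mk (nat_lit 53326) (nat_lit 1) [nat_lit 48952, nat_lit 54784, nat_lit 52840, nat_lit 53488, nat_lit 53272, nat_lit 53380, nat_lit 53308, nat_lit 53328] (nat_lit 0) [nat_lit 33644] false,
   Spec.mk (nat_lit 53328) (nat_lit 0) [nat_lit 48954, nat_lit 54786, nat_lit 52842, nat_lit 53490, nat_lit 53274, nat_lit 53382, nat_lit 53310, nat_lit 53334, nat_lit 53326] (nat_lit 1) [nat_lit 33646] false,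
   Spec.mk (nat_lit 53334) (nat_lit 0) [nat_lit 48960, nat_lit 54792, nat_lit 52848, nat_lit 53496, nat_lit 53280, nat_lit 53388, nat_lit 53316, nat_lit 53352, nat_lit 53328] (nat_lit 0) [nat_lit 33652] false,
   Spec.mk (nat_lit 53352) (nat_lit 0) [nat_lit 48978, nat_lit 54810, nat_lit 52866, nat_lit 53514, nat_lit 53406, nat_lit 53334] (nat_lit 0) [nat_lit 33670] false,
   Spec.mk (nat_lit 53380) (nat_lit 0) [nat_lit 49006, nat_lit 54838, nat_lit 52894, nat_lit 53542, nat_lit 53326, nat_lit 53382] (nat_lit 0) [nat_lit 33698] false,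
   Spec.mk (nat_lit 53382) (nat_lit 0) [nat_lit 49008, nat_lit 54840, nat_lit 52896, nat_lit 53544, nat_lit 53328, nat_lit 53388, nat_lit 53380] (nat_lit 2) [nat_lit 33700] false,
   Spec.mk (nat_lit 53388) (nat_lit 0) [nat_lit 49014, nat_lit 54846, nat_lit 52902, nat_lit 53550, nat_lit 53334, nat_lit 53406, nat_lit 53382] (nat_lit 2) [nat_lit 33706] false,
   Spec.mk (nat_lit 53406) (nat_lit 0) [nat_lit 49032, nat_lit 54864, nat_lit 52920, nat_lit 53568, nat_lit 53352, nat_lit 53388] (nat_lit 0) [nat_lit 33724] false,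
   Spec.mk (nat_lit 53462) (nat_lit 3) [nat_lit 49088, nat_lit 54920, nat_lit 52976, nat_lit 53948, nat_lit 53300, nat_lit 53464] (nat_lit 0) [] false,
   Spec.mk (nat_lit 53464) (nat_lit 2) [nat_lit 49090, nat_lit 54922, nat_lit 52978, nat_lit 53950, nat_lit 53302, nat_lit 53470, nat_lit 53462, nat_lit 53466] (nat_lit 0) [nat_lit 33782] false,
   Spec.mk (nat_lit 53466) (nat_lit 0) [nat_lit 49092, nat_lit 54924, nat_lit 52980, nat_lit 53952, nat_lit 53304, nat_lit 53472, nat_lit 53464] (nat_lit 1) [nat_lit 33784] false,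
   Spec.mk (nat_lit 53470) (nat_lit 1) [nat_lit 49096, nat_lit 54928, nat_lit 52984, nat_lit 53956, nat_lit 53308, nat_lit 53488, nat_lit 53464, nat_lit 53472] (nat_lit 0) [nat_lit 33788] false,
   Spec.mk (nat_lit 53472) (nat_lit 0) [nat_lit 49098, nat_lit 54930, nat_lit 52986, nat_lit 53958, nat_lit 53310, nat_lit 53490, nat_lit 53466, nat_lit 53478, nat_lit 53470] (nat_lit 0) [nat_lit 33790] false,
   Spec.mk (nat_lit 53478) (nat_lit 0) [nat_lit 49104, nat_lit 54936, nat_lit 52992, nat_lit 53964, nat_lit 53316, nat_lit 53496, nat_lit 53472] (nat_lit 1) [nat_lit 33796] false,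
   Spec.mk (nat_lit 53488) (nat_lit 1) [nat_lit 49114, nat_lit 54946, nat_lit 53002, nat_lit 53974, nat_lit 53326, nat_lit 53542, nat_lit 53470, nat_lit 53490] (nat_lit 0) [nat_lit 33806] false,
   Spec.mk (nat_lit 53490) (nat_lit 0) [nat_lit 49116, nat_lit 54948, nat_lit 53004, nat_lit 53976, nat_lit 53328, nat_lit 53544, nat_lit 53472, nat_lit 53496, nat_lit 53488] (nat_lit 1) [nat_lit 33808] false,
   Spec.mk (nat_lit 53496) (nat_lit 0) [nat_lit 49122, nat_lit 54954, nat_lit 53010, nat_lit 53982, nat_lit 53334, nat_lit 53550, nat_lit 53478, nat_lit 53514, nat_lit 53490] (nat_lit 0) [nat_lit 33814] false,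
   Spec.mk (nat_lit 53514) (nat_lit 0) [nat_lit 49140, nat_lit 54972, nat_lit 53028, nat_lit 54000, nat_lit 53352, nat_lit 53568, nat_lit 53496] (nat_lit 1) [nat_lit 33832] false,
   Spec.mk (nat_lit 53542) (nat_lit 2) [nat_lit 49168, nat_lit 55000, nat_lit 53056, nat_lit 54028, nat_lit 53380, nat_lit 53704, nat_lit 53488, nat_lit 53544] (nat_lit 0) [nat_lit 33860] false,
   Spec.mk (nat_lit 53544) (nat_lit 0) [nat_lit 49170, nat_lit 55002, nat_lit 53058, nat_lit 54030, nat_lit 53382, nat_lit 53706, nat_lit 53490, nat_lit 53550, nat_lit 53542] (nat_lit 0) [nat_lit 33862] false,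
   Spec.mk (nat_lit 53550) (nat_lit 0) [nat_lit 49176, nat_lit 55008, nat_lit 53064, nat_lit 54036, nat_lit 53388, nat_lit 53712, nat_lit 53496, nat_lit 53568, nat_lit 53544] (nat_lit 0) [nat_lit 33868] false,
   Spec.mk (nat_lit 53568) (nat_lit 1) [nat_lit 49194, nat_lit 55026, nat_lit 53082, nat_lit 54054, nat_lit 53406, nat_lit 53730, nat_lit 53514, nat_lit 53622, nat_lit 53550] (nat_lit 0) [nat_lit 33886] false,
   Spec.mk (nat_lit 53622) (nat_lit 1) [nat_lit 49248, nat_lit 55080, nat_lit 53136, nat_lit 54108, nat_lit 53784, nat_lit 53568] (nat_lit 0) [nat_lit 33940] false,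
   Spec.mk (nat_lit 53704) (nat_lit 2) [nat_lit 49330, nat_lit 55162, nat_lit 54190, nat_lit 53542, nat_lit 53706] (nat_lit 0) [nat_lit 34022] false,
   Spec.mk (nat_lit 53706) (nat_lit 0) [nat_lit 49332, nat_lit 55164, nat_lit 54192, nat_lit 53544, nat_lit 53712, nat_lit 53704] (nat_lit 0) [nat_lit 34024] false,
   Spec.mk (nat_lit 53712) (nat_lit 0) [nat_lit 49338, nat_lit 55170, nat_lit 54198, nat_lit 53550, nat_lit 53730, nat_lit 53706] (nat_lit 0) [nat_lit 34030] false,
   Spec.mk (nat_lit 53730) (nat_lit 0) [nat_lit 49356, nat_lit 55188, nat_lit 54216, nat_lit 53568, nat_lit 53784, nat_lit 53712] (nat_lit 0) [nat_lit 34048] false,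
   Spec.mk (nat_lit 53784) (nat_lit 2) [nat_lit 49410, nat_lit 55242, nat_lit 54270, nat_lit 53622, nat_lit 53730] (nat_lit 0) [nat_lit 34102] false,
   Spec.mk (nat_lit 53948) (nat_lit 2) [nat_lit 49574, nat_lit 55406, nat_lit 53462, nat_lit 53950] (nat_lit 0) [] false,
   Spec.mk (nat_lit 53950) (nat_lit 1) [nat_lit 49576, nat_lit 55408, nat_lit 53464, nat_lit 53956, nat_lit 53948, nat_lit 53952] (nat_lit 0) [nat_lit 34268] false,
   Spec.mk (nat_lit 53952) (nat_lit 0) [nat_lit 49578, nat_lit 55410, nat_lit 53466, nat_lit 53958, nat_lit 53950] (nat_lit 2) [nat_lit 34270] false,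
   Spec.mk (nat_lit 53956) (nat_lit 0) [nat_lit 49582, nat_lit 55414, nat_lit 53470, nat_lit 53974, nat_lit 53950, nat_lit 53958] (nat_lit 0) [nat_lit 34274] false,
   Spec.mk (nat_lit 53958) (nat_lit 0) [nat_lit 49584, nat_lit 55416, nat_lit 53472, nat_lit 53976, nat_lit 53952, nat_lit 53964, nat_lit 53956] (nat_lit 1) [nat_lit 34276] false,
   Spec.mk (nat_lit 53964) (nat_lit 0) [nat_lit 49590, nat_lit 55422, nat_lit 53478, nat_lit 53982, nat_lit 53958] (nat_lit 2) [nat_lit 34282] false,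
   Spec.mk (nat_lit 53974) (nat_lit 0) [nat_lit 49600, nat_lit 55432, nat_lit 53488, nat_lit 54028, nat_lit 53956, nat_lit 53976] (nat_lit 0) [nat_lit 34292] false,
   Spec.mk (nat_lit 53976) (nat_lit 0) [nat_lit 49602, nat_lit 55434, nat_lit 53490, nat_lit 54030, nat_lit 53958, nat_lit 53982, nat_lit 53974] (nat_lit 2) [nat_lit 34294] false,
   Spec.mk (nat_lit 53982) (nat_lit 0) [nat_lit 49608, nat_lit 55440, nat_lit 53496, nat_lit 54036, nat_lit 53964, nat_lit 54000, nat_lit 53976] (nat_lit 1) [nat_lit 34300] false,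
   Spec.mk (nat_lit 54000) (nat_lit 0) [nat_lit 49626, nat_lit 55458, nat_lit 53514, nat_lit 54054, nat_lit 53982] (nat_lit 2) [nat_lit 34318] false,
   Spec.mk (nat_lit 54028) (nat_lit 0) [nat_lit 49654, nat_lit 55486, nat_lit 53542, nat_lit 54190, nat_lit 53974, nat_lit 54030] (nat_lit 0) [nat_lit 34346] false,
   Spec.mk (nat_lit 54030) (nat_lit 0) [nat_lit 49656, nat_lit 55488, nat_lit 53544, nat_lit 54192, nat_lit 53976, nat_lit 54036, nat_lit 54028] (nat_lit 2) [nat_lit 34348] false,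
   Spec.mk (nat_lit 54036) (nat_lit 0) [nat_lit 49662, nat_lit 55494, nat_lit 53550, nat_lit 54198, nat_lit 53982, nat_lit 54054, nat_lit 54030] (nat_lit 2) [nat_lit 34354] false,
   Spec.mk (nat_lit 54054) (nat_lit 0) [nat_lit 49680, nat_lit 55512, nat_lit 53568, nat_lit 54216, nat_lit 54000, nat_lit 54108, nat_lit 54036] (nat_lit 1) [nat_lit 34372] false,
   Spec.mk (nat_lit 54108) (nat_lit 0) [nat_lit 49734, nat_lit 55566, nat_lit 53622, nat_lit 54270, nat_lit 54054] (nat_lit 2) [nat_lit 34426] false,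
   Spec.mk (nat_lit 54190) (nat_lit 2) [nat_lit 49816, nat_lit 55648, nat_lit 53704, nat_lit 54028, nat_lit 54192] (nat_lit 0) [nat_lit 34508] false,
   Spec.mk (nat_lit 54192) (nat_lit 0) [nat_lit 49818, nat_lit 55650, nat_lit 53706, nat_lit 54030, nat_lit 54198, nat_lit 54190] (nat_lit 0) [nat_lit 34510] false,
   Spec.mk (nat_lit 54198) (nat_lit 0) [nat_lit 49824, nat_lit 55656, nat_lit 53712, nat_lit 54036, nat_lit 54216, nat_lit 54192] (nat_lit 0) [nat_lit 34516] false,
   Spec.mk (nat_lit 54216) (nat_lit 0) [nat_lit 49842, nat_lit 55674, nat_lit 53730, nat_lit 54054, nat_lit 54270, nat_lit 54198] (nat_lit 0) [nat_lit 34534] false,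
   Spec.mk (nat_lit 54270) (nat_lit 1) [nat_lit 49896, nat_lit 55728, nat_lit 53784, nat_lit 54108, nat_lit 54432, nat_lit 54216] (nat_lit 0) [nat_lit 34588] false,
   Spec.mk (nat_lit 54432) (nat_lit 2) [nat_lit 50058, nat_lit 55890, nat_lit 54270] (nat_lit 0) [nat_lit 34750] false]

noncomputable def sp111 : List Spec :=
  [Spec.mk (nat_lit 54680) (nat_lit 6) [nat_lit 50306, nat_lit 53222, nat_lit 54686, nat_lit 54682] (nat_lit 0) [] false,
   Spec.mk (nat_lit 54682) (nat_lit 4) [nat_lit 50308, nat_lit 53224, nat_lit 54688, nat_lit 54680] (nat_lit 0) [nat_lit 35000] false,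
   Spec.mk (nat_lit 54686) (nat_lit 4) [nat_lit 50312, nat_lit 53228, nat_lit 54704, nat_lit 54680, nat_lit 54688] (nat_lit 0) [] false,
   Spec.mk (nat_lit 54688) (nat_lit 4) [nat_lit 50314, nat_lit 53230, nat_lit 54706, nat_lit 54682, nat_lit 54694, nat_lit 54686, nat_lit 54690] (nat_lit 0) [nat_lit 35006] false,
   Spec.mk (nat_lit 54690) (nat_lit 2) [nat_lit 50316, nat_lit 53232, nat_lit 54708, nat_lit 54696, nat_lit 54688] (nat_lit 0) [nat_lit 35008] false,
   Spec.mk (nat_lit 54694) (nat_lit 2) [nat_lit 50320, nat_lit 53236, nat_lit 54712, nat_lit 54688, nat_lit 54696] (nat_lit 0) [nat_lit 35012] false,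
   Spec.mk (nat_lit 54696) (nat_lit 2) [nat_lit 50322, nat_lit 53238, nat_lit 54714, nat_lit 54690, nat_lit 54694] (nat_lit 0) [nat_lit 35014] false,
   Spec.mk (nat_lit 54704) (nat_lit 4) [nat_lit 50330, nat_lit 53246, nat_lit 54758, nat_lit 54686, nat_lit 54706] (nat_lit 0) [] false,
   Spec.mk (nat_lit 54706) (nat_lit 3) [nat_lit 50332, nat_lit 53248, nat_lit 54760, nat_lit 54688, nat_lit 54712, nat_lit 54704, nat_lit 54708] (nat_lit 0) [nat_lit 35024] false,
   Spec.mk (nat_lit 54708) (nat_lit 0) [nat_lit 50334, nat_lit 53250, nat_lit 54762, nat_lit 54690, nat_lit 54714, nat_lit 54706] (nat_lit 0) [nat_lit 35026] false,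
   Spec.mk (nat_lit 54712) (nat_lit 3) [nat_lit 50338, nat_lit 53254, nat_lit 54766, nat_lit 54694, nat_lit 54730, nat_lit 54706, nat_lit 54714] (nat_lit 0) [nat_lit 35030] false,
   Spec.mk (nat_lit 54714) (nat_lit 2) [nat_lit 50340, nat_lit 53256, nat_lit 54768, nat_lit 54696, nat_lit 54732, nat_lit 54708, nat_lit 54720, nat_lit 54712] (nat_lit 0) [nat_lit 35032] false,
   Spec.mk (nat_lit 54720) (nat_lit 2) [nat_lit 50346, nat_lit 53262, nat_lit 54774, nat_lit 54738, nat_lit 54714] (nat_lit 0) [nat_lit 35038] false,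
   Spec.mk (nat_lit 54730) (nat_lit 2) [nat_lit 50356, nat_lit 53272, nat_lit 54784, nat_lit 54712, nat_lit 54732] (nat_lit 0) [nat_lit 35048] false,
   Spec.mk (nat_lit 54732) (nat_lit 0) [nat_lit 50358, nat_lit 53274, nat_lit 54786, nat_lit 54714, nat_lit 54738, nat_lit 54730] (nat_lit 0) [nat_lit 35050] false,
   Spec.mk (nat_lit 54738) (nat_lit 2) [nat_lit 50364, nat_lit 53280, nat_lit 54792, nat_lit 54720, nat_lit 54732] (nat_lit 0) [nat_lit 35056] false,
   Spec.mk (nat_lit 54758) (nat_lit 4) [nat_lit 50384, nat_lit 53300, nat_lit 54920, nat_lit 54704, nat_lit 54760] (nat_lit 0) [] false,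
   Spec.mk (nat_lit 54760) (nat_lit 3) [nat_lit 50386, nat_lit 53302, nat_lit 54922, nat_lit 54706, nat_lit 54766, nat_lit 54758, nat_lit 54762] (nat_lit 0) [nat_lit 35078] false,
   Spec.mk (nat_lit 54762) (nat_lit 0) [nat_lit 50388, nat_lit 53304, nat_lit 54924, nat_lit 54708, nat_lit 54768, nat_lit 54760] (nat_lit 0) [nat_lit 35080] false,
   Spec.mk (nat_lit 54766) (nat_lit 2) [nat_lit 50392, nat_lit 53308, nat_lit 54928, nat_lit 54712, nat_lit 54784, nat_lit 54760, nat_lit 54768] (nat_lit 0) [nat_lit 35084] false,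
   Spec.mk (nat_lit 54768) (nat_lit 1) [nat_lit 50394, nat_lit 53310, nat_lit 54930, nat_lit 54714, nat_lit 54786, nat_lit 54762, nat_lit 54774, nat_lit 54766] (nat_lit 0) [nat_lit 35086] false,
   Spec.mk (nat_lit 54774) (nat_lit 0) [nat_lit 50400, nat_lit 53316, nat_lit 54936, nat_lit 54720, nat_lit 54792, nat_lit 54768] (nat_lit 0) [nat_lit 35092] false,
   Spec.mk (nat_lit 54784) (nat_lit 3) [nat_lit 50410, nat_lit 53326, nat_lit 54946, nat_lit 54730, nat_lit 54838, nat_lit 54766, nat_lit 54786] (nat_lit 0) [nat_lit 35102] false,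
   Spec.mk (nat_lit 54786) (nat_lit 1) [nat_lit 50412, nat_lit 53328, nat_lit 54948, nat_lit 54732, nat_lit 54840, nat_lit 54768, nat_lit 54792, nat_lit 54784] (nat_lit 0) [nat_lit 35104] false,
   Spec.mk (nat_lit 54792) (nat_lit 2) [nat_lit 50418, nat_lit 53334, nat_lit 54954, nat_lit 54738, nat_lit 54846, nat_lit 54774, nat_lit 54810, nat_lit 54786] (nat_lit 0) [nat_lit 35110] false,
   Spec.mk (nat_lit 54810) (nat_lit 2) [nat_lit 50436, nat_lit 53352, nat_lit 54972, nat_lit 54864, nat_lit 54792] (nat_lit 0) [nat_lit 35128] false,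
   Spec.mk (nat_lit 54838) (nat_lit 2) [nat_lit 50464, nat_lit 53380, nat_lit 55000, nat_lit 54784, nat_lit 54840] (nat_lit 0) [nat_lit 35156] false,
   Spec.mk (nat_lit 54840) (nat_lit 0) [nat_lit 50466, nat_lit 53382, nat_lit 55002, nat_lit 54786, nat_lit 54846, nat_lit 54838] (nat_lit 0) [nat_lit 35158] false,
   Spec.mk (nat_lit 54846) (nat_lit 0) [nat_lit 50472, nat_lit 53388, nat_lit 55008, nat_lit 54792, nat_lit 54864, nat_lit 54840] (nat_lit 0) [nat_lit 35164] false,
   Spec.mk (nat_lit 54864) (nat_lit 2) [nat_lit 50490, nat_lit 53406, nat_lit 55026, nat_lit 54810, nat_lit 54846] (nat_lit 0) [nat_lit 35182] false,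
   Spec.mk (nat_lit 54920) (nat_lit 4) [nat_lit 50546, nat_lit 53462, nat_lit 55406, nat_lit 54758, nat_lit 54922] (nat_lit 0) [] false,
   Spec.mk (nat_lit 54922) (nat_lit 3) [nat_lit 50548, nat_lit 53464, nat_lit 55408, nat_lit 54760, nat_lit 54928, nat_lit 54920, nat_lit 54924] (nat_lit 0) [nat_lit 35240] false,
   Spec.mk (nat_lit 54924) (nat_lit 0) [nat_lit 50550, nat_lit 53466, nat_lit 55410, nat_lit 54762, nat_lit 54930, nat_lit 54922] (nat_lit 0) [nat_lit 35242] false,
   Spec.mk (nat_lit 54928) (nat_lit 2) [nat_lit 50554, nat_lit 53470, nat_lit 55414, nat_lit 54766, nat_lit 54946, nat_lit 54922, nat_lit 54930] (nat_lit 0) [nat_lit 35246] false,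
   Spec.mk (nat_lit 54930) (nat_lit 1) [nat_lit 50556, nat_lit 53472, nat_lit 55416, nat_lit 54768, nat_lit 54948, nat_lit 54924, nat_lit 54936, nat_lit 54928] (nat_lit 0) [nat_lit 35248] false,
   Spec.mk (nat_lit 54936) (nat_lit 0) [nat_lit 50562, nat_lit 53478, nat_lit 55422, nat_lit 54774, nat_lit 54954, nat_lit 54930] (nat_lit 0) [nat_lit 35254] false,
   Spec.mk (nat_lit 54946) (nat_lit 2) [nat_lit 50572, nat_lit 53488, nat_lit 55432, nat_lit 54784, nat_lit 55000, nat_lit 54928, nat_lit 54948] (nat_lit 0) [nat_lit 35264] false,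
   Spec.mk (nat_lit 54948) (nat_lit 0) [nat_lit 50574, nat_lit 53490, nat_lit 55434, nat_lit 54786, nat_lit 55002, nat_lit 54930, nat_lit 54954, nat_lit 54946] (nat_lit 0) [nat_lit 35266] false,
   Spec.mk (nat_lit 54954) (nat_lit 1) [nat_lit 50580, nat_lit 53496, nat_lit 55440, nat_lit 54792, nat_lit 55008, nat_lit 54936, nat_lit 54972, nat_lit 54948] (nat_lit 0) [nat_lit 35272] false,
   Spec.mk (nat_lit 54972) (nat_lit 0) [nat_lit 50598, nat_lit 53514, nat_lit 55458, nat_lit 54810, nat_lit 55026, nat_lit 54954] (nat_lit 0) [nat_lit 35290] false,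
   Spec.mk (nat_lit 55000) (nat_lit 3) [nat_lit 50626, nat_lit 53542, nat_lit 55486, nat_lit 54838, nat_lit 55162, nat_lit 54946, nat_lit 55002] (nat_lit 0) [nat_lit 35318] false,
   Spec.mk (nat_lit 55002) (nat_lit 1) [nat_lit 50628, nat_lit 53544, nat_lit 55488, nat_lit 54840, nat_lit 55164, nat_lit 54948, nat_lit 55008, nat_lit 55000] (nat_lit 0) [nat_lit 35320] false,
   Spec.mk (nat_lit 55008) (nat_lit 1) [nat_lit 50634, nat_lit 53550, nat_lit 55494, nat_lit 54846, nat_lit 55170, nat_lit 54954, nat_lit 55026, nat_lit 55002] (nat_lit 0) [nat_lit 35326] false,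
   Spec.mk (nat_lit 55026) (nat_lit 2) [nat_lit 50652, nat_lit 53568, nat_lit 55512, nat_lit 54864, nat_lit 55188, nat_lit 54972, nat_lit 55080, nat_lit 55008] (nat_lit 0) [nat_lit 35344] false,
   Spec.mk (nat_lit 55080) (nat_lit 2) [nat_lit 50706, nat_lit 53622, nat_lit 55566, nat_lit 55242, nat_lit 55026] (nat_lit 0) [nat_lit 35398] false,
   Spec.mk (nat_lit 55162) (nat_lit 2) [nat_lit 50788, nat_lit 53704, nat_lit 55648, nat_lit 55000, nat_lit 55164] (nat_lit 0) [nat_lit 35480] false,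
   Spec.mk (nat_lit 55164) (nat_lit 0) [nat_lit 50790, nat_lit 53706, nat_lit 55650, nat_lit 55002, nat_lit 55170, nat_lit 55162] (nat_lit 0) [nat_lit 35482] false,
   Spec.mk (nat_lit 55170) (nat_lit 0) [nat_lit 50796, nat_lit 53712, nat_lit 55656, nat_lit 55008, nat_lit 55188, nat_lit 55164] (nat_lit 0) [nat_lit 35488] false,
   Spec.mk (nat_lit 55188) (nat_lit 0) [nat_lit 50814, nat_lit 53730, nat_lit 55674, nat_lit 55026, nat_lit 55242, nat_lit 55170] (nat_lit 0) [nat_lit 35506] false,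
   Spec.mk (nat_lit 55242) (nat_lit 2) [nat_lit 50868, nat_lit 53784, nat_lit 55728, nat_lit 55080, nat_lit 55188] (nat_lit 0) [nat_lit 35560] false,
   Spec.mk (nat_lit 55406) (nat_lit 5) [nat_lit 51032, nat_lit 53948, nat_lit 56864, nat_lit 54920, nat_lit 55408] (nat_lit 0) [] false,
   Spec.mk (nat_lit 55408) (nat_lit 4) [nat_lit 51034, nat_lit 53950, nat_lit 56866, nat_lit 54922, nat_lit 55414, nat_lit 55406, nat_lit 55410] (nat_lit 0) [nat_lit 35726] false,
   Spec.mk (nat_lit 55410) (nat_lit 1) [nat_lit 51036, nat_lit 53952, nat_lit 56868, nat_lit 54924, nat_lit 55416, nat_lit 55408] (nat_lit 0) [nat_lit 35728] false,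
   Spec.mk (nat_lit 55414) (nat_lit 3) [nat_lit 51040, nat_lit 53956, nat_lit 56872, nat_lit 54928, nat_lit 55432, nat_lit 55408, nat_lit 55416] (nat_lit 0) [nat_lit 35732] false,
   Spec.mk (nat_lit 55416) (nat_lit 2) [nat_lit 51042, nat_lit 53958, nat_lit 56874, nat_lit 54930, nat_lit 55434, nat_lit 55410, nat_lit 55422, nat_lit 55414] (nat_lit 0) [nat_lit 35734] false,
   Spec.mk (nat_lit 55422) (nat_lit 1) [nat_lit 51048, nat_lit 53964, nat_lit 56880, nat_lit 54936, nat_lit 55440, nat_lit 55416] (nat_lit 0) [nat_lit 35740] false,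
   Spec.mk (nat_lit 55432) (nat_lit 3) [nat_lit 51058, nat_lit 53974, nat_lit 56890, nat_lit 54946, nat_lit 55486, nat_lit 55414, nat_lit 55434] (nat_lit 0) [nat_lit 35750] false,
   Spec.mk (nat_lit 55434) (nat_lit 1) [nat_lit 51060, nat_lit 53976, nat_lit 56892, nat_lit 54948, nat_lit 55488, nat_lit 55416, nat_lit 55440, nat_lit 55432] (nat_lit 0) [nat_lit 35752] false,
   Spec.mk (nat_lit 55440) (nat_lit 2) [nat_lit 51066, nat_lit 53982, nat_lit 56898, nat_lit 54954, nat_lit 55494, nat_lit 55422, nat_lit 55458, nat_lit 55434] (nat_lit 0) [nat_lit 35758] false,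
   Spec.mk (nat_lit 55458) (nat_lit 1) [nat_lit 51084, nat_lit 54000, nat_lit 56916, nat_lit 54972, nat_lit 55512, nat_lit 55440] (nat_lit 0) [nat_lit 35776] false]

noncomputable def sp112 : List Spec :=
  [Spec.mk (nat_lit 55486) (nat_lit 3) [nat_lit 51112, nat_lit 54028, nat_lit 56944, nat_lit 55000, nat_lit 55648, nat_lit 55432, nat_lit 55488] (nat_lit 0) [nat_lit 35804] false,
   Spec.mk (nat_lit 55488) (nat_lit 1) [nat_lit 51114, nat_lit 54030, nat_lit 56946, nat_lit 55002, nat_lit 55650, nat_lit 55434, nat_lit 55494, nat_lit 55486] (nat_lit 0) [nat_lit 35806] false,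
   Spec.mk (nat_lit 55494) (nat_lit 1) [nat_lit 51120, nat_lit 54036, nat_lit 56952, nat_lit 55008, nat_lit 55656, nat_lit 55440, nat_lit 55512, nat_lit 55488] (nat_lit 0) [nat_lit 35812] false,
   Spec.mk (nat_lit 55512) (nat_lit 2) [nat_lit 51138, nat_lit 54054, nat_lit 56970, nat_lit 55026, nat_lit 55674, nat_lit 55458, nat_lit 55566, nat_lit 55494] (nat_lit 0) [nat_lit 35830] false,
   Spec.mk (nat_lit 55566) (nat_lit 1) [nat_lit 51192, nat_lit 54108, nat_lit 57024, nat_lit 55080, nat_lit 55728, nat_lit 55512] (nat_lit 0) [nat_lit 35884] false,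
   Spec.mk (nat_lit 55648) (nat_lit 4) [nat_lit 51274, nat_lit 54190, nat_lit 57106, nat_lit 55162, nat_lit 56134, nat_lit 55486, nat_lit 55650] (nat_lit 0) [nat_lit 35966] false,
   Spec.mk (nat_lit 55650) (nat_lit 2) [nat_lit 51276, nat_lit 54192, nat_lit 57108, nat_lit 55164, nat_lit 56136, nat_lit 55488, nat_lit 55656, nat_lit 55648] (nat_lit 0) [nat_lit 35968] false,
   Spec.mk (nat_lit 55656) (nat_lit 2) [nat_lit 51282, nat_lit 54198, nat_lit 57114, nat_lit 55170, nat_lit 56142, nat_lit 55494, nat_lit 55674, nat_lit 55650] (nat_lit 0) [nat_lit 35974] false,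
   Spec.mk (nat_lit 55674) (nat_lit 2) [nat_lit 51300, nat_lit 54216, nat_lit 57132, nat_lit 55188, nat_lit 56160, nat_lit 55512, nat_lit 55728, nat_lit 55656] (nat_lit 0) [nat_lit 35992] false,
   Spec.mk (nat_lit 55728) (nat_lit 3) [nat_lit 51354, nat_lit 54270, nat_lit 57186, nat_lit 55242, nat_lit 56214, nat_lit 55566, nat_lit 55890, nat_lit 55674] (nat_lit 0) [nat_lit 36046] false,
   Spec.mk (nat_lit 55890) (nat_lit 3) [nat_lit 51516, nat_lit 54432, nat_lit 57348, nat_lit 56376, nat_lit 55728] (nat_lit 0) [nat_lit 36208] false,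
   Spec.mk (nat_lit 56134) (nat_lit 4) [nat_lit 51760, nat_lit 57592, nat_lit 55648, nat_lit 56136] (nat_lit 0) [nat_lit 36452] false,
   Spec.mk (nat_lit 56136) (nat_lit 2) [nat_lit 51762, nat_lit 57594, nat_lit 55650, nat_lit 56142, nat_lit 56134] (nat_lit 0) [nat_lit 36454] false,
   Spec.mk (nat_lit 56142) (nat_lit 2) [nat_lit 51768, nat_lit 57600, nat_lit 55656, nat_lit 56160, nat_lit 56136] (nat_lit 0) [nat_lit 36460] false,
   Spec.mk (nat_lit 56160) (nat_lit 2) [nat_lit 51786, nat_lit 57618, nat_lit 55674, nat_lit 56214, nat_lit 56142] (nat_lit 0) [nat_lit 36478] false,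
   Spec.mk (nat_lit 56214) (nat_lit 2) [nat_lit 51840, nat_lit 57672, nat_lit 55728, nat_lit 56376, nat_lit 56160] (nat_lit 0) [nat_lit 36532] false,
   Spec.mk (nat_lit 56376) (nat_lit 4) [nat_lit 52002, nat_lit 57834, nat_lit 55890, nat_lit 56214] (nat_lit 0) [nat_lit 36694] false,
   Spec.mk (nat_lit 56864) (nat_lit 6) [nat_lit 55406, nat_lit 56866] (nat_lit 0) [] false,
   Spec.mk (nat_lit 56866) (nat_lit 5) [nat_lit 55408, nat_lit 56872, nat_lit 56864, nat_lit 56868] (nat_lit 0) [nat_lit 37184] false,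
   Spec.mk (nat_lit 56868) (nat_lit 2) [nat_lit 55410, nat_lit 56874, nat_lit 56866] (nat_lit 0) [nat_lit 37186] false,
   Spec.mk (nat_lit 56872) (nat_lit 4) [nat_lit 55414, nat_lit 56890, nat_lit 56866, nat_lit 56874] (nat_lit 0) [nat_lit 37190] false,
   Spec.mk (nat_lit 56874) (nat_lit 3) [nat_lit 55416, nat_lit 56892, nat_lit 56868, nat_lit 56880, nat_lit 56872] (nat_lit 0) [nat_lit 37192] false,
   Spec.mk (nat_lit 56880) (nat_lit 2) [nat_lit 55422, nat_lit 56898, nat_lit 56874] (nat_lit 0) [nat_lit 37198] false,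
   Spec.mk (nat_lit 56890) (nat_lit 4) [nat_lit 55432, nat_lit 56944, nat_lit 56872, nat_lit 56892] (nat_lit 0) [nat_lit 37208] false,
   Spec.mk (nat_lit 56892) (nat_lit 2) [nat_lit 55434, nat_lit 56946, nat_lit 56874, nat_lit 56898, nat_lit 56890] (nat_lit 0) [nat_lit 37210] false,
   Spec.mk (nat_lit 56898) (nat_lit 3) [nat_lit 55440, nat_lit 56952, nat_lit 56880, nat_lit 56916, nat_lit 56892] (nat_lit 0) [nat_lit 37216] false,
   Spec.mk (nat_lit 56916) (nat_lit 2) [nat_lit 55458, nat_lit 56970, nat_lit 56898] (nat_lit 0) [nat_lit 37234] false,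
   Spec.mk (nat_lit 56944) (nat_lit 4) [nat_lit 55486, nat_lit 57106, nat_lit 56890, nat_lit 56946] (nat_lit 0) [nat_lit 37262] false,
   Spec.mk (nat_lit 56946) (nat_lit 2) [nat_lit 55488, nat_lit 57108, nat_lit 56892, nat_lit 56952, nat_lit 56944] (nat_lit 0) [nat_lit 37264] false,
   Spec.mk (nat_lit 56952) (nat_lit 2) [nat_lit 55494, nat_lit 57114, nat_lit 56898, nat_lit 56970, nat_lit 56946] (nat_lit 0) [nat_lit 37270] false,
   Spec.mk (nat_lit 56970) (nat_lit 3) [nat_lit 55512, nat_lit 57132, nat_lit 56916, nat_lit 57024, nat_lit 56952] (nat_lit 0) [nat_lit 37288] false,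
   Spec.mk (nat_lit 57024) (nat_lit 2) [nat_lit 55566, nat_lit 57186, nat_lit 56970] (nat_lit 0) [nat_lit 37342] false,
   Spec.mk (nat_lit 57106) (nat_lit 4) [nat_lit 55648, nat_lit 57592, nat_lit 56944, nat_lit 57108] (nat_lit 0) [nat_lit 37424] false,
   Spec.mk (nat_lit 57108) (nat_lit 2) [nat_lit 55650, nat_lit 57594, nat_lit 56946, nat_lit 57114, nat_lit 57106] (nat_lit 0) [nat_lit 37426] false,
   Spec.mk (nat_lit 57114) (nat_lit 2) [nat_lit 55656, nat_lit 57600, nat_lit 56952, nat_lit 57132, nat_lit 57108] (nat_lit 0) [nat_lit 37432] false,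
   Spec.mk (nat_lit 57132) (nat_lit 2) [nat_lit 55674, nat_lit 57618, nat_lit 56970, nat_lit 57186, nat_lit 57114] (nat_lit 0) [nat_lit 37450] false,
   Spec.mk (nat_lit 57186) (nat_lit 3) [nat_lit 55728, nat_lit 57672, nat_lit 57024, nat_lit 57348, nat_lit 57132] (nat_lit 0) [nat_lit 37504] false,
   Spec.mk (nat_lit 57348) (nat_lit 2) [nat_lit 55890, nat_lit 57834, nat_lit 57186] (nat_lit 0) [nat_lit 37666] false,
   Spec.mk (nat_lit 57592) (nat_lit 6) [nat_lit 56134, nat_lit 57106, nat_lit 57594] (nat_lit 0) [nat_lit 37910] false,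
   Spec.mk (nat_lit 57594) (nat_lit 4) [nat_lit 56136, nat_lit 57108, nat_lit 57600, nat_lit 57592] (nat_lit 0) [nat_lit 37912] false,
   Spec.mk (nat_lit 57600) (nat_lit 4) [nat_lit 56142, nat_lit 57114, nat_lit 57618, nat_lit 57594] (nat_lit 0) [nat_lit 37918] false,
   Spec.mk (nat_lit 57618) (nat_lit 4) [nat_lit 56160, nat_lit 57132, nat_lit 57672, nat_lit 57600] (nat_lit 0) [nat_lit 37936] false,
   Spec.mk (nat_lit 57672) (nat_lit 4) [nat_lit 56214, nat_lit 57186, nat_lit 57834, nat_lit 57618] (nat_lit 0) [nat_lit 37990] false,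
   Spec.mk (nat_lit 57834) (nat_lit 5) [nat_lit 56376, nat_lit 57348, nat_lit 58320, nat_lit 57672] (nat_lit 0) [nat_lit 38152] false,
   Spec.mk (nat_lit 58320) (nat_lit 6) [nat_lit 57834] (nat_lit 0) [nat_lit 38638] false]

noncomputable def specs : List (List Spec) :=
    sp0 :: sp1 :: sp2 :: sp3 :: sp4 :: sp5 :: sp6 :: sp7 :: sp8 :: sp9 :: sp10 :: sp11 :: sp12 ::
    sp13 :: sp14 :: sp15 :: sp16 :: sp17 :: sp18 :: sp19 :: sp20 :: sp21 :: sp22 :: sp23 :: sp24 ::
    sp25 :: sp26 :: sp27 :: sp28 :: sp29 :: sp30 :: sp31 :: sp32 :: sp33 :: sp34 :: sp35 :: sp36 ::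
    sp37 :: sp38 :: sp39 :: sp40 :: sp41 :: sp42 :: sp43 :: sp44 :: sp45 :: sp46 :: sp47 :: sp48 ::
    sp49 :: sp50 :: sp51 :: sp52 :: sp53 :: sp54 :: sp55 :: sp56 :: sp57 :: sp58 :: sp59 :: sp60 ::
    sp61 :: sp62 :: sp63 :: sp64 :: sp65 :: sp66 :: sp67 :: sp68 :: sp69 :: sp70 :: sp71 :: sp72 ::
    sp73 :: sp74 :: sp75 :: sp76 :: sp77 :: sp78 :: sp79 :: sp80 :: sp81 :: sp82 :: sp83 :: sp84 ::
    sp85 :: sp86 :: sp87 :: sp88 :: sp89 :: sp90 :: sp91 :: sp92 :: sp93 :: sp94 :: sp95 :: sp96 ::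
    sp97 :: sp98 :: sp99 :: sp100 :: sp101 :: sp102 :: sp103 :: sp104 :: sp105 :: sp106 :: sp107 ::
    sp108 :: sp109 :: sp110 :: sp111 :: sp112 :: []

noncomputable def step (e : Nat → Nat) (C ap an : Nat) (k :
    Nat → Nat → Nat → Nat → Nat → Nat → Nat → Nat → Nat → Nat → Nat → Nat → Nat → Nat → Nat → Nat →
    Nat → Nat → Nat → Nat → Nat → Nat → Nat → Nat → Nat → Nat → Nat → Nat → Nat → Nat → Nat → Nat →
    Nat → Nat → Nat → Nat → Nat → Nat → Nat → Nat → Nat → Nat → Nat → Nat → Nat → Nat → Nat → Nat →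
    Nat → Nat → Nat → Nat → Nat → Nat → Nat → Nat → Nat → Nat → Nat → Nat → Nat → Nat → Nat → Nat →
    Nat → Nat → Nat → Nat → Nat → Nat → Nat → Nat → Nat → Nat → Nat → Nat → Nat → Nat → Nat → Nat →
    Nat → Nat → Nat → Nat → Nat → Nat → Nat → Nat → Nat → Nat → Nat → Nat → Nat → Nat → Nat → Nat →
    Nat → Nat → Nat → Nat → Nat → Nat → Nat → Nat → Nat → Nat → Nat → Nat → Nat → Nat → Nat → Nat →
    Nat → Nat → Nat → Nat → Nat → Nat → Nat → Nat → Nat → Nat → Nat → Nat → Nat → Nat → Nat → Nat →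
    Nat → Nat → Nat → Nat → Nat → Nat → Nat → Nat → Nat → Nat → Nat → Nat → Nat → Nat → Nat → Nat →
    Nat → Nat → Nat → Nat → Nat → Nat → Nat → Nat → Nat → Nat → Nat → Nat → Nat → Nat → Nat → Nat →
    Nat → Nat → Nat → Nat → Nat → Nat → Nat → Nat → Nat → Nat → Nat → Nat → Nat → Nat → Nat → Nat →
    Nat → Nat → Nat → Nat → Nat → Nat → Nat → Nat → Nat → Nat → Nat → Nat → Nat → Nat → Nat → Nat →
    Nat → Nat → Nat → Nat → Nat → Nat → Nat → Nat → Nat → Nat → Nat → Nat → Nat → Nat → Nat → Nat →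
    Nat → Nat → Nat → Nat → Nat → Nat → Nat → Nat → Nat → Nat → Nat → Nat → Nat → Nat → Nat → Nat →
    Nat → Nat → Nat → Nat → Nat → Nat → Nat → Nat → Nat → Nat → Nat → Nat → Nat → Nat → Nat → Nat →
    Nat → Nat → Nat → Nat → Nat → Nat → Nat → Nat → Nat → Nat → Nat → Nat → Nat → Nat → Nat → Nat →
    Nat → Nat → Nat → Nat → Nat → Nat → Nat → Nat → Nat → Nat → Nat → Nat → Nat → Nat → Nat → Nat →
    Nat → Nat → Nat → Nat → Nat → Nat → Nat → Nat → Nat → Nat → Nat → Nat → Nat → Nat → Nat → Nat →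
    Nat → Nat → Nat → Nat → Nat → Nat → Nat → Nat → Nat → Nat → Nat → Nat → Nat → Nat → Nat → Nat →
    Nat → Nat → Nat → Nat → Nat → Nat → Nat → Nat → Nat → Nat → Nat → Nat → Nat → Nat → Nat → Nat →
    Nat → Nat → Nat → Nat → Nat → Nat → Nat → Nat → Nat → Nat → Nat → Nat → Nat → Nat → Nat → Nat →
    Nat → Nat → Nat → Nat → Nat → Nat → Nat → Nat → Nat → Nat → Nat → Nat → Nat → Nat → Nat → Nat →
    Nat → Nat → Nat → Nat → Nat → Nat → Nat → Nat → Nat → Nat → Nat → Nat → Nat → Nat → Nat → Nat →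
    Nat → Nat → Nat → Nat → Nat → Nat → Nat → Nat → Nat → Nat → Nat → Nat → Nat → Nat → Nat → Nat →
    Nat → Nat → Nat → Nat → Nat → Nat → Nat → Nat → Nat → Nat → Nat → Nat → Nat → Nat → Nat → Nat →
    Nat → Nat → Nat → Nat → Nat → Nat → Nat → Nat → Nat → Nat → Nat → Nat → Nat → Nat → Nat → Nat →
    Nat → Nat → Nat → Nat → Nat → Nat → Nat → Nat → Nat → Nat → Nat → Nat → Nat → Nat → Nat → Nat →
    Nat → Nat → Nat → Nat → Nat → Nat → Nat → Nat → Nat → Nat → Nat → Nat → Nat → Nat → Nat → Nat →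
    Nat → Nat → Nat → Nat → Nat → Nat → Nat → Nat → Nat → Nat → Nat → Nat → Nat → Nat → Nat → Nat →
    Nat → Nat → Nat → Nat → Nat → Nat → Nat → Nat → Nat → Nat → Nat → Nat → Nat → Nat → Nat → Nat →
    Nat → Nat → Nat → Nat → Nat → Nat → Nat → Nat → Nat → Nat → Nat → Nat → Nat → Nat → Nat → Nat →
    Nat → Nat → Nat → Nat → Nat → Nat → Nat → Nat → Nat → Nat → Nat → Nat → Nat → Nat → Nat → Nat →
    Nat → Nat → Nat → Nat → Nat → Nat → Nat → Nat → Nat → Nat → Nat → Nat → Nat → Nat → Nat → Nat →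
    Nat → Nat → Nat → Nat → Nat → Nat → Nat → Nat → Nat → Nat → Nat → Nat → Nat → Nat → Nat → Nat →
    Nat → Nat → Nat → Nat → Nat → Nat → Nat → Nat → Nat → Nat → Nat → Nat → Nat → Nat → Nat → Nat →
    Nat → Nat → Nat → Nat → Nat → Nat → Nat → Nat → Nat → Nat → Nat → Nat → Nat → Nat → Nat → Nat →
    Nat → Nat → Nat → Nat → Nat → Nat → Nat → Nat → Nat → Nat → Nat → Nat → Nat → Nat → Nat → Nat →
    Nat → Nat → Nat → Nat → Nat → Nat → Nat → Nat → Nat → Nat → Nat → Nat → Nat → Nat → Nat → Nat →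
    Nat → Nat → Nat → Nat → Nat → Nat → Nat → Nat → Nat → Nat → Nat → Nat → Nat → Nat → Nat → Nat →
    Nat → Nat → Nat → Nat → Nat → Nat → Nat → Nat → Nat → Nat → Nat → Nat → Nat → Nat → Nat → Nat →
    Nat → Nat → Nat → Nat → Nat → Nat → Nat → Nat → Nat → Nat → Nat → Nat → Nat → Nat → Nat → Nat →
    Nat → Nat → Nat → Nat → Nat → Nat → Nat → Nat → Nat → Nat → Nat → Nat → Nat → Nat → Nat → Nat →
    Nat → Nat → Nat → Nat → Nat → Nat → Nat → Nat → Nat → Nat → Nat → Nat → Nat → Nat → Nat → Nat →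
    Nat → Nat → Nat → Nat → Nat → Nat → Nat → Nat → Nat → Nat → Nat → Nat → Nat → Nat → Nat → Nat →
    Nat → Nat → Nat → Nat → Nat → Nat → Nat → Nat → Nat → Nat → Nat → Nat → Nat → Nat → Nat → Nat →
    Nat → Nat → Nat → Nat → Nat → Nat → Nat → Nat → Nat → Nat → Nat → Nat → Nat → Nat → Nat → Nat →
    Nat → Nat → Nat → Nat → Nat → Nat → Nat → Nat → Nat → Nat → Nat → Nat → Nat → Nat → Nat → Nat →
    Nat → Nat → Nat → Nat → Nat → Nat → Nat → Nat → Nat → Nat → Nat → Nat → Nat → Nat → Nat → Nat →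
    Nat → Nat → Nat → Nat → Nat → Nat → Nat → Nat → Nat → Nat → Nat → Nat → Nat → Nat → Nat → Nat →
    Nat → Nat → Nat → Nat → Nat → Nat → Nat → Nat → Nat → Nat → Nat → Nat → Nat → Nat → Nat → Nat →
    Nat → Nat → Nat → Nat → Nat → Nat → Nat → Nat → Nat → Nat → Nat → Nat → Nat → Nat → Nat → Nat →
    Nat → Nat → Nat → Nat → Nat → Nat → Nat → Nat → Nat → Nat → Nat → Nat → Nat → Nat → Nat → Nat →
    Nat → Nat → Nat → Nat → Nat → Nat → Nat → Nat → Nat → Nat → Nat → Nat → Nat → Nat → Nat → Nat →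
    Nat → Nat → Nat → Nat → Nat → Nat → Nat → Nat → Nat → Nat → Nat → Nat → Nat → Nat → Nat → Nat →
    Nat → Nat → Nat → Nat → Nat → Nat → Nat → Nat → Nat → Nat → Nat → Nat → Nat → Nat → Nat → Nat →
    Nat → Nat → Nat → Nat → Nat → Nat → Nat → Nat → Nat → Nat → Nat → Nat → Nat → Nat → Nat → Nat →
    Nat → Nat → Nat → Nat → Nat → Nat → Nat → Nat → Nat → Nat → Nat → Nat → Nat → Nat → Nat → Nat →
    Nat → Nat → Nat → Nat → Nat → Nat → Nat → Nat → Nat → Nat → Nat → Nat → Nat → Nat → Nat → Nat →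
    Nat → Nat → Nat → Nat → Nat → Nat → Nat → Nat → Nat → Nat → Nat → Nat → Nat → Nat → Nat → Nat →
    Nat → Nat → Nat → Nat → Nat → Nat → Nat → Nat → Nat → Nat → Nat → Nat → Nat → Nat → Nat → Nat →
    Nat → Nat → Nat → Nat → Nat → Nat → Nat → Nat → Nat → Nat → Nat → Nat → Nat → Nat → Nat → Nat →
    Nat → Nat → Nat → Nat → Nat → Nat → Nat → Nat → Nat → Nat → Nat → Nat → Nat → Nat → Nat → Nat →
    Nat → Nat → Nat → Nat → Nat → Nat → Nat → Nat → Nat → Nat → Nat → Nat → Nat → Nat → Nat → Nat →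
    Nat → Nat → Nat → Nat → Nat → Nat → Nat → Nat → Nat → Nat → Nat → Nat → Nat → Nat → Nat → Nat →
    Nat → Nat → Nat → Nat → Nat → Nat → Nat → Nat → Nat → Nat → Nat → Nat → Nat → Nat → Nat → Nat →
    Nat → Nat → Nat → Nat → Nat → Nat → Nat → Nat → Nat → Nat → Nat → Nat → Nat → Nat → Nat → Nat →
    Nat → Nat → Nat → Nat → Nat → Nat → Nat → Nat → Nat → Nat → Nat → Nat → Nat → Nat → Nat → Nat →
    Nat → Nat → Nat → Nat → Nat → Nat → Nat → Nat → Nat → Nat → Nat → Nat → Nat → Nat → Nat → Nat →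
    Nat → Nat → Nat → Nat → Nat → Nat → Nat → Nat → Nat → Nat → Nat → Nat → Nat → Nat → Nat → Nat →
    Nat → Nat → Nat → Nat → Nat → Nat → Nat → Nat → Nat → Nat → Nat → Nat → Nat → Nat → Nat → Nat →
    Nat → Nat → Nat → Nat → Nat → Nat → Nat → Nat → Nat → Nat → Nat → Nat → Nat → Nat → Nat → Nat →
    Nat → Nat → Nat → Nat → Nat → Nat → Nat → Nat → Nat → Nat → Nat → Nat → Nat → Nat → Nat → Nat →
    Nat → Nat → Nat → Nat → Nat → Nat → Nat → Nat → Nat → Nat → Nat → Nat → Nat → Nat → Nat → Nat →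
    Nat → Nat → Nat → Nat → Nat → Nat → Nat → Nat → Nat → Nat → Nat → Nat → Nat → Nat → Nat → Nat →
    Nat → Nat → Nat → Nat → Nat → Nat → Nat → Nat → Nat → Nat → Nat → Nat → Nat → Nat → Nat → Nat →
    Nat → Nat → Nat → Nat → Nat → Nat → Nat → Nat → Nat → Nat → Nat → Nat → Nat → Nat → Nat → Nat →
    Nat → Nat → Nat → Nat → Nat → Nat → Nat → Nat → Nat → Nat → Nat → Nat → Nat → Nat → Nat → Nat →
    Nat → Nat → Nat → Nat → Nat → Nat → Nat → Nat → Nat → Nat → Nat → Nat → Nat → Nat → Nat → Nat →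
    Nat → Nat → Nat → Nat → Nat → Nat → Nat → Nat → Nat → Nat → Nat → Nat → Nat → Nat → Nat → Nat →
    Nat → Nat → Nat → Nat → Nat → Nat → Nat → Nat → Nat → Nat → Nat → Nat → Nat → Nat → Nat → Nat →
    Nat → Nat → Nat → Nat → Nat → Nat → Nat → Nat → Nat → Nat → Nat → Nat → Nat → Nat → Nat → Nat →
    Nat → Nat → Nat → Nat → Nat → Nat → Nat → Nat → Nat → Nat → Nat → Nat → Nat → Nat → Nat → Nat →
    Nat → Nat → Nat → Nat → Nat → Nat → Nat → Nat → Nat → Nat → Nat → Nat → Nat → Nat → Nat → Nat →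
    Nat → Nat → Nat → Nat → Nat → Nat → Nat → Nat → Nat → Nat → Nat → Nat → Nat → Nat → Nat → Nat →
    Nat → Nat → Nat → Nat → Nat → Nat → Nat → Nat → Nat → Nat → Nat → Nat → Nat → Nat → Nat → Nat →
    Nat → Nat → Nat → Nat → Nat → Nat → Nat → Nat → Nat → Nat → Nat → Nat → Nat → Nat → Nat → Nat →
    Nat → Nat → Nat → Nat → Nat → Nat → Nat → Nat → Nat → Nat → Nat → Nat → Nat → Nat → Nat → Nat →
    Nat → Nat → Nat → Nat → Nat → Nat → Nat → Nat → Nat → Nat → Nat → Nat → Nat → Nat → Nat → Nat →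
    Nat → Nat → Nat → Nat → Nat → Nat → Nat → Nat → Nat → Nat → Nat → Nat → Nat → Nat → Nat → Nat →
    Nat → Nat → Nat → Nat → Nat → Nat → Nat → Nat → Nat → Nat → Nat → Nat → Nat → Nat → Nat → Nat →
    Nat → Nat → Nat → Nat → Nat → Nat → Nat → Nat → Nat → Nat → Nat → Nat → Nat → Nat → Nat → Nat →
    Nat → Nat → Nat → Nat → Nat → Nat → Nat → Nat → Nat → Nat → Nat → Nat → Nat → Nat → Nat → Nat →
    Nat → Nat → Nat → Nat → Nat → Nat → Nat → Nat → Nat → Nat → Nat → Nat → Nat → Nat → Nat → Nat →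
    Nat → Nat → Nat → Nat → Nat → Nat → Nat → Nat → Nat → Nat → Nat → Nat → Nat → Nat → Nat → Nat →
    Nat → Nat → Nat → Nat → Nat → Nat → Nat → Nat → Nat → Nat → Nat → Nat → Nat → Nat → Nat → Nat →
    Nat → Nat → Nat → Nat → Nat → Nat → Nat → Nat → Nat → Nat → Nat → Nat → Nat → Nat → Nat → Nat →
    Nat → Nat → Nat → Nat → Nat → Nat → Nat → Nat → Nat → Nat → Nat → Nat → Nat → Nat → Nat → Nat →
    Nat → Nat → Nat → Nat → Nat → Nat → Nat → Nat → Nat → Nat → Nat → Nat → Nat → Nat → Nat → Nat →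
    Nat → Nat → Nat → Nat → Nat → Nat → Nat → Nat → Nat → Nat → Nat → Nat → Nat → Nat → Nat → Nat →
    Nat → Nat → Nat → Nat → Nat → Nat → Nat → Nat → Nat → Nat → Nat → Nat → Nat → Nat → Nat → Nat →
    Nat → Nat → Nat → Nat → Nat → Nat → Nat → Nat → Nat → Nat → Nat → Nat → Nat → Nat → Nat → Nat →
    Nat → Nat → Nat → Nat → Nat → Nat → Nat → Nat → Nat → Nat → Nat → Nat → Nat → Nat → Nat → Nat →
    Nat → Nat → Nat → Nat → Nat → Nat → Nat → Nat → Nat → Nat → Nat → Nat → Nat → Nat → Nat → Nat →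
    Nat → Nat → Nat → Nat → Nat → Nat → Nat → Nat → Nat → Nat → Nat → Nat → Nat → Nat → Nat → Nat →
    Nat → Nat → Nat → Nat → Nat → Nat → Nat → Nat → Nat → Nat → Nat → Nat → Nat → Nat → Nat → Nat →
    Nat → Nat → Nat → Nat → Nat → Nat → Nat → Nat → Nat → Nat → Nat → Nat → Nat → Nat → Nat → Nat →
    Nat → Nat → Nat → Nat → Nat → Nat → Nat → Nat → Nat → Nat → Nat → Nat → Nat → Nat → Nat → Nat →
    Nat → Nat → Nat → Nat → Nat → Nat → Nat → Nat → Nat → Nat → Nat → Nat → Nat → Nat → Nat → Nat →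
    Nat → Nat → Nat → Nat → Nat → Nat → Nat → Nat → Nat → Nat → Nat → Nat → Nat → Nat → Nat → Nat →
    Nat → Nat → Nat → Nat → Nat → Nat → Nat → Nat → Nat → Nat → Nat → Nat → Nat → Nat → Nat → Nat →
    Nat → Nat → Nat → Nat → Nat → Nat → Nat → Nat → Nat → Nat → Nat → Nat → Nat → Nat → Nat → Nat →
    Nat → Nat → Nat → Nat → Nat → Nat → Nat → Nat → Nat → Nat → Nat → Nat → Nat → Nat → Nat → Nat →
    Nat → Nat → Nat → Nat → Nat → Nat → Nat → Nat → Nat → Nat → Nat → Nat → Nat → Nat → Nat → Nat →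
    Nat → Nat → Nat → Nat → Nat → Nat → Nat → Nat → Nat → Nat → Nat → Nat → Nat → Nat → Nat → Nat →
    Nat → Nat → Nat → Nat → Nat → Nat → Nat → Nat → Nat → Nat → Nat → Nat → Nat → Nat → Nat → Nat →
    Nat → Nat → Nat → Nat → Nat → Nat → Nat → Nat → Nat → Nat → Nat → Nat → Nat → Nat → Nat → Nat →
    Nat → Nat → Nat → Nat → Nat → Nat → Nat → Nat → Nat → Nat → Nat → Nat → Nat → Nat → Nat → Nat →
    Nat → Nat → Nat → Nat → Nat → Nat → Nat → Nat → Nat → Nat → Nat → Nat → Nat → Nat → Nat → Nat →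
    Nat → Nat → Nat → Nat → Nat → Nat → Nat → Nat → Nat → Nat → Nat → Nat → Nat → Nat → Nat → Nat →
    Nat → Nat → Nat → Nat → Nat → Nat → Nat → Nat → Nat → Nat → Nat → Nat → Nat → Nat → Nat → Nat →
    Nat → Nat → Nat → Nat → Nat → Nat → Nat → Nat → Nat → Nat → Nat → Nat → Nat → Nat → Nat → Nat →
    Nat → Nat → Nat → Nat → Nat → Nat → Nat → Nat → Nat → Nat → Nat → Nat → Nat → Nat → Nat → Nat →
    Nat → Nat → Nat → Nat → Nat → Nat → Nat → Nat → Nat → Nat → Nat → Nat → Nat → Nat → Nat → Nat →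
    Nat → Nat → Nat → Nat → Nat → Nat → Nat → Nat → Nat → Nat → Nat → Nat → Nat → Nat → Nat → Nat →
    Nat → Nat → Nat → Nat → Nat → Nat → Nat → Nat → Nat → Nat → Nat → Nat → Nat → Nat → Nat → Nat →
    Nat → Nat → Nat → Nat → Nat → Nat → Nat → Nat → Nat → Nat → Nat → Nat → Nat → Nat → Nat → Nat →
    Nat → Nat → Nat → Nat → Nat → Nat → Nat → Nat → Nat → Nat → Nat → Nat → Nat → Nat → Nat → Nat →
    Nat → Nat → Nat → Nat → Nat → Nat → Nat → Nat → Nat → Nat → Nat → Nat → Nat → Nat → Nat → Nat →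
    Nat → Nat → Nat → Nat → Nat → Nat → Nat → Nat → Nat → Nat → Nat → Nat → Nat → Nat → Nat → Nat →
    Nat → Nat → Nat → Nat → Nat → Nat → Nat → Nat → Nat → Nat → Nat → Nat → Nat → Nat → Nat → Nat →
    Nat → Nat → Nat → Nat → Nat → Nat → Nat → Nat → Nat → Nat → Nat → Nat → Nat → Nat → Nat → Nat →
    Nat → Nat → Nat → Nat → Nat → Nat → Nat → Nat → Nat → Nat → Nat → Nat → Nat → Nat → Nat → Nat →
    Nat → Nat → Nat → Nat → Nat → Nat → Nat → Nat → Nat → Nat → Nat → Nat → Nat → Nat → Nat → Nat →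
    Nat → Nat → Nat → Nat → Nat → Nat → Nat → Nat → Nat → Nat → Nat → Nat → Nat → Nat → Nat → Nat →
    Nat → Nat → Nat → Nat → Nat → Nat → Nat → Nat → Nat → Nat → Nat → Nat → Nat → Nat → Nat → Nat →
    Nat → Nat → Nat → Nat → Nat → Nat → Nat → Nat → Nat → Nat → Nat → Nat → Nat → Nat → Nat → Nat →
    Nat → Nat → Nat → Nat → Nat → Nat → Nat → Nat → Nat → Nat → Nat → Nat → Nat → Nat → Nat → Nat →
    Nat → Nat → Nat → Nat → Nat → Nat → Nat → Nat → Nat → Nat → Nat → Nat → Nat → Nat → Nat → Nat →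
    Nat → Nat → Nat → Nat → Nat → Nat → Nat → Nat → Nat → Nat → Nat → Nat → Nat → Nat → Nat → Nat →
    Nat → Nat → Nat → Nat → Nat → Nat → Nat → Nat → Nat → Nat → Nat → Nat → Nat → Nat → Nat → Nat →
    Nat → Nat → Nat → Nat → Nat → Nat → Nat → Nat → Nat → Nat → Nat → Nat → Nat → Nat → Nat → Nat →
    Nat → Nat → Nat → Nat → Nat → Nat → Nat → Nat → Nat → Nat → Nat → Nat → Nat → Nat → Nat → Nat →
    Nat → Nat → Nat → Nat → Nat → Nat → Nat → Nat → Nat → Nat → Nat → Nat → Nat → Nat → Nat → Nat →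
    Nat → Nat → Nat → Nat → Nat → Nat → Nat → Nat → Nat → Nat → Nat → Nat → Nat → Nat → Nat → Nat →
    Nat → Nat → Nat → Nat → Nat → Nat → Nat → Nat → Nat → Nat → Nat → Nat → Nat → Nat → Nat → Nat →
    Nat → Nat → Nat → Nat → Nat → Nat → Nat → Nat → Nat → Nat → Nat → Nat → Nat → Nat → Nat → Nat →
    Nat → Nat → Nat → Nat → Nat → Nat → Nat → Nat → Nat → Nat → Nat → Nat → Nat → Nat → Nat → Nat →
    Nat → Nat → Nat → Nat → Nat → Nat → Nat → Nat → Nat → Nat → Nat → Nat → Nat → Nat → Nat → Nat →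
    Nat → Nat → Nat → Nat → Nat → Nat → Nat → Nat → Nat → Nat → Nat → Nat → Nat → Nat → Nat → Nat →
    Nat → Nat → Nat → Nat → Nat → Nat → Nat → Nat → Nat → Nat → Nat → Nat → Nat → Nat → Nat → Nat →
    Nat → Nat → Nat → Nat → Nat → Nat → Nat → Nat → Nat → Nat → Nat → Nat → Nat → Nat → Nat → Nat →
    Nat → Nat → Nat → Nat → Nat → Nat → Nat → Nat → Nat → Nat → Nat → Nat → Nat → Nat → Nat → Nat →
    Nat → Nat → Nat → Nat → Nat → Nat → Nat → Nat → Nat → Nat → Nat → Nat → Nat → Nat → Nat → Nat →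
    Nat → Nat → Nat → Nat → Nat → Nat → Nat → Nat → Nat → Nat → Nat → Nat → Nat → Nat → Nat → Nat →
    Nat → Nat → Nat → Nat → Nat → Nat → Nat → Nat → Nat → Nat → Nat → Nat → Nat → Nat → Nat → Nat →
    Nat → Nat → Nat → Nat → Nat → Nat → Nat → Nat → Nat → Nat → Nat → Nat → Nat → Nat → Nat → Nat →
    Nat → Nat → Nat → Nat → Nat → Nat → Nat → Nat → Nat → Nat → Nat → Nat → Nat → Nat → Nat → Nat →
    Nat → Nat → Nat → Nat → Nat → Nat → Nat → Nat → Nat → Nat → Nat → Nat → Nat → Nat → Nat → Nat →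
    Nat → Nat → Nat → Nat → Nat → Nat → Nat → Nat → Nat → Nat → Nat → Nat → Nat → Nat → Nat → Nat →
    Nat → Nat → Nat → Nat → Nat → Nat → Nat → Nat → Nat → Nat → Nat → Nat → Nat → Nat → Nat → Nat →
    Nat → Nat → Nat → Nat → Nat → Nat → Nat → Nat → Nat → Nat → Nat → Nat → Nat → Nat → Nat → Nat →
    Nat → Nat → Nat → Nat → Nat → Nat → Nat → Nat → Nat → Nat → Nat → Nat → Nat → Nat → Nat → Nat →
    Nat → Nat → Nat → Nat → Nat → Nat → Nat → Nat → Nat → Nat → Nat → Nat → Nat → Nat → Nat → Nat →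
    Nat → Nat → Nat → Nat → Nat → Nat → Nat → Nat → Nat → Nat → Nat → Nat → Nat → Nat → Nat → Nat →
    Nat → Nat → Nat → Nat → Nat → Nat → Nat → Nat → Nat → Nat → Nat → Nat → Nat → Nat → Nat → Nat →
    Nat → Nat → Nat → Nat → Nat → Nat → Nat → Nat → Nat → Nat → Nat → Nat → Nat → Nat → Nat → Nat →
    Nat → Nat → Nat → Nat → Nat → Nat → Nat → Nat → Nat → Nat → Nat → Nat → Nat → Nat → Nat → Nat →
    Nat → Nat → Nat → Nat → Nat → Nat → Nat → Nat → Nat → Nat → Nat → Nat → Nat → Nat → Nat → Nat →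
    Nat → Nat → Nat → Nat → Nat → Nat → Nat → Nat → Nat → Nat → Nat → Nat → Nat → Nat → Nat → Nat →
    Nat → Nat → Nat → Nat → Nat → Nat → Nat → Nat → Nat → Nat → Nat → Nat → Nat → Nat → Nat → Nat →
    Nat → Nat → Nat → Nat → Nat → Nat → Nat → Nat → Nat → Nat → Nat → Nat → Nat → Nat → Nat → Nat →
    Nat → Nat → Nat → Nat → Nat → Nat → Nat → Nat → Nat → Nat → Nat → Nat → Nat → Nat → Nat → Nat →
    Nat → Nat → Nat → Nat → Nat → Nat → Nat → Nat → Nat → Nat → Nat → Nat → Nat → Nat → Nat → Nat →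
    Nat → Nat → Nat → Nat → Nat → Nat → Nat → Nat → Nat → Nat → Nat → Nat → Nat → Nat → Nat → Nat →
    Nat → Nat → Nat → Nat → Nat → Nat → Nat → Nat → Nat → Nat → Nat → Nat → Nat → Nat → Nat → Nat →
    Nat → Nat → Nat → Nat → Nat → Nat → Nat → Nat → Nat → Nat → Nat → Nat → Nat → Nat → Nat → Nat →
    Nat → Nat → Nat → Nat → Nat → Nat → Nat → Nat → Nat → Nat → Nat → Nat → Nat → Nat → Nat → Nat →
    Nat → Nat → Nat → Nat → Nat → Nat → Nat → Nat → Nat → Nat → Nat → Nat → Nat → Nat → Nat → Nat →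
    Nat → Nat → Nat → Nat → Nat → Nat → Nat → Nat → Nat → Nat → Nat → Nat → Nat → Nat → Nat → Nat →
    Nat → Nat → Nat → Nat → Nat → Nat → Nat → Nat → Nat → Nat → Nat → Nat → Nat → Nat → Nat → Nat →
    Nat → Nat → Nat → Nat → Nat → Nat → Nat → Nat → Nat → Nat → Nat → Nat → Nat → Nat → Nat → Nat →
    Nat → Nat → Nat → Nat → Nat → Nat → Nat → Nat → Nat → Nat → Nat → Nat → Nat → Nat → Nat → Nat →
    Nat → Nat → Nat → Nat → Nat → Nat → Nat → Nat → Nat → Nat → Nat → Nat → Nat → Nat → Nat → Nat →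
    Nat → Nat → Nat → Nat → Nat → Nat → Nat → Nat → Nat → Nat → Nat → Nat → Nat → Nat → Nat → Nat →
    Nat → Nat → Nat → Nat → Nat → Nat → Nat → Nat → Nat → Nat → Nat → Nat → Nat → Nat → Nat → Nat →
    Nat → Nat → Nat → Nat → Nat → Nat → Nat → Nat → Nat → Nat → Nat → Nat → Nat → Nat → Nat → Nat →
    Nat → Nat → Nat → Nat → Nat → Nat → Nat → Nat → Nat → Nat → Nat → Nat → Nat → Nat → Nat → Nat →
    Nat → Nat → Nat → Nat → Nat → Nat → Nat → Nat → Nat → Nat → Nat → Nat → Nat → Nat → Nat → Nat →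
    Nat → Nat → Nat → Nat → Nat → Nat → Nat → Nat → Nat → Nat → Nat → Nat → Nat → Nat → Nat → Nat →
    Nat → Nat → Nat → Nat → Nat → Nat → Nat → Nat → Nat → Nat → Nat → Nat → Nat → Nat → Nat → Nat →
    Nat → Nat → Nat → Nat → Nat → Nat → Nat → Nat → Nat → Nat → Nat → Nat → Nat → Nat → Nat → Nat →
    Nat → Nat → Nat → Nat → Nat → Nat → Nat → Nat → Nat → Nat → Nat → Nat → Nat → Nat → Nat → Nat →
    Nat → Nat → Nat → Nat → Nat → Nat → Nat → Nat → Nat → Nat → Nat → Nat → Nat → Nat → Nat → Nat →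
    Nat → Nat → Nat → Nat → Nat → Nat → Nat → Nat → Nat → Nat → Nat → Nat → Nat → Nat → Nat → Nat →
    Nat → Nat → Nat → Nat → Nat → Nat → Nat → Nat → Nat → Nat → Nat → Nat → Nat → Nat → Nat → Nat →
    Nat → Nat → Nat → Nat → Nat → Nat → Nat → Nat → Nat → Nat → Nat → Nat → Nat → Nat → Nat → Nat →
    Nat → Nat → Nat → Nat → Nat → Nat → Nat → Nat → Nat → Nat → Nat → Nat → Nat → Nat → Nat → Nat →
    Nat → Nat → Nat → Nat → Nat → Nat → Nat → Nat → Nat → Nat → Nat → Nat → Nat → Nat → Nat → Nat →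
    Nat → Nat → Nat → Nat → Nat → Nat → Nat → Nat → Nat → Nat → Nat → Nat → Nat → Nat → Nat → Nat →
    Nat → Nat → Nat → Nat → Nat → Nat → Nat → Nat → Nat → Nat → Nat → Nat → Nat → Nat → Nat → Nat →
    Nat → Nat → Nat → Nat → Nat → Nat → Nat → Nat → Nat → Nat → Nat → Nat → Nat → Nat → Nat → Nat →
    Nat → Nat → Nat → Nat → Nat → Nat → Nat → Nat → Nat → Nat → Nat → Nat → Nat → Nat → Nat → Nat →
    Nat → Nat → Nat → Nat → Nat → Nat → Nat → Nat → Nat → Nat → Nat → Nat → Nat → Nat → Nat → Nat →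
    Nat → Nat → Nat → Nat → Nat → Nat → Nat → Nat → Nat → Nat → Nat → Nat → Nat → Nat → Nat → Nat →
    Nat → Nat → Nat → Nat → Nat → Nat → Nat → Nat → Nat → Nat → Nat → Nat → Nat → Nat → Nat → Nat →
    Nat → Nat → Nat → Nat → Nat → Nat → Nat → Nat → Nat → Nat → Nat → Nat → Nat → Nat → Nat → Nat →
    Nat → Nat → Nat → Nat → Nat → Nat → Nat → Nat → Nat → Nat → Nat → Nat → Nat → Nat → Nat → Nat →
    Nat → Nat → Nat → Nat → Nat → Nat → Nat → Nat → Nat → Nat → Nat → Nat → Nat → Nat → Nat → Nat →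
    Nat → Nat → Nat → Nat → Nat → Nat → Nat → Nat → Nat → Nat → Nat → Nat → Nat → Nat → Nat → Nat →
    Nat → Nat → Nat → Nat → Nat → Nat → Nat → Nat → Nat → Nat → Nat → Nat → Nat → Nat → Nat → Nat →
    Nat → Nat → Nat → Nat → Nat → Nat → Nat → Nat → Nat → Nat → Nat → Nat → Nat → Nat → Nat → Nat →
    Nat → Nat → Nat → Nat → Nat → Nat → Nat → Nat → Nat → Nat → Nat → Nat → Nat → Nat → Nat → Nat →
    Nat → Nat → Nat → Nat → Nat → Nat → Nat → Nat → Nat → Nat → Nat → Nat → Nat → Nat → Nat → Nat →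
    Nat → Nat → Nat → Nat → Nat → Nat → Nat → Nat → Nat → Nat → Nat → Nat → Nat → Nat → Nat → Nat →
    Nat → Nat → Nat → Nat → Nat → Nat → Nat → Nat → Nat → Nat → Nat → Nat → Nat → Nat → Nat → Nat →
    Nat → Nat → Nat → Nat → Nat → Nat → Nat → Nat → Nat → Nat → Nat → Nat → Nat → Nat → Nat → Nat →
    Nat → Nat → Nat → Nat → Nat → Nat → Nat → Nat → Nat → Nat → Nat → Nat → Nat → Nat → Nat → Nat →
    Nat → Nat → Nat → Nat → Nat → Nat → Nat → Nat → Nat → Nat → Nat → Nat → Nat → Nat → Nat → Nat →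
    Nat → Nat → Nat → Nat → Nat → Nat → Nat → Nat → Nat → Nat → Nat → Nat → Nat → Nat → Nat → Nat →
    Nat → Nat → Nat → Nat → Nat → Nat → Nat → Nat → Nat → Nat → Nat → Nat → Nat → Nat → Nat → Nat →
    Nat → Nat → Nat → Nat → Nat → Nat → Nat → Nat → Nat → Nat → Nat → Nat → Nat → Nat → Nat → Nat →
    Nat → Nat → Nat → Nat → Nat → Nat → Nat → Nat → Nat → Nat → Nat → Nat → Nat → Nat → Nat → Nat →
    Nat → Nat → Nat → Nat → Nat → Nat → Nat → Nat → Nat → Nat → Nat → Nat → Nat → Nat → Nat → Nat →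
    Nat → Nat → Nat → Nat → Nat → Nat → Nat → Nat → Nat → Nat → Nat → Nat → Nat → Nat → Nat → Nat →
    Nat → Nat → Nat → Nat → Nat → Nat → Nat → Nat → Nat → Nat → Nat → Nat → Nat → Nat → Nat → Nat →
    Nat → Nat → Nat → Nat → Nat → Nat → Nat → Nat → Nat → Nat → Nat → Nat → Nat → Nat → Nat → Nat →
    Nat → Nat → Nat → Nat → Nat → Nat → Nat → Nat → Nat → Nat → Nat → Nat → Nat → Nat → Nat → Nat →
    Nat → Nat → Nat → Nat → Nat → Nat → Nat → Nat → Nat → Nat → Nat → Nat → Nat → Nat → Nat → Nat →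
    Nat → Nat → Nat → Nat → Nat → Nat → Nat → Nat → Nat → Nat → Nat → Nat → Nat → Nat → Nat → Nat →
    Nat → Nat → Nat → Nat → Nat → Nat → Nat → Nat → Nat → Nat → Nat → Nat → Nat → Nat → Nat → Nat →
    Nat → Nat → Nat → Nat → Nat → Nat → Nat → Nat → Nat → Nat → Nat → Nat → Nat → Nat → Nat → Nat →
    Nat → Nat → Nat → Nat → Nat → Nat → Nat → Nat → Nat → Nat → Nat → Nat → Nat → Nat → Nat → Nat →
    Nat → Nat → Nat → Nat → Nat → Nat → Nat → Nat → Nat → Nat → Nat → Nat → Nat → Nat → Nat → Nat →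
    Nat → Nat → Nat → Nat → Nat → Nat → Nat → Nat → Nat → Nat → Nat → Nat → Nat → Nat → Nat → Nat →
    Nat → Nat → Nat → Nat → Nat → Nat → Nat → Nat → Nat → Nat → Nat → Nat → Nat → Nat → Nat → Nat →
    Nat → Nat → Nat → Nat → Nat → Nat → Nat → Nat → Nat → Nat → Nat → Nat → Nat → Nat → Nat → Nat →
    Nat → Nat → Nat → Nat → Nat → Nat → Nat → Nat → Nat → Nat → Nat → Nat → Nat → Nat → Nat → Nat →
    Nat → Nat → Nat → Nat → Nat → Nat → Nat → Nat → Nat → Nat → Nat → Nat → Nat → Nat → Nat → Nat →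
    Nat → Nat → Nat → Nat → Nat → Nat → Nat → Nat → Nat → Nat → Nat → Nat → Nat → Nat → Nat → Nat →
    Nat → Nat → Nat → Nat → Nat → Nat → Nat → Nat → Nat → Nat → Nat → Nat → Nat → Nat → Nat → Nat →
    Nat → Nat → Nat → Nat → Nat → Nat → Nat → Nat → Nat → Nat → Nat → Nat → Nat → Nat → Nat → Nat →
    Nat → Nat → Nat → Nat → Nat → Nat → Nat → Nat → Nat → Nat → Nat → Nat → Nat → Nat → Nat → Nat →
    Nat → Nat → Nat → Nat → Nat → Nat → Nat → Nat → Nat → Nat → Nat → Nat → Nat → Nat → Nat → Nat →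
    Nat → Nat → Nat → Nat → Nat → Nat → Nat → Nat → Nat → Nat → Nat → Nat → Nat → Nat → Nat → Nat →
    Nat → Nat → Nat → Nat → Nat → Nat → Nat → Nat → Nat → Nat → Nat → Nat → Nat → Nat → Nat → Nat →
    Nat → Nat → Nat → Nat → Nat → Nat → Nat → Nat → Nat → Nat → Nat → Nat → Nat → Nat → Nat → Nat →
    Nat → Nat → Nat → Nat → Nat → Nat → Nat → Nat → Nat → Nat → Nat → Nat → Nat → Nat → Nat → Nat →
    Nat → Nat → Nat → Nat → Nat → Nat → Nat → Nat → Nat → Nat → Nat → Nat → Nat → Nat → Nat → Nat →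
    Nat → Nat → Nat → Nat → Nat → Nat → Nat → Nat → Nat → Nat → Nat → Nat → Nat → Nat → Nat → Nat →
    Nat → Nat → Nat → Nat → Nat → Nat → Nat → Nat → Nat → Nat → Nat → Nat → Nat → Nat → Nat → Nat →
    Nat → Nat → Nat → Nat → Nat → Nat → Nat → Nat → Nat → Nat → Nat → Nat → Nat → Nat → Nat → Nat →
    Nat → Nat → Nat → Nat → Nat → Nat → Nat → Nat → Nat → Nat → Nat → Nat → Nat → Nat → Nat → Nat →
    Nat → Nat → Nat → Nat → Nat → Nat → Nat → Nat → Nat → Nat → Nat → Nat → Nat → Nat → Nat → Nat →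
    Nat → Nat → Nat → Nat → Nat → Nat → Nat → Nat → Nat → Nat → Nat → Nat → Nat → Nat → Nat → Nat →
    Nat → Nat → Nat → Nat → Nat → Nat → Nat → Nat → Nat → Nat → Nat → Nat → Nat → Nat → Nat → Nat →
    Nat → Nat → Nat → Nat → Nat → Nat → Nat → Nat → Nat → Nat → Nat → Nat → Nat → Nat → Nat → Nat →
    Nat → Nat → Nat → Nat → Nat → Nat → Nat → Nat → Nat → Nat → Nat → Nat → Nat → Nat → Nat → Nat →
    Nat → Nat → Nat → Nat → Nat → Nat → Nat → Nat → Nat → Nat → Nat → Nat → Nat → Nat → Nat → Nat →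
    Nat → Nat → Nat → Nat → Nat → Nat → Nat → Nat → Nat → Nat → Nat → Nat → Nat → Nat → Nat → Nat →
    Nat → Nat → Nat → Nat → Nat → Nat → Nat → Nat → Nat → Nat → Nat → Nat → Nat → Nat → Nat → Nat →
    Nat → Nat → Nat → Nat → Nat → Nat → Nat → Nat → Nat → Nat → Nat → Nat → Nat → Nat → Nat → Nat →
    Nat → Nat → Nat → Nat → Nat → Nat → Nat → Nat → Nat → Nat → Nat → Nat → Nat → Nat → Nat → Nat →
    Nat → Nat → Nat → Nat → Nat → Nat → Nat → Nat → Nat → Nat → Nat → Nat → Nat → Nat → Nat → Nat →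
    Nat → Nat → Nat → Nat → Nat → Nat → Nat → Nat → Nat → Nat → Nat → Nat → Nat → Nat → Nat → Nat →
    Nat → Nat → Nat → Nat → Nat → Nat → Nat → Nat → Nat → Nat → Nat → Nat → Nat → Nat → Nat → Nat →
    Nat → Nat → Nat → Nat → Nat → Nat → Nat → Nat → Nat → Nat → Nat → Nat → Nat → Nat → Nat → Nat →
    Nat → Nat → Nat → Nat → Nat → Nat → Nat → Nat → Nat → Nat → Nat → Nat → Nat → Nat → Nat → Nat →
    Nat → Nat → Nat → Nat → Nat → Nat → Nat → Nat → Nat → Nat → Nat → Nat → Nat → Nat → Nat → Nat →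
    Nat → Nat → Nat → Nat → Nat → Nat → Nat → Nat → Nat → Nat → Nat → Nat → Nat → Nat → Nat → Nat →
    Nat → Nat → Nat → Nat → Nat → Nat → Nat → Nat → Nat → Nat → Nat → Nat → Nat → Nat → Nat → Nat →
    Nat → Nat → Nat → Nat → Nat → Nat → Nat → Nat → Nat → Nat → Nat → Nat → Nat → Nat → Nat → Nat →
    Nat → Nat → Nat → Nat → Nat → Nat → Nat → Nat → Nat → Nat → Nat → Nat → Nat → Nat → Nat → Nat →
    Nat → Nat → Nat → Nat → Nat → Nat → Nat → Nat → Nat → Nat → Nat → Nat → Nat → Nat → Nat → Nat →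
    Nat → Nat → Nat → Nat → Nat → Nat → Nat → Nat → Nat → Nat → Nat → Nat → Nat → Nat → Nat → Nat →
    Nat → Nat → Nat → Nat → Nat → Nat → Nat → Nat → Nat → Nat → Nat → Nat → Nat → Nat → Nat → Nat →
    Nat → Nat → Nat → Nat → Nat → Nat → Nat → Nat → Nat → Nat → Nat → Nat → Nat → Nat → Nat → Nat →
    Nat → Nat → Nat → Nat → Nat → Nat → Nat → Nat → Nat → Nat → Nat → Nat → Nat → Nat → Nat → Nat →
    Nat → Nat → Nat → Nat → Nat → Nat → Nat → Nat → Nat → Nat → Nat → Nat → Nat → Nat → Nat → Nat →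
    Nat → Nat → Nat → Nat → Nat → Nat → Nat → Nat → Nat → Nat → Nat → Nat → Nat → Nat → Nat → Nat →
    Nat → Nat → Nat → Nat → Nat → Nat → Nat → Nat → Nat → Nat → Nat → Nat → Nat → Nat → Nat → Nat →
    Nat → Nat → Nat → Nat → Nat → Nat → Nat → Nat → Nat → Nat → Nat → Nat → Nat → Nat → Nat → Nat →
    Nat → Nat → Nat → Nat → Nat → Nat → Nat → Nat → Nat → Nat → Nat → Nat → Nat → Nat → Nat → Nat →
    Nat → Nat → Nat → Nat → Nat → Nat → Nat → Nat → Nat → Nat → Nat → Nat → Nat → Nat → Nat → Nat →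
    Nat → Nat → Nat → Nat → Nat → Nat → Nat → Nat → Nat → Nat → Nat → Nat → Nat → Nat → Nat → Nat →
    Nat → Nat → Nat → Nat → Nat → Nat → Nat → Nat → Nat → Nat → Nat → Nat → Nat → Nat → Nat → Nat →
    Nat → Nat → Nat → Nat → Nat → Nat → Nat → Nat → Nat → Nat → Nat → Nat → Nat → Nat → Nat → Nat →
    Nat → Nat → Nat → Nat → Nat → Nat → Nat → Nat → Nat → Nat → Nat → Nat → Nat → Nat → Nat → Nat →
    Nat → Nat → Nat → Nat → Nat → Nat → Nat → Nat → Nat → Nat → Nat → Nat → Nat → Nat → Nat → Nat →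
    Nat → Nat → Nat → Nat → Nat → Nat → Nat → Nat → Nat → Nat → Nat → Nat → Nat → Nat → Nat → Nat →
    Nat → Nat → Nat → Nat → Nat → Nat → Nat → Nat → Nat → Nat → Nat → Nat → Nat → Nat → Nat → Nat →
    Nat → Nat → Nat → Nat → Nat → Nat → Nat → Nat → Nat → Nat → Nat → Nat → Nat → Nat → Nat → Nat →
    Nat → Nat → Nat → Nat → Nat → Nat → Nat → Nat → Nat → Nat → Nat → Nat → Nat → Nat → Nat → Nat →
    Nat → Nat → Nat → Nat → Nat → Nat → Nat → Nat → Nat → Nat → Nat → Nat → Nat → Nat → Nat → Nat →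
    Nat → Nat → Nat → Nat → Nat → Nat → Nat → Nat → Nat → Nat → Nat → Nat → Nat → Nat → Nat → Nat →
    Nat → Nat → Nat → Nat → Nat → Nat → Nat → Nat → Nat → Nat → Nat → Nat → Nat → Nat → Nat → Nat →
    Nat → Nat → Nat → Nat → Nat → Nat → Nat → Nat → Nat → Nat → Nat → Nat → Nat → Nat → Nat → Nat →
    Nat → Nat → Nat → Nat → Nat → Nat → Nat → Nat → Nat → Nat → Nat → Nat → Nat → Nat → Nat → Nat →
    Nat → Nat → Nat → Nat → Nat → Nat → Nat → Nat → Nat → Nat → Nat → Nat → Nat → Nat → Nat → Nat →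
    Nat → Nat → Nat → Nat → Nat → Nat → Nat → Nat → Nat → Nat → Nat → Nat → Nat → Nat → Nat → Nat →
    Nat → Nat → Nat → Nat → Nat → Nat → Nat → Nat → Nat → Nat → Nat → Nat → Nat → Nat → Nat → Nat →
    Nat → Nat → Nat → Nat → Nat → Nat → Nat → Nat → Nat → Nat → Nat → Nat → Nat → Nat → Nat → Nat →
    Nat → Nat → Nat → Nat → Nat → Nat → Nat → Nat → Nat → Nat → Nat → Nat → Nat → Nat → Nat → Nat →
    Nat → Nat → Nat → Nat → Nat → Nat → Nat → Nat → Nat → Nat → Nat → Nat → Nat → Nat → Nat → Nat →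
    Nat → Nat → Nat → Nat → Nat → Nat → Nat → Nat → Nat → Nat → Nat → Nat → Nat → Nat → Nat → Nat →
    Nat → Nat → Nat → Nat → Nat → Nat → Nat → Nat → Nat → Nat → Nat → Nat → Nat → Nat → Nat → Nat →
    Nat → Nat → Nat → Nat → Nat → Nat → Nat → Nat → Nat → Nat → Nat → Nat → Nat → Nat → Nat → Nat →
    Nat → Nat → Nat → Nat → Nat → Nat → Nat → Nat → Nat → Nat → Nat → Nat → Nat → Nat → Nat → Nat →
    Nat → Nat → Nat → Nat → Nat → Nat → Nat → Nat → Nat → Nat → Nat → Nat → Nat → Nat → Nat → Nat →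
    Nat → Nat → Nat → Nat → Nat → Nat → Nat → Nat → Nat → Nat → Nat → Nat → Nat → Nat → Nat → Nat →
    Nat → Nat → Nat → Nat → Nat → Nat → Nat → Nat → Nat → Nat → Nat → Nat → Nat → Nat → Nat → Nat →
    Nat → Nat → Nat → Nat → Nat → Nat → Nat → Nat → Nat → Nat → Nat → Nat → Nat → Nat → Nat → Nat →
    Nat → Nat → Nat → Nat → Nat → Nat → Nat → Nat → Nat → Nat → Nat → Nat → Nat → Nat → Nat → Nat →
    Nat → Nat → Nat → Nat → Nat → Nat → Nat → Nat → Nat → Nat → Nat → Nat → Nat → Nat → Nat → Nat →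
    Nat → Nat → Nat → Nat → Nat → Nat → Nat → Nat → Nat → Nat → Nat → Nat → Nat → Nat → Nat → Nat →
    Nat → Nat → Nat → Nat → Nat → Nat → Nat → Nat → Nat → Nat → Nat → Nat → Nat → Nat → Nat → Nat →
    Nat → Nat → Nat → Nat → Nat → Nat → Nat → Nat → Nat → Nat → Nat → Nat → Nat → Nat → Nat → Nat →
    Nat → Nat → Nat → Nat → Nat → Nat → Nat → Nat → Nat → Nat → Nat → Nat → Nat → Nat → Nat → Nat →
    Nat → Nat → Nat → Nat → Nat → Nat → Nat → Nat → Nat → Nat → Nat → Nat → Nat → Nat → Nat → Nat →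
    Nat → Nat → Nat → Nat → Nat → Nat → Nat → Nat → Nat → Nat → Nat → Nat → Nat → Nat → Nat → Nat →
    Nat → Nat → Nat → Nat → Nat → Nat → Nat → Nat → Nat → Nat → Nat → Nat → Nat → Nat → Nat → Nat →
    Nat → Nat → Nat → Nat → Nat → Nat → Nat → Nat → Nat → Nat → Nat → Nat → Nat → Nat → Nat → Nat →
    Nat → Nat → Nat → Nat → Nat → Nat → Nat → Nat → Nat → Nat → Nat → Nat → Nat → Nat → Nat → Nat →
    Nat → Nat → Nat → Nat → Nat → Nat → Nat → Nat → Nat → Nat → Nat → Nat → Nat → Nat → Nat → Nat →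
    Nat → Nat → Nat → Nat → Nat → Nat → Nat → Nat → Nat → Nat → Nat → Nat → Nat → Nat → Nat → Nat →
    Nat → Nat → Nat → Nat → Nat → Nat → Nat → Nat → Nat → Nat → Nat → Nat → Nat → Nat → Nat → Nat →
    Nat → Nat → Nat → Nat → Nat → Nat → Nat → Nat → Nat → Nat → Nat → Nat → Nat → Nat → Nat → Nat →
    Nat → Nat → Nat → Nat → Nat → Nat → Nat → Nat → Nat → Nat → Nat → Nat → Nat → Nat → Nat → Nat →
    Nat → Nat → Nat → Nat → Nat → Nat → Nat → Nat → Nat → Nat → Nat → Nat → Nat → Nat → Nat → Nat →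
    Nat → Nat → Nat → Nat → Nat → Nat → Nat → Nat → Nat → Nat → Nat → Nat → Nat → Nat → Nat → Nat →
    Nat → Nat → Nat → Nat → Nat → Nat → Nat → Nat → Nat → Nat → Nat → Nat → Nat → Nat → Nat → Nat →
    Nat → Nat → Nat → Nat → Nat → Nat → Nat → Nat → Nat → Nat → Nat → Nat → Nat → Nat → Nat → Nat →
    Nat → Nat → Nat → Nat → Nat → Nat → Nat → Nat → Nat → Nat → Nat → Nat → Nat → Nat → Nat → Nat →
    Nat → Nat → Nat → Nat → Nat → Nat → Nat → Nat → Nat → Nat → Nat → Nat → Nat → Nat → Nat → Nat →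
    Nat → Nat → Nat → Nat → Nat → Nat → Nat → Nat → Nat → Nat → Nat → Nat → Nat → Nat → Nat → Nat →
    Nat → Nat → Nat → Nat → Nat → Nat → Nat → Nat → Nat → Nat → Nat → Nat → Nat → Nat → Nat → Nat →
    Nat → Nat → Nat → Nat → Nat → Nat → Nat → Nat → Nat → Nat → Nat → Nat → Nat → Nat → Nat → Nat →
    Nat → Nat → Nat → Nat → Nat → Nat → Nat → Nat → Nat → Nat → Nat → Nat → Nat → Nat → Nat → Nat →
    Nat → Nat → Nat → Nat → Nat → Nat → Nat → Nat → Nat → Nat → Nat → Nat → Nat → Nat → Nat → Nat →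
    Nat → Nat → Nat → Nat → Nat → Nat → Nat → Nat → Nat → Nat → Nat → Nat → Nat → Nat → Nat → Nat →
    Nat → Nat → Nat → Nat → Nat → Nat → Nat → Nat → Nat → Nat → Nat → Nat → Nat → Nat → Nat → Nat →
    Nat → Nat → Nat → Nat → Nat → Nat → Nat → Nat → Nat → Nat → Nat → Nat → Nat → Nat → Nat → Nat →
    Nat → Nat → Nat → Nat → Nat → Nat → Nat → Nat → Nat → Nat → Nat → Nat → Nat → Nat → Nat → Nat →
    Nat → Nat → Nat → Nat → Nat → Nat → Nat → Nat → Nat → Nat → Nat → Nat → Nat → Nat → Nat → Nat →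
    Nat → Nat → Nat → Nat → Nat → Nat → Nat → Nat → Nat → Nat → Nat → Nat → Nat → Nat → Nat → Nat →
    Nat → Nat → Nat → Nat → Nat → Nat → Nat → Nat → Nat → Nat → Nat → Nat → Nat → Nat → Nat → Nat →
    Nat → Nat → Nat → Nat → Nat → Nat → Nat → Nat → Nat → Nat → Nat → Nat → Nat → Nat → Nat → Nat →
    Nat → Nat → Nat → Nat → Nat → Nat → Nat → Nat → Nat → Nat → Nat → Nat → Nat → Nat → Nat → Nat →
    Nat → Nat → Nat → Nat → Nat → Nat → Nat → Nat → Nat → Nat → Nat → Nat → Nat → Nat → Nat → Nat →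
    Nat → Nat → Nat → Nat → Nat → Nat → Nat → Nat → Nat → Nat → Nat → Nat → Nat → Nat → Nat → Nat →
    Nat → Nat → Nat → Nat → Nat → Nat → Nat → Nat → Nat → Nat → Nat → Nat → Nat → Nat → Nat → Nat →
    Nat → Nat → Nat → Nat → Nat → Nat → Nat → Nat → Nat → Nat → Nat → Nat → Nat → Nat → Nat → Nat →
    Nat → Nat → Nat → Nat → Nat → Nat → Nat → Nat → Nat → Nat → Nat → Nat → Nat → Nat → Nat → Nat →
    Nat → Nat → Nat → Nat → Nat → Nat → Nat → Nat → Nat → Nat → Nat → Nat → Nat → Nat → Nat → Nat →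
    Nat → Nat → Nat → Nat → Nat → Nat → Nat → Nat → Nat → Nat → Nat → Nat → Nat → Nat → Nat → Nat →
    Nat → Nat → Nat → Nat → Nat → Nat → Nat → Nat → Nat → Nat → Nat → Nat → Nat → Nat → Nat → Nat →
    Nat → Nat → Nat → Nat → Nat → Nat → Nat → Nat → Nat → Nat → Nat → Nat → Nat → Nat → Nat → Nat →
    Nat → Nat → Nat → Nat → Nat → Nat → Nat → Nat → Nat → Nat → Nat → Nat → Nat → Nat → Nat → Nat →
    Nat → Nat → Nat → Nat → Nat → Nat → Nat → Nat → Nat → Nat → Nat → Nat → Nat → Nat → Nat → Nat →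
    Nat → Nat → Nat → Nat → Nat → Nat → Nat → Nat → Nat → Nat → Nat → Nat → Nat → Nat → Nat → Nat →
    Nat → Nat → Nat → Nat → Nat → Nat → Nat → Nat → Nat → Nat → Nat → Nat → Nat → Nat → Nat → Nat →
    Nat → Nat → Nat → Nat → Nat → Nat → Nat → Nat → Nat → Nat → Nat → Nat → Nat → Nat → Nat → Nat →
    Nat → Nat → Nat → Nat → Nat → Nat → Nat → Nat → Nat → Nat → Nat → Nat → Nat → Nat → Nat → Nat →
    Nat → Nat → Nat → Nat → Nat → Nat → Nat → Nat → Nat → Nat → Nat → Nat → Nat → Nat → Nat → Nat →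
    Nat → Nat → Nat → Nat → Nat → Nat → Nat → Nat → Nat → Nat → Nat → Nat → Nat → Nat → Nat → Nat →
    Nat → Nat → Nat → Nat → Nat → Nat → Nat → Nat → Nat → Nat → Nat → Nat → Nat → Nat → Nat → Nat →
    Nat → Nat → Nat → Nat → Nat → Nat → Nat → Nat → Nat → Nat → Nat → Nat → Nat → Nat → Nat → Nat →
    Nat → Nat → Nat → Nat → Nat → Nat → Nat → Nat → Nat → Nat → Nat → Nat → Nat → Nat → Nat → Nat →
    Nat → Nat → Nat → Nat → Nat → Nat → Nat → Nat → Nat → Nat → Nat → Nat → Nat → Nat → Nat → Nat →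
    Nat → Nat → Nat → Nat → Nat → Nat → Nat → Nat → Nat → Nat → Nat → Nat → Nat → Nat → Nat → Nat →
    Nat → Nat → Nat → Nat → Nat → Nat → Nat → Nat → Nat → Nat → Nat → Nat → Nat → Nat → Nat → Nat →
    Nat → Nat → Nat → Nat → Nat → Nat → Nat → Nat → Nat → Nat → Nat → Nat → Nat → Nat → Nat → Nat →
    Nat → Nat → Nat → Nat → Nat → Nat → Nat → Nat → Nat → Nat → Nat → Nat → Nat → Nat → Nat → Nat →
    Nat → Nat → Nat → Nat → Nat → Nat → Nat → Nat → Nat → Nat → Nat → Nat → Nat → Nat → Nat → Nat →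
    Nat → Nat → Nat → Nat → Nat → Nat → Nat → Nat → Nat → Nat → Nat → Nat → Nat → Nat → Nat → Nat →
    Nat → Nat → Nat → Nat → Nat → Nat → Nat → Nat → Nat → Nat → Nat → Nat → Nat → Nat → Nat → Nat →
    Nat → Nat → Nat → Nat → Nat → Nat → Nat → Nat → Nat → Nat → Nat → Nat → Nat → Nat → Nat → Nat →
    Nat → Nat → Nat → Nat → Nat → Nat → Nat → Nat → Nat → Nat → Nat → Nat → Nat → Nat → Nat → Nat →
    Nat → Nat → Nat → Nat → Nat → Nat → Nat → Nat → Nat → Nat → Nat → Nat → Nat → Nat → Nat → Nat →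
    Nat → Nat → Nat → Nat → Nat → Nat → Nat → Nat → Nat → Nat → Nat → Nat → Nat → Nat → Nat → Nat →
    Nat → Nat → Nat → Nat → Nat → Nat → Nat → Nat → Nat → Nat → Nat → Nat → Nat → Nat → Nat → Nat →
    Nat → Nat → Nat → Nat → Nat → Nat → Nat → Nat → Nat → Nat → Nat → Nat → Nat → Nat → Nat → Nat →
    Nat → Nat → Nat → Nat → Nat → Nat → Nat → Nat → Nat → Nat → Nat → Nat → Nat → Nat → Nat → Nat →
    Nat → Nat → Nat → Nat → Nat → Nat → Nat → Nat → Nat → Nat → Nat → Nat → Nat → Nat → Nat → Nat →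
    Nat → Nat → Nat → Nat → Nat → Nat → Nat → Nat → Nat → Nat → Nat → Nat → Nat → Nat → Nat → Nat →
    Nat → Nat → Nat → Nat → Nat → Nat → Nat → Nat → Nat → Nat → Nat → Nat → Nat → Nat → Nat → Nat →
    Nat → Nat → Nat → Nat → Nat → Nat → Nat → Nat → Nat → Nat → Nat → Nat → Nat → Nat → Nat → Nat →
    Nat → Nat → Nat → Nat → Nat → Nat → Nat → Nat → Nat → Nat → Nat → Nat → Nat → Nat → Nat → Nat →
    Nat → Nat → Nat → Nat → Nat → Nat → Nat → Nat → Nat → Nat → Nat → Nat → Nat → Nat → Nat → Nat →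
    Nat → Nat → Nat → Nat → Nat → Nat → Nat → Nat → Nat → Nat → Nat → Nat → Nat → Nat → Nat → Nat →
    Nat → Nat → Nat → Nat → Nat → Nat → Nat → Nat → Nat → Nat → Nat → Nat → Nat → Nat → Nat → Nat →
    Nat → Nat → Nat → Nat → Nat → Nat → Nat → Nat → Nat → Nat → Nat → Nat → Nat → Nat → Nat → Nat →
    Nat → Nat → Nat → Nat → Nat → Nat → Nat → Nat → Nat → Nat → Nat → Nat → Nat → Nat → Nat → Nat →
    Nat → Nat → Nat → Nat → Nat → Nat → Nat → Nat → Nat → Nat → Nat → Nat → Nat → Nat → Nat → Nat →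
    Nat → Nat → Nat → Nat → Nat → Nat → Nat → Nat → Nat → Nat → Nat → Nat → Nat → Nat → Nat → Nat →
    Nat → Nat → Nat → Nat → Nat → Nat → Nat → Nat → Nat → Nat → Nat → Nat → Nat → Nat → Nat → Nat →
    Nat → Nat → Nat → Nat → Nat → Nat → Nat → Nat → Nat → Nat → Nat → Nat → Nat → Nat → Nat → Nat →
    Nat → Nat → Nat → Nat → Nat → Nat → Nat → Nat → Nat → Nat → Nat → Nat → Nat → Nat → Nat → Nat →
    Nat → Nat → Nat → Nat → Nat → Nat → Nat → Nat → Nat → Nat → Nat → Nat → Nat → Nat → Nat → Nat →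
    Nat → Nat → Nat → Nat → Nat → Nat → Nat → Nat → Nat → Nat → Nat → Nat → Nat → Nat → Nat → Nat →
    Nat → Nat → Nat → Nat → Nat → Nat → Nat → Nat → Nat → Nat → Nat → Nat → Nat → Nat → Nat → Nat →
    Nat → Nat → Nat → Nat → Nat → Nat → Nat → Nat → Nat → Nat → Nat → Nat → Nat → Nat → Nat → Nat →
    Nat → Nat → Nat → Nat → Nat → Nat → Nat → Nat → Nat → Nat → Nat → Nat → Nat → Nat → Nat → Nat →
    Nat → Nat → Nat → Nat → Nat → Nat → Nat → Nat → Nat → Nat → Nat → Nat → Nat → Nat → Nat → Nat →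
    Nat → Nat → Nat → Nat → Nat → Nat → Nat → Nat → Nat → Nat → Nat → Nat → Nat → Nat → Nat → Nat →
    Nat → Nat → Nat → Nat → Nat → Nat → Nat → Nat → Nat → Nat → Nat → Nat → Nat → Nat → Nat → Nat →
    Nat → Nat → Nat → Nat → Nat → Nat → Nat → Nat → Nat → Nat → Nat → Nat → Nat → Nat → Nat → Nat →
    Nat → Nat → Nat → Nat → Nat → Nat → Nat → Nat → Nat → Nat → Nat → Nat → Nat → Nat → Nat → Nat →
    Nat → Nat → Nat → Nat → Nat → Nat → Nat → Nat → Nat → Nat → Nat → Nat → Nat → Nat → Nat → Nat →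
    Nat → Nat → Nat → Nat → Nat → Nat → Nat → Nat → Nat → Nat → Nat → Nat → Nat → Nat → Nat → Nat →
    Nat → Nat → Nat → Nat → Nat → Nat → Nat → Nat → Nat → Nat → Nat → Nat → Nat → Nat → Nat → Nat →
    Nat → Nat → Nat → Nat → Nat → Nat → Nat → Nat → Nat → Nat → Nat → Nat → Nat → Nat → Nat → Nat →
    Nat → Nat → Nat → Nat → Nat → Nat → Nat → Nat → Nat → Nat → Nat → Nat → Nat → Nat → Nat → Nat →
    Nat → Nat → Nat → Nat → Nat → Nat → Nat → Nat → Nat → Nat → Nat → Nat → Nat → Nat → Nat → Nat →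
    Nat → Nat → Nat → Nat → Nat → Nat → Nat → Nat → Nat → Nat → Nat → Nat → Nat → Nat → Nat → Nat →
    Nat → Nat → Nat → Nat → Nat → Nat → Nat → Nat → Nat → Nat → Nat → Nat → Nat → Nat → Nat → Nat →
    Nat → Nat → Nat → Nat → Nat → Nat → Nat → Nat → Nat → Nat → Nat → Nat → Nat → Nat → Nat → Nat →
    Nat → Nat → Nat → Nat → Nat → Nat → Nat → Nat → Nat → Nat → Nat → Nat → Nat → Nat → Nat → Nat →
    Nat → Nat → Nat → Nat → Nat → Nat → Nat → Nat → Nat → Nat → Nat → Nat → Nat → Nat → Nat → Nat →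
    Nat → Nat → Nat → Nat → Nat → Nat → Nat → Nat → Nat → Nat → Nat → Nat → Nat → Nat → Nat → Nat →
    Nat → Nat → Nat → Nat → Nat → Nat → Nat → Nat → Nat → Nat → Nat → Nat → Nat → Nat → Nat → Nat →
    Nat → Nat → Nat → Nat → Nat → Nat → Nat → Nat → Nat → Nat → Nat → Nat → Nat → Nat → Nat → Nat →
    Nat → Nat → Nat → Nat → Nat → Nat → Nat → Nat → Nat → Nat → Nat → Nat → Nat → Nat → Nat → Nat →
    Nat → Nat → Nat → Nat → Nat → Nat → Nat → Nat → Nat → Nat → Nat → Nat → Nat → Bool)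
  (
    x80 x134 x152 x158 x160 x188 x206 x212 x214 x224 x230 x232 x236 x238 x240 x296 x314 x320 x322
    x350 x368 x374 x376 x386 x392 x394 x398 x400 x402 x422 x428 x430 x440 x446 x448 x452 x454 x456
    x464 x466 x470 x472 x474 x478 x480 x512 x530 x536 x538 x548 x554 x556 x560 x562 x564 x584 x590
    x592 x602 x608 x610 x614 x616 x618 x626 x628 x632 x634 x636 x640 x642 x656 x662 x664 x668 x670
    x672 x680 x682 x686 x688 x690 x694 x696 x704 x706 x708 x712 x714 x720 x782 x800 x806 x808 x836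
    x854 x860 x862 x872 x878 x880 x884 x886 x888 x908 x914 x916 x926 x932 x934 x938 x940 x942 x950
    x952 x956 x958 x960 x964 x966 x998 x1016 x1022 x1024 x1034 x1040 x1042 x1046 x1048 x1050 x1070
    x1076 x1078 x1088 x1094 x1096 x1100 x1102 x1104 x1112 x1114 x1118 x1120 x1122 x1126 x1128 x1142
    x1148 x1150 x1154 x1156 x1158 x1166 x1168 x1172 x1174 x1176 x1180 x1182 x1190 x1192 x1194 x1198
    x1200 x1206 x1232 x1238 x1240 x1250 x1256 x1258 x1262 x1264 x1266 x1274 x1276 x1280 x1282 x1284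
    x1288 x1290 x1304 x1310 x1312 x1316 x1318 x1320 x1328 x1330 x1334 x1336 x1338 x1342 x1344 x1352
    x1354 x1356 x1360 x1362 x1368 x1382 x1384 x1388 x1390 x1392 x1396 x1398 x1406 x1408 x1410 x1414
    x1416 x1422 x1432 x1434 x1440 x1484 x1502 x1508 x1510 x1520 x1526 x1528 x1532 x1534 x1536 x1556
    x1562 x1564 x1574 x1580 x1582 x1586 x1588 x1590 x1598 x1600 x1604 x1606 x1608 x1612 x1614 x1628
    x1634 x1636 x1640 x1642 x1644 x1652 x1654 x1658 x1660 x1662 x1666 x1668 x1676 x1678 x1680 x1684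
    x1686 x1692 x1718 x1724 x1726 x1736 x1742 x1744 x1748 x1750 x1752 x1760 x1762 x1766 x1768 x1770
    x1774 x1776 x1790 x1796 x1798 x1802 x1804 x1806 x1814 x1816 x1820 x1822 x1824 x1828 x1830 x1838
    x1840 x1842 x1846 x1848 x1854 x1868 x1870 x1874 x1876 x1878 x1882 x1884 x1892 x1894 x1896 x1900
    x1902 x1908 x1918 x1920 x1926 x1952 x1958 x1960 x1964 x1966 x1968 x1976 x1978 x1982 x1984 x1986
    x1990 x1992 x2000 x2002 x2004 x2008 x2010 x2016 x2030 x2032 x2036 x2038 x2040 x2044 x2046 x2054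
    x2056 x2058 x2062 x2064 x2070 x2080 x2082 x2088 x2108 x2110 x2112 x2116 x2118 x2124 x2134 x2136
    x2142 x2160 x2240 x2258 x2264 x2266 x2294 x2312 x2318 x2320 x2330 x2336 x2338 x2342 x2344 x2346
    x2366 x2372 x2374 x2384 x2390 x2392 x2396 x2398 x2400 x2408 x2410 x2414 x2416 x2418 x2422 x2424
    x2456 x2474 x2480 x2482 x2492 x2498 x2500 x2504 x2506 x2508 x2528 x2534 x2536 x2546 x2552 x2554
    x2558 x2560 x2562 x2570 x2572 x2576 x2578 x2580 x2584 x2586 x2600 x2606 x2608 x2612 x2614 x2616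
    x2624 x2626 x2630 x2632 x2634 x2638 x2640 x2648 x2650 x2652 x2656 x2658 x2664 x2690 x2696 x2698
    x2708 x2714 x2716 x2720 x2722 x2724 x2732 x2734 x2738 x2740 x2742 x2746 x2748 x2762 x2768 x2770
    x2774 x2776 x2778 x2786 x2788 x2792 x2794 x2796 x2800 x2802 x2810 x2812 x2814 x2818 x2820 x2826
    x2840 x2842 x2846 x2848 x2850 x2854 x2856 x2864 x2866 x2868 x2872 x2874 x2880 x2890 x2892 x2898
    x2942 x2960 x2966 x2968 x2978 x2984 x2986 x2990 x2992 x2994 x3014 x3020 x3022 x3032 x3038 x3040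
    x3044 x3046 x3048 x3056 x3058 x3062 x3064 x3066 x3070 x3072 x3086 x3092 x3094 x3098 x3100 x3102
    x3110 x3112 x3116 x3118 x3120 x3124 x3126 x3134 x3136 x3138 x3142 x3144 x3150 x3176 x3182 x3184
    x3194 x3200 x3202 x3206 x3208 x3210 x3218 x3220 x3224 x3226 x3228 x3232 x3234 x3248 x3254 x3256
    x3260 x3262 x3264 x3272 x3274 x3278 x3280 x3282 x3286 x3288 x3296 x3298 x3300 x3304 x3306 x3312
    x3326 x3328 x3332 x3334 x3336 x3340 x3342 x3350 x3352 x3354 x3358 x3360 x3366 x3376 x3378 x3384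
    x3410 x3416 x3418 x3422 x3424 x3426 x3434 x3436 x3440 x3442 x3444 x3448 x3450 x3458 x3460 x3462
    x3466 x3468 x3474 x3488 x3490 x3494 x3496 x3498 x3502 x3504 x3512 x3514 x3516 x3520 x3522 x3528
    x3538 x3540 x3546 x3566 x3568 x3570 x3574 x3576 x3582 x3592 x3594 x3600 x3618 x3662 x3668 x3670
    x3680 x3686 x3688 x3692 x3694 x3696 x3704 x3706 x3710 x3712 x3714 x3718 x3720 x3734 x3740 x3742
    x3746 x3748 x3750 x3758 x3760 x3764 x3766 x3768 x3772 x3774 x3782 x3784 x3786 x3790 x3792 x3798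
    x3812 x3814 x3818 x3820 x3822 x3826 x3828 x3836 x3838 x3840 x3844 x3846 x3852 x3862 x3864 x3870
    x3896 x3902 x3904 x3908 x3910 x3912 x3920 x3922 x3926 x3928 x3930 x3934 x3936 x3944 x3946 x3948
    x3952 x3954 x3960 x3974 x3976 x3980 x3982 x3984 x3988 x3990 x3998 x4000 x4002 x4006 x4008 x4014
    x4024 x4026 x4032 x4052 x4054 x4056 x4060 x4062 x4068 x4078 x4080 x4086 x4104 x4136 x4138 x4142
    x4144 x4146 x4150 x4152 x4160 x4162 x4164 x4168 x4170 x4176 x4186 x4188 x4194 x4214 x4216 x4218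
    x4222 x4224 x4230 x4240 x4242 x4248 x4266 x4294 x4296 x4302 x4320 x4400 x4418 x4424 x4426 x4436
    x4442 x4444 x4448 x4450 x4452 x4472 x4478 x4480 x4490 x4496 x4498 x4502 x4504 x4506 x4514 x4516
    x4520 x4522 x4524 x4528 x4530 x4544 x4550 x4552 x4556 x4558 x4560 x4568 x4570 x4574 x4576 x4578
    x4582 x4584 x4592 x4594 x4596 x4600 x4602 x4608 x4634 x4640 x4642 x4652 x4658 x4660 x4664 x4666
    x4668 x4676 x4678 x4682 x4684 x4686 x4690 x4692 x4706 x4712 x4714 x4718 x4720 x4722 x4730 x4732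
    x4736 x4738 x4740 x4744 x4746 x4754 x4756 x4758 x4762 x4764 x4770 x4784 x4786 x4790 x4792 x4794
    x4798 x4800 x4808 x4810 x4812 x4816 x4818 x4824 x4834 x4836 x4842 x4868 x4874 x4876 x4880 x4882
    x4884 x4892 x4894 x4898 x4900 x4902 x4906 x4908 x4916 x4918 x4920 x4924 x4926 x4932 x4946 x4948
    x4952 x4954 x4956 x4960 x4962 x4970 x4972 x4974 x4978 x4980 x4986 x4996 x4998 x5004 x5024 x5026
    x5028 x5032 x5034 x5040 x5050 x5052 x5058 x5076 x5120 x5126 x5128 x5138 x5144 x5146 x5150 x5152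
    x5154 x5162 x5164 x5168 x5170 x5172 x5176 x5178 x5192 x5198 x5200 x5204 x5206 x5208 x5216 x5218
    x5222 x5224 x5226 x5230 x5232 x5240 x5242 x5244 x5248 x5250 x5256 x5270 x5272 x5276 x5278 x5280
    x5284 x5286 x5294 x5296 x5298 x5302 x5304 x5310 x5320 x5322 x5328 x5354 x5360 x5362 x5366 x5368
    x5370 x5378 x5380 x5384 x5386 x5388 x5392 x5394 x5402 x5404 x5406 x5410 x5412 x5418 x5432 x5434
    x5438 x5440 x5442 x5446 x5448 x5456 x5458 x5460 x5464 x5466 x5472 x5482 x5484 x5490 x5510 x5512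
    x5514 x5518 x5520 x5526 x5536 x5538 x5544 x5562 x5594 x5596 x5600 x5602 x5604 x5608 x5610 x5618
    x5620 x5622 x5626 x5628 x5634 x5644 x5646 x5652 x5672 x5674 x5676 x5680 x5682 x5688 x5698 x5700
    x5706 x5724 x5752 x5754 x5760 x5778 x5840 x5846 x5848 x5852 x5854 x5856 x5864 x5866 x5870 x5872
    x5874 x5878 x5880 x5888 x5890 x5892 x5896 x5898 x5904 x5918 x5920 x5924 x5926 x5928 x5932 x5934
    x5942 x5944 x5946 x5950 x5952 x5958 x5968 x5970 x5976 x5996 x5998 x6000 x6004 x6006 x6012 x6022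
    x6024 x6030 x6048 x6080 x6082 x6086 x6088 x6090 x6094 x6096 x6104 x6106 x6108 x6112 x6114 x6120
    x6130 x6132 x6138 x6158 x6160 x6162 x6166 x6168 x6174 x6184 x6186 x6192 x6210 x6238 x6240 x6246
    x6264 x6320 x6322 x6324 x6328 x6330 x6336 x6346 x6348 x6354 x6372 x6400 x6402 x6408 x6426 x6480
    x6614 x6632 x6638 x6640 x6668 x6686 x6692 x6694 x6704 x6710 x6712 x6716 x6718 x6720 x6740 x6746
    x6748 x6758 x6764 x6766 x6770 x6772 x6774 x6782 x6784 x6788 x6790 x6792 x6796 x6798 x6830 x6848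
    x6854 x6856 x6866 x6872 x6874 x6878 x6880 x6882 x6902 x6908 x6910 x6920 x6926 x6928 x6932 x6934
    x6936 x6944 x6946 x6950 x6952 x6954 x6958 x6960 x6974 x6980 x6982 x6986 x6988 x6990 x6998 x7000
    x7004 x7006 x7008 x7012 x7014 x7022 x7024 x7026 x7030 x7032 x7038 x7064 x7070 x7072 x7082 x7088
    x7090 x7094 x7096 x7098 x7106 x7108 x7112 x7114 x7116 x7120 x7122 x7136 x7142 x7144 x7148 x7150
    x7152 x7160 x7162 x7166 x7168 x7170 x7174 x7176 x7184 x7186 x7188 x7192 x7194 x7200 x7214 x7216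
    x7220 x7222 x7224 x7228 x7230 x7238 x7240 x7242 x7246 x7248 x7254 x7264 x7266 x7272 x7316 x7334
    x7340 x7342 x7352 x7358 x7360 x7364 x7366 x7368 x7388 x7394 x7396 x7406 x7412 x7414 x7418 x7420
    x7422 x7430 x7432 x7436 x7438 x7440 x7444 x7446 x7460 x7466 x7468 x7472 x7474 x7476 x7484 x7486
    x7490 x7492 x7494 x7498 x7500 x7508 x7510 x7512 x7516 x7518 x7524 x7550 x7556 x7558 x7568 x7574
    x7576 x7580 x7582 x7584 x7592 x7594 x7598 x7600 x7602 x7606 x7608 x7622 x7628 x7630 x7634 x7636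
    x7638 x7646 x7648 x7652 x7654 x7656 x7660 x7662 x7670 x7672 x7674 x7678 x7680 x7686 x7700 x7702
    x7706 x7708 x7710 x7714 x7716 x7724 x7726 x7728 x7732 x7734 x7740 x7750 x7752 x7758 x7784 x7790
    x7792 x7796 x7798 x7800 x7808 x7810 x7814 x7816 x7818 x7822 x7824 x7832 x7834 x7836 x7840 x7842
    x7848 x7862 x7864 x7868 x7870 x7872 x7876 x7878 x7886 x7888 x7890 x7894 x7896 x7902 x7912 x7914
    x7920 x7940 x7942 x7944 x7948 x7950 x7956 x7966 x7968 x7974 x7992 x8036 x8042 x8044 x8054 x8060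
    x8062 x8066 x8068 x8070 x8078 x8080 x8084 x8086 x8088 x8092 x8094 x8108 x8114 x8116 x8120 x8122
    x8124 x8132 x8134 x8138 x8140 x8142 x8146 x8148 x8156 x8158 x8160 x8164 x8166 x8172 x8186 x8188
    x8192 x8194 x8196 x8200 x8202 x8210 x8212 x8214 x8218 x8220 x8226 x8236 x8238 x8244 x8270 x8276
    x8278 x8282 x8284 x8286 x8294 x8296 x8300 x8302 x8304 x8308 x8310 x8318 x8320 x8322 x8326 x8328
    x8334 x8348 x8350 x8354 x8356 x8358 x8362 x8364 x8372 x8374 x8376 x8380 x8382 x8388 x8398 x8400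
    x8406 x8426 x8428 x8430 x8434 x8436 x8442 x8452 x8454 x8460 x8478 x8510 x8512 x8516 x8518 x8520
    x8524 x8526 x8534 x8536 x8538 x8542 x8544 x8550 x8560 x8562 x8568 x8588 x8590 x8592 x8596 x8598
    x8604 x8614 x8616 x8622 x8640 x8668 x8670 x8676 x8694 x8774 x8792 x8798 x8800 x8810 x8816 x8818
    x8822 x8824 x8826 x8846 x8852 x8854 x8864 x8870 x8872 x8876 x8878 x8880 x8888 x8890 x8894 x8896
    x8898 x8902 x8904 x8918 x8924 x8926 x8930 x8932 x8934 x8942 x8944 x8948 x8950 x8952 x8956 x8958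
    x8966 x8968 x8970 x8974 x8976 x8982 x9008 x9014 x9016 x9026 x9032 x9034 x9038 x9040 x9042 x9050
    x9052 x9056 x9058 x9060 x9064 x9066 x9080 x9086 x9088 x9092 x9094 x9096 x9104 x9106 x9110 x9112
    x9114 x9118 x9120 x9128 x9130 x9132 x9136 x9138 x9144 x9158 x9160 x9164 x9166 x9168 x9172 x9174
    x9182 x9184 x9186 x9190 x9192 x9198 x9208 x9210 x9216 x9242 x9248 x9250 x9254 x9256 x9258 x9266
    x9268 x9272 x9274 x9276 x9280 x9282 x9290 x9292 x9294 x9298 x9300 x9306 x9320 x9322 x9326 x9328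
    x9330 x9334 x9336 x9344 x9346 x9348 x9352 x9354 x9360 x9370 x9372 x9378 x9398 x9400 x9402 x9406
    x9408 x9414 x9424 x9426 x9432 x9450 x9494 x9500 x9502 x9512 x9518 x9520 x9524 x9526 x9528 x9536
    x9538 x9542 x9544 x9546 x9550 x9552 x9566 x9572 x9574 x9578 x9580 x9582 x9590 x9592 x9596 x9598
    x9600 x9604 x9606 x9614 x9616 x9618 x9622 x9624 x9630 x9644 x9646 x9650 x9652 x9654 x9658 x9660
    x9668 x9670 x9672 x9676 x9678 x9684 x9694 x9696 x9702 x9728 x9734 x9736 x9740 x9742 x9744 x9752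
    x9754 x9758 x9760 x9762 x9766 x9768 x9776 x9778 x9780 x9784 x9786 x9792 x9806 x9808 x9812 x9814
    x9816 x9820 x9822 x9830 x9832 x9834 x9838 x9840 x9846 x9856 x9858 x9864 x9884 x9886 x9888 x9892
    x9894 x9900 x9910 x9912 x9918 x9936 x9968 x9970 x9974 x9976 x9978 x9982 x9984 x9992 x9994 x9996
    x10000 x10002 x10008 x10018 x10020 x10026 x10046 x10048 x10050 x10054 x10056 x10062 x10072
    x10074 x10080 x10098 x10126 x10128 x10134 x10152 x10214 x10220 x10222 x10226 x10228 x10230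
    x10238 x10240 x10244 x10246 x10248 x10252 x10254 x10262 x10264 x10266 x10270 x10272 x10278
    x10292 x10294 x10298 x10300 x10302 x10306 x10308 x10316 x10318 x10320 x10324 x10326 x10332
    x10342 x10344 x10350 x10370 x10372 x10374 x10378 x10380 x10386 x10396 x10398 x10404 x10422
    x10454 x10456 x10460 x10462 x10464 x10468 x10470 x10478 x10480 x10482 x10486 x10488 x10494
    x10504 x10506 x10512 x10532 x10534 x10536 x10540 x10542 x10548 x10558 x10560 x10566 x10584
    x10612 x10614 x10620 x10638 x10694 x10696 x10698 x10702 x10704 x10710 x10720 x10722 x10728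
    x10746 x10774 x10776 x10782 x10800 x10854 x10952 x10958 x10960 x10970 x10976 x10978 x10982
    x10984 x10986 x10994 x10996 x11000 x11002 x11004 x11008 x11010 x11024 x11030 x11032 x11036
    x11038 x11040 x11048 x11050 x11054 x11056 x11058 x11062 x11064 x11072 x11074 x11076 x11080
    x11082 x11088 x11102 x11104 x11108 x11110 x11112 x11116 x11118 x11126 x11128 x11130 x11134
    x11136 x11142 x11152 x11154 x11160 x11186 x11192 x11194 x11198 x11200 x11202 x11210 x11212
    x11216 x11218 x11220 x11224 x11226 x11234 x11236 x11238 x11242 x11244 x11250 x11264 x11266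
    x11270 x11272 x11274 x11278 x11280 x11288 x11290 x11292 x11296 x11298 x11304 x11314 x11316
    x11322 x11342 x11344 x11346 x11350 x11352 x11358 x11368 x11370 x11376 x11394 x11426 x11428
    x11432 x11434 x11436 x11440 x11442 x11450 x11452 x11454 x11458 x11460 x11466 x11476 x11478
    x11484 x11504 x11506 x11508 x11512 x11514 x11520 x11530 x11532 x11538 x11556 x11584 x11586
    x11592 x11610 x11672 x11678 x11680 x11684 x11686 x11688 x11696 x11698 x11702 x11704 x11706
    x11710 x11712 x11720 x11722 x11724 x11728 x11730 x11736 x11750 x11752 x11756 x11758 x11760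
    x11764 x11766 x11774 x11776 x11778 x11782 x11784 x11790 x11800 x11802 x11808 x11828 x11830
    x11832 x11836 x11838 x11844 x11854 x11856 x11862 x11880 x11912 x11914 x11918 x11920 x11922
    x11926 x11928 x11936 x11938 x11940 x11944 x11946 x11952 x11962 x11964 x11970 x11990 x11992
    x11994 x11998 x12000 x12006 x12016 x12018 x12024 x12042 x12070 x12072 x12078 x12096 x12152
    x12154 x12156 x12160 x12162 x12168 x12178 x12180 x12186 x12204 x12232 x12234 x12240 x12258
    x12312 x12398 x12400 x12404 x12406 x12408 x12412 x12414 x12422 x12424 x12426 x12430 x12432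
    x12438 x12448 x12450 x12456 x12476 x12478 x12480 x12484 x12486 x12492 x12502 x12504 x12510
    x12528 x12556 x12558 x12564 x12582 x12638 x12640 x12642 x12646 x12648 x12654 x12664 x12666
    x12672 x12690 x12718 x12720 x12726 x12744 x12798 x12880 x12882 x12888 x12906 x12960 x13148
    x13166 x13172 x13174 x13184 x13190 x13192 x13196 x13198 x13200 x13220 x13226 x13228 x13238
    x13244 x13246 x13250 x13252 x13254 x13262 x13264 x13268 x13270 x13272 x13276 x13278 x13292
    x13298 x13300 x13304 x13306 x13308 x13316 x13318 x13322 x13324 x13326 x13330 x13332 x13340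
    x13342 x13344 x13348 x13350 x13356 x13382 x13388 x13390 x13400 x13406 x13408 x13412 x13414
    x13416 x13424 x13426 x13430 x13432 x13434 x13438 x13440 x13454 x13460 x13462 x13466 x13468
    x13470 x13478 x13480 x13484 x13486 x13488 x13492 x13494 x13502 x13504 x13506 x13510 x13512
    x13518 x13532 x13534 x13538 x13540 x13542 x13546 x13548 x13556 x13558 x13560 x13564 x13566
    x13572 x13582 x13584 x13590 x13616 x13622 x13624 x13628 x13630 x13632 x13640 x13642 x13646
    x13648 x13650 x13654 x13656 x13664 x13666 x13668 x13672 x13674 x13680 x13694 x13696 x13700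
    x13702 x13704 x13708 x13710 x13718 x13720 x13722 x13726 x13728 x13734 x13744 x13746 x13752
    x13772 x13774 x13776 x13780 x13782 x13788 x13798 x13800 x13806 x13824 x13868 x13874 x13876
    x13886 x13892 x13894 x13898 x13900 x13902 x13910 x13912 x13916 x13918 x13920 x13924 x13926
    x13940 x13946 x13948 x13952 x13954 x13956 x13964 x13966 x13970 x13972 x13974 x13978 x13980
    x13988 x13990 x13992 x13996 x13998 x14004 x14018 x14020 x14024 x14026 x14028 x14032 x14034
    x14042 x14044 x14046 x14050 x14052 x14058 x14068 x14070 x14076 x14102 x14108 x14110 x14114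
    x14116 x14118 x14126 x14128 x14132 x14134 x14136 x14140 x14142 x14150 x14152 x14154 x14158
    x14160 x14166 x14180 x14182 x14186 x14188 x14190 x14194 x14196 x14204 x14206 x14208 x14212
    x14214 x14220 x14230 x14232 x14238 x14258 x14260 x14262 x14266 x14268 x14274 x14284 x14286
    x14292 x14310 x14342 x14344 x14348 x14350 x14352 x14356 x14358 x14366 x14368 x14370 x14374
    x14376 x14382 x14392 x14394 x14400 x14420 x14422 x14424 x14428 x14430 x14436 x14446 x14448
    x14454 x14472 x14500 x14502 x14508 x14526 x14588 x14594 x14596 x14600 x14602 x14604 x14612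
    x14614 x14618 x14620 x14622 x14626 x14628 x14636 x14638 x14640 x14644 x14646 x14652 x14666
    x14668 x14672 x14674 x14676 x14680 x14682 x14690 x14692 x14694 x14698 x14700 x14706 x14716
    x14718 x14724 x14744 x14746 x14748 x14752 x14754 x14760 x14770 x14772 x14778 x14796 x14828
    x14830 x14834 x14836 x14838 x14842 x14844 x14852 x14854 x14856 x14860 x14862 x14868 x14878
    x14880 x14886 x14906 x14908 x14910 x14914 x14916 x14922 x14932 x14934 x14940 x14958 x14986
    x14988 x14994 x15012 x15068 x15070 x15072 x15076 x15078 x15084 x15094 x15096 x15102 x15120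
    x15148 x15150 x15156 x15174 x15228 x15326 x15332 x15334 x15344 x15350 x15352 x15356 x15358
    x15360 x15368 x15370 x15374 x15376 x15378 x15382 x15384 x15398 x15404 x15406 x15410 x15412
    x15414 x15422 x15424 x15428 x15430 x15432 x15436 x15438 x15446 x15448 x15450 x15454 x15456
    x15462 x15476 x15478 x15482 x15484 x15486 x15490 x15492 x15500 x15502 x15504 x15508 x15510
    x15516 x15526 x15528 x15534 x15560 x15566 x15568 x15572 x15574 x15576 x15584 x15586 x15590
    x15592 x15594 x15598 x15600 x15608 x15610 x15612 x15616 x15618 x15624 x15638 x15640 x15644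
    x15646 x15648 x15652 x15654 x15662 x15664 x15666 x15670 x15672 x15678 x15688 x15690 x15696
    x15716 x15718 x15720 x15724 x15726 x15732 x15742 x15744 x15750 x15768 x15800 x15802 x15806
    x15808 x15810 x15814 x15816 x15824 x15826 x15828 x15832 x15834 x15840 x15850 x15852 x15858
    x15878 x15880 x15882 x15886 x15888 x15894 x15904 x15906 x15912 x15930 x15958 x15960 x15966
    x15984 x16046 x16052 x16054 x16058 x16060 x16062 x16070 x16072 x16076 x16078 x16080 x16084
    x16086 x16094 x16096 x16098 x16102 x16104 x16110 x16124 x16126 x16130 x16132 x16134 x16138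
    x16140 x16148 x16150 x16152 x16156 x16158 x16164 x16174 x16176 x16182 x16202 x16204 x16206
    x16210 x16212 x16218 x16228 x16230 x16236 x16254 x16286 x16288 x16292 x16294 x16296 x16300
    x16302 x16310 x16312 x16314 x16318 x16320 x16326 x16336 x16338 x16344 x16364 x16366 x16368
    x16372 x16374 x16380 x16390 x16392 x16398 x16416 x16444 x16446 x16452 x16470 x16526 x16528
    x16530 x16534 x16536 x16542 x16552 x16554 x16560 x16578 x16606 x16608 x16614 x16632 x16686
    x16772 x16774 x16778 x16780 x16782 x16786 x16788 x16796 x16798 x16800 x16804 x16806 x16812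
    x16822 x16824 x16830 x16850 x16852 x16854 x16858 x16860 x16866 x16876 x16878 x16884 x16902
    x16930 x16932 x16938 x16956 x17012 x17014 x17016 x17020 x17022 x17028 x17038 x17040 x17046
    x17064 x17092 x17094 x17100 x17118 x17172 x17254 x17256 x17262 x17280 x17334 x17504 x17510
    x17512 x17516 x17518 x17520 x17528 x17530 x17534 x17536 x17538 x17542 x17544 x17552 x17554
    x17556 x17560 x17562 x17568 x17582 x17584 x17588 x17590 x17592 x17596 x17598 x17606 x17608
    x17610 x17614 x17616 x17622 x17632 x17634 x17640 x17660 x17662 x17664 x17668 x17670 x17676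
    x17686 x17688 x17694 x17712 x17744 x17746 x17750 x17752 x17754 x17758 x17760 x17768 x17770
    x17772 x17776 x17778 x17784 x17794 x17796 x17802 x17822 x17824 x17826 x17830 x17832 x17838
    x17848 x17850 x17856 x17874 x17902 x17904 x17910 x17928 x17984 x17986 x17988 x17992 x17994
    x18000 x18010 x18012 x18018 x18036 x18064 x18066 x18072 x18090 x18144 x18230 x18232 x18236
    x18238 x18240 x18244 x18246 x18254 x18256 x18258 x18262 x18264 x18270 x18280 x18282 x18288
    x18308 x18310 x18312 x18316 x18318 x18324 x18334 x18336 x18342 x18360 x18388 x18390 x18396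
    x18414 x18470 x18472 x18474 x18478 x18480 x18486 x18496 x18498 x18504 x18522 x18550 x18552
    x18558 x18576 x18630 x18712 x18714 x18720 x18738 x18792 x18956 x18958 x18960 x18964 x18966
    x18972 x18982 x18984 x18990 x19008 x19036 x19038 x19044 x19062 x19116 x19198 x19200 x19206
    x19224 x19278 x19440 x19736 x19754 x19760 x19762 x19790 x19808 x19814 x19816 x19826 x19832
    x19834 x19838 x19840 x19842 x19862 x19868 x19870 x19880 x19886 x19888 x19892 x19894 x19896
    x19904 x19906 x19910 x19912 x19914 x19918 x19920 x19952 x19970 x19976 x19978 x19988 x19994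
    x19996 x20000 x20002 x20004 x20024 x20030 x20032 x20042 x20048 x20050 x20054 x20056 x20058
    x20066 x20068 x20072 x20074 x20076 x20080 x20082 x20096 x20102 x20104 x20108 x20110 x20112
    x20120 x20122 x20126 x20128 x20130 x20134 x20136 x20144 x20146 x20148 x20152 x20154 x20160
    x20186 x20192 x20194 x20204 x20210 x20212 x20216 x20218 x20220 x20228 x20230 x20234 x20236
    x20238 x20242 x20244 x20258 x20264 x20266 x20270 x20272 x20274 x20282 x20284 x20288 x20290
    x20292 x20296 x20298 x20306 x20308 x20310 x20314 x20316 x20322 x20336 x20338 x20342 x20344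
    x20346 x20350 x20352 x20360 x20362 x20364 x20368 x20370 x20376 x20386 x20388 x20394 x20438
    x20456 x20462 x20464 x20474 x20480 x20482 x20486 x20488 x20490 x20510 x20516 x20518 x20528
    x20534 x20536 x20540 x20542 x20544 x20552 x20554 x20558 x20560 x20562 x20566 x20568 x20582
    x20588 x20590 x20594 x20596 x20598 x20606 x20608 x20612 x20614 x20616 x20620 x20622 x20630
    x20632 x20634 x20638 x20640 x20646 x20672 x20678 x20680 x20690 x20696 x20698 x20702 x20704
    x20706 x20714 x20716 x20720 x20722 x20724 x20728 x20730 x20744 x20750 x20752 x20756 x20758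
    x20760 x20768 x20770 x20774 x20776 x20778 x20782 x20784 x20792 x20794 x20796 x20800 x20802
    x20808 x20822 x20824 x20828 x20830 x20832 x20836 x20838 x20846 x20848 x20850 x20854 x20856
    x20862 x20872 x20874 x20880 x20906 x20912 x20914 x20918 x20920 x20922 x20930 x20932 x20936
    x20938 x20940 x20944 x20946 x20954 x20956 x20958 x20962 x20964 x20970 x20984 x20986 x20990
    x20992 x20994 x20998 x21000 x21008 x21010 x21012 x21016 x21018 x21024 x21034 x21036 x21042
    x21062 x21064 x21066 x21070 x21072 x21078 x21088 x21090 x21096 x21114 x21158 x21164 x21166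
    x21176 x21182 x21184 x21188 x21190 x21192 x21200 x21202 x21206 x21208 x21210 x21214 x21216
    x21230 x21236 x21238 x21242 x21244 x21246 x21254 x21256 x21260 x21262 x21264 x21268 x21270
    x21278 x21280 x21282 x21286 x21288 x21294 x21308 x21310 x21314 x21316 x21318 x21322 x21324
    x21332 x21334 x21336 x21340 x21342 x21348 x21358 x21360 x21366 x21392 x21398 x21400 x21404
    x21406 x21408 x21416 x21418 x21422 x21424 x21426 x21430 x21432 x21440 x21442 x21444 x21448
    x21450 x21456 x21470 x21472 x21476 x21478 x21480 x21484 x21486 x21494 x21496 x21498 x21502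
    x21504 x21510 x21520 x21522 x21528 x21548 x21550 x21552 x21556 x21558 x21564 x21574 x21576
    x21582 x21600 x21632 x21634 x21638 x21640 x21642 x21646 x21648 x21656 x21658 x21660 x21664
    x21666 x21672 x21682 x21684 x21690 x21710 x21712 x21714 x21718 x21720 x21726 x21736 x21738
    x21744 x21762 x21790 x21792 x21798 x21816 x21896 x21914 x21920 x21922 x21932 x21938 x21940
    x21944 x21946 x21948 x21968 x21974 x21976 x21986 x21992 x21994 x21998 x22000 x22002 x22010
    x22012 x22016 x22018 x22020 x22024 x22026 x22040 x22046 x22048 x22052 x22054 x22056 x22064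
    x22066 x22070 x22072 x22074 x22078 x22080 x22088 x22090 x22092 x22096 x22098 x22104 x22130
    x22136 x22138 x22148 x22154 x22156 x22160 x22162 x22164 x22172 x22174 x22178 x22180 x22182
    x22186 x22188 x22202 x22208 x22210 x22214 x22216 x22218 x22226 x22228 x22232 x22234 x22236
    x22240 x22242 x22250 x22252 x22254 x22258 x22260 x22266 x22280 x22282 x22286 x22288 x22290
    x22294 x22296 x22304 x22306 x22308 x22312 x22314 x22320 x22330 x22332 x22338 x22364 x22370
    x22372 x22376 x22378 x22380 x22388 x22390 x22394 x22396 x22398 x22402 x22404 x22412 x22414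
    x22416 x22420 x22422 x22428 x22442 x22444 x22448 x22450 x22452 x22456 x22458 x22466 x22468
    x22470 x22474 x22476 x22482 x22492 x22494 x22500 x22520 x22522 x22524 x22528 x22530 x22536
    x22546 x22548 x22554 x22572 x22616 x22622 x22624 x22634 x22640 x22642 x22646 x22648 x22650
    x22658 x22660 x22664 x22666 x22668 x22672 x22674 x22688 x22694 x22696 x22700 x22702 x22704
    x22712 x22714 x22718 x22720 x22722 x22726 x22728 x22736 x22738 x22740 x22744 x22746 x22752
    x22766 x22768 x22772 x22774 x22776 x22780 x22782 x22790 x22792 x22794 x22798 x22800 x22806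
    x22816 x22818 x22824 x22850 x22856 x22858 x22862 x22864 x22866 x22874 x22876 x22880 x22882
    x22884 x22888 x22890 x22898 x22900 x22902 x22906 x22908 x22914 x22928 x22930 x22934 x22936
    x22938 x22942 x22944 x22952 x22954 x22956 x22960 x22962 x22968 x22978 x22980 x22986 x23006
    x23008 x23010 x23014 x23016 x23022 x23032 x23034 x23040 x23058 x23090 x23092 x23096 x23098
    x23100 x23104 x23106 x23114 x23116 x23118 x23122 x23124 x23130 x23140 x23142 x23148 x23168
    x23170 x23172 x23176 x23178 x23184 x23194 x23196 x23202 x23220 x23248 x23250 x23256 x23274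
    x23336 x23342 x23344 x23348 x23350 x23352 x23360 x23362 x23366 x23368 x23370 x23374 x23376
    x23384 x23386 x23388 x23392 x23394 x23400 x23414 x23416 x23420 x23422 x23424 x23428 x23430
    x23438 x23440 x23442 x23446 x23448 x23454 x23464 x23466 x23472 x23492 x23494 x23496 x23500
    x23502 x23508 x23518 x23520 x23526 x23544 x23576 x23578 x23582 x23584 x23586 x23590 x23592
    x23600 x23602 x23604 x23608 x23610 x23616 x23626 x23628 x23634 x23654 x23656 x23658 x23662
    x23664 x23670 x23680 x23682 x23688 x23706 x23734 x23736 x23742 x23760 x23816 x23818 x23820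
    x23824 x23826 x23832 x23842 x23844 x23850 x23868 x23896 x23898 x23904 x23922 x23976 x24074
    x24080 x24082 x24092 x24098 x24100 x24104 x24106 x24108 x24116 x24118 x24122 x24124 x24126
    x24130 x24132 x24146 x24152 x24154 x24158 x24160 x24162 x24170 x24172 x24176 x24178 x24180
    x24184 x24186 x24194 x24196 x24198 x24202 x24204 x24210 x24224 x24226 x24230 x24232 x24234
    x24238 x24240 x24248 x24250 x24252 x24256 x24258 x24264 x24274 x24276 x24282 x24308 x24314
    x24316 x24320 x24322 x24324 x24332 x24334 x24338 x24340 x24342 x24346 x24348 x24356 x24358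
    x24360 x24364 x24366 x24372 x24386 x24388 x24392 x24394 x24396 x24400 x24402 x24410 x24412
    x24414 x24418 x24420 x24426 x24436 x24438 x24444 x24464 x24466 x24468 x24472 x24474 x24480
    x24490 x24492 x24498 x24516 x24548 x24550 x24554 x24556 x24558 x24562 x24564 x24572 x24574
    x24576 x24580 x24582 x24588 x24598 x24600 x24606 x24626 x24628 x24630 x24634 x24636 x24642
    x24652 x24654 x24660 x24678 x24706 x24708 x24714 x24732 x24794 x24800 x24802 x24806 x24808
    x24810 x24818 x24820 x24824 x24826 x24828 x24832 x24834 x24842 x24844 x24846 x24850 x24852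
    x24858 x24872 x24874 x24878 x24880 x24882 x24886 x24888 x24896 x24898 x24900 x24904 x24906
    x24912 x24922 x24924 x24930 x24950 x24952 x24954 x24958 x24960 x24966 x24976 x24978 x24984
    x25002 x25034 x25036 x25040 x25042 x25044 x25048 x25050 x25058 x25060 x25062 x25066 x25068
    x25074 x25084 x25086 x25092 x25112 x25114 x25116 x25120 x25122 x25128 x25138 x25140 x25146
    x25164 x25192 x25194 x25200 x25218 x25274 x25276 x25278 x25282 x25284 x25290 x25300 x25302
    x25308 x25326 x25354 x25356 x25362 x25380 x25434 x25520 x25522 x25526 x25528 x25530 x25534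
    x25536 x25544 x25546 x25548 x25552 x25554 x25560 x25570 x25572 x25578 x25598 x25600 x25602
    x25606 x25608 x25614 x25624 x25626 x25632 x25650 x25678 x25680 x25686 x25704 x25760 x25762
    x25764 x25768 x25770 x25776 x25786 x25788 x25794 x25812 x25840 x25842 x25848 x25866 x25920
    x26002 x26004 x26010 x26028 x26082 x26270 x26288 x26294 x26296 x26306 x26312 x26314 x26318
    x26320 x26322 x26342 x26348 x26350 x26360 x26366 x26368 x26372 x26374 x26376 x26384 x26386
    x26390 x26392 x26394 x26398 x26400 x26414 x26420 x26422 x26426 x26428 x26430 x26438 x26440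
    x26444 x26446 x26448 x26452 x26454 x26462 x26464 x26466 x26470 x26472 x26478 x26504 x26510
    x26512 x26522 x26528 x26530 x26534 x26536 x26538 x26546 x26548 x26552 x26554 x26556 x26560
    x26562 x26576 x26582 x26584 x26588 x26590 x26592 x26600 x26602 x26606 x26608 x26610 x26614
    x26616 x26624 x26626 x26628 x26632 x26634 x26640 x26654 x26656 x26660 x26662 x26664 x26668
    x26670 x26678 x26680 x26682 x26686 x26688 x26694 x26704 x26706 x26712 x26738 x26744 x26746
    x26750 x26752 x26754 x26762 x26764 x26768 x26770 x26772 x26776 x26778 x26786 x26788 x26790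
    x26794 x26796 x26802 x26816 x26818 x26822 x26824 x26826 x26830 x26832 x26840 x26842 x26844
    x26848 x26850 x26856 x26866 x26868 x26874 x26894 x26896 x26898 x26902 x26904 x26910 x26920
    x26922 x26928 x26946 x26990 x26996 x26998 x27008 x27014 x27016 x27020 x27022 x27024 x27032
    x27034 x27038 x27040 x27042 x27046 x27048 x27062 x27068 x27070 x27074 x27076 x27078 x27086
    x27088 x27092 x27094 x27096 x27100 x27102 x27110 x27112 x27114 x27118 x27120 x27126 x27140
    x27142 x27146 x27148 x27150 x27154 x27156 x27164 x27166 x27168 x27172 x27174 x27180 x27190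
    x27192 x27198 x27224 x27230 x27232 x27236 x27238 x27240 x27248 x27250 x27254 x27256 x27258
    x27262 x27264 x27272 x27274 x27276 x27280 x27282 x27288 x27302 x27304 x27308 x27310 x27312
    x27316 x27318 x27326 x27328 x27330 x27334 x27336 x27342 x27352 x27354 x27360 x27380 x27382
    x27384 x27388 x27390 x27396 x27406 x27408 x27414 x27432 x27464 x27466 x27470 x27472 x27474
    x27478 x27480 x27488 x27490 x27492 x27496 x27498 x27504 x27514 x27516 x27522 x27542 x27544
    x27546 x27550 x27552 x27558 x27568 x27570 x27576 x27594 x27622 x27624 x27630 x27648 x27710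
    x27716 x27718 x27722 x27724 x27726 x27734 x27736 x27740 x27742 x27744 x27748 x27750 x27758
    x27760 x27762 x27766 x27768 x27774 x27788 x27790 x27794 x27796 x27798 x27802 x27804 x27812
    x27814 x27816 x27820 x27822 x27828 x27838 x27840 x27846 x27866 x27868 x27870 x27874 x27876
    x27882 x27892 x27894 x27900 x27918 x27950 x27952 x27956 x27958 x27960 x27964 x27966 x27974
    x27976 x27978 x27982 x27984 x27990 x28000 x28002 x28008 x28028 x28030 x28032 x28036 x28038
    x28044 x28054 x28056 x28062 x28080 x28108 x28110 x28116 x28134 x28190 x28192 x28194 x28198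
    x28200 x28206 x28216 x28218 x28224 x28242 x28270 x28272 x28278 x28296 x28350 x28448 x28454
    x28456 x28466 x28472 x28474 x28478 x28480 x28482 x28490 x28492 x28496 x28498 x28500 x28504
    x28506 x28520 x28526 x28528 x28532 x28534 x28536 x28544 x28546 x28550 x28552 x28554 x28558
    x28560 x28568 x28570 x28572 x28576 x28578 x28584 x28598 x28600 x28604 x28606 x28608 x28612
    x28614 x28622 x28624 x28626 x28630 x28632 x28638 x28648 x28650 x28656 x28682 x28688 x28690
    x28694 x28696 x28698 x28706 x28708 x28712 x28714 x28716 x28720 x28722 x28730 x28732 x28734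
    x28738 x28740 x28746 x28760 x28762 x28766 x28768 x28770 x28774 x28776 x28784 x28786 x28788
    x28792 x28794 x28800 x28810 x28812 x28818 x28838 x28840 x28842 x28846 x28848 x28854 x28864
    x28866 x28872 x28890 x28922 x28924 x28928 x28930 x28932 x28936 x28938 x28946 x28948 x28950
    x28954 x28956 x28962 x28972 x28974 x28980 x29000 x29002 x29004 x29008 x29010 x29016 x29026
    x29028 x29034 x29052 x29080 x29082 x29088 x29106 x29168 x29174 x29176 x29180 x29182 x29184
    x29192 x29194 x29198 x29200 x29202 x29206 x29208 x29216 x29218 x29220 x29224 x29226 x29232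
    x29246 x29248 x29252 x29254 x29256 x29260 x29262 x29270 x29272 x29274 x29278 x29280 x29286
    x29296 x29298 x29304 x29324 x29326 x29328 x29332 x29334 x29340 x29350 x29352 x29358 x29376
    x29408 x29410 x29414 x29416 x29418 x29422 x29424 x29432 x29434 x29436 x29440 x29442 x29448
    x29458 x29460 x29466 x29486 x29488 x29490 x29494 x29496 x29502 x29512 x29514 x29520 x29538
    x29566 x29568 x29574 x29592 x29648 x29650 x29652 x29656 x29658 x29664 x29674 x29676 x29682
    x29700 x29728 x29730 x29736 x29754 x29808 x29894 x29896 x29900 x29902 x29904 x29908 x29910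
    x29918 x29920 x29922 x29926 x29928 x29934 x29944 x29946 x29952 x29972 x29974 x29976 x29980
    x29982 x29988 x29998 x30000 x30006 x30024 x30052 x30054 x30060 x30078 x30134 x30136 x30138
    x30142 x30144 x30150 x30160 x30162 x30168 x30186 x30214 x30216 x30222 x30240 x30294 x30376
    x30378 x30384 x30402 x30456 x30626 x30632 x30634 x30638 x30640 x30642 x30650 x30652 x30656
    x30658 x30660 x30664 x30666 x30674 x30676 x30678 x30682 x30684 x30690 x30704 x30706 x30710
    x30712 x30714 x30718 x30720 x30728 x30730 x30732 x30736 x30738 x30744 x30754 x30756 x30762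
    x30782 x30784 x30786 x30790 x30792 x30798 x30808 x30810 x30816 x30834 x30866 x30868 x30872
    x30874 x30876 x30880 x30882 x30890 x30892 x30894 x30898 x30900 x30906 x30916 x30918 x30924
    x30944 x30946 x30948 x30952 x30954 x30960 x30970 x30972 x30978 x30996 x31024 x31026 x31032
    x31050 x31106 x31108 x31110 x31114 x31116 x31122 x31132 x31134 x31140 x31158 x31186 x31188
    x31194 x31212 x31266 x31352 x31354 x31358 x31360 x31362 x31366 x31368 x31376 x31378 x31380
    x31384 x31386 x31392 x31402 x31404 x31410 x31430 x31432 x31434 x31438 x31440 x31446 x31456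
    x31458 x31464 x31482 x31510 x31512 x31518 x31536 x31592 x31594 x31596 x31600 x31602 x31608
    x31618 x31620 x31626 x31644 x31672 x31674 x31680 x31698 x31752 x31834 x31836 x31842 x31860
    x31914 x32078 x32080 x32082 x32086 x32088 x32094 x32104 x32106 x32112 x32130 x32158 x32160
    x32166 x32184 x32238 x32320 x32322 x32328 x32346 x32400 x32562 x32822 x32828 x32830 x32840
    x32846 x32848 x32852 x32854 x32856 x32864 x32866 x32870 x32872 x32874 x32878 x32880 x32894
    x32900 x32902 x32906 x32908 x32910 x32918 x32920 x32924 x32926 x32928 x32932 x32934 x32942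
    x32944 x32946 x32950 x32952 x32958 x32972 x32974 x32978 x32980 x32982 x32986 x32988 x32996
    x32998 x33000 x33004 x33006 x33012 x33022 x33024 x33030 x33056 x33062 x33064 x33068 x33070
    x33072 x33080 x33082 x33086 x33088 x33090 x33094 x33096 x33104 x33106 x33108 x33112 x33114
    x33120 x33134 x33136 x33140 x33142 x33144 x33148 x33150 x33158 x33160 x33162 x33166 x33168
    x33174 x33184 x33186 x33192 x33212 x33214 x33216 x33220 x33222 x33228 x33238 x33240 x33246
    x33264 x33296 x33298 x33302 x33304 x33306 x33310 x33312 x33320 x33322 x33324 x33328 x33330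
    x33336 x33346 x33348 x33354 x33374 x33376 x33378 x33382 x33384 x33390 x33400 x33402 x33408
    x33426 x33454 x33456 x33462 x33480 x33542 x33548 x33550 x33554 x33556 x33558 x33566 x33568
    x33572 x33574 x33576 x33580 x33582 x33590 x33592 x33594 x33598 x33600 x33606 x33620 x33622
    x33626 x33628 x33630 x33634 x33636 x33644 x33646 x33648 x33652 x33654 x33660 x33670 x33672
    x33678 x33698 x33700 x33702 x33706 x33708 x33714 x33724 x33726 x33732 x33750 x33782 x33784
    x33788 x33790 x33792 x33796 x33798 x33806 x33808 x33810 x33814 x33816 x33822 x33832 x33834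
    x33840 x33860 x33862 x33864 x33868 x33870 x33876 x33886 x33888 x33894 x33912 x33940 x33942
    x33948 x33966 x34022 x34024 x34026 x34030 x34032 x34038 x34048 x34050 x34056 x34074 x34102
    x34104 x34110 x34128 x34182 x34268 x34270 x34274 x34276 x34278 x34282 x34284 x34292 x34294
    x34296 x34300 x34302 x34308 x34318 x34320 x34326 x34346 x34348 x34350 x34354 x34356 x34362
    x34372 x34374 x34380 x34398 x34426 x34428 x34434 x34452 x34508 x34510 x34512 x34516 x34518
    x34524 x34534 x34536 x34542 x34560 x34588 x34590 x34596 x34614 x34668 x34750 x34752 x34758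
    x34776 x34830 x35000 x35006 x35008 x35012 x35014 x35016 x35024 x35026 x35030 x35032 x35034
    x35038 x35040 x35048 x35050 x35052 x35056 x35058 x35064 x35078 x35080 x35084 x35086 x35088
    x35092 x35094 x35102 x35104 x35106 x35110 x35112 x35118 x35128 x35130 x35136 x35156 x35158
    x35160 x35164 x35166 x35172 x35182 x35184 x35190 x35208 x35240 x35242 x35246 x35248 x35250
    x35254 x35256 x35264 x35266 x35268 x35272 x35274 x35280 x35290 x35292 x35298 x35318 x35320
    x35322 x35326 x35328 x35334 x35344 x35346 x35352 x35370 x35398 x35400 x35406 x35424 x35480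
    x35482 x35484 x35488 x35490 x35496 x35506 x35508 x35514 x35532 x35560 x35562 x35568 x35586
    x35640 x35726 x35728 x35732 x35734 x35736 x35740 x35742 x35750 x35752 x35754 x35758 x35760
    x35766 x35776 x35778 x35784 x35804 x35806 x35808 x35812 x35814 x35820 x35830 x35832 x35838
    x35856 x35884 x35886 x35892 x35910 x35966 x35968 x35970 x35974 x35976 x35982 x35992 x35994
    x36000 x36018 x36046 x36048 x36054 x36072 x36126 x36208 x36210 x36216 x36234 x36288 x36452
    x36454 x36456 x36460 x36462 x36468 x36478 x36480 x36486 x36504 x36532 x36534 x36540 x36558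
    x36612 x36694 x36696 x36702 x36720 x36774 x36936 x37184 x37186 x37190 x37192 x37194 x37198
    x37200 x37208 x37210 x37212 x37216 x37218 x37224 x37234 x37236 x37242 x37262 x37264 x37266
    x37270 x37272 x37278 x37288 x37290 x37296 x37314 x37342 x37344 x37350 x37368 x37424 x37426
    x37428 x37432 x37434 x37440 x37450 x37452 x37458 x37476 x37504 x37506 x37512 x37530 x37584
    x37666 x37668 x37674 x37692 x37746 x37910 x37912 x37914 x37918 x37920 x37926 x37936 x37938
    x37944 x37962 x37990 x37992 x37998 x38016 x38070 x38152 x38154 x38160 x38178 x38232 x38394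
    x38638 x38640 x38646 x38664 x38718 x38880 x39392 x39410 x39416 x39418 x39428 x39434 x39436
    x39440 x39442 x39444 x39464 x39470 x39472 x39482 x39488 x39490 x39494 x39496 x39498 x39506
    x39508 x39512 x39514 x39516 x39520 x39522 x39536 x39542 x39544 x39548 x39550 x39552 x39560
    x39562 x39566 x39568 x39570 x39574 x39576 x39584 x39586 x39588 x39592 x39594 x39600 x39626
    x39632 x39634 x39644 x39650 x39652 x39656 x39658 x39660 x39668 x39670 x39674 x39676 x39678
    x39682 x39684 x39698 x39704 x39706 x39710 x39712 x39714 x39722 x39724 x39728 x39730 x39732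
    x39736 x39738 x39746 x39748 x39750 x39754 x39756 x39762 x39776 x39778 x39782 x39784 x39786
    x39790 x39792 x39800 x39802 x39804 x39808 x39810 x39816 x39826 x39828 x39834 x39860 x39866
    x39868 x39872 x39874 x39876 x39884 x39886 x39890 x39892 x39894 x39898 x39900 x39908 x39910
    x39912 x39916 x39918 x39924 x39938 x39940 x39944 x39946 x39948 x39952 x39954 x39962 x39964
    x39966 x39970 x39972 x39978 x39988 x39990 x39996 x40016 x40018 x40020 x40024 x40026 x40032
    x40042 x40044 x40050 x40068 x40112 x40118 x40120 x40130 x40136 x40138 x40142 x40144 x40146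
    x40154 x40156 x40160 x40162 x40164 x40168 x40170 x40184 x40190 x40192 x40196 x40198 x40200
    x40208 x40210 x40214 x40216 x40218 x40222 x40224 x40232 x40234 x40236 x40240 x40242 x40248
    x40262 x40264 x40268 x40270 x40272 x40276 x40278 x40286 x40288 x40290 x40294 x40296 x40302
    x40312 x40314 x40320 x40346 x40352 x40354 x40358 x40360 x40362 x40370 x40372 x40376 x40378
    x40380 x40384 x40386 x40394 x40396 x40398 x40402 x40404 x40410 x40424 x40426 x40430 x40432
    x40434 x40438 x40440 x40448 x40450 x40452 x40456 x40458 x40464 x40474 x40476 x40482 x40502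
    x40504 x40506 x40510 x40512 x40518 x40528 x40530 x40536 x40554 x40586 x40588 x40592 x40594
    x40596 x40600 x40602 x40610 x40612 x40614 x40618 x40620 x40626 x40636 x40638 x40644 x40664
    x40666 x40668 x40672 x40674 x40680 x40690 x40692 x40698 x40716 x40744 x40746 x40752 x40770
    x40832 x40838 x40840 x40844 x40846 x40848 x40856 x40858 x40862 x40864 x40866 x40870 x40872
    x40880 x40882 x40884 x40888 x40890 x40896 x40910 x40912 x40916 x40918 x40920 x40924 x40926
    x40934 x40936 x40938 x40942 x40944 x40950 x40960 x40962 x40968 x40988 x40990 x40992 x40996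
    x40998 x41004 x41014 x41016 x41022 x41040 x41072 x41074 x41078 x41080 x41082 x41086 x41088
    x41096 x41098 x41100 x41104 x41106 x41112 x41122 x41124 x41130 x41150 x41152 x41154 x41158
    x41160 x41166 x41176 x41178 x41184 x41202 x41230 x41232 x41238 x41256 x41312 x41314 x41316
    x41320 x41322 x41328 x41338 x41340 x41346 x41364 x41392 x41394 x41400 x41418 x41472 x41570
    x41576 x41578 x41588 x41594 x41596 x41600 x41602 x41604 x41612 x41614 x41618 x41620 x41622
    x41626 x41628 x41642 x41648 x41650 x41654 x41656 x41658 x41666 x41668 x41672 x41674 x41676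
    x41680 x41682 x41690 x41692 x41694 x41698 x41700 x41706 x41720 x41722 x41726 x41728 x41730
    x41734 x41736 x41744 x41746 x41748 x41752 x41754 x41760 x41770 x41772 x41778 x41804 x41810
    x41812 x41816 x41818 x41820 x41828 x41830 x41834 x41836 x41838 x41842 x41844 x41852 x41854
    x41856 x41860 x41862 x41868 x41882 x41884 x41888 x41890 x41892 x41896 x41898 x41906 x41908
    x41910 x41914 x41916 x41922 x41932 x41934 x41940 x41960 x41962 x41964 x41968 x41970 x41976
    x41986 x41988 x41994 x42012 x42044 x42046 x42050 x42052 x42054 x42058 x42060 x42068 x42070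
    x42072 x42076 x42078 x42084 x42094 x42096 x42102 x42122 x42124 x42126 x42130 x42132 x42138
    x42148 x42150 x42156 x42174 x42202 x42204 x42210 x42228 x42290 x42296 x42298 x42302 x42304
    x42306 x42314 x42316 x42320 x42322 x42324 x42328 x42330 x42338 x42340 x42342 x42346 x42348
    x42354 x42368 x42370 x42374 x42376 x42378 x42382 x42384 x42392 x42394 x42396 x42400 x42402
    x42408 x42418 x42420 x42426 x42446 x42448 x42450 x42454 x42456 x42462 x42472 x42474 x42480
    x42498 x42530 x42532 x42536 x42538 x42540 x42544 x42546 x42554 x42556 x42558 x42562 x42564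
    x42570 x42580 x42582 x42588 x42608 x42610 x42612 x42616 x42618 x42624 x42634 x42636 x42642
    x42660 x42688 x42690 x42696 x42714 x42770 x42772 x42774 x42778 x42780 x42786 x42796 x42798
    x42804 x42822 x42850 x42852 x42858 x42876 x42930 x43016 x43018 x43022 x43024 x43026 x43030
    x43032 x43040 x43042 x43044 x43048 x43050 x43056 x43066 x43068 x43074 x43094 x43096 x43098
    x43102 x43104 x43110 x43120 x43122 x43128 x43146 x43174 x43176 x43182 x43200 x43256 x43258
    x43260 x43264 x43266 x43272 x43282 x43284 x43290 x43308 x43336 x43338 x43344 x43362 x43416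
    x43498 x43500 x43506 x43524 x43578 x43748 x43754 x43756 x43760 x43762 x43764 x43772 x43774
    x43778 x43780 x43782 x43786 x43788 x43796 x43798 x43800 x43804 x43806 x43812 x43826 x43828
    x43832 x43834 x43836 x43840 x43842 x43850 x43852 x43854 x43858 x43860 x43866 x43876 x43878
    x43884 x43904 x43906 x43908 x43912 x43914 x43920 x43930 x43932 x43938 x43956 x43988 x43990
    x43994 x43996 x43998 x44002 x44004 x44012 x44014 x44016 x44020 x44022 x44028 x44038 x44040
    x44046 x44066 x44068 x44070 x44074 x44076 x44082 x44092 x44094 x44100 x44118 x44146 x44148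
    x44154 x44172 x44228 x44230 x44232 x44236 x44238 x44244 x44254 x44256 x44262 x44280 x44308
    x44310 x44316 x44334 x44388 x44474 x44476 x44480 x44482 x44484 x44488 x44490 x44498 x44500
    x44502 x44506 x44508 x44514 x44524 x44526 x44532 x44552 x44554 x44556 x44560 x44562 x44568
    x44578 x44580 x44586 x44604 x44632 x44634 x44640 x44658 x44714 x44716 x44718 x44722 x44724
    x44730 x44740 x44742 x44748 x44766 x44794 x44796 x44802 x44820 x44874 x44956 x44958 x44964
    x44982 x45036 x45200 x45202 x45204 x45208 x45210 x45216 x45226 x45228 x45234 x45252 x45280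
    x45282 x45288 x45306 x45360 x45442 x45444 x45450 x45468 x45522 x45684 x45944 x45950 x45952
    x45962 x45968 x45970 x45974 x45976 x45978 x45986 x45988 x45992 x45994 x45996 x46000 x46002
    x46016 x46022 x46024 x46028 x46030 x46032 x46040 x46042 x46046 x46048 x46050 x46054 x46056
    x46064 x46066 x46068 x46072 x46074 x46080 x46094 x46096 x46100 x46102 x46104 x46108 x46110
    x46118 x46120 x46122 x46126 x46128 x46134 x46144 x46146 x46152 x46178 x46184 x46186 x46190
    x46192 x46194 x46202 x46204 x46208 x46210 x46212 x46216 x46218 x46226 x46228 x46230 x46234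
    x46236 x46242 x46256 x46258 x46262 x46264 x46266 x46270 x46272 x46280 x46282 x46284 x46288
    x46290 x46296 x46306 x46308 x46314 x46334 x46336 x46338 x46342 x46344 x46350 x46360 x46362
    x46368 x46386 x46418 x46420 x46424 x46426 x46428 x46432 x46434 x46442 x46444 x46446 x46450
    x46452 x46458 x46468 x46470 x46476 x46496 x46498 x46500 x46504 x46506 x46512 x46522 x46524
    x46530 x46548 x46576 x46578 x46584 x46602 x46664 x46670 x46672 x46676 x46678 x46680 x46688
    x46690 x46694 x46696 x46698 x46702 x46704 x46712 x46714 x46716 x46720 x46722 x46728 x46742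
    x46744 x46748 x46750 x46752 x46756 x46758 x46766 x46768 x46770 x46774 x46776 x46782 x46792
    x46794 x46800 x46820 x46822 x46824 x46828 x46830 x46836 x46846 x46848 x46854 x46872 x46904
    x46906 x46910 x46912 x46914 x46918 x46920 x46928 x46930 x46932 x46936 x46938 x46944 x46954
    x46956 x46962 x46982 x46984 x46986 x46990 x46992 x46998 x47008 x47010 x47016 x47034 x47062
    x47064 x47070 x47088 x47144 x47146 x47148 x47152 x47154 x47160 x47170 x47172 x47178 x47196
    x47224 x47226 x47232 x47250 x47304 x47390 x47392 x47396 x47398 x47400 x47404 x47406 x47414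
    x47416 x47418 x47422 x47424 x47430 x47440 x47442 x47448 x47468 x47470 x47472 x47476 x47478
    x47484 x47494 x47496 x47502 x47520 x47548 x47550 x47556 x47574 x47630 x47632 x47634 x47638
    x47640 x47646 x47656 x47658 x47664 x47682 x47710 x47712 x47718 x47736 x47790 x47872 x47874
    x47880 x47898 x47952 x48122 x48128 x48130 x48134 x48136 x48138 x48146 x48148 x48152 x48154
    x48156 x48160 x48162 x48170 x48172 x48174 x48178 x48180 x48186 x48200 x48202 x48206 x48208
    x48210 x48214 x48216 x48224 x48226 x48228 x48232 x48234 x48240 x48250 x48252 x48258 x48278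
    x48280 x48282 x48286 x48288 x48294 x48304 x48306 x48312 x48330 x48362 x48364 x48368 x48370
    x48372 x48376 x48378 x48386 x48388 x48390 x48394 x48396 x48402 x48412 x48414 x48420 x48440
    x48442 x48444 x48448 x48450 x48456 x48466 x48468 x48474 x48492 x48520 x48522 x48528 x48546
    x48602 x48604 x48606 x48610 x48612 x48618 x48628 x48630 x48636 x48654 x48682 x48684 x48690
    x48708 x48762 x48848 x48850 x48854 x48856 x48858 x48862 x48864 x48872 x48874 x48876 x48880
    x48882 x48888 x48898 x48900 x48906 x48926 x48928 x48930 x48934 x48936 x48942 x48952 x48954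
    x48960 x48978 x49006 x49008 x49014 x49032 x49088 x49090 x49092 x49096 x49098 x49104 x49114
    x49116 x49122 x49140 x49168 x49170 x49176 x49194 x49248 x49330 x49332 x49338 x49356 x49410
    x49574 x49576 x49578 x49582 x49584 x49590 x49600 x49602 x49608 x49626 x49654 x49656 x49662
    x49680 x49734 x49816 x49818 x49824 x49842 x49896 x50058 x50306 x50308 x50312 x50314 x50316
    x50320 x50322 x50330 x50332 x50334 x50338 x50340 x50346 x50356 x50358 x50364 x50384 x50386
    x50388 x50392 x50394 x50400 x50410 x50412 x50418 x50436 x50464 x50466 x50472 x50490 x50546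
    x50548 x50550 x50554 x50556 x50562 x50572 x50574 x50580 x50598 x50626 x50628 x50634 x50652
    x50706 x50788 x50790 x50796 x50814 x50868 x51032 x51034 x51036 x51040 x51042 x51048 x51058
    x51060 x51066 x51084 x51112 x51114 x51120 x51138 x51192 x51274 x51276 x51282 x51300 x51354
    x51516 x51760 x51762 x51768 x51786 x51840 x52002 x52496 x52502 x52504 x52508 x52510 x52512
    x52520 x52522 x52526 x52528 x52530 x52534 x52536 x52544 x52546 x52548 x52552 x52554 x52560
    x52574 x52576 x52580 x52582 x52584 x52588 x52590 x52598 x52600 x52602 x52606 x52608 x52614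
    x52624 x52626 x52632 x52652 x52654 x52656 x52660 x52662 x52668 x52678 x52680 x52686 x52704
    x52736 x52738 x52742 x52744 x52746 x52750 x52752 x52760 x52762 x52764 x52768 x52770 x52776
    x52786 x52788 x52794 x52814 x52816 x52818 x52822 x52824 x52830 x52840 x52842 x52848 x52866
    x52894 x52896 x52902 x52920 x52976 x52978 x52980 x52984 x52986 x52992 x53002 x53004 x53010
    x53028 x53056 x53058 x53064 x53082 x53136 x53222 x53224 x53228 x53230 x53232 x53236 x53238
    x53246 x53248 x53250 x53254 x53256 x53262 x53272 x53274 x53280 x53300 x53302 x53304 x53308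
    x53310 x53316 x53326 x53328 x53334 x53352 x53380 x53382 x53388 x53406 x53462 x53464 x53466
    x53470 x53472 x53478 x53488 x53490 x53496 x53514 x53542 x53544 x53550 x53568 x53622 x53704
    x53706 x53712 x53730 x53784 x53948 x53950 x53952 x53956 x53958 x53964 x53974 x53976 x53982
    x54000 x54028 x54030 x54036 x54054 x54108 x54190 x54192 x54198 x54216 x54270 x54432 x54680
    x54682 x54686 x54688 x54690 x54694 x54696 x54704 x54706 x54708 x54712 x54714 x54720 x54730
    x54732 x54738 x54758 x54760 x54762 x54766 x54768 x54774 x54784 x54786 x54792 x54810 x54838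
    x54840 x54846 x54864 x54920 x54922 x54924 x54928 x54930 x54936 x54946 x54948 x54954 x54972
    x55000 x55002 x55008 x55026 x55080 x55162 x55164 x55170 x55188 x55242 x55406 x55408 x55410
    x55414 x55416 x55422 x55432 x55434 x55440 x55458 x55486 x55488 x55494 x55512 x55566 x55648
    x55650 x55656 x55674 x55728 x55890 x56134 x56136 x56142 x56160 x56214 x56376 x56864 x56866
    x56868 x56872 x56874 x56880 x56890 x56892 x56898 x56916 x56944 x56946 x56952 x56970 x57024
    x57106 x57108 x57114 x57132 x57186 x57348 x57592 x57594 x57600 x57618 x57672 x57834 x58320 : Nat) : Bool :=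
  k
    (Nat.sub (Nat.sub (Nat.add (Nat.add (Nat.add C (Nat.mul x80 (nat_lit 6))) x134) (Nat.mul (e (nat_lit 80)) ap)) x19762) (Nat.mul (e (nat_lit 80)) an))
    (Nat.sub (Nat.sub (Nat.add (Nat.add (Nat.add (Nat.add (Nat.add (Nat.add C (Nat.mul x134 (nat_lit 5))) x296) x80) x188) x152) (Nat.mul (e (nat_lit 134)) ap)) x19816) (Nat.mul (e (nat_lit 134)) an))
    (Nat.sub (Nat.sub (Nat.add (Nat.add (Nat.add (Nat.add (Nat.add (Nat.add C (Nat.mul x152 (nat_lit 4))) x314) x206) x134) x158) (Nat.mul (e (nat_lit 152)) ap)) x19834) (Nat.mul (e (nat_lit 152)) an))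
    (Nat.sub (Nat.sub (Nat.add (Nat.add (Nat.add (Nat.add (Nat.add (Nat.add C (Nat.mul x158 (nat_lit 4))) x320) x212) x152) x160) (Nat.mul (e (nat_lit 158)) ap)) x19840) (Nat.mul (e (nat_lit 158)) an))
    (Nat.sub (Nat.sub (Nat.add (Nat.add (Nat.add (Nat.add (Nat.add C (Nat.mul x160 (nat_lit 6))) x322) x214) x158) (Nat.mul (e (nat_lit 160)) ap)) x19842) (Nat.mul (e (nat_lit 160)) an))
    (Nat.sub (Nat.sub (Nat.add (Nat.add (Nat.add (Nat.add (Nat.add C (Nat.mul x188 (nat_lit 2))) x350) x134) x206) (Nat.mul (e (nat_lit 188)) ap)) x19870) (Nat.mul (e (nat_lit 188)) an))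
    (Nat.sub (Nat.sub (Nat.add (Nat.add (Nat.add (Nat.add (Nat.add (Nat.add (Nat.add C (Nat.mul x206 (nat_lit 3))) x368) x152) x188) x224) x212) (Nat.mul (e (nat_lit 206)) ap)) x19888) (Nat.mul (e (nat_lit 206)) an))
    (Nat.sub (Nat.sub (Nat.add (Nat.add (Nat.add (Nat.add (Nat.add (Nat.add (Nat.add C (Nat.mul x212 (nat_lit 2))) x374) x158) x230) x206) x214) (Nat.mul (e (nat_lit 212)) ap)) x19894) (Nat.mul (e (nat_lit 212)) an))
    (Nat.sub (Nat.add (Nat.add (Nat.add (Nat.add (Nat.add C (Nat.mul x214 (nat_lit 4))) x376) x160) x232) x212) x19896)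
    (Nat.sub (Nat.sub (Nat.add (Nat.add (Nat.add (Nat.add (Nat.add C (Nat.mul x224 (nat_lit 2))) x386) x206) x230) (Nat.mul (e (nat_lit 224)) ap)) x19906) (Nat.mul (e (nat_lit 224)) an))
    (Nat.sub (Nat.add (Nat.add (Nat.add (Nat.add (Nat.add (Nat.add C (Nat.mul x230 (nat_lit 3))) x392) x212) x224) x236) x232) x19912)
    (Nat.sub (Nat.add (Nat.add (Nat.add (Nat.add (Nat.add C (Nat.mul x232 (nat_lit 4))) x394) x214) x238) x230) x19914)
    (Nat.sub (Nat.add (Nat.add (Nat.add (Nat.add C (Nat.mul x236 (nat_lit 2))) x398) x230) x238) x19918)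
    (Nat.sub (Nat.add (Nat.add (Nat.add (Nat.add (Nat.add C (Nat.mul x238 (nat_lit 5))) x400) x232) x236) x240) x19920)
    (Nat.add (Nat.add (Nat.add C (Nat.mul x240 (nat_lit 6))) x402) x238)
    (Nat.sub (Nat.sub (Nat.add (Nat.add (Nat.add (Nat.add (Nat.add (Nat.add C (Nat.mul x296 (nat_lit 4))) x782) x134) x350) x314) (Nat.mul (e (nat_lit 296)) ap)) x19978) (Nat.mul (e (nat_lit 296)) an))
    (Nat.sub (Nat.sub (Nat.add (Nat.add (Nat.add (Nat.add (Nat.add (Nat.add (Nat.add C (Nat.mul x314 (nat_lit 2))) x800) x152) x368) x296) x320) (Nat.mul (e (nat_lit 314)) ap)) x19996) (Nat.mul (e (nat_lit 314)) an))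
    (Nat.sub (Nat.sub (Nat.add (Nat.add (Nat.add (Nat.add (Nat.add (Nat.add (Nat.add C (Nat.mul x320 (nat_lit 2))) x806) x158) x374) x314) x322) (Nat.mul (e (nat_lit 320)) ap)) x20002) (Nat.mul (e (nat_lit 320)) an))
    (Nat.sub (Nat.sub (Nat.add (Nat.add (Nat.add (Nat.add (Nat.add (Nat.add C (Nat.mul x322 (nat_lit 4))) x808) x160) x376) x320) (Nat.mul (e (nat_lit 322)) ap)) x20004) (Nat.mul (e (nat_lit 322)) an))
    (Nat.sub (Nat.sub (Nat.add (Nat.add (Nat.add (Nat.add (Nat.add (Nat.add (Nat.add C (Nat.mul x350 (nat_lit 3))) x836) x188) x512) x296) x368) (Nat.mul (e (nat_lit 350)) ap)) x20032) (Nat.mul (e (nat_lit 350)) an))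
    (Nat.sub (Nat.sub (Nat.add (Nat.add (Nat.add (Nat.add (Nat.add (Nat.add (Nat.add (Nat.add (Nat.add (Nat.add C (Nat.mul x368 (nat_lit 3))) x854) x206) x530) x314) x422) x350) x386) x374) (Nat.mul (e (nat_lit 368)) ap)) x20050) (Nat.mul (e (nat_lit 368)) an))
    (Nat.sub (Nat.sub (Nat.add (Nat.add (Nat.add (Nat.add (Nat.add (Nat.add (Nat.add (Nat.add (Nat.add (Nat.add C (Nat.mul x374 (nat_lit 2))) x860) x212) x536) x320) x428) x392) x368) x376) (Nat.mul (e (nat_lit 374)) ap)) x20056) (Nat.mul (e (nat_lit 374)) an))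
    (Nat.sub (Nat.sub (Nat.add (Nat.add (Nat.add (Nat.add (Nat.add (Nat.add (Nat.add (Nat.add (Nat.add C (Nat.mul x376 (nat_lit 4))) x862) x214) x538) x322) x430) x394) x374) (Nat.mul (e (nat_lit 376)) ap)) x20058) (Nat.mul (e (nat_lit 376)) an))
    (Nat.sub (Nat.sub (Nat.add (Nat.add (Nat.add (Nat.add (Nat.add (Nat.add (Nat.add (Nat.add C x386) x872) x224) x548) x440) x368) x392) (Nat.mul (e (nat_lit 386)) ap)) x20068) (Nat.mul (e (nat_lit 386)) an))
    (Nat.sub (Nat.sub (Nat.add (Nat.add (Nat.add (Nat.add (Nat.add (Nat.add (Nat.add (Nat.add (Nat.add (Nat.add C (Nat.mul x392 (nat_lit 2))) x878) x230) x554) x446) x374) x386) x398) x394) (Nat.mul (e (nat_lit 392)) ap)) x20074) (Nat.mul (e (nat_lit 392)) an))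
    (Nat.sub (Nat.sub (Nat.add (Nat.add (Nat.add (Nat.add (Nat.add (Nat.add (Nat.add (Nat.add (Nat.add C (Nat.mul x394 (nat_lit 3))) x880) x232) x556) x448) x376) x400) x392) (Nat.mul (e (nat_lit 394)) ap)) x20076) (Nat.mul (e (nat_lit 394)) an))
    (Nat.sub (Nat.sub (Nat.add (Nat.add (Nat.add (Nat.add (Nat.add (Nat.add (Nat.add (Nat.add C x398) x884) x236) x560) x452) x392) x400) (Nat.mul (e (nat_lit 398)) ap)) x20080) (Nat.mul (e (nat_lit 398)) an))
    (Nat.sub (Nat.sub (Nat.add (Nat.add (Nat.add (Nat.add (Nat.add (Nat.add (Nat.add (Nat.add (Nat.add C (Nat.mul x400 (nat_lit 4))) x886) x238) x562) x454) x394) x398) x402) (Nat.mul (e (nat_lit 400)) ap)) x20082) (Nat.mul (e (nat_lit 400)) an))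
    (Nat.add (Nat.add (Nat.add (Nat.add (Nat.add (Nat.add C (Nat.mul x402 (nat_lit 5))) x888) x240) x564) x456) x400)
    (Nat.sub (Nat.sub (Nat.add (Nat.add (Nat.add (Nat.add (Nat.add (Nat.add (Nat.add C (Nat.mul x422 (nat_lit 2))) x908) x584) x368) x440) x428) (Nat.mul (e (nat_lit 422)) ap)) x20104) (Nat.mul (e (nat_lit 422)) an))
    (Nat.sub (Nat.sub (Nat.add (Nat.add (Nat.add (Nat.add (Nat.add (Nat.add (Nat.add C x914) x590) x374) x446) x422) x430) (Nat.mul (e (nat_lit 428)) ap)) x20110) (Nat.mul (e (nat_lit 428)) an))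
    (Nat.sub (Nat.sub (Nat.add (Nat.add (Nat.add (Nat.add (Nat.add (Nat.add (Nat.add C (Nat.mul x430 (nat_lit 2))) x916) x592) x376) x448) x428) (Nat.mul (e (nat_lit 430)) ap)) x20112) (Nat.mul (e (nat_lit 430)) an))
    (Nat.sub (Nat.sub (Nat.add (Nat.add (Nat.add (Nat.add (Nat.add (Nat.add (Nat.add C (Nat.mul x440 (nat_lit 2))) x926) x602) x386) x422) x446) (Nat.mul (e (nat_lit 440)) ap)) x20122) (Nat.mul (e (nat_lit 440)) an))
    (Nat.sub (Nat.sub (Nat.add (Nat.add (Nat.add (Nat.add (Nat.add (Nat.add (Nat.add (Nat.add (Nat.add (Nat.add C (Nat.mul x446 (nat_lit 2))) x932) x608) x392) x428) x464) x440) x452) x448) (Nat.mul (e (nat_lit 446)) ap)) x20128) (Nat.mul (e (nat_lit 446)) an))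
    (Nat.sub (Nat.sub (Nat.add (Nat.add (Nat.add (Nat.add (Nat.add (Nat.add (Nat.add (Nat.add (Nat.add C (Nat.mul x448 (nat_lit 3))) x934) x610) x394) x430) x466) x454) x446) (Nat.mul (e (nat_lit 448)) ap)) x20130) (Nat.mul (e (nat_lit 448)) an))
    (Nat.sub (Nat.sub (Nat.add (Nat.add (Nat.add (Nat.add (Nat.add (Nat.add (Nat.add C x938) x614) x398) x470) x446) x454) (Nat.mul (e (nat_lit 452)) ap)) x20134) (Nat.mul (e (nat_lit 452)) an))
    (Nat.sub (Nat.add (Nat.add (Nat.add (Nat.add (Nat.add (Nat.add (Nat.add (Nat.add C (Nat.mul x454 (nat_lit 3))) x940) x616) x400) x472) x448) x452) x456) x20136)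
    (Nat.add (Nat.add (Nat.add (Nat.add (Nat.add (Nat.add C (Nat.mul x456 (nat_lit 4))) x942) x618) x402) x474) x454)
    (Nat.sub (Nat.sub (Nat.add (Nat.add (Nat.add (Nat.add (Nat.add (Nat.add (Nat.add C (Nat.mul x464 (nat_lit 2))) x950) x626) x446) x470) x466) (Nat.mul (e (nat_lit 464)) ap)) x20146) (Nat.mul (e (nat_lit 464)) an))
    (Nat.sub (Nat.add (Nat.add (Nat.add (Nat.add (Nat.add (Nat.add C (Nat.mul x466 (nat_lit 2))) x952) x628) x448) x472) x464) x20148)
    (Nat.sub (Nat.sub (Nat.add (Nat.add (Nat.add (Nat.add (Nat.add (Nat.add (Nat.add C (Nat.mul x470 (nat_lit 2))) x956) x632) x452) x464) x472) (Nat.mul (e (nat_lit 470)) ap)) x20152) (Nat.mul (e (nat_lit 470)) an))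
    (Nat.sub (Nat.add (Nat.add (Nat.add (Nat.add (Nat.add (Nat.add (Nat.add (Nat.add C (Nat.mul x472 (nat_lit 4))) x958) x634) x454) x466) x478) x470) x474) x20154)
    (Nat.add (Nat.add (Nat.add (Nat.add (Nat.add (Nat.add C (Nat.mul x474 (nat_lit 4))) x960) x636) x456) x480) x472)
    (Nat.sub (Nat.add (Nat.add (Nat.add (Nat.add (Nat.add C (Nat.mul x478 (nat_lit 4))) x964) x640) x472) x480) x20160)
    (Nat.add (Nat.add (Nat.add (Nat.add (Nat.add C (Nat.mul x480 (nat_lit 6))) x966) x642) x474) x478)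
    (Nat.sub (Nat.sub (Nat.add (Nat.add (Nat.add (Nat.add (Nat.add C (Nat.mul x512 (nat_lit 2))) x998) x350) x530) (Nat.mul (e (nat_lit 512)) ap)) x20194) (Nat.mul (e (nat_lit 512)) an))
    (Nat.sub (Nat.sub (Nat.add (Nat.add (Nat.add (Nat.add (Nat.add (Nat.add (Nat.add (Nat.add C x530) x1016) x368) x584) x512) x548) x536) (Nat.mul (e (nat_lit 530)) ap)) x20212) (Nat.mul (e (nat_lit 530)) an))
    (Nat.sub (Nat.sub (Nat.add (Nat.add (Nat.add (Nat.add (Nat.add (Nat.add (Nat.add C x1022) x374) x590) x554) x530) x538) (Nat.mul (e (nat_lit 536)) ap)) x20218) (Nat.mul (e (nat_lit 536)) an))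
    (Nat.sub (Nat.add (Nat.add (Nat.add (Nat.add (Nat.add (Nat.add C (Nat.mul x538 (nat_lit 2))) x1024) x376) x592) x556) x536) x20220)
    (Nat.sub (Nat.sub (Nat.sub (Nat.add (Nat.add (Nat.add (Nat.add (Nat.add (Nat.add C x1034) x386) x602) x530) x554) (Nat.mul (e (nat_lit 548)) ap)) (Nat.mul x548 (nat_lit 2))) x20230) (Nat.mul (e (nat_lit 548)) an))
    (Nat.sub (Nat.sub (Nat.sub (Nat.add (Nat.add (Nat.add (Nat.add (Nat.add (Nat.add (Nat.add (Nat.add C x1040) x392) x608) x536) x548) x560) x556) (Nat.mul (e (nat_lit 554)) ap)) x554) x20236) (Nat.mul (e (nat_lit 554)) an))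
    (Nat.sub (Nat.add (Nat.add (Nat.add (Nat.add (Nat.add (Nat.add C x1042) x394) x610) x538) x562) x554) x20238)
    (Nat.sub (Nat.sub (Nat.sub (Nat.add (Nat.add (Nat.add (Nat.add (Nat.add (Nat.add C x1046) x398) x614) x554) x562) (Nat.mul (e (nat_lit 560)) ap)) (Nat.mul x560 (nat_lit 2))) x20242) (Nat.mul (e (nat_lit 560)) an))
    (Nat.sub (Nat.add (Nat.add (Nat.add (Nat.add (Nat.add (Nat.add (Nat.add C x562) x1048) x400) x616) x556) x560) x564) x20244)
    (Nat.add (Nat.add (Nat.add (Nat.add (Nat.add C (Nat.mul x564 (nat_lit 2))) x1050) x402) x618) x562)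
    (Nat.sub (Nat.sub (Nat.add (Nat.add (Nat.add (Nat.add (Nat.add (Nat.add (Nat.add C (Nat.mul x584 (nat_lit 2))) x1070) x422) x530) x602) x590) (Nat.mul (e (nat_lit 584)) ap)) x20266) (Nat.mul (e (nat_lit 584)) an))
    (Nat.sub (Nat.sub (Nat.add (Nat.add (Nat.add (Nat.add (Nat.add (Nat.add (Nat.add C x1076) x428) x536) x608) x584) x592) (Nat.mul (e (nat_lit 590)) ap)) x20272) (Nat.mul (e (nat_lit 590)) an))
    (Nat.sub (Nat.add (Nat.add (Nat.add (Nat.add (Nat.add (Nat.add C (Nat.mul x592 (nat_lit 2))) x1078) x430) x538) x610) x590) x20274)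
    (Nat.sub (Nat.sub (Nat.add (Nat.add (Nat.add (Nat.add (Nat.add (Nat.add (Nat.add (Nat.add C x602) x1088) x440) x548) x656) x584) x608) (Nat.mul (e (nat_lit 602)) ap)) x20284) (Nat.mul (e (nat_lit 602)) an))
    (Nat.sub (Nat.sub (Nat.add (Nat.add (Nat.add (Nat.add (Nat.add (Nat.add (Nat.add (Nat.add (Nat.add (Nat.add (Nat.add C x608) x1094) x446) x554) x662) x590) x626) x602) x614) x610) (Nat.mul (e (nat_lit 608)) ap)) x20290) (Nat.mul (e (nat_lit 608)) an))
    (Nat.sub (Nat.add (Nat.add (Nat.add (Nat.add (Nat.add (Nat.add (Nat.add (Nat.add (Nat.add C (Nat.mul x610 (nat_lit 2))) x1096) x448) x556) x664) x592) x628) x616) x608) x20292)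
    (Nat.sub (Nat.sub (Nat.add (Nat.add (Nat.add (Nat.add (Nat.add (Nat.add (Nat.add C x1100) x452) x560) x668) x632) x608) x616) x614) x20296)
    (Nat.sub (Nat.add (Nat.add (Nat.add (Nat.add (Nat.add (Nat.add (Nat.add (Nat.add (Nat.add C (Nat.mul x616 (nat_lit 2))) x1102) x454) x562) x670) x634) x610) x614) x618) x20298)
    (Nat.add (Nat.add (Nat.add (Nat.add (Nat.add (Nat.add (Nat.add C (Nat.mul x618 (nat_lit 3))) x1104) x456) x564) x672) x636) x616)
    (Nat.sub (Nat.add (Nat.add (Nat.add (Nat.add (Nat.add (Nat.add C x1112) x464) x680) x608) x632) x628) x20308)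
    (Nat.sub (Nat.add (Nat.add (Nat.add (Nat.add (Nat.add (Nat.add C x1114) x466) x682) x610) x634) x626) x20310)
    (Nat.sub (Nat.add (Nat.add (Nat.add (Nat.add (Nat.add (Nat.add C x1118) x470) x686) x614) x626) x634) x20314)
    (Nat.sub (Nat.add (Nat.add (Nat.add (Nat.add (Nat.add (Nat.add (Nat.add (Nat.add (Nat.add C (Nat.mul x634 (nat_lit 2))) x1120) x472) x688) x616) x628) x640) x632) x636) x20316)
    (Nat.add (Nat.add (Nat.add (Nat.add (Nat.add (Nat.add (Nat.add C (Nat.mul x636 (nat_lit 2))) x1122) x474) x690) x618) x642) x634)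
    (Nat.sub (Nat.add (Nat.add (Nat.add (Nat.add (Nat.add (Nat.add C (Nat.mul x640 (nat_lit 2))) x1126) x478) x694) x634) x642) x20322)
    (Nat.add (Nat.add (Nat.add (Nat.add (Nat.add (Nat.add C (Nat.mul x642 (nat_lit 4))) x1128) x480) x696) x636) x640)
    (Nat.sub (Nat.sub (Nat.add (Nat.add (Nat.add (Nat.add (Nat.add C (Nat.mul x656 (nat_lit 2))) x1142) x602) x662) (Nat.mul (e (nat_lit 656)) ap)) x20338) (Nat.mul (e (nat_lit 656)) an))
    (Nat.sub (Nat.add (Nat.add (Nat.add (Nat.add (Nat.add (Nat.add (Nat.add C x662) x1148) x608) x680) x656) x668) x664) x20344)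
    (Nat.sub (Nat.add (Nat.add (Nat.add (Nat.add (Nat.add (Nat.add C (Nat.mul x664 (nat_lit 2))) x1150) x610) x682) x670) x662) x20346)
    (Nat.sub (Nat.sub (Nat.add (Nat.add (Nat.add (Nat.add (Nat.add C x1154) x614) x686) x662) x670) (Nat.mul x668 (nat_lit 2))) x20350)
    (Nat.sub (Nat.add (Nat.add (Nat.add (Nat.add (Nat.add (Nat.add (Nat.add C x670) x1156) x616) x688) x664) x668) x672) x20352)
    (Nat.add (Nat.add (Nat.add (Nat.add (Nat.add C (Nat.mul x672 (nat_lit 2))) x1158) x618) x690) x670)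
    (Nat.sub (Nat.add (Nat.add (Nat.add (Nat.add (Nat.add (Nat.add C (Nat.mul x680 (nat_lit 2))) x1166) x626) x662) x686) x682) x20362)
    (Nat.sub (Nat.add (Nat.add (Nat.add (Nat.add (Nat.add (Nat.add C (Nat.mul x682 (nat_lit 2))) x1168) x628) x664) x688) x680) x20364)
    (Nat.sub (Nat.add (Nat.add (Nat.add (Nat.add (Nat.add (Nat.add (Nat.add C x686) x1172) x632) x668) x704) x680) x688) x20368)
    (Nat.sub (Nat.add (Nat.add (Nat.add (Nat.add (Nat.add (Nat.add (Nat.add (Nat.add (Nat.add C (Nat.mul x688 (nat_lit 3))) x1174) x634) x670) x706) x682) x694) x686) x690) x20370)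
    (Nat.add (Nat.add (Nat.add (Nat.add (Nat.add (Nat.add (Nat.add C (Nat.mul x690 (nat_lit 3))) x1176) x636) x672) x708) x696) x688)
    (Nat.sub (Nat.add (Nat.add (Nat.add (Nat.add (Nat.add (Nat.add C (Nat.mul x694 (nat_lit 2))) x1180) x640) x712) x688) x696) x20376)
    (Nat.add (Nat.add (Nat.add (Nat.add (Nat.add (Nat.add C (Nat.mul x696 (nat_lit 4))) x1182) x642) x714) x690) x694)
    (Nat.sub (Nat.add (Nat.add (Nat.add (Nat.add C (Nat.mul x704 (nat_lit 2))) x1190) x686) x706) x20386)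
    (Nat.sub (Nat.add (Nat.add (Nat.add (Nat.add (Nat.add (Nat.add C (Nat.mul x706 (nat_lit 3))) x1192) x688) x712) x704) x708) x20388)
    (Nat.add (Nat.add (Nat.add (Nat.add (Nat.add C (Nat.mul x708 (nat_lit 2))) x1194) x690) x714) x706)
    (Nat.sub (Nat.add (Nat.add (Nat.add (Nat.add (Nat.add C (Nat.mul x712 (nat_lit 4))) x1198) x694) x706) x714) x20394)
    (Nat.add (Nat.add (Nat.add (Nat.add (Nat.add (Nat.add C (Nat.mul x714 (nat_lit 5))) x1200) x696) x708) x720) x712)
    (Nat.add (Nat.add (Nat.add C (Nat.mul x720 (nat_lit 6))) x1206) x714)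
    (Nat.sub (Nat.sub (Nat.add (Nat.add (Nat.add (Nat.add (Nat.add (Nat.add C (Nat.mul x782 (nat_lit 4))) x2240) x296) x836) x800) (Nat.mul (e (nat_lit 782)) ap)) x20464) (Nat.mul (e (nat_lit 782)) an))
    (Nat.sub (Nat.sub (Nat.add (Nat.add (Nat.add (Nat.add (Nat.add (Nat.add (Nat.add C (Nat.mul x800 (nat_lit 2))) x2258) x314) x854) x782) x806) (Nat.mul (e (nat_lit 800)) ap)) x20482) (Nat.mul (e (nat_lit 800)) an))
    (Nat.sub (Nat.sub (Nat.add (Nat.add (Nat.add (Nat.add (Nat.add (Nat.add (Nat.add C (Nat.mul x806 (nat_lit 2))) x2264) x320) x860) x800) x808) (Nat.mul (e (nat_lit 806)) ap)) x20488) (Nat.mul (e (nat_lit 806)) an))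
    (Nat.sub (Nat.sub (Nat.add (Nat.add (Nat.add (Nat.add (Nat.add (Nat.add C (Nat.mul x808 (nat_lit 4))) x2266) x322) x862) x806) (Nat.mul (e (nat_lit 808)) ap)) x20490) (Nat.mul (e (nat_lit 808)) an))
    (Nat.sub (Nat.sub (Nat.add (Nat.add (Nat.add (Nat.add (Nat.add (Nat.add (Nat.add C (Nat.mul x836 (nat_lit 2))) x2294) x350) x998) x782) x854) (Nat.mul (e (nat_lit 836)) ap)) x20518) (Nat.mul (e (nat_lit 836)) an))
    (Nat.sub (Nat.sub (Nat.add (Nat.add (Nat.add (Nat.add (Nat.add (Nat.add (Nat.add (Nat.add (Nat.add (Nat.add C (Nat.mul x854 (nat_lit 2))) x2312) x368) x1016) x800) x908) x836) x872) x860) (Nat.mul (e (nat_lit 854)) ap)) x20536) (Nat.mul (e (nat_lit 854)) an))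
    (Nat.sub (Nat.sub (Nat.add (Nat.add (Nat.add (Nat.add (Nat.add (Nat.add (Nat.add (Nat.add (Nat.add (Nat.add C x860) x2318) x374) x1022) x806) x914) x878) x854) x862) (Nat.mul (e (nat_lit 860)) ap)) x20542) (Nat.mul (e (nat_lit 860)) an))
    (Nat.sub (Nat.sub (Nat.add (Nat.add (Nat.add (Nat.add (Nat.add (Nat.add (Nat.add (Nat.add (Nat.add C (Nat.mul x862 (nat_lit 3))) x2320) x376) x1024) x808) x916) x880) x860) (Nat.mul (e (nat_lit 862)) ap)) x20544) (Nat.mul (e (nat_lit 862)) an))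
    (Nat.sub (Nat.sub (Nat.add (Nat.add (Nat.add (Nat.add (Nat.add (Nat.add (Nat.add C x2330) x386) x1034) x926) x854) x878) (Nat.mul (e (nat_lit 872)) ap)) x20554) (Nat.mul (e (nat_lit 872)) an))
    (Nat.sub (Nat.sub (Nat.add (Nat.add (Nat.add (Nat.add (Nat.add (Nat.add (Nat.add (Nat.add (Nat.add (Nat.add C x878) x2336) x392) x1040) x932) x860) x872) x884) x880) (Nat.mul (e (nat_lit 878)) ap)) x20560) (Nat.mul (e (nat_lit 878)) an))
    (Nat.sub (Nat.sub (Nat.add (Nat.add (Nat.add (Nat.add (Nat.add (Nat.add (Nat.add (Nat.add (Nat.add C (Nat.mul x880 (nat_lit 2))) x2338) x394) x1042) x934) x862) x886) x878) (Nat.mul (e (nat_lit 880)) ap)) x20562) (Nat.mul (e (nat_lit 880)) an))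
    (Nat.sub (Nat.sub (Nat.add (Nat.add (Nat.add (Nat.add (Nat.add (Nat.add (Nat.add C x2342) x398) x1046) x938) x878) x886) (Nat.mul (e (nat_lit 884)) ap)) x20566) (Nat.mul (e (nat_lit 884)) an))
    (Nat.sub (Nat.sub (Nat.add (Nat.add (Nat.add (Nat.add (Nat.add (Nat.add (Nat.add (Nat.add (Nat.add C (Nat.mul x886 (nat_lit 3))) x2344) x400) x1048) x940) x880) x884) x888) (Nat.mul (e (nat_lit 886)) ap)) x20568) (Nat.mul (e (nat_lit 886)) an))
    (Nat.add (Nat.add (Nat.add (Nat.add (Nat.add (Nat.add C (Nat.mul x888 (nat_lit 4))) x2346) x402) x1050) x942) x886)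
    (Nat.sub (Nat.sub (Nat.add (Nat.add (Nat.add (Nat.add (Nat.add (Nat.add (Nat.add C x2366) x422) x1070) x854) x926) x914) (Nat.mul (e (nat_lit 908)) ap)) x20590) (Nat.mul (e (nat_lit 908)) an))
    (Nat.sub (Nat.sub (Nat.sub (Nat.add (Nat.add (Nat.add (Nat.add (Nat.add (Nat.add (Nat.add (Nat.add C x2372) x428) x1076) x860) x932) x908) x916) (Nat.mul (e (nat_lit 914)) ap)) (Nat.mul x914 (nat_lit 2))) x20596) (Nat.mul (e (nat_lit 914)) an))
    (Nat.sub (Nat.sub (Nat.add (Nat.add (Nat.add (Nat.add (Nat.add (Nat.add (Nat.add C x2374) x430) x1078) x862) x934) x914) (Nat.mul (e (nat_lit 916)) ap)) x20598) (Nat.mul (e (nat_lit 916)) an))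
    (Nat.sub (Nat.sub (Nat.add (Nat.add (Nat.add (Nat.add (Nat.add (Nat.add (Nat.add C x2384) x440) x1088) x872) x908) x932) (Nat.mul (e (nat_lit 926)) ap)) x20608) (Nat.mul (e (nat_lit 926)) an))
    (Nat.sub (Nat.sub (Nat.add (Nat.add (Nat.add (Nat.add (Nat.add (Nat.add (Nat.add (Nat.add (Nat.add (Nat.add C x2390) x446) x1094) x878) x914) x950) x926) x938) x934) (Nat.mul (e (nat_lit 932)) ap)) x20614) (Nat.mul (e (nat_lit 932)) an))
    (Nat.sub (Nat.sub (Nat.add (Nat.add (Nat.add (Nat.add (Nat.add (Nat.add (Nat.add (Nat.add (Nat.add (Nat.add C x934) x2392) x448) x1096) x880) x916) x952) x940) x932) (Nat.mul (e (nat_lit 934)) ap)) x20616) (Nat.mul (e (nat_lit 934)) an))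
    (Nat.sub (Nat.sub (Nat.sub (Nat.add (Nat.add (Nat.add (Nat.add (Nat.add (Nat.add (Nat.add (Nat.add C x2396) x452) x1100) x884) x956) x932) x940) (Nat.mul (e (nat_lit 938)) ap)) (Nat.mul x938 (nat_lit 2))) x20620) (Nat.mul (e (nat_lit 938)) an))
    (Nat.sub (Nat.sub (Nat.add (Nat.add (Nat.add (Nat.add (Nat.add (Nat.add (Nat.add (Nat.add (Nat.add (Nat.add C x940) x2398) x454) x1102) x886) x958) x934) x938) x942) (Nat.mul (e (nat_lit 940)) ap)) x20622) (Nat.mul (e (nat_lit 940)) an))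
    (Nat.add (Nat.add (Nat.add (Nat.add (Nat.add (Nat.add (Nat.add C (Nat.mul x942 (nat_lit 2))) x2400) x456) x1104) x888) x960) x940)
    (Nat.sub (Nat.sub (Nat.add (Nat.add (Nat.add (Nat.add (Nat.add (Nat.add (Nat.add C x2408) x464) x1112) x932) x956) x952) (Nat.mul (e (nat_lit 950)) ap)) x20632) (Nat.mul (e (nat_lit 950)) an))
    (Nat.sub (Nat.sub (Nat.add (Nat.add (Nat.add (Nat.add (Nat.add (Nat.add (Nat.add C x2410) x466) x1114) x934) x958) x950) (Nat.mul (e (nat_lit 952)) ap)) x20634) (Nat.mul (e (nat_lit 952)) an))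
    (Nat.sub (Nat.sub (Nat.add (Nat.add (Nat.add (Nat.add (Nat.add (Nat.add (Nat.add C x2414) x470) x1118) x938) x950) x958) (Nat.mul (e (nat_lit 956)) ap)) x20638) (Nat.mul (e (nat_lit 956)) an))
    (Nat.sub (Nat.sub (Nat.add (Nat.add (Nat.add (Nat.add (Nat.add (Nat.add (Nat.add (Nat.add (Nat.add (Nat.add C (Nat.mul x958 (nat_lit 2))) x2416) x472) x1120) x940) x952) x964) x956) x960) (Nat.mul (e (nat_lit 958)) ap)) x20640) (Nat.mul (e (nat_lit 958)) an))
    (Nat.add (Nat.add (Nat.add (Nat.add (Nat.add (Nat.add (Nat.add C (Nat.mul x960 (nat_lit 2))) x2418) x474) x1122) x942) x966) x958)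
    (Nat.sub (Nat.sub (Nat.add (Nat.add (Nat.add (Nat.add (Nat.add (Nat.add (Nat.add C (Nat.mul x964 (nat_lit 2))) x2422) x478) x1126) x958) x966) (Nat.mul (e (nat_lit 964)) ap)) x20646) (Nat.mul (e (nat_lit 964)) an))
    (Nat.add (Nat.add (Nat.add (Nat.add (Nat.add (Nat.add C (Nat.mul x966 (nat_lit 4))) x2424) x480) x1128) x960) x964)
    (Nat.sub (Nat.sub (Nat.add (Nat.add (Nat.add (Nat.add (Nat.add (Nat.add (Nat.add C (Nat.mul x998 (nat_lit 3))) x2456) x512) x1484) x836) x1016) (Nat.mul (e (nat_lit 998)) ap)) x20680) (Nat.mul (e (nat_lit 998)) an))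
    (Nat.sub (Nat.sub (Nat.add (Nat.add (Nat.add (Nat.add (Nat.add (Nat.add (Nat.add (Nat.add (Nat.add (Nat.add C (Nat.mul x1016 (nat_lit 2))) x2474) x530) x1502) x854) x1070) x998) x1034) x1022) (Nat.mul (e (nat_lit 1016)) ap)) x20698) (Nat.mul (e (nat_lit 1016)) an))
    (Nat.sub (Nat.sub (Nat.add (Nat.add (Nat.add (Nat.add (Nat.add (Nat.add (Nat.add (Nat.add (Nat.add (Nat.add C x1022) x2480) x536) x1508) x860) x1076) x1040) x1016) x1024) (Nat.mul (e (nat_lit 1022)) ap)) x20704) (Nat.mul (e (nat_lit 1022)) an))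
    (Nat.sub (Nat.sub (Nat.add (Nat.add (Nat.add (Nat.add (Nat.add (Nat.add (Nat.add (Nat.add (Nat.add C (Nat.mul x1024 (nat_lit 3))) x2482) x538) x1510) x862) x1078) x1042) x1022) (Nat.mul (e (nat_lit 1024)) ap)) x20706) (Nat.mul (e (nat_lit 1024)) an))
    (Nat.sub (Nat.sub (Nat.sub (Nat.add (Nat.add (Nat.add (Nat.add (Nat.add (Nat.add (Nat.add (Nat.add C x2492) x548) x1520) x872) x1088) x1016) x1040) (Nat.mul (e (nat_lit 1034)) ap)) x1034) x20716) (Nat.mul (e (nat_lit 1034)) an))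
    (Nat.sub (Nat.sub (Nat.add (Nat.add (Nat.add (Nat.add (Nat.add (Nat.add (Nat.add (Nat.add (Nat.add (Nat.add C x2498) x554) x1526) x878) x1094) x1022) x1034) x1046) x1042) (Nat.mul (e (nat_lit 1040)) ap)) x20722) (Nat.mul (e (nat_lit 1040)) an))
    (Nat.sub (Nat.sub (Nat.add (Nat.add (Nat.add (Nat.add (Nat.add (Nat.add (Nat.add (Nat.add (Nat.add (Nat.add C x1042) x2500) x556) x1528) x880) x1096) x1024) x1048) x1040) (Nat.mul (e (nat_lit 1042)) ap)) x20724) (Nat.mul (e (nat_lit 1042)) an))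
    (Nat.sub (Nat.sub (Nat.sub (Nat.add (Nat.add (Nat.add (Nat.add (Nat.add (Nat.add (Nat.add (Nat.add C x2504) x560) x1532) x884) x1100) x1040) x1048) (Nat.mul (e (nat_lit 1046)) ap)) x1046) x20728) (Nat.mul (e (nat_lit 1046)) an))
    (Nat.sub (Nat.sub (Nat.add (Nat.add (Nat.add (Nat.add (Nat.add (Nat.add (Nat.add (Nat.add (Nat.add (Nat.add C (Nat.mul x1048 (nat_lit 2))) x2506) x562) x1534) x886) x1102) x1042) x1046) x1050) (Nat.mul (e (nat_lit 1048)) ap)) x20730) (Nat.mul (e (nat_lit 1048)) an))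
    (Nat.add (Nat.add (Nat.add (Nat.add (Nat.add (Nat.add (Nat.add C (Nat.mul x1050 (nat_lit 3))) x2508) x564) x1536) x888) x1104) x1048)
    (Nat.sub (Nat.sub (Nat.add (Nat.add (Nat.add (Nat.add (Nat.add (Nat.add (Nat.add (Nat.add (Nat.add (Nat.add C (Nat.mul x1070 (nat_lit 2))) x2528) x584) x1556) x908) x1232) x1016) x1088) x1076) (Nat.mul (e (nat_lit 1070)) ap)) x20752) (Nat.mul (e (nat_lit 1070)) an))
    (Nat.sub (Nat.sub (Nat.add (Nat.add (Nat.add (Nat.add (Nat.add (Nat.add (Nat.add (Nat.add (Nat.add (Nat.add C x2534) x590) x1562) x914) x1238) x1022) x1094) x1070) x1078) (Nat.mul (e (nat_lit 1076)) ap)) x20758) (Nat.mul (e (nat_lit 1076)) an))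
    (Nat.sub (Nat.sub (Nat.add (Nat.add (Nat.add (Nat.add (Nat.add (Nat.add (Nat.add (Nat.add (Nat.add (Nat.add C (Nat.mul x1078 (nat_lit 2))) x2536) x592) x1564) x916) x1240) x1024) x1096) x1076) (Nat.mul (e (nat_lit 1078)) ap)) x20760) (Nat.mul (e (nat_lit 1078)) an))
    (Nat.sub (Nat.sub (Nat.add (Nat.add (Nat.add (Nat.add (Nat.add (Nat.add (Nat.add (Nat.add (Nat.add (Nat.add (Nat.add C x1088) x2546) x602) x1574) x926) x1250) x1034) x1142) x1070) x1094) (Nat.mul (e (nat_lit 1088)) ap)) x20770) (Nat.mul (e (nat_lit 1088)) an))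
    (Nat.sub (Nat.sub (Nat.add (Nat.add (Nat.add (Nat.add (Nat.add (Nat.add (Nat.add (Nat.add (Nat.add (Nat.add (Nat.add (Nat.add (Nat.add (Nat.add C x1094) x2552) x608) x1580) x932) x1256) x1040) x1148) x1076) x1112) x1088) x1100) x1096) (Nat.mul (e (nat_lit 1094)) ap)) x20776) (Nat.mul (e (nat_lit 1094)) an))
    (Nat.sub (Nat.sub (Nat.add (Nat.add (Nat.add (Nat.add (Nat.add (Nat.add (Nat.add (Nat.add (Nat.add (Nat.add (Nat.add (Nat.add (Nat.add C (Nat.mul x1096 (nat_lit 2))) x2554) x610) x1582) x934) x1258) x1042) x1150) x1078) x1114) x1102) x1094) (Nat.mul (e (nat_lit 1096)) ap)) x20778) (Nat.mul (e (nat_lit 1096)) an))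
    (Nat.sub (Nat.sub (Nat.sub (Nat.add (Nat.add (Nat.add (Nat.add (Nat.add (Nat.add (Nat.add (Nat.add (Nat.add (Nat.add (Nat.add C x2558) x614) x1586) x938) x1262) x1046) x1154) x1118) x1094) x1102) (Nat.mul (e (nat_lit 1100)) ap)) x1100) x20782) (Nat.mul (e (nat_lit 1100)) an))
    (Nat.sub (Nat.sub (Nat.add (Nat.add (Nat.add (Nat.add (Nat.add (Nat.add (Nat.add (Nat.add (Nat.add (Nat.add (Nat.add (Nat.add (Nat.add C (Nat.mul x1102 (nat_lit 2))) x2560) x616) x1588) x940) x1264) x1048) x1156) x1120) x1096) x1100) x1104) (Nat.mul (e (nat_lit 1102)) ap)) x20784) (Nat.mul (e (nat_lit 1102)) an))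
    (Nat.add (Nat.add (Nat.add (Nat.add (Nat.add (Nat.add (Nat.add (Nat.add (Nat.add (Nat.add C (Nat.mul x1104 (nat_lit 3))) x2562) x618) x1590) x942) x1266) x1050) x1158) x1122) x1102)
    (Nat.sub (Nat.sub (Nat.add (Nat.add (Nat.add (Nat.add (Nat.add (Nat.add (Nat.add (Nat.add (Nat.add (Nat.add C x2570) x626) x1598) x950) x1274) x1166) x1094) x1118) x1114) (Nat.mul (e (nat_lit 1112)) ap)) x20794) (Nat.mul (e (nat_lit 1112)) an))
    (Nat.sub (Nat.sub (Nat.add (Nat.add (Nat.add (Nat.add (Nat.add (Nat.add (Nat.add (Nat.add (Nat.add (Nat.add C x2572) x628) x1600) x952) x1276) x1168) x1096) x1120) x1112) (Nat.mul (e (nat_lit 1114)) ap)) x20796) (Nat.mul (e (nat_lit 1114)) an))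
    (Nat.sub (Nat.sub (Nat.add (Nat.add (Nat.add (Nat.add (Nat.add (Nat.add (Nat.add (Nat.add (Nat.add (Nat.add C x2576) x632) x1604) x956) x1280) x1172) x1100) x1112) x1120) (Nat.mul (e (nat_lit 1118)) ap)) x20800) (Nat.mul (e (nat_lit 1118)) an))
    (Nat.sub (Nat.sub (Nat.add (Nat.add (Nat.add (Nat.add (Nat.add (Nat.add (Nat.add (Nat.add (Nat.add (Nat.add (Nat.add (Nat.add (Nat.add C (Nat.mul x1120 (nat_lit 2))) x2578) x634) x1606) x958) x1282) x1174) x1102) x1114) x1126) x1118) x1122) (Nat.mul (e (nat_lit 1120)) ap)) x20802) (Nat.mul (e (nat_lit 1120)) an))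
    (Nat.add (Nat.add (Nat.add (Nat.add (Nat.add (Nat.add (Nat.add (Nat.add (Nat.add (Nat.add C (Nat.mul x1122 (nat_lit 2))) x2580) x636) x1608) x960) x1284) x1176) x1104) x1128) x1120)
    (Nat.sub (Nat.add (Nat.add (Nat.add (Nat.add (Nat.add (Nat.add (Nat.add (Nat.add (Nat.add C (Nat.mul x1126 (nat_lit 2))) x2584) x640) x1612) x964) x1288) x1180) x1120) x1128) x20808)
    (Nat.add (Nat.add (Nat.add (Nat.add (Nat.add (Nat.add (Nat.add (Nat.add (Nat.add C (Nat.mul x1128 (nat_lit 4))) x2586) x642) x1614) x966) x1290) x1182) x1122) x1126)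
    (Nat.sub (Nat.sub (Nat.add (Nat.add (Nat.add (Nat.add (Nat.add (Nat.add (Nat.add (Nat.add C x1142) x2600) x656) x1628) x1304) x1088) x1148) (Nat.mul (e (nat_lit 1142)) ap)) x20824) (Nat.mul (e (nat_lit 1142)) an))
    (Nat.sub (Nat.sub (Nat.add (Nat.add (Nat.add (Nat.add (Nat.add (Nat.add (Nat.add (Nat.add (Nat.add (Nat.add C x2606) x662) x1634) x1310) x1094) x1166) x1142) x1154) x1150) (Nat.mul (e (nat_lit 1148)) ap)) x20830) (Nat.mul (e (nat_lit 1148)) an))
    (Nat.sub (Nat.sub (Nat.add (Nat.add (Nat.add (Nat.add (Nat.add (Nat.add (Nat.add (Nat.add (Nat.add (Nat.add C x1150) x2608) x664) x1636) x1312) x1096) x1168) x1156) x1148) (Nat.mul (e (nat_lit 1150)) ap)) x20832) (Nat.mul (e (nat_lit 1150)) an))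
    (Nat.sub (Nat.sub (Nat.sub (Nat.add (Nat.add (Nat.add (Nat.add (Nat.add (Nat.add (Nat.add (Nat.add (Nat.add C x2612) x668) x1640) x1316) x1100) x1172) x1148) x1156) (Nat.mul (e (nat_lit 1154)) ap)) (Nat.mul x1154 (nat_lit 3))) x20836) (Nat.mul (e (nat_lit 1154)) an))
    (Nat.sub (Nat.sub (Nat.add (Nat.add (Nat.add (Nat.add (Nat.add (Nat.add (Nat.add (Nat.add (Nat.add (Nat.add C x2614) x670) x1642) x1318) x1102) x1174) x1150) x1154) x1158) (Nat.mul (e (nat_lit 1156)) ap)) x20838) (Nat.mul (e (nat_lit 1156)) an))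
    (Nat.add (Nat.add (Nat.add (Nat.add (Nat.add (Nat.add (Nat.add (Nat.add C x1158) x2616) x672) x1644) x1320) x1104) x1176) x1156)
    (Nat.sub (Nat.sub (Nat.add (Nat.add (Nat.add (Nat.add (Nat.add (Nat.add (Nat.add (Nat.add (Nat.add (Nat.add C x1166) x2624) x680) x1652) x1328) x1112) x1148) x1172) x1168) (Nat.mul (e (nat_lit 1166)) ap)) x20848) (Nat.mul (e (nat_lit 1166)) an))
    (Nat.sub (Nat.sub (Nat.add (Nat.add (Nat.add (Nat.add (Nat.add (Nat.add (Nat.add (Nat.add (Nat.add (Nat.add C x1168) x2626) x682) x1654) x1330) x1114) x1150) x1174) x1166) (Nat.mul (e (nat_lit 1168)) ap)) x20850) (Nat.mul (e (nat_lit 1168)) an))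
    (Nat.sub (Nat.sub (Nat.add (Nat.add (Nat.add (Nat.add (Nat.add (Nat.add (Nat.add (Nat.add (Nat.add (Nat.add C x2630) x686) x1658) x1334) x1118) x1154) x1190) x1166) x1174) (Nat.mul (e (nat_lit 1172)) ap)) x20854) (Nat.mul (e (nat_lit 1172)) an))
    (Nat.sub (Nat.add (Nat.add (Nat.add (Nat.add (Nat.add (Nat.add (Nat.add (Nat.add (Nat.add (Nat.add (Nat.add (Nat.add C (Nat.mul x1174 (nat_lit 2))) x2632) x688) x1660) x1336) x1120) x1156) x1192) x1168) x1180) x1172) x1176) x20856)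
    (Nat.add (Nat.add (Nat.add (Nat.add (Nat.add (Nat.add (Nat.add (Nat.add (Nat.add (Nat.add C (Nat.mul x1176 (nat_lit 2))) x2634) x690) x1662) x1338) x1122) x1158) x1194) x1182) x1174)
    (Nat.sub (Nat.add (Nat.add (Nat.add (Nat.add (Nat.add (Nat.add (Nat.add (Nat.add (Nat.add C x1180) x2638) x694) x1666) x1342) x1126) x1198) x1174) x1182) x20862)
    (Nat.add (Nat.add (Nat.add (Nat.add (Nat.add (Nat.add (Nat.add (Nat.add (Nat.add C (Nat.mul x1182 (nat_lit 3))) x2640) x696) x1668) x1344) x1128) x1200) x1176) x1180)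
    (Nat.sub (Nat.sub (Nat.add (Nat.add (Nat.add (Nat.add (Nat.add (Nat.add (Nat.add (Nat.add C x1190) x2648) x704) x1676) x1352) x1172) x1192) (Nat.mul (e (nat_lit 1190)) ap)) x20872) (Nat.mul (e (nat_lit 1190)) an))
    (Nat.sub (Nat.add (Nat.add (Nat.add (Nat.add (Nat.add (Nat.add (Nat.add (Nat.add (Nat.add C (Nat.mul x1192 (nat_lit 2))) x2650) x706) x1678) x1354) x1174) x1198) x1190) x1194) x20874)
    (Nat.add (Nat.add (Nat.add (Nat.add (Nat.add (Nat.add (Nat.add (Nat.add C x1194) x2652) x708) x1680) x1356) x1176) x1200) x1192)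
    (Nat.sub (Nat.add (Nat.add (Nat.add (Nat.add (Nat.add (Nat.add (Nat.add (Nat.add C (Nat.mul x1198 (nat_lit 3))) x2656) x712) x1684) x1360) x1180) x1192) x1200) x20880)
    (Nat.add (Nat.add (Nat.add (Nat.add (Nat.add (Nat.add (Nat.add (Nat.add (Nat.add C (Nat.mul x1200 (nat_lit 4))) x2658) x714) x1686) x1362) x1182) x1194) x1206) x1198)
    (Nat.add (Nat.add (Nat.add (Nat.add (Nat.add (Nat.add C (Nat.mul x1206 (nat_lit 5))) x2664) x720) x1692) x1368) x1200)
    (Nat.sub (Nat.sub (Nat.add (Nat.add (Nat.add (Nat.add (Nat.add (Nat.add (Nat.add C (Nat.mul x1232 (nat_lit 2))) x2690) x1718) x1070) x1250) x1238) (Nat.mul (e (nat_lit 1232)) ap)) x20914) (Nat.mul (e (nat_lit 1232)) an))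
    (Nat.sub (Nat.sub (Nat.add (Nat.add (Nat.add (Nat.add (Nat.add (Nat.add (Nat.add C x2696) x1724) x1076) x1256) x1232) x1240) (Nat.mul (e (nat_lit 1238)) ap)) x20920) (Nat.mul (e (nat_lit 1238)) an))
    (Nat.sub (Nat.sub (Nat.add (Nat.add (Nat.add (Nat.add (Nat.add (Nat.add (Nat.add C (Nat.mul x1240 (nat_lit 2))) x2698) x1726) x1078) x1258) x1238) (Nat.mul (e (nat_lit 1240)) ap)) x20922) (Nat.mul (e (nat_lit 1240)) an))
    (Nat.sub (Nat.sub (Nat.add (Nat.add (Nat.add (Nat.add (Nat.add (Nat.add (Nat.add C x2708) x1736) x1088) x1304) x1232) x1256) (Nat.mul (e (nat_lit 1250)) ap)) x20932) (Nat.mul (e (nat_lit 1250)) an))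
    (Nat.sub (Nat.sub (Nat.add (Nat.add (Nat.add (Nat.add (Nat.add (Nat.add (Nat.add (Nat.add (Nat.add (Nat.add C x2714) x1742) x1094) x1310) x1238) x1274) x1250) x1262) x1258) (Nat.mul (e (nat_lit 1256)) ap)) x20938) (Nat.mul (e (nat_lit 1256)) an))
    (Nat.sub (Nat.sub (Nat.add (Nat.add (Nat.add (Nat.add (Nat.add (Nat.add (Nat.add (Nat.add (Nat.add (Nat.add C x1258) x2716) x1744) x1096) x1312) x1240) x1276) x1264) x1256) (Nat.mul (e (nat_lit 1258)) ap)) x20940) (Nat.mul (e (nat_lit 1258)) an))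
    (Nat.sub (Nat.sub (Nat.sub (Nat.add (Nat.add (Nat.add (Nat.add (Nat.add (Nat.add (Nat.add (Nat.add C x2720) x1748) x1100) x1316) x1280) x1256) x1264) (Nat.mul (e (nat_lit 1262)) ap)) (Nat.mul x1262 (nat_lit 2))) x20944) (Nat.mul (e (nat_lit 1262)) an))
    (Nat.sub (Nat.add (Nat.add (Nat.add (Nat.add (Nat.add (Nat.add (Nat.add (Nat.add (Nat.add C x1264) x2722) x1750) x1102) x1318) x1282) x1258) x1262) x1266) x20946)
    (Nat.add (Nat.add (Nat.add (Nat.add (Nat.add (Nat.add (Nat.add C (Nat.mul x1266 (nat_lit 2))) x2724) x1752) x1104) x1320) x1284) x1264)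
    (Nat.sub (Nat.sub (Nat.sub (Nat.add (Nat.add (Nat.add (Nat.add (Nat.add (Nat.add (Nat.add (Nat.add C x2732) x1760) x1112) x1328) x1256) x1280) x1276) (Nat.mul (e (nat_lit 1274)) ap)) (Nat.mul x1274 (nat_lit 2))) x20956) (Nat.mul (e (nat_lit 1274)) an))
    (Nat.sub (Nat.sub (Nat.sub (Nat.add (Nat.add (Nat.add (Nat.add (Nat.add (Nat.add (Nat.add (Nat.add C x2734) x1762) x1114) x1330) x1258) x1282) x1274) (Nat.mul (e (nat_lit 1276)) ap)) (Nat.mul x1276 (nat_lit 2))) x20958) (Nat.mul (e (nat_lit 1276)) an))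
    (Nat.sub (Nat.sub (Nat.sub (Nat.add (Nat.add (Nat.add (Nat.add (Nat.add (Nat.add (Nat.add (Nat.add C x2738) x1766) x1118) x1334) x1262) x1274) x1282) (Nat.mul (e (nat_lit 1280)) ap)) (Nat.mul x1280 (nat_lit 2))) x20962) (Nat.mul (e (nat_lit 1280)) an))
    (Nat.sub (Nat.add (Nat.add (Nat.add (Nat.add (Nat.add (Nat.add (Nat.add (Nat.add (Nat.add C x2740) x1768) x1120) x1336) x1264) x1276) x1288) x1280) x1284) x20964)
    (Nat.add (Nat.add (Nat.add (Nat.add (Nat.add (Nat.add (Nat.add C x2742) x1770) x1122) x1338) x1266) x1290) x1282)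
    (Nat.sub (Nat.add (Nat.add (Nat.add (Nat.add (Nat.add (Nat.add C x2746) x1774) x1126) x1342) x1282) x1290) x20970)
    (Nat.add (Nat.add (Nat.add (Nat.add (Nat.add (Nat.add (Nat.add C (Nat.mul x1290 (nat_lit 2))) x2748) x1776) x1128) x1344) x1284) x1288)
    (Nat.sub (Nat.sub (Nat.add (Nat.add (Nat.add (Nat.add (Nat.add (Nat.add (Nat.add C (Nat.mul x1304 (nat_lit 2))) x2762) x1790) x1142) x1250) x1310) (Nat.mul (e (nat_lit 1304)) ap)) x20986) (Nat.mul (e (nat_lit 1304)) an))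
    (Nat.sub (Nat.sub (Nat.add (Nat.add (Nat.add (Nat.add (Nat.add (Nat.add (Nat.add (Nat.add (Nat.add (Nat.add C x1310) x2768) x1796) x1148) x1256) x1328) x1304) x1316) x1312) (Nat.mul (e (nat_lit 1310)) ap)) x20992) (Nat.mul (e (nat_lit 1310)) an))
    (Nat.sub (Nat.sub (Nat.add (Nat.add (Nat.add (Nat.add (Nat.add (Nat.add (Nat.add (Nat.add (Nat.add C (Nat.mul x1312 (nat_lit 2))) x2770) x1798) x1150) x1258) x1330) x1318) x1310) (Nat.mul (e (nat_lit 1312)) ap)) x20994) (Nat.mul (e (nat_lit 1312)) an))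
    (Nat.sub (Nat.sub (Nat.sub (Nat.add (Nat.add (Nat.add (Nat.add (Nat.add (Nat.add (Nat.add (Nat.add C x2774) x1802) x1154) x1262) x1334) x1310) x1318) (Nat.mul (e (nat_lit 1316)) ap)) (Nat.mul x1316 (nat_lit 2))) x20998) (Nat.mul (e (nat_lit 1316)) an))
    (Nat.sub (Nat.add (Nat.add (Nat.add (Nat.add (Nat.add (Nat.add (Nat.add (Nat.add (Nat.add C x1318) x2776) x1804) x1156) x1264) x1336) x1312) x1316) x1320) x21000)
    (Nat.add (Nat.add (Nat.add (Nat.add (Nat.add (Nat.add (Nat.add C (Nat.mul x1320 (nat_lit 2))) x2778) x1806) x1158) x1266) x1338) x1318)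
    (Nat.sub (Nat.sub (Nat.add (Nat.add (Nat.add (Nat.add (Nat.add (Nat.add (Nat.add (Nat.add (Nat.add (Nat.add C x1328) x2786) x1814) x1166) x1274) x1382) x1310) x1334) x1330) (Nat.mul (e (nat_lit 1328)) ap)) x21010) (Nat.mul (e (nat_lit 1328)) an))
    (Nat.sub (Nat.add (Nat.add (Nat.add (Nat.add (Nat.add (Nat.add (Nat.add (Nat.add (Nat.add C x1330) x2788) x1816) x1168) x1276) x1384) x1312) x1336) x1328) x21012)
    (Nat.sub (Nat.sub (Nat.add (Nat.add (Nat.add (Nat.add (Nat.add (Nat.add (Nat.add (Nat.add (Nat.add (Nat.add C x2792) x1820) x1172) x1280) x1388) x1316) x1352) x1328) x1336) (Nat.mul (e (nat_lit 1334)) ap)) x21016) (Nat.mul (e (nat_lit 1334)) an))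
    (Nat.sub (Nat.add (Nat.add (Nat.add (Nat.add (Nat.add (Nat.add (Nat.add (Nat.add (Nat.add (Nat.add (Nat.add (Nat.add C (Nat.mul x1336 (nat_lit 2))) x2794) x1822) x1174) x1282) x1390) x1318) x1354) x1330) x1342) x1334) x1338) x21018)
    (Nat.add (Nat.add (Nat.add (Nat.add (Nat.add (Nat.add (Nat.add (Nat.add (Nat.add (Nat.add C (Nat.mul x1338 (nat_lit 2))) x2796) x1824) x1176) x1284) x1392) x1320) x1356) x1344) x1336)
    (Nat.sub (Nat.add (Nat.add (Nat.add (Nat.add (Nat.add (Nat.add (Nat.add (Nat.add (Nat.add C x1342) x2800) x1828) x1180) x1288) x1396) x1360) x1336) x1344) x21024)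
    (Nat.add (Nat.add (Nat.add (Nat.add (Nat.add (Nat.add (Nat.add (Nat.add (Nat.add C (Nat.mul x1344 (nat_lit 3))) x2802) x1830) x1182) x1290) x1398) x1362) x1338) x1342)
    (Nat.sub (Nat.sub (Nat.add (Nat.add (Nat.add (Nat.add (Nat.add (Nat.add (Nat.add C x2810) x1838) x1190) x1406) x1334) x1354) (Nat.mul (e (nat_lit 1352)) ap)) x21034) (Nat.mul (e (nat_lit 1352)) an))
    (Nat.sub (Nat.add (Nat.add (Nat.add (Nat.add (Nat.add (Nat.add (Nat.add (Nat.add (Nat.add C x1354) x2812) x1840) x1192) x1408) x1336) x1360) x1352) x1356) x21036)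
    (Nat.add (Nat.add (Nat.add (Nat.add (Nat.add (Nat.add (Nat.add C x2814) x1842) x1194) x1410) x1338) x1362) x1354)
    (Nat.sub (Nat.add (Nat.add (Nat.add (Nat.add (Nat.add (Nat.add (Nat.add (Nat.add C (Nat.mul x1360 (nat_lit 2))) x2818) x1846) x1198) x1414) x1342) x1354) x1362) x21042)
    (Nat.add (Nat.add (Nat.add (Nat.add (Nat.add (Nat.add (Nat.add (Nat.add (Nat.add C (Nat.mul x1362 (nat_lit 3))) x2820) x1848) x1200) x1416) x1344) x1356) x1368) x1360)
    (Nat.add (Nat.add (Nat.add (Nat.add (Nat.add (Nat.add C (Nat.mul x1368 (nat_lit 4))) x2826) x1854) x1206) x1422) x1362)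
    (Nat.sub (Nat.sub (Nat.add (Nat.add (Nat.add (Nat.add (Nat.add (Nat.add (Nat.add C (Nat.mul x1382 (nat_lit 2))) x2840) x1868) x1328) x1388) x1384) (Nat.mul (e (nat_lit 1382)) ap)) x21064) (Nat.mul (e (nat_lit 1382)) an))
    (Nat.sub (Nat.add (Nat.add (Nat.add (Nat.add (Nat.add (Nat.add C (Nat.mul x1384 (nat_lit 2))) x2842) x1870) x1330) x1390) x1382) x21066)
    (Nat.sub (Nat.sub (Nat.add (Nat.add (Nat.add (Nat.add (Nat.add (Nat.add (Nat.add C x2846) x1874) x1334) x1406) x1382) x1390) (Nat.mul (e (nat_lit 1388)) ap)) x21070) (Nat.mul (e (nat_lit 1388)) an))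
    (Nat.sub (Nat.add (Nat.add (Nat.add (Nat.add (Nat.add (Nat.add (Nat.add (Nat.add (Nat.add C (Nat.mul x1390 (nat_lit 2))) x2848) x1876) x1336) x1408) x1384) x1396) x1388) x1392) x21072)
    (Nat.add (Nat.add (Nat.add (Nat.add (Nat.add (Nat.add (Nat.add C (Nat.mul x1392 (nat_lit 2))) x2850) x1878) x1338) x1410) x1398) x1390)
    (Nat.sub (Nat.add (Nat.add (Nat.add (Nat.add (Nat.add (Nat.add C x2854) x1882) x1342) x1414) x1390) x1398) x21078)
    (Nat.add (Nat.add (Nat.add (Nat.add (Nat.add (Nat.add (Nat.add C (Nat.mul x1398 (nat_lit 2))) x2856) x1884) x1344) x1416) x1392) x1396)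
    (Nat.sub (Nat.sub (Nat.add (Nat.add (Nat.add (Nat.add (Nat.add (Nat.add (Nat.add C (Nat.mul x1406 (nat_lit 2))) x2864) x1892) x1352) x1388) x1408) (Nat.mul (e (nat_lit 1406)) ap)) x21088) (Nat.mul (e (nat_lit 1406)) an))
    (Nat.sub (Nat.add (Nat.add (Nat.add (Nat.add (Nat.add (Nat.add (Nat.add (Nat.add C (Nat.mul x1408 (nat_lit 3))) x2866) x1894) x1354) x1390) x1414) x1406) x1410) x21090)
    (Nat.add (Nat.add (Nat.add (Nat.add (Nat.add (Nat.add (Nat.add C (Nat.mul x1410 (nat_lit 2))) x2868) x1896) x1356) x1392) x1416) x1408)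
    (Nat.sub (Nat.add (Nat.add (Nat.add (Nat.add (Nat.add (Nat.add (Nat.add (Nat.add C (Nat.mul x1414 (nat_lit 3))) x2872) x1900) x1360) x1396) x1432) x1408) x1416) x21096)
    (Nat.add (Nat.add (Nat.add (Nat.add (Nat.add (Nat.add (Nat.add (Nat.add (Nat.add C (Nat.mul x1416 (nat_lit 4))) x2874) x1902) x1362) x1398) x1434) x1410) x1422) x1414)
    (Nat.add (Nat.add (Nat.add (Nat.add (Nat.add (Nat.add C (Nat.mul x1422 (nat_lit 4))) x2880) x1908) x1368) x1440) x1416)
    (Nat.sub (Nat.add (Nat.add (Nat.add (Nat.add (Nat.add C (Nat.mul x1432 (nat_lit 4))) x2890) x1918) x1414) x1434) x21114)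
    (Nat.add (Nat.add (Nat.add (Nat.add (Nat.add (Nat.add C (Nat.mul x1434 (nat_lit 4))) x2892) x1920) x1416) x1440) x1432)
    (Nat.add (Nat.add (Nat.add (Nat.add (Nat.add C (Nat.mul x1440 (nat_lit 6))) x2898) x1926) x1422) x1434)
    (Nat.sub (Nat.sub (Nat.add (Nat.add (Nat.add (Nat.add (Nat.add C (Nat.mul x1484 (nat_lit 2))) x2942) x998) x1502) (Nat.mul (e (nat_lit 1484)) ap)) x21166) (Nat.mul (e (nat_lit 1484)) an))
    (Nat.sub (Nat.sub (Nat.add (Nat.add (Nat.add (Nat.add (Nat.add (Nat.add (Nat.add (Nat.add C x1502) x2960) x1016) x1556) x1484) x1520) x1508) (Nat.mul (e (nat_lit 1502)) ap)) x21184) (Nat.mul (e (nat_lit 1502)) an))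
    (Nat.sub (Nat.sub (Nat.add (Nat.add (Nat.add (Nat.add (Nat.add (Nat.add (Nat.add C x2966) x1022) x1562) x1526) x1502) x1510) (Nat.mul (e (nat_lit 1508)) ap)) x21190) (Nat.mul (e (nat_lit 1508)) an))
    (Nat.sub (Nat.add (Nat.add (Nat.add (Nat.add (Nat.add (Nat.add C (Nat.mul x1510 (nat_lit 2))) x2968) x1024) x1564) x1528) x1508) x21192)
    (Nat.sub (Nat.sub (Nat.sub (Nat.add (Nat.add (Nat.add (Nat.add (Nat.add (Nat.add C x2978) x1034) x1574) x1502) x1526) (Nat.mul (e (nat_lit 1520)) ap)) (Nat.mul x1520 (nat_lit 2))) x21202) (Nat.mul (e (nat_lit 1520)) an))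
    (Nat.sub (Nat.sub (Nat.sub (Nat.add (Nat.add (Nat.add (Nat.add (Nat.add (Nat.add (Nat.add (Nat.add C x2984) x1040) x1580) x1508) x1520) x1532) x1528) (Nat.mul (e (nat_lit 1526)) ap)) x1526) x21208) (Nat.mul (e (nat_lit 1526)) an))
    (Nat.sub (Nat.add (Nat.add (Nat.add (Nat.add (Nat.add (Nat.add C x2986) x1042) x1582) x1510) x1534) x1526) x21210)
    (Nat.sub (Nat.sub (Nat.sub (Nat.add (Nat.add (Nat.add (Nat.add (Nat.add (Nat.add C x2990) x1046) x1586) x1526) x1534) (Nat.mul (e (nat_lit 1532)) ap)) (Nat.mul x1532 (nat_lit 2))) x21214) (Nat.mul (e (nat_lit 1532)) an))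
    (Nat.sub (Nat.add (Nat.add (Nat.add (Nat.add (Nat.add (Nat.add (Nat.add C x1534) x2992) x1048) x1588) x1528) x1532) x1536) x21216)
    (Nat.add (Nat.add (Nat.add (Nat.add (Nat.add C (Nat.mul x1536 (nat_lit 2))) x2994) x1050) x1590) x1534)
    (Nat.sub (Nat.sub (Nat.add (Nat.add (Nat.add (Nat.add (Nat.add (Nat.add (Nat.add C x3014) x1070) x1718) x1502) x1574) x1562) (Nat.mul (e (nat_lit 1556)) ap)) x21238) (Nat.mul (e (nat_lit 1556)) an))
    (Nat.sub (Nat.sub (Nat.sub (Nat.add (Nat.add (Nat.add (Nat.add (Nat.add (Nat.add (Nat.add (Nat.add C x3020) x1076) x1724) x1508) x1580) x1556) x1564) (Nat.mul (e (nat_lit 1562)) ap)) (Nat.mul x1562 (nat_lit 2))) x21244) (Nat.mul (e (nat_lit 1562)) an))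
    (Nat.sub (Nat.add (Nat.add (Nat.add (Nat.add (Nat.add (Nat.add C x3022) x1078) x1726) x1510) x1582) x1562) x21246)
    (Nat.sub (Nat.sub (Nat.sub (Nat.add (Nat.add (Nat.add (Nat.add (Nat.add (Nat.add (Nat.add (Nat.add C x3032) x1088) x1736) x1520) x1628) x1556) x1580) (Nat.mul (e (nat_lit 1574)) ap)) x1574) x21256) (Nat.mul (e (nat_lit 1574)) an))
    (Nat.sub (Nat.sub (Nat.sub (Nat.add (Nat.add (Nat.add (Nat.add (Nat.add (Nat.add (Nat.add (Nat.add (Nat.add (Nat.add (Nat.add C x3038) x1094) x1742) x1526) x1634) x1562) x1598) x1574) x1586) x1582) (Nat.mul (e (nat_lit 1580)) ap)) x1580) x21262) (Nat.mul (e (nat_lit 1580)) an))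
    (Nat.sub (Nat.add (Nat.add (Nat.add (Nat.add (Nat.add (Nat.add (Nat.add (Nat.add (Nat.add C x3040) x1096) x1744) x1528) x1636) x1564) x1600) x1588) x1580) x21264)
    (Nat.sub (Nat.sub (Nat.sub (Nat.add (Nat.add (Nat.add (Nat.add (Nat.add (Nat.add (Nat.add (Nat.add (Nat.add C x3044) x1100) x1748) x1532) x1640) x1604) x1580) x1588) (Nat.mul (e (nat_lit 1586)) ap)) (Nat.mul x1586 (nat_lit 3))) x21268) (Nat.mul (e (nat_lit 1586)) an))
    (Nat.sub (Nat.add (Nat.add (Nat.add (Nat.add (Nat.add (Nat.add (Nat.add (Nat.add (Nat.add C x3046) x1102) x1750) x1534) x1642) x1606) x1582) x1586) x1590) x21270)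
    (Nat.add (Nat.add (Nat.add (Nat.add (Nat.add (Nat.add (Nat.add (Nat.add C x1590) x3048) x1104) x1752) x1536) x1644) x1608) x1588)
    (Nat.sub (Nat.sub (Nat.sub (Nat.add (Nat.add (Nat.add (Nat.add (Nat.add (Nat.add (Nat.add (Nat.add C x3056) x1112) x1760) x1652) x1580) x1604) x1600) (Nat.mul (e (nat_lit 1598)) ap)) (Nat.mul x1598 (nat_lit 2))) x21280) (Nat.mul (e (nat_lit 1598)) an))
    (Nat.sub (Nat.sub (Nat.add (Nat.add (Nat.add (Nat.add (Nat.add (Nat.add (Nat.add C x3058) x1114) x1762) x1654) x1582) x1606) x1598) (Nat.mul x1600 (nat_lit 2))) x21282)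
    (Nat.sub (Nat.sub (Nat.sub (Nat.add (Nat.add (Nat.add (Nat.add (Nat.add (Nat.add (Nat.add (Nat.add C x3062) x1118) x1766) x1658) x1586) x1598) x1606) (Nat.mul (e (nat_lit 1604)) ap)) (Nat.mul x1604 (nat_lit 2))) x21286) (Nat.mul (e (nat_lit 1604)) an))
    (Nat.sub (Nat.add (Nat.add (Nat.add (Nat.add (Nat.add (Nat.add (Nat.add (Nat.add (Nat.add C x3064) x1120) x1768) x1660) x1588) x1600) x1612) x1604) x1608) x21288)
    (Nat.add (Nat.add (Nat.add (Nat.add (Nat.add (Nat.add (Nat.add C x3066) x1122) x1770) x1662) x1590) x1614) x1606)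
    (Nat.sub (Nat.add (Nat.add (Nat.add (Nat.add (Nat.add (Nat.add C x3070) x1126) x1774) x1666) x1606) x1614) x21294)
    (Nat.add (Nat.add (Nat.add (Nat.add (Nat.add (Nat.add (Nat.add C (Nat.mul x1614 (nat_lit 2))) x3072) x1128) x1776) x1668) x1608) x1612)
    (Nat.sub (Nat.sub (Nat.sub (Nat.add (Nat.add (Nat.add (Nat.add (Nat.add (Nat.add C x3086) x1142) x1790) x1574) x1634) (Nat.mul (e (nat_lit 1628)) ap)) (Nat.mul x1628 (nat_lit 2))) x21310) (Nat.mul (e (nat_lit 1628)) an))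
    (Nat.sub (Nat.sub (Nat.sub (Nat.add (Nat.add (Nat.add (Nat.add (Nat.add (Nat.add (Nat.add (Nat.add (Nat.add C x3092) x1148) x1796) x1580) x1652) x1628) x1640) x1636) (Nat.mul (e (nat_lit 1634)) ap)) (Nat.mul x1634 (nat_lit 3))) x21316) (Nat.mul (e (nat_lit 1634)) an))
    (Nat.sub (Nat.sub (Nat.add (Nat.add (Nat.add (Nat.add (Nat.add (Nat.add (Nat.add C x3094) x1150) x1798) x1582) x1654) x1642) x1634) (Nat.mul x1636 (nat_lit 2))) x21318)
    (Nat.sub (Nat.sub (Nat.sub (Nat.add (Nat.add (Nat.add (Nat.add (Nat.add (Nat.add (Nat.add (Nat.add C x3098) x1154) x1802) x1586) x1658) x1634) x1642) (Nat.mul (e (nat_lit 1640)) ap)) (Nat.mul x1640 (nat_lit 6))) x21322) (Nat.mul (e (nat_lit 1640)) an))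
    (Nat.sub (Nat.sub (Nat.add (Nat.add (Nat.add (Nat.add (Nat.add (Nat.add (Nat.add (Nat.add C x3100) x1156) x1804) x1588) x1660) x1636) x1640) x1644) (Nat.mul x1642 (nat_lit 3))) x21324)
    (Nat.sub (Nat.add (Nat.add (Nat.add (Nat.add (Nat.add (Nat.add C x3102) x1158) x1806) x1590) x1662) x1642) (Nat.mul x1644 (nat_lit 2)))
    (Nat.sub (Nat.sub (Nat.sub (Nat.add (Nat.add (Nat.add (Nat.add (Nat.add (Nat.add (Nat.add (Nat.add C x3110) x1166) x1814) x1598) x1634) x1658) x1654) (Nat.mul (e (nat_lit 1652)) ap)) (Nat.mul x1652 (nat_lit 2))) x21334) (Nat.mul (e (nat_lit 1652)) an))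
    (Nat.sub (Nat.sub (Nat.add (Nat.add (Nat.add (Nat.add (Nat.add (Nat.add (Nat.add C x3112) x1168) x1816) x1600) x1636) x1660) x1652) (Nat.mul x1654 (nat_lit 2))) x21336)
    (Nat.sub (Nat.sub (Nat.add (Nat.add (Nat.add (Nat.add (Nat.add (Nat.add (Nat.add (Nat.add C x3116) x1172) x1820) x1604) x1640) x1676) x1652) x1660) (Nat.mul x1658 (nat_lit 3))) x21340)
    (Nat.sub (Nat.sub (Nat.add (Nat.add (Nat.add (Nat.add (Nat.add (Nat.add (Nat.add (Nat.add (Nat.add (Nat.add C x3118) x1174) x1822) x1606) x1642) x1678) x1654) x1666) x1658) x1662) x1660) x21342)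
    (Nat.sub (Nat.add (Nat.add (Nat.add (Nat.add (Nat.add (Nat.add (Nat.add (Nat.add C x3120) x1176) x1824) x1608) x1644) x1680) x1668) x1660) x1662)
    (Nat.sub (Nat.sub (Nat.add (Nat.add (Nat.add (Nat.add (Nat.add (Nat.add (Nat.add C x3124) x1180) x1828) x1612) x1684) x1660) x1668) (Nat.mul x1666 (nat_lit 2))) x21348)
    (Nat.add (Nat.add (Nat.add (Nat.add (Nat.add (Nat.add (Nat.add C x3126) x1182) x1830) x1614) x1686) x1662) x1666)
    (Nat.sub (Nat.sub (Nat.add (Nat.add (Nat.add (Nat.add (Nat.add C x3134) x1190) x1838) x1658) x1678) (Nat.mul x1676 (nat_lit 2))) x21358)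
    (Nat.sub (Nat.sub (Nat.add (Nat.add (Nat.add (Nat.add (Nat.add (Nat.add (Nat.add C x3136) x1192) x1840) x1660) x1684) x1676) x1680) x1678) x21360)
    (Nat.sub (Nat.add (Nat.add (Nat.add (Nat.add (Nat.add (Nat.add C x3138) x1194) x1842) x1662) x1686) x1678) (Nat.mul x1680 (nat_lit 2)))
    (Nat.sub (Nat.add (Nat.add (Nat.add (Nat.add (Nat.add (Nat.add C x3142) x1198) x1846) x1666) x1678) x1686) x21366)
    (Nat.add (Nat.add (Nat.add (Nat.add (Nat.add (Nat.add (Nat.add (Nat.add C x1686) x3144) x1200) x1848) x1668) x1680) x1692) x1684)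
    (Nat.add (Nat.add (Nat.add (Nat.add (Nat.add C (Nat.mul x1692 (nat_lit 2))) x3150) x1206) x1854) x1686)
    (Nat.sub (Nat.sub (Nat.add (Nat.add (Nat.add (Nat.add (Nat.add (Nat.add (Nat.add C (Nat.mul x1718 (nat_lit 2))) x3176) x1232) x1556) x1736) x1724) (Nat.mul (e (nat_lit 1718)) ap)) x21400) (Nat.mul (e (nat_lit 1718)) an))
    (Nat.sub (Nat.sub (Nat.add (Nat.add (Nat.add (Nat.add (Nat.add (Nat.add (Nat.add C x3182) x1238) x1562) x1742) x1718) x1726) (Nat.mul (e (nat_lit 1724)) ap)) x21406) (Nat.mul (e (nat_lit 1724)) an))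
    (Nat.sub (Nat.add (Nat.add (Nat.add (Nat.add (Nat.add (Nat.add C (Nat.mul x1726 (nat_lit 2))) x3184) x1240) x1564) x1744) x1724) x21408)
    (Nat.sub (Nat.sub (Nat.add (Nat.add (Nat.add (Nat.add (Nat.add (Nat.add (Nat.add C x3194) x1250) x1574) x1790) x1718) x1742) (Nat.mul (e (nat_lit 1736)) ap)) x21418) (Nat.mul (e (nat_lit 1736)) an))
    (Nat.sub (Nat.sub (Nat.add (Nat.add (Nat.add (Nat.add (Nat.add (Nat.add (Nat.add (Nat.add (Nat.add (Nat.add C x3200) x1256) x1580) x1796) x1724) x1760) x1736) x1748) x1744) (Nat.mul (e (nat_lit 1742)) ap)) x21424) (Nat.mul (e (nat_lit 1742)) an))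
    (Nat.sub (Nat.add (Nat.add (Nat.add (Nat.add (Nat.add (Nat.add (Nat.add (Nat.add (Nat.add C x1744) x3202) x1258) x1582) x1798) x1726) x1762) x1750) x1742) x21426)
    (Nat.sub (Nat.sub (Nat.add (Nat.add (Nat.add (Nat.add (Nat.add (Nat.add (Nat.add C x3206) x1262) x1586) x1802) x1766) x1742) x1750) (Nat.mul x1748 (nat_lit 2))) x21430)
    (Nat.sub (Nat.add (Nat.add (Nat.add (Nat.add (Nat.add (Nat.add (Nat.add (Nat.add (Nat.add C x1750) x3208) x1264) x1588) x1804) x1768) x1744) x1748) x1752) x21432)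
    (Nat.add (Nat.add (Nat.add (Nat.add (Nat.add (Nat.add (Nat.add C (Nat.mul x1752 (nat_lit 2))) x3210) x1266) x1590) x1806) x1770) x1750)
    (Nat.sub (Nat.sub (Nat.sub (Nat.add (Nat.add (Nat.add (Nat.add (Nat.add (Nat.add (Nat.add (Nat.add C x3218) x1274) x1598) x1814) x1742) x1766) x1762) (Nat.mul (e (nat_lit 1760)) ap)) (Nat.mul x1760 (nat_lit 2))) x21442) (Nat.mul (e (nat_lit 1760)) an))
    (Nat.sub (Nat.sub (Nat.add (Nat.add (Nat.add (Nat.add (Nat.add (Nat.add (Nat.add C x3220) x1276) x1600) x1816) x1744) x1768) x1760) (Nat.mul x1762 (nat_lit 2))) x21444)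
    (Nat.sub (Nat.sub (Nat.add (Nat.add (Nat.add (Nat.add (Nat.add (Nat.add (Nat.add C x3224) x1280) x1604) x1820) x1748) x1760) x1768) (Nat.mul x1766 (nat_lit 2))) x21448)
    (Nat.sub (Nat.add (Nat.add (Nat.add (Nat.add (Nat.add (Nat.add (Nat.add (Nat.add (Nat.add C x3226) x1282) x1606) x1822) x1750) x1762) x1774) x1766) x1770) x21450)
    (Nat.add (Nat.add (Nat.add (Nat.add (Nat.add (Nat.add (Nat.add C x3228) x1284) x1608) x1824) x1752) x1776) x1768)
    (Nat.sub (Nat.add (Nat.add (Nat.add (Nat.add (Nat.add (Nat.add C x3232) x1288) x1612) x1828) x1768) x1776) x21456)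
    (Nat.add (Nat.add (Nat.add (Nat.add (Nat.add (Nat.add (Nat.add C (Nat.mul x1776 (nat_lit 2))) x3234) x1290) x1614) x1830) x1770) x1774)
    (Nat.sub (Nat.sub (Nat.add (Nat.add (Nat.add (Nat.add (Nat.add (Nat.add (Nat.add (Nat.add C x1790) x3248) x1304) x1628) x1952) x1736) x1796) (Nat.mul (e (nat_lit 1790)) ap)) x21472) (Nat.mul (e (nat_lit 1790)) an))
    (Nat.sub (Nat.sub (Nat.add (Nat.add (Nat.add (Nat.add (Nat.add (Nat.add (Nat.add (Nat.add (Nat.add (Nat.add C x3254) x1310) x1634) x1958) x1742) x1814) x1790) x1802) x1798) (Nat.mul (e (nat_lit 1796)) ap)) x21478) (Nat.mul (e (nat_lit 1796)) an))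
    (Nat.sub (Nat.add (Nat.add (Nat.add (Nat.add (Nat.add (Nat.add (Nat.add (Nat.add (Nat.add C x1798) x3256) x1312) x1636) x1960) x1744) x1816) x1804) x1796) x21480)
    (Nat.sub (Nat.sub (Nat.add (Nat.add (Nat.add (Nat.add (Nat.add (Nat.add (Nat.add (Nat.add C x3260) x1316) x1640) x1964) x1748) x1820) x1796) x1804) (Nat.mul x1802 (nat_lit 3))) x21484)
    (Nat.sub (Nat.add (Nat.add (Nat.add (Nat.add (Nat.add (Nat.add (Nat.add (Nat.add (Nat.add C x3262) x1318) x1642) x1966) x1750) x1822) x1798) x1802) x1806) x21486)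
    (Nat.add (Nat.add (Nat.add (Nat.add (Nat.add (Nat.add (Nat.add (Nat.add C x1806) x3264) x1320) x1644) x1968) x1752) x1824) x1804)
    (Nat.sub (Nat.add (Nat.add (Nat.add (Nat.add (Nat.add (Nat.add (Nat.add (Nat.add (Nat.add C x3272) x1328) x1652) x1976) x1760) x1868) x1796) x1820) x1816) x21496)
    (Nat.sub (Nat.add (Nat.add (Nat.add (Nat.add (Nat.add (Nat.add (Nat.add (Nat.add (Nat.add C x3274) x1330) x1654) x1978) x1762) x1870) x1798) x1822) x1814) x21498)
    (Nat.sub (Nat.sub (Nat.add (Nat.add (Nat.add (Nat.add (Nat.add (Nat.add (Nat.add (Nat.add (Nat.add (Nat.add C x3278) x1334) x1658) x1982) x1766) x1874) x1802) x1838) x1814) x1822) x1820) x21502)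
    (Nat.sub (Nat.add (Nat.add (Nat.add (Nat.add (Nat.add (Nat.add (Nat.add (Nat.add (Nat.add (Nat.add (Nat.add (Nat.add (Nat.add C x1822) x3280) x1336) x1660) x1984) x1768) x1876) x1804) x1840) x1816) x1828) x1820) x1824) x21504)
    (Nat.add (Nat.add (Nat.add (Nat.add (Nat.add (Nat.add (Nat.add (Nat.add (Nat.add (Nat.add (Nat.add C x1824) x3282) x1338) x1662) x1986) x1770) x1878) x1806) x1842) x1830) x1822)
    (Nat.sub (Nat.add (Nat.add (Nat.add (Nat.add (Nat.add (Nat.add (Nat.add (Nat.add (Nat.add C x3286) x1342) x1666) x1990) x1774) x1882) x1846) x1822) x1830) x21510)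
    (Nat.add (Nat.add (Nat.add (Nat.add (Nat.add (Nat.add (Nat.add (Nat.add (Nat.add (Nat.add C (Nat.mul x1830 (nat_lit 2))) x3288) x1344) x1668) x1992) x1776) x1884) x1848) x1824) x1828)
    (Nat.sub (Nat.sub (Nat.add (Nat.add (Nat.add (Nat.add (Nat.add (Nat.add (Nat.add C x3296) x1352) x1676) x2000) x1892) x1820) x1840) x1838) x21520)
    (Nat.sub (Nat.add (Nat.add (Nat.add (Nat.add (Nat.add (Nat.add (Nat.add (Nat.add (Nat.add C x3298) x1354) x1678) x2002) x1894) x1822) x1846) x1838) x1842) x21522)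
    (Nat.sub (Nat.add (Nat.add (Nat.add (Nat.add (Nat.add (Nat.add (Nat.add (Nat.add C x3300) x1356) x1680) x2004) x1896) x1824) x1848) x1840) x1842)
    (Nat.sub (Nat.add (Nat.add (Nat.add (Nat.add (Nat.add (Nat.add (Nat.add (Nat.add (Nat.add C x1846) x3304) x1360) x1684) x2008) x1900) x1828) x1840) x1848) x21528)
    (Nat.add (Nat.add (Nat.add (Nat.add (Nat.add (Nat.add (Nat.add (Nat.add (Nat.add (Nat.add C (Nat.mul x1848 (nat_lit 2))) x3306) x1362) x1686) x2010) x1902) x1830) x1842) x1854) x1846)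
    (Nat.add (Nat.add (Nat.add (Nat.add (Nat.add (Nat.add (Nat.add C (Nat.mul x1854 (nat_lit 3))) x3312) x1368) x1692) x2016) x1908) x1848)
    (Nat.sub (Nat.add (Nat.add (Nat.add (Nat.add (Nat.add (Nat.add C x3326) x1382) x2030) x1814) x1874) x1870) x21550)
    (Nat.sub (Nat.add (Nat.add (Nat.add (Nat.add (Nat.add (Nat.add C x3328) x1384) x2032) x1816) x1876) x1868) x21552)
    (Nat.sub (Nat.sub (Nat.add (Nat.add (Nat.add (Nat.add (Nat.add (Nat.add (Nat.add C x3332) x1388) x2036) x1820) x1892) x1868) x1876) (Nat.mul x1874 (nat_lit 2))) x21556)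
    (Nat.sub (Nat.add (Nat.add (Nat.add (Nat.add (Nat.add (Nat.add (Nat.add (Nat.add (Nat.add C x3334) x1390) x2038) x1822) x1894) x1870) x1882) x1874) x1878) x21558)
    (Nat.add (Nat.add (Nat.add (Nat.add (Nat.add (Nat.add (Nat.add C x3336) x1392) x2040) x1824) x1896) x1884) x1876)
    (Nat.sub (Nat.sub (Nat.add (Nat.add (Nat.add (Nat.add (Nat.add (Nat.add (Nat.add C x3340) x1396) x2044) x1828) x1900) x1876) x1884) (Nat.mul x1882 (nat_lit 2))) x21564)
    (Nat.add (Nat.add (Nat.add (Nat.add (Nat.add (Nat.add (Nat.add C x3342) x1398) x2046) x1830) x1902) x1878) x1882)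
    (Nat.sub (Nat.add (Nat.add (Nat.add (Nat.add (Nat.add (Nat.add C x3350) x1406) x2054) x1838) x1874) x1894) x21574)
    (Nat.sub (Nat.add (Nat.add (Nat.add (Nat.add (Nat.add (Nat.add (Nat.add (Nat.add (Nat.add C x1894) x3352) x1408) x2056) x1840) x1876) x1900) x1892) x1896) x21576)
    (Nat.add (Nat.add (Nat.add (Nat.add (Nat.add (Nat.add (Nat.add C x3354) x1410) x2058) x1842) x1878) x1902) x1894)
    (Nat.sub (Nat.add (Nat.add (Nat.add (Nat.add (Nat.add (Nat.add (Nat.add (Nat.add (Nat.add C x1900) x3358) x1414) x2062) x1846) x1882) x1918) x1894) x1902) x21582)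
    (Nat.add (Nat.add (Nat.add (Nat.add (Nat.add (Nat.add (Nat.add (Nat.add (Nat.add (Nat.add C (Nat.mul x1902 (nat_lit 2))) x3360) x1416) x2064) x1848) x1884) x1920) x1896) x1908) x1900)
    (Nat.add (Nat.add (Nat.add (Nat.add (Nat.add (Nat.add (Nat.add C (Nat.mul x1908 (nat_lit 2))) x3366) x1422) x2070) x1854) x1926) x1902)
    (Nat.sub (Nat.add (Nat.add (Nat.add (Nat.add (Nat.add (Nat.add C (Nat.mul x1918 (nat_lit 2))) x3376) x1432) x2080) x1900) x1920) x21600)
    (Nat.add (Nat.add (Nat.add (Nat.add (Nat.add (Nat.add (Nat.add C (Nat.mul x1920 (nat_lit 2))) x3378) x1434) x2082) x1902) x1926) x1918)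
    (Nat.add (Nat.add (Nat.add (Nat.add (Nat.add (Nat.add C (Nat.mul x1926 (nat_lit 4))) x3384) x1440) x2088) x1908) x1920)
    (Nat.sub (Nat.sub (Nat.add (Nat.add (Nat.add (Nat.add (Nat.add C (Nat.mul x1952 (nat_lit 2))) x3410) x1790) x1958) (Nat.mul (e (nat_lit 1952)) ap)) x21634) (Nat.mul (e (nat_lit 1952)) an))
    (Nat.sub (Nat.add (Nat.add (Nat.add (Nat.add (Nat.add (Nat.add (Nat.add C x1958) x3416) x1796) x1976) x1952) x1964) x1960) x21640)
    (Nat.sub (Nat.add (Nat.add (Nat.add (Nat.add (Nat.add (Nat.add C (Nat.mul x1960 (nat_lit 2))) x3418) x1798) x1978) x1966) x1958) x21642)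
    (Nat.sub (Nat.sub (Nat.add (Nat.add (Nat.add (Nat.add (Nat.add C x3422) x1802) x1982) x1958) x1966) (Nat.mul x1964 (nat_lit 2))) x21646)
    (Nat.sub (Nat.add (Nat.add (Nat.add (Nat.add (Nat.add (Nat.add (Nat.add C x1966) x3424) x1804) x1984) x1960) x1964) x1968) x21648)
    (Nat.add (Nat.add (Nat.add (Nat.add (Nat.add C (Nat.mul x1968 (nat_lit 2))) x3426) x1806) x1986) x1966)
    (Nat.sub (Nat.add (Nat.add (Nat.add (Nat.add (Nat.add (Nat.add C x3434) x1814) x2030) x1958) x1982) x1978) x21658)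
    (Nat.sub (Nat.add (Nat.add (Nat.add (Nat.add (Nat.add (Nat.add C x3436) x1816) x2032) x1960) x1984) x1976) x21660)
    (Nat.sub (Nat.sub (Nat.add (Nat.add (Nat.add (Nat.add (Nat.add (Nat.add (Nat.add C x3440) x1820) x2036) x1964) x2000) x1976) x1984) x1982) x21664)
    (Nat.sub (Nat.add (Nat.add (Nat.add (Nat.add (Nat.add (Nat.add (Nat.add (Nat.add (Nat.add (Nat.add C x1984) x3442) x1822) x2038) x1966) x2002) x1978) x1990) x1982) x1986) x21666)
    (Nat.add (Nat.add (Nat.add (Nat.add (Nat.add (Nat.add (Nat.add (Nat.add C x1986) x3444) x1824) x2040) x1968) x2004) x1992) x1984)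
    (Nat.sub (Nat.add (Nat.add (Nat.add (Nat.add (Nat.add (Nat.add C x3448) x1828) x2044) x2008) x1984) x1992) x21672)
    (Nat.add (Nat.add (Nat.add (Nat.add (Nat.add (Nat.add (Nat.add C (Nat.mul x1992 (nat_lit 2))) x3450) x1830) x2046) x2010) x1986) x1990)
    (Nat.sub (Nat.sub (Nat.add (Nat.add (Nat.add (Nat.add (Nat.add C x3458) x1838) x2054) x1982) x2002) (Nat.mul x2000 (nat_lit 2))) x21682)
    (Nat.sub (Nat.sub (Nat.add (Nat.add (Nat.add (Nat.add (Nat.add (Nat.add (Nat.add C x3460) x1840) x2056) x1984) x2008) x2000) x2004) x2002) x21684)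
    (Nat.sub (Nat.add (Nat.add (Nat.add (Nat.add (Nat.add (Nat.add C x3462) x1842) x2058) x1986) x2010) x2002) (Nat.mul x2004 (nat_lit 2)))
    (Nat.sub (Nat.add (Nat.add (Nat.add (Nat.add (Nat.add (Nat.add C x3466) x1846) x2062) x1990) x2002) x2010) x21690)
    (Nat.add (Nat.add (Nat.add (Nat.add (Nat.add (Nat.add (Nat.add (Nat.add C x2010) x3468) x1848) x2064) x1992) x2004) x2016) x2008)
    (Nat.add (Nat.add (Nat.add (Nat.add (Nat.add C (Nat.mul x2016 (nat_lit 2))) x3474) x1854) x2070) x2010)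
    (Nat.sub (Nat.add (Nat.add (Nat.add (Nat.add (Nat.add (Nat.add C (Nat.mul x2030 (nat_lit 2))) x3488) x1868) x1976) x2036) x2032) x21712)
    (Nat.sub (Nat.add (Nat.add (Nat.add (Nat.add (Nat.add (Nat.add C (Nat.mul x2032 (nat_lit 2))) x3490) x1870) x1978) x2038) x2030) x21714)
    (Nat.sub (Nat.add (Nat.add (Nat.add (Nat.add (Nat.add (Nat.add C x3494) x1874) x1982) x2054) x2030) x2038) x21718)
    (Nat.sub (Nat.add (Nat.add (Nat.add (Nat.add (Nat.add (Nat.add (Nat.add (Nat.add (Nat.add C (Nat.mul x2038 (nat_lit 2))) x3496) x1876) x1984) x2056) x2032) x2044) x2036) x2040) x21720)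
    (Nat.add (Nat.add (Nat.add (Nat.add (Nat.add (Nat.add (Nat.add C (Nat.mul x2040 (nat_lit 2))) x3498) x1878) x1986) x2058) x2046) x2038)
    (Nat.sub (Nat.add (Nat.add (Nat.add (Nat.add (Nat.add (Nat.add C x3502) x1882) x1990) x2062) x2038) x2046) x21726)
    (Nat.add (Nat.add (Nat.add (Nat.add (Nat.add (Nat.add (Nat.add C (Nat.mul x2046 (nat_lit 2))) x3504) x1884) x1992) x2064) x2040) x2044)
    (Nat.sub (Nat.add (Nat.add (Nat.add (Nat.add (Nat.add (Nat.add (Nat.add C x2054) x3512) x1892) x2000) x2108) x2036) x2056) x21736)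
    (Nat.sub (Nat.add (Nat.add (Nat.add (Nat.add (Nat.add (Nat.add (Nat.add (Nat.add (Nat.add C (Nat.mul x2056 (nat_lit 2))) x3514) x1894) x2002) x2110) x2038) x2062) x2054) x2058) x21738)
    (Nat.add (Nat.add (Nat.add (Nat.add (Nat.add (Nat.add (Nat.add (Nat.add C x2058) x3516) x1896) x2004) x2112) x2040) x2064) x2056)
    (Nat.sub (Nat.add (Nat.add (Nat.add (Nat.add (Nat.add (Nat.add (Nat.add (Nat.add (Nat.add C (Nat.mul x2062 (nat_lit 2))) x3520) x1900) x2008) x2116) x2044) x2080) x2056) x2064) x21744)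
    (Nat.add (Nat.add (Nat.add (Nat.add (Nat.add (Nat.add (Nat.add (Nat.add (Nat.add (Nat.add C (Nat.mul x2064 (nat_lit 3))) x3522) x1902) x2010) x2118) x2046) x2082) x2058) x2070) x2062)
    (Nat.add (Nat.add (Nat.add (Nat.add (Nat.add (Nat.add (Nat.add C (Nat.mul x2070 (nat_lit 3))) x3528) x1908) x2016) x2124) x2088) x2064)
    (Nat.sub (Nat.add (Nat.add (Nat.add (Nat.add (Nat.add (Nat.add C (Nat.mul x2080 (nat_lit 2))) x3538) x1918) x2134) x2062) x2082) x21762)
    (Nat.add (Nat.add (Nat.add (Nat.add (Nat.add (Nat.add (Nat.add C (Nat.mul x2082 (nat_lit 2))) x3540) x1920) x2136) x2064) x2088) x2080)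
    (Nat.add (Nat.add (Nat.add (Nat.add (Nat.add (Nat.add C (Nat.mul x2088 (nat_lit 4))) x3546) x1926) x2142) x2070) x2082)
    (Nat.sub (Nat.add (Nat.add (Nat.add (Nat.add C (Nat.mul x2108 (nat_lit 2))) x3566) x2054) x2110) x21790)
    (Nat.sub (Nat.add (Nat.add (Nat.add (Nat.add (Nat.add (Nat.add C (Nat.mul x2110 (nat_lit 3))) x3568) x2056) x2116) x2108) x2112) x21792)
    (Nat.add (Nat.add (Nat.add (Nat.add (Nat.add C (Nat.mul x2112 (nat_lit 2))) x3570) x2058) x2118) x2110)
    (Nat.sub (Nat.add (Nat.add (Nat.add (Nat.add (Nat.add (Nat.add C (Nat.mul x2116 (nat_lit 2))) x3574) x2062) x2134) x2110) x2118) x21798)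
    (Nat.add (Nat.add (Nat.add (Nat.add (Nat.add (Nat.add (Nat.add C (Nat.mul x2118 (nat_lit 3))) x3576) x2064) x2136) x2112) x2124) x2116)
    (Nat.add (Nat.add (Nat.add (Nat.add (Nat.add C (Nat.mul x2124 (nat_lit 2))) x3582) x2070) x2142) x2118)
    (Nat.sub (Nat.add (Nat.add (Nat.add (Nat.add (Nat.add C (Nat.mul x2134 (nat_lit 4))) x3592) x2080) x2116) x2136) x21816)
    (Nat.add (Nat.add (Nat.add (Nat.add (Nat.add (Nat.add C (Nat.mul x2136 (nat_lit 4))) x3594) x2082) x2118) x2142) x2134)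
    (Nat.add (Nat.add (Nat.add (Nat.add (Nat.add (Nat.add C (Nat.mul x2142 (nat_lit 5))) x3600) x2088) x2124) x2160) x2136)
    (Nat.add (Nat.add (Nat.add C (Nat.mul x2160 (nat_lit 6))) x3618) x2142)
    (Nat.sub (Nat.add (Nat.add (Nat.add (Nat.add (Nat.add C (Nat.mul x2240 (nat_lit 4))) x6614) x782) x2294) x2258) x21922)
    (Nat.sub (Nat.add (Nat.add (Nat.add (Nat.add (Nat.add (Nat.add C (Nat.mul x2258 (nat_lit 2))) x6632) x800) x2312) x2240) x2264) x21940)
    (Nat.sub (Nat.add (Nat.add (Nat.add (Nat.add (Nat.add (Nat.add C (Nat.mul x2264 (nat_lit 2))) x6638) x806) x2318) x2258) x2266) x21946)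
    (Nat.sub (Nat.add (Nat.add (Nat.add (Nat.add (Nat.add C (Nat.mul x2266 (nat_lit 4))) x6640) x808) x2320) x2264) x21948)
    (Nat.sub (Nat.sub (Nat.add (Nat.add (Nat.add (Nat.add (Nat.add (Nat.add (Nat.add C (Nat.mul x2294 (nat_lit 2))) x6668) x836) x2456) x2240) x2312) (Nat.mul (e (nat_lit 2294)) ap)) x21976) (Nat.mul (e (nat_lit 2294)) an))
    (Nat.sub (Nat.sub (Nat.add (Nat.add (Nat.add (Nat.add (Nat.add (Nat.add (Nat.add (Nat.add (Nat.add (Nat.add C (Nat.mul x2312 (nat_lit 2))) x6686) x854) x2474) x2258) x2366) x2294) x2330) x2318) (Nat.mul (e (nat_lit 2312)) ap)) x21994) (Nat.mul (e (nat_lit 2312)) an))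
    (Nat.sub (Nat.sub (Nat.add (Nat.add (Nat.add (Nat.add (Nat.add (Nat.add (Nat.add (Nat.add (Nat.add (Nat.add C x2318) x6692) x860) x2480) x2264) x2372) x2336) x2312) x2320) (Nat.mul (e (nat_lit 2318)) ap)) x22000) (Nat.mul (e (nat_lit 2318)) an))
    (Nat.sub (Nat.sub (Nat.add (Nat.add (Nat.add (Nat.add (Nat.add (Nat.add (Nat.add (Nat.add (Nat.add C (Nat.mul x2320 (nat_lit 3))) x6694) x862) x2482) x2266) x2374) x2338) x2318) (Nat.mul (e (nat_lit 2320)) ap)) x22002) (Nat.mul (e (nat_lit 2320)) an))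
    (Nat.sub (Nat.sub (Nat.add (Nat.add (Nat.add (Nat.add (Nat.add (Nat.add (Nat.add C x6704) x872) x2492) x2384) x2312) x2336) (Nat.mul (e (nat_lit 2330)) ap)) x22012) (Nat.mul (e (nat_lit 2330)) an))
    (Nat.sub (Nat.sub (Nat.add (Nat.add (Nat.add (Nat.add (Nat.add (Nat.add (Nat.add (Nat.add (Nat.add (Nat.add C x2336) x6710) x878) x2498) x2390) x2318) x2330) x2342) x2338) (Nat.mul (e (nat_lit 2336)) ap)) x22018) (Nat.mul (e (nat_lit 2336)) an))
    (Nat.sub (Nat.sub (Nat.add (Nat.add (Nat.add (Nat.add (Nat.add (Nat.add (Nat.add (Nat.add (Nat.add C (Nat.mul x2338 (nat_lit 2))) x6712) x880) x2500) x2392) x2320) x2344) x2336) (Nat.mul (e (nat_lit 2338)) ap)) x22020) (Nat.mul (e (nat_lit 2338)) an))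
    (Nat.sub (Nat.sub (Nat.add (Nat.add (Nat.add (Nat.add (Nat.add (Nat.add (Nat.add C x6716) x884) x2504) x2396) x2336) x2344) (Nat.mul (e (nat_lit 2342)) ap)) x22024) (Nat.mul (e (nat_lit 2342)) an))
    (Nat.sub (Nat.add (Nat.add (Nat.add (Nat.add (Nat.add (Nat.add (Nat.add (Nat.add C (Nat.mul x2344 (nat_lit 3))) x6718) x886) x2506) x2398) x2338) x2342) x2346) x22026)
    (Nat.add (Nat.add (Nat.add (Nat.add (Nat.add (Nat.add C (Nat.mul x2346 (nat_lit 4))) x6720) x888) x2508) x2400) x2344)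
    (Nat.sub (Nat.sub (Nat.add (Nat.add (Nat.add (Nat.add (Nat.add (Nat.add (Nat.add C x6740) x908) x2528) x2312) x2384) x2372) (Nat.mul (e (nat_lit 2366)) ap)) x22048) (Nat.mul (e (nat_lit 2366)) an))
    (Nat.sub (Nat.sub (Nat.sub (Nat.add (Nat.add (Nat.add (Nat.add (Nat.add (Nat.add (Nat.add (Nat.add C x6746) x914) x2534) x2318) x2390) x2366) x2374) (Nat.mul (e (nat_lit 2372)) ap)) (Nat.mul x2372 (nat_lit 2))) x22054) (Nat.mul (e (nat_lit 2372)) an))
    (Nat.sub (Nat.add (Nat.add (Nat.add (Nat.add (Nat.add (Nat.add C x6748) x916) x2536) x2320) x2392) x2372) x22056)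
    (Nat.sub (Nat.sub (Nat.add (Nat.add (Nat.add (Nat.add (Nat.add (Nat.add (Nat.add C x6758) x926) x2546) x2330) x2366) x2390) (Nat.mul (e (nat_lit 2384)) ap)) x22066) (Nat.mul (e (nat_lit 2384)) an))
    (Nat.sub (Nat.sub (Nat.add (Nat.add (Nat.add (Nat.add (Nat.add (Nat.add (Nat.add (Nat.add (Nat.add (Nat.add C x6764) x932) x2552) x2336) x2372) x2408) x2384) x2396) x2392) (Nat.mul (e (nat_lit 2390)) ap)) x22072) (Nat.mul (e (nat_lit 2390)) an))
    (Nat.sub (Nat.add (Nat.add (Nat.add (Nat.add (Nat.add (Nat.add (Nat.add (Nat.add (Nat.add C x2392) x6766) x934) x2554) x2338) x2374) x2410) x2398) x2390) x22074)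
    (Nat.sub (Nat.sub (Nat.add (Nat.add (Nat.add (Nat.add (Nat.add (Nat.add (Nat.add C x6770) x938) x2558) x2342) x2414) x2390) x2398) (Nat.mul x2396 (nat_lit 2))) x22078)
    (Nat.sub (Nat.add (Nat.add (Nat.add (Nat.add (Nat.add (Nat.add (Nat.add (Nat.add (Nat.add C x2398) x6772) x940) x2560) x2344) x2416) x2392) x2396) x2400) x22080)
    (Nat.add (Nat.add (Nat.add (Nat.add (Nat.add (Nat.add (Nat.add C (Nat.mul x2400 (nat_lit 2))) x6774) x942) x2562) x2346) x2418) x2398)
    (Nat.sub (Nat.add (Nat.add (Nat.add (Nat.add (Nat.add (Nat.add C x6782) x950) x2570) x2390) x2414) x2410) x22090)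
    (Nat.sub (Nat.add (Nat.add (Nat.add (Nat.add (Nat.add (Nat.add C x6784) x952) x2572) x2392) x2416) x2408) x22092)
    (Nat.sub (Nat.add (Nat.add (Nat.add (Nat.add (Nat.add (Nat.add C x6788) x956) x2576) x2396) x2408) x2416) x22096)
    (Nat.sub (Nat.add (Nat.add (Nat.add (Nat.add (Nat.add (Nat.add (Nat.add (Nat.add (Nat.add C (Nat.mul x2416 (nat_lit 2))) x6790) x958) x2578) x2398) x2410) x2422) x2414) x2418) x22098)
    (Nat.add (Nat.add (Nat.add (Nat.add (Nat.add (Nat.add (Nat.add C (Nat.mul x2418 (nat_lit 2))) x6792) x960) x2580) x2400) x2424) x2416)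
    (Nat.sub (Nat.add (Nat.add (Nat.add (Nat.add (Nat.add (Nat.add C (Nat.mul x2422 (nat_lit 2))) x6796) x964) x2584) x2416) x2424) x22104)
    (Nat.add (Nat.add (Nat.add (Nat.add (Nat.add (Nat.add C (Nat.mul x2424 (nat_lit 4))) x6798) x966) x2586) x2418) x2422)
    (Nat.sub (Nat.sub (Nat.add (Nat.add (Nat.add (Nat.add (Nat.add (Nat.add (Nat.add C (Nat.mul x2456 (nat_lit 2))) x6830) x998) x2942) x2294) x2474) (Nat.mul (e (nat_lit 2456)) ap)) x22138) (Nat.mul (e (nat_lit 2456)) an))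
    (Nat.sub (Nat.sub (Nat.add (Nat.add (Nat.add (Nat.add (Nat.add (Nat.add (Nat.add (Nat.add (Nat.add (Nat.add C x2474) x6848) x1016) x2960) x2312) x2528) x2456) x2492) x2480) (Nat.mul (e (nat_lit 2474)) ap)) x22156) (Nat.mul (e (nat_lit 2474)) an))
    (Nat.sub (Nat.sub (Nat.add (Nat.add (Nat.add (Nat.add (Nat.add (Nat.add (Nat.add (Nat.add (Nat.add C x6854) x1022) x2966) x2318) x2534) x2498) x2474) x2482) (Nat.mul (e (nat_lit 2480)) ap)) x22162) (Nat.mul (e (nat_lit 2480)) an))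
    (Nat.sub (Nat.sub (Nat.add (Nat.add (Nat.add (Nat.add (Nat.add (Nat.add (Nat.add (Nat.add (Nat.add C (Nat.mul x2482 (nat_lit 2))) x6856) x1024) x2968) x2320) x2536) x2500) x2480) (Nat.mul (e (nat_lit 2482)) ap)) x22164) (Nat.mul (e (nat_lit 2482)) an))
    (Nat.sub (Nat.sub (Nat.sub (Nat.add (Nat.add (Nat.add (Nat.add (Nat.add (Nat.add (Nat.add (Nat.add C x6866) x1034) x2978) x2330) x2546) x2474) x2498) (Nat.mul (e (nat_lit 2492)) ap)) (Nat.mul x2492 (nat_lit 2))) x22174) (Nat.mul (e (nat_lit 2492)) an))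
    (Nat.sub (Nat.sub (Nat.sub (Nat.add (Nat.add (Nat.add (Nat.add (Nat.add (Nat.add (Nat.add (Nat.add (Nat.add (Nat.add C x6872) x1040) x2984) x2336) x2552) x2480) x2492) x2504) x2500) (Nat.mul (e (nat_lit 2498)) ap)) x2498) x22180) (Nat.mul (e (nat_lit 2498)) an))
    (Nat.sub (Nat.sub (Nat.add (Nat.add (Nat.add (Nat.add (Nat.add (Nat.add (Nat.add (Nat.add (Nat.add C x6874) x1042) x2986) x2338) x2554) x2482) x2506) x2498) (Nat.mul (e (nat_lit 2500)) ap)) x22182) (Nat.mul (e (nat_lit 2500)) an))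
    (Nat.sub (Nat.sub (Nat.sub (Nat.add (Nat.add (Nat.add (Nat.add (Nat.add (Nat.add (Nat.add (Nat.add C x6878) x1046) x2990) x2342) x2558) x2498) x2506) (Nat.mul (e (nat_lit 2504)) ap)) (Nat.mul x2504 (nat_lit 2))) x22186) (Nat.mul (e (nat_lit 2504)) an))
    (Nat.sub (Nat.sub (Nat.add (Nat.add (Nat.add (Nat.add (Nat.add (Nat.add (Nat.add (Nat.add (Nat.add (Nat.add C x2506) x6880) x1048) x2992) x2344) x2560) x2500) x2504) x2508) (Nat.mul (e (nat_lit 2506)) ap)) x22188) (Nat.mul (e (nat_lit 2506)) an))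
    (Nat.add (Nat.add (Nat.add (Nat.add (Nat.add (Nat.add (Nat.add C (Nat.mul x2508 (nat_lit 2))) x6882) x1050) x2994) x2346) x2562) x2506)
    (Nat.sub (Nat.sub (Nat.add (Nat.add (Nat.add (Nat.add (Nat.add (Nat.add (Nat.add (Nat.add (Nat.add (Nat.add C x2528) x6902) x1070) x3014) x2366) x2690) x2474) x2546) x2534) (Nat.mul (e (nat_lit 2528)) ap)) x22210) (Nat.mul (e (nat_lit 2528)) an))
    (Nat.sub (Nat.sub (Nat.sub (Nat.add (Nat.add (Nat.add (Nat.add (Nat.add (Nat.add (Nat.add (Nat.add (Nat.add (Nat.add C x6908) x1076) x3020) x2372) x2696) x2480) x2552) x2528) x2536) (Nat.mul (e (nat_lit 2534)) ap)) x2534) x22216) (Nat.mul (e (nat_lit 2534)) an))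
    (Nat.sub (Nat.sub (Nat.add (Nat.add (Nat.add (Nat.add (Nat.add (Nat.add (Nat.add (Nat.add (Nat.add (Nat.add C x2536) x6910) x1078) x3022) x2374) x2698) x2482) x2554) x2534) (Nat.mul (e (nat_lit 2536)) ap)) x22218) (Nat.mul (e (nat_lit 2536)) an))
    (Nat.sub (Nat.sub (Nat.add (Nat.add (Nat.add (Nat.add (Nat.add (Nat.add (Nat.add (Nat.add (Nat.add (Nat.add C x6920) x1088) x3032) x2384) x2708) x2492) x2600) x2528) x2552) (Nat.mul (e (nat_lit 2546)) ap)) x22228) (Nat.mul (e (nat_lit 2546)) an))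
    (Nat.sub (Nat.sub (Nat.add (Nat.add (Nat.add (Nat.add (Nat.add (Nat.add (Nat.add (Nat.add (Nat.add (Nat.add (Nat.add (Nat.add (Nat.add C x6926) x1094) x3038) x2390) x2714) x2498) x2606) x2534) x2570) x2546) x2558) x2554) (Nat.mul (e (nat_lit 2552)) ap)) x22234) (Nat.mul (e (nat_lit 2552)) an))
    (Nat.sub (Nat.sub (Nat.add (Nat.add (Nat.add (Nat.add (Nat.add (Nat.add (Nat.add (Nat.add (Nat.add (Nat.add (Nat.add (Nat.add (Nat.add C x2554) x6928) x1096) x3040) x2392) x2716) x2500) x2608) x2536) x2572) x2560) x2552) (Nat.mul (e (nat_lit 2554)) ap)) x22236) (Nat.mul (e (nat_lit 2554)) an))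
    (Nat.sub (Nat.sub (Nat.sub (Nat.add (Nat.add (Nat.add (Nat.add (Nat.add (Nat.add (Nat.add (Nat.add (Nat.add (Nat.add (Nat.add C x6932) x1100) x3044) x2396) x2720) x2504) x2612) x2576) x2552) x2560) (Nat.mul (e (nat_lit 2558)) ap)) (Nat.mul x2558 (nat_lit 2))) x22240) (Nat.mul (e (nat_lit 2558)) an))
    (Nat.sub (Nat.sub (Nat.add (Nat.add (Nat.add (Nat.add (Nat.add (Nat.add (Nat.add (Nat.add (Nat.add (Nat.add (Nat.add (Nat.add (Nat.add C x2560) x6934) x1102) x3046) x2398) x2722) x2506) x2614) x2578) x2554) x2558) x2562) (Nat.mul (e (nat_lit 2560)) ap)) x22242) (Nat.mul (e (nat_lit 2560)) an))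
    (Nat.add (Nat.add (Nat.add (Nat.add (Nat.add (Nat.add (Nat.add (Nat.add (Nat.add (Nat.add C (Nat.mul x2562 (nat_lit 2))) x6936) x1104) x3048) x2400) x2724) x2508) x2616) x2580) x2560)
    (Nat.sub (Nat.sub (Nat.sub (Nat.add (Nat.add (Nat.add (Nat.add (Nat.add (Nat.add (Nat.add (Nat.add (Nat.add (Nat.add C x6944) x1112) x3056) x2408) x2732) x2624) x2552) x2576) x2572) (Nat.mul (e (nat_lit 2570)) ap)) x2570) x22252) (Nat.mul (e (nat_lit 2570)) an))
    (Nat.sub (Nat.sub (Nat.sub (Nat.add (Nat.add (Nat.add (Nat.add (Nat.add (Nat.add (Nat.add (Nat.add (Nat.add (Nat.add C x6946) x1114) x3058) x2410) x2734) x2626) x2554) x2578) x2570) (Nat.mul (e (nat_lit 2572)) ap)) x2572) x22254) (Nat.mul (e (nat_lit 2572)) an))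
    (Nat.sub (Nat.sub (Nat.sub (Nat.add (Nat.add (Nat.add (Nat.add (Nat.add (Nat.add (Nat.add (Nat.add (Nat.add (Nat.add C x6950) x1118) x3062) x2414) x2738) x2630) x2558) x2570) x2578) (Nat.mul (e (nat_lit 2576)) ap)) x2576) x22258) (Nat.mul (e (nat_lit 2576)) an))
    (Nat.sub (Nat.sub (Nat.add (Nat.add (Nat.add (Nat.add (Nat.add (Nat.add (Nat.add (Nat.add (Nat.add (Nat.add (Nat.add (Nat.add (Nat.add C x2578) x6952) x1120) x3064) x2416) x2740) x2632) x2560) x2572) x2584) x2576) x2580) (Nat.mul (e (nat_lit 2578)) ap)) x22260) (Nat.mul (e (nat_lit 2578)) an))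
    (Nat.add (Nat.add (Nat.add (Nat.add (Nat.add (Nat.add (Nat.add (Nat.add (Nat.add (Nat.add C x2580) x6954) x1122) x3066) x2418) x2742) x2634) x2562) x2586) x2578)
    (Nat.sub (Nat.sub (Nat.add (Nat.add (Nat.add (Nat.add (Nat.add (Nat.add (Nat.add (Nat.add (Nat.add (Nat.add C x2584) x6958) x1126) x3070) x2422) x2746) x2638) x2578) x2586) (Nat.mul (e (nat_lit 2584)) ap)) x22266) (Nat.mul (e (nat_lit 2584)) an))
    (Nat.add (Nat.add (Nat.add (Nat.add (Nat.add (Nat.add (Nat.add (Nat.add (Nat.add C (Nat.mul x2586 (nat_lit 3))) x6960) x1128) x3072) x2424) x2748) x2640) x2580) x2584)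
    (Nat.sub (Nat.sub (Nat.add (Nat.add (Nat.add (Nat.add (Nat.add (Nat.add (Nat.add C x6974) x1142) x3086) x2762) x2546) x2606) (Nat.mul (e (nat_lit 2600)) ap)) x22282) (Nat.mul (e (nat_lit 2600)) an))
    (Nat.sub (Nat.sub (Nat.sub (Nat.add (Nat.add (Nat.add (Nat.add (Nat.add (Nat.add (Nat.add (Nat.add (Nat.add (Nat.add C x6980) x1148) x3092) x2768) x2552) x2624) x2600) x2612) x2608) (Nat.mul (e (nat_lit 2606)) ap)) x2606) x22288) (Nat.mul (e (nat_lit 2606)) an))
    (Nat.sub (Nat.sub (Nat.add (Nat.add (Nat.add (Nat.add (Nat.add (Nat.add (Nat.add (Nat.add (Nat.add C x6982) x1150) x3094) x2770) x2554) x2626) x2614) x2606) (Nat.mul (e (nat_lit 2608)) ap)) x22290) (Nat.mul (e (nat_lit 2608)) an))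
    (Nat.sub (Nat.sub (Nat.sub (Nat.add (Nat.add (Nat.add (Nat.add (Nat.add (Nat.add (Nat.add (Nat.add (Nat.add C x6986) x1154) x3098) x2774) x2558) x2630) x2606) x2614) (Nat.mul (e (nat_lit 2612)) ap)) (Nat.mul x2612 (nat_lit 4))) x22294) (Nat.mul (e (nat_lit 2612)) an))
    (Nat.sub (Nat.sub (Nat.sub (Nat.add (Nat.add (Nat.add (Nat.add (Nat.add (Nat.add (Nat.add (Nat.add (Nat.add (Nat.add C x6988) x1156) x3100) x2776) x2560) x2632) x2608) x2612) x2616) (Nat.mul (e (nat_lit 2614)) ap)) x2614) x22296) (Nat.mul (e (nat_lit 2614)) an))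
    (Nat.add (Nat.add (Nat.add (Nat.add (Nat.add (Nat.add (Nat.add C x6990) x1158) x3102) x2778) x2562) x2634) x2614)
    (Nat.sub (Nat.sub (Nat.add (Nat.add (Nat.add (Nat.add (Nat.add (Nat.add (Nat.add (Nat.add (Nat.add C x6998) x1166) x3110) x2786) x2570) x2606) x2630) x2626) (Nat.mul (e (nat_lit 2624)) ap)) x22306) (Nat.mul (e (nat_lit 2624)) an))
    (Nat.sub (Nat.sub (Nat.add (Nat.add (Nat.add (Nat.add (Nat.add (Nat.add (Nat.add (Nat.add (Nat.add C x7000) x1168) x3112) x2788) x2572) x2608) x2632) x2624) (Nat.mul (e (nat_lit 2626)) ap)) x22308) (Nat.mul (e (nat_lit 2626)) an))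
    (Nat.sub (Nat.sub (Nat.sub (Nat.add (Nat.add (Nat.add (Nat.add (Nat.add (Nat.add (Nat.add (Nat.add (Nat.add (Nat.add C x7004) x1172) x3116) x2792) x2576) x2612) x2648) x2624) x2632) (Nat.mul (e (nat_lit 2630)) ap)) x2630) x22312) (Nat.mul (e (nat_lit 2630)) an))
    (Nat.sub (Nat.sub (Nat.add (Nat.add (Nat.add (Nat.add (Nat.add (Nat.add (Nat.add (Nat.add (Nat.add (Nat.add (Nat.add (Nat.add (Nat.add C x2632) x7006) x1174) x3118) x2794) x2578) x2614) x2650) x2626) x2638) x2630) x2634) (Nat.mul (e (nat_lit 2632)) ap)) x22314) (Nat.mul (e (nat_lit 2632)) an))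
    (Nat.add (Nat.add (Nat.add (Nat.add (Nat.add (Nat.add (Nat.add (Nat.add (Nat.add (Nat.add C x2634) x7008) x1176) x3120) x2796) x2580) x2616) x2652) x2640) x2632)
    (Nat.sub (Nat.sub (Nat.add (Nat.add (Nat.add (Nat.add (Nat.add (Nat.add (Nat.add (Nat.add (Nat.add C x7012) x1180) x3124) x2800) x2584) x2656) x2632) x2640) (Nat.mul (e (nat_lit 2638)) ap)) x22320) (Nat.mul (e (nat_lit 2638)) an))
    (Nat.add (Nat.add (Nat.add (Nat.add (Nat.add (Nat.add (Nat.add (Nat.add (Nat.add C (Nat.mul x2640 (nat_lit 2))) x7014) x1182) x3126) x2802) x2586) x2658) x2634) x2638)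
    (Nat.sub (Nat.sub (Nat.add (Nat.add (Nat.add (Nat.add (Nat.add (Nat.add (Nat.add C x7022) x1190) x3134) x2810) x2630) x2650) (Nat.mul (e (nat_lit 2648)) ap)) x22330) (Nat.mul (e (nat_lit 2648)) an))
    (Nat.sub (Nat.sub (Nat.add (Nat.add (Nat.add (Nat.add (Nat.add (Nat.add (Nat.add (Nat.add (Nat.add (Nat.add C x2650) x7024) x1192) x3136) x2812) x2632) x2656) x2648) x2652) (Nat.mul (e (nat_lit 2650)) ap)) x22332) (Nat.mul (e (nat_lit 2650)) an))
    (Nat.add (Nat.add (Nat.add (Nat.add (Nat.add (Nat.add (Nat.add C x7026) x1194) x3138) x2814) x2634) x2658) x2650)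
    (Nat.sub (Nat.sub (Nat.add (Nat.add (Nat.add (Nat.add (Nat.add (Nat.add (Nat.add (Nat.add (Nat.add C (Nat.mul x2656 (nat_lit 2))) x7030) x1198) x3142) x2818) x2638) x2650) x2658) (Nat.mul (e (nat_lit 2656)) ap)) x22338) (Nat.mul (e (nat_lit 2656)) an))
    (Nat.add (Nat.add (Nat.add (Nat.add (Nat.add (Nat.add (Nat.add (Nat.add (Nat.add C (Nat.mul x2658 (nat_lit 3))) x7032) x1200) x3144) x2820) x2640) x2652) x2664) x2656)
    (Nat.add (Nat.add (Nat.add (Nat.add (Nat.add (Nat.add C (Nat.mul x2664 (nat_lit 4))) x7038) x1206) x3150) x2826) x2658)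
    (Nat.sub (Nat.sub (Nat.add (Nat.add (Nat.add (Nat.add (Nat.add (Nat.add (Nat.add C x7064) x1232) x3176) x2528) x2708) x2696) (Nat.mul (e (nat_lit 2690)) ap)) x22372) (Nat.mul (e (nat_lit 2690)) an))
    (Nat.sub (Nat.sub (Nat.sub (Nat.add (Nat.add (Nat.add (Nat.add (Nat.add (Nat.add (Nat.add (Nat.add C x7070) x1238) x3182) x2534) x2714) x2690) x2698) (Nat.mul (e (nat_lit 2696)) ap)) (Nat.mul x2696 (nat_lit 2))) x22378) (Nat.mul (e (nat_lit 2696)) an))
    (Nat.sub (Nat.sub (Nat.add (Nat.add (Nat.add (Nat.add (Nat.add (Nat.add (Nat.add C x7072) x1240) x3184) x2536) x2716) x2696) (Nat.mul (e (nat_lit 2698)) ap)) x22380) (Nat.mul (e (nat_lit 2698)) an))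
    (Nat.sub (Nat.sub (Nat.sub (Nat.add (Nat.add (Nat.add (Nat.add (Nat.add (Nat.add (Nat.add (Nat.add C x7082) x1250) x3194) x2546) x2762) x2690) x2714) (Nat.mul (e (nat_lit 2708)) ap)) (Nat.mul x2708 (nat_lit 2))) x22390) (Nat.mul (e (nat_lit 2708)) an))
    (Nat.sub (Nat.sub (Nat.sub (Nat.add (Nat.add (Nat.add (Nat.add (Nat.add (Nat.add (Nat.add (Nat.add (Nat.add (Nat.add (Nat.add C x7088) x1256) x3200) x2552) x2768) x2696) x2732) x2708) x2720) x2716) (Nat.mul (e (nat_lit 2714)) ap)) (Nat.mul x2714 (nat_lit 2))) x22396) (Nat.mul (e (nat_lit 2714)) an))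
    (Nat.sub (Nat.sub (Nat.sub (Nat.add (Nat.add (Nat.add (Nat.add (Nat.add (Nat.add (Nat.add (Nat.add (Nat.add (Nat.add C x7090) x1258) x3202) x2554) x2770) x2698) x2734) x2722) x2714) (Nat.mul (e (nat_lit 2716)) ap)) x2716) x22398) (Nat.mul (e (nat_lit 2716)) an))
    (Nat.sub (Nat.sub (Nat.sub (Nat.add (Nat.add (Nat.add (Nat.add (Nat.add (Nat.add (Nat.add (Nat.add (Nat.add C x7094) x1262) x3206) x2558) x2774) x2738) x2714) x2722) (Nat.mul (e (nat_lit 2720)) ap)) (Nat.mul x2720 (nat_lit 4))) x22402) (Nat.mul (e (nat_lit 2720)) an))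
    (Nat.sub (Nat.sub (Nat.sub (Nat.add (Nat.add (Nat.add (Nat.add (Nat.add (Nat.add (Nat.add (Nat.add (Nat.add (Nat.add C x7096) x1264) x3208) x2560) x2776) x2740) x2716) x2720) x2724) (Nat.mul (e (nat_lit 2722)) ap)) x2722) x22404) (Nat.mul (e (nat_lit 2722)) an))
    (Nat.add (Nat.add (Nat.add (Nat.add (Nat.add (Nat.add (Nat.add C x7098) x1266) x3210) x2562) x2778) x2742) x2722)
    (Nat.sub (Nat.sub (Nat.sub (Nat.add (Nat.add (Nat.add (Nat.add (Nat.add (Nat.add (Nat.add (Nat.add (Nat.add C x7106) x1274) x3218) x2570) x2786) x2714) x2738) x2734) (Nat.mul (e (nat_lit 2732)) ap)) (Nat.mul x2732 (nat_lit 4))) x22414) (Nat.mul (e (nat_lit 2732)) an))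
    (Nat.sub (Nat.sub (Nat.sub (Nat.add (Nat.add (Nat.add (Nat.add (Nat.add (Nat.add (Nat.add (Nat.add (Nat.add C x7108) x1276) x3220) x2572) x2788) x2716) x2740) x2732) (Nat.mul (e (nat_lit 2734)) ap)) (Nat.mul x2734 (nat_lit 4))) x22416) (Nat.mul (e (nat_lit 2734)) an))
    (Nat.sub (Nat.sub (Nat.sub (Nat.add (Nat.add (Nat.add (Nat.add (Nat.add (Nat.add (Nat.add (Nat.add (Nat.add C x7112) x1280) x3224) x2576) x2792) x2720) x2732) x2740) (Nat.mul (e (nat_lit 2738)) ap)) (Nat.mul x2738 (nat_lit 4))) x22420) (Nat.mul (e (nat_lit 2738)) an))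
    (Nat.sub (Nat.sub (Nat.sub (Nat.add (Nat.add (Nat.add (Nat.add (Nat.add (Nat.add (Nat.add (Nat.add (Nat.add (Nat.add (Nat.add C x7114) x1282) x3226) x2578) x2794) x2722) x2734) x2746) x2738) x2742) (Nat.mul (e (nat_lit 2740)) ap)) (Nat.mul x2740 (nat_lit 2))) x22422) (Nat.mul (e (nat_lit 2740)) an))
    (Nat.sub (Nat.add (Nat.add (Nat.add (Nat.add (Nat.add (Nat.add (Nat.add (Nat.add C x7116) x1284) x3228) x2580) x2796) x2724) x2748) x2740) (Nat.mul x2742 (nat_lit 2)))
    (Nat.sub (Nat.sub (Nat.sub (Nat.add (Nat.add (Nat.add (Nat.add (Nat.add (Nat.add (Nat.add (Nat.add C x7120) x1288) x3232) x2584) x2800) x2740) x2748) (Nat.mul (e (nat_lit 2746)) ap)) (Nat.mul x2746 (nat_lit 2))) x22428) (Nat.mul (e (nat_lit 2746)) an))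
    (Nat.add (Nat.add (Nat.add (Nat.add (Nat.add (Nat.add (Nat.add C x7122) x1290) x3234) x2586) x2802) x2742) x2746)
    (Nat.sub (Nat.sub (Nat.add (Nat.add (Nat.add (Nat.add (Nat.add (Nat.add (Nat.add C x7136) x1304) x3248) x2600) x2708) x2768) (Nat.mul (e (nat_lit 2762)) ap)) x22444) (Nat.mul (e (nat_lit 2762)) an))
    (Nat.sub (Nat.sub (Nat.sub (Nat.add (Nat.add (Nat.add (Nat.add (Nat.add (Nat.add (Nat.add (Nat.add (Nat.add (Nat.add C x7142) x1310) x3254) x2606) x2714) x2786) x2762) x2774) x2770) (Nat.mul (e (nat_lit 2768)) ap)) x2768) x22450) (Nat.mul (e (nat_lit 2768)) an))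
    (Nat.sub (Nat.sub (Nat.add (Nat.add (Nat.add (Nat.add (Nat.add (Nat.add (Nat.add (Nat.add (Nat.add C x7144) x1312) x3256) x2608) x2716) x2788) x2776) x2768) (Nat.mul (e (nat_lit 2770)) ap)) x22452) (Nat.mul (e (nat_lit 2770)) an))
    (Nat.sub (Nat.sub (Nat.sub (Nat.add (Nat.add (Nat.add (Nat.add (Nat.add (Nat.add (Nat.add (Nat.add (Nat.add C x7148) x1316) x3260) x2612) x2720) x2792) x2768) x2776) (Nat.mul (e (nat_lit 2774)) ap)) (Nat.mul x2774 (nat_lit 4))) x22456) (Nat.mul (e (nat_lit 2774)) an))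
    (Nat.sub (Nat.sub (Nat.sub (Nat.add (Nat.add (Nat.add (Nat.add (Nat.add (Nat.add (Nat.add (Nat.add (Nat.add (Nat.add C x7150) x1318) x3262) x2614) x2722) x2794) x2770) x2774) x2778) (Nat.mul (e (nat_lit 2776)) ap)) x2776) x22458) (Nat.mul (e (nat_lit 2776)) an))
    (Nat.add (Nat.add (Nat.add (Nat.add (Nat.add (Nat.add (Nat.add C x7152) x1320) x3264) x2616) x2724) x2796) x2776)
    (Nat.sub (Nat.sub (Nat.sub (Nat.add (Nat.add (Nat.add (Nat.add (Nat.add (Nat.add (Nat.add (Nat.add (Nat.add (Nat.add C x7160) x1328) x3272) x2624) x2732) x2840) x2768) x2792) x2788) (Nat.mul (e (nat_lit 2786)) ap)) x2786) x22468) (Nat.mul (e (nat_lit 2786)) an))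
    (Nat.sub (Nat.sub (Nat.sub (Nat.add (Nat.add (Nat.add (Nat.add (Nat.add (Nat.add (Nat.add (Nat.add (Nat.add (Nat.add C x7162) x1330) x3274) x2626) x2734) x2842) x2770) x2794) x2786) (Nat.mul (e (nat_lit 2788)) ap)) x2788) x22470) (Nat.mul (e (nat_lit 2788)) an))
    (Nat.sub (Nat.sub (Nat.sub (Nat.add (Nat.add (Nat.add (Nat.add (Nat.add (Nat.add (Nat.add (Nat.add (Nat.add (Nat.add (Nat.add C x7166) x1334) x3278) x2630) x2738) x2846) x2774) x2810) x2786) x2794) (Nat.mul (e (nat_lit 2792)) ap)) (Nat.mul x2792 (nat_lit 2))) x22474) (Nat.mul (e (nat_lit 2792)) an))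
    (Nat.sub (Nat.sub (Nat.add (Nat.add (Nat.add (Nat.add (Nat.add (Nat.add (Nat.add (Nat.add (Nat.add (Nat.add (Nat.add (Nat.add (Nat.add C x7168) x1336) x3280) x2632) x2740) x2848) x2776) x2812) x2788) x2800) x2792) x2796) (Nat.mul (e (nat_lit 2794)) ap)) x22476) (Nat.mul (e (nat_lit 2794)) an))
    (Nat.add (Nat.add (Nat.add (Nat.add (Nat.add (Nat.add (Nat.add (Nat.add (Nat.add (Nat.add C x7170) x1338) x3282) x2634) x2742) x2850) x2778) x2814) x2802) x2794)
    (Nat.sub (Nat.sub (Nat.sub (Nat.add (Nat.add (Nat.add (Nat.add (Nat.add (Nat.add (Nat.add (Nat.add (Nat.add (Nat.add C x7174) x1342) x3286) x2638) x2746) x2854) x2818) x2794) x2802) (Nat.mul (e (nat_lit 2800)) ap)) x2800) x22482) (Nat.mul (e (nat_lit 2800)) an))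
    (Nat.add (Nat.add (Nat.add (Nat.add (Nat.add (Nat.add (Nat.add (Nat.add (Nat.add (Nat.add C x2802) x7176) x1344) x3288) x2640) x2748) x2856) x2820) x2796) x2800)
    (Nat.sub (Nat.sub (Nat.sub (Nat.add (Nat.add (Nat.add (Nat.add (Nat.add (Nat.add (Nat.add (Nat.add C x7184) x1352) x3296) x2648) x2864) x2792) x2812) (Nat.mul (e (nat_lit 2810)) ap)) (Nat.mul x2810 (nat_lit 2))) x22492) (Nat.mul (e (nat_lit 2810)) an))
    (Nat.sub (Nat.sub (Nat.sub (Nat.add (Nat.add (Nat.add (Nat.add (Nat.add (Nat.add (Nat.add (Nat.add (Nat.add (Nat.add C x7186) x1354) x3298) x2650) x2866) x2794) x2818) x2810) x2814) (Nat.mul (e (nat_lit 2812)) ap)) x2812) x22494) (Nat.mul (e (nat_lit 2812)) an))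
    (Nat.sub (Nat.add (Nat.add (Nat.add (Nat.add (Nat.add (Nat.add (Nat.add (Nat.add C x7188) x1356) x3300) x2652) x2868) x2796) x2820) x2812) (Nat.mul x2814 (nat_lit 2)))
    (Nat.sub (Nat.add (Nat.add (Nat.add (Nat.add (Nat.add (Nat.add (Nat.add (Nat.add C x7192) x1360) x3304) x2656) x2872) x2800) x2812) x2820) x22500)
    (Nat.add (Nat.add (Nat.add (Nat.add (Nat.add (Nat.add (Nat.add (Nat.add (Nat.add (Nat.add C x2820) x7194) x1362) x3306) x2658) x2874) x2802) x2814) x2826) x2818)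
    (Nat.add (Nat.add (Nat.add (Nat.add (Nat.add (Nat.add (Nat.add C (Nat.mul x2826 (nat_lit 2))) x7200) x1368) x3312) x2664) x2880) x2820)
    (Nat.sub (Nat.sub (Nat.add (Nat.add (Nat.add (Nat.add (Nat.add (Nat.add (Nat.add C x7214) x1382) x3326) x2786) x2846) x2842) (Nat.mul (e (nat_lit 2840)) ap)) x22522) (Nat.mul (e (nat_lit 2840)) an))
    (Nat.sub (Nat.sub (Nat.add (Nat.add (Nat.add (Nat.add (Nat.add (Nat.add (Nat.add C x7216) x1384) x3328) x2788) x2848) x2840) (Nat.mul (e (nat_lit 2842)) ap)) x22524) (Nat.mul (e (nat_lit 2842)) an))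
    (Nat.sub (Nat.sub (Nat.sub (Nat.add (Nat.add (Nat.add (Nat.add (Nat.add (Nat.add (Nat.add (Nat.add C x7220) x1388) x3332) x2792) x2864) x2840) x2848) (Nat.mul (e (nat_lit 2846)) ap)) (Nat.mul x2846 (nat_lit 2))) x22528) (Nat.mul (e (nat_lit 2846)) an))
    (Nat.sub (Nat.sub (Nat.add (Nat.add (Nat.add (Nat.add (Nat.add (Nat.add (Nat.add (Nat.add (Nat.add (Nat.add C x7222) x1390) x3334) x2794) x2866) x2842) x2854) x2846) x2850) (Nat.mul (e (nat_lit 2848)) ap)) x22530) (Nat.mul (e (nat_lit 2848)) an))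
    (Nat.add (Nat.add (Nat.add (Nat.add (Nat.add (Nat.add (Nat.add C x7224) x1392) x3336) x2796) x2868) x2856) x2848)
    (Nat.sub (Nat.sub (Nat.add (Nat.add (Nat.add (Nat.add (Nat.add (Nat.add (Nat.add C x7228) x1396) x3340) x2800) x2872) x2848) x2856) (Nat.mul x2854 (nat_lit 2))) x22536)
    (Nat.add (Nat.add (Nat.add (Nat.add (Nat.add (Nat.add (Nat.add C x7230) x1398) x3342) x2802) x2874) x2850) x2854)
    (Nat.sub (Nat.sub (Nat.add (Nat.add (Nat.add (Nat.add (Nat.add (Nat.add (Nat.add C x7238) x1406) x3350) x2810) x2846) x2866) (Nat.mul (e (nat_lit 2864)) ap)) x22546) (Nat.mul (e (nat_lit 2864)) an))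
    (Nat.sub (Nat.sub (Nat.add (Nat.add (Nat.add (Nat.add (Nat.add (Nat.add (Nat.add (Nat.add (Nat.add (Nat.add C x2866) x7240) x1408) x3352) x2812) x2848) x2872) x2864) x2868) (Nat.mul (e (nat_lit 2866)) ap)) x22548) (Nat.mul (e (nat_lit 2866)) an))
    (Nat.add (Nat.add (Nat.add (Nat.add (Nat.add (Nat.add (Nat.add C x7242) x1410) x3354) x2814) x2850) x2874) x2866)
    (Nat.sub (Nat.add (Nat.add (Nat.add (Nat.add (Nat.add (Nat.add (Nat.add (Nat.add (Nat.add C x2872) x7246) x1414) x3358) x2818) x2854) x2890) x2866) x2874) x22554)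
    (Nat.add (Nat.add (Nat.add (Nat.add (Nat.add (Nat.add (Nat.add (Nat.add (Nat.add (Nat.add C (Nat.mul x2874 (nat_lit 2))) x7248) x1416) x3360) x2820) x2856) x2892) x2868) x2880) x2872)
    (Nat.add (Nat.add (Nat.add (Nat.add (Nat.add (Nat.add (Nat.add C (Nat.mul x2880 (nat_lit 2))) x7254) x1422) x3366) x2826) x2898) x2874)
    (Nat.sub (Nat.add (Nat.add (Nat.add (Nat.add (Nat.add (Nat.add C (Nat.mul x2890 (nat_lit 2))) x7264) x1432) x3376) x2872) x2892) x22572)
    (Nat.add (Nat.add (Nat.add (Nat.add (Nat.add (Nat.add (Nat.add C (Nat.mul x2892 (nat_lit 2))) x7266) x1434) x3378) x2874) x2898) x2890)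
    (Nat.add (Nat.add (Nat.add (Nat.add (Nat.add (Nat.add C (Nat.mul x2898 (nat_lit 4))) x7272) x1440) x3384) x2880) x2892)
    (Nat.sub (Nat.add (Nat.add (Nat.add (Nat.add (Nat.add (Nat.add C (Nat.mul x2942 (nat_lit 3))) x7316) x1484) x4400) x2456) x2960) x22624)
    (Nat.sub (Nat.sub (Nat.add (Nat.add (Nat.add (Nat.add (Nat.add (Nat.add (Nat.add (Nat.add (Nat.add (Nat.add C (Nat.mul x2960 (nat_lit 2))) x7334) x1502) x4418) x2474) x3014) x2942) x2978) x2966) (Nat.mul (e (nat_lit 2960)) ap)) x22642) (Nat.mul (e (nat_lit 2960)) an))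
    (Nat.sub (Nat.sub (Nat.add (Nat.add (Nat.add (Nat.add (Nat.add (Nat.add (Nat.add (Nat.add (Nat.add (Nat.add C x2966) x7340) x1508) x4424) x2480) x3020) x2984) x2960) x2968) (Nat.mul (e (nat_lit 2966)) ap)) x22648) (Nat.mul (e (nat_lit 2966)) an))
    (Nat.sub (Nat.sub (Nat.add (Nat.add (Nat.add (Nat.add (Nat.add (Nat.add (Nat.add (Nat.add (Nat.add C (Nat.mul x2968 (nat_lit 3))) x7342) x1510) x4426) x2482) x3022) x2986) x2966) (Nat.mul (e (nat_lit 2968)) ap)) x22650) (Nat.mul (e (nat_lit 2968)) an))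
    (Nat.sub (Nat.sub (Nat.sub (Nat.add (Nat.add (Nat.add (Nat.add (Nat.add (Nat.add (Nat.add (Nat.add C x7352) x1520) x4436) x2492) x3032) x2960) x2984) (Nat.mul (e (nat_lit 2978)) ap)) x2978) x22660) (Nat.mul (e (nat_lit 2978)) an))
    (Nat.sub (Nat.sub (Nat.add (Nat.add (Nat.add (Nat.add (Nat.add (Nat.add (Nat.add (Nat.add (Nat.add (Nat.add C x7358) x1526) x4442) x2498) x3038) x2966) x2978) x2990) x2986) (Nat.mul (e (nat_lit 2984)) ap)) x22666) (Nat.mul (e (nat_lit 2984)) an))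
    (Nat.sub (Nat.add (Nat.add (Nat.add (Nat.add (Nat.add (Nat.add (Nat.add (Nat.add (Nat.add C x2986) x7360) x1528) x4444) x2500) x3040) x2968) x2992) x2984) x22668)
    (Nat.sub (Nat.sub (Nat.add (Nat.add (Nat.add (Nat.add (Nat.add (Nat.add (Nat.add C x7364) x1532) x4448) x2504) x3044) x2984) x2992) x2990) x22672)
    (Nat.sub (Nat.add (Nat.add (Nat.add (Nat.add (Nat.add (Nat.add (Nat.add (Nat.add (Nat.add C (Nat.mul x2992 (nat_lit 2))) x7366) x1534) x4450) x2506) x3046) x2986) x2990) x2994) x22674)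
    (Nat.add (Nat.add (Nat.add (Nat.add (Nat.add (Nat.add (Nat.add C (Nat.mul x2994 (nat_lit 3))) x7368) x1536) x4452) x2508) x3048) x2992)
    (Nat.sub (Nat.sub (Nat.add (Nat.add (Nat.add (Nat.add (Nat.add (Nat.add (Nat.add (Nat.add (Nat.add (Nat.add C x3014) x7388) x1556) x4472) x2528) x3176) x2960) x3032) x3020) (Nat.mul (e (nat_lit 3014)) ap)) x22696) (Nat.mul (e (nat_lit 3014)) an))
    (Nat.sub (Nat.sub (Nat.sub (Nat.add (Nat.add (Nat.add (Nat.add (Nat.add (Nat.add (Nat.add (Nat.add (Nat.add (Nat.add C x7394) x1562) x4478) x2534) x3182) x2966) x3038) x3014) x3022) (Nat.mul (e (nat_lit 3020)) ap)) x3020) x22702) (Nat.mul (e (nat_lit 3020)) an))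
    (Nat.sub (Nat.sub (Nat.add (Nat.add (Nat.add (Nat.add (Nat.add (Nat.add (Nat.add (Nat.add (Nat.add (Nat.add C x3022) x7396) x1564) x4480) x2536) x3184) x2968) x3040) x3020) (Nat.mul (e (nat_lit 3022)) ap)) x22704) (Nat.mul (e (nat_lit 3022)) an))
    (Nat.sub (Nat.sub (Nat.add (Nat.add (Nat.add (Nat.add (Nat.add (Nat.add (Nat.add (Nat.add (Nat.add (Nat.add C x7406) x1574) x4490) x2546) x3194) x2978) x3086) x3014) x3038) (Nat.mul (e (nat_lit 3032)) ap)) x22714) (Nat.mul (e (nat_lit 3032)) an))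
    (Nat.sub (Nat.sub (Nat.add (Nat.add (Nat.add (Nat.add (Nat.add (Nat.add (Nat.add (Nat.add (Nat.add (Nat.add (Nat.add (Nat.add (Nat.add C x7412) x1580) x4496) x2552) x3200) x2984) x3092) x3020) x3056) x3032) x3044) x3040) (Nat.mul (e (nat_lit 3038)) ap)) x22720) (Nat.mul (e (nat_lit 3038)) an))
    (Nat.sub (Nat.sub (Nat.add (Nat.add (Nat.add (Nat.add (Nat.add (Nat.add (Nat.add (Nat.add (Nat.add (Nat.add (Nat.add (Nat.add (Nat.add C x3040) x7414) x1582) x4498) x2554) x3202) x2986) x3094) x3022) x3058) x3046) x3038) (Nat.mul (e (nat_lit 3040)) ap)) x22722) (Nat.mul (e (nat_lit 3040)) an))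
    (Nat.sub (Nat.sub (Nat.sub (Nat.add (Nat.add (Nat.add (Nat.add (Nat.add (Nat.add (Nat.add (Nat.add (Nat.add (Nat.add (Nat.add C x7418) x1586) x4502) x2558) x3206) x2990) x3098) x3062) x3038) x3046) (Nat.mul (e (nat_lit 3044)) ap)) (Nat.mul x3044 (nat_lit 2))) x22726) (Nat.mul (e (nat_lit 3044)) an))
    (Nat.sub (Nat.sub (Nat.add (Nat.add (Nat.add (Nat.add (Nat.add (Nat.add (Nat.add (Nat.add (Nat.add (Nat.add (Nat.add (Nat.add (Nat.add C x3046) x7420) x1588) x4504) x2560) x3208) x2992) x3100) x3064) x3040) x3044) x3048) (Nat.mul (e (nat_lit 3046)) ap)) x22728) (Nat.mul (e (nat_lit 3046)) an))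
    (Nat.add (Nat.add (Nat.add (Nat.add (Nat.add (Nat.add (Nat.add (Nat.add (Nat.add (Nat.add C (Nat.mul x3048 (nat_lit 2))) x7422) x1590) x4506) x2562) x3210) x2994) x3102) x3066) x3046)
    (Nat.sub (Nat.sub (Nat.sub (Nat.add (Nat.add (Nat.add (Nat.add (Nat.add (Nat.add (Nat.add (Nat.add (Nat.add (Nat.add C x7430) x1598) x4514) x2570) x3218) x3110) x3038) x3062) x3058) (Nat.mul (e (nat_lit 3056)) ap)) x3056) x22738) (Nat.mul (e (nat_lit 3056)) an))
    (Nat.sub (Nat.sub (Nat.sub (Nat.add (Nat.add (Nat.add (Nat.add (Nat.add (Nat.add (Nat.add (Nat.add (Nat.add (Nat.add C x7432) x1600) x4516) x2572) x3220) x3112) x3040) x3064) x3056) (Nat.mul (e (nat_lit 3058)) ap)) x3058) x22740) (Nat.mul (e (nat_lit 3058)) an))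
    (Nat.sub (Nat.sub (Nat.sub (Nat.add (Nat.add (Nat.add (Nat.add (Nat.add (Nat.add (Nat.add (Nat.add (Nat.add (Nat.add C x7436) x1604) x4520) x2576) x3224) x3116) x3044) x3056) x3064) (Nat.mul (e (nat_lit 3062)) ap)) x3062) x22744) (Nat.mul (e (nat_lit 3062)) an))
    (Nat.sub (Nat.sub (Nat.add (Nat.add (Nat.add (Nat.add (Nat.add (Nat.add (Nat.add (Nat.add (Nat.add (Nat.add (Nat.add (Nat.add (Nat.add C x3064) x7438) x1606) x4522) x2578) x3226) x3118) x3046) x3058) x3070) x3062) x3066) (Nat.mul (e (nat_lit 3064)) ap)) x22746) (Nat.mul (e (nat_lit 3064)) an))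
    (Nat.add (Nat.add (Nat.add (Nat.add (Nat.add (Nat.add (Nat.add (Nat.add (Nat.add (Nat.add C x3066) x7440) x1608) x4524) x2580) x3228) x3120) x3048) x3072) x3064)
    (Nat.sub (Nat.add (Nat.add (Nat.add (Nat.add (Nat.add (Nat.add (Nat.add (Nat.add (Nat.add C x3070) x7444) x1612) x4528) x2584) x3232) x3124) x3064) x3072) x22752)
    (Nat.add (Nat.add (Nat.add (Nat.add (Nat.add (Nat.add (Nat.add (Nat.add (Nat.add C (Nat.mul x3072 (nat_lit 3))) x7446) x1614) x4530) x2586) x3234) x3126) x3066) x3070)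
    (Nat.sub (Nat.sub (Nat.sub (Nat.add (Nat.add (Nat.add (Nat.add (Nat.add (Nat.add (Nat.add (Nat.add C x7460) x1628) x4544) x2600) x3248) x3032) x3092) (Nat.mul (e (nat_lit 3086)) ap)) x3086) x22768) (Nat.mul (e (nat_lit 3086)) an))
    (Nat.sub (Nat.sub (Nat.sub (Nat.add (Nat.add (Nat.add (Nat.add (Nat.add (Nat.add (Nat.add (Nat.add (Nat.add (Nat.add (Nat.add C x7466) x1634) x4550) x2606) x3254) x3038) x3110) x3086) x3098) x3094) (Nat.mul (e (nat_lit 3092)) ap)) (Nat.mul x3092 (nat_lit 2))) x22774) (Nat.mul (e (nat_lit 3092)) an))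
    (Nat.sub (Nat.sub (Nat.sub (Nat.add (Nat.add (Nat.add (Nat.add (Nat.add (Nat.add (Nat.add (Nat.add (Nat.add (Nat.add C x7468) x1636) x4552) x2608) x3256) x3040) x3112) x3100) x3092) (Nat.mul (e (nat_lit 3094)) ap)) x3094) x22776) (Nat.mul (e (nat_lit 3094)) an))
    (Nat.sub (Nat.sub (Nat.sub (Nat.add (Nat.add (Nat.add (Nat.add (Nat.add (Nat.add (Nat.add (Nat.add (Nat.add (Nat.add C x7472) x1640) x4556) x2612) x3260) x3044) x3116) x3092) x3100) (Nat.mul (e (nat_lit 3098)) ap)) (Nat.mul x3098 (nat_lit 5))) x22780) (Nat.mul (e (nat_lit 3098)) an))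
    (Nat.sub (Nat.sub (Nat.sub (Nat.add (Nat.add (Nat.add (Nat.add (Nat.add (Nat.add (Nat.add (Nat.add (Nat.add (Nat.add (Nat.add C x7474) x1642) x4558) x2614) x3262) x3046) x3118) x3094) x3098) x3102) (Nat.mul (e (nat_lit 3100)) ap)) (Nat.mul x3100 (nat_lit 2))) x22782) (Nat.mul (e (nat_lit 3100)) an))
    (Nat.sub (Nat.add (Nat.add (Nat.add (Nat.add (Nat.add (Nat.add (Nat.add (Nat.add C x7476) x1644) x4560) x2616) x3264) x3048) x3120) x3100) x3102)
    (Nat.sub (Nat.sub (Nat.sub (Nat.add (Nat.add (Nat.add (Nat.add (Nat.add (Nat.add (Nat.add (Nat.add (Nat.add (Nat.add C x7484) x1652) x4568) x2624) x3272) x3056) x3092) x3116) x3112) (Nat.mul (e (nat_lit 3110)) ap)) x3110) x22792) (Nat.mul (e (nat_lit 3110)) an))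
    (Nat.sub (Nat.sub (Nat.sub (Nat.add (Nat.add (Nat.add (Nat.add (Nat.add (Nat.add (Nat.add (Nat.add (Nat.add (Nat.add C x7486) x1654) x4570) x2626) x3274) x3058) x3094) x3118) x3110) (Nat.mul (e (nat_lit 3112)) ap)) x3112) x22794) (Nat.mul (e (nat_lit 3112)) an))
    (Nat.sub (Nat.sub (Nat.sub (Nat.add (Nat.add (Nat.add (Nat.add (Nat.add (Nat.add (Nat.add (Nat.add (Nat.add (Nat.add (Nat.add C x7490) x1658) x4574) x2630) x3278) x3062) x3098) x3134) x3110) x3118) (Nat.mul (e (nat_lit 3116)) ap)) (Nat.mul x3116 (nat_lit 2))) x22798) (Nat.mul (e (nat_lit 3116)) an))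
    (Nat.sub (Nat.sub (Nat.add (Nat.add (Nat.add (Nat.add (Nat.add (Nat.add (Nat.add (Nat.add (Nat.add (Nat.add (Nat.add (Nat.add (Nat.add C x7492) x1660) x4576) x2632) x3280) x3064) x3100) x3136) x3112) x3124) x3116) x3120) (Nat.mul (e (nat_lit 3118)) ap)) x22800) (Nat.mul (e (nat_lit 3118)) an))
    (Nat.add (Nat.add (Nat.add (Nat.add (Nat.add (Nat.add (Nat.add (Nat.add (Nat.add (Nat.add C x7494) x1662) x4578) x2634) x3282) x3066) x3102) x3138) x3126) x3118)
    (Nat.sub (Nat.sub (Nat.add (Nat.add (Nat.add (Nat.add (Nat.add (Nat.add (Nat.add (Nat.add (Nat.add C x7498) x1666) x4582) x2638) x3286) x3070) x3142) x3118) x3126) x3124) x22806)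
    (Nat.add (Nat.add (Nat.add (Nat.add (Nat.add (Nat.add (Nat.add (Nat.add (Nat.add (Nat.add C x3126) x7500) x1668) x4584) x2640) x3288) x3072) x3144) x3120) x3124)
    (Nat.sub (Nat.sub (Nat.sub (Nat.add (Nat.add (Nat.add (Nat.add (Nat.add (Nat.add (Nat.add (Nat.add C x7508) x1676) x4592) x2648) x3296) x3116) x3136) (Nat.mul (e (nat_lit 3134)) ap)) x3134) x22816) (Nat.mul (e (nat_lit 3134)) an))
    (Nat.sub (Nat.sub (Nat.add (Nat.add (Nat.add (Nat.add (Nat.add (Nat.add (Nat.add (Nat.add (Nat.add (Nat.add C x7510) x1678) x4594) x2650) x3298) x3118) x3142) x3134) x3138) (Nat.mul (e (nat_lit 3136)) ap)) x22818) (Nat.mul (e (nat_lit 3136)) an))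
    (Nat.sub (Nat.add (Nat.add (Nat.add (Nat.add (Nat.add (Nat.add (Nat.add (Nat.add C x7512) x1680) x4596) x2652) x3300) x3120) x3144) x3136) x3138)
    (Nat.sub (Nat.add (Nat.add (Nat.add (Nat.add (Nat.add (Nat.add (Nat.add (Nat.add (Nat.add C x3142) x7516) x1684) x4600) x2656) x3304) x3124) x3136) x3144) x22824)
    (Nat.add (Nat.add (Nat.add (Nat.add (Nat.add (Nat.add (Nat.add (Nat.add (Nat.add (Nat.add C (Nat.mul x3144 (nat_lit 2))) x7518) x1686) x4602) x2658) x3306) x3126) x3138) x3150) x3142)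
    (Nat.add (Nat.add (Nat.add (Nat.add (Nat.add (Nat.add (Nat.add C (Nat.mul x3150 (nat_lit 3))) x7524) x1692) x4608) x2664) x3312) x3144)
    (Nat.sub (Nat.sub (Nat.add (Nat.add (Nat.add (Nat.add (Nat.add (Nat.add (Nat.add (Nat.add (Nat.add (Nat.add C (Nat.mul x3176 (nat_lit 2))) x7550) x1718) x4634) x2690) x3662) x3014) x3194) x3182) (Nat.mul (e (nat_lit 3176)) ap)) x22858) (Nat.mul (e (nat_lit 3176)) an))
    (Nat.sub (Nat.sub (Nat.add (Nat.add (Nat.add (Nat.add (Nat.add (Nat.add (Nat.add (Nat.add (Nat.add (Nat.add C x7556) x1724) x4640) x2696) x3668) x3020) x3200) x3176) x3184) (Nat.mul (e (nat_lit 3182)) ap)) x22864) (Nat.mul (e (nat_lit 3182)) an))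
    (Nat.sub (Nat.add (Nat.add (Nat.add (Nat.add (Nat.add (Nat.add (Nat.add (Nat.add (Nat.add C (Nat.mul x3184 (nat_lit 2))) x7558) x1726) x4642) x2698) x3670) x3022) x3202) x3182) x22866)
    (Nat.sub (Nat.sub (Nat.add (Nat.add (Nat.add (Nat.add (Nat.add (Nat.add (Nat.add (Nat.add (Nat.add (Nat.add C x7568) x1736) x4652) x2708) x3680) x3032) x3248) x3176) x3200) (Nat.mul (e (nat_lit 3194)) ap)) x22876) (Nat.mul (e (nat_lit 3194)) an))
    (Nat.sub (Nat.sub (Nat.add (Nat.add (Nat.add (Nat.add (Nat.add (Nat.add (Nat.add (Nat.add (Nat.add (Nat.add (Nat.add (Nat.add (Nat.add C x7574) x1742) x4658) x2714) x3686) x3038) x3254) x3182) x3218) x3194) x3206) x3202) (Nat.mul (e (nat_lit 3200)) ap)) x22882) (Nat.mul (e (nat_lit 3200)) an))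
    (Nat.sub (Nat.sub (Nat.add (Nat.add (Nat.add (Nat.add (Nat.add (Nat.add (Nat.add (Nat.add (Nat.add (Nat.add (Nat.add (Nat.add (Nat.add C x3202) x7576) x1744) x4660) x2716) x3688) x3040) x3256) x3184) x3220) x3208) x3200) (Nat.mul (e (nat_lit 3202)) ap)) x22884) (Nat.mul (e (nat_lit 3202)) an))
    (Nat.sub (Nat.sub (Nat.sub (Nat.add (Nat.add (Nat.add (Nat.add (Nat.add (Nat.add (Nat.add (Nat.add (Nat.add (Nat.add (Nat.add C x7580) x1748) x4664) x2720) x3692) x3044) x3260) x3224) x3200) x3208) (Nat.mul (e (nat_lit 3206)) ap)) (Nat.mul x3206 (nat_lit 2))) x22888) (Nat.mul (e (nat_lit 3206)) an))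
    (Nat.sub (Nat.sub (Nat.add (Nat.add (Nat.add (Nat.add (Nat.add (Nat.add (Nat.add (Nat.add (Nat.add (Nat.add (Nat.add (Nat.add (Nat.add C x3208) x7582) x1750) x4666) x2722) x3694) x3046) x3262) x3226) x3202) x3206) x3210) (Nat.mul (e (nat_lit 3208)) ap)) x22890) (Nat.mul (e (nat_lit 3208)) an))
    (Nat.add (Nat.add (Nat.add (Nat.add (Nat.add (Nat.add (Nat.add (Nat.add (Nat.add (Nat.add C (Nat.mul x3210 (nat_lit 2))) x7584) x1752) x4668) x2724) x3696) x3048) x3264) x3228) x3208)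
    (Nat.sub (Nat.sub (Nat.sub (Nat.add (Nat.add (Nat.add (Nat.add (Nat.add (Nat.add (Nat.add (Nat.add (Nat.add (Nat.add (Nat.add C x7592) x1760) x4676) x2732) x3704) x3056) x3272) x3200) x3224) x3220) (Nat.mul (e (nat_lit 3218)) ap)) (Nat.mul x3218 (nat_lit 2))) x22900) (Nat.mul (e (nat_lit 3218)) an))
    (Nat.sub (Nat.sub (Nat.sub (Nat.add (Nat.add (Nat.add (Nat.add (Nat.add (Nat.add (Nat.add (Nat.add (Nat.add (Nat.add (Nat.add C x7594) x1762) x4678) x2734) x3706) x3058) x3274) x3202) x3226) x3218) (Nat.mul (e (nat_lit 3220)) ap)) (Nat.mul x3220 (nat_lit 2))) x22902) (Nat.mul (e (nat_lit 3220)) an))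
    (Nat.sub (Nat.sub (Nat.sub (Nat.add (Nat.add (Nat.add (Nat.add (Nat.add (Nat.add (Nat.add (Nat.add (Nat.add (Nat.add (Nat.add C x7598) x1766) x4682) x2738) x3710) x3062) x3278) x3206) x3218) x3226) (Nat.mul (e (nat_lit 3224)) ap)) (Nat.mul x3224 (nat_lit 2))) x22906) (Nat.mul (e (nat_lit 3224)) an))
    (Nat.sub (Nat.sub (Nat.add (Nat.add (Nat.add (Nat.add (Nat.add (Nat.add (Nat.add (Nat.add (Nat.add (Nat.add (Nat.add (Nat.add (Nat.add C x7600) x1768) x4684) x2740) x3712) x3064) x3280) x3208) x3220) x3232) x3224) x3228) (Nat.mul (e (nat_lit 3226)) ap)) x22908) (Nat.mul (e (nat_lit 3226)) an))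
    (Nat.add (Nat.add (Nat.add (Nat.add (Nat.add (Nat.add (Nat.add (Nat.add (Nat.add (Nat.add C x7602) x1770) x4686) x2742) x3714) x3066) x3282) x3210) x3234) x3226)
    (Nat.sub (Nat.add (Nat.add (Nat.add (Nat.add (Nat.add (Nat.add (Nat.add (Nat.add (Nat.add C x7606) x1774) x4690) x2746) x3718) x3070) x3286) x3226) x3234) x22914)
    (Nat.add (Nat.add (Nat.add (Nat.add (Nat.add (Nat.add (Nat.add (Nat.add (Nat.add (Nat.add C (Nat.mul x3234 (nat_lit 2))) x7608) x1776) x4692) x2748) x3720) x3072) x3288) x3228) x3232)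
    (Nat.sub (Nat.sub (Nat.add (Nat.add (Nat.add (Nat.add (Nat.add (Nat.add (Nat.add (Nat.add (Nat.add (Nat.add (Nat.add C x3248) x7622) x1790) x4706) x2762) x3734) x3086) x3410) x3194) x3254) (Nat.mul (e (nat_lit 3248)) ap)) x22930) (Nat.mul (e (nat_lit 3248)) an))
    (Nat.sub (Nat.sub (Nat.add (Nat.add (Nat.add (Nat.add (Nat.add (Nat.add (Nat.add (Nat.add (Nat.add (Nat.add (Nat.add (Nat.add (Nat.add C x7628) x1796) x4712) x2768) x3740) x3092) x3416) x3200) x3272) x3248) x3260) x3256) (Nat.mul (e (nat_lit 3254)) ap)) x22936) (Nat.mul (e (nat_lit 3254)) an))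
    (Nat.sub (Nat.sub (Nat.add (Nat.add (Nat.add (Nat.add (Nat.add (Nat.add (Nat.add (Nat.add (Nat.add (Nat.add (Nat.add (Nat.add (Nat.add C x3256) x7630) x1798) x4714) x2770) x3742) x3094) x3418) x3202) x3274) x3262) x3254) (Nat.mul (e (nat_lit 3256)) ap)) x22938) (Nat.mul (e (nat_lit 3256)) an))
    (Nat.sub (Nat.sub (Nat.sub (Nat.add (Nat.add (Nat.add (Nat.add (Nat.add (Nat.add (Nat.add (Nat.add (Nat.add (Nat.add (Nat.add (Nat.add C x7634) x1802) x4718) x2774) x3746) x3098) x3422) x3206) x3278) x3254) x3262) (Nat.mul (e (nat_lit 3260)) ap)) (Nat.mul x3260 (nat_lit 3))) x22942) (Nat.mul (e (nat_lit 3260)) an))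
    (Nat.sub (Nat.sub (Nat.add (Nat.add (Nat.add (Nat.add (Nat.add (Nat.add (Nat.add (Nat.add (Nat.add (Nat.add (Nat.add (Nat.add (Nat.add C x7636) x1804) x4720) x2776) x3748) x3100) x3424) x3208) x3280) x3256) x3260) x3264) (Nat.mul (e (nat_lit 3262)) ap)) x22944) (Nat.mul (e (nat_lit 3262)) an))
    (Nat.add (Nat.add (Nat.add (Nat.add (Nat.add (Nat.add (Nat.add (Nat.add (Nat.add (Nat.add (Nat.add C x3264) x7638) x1806) x4722) x2778) x3750) x3102) x3426) x3210) x3282) x3262)
    (Nat.sub (Nat.sub (Nat.add (Nat.add (Nat.add (Nat.add (Nat.add (Nat.add (Nat.add (Nat.add (Nat.add (Nat.add (Nat.add (Nat.add (Nat.add C x7646) x1814) x4730) x2786) x3758) x3110) x3434) x3218) x3326) x3254) x3278) x3274) (Nat.mul (e (nat_lit 3272)) ap)) x22954) (Nat.mul (e (nat_lit 3272)) an))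
    (Nat.sub (Nat.sub (Nat.add (Nat.add (Nat.add (Nat.add (Nat.add (Nat.add (Nat.add (Nat.add (Nat.add (Nat.add (Nat.add (Nat.add (Nat.add C x7648) x1816) x4732) x2788) x3760) x3112) x3436) x3220) x3328) x3256) x3280) x3272) (Nat.mul (e (nat_lit 3274)) ap)) x22956) (Nat.mul (e (nat_lit 3274)) an))
    (Nat.sub (Nat.sub (Nat.sub (Nat.add (Nat.add (Nat.add (Nat.add (Nat.add (Nat.add (Nat.add (Nat.add (Nat.add (Nat.add (Nat.add (Nat.add (Nat.add (Nat.add C x7652) x1820) x4736) x2792) x3764) x3116) x3440) x3224) x3332) x3260) x3296) x3272) x3280) (Nat.mul (e (nat_lit 3278)) ap)) x3278) x22960) (Nat.mul (e (nat_lit 3278)) an))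
    (Nat.sub (Nat.sub (Nat.add (Nat.add (Nat.add (Nat.add (Nat.add (Nat.add (Nat.add (Nat.add (Nat.add (Nat.add (Nat.add (Nat.add (Nat.add (Nat.add (Nat.add (Nat.add (Nat.add C x3280) x7654) x1822) x4738) x2794) x3766) x3118) x3442) x3226) x3334) x3262) x3298) x3274) x3286) x3278) x3282) (Nat.mul (e (nat_lit 3280)) ap)) x22962) (Nat.mul (e (nat_lit 3280)) an))
    (Nat.add (Nat.add (Nat.add (Nat.add (Nat.add (Nat.add (Nat.add (Nat.add (Nat.add (Nat.add (Nat.add (Nat.add (Nat.add (Nat.add C x3282) x7656) x1824) x4740) x2796) x3768) x3120) x3444) x3228) x3336) x3264) x3300) x3288) x3280)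
    (Nat.sub (Nat.add (Nat.add (Nat.add (Nat.add (Nat.add (Nat.add (Nat.add (Nat.add (Nat.add (Nat.add (Nat.add (Nat.add C x7660) x1828) x4744) x2800) x3772) x3124) x3448) x3232) x3340) x3304) x3280) x3288) x22968)
    (Nat.add (Nat.add (Nat.add (Nat.add (Nat.add (Nat.add (Nat.add (Nat.add (Nat.add (Nat.add (Nat.add (Nat.add (Nat.add C (Nat.mul x3288 (nat_lit 2))) x7662) x1830) x4746) x2802) x3774) x3126) x3450) x3234) x3342) x3306) x3282) x3286)
    (Nat.sub (Nat.sub (Nat.sub (Nat.add (Nat.add (Nat.add (Nat.add (Nat.add (Nat.add (Nat.add (Nat.add (Nat.add (Nat.add (Nat.add C x7670) x1838) x4754) x2810) x3782) x3134) x3458) x3350) x3278) x3298) (Nat.mul (e (nat_lit 3296)) ap)) x3296) x22978) (Nat.mul (e (nat_lit 3296)) an))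
    (Nat.sub (Nat.add (Nat.add (Nat.add (Nat.add (Nat.add (Nat.add (Nat.add (Nat.add (Nat.add (Nat.add (Nat.add (Nat.add C x7672) x1840) x4756) x2812) x3784) x3136) x3460) x3352) x3280) x3304) x3296) x3300) x22980)
    (Nat.sub (Nat.add (Nat.add (Nat.add (Nat.add (Nat.add (Nat.add (Nat.add (Nat.add (Nat.add (Nat.add (Nat.add C x7674) x1842) x4758) x2814) x3786) x3138) x3462) x3354) x3282) x3306) x3298) x3300)
    (Nat.sub (Nat.add (Nat.add (Nat.add (Nat.add (Nat.add (Nat.add (Nat.add (Nat.add (Nat.add (Nat.add (Nat.add (Nat.add C x3304) x7678) x1846) x4762) x2818) x3790) x3142) x3466) x3358) x3286) x3298) x3306) x22986)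
    (Nat.add (Nat.add (Nat.add (Nat.add (Nat.add (Nat.add (Nat.add (Nat.add (Nat.add (Nat.add (Nat.add (Nat.add (Nat.add C (Nat.mul x3306 (nat_lit 2))) x7680) x1848) x4764) x2820) x3792) x3144) x3468) x3360) x3288) x3300) x3312) x3304)
    (Nat.add (Nat.add (Nat.add (Nat.add (Nat.add (Nat.add (Nat.add (Nat.add (Nat.add (Nat.add C (Nat.mul x3312 (nat_lit 3))) x7686) x1854) x4770) x2826) x3798) x3150) x3474) x3366) x3306)
    (Nat.sub (Nat.sub (Nat.add (Nat.add (Nat.add (Nat.add (Nat.add (Nat.add (Nat.add (Nat.add (Nat.add (Nat.add C x7700) x1868) x4784) x2840) x3812) x3488) x3272) x3332) x3328) (Nat.mul (e (nat_lit 3326)) ap)) x23008) (Nat.mul (e (nat_lit 3326)) an))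
    (Nat.sub (Nat.sub (Nat.add (Nat.add (Nat.add (Nat.add (Nat.add (Nat.add (Nat.add (Nat.add (Nat.add (Nat.add C x7702) x1870) x4786) x2842) x3814) x3490) x3274) x3334) x3326) (Nat.mul (e (nat_lit 3328)) ap)) x23010) (Nat.mul (e (nat_lit 3328)) an))
    (Nat.sub (Nat.sub (Nat.sub (Nat.add (Nat.add (Nat.add (Nat.add (Nat.add (Nat.add (Nat.add (Nat.add (Nat.add (Nat.add (Nat.add C x7706) x1874) x4790) x2846) x3818) x3494) x3278) x3350) x3326) x3334) (Nat.mul (e (nat_lit 3332)) ap)) (Nat.mul x3332 (nat_lit 2))) x23014) (Nat.mul (e (nat_lit 3332)) an))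
    (Nat.sub (Nat.add (Nat.add (Nat.add (Nat.add (Nat.add (Nat.add (Nat.add (Nat.add (Nat.add (Nat.add (Nat.add (Nat.add C x7708) x1876) x4792) x2848) x3820) x3496) x3280) x3352) x3328) x3340) x3332) x3336) x23016)
    (Nat.add (Nat.add (Nat.add (Nat.add (Nat.add (Nat.add (Nat.add (Nat.add (Nat.add (Nat.add C x7710) x1878) x4794) x2850) x3822) x3498) x3282) x3354) x3342) x3334)
    (Nat.sub (Nat.sub (Nat.add (Nat.add (Nat.add (Nat.add (Nat.add (Nat.add (Nat.add (Nat.add (Nat.add (Nat.add C x7714) x1882) x4798) x2854) x3826) x3502) x3286) x3358) x3334) x3342) (Nat.mul x3340 (nat_lit 2))) x23022)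
    (Nat.add (Nat.add (Nat.add (Nat.add (Nat.add (Nat.add (Nat.add (Nat.add (Nat.add (Nat.add C x7716) x1884) x4800) x2856) x3828) x3504) x3288) x3360) x3336) x3340)
    (Nat.sub (Nat.sub (Nat.add (Nat.add (Nat.add (Nat.add (Nat.add (Nat.add (Nat.add (Nat.add (Nat.add (Nat.add C x7724) x1892) x4808) x2864) x3836) x3512) x3296) x3332) x3352) (Nat.mul (e (nat_lit 3350)) ap)) x23032) (Nat.mul (e (nat_lit 3350)) an))
    (Nat.sub (Nat.add (Nat.add (Nat.add (Nat.add (Nat.add (Nat.add (Nat.add (Nat.add (Nat.add (Nat.add (Nat.add (Nat.add C x3352) x7726) x1894) x4810) x2866) x3838) x3514) x3298) x3334) x3358) x3350) x3354) x23034)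
    (Nat.add (Nat.add (Nat.add (Nat.add (Nat.add (Nat.add (Nat.add (Nat.add (Nat.add (Nat.add C x7728) x1896) x4812) x2868) x3840) x3516) x3300) x3336) x3360) x3352)
    (Nat.sub (Nat.add (Nat.add (Nat.add (Nat.add (Nat.add (Nat.add (Nat.add (Nat.add (Nat.add (Nat.add (Nat.add (Nat.add C x3358) x7732) x1900) x4816) x2872) x3844) x3520) x3304) x3340) x3376) x3352) x3360) x23040)
    (Nat.add (Nat.add (Nat.add (Nat.add (Nat.add (Nat.add (Nat.add (Nat.add (Nat.add (Nat.add (Nat.add (Nat.add (Nat.add C (Nat.mul x3360 (nat_lit 2))) x7734) x1902) x4818) x2874) x3846) x3522) x3306) x3342) x3378) x3354) x3366) x3358)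
    (Nat.add (Nat.add (Nat.add (Nat.add (Nat.add (Nat.add (Nat.add (Nat.add (Nat.add (Nat.add C (Nat.mul x3366 (nat_lit 2))) x7740) x1908) x4824) x2880) x3852) x3528) x3312) x3384) x3360)
    (Nat.sub (Nat.add (Nat.add (Nat.add (Nat.add (Nat.add (Nat.add (Nat.add (Nat.add (Nat.add C (Nat.mul x3376 (nat_lit 2))) x7750) x1918) x4834) x2890) x3862) x3538) x3358) x3378) x23058)
    (Nat.add (Nat.add (Nat.add (Nat.add (Nat.add (Nat.add (Nat.add (Nat.add (Nat.add (Nat.add C (Nat.mul x3378 (nat_lit 2))) x7752) x1920) x4836) x2892) x3864) x3540) x3360) x3384) x3376)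
    (Nat.add (Nat.add (Nat.add (Nat.add (Nat.add (Nat.add (Nat.add (Nat.add (Nat.add C (Nat.mul x3384 (nat_lit 4))) x7758) x1926) x4842) x2898) x3870) x3546) x3366) x3378)
    (Nat.sub (Nat.add (Nat.add (Nat.add (Nat.add (Nat.add (Nat.add (Nat.add C x3410) x7784) x1952) x4868) x3896) x3248) x3416) x23092)
    (Nat.sub (Nat.sub (Nat.add (Nat.add (Nat.add (Nat.add (Nat.add (Nat.add (Nat.add (Nat.add (Nat.add (Nat.add C x7790) x1958) x4874) x3902) x3254) x3434) x3410) x3422) x3418) (Nat.mul (e (nat_lit 3416)) ap)) x23098) (Nat.mul (e (nat_lit 3416)) an))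
    (Nat.sub (Nat.sub (Nat.add (Nat.add (Nat.add (Nat.add (Nat.add (Nat.add (Nat.add (Nat.add (Nat.add (Nat.add C x3418) x7792) x1960) x4876) x3904) x3256) x3436) x3424) x3416) (Nat.mul (e (nat_lit 3418)) ap)) x23100) (Nat.mul (e (nat_lit 3418)) an))
    (Nat.sub (Nat.sub (Nat.sub (Nat.add (Nat.add (Nat.add (Nat.add (Nat.add (Nat.add (Nat.add (Nat.add (Nat.add C x7796) x1964) x4880) x3908) x3260) x3440) x3416) x3424) (Nat.mul (e (nat_lit 3422)) ap)) (Nat.mul x3422 (nat_lit 3))) x23104) (Nat.mul (e (nat_lit 3422)) an))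
    (Nat.sub (Nat.sub (Nat.add (Nat.add (Nat.add (Nat.add (Nat.add (Nat.add (Nat.add (Nat.add (Nat.add (Nat.add C x7798) x1966) x4882) x3910) x3262) x3442) x3418) x3422) x3426) (Nat.mul (e (nat_lit 3424)) ap)) x23106) (Nat.mul (e (nat_lit 3424)) an))
    (Nat.add (Nat.add (Nat.add (Nat.add (Nat.add (Nat.add (Nat.add (Nat.add C x3426) x7800) x1968) x4884) x3912) x3264) x3444) x3424)
    (Nat.sub (Nat.sub (Nat.sub (Nat.add (Nat.add (Nat.add (Nat.add (Nat.add (Nat.add (Nat.add (Nat.add (Nat.add (Nat.add C x7808) x1976) x4892) x3920) x3272) x3488) x3416) x3440) x3436) (Nat.mul (e (nat_lit 3434)) ap)) x3434) x23116) (Nat.mul (e (nat_lit 3434)) an))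
    (Nat.sub (Nat.sub (Nat.sub (Nat.add (Nat.add (Nat.add (Nat.add (Nat.add (Nat.add (Nat.add (Nat.add (Nat.add (Nat.add C x7810) x1978) x4894) x3922) x3274) x3490) x3418) x3442) x3434) (Nat.mul (e (nat_lit 3436)) ap)) x3436) x23118) (Nat.mul (e (nat_lit 3436)) an))
    (Nat.sub (Nat.sub (Nat.sub (Nat.add (Nat.add (Nat.add (Nat.add (Nat.add (Nat.add (Nat.add (Nat.add (Nat.add (Nat.add (Nat.add C x7814) x1982) x4898) x3926) x3278) x3494) x3422) x3458) x3434) x3442) (Nat.mul (e (nat_lit 3440)) ap)) (Nat.mul x3440 (nat_lit 2))) x23122) (Nat.mul (e (nat_lit 3440)) an))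
    (Nat.sub (Nat.add (Nat.add (Nat.add (Nat.add (Nat.add (Nat.add (Nat.add (Nat.add (Nat.add (Nat.add (Nat.add (Nat.add C x7816) x1984) x4900) x3928) x3280) x3496) x3424) x3460) x3436) x3448) x3440) x3444) x23124)
    (Nat.add (Nat.add (Nat.add (Nat.add (Nat.add (Nat.add (Nat.add (Nat.add (Nat.add (Nat.add C x7818) x1986) x4902) x3930) x3282) x3498) x3426) x3462) x3450) x3442)
    (Nat.sub (Nat.sub (Nat.add (Nat.add (Nat.add (Nat.add (Nat.add (Nat.add (Nat.add (Nat.add (Nat.add C x7822) x1990) x4906) x3934) x3286) x3502) x3466) x3442) x3450) x3448) x23130)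
    (Nat.add (Nat.add (Nat.add (Nat.add (Nat.add (Nat.add (Nat.add (Nat.add (Nat.add (Nat.add C x3450) x7824) x1992) x4908) x3936) x3288) x3504) x3468) x3444) x3448)
    (Nat.sub (Nat.sub (Nat.sub (Nat.add (Nat.add (Nat.add (Nat.add (Nat.add (Nat.add (Nat.add (Nat.add (Nat.add C x7832) x2000) x4916) x3944) x3296) x3512) x3440) x3460) (Nat.mul (e (nat_lit 3458)) ap)) (Nat.mul x3458 (nat_lit 3))) x23140) (Nat.mul (e (nat_lit 3458)) an))
    (Nat.sub (Nat.sub (Nat.add (Nat.add (Nat.add (Nat.add (Nat.add (Nat.add (Nat.add (Nat.add (Nat.add (Nat.add C x7834) x2002) x4918) x3946) x3298) x3514) x3442) x3466) x3458) x3462) (Nat.mul x3460 (nat_lit 2))) x23142)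
    (Nat.sub (Nat.add (Nat.add (Nat.add (Nat.add (Nat.add (Nat.add (Nat.add (Nat.add (Nat.add C x7836) x2004) x4920) x3948) x3300) x3516) x3444) x3468) x3460) (Nat.mul x3462 (nat_lit 3)))
    (Nat.sub (Nat.sub (Nat.add (Nat.add (Nat.add (Nat.add (Nat.add (Nat.add (Nat.add (Nat.add (Nat.add C x7840) x2008) x4924) x3952) x3304) x3520) x3448) x3460) x3468) x3466) x23148)
    (Nat.add (Nat.add (Nat.add (Nat.add (Nat.add (Nat.add (Nat.add (Nat.add (Nat.add (Nat.add C x7842) x2010) x4926) x3954) x3306) x3522) x3450) x3462) x3474) x3466)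
    (Nat.add (Nat.add (Nat.add (Nat.add (Nat.add (Nat.add (Nat.add (Nat.add C x3474) x7848) x2016) x4932) x3960) x3312) x3528) x3468)
    (Nat.sub (Nat.sub (Nat.add (Nat.add (Nat.add (Nat.add (Nat.add (Nat.add (Nat.add (Nat.add (Nat.add (Nat.add C x3488) x7862) x2030) x4946) x3974) x3326) x3434) x3494) x3490) (Nat.mul (e (nat_lit 3488)) ap)) x23170) (Nat.mul (e (nat_lit 3488)) an))
    (Nat.sub (Nat.sub (Nat.add (Nat.add (Nat.add (Nat.add (Nat.add (Nat.add (Nat.add (Nat.add (Nat.add (Nat.add C x3490) x7864) x2032) x4948) x3976) x3328) x3436) x3496) x3488) (Nat.mul (e (nat_lit 3490)) ap)) x23172) (Nat.mul (e (nat_lit 3490)) an))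
    (Nat.sub (Nat.sub (Nat.sub (Nat.add (Nat.add (Nat.add (Nat.add (Nat.add (Nat.add (Nat.add (Nat.add (Nat.add (Nat.add C x7868) x2036) x4952) x3980) x3332) x3440) x3512) x3488) x3496) (Nat.mul (e (nat_lit 3494)) ap)) x3494) x23176) (Nat.mul (e (nat_lit 3494)) an))
    (Nat.sub (Nat.add (Nat.add (Nat.add (Nat.add (Nat.add (Nat.add (Nat.add (Nat.add (Nat.add (Nat.add (Nat.add (Nat.add C x3496) x7870) x2038) x4954) x3982) x3334) x3442) x3514) x3490) x3502) x3494) x3498) x23178)
    (Nat.add (Nat.add (Nat.add (Nat.add (Nat.add (Nat.add (Nat.add (Nat.add (Nat.add (Nat.add C x3498) x7872) x2040) x4956) x3984) x3336) x3444) x3516) x3504) x3496)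
    (Nat.sub (Nat.sub (Nat.add (Nat.add (Nat.add (Nat.add (Nat.add (Nat.add (Nat.add (Nat.add (Nat.add C x7876) x2044) x4960) x3988) x3340) x3448) x3520) x3496) x3504) x3502) x23184)
    (Nat.add (Nat.add (Nat.add (Nat.add (Nat.add (Nat.add (Nat.add (Nat.add (Nat.add (Nat.add C x3504) x7878) x2046) x4962) x3990) x3342) x3450) x3522) x3498) x3502)
    (Nat.sub (Nat.sub (Nat.add (Nat.add (Nat.add (Nat.add (Nat.add (Nat.add (Nat.add (Nat.add (Nat.add (Nat.add C x7886) x2054) x4970) x3998) x3350) x3458) x3566) x3494) x3514) (Nat.mul (e (nat_lit 3512)) ap)) x23194) (Nat.mul (e (nat_lit 3512)) an))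
    (Nat.sub (Nat.add (Nat.add (Nat.add (Nat.add (Nat.add (Nat.add (Nat.add (Nat.add (Nat.add (Nat.add (Nat.add (Nat.add C x3514) x7888) x2056) x4972) x4000) x3352) x3460) x3568) x3496) x3520) x3512) x3516) x23196)
    (Nat.add (Nat.add (Nat.add (Nat.add (Nat.add (Nat.add (Nat.add (Nat.add (Nat.add (Nat.add C x7890) x2058) x4974) x4002) x3354) x3462) x3570) x3498) x3522) x3514)
    (Nat.sub (Nat.add (Nat.add (Nat.add (Nat.add (Nat.add (Nat.add (Nat.add (Nat.add (Nat.add (Nat.add (Nat.add (Nat.add C x3520) x7894) x2062) x4978) x4006) x3358) x3466) x3574) x3502) x3538) x3514) x3522) x23202)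
    (Nat.add (Nat.add (Nat.add (Nat.add (Nat.add (Nat.add (Nat.add (Nat.add (Nat.add (Nat.add (Nat.add (Nat.add (Nat.add C (Nat.mul x3522 (nat_lit 2))) x7896) x2064) x4980) x4008) x3360) x3468) x3576) x3504) x3540) x3516) x3528) x3520)
    (Nat.add (Nat.add (Nat.add (Nat.add (Nat.add (Nat.add (Nat.add (Nat.add (Nat.add (Nat.add C (Nat.mul x3528 (nat_lit 2))) x7902) x2070) x4986) x4014) x3366) x3474) x3582) x3546) x3522)
    (Nat.sub (Nat.add (Nat.add (Nat.add (Nat.add (Nat.add (Nat.add (Nat.add (Nat.add (Nat.add C x3538) x7912) x2080) x4996) x4024) x3376) x3592) x3520) x3540) x23220)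
    (Nat.add (Nat.add (Nat.add (Nat.add (Nat.add (Nat.add (Nat.add (Nat.add (Nat.add (Nat.add C x3540) x7914) x2082) x4998) x4026) x3378) x3594) x3522) x3546) x3538)
    (Nat.add (Nat.add (Nat.add (Nat.add (Nat.add (Nat.add (Nat.add (Nat.add (Nat.add C (Nat.mul x3546 (nat_lit 3))) x7920) x2088) x5004) x4032) x3384) x3600) x3528) x3540)
    (Nat.sub (Nat.add (Nat.add (Nat.add (Nat.add (Nat.add (Nat.add (Nat.add C x3566) x7940) x2108) x5024) x4052) x3512) x3568) x23248)
    (Nat.sub (Nat.add (Nat.add (Nat.add (Nat.add (Nat.add (Nat.add (Nat.add (Nat.add (Nat.add C (Nat.mul x3568 (nat_lit 2))) x7942) x2110) x5026) x4054) x3514) x3574) x3566) x3570) x23250)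
    (Nat.add (Nat.add (Nat.add (Nat.add (Nat.add (Nat.add (Nat.add (Nat.add C x3570) x7944) x2112) x5028) x4056) x3516) x3576) x3568)
    (Nat.sub (Nat.add (Nat.add (Nat.add (Nat.add (Nat.add (Nat.add (Nat.add (Nat.add (Nat.add C x3574) x7948) x2116) x5032) x4060) x3520) x3592) x3568) x3576) x23256)
    (Nat.add (Nat.add (Nat.add (Nat.add (Nat.add (Nat.add (Nat.add (Nat.add (Nat.add (Nat.add C (Nat.mul x3576 (nat_lit 2))) x7950) x2118) x5034) x4062) x3522) x3594) x3570) x3582) x3574)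
    (Nat.add (Nat.add (Nat.add (Nat.add (Nat.add (Nat.add (Nat.add (Nat.add C x3582) x7956) x2124) x5040) x4068) x3528) x3600) x3576)
    (Nat.sub (Nat.add (Nat.add (Nat.add (Nat.add (Nat.add (Nat.add (Nat.add (Nat.add C (Nat.mul x3592 (nat_lit 3))) x7966) x2134) x5050) x4078) x3538) x3574) x3594) x23274)
    (Nat.add (Nat.add (Nat.add (Nat.add (Nat.add (Nat.add (Nat.add (Nat.add (Nat.add C (Nat.mul x3594 (nat_lit 3))) x7968) x2136) x5052) x4080) x3540) x3576) x3600) x3592)
    (Nat.add (Nat.add (Nat.add (Nat.add (Nat.add (Nat.add (Nat.add (Nat.add (Nat.add C (Nat.mul x3600 (nat_lit 4))) x7974) x2142) x5058) x4086) x3546) x3582) x3618) x3594)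
    (Nat.add (Nat.add (Nat.add (Nat.add (Nat.add (Nat.add C (Nat.mul x3618 (nat_lit 5))) x7992) x2160) x5076) x4104) x3600)
    (Nat.sub (Nat.add (Nat.add (Nat.add (Nat.add (Nat.add (Nat.add C (Nat.mul x3662 (nat_lit 2))) x8036) x5120) x3176) x3680) x3668) x23344)
    (Nat.sub (Nat.add (Nat.add (Nat.add (Nat.add (Nat.add (Nat.add C x8042) x5126) x3182) x3686) x3662) x3670) x23350)
    (Nat.sub (Nat.add (Nat.add (Nat.add (Nat.add (Nat.add (Nat.add C (Nat.mul x3670 (nat_lit 2))) x8044) x5128) x3184) x3688) x3668) x23352)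
    (Nat.sub (Nat.add (Nat.add (Nat.add (Nat.add (Nat.add (Nat.add C x8054) x5138) x3194) x3734) x3662) x3686) x23362)
    (Nat.sub (Nat.add (Nat.add (Nat.add (Nat.add (Nat.add (Nat.add (Nat.add (Nat.add (Nat.add C x8060) x5144) x3200) x3740) x3668) x3704) x3680) x3692) x3688) x23368)
    (Nat.sub (Nat.add (Nat.add (Nat.add (Nat.add (Nat.add (Nat.add (Nat.add (Nat.add (Nat.add C x3688) x8062) x5146) x3202) x3742) x3670) x3706) x3694) x3686) x23370)
    (Nat.sub (Nat.sub (Nat.sub (Nat.add (Nat.add (Nat.add (Nat.add (Nat.add (Nat.add (Nat.add (Nat.add C x8066) x5150) x3206) x3746) x3710) x3686) x3694) (Nat.mul (e (nat_lit 3692)) ap)) (Nat.mul x3692 (nat_lit 2))) x23374) (Nat.mul (e (nat_lit 3692)) an))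
    (Nat.sub (Nat.add (Nat.add (Nat.add (Nat.add (Nat.add (Nat.add (Nat.add (Nat.add (Nat.add C x3694) x8068) x5152) x3208) x3748) x3712) x3688) x3692) x3696) x23376)
    (Nat.add (Nat.add (Nat.add (Nat.add (Nat.add (Nat.add (Nat.add C (Nat.mul x3696 (nat_lit 2))) x8070) x5154) x3210) x3750) x3714) x3694)
    (Nat.sub (Nat.sub (Nat.sub (Nat.add (Nat.add (Nat.add (Nat.add (Nat.add (Nat.add (Nat.add (Nat.add C x8078) x5162) x3218) x3758) x3686) x3710) x3706) (Nat.mul (e (nat_lit 3704)) ap)) (Nat.mul x3704 (nat_lit 2))) x23386) (Nat.mul (e (nat_lit 3704)) an))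
    (Nat.sub (Nat.sub (Nat.sub (Nat.add (Nat.add (Nat.add (Nat.add (Nat.add (Nat.add (Nat.add (Nat.add C x8080) x5164) x3220) x3760) x3688) x3712) x3704) (Nat.mul (e (nat_lit 3706)) ap)) (Nat.mul x3706 (nat_lit 2))) x23388) (Nat.mul (e (nat_lit 3706)) an))
    (Nat.sub (Nat.sub (Nat.sub (Nat.add (Nat.add (Nat.add (Nat.add (Nat.add (Nat.add (Nat.add (Nat.add C x8084) x5168) x3224) x3764) x3692) x3704) x3712) (Nat.mul (e (nat_lit 3710)) ap)) (Nat.mul x3710 (nat_lit 2))) x23392) (Nat.mul (e (nat_lit 3710)) an))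
    (Nat.sub (Nat.add (Nat.add (Nat.add (Nat.add (Nat.add (Nat.add (Nat.add (Nat.add (Nat.add C x8086) x5170) x3226) x3766) x3694) x3706) x3718) x3710) x3714) x23394)
    (Nat.add (Nat.add (Nat.add (Nat.add (Nat.add (Nat.add (Nat.add C x8088) x5172) x3228) x3768) x3696) x3720) x3712)
    (Nat.sub (Nat.add (Nat.add (Nat.add (Nat.add (Nat.add (Nat.add C x8092) x5176) x3232) x3772) x3712) x3720) x23400)
    (Nat.add (Nat.add (Nat.add (Nat.add (Nat.add (Nat.add (Nat.add C (Nat.mul x3720 (nat_lit 2))) x8094) x5178) x3234) x3774) x3714) x3718)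
    (Nat.sub (Nat.add (Nat.add (Nat.add (Nat.add (Nat.add (Nat.add C x8108) x5192) x3248) x3896) x3680) x3740) x23416)
    (Nat.sub (Nat.sub (Nat.sub (Nat.add (Nat.add (Nat.add (Nat.add (Nat.add (Nat.add (Nat.add (Nat.add (Nat.add (Nat.add C x8114) x5198) x3254) x3902) x3686) x3758) x3734) x3746) x3742) (Nat.mul (e (nat_lit 3740)) ap)) x3740) x23422) (Nat.mul (e (nat_lit 3740)) an))
    (Nat.sub (Nat.sub (Nat.add (Nat.add (Nat.add (Nat.add (Nat.add (Nat.add (Nat.add (Nat.add (Nat.add C x8116) x5200) x3256) x3904) x3688) x3760) x3748) x3740) (Nat.mul (e (nat_lit 3742)) ap)) x23424) (Nat.mul (e (nat_lit 3742)) an))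
    (Nat.sub (Nat.sub (Nat.sub (Nat.add (Nat.add (Nat.add (Nat.add (Nat.add (Nat.add (Nat.add (Nat.add (Nat.add C x8120) x5204) x3260) x3908) x3692) x3764) x3740) x3748) (Nat.mul (e (nat_lit 3746)) ap)) (Nat.mul x3746 (nat_lit 4))) x23428) (Nat.mul (e (nat_lit 3746)) an))
    (Nat.sub (Nat.sub (Nat.add (Nat.add (Nat.add (Nat.add (Nat.add (Nat.add (Nat.add (Nat.add (Nat.add C x8122) x5206) x3262) x3910) x3694) x3766) x3742) x3746) x3750) x3748) x23430)
    (Nat.add (Nat.add (Nat.add (Nat.add (Nat.add (Nat.add (Nat.add C x8124) x5208) x3264) x3912) x3696) x3768) x3748)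
    (Nat.sub (Nat.sub (Nat.sub (Nat.add (Nat.add (Nat.add (Nat.add (Nat.add (Nat.add (Nat.add (Nat.add (Nat.add (Nat.add C x8132) x5216) x3272) x3920) x3704) x3812) x3740) x3764) x3760) (Nat.mul (e (nat_lit 3758)) ap)) x3758) x23440) (Nat.mul (e (nat_lit 3758)) an))
    (Nat.sub (Nat.sub (Nat.sub (Nat.add (Nat.add (Nat.add (Nat.add (Nat.add (Nat.add (Nat.add (Nat.add (Nat.add (Nat.add C x8134) x5218) x3274) x3922) x3706) x3814) x3742) x3766) x3758) (Nat.mul (e (nat_lit 3760)) ap)) x3760) x23442) (Nat.mul (e (nat_lit 3760)) an))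
    (Nat.sub (Nat.sub (Nat.sub (Nat.add (Nat.add (Nat.add (Nat.add (Nat.add (Nat.add (Nat.add (Nat.add (Nat.add (Nat.add (Nat.add C x8138) x5222) x3278) x3926) x3710) x3818) x3746) x3782) x3758) x3766) (Nat.mul (e (nat_lit 3764)) ap)) (Nat.mul x3764 (nat_lit 2))) x23446) (Nat.mul (e (nat_lit 3764)) an))
    (Nat.sub (Nat.add (Nat.add (Nat.add (Nat.add (Nat.add (Nat.add (Nat.add (Nat.add (Nat.add (Nat.add (Nat.add (Nat.add C x8140) x5224) x3280) x3928) x3712) x3820) x3748) x3784) x3760) x3772) x3764) x3768) x23448)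
    (Nat.add (Nat.add (Nat.add (Nat.add (Nat.add (Nat.add (Nat.add (Nat.add (Nat.add (Nat.add C x8142) x5226) x3282) x3930) x3714) x3822) x3750) x3786) x3774) x3766)
    (Nat.sub (Nat.sub (Nat.add (Nat.add (Nat.add (Nat.add (Nat.add (Nat.add (Nat.add (Nat.add (Nat.add C x8146) x5230) x3286) x3934) x3718) x3826) x3790) x3766) x3774) x3772) x23454)
    (Nat.add (Nat.add (Nat.add (Nat.add (Nat.add (Nat.add (Nat.add (Nat.add (Nat.add (Nat.add C x3774) x8148) x5232) x3288) x3936) x3720) x3828) x3792) x3768) x3772)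
    (Nat.sub (Nat.sub (Nat.sub (Nat.add (Nat.add (Nat.add (Nat.add (Nat.add (Nat.add (Nat.add (Nat.add C x8156) x5240) x3296) x3944) x3836) x3764) x3784) (Nat.mul (e (nat_lit 3782)) ap)) (Nat.mul x3782 (nat_lit 2))) x23464) (Nat.mul (e (nat_lit 3782)) an))
    (Nat.sub (Nat.sub (Nat.add (Nat.add (Nat.add (Nat.add (Nat.add (Nat.add (Nat.add (Nat.add (Nat.add C x8158) x5242) x3298) x3946) x3838) x3766) x3790) x3782) x3786) x3784) x23466)
    (Nat.sub (Nat.add (Nat.add (Nat.add (Nat.add (Nat.add (Nat.add (Nat.add (Nat.add C x8160) x5244) x3300) x3948) x3840) x3768) x3792) x3784) (Nat.mul x3786 (nat_lit 2)))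
    (Nat.sub (Nat.add (Nat.add (Nat.add (Nat.add (Nat.add (Nat.add (Nat.add (Nat.add C x8164) x5248) x3304) x3952) x3844) x3772) x3784) x3792) x23472)
    (Nat.add (Nat.add (Nat.add (Nat.add (Nat.add (Nat.add (Nat.add (Nat.add (Nat.add (Nat.add C x3792) x8166) x5250) x3306) x3954) x3846) x3774) x3786) x3798) x3790)
    (Nat.add (Nat.add (Nat.add (Nat.add (Nat.add (Nat.add (Nat.add C (Nat.mul x3798 (nat_lit 2))) x8172) x5256) x3312) x3960) x3852) x3792)
    (Nat.sub (Nat.sub (Nat.add (Nat.add (Nat.add (Nat.add (Nat.add (Nat.add (Nat.add C x8186) x5270) x3326) x3974) x3758) x3818) x3814) (Nat.mul x3812 (nat_lit 2))) x23494)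
    (Nat.sub (Nat.sub (Nat.add (Nat.add (Nat.add (Nat.add (Nat.add (Nat.add (Nat.add C x8188) x5272) x3328) x3976) x3760) x3820) x3812) (Nat.mul x3814 (nat_lit 2))) x23496)
    (Nat.sub (Nat.sub (Nat.sub (Nat.add (Nat.add (Nat.add (Nat.add (Nat.add (Nat.add (Nat.add (Nat.add (Nat.add C x8192) x5276) x3332) x3980) x3764) x3836) x3812) x3820) (Nat.mul (e (nat_lit 3818)) ap)) (Nat.mul x3818 (nat_lit 4))) x23500) (Nat.mul (e (nat_lit 3818)) an))
    (Nat.sub (Nat.sub (Nat.add (Nat.add (Nat.add (Nat.add (Nat.add (Nat.add (Nat.add (Nat.add (Nat.add (Nat.add C x8194) x5278) x3334) x3982) x3766) x3838) x3814) x3826) x3818) x3822) (Nat.mul x3820 (nat_lit 2))) x23502)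
    (Nat.sub (Nat.add (Nat.add (Nat.add (Nat.add (Nat.add (Nat.add (Nat.add (Nat.add C x8196) x5280) x3336) x3984) x3768) x3840) x3828) x3820) (Nat.mul x3822 (nat_lit 2)))
    (Nat.sub (Nat.sub (Nat.add (Nat.add (Nat.add (Nat.add (Nat.add (Nat.add (Nat.add (Nat.add C x8200) x5284) x3340) x3988) x3772) x3844) x3820) x3828) (Nat.mul x3826 (nat_lit 4))) x23508)
    (Nat.sub (Nat.add (Nat.add (Nat.add (Nat.add (Nat.add (Nat.add (Nat.add (Nat.add C x8202) x5286) x3342) x3990) x3774) x3846) x3822) x3826) (Nat.mul x3828 (nat_lit 2)))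
    (Nat.sub (Nat.sub (Nat.sub (Nat.add (Nat.add (Nat.add (Nat.add (Nat.add (Nat.add (Nat.add (Nat.add C x8210) x5294) x3350) x3998) x3782) x3818) x3838) (Nat.mul (e (nat_lit 3836)) ap)) (Nat.mul x3836 (nat_lit 2))) x23518) (Nat.mul (e (nat_lit 3836)) an))
    (Nat.sub (Nat.sub (Nat.add (Nat.add (Nat.add (Nat.add (Nat.add (Nat.add (Nat.add (Nat.add (Nat.add C x8212) x5296) x3352) x4000) x3784) x3820) x3844) x3836) x3840) x3838) x23520)
    (Nat.sub (Nat.add (Nat.add (Nat.add (Nat.add (Nat.add (Nat.add (Nat.add (Nat.add C x8214) x5298) x3354) x4002) x3786) x3822) x3846) x3838) (Nat.mul x3840 (nat_lit 2)))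
    (Nat.sub (Nat.sub (Nat.add (Nat.add (Nat.add (Nat.add (Nat.add (Nat.add (Nat.add (Nat.add (Nat.add C x8218) x5302) x3358) x4006) x3790) x3826) x3862) x3838) x3846) x3844) x23526)
    (Nat.add (Nat.add (Nat.add (Nat.add (Nat.add (Nat.add (Nat.add (Nat.add (Nat.add (Nat.add C x8220) x5304) x3360) x4008) x3792) x3828) x3864) x3840) x3852) x3844)
    (Nat.add (Nat.add (Nat.add (Nat.add (Nat.add (Nat.add (Nat.add C x8226) x5310) x3366) x4014) x3798) x3870) x3846)
    (Nat.sub (Nat.add (Nat.add (Nat.add (Nat.add (Nat.add (Nat.add C x8236) x5320) x3376) x4024) x3844) x3864) x23544)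
    (Nat.add (Nat.add (Nat.add (Nat.add (Nat.add (Nat.add (Nat.add C x8238) x5322) x3378) x4026) x3846) x3870) x3862)
    (Nat.add (Nat.add (Nat.add (Nat.add (Nat.add (Nat.add (Nat.add C (Nat.mul x3870 (nat_lit 2))) x8244) x5328) x3384) x4032) x3852) x3864)
    (Nat.sub (Nat.add (Nat.add (Nat.add (Nat.add (Nat.add (Nat.add C (Nat.mul x3896 (nat_lit 2))) x8270) x5354) x3410) x3734) x3902) x23578)
    (Nat.sub (Nat.add (Nat.add (Nat.add (Nat.add (Nat.add (Nat.add (Nat.add (Nat.add (Nat.add C x3902) x8276) x5360) x3416) x3740) x3920) x3896) x3908) x3904) x23584)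
    (Nat.sub (Nat.sub (Nat.add (Nat.add (Nat.add (Nat.add (Nat.add (Nat.add (Nat.add (Nat.add (Nat.add C (Nat.mul x3904 (nat_lit 2))) x8278) x5362) x3418) x3742) x3922) x3910) x3902) (Nat.mul (e (nat_lit 3904)) ap)) x23586) (Nat.mul (e (nat_lit 3904)) an))
    (Nat.sub (Nat.sub (Nat.sub (Nat.add (Nat.add (Nat.add (Nat.add (Nat.add (Nat.add (Nat.add (Nat.add C x8282) x5366) x3422) x3746) x3926) x3902) x3910) (Nat.mul (e (nat_lit 3908)) ap)) (Nat.mul x3908 (nat_lit 2))) x23590) (Nat.mul (e (nat_lit 3908)) an))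
    (Nat.sub (Nat.add (Nat.add (Nat.add (Nat.add (Nat.add (Nat.add (Nat.add (Nat.add (Nat.add C x3910) x8284) x5368) x3424) x3748) x3928) x3904) x3908) x3912) x23592)
    (Nat.add (Nat.add (Nat.add (Nat.add (Nat.add (Nat.add (Nat.add C (Nat.mul x3912 (nat_lit 2))) x8286) x5370) x3426) x3750) x3930) x3910)
    (Nat.sub (Nat.sub (Nat.add (Nat.add (Nat.add (Nat.add (Nat.add (Nat.add (Nat.add (Nat.add (Nat.add C x8294) x5378) x3434) x3758) x3974) x3902) x3926) x3922) (Nat.mul (e (nat_lit 3920)) ap)) x23602) (Nat.mul (e (nat_lit 3920)) an))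
    (Nat.sub (Nat.add (Nat.add (Nat.add (Nat.add (Nat.add (Nat.add (Nat.add (Nat.add C x8296) x5380) x3436) x3760) x3976) x3904) x3928) x3920) x23604)
    (Nat.sub (Nat.sub (Nat.sub (Nat.add (Nat.add (Nat.add (Nat.add (Nat.add (Nat.add (Nat.add (Nat.add (Nat.add (Nat.add C x8300) x5384) x3440) x3764) x3980) x3908) x3944) x3920) x3928) (Nat.mul (e (nat_lit 3926)) ap)) x3926) x23608) (Nat.mul (e (nat_lit 3926)) an))
    (Nat.sub (Nat.add (Nat.add (Nat.add (Nat.add (Nat.add (Nat.add (Nat.add (Nat.add (Nat.add (Nat.add (Nat.add (Nat.add C x3928) x8302) x5386) x3442) x3766) x3982) x3910) x3946) x3922) x3934) x3926) x3930) x23610)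
    (Nat.add (Nat.add (Nat.add (Nat.add (Nat.add (Nat.add (Nat.add (Nat.add (Nat.add (Nat.add C x3930) x8304) x5388) x3444) x3768) x3984) x3912) x3948) x3936) x3928)
    (Nat.sub (Nat.add (Nat.add (Nat.add (Nat.add (Nat.add (Nat.add (Nat.add (Nat.add C x8308) x5392) x3448) x3772) x3988) x3952) x3928) x3936) x23616)
    (Nat.add (Nat.add (Nat.add (Nat.add (Nat.add (Nat.add (Nat.add (Nat.add (Nat.add C (Nat.mul x3936 (nat_lit 2))) x8310) x5394) x3450) x3774) x3990) x3954) x3930) x3934)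
    (Nat.sub (Nat.sub (Nat.sub (Nat.add (Nat.add (Nat.add (Nat.add (Nat.add (Nat.add (Nat.add (Nat.add C x8318) x5402) x3458) x3782) x3998) x3926) x3946) (Nat.mul (e (nat_lit 3944)) ap)) (Nat.mul x3944 (nat_lit 2))) x23626) (Nat.mul (e (nat_lit 3944)) an))
    (Nat.sub (Nat.sub (Nat.add (Nat.add (Nat.add (Nat.add (Nat.add (Nat.add (Nat.add (Nat.add (Nat.add C x8320) x5404) x3460) x3784) x4000) x3928) x3952) x3944) x3948) x3946) x23628)
    (Nat.sub (Nat.add (Nat.add (Nat.add (Nat.add (Nat.add (Nat.add (Nat.add (Nat.add C x8322) x5406) x3462) x3786) x4002) x3930) x3954) x3946) (Nat.mul x3948 (nat_lit 2)))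
    (Nat.sub (Nat.add (Nat.add (Nat.add (Nat.add (Nat.add (Nat.add (Nat.add (Nat.add C x8326) x5410) x3466) x3790) x4006) x3934) x3946) x3954) x23634)
    (Nat.add (Nat.add (Nat.add (Nat.add (Nat.add (Nat.add (Nat.add (Nat.add (Nat.add (Nat.add C x3954) x8328) x5412) x3468) x3792) x4008) x3936) x3948) x3960) x3952)
    (Nat.add (Nat.add (Nat.add (Nat.add (Nat.add (Nat.add (Nat.add C (Nat.mul x3960 (nat_lit 2))) x8334) x5418) x3474) x3798) x4014) x3954)
    (Nat.sub (Nat.add (Nat.add (Nat.add (Nat.add (Nat.add (Nat.add (Nat.add (Nat.add (Nat.add C x3974) x8348) x5432) x3488) x3812) x4136) x3920) x3980) x3976) x23656)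
    (Nat.sub (Nat.add (Nat.add (Nat.add (Nat.add (Nat.add (Nat.add (Nat.add (Nat.add (Nat.add C x3976) x8350) x5434) x3490) x3814) x4138) x3922) x3982) x3974) x23658)
    (Nat.sub (Nat.sub (Nat.sub (Nat.add (Nat.add (Nat.add (Nat.add (Nat.add (Nat.add (Nat.add (Nat.add (Nat.add (Nat.add C x8354) x5438) x3494) x3818) x4142) x3926) x3998) x3974) x3982) (Nat.mul (e (nat_lit 3980)) ap)) x3980) x23662) (Nat.mul (e (nat_lit 3980)) an))
    (Nat.sub (Nat.add (Nat.add (Nat.add (Nat.add (Nat.add (Nat.add (Nat.add (Nat.add (Nat.add (Nat.add (Nat.add (Nat.add C x3982) x8356) x5440) x3496) x3820) x4144) x3928) x4000) x3976) x3988) x3980) x3984) x23664)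
    (Nat.add (Nat.add (Nat.add (Nat.add (Nat.add (Nat.add (Nat.add (Nat.add (Nat.add (Nat.add C x3984) x8358) x5442) x3498) x3822) x4146) x3930) x4002) x3990) x3982)
    (Nat.sub (Nat.sub (Nat.add (Nat.add (Nat.add (Nat.add (Nat.add (Nat.add (Nat.add (Nat.add (Nat.add C x8362) x5446) x3502) x3826) x4150) x3934) x4006) x3982) x3990) x3988) x23670)
    (Nat.add (Nat.add (Nat.add (Nat.add (Nat.add (Nat.add (Nat.add (Nat.add (Nat.add (Nat.add C x3990) x8364) x5448) x3504) x3828) x4152) x3936) x4008) x3984) x3988)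
    (Nat.sub (Nat.add (Nat.add (Nat.add (Nat.add (Nat.add (Nat.add (Nat.add (Nat.add (Nat.add C x8372) x5456) x3512) x3836) x4160) x3944) x4052) x3980) x4000) x23680)
    (Nat.sub (Nat.add (Nat.add (Nat.add (Nat.add (Nat.add (Nat.add (Nat.add (Nat.add (Nat.add (Nat.add (Nat.add (Nat.add C x4000) x8374) x5458) x3514) x3838) x4162) x3946) x4054) x3982) x4006) x3998) x4002) x23682)
    (Nat.add (Nat.add (Nat.add (Nat.add (Nat.add (Nat.add (Nat.add (Nat.add (Nat.add (Nat.add C x8376) x5460) x3516) x3840) x4164) x3948) x4056) x3984) x4008) x4000)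
    (Nat.sub (Nat.add (Nat.add (Nat.add (Nat.add (Nat.add (Nat.add (Nat.add (Nat.add (Nat.add (Nat.add (Nat.add (Nat.add C x4006) x8380) x5464) x3520) x3844) x4168) x3952) x4060) x3988) x4024) x4000) x4008) x23688)
    (Nat.add (Nat.add (Nat.add (Nat.add (Nat.add (Nat.add (Nat.add (Nat.add (Nat.add (Nat.add (Nat.add (Nat.add (Nat.add C (Nat.mul x4008 (nat_lit 2))) x8382) x5466) x3522) x3846) x4170) x3954) x4062) x3990) x4026) x4002) x4014) x4006)
    (Nat.add (Nat.add (Nat.add (Nat.add (Nat.add (Nat.add (Nat.add (Nat.add (Nat.add (Nat.add C (Nat.mul x4014 (nat_lit 2))) x8388) x5472) x3528) x3852) x4176) x3960) x4068) x4032) x4008)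
    (Nat.sub (Nat.add (Nat.add (Nat.add (Nat.add (Nat.add (Nat.add (Nat.add (Nat.add (Nat.add C x4024) x8398) x5482) x3538) x3862) x4186) x4078) x4006) x4026) x23706)
    (Nat.add (Nat.add (Nat.add (Nat.add (Nat.add (Nat.add (Nat.add (Nat.add (Nat.add (Nat.add C x4026) x8400) x5484) x3540) x3864) x4188) x4080) x4008) x4032) x4024)
    (Nat.add (Nat.add (Nat.add (Nat.add (Nat.add (Nat.add (Nat.add (Nat.add (Nat.add C (Nat.mul x4032 (nat_lit 3))) x8406) x5490) x3546) x3870) x4194) x4086) x4014) x4026)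
    (Nat.sub (Nat.add (Nat.add (Nat.add (Nat.add (Nat.add (Nat.add C x8426) x5510) x3566) x4214) x3998) x4054) x23734)
    (Nat.sub (Nat.add (Nat.add (Nat.add (Nat.add (Nat.add (Nat.add (Nat.add (Nat.add (Nat.add C x4054) x8428) x5512) x3568) x4216) x4000) x4060) x4052) x4056) x23736)
    (Nat.add (Nat.add (Nat.add (Nat.add (Nat.add (Nat.add (Nat.add C x8430) x5514) x3570) x4218) x4002) x4062) x4054)
    (Nat.sub (Nat.add (Nat.add (Nat.add (Nat.add (Nat.add (Nat.add (Nat.add (Nat.add C x8434) x5518) x3574) x4222) x4006) x4078) x4054) x4062) x23742)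
    (Nat.add (Nat.add (Nat.add (Nat.add (Nat.add (Nat.add (Nat.add (Nat.add (Nat.add (Nat.add C x4062) x8436) x5520) x3576) x4224) x4008) x4080) x4056) x4068) x4060)
    (Nat.add (Nat.add (Nat.add (Nat.add (Nat.add (Nat.add (Nat.add C x8442) x5526) x3582) x4230) x4014) x4086) x4062)
    (Nat.sub (Nat.add (Nat.add (Nat.add (Nat.add (Nat.add (Nat.add (Nat.add (Nat.add C (Nat.mul x4078 (nat_lit 2))) x8452) x5536) x3592) x4240) x4024) x4060) x4080) x23760)
    (Nat.add (Nat.add (Nat.add (Nat.add (Nat.add (Nat.add (Nat.add (Nat.add (Nat.add C (Nat.mul x4080 (nat_lit 2))) x8454) x5538) x3594) x4242) x4026) x4062) x4086) x4078)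
    (Nat.add (Nat.add (Nat.add (Nat.add (Nat.add (Nat.add (Nat.add (Nat.add (Nat.add C (Nat.mul x4086 (nat_lit 3))) x8460) x5544) x3600) x4248) x4032) x4068) x4104) x4080)
    (Nat.add (Nat.add (Nat.add (Nat.add (Nat.add (Nat.add C (Nat.mul x4104 (nat_lit 4))) x8478) x5562) x3618) x4266) x4086)
    (Nat.sub (Nat.add (Nat.add (Nat.add (Nat.add (Nat.add (Nat.add C (Nat.mul x4136 (nat_lit 2))) x8510) x5594) x3974) x4142) x4138) x23818)
    (Nat.sub (Nat.add (Nat.add (Nat.add (Nat.add (Nat.add (Nat.add C (Nat.mul x4138 (nat_lit 2))) x8512) x5596) x3976) x4144) x4136) x23820)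
    (Nat.sub (Nat.add (Nat.add (Nat.add (Nat.add (Nat.add (Nat.add C x8516) x5600) x3980) x4160) x4136) x4144) x23824)
    (Nat.sub (Nat.add (Nat.add (Nat.add (Nat.add (Nat.add (Nat.add (Nat.add (Nat.add (Nat.add C (Nat.mul x4144 (nat_lit 2))) x8518) x5602) x3982) x4162) x4138) x4150) x4142) x4146) x23826)
    (Nat.add (Nat.add (Nat.add (Nat.add (Nat.add (Nat.add (Nat.add C (Nat.mul x4146 (nat_lit 2))) x8520) x5604) x3984) x4164) x4152) x4144)
    (Nat.sub (Nat.add (Nat.add (Nat.add (Nat.add (Nat.add (Nat.add C x8524) x5608) x3988) x4168) x4144) x4152) x23832)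
    (Nat.add (Nat.add (Nat.add (Nat.add (Nat.add (Nat.add (Nat.add C (Nat.mul x4152 (nat_lit 2))) x8526) x5610) x3990) x4170) x4146) x4150)
    (Nat.sub (Nat.add (Nat.add (Nat.add (Nat.add (Nat.add (Nat.add C x8534) x5618) x3998) x4214) x4142) x4162) x23842)
    (Nat.sub (Nat.add (Nat.add (Nat.add (Nat.add (Nat.add (Nat.add (Nat.add (Nat.add (Nat.add C x4162) x8536) x5620) x4000) x4216) x4144) x4168) x4160) x4164) x23844)
    (Nat.add (Nat.add (Nat.add (Nat.add (Nat.add (Nat.add (Nat.add C x8538) x5622) x4002) x4218) x4146) x4170) x4162)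
    (Nat.sub (Nat.add (Nat.add (Nat.add (Nat.add (Nat.add (Nat.add (Nat.add (Nat.add (Nat.add C x4168) x8542) x5626) x4006) x4222) x4150) x4186) x4162) x4170) x23850)
    (Nat.add (Nat.add (Nat.add (Nat.add (Nat.add (Nat.add (Nat.add (Nat.add (Nat.add (Nat.add C (Nat.mul x4170 (nat_lit 2))) x8544) x5628) x4008) x4224) x4152) x4188) x4164) x4176) x4168)
    (Nat.add (Nat.add (Nat.add (Nat.add (Nat.add (Nat.add (Nat.add C (Nat.mul x4176 (nat_lit 2))) x8550) x5634) x4014) x4230) x4194) x4170)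
    (Nat.sub (Nat.add (Nat.add (Nat.add (Nat.add (Nat.add (Nat.add C x8560) x5644) x4024) x4240) x4168) x4188) x23868)
    (Nat.add (Nat.add (Nat.add (Nat.add (Nat.add (Nat.add (Nat.add C x8562) x5646) x4026) x4242) x4170) x4194) x4186)
    (Nat.add (Nat.add (Nat.add (Nat.add (Nat.add (Nat.add (Nat.add C (Nat.mul x4194 (nat_lit 2))) x8568) x5652) x4032) x4248) x4176) x4188)
    (Nat.sub (Nat.add (Nat.add (Nat.add (Nat.add (Nat.add (Nat.add C (Nat.mul x4214 (nat_lit 2))) x8588) x5672) x4052) x4160) x4216) x23896)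
    (Nat.sub (Nat.add (Nat.add (Nat.add (Nat.add (Nat.add (Nat.add (Nat.add (Nat.add C (Nat.mul x4216 (nat_lit 3))) x8590) x5674) x4054) x4162) x4222) x4214) x4218) x23898)
    (Nat.add (Nat.add (Nat.add (Nat.add (Nat.add (Nat.add (Nat.add C (Nat.mul x4218 (nat_lit 2))) x8592) x5676) x4056) x4164) x4224) x4216)
    (Nat.sub (Nat.add (Nat.add (Nat.add (Nat.add (Nat.add (Nat.add (Nat.add (Nat.add C (Nat.mul x4222 (nat_lit 2))) x8596) x5680) x4060) x4168) x4240) x4216) x4224) x23904)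
    (Nat.add (Nat.add (Nat.add (Nat.add (Nat.add (Nat.add (Nat.add (Nat.add (Nat.add C (Nat.mul x4224 (nat_lit 3))) x8598) x5682) x4062) x4170) x4242) x4218) x4230) x4222)
    (Nat.add (Nat.add (Nat.add (Nat.add (Nat.add (Nat.add (Nat.add C (Nat.mul x4230 (nat_lit 2))) x8604) x5688) x4068) x4176) x4248) x4224)
    (Nat.sub (Nat.add (Nat.add (Nat.add (Nat.add (Nat.add (Nat.add (Nat.add (Nat.add C (Nat.mul x4240 (nat_lit 3))) x8614) x5698) x4078) x4186) x4294) x4222) x4242) x23922)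
    (Nat.add (Nat.add (Nat.add (Nat.add (Nat.add (Nat.add (Nat.add (Nat.add (Nat.add C (Nat.mul x4242 (nat_lit 3))) x8616) x5700) x4080) x4188) x4296) x4224) x4248) x4240)
    (Nat.add (Nat.add (Nat.add (Nat.add (Nat.add (Nat.add (Nat.add (Nat.add (Nat.add C (Nat.mul x4248 (nat_lit 4))) x8622) x5706) x4086) x4194) x4302) x4230) x4266) x4242)
    (Nat.add (Nat.add (Nat.add (Nat.add (Nat.add (Nat.add C (Nat.mul x4266 (nat_lit 4))) x8640) x5724) x4104) x4320) x4248)
    (Nat.sub (Nat.add (Nat.add (Nat.add (Nat.add (Nat.add C (Nat.mul x4294 (nat_lit 4))) x8668) x5752) x4240) x4296) x23976)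
    (Nat.add (Nat.add (Nat.add (Nat.add (Nat.add (Nat.add C (Nat.mul x4296 (nat_lit 4))) x8670) x5754) x4242) x4302) x4294)
    (Nat.add (Nat.add (Nat.add (Nat.add (Nat.add (Nat.add C (Nat.mul x4302 (nat_lit 4))) x8676) x5760) x4248) x4320) x4296)
    (Nat.add (Nat.add (Nat.add (Nat.add (Nat.add C (Nat.mul x4320 (nat_lit 6))) x8694) x5778) x4266) x4302)
    (Nat.sub (Nat.add (Nat.add (Nat.add (Nat.add C (Nat.mul x4400 (nat_lit 2))) x8774) x2942) x4418) x24082)
    (Nat.sub (Nat.add (Nat.add (Nat.add (Nat.add (Nat.add (Nat.add (Nat.add C x4418) x8792) x2960) x4472) x4400) x4436) x4424) x24100)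
    (Nat.sub (Nat.add (Nat.add (Nat.add (Nat.add (Nat.add (Nat.add C x8798) x2966) x4478) x4442) x4418) x4426) x24106)
    (Nat.sub (Nat.add (Nat.add (Nat.add (Nat.add (Nat.add (Nat.add C (Nat.mul x4426 (nat_lit 2))) x8800) x2968) x4480) x4444) x4424) x24108)
    (Nat.sub (Nat.sub (Nat.add (Nat.add (Nat.add (Nat.add (Nat.add C x8810) x2978) x4490) x4418) x4442) (Nat.mul x4436 (nat_lit 2))) x24118)
    (Nat.sub (Nat.sub (Nat.add (Nat.add (Nat.add (Nat.add (Nat.add (Nat.add (Nat.add C x8816) x2984) x4496) x4424) x4436) x4448) x4444) x4442) x24124)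
    (Nat.sub (Nat.add (Nat.add (Nat.add (Nat.add (Nat.add (Nat.add C x8818) x2986) x4498) x4426) x4450) x4442) x24126)
    (Nat.sub (Nat.sub (Nat.add (Nat.add (Nat.add (Nat.add (Nat.add C x8822) x2990) x4502) x4442) x4450) (Nat.mul x4448 (nat_lit 2))) x24130)
    (Nat.sub (Nat.add (Nat.add (Nat.add (Nat.add (Nat.add (Nat.add (Nat.add C x4450) x8824) x2992) x4504) x4444) x4448) x4452) x24132)
    (Nat.add (Nat.add (Nat.add (Nat.add (Nat.add C (Nat.mul x4452 (nat_lit 2))) x8826) x2994) x4506) x4450)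
    (Nat.sub (Nat.add (Nat.add (Nat.add (Nat.add (Nat.add (Nat.add C x8846) x3014) x4634) x4418) x4490) x4478) x24154)
    (Nat.sub (Nat.sub (Nat.add (Nat.add (Nat.add (Nat.add (Nat.add (Nat.add (Nat.add C x8852) x3020) x4640) x4424) x4496) x4472) x4480) (Nat.mul x4478 (nat_lit 2))) x24160)
    (Nat.sub (Nat.add (Nat.add (Nat.add (Nat.add (Nat.add (Nat.add C x8854) x3022) x4642) x4426) x4498) x4478) x24162)
    (Nat.sub (Nat.sub (Nat.add (Nat.add (Nat.add (Nat.add (Nat.add (Nat.add (Nat.add C x8864) x3032) x4652) x4436) x4544) x4472) x4496) x4490) x24172)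
    (Nat.sub (Nat.sub (Nat.add (Nat.add (Nat.add (Nat.add (Nat.add (Nat.add (Nat.add (Nat.add (Nat.add (Nat.add C x8870) x3038) x4658) x4442) x4550) x4478) x4514) x4490) x4502) x4498) x4496) x24178)
    (Nat.sub (Nat.add (Nat.add (Nat.add (Nat.add (Nat.add (Nat.add (Nat.add (Nat.add (Nat.add C x8872) x3040) x4660) x4444) x4552) x4480) x4516) x4504) x4496) x24180)
    (Nat.sub (Nat.sub (Nat.add (Nat.add (Nat.add (Nat.add (Nat.add (Nat.add (Nat.add (Nat.add C x8876) x3044) x4664) x4448) x4556) x4520) x4496) x4504) (Nat.mul x4502 (nat_lit 3))) x24184)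
    (Nat.sub (Nat.add (Nat.add (Nat.add (Nat.add (Nat.add (Nat.add (Nat.add (Nat.add (Nat.add C x8878) x3046) x4666) x4450) x4558) x4522) x4498) x4502) x4506) x24186)
    (Nat.add (Nat.add (Nat.add (Nat.add (Nat.add (Nat.add (Nat.add (Nat.add C x4506) x8880) x3048) x4668) x4452) x4560) x4524) x4504)
    (Nat.sub (Nat.sub (Nat.add (Nat.add (Nat.add (Nat.add (Nat.add (Nat.add (Nat.add C x8888) x3056) x4676) x4568) x4496) x4520) x4516) (Nat.mul x4514 (nat_lit 2))) x24196)
    (Nat.sub (Nat.sub (Nat.add (Nat.add (Nat.add (Nat.add (Nat.add (Nat.add (Nat.add C x8890) x3058) x4678) x4570) x4498) x4522) x4514) (Nat.mul x4516 (nat_lit 2))) x24198)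
    (Nat.sub (Nat.sub (Nat.add (Nat.add (Nat.add (Nat.add (Nat.add (Nat.add (Nat.add C x8894) x3062) x4682) x4574) x4502) x4514) x4522) (Nat.mul x4520 (nat_lit 2))) x24202)
    (Nat.sub (Nat.add (Nat.add (Nat.add (Nat.add (Nat.add (Nat.add (Nat.add (Nat.add (Nat.add C x8896) x3064) x4684) x4576) x4504) x4516) x4528) x4520) x4524) x24204)
    (Nat.add (Nat.add (Nat.add (Nat.add (Nat.add (Nat.add (Nat.add C x8898) x3066) x4686) x4578) x4506) x4530) x4522)
    (Nat.sub (Nat.add (Nat.add (Nat.add (Nat.add (Nat.add (Nat.add C x8902) x3070) x4690) x4582) x4522) x4530) x24210)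
    (Nat.add (Nat.add (Nat.add (Nat.add (Nat.add (Nat.add (Nat.add C (Nat.mul x4530 (nat_lit 2))) x8904) x3072) x4692) x4584) x4524) x4528)
    (Nat.sub (Nat.sub (Nat.sub (Nat.add (Nat.add (Nat.add (Nat.add (Nat.add (Nat.add C x8918) x3086) x4706) x4490) x4550) (Nat.mul (e (nat_lit 4544)) ap)) (Nat.mul x4544 (nat_lit 2))) x24226) (Nat.mul (e (nat_lit 4544)) an))
    (Nat.sub (Nat.sub (Nat.sub (Nat.add (Nat.add (Nat.add (Nat.add (Nat.add (Nat.add (Nat.add (Nat.add (Nat.add C x8924) x3092) x4712) x4496) x4568) x4544) x4556) x4552) (Nat.mul (e (nat_lit 4550)) ap)) (Nat.mul x4550 (nat_lit 3))) x24232) (Nat.mul (e (nat_lit 4550)) an))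
    (Nat.sub (Nat.sub (Nat.add (Nat.add (Nat.add (Nat.add (Nat.add (Nat.add (Nat.add C x8926) x3094) x4714) x4498) x4570) x4558) x4550) (Nat.mul x4552 (nat_lit 2))) x24234)
    (Nat.sub (Nat.sub (Nat.sub (Nat.add (Nat.add (Nat.add (Nat.add (Nat.add (Nat.add (Nat.add (Nat.add C x8930) x3098) x4718) x4502) x4574) x4550) x4558) (Nat.mul (e (nat_lit 4556)) ap)) (Nat.mul x4556 (nat_lit 6))) x24238) (Nat.mul (e (nat_lit 4556)) an))
    (Nat.sub (Nat.sub (Nat.add (Nat.add (Nat.add (Nat.add (Nat.add (Nat.add (Nat.add (Nat.add C x8932) x3100) x4720) x4504) x4576) x4552) x4556) x4560) (Nat.mul x4558 (nat_lit 3))) x24240)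
    (Nat.sub (Nat.add (Nat.add (Nat.add (Nat.add (Nat.add (Nat.add C x8934) x3102) x4722) x4506) x4578) x4558) (Nat.mul x4560 (nat_lit 2)))
    (Nat.sub (Nat.sub (Nat.sub (Nat.add (Nat.add (Nat.add (Nat.add (Nat.add (Nat.add (Nat.add (Nat.add C x8942) x3110) x4730) x4514) x4550) x4574) x4570) (Nat.mul (e (nat_lit 4568)) ap)) (Nat.mul x4568 (nat_lit 2))) x24250) (Nat.mul (e (nat_lit 4568)) an))
    (Nat.sub (Nat.sub (Nat.add (Nat.add (Nat.add (Nat.add (Nat.add (Nat.add (Nat.add C x8944) x3112) x4732) x4516) x4552) x4576) x4568) (Nat.mul x4570 (nat_lit 2))) x24252)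
    (Nat.sub (Nat.sub (Nat.add (Nat.add (Nat.add (Nat.add (Nat.add (Nat.add (Nat.add (Nat.add C x8948) x3116) x4736) x4520) x4556) x4592) x4568) x4576) (Nat.mul x4574 (nat_lit 3))) x24256)
    (Nat.sub (Nat.sub (Nat.add (Nat.add (Nat.add (Nat.add (Nat.add (Nat.add (Nat.add (Nat.add (Nat.add (Nat.add C x8950) x3118) x4738) x4522) x4558) x4594) x4570) x4582) x4574) x4578) x4576) x24258)
    (Nat.sub (Nat.add (Nat.add (Nat.add (Nat.add (Nat.add (Nat.add (Nat.add (Nat.add C x8952) x3120) x4740) x4524) x4560) x4596) x4584) x4576) x4578)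
    (Nat.sub (Nat.sub (Nat.add (Nat.add (Nat.add (Nat.add (Nat.add (Nat.add (Nat.add C x8956) x3124) x4744) x4528) x4600) x4576) x4584) (Nat.mul x4582 (nat_lit 2))) x24264)
    (Nat.add (Nat.add (Nat.add (Nat.add (Nat.add (Nat.add (Nat.add C x8958) x3126) x4746) x4530) x4602) x4578) x4582)
    (Nat.sub (Nat.sub (Nat.add (Nat.add (Nat.add (Nat.add (Nat.add C x8966) x3134) x4754) x4574) x4594) (Nat.mul x4592 (nat_lit 2))) x24274)
    (Nat.sub (Nat.sub (Nat.add (Nat.add (Nat.add (Nat.add (Nat.add (Nat.add (Nat.add C x8968) x3136) x4756) x4576) x4600) x4592) x4596) x4594) x24276)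
    (Nat.sub (Nat.add (Nat.add (Nat.add (Nat.add (Nat.add (Nat.add C x8970) x3138) x4758) x4578) x4602) x4594) (Nat.mul x4596 (nat_lit 2)))
    (Nat.sub (Nat.add (Nat.add (Nat.add (Nat.add (Nat.add (Nat.add C x8974) x3142) x4762) x4582) x4594) x4602) x24282)
    (Nat.add (Nat.add (Nat.add (Nat.add (Nat.add (Nat.add (Nat.add (Nat.add C x4602) x8976) x3144) x4764) x4584) x4596) x4608) x4600)
    (Nat.add (Nat.add (Nat.add (Nat.add (Nat.add C (Nat.mul x4608 (nat_lit 2))) x8982) x3150) x4770) x4602)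
    (Nat.sub (Nat.add (Nat.add (Nat.add (Nat.add (Nat.add (Nat.add C x9008) x3176) x5120) x4472) x4652) x4640) x24316)
    (Nat.sub (Nat.sub (Nat.add (Nat.add (Nat.add (Nat.add (Nat.add (Nat.add (Nat.add C x9014) x3182) x5126) x4478) x4658) x4634) x4642) (Nat.mul x4640 (nat_lit 2))) x24322)
    (Nat.sub (Nat.add (Nat.add (Nat.add (Nat.add (Nat.add (Nat.add C x9016) x3184) x5128) x4480) x4660) x4640) x24324)
    (Nat.sub (Nat.sub (Nat.sub (Nat.add (Nat.add (Nat.add (Nat.add (Nat.add (Nat.add (Nat.add (Nat.add C x9026) x3194) x5138) x4490) x4706) x4634) x4658) (Nat.mul (e (nat_lit 4652)) ap)) (Nat.mul x4652 (nat_lit 2))) x24334) (Nat.mul (e (nat_lit 4652)) an))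
    (Nat.sub (Nat.sub (Nat.sub (Nat.add (Nat.add (Nat.add (Nat.add (Nat.add (Nat.add (Nat.add (Nat.add (Nat.add (Nat.add (Nat.add C x9032) x3200) x5144) x4496) x4712) x4640) x4676) x4652) x4664) x4660) (Nat.mul (e (nat_lit 4658)) ap)) (Nat.mul x4658 (nat_lit 2))) x24340) (Nat.mul (e (nat_lit 4658)) an))
    (Nat.sub (Nat.sub (Nat.add (Nat.add (Nat.add (Nat.add (Nat.add (Nat.add (Nat.add (Nat.add (Nat.add C x9034) x3202) x5146) x4498) x4714) x4642) x4678) x4666) x4658) x4660) x24342)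
    (Nat.sub (Nat.sub (Nat.sub (Nat.add (Nat.add (Nat.add (Nat.add (Nat.add (Nat.add (Nat.add (Nat.add (Nat.add C x9038) x3206) x5150) x4502) x4718) x4682) x4658) x4666) (Nat.mul (e (nat_lit 4664)) ap)) (Nat.mul x4664 (nat_lit 4))) x24346) (Nat.mul (e (nat_lit 4664)) an))
    (Nat.sub (Nat.sub (Nat.add (Nat.add (Nat.add (Nat.add (Nat.add (Nat.add (Nat.add (Nat.add (Nat.add C x9040) x3208) x5152) x4504) x4720) x4684) x4660) x4664) x4668) x4666) x24348)
    (Nat.add (Nat.add (Nat.add (Nat.add (Nat.add (Nat.add (Nat.add C x9042) x3210) x5154) x4506) x4722) x4686) x4666)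
    (Nat.sub (Nat.sub (Nat.sub (Nat.add (Nat.add (Nat.add (Nat.add (Nat.add (Nat.add (Nat.add (Nat.add (Nat.add C x9050) x3218) x5162) x4514) x4730) x4658) x4682) x4678) (Nat.mul (e (nat_lit 4676)) ap)) (Nat.mul x4676 (nat_lit 4))) x24358) (Nat.mul (e (nat_lit 4676)) an))
    (Nat.sub (Nat.sub (Nat.add (Nat.add (Nat.add (Nat.add (Nat.add (Nat.add (Nat.add (Nat.add C x9052) x3220) x5164) x4516) x4732) x4660) x4684) x4676) (Nat.mul x4678 (nat_lit 4))) x24360)
    (Nat.sub (Nat.sub (Nat.sub (Nat.add (Nat.add (Nat.add (Nat.add (Nat.add (Nat.add (Nat.add (Nat.add (Nat.add C x9056) x3224) x5168) x4520) x4736) x4664) x4676) x4684) (Nat.mul (e (nat_lit 4682)) ap)) (Nat.mul x4682 (nat_lit 4))) x24364) (Nat.mul (e (nat_lit 4682)) an))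
    (Nat.sub (Nat.sub (Nat.add (Nat.add (Nat.add (Nat.add (Nat.add (Nat.add (Nat.add (Nat.add (Nat.add (Nat.add C x9058) x3226) x5170) x4522) x4738) x4666) x4678) x4690) x4682) x4686) (Nat.mul x4684 (nat_lit 2))) x24366)
    (Nat.sub (Nat.add (Nat.add (Nat.add (Nat.add (Nat.add (Nat.add (Nat.add (Nat.add C x9060) x3228) x5172) x4524) x4740) x4668) x4692) x4684) (Nat.mul x4686 (nat_lit 2)))
    (Nat.sub (Nat.sub (Nat.add (Nat.add (Nat.add (Nat.add (Nat.add (Nat.add (Nat.add C x9064) x3232) x5176) x4528) x4744) x4684) x4692) (Nat.mul x4690 (nat_lit 2))) x24372)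
    (Nat.add (Nat.add (Nat.add (Nat.add (Nat.add (Nat.add (Nat.add C x9066) x3234) x5178) x4530) x4746) x4686) x4690)
    (Nat.sub (Nat.sub (Nat.add (Nat.add (Nat.add (Nat.add (Nat.add (Nat.add (Nat.add C x9080) x3248) x5192) x4544) x4868) x4652) x4712) x4706) x24388)
    (Nat.sub (Nat.sub (Nat.sub (Nat.add (Nat.add (Nat.add (Nat.add (Nat.add (Nat.add (Nat.add (Nat.add (Nat.add (Nat.add (Nat.add C x9086) x3254) x5198) x4550) x4874) x4658) x4730) x4706) x4718) x4714) (Nat.mul (e (nat_lit 4712)) ap)) (Nat.mul x4712 (nat_lit 2))) x24394) (Nat.mul (e (nat_lit 4712)) an))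
    (Nat.sub (Nat.sub (Nat.add (Nat.add (Nat.add (Nat.add (Nat.add (Nat.add (Nat.add (Nat.add (Nat.add C x9088) x3256) x5200) x4552) x4876) x4660) x4732) x4720) x4712) x4714) x24396)
    (Nat.sub (Nat.sub (Nat.sub (Nat.add (Nat.add (Nat.add (Nat.add (Nat.add (Nat.add (Nat.add (Nat.add (Nat.add (Nat.add C x9092) x3260) x5204) x4556) x4880) x4664) x4736) x4712) x4720) (Nat.mul (e (nat_lit 4718)) ap)) (Nat.mul x4718 (nat_lit 5))) x24400) (Nat.mul (e (nat_lit 4718)) an))
    (Nat.sub (Nat.sub (Nat.add (Nat.add (Nat.add (Nat.add (Nat.add (Nat.add (Nat.add (Nat.add (Nat.add (Nat.add C x9094) x3262) x5206) x4558) x4882) x4666) x4738) x4714) x4718) x4722) (Nat.mul x4720 (nat_lit 2))) x24402)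
    (Nat.sub (Nat.add (Nat.add (Nat.add (Nat.add (Nat.add (Nat.add (Nat.add (Nat.add C x9096) x3264) x5208) x4560) x4884) x4668) x4740) x4720) x4722)
    (Nat.sub (Nat.sub (Nat.sub (Nat.add (Nat.add (Nat.add (Nat.add (Nat.add (Nat.add (Nat.add (Nat.add (Nat.add (Nat.add (Nat.add C x9104) x3272) x5216) x4568) x4892) x4676) x4784) x4712) x4736) x4732) (Nat.mul (e (nat_lit 4730)) ap)) (Nat.mul x4730 (nat_lit 2))) x24412) (Nat.mul (e (nat_lit 4730)) an))
    (Nat.sub (Nat.sub (Nat.add (Nat.add (Nat.add (Nat.add (Nat.add (Nat.add (Nat.add (Nat.add (Nat.add (Nat.add C x9106) x3274) x5218) x4570) x4894) x4678) x4786) x4714) x4738) x4730) (Nat.mul x4732 (nat_lit 2))) x24414)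
    (Nat.sub (Nat.sub (Nat.sub (Nat.add (Nat.add (Nat.add (Nat.add (Nat.add (Nat.add (Nat.add (Nat.add (Nat.add (Nat.add (Nat.add (Nat.add C x9110) x3278) x5222) x4574) x4898) x4682) x4790) x4718) x4754) x4730) x4738) (Nat.mul (e (nat_lit 4736)) ap)) (Nat.mul x4736 (nat_lit 3))) x24418) (Nat.mul (e (nat_lit 4736)) an))
    (Nat.sub (Nat.sub (Nat.add (Nat.add (Nat.add (Nat.add (Nat.add (Nat.add (Nat.add (Nat.add (Nat.add (Nat.add (Nat.add (Nat.add (Nat.add C x9112) x3280) x5224) x4576) x4900) x4684) x4792) x4720) x4756) x4732) x4744) x4736) x4740) x4738) x24420)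
    (Nat.sub (Nat.add (Nat.add (Nat.add (Nat.add (Nat.add (Nat.add (Nat.add (Nat.add (Nat.add (Nat.add (Nat.add C x9114) x3282) x5226) x4578) x4902) x4686) x4794) x4722) x4758) x4746) x4738) x4740)
    (Nat.sub (Nat.sub (Nat.add (Nat.add (Nat.add (Nat.add (Nat.add (Nat.add (Nat.add (Nat.add (Nat.add (Nat.add C x9118) x3286) x5230) x4582) x4906) x4690) x4798) x4762) x4738) x4746) (Nat.mul x4744 (nat_lit 2))) x24426)
    (Nat.add (Nat.add (Nat.add (Nat.add (Nat.add (Nat.add (Nat.add (Nat.add (Nat.add (Nat.add C x9120) x3288) x5232) x4584) x4908) x4692) x4800) x4764) x4740) x4744)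
    (Nat.sub (Nat.sub (Nat.add (Nat.add (Nat.add (Nat.add (Nat.add (Nat.add (Nat.add (Nat.add C x9128) x3296) x5240) x4592) x4916) x4808) x4736) x4756) (Nat.mul x4754 (nat_lit 3))) x24436)
    (Nat.sub (Nat.sub (Nat.add (Nat.add (Nat.add (Nat.add (Nat.add (Nat.add (Nat.add (Nat.add (Nat.add (Nat.add C x9130) x3298) x5242) x4594) x4918) x4810) x4738) x4762) x4754) x4758) (Nat.mul x4756 (nat_lit 2))) x24438)
    (Nat.sub (Nat.add (Nat.add (Nat.add (Nat.add (Nat.add (Nat.add (Nat.add (Nat.add (Nat.add C x9132) x3300) x5244) x4596) x4920) x4812) x4740) x4764) x4756) (Nat.mul x4758 (nat_lit 3)))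
    (Nat.sub (Nat.sub (Nat.add (Nat.add (Nat.add (Nat.add (Nat.add (Nat.add (Nat.add (Nat.add (Nat.add C x9136) x3304) x5248) x4600) x4924) x4816) x4744) x4756) x4764) x4762) x24444)
    (Nat.add (Nat.add (Nat.add (Nat.add (Nat.add (Nat.add (Nat.add (Nat.add (Nat.add (Nat.add C x9138) x3306) x5250) x4602) x4926) x4818) x4746) x4758) x4770) x4762)
    (Nat.add (Nat.add (Nat.add (Nat.add (Nat.add (Nat.add (Nat.add (Nat.add C x4770) x9144) x3312) x5256) x4608) x4932) x4824) x4764)
    (Nat.sub (Nat.sub (Nat.add (Nat.add (Nat.add (Nat.add (Nat.add (Nat.add (Nat.add C x9158) x3326) x5270) x4946) x4730) x4790) x4786) (Nat.mul x4784 (nat_lit 2))) x24466)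
    (Nat.sub (Nat.sub (Nat.add (Nat.add (Nat.add (Nat.add (Nat.add (Nat.add (Nat.add C x9160) x3328) x5272) x4948) x4732) x4792) x4784) (Nat.mul x4786 (nat_lit 2))) x24468)
    (Nat.sub (Nat.sub (Nat.add (Nat.add (Nat.add (Nat.add (Nat.add (Nat.add (Nat.add (Nat.add C x9164) x3332) x5276) x4952) x4736) x4808) x4784) x4792) (Nat.mul x4790 (nat_lit 4))) x24472)
    (Nat.sub (Nat.sub (Nat.add (Nat.add (Nat.add (Nat.add (Nat.add (Nat.add (Nat.add (Nat.add (Nat.add (Nat.add C x9166) x3334) x5278) x4954) x4738) x4810) x4786) x4798) x4790) x4794) (Nat.mul x4792 (nat_lit 2))) x24474)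
    (Nat.sub (Nat.add (Nat.add (Nat.add (Nat.add (Nat.add (Nat.add (Nat.add (Nat.add C x9168) x3336) x5280) x4956) x4740) x4812) x4800) x4792) (Nat.mul x4794 (nat_lit 2)))
    (Nat.sub (Nat.sub (Nat.add (Nat.add (Nat.add (Nat.add (Nat.add (Nat.add (Nat.add (Nat.add C x9172) x3340) x5284) x4960) x4744) x4816) x4792) x4800) (Nat.mul x4798 (nat_lit 4))) x24480)
    (Nat.sub (Nat.add (Nat.add (Nat.add (Nat.add (Nat.add (Nat.add (Nat.add (Nat.add C x9174) x3342) x5286) x4962) x4746) x4818) x4794) x4798) (Nat.mul x4800 (nat_lit 2)))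
    (Nat.sub (Nat.sub (Nat.add (Nat.add (Nat.add (Nat.add (Nat.add (Nat.add (Nat.add C x9182) x3350) x5294) x4970) x4754) x4790) x4810) (Nat.mul x4808 (nat_lit 2))) x24490)
    (Nat.sub (Nat.sub (Nat.add (Nat.add (Nat.add (Nat.add (Nat.add (Nat.add (Nat.add (Nat.add (Nat.add C x9184) x3352) x5296) x4972) x4756) x4792) x4816) x4808) x4812) x4810) x24492)
    (Nat.sub (Nat.add (Nat.add (Nat.add (Nat.add (Nat.add (Nat.add (Nat.add (Nat.add C x9186) x3354) x5298) x4974) x4758) x4794) x4818) x4810) (Nat.mul x4812 (nat_lit 2)))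
    (Nat.sub (Nat.sub (Nat.add (Nat.add (Nat.add (Nat.add (Nat.add (Nat.add (Nat.add (Nat.add (Nat.add C x9190) x3358) x5302) x4978) x4762) x4798) x4834) x4810) x4818) x4816) x24498)
    (Nat.add (Nat.add (Nat.add (Nat.add (Nat.add (Nat.add (Nat.add (Nat.add (Nat.add (Nat.add C x9192) x3360) x5304) x4980) x4764) x4800) x4836) x4812) x4824) x4816)
    (Nat.add (Nat.add (Nat.add (Nat.add (Nat.add (Nat.add (Nat.add C x9198) x3366) x5310) x4986) x4770) x4842) x4818)
    (Nat.sub (Nat.add (Nat.add (Nat.add (Nat.add (Nat.add (Nat.add C x9208) x3376) x5320) x4996) x4816) x4836) x24516)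
    (Nat.add (Nat.add (Nat.add (Nat.add (Nat.add (Nat.add (Nat.add C x9210) x3378) x5322) x4998) x4818) x4842) x4834)
    (Nat.add (Nat.add (Nat.add (Nat.add (Nat.add (Nat.add (Nat.add C (Nat.mul x4842 (nat_lit 2))) x9216) x3384) x5328) x5004) x4824) x4836)
    (Nat.sub (Nat.sub (Nat.add (Nat.add (Nat.add (Nat.add (Nat.add C x9242) x3410) x5354) x4706) x4874) (Nat.mul x4868 (nat_lit 2))) x24550)
    (Nat.sub (Nat.sub (Nat.add (Nat.add (Nat.add (Nat.add (Nat.add (Nat.add (Nat.add (Nat.add C x9248) x3416) x5360) x4712) x4892) x4868) x4880) x4876) (Nat.mul x4874 (nat_lit 3))) x24556)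
    (Nat.sub (Nat.sub (Nat.add (Nat.add (Nat.add (Nat.add (Nat.add (Nat.add (Nat.add C x9250) x3418) x5362) x4714) x4894) x4882) x4874) (Nat.mul x4876 (nat_lit 2))) x24558)
    (Nat.sub (Nat.sub (Nat.sub (Nat.add (Nat.add (Nat.add (Nat.add (Nat.add (Nat.add (Nat.add (Nat.add C x9254) x3422) x5366) x4718) x4898) x4874) x4882) (Nat.mul (e (nat_lit 4880)) ap)) (Nat.mul x4880 (nat_lit 6))) x24562) (Nat.mul (e (nat_lit 4880)) an))
    (Nat.sub (Nat.sub (Nat.add (Nat.add (Nat.add (Nat.add (Nat.add (Nat.add (Nat.add (Nat.add C x9256) x3424) x5368) x4720) x4900) x4876) x4880) x4884) (Nat.mul x4882 (nat_lit 3))) x24564)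
    (Nat.sub (Nat.add (Nat.add (Nat.add (Nat.add (Nat.add (Nat.add C x9258) x3426) x5370) x4722) x4902) x4882) (Nat.mul x4884 (nat_lit 2)))
    (Nat.sub (Nat.sub (Nat.sub (Nat.add (Nat.add (Nat.add (Nat.add (Nat.add (Nat.add (Nat.add (Nat.add (Nat.add C x9266) x3434) x5378) x4730) x4946) x4874) x4898) x4894) (Nat.mul (e (nat_lit 4892)) ap)) (Nat.mul x4892 (nat_lit 4))) x24574) (Nat.mul (e (nat_lit 4892)) an))
    (Nat.sub (Nat.sub (Nat.add (Nat.add (Nat.add (Nat.add (Nat.add (Nat.add (Nat.add (Nat.add C x9268) x3436) x5380) x4732) x4948) x4876) x4900) x4892) (Nat.mul x4894 (nat_lit 4))) x24576)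
    (Nat.sub (Nat.sub (Nat.add (Nat.add (Nat.add (Nat.add (Nat.add (Nat.add (Nat.add (Nat.add (Nat.add C x9272) x3440) x5384) x4736) x4952) x4880) x4916) x4892) x4900) (Nat.mul x4898 (nat_lit 5))) x24580)
    (Nat.sub (Nat.sub (Nat.add (Nat.add (Nat.add (Nat.add (Nat.add (Nat.add (Nat.add (Nat.add (Nat.add (Nat.add (Nat.add C x9274) x3442) x5386) x4738) x4954) x4882) x4918) x4894) x4906) x4898) x4902) (Nat.mul x4900 (nat_lit 3))) x24582)
    (Nat.sub (Nat.add (Nat.add (Nat.add (Nat.add (Nat.add (Nat.add (Nat.add (Nat.add (Nat.add C x9276) x3444) x5388) x4740) x4956) x4884) x4920) x4908) x4900) (Nat.mul x4902 (nat_lit 3)))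
    (Nat.sub (Nat.sub (Nat.add (Nat.add (Nat.add (Nat.add (Nat.add (Nat.add (Nat.add (Nat.add C x9280) x3448) x5392) x4744) x4960) x4924) x4900) x4908) (Nat.mul x4906 (nat_lit 4))) x24588)
    (Nat.sub (Nat.add (Nat.add (Nat.add (Nat.add (Nat.add (Nat.add (Nat.add (Nat.add C x9282) x3450) x5394) x4746) x4962) x4926) x4902) x4906) (Nat.mul x4908 (nat_lit 2)))
    (Nat.sub (Nat.sub (Nat.add (Nat.add (Nat.add (Nat.add (Nat.add (Nat.add (Nat.add C x9290) x3458) x5402) x4754) x4970) x4898) x4918) (Nat.mul x4916 (nat_lit 6))) x24598)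
    (Nat.sub (Nat.sub (Nat.add (Nat.add (Nat.add (Nat.add (Nat.add (Nat.add (Nat.add (Nat.add (Nat.add C x9292) x3460) x5404) x4756) x4972) x4900) x4924) x4916) x4920) (Nat.mul x4918 (nat_lit 5))) x24600)
    (Nat.sub (Nat.add (Nat.add (Nat.add (Nat.add (Nat.add (Nat.add (Nat.add (Nat.add C x9294) x3462) x5406) x4758) x4974) x4902) x4926) x4918) (Nat.mul x4920 (nat_lit 6)))
    (Nat.sub (Nat.sub (Nat.add (Nat.add (Nat.add (Nat.add (Nat.add (Nat.add (Nat.add (Nat.add C x9298) x3466) x5410) x4762) x4978) x4906) x4918) x4926) (Nat.mul x4924 (nat_lit 4))) x24606)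
    (Nat.sub (Nat.add (Nat.add (Nat.add (Nat.add (Nat.add (Nat.add (Nat.add (Nat.add (Nat.add C x9300) x3468) x5412) x4764) x4980) x4908) x4920) x4932) x4924) (Nat.mul x4926 (nat_lit 3)))
    (Nat.sub (Nat.add (Nat.add (Nat.add (Nat.add (Nat.add (Nat.add C x9306) x3474) x5418) x4770) x4986) x4926) (Nat.mul x4932 (nat_lit 2)))
    (Nat.sub (Nat.sub (Nat.add (Nat.add (Nat.add (Nat.add (Nat.add (Nat.add (Nat.add C x9320) x3488) x5432) x4784) x4892) x4952) x4948) (Nat.mul x4946 (nat_lit 2))) x24628)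
    (Nat.sub (Nat.sub (Nat.add (Nat.add (Nat.add (Nat.add (Nat.add (Nat.add (Nat.add C x9322) x3490) x5434) x4786) x4894) x4954) x4946) (Nat.mul x4948 (nat_lit 2))) x24630)
    (Nat.sub (Nat.sub (Nat.add (Nat.add (Nat.add (Nat.add (Nat.add (Nat.add (Nat.add (Nat.add C x9326) x3494) x5438) x4790) x4898) x4970) x4946) x4954) (Nat.mul x4952 (nat_lit 4))) x24634)
    (Nat.sub (Nat.sub (Nat.add (Nat.add (Nat.add (Nat.add (Nat.add (Nat.add (Nat.add (Nat.add (Nat.add (Nat.add C x9328) x3496) x5440) x4792) x4900) x4972) x4948) x4960) x4952) x4956) (Nat.mul x4954 (nat_lit 2))) x24636)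
    (Nat.sub (Nat.add (Nat.add (Nat.add (Nat.add (Nat.add (Nat.add (Nat.add (Nat.add C x9330) x3498) x5442) x4794) x4902) x4974) x4962) x4954) (Nat.mul x4956 (nat_lit 2)))
    (Nat.sub (Nat.sub (Nat.add (Nat.add (Nat.add (Nat.add (Nat.add (Nat.add (Nat.add (Nat.add C x9334) x3502) x5446) x4798) x4906) x4978) x4954) x4962) (Nat.mul x4960 (nat_lit 4))) x24642)
    (Nat.sub (Nat.add (Nat.add (Nat.add (Nat.add (Nat.add (Nat.add (Nat.add (Nat.add C x9336) x3504) x5448) x4800) x4908) x4980) x4956) x4960) (Nat.mul x4962 (nat_lit 2)))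
    (Nat.sub (Nat.sub (Nat.add (Nat.add (Nat.add (Nat.add (Nat.add (Nat.add (Nat.add (Nat.add C x9344) x3512) x5456) x4808) x4916) x5024) x4952) x4972) (Nat.mul x4970 (nat_lit 3))) x24652)
    (Nat.sub (Nat.sub (Nat.add (Nat.add (Nat.add (Nat.add (Nat.add (Nat.add (Nat.add (Nat.add (Nat.add (Nat.add C x9346) x3514) x5458) x4810) x4918) x5026) x4954) x4978) x4970) x4974) (Nat.mul x4972 (nat_lit 2))) x24654)
    (Nat.sub (Nat.add (Nat.add (Nat.add (Nat.add (Nat.add (Nat.add (Nat.add (Nat.add (Nat.add C x9348) x3516) x5460) x4812) x4920) x5028) x4956) x4980) x4972) (Nat.mul x4974 (nat_lit 3)))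
    (Nat.sub (Nat.sub (Nat.add (Nat.add (Nat.add (Nat.add (Nat.add (Nat.add (Nat.add (Nat.add (Nat.add (Nat.add C x9352) x3520) x5464) x4816) x4924) x5032) x4960) x4996) x4972) x4980) (Nat.mul x4978 (nat_lit 2))) x24660)
    (Nat.sub (Nat.add (Nat.add (Nat.add (Nat.add (Nat.add (Nat.add (Nat.add (Nat.add (Nat.add (Nat.add (Nat.add C x9354) x3522) x5466) x4818) x4926) x5034) x4962) x4998) x4974) x4986) x4978) x4980)
    (Nat.sub (Nat.add (Nat.add (Nat.add (Nat.add (Nat.add (Nat.add (Nat.add (Nat.add C x9360) x3528) x5472) x4824) x4932) x5040) x5004) x4980) x4986)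
    (Nat.sub (Nat.sub (Nat.add (Nat.add (Nat.add (Nat.add (Nat.add (Nat.add (Nat.add C x9370) x3538) x5482) x4834) x5050) x4978) x4998) (Nat.mul x4996 (nat_lit 2))) x24678)
    (Nat.sub (Nat.add (Nat.add (Nat.add (Nat.add (Nat.add (Nat.add (Nat.add (Nat.add C x9372) x3540) x5484) x4836) x5052) x4980) x5004) x4996) (Nat.mul x4998 (nat_lit 2)))
    (Nat.add (Nat.add (Nat.add (Nat.add (Nat.add (Nat.add (Nat.add C x9378) x3546) x5490) x4842) x5058) x4986) x4998)
    (Nat.sub (Nat.sub (Nat.add (Nat.add (Nat.add (Nat.add (Nat.add C x9398) x3566) x5510) x4970) x5026) (Nat.mul x5024 (nat_lit 2))) x24706)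
    (Nat.sub (Nat.sub (Nat.add (Nat.add (Nat.add (Nat.add (Nat.add (Nat.add (Nat.add C x9400) x3568) x5512) x4972) x5032) x5024) x5028) x5026) x24708)
    (Nat.sub (Nat.add (Nat.add (Nat.add (Nat.add (Nat.add (Nat.add C x9402) x3570) x5514) x4974) x5034) x5026) (Nat.mul x5028 (nat_lit 2)))
    (Nat.sub (Nat.sub (Nat.add (Nat.add (Nat.add (Nat.add (Nat.add (Nat.add (Nat.add C x9406) x3574) x5518) x4978) x5050) x5026) x5034) (Nat.mul x5032 (nat_lit 2))) x24714)
    (Nat.sub (Nat.add (Nat.add (Nat.add (Nat.add (Nat.add (Nat.add (Nat.add (Nat.add C x9408) x3576) x5520) x4980) x5052) x5028) x5040) x5032) x5034)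
    (Nat.sub (Nat.add (Nat.add (Nat.add (Nat.add (Nat.add (Nat.add C x9414) x3582) x5526) x4986) x5058) x5034) (Nat.mul x5040 (nat_lit 2)))
    (Nat.sub (Nat.add (Nat.add (Nat.add (Nat.add (Nat.add (Nat.add C x9424) x3592) x5536) x4996) x5032) x5052) x24732)
    (Nat.add (Nat.add (Nat.add (Nat.add (Nat.add (Nat.add (Nat.add C x9426) x3594) x5538) x4998) x5034) x5058) x5050)
    (Nat.add (Nat.add (Nat.add (Nat.add (Nat.add (Nat.add (Nat.add (Nat.add C x5058) x9432) x3600) x5544) x5004) x5040) x5076) x5052)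
    (Nat.add (Nat.add (Nat.add (Nat.add (Nat.add C (Nat.mul x5076 (nat_lit 2))) x9450) x3618) x5562) x5058)
    (Nat.sub (Nat.add (Nat.add (Nat.add (Nat.add (Nat.add (Nat.add C (Nat.mul x5120 (nat_lit 2))) x9494) x3662) x4634) x5138) x5126) x24802)
    (Nat.sub (Nat.add (Nat.add (Nat.add (Nat.add (Nat.add (Nat.add C x9500) x3668) x4640) x5144) x5120) x5128) x24808)
    (Nat.sub (Nat.add (Nat.add (Nat.add (Nat.add (Nat.add (Nat.add C (Nat.mul x5128 (nat_lit 2))) x9502) x3670) x4642) x5146) x5126) x24810)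
    (Nat.sub (Nat.add (Nat.add (Nat.add (Nat.add (Nat.add (Nat.add C x9512) x3680) x4652) x5192) x5120) x5144) x24820)
    (Nat.sub (Nat.add (Nat.add (Nat.add (Nat.add (Nat.add (Nat.add (Nat.add (Nat.add (Nat.add C x9518) x3686) x4658) x5198) x5126) x5162) x5138) x5150) x5146) x24826)
    (Nat.sub (Nat.add (Nat.add (Nat.add (Nat.add (Nat.add (Nat.add (Nat.add (Nat.add (Nat.add C x5146) x9520) x3688) x4660) x5200) x5128) x5164) x5152) x5144) x24828)
    (Nat.sub (Nat.sub (Nat.add (Nat.add (Nat.add (Nat.add (Nat.add (Nat.add (Nat.add C x9524) x3692) x4664) x5204) x5168) x5144) x5152) (Nat.mul x5150 (nat_lit 2))) x24832)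
    (Nat.sub (Nat.add (Nat.add (Nat.add (Nat.add (Nat.add (Nat.add (Nat.add (Nat.add (Nat.add C x5152) x9526) x3694) x4666) x5206) x5170) x5146) x5150) x5154) x24834)
    (Nat.add (Nat.add (Nat.add (Nat.add (Nat.add (Nat.add (Nat.add C (Nat.mul x5154 (nat_lit 2))) x9528) x3696) x4668) x5208) x5172) x5152)
    (Nat.sub (Nat.sub (Nat.add (Nat.add (Nat.add (Nat.add (Nat.add (Nat.add (Nat.add C x9536) x3704) x4676) x5216) x5144) x5168) x5164) (Nat.mul x5162 (nat_lit 2))) x24844)
    (Nat.sub (Nat.sub (Nat.add (Nat.add (Nat.add (Nat.add (Nat.add (Nat.add (Nat.add C x9538) x3706) x4678) x5218) x5146) x5170) x5162) (Nat.mul x5164 (nat_lit 2))) x24846)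
    (Nat.sub (Nat.sub (Nat.add (Nat.add (Nat.add (Nat.add (Nat.add (Nat.add (Nat.add C x9542) x3710) x4682) x5222) x5150) x5162) x5170) (Nat.mul x5168 (nat_lit 2))) x24850)
    (Nat.sub (Nat.add (Nat.add (Nat.add (Nat.add (Nat.add (Nat.add (Nat.add (Nat.add (Nat.add C x9544) x3712) x4684) x5224) x5152) x5164) x5176) x5168) x5172) x24852)
    (Nat.add (Nat.add (Nat.add (Nat.add (Nat.add (Nat.add (Nat.add C x9546) x3714) x4686) x5226) x5154) x5178) x5170)
    (Nat.sub (Nat.add (Nat.add (Nat.add (Nat.add (Nat.add (Nat.add C x9550) x3718) x4690) x5230) x5170) x5178) x24858)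
    (Nat.add (Nat.add (Nat.add (Nat.add (Nat.add (Nat.add (Nat.add C (Nat.mul x5178 (nat_lit 2))) x9552) x3720) x4692) x5232) x5172) x5176)
    (Nat.sub (Nat.add (Nat.add (Nat.add (Nat.add (Nat.add (Nat.add C x9566) x3734) x4706) x5354) x5138) x5198) x24874)
    (Nat.sub (Nat.sub (Nat.sub (Nat.add (Nat.add (Nat.add (Nat.add (Nat.add (Nat.add (Nat.add (Nat.add (Nat.add (Nat.add C x9572) x3740) x4712) x5360) x5144) x5216) x5192) x5204) x5200) (Nat.mul (e (nat_lit 5198)) ap)) x5198) x24880) (Nat.mul (e (nat_lit 5198)) an))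
    (Nat.sub (Nat.add (Nat.add (Nat.add (Nat.add (Nat.add (Nat.add (Nat.add (Nat.add C x9574) x3742) x4714) x5362) x5146) x5218) x5206) x5198) x24882)
    (Nat.sub (Nat.sub (Nat.add (Nat.add (Nat.add (Nat.add (Nat.add (Nat.add (Nat.add (Nat.add C x9578) x3746) x4718) x5366) x5150) x5222) x5198) x5206) (Nat.mul x5204 (nat_lit 4))) x24886)
    (Nat.sub (Nat.sub (Nat.add (Nat.add (Nat.add (Nat.add (Nat.add (Nat.add (Nat.add (Nat.add (Nat.add C x9580) x3748) x4720) x5368) x5152) x5224) x5200) x5204) x5208) x5206) x24888)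
    (Nat.add (Nat.add (Nat.add (Nat.add (Nat.add (Nat.add (Nat.add C x9582) x3750) x4722) x5370) x5154) x5226) x5206)
    (Nat.sub (Nat.sub (Nat.sub (Nat.add (Nat.add (Nat.add (Nat.add (Nat.add (Nat.add (Nat.add (Nat.add (Nat.add (Nat.add C x9590) x3758) x4730) x5378) x5162) x5270) x5198) x5222) x5218) (Nat.mul (e (nat_lit 5216)) ap)) x5216) x24898) (Nat.mul (e (nat_lit 5216)) an))
    (Nat.sub (Nat.sub (Nat.add (Nat.add (Nat.add (Nat.add (Nat.add (Nat.add (Nat.add (Nat.add (Nat.add C x9592) x3760) x4732) x5380) x5164) x5272) x5200) x5224) x5216) x5218) x24900)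
    (Nat.sub (Nat.sub (Nat.add (Nat.add (Nat.add (Nat.add (Nat.add (Nat.add (Nat.add (Nat.add (Nat.add (Nat.add C x9596) x3764) x4736) x5384) x5168) x5276) x5204) x5240) x5216) x5224) (Nat.mul x5222 (nat_lit 2))) x24904)
    (Nat.sub (Nat.add (Nat.add (Nat.add (Nat.add (Nat.add (Nat.add (Nat.add (Nat.add (Nat.add (Nat.add (Nat.add (Nat.add C x9598) x3766) x4738) x5386) x5170) x5278) x5206) x5242) x5218) x5230) x5222) x5226) x24906)
    (Nat.add (Nat.add (Nat.add (Nat.add (Nat.add (Nat.add (Nat.add (Nat.add (Nat.add (Nat.add C x9600) x3768) x4740) x5388) x5172) x5280) x5208) x5244) x5232) x5224)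
    (Nat.sub (Nat.sub (Nat.add (Nat.add (Nat.add (Nat.add (Nat.add (Nat.add (Nat.add (Nat.add (Nat.add C x9604) x3772) x4744) x5392) x5176) x5284) x5248) x5224) x5232) x5230) x24912)
    (Nat.add (Nat.add (Nat.add (Nat.add (Nat.add (Nat.add (Nat.add (Nat.add (Nat.add (Nat.add C x5232) x9606) x3774) x4746) x5394) x5178) x5286) x5250) x5226) x5230)
    (Nat.sub (Nat.sub (Nat.add (Nat.add (Nat.add (Nat.add (Nat.add (Nat.add (Nat.add C x9614) x3782) x4754) x5402) x5294) x5222) x5242) (Nat.mul x5240 (nat_lit 2))) x24922)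
    (Nat.sub (Nat.sub (Nat.add (Nat.add (Nat.add (Nat.add (Nat.add (Nat.add (Nat.add (Nat.add (Nat.add C x9616) x3784) x4756) x5404) x5296) x5224) x5248) x5240) x5244) x5242) x24924)
    (Nat.sub (Nat.add (Nat.add (Nat.add (Nat.add (Nat.add (Nat.add (Nat.add (Nat.add C x9618) x3786) x4758) x5406) x5298) x5226) x5250) x5242) (Nat.mul x5244 (nat_lit 2)))
    (Nat.sub (Nat.add (Nat.add (Nat.add (Nat.add (Nat.add (Nat.add (Nat.add (Nat.add C x9622) x3790) x4762) x5410) x5302) x5230) x5242) x5250) x24930)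
    (Nat.add (Nat.add (Nat.add (Nat.add (Nat.add (Nat.add (Nat.add (Nat.add (Nat.add (Nat.add C x5250) x9624) x3792) x4764) x5412) x5304) x5232) x5244) x5256) x5248)
    (Nat.add (Nat.add (Nat.add (Nat.add (Nat.add (Nat.add (Nat.add C (Nat.mul x5256 (nat_lit 2))) x9630) x3798) x4770) x5418) x5310) x5250)
    (Nat.sub (Nat.sub (Nat.add (Nat.add (Nat.add (Nat.add (Nat.add (Nat.add (Nat.add C x9644) x3812) x4784) x5432) x5216) x5276) x5272) (Nat.mul x5270 (nat_lit 2))) x24952)
    (Nat.sub (Nat.sub (Nat.add (Nat.add (Nat.add (Nat.add (Nat.add (Nat.add (Nat.add C x9646) x3814) x4786) x5434) x5218) x5278) x5270) (Nat.mul x5272 (nat_lit 2))) x24954)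
    (Nat.sub (Nat.sub (Nat.add (Nat.add (Nat.add (Nat.add (Nat.add (Nat.add (Nat.add (Nat.add C x9650) x3818) x4790) x5438) x5222) x5294) x5270) x5278) (Nat.mul x5276 (nat_lit 4))) x24958)
    (Nat.sub (Nat.sub (Nat.add (Nat.add (Nat.add (Nat.add (Nat.add (Nat.add (Nat.add (Nat.add (Nat.add (Nat.add C x9652) x3820) x4792) x5440) x5224) x5296) x5272) x5284) x5276) x5280) (Nat.mul x5278 (nat_lit 2))) x24960)
    (Nat.sub (Nat.add (Nat.add (Nat.add (Nat.add (Nat.add (Nat.add (Nat.add (Nat.add C x9654) x3822) x4794) x5442) x5226) x5298) x5286) x5278) (Nat.mul x5280 (nat_lit 2)))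
    (Nat.sub (Nat.sub (Nat.add (Nat.add (Nat.add (Nat.add (Nat.add (Nat.add (Nat.add (Nat.add C x9658) x3826) x4798) x5446) x5230) x5302) x5278) x5286) (Nat.mul x5284 (nat_lit 4))) x24966)
    (Nat.sub (Nat.add (Nat.add (Nat.add (Nat.add (Nat.add (Nat.add (Nat.add (Nat.add C x9660) x3828) x4800) x5448) x5232) x5304) x5280) x5284) (Nat.mul x5286 (nat_lit 2)))
    (Nat.sub (Nat.sub (Nat.add (Nat.add (Nat.add (Nat.add (Nat.add (Nat.add (Nat.add C x9668) x3836) x4808) x5456) x5240) x5276) x5296) (Nat.mul x5294 (nat_lit 2))) x24976)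
    (Nat.sub (Nat.sub (Nat.add (Nat.add (Nat.add (Nat.add (Nat.add (Nat.add (Nat.add (Nat.add (Nat.add C x9670) x3838) x4810) x5458) x5242) x5278) x5302) x5294) x5298) x5296) x24978)
    (Nat.sub (Nat.add (Nat.add (Nat.add (Nat.add (Nat.add (Nat.add (Nat.add (Nat.add C x9672) x3840) x4812) x5460) x5244) x5280) x5304) x5296) (Nat.mul x5298 (nat_lit 2)))
    (Nat.sub (Nat.sub (Nat.add (Nat.add (Nat.add (Nat.add (Nat.add (Nat.add (Nat.add (Nat.add (Nat.add C x9676) x3844) x4816) x5464) x5248) x5284) x5320) x5296) x5304) x5302) x24984)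
    (Nat.add (Nat.add (Nat.add (Nat.add (Nat.add (Nat.add (Nat.add (Nat.add (Nat.add (Nat.add C x9678) x3846) x4818) x5466) x5250) x5286) x5322) x5298) x5310) x5302)
    (Nat.add (Nat.add (Nat.add (Nat.add (Nat.add (Nat.add (Nat.add C x9684) x3852) x4824) x5472) x5256) x5328) x5304)
    (Nat.sub (Nat.add (Nat.add (Nat.add (Nat.add (Nat.add (Nat.add C x9694) x3862) x4834) x5482) x5302) x5322) x25002)
    (Nat.add (Nat.add (Nat.add (Nat.add (Nat.add (Nat.add (Nat.add C x9696) x3864) x4836) x5484) x5304) x5328) x5320)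
    (Nat.add (Nat.add (Nat.add (Nat.add (Nat.add (Nat.add (Nat.add C (Nat.mul x5328 (nat_lit 2))) x9702) x3870) x4842) x5490) x5310) x5322)
    (Nat.sub (Nat.add (Nat.add (Nat.add (Nat.add (Nat.add (Nat.add (Nat.add C x5354) x9728) x3896) x4868) x5840) x5192) x5360) x25036)
    (Nat.sub (Nat.add (Nat.add (Nat.add (Nat.add (Nat.add (Nat.add (Nat.add (Nat.add (Nat.add C x9734) x3902) x4874) x5846) x5198) x5378) x5354) x5366) x5362) x25042)
    (Nat.sub (Nat.add (Nat.add (Nat.add (Nat.add (Nat.add (Nat.add (Nat.add (Nat.add (Nat.add C x5362) x9736) x3904) x4876) x5848) x5200) x5380) x5368) x5360) x25044)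
    (Nat.sub (Nat.sub (Nat.add (Nat.add (Nat.add (Nat.add (Nat.add (Nat.add (Nat.add (Nat.add C x9740) x3908) x4880) x5852) x5204) x5384) x5360) x5368) (Nat.mul x5366 (nat_lit 3))) x25048)
    (Nat.sub (Nat.add (Nat.add (Nat.add (Nat.add (Nat.add (Nat.add (Nat.add (Nat.add (Nat.add C x9742) x3910) x4882) x5854) x5206) x5386) x5362) x5366) x5370) x25050)
    (Nat.add (Nat.add (Nat.add (Nat.add (Nat.add (Nat.add (Nat.add (Nat.add C x5370) x9744) x3912) x4884) x5856) x5208) x5388) x5368)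
    (Nat.sub (Nat.sub (Nat.add (Nat.add (Nat.add (Nat.add (Nat.add (Nat.add (Nat.add (Nat.add (Nat.add C x9752) x3920) x4892) x5864) x5216) x5432) x5360) x5384) x5380) x5378) x25060)
    (Nat.sub (Nat.sub (Nat.add (Nat.add (Nat.add (Nat.add (Nat.add (Nat.add (Nat.add (Nat.add (Nat.add C x9754) x3922) x4894) x5866) x5218) x5434) x5362) x5386) x5378) x5380) x25062)
    (Nat.sub (Nat.sub (Nat.add (Nat.add (Nat.add (Nat.add (Nat.add (Nat.add (Nat.add (Nat.add (Nat.add (Nat.add C x9758) x3926) x4898) x5870) x5222) x5438) x5366) x5402) x5378) x5386) (Nat.mul x5384 (nat_lit 2))) x25066)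
    (Nat.sub (Nat.add (Nat.add (Nat.add (Nat.add (Nat.add (Nat.add (Nat.add (Nat.add (Nat.add (Nat.add (Nat.add (Nat.add C x9760) x3928) x4900) x5872) x5224) x5440) x5368) x5404) x5380) x5392) x5384) x5388) x25068)
    (Nat.add (Nat.add (Nat.add (Nat.add (Nat.add (Nat.add (Nat.add (Nat.add (Nat.add (Nat.add C x9762) x3930) x4902) x5874) x5226) x5442) x5370) x5406) x5394) x5386)
    (Nat.sub (Nat.sub (Nat.add (Nat.add (Nat.add (Nat.add (Nat.add (Nat.add (Nat.add (Nat.add (Nat.add C x9766) x3934) x4906) x5878) x5230) x5446) x5410) x5386) x5394) x5392) x25074)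
    (Nat.add (Nat.add (Nat.add (Nat.add (Nat.add (Nat.add (Nat.add (Nat.add (Nat.add (Nat.add C x5394) x9768) x3936) x4908) x5880) x5232) x5448) x5412) x5388) x5392)
    (Nat.sub (Nat.sub (Nat.add (Nat.add (Nat.add (Nat.add (Nat.add (Nat.add (Nat.add (Nat.add C x9776) x3944) x4916) x5888) x5240) x5456) x5384) x5404) (Nat.mul x5402 (nat_lit 3))) x25084)
    (Nat.sub (Nat.sub (Nat.add (Nat.add (Nat.add (Nat.add (Nat.add (Nat.add (Nat.add (Nat.add (Nat.add (Nat.add C x9778) x3946) x4918) x5890) x5242) x5458) x5386) x5410) x5402) x5406) (Nat.mul x5404 (nat_lit 2))) x25086)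
    (Nat.sub (Nat.add (Nat.add (Nat.add (Nat.add (Nat.add (Nat.add (Nat.add (Nat.add (Nat.add C x9780) x3948) x4920) x5892) x5244) x5460) x5388) x5412) x5404) (Nat.mul x5406 (nat_lit 3)))
    (Nat.sub (Nat.sub (Nat.add (Nat.add (Nat.add (Nat.add (Nat.add (Nat.add (Nat.add (Nat.add (Nat.add C x9784) x3952) x4924) x5896) x5248) x5464) x5392) x5404) x5412) x5410) x25092)
    (Nat.add (Nat.add (Nat.add (Nat.add (Nat.add (Nat.add (Nat.add (Nat.add (Nat.add (Nat.add C x9786) x3954) x4926) x5898) x5250) x5466) x5394) x5406) x5418) x5410)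
    (Nat.add (Nat.add (Nat.add (Nat.add (Nat.add (Nat.add (Nat.add (Nat.add C x5418) x9792) x3960) x4932) x5904) x5256) x5472) x5412)
    (Nat.sub (Nat.add (Nat.add (Nat.add (Nat.add (Nat.add (Nat.add (Nat.add (Nat.add (Nat.add C x9806) x3974) x4946) x5918) x5270) x5594) x5378) x5438) x5434) x25114)
    (Nat.sub (Nat.add (Nat.add (Nat.add (Nat.add (Nat.add (Nat.add (Nat.add (Nat.add (Nat.add C x9808) x3976) x4948) x5920) x5272) x5596) x5380) x5440) x5432) x25116)
    (Nat.sub (Nat.sub (Nat.add (Nat.add (Nat.add (Nat.add (Nat.add (Nat.add (Nat.add (Nat.add (Nat.add (Nat.add C x9812) x3980) x4952) x5924) x5276) x5600) x5384) x5456) x5432) x5440) (Nat.mul x5438 (nat_lit 2))) x25120)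
    (Nat.sub (Nat.add (Nat.add (Nat.add (Nat.add (Nat.add (Nat.add (Nat.add (Nat.add (Nat.add (Nat.add (Nat.add (Nat.add C x9814) x3982) x4954) x5926) x5278) x5602) x5386) x5458) x5434) x5446) x5438) x5442) x25122)
    (Nat.add (Nat.add (Nat.add (Nat.add (Nat.add (Nat.add (Nat.add (Nat.add (Nat.add (Nat.add C x9816) x3984) x4956) x5928) x5280) x5604) x5388) x5460) x5448) x5440)
    (Nat.sub (Nat.sub (Nat.add (Nat.add (Nat.add (Nat.add (Nat.add (Nat.add (Nat.add (Nat.add (Nat.add (Nat.add C x9820) x3988) x4960) x5932) x5284) x5608) x5392) x5464) x5440) x5448) (Nat.mul x5446 (nat_lit 2))) x25128)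
    (Nat.add (Nat.add (Nat.add (Nat.add (Nat.add (Nat.add (Nat.add (Nat.add (Nat.add (Nat.add C x9822) x3990) x4962) x5934) x5286) x5610) x5394) x5466) x5442) x5446)
    (Nat.sub (Nat.sub (Nat.add (Nat.add (Nat.add (Nat.add (Nat.add (Nat.add (Nat.add (Nat.add (Nat.add (Nat.add C x9830) x3998) x4970) x5942) x5294) x5618) x5402) x5510) x5438) x5458) x5456) x25138)
    (Nat.sub (Nat.add (Nat.add (Nat.add (Nat.add (Nat.add (Nat.add (Nat.add (Nat.add (Nat.add (Nat.add (Nat.add (Nat.add C x9832) x4000) x4972) x5944) x5296) x5620) x5404) x5512) x5440) x5464) x5456) x5460) x25140)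
    (Nat.sub (Nat.add (Nat.add (Nat.add (Nat.add (Nat.add (Nat.add (Nat.add (Nat.add (Nat.add (Nat.add (Nat.add C x9834) x4002) x4974) x5946) x5298) x5622) x5406) x5514) x5442) x5466) x5458) x5460)
    (Nat.sub (Nat.add (Nat.add (Nat.add (Nat.add (Nat.add (Nat.add (Nat.add (Nat.add (Nat.add (Nat.add (Nat.add (Nat.add C x9838) x4006) x4978) x5950) x5302) x5626) x5410) x5518) x5446) x5482) x5458) x5466) x25146)
    (Nat.add (Nat.add (Nat.add (Nat.add (Nat.add (Nat.add (Nat.add (Nat.add (Nat.add (Nat.add (Nat.add (Nat.add (Nat.add (Nat.add C x5466) x9840) x4008) x4980) x5952) x5304) x5628) x5412) x5520) x5448) x5484) x5460) x5472) x5464)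
    (Nat.add (Nat.add (Nat.add (Nat.add (Nat.add (Nat.add (Nat.add (Nat.add (Nat.add (Nat.add (Nat.add C x5472) x9846) x4014) x4986) x5958) x5310) x5634) x5418) x5526) x5490) x5466)
    (Nat.sub (Nat.add (Nat.add (Nat.add (Nat.add (Nat.add (Nat.add (Nat.add (Nat.add (Nat.add C x9856) x4024) x4996) x5968) x5320) x5644) x5536) x5464) x5484) x25164)
    (Nat.add (Nat.add (Nat.add (Nat.add (Nat.add (Nat.add (Nat.add (Nat.add (Nat.add (Nat.add C x9858) x4026) x4998) x5970) x5322) x5646) x5538) x5466) x5490) x5482)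
    (Nat.add (Nat.add (Nat.add (Nat.add (Nat.add (Nat.add (Nat.add (Nat.add (Nat.add (Nat.add C (Nat.mul x5490 (nat_lit 2))) x9864) x4032) x5004) x5976) x5328) x5652) x5544) x5472) x5484)
    (Nat.sub (Nat.sub (Nat.add (Nat.add (Nat.add (Nat.add (Nat.add (Nat.add (Nat.add C x9884) x4052) x5024) x5996) x5672) x5456) x5512) x5510) x25192)
    (Nat.sub (Nat.add (Nat.add (Nat.add (Nat.add (Nat.add (Nat.add (Nat.add (Nat.add (Nat.add C x9886) x4054) x5026) x5998) x5674) x5458) x5518) x5510) x5514) x25194)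
    (Nat.sub (Nat.add (Nat.add (Nat.add (Nat.add (Nat.add (Nat.add (Nat.add (Nat.add C x9888) x4056) x5028) x6000) x5676) x5460) x5520) x5512) x5514)
    (Nat.sub (Nat.sub (Nat.add (Nat.add (Nat.add (Nat.add (Nat.add (Nat.add (Nat.add (Nat.add (Nat.add C x9892) x4060) x5032) x6004) x5680) x5464) x5536) x5512) x5520) x5518) x25200)
    (Nat.add (Nat.add (Nat.add (Nat.add (Nat.add (Nat.add (Nat.add (Nat.add (Nat.add (Nat.add C x9894) x4062) x5034) x6006) x5682) x5466) x5538) x5514) x5526) x5518)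
    (Nat.sub (Nat.add (Nat.add (Nat.add (Nat.add (Nat.add (Nat.add (Nat.add (Nat.add C x9900) x4068) x5040) x6012) x5688) x5472) x5544) x5520) x5526)
    (Nat.sub (Nat.add (Nat.add (Nat.add (Nat.add (Nat.add (Nat.add (Nat.add (Nat.add (Nat.add C x5536) x9910) x4078) x5050) x6022) x5698) x5482) x5518) x5538) x25218)
    (Nat.add (Nat.add (Nat.add (Nat.add (Nat.add (Nat.add (Nat.add (Nat.add (Nat.add (Nat.add C x5538) x9912) x4080) x5052) x6024) x5700) x5484) x5520) x5544) x5536)
    (Nat.add (Nat.add (Nat.add (Nat.add (Nat.add (Nat.add (Nat.add (Nat.add (Nat.add (Nat.add C (Nat.mul x5544 (nat_lit 2))) x9918) x4086) x5058) x6030) x5706) x5490) x5526) x5562) x5538)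
    (Nat.add (Nat.add (Nat.add (Nat.add (Nat.add (Nat.add (Nat.add C (Nat.mul x5562 (nat_lit 3))) x9936) x4104) x5076) x6048) x5724) x5544)
    (Nat.sub (Nat.add (Nat.add (Nat.add (Nat.add (Nat.add (Nat.add C x9968) x4136) x6080) x5432) x5600) x5596) x25276)
    (Nat.sub (Nat.add (Nat.add (Nat.add (Nat.add (Nat.add (Nat.add C x9970) x4138) x6082) x5434) x5602) x5594) x25278)
    (Nat.sub (Nat.sub (Nat.add (Nat.add (Nat.add (Nat.add (Nat.add (Nat.add (Nat.add C x9974) x4142) x6086) x5438) x5618) x5594) x5602) (Nat.mul x5600 (nat_lit 2))) x25282)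
    (Nat.sub (Nat.add (Nat.add (Nat.add (Nat.add (Nat.add (Nat.add (Nat.add (Nat.add (Nat.add C x9976) x4144) x6088) x5440) x5620) x5596) x5608) x5600) x5604) x25284)
    (Nat.add (Nat.add (Nat.add (Nat.add (Nat.add (Nat.add (Nat.add C x9978) x4146) x6090) x5442) x5622) x5610) x5602)
    (Nat.sub (Nat.sub (Nat.add (Nat.add (Nat.add (Nat.add (Nat.add (Nat.add (Nat.add C x9982) x4150) x6094) x5446) x5626) x5602) x5610) (Nat.mul x5608 (nat_lit 2))) x25290)
    (Nat.add (Nat.add (Nat.add (Nat.add (Nat.add (Nat.add (Nat.add C x9984) x4152) x6096) x5448) x5628) x5604) x5608)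
    (Nat.sub (Nat.sub (Nat.add (Nat.add (Nat.add (Nat.add (Nat.add (Nat.add (Nat.add C x9992) x4160) x6104) x5456) x5672) x5600) x5620) (Nat.mul x5618 (nat_lit 2))) x25300)
    (Nat.sub (Nat.sub (Nat.add (Nat.add (Nat.add (Nat.add (Nat.add (Nat.add (Nat.add (Nat.add (Nat.add C x9994) x4162) x6106) x5458) x5674) x5602) x5626) x5618) x5622) x5620) x25302)
    (Nat.sub (Nat.add (Nat.add (Nat.add (Nat.add (Nat.add (Nat.add (Nat.add (Nat.add C x9996) x4164) x6108) x5460) x5676) x5604) x5628) x5620) (Nat.mul x5622 (nat_lit 2)))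
    (Nat.sub (Nat.sub (Nat.add (Nat.add (Nat.add (Nat.add (Nat.add (Nat.add (Nat.add (Nat.add (Nat.add C x10000) x4168) x6112) x5464) x5680) x5608) x5644) x5620) x5628) x5626) x25308)
    (Nat.add (Nat.add (Nat.add (Nat.add (Nat.add (Nat.add (Nat.add (Nat.add (Nat.add (Nat.add C x10002) x4170) x6114) x5466) x5682) x5610) x5646) x5622) x5634) x5626)
    (Nat.add (Nat.add (Nat.add (Nat.add (Nat.add (Nat.add (Nat.add C x10008) x4176) x6120) x5472) x5688) x5652) x5628)
    (Nat.sub (Nat.sub (Nat.add (Nat.add (Nat.add (Nat.add (Nat.add (Nat.add (Nat.add C x10018) x4186) x6130) x5482) x5698) x5626) x5646) (Nat.mul x5644 (nat_lit 2))) x25326)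
    (Nat.sub (Nat.add (Nat.add (Nat.add (Nat.add (Nat.add (Nat.add (Nat.add (Nat.add C x10020) x4188) x6132) x5484) x5700) x5628) x5652) x5644) (Nat.mul x5646 (nat_lit 2)))
    (Nat.add (Nat.add (Nat.add (Nat.add (Nat.add (Nat.add (Nat.add C x10026) x4194) x6138) x5490) x5706) x5634) x5646)
    (Nat.sub (Nat.add (Nat.add (Nat.add (Nat.add (Nat.add (Nat.add C x10046) x4214) x6158) x5510) x5618) x5674) x25354)
    (Nat.sub (Nat.add (Nat.add (Nat.add (Nat.add (Nat.add (Nat.add (Nat.add (Nat.add (Nat.add C x5674) x10048) x4216) x6160) x5512) x5620) x5680) x5672) x5676) x25356)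
    (Nat.add (Nat.add (Nat.add (Nat.add (Nat.add (Nat.add (Nat.add C x10050) x4218) x6162) x5514) x5622) x5682) x5674)
    (Nat.sub (Nat.add (Nat.add (Nat.add (Nat.add (Nat.add (Nat.add (Nat.add (Nat.add C x10054) x4222) x6166) x5518) x5626) x5698) x5674) x5682) x25362)
    (Nat.add (Nat.add (Nat.add (Nat.add (Nat.add (Nat.add (Nat.add (Nat.add (Nat.add (Nat.add C x5682) x10056) x4224) x6168) x5520) x5628) x5700) x5676) x5688) x5680)
    (Nat.add (Nat.add (Nat.add (Nat.add (Nat.add (Nat.add (Nat.add C x10062) x4230) x6174) x5526) x5634) x5706) x5682)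
    (Nat.sub (Nat.add (Nat.add (Nat.add (Nat.add (Nat.add (Nat.add (Nat.add (Nat.add (Nat.add C x5698) x10072) x4240) x6184) x5536) x5644) x5752) x5680) x5700) x25380)
    (Nat.add (Nat.add (Nat.add (Nat.add (Nat.add (Nat.add (Nat.add (Nat.add (Nat.add (Nat.add C x5700) x10074) x4242) x6186) x5538) x5646) x5754) x5682) x5706) x5698)
    (Nat.add (Nat.add (Nat.add (Nat.add (Nat.add (Nat.add (Nat.add (Nat.add (Nat.add (Nat.add C (Nat.mul x5706 (nat_lit 2))) x10080) x4248) x6192) x5544) x5652) x5760) x5688) x5724) x5700)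
    (Nat.add (Nat.add (Nat.add (Nat.add (Nat.add (Nat.add (Nat.add C (Nat.mul x5724 (nat_lit 2))) x10098) x4266) x6210) x5562) x5778) x5706)
    (Nat.sub (Nat.add (Nat.add (Nat.add (Nat.add (Nat.add (Nat.add C (Nat.mul x5752 (nat_lit 2))) x10126) x4294) x6238) x5698) x5754) x25434)
    (Nat.add (Nat.add (Nat.add (Nat.add (Nat.add (Nat.add (Nat.add C (Nat.mul x5754 (nat_lit 2))) x10128) x4296) x6240) x5700) x5760) x5752)
    (Nat.add (Nat.add (Nat.add (Nat.add (Nat.add (Nat.add (Nat.add C (Nat.mul x5760 (nat_lit 2))) x10134) x4302) x6246) x5706) x5778) x5754)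
    (Nat.add (Nat.add (Nat.add (Nat.add (Nat.add (Nat.add C (Nat.mul x5778 (nat_lit 4))) x10152) x4320) x6264) x5724) x5760)
    (Nat.sub (Nat.add (Nat.add (Nat.add (Nat.add C (Nat.mul x5840 (nat_lit 2))) x10214) x5354) x5846) x25522)
    (Nat.sub (Nat.add (Nat.add (Nat.add (Nat.add (Nat.add (Nat.add (Nat.add C x5846) x10220) x5360) x5864) x5840) x5852) x5848) x25528)
    (Nat.sub (Nat.add (Nat.add (Nat.add (Nat.add (Nat.add (Nat.add C (Nat.mul x5848 (nat_lit 2))) x10222) x5362) x5866) x5854) x5846) x25530)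
    (Nat.sub (Nat.sub (Nat.add (Nat.add (Nat.add (Nat.add (Nat.add C x10226) x5366) x5870) x5846) x5854) (Nat.mul x5852 (nat_lit 2))) x25534)
    (Nat.sub (Nat.add (Nat.add (Nat.add (Nat.add (Nat.add (Nat.add (Nat.add C x5854) x10228) x5368) x5872) x5848) x5852) x5856) x25536)
    (Nat.add (Nat.add (Nat.add (Nat.add (Nat.add C (Nat.mul x5856 (nat_lit 2))) x10230) x5370) x5874) x5854)
    (Nat.sub (Nat.add (Nat.add (Nat.add (Nat.add (Nat.add (Nat.add C x10238) x5378) x5918) x5846) x5870) x5866) x25546)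
    (Nat.sub (Nat.add (Nat.add (Nat.add (Nat.add (Nat.add (Nat.add C x10240) x5380) x5920) x5848) x5872) x5864) x25548)
    (Nat.sub (Nat.sub (Nat.add (Nat.add (Nat.add (Nat.add (Nat.add (Nat.add (Nat.add C x10244) x5384) x5924) x5852) x5888) x5864) x5872) x5870) x25552)
    (Nat.sub (Nat.add (Nat.add (Nat.add (Nat.add (Nat.add (Nat.add (Nat.add (Nat.add (Nat.add (Nat.add C x5872) x10246) x5386) x5926) x5854) x5890) x5866) x5878) x5870) x5874) x25554)
    (Nat.add (Nat.add (Nat.add (Nat.add (Nat.add (Nat.add (Nat.add (Nat.add C x5874) x10248) x5388) x5928) x5856) x5892) x5880) x5872)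
    (Nat.sub (Nat.add (Nat.add (Nat.add (Nat.add (Nat.add (Nat.add C x10252) x5392) x5932) x5896) x5872) x5880) x25560)
    (Nat.add (Nat.add (Nat.add (Nat.add (Nat.add (Nat.add (Nat.add C (Nat.mul x5880 (nat_lit 2))) x10254) x5394) x5934) x5898) x5874) x5878)
    (Nat.sub (Nat.sub (Nat.add (Nat.add (Nat.add (Nat.add (Nat.add C x10262) x5402) x5942) x5870) x5890) (Nat.mul x5888 (nat_lit 2))) x25570)
    (Nat.sub (Nat.sub (Nat.add (Nat.add (Nat.add (Nat.add (Nat.add (Nat.add (Nat.add C x10264) x5404) x5944) x5872) x5896) x5888) x5892) x5890) x25572)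
    (Nat.sub (Nat.add (Nat.add (Nat.add (Nat.add (Nat.add (Nat.add C x10266) x5406) x5946) x5874) x5898) x5890) (Nat.mul x5892 (nat_lit 2)))
    (Nat.sub (Nat.add (Nat.add (Nat.add (Nat.add (Nat.add (Nat.add C x10270) x5410) x5950) x5878) x5890) x5898) x25578)
    (Nat.add (Nat.add (Nat.add (Nat.add (Nat.add (Nat.add (Nat.add (Nat.add C x5898) x10272) x5412) x5952) x5880) x5892) x5904) x5896)
    (Nat.add (Nat.add (Nat.add (Nat.add (Nat.add C (Nat.mul x5904 (nat_lit 2))) x10278) x5418) x5958) x5898)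
    (Nat.sub (Nat.add (Nat.add (Nat.add (Nat.add (Nat.add (Nat.add C x10292) x5432) x6080) x5864) x5924) x5920) x25600)
    (Nat.sub (Nat.add (Nat.add (Nat.add (Nat.add (Nat.add (Nat.add C x10294) x5434) x6082) x5866) x5926) x5918) x25602)
    (Nat.sub (Nat.sub (Nat.add (Nat.add (Nat.add (Nat.add (Nat.add (Nat.add (Nat.add C x10298) x5438) x6086) x5870) x5942) x5918) x5926) (Nat.mul x5924 (nat_lit 2))) x25606)
    (Nat.sub (Nat.add (Nat.add (Nat.add (Nat.add (Nat.add (Nat.add (Nat.add (Nat.add (Nat.add C x10300) x5440) x6088) x5872) x5944) x5920) x5932) x5924) x5928) x25608)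
    (Nat.add (Nat.add (Nat.add (Nat.add (Nat.add (Nat.add (Nat.add C x10302) x5442) x6090) x5874) x5946) x5934) x5926)
    (Nat.sub (Nat.sub (Nat.add (Nat.add (Nat.add (Nat.add (Nat.add (Nat.add (Nat.add C x10306) x5446) x6094) x5878) x5950) x5926) x5934) (Nat.mul x5932 (nat_lit 2))) x25614)
    (Nat.add (Nat.add (Nat.add (Nat.add (Nat.add (Nat.add (Nat.add C x10308) x5448) x6096) x5880) x5952) x5928) x5932)
    (Nat.sub (Nat.sub (Nat.add (Nat.add (Nat.add (Nat.add (Nat.add (Nat.add (Nat.add C x10316) x5456) x6104) x5888) x5996) x5924) x5944) x5942) x25624)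
    (Nat.sub (Nat.add (Nat.add (Nat.add (Nat.add (Nat.add (Nat.add (Nat.add (Nat.add (Nat.add C x10318) x5458) x6106) x5890) x5998) x5926) x5950) x5942) x5946) x25626)
    (Nat.sub (Nat.add (Nat.add (Nat.add (Nat.add (Nat.add (Nat.add (Nat.add (Nat.add C x10320) x5460) x6108) x5892) x6000) x5928) x5952) x5944) x5946)
    (Nat.sub (Nat.add (Nat.add (Nat.add (Nat.add (Nat.add (Nat.add (Nat.add (Nat.add (Nat.add C x10324) x5464) x6112) x5896) x6004) x5932) x5968) x5944) x5952) x25632)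
    (Nat.add (Nat.add (Nat.add (Nat.add (Nat.add (Nat.add (Nat.add (Nat.add (Nat.add (Nat.add (Nat.add C x5952) x10326) x5466) x6114) x5898) x6006) x5934) x5970) x5946) x5958) x5950)
    (Nat.add (Nat.add (Nat.add (Nat.add (Nat.add (Nat.add (Nat.add (Nat.add C x5958) x10332) x5472) x6120) x5904) x6012) x5976) x5952)
    (Nat.sub (Nat.add (Nat.add (Nat.add (Nat.add (Nat.add (Nat.add C x10342) x5482) x6130) x6022) x5950) x5970) x25650)
    (Nat.add (Nat.add (Nat.add (Nat.add (Nat.add (Nat.add (Nat.add C x10344) x5484) x6132) x6024) x5952) x5976) x5968)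
    (Nat.add (Nat.add (Nat.add (Nat.add (Nat.add (Nat.add (Nat.add C (Nat.mul x5976 (nat_lit 2))) x10350) x5490) x6138) x6030) x5958) x5970)
    (Nat.sub (Nat.sub (Nat.add (Nat.add (Nat.add (Nat.add (Nat.add C x10370) x5510) x6158) x5942) x5998) (Nat.mul x5996 (nat_lit 2))) x25678)
    (Nat.sub (Nat.sub (Nat.add (Nat.add (Nat.add (Nat.add (Nat.add (Nat.add (Nat.add C x10372) x5512) x6160) x5944) x6004) x5996) x6000) x5998) x25680)
    (Nat.sub (Nat.add (Nat.add (Nat.add (Nat.add (Nat.add (Nat.add C x10374) x5514) x6162) x5946) x6006) x5998) (Nat.mul x6000 (nat_lit 2)))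
    (Nat.sub (Nat.sub (Nat.add (Nat.add (Nat.add (Nat.add (Nat.add (Nat.add (Nat.add C x10378) x5518) x6166) x5950) x6022) x5998) x6006) (Nat.mul x6004 (nat_lit 2))) x25686)
    (Nat.sub (Nat.add (Nat.add (Nat.add (Nat.add (Nat.add (Nat.add (Nat.add (Nat.add C x10380) x5520) x6168) x5952) x6024) x6000) x6012) x6004) x6006)
    (Nat.sub (Nat.add (Nat.add (Nat.add (Nat.add (Nat.add (Nat.add C x10386) x5526) x6174) x5958) x6030) x6006) (Nat.mul x6012 (nat_lit 2)))
    (Nat.sub (Nat.add (Nat.add (Nat.add (Nat.add (Nat.add (Nat.add C x10396) x5536) x6184) x5968) x6004) x6024) x25704)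
    (Nat.add (Nat.add (Nat.add (Nat.add (Nat.add (Nat.add (Nat.add C x10398) x5538) x6186) x5970) x6006) x6030) x6022)
    (Nat.add (Nat.add (Nat.add (Nat.add (Nat.add (Nat.add (Nat.add (Nat.add C x6030) x10404) x5544) x6192) x5976) x6012) x6048) x6024)
    (Nat.add (Nat.add (Nat.add (Nat.add (Nat.add C (Nat.mul x6048 (nat_lit 2))) x10422) x5562) x6210) x6030)
    (Nat.sub (Nat.add (Nat.add (Nat.add (Nat.add (Nat.add (Nat.add C (Nat.mul x6080 (nat_lit 2))) x10454) x5594) x5918) x6086) x6082) x25762)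
    (Nat.sub (Nat.add (Nat.add (Nat.add (Nat.add (Nat.add (Nat.add C (Nat.mul x6082 (nat_lit 2))) x10456) x5596) x5920) x6088) x6080) x25764)
    (Nat.sub (Nat.add (Nat.add (Nat.add (Nat.add (Nat.add (Nat.add C x10460) x5600) x5924) x6104) x6080) x6088) x25768)
    (Nat.sub (Nat.add (Nat.add (Nat.add (Nat.add (Nat.add (Nat.add (Nat.add (Nat.add (Nat.add C (Nat.mul x6088 (nat_lit 2))) x10462) x5602) x5926) x6106) x6082) x6094) x6086) x6090) x25770)
    (Nat.add (Nat.add (Nat.add (Nat.add (Nat.add (Nat.add (Nat.add C (Nat.mul x6090 (nat_lit 2))) x10464) x5604) x5928) x6108) x6096) x6088)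
    (Nat.sub (Nat.add (Nat.add (Nat.add (Nat.add (Nat.add (Nat.add C x10468) x5608) x5932) x6112) x6088) x6096) x25776)
    (Nat.add (Nat.add (Nat.add (Nat.add (Nat.add (Nat.add (Nat.add C (Nat.mul x6096 (nat_lit 2))) x10470) x5610) x5934) x6114) x6090) x6094)
    (Nat.sub (Nat.add (Nat.add (Nat.add (Nat.add (Nat.add (Nat.add C x10478) x5618) x5942) x6158) x6086) x6106) x25786)
    (Nat.sub (Nat.add (Nat.add (Nat.add (Nat.add (Nat.add (Nat.add (Nat.add (Nat.add (Nat.add C x6106) x10480) x5620) x5944) x6160) x6088) x6112) x6104) x6108) x25788)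
    (Nat.add (Nat.add (Nat.add (Nat.add (Nat.add (Nat.add (Nat.add C x10482) x5622) x5946) x6162) x6090) x6114) x6106)
    (Nat.sub (Nat.add (Nat.add (Nat.add (Nat.add (Nat.add (Nat.add (Nat.add (Nat.add (Nat.add C x6112) x10486) x5626) x5950) x6166) x6094) x6130) x6106) x6114) x25794)
    (Nat.add (Nat.add (Nat.add (Nat.add (Nat.add (Nat.add (Nat.add (Nat.add (Nat.add (Nat.add C (Nat.mul x6114 (nat_lit 2))) x10488) x5628) x5952) x6168) x6096) x6132) x6108) x6120) x6112)
    (Nat.add (Nat.add (Nat.add (Nat.add (Nat.add (Nat.add (Nat.add C (Nat.mul x6120 (nat_lit 2))) x10494) x5634) x5958) x6174) x6138) x6114)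
    (Nat.sub (Nat.add (Nat.add (Nat.add (Nat.add (Nat.add (Nat.add C x10504) x5644) x5968) x6184) x6112) x6132) x25812)
    (Nat.add (Nat.add (Nat.add (Nat.add (Nat.add (Nat.add (Nat.add C x10506) x5646) x5970) x6186) x6114) x6138) x6130)
    (Nat.add (Nat.add (Nat.add (Nat.add (Nat.add (Nat.add (Nat.add C (Nat.mul x6138 (nat_lit 2))) x10512) x5652) x5976) x6192) x6120) x6132)
    (Nat.sub (Nat.add (Nat.add (Nat.add (Nat.add (Nat.add (Nat.add (Nat.add C x6158) x10532) x5672) x5996) x6320) x6104) x6160) x25840)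
    (Nat.sub (Nat.add (Nat.add (Nat.add (Nat.add (Nat.add (Nat.add (Nat.add (Nat.add (Nat.add C (Nat.mul x6160 (nat_lit 2))) x10534) x5674) x5998) x6322) x6106) x6166) x6158) x6162) x25842)
    (Nat.add (Nat.add (Nat.add (Nat.add (Nat.add (Nat.add (Nat.add (Nat.add C x6162) x10536) x5676) x6000) x6324) x6108) x6168) x6160)
    (Nat.sub (Nat.add (Nat.add (Nat.add (Nat.add (Nat.add (Nat.add (Nat.add (Nat.add (Nat.add C x6166) x10540) x5680) x6004) x6328) x6112) x6184) x6160) x6168) x25848)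
    (Nat.add (Nat.add (Nat.add (Nat.add (Nat.add (Nat.add (Nat.add (Nat.add (Nat.add (Nat.add C (Nat.mul x6168 (nat_lit 2))) x10542) x5682) x6006) x6330) x6114) x6186) x6162) x6174) x6166)
    (Nat.add (Nat.add (Nat.add (Nat.add (Nat.add (Nat.add (Nat.add (Nat.add C x6174) x10548) x5688) x6012) x6336) x6120) x6192) x6168)
    (Nat.sub (Nat.add (Nat.add (Nat.add (Nat.add (Nat.add (Nat.add (Nat.add (Nat.add (Nat.add C (Nat.mul x6184 (nat_lit 2))) x10558) x5698) x6022) x6346) x6130) x6238) x6166) x6186) x25866)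
    (Nat.add (Nat.add (Nat.add (Nat.add (Nat.add (Nat.add (Nat.add (Nat.add (Nat.add (Nat.add C (Nat.mul x6186 (nat_lit 2))) x10560) x5700) x6024) x6348) x6132) x6240) x6168) x6192) x6184)
    (Nat.add (Nat.add (Nat.add (Nat.add (Nat.add (Nat.add (Nat.add (Nat.add (Nat.add (Nat.add C (Nat.mul x6192 (nat_lit 3))) x10566) x5706) x6030) x6354) x6138) x6246) x6174) x6210) x6186)
    (Nat.add (Nat.add (Nat.add (Nat.add (Nat.add (Nat.add (Nat.add C (Nat.mul x6210 (nat_lit 3))) x10584) x5724) x6048) x6372) x6264) x6192)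
    (Nat.sub (Nat.add (Nat.add (Nat.add (Nat.add (Nat.add (Nat.add C (Nat.mul x6238 (nat_lit 2))) x10612) x5752) x6400) x6184) x6240) x25920)
    (Nat.add (Nat.add (Nat.add (Nat.add (Nat.add (Nat.add (Nat.add C (Nat.mul x6240 (nat_lit 2))) x10614) x5754) x6402) x6186) x6246) x6238)
    (Nat.add (Nat.add (Nat.add (Nat.add (Nat.add (Nat.add (Nat.add C (Nat.mul x6246 (nat_lit 2))) x10620) x5760) x6408) x6192) x6264) x6240)
    (Nat.add (Nat.add (Nat.add (Nat.add (Nat.add (Nat.add C (Nat.mul x6264 (nat_lit 4))) x10638) x5778) x6426) x6210) x6246)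
    (Nat.sub (Nat.add (Nat.add (Nat.add (Nat.add C (Nat.mul x6320 (nat_lit 2))) x10694) x6158) x6322) x26002)
    (Nat.sub (Nat.add (Nat.add (Nat.add (Nat.add (Nat.add (Nat.add C (Nat.mul x6322 (nat_lit 3))) x10696) x6160) x6328) x6320) x6324) x26004)
    (Nat.add (Nat.add (Nat.add (Nat.add (Nat.add C (Nat.mul x6324 (nat_lit 2))) x10698) x6162) x6330) x6322)
    (Nat.sub (Nat.add (Nat.add (Nat.add (Nat.add (Nat.add (Nat.add C (Nat.mul x6328 (nat_lit 2))) x10702) x6166) x6346) x6322) x6330) x26010)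
    (Nat.add (Nat.add (Nat.add (Nat.add (Nat.add (Nat.add (Nat.add C (Nat.mul x6330 (nat_lit 3))) x10704) x6168) x6348) x6324) x6336) x6328)
    (Nat.add (Nat.add (Nat.add (Nat.add (Nat.add C (Nat.mul x6336 (nat_lit 2))) x10710) x6174) x6354) x6330)
    (Nat.sub (Nat.add (Nat.add (Nat.add (Nat.add (Nat.add (Nat.add C (Nat.mul x6346 (nat_lit 2))) x10720) x6184) x6400) x6328) x6348) x26028)
    (Nat.add (Nat.add (Nat.add (Nat.add (Nat.add (Nat.add (Nat.add C (Nat.mul x6348 (nat_lit 2))) x10722) x6186) x6402) x6330) x6354) x6346)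
    (Nat.add (Nat.add (Nat.add (Nat.add (Nat.add (Nat.add (Nat.add C (Nat.mul x6354 (nat_lit 3))) x10728) x6192) x6408) x6336) x6372) x6348)
    (Nat.add (Nat.add (Nat.add (Nat.add (Nat.add C (Nat.mul x6372 (nat_lit 2))) x10746) x6210) x6426) x6354)
    (Nat.sub (Nat.add (Nat.add (Nat.add (Nat.add (Nat.add C (Nat.mul x6400 (nat_lit 4))) x10774) x6238) x6346) x6402) x26082)
    (Nat.add (Nat.add (Nat.add (Nat.add (Nat.add (Nat.add C (Nat.mul x6402 (nat_lit 4))) x10776) x6240) x6348) x6408) x6400)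
    (Nat.add (Nat.add (Nat.add (Nat.add (Nat.add (Nat.add C (Nat.mul x6408 (nat_lit 4))) x10782) x6246) x6354) x6426) x6402)
    (Nat.add (Nat.add (Nat.add (Nat.add (Nat.add (Nat.add C (Nat.mul x6426 (nat_lit 5))) x10800) x6264) x6372) x6480) x6408)
    (Nat.add (Nat.add (Nat.add C (Nat.mul x6480 (nat_lit 6))) x10854) x6426)
    (Nat.sub (Nat.add (Nat.add (Nat.add (Nat.add (Nat.add C (Nat.mul x6614 (nat_lit 4))) x19736) x2240) x6668) x6632) x26296)
    (Nat.sub (Nat.add (Nat.add (Nat.add (Nat.add (Nat.add (Nat.add C (Nat.mul x6632 (nat_lit 2))) x19754) x2258) x6686) x6614) x6638) x26314)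
    (Nat.sub (Nat.add (Nat.add (Nat.add (Nat.add (Nat.add (Nat.add C (Nat.mul x6638 (nat_lit 2))) x19760) x2264) x6692) x6632) x6640) x26320)
    (Nat.sub (Nat.add (Nat.add (Nat.add (Nat.add (Nat.add C (Nat.mul x6640 (nat_lit 4))) x19762) x2266) x6694) x6638) x26322)
    (Nat.sub (Nat.add (Nat.add (Nat.add (Nat.add (Nat.add (Nat.add C (Nat.mul x6668 (nat_lit 2))) x19790) x2294) x6830) x6614) x6686) x26350)
    (Nat.sub (Nat.add (Nat.add (Nat.add (Nat.add (Nat.add (Nat.add (Nat.add (Nat.add (Nat.add C (Nat.mul x6686 (nat_lit 2))) x19808) x2312) x6848) x6632) x6740) x6668) x6704) x6692) x26368)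
    (Nat.sub (Nat.add (Nat.add (Nat.add (Nat.add (Nat.add (Nat.add (Nat.add (Nat.add (Nat.add C x6692) x19814) x2318) x6854) x6638) x6746) x6710) x6686) x6694) x26374)
    (Nat.sub (Nat.add (Nat.add (Nat.add (Nat.add (Nat.add (Nat.add (Nat.add (Nat.add C (Nat.mul x6694 (nat_lit 3))) x19816) x2320) x6856) x6640) x6748) x6712) x6692) x26376)
    (Nat.sub (Nat.add (Nat.add (Nat.add (Nat.add (Nat.add (Nat.add C x19826) x2330) x6866) x6758) x6686) x6710) x26386)
    (Nat.sub (Nat.add (Nat.add (Nat.add (Nat.add (Nat.add (Nat.add (Nat.add (Nat.add (Nat.add C x6710) x19832) x2336) x6872) x6764) x6692) x6704) x6716) x6712) x26392)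
    (Nat.sub (Nat.add (Nat.add (Nat.add (Nat.add (Nat.add (Nat.add (Nat.add (Nat.add C (Nat.mul x6712 (nat_lit 2))) x19834) x2338) x6874) x6766) x6694) x6718) x6710) x26394)
    (Nat.sub (Nat.add (Nat.add (Nat.add (Nat.add (Nat.add (Nat.add C x19838) x2342) x6878) x6770) x6710) x6718) x26398)
    (Nat.sub (Nat.add (Nat.add (Nat.add (Nat.add (Nat.add (Nat.add (Nat.add (Nat.add C (Nat.mul x6718 (nat_lit 3))) x19840) x2344) x6880) x6772) x6712) x6716) x6720) x26400)
    (Nat.add (Nat.add (Nat.add (Nat.add (Nat.add (Nat.add C (Nat.mul x6720 (nat_lit 4))) x19842) x2346) x6882) x6774) x6718)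
    (Nat.sub (Nat.add (Nat.add (Nat.add (Nat.add (Nat.add (Nat.add C x19862) x2366) x6902) x6686) x6758) x6746) x26422)
    (Nat.sub (Nat.sub (Nat.add (Nat.add (Nat.add (Nat.add (Nat.add (Nat.add (Nat.add C x19868) x2372) x6908) x6692) x6764) x6740) x6748) (Nat.mul x6746 (nat_lit 2))) x26428)
    (Nat.sub (Nat.add (Nat.add (Nat.add (Nat.add (Nat.add (Nat.add C x19870) x2374) x6910) x6694) x6766) x6746) x26430)
    (Nat.sub (Nat.add (Nat.add (Nat.add (Nat.add (Nat.add (Nat.add C x19880) x2384) x6920) x6704) x6740) x6764) x26440)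
    (Nat.sub (Nat.add (Nat.add (Nat.add (Nat.add (Nat.add (Nat.add (Nat.add (Nat.add (Nat.add C x19886) x2390) x6926) x6710) x6746) x6782) x6758) x6770) x6766) x26446)
    (Nat.sub (Nat.add (Nat.add (Nat.add (Nat.add (Nat.add (Nat.add (Nat.add (Nat.add (Nat.add C x6766) x19888) x2392) x6928) x6712) x6748) x6784) x6772) x6764) x26448)
    (Nat.sub (Nat.sub (Nat.add (Nat.add (Nat.add (Nat.add (Nat.add (Nat.add (Nat.add C x19892) x2396) x6932) x6716) x6788) x6764) x6772) (Nat.mul x6770 (nat_lit 2))) x26452)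
    (Nat.sub (Nat.add (Nat.add (Nat.add (Nat.add (Nat.add (Nat.add (Nat.add (Nat.add (Nat.add C x6772) x19894) x2398) x6934) x6718) x6790) x6766) x6770) x6774) x26454)
    (Nat.add (Nat.add (Nat.add (Nat.add (Nat.add (Nat.add (Nat.add C (Nat.mul x6774 (nat_lit 2))) x19896) x2400) x6936) x6720) x6792) x6772)
    (Nat.sub (Nat.add (Nat.add (Nat.add (Nat.add (Nat.add (Nat.add C x19904) x2408) x6944) x6764) x6788) x6784) x26464)
    (Nat.sub (Nat.add (Nat.add (Nat.add (Nat.add (Nat.add (Nat.add C x19906) x2410) x6946) x6766) x6790) x6782) x26466)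
    (Nat.sub (Nat.add (Nat.add (Nat.add (Nat.add (Nat.add (Nat.add C x19910) x2414) x6950) x6770) x6782) x6790) x26470)
    (Nat.sub (Nat.add (Nat.add (Nat.add (Nat.add (Nat.add (Nat.add (Nat.add (Nat.add (Nat.add C (Nat.mul x6790 (nat_lit 2))) x19912) x2416) x6952) x6772) x6784) x6796) x6788) x6792) x26472)
    (Nat.add (Nat.add (Nat.add (Nat.add (Nat.add (Nat.add (Nat.add C (Nat.mul x6792 (nat_lit 2))) x19914) x2418) x6954) x6774) x6798) x6790)
    (Nat.sub (Nat.add (Nat.add (Nat.add (Nat.add (Nat.add (Nat.add C (Nat.mul x6796 (nat_lit 2))) x19918) x2422) x6958) x6790) x6798) x26478)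
    (Nat.add (Nat.add (Nat.add (Nat.add (Nat.add (Nat.add C (Nat.mul x6798 (nat_lit 4))) x19920) x2424) x6960) x6792) x6796)
    (Nat.sub (Nat.add (Nat.add (Nat.add (Nat.add (Nat.add (Nat.add C (Nat.mul x6830 (nat_lit 2))) x19952) x2456) x7316) x6668) x6848) x26512)
    (Nat.sub (Nat.add (Nat.add (Nat.add (Nat.add (Nat.add (Nat.add (Nat.add (Nat.add (Nat.add C x6848) x19970) x2474) x7334) x6686) x6902) x6830) x6866) x6854) x26530)
    (Nat.sub (Nat.add (Nat.add (Nat.add (Nat.add (Nat.add (Nat.add (Nat.add (Nat.add C x19976) x2480) x7340) x6692) x6908) x6872) x6848) x6856) x26536)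
    (Nat.sub (Nat.add (Nat.add (Nat.add (Nat.add (Nat.add (Nat.add (Nat.add (Nat.add C (Nat.mul x6856 (nat_lit 2))) x19978) x2482) x7342) x6694) x6910) x6874) x6854) x26538)
    (Nat.sub (Nat.sub (Nat.add (Nat.add (Nat.add (Nat.add (Nat.add (Nat.add (Nat.add C x19988) x2492) x7352) x6704) x6920) x6848) x6872) (Nat.mul x6866 (nat_lit 2))) x26548)
    (Nat.sub (Nat.sub (Nat.add (Nat.add (Nat.add (Nat.add (Nat.add (Nat.add (Nat.add (Nat.add (Nat.add C x19994) x2498) x7358) x6710) x6926) x6854) x6866) x6878) x6874) x6872) x26554)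
    (Nat.sub (Nat.add (Nat.add (Nat.add (Nat.add (Nat.add (Nat.add (Nat.add (Nat.add C x19996) x2500) x7360) x6712) x6928) x6856) x6880) x6872) x26556)
    (Nat.sub (Nat.sub (Nat.add (Nat.add (Nat.add (Nat.add (Nat.add (Nat.add (Nat.add C x20000) x2504) x7364) x6716) x6932) x6872) x6880) (Nat.mul x6878 (nat_lit 2))) x26560)
    (Nat.sub (Nat.add (Nat.add (Nat.add (Nat.add (Nat.add (Nat.add (Nat.add (Nat.add (Nat.add C x6880) x20002) x2506) x7366) x6718) x6934) x6874) x6878) x6882) x26562)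
    (Nat.add (Nat.add (Nat.add (Nat.add (Nat.add (Nat.add (Nat.add C (Nat.mul x6882 (nat_lit 2))) x20004) x2508) x7368) x6720) x6936) x6880)
    (Nat.sub (Nat.add (Nat.add (Nat.add (Nat.add (Nat.add (Nat.add (Nat.add (Nat.add (Nat.add C x6902) x20024) x2528) x7388) x6740) x7064) x6848) x6920) x6908) x26584)
    (Nat.sub (Nat.sub (Nat.add (Nat.add (Nat.add (Nat.add (Nat.add (Nat.add (Nat.add (Nat.add (Nat.add C x20030) x2534) x7394) x6746) x7070) x6854) x6926) x6902) x6910) x6908) x26590)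
    (Nat.sub (Nat.add (Nat.add (Nat.add (Nat.add (Nat.add (Nat.add (Nat.add (Nat.add (Nat.add C x6910) x20032) x2536) x7396) x6748) x7072) x6856) x6928) x6908) x26592)
    (Nat.sub (Nat.add (Nat.add (Nat.add (Nat.add (Nat.add (Nat.add (Nat.add (Nat.add (Nat.add C x20042) x2546) x7406) x6758) x7082) x6866) x6974) x6902) x6926) x26602)
    (Nat.sub (Nat.add (Nat.add (Nat.add (Nat.add (Nat.add (Nat.add (Nat.add (Nat.add (Nat.add (Nat.add (Nat.add (Nat.add C x20048) x2552) x7412) x6764) x7088) x6872) x6980) x6908) x6944) x6920) x6932) x6928) x26608)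
    (Nat.sub (Nat.add (Nat.add (Nat.add (Nat.add (Nat.add (Nat.add (Nat.add (Nat.add (Nat.add (Nat.add (Nat.add (Nat.add C x6928) x20050) x2554) x7414) x6766) x7090) x6874) x6982) x6910) x6946) x6934) x6926) x26610)
    (Nat.sub (Nat.sub (Nat.add (Nat.add (Nat.add (Nat.add (Nat.add (Nat.add (Nat.add (Nat.add (Nat.add (Nat.add C x20054) x2558) x7418) x6770) x7094) x6878) x6986) x6950) x6926) x6934) (Nat.mul x6932 (nat_lit 2))) x26614)
    (Nat.sub (Nat.add (Nat.add (Nat.add (Nat.add (Nat.add (Nat.add (Nat.add (Nat.add (Nat.add (Nat.add (Nat.add (Nat.add C x6934) x20056) x2560) x7420) x6772) x7096) x6880) x6988) x6952) x6928) x6932) x6936) x26616)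
    (Nat.add (Nat.add (Nat.add (Nat.add (Nat.add (Nat.add (Nat.add (Nat.add (Nat.add (Nat.add C (Nat.mul x6936 (nat_lit 2))) x20058) x2562) x7422) x6774) x7098) x6882) x6990) x6954) x6934)
    (Nat.sub (Nat.sub (Nat.add (Nat.add (Nat.add (Nat.add (Nat.add (Nat.add (Nat.add (Nat.add (Nat.add C x20066) x2570) x7430) x6782) x7106) x6998) x6926) x6950) x6946) x6944) x26626)
    (Nat.sub (Nat.sub (Nat.add (Nat.add (Nat.add (Nat.add (Nat.add (Nat.add (Nat.add (Nat.add (Nat.add C x20068) x2572) x7432) x6784) x7108) x7000) x6928) x6952) x6944) x6946) x26628)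
    (Nat.sub (Nat.sub (Nat.add (Nat.add (Nat.add (Nat.add (Nat.add (Nat.add (Nat.add (Nat.add (Nat.add C x20072) x2576) x7436) x6788) x7112) x7004) x6932) x6944) x6952) x6950) x26632)
    (Nat.sub (Nat.add (Nat.add (Nat.add (Nat.add (Nat.add (Nat.add (Nat.add (Nat.add (Nat.add (Nat.add (Nat.add (Nat.add C x6952) x20074) x2578) x7438) x6790) x7114) x7006) x6934) x6946) x6958) x6950) x6954) x26634)
    (Nat.add (Nat.add (Nat.add (Nat.add (Nat.add (Nat.add (Nat.add (Nat.add (Nat.add (Nat.add C x6954) x20076) x2580) x7440) x6792) x7116) x7008) x6936) x6960) x6952)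
    (Nat.sub (Nat.add (Nat.add (Nat.add (Nat.add (Nat.add (Nat.add (Nat.add (Nat.add (Nat.add C x6958) x20080) x2584) x7444) x6796) x7120) x7012) x6952) x6960) x26640)
    (Nat.add (Nat.add (Nat.add (Nat.add (Nat.add (Nat.add (Nat.add (Nat.add (Nat.add C (Nat.mul x6960 (nat_lit 3))) x20082) x2586) x7446) x6798) x7122) x7014) x6954) x6958)
    (Nat.sub (Nat.add (Nat.add (Nat.add (Nat.add (Nat.add (Nat.add C x20096) x2600) x7460) x7136) x6920) x6980) x26656)
    (Nat.sub (Nat.sub (Nat.add (Nat.add (Nat.add (Nat.add (Nat.add (Nat.add (Nat.add (Nat.add (Nat.add C x20102) x2606) x7466) x7142) x6926) x6998) x6974) x6986) x6982) x6980) x26662)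
    (Nat.sub (Nat.add (Nat.add (Nat.add (Nat.add (Nat.add (Nat.add (Nat.add (Nat.add C x20104) x2608) x7468) x7144) x6928) x7000) x6988) x6980) x26664)
    (Nat.sub (Nat.sub (Nat.add (Nat.add (Nat.add (Nat.add (Nat.add (Nat.add (Nat.add (Nat.add C x20108) x2612) x7472) x7148) x6932) x7004) x6980) x6988) (Nat.mul x6986 (nat_lit 4))) x26668)
    (Nat.sub (Nat.sub (Nat.add (Nat.add (Nat.add (Nat.add (Nat.add (Nat.add (Nat.add (Nat.add (Nat.add C x20110) x2614) x7474) x7150) x6934) x7006) x6982) x6986) x6990) x6988) x26670)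
    (Nat.add (Nat.add (Nat.add (Nat.add (Nat.add (Nat.add (Nat.add C x20112) x2616) x7476) x7152) x6936) x7008) x6988)
    (Nat.sub (Nat.add (Nat.add (Nat.add (Nat.add (Nat.add (Nat.add (Nat.add (Nat.add C x20120) x2624) x7484) x7160) x6944) x6980) x7004) x7000) x26680)
    (Nat.sub (Nat.add (Nat.add (Nat.add (Nat.add (Nat.add (Nat.add (Nat.add (Nat.add C x20122) x2626) x7486) x7162) x6946) x6982) x7006) x6998) x26682)
    (Nat.sub (Nat.sub (Nat.add (Nat.add (Nat.add (Nat.add (Nat.add (Nat.add (Nat.add (Nat.add (Nat.add C x20126) x2630) x7490) x7166) x6950) x6986) x7022) x6998) x7006) x7004) x26686)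
    (Nat.sub (Nat.add (Nat.add (Nat.add (Nat.add (Nat.add (Nat.add (Nat.add (Nat.add (Nat.add (Nat.add (Nat.add (Nat.add C x7006) x20128) x2632) x7492) x7168) x6952) x6988) x7024) x7000) x7012) x7004) x7008) x26688)
    (Nat.add (Nat.add (Nat.add (Nat.add (Nat.add (Nat.add (Nat.add (Nat.add (Nat.add (Nat.add C x7008) x20130) x2634) x7494) x7170) x6954) x6990) x7026) x7014) x7006)
    (Nat.sub (Nat.add (Nat.add (Nat.add (Nat.add (Nat.add (Nat.add (Nat.add (Nat.add C x20134) x2638) x7498) x7174) x6958) x7030) x7006) x7014) x26694)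
    (Nat.add (Nat.add (Nat.add (Nat.add (Nat.add (Nat.add (Nat.add (Nat.add (Nat.add C (Nat.mul x7014 (nat_lit 2))) x20136) x2640) x7500) x7176) x6960) x7032) x7008) x7012)
    (Nat.sub (Nat.add (Nat.add (Nat.add (Nat.add (Nat.add (Nat.add C x20144) x2648) x7508) x7184) x7004) x7024) x26704)
    (Nat.sub (Nat.add (Nat.add (Nat.add (Nat.add (Nat.add (Nat.add (Nat.add (Nat.add (Nat.add C x7024) x20146) x2650) x7510) x7186) x7006) x7030) x7022) x7026) x26706)
    (Nat.add (Nat.add (Nat.add (Nat.add (Nat.add (Nat.add (Nat.add C x20148) x2652) x7512) x7188) x7008) x7032) x7024)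
    (Nat.sub (Nat.add (Nat.add (Nat.add (Nat.add (Nat.add (Nat.add (Nat.add (Nat.add C (Nat.mul x7030 (nat_lit 2))) x20152) x2656) x7516) x7192) x7012) x7024) x7032) x26712)
    (Nat.add (Nat.add (Nat.add (Nat.add (Nat.add (Nat.add (Nat.add (Nat.add (Nat.add C (Nat.mul x7032 (nat_lit 3))) x20154) x2658) x7518) x7194) x7014) x7026) x7038) x7030)
    (Nat.add (Nat.add (Nat.add (Nat.add (Nat.add (Nat.add C (Nat.mul x7038 (nat_lit 4))) x20160) x2664) x7524) x7200) x7032)
    (Nat.sub (Nat.add (Nat.add (Nat.add (Nat.add (Nat.add (Nat.add C x20186) x2690) x7550) x6902) x7082) x7070) x26746)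
    (Nat.sub (Nat.sub (Nat.add (Nat.add (Nat.add (Nat.add (Nat.add (Nat.add (Nat.add C x20192) x2696) x7556) x6908) x7088) x7064) x7072) (Nat.mul x7070 (nat_lit 2))) x26752)
    (Nat.sub (Nat.add (Nat.add (Nat.add (Nat.add (Nat.add (Nat.add C x20194) x2698) x7558) x6910) x7090) x7070) x26754)
    (Nat.sub (Nat.sub (Nat.add (Nat.add (Nat.add (Nat.add (Nat.add (Nat.add (Nat.add C x20204) x2708) x7568) x6920) x7136) x7064) x7088) (Nat.mul x7082 (nat_lit 2))) x26764)
    (Nat.sub (Nat.sub (Nat.add (Nat.add (Nat.add (Nat.add (Nat.add (Nat.add (Nat.add (Nat.add (Nat.add (Nat.add C x20210) x2714) x7574) x6926) x7142) x7070) x7106) x7082) x7094) x7090) (Nat.mul x7088 (nat_lit 2))) x26770)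
    (Nat.sub (Nat.sub (Nat.add (Nat.add (Nat.add (Nat.add (Nat.add (Nat.add (Nat.add (Nat.add (Nat.add C x20212) x2716) x7576) x6928) x7144) x7072) x7108) x7096) x7088) x7090) x26772)
    (Nat.sub (Nat.sub (Nat.add (Nat.add (Nat.add (Nat.add (Nat.add (Nat.add (Nat.add (Nat.add C x20216) x2720) x7580) x6932) x7148) x7112) x7088) x7096) (Nat.mul x7094 (nat_lit 4))) x26776)
    (Nat.sub (Nat.sub (Nat.add (Nat.add (Nat.add (Nat.add (Nat.add (Nat.add (Nat.add (Nat.add (Nat.add C x20218) x2722) x7582) x6934) x7150) x7114) x7090) x7094) x7098) x7096) x26778)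
    (Nat.add (Nat.add (Nat.add (Nat.add (Nat.add (Nat.add (Nat.add C x20220) x2724) x7584) x6936) x7152) x7116) x7096)
    (Nat.sub (Nat.sub (Nat.add (Nat.add (Nat.add (Nat.add (Nat.add (Nat.add (Nat.add (Nat.add C x20228) x2732) x7592) x6944) x7160) x7088) x7112) x7108) (Nat.mul x7106 (nat_lit 4))) x26788)
    (Nat.sub (Nat.sub (Nat.add (Nat.add (Nat.add (Nat.add (Nat.add (Nat.add (Nat.add (Nat.add C x20230) x2734) x7594) x6946) x7162) x7090) x7114) x7106) (Nat.mul x7108 (nat_lit 4))) x26790)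
    (Nat.sub (Nat.sub (Nat.add (Nat.add (Nat.add (Nat.add (Nat.add (Nat.add (Nat.add (Nat.add C x20234) x2738) x7598) x6950) x7166) x7094) x7106) x7114) (Nat.mul x7112 (nat_lit 4))) x26794)
    (Nat.sub (Nat.sub (Nat.add (Nat.add (Nat.add (Nat.add (Nat.add (Nat.add (Nat.add (Nat.add (Nat.add (Nat.add C x20236) x2740) x7600) x6952) x7168) x7096) x7108) x7120) x7112) x7116) (Nat.mul x7114 (nat_lit 2))) x26796)
    (Nat.sub (Nat.add (Nat.add (Nat.add (Nat.add (Nat.add (Nat.add (Nat.add (Nat.add C x20238) x2742) x7602) x6954) x7170) x7098) x7122) x7114) (Nat.mul x7116 (nat_lit 2)))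
    (Nat.sub (Nat.sub (Nat.add (Nat.add (Nat.add (Nat.add (Nat.add (Nat.add (Nat.add C x20242) x2746) x7606) x6958) x7174) x7114) x7122) (Nat.mul x7120 (nat_lit 2))) x26802)
    (Nat.add (Nat.add (Nat.add (Nat.add (Nat.add (Nat.add (Nat.add C x20244) x2748) x7608) x6960) x7176) x7116) x7120)
    (Nat.sub (Nat.add (Nat.add (Nat.add (Nat.add (Nat.add (Nat.add C x20258) x2762) x7622) x6974) x7082) x7142) x26818)
    (Nat.sub (Nat.sub (Nat.add (Nat.add (Nat.add (Nat.add (Nat.add (Nat.add (Nat.add (Nat.add (Nat.add C x20264) x2768) x7628) x6980) x7088) x7160) x7136) x7148) x7144) x7142) x26824)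
    (Nat.sub (Nat.add (Nat.add (Nat.add (Nat.add (Nat.add (Nat.add (Nat.add (Nat.add C x20266) x2770) x7630) x6982) x7090) x7162) x7150) x7142) x26826)
    (Nat.sub (Nat.sub (Nat.add (Nat.add (Nat.add (Nat.add (Nat.add (Nat.add (Nat.add (Nat.add C x20270) x2774) x7634) x6986) x7094) x7166) x7142) x7150) (Nat.mul x7148 (nat_lit 4))) x26830)
    (Nat.sub (Nat.sub (Nat.add (Nat.add (Nat.add (Nat.add (Nat.add (Nat.add (Nat.add (Nat.add (Nat.add C x20272) x2776) x7636) x6988) x7096) x7168) x7144) x7148) x7152) x7150) x26832)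
    (Nat.add (Nat.add (Nat.add (Nat.add (Nat.add (Nat.add (Nat.add C x20274) x2778) x7638) x6990) x7098) x7170) x7150)
    (Nat.sub (Nat.sub (Nat.add (Nat.add (Nat.add (Nat.add (Nat.add (Nat.add (Nat.add (Nat.add (Nat.add C x20282) x2786) x7646) x6998) x7106) x7214) x7142) x7166) x7162) x7160) x26842)
    (Nat.sub (Nat.sub (Nat.add (Nat.add (Nat.add (Nat.add (Nat.add (Nat.add (Nat.add (Nat.add (Nat.add C x20284) x2788) x7648) x7000) x7108) x7216) x7144) x7168) x7160) x7162) x26844)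
    (Nat.sub (Nat.sub (Nat.add (Nat.add (Nat.add (Nat.add (Nat.add (Nat.add (Nat.add (Nat.add (Nat.add (Nat.add C x20288) x2792) x7652) x7004) x7112) x7220) x7148) x7184) x7160) x7168) (Nat.mul x7166 (nat_lit 2))) x26848)
    (Nat.sub (Nat.add (Nat.add (Nat.add (Nat.add (Nat.add (Nat.add (Nat.add (Nat.add (Nat.add (Nat.add (Nat.add (Nat.add C x20290) x2794) x7654) x7006) x7114) x7222) x7150) x7186) x7162) x7174) x7166) x7170) x26850)
    (Nat.add (Nat.add (Nat.add (Nat.add (Nat.add (Nat.add (Nat.add (Nat.add (Nat.add (Nat.add C x20292) x2796) x7656) x7008) x7116) x7224) x7152) x7188) x7176) x7168)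
    (Nat.sub (Nat.sub (Nat.add (Nat.add (Nat.add (Nat.add (Nat.add (Nat.add (Nat.add (Nat.add (Nat.add C x20296) x2800) x7660) x7012) x7120) x7228) x7192) x7168) x7176) x7174) x26856)
    (Nat.add (Nat.add (Nat.add (Nat.add (Nat.add (Nat.add (Nat.add (Nat.add (Nat.add (Nat.add C x7176) x20298) x2802) x7662) x7014) x7122) x7230) x7194) x7170) x7174)
    (Nat.sub (Nat.sub (Nat.add (Nat.add (Nat.add (Nat.add (Nat.add (Nat.add (Nat.add C x20306) x2810) x7670) x7022) x7238) x7166) x7186) (Nat.mul x7184 (nat_lit 2))) x26866)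
    (Nat.sub (Nat.sub (Nat.add (Nat.add (Nat.add (Nat.add (Nat.add (Nat.add (Nat.add (Nat.add (Nat.add C x20308) x2812) x7672) x7024) x7240) x7168) x7192) x7184) x7188) x7186) x26868)
    (Nat.sub (Nat.add (Nat.add (Nat.add (Nat.add (Nat.add (Nat.add (Nat.add (Nat.add C x20310) x2814) x7674) x7026) x7242) x7170) x7194) x7186) (Nat.mul x7188 (nat_lit 2)))
    (Nat.sub (Nat.add (Nat.add (Nat.add (Nat.add (Nat.add (Nat.add (Nat.add (Nat.add C x20314) x2818) x7678) x7030) x7246) x7174) x7186) x7194) x26874)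
    (Nat.add (Nat.add (Nat.add (Nat.add (Nat.add (Nat.add (Nat.add (Nat.add (Nat.add (Nat.add C x7194) x20316) x2820) x7680) x7032) x7248) x7176) x7188) x7200) x7192)
    (Nat.add (Nat.add (Nat.add (Nat.add (Nat.add (Nat.add (Nat.add C (Nat.mul x7200 (nat_lit 2))) x20322) x2826) x7686) x7038) x7254) x7194)
    (Nat.sub (Nat.add (Nat.add (Nat.add (Nat.add (Nat.add (Nat.add C x20336) x2840) x7700) x7160) x7220) x7216) x26896)
    (Nat.sub (Nat.add (Nat.add (Nat.add (Nat.add (Nat.add (Nat.add C x20338) x2842) x7702) x7162) x7222) x7214) x26898)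
    (Nat.sub (Nat.sub (Nat.add (Nat.add (Nat.add (Nat.add (Nat.add (Nat.add (Nat.add C x20342) x2846) x7706) x7166) x7238) x7214) x7222) (Nat.mul x7220 (nat_lit 2))) x26902)
    (Nat.sub (Nat.add (Nat.add (Nat.add (Nat.add (Nat.add (Nat.add (Nat.add (Nat.add (Nat.add C x20344) x2848) x7708) x7168) x7240) x7216) x7228) x7220) x7224) x26904)
    (Nat.add (Nat.add (Nat.add (Nat.add (Nat.add (Nat.add (Nat.add C x20346) x2850) x7710) x7170) x7242) x7230) x7222)
    (Nat.sub (Nat.sub (Nat.add (Nat.add (Nat.add (Nat.add (Nat.add (Nat.add (Nat.add C x20350) x2854) x7714) x7174) x7246) x7222) x7230) (Nat.mul x7228 (nat_lit 2))) x26910)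
    (Nat.add (Nat.add (Nat.add (Nat.add (Nat.add (Nat.add (Nat.add C x20352) x2856) x7716) x7176) x7248) x7224) x7228)
    (Nat.sub (Nat.add (Nat.add (Nat.add (Nat.add (Nat.add (Nat.add C x20360) x2864) x7724) x7184) x7220) x7240) x26920)
    (Nat.sub (Nat.add (Nat.add (Nat.add (Nat.add (Nat.add (Nat.add (Nat.add (Nat.add (Nat.add C x7240) x20362) x2866) x7726) x7186) x7222) x7246) x7238) x7242) x26922)
    (Nat.add (Nat.add (Nat.add (Nat.add (Nat.add (Nat.add (Nat.add C x20364) x2868) x7728) x7188) x7224) x7248) x7240)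
    (Nat.sub (Nat.add (Nat.add (Nat.add (Nat.add (Nat.add (Nat.add (Nat.add (Nat.add (Nat.add C x7246) x20368) x2872) x7732) x7192) x7228) x7264) x7240) x7248) x26928)
    (Nat.add (Nat.add (Nat.add (Nat.add (Nat.add (Nat.add (Nat.add (Nat.add (Nat.add (Nat.add C (Nat.mul x7248 (nat_lit 2))) x20370) x2874) x7734) x7194) x7230) x7266) x7242) x7254) x7246)
    (Nat.add (Nat.add (Nat.add (Nat.add (Nat.add (Nat.add (Nat.add C (Nat.mul x7254 (nat_lit 2))) x20376) x2880) x7740) x7200) x7272) x7248)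
    (Nat.sub (Nat.add (Nat.add (Nat.add (Nat.add (Nat.add (Nat.add C (Nat.mul x7264 (nat_lit 2))) x20386) x2890) x7750) x7246) x7266) x26946)
    (Nat.add (Nat.add (Nat.add (Nat.add (Nat.add (Nat.add (Nat.add C (Nat.mul x7266 (nat_lit 2))) x20388) x2892) x7752) x7248) x7272) x7264)
    (Nat.add (Nat.add (Nat.add (Nat.add (Nat.add (Nat.add C (Nat.mul x7272 (nat_lit 4))) x20394) x2898) x7758) x7254) x7266)
    (Nat.sub (Nat.add (Nat.add (Nat.add (Nat.add (Nat.add (Nat.add C (Nat.mul x7316 (nat_lit 2))) x20438) x2942) x8774) x6830) x7334) x26998)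
    (Nat.sub (Nat.add (Nat.add (Nat.add (Nat.add (Nat.add (Nat.add (Nat.add (Nat.add (Nat.add C x7334) x20456) x2960) x8792) x6848) x7388) x7316) x7352) x7340) x27016)
    (Nat.sub (Nat.add (Nat.add (Nat.add (Nat.add (Nat.add (Nat.add (Nat.add (Nat.add C x20462) x2966) x8798) x6854) x7394) x7358) x7334) x7342) x27022)
    (Nat.sub (Nat.add (Nat.add (Nat.add (Nat.add (Nat.add (Nat.add (Nat.add (Nat.add C (Nat.mul x7342 (nat_lit 2))) x20464) x2968) x8800) x6856) x7396) x7360) x7340) x27024)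
    (Nat.sub (Nat.sub (Nat.add (Nat.add (Nat.add (Nat.add (Nat.add (Nat.add (Nat.add C x20474) x2978) x8810) x6866) x7406) x7334) x7358) (Nat.mul x7352 (nat_lit 2))) x27034)
    (Nat.sub (Nat.sub (Nat.add (Nat.add (Nat.add (Nat.add (Nat.add (Nat.add (Nat.add (Nat.add (Nat.add C x20480) x2984) x8816) x6872) x7412) x7340) x7352) x7364) x7360) x7358) x27040)
    (Nat.sub (Nat.add (Nat.add (Nat.add (Nat.add (Nat.add (Nat.add (Nat.add (Nat.add C x20482) x2986) x8818) x6874) x7414) x7342) x7366) x7358) x27042)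
    (Nat.sub (Nat.sub (Nat.add (Nat.add (Nat.add (Nat.add (Nat.add (Nat.add (Nat.add C x20486) x2990) x8822) x6878) x7418) x7358) x7366) (Nat.mul x7364 (nat_lit 2))) x27046)
    (Nat.sub (Nat.add (Nat.add (Nat.add (Nat.add (Nat.add (Nat.add (Nat.add (Nat.add (Nat.add C x7366) x20488) x2992) x8824) x6880) x7420) x7360) x7364) x7368) x27048)
    (Nat.add (Nat.add (Nat.add (Nat.add (Nat.add (Nat.add (Nat.add C (Nat.mul x7368 (nat_lit 2))) x20490) x2994) x8826) x6882) x7422) x7366)
    (Nat.sub (Nat.sub (Nat.add (Nat.add (Nat.add (Nat.add (Nat.add (Nat.add (Nat.add (Nat.add (Nat.add C x20510) x3014) x8846) x6902) x7550) x7334) x7406) x7394) (Nat.mul (e (nat_lit 7388)) ap)) x27070) (Nat.mul (e (nat_lit 7388)) an))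
    (Nat.sub (Nat.sub (Nat.sub (Nat.add (Nat.add (Nat.add (Nat.add (Nat.add (Nat.add (Nat.add (Nat.add (Nat.add (Nat.add C x20516) x3020) x8852) x6908) x7556) x7340) x7412) x7388) x7396) (Nat.mul (e (nat_lit 7394)) ap)) (Nat.mul x7394 (nat_lit 2))) x27076) (Nat.mul (e (nat_lit 7394)) an))
    (Nat.sub (Nat.add (Nat.add (Nat.add (Nat.add (Nat.add (Nat.add (Nat.add (Nat.add C x20518) x3022) x8854) x6910) x7558) x7342) x7414) x7394) x27078)
    (Nat.sub (Nat.sub (Nat.sub (Nat.add (Nat.add (Nat.add (Nat.add (Nat.add (Nat.add (Nat.add (Nat.add (Nat.add (Nat.add C x20528) x3032) x8864) x6920) x7568) x7352) x7460) x7388) x7412) (Nat.mul (e (nat_lit 7406)) ap)) x7406) x27088) (Nat.mul (e (nat_lit 7406)) an))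
    (Nat.sub (Nat.sub (Nat.sub (Nat.add (Nat.add (Nat.add (Nat.add (Nat.add (Nat.add (Nat.add (Nat.add (Nat.add (Nat.add (Nat.add (Nat.add (Nat.add C x20534) x3038) x8870) x6926) x7574) x7358) x7466) x7394) x7430) x7406) x7418) x7414) (Nat.mul (e (nat_lit 7412)) ap)) x7412) x27094) (Nat.mul (e (nat_lit 7412)) an))
    (Nat.sub (Nat.sub (Nat.add (Nat.add (Nat.add (Nat.add (Nat.add (Nat.add (Nat.add (Nat.add (Nat.add (Nat.add (Nat.add (Nat.add C x20536) x3040) x8872) x6928) x7576) x7360) x7468) x7396) x7432) x7420) x7412) (Nat.mul (e (nat_lit 7414)) ap)) x27096) (Nat.mul (e (nat_lit 7414)) an))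
    (Nat.sub (Nat.sub (Nat.sub (Nat.add (Nat.add (Nat.add (Nat.add (Nat.add (Nat.add (Nat.add (Nat.add (Nat.add (Nat.add (Nat.add C x20540) x3044) x8876) x6932) x7580) x7364) x7472) x7436) x7412) x7420) (Nat.mul (e (nat_lit 7418)) ap)) (Nat.mul x7418 (nat_lit 3))) x27100) (Nat.mul (e (nat_lit 7418)) an))
    (Nat.sub (Nat.sub (Nat.add (Nat.add (Nat.add (Nat.add (Nat.add (Nat.add (Nat.add (Nat.add (Nat.add (Nat.add (Nat.add (Nat.add C x20542) x3046) x8878) x6934) x7582) x7366) x7474) x7438) x7414) x7418) x7422) (Nat.mul (e (nat_lit 7420)) ap)) x27102) (Nat.mul (e (nat_lit 7420)) an))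
    (Nat.add (Nat.add (Nat.add (Nat.add (Nat.add (Nat.add (Nat.add (Nat.add (Nat.add (Nat.add C x7422) x20544) x3048) x8880) x6936) x7584) x7368) x7476) x7440) x7420)
    (Nat.sub (Nat.sub (Nat.sub (Nat.add (Nat.add (Nat.add (Nat.add (Nat.add (Nat.add (Nat.add (Nat.add (Nat.add (Nat.add C x20552) x3056) x8888) x6944) x7592) x7484) x7412) x7436) x7432) (Nat.mul (e (nat_lit 7430)) ap)) (Nat.mul x7430 (nat_lit 2))) x27112) (Nat.mul (e (nat_lit 7430)) an))
    (Nat.sub (Nat.sub (Nat.sub (Nat.add (Nat.add (Nat.add (Nat.add (Nat.add (Nat.add (Nat.add (Nat.add (Nat.add (Nat.add C x20554) x3058) x8890) x6946) x7594) x7486) x7414) x7438) x7430) (Nat.mul (e (nat_lit 7432)) ap)) (Nat.mul x7432 (nat_lit 2))) x27114) (Nat.mul (e (nat_lit 7432)) an))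
    (Nat.sub (Nat.sub (Nat.sub (Nat.add (Nat.add (Nat.add (Nat.add (Nat.add (Nat.add (Nat.add (Nat.add (Nat.add (Nat.add C x20558) x3062) x8894) x6950) x7598) x7490) x7418) x7430) x7438) (Nat.mul (e (nat_lit 7436)) ap)) (Nat.mul x7436 (nat_lit 2))) x27118) (Nat.mul (e (nat_lit 7436)) an))
    (Nat.sub (Nat.add (Nat.add (Nat.add (Nat.add (Nat.add (Nat.add (Nat.add (Nat.add (Nat.add (Nat.add (Nat.add C x20560) x3064) x8896) x6952) x7600) x7492) x7420) x7432) x7444) x7436) x7440) x27120)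
    (Nat.add (Nat.add (Nat.add (Nat.add (Nat.add (Nat.add (Nat.add (Nat.add (Nat.add C x20562) x3066) x8898) x6954) x7602) x7494) x7422) x7446) x7438)
    (Nat.sub (Nat.add (Nat.add (Nat.add (Nat.add (Nat.add (Nat.add (Nat.add (Nat.add C x20566) x3070) x8902) x6958) x7606) x7498) x7438) x7446) x27126)
    (Nat.add (Nat.add (Nat.add (Nat.add (Nat.add (Nat.add (Nat.add (Nat.add (Nat.add C (Nat.mul x7446 (nat_lit 2))) x20568) x3072) x8904) x6960) x7608) x7500) x7440) x7444)
    (Nat.sub (Nat.sub (Nat.add (Nat.add (Nat.add (Nat.add (Nat.add (Nat.add (Nat.add C x20582) x3086) x8918) x6974) x7622) x7406) x7466) (Nat.mul x7460 (nat_lit 2))) x27142)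
    (Nat.sub (Nat.sub (Nat.sub (Nat.add (Nat.add (Nat.add (Nat.add (Nat.add (Nat.add (Nat.add (Nat.add (Nat.add (Nat.add (Nat.add C x20588) x3092) x8924) x6980) x7628) x7412) x7484) x7460) x7472) x7468) (Nat.mul (e (nat_lit 7466)) ap)) (Nat.mul x7466 (nat_lit 3))) x27148) (Nat.mul (e (nat_lit 7466)) an))
    (Nat.sub (Nat.sub (Nat.add (Nat.add (Nat.add (Nat.add (Nat.add (Nat.add (Nat.add (Nat.add (Nat.add C x20590) x3094) x8926) x6982) x7630) x7414) x7486) x7474) x7466) (Nat.mul x7468 (nat_lit 2))) x27150)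
    (Nat.sub (Nat.sub (Nat.sub (Nat.add (Nat.add (Nat.add (Nat.add (Nat.add (Nat.add (Nat.add (Nat.add (Nat.add (Nat.add C x20594) x3098) x8930) x6986) x7634) x7418) x7490) x7466) x7474) (Nat.mul (e (nat_lit 7472)) ap)) (Nat.mul x7472 (nat_lit 6))) x27154) (Nat.mul (e (nat_lit 7472)) an))
    (Nat.sub (Nat.sub (Nat.add (Nat.add (Nat.add (Nat.add (Nat.add (Nat.add (Nat.add (Nat.add (Nat.add (Nat.add C x20596) x3100) x8932) x6988) x7636) x7420) x7492) x7468) x7472) x7476) (Nat.mul x7474 (nat_lit 3))) x27156)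
    (Nat.sub (Nat.add (Nat.add (Nat.add (Nat.add (Nat.add (Nat.add (Nat.add (Nat.add C x20598) x3102) x8934) x6990) x7638) x7422) x7494) x7474) (Nat.mul x7476 (nat_lit 2)))
    (Nat.sub (Nat.sub (Nat.sub (Nat.add (Nat.add (Nat.add (Nat.add (Nat.add (Nat.add (Nat.add (Nat.add (Nat.add (Nat.add C x20606) x3110) x8942) x6998) x7646) x7430) x7466) x7490) x7486) (Nat.mul (e (nat_lit 7484)) ap)) (Nat.mul x7484 (nat_lit 2))) x27166) (Nat.mul (e (nat_lit 7484)) an))
    (Nat.sub (Nat.sub (Nat.add (Nat.add (Nat.add (Nat.add (Nat.add (Nat.add (Nat.add (Nat.add (Nat.add C x20608) x3112) x8944) x7000) x7648) x7432) x7468) x7492) x7484) (Nat.mul x7486 (nat_lit 2))) x27168)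
    (Nat.sub (Nat.sub (Nat.add (Nat.add (Nat.add (Nat.add (Nat.add (Nat.add (Nat.add (Nat.add (Nat.add (Nat.add C x20612) x3116) x8948) x7004) x7652) x7436) x7472) x7508) x7484) x7492) (Nat.mul x7490 (nat_lit 3))) x27172)
    (Nat.sub (Nat.sub (Nat.add (Nat.add (Nat.add (Nat.add (Nat.add (Nat.add (Nat.add (Nat.add (Nat.add (Nat.add (Nat.add (Nat.add C x20614) x3118) x8950) x7006) x7654) x7438) x7474) x7510) x7486) x7498) x7490) x7494) x7492) x27174)
    (Nat.sub (Nat.add (Nat.add (Nat.add (Nat.add (Nat.add (Nat.add (Nat.add (Nat.add (Nat.add (Nat.add C x20616) x3120) x8952) x7008) x7656) x7440) x7476) x7512) x7500) x7492) x7494)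
    (Nat.sub (Nat.sub (Nat.add (Nat.add (Nat.add (Nat.add (Nat.add (Nat.add (Nat.add (Nat.add (Nat.add C x20620) x3124) x8956) x7012) x7660) x7444) x7516) x7492) x7500) (Nat.mul x7498 (nat_lit 2))) x27180)
    (Nat.add (Nat.add (Nat.add (Nat.add (Nat.add (Nat.add (Nat.add (Nat.add (Nat.add C x20622) x3126) x8958) x7014) x7662) x7446) x7518) x7494) x7498)
    (Nat.sub (Nat.sub (Nat.add (Nat.add (Nat.add (Nat.add (Nat.add (Nat.add (Nat.add C x20630) x3134) x8966) x7022) x7670) x7490) x7510) (Nat.mul x7508 (nat_lit 2))) x27190)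
    (Nat.sub (Nat.sub (Nat.add (Nat.add (Nat.add (Nat.add (Nat.add (Nat.add (Nat.add (Nat.add (Nat.add C x20632) x3136) x8968) x7024) x7672) x7492) x7516) x7508) x7512) x7510) x27192)
    (Nat.sub (Nat.add (Nat.add (Nat.add (Nat.add (Nat.add (Nat.add (Nat.add (Nat.add C x20634) x3138) x8970) x7026) x7674) x7494) x7518) x7510) (Nat.mul x7512 (nat_lit 2)))
    (Nat.sub (Nat.add (Nat.add (Nat.add (Nat.add (Nat.add (Nat.add (Nat.add (Nat.add C x20638) x3142) x8974) x7030) x7678) x7498) x7510) x7518) x27198)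
    (Nat.add (Nat.add (Nat.add (Nat.add (Nat.add (Nat.add (Nat.add (Nat.add (Nat.add (Nat.add C x7518) x20640) x3144) x8976) x7032) x7680) x7500) x7512) x7524) x7516)
    (Nat.add (Nat.add (Nat.add (Nat.add (Nat.add (Nat.add (Nat.add C (Nat.mul x7524 (nat_lit 2))) x20646) x3150) x8982) x7038) x7686) x7518)
    (Nat.sub (Nat.add (Nat.add (Nat.add (Nat.add (Nat.add (Nat.add (Nat.add (Nat.add (Nat.add C x7550) x20672) x3176) x9008) x7064) x8036) x7388) x7568) x7556) x27232)
    (Nat.sub (Nat.sub (Nat.add (Nat.add (Nat.add (Nat.add (Nat.add (Nat.add (Nat.add (Nat.add (Nat.add C x20678) x3182) x9014) x7070) x8042) x7394) x7574) x7550) x7558) x7556) x27238)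
    (Nat.sub (Nat.add (Nat.add (Nat.add (Nat.add (Nat.add (Nat.add (Nat.add (Nat.add (Nat.add C x7558) x20680) x3184) x9016) x7072) x8044) x7396) x7576) x7556) x27240)
    (Nat.sub (Nat.sub (Nat.sub (Nat.add (Nat.add (Nat.add (Nat.add (Nat.add (Nat.add (Nat.add (Nat.add (Nat.add (Nat.add C x20690) x3194) x9026) x7082) x8054) x7406) x7622) x7550) x7574) (Nat.mul (e (nat_lit 7568)) ap)) x7568) x27250) (Nat.mul (e (nat_lit 7568)) an))
    (Nat.sub (Nat.sub (Nat.sub (Nat.add (Nat.add (Nat.add (Nat.add (Nat.add (Nat.add (Nat.add (Nat.add (Nat.add (Nat.add (Nat.add (Nat.add (Nat.add C x20696) x3200) x9032) x7088) x8060) x7412) x7628) x7556) x7592) x7568) x7580) x7576) (Nat.mul (e (nat_lit 7574)) ap)) x7574) x27256) (Nat.mul (e (nat_lit 7574)) an))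
    (Nat.sub (Nat.sub (Nat.add (Nat.add (Nat.add (Nat.add (Nat.add (Nat.add (Nat.add (Nat.add (Nat.add (Nat.add (Nat.add (Nat.add C x20698) x3202) x9034) x7090) x8062) x7414) x7630) x7558) x7594) x7582) x7574) (Nat.mul (e (nat_lit 7576)) ap)) x27258) (Nat.mul (e (nat_lit 7576)) an))
    (Nat.sub (Nat.sub (Nat.sub (Nat.add (Nat.add (Nat.add (Nat.add (Nat.add (Nat.add (Nat.add (Nat.add (Nat.add (Nat.add (Nat.add C x20702) x3206) x9038) x7094) x8066) x7418) x7634) x7598) x7574) x7582) (Nat.mul (e (nat_lit 7580)) ap)) (Nat.mul x7580 (nat_lit 3))) x27262) (Nat.mul (e (nat_lit 7580)) an))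
    (Nat.sub (Nat.sub (Nat.add (Nat.add (Nat.add (Nat.add (Nat.add (Nat.add (Nat.add (Nat.add (Nat.add (Nat.add (Nat.add (Nat.add C x20704) x3208) x9040) x7096) x8068) x7420) x7636) x7600) x7576) x7580) x7584) (Nat.mul (e (nat_lit 7582)) ap)) x27264) (Nat.mul (e (nat_lit 7582)) an))
    (Nat.add (Nat.add (Nat.add (Nat.add (Nat.add (Nat.add (Nat.add (Nat.add (Nat.add (Nat.add C x7584) x20706) x3210) x9042) x7098) x8070) x7422) x7638) x7602) x7582)
    (Nat.sub (Nat.sub (Nat.sub (Nat.add (Nat.add (Nat.add (Nat.add (Nat.add (Nat.add (Nat.add (Nat.add (Nat.add (Nat.add (Nat.add C x20714) x3218) x9050) x7106) x8078) x7430) x7646) x7574) x7598) x7594) (Nat.mul (e (nat_lit 7592)) ap)) (Nat.mul x7592 (nat_lit 3))) x27274) (Nat.mul (e (nat_lit 7592)) an))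
    (Nat.sub (Nat.sub (Nat.sub (Nat.add (Nat.add (Nat.add (Nat.add (Nat.add (Nat.add (Nat.add (Nat.add (Nat.add (Nat.add (Nat.add C x20716) x3220) x9052) x7108) x8080) x7432) x7648) x7576) x7600) x7592) (Nat.mul (e (nat_lit 7594)) ap)) (Nat.mul x7594 (nat_lit 3))) x27276) (Nat.mul (e (nat_lit 7594)) an))
    (Nat.sub (Nat.sub (Nat.sub (Nat.add (Nat.add (Nat.add (Nat.add (Nat.add (Nat.add (Nat.add (Nat.add (Nat.add (Nat.add (Nat.add C x20720) x3224) x9056) x7112) x8084) x7436) x7652) x7580) x7592) x7600) (Nat.mul (e (nat_lit 7598)) ap)) (Nat.mul x7598 (nat_lit 3))) x27280) (Nat.mul (e (nat_lit 7598)) an))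
    (Nat.sub (Nat.sub (Nat.sub (Nat.add (Nat.add (Nat.add (Nat.add (Nat.add (Nat.add (Nat.add (Nat.add (Nat.add (Nat.add (Nat.add (Nat.add (Nat.add C x20722) x3226) x9058) x7114) x8086) x7438) x7654) x7582) x7594) x7606) x7598) x7602) (Nat.mul (e (nat_lit 7600)) ap)) x7600) x27282) (Nat.mul (e (nat_lit 7600)) an))
    (Nat.sub (Nat.add (Nat.add (Nat.add (Nat.add (Nat.add (Nat.add (Nat.add (Nat.add (Nat.add (Nat.add C x20724) x3228) x9060) x7116) x8088) x7440) x7656) x7584) x7608) x7600) x7602)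
    (Nat.sub (Nat.sub (Nat.add (Nat.add (Nat.add (Nat.add (Nat.add (Nat.add (Nat.add (Nat.add (Nat.add C x20728) x3232) x9064) x7120) x8092) x7444) x7660) x7600) x7608) x7606) x27288)
    (Nat.add (Nat.add (Nat.add (Nat.add (Nat.add (Nat.add (Nat.add (Nat.add (Nat.add (Nat.add C x7608) x20730) x3234) x9066) x7122) x8094) x7446) x7662) x7602) x7606)
    (Nat.sub (Nat.add (Nat.add (Nat.add (Nat.add (Nat.add (Nat.add (Nat.add (Nat.add (Nat.add C x20744) x3248) x9080) x7136) x8108) x7460) x7784) x7568) x7628) x27304)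
    (Nat.sub (Nat.sub (Nat.sub (Nat.add (Nat.add (Nat.add (Nat.add (Nat.add (Nat.add (Nat.add (Nat.add (Nat.add (Nat.add (Nat.add (Nat.add (Nat.add C x20750) x3254) x9086) x7142) x8114) x7466) x7790) x7574) x7646) x7622) x7634) x7630) (Nat.mul (e (nat_lit 7628)) ap)) x7628) x27310) (Nat.mul (e (nat_lit 7628)) an))
    (Nat.sub (Nat.sub (Nat.add (Nat.add (Nat.add (Nat.add (Nat.add (Nat.add (Nat.add (Nat.add (Nat.add (Nat.add (Nat.add (Nat.add C x20752) x3256) x9088) x7144) x8116) x7468) x7792) x7576) x7648) x7636) x7628) (Nat.mul (e (nat_lit 7630)) ap)) x27312) (Nat.mul (e (nat_lit 7630)) an))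
    (Nat.sub (Nat.sub (Nat.sub (Nat.add (Nat.add (Nat.add (Nat.add (Nat.add (Nat.add (Nat.add (Nat.add (Nat.add (Nat.add (Nat.add (Nat.add C x20756) x3260) x9092) x7148) x8120) x7472) x7796) x7580) x7652) x7628) x7636) (Nat.mul (e (nat_lit 7634)) ap)) (Nat.mul x7634 (nat_lit 4))) x27316) (Nat.mul (e (nat_lit 7634)) an))
    (Nat.sub (Nat.sub (Nat.sub (Nat.add (Nat.add (Nat.add (Nat.add (Nat.add (Nat.add (Nat.add (Nat.add (Nat.add (Nat.add (Nat.add (Nat.add (Nat.add C x20758) x3262) x9094) x7150) x8122) x7474) x7798) x7582) x7654) x7630) x7634) x7638) (Nat.mul (e (nat_lit 7636)) ap)) x7636) x27318) (Nat.mul (e (nat_lit 7636)) an))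
    (Nat.add (Nat.add (Nat.add (Nat.add (Nat.add (Nat.add (Nat.add (Nat.add (Nat.add (Nat.add C x20760) x3264) x9096) x7152) x8124) x7476) x7800) x7584) x7656) x7636)
    (Nat.sub (Nat.sub (Nat.sub (Nat.add (Nat.add (Nat.add (Nat.add (Nat.add (Nat.add (Nat.add (Nat.add (Nat.add (Nat.add (Nat.add (Nat.add (Nat.add C x20768) x3272) x9104) x7160) x8132) x7484) x7808) x7592) x7700) x7628) x7652) x7648) (Nat.mul (e (nat_lit 7646)) ap)) x7646) x27328) (Nat.mul (e (nat_lit 7646)) an))
    (Nat.sub (Nat.sub (Nat.sub (Nat.add (Nat.add (Nat.add (Nat.add (Nat.add (Nat.add (Nat.add (Nat.add (Nat.add (Nat.add (Nat.add (Nat.add (Nat.add C x20770) x3274) x9106) x7162) x8134) x7486) x7810) x7594) x7702) x7630) x7654) x7646) (Nat.mul (e (nat_lit 7648)) ap)) x7648) x27330) (Nat.mul (e (nat_lit 7648)) an))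
    (Nat.sub (Nat.sub (Nat.sub (Nat.add (Nat.add (Nat.add (Nat.add (Nat.add (Nat.add (Nat.add (Nat.add (Nat.add (Nat.add (Nat.add (Nat.add (Nat.add (Nat.add C x20774) x3278) x9110) x7166) x8138) x7490) x7814) x7598) x7706) x7634) x7670) x7646) x7654) (Nat.mul (e (nat_lit 7652)) ap)) (Nat.mul x7652 (nat_lit 2))) x27334) (Nat.mul (e (nat_lit 7652)) an))
    (Nat.sub (Nat.sub (Nat.add (Nat.add (Nat.add (Nat.add (Nat.add (Nat.add (Nat.add (Nat.add (Nat.add (Nat.add (Nat.add (Nat.add (Nat.add (Nat.add (Nat.add (Nat.add C x20776) x3280) x9112) x7168) x8140) x7492) x7816) x7600) x7708) x7636) x7672) x7648) x7660) x7652) x7656) (Nat.mul (e (nat_lit 7654)) ap)) x27336) (Nat.mul (e (nat_lit 7654)) an))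
    (Nat.add (Nat.add (Nat.add (Nat.add (Nat.add (Nat.add (Nat.add (Nat.add (Nat.add (Nat.add (Nat.add (Nat.add (Nat.add C x20778) x3282) x9114) x7170) x8142) x7494) x7818) x7602) x7710) x7638) x7674) x7662) x7654)
    (Nat.sub (Nat.sub (Nat.add (Nat.add (Nat.add (Nat.add (Nat.add (Nat.add (Nat.add (Nat.add (Nat.add (Nat.add (Nat.add (Nat.add C x20782) x3286) x9118) x7174) x8146) x7498) x7822) x7606) x7714) x7678) x7654) x7662) x7660) x27342)
    (Nat.add (Nat.add (Nat.add (Nat.add (Nat.add (Nat.add (Nat.add (Nat.add (Nat.add (Nat.add (Nat.add (Nat.add (Nat.add C x7662) x20784) x3288) x9120) x7176) x8148) x7500) x7824) x7608) x7716) x7680) x7656) x7660)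
    (Nat.sub (Nat.sub (Nat.add (Nat.add (Nat.add (Nat.add (Nat.add (Nat.add (Nat.add (Nat.add (Nat.add (Nat.add C x20792) x3296) x9128) x7184) x8156) x7508) x7832) x7724) x7652) x7672) (Nat.mul x7670 (nat_lit 2))) x27352)
    (Nat.sub (Nat.sub (Nat.add (Nat.add (Nat.add (Nat.add (Nat.add (Nat.add (Nat.add (Nat.add (Nat.add (Nat.add (Nat.add (Nat.add C x20794) x3298) x9130) x7186) x8158) x7510) x7834) x7726) x7654) x7678) x7670) x7674) x7672) x27354)
    (Nat.sub (Nat.add (Nat.add (Nat.add (Nat.add (Nat.add (Nat.add (Nat.add (Nat.add (Nat.add (Nat.add (Nat.add C x20796) x3300) x9132) x7188) x8160) x7512) x7836) x7728) x7656) x7680) x7672) (Nat.mul x7674 (nat_lit 2)))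
    (Nat.sub (Nat.add (Nat.add (Nat.add (Nat.add (Nat.add (Nat.add (Nat.add (Nat.add (Nat.add (Nat.add (Nat.add C x20800) x3304) x9136) x7192) x8164) x7516) x7840) x7732) x7660) x7672) x7680) x27360)
    (Nat.add (Nat.add (Nat.add (Nat.add (Nat.add (Nat.add (Nat.add (Nat.add (Nat.add (Nat.add (Nat.add (Nat.add (Nat.add C x7680) x20802) x3306) x9138) x7194) x8166) x7518) x7842) x7734) x7662) x7674) x7686) x7678)
    (Nat.add (Nat.add (Nat.add (Nat.add (Nat.add (Nat.add (Nat.add (Nat.add (Nat.add (Nat.add C (Nat.mul x7686 (nat_lit 2))) x20808) x3312) x9144) x7200) x8172) x7524) x7848) x7740) x7680)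
    (Nat.sub (Nat.sub (Nat.add (Nat.add (Nat.add (Nat.add (Nat.add (Nat.add (Nat.add (Nat.add (Nat.add C x20822) x3326) x9158) x7214) x8186) x7862) x7646) x7706) x7702) x7700) x27382)
    (Nat.sub (Nat.sub (Nat.add (Nat.add (Nat.add (Nat.add (Nat.add (Nat.add (Nat.add (Nat.add (Nat.add C x20824) x3328) x9160) x7216) x8188) x7864) x7648) x7708) x7700) x7702) x27384)
    (Nat.sub (Nat.sub (Nat.sub (Nat.add (Nat.add (Nat.add (Nat.add (Nat.add (Nat.add (Nat.add (Nat.add (Nat.add (Nat.add (Nat.add C x20828) x3332) x9164) x7220) x8192) x7868) x7652) x7724) x7700) x7708) (Nat.mul (e (nat_lit 7706)) ap)) (Nat.mul x7706 (nat_lit 3))) x27388) (Nat.mul (e (nat_lit 7706)) an))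
    (Nat.sub (Nat.sub (Nat.add (Nat.add (Nat.add (Nat.add (Nat.add (Nat.add (Nat.add (Nat.add (Nat.add (Nat.add (Nat.add (Nat.add C x20830) x3334) x9166) x7222) x8194) x7870) x7654) x7726) x7702) x7714) x7706) x7710) x7708) x27390)
    (Nat.sub (Nat.add (Nat.add (Nat.add (Nat.add (Nat.add (Nat.add (Nat.add (Nat.add (Nat.add (Nat.add C x20832) x3336) x9168) x7224) x8196) x7872) x7656) x7728) x7716) x7708) x7710)
    (Nat.sub (Nat.sub (Nat.add (Nat.add (Nat.add (Nat.add (Nat.add (Nat.add (Nat.add (Nat.add (Nat.add (Nat.add C x20836) x3340) x9172) x7228) x8200) x7876) x7660) x7732) x7708) x7716) (Nat.mul x7714 (nat_lit 3))) x27396)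
    (Nat.sub (Nat.add (Nat.add (Nat.add (Nat.add (Nat.add (Nat.add (Nat.add (Nat.add (Nat.add (Nat.add C x20838) x3342) x9174) x7230) x8202) x7878) x7662) x7734) x7710) x7714) x7716)
    (Nat.sub (Nat.sub (Nat.add (Nat.add (Nat.add (Nat.add (Nat.add (Nat.add (Nat.add (Nat.add (Nat.add C x20846) x3350) x9182) x7238) x8210) x7886) x7670) x7706) x7726) x7724) x27406)
    (Nat.sub (Nat.add (Nat.add (Nat.add (Nat.add (Nat.add (Nat.add (Nat.add (Nat.add (Nat.add (Nat.add (Nat.add C x20848) x3352) x9184) x7240) x8212) x7888) x7672) x7708) x7732) x7724) x7728) x27408)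
    (Nat.sub (Nat.add (Nat.add (Nat.add (Nat.add (Nat.add (Nat.add (Nat.add (Nat.add (Nat.add (Nat.add C x20850) x3354) x9186) x7242) x8214) x7890) x7674) x7710) x7734) x7726) x7728)
    (Nat.sub (Nat.add (Nat.add (Nat.add (Nat.add (Nat.add (Nat.add (Nat.add (Nat.add (Nat.add (Nat.add (Nat.add C x20854) x3358) x9190) x7246) x8218) x7894) x7678) x7714) x7750) x7726) x7734) x27414)
    (Nat.add (Nat.add (Nat.add (Nat.add (Nat.add (Nat.add (Nat.add (Nat.add (Nat.add (Nat.add (Nat.add (Nat.add (Nat.add C x7734) x20856) x3360) x9192) x7248) x8220) x7896) x7680) x7716) x7752) x7728) x7740) x7732)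
    (Nat.add (Nat.add (Nat.add (Nat.add (Nat.add (Nat.add (Nat.add (Nat.add (Nat.add (Nat.add C x7740) x20862) x3366) x9198) x7254) x8226) x7902) x7686) x7758) x7734)
    (Nat.sub (Nat.add (Nat.add (Nat.add (Nat.add (Nat.add (Nat.add (Nat.add (Nat.add (Nat.add C x7750) x20872) x3376) x9208) x7264) x8236) x7912) x7732) x7752) x27432)
    (Nat.add (Nat.add (Nat.add (Nat.add (Nat.add (Nat.add (Nat.add (Nat.add (Nat.add (Nat.add C x7752) x20874) x3378) x9210) x7266) x8238) x7914) x7734) x7758) x7750)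
    (Nat.add (Nat.add (Nat.add (Nat.add (Nat.add (Nat.add (Nat.add (Nat.add (Nat.add C (Nat.mul x7758 (nat_lit 3))) x20880) x3384) x9216) x7272) x8244) x7920) x7740) x7752)
    (Nat.sub (Nat.add (Nat.add (Nat.add (Nat.add (Nat.add (Nat.add C x20906) x3410) x9242) x8270) x7622) x7790) x27466)
    (Nat.sub (Nat.sub (Nat.add (Nat.add (Nat.add (Nat.add (Nat.add (Nat.add (Nat.add (Nat.add (Nat.add C x20912) x3416) x9248) x8276) x7628) x7808) x7784) x7796) x7792) x7790) x27472)
    (Nat.sub (Nat.add (Nat.add (Nat.add (Nat.add (Nat.add (Nat.add (Nat.add (Nat.add C x20914) x3418) x9250) x8278) x7630) x7810) x7798) x7790) x27474)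
    (Nat.sub (Nat.sub (Nat.add (Nat.add (Nat.add (Nat.add (Nat.add (Nat.add (Nat.add (Nat.add C x20918) x3422) x9254) x8282) x7634) x7814) x7790) x7798) (Nat.mul x7796 (nat_lit 4))) x27478)
    (Nat.sub (Nat.sub (Nat.add (Nat.add (Nat.add (Nat.add (Nat.add (Nat.add (Nat.add (Nat.add (Nat.add C x20920) x3424) x9256) x8284) x7636) x7816) x7792) x7796) x7800) x7798) x27480)
    (Nat.add (Nat.add (Nat.add (Nat.add (Nat.add (Nat.add (Nat.add C x20922) x3426) x9258) x8286) x7638) x7818) x7798)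
    (Nat.sub (Nat.sub (Nat.sub (Nat.add (Nat.add (Nat.add (Nat.add (Nat.add (Nat.add (Nat.add (Nat.add (Nat.add (Nat.add C x20930) x3434) x9266) x8294) x7646) x7862) x7790) x7814) x7810) (Nat.mul (e (nat_lit 7808)) ap)) (Nat.mul x7808 (nat_lit 2))) x27490) (Nat.mul (e (nat_lit 7808)) an))
    (Nat.sub (Nat.sub (Nat.sub (Nat.add (Nat.add (Nat.add (Nat.add (Nat.add (Nat.add (Nat.add (Nat.add (Nat.add (Nat.add C x20932) x3436) x9268) x8296) x7648) x7864) x7792) x7816) x7808) (Nat.mul (e (nat_lit 7810)) ap)) (Nat.mul x7810 (nat_lit 2))) x27492) (Nat.mul (e (nat_lit 7810)) an))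
    (Nat.sub (Nat.sub (Nat.sub (Nat.add (Nat.add (Nat.add (Nat.add (Nat.add (Nat.add (Nat.add (Nat.add (Nat.add (Nat.add (Nat.add C x20936) x3440) x9272) x8300) x7652) x7868) x7796) x7832) x7808) x7816) (Nat.mul (e (nat_lit 7814)) ap)) (Nat.mul x7814 (nat_lit 3))) x27496) (Nat.mul (e (nat_lit 7814)) an))
    (Nat.sub (Nat.sub (Nat.add (Nat.add (Nat.add (Nat.add (Nat.add (Nat.add (Nat.add (Nat.add (Nat.add (Nat.add (Nat.add (Nat.add C x20938) x3442) x9274) x8302) x7654) x7870) x7798) x7834) x7810) x7822) x7814) x7818) x7816) x27498)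
    (Nat.sub (Nat.add (Nat.add (Nat.add (Nat.add (Nat.add (Nat.add (Nat.add (Nat.add (Nat.add (Nat.add C x20940) x3444) x9276) x8304) x7656) x7872) x7800) x7836) x7824) x7816) x7818)
    (Nat.sub (Nat.sub (Nat.add (Nat.add (Nat.add (Nat.add (Nat.add (Nat.add (Nat.add (Nat.add (Nat.add C x20944) x3448) x9280) x8308) x7660) x7876) x7840) x7816) x7824) (Nat.mul x7822 (nat_lit 2))) x27504)
    (Nat.add (Nat.add (Nat.add (Nat.add (Nat.add (Nat.add (Nat.add (Nat.add (Nat.add C x20946) x3450) x9282) x8310) x7662) x7878) x7842) x7818) x7822)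
    (Nat.sub (Nat.sub (Nat.add (Nat.add (Nat.add (Nat.add (Nat.add (Nat.add (Nat.add (Nat.add C x20954) x3458) x9290) x8318) x7670) x7886) x7814) x7834) (Nat.mul x7832 (nat_lit 4))) x27514)
    (Nat.sub (Nat.sub (Nat.add (Nat.add (Nat.add (Nat.add (Nat.add (Nat.add (Nat.add (Nat.add (Nat.add (Nat.add C x20956) x3460) x9292) x8320) x7672) x7888) x7816) x7840) x7832) x7836) (Nat.mul x7834 (nat_lit 3))) x27516)
    (Nat.sub (Nat.add (Nat.add (Nat.add (Nat.add (Nat.add (Nat.add (Nat.add (Nat.add (Nat.add C x20958) x3462) x9294) x8322) x7674) x7890) x7818) x7842) x7834) (Nat.mul x7836 (nat_lit 4)))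
    (Nat.sub (Nat.sub (Nat.add (Nat.add (Nat.add (Nat.add (Nat.add (Nat.add (Nat.add (Nat.add (Nat.add C x20962) x3466) x9298) x8326) x7678) x7894) x7822) x7834) x7842) (Nat.mul x7840 (nat_lit 2))) x27522)
    (Nat.sub (Nat.add (Nat.add (Nat.add (Nat.add (Nat.add (Nat.add (Nat.add (Nat.add (Nat.add (Nat.add C x20964) x3468) x9300) x8328) x7680) x7896) x7824) x7836) x7848) x7840) x7842)
    (Nat.add (Nat.add (Nat.add (Nat.add (Nat.add (Nat.add (Nat.add C x20970) x3474) x9306) x8334) x7686) x7902) x7842)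
    (Nat.sub (Nat.add (Nat.add (Nat.add (Nat.add (Nat.add (Nat.add (Nat.add (Nat.add C x20984) x3488) x9320) x8348) x7700) x7808) x7868) x7864) x27544)
    (Nat.sub (Nat.add (Nat.add (Nat.add (Nat.add (Nat.add (Nat.add (Nat.add (Nat.add C x20986) x3490) x9322) x8350) x7702) x7810) x7870) x7862) x27546)
    (Nat.sub (Nat.sub (Nat.sub (Nat.add (Nat.add (Nat.add (Nat.add (Nat.add (Nat.add (Nat.add (Nat.add (Nat.add (Nat.add C x20990) x3494) x9326) x8354) x7706) x7814) x7886) x7862) x7870) (Nat.mul (e (nat_lit 7868)) ap)) (Nat.mul x7868 (nat_lit 2))) x27550) (Nat.mul (e (nat_lit 7868)) an))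
    (Nat.sub (Nat.add (Nat.add (Nat.add (Nat.add (Nat.add (Nat.add (Nat.add (Nat.add (Nat.add (Nat.add (Nat.add C x20992) x3496) x9328) x8356) x7708) x7816) x7888) x7864) x7876) x7868) x7872) x27552)
    (Nat.add (Nat.add (Nat.add (Nat.add (Nat.add (Nat.add (Nat.add (Nat.add (Nat.add C x20994) x3498) x9330) x8358) x7710) x7818) x7890) x7878) x7870)
    (Nat.sub (Nat.sub (Nat.add (Nat.add (Nat.add (Nat.add (Nat.add (Nat.add (Nat.add (Nat.add (Nat.add C x20998) x3502) x9334) x8362) x7714) x7822) x7894) x7870) x7878) (Nat.mul x7876 (nat_lit 2))) x27558)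
    (Nat.add (Nat.add (Nat.add (Nat.add (Nat.add (Nat.add (Nat.add (Nat.add (Nat.add C x21000) x3504) x9336) x8364) x7716) x7824) x7896) x7872) x7876)
    (Nat.sub (Nat.sub (Nat.add (Nat.add (Nat.add (Nat.add (Nat.add (Nat.add (Nat.add (Nat.add (Nat.add C x21008) x3512) x9344) x8372) x7724) x7832) x7940) x7868) x7888) x7886) x27568)
    (Nat.sub (Nat.add (Nat.add (Nat.add (Nat.add (Nat.add (Nat.add (Nat.add (Nat.add (Nat.add (Nat.add (Nat.add C x21010) x3514) x9346) x8374) x7726) x7834) x7942) x7870) x7894) x7886) x7890) x27570)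
    (Nat.sub (Nat.add (Nat.add (Nat.add (Nat.add (Nat.add (Nat.add (Nat.add (Nat.add (Nat.add (Nat.add C x21012) x3516) x9348) x8376) x7728) x7836) x7944) x7872) x7896) x7888) x7890)
    (Nat.sub (Nat.add (Nat.add (Nat.add (Nat.add (Nat.add (Nat.add (Nat.add (Nat.add (Nat.add (Nat.add (Nat.add C x21016) x3520) x9352) x8380) x7732) x7840) x7948) x7876) x7912) x7888) x7896) x27576)
    (Nat.add (Nat.add (Nat.add (Nat.add (Nat.add (Nat.add (Nat.add (Nat.add (Nat.add (Nat.add (Nat.add (Nat.add (Nat.add C x7896) x21018) x3522) x9354) x8382) x7734) x7842) x7950) x7878) x7914) x7890) x7902) x7894)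
    (Nat.add (Nat.add (Nat.add (Nat.add (Nat.add (Nat.add (Nat.add (Nat.add (Nat.add (Nat.add C x7902) x21024) x3528) x9360) x8388) x7740) x7848) x7956) x7920) x7896)
    (Nat.sub (Nat.add (Nat.add (Nat.add (Nat.add (Nat.add (Nat.add (Nat.add (Nat.add C x21034) x3538) x9370) x8398) x7750) x7966) x7894) x7914) x27594)
    (Nat.add (Nat.add (Nat.add (Nat.add (Nat.add (Nat.add (Nat.add (Nat.add (Nat.add C x21036) x3540) x9372) x8400) x7752) x7968) x7896) x7920) x7912)
    (Nat.add (Nat.add (Nat.add (Nat.add (Nat.add (Nat.add (Nat.add (Nat.add (Nat.add C (Nat.mul x7920 (nat_lit 2))) x21042) x3546) x9378) x8406) x7758) x7974) x7902) x7914)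
    (Nat.sub (Nat.add (Nat.add (Nat.add (Nat.add (Nat.add (Nat.add C x21062) x3566) x9398) x8426) x7886) x7942) x27622)
    (Nat.sub (Nat.add (Nat.add (Nat.add (Nat.add (Nat.add (Nat.add (Nat.add (Nat.add (Nat.add C x7942) x21064) x3568) x9400) x8428) x7888) x7948) x7940) x7944) x27624)
    (Nat.add (Nat.add (Nat.add (Nat.add (Nat.add (Nat.add (Nat.add C x21066) x3570) x9402) x8430) x7890) x7950) x7942)
    (Nat.sub (Nat.add (Nat.add (Nat.add (Nat.add (Nat.add (Nat.add (Nat.add (Nat.add C x21070) x3574) x9406) x8434) x7894) x7966) x7942) x7950) x27630)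
    (Nat.add (Nat.add (Nat.add (Nat.add (Nat.add (Nat.add (Nat.add (Nat.add (Nat.add (Nat.add C x7950) x21072) x3576) x9408) x8436) x7896) x7968) x7944) x7956) x7948)
    (Nat.add (Nat.add (Nat.add (Nat.add (Nat.add (Nat.add (Nat.add C x21078) x3582) x9414) x8442) x7902) x7974) x7950)
    (Nat.sub (Nat.add (Nat.add (Nat.add (Nat.add (Nat.add (Nat.add (Nat.add (Nat.add C (Nat.mul x7966 (nat_lit 2))) x21088) x3592) x9424) x8452) x7912) x7948) x7968) x27648)
    (Nat.add (Nat.add (Nat.add (Nat.add (Nat.add (Nat.add (Nat.add (Nat.add (Nat.add C (Nat.mul x7968 (nat_lit 2))) x21090) x3594) x9426) x8454) x7914) x7950) x7974) x7966)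
    (Nat.add (Nat.add (Nat.add (Nat.add (Nat.add (Nat.add (Nat.add (Nat.add (Nat.add C (Nat.mul x7974 (nat_lit 3))) x21096) x3600) x9432) x8460) x7920) x7956) x7992) x7968)
    (Nat.add (Nat.add (Nat.add (Nat.add (Nat.add (Nat.add C (Nat.mul x7992 (nat_lit 4))) x21114) x3618) x9450) x8478) x7974)
    (Nat.sub (Nat.add (Nat.add (Nat.add (Nat.add (Nat.add (Nat.add C x21158) x3662) x9494) x7550) x8054) x8042) x27718)
    (Nat.sub (Nat.sub (Nat.add (Nat.add (Nat.add (Nat.add (Nat.add (Nat.add (Nat.add C x21164) x3668) x9500) x7556) x8060) x8036) x8044) (Nat.mul x8042 (nat_lit 2))) x27724)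
    (Nat.sub (Nat.add (Nat.add (Nat.add (Nat.add (Nat.add (Nat.add C x21166) x3670) x9502) x7558) x8062) x8042) x27726)
    (Nat.sub (Nat.sub (Nat.add (Nat.add (Nat.add (Nat.add (Nat.add (Nat.add (Nat.add C x21176) x3680) x9512) x7568) x8108) x8036) x8060) (Nat.mul x8054 (nat_lit 2))) x27736)
    (Nat.sub (Nat.sub (Nat.add (Nat.add (Nat.add (Nat.add (Nat.add (Nat.add (Nat.add (Nat.add (Nat.add (Nat.add C x21182) x3686) x9518) x7574) x8114) x8042) x8078) x8054) x8066) x8062) (Nat.mul x8060 (nat_lit 2))) x27742)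
    (Nat.sub (Nat.sub (Nat.add (Nat.add (Nat.add (Nat.add (Nat.add (Nat.add (Nat.add (Nat.add (Nat.add C x21184) x3688) x9520) x7576) x8116) x8044) x8080) x8068) x8060) x8062) x27744)
    (Nat.sub (Nat.sub (Nat.add (Nat.add (Nat.add (Nat.add (Nat.add (Nat.add (Nat.add (Nat.add C x21188) x3692) x9524) x7580) x8120) x8084) x8060) x8068) (Nat.mul x8066 (nat_lit 4))) x27748)
    (Nat.sub (Nat.sub (Nat.add (Nat.add (Nat.add (Nat.add (Nat.add (Nat.add (Nat.add (Nat.add (Nat.add C x21190) x3694) x9526) x7582) x8122) x8086) x8062) x8066) x8070) x8068) x27750)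
    (Nat.add (Nat.add (Nat.add (Nat.add (Nat.add (Nat.add (Nat.add C x21192) x3696) x9528) x7584) x8124) x8088) x8068)
    (Nat.sub (Nat.sub (Nat.add (Nat.add (Nat.add (Nat.add (Nat.add (Nat.add (Nat.add (Nat.add C x21200) x3704) x9536) x7592) x8132) x8060) x8084) x8080) (Nat.mul x8078 (nat_lit 4))) x27760)
    (Nat.sub (Nat.sub (Nat.add (Nat.add (Nat.add (Nat.add (Nat.add (Nat.add (Nat.add (Nat.add C x21202) x3706) x9538) x7594) x8134) x8062) x8086) x8078) (Nat.mul x8080 (nat_lit 4))) x27762)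
    (Nat.sub (Nat.sub (Nat.add (Nat.add (Nat.add (Nat.add (Nat.add (Nat.add (Nat.add (Nat.add C x21206) x3710) x9542) x7598) x8138) x8066) x8078) x8086) (Nat.mul x8084 (nat_lit 4))) x27766)
    (Nat.sub (Nat.sub (Nat.add (Nat.add (Nat.add (Nat.add (Nat.add (Nat.add (Nat.add (Nat.add (Nat.add (Nat.add C x21208) x3712) x9544) x7600) x8140) x8068) x8080) x8092) x8084) x8088) (Nat.mul x8086 (nat_lit 2))) x27768)
    (Nat.sub (Nat.add (Nat.add (Nat.add (Nat.add (Nat.add (Nat.add (Nat.add (Nat.add C x21210) x3714) x9546) x7602) x8142) x8070) x8094) x8086) (Nat.mul x8088 (nat_lit 2)))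
    (Nat.sub (Nat.sub (Nat.add (Nat.add (Nat.add (Nat.add (Nat.add (Nat.add (Nat.add C x21214) x3718) x9550) x7606) x8146) x8086) x8094) (Nat.mul x8092 (nat_lit 2))) x27774)
    (Nat.add (Nat.add (Nat.add (Nat.add (Nat.add (Nat.add (Nat.add C x21216) x3720) x9552) x7608) x8148) x8088) x8092)
    (Nat.sub (Nat.sub (Nat.add (Nat.add (Nat.add (Nat.add (Nat.add (Nat.add (Nat.add C x21230) x3734) x9566) x7622) x8270) x8054) x8114) (Nat.mul x8108 (nat_lit 2))) x27790)
    (Nat.sub (Nat.sub (Nat.add (Nat.add (Nat.add (Nat.add (Nat.add (Nat.add (Nat.add (Nat.add (Nat.add (Nat.add C x21236) x3740) x9572) x7628) x8276) x8060) x8132) x8108) x8120) x8116) (Nat.mul x8114 (nat_lit 3))) x27796)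
    (Nat.sub (Nat.sub (Nat.add (Nat.add (Nat.add (Nat.add (Nat.add (Nat.add (Nat.add (Nat.add (Nat.add C x21238) x3742) x9574) x7630) x8278) x8062) x8134) x8122) x8114) (Nat.mul x8116 (nat_lit 2))) x27798)
    (Nat.sub (Nat.sub (Nat.sub (Nat.add (Nat.add (Nat.add (Nat.add (Nat.add (Nat.add (Nat.add (Nat.add (Nat.add (Nat.add C x21242) x3746) x9578) x7634) x8282) x8066) x8138) x8114) x8122) (Nat.mul (e (nat_lit 8120)) ap)) (Nat.mul x8120 (nat_lit 6))) x27802) (Nat.mul (e (nat_lit 8120)) an))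
    (Nat.sub (Nat.sub (Nat.add (Nat.add (Nat.add (Nat.add (Nat.add (Nat.add (Nat.add (Nat.add (Nat.add (Nat.add C x21244) x3748) x9580) x7636) x8284) x8068) x8140) x8116) x8120) x8124) (Nat.mul x8122 (nat_lit 3))) x27804)
    (Nat.sub (Nat.add (Nat.add (Nat.add (Nat.add (Nat.add (Nat.add (Nat.add (Nat.add C x21246) x3750) x9582) x7638) x8286) x8070) x8142) x8122) (Nat.mul x8124 (nat_lit 2)))
    (Nat.sub (Nat.sub (Nat.sub (Nat.add (Nat.add (Nat.add (Nat.add (Nat.add (Nat.add (Nat.add (Nat.add (Nat.add (Nat.add (Nat.add C x21254) x3758) x9590) x7646) x8294) x8078) x8186) x8114) x8138) x8134) (Nat.mul (e (nat_lit 8132)) ap)) (Nat.mul x8132 (nat_lit 3))) x27814) (Nat.mul (e (nat_lit 8132)) an))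
    (Nat.sub (Nat.sub (Nat.add (Nat.add (Nat.add (Nat.add (Nat.add (Nat.add (Nat.add (Nat.add (Nat.add (Nat.add C x21256) x3760) x9592) x7648) x8296) x8080) x8188) x8116) x8140) x8132) (Nat.mul x8134 (nat_lit 3))) x27816)
    (Nat.sub (Nat.sub (Nat.sub (Nat.add (Nat.add (Nat.add (Nat.add (Nat.add (Nat.add (Nat.add (Nat.add (Nat.add (Nat.add (Nat.add (Nat.add C x21260) x3764) x9596) x7652) x8300) x8084) x8192) x8120) x8156) x8132) x8140) (Nat.mul (e (nat_lit 8138)) ap)) (Nat.mul x8138 (nat_lit 4))) x27820) (Nat.mul (e (nat_lit 8138)) an))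
    (Nat.sub (Nat.sub (Nat.add (Nat.add (Nat.add (Nat.add (Nat.add (Nat.add (Nat.add (Nat.add (Nat.add (Nat.add (Nat.add (Nat.add (Nat.add C x21262) x3766) x9598) x7654) x8302) x8086) x8194) x8122) x8158) x8134) x8146) x8138) x8142) (Nat.mul x8140 (nat_lit 2))) x27822)
    (Nat.sub (Nat.add (Nat.add (Nat.add (Nat.add (Nat.add (Nat.add (Nat.add (Nat.add (Nat.add (Nat.add (Nat.add C x21264) x3768) x9600) x7656) x8304) x8088) x8196) x8124) x8160) x8148) x8140) (Nat.mul x8142 (nat_lit 2)))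
    (Nat.sub (Nat.sub (Nat.add (Nat.add (Nat.add (Nat.add (Nat.add (Nat.add (Nat.add (Nat.add (Nat.add (Nat.add C x21268) x3772) x9604) x7660) x8308) x8092) x8200) x8164) x8140) x8148) (Nat.mul x8146 (nat_lit 3))) x27828)
    (Nat.sub (Nat.add (Nat.add (Nat.add (Nat.add (Nat.add (Nat.add (Nat.add (Nat.add (Nat.add (Nat.add C x21270) x3774) x9606) x7662) x8310) x8094) x8202) x8166) x8142) x8146) x8148)
    (Nat.sub (Nat.sub (Nat.add (Nat.add (Nat.add (Nat.add (Nat.add (Nat.add (Nat.add (Nat.add C x21278) x3782) x9614) x7670) x8318) x8210) x8138) x8158) (Nat.mul x8156 (nat_lit 4))) x27838)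
    (Nat.sub (Nat.sub (Nat.add (Nat.add (Nat.add (Nat.add (Nat.add (Nat.add (Nat.add (Nat.add (Nat.add (Nat.add C x21280) x3784) x9616) x7672) x8320) x8212) x8140) x8164) x8156) x8160) (Nat.mul x8158 (nat_lit 3))) x27840)
    (Nat.sub (Nat.add (Nat.add (Nat.add (Nat.add (Nat.add (Nat.add (Nat.add (Nat.add (Nat.add C x21282) x3786) x9618) x7674) x8322) x8214) x8142) x8166) x8158) (Nat.mul x8160 (nat_lit 4)))
    (Nat.sub (Nat.sub (Nat.add (Nat.add (Nat.add (Nat.add (Nat.add (Nat.add (Nat.add (Nat.add (Nat.add C x21286) x3790) x9622) x7678) x8326) x8218) x8146) x8158) x8166) (Nat.mul x8164 (nat_lit 2))) x27846)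
    (Nat.sub (Nat.add (Nat.add (Nat.add (Nat.add (Nat.add (Nat.add (Nat.add (Nat.add (Nat.add (Nat.add C x21288) x3792) x9624) x7680) x8328) x8220) x8148) x8160) x8172) x8164) x8166)
    (Nat.add (Nat.add (Nat.add (Nat.add (Nat.add (Nat.add (Nat.add C x21294) x3798) x9630) x7686) x8334) x8226) x8166)
    (Nat.sub (Nat.sub (Nat.add (Nat.add (Nat.add (Nat.add (Nat.add (Nat.add (Nat.add (Nat.add C x21308) x3812) x9644) x7700) x8348) x8132) x8192) x8188) (Nat.mul x8186 (nat_lit 4))) x27868)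
    (Nat.sub (Nat.sub (Nat.add (Nat.add (Nat.add (Nat.add (Nat.add (Nat.add (Nat.add (Nat.add C x21310) x3814) x9646) x7702) x8350) x8134) x8194) x8186) (Nat.mul x8188 (nat_lit 4))) x27870)
    (Nat.sub (Nat.sub (Nat.add (Nat.add (Nat.add (Nat.add (Nat.add (Nat.add (Nat.add (Nat.add (Nat.add C x21314) x3818) x9650) x7706) x8354) x8138) x8210) x8186) x8194) (Nat.mul x8192 (nat_lit 6))) x27874)
    (Nat.sub (Nat.sub (Nat.add (Nat.add (Nat.add (Nat.add (Nat.add (Nat.add (Nat.add (Nat.add (Nat.add (Nat.add (Nat.add C x21316) x3820) x9652) x7708) x8356) x8140) x8212) x8188) x8200) x8192) x8196) (Nat.mul x8194 (nat_lit 4))) x27876)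
    (Nat.sub (Nat.add (Nat.add (Nat.add (Nat.add (Nat.add (Nat.add (Nat.add (Nat.add (Nat.add C x21318) x3822) x9654) x7710) x8358) x8142) x8214) x8202) x8194) (Nat.mul x8196 (nat_lit 4)))
    (Nat.sub (Nat.sub (Nat.add (Nat.add (Nat.add (Nat.add (Nat.add (Nat.add (Nat.add (Nat.add (Nat.add C x21322) x3826) x9658) x7714) x8362) x8146) x8218) x8194) x8202) (Nat.mul x8200 (nat_lit 6))) x27882)
    (Nat.sub (Nat.add (Nat.add (Nat.add (Nat.add (Nat.add (Nat.add (Nat.add (Nat.add (Nat.add C x21324) x3828) x9660) x7716) x8364) x8148) x8220) x8196) x8200) (Nat.mul x8202 (nat_lit 4)))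
    (Nat.sub (Nat.sub (Nat.add (Nat.add (Nat.add (Nat.add (Nat.add (Nat.add (Nat.add (Nat.add C x21332) x3836) x9668) x7724) x8372) x8156) x8192) x8212) (Nat.mul x8210 (nat_lit 4))) x27892)
    (Nat.sub (Nat.sub (Nat.add (Nat.add (Nat.add (Nat.add (Nat.add (Nat.add (Nat.add (Nat.add (Nat.add (Nat.add C x21334) x3838) x9670) x7726) x8374) x8158) x8194) x8218) x8210) x8214) (Nat.mul x8212 (nat_lit 3))) x27894)
    (Nat.sub (Nat.add (Nat.add (Nat.add (Nat.add (Nat.add (Nat.add (Nat.add (Nat.add (Nat.add C x21336) x3840) x9672) x7728) x8376) x8160) x8196) x8220) x8212) (Nat.mul x8214 (nat_lit 4)))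
    (Nat.sub (Nat.sub (Nat.add (Nat.add (Nat.add (Nat.add (Nat.add (Nat.add (Nat.add (Nat.add (Nat.add (Nat.add C x21340) x3844) x9676) x7732) x8380) x8164) x8200) x8236) x8212) x8220) (Nat.mul x8218 (nat_lit 3))) x27900)
    (Nat.sub (Nat.add (Nat.add (Nat.add (Nat.add (Nat.add (Nat.add (Nat.add (Nat.add (Nat.add (Nat.add (Nat.add C x21342) x3846) x9678) x7734) x8382) x8166) x8202) x8238) x8214) x8226) x8218) (Nat.mul x8220 (nat_lit 2)))
    (Nat.sub (Nat.add (Nat.add (Nat.add (Nat.add (Nat.add (Nat.add (Nat.add (Nat.add C x21348) x3852) x9684) x7740) x8388) x8172) x8244) x8220) (Nat.mul x8226 (nat_lit 2)))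
    (Nat.sub (Nat.sub (Nat.add (Nat.add (Nat.add (Nat.add (Nat.add (Nat.add (Nat.add C x21358) x3862) x9694) x7750) x8398) x8218) x8238) (Nat.mul x8236 (nat_lit 2))) x27918)
    (Nat.sub (Nat.add (Nat.add (Nat.add (Nat.add (Nat.add (Nat.add (Nat.add (Nat.add C x21360) x3864) x9696) x7752) x8400) x8220) x8244) x8236) (Nat.mul x8238 (nat_lit 2)))
    (Nat.add (Nat.add (Nat.add (Nat.add (Nat.add (Nat.add (Nat.add C x21366) x3870) x9702) x7758) x8406) x8226) x8238)
    (Nat.sub (Nat.add (Nat.add (Nat.add (Nat.add (Nat.add (Nat.add C x21392) x3896) x9728) x7784) x8108) x8276) x27952)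
    (Nat.sub (Nat.sub (Nat.add (Nat.add (Nat.add (Nat.add (Nat.add (Nat.add (Nat.add (Nat.add (Nat.add C x21398) x3902) x9734) x7790) x8114) x8294) x8270) x8282) x8278) x8276) x27958)
    (Nat.sub (Nat.add (Nat.add (Nat.add (Nat.add (Nat.add (Nat.add (Nat.add (Nat.add C x21400) x3904) x9736) x7792) x8116) x8296) x8284) x8276) x27960)
    (Nat.sub (Nat.sub (Nat.add (Nat.add (Nat.add (Nat.add (Nat.add (Nat.add (Nat.add (Nat.add C x21404) x3908) x9740) x7796) x8120) x8300) x8276) x8284) (Nat.mul x8282 (nat_lit 4))) x27964)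
    (Nat.sub (Nat.sub (Nat.add (Nat.add (Nat.add (Nat.add (Nat.add (Nat.add (Nat.add (Nat.add (Nat.add C x21406) x3910) x9742) x7798) x8122) x8302) x8278) x8282) x8286) x8284) x27966)
    (Nat.add (Nat.add (Nat.add (Nat.add (Nat.add (Nat.add (Nat.add C x21408) x3912) x9744) x7800) x8124) x8304) x8284)
    (Nat.sub (Nat.sub (Nat.add (Nat.add (Nat.add (Nat.add (Nat.add (Nat.add (Nat.add (Nat.add (Nat.add C x21416) x3920) x9752) x7808) x8132) x8348) x8276) x8300) x8296) (Nat.mul x8294 (nat_lit 2))) x27976)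
    (Nat.sub (Nat.sub (Nat.add (Nat.add (Nat.add (Nat.add (Nat.add (Nat.add (Nat.add (Nat.add (Nat.add C x21418) x3922) x9754) x7810) x8134) x8350) x8278) x8302) x8294) (Nat.mul x8296 (nat_lit 2))) x27978)
    (Nat.sub (Nat.sub (Nat.add (Nat.add (Nat.add (Nat.add (Nat.add (Nat.add (Nat.add (Nat.add (Nat.add (Nat.add C x21422) x3926) x9758) x7814) x8138) x8354) x8282) x8318) x8294) x8302) (Nat.mul x8300 (nat_lit 3))) x27982)
    (Nat.sub (Nat.sub (Nat.add (Nat.add (Nat.add (Nat.add (Nat.add (Nat.add (Nat.add (Nat.add (Nat.add (Nat.add (Nat.add (Nat.add C x21424) x3928) x9760) x7816) x8140) x8356) x8284) x8320) x8296) x8308) x8300) x8304) x8302) x27984)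
    (Nat.sub (Nat.add (Nat.add (Nat.add (Nat.add (Nat.add (Nat.add (Nat.add (Nat.add (Nat.add (Nat.add C x21426) x3930) x9762) x7818) x8142) x8358) x8286) x8322) x8310) x8302) x8304)
    (Nat.sub (Nat.sub (Nat.add (Nat.add (Nat.add (Nat.add (Nat.add (Nat.add (Nat.add (Nat.add (Nat.add C x21430) x3934) x9766) x7822) x8146) x8362) x8326) x8302) x8310) (Nat.mul x8308 (nat_lit 2))) x27990)
    (Nat.add (Nat.add (Nat.add (Nat.add (Nat.add (Nat.add (Nat.add (Nat.add (Nat.add C x21432) x3936) x9768) x7824) x8148) x8364) x8328) x8304) x8308)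
    (Nat.sub (Nat.sub (Nat.add (Nat.add (Nat.add (Nat.add (Nat.add (Nat.add (Nat.add (Nat.add C x21440) x3944) x9776) x7832) x8156) x8372) x8300) x8320) (Nat.mul x8318 (nat_lit 4))) x28000)
    (Nat.sub (Nat.sub (Nat.add (Nat.add (Nat.add (Nat.add (Nat.add (Nat.add (Nat.add (Nat.add (Nat.add (Nat.add C x21442) x3946) x9778) x7834) x8158) x8374) x8302) x8326) x8318) x8322) (Nat.mul x8320 (nat_lit 3))) x28002)
    (Nat.sub (Nat.add (Nat.add (Nat.add (Nat.add (Nat.add (Nat.add (Nat.add (Nat.add (Nat.add C x21444) x3948) x9780) x7836) x8160) x8376) x8304) x8328) x8320) (Nat.mul x8322 (nat_lit 4)))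
    (Nat.sub (Nat.sub (Nat.add (Nat.add (Nat.add (Nat.add (Nat.add (Nat.add (Nat.add (Nat.add (Nat.add C x21448) x3952) x9784) x7840) x8164) x8380) x8308) x8320) x8328) (Nat.mul x8326 (nat_lit 2))) x28008)
    (Nat.sub (Nat.add (Nat.add (Nat.add (Nat.add (Nat.add (Nat.add (Nat.add (Nat.add (Nat.add (Nat.add C x21450) x3954) x9786) x7842) x8166) x8382) x8310) x8322) x8334) x8326) x8328)
    (Nat.add (Nat.add (Nat.add (Nat.add (Nat.add (Nat.add (Nat.add C x21456) x3960) x9792) x7848) x8172) x8388) x8328)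
    (Nat.sub (Nat.sub (Nat.add (Nat.add (Nat.add (Nat.add (Nat.add (Nat.add (Nat.add (Nat.add (Nat.add C x21470) x3974) x9806) x7862) x8186) x8510) x8294) x8354) x8350) x8348) x28030)
    (Nat.sub (Nat.sub (Nat.add (Nat.add (Nat.add (Nat.add (Nat.add (Nat.add (Nat.add (Nat.add (Nat.add C x21472) x3976) x9808) x7864) x8188) x8512) x8296) x8356) x8348) x8350) x28032)
    (Nat.sub (Nat.sub (Nat.add (Nat.add (Nat.add (Nat.add (Nat.add (Nat.add (Nat.add (Nat.add (Nat.add (Nat.add C x21476) x3980) x9812) x7868) x8192) x8516) x8300) x8372) x8348) x8356) (Nat.mul x8354 (nat_lit 3))) x28036)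
    (Nat.sub (Nat.sub (Nat.add (Nat.add (Nat.add (Nat.add (Nat.add (Nat.add (Nat.add (Nat.add (Nat.add (Nat.add (Nat.add (Nat.add C x21478) x3982) x9814) x7870) x8194) x8518) x8302) x8374) x8350) x8362) x8354) x8358) x8356) x28038)
    (Nat.sub (Nat.add (Nat.add (Nat.add (Nat.add (Nat.add (Nat.add (Nat.add (Nat.add (Nat.add (Nat.add C x21480) x3984) x9816) x7872) x8196) x8520) x8304) x8376) x8364) x8356) x8358)
    (Nat.sub (Nat.sub (Nat.add (Nat.add (Nat.add (Nat.add (Nat.add (Nat.add (Nat.add (Nat.add (Nat.add (Nat.add C x21484) x3988) x9820) x7876) x8200) x8524) x8308) x8380) x8356) x8364) (Nat.mul x8362 (nat_lit 3))) x28044)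
    (Nat.sub (Nat.add (Nat.add (Nat.add (Nat.add (Nat.add (Nat.add (Nat.add (Nat.add (Nat.add (Nat.add C x21486) x3990) x9822) x7878) x8202) x8526) x8310) x8382) x8358) x8362) x8364)
    (Nat.sub (Nat.sub (Nat.add (Nat.add (Nat.add (Nat.add (Nat.add (Nat.add (Nat.add (Nat.add (Nat.add (Nat.add C x21494) x3998) x9830) x7886) x8210) x8534) x8318) x8426) x8354) x8374) (Nat.mul x8372 (nat_lit 2))) x28054)
    (Nat.sub (Nat.sub (Nat.add (Nat.add (Nat.add (Nat.add (Nat.add (Nat.add (Nat.add (Nat.add (Nat.add (Nat.add (Nat.add (Nat.add C x21496) x4000) x9832) x7888) x8212) x8536) x8320) x8428) x8356) x8380) x8372) x8376) x8374) x28056)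
    (Nat.sub (Nat.add (Nat.add (Nat.add (Nat.add (Nat.add (Nat.add (Nat.add (Nat.add (Nat.add (Nat.add (Nat.add C x21498) x4002) x9834) x7890) x8214) x8538) x8322) x8430) x8358) x8382) x8374) (Nat.mul x8376 (nat_lit 2)))
    (Nat.sub (Nat.sub (Nat.add (Nat.add (Nat.add (Nat.add (Nat.add (Nat.add (Nat.add (Nat.add (Nat.add (Nat.add (Nat.add (Nat.add C x21502) x4006) x9838) x7894) x8218) x8542) x8326) x8434) x8362) x8398) x8374) x8382) x8380) x28062)
    (Nat.add (Nat.add (Nat.add (Nat.add (Nat.add (Nat.add (Nat.add (Nat.add (Nat.add (Nat.add (Nat.add (Nat.add (Nat.add C x21504) x4008) x9840) x7896) x8220) x8544) x8328) x8436) x8364) x8400) x8376) x8388) x8380)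
    (Nat.add (Nat.add (Nat.add (Nat.add (Nat.add (Nat.add (Nat.add (Nat.add (Nat.add (Nat.add C x21510) x4014) x9846) x7902) x8226) x8550) x8334) x8442) x8406) x8382)
    (Nat.sub (Nat.sub (Nat.add (Nat.add (Nat.add (Nat.add (Nat.add (Nat.add (Nat.add (Nat.add (Nat.add C x21520) x4024) x9856) x7912) x8236) x8560) x8452) x8380) x8400) x8398) x28080)
    (Nat.sub (Nat.add (Nat.add (Nat.add (Nat.add (Nat.add (Nat.add (Nat.add (Nat.add (Nat.add (Nat.add C x21522) x4026) x9858) x7914) x8238) x8562) x8454) x8382) x8406) x8398) x8400)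
    (Nat.add (Nat.add (Nat.add (Nat.add (Nat.add (Nat.add (Nat.add (Nat.add (Nat.add (Nat.add C x8406) x21528) x4032) x9864) x7920) x8244) x8568) x8460) x8388) x8400)
    (Nat.sub (Nat.sub (Nat.add (Nat.add (Nat.add (Nat.add (Nat.add (Nat.add (Nat.add C x21548) x4052) x9884) x7940) x8588) x8372) x8428) (Nat.mul x8426 (nat_lit 2))) x28108)
    (Nat.sub (Nat.sub (Nat.add (Nat.add (Nat.add (Nat.add (Nat.add (Nat.add (Nat.add (Nat.add (Nat.add C x21550) x4054) x9886) x7942) x8590) x8374) x8434) x8426) x8430) x8428) x28110)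
    (Nat.sub (Nat.add (Nat.add (Nat.add (Nat.add (Nat.add (Nat.add (Nat.add (Nat.add C x21552) x4056) x9888) x7944) x8592) x8376) x8436) x8428) (Nat.mul x8430 (nat_lit 2)))
    (Nat.sub (Nat.sub (Nat.add (Nat.add (Nat.add (Nat.add (Nat.add (Nat.add (Nat.add (Nat.add (Nat.add C x21556) x4060) x9892) x7948) x8596) x8380) x8452) x8428) x8436) (Nat.mul x8434 (nat_lit 2))) x28116)
    (Nat.sub (Nat.add (Nat.add (Nat.add (Nat.add (Nat.add (Nat.add (Nat.add (Nat.add (Nat.add (Nat.add C x21558) x4062) x9894) x7950) x8598) x8382) x8454) x8430) x8442) x8434) x8436)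
    (Nat.sub (Nat.add (Nat.add (Nat.add (Nat.add (Nat.add (Nat.add (Nat.add (Nat.add C x21564) x4068) x9900) x7956) x8604) x8388) x8460) x8436) (Nat.mul x8442 (nat_lit 2)))
    (Nat.sub (Nat.add (Nat.add (Nat.add (Nat.add (Nat.add (Nat.add (Nat.add (Nat.add C x21574) x4078) x9910) x7966) x8614) x8398) x8434) x8454) x28134)
    (Nat.add (Nat.add (Nat.add (Nat.add (Nat.add (Nat.add (Nat.add (Nat.add (Nat.add C x21576) x4080) x9912) x7968) x8616) x8400) x8436) x8460) x8452)
    (Nat.add (Nat.add (Nat.add (Nat.add (Nat.add (Nat.add (Nat.add (Nat.add (Nat.add (Nat.add C x8460) x21582) x4086) x9918) x7974) x8622) x8406) x8442) x8478) x8454)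
    (Nat.add (Nat.add (Nat.add (Nat.add (Nat.add (Nat.add (Nat.add C (Nat.mul x8478 (nat_lit 2))) x21600) x4104) x9936) x7992) x8640) x8460)
    (Nat.sub (Nat.add (Nat.add (Nat.add (Nat.add (Nat.add (Nat.add C x21632) x4136) x9968) x8348) x8516) x8512) x28192)
    (Nat.sub (Nat.add (Nat.add (Nat.add (Nat.add (Nat.add (Nat.add C x21634) x4138) x9970) x8350) x8518) x8510) x28194)
    (Nat.sub (Nat.sub (Nat.add (Nat.add (Nat.add (Nat.add (Nat.add (Nat.add (Nat.add C x21638) x4142) x9974) x8354) x8534) x8510) x8518) (Nat.mul x8516 (nat_lit 2))) x28198)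
    (Nat.sub (Nat.add (Nat.add (Nat.add (Nat.add (Nat.add (Nat.add (Nat.add (Nat.add (Nat.add C x21640) x4144) x9976) x8356) x8536) x8512) x8524) x8516) x8520) x28200)
    (Nat.add (Nat.add (Nat.add (Nat.add (Nat.add (Nat.add (Nat.add C x21642) x4146) x9978) x8358) x8538) x8526) x8518)
    (Nat.sub (Nat.sub (Nat.add (Nat.add (Nat.add (Nat.add (Nat.add (Nat.add (Nat.add C x21646) x4150) x9982) x8362) x8542) x8518) x8526) (Nat.mul x8524 (nat_lit 2))) x28206)
    (Nat.add (Nat.add (Nat.add (Nat.add (Nat.add (Nat.add (Nat.add C x21648) x4152) x9984) x8364) x8544) x8520) x8524)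
    (Nat.sub (Nat.sub (Nat.add (Nat.add (Nat.add (Nat.add (Nat.add (Nat.add (Nat.add C x21656) x4160) x9992) x8372) x8588) x8516) x8536) (Nat.mul x8534 (nat_lit 2))) x28216)
    (Nat.sub (Nat.sub (Nat.add (Nat.add (Nat.add (Nat.add (Nat.add (Nat.add (Nat.add (Nat.add (Nat.add C x21658) x4162) x9994) x8374) x8590) x8518) x8542) x8534) x8538) x8536) x28218)
    (Nat.sub (Nat.add (Nat.add (Nat.add (Nat.add (Nat.add (Nat.add (Nat.add (Nat.add C x21660) x4164) x9996) x8376) x8592) x8520) x8544) x8536) (Nat.mul x8538 (nat_lit 2)))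
    (Nat.sub (Nat.sub (Nat.add (Nat.add (Nat.add (Nat.add (Nat.add (Nat.add (Nat.add (Nat.add (Nat.add C x21664) x4168) x10000) x8380) x8596) x8524) x8560) x8536) x8544) x8542) x28224)
    (Nat.add (Nat.add (Nat.add (Nat.add (Nat.add (Nat.add (Nat.add (Nat.add (Nat.add (Nat.add C x21666) x4170) x10002) x8382) x8598) x8526) x8562) x8538) x8550) x8542)
    (Nat.add (Nat.add (Nat.add (Nat.add (Nat.add (Nat.add (Nat.add C x21672) x4176) x10008) x8388) x8604) x8568) x8544)
    (Nat.sub (Nat.sub (Nat.add (Nat.add (Nat.add (Nat.add (Nat.add (Nat.add (Nat.add C x21682) x4186) x10018) x8398) x8614) x8542) x8562) (Nat.mul x8560 (nat_lit 2))) x28242)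
    (Nat.sub (Nat.add (Nat.add (Nat.add (Nat.add (Nat.add (Nat.add (Nat.add (Nat.add C x21684) x4188) x10020) x8400) x8616) x8544) x8568) x8560) (Nat.mul x8562 (nat_lit 2)))
    (Nat.add (Nat.add (Nat.add (Nat.add (Nat.add (Nat.add (Nat.add C x21690) x4194) x10026) x8406) x8622) x8550) x8562)
    (Nat.sub (Nat.add (Nat.add (Nat.add (Nat.add (Nat.add (Nat.add C x21710) x4214) x10046) x8426) x8534) x8590) x28270)
    (Nat.sub (Nat.add (Nat.add (Nat.add (Nat.add (Nat.add (Nat.add (Nat.add (Nat.add (Nat.add C x8590) x21712) x4216) x10048) x8428) x8536) x8596) x8588) x8592) x28272)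
    (Nat.add (Nat.add (Nat.add (Nat.add (Nat.add (Nat.add (Nat.add C x21714) x4218) x10050) x8430) x8538) x8598) x8590)
    (Nat.sub (Nat.add (Nat.add (Nat.add (Nat.add (Nat.add (Nat.add (Nat.add (Nat.add C x21718) x4222) x10054) x8434) x8542) x8614) x8590) x8598) x28278)
    (Nat.add (Nat.add (Nat.add (Nat.add (Nat.add (Nat.add (Nat.add (Nat.add (Nat.add (Nat.add C x8598) x21720) x4224) x10056) x8436) x8544) x8616) x8592) x8604) x8596)
    (Nat.add (Nat.add (Nat.add (Nat.add (Nat.add (Nat.add (Nat.add C x21726) x4230) x10062) x8442) x8550) x8622) x8598)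
    (Nat.sub (Nat.add (Nat.add (Nat.add (Nat.add (Nat.add (Nat.add (Nat.add (Nat.add (Nat.add C x8614) x21736) x4240) x10072) x8452) x8560) x8668) x8596) x8616) x28296)
    (Nat.add (Nat.add (Nat.add (Nat.add (Nat.add (Nat.add (Nat.add (Nat.add (Nat.add (Nat.add C x8616) x21738) x4242) x10074) x8454) x8562) x8670) x8598) x8622) x8614)
    (Nat.add (Nat.add (Nat.add (Nat.add (Nat.add (Nat.add (Nat.add (Nat.add (Nat.add (Nat.add C (Nat.mul x8622 (nat_lit 2))) x21744) x4248) x10080) x8460) x8568) x8676) x8604) x8640) x8616)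
    (Nat.add (Nat.add (Nat.add (Nat.add (Nat.add (Nat.add (Nat.add C (Nat.mul x8640 (nat_lit 2))) x21762) x4266) x10098) x8478) x8694) x8622)
    (Nat.sub (Nat.add (Nat.add (Nat.add (Nat.add (Nat.add (Nat.add C (Nat.mul x8668 (nat_lit 2))) x21790) x4294) x10126) x8614) x8670) x28350)
    (Nat.add (Nat.add (Nat.add (Nat.add (Nat.add (Nat.add (Nat.add C (Nat.mul x8670 (nat_lit 2))) x21792) x4296) x10128) x8616) x8676) x8668)
    (Nat.add (Nat.add (Nat.add (Nat.add (Nat.add (Nat.add (Nat.add C (Nat.mul x8676 (nat_lit 2))) x21798) x4302) x10134) x8622) x8694) x8670)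
    (Nat.add (Nat.add (Nat.add (Nat.add (Nat.add (Nat.add C (Nat.mul x8694 (nat_lit 4))) x21816) x4320) x10152) x8640) x8676)
    (Nat.sub (Nat.add (Nat.add (Nat.add (Nat.add (Nat.add (Nat.add C (Nat.mul x8774 (nat_lit 3))) x21896) x4400) x13148) x7316) x8792) x28456)
    (Nat.sub (Nat.add (Nat.add (Nat.add (Nat.add (Nat.add (Nat.add (Nat.add (Nat.add (Nat.add C (Nat.mul x8792 (nat_lit 2))) x21914) x4418) x13166) x7334) x8846) x8774) x8810) x8798) x28474)
    (Nat.sub (Nat.add (Nat.add (Nat.add (Nat.add (Nat.add (Nat.add (Nat.add (Nat.add (Nat.add C x8798) x21920) x4424) x13172) x7340) x8852) x8816) x8792) x8800) x28480)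
    (Nat.sub (Nat.add (Nat.add (Nat.add (Nat.add (Nat.add (Nat.add (Nat.add (Nat.add C (Nat.mul x8800 (nat_lit 3))) x21922) x4426) x13174) x7342) x8854) x8818) x8798) x28482)
    (Nat.sub (Nat.sub (Nat.add (Nat.add (Nat.add (Nat.add (Nat.add (Nat.add (Nat.add C x21932) x4436) x13184) x7352) x8864) x8792) x8816) x8810) x28492)
    (Nat.sub (Nat.add (Nat.add (Nat.add (Nat.add (Nat.add (Nat.add (Nat.add (Nat.add (Nat.add C x21938) x4442) x13190) x7358) x8870) x8798) x8810) x8822) x8818) x28498)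
    (Nat.sub (Nat.add (Nat.add (Nat.add (Nat.add (Nat.add (Nat.add (Nat.add (Nat.add (Nat.add C x8818) x21940) x4444) x13192) x7360) x8872) x8800) x8824) x8816) x28500)
    (Nat.sub (Nat.sub (Nat.add (Nat.add (Nat.add (Nat.add (Nat.add (Nat.add (Nat.add C x21944) x4448) x13196) x7364) x8876) x8816) x8824) x8822) x28504)
    (Nat.sub (Nat.add (Nat.add (Nat.add (Nat.add (Nat.add (Nat.add (Nat.add (Nat.add (Nat.add C (Nat.mul x8824 (nat_lit 2))) x21946) x4450) x13198) x7366) x8878) x8818) x8822) x8826) x28506)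
    (Nat.add (Nat.add (Nat.add (Nat.add (Nat.add (Nat.add (Nat.add C (Nat.mul x8826 (nat_lit 3))) x21948) x4452) x13200) x7368) x8880) x8824)
    (Nat.sub (Nat.add (Nat.add (Nat.add (Nat.add (Nat.add (Nat.add (Nat.add (Nat.add (Nat.add C x8846) x21968) x4472) x13220) x7388) x9008) x8792) x8864) x8852) x28528)
    (Nat.sub (Nat.sub (Nat.add (Nat.add (Nat.add (Nat.add (Nat.add (Nat.add (Nat.add (Nat.add (Nat.add C x21974) x4478) x13226) x7394) x9014) x8798) x8870) x8846) x8854) x8852) x28534)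
    (Nat.sub (Nat.add (Nat.add (Nat.add (Nat.add (Nat.add (Nat.add (Nat.add (Nat.add (Nat.add C x8854) x21976) x4480) x13228) x7396) x9016) x8800) x8872) x8852) x28536)
    (Nat.sub (Nat.add (Nat.add (Nat.add (Nat.add (Nat.add (Nat.add (Nat.add (Nat.add (Nat.add C x21986) x4490) x13238) x7406) x9026) x8810) x8918) x8846) x8870) x28546)
    (Nat.sub (Nat.add (Nat.add (Nat.add (Nat.add (Nat.add (Nat.add (Nat.add (Nat.add (Nat.add (Nat.add (Nat.add (Nat.add C x21992) x4496) x13244) x7412) x9032) x8816) x8924) x8852) x8888) x8864) x8876) x8872) x28552)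
    (Nat.sub (Nat.add (Nat.add (Nat.add (Nat.add (Nat.add (Nat.add (Nat.add (Nat.add (Nat.add (Nat.add (Nat.add (Nat.add C x8872) x21994) x4498) x13246) x7414) x9034) x8818) x8926) x8854) x8890) x8878) x8870) x28554)
    (Nat.sub (Nat.sub (Nat.add (Nat.add (Nat.add (Nat.add (Nat.add (Nat.add (Nat.add (Nat.add (Nat.add (Nat.add C x21998) x4502) x13250) x7418) x9038) x8822) x8930) x8894) x8870) x8878) (Nat.mul x8876 (nat_lit 2))) x28558)
    (Nat.sub (Nat.add (Nat.add (Nat.add (Nat.add (Nat.add (Nat.add (Nat.add (Nat.add (Nat.add (Nat.add (Nat.add (Nat.add C x8878) x22000) x4504) x13252) x7420) x9040) x8824) x8932) x8896) x8872) x8876) x8880) x28560)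
    (Nat.add (Nat.add (Nat.add (Nat.add (Nat.add (Nat.add (Nat.add (Nat.add (Nat.add (Nat.add C (Nat.mul x8880 (nat_lit 2))) x22002) x4506) x13254) x7422) x9042) x8826) x8934) x8898) x8878)
    (Nat.sub (Nat.sub (Nat.add (Nat.add (Nat.add (Nat.add (Nat.add (Nat.add (Nat.add (Nat.add (Nat.add C x22010) x4514) x13262) x7430) x9050) x8942) x8870) x8894) x8890) x8888) x28570)
    (Nat.sub (Nat.sub (Nat.add (Nat.add (Nat.add (Nat.add (Nat.add (Nat.add (Nat.add (Nat.add (Nat.add C x22012) x4516) x13264) x7432) x9052) x8944) x8872) x8896) x8888) x8890) x28572)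
    (Nat.sub (Nat.sub (Nat.add (Nat.add (Nat.add (Nat.add (Nat.add (Nat.add (Nat.add (Nat.add (Nat.add C x22016) x4520) x13268) x7436) x9056) x8948) x8876) x8888) x8896) x8894) x28576)
    (Nat.sub (Nat.add (Nat.add (Nat.add (Nat.add (Nat.add (Nat.add (Nat.add (Nat.add (Nat.add (Nat.add (Nat.add (Nat.add C x8896) x22018) x4522) x13270) x7438) x9058) x8950) x8878) x8890) x8902) x8894) x8898) x28578)
    (Nat.add (Nat.add (Nat.add (Nat.add (Nat.add (Nat.add (Nat.add (Nat.add (Nat.add (Nat.add C x8898) x22020) x4524) x13272) x7440) x9060) x8952) x8880) x8904) x8896)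
    (Nat.sub (Nat.add (Nat.add (Nat.add (Nat.add (Nat.add (Nat.add (Nat.add (Nat.add (Nat.add C x8902) x22024) x4528) x13276) x7444) x9064) x8956) x8896) x8904) x28584)
    (Nat.add (Nat.add (Nat.add (Nat.add (Nat.add (Nat.add (Nat.add (Nat.add (Nat.add C (Nat.mul x8904 (nat_lit 3))) x22026) x4530) x13278) x7446) x9066) x8958) x8898) x8902)
    (Nat.sub (Nat.sub (Nat.add (Nat.add (Nat.add (Nat.add (Nat.add (Nat.add (Nat.add C x22040) x4544) x13292) x7460) x9080) x8864) x8924) x8918) x28600)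
    (Nat.sub (Nat.sub (Nat.add (Nat.add (Nat.add (Nat.add (Nat.add (Nat.add (Nat.add (Nat.add (Nat.add (Nat.add C x22046) x4550) x13298) x7466) x9086) x8870) x8942) x8918) x8930) x8926) (Nat.mul x8924 (nat_lit 2))) x28606)
    (Nat.sub (Nat.sub (Nat.add (Nat.add (Nat.add (Nat.add (Nat.add (Nat.add (Nat.add (Nat.add (Nat.add C x22048) x4552) x13300) x7468) x9088) x8872) x8944) x8932) x8924) x8926) x28608)
    (Nat.sub (Nat.sub (Nat.add (Nat.add (Nat.add (Nat.add (Nat.add (Nat.add (Nat.add (Nat.add (Nat.add C x22052) x4556) x13304) x7472) x9092) x8876) x8948) x8924) x8932) (Nat.mul x8930 (nat_lit 5))) x28612)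
    (Nat.sub (Nat.sub (Nat.add (Nat.add (Nat.add (Nat.add (Nat.add (Nat.add (Nat.add (Nat.add (Nat.add (Nat.add C x22054) x4558) x13306) x7474) x9094) x8878) x8950) x8926) x8930) x8934) (Nat.mul x8932 (nat_lit 2))) x28614)
    (Nat.sub (Nat.add (Nat.add (Nat.add (Nat.add (Nat.add (Nat.add (Nat.add (Nat.add C x22056) x4560) x13308) x7476) x9096) x8880) x8952) x8932) x8934)
    (Nat.sub (Nat.sub (Nat.add (Nat.add (Nat.add (Nat.add (Nat.add (Nat.add (Nat.add (Nat.add (Nat.add C x22064) x4568) x13316) x7484) x9104) x8888) x8924) x8948) x8944) x8942) x28624)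
    (Nat.sub (Nat.sub (Nat.add (Nat.add (Nat.add (Nat.add (Nat.add (Nat.add (Nat.add (Nat.add (Nat.add C x22066) x4570) x13318) x7486) x9106) x8890) x8926) x8950) x8942) x8944) x28626)
    (Nat.sub (Nat.sub (Nat.add (Nat.add (Nat.add (Nat.add (Nat.add (Nat.add (Nat.add (Nat.add (Nat.add (Nat.add C x22070) x4574) x13322) x7490) x9110) x8894) x8930) x8966) x8942) x8950) (Nat.mul x8948 (nat_lit 2))) x28630)
    (Nat.sub (Nat.add (Nat.add (Nat.add (Nat.add (Nat.add (Nat.add (Nat.add (Nat.add (Nat.add (Nat.add (Nat.add (Nat.add C x22072) x4576) x13324) x7492) x9112) x8896) x8932) x8968) x8944) x8956) x8948) x8952) x28632)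
    (Nat.add (Nat.add (Nat.add (Nat.add (Nat.add (Nat.add (Nat.add (Nat.add (Nat.add (Nat.add C x22074) x4578) x13326) x7494) x9114) x8898) x8934) x8970) x8958) x8950)
    (Nat.sub (Nat.sub (Nat.add (Nat.add (Nat.add (Nat.add (Nat.add (Nat.add (Nat.add (Nat.add (Nat.add C x22078) x4582) x13330) x7498) x9118) x8902) x8974) x8950) x8958) x8956) x28638)
    (Nat.add (Nat.add (Nat.add (Nat.add (Nat.add (Nat.add (Nat.add (Nat.add (Nat.add (Nat.add C x8958) x22080) x4584) x13332) x7500) x9120) x8904) x8976) x8952) x8956)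
    (Nat.sub (Nat.sub (Nat.add (Nat.add (Nat.add (Nat.add (Nat.add (Nat.add (Nat.add C x22088) x4592) x13340) x7508) x9128) x8948) x8968) x8966) x28648)
    (Nat.sub (Nat.add (Nat.add (Nat.add (Nat.add (Nat.add (Nat.add (Nat.add (Nat.add (Nat.add C x22090) x4594) x13342) x7510) x9130) x8950) x8974) x8966) x8970) x28650)
    (Nat.sub (Nat.add (Nat.add (Nat.add (Nat.add (Nat.add (Nat.add (Nat.add (Nat.add C x22092) x4596) x13344) x7512) x9132) x8952) x8976) x8968) x8970)
    (Nat.sub (Nat.add (Nat.add (Nat.add (Nat.add (Nat.add (Nat.add (Nat.add (Nat.add (Nat.add C x8974) x22096) x4600) x13348) x7516) x9136) x8956) x8968) x8976) x28656)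
    (Nat.add (Nat.add (Nat.add (Nat.add (Nat.add (Nat.add (Nat.add (Nat.add (Nat.add (Nat.add C (Nat.mul x8976 (nat_lit 2))) x22098) x4602) x13350) x7518) x9138) x8958) x8970) x8982) x8974)
    (Nat.add (Nat.add (Nat.add (Nat.add (Nat.add (Nat.add (Nat.add C (Nat.mul x8982 (nat_lit 3))) x22104) x4608) x13356) x7524) x9144) x8976)
    (Nat.sub (Nat.add (Nat.add (Nat.add (Nat.add (Nat.add (Nat.add (Nat.add (Nat.add (Nat.add C x9008) x22130) x4634) x13382) x7550) x9494) x8846) x9026) x9014) x28690)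
    (Nat.sub (Nat.sub (Nat.add (Nat.add (Nat.add (Nat.add (Nat.add (Nat.add (Nat.add (Nat.add (Nat.add C x22136) x4640) x13388) x7556) x9500) x8852) x9032) x9008) x9016) x9014) x28696)
    (Nat.sub (Nat.add (Nat.add (Nat.add (Nat.add (Nat.add (Nat.add (Nat.add (Nat.add (Nat.add C x9016) x22138) x4642) x13390) x7558) x9502) x8854) x9034) x9014) x28698)
    (Nat.sub (Nat.sub (Nat.add (Nat.add (Nat.add (Nat.add (Nat.add (Nat.add (Nat.add (Nat.add (Nat.add C x22148) x4652) x13400) x7568) x9512) x8864) x9080) x9008) x9032) x9026) x28708)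
    (Nat.sub (Nat.sub (Nat.add (Nat.add (Nat.add (Nat.add (Nat.add (Nat.add (Nat.add (Nat.add (Nat.add (Nat.add (Nat.add (Nat.add C x22154) x4658) x13406) x7574) x9518) x8870) x9086) x9014) x9050) x9026) x9038) x9034) x9032) x28714)
    (Nat.sub (Nat.add (Nat.add (Nat.add (Nat.add (Nat.add (Nat.add (Nat.add (Nat.add (Nat.add (Nat.add (Nat.add C x22156) x4660) x13408) x7576) x9520) x8872) x9088) x9016) x9052) x9040) x9032) x28716)
    (Nat.sub (Nat.sub (Nat.add (Nat.add (Nat.add (Nat.add (Nat.add (Nat.add (Nat.add (Nat.add (Nat.add (Nat.add C x22160) x4664) x13412) x7580) x9524) x8876) x9092) x9056) x9032) x9040) (Nat.mul x9038 (nat_lit 3))) x28720)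
    (Nat.sub (Nat.add (Nat.add (Nat.add (Nat.add (Nat.add (Nat.add (Nat.add (Nat.add (Nat.add (Nat.add (Nat.add C x22162) x4666) x13414) x7582) x9526) x8878) x9094) x9058) x9034) x9038) x9042) x28722)
    (Nat.add (Nat.add (Nat.add (Nat.add (Nat.add (Nat.add (Nat.add (Nat.add (Nat.add (Nat.add C x9042) x22164) x4668) x13416) x7584) x9528) x8880) x9096) x9060) x9040)
    (Nat.sub (Nat.sub (Nat.add (Nat.add (Nat.add (Nat.add (Nat.add (Nat.add (Nat.add (Nat.add (Nat.add (Nat.add C x22172) x4676) x13424) x7592) x9536) x8888) x9104) x9032) x9056) x9052) (Nat.mul x9050 (nat_lit 3))) x28732)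
    (Nat.sub (Nat.sub (Nat.add (Nat.add (Nat.add (Nat.add (Nat.add (Nat.add (Nat.add (Nat.add (Nat.add (Nat.add C x22174) x4678) x13426) x7594) x9538) x8890) x9106) x9034) x9058) x9050) (Nat.mul x9052 (nat_lit 3))) x28734)
    (Nat.sub (Nat.sub (Nat.add (Nat.add (Nat.add (Nat.add (Nat.add (Nat.add (Nat.add (Nat.add (Nat.add (Nat.add C x22178) x4682) x13430) x7598) x9542) x8894) x9110) x9038) x9050) x9058) (Nat.mul x9056 (nat_lit 3))) x28738)
    (Nat.sub (Nat.sub (Nat.add (Nat.add (Nat.add (Nat.add (Nat.add (Nat.add (Nat.add (Nat.add (Nat.add (Nat.add (Nat.add (Nat.add C x22180) x4684) x13432) x7600) x9544) x8896) x9112) x9040) x9052) x9064) x9056) x9060) x9058) x28740)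
    (Nat.sub (Nat.add (Nat.add (Nat.add (Nat.add (Nat.add (Nat.add (Nat.add (Nat.add (Nat.add (Nat.add C x22182) x4686) x13434) x7602) x9546) x8898) x9114) x9042) x9066) x9058) x9060)
    (Nat.sub (Nat.sub (Nat.add (Nat.add (Nat.add (Nat.add (Nat.add (Nat.add (Nat.add (Nat.add (Nat.add C x22186) x4690) x13438) x7606) x9550) x8902) x9118) x9058) x9066) x9064) x28746)
    (Nat.add (Nat.add (Nat.add (Nat.add (Nat.add (Nat.add (Nat.add (Nat.add (Nat.add (Nat.add C x9066) x22188) x4692) x13440) x7608) x9552) x8904) x9120) x9060) x9064)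
    (Nat.sub (Nat.add (Nat.add (Nat.add (Nat.add (Nat.add (Nat.add (Nat.add (Nat.add (Nat.add C x22202) x4706) x13454) x7622) x9566) x8918) x9242) x9026) x9086) x28762)
    (Nat.sub (Nat.sub (Nat.sub (Nat.add (Nat.add (Nat.add (Nat.add (Nat.add (Nat.add (Nat.add (Nat.add (Nat.add (Nat.add (Nat.add (Nat.add (Nat.add C x22208) x4712) x13460) x7628) x9572) x8924) x9248) x9032) x9104) x9080) x9092) x9088) (Nat.mul (e (nat_lit 9086)) ap)) x9086) x28768) (Nat.mul (e (nat_lit 9086)) an))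
    (Nat.sub (Nat.sub (Nat.add (Nat.add (Nat.add (Nat.add (Nat.add (Nat.add (Nat.add (Nat.add (Nat.add (Nat.add (Nat.add (Nat.add C x22210) x4714) x13462) x7630) x9574) x8926) x9250) x9034) x9106) x9094) x9086) (Nat.mul (e (nat_lit 9088)) ap)) x28770) (Nat.mul (e (nat_lit 9088)) an))
    (Nat.sub (Nat.sub (Nat.sub (Nat.add (Nat.add (Nat.add (Nat.add (Nat.add (Nat.add (Nat.add (Nat.add (Nat.add (Nat.add (Nat.add (Nat.add C x22214) x4718) x13466) x7634) x9578) x8930) x9254) x9038) x9110) x9086) x9094) (Nat.mul (e (nat_lit 9092)) ap)) (Nat.mul x9092 (nat_lit 4))) x28774) (Nat.mul (e (nat_lit 9092)) an))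
    (Nat.sub (Nat.sub (Nat.add (Nat.add (Nat.add (Nat.add (Nat.add (Nat.add (Nat.add (Nat.add (Nat.add (Nat.add (Nat.add (Nat.add C x22216) x4720) x13468) x7636) x9580) x8932) x9256) x9040) x9112) x9088) x9092) x9096) x9094) x28776)
    (Nat.add (Nat.add (Nat.add (Nat.add (Nat.add (Nat.add (Nat.add (Nat.add (Nat.add (Nat.add C x22218) x4722) x13470) x7638) x9582) x8934) x9258) x9042) x9114) x9094)
    (Nat.sub (Nat.sub (Nat.sub (Nat.add (Nat.add (Nat.add (Nat.add (Nat.add (Nat.add (Nat.add (Nat.add (Nat.add (Nat.add (Nat.add (Nat.add (Nat.add C x22226) x4730) x13478) x7646) x9590) x8942) x9266) x9050) x9158) x9086) x9110) x9106) (Nat.mul (e (nat_lit 9104)) ap)) x9104) x28786) (Nat.mul (e (nat_lit 9104)) an))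
    (Nat.sub (Nat.sub (Nat.sub (Nat.add (Nat.add (Nat.add (Nat.add (Nat.add (Nat.add (Nat.add (Nat.add (Nat.add (Nat.add (Nat.add (Nat.add (Nat.add C x22228) x4732) x13480) x7648) x9592) x8944) x9268) x9052) x9160) x9088) x9112) x9104) (Nat.mul (e (nat_lit 9106)) ap)) x9106) x28788) (Nat.mul (e (nat_lit 9106)) an))
    (Nat.sub (Nat.sub (Nat.sub (Nat.add (Nat.add (Nat.add (Nat.add (Nat.add (Nat.add (Nat.add (Nat.add (Nat.add (Nat.add (Nat.add (Nat.add (Nat.add (Nat.add C x22232) x4736) x13484) x7652) x9596) x8948) x9272) x9056) x9164) x9092) x9128) x9104) x9112) (Nat.mul (e (nat_lit 9110)) ap)) (Nat.mul x9110 (nat_lit 2))) x28792) (Nat.mul (e (nat_lit 9110)) an))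
    (Nat.sub (Nat.sub (Nat.add (Nat.add (Nat.add (Nat.add (Nat.add (Nat.add (Nat.add (Nat.add (Nat.add (Nat.add (Nat.add (Nat.add (Nat.add (Nat.add (Nat.add (Nat.add C x22234) x4738) x13486) x7654) x9598) x8950) x9274) x9058) x9166) x9094) x9130) x9106) x9118) x9110) x9114) (Nat.mul (e (nat_lit 9112)) ap)) x28794) (Nat.mul (e (nat_lit 9112)) an))
    (Nat.add (Nat.add (Nat.add (Nat.add (Nat.add (Nat.add (Nat.add (Nat.add (Nat.add (Nat.add (Nat.add (Nat.add (Nat.add C x22236) x4740) x13488) x7656) x9600) x8952) x9276) x9060) x9168) x9096) x9132) x9120) x9112)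
    (Nat.sub (Nat.sub (Nat.add (Nat.add (Nat.add (Nat.add (Nat.add (Nat.add (Nat.add (Nat.add (Nat.add (Nat.add (Nat.add (Nat.add C x22240) x4744) x13492) x7660) x9604) x8956) x9280) x9064) x9172) x9136) x9112) x9120) x9118) x28800)
    (Nat.add (Nat.add (Nat.add (Nat.add (Nat.add (Nat.add (Nat.add (Nat.add (Nat.add (Nat.add (Nat.add (Nat.add (Nat.add C x9120) x22242) x4746) x13494) x7662) x9606) x8958) x9282) x9066) x9174) x9138) x9114) x9118)
    (Nat.sub (Nat.sub (Nat.add (Nat.add (Nat.add (Nat.add (Nat.add (Nat.add (Nat.add (Nat.add (Nat.add (Nat.add C x22250) x4754) x13502) x7670) x9614) x8966) x9290) x9182) x9110) x9130) (Nat.mul x9128 (nat_lit 2))) x28810)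
    (Nat.sub (Nat.sub (Nat.add (Nat.add (Nat.add (Nat.add (Nat.add (Nat.add (Nat.add (Nat.add (Nat.add (Nat.add (Nat.add (Nat.add C x22252) x4756) x13504) x7672) x9616) x8968) x9292) x9184) x9112) x9136) x9128) x9132) x9130) x28812)
    (Nat.sub (Nat.add (Nat.add (Nat.add (Nat.add (Nat.add (Nat.add (Nat.add (Nat.add (Nat.add (Nat.add (Nat.add C x22254) x4758) x13506) x7674) x9618) x8970) x9294) x9186) x9114) x9138) x9130) (Nat.mul x9132 (nat_lit 2)))
    (Nat.sub (Nat.add (Nat.add (Nat.add (Nat.add (Nat.add (Nat.add (Nat.add (Nat.add (Nat.add (Nat.add (Nat.add C x22258) x4762) x13510) x7678) x9622) x8974) x9298) x9190) x9118) x9130) x9138) x28818)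
    (Nat.add (Nat.add (Nat.add (Nat.add (Nat.add (Nat.add (Nat.add (Nat.add (Nat.add (Nat.add (Nat.add (Nat.add (Nat.add C x9138) x22260) x4764) x13512) x7680) x9624) x8976) x9300) x9192) x9120) x9132) x9144) x9136)
    (Nat.add (Nat.add (Nat.add (Nat.add (Nat.add (Nat.add (Nat.add (Nat.add (Nat.add (Nat.add C (Nat.mul x9144 (nat_lit 2))) x22266) x4770) x13518) x7686) x9630) x8982) x9306) x9198) x9138)
    (Nat.sub (Nat.sub (Nat.add (Nat.add (Nat.add (Nat.add (Nat.add (Nat.add (Nat.add (Nat.add (Nat.add C x22280) x4784) x13532) x7700) x9644) x9320) x9104) x9164) x9160) x9158) x28840)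
    (Nat.sub (Nat.sub (Nat.add (Nat.add (Nat.add (Nat.add (Nat.add (Nat.add (Nat.add (Nat.add (Nat.add C x22282) x4786) x13534) x7702) x9646) x9322) x9106) x9166) x9158) x9160) x28842)
    (Nat.sub (Nat.sub (Nat.add (Nat.add (Nat.add (Nat.add (Nat.add (Nat.add (Nat.add (Nat.add (Nat.add (Nat.add C x22286) x4790) x13538) x7706) x9650) x9326) x9110) x9182) x9158) x9166) (Nat.mul x9164 (nat_lit 3))) x28846)
    (Nat.sub (Nat.sub (Nat.add (Nat.add (Nat.add (Nat.add (Nat.add (Nat.add (Nat.add (Nat.add (Nat.add (Nat.add (Nat.add (Nat.add C x22288) x4792) x13540) x7708) x9652) x9328) x9112) x9184) x9160) x9172) x9164) x9168) x9166) x28848)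
    (Nat.sub (Nat.add (Nat.add (Nat.add (Nat.add (Nat.add (Nat.add (Nat.add (Nat.add (Nat.add (Nat.add C x22290) x4794) x13542) x7710) x9654) x9330) x9114) x9186) x9174) x9166) x9168)
    (Nat.sub (Nat.sub (Nat.add (Nat.add (Nat.add (Nat.add (Nat.add (Nat.add (Nat.add (Nat.add (Nat.add (Nat.add C x22294) x4798) x13546) x7714) x9658) x9334) x9118) x9190) x9166) x9174) (Nat.mul x9172 (nat_lit 3))) x28854)
    (Nat.sub (Nat.add (Nat.add (Nat.add (Nat.add (Nat.add (Nat.add (Nat.add (Nat.add (Nat.add (Nat.add C x22296) x4800) x13548) x7716) x9660) x9336) x9120) x9192) x9168) x9172) x9174)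
    (Nat.sub (Nat.sub (Nat.add (Nat.add (Nat.add (Nat.add (Nat.add (Nat.add (Nat.add (Nat.add (Nat.add C x22304) x4808) x13556) x7724) x9668) x9344) x9128) x9164) x9184) x9182) x28864)
    (Nat.sub (Nat.add (Nat.add (Nat.add (Nat.add (Nat.add (Nat.add (Nat.add (Nat.add (Nat.add (Nat.add (Nat.add C x22306) x4810) x13558) x7726) x9670) x9346) x9130) x9166) x9190) x9182) x9186) x28866)
    (Nat.sub (Nat.add (Nat.add (Nat.add (Nat.add (Nat.add (Nat.add (Nat.add (Nat.add (Nat.add (Nat.add C x22308) x4812) x13560) x7728) x9672) x9348) x9132) x9168) x9192) x9184) x9186)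
    (Nat.sub (Nat.add (Nat.add (Nat.add (Nat.add (Nat.add (Nat.add (Nat.add (Nat.add (Nat.add (Nat.add (Nat.add C x22312) x4816) x13564) x7732) x9676) x9352) x9136) x9172) x9208) x9184) x9192) x28872)
    (Nat.add (Nat.add (Nat.add (Nat.add (Nat.add (Nat.add (Nat.add (Nat.add (Nat.add (Nat.add (Nat.add (Nat.add (Nat.add C x9192) x22314) x4818) x13566) x7734) x9678) x9354) x9138) x9174) x9210) x9186) x9198) x9190)
    (Nat.add (Nat.add (Nat.add (Nat.add (Nat.add (Nat.add (Nat.add (Nat.add (Nat.add (Nat.add C x9198) x22320) x4824) x13572) x7740) x9684) x9360) x9144) x9216) x9192)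
    (Nat.sub (Nat.add (Nat.add (Nat.add (Nat.add (Nat.add (Nat.add (Nat.add (Nat.add (Nat.add C x9208) x22330) x4834) x13582) x7750) x9694) x9370) x9190) x9210) x28890)
    (Nat.add (Nat.add (Nat.add (Nat.add (Nat.add (Nat.add (Nat.add (Nat.add (Nat.add (Nat.add C x9210) x22332) x4836) x13584) x7752) x9696) x9372) x9192) x9216) x9208)
    (Nat.add (Nat.add (Nat.add (Nat.add (Nat.add (Nat.add (Nat.add (Nat.add (Nat.add C (Nat.mul x9216 (nat_lit 3))) x22338) x4842) x13590) x7758) x9702) x9378) x9198) x9210)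
    (Nat.sub (Nat.sub (Nat.add (Nat.add (Nat.add (Nat.add (Nat.add (Nat.add (Nat.add C x22364) x4868) x13616) x7784) x9728) x9080) x9248) x9242) x28924)
    (Nat.sub (Nat.sub (Nat.add (Nat.add (Nat.add (Nat.add (Nat.add (Nat.add (Nat.add (Nat.add (Nat.add (Nat.add C x22370) x4874) x13622) x7790) x9734) x9086) x9266) x9242) x9254) x9250) (Nat.mul x9248 (nat_lit 2))) x28930)
    (Nat.sub (Nat.sub (Nat.add (Nat.add (Nat.add (Nat.add (Nat.add (Nat.add (Nat.add (Nat.add (Nat.add C x22372) x4876) x13624) x7792) x9736) x9088) x9268) x9256) x9248) x9250) x28932)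
    (Nat.sub (Nat.sub (Nat.add (Nat.add (Nat.add (Nat.add (Nat.add (Nat.add (Nat.add (Nat.add (Nat.add C x22376) x4880) x13628) x7796) x9740) x9092) x9272) x9248) x9256) (Nat.mul x9254 (nat_lit 5))) x28936)
    (Nat.sub (Nat.sub (Nat.add (Nat.add (Nat.add (Nat.add (Nat.add (Nat.add (Nat.add (Nat.add (Nat.add (Nat.add C x22378) x4882) x13630) x7798) x9742) x9094) x9274) x9250) x9254) x9258) (Nat.mul x9256 (nat_lit 2))) x28938)
    (Nat.sub (Nat.add (Nat.add (Nat.add (Nat.add (Nat.add (Nat.add (Nat.add (Nat.add C x22380) x4884) x13632) x7800) x9744) x9096) x9276) x9256) x9258)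
    (Nat.sub (Nat.sub (Nat.add (Nat.add (Nat.add (Nat.add (Nat.add (Nat.add (Nat.add (Nat.add (Nat.add (Nat.add C x22388) x4892) x13640) x7808) x9752) x9104) x9320) x9248) x9272) x9268) (Nat.mul x9266 (nat_lit 3))) x28948)
    (Nat.sub (Nat.sub (Nat.add (Nat.add (Nat.add (Nat.add (Nat.add (Nat.add (Nat.add (Nat.add (Nat.add (Nat.add C x22390) x4894) x13642) x7810) x9754) x9106) x9322) x9250) x9274) x9266) (Nat.mul x9268 (nat_lit 3))) x28950)
    (Nat.sub (Nat.sub (Nat.sub (Nat.add (Nat.add (Nat.add (Nat.add (Nat.add (Nat.add (Nat.add (Nat.add (Nat.add (Nat.add (Nat.add (Nat.add C x22394) x4898) x13646) x7814) x9758) x9110) x9326) x9254) x9290) x9266) x9274) (Nat.mul (e (nat_lit 9272)) ap)) (Nat.mul x9272 (nat_lit 4))) x28954) (Nat.mul (e (nat_lit 9272)) an))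
    (Nat.sub (Nat.sub (Nat.add (Nat.add (Nat.add (Nat.add (Nat.add (Nat.add (Nat.add (Nat.add (Nat.add (Nat.add (Nat.add (Nat.add (Nat.add C x22396) x4900) x13648) x7816) x9760) x9112) x9328) x9256) x9292) x9268) x9280) x9272) x9276) (Nat.mul x9274 (nat_lit 2))) x28956)
    (Nat.sub (Nat.add (Nat.add (Nat.add (Nat.add (Nat.add (Nat.add (Nat.add (Nat.add (Nat.add (Nat.add (Nat.add C x22398) x4902) x13650) x7818) x9762) x9114) x9330) x9258) x9294) x9282) x9274) (Nat.mul x9276 (nat_lit 2)))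
    (Nat.sub (Nat.sub (Nat.add (Nat.add (Nat.add (Nat.add (Nat.add (Nat.add (Nat.add (Nat.add (Nat.add (Nat.add C x22402) x4906) x13654) x7822) x9766) x9118) x9334) x9298) x9274) x9282) (Nat.mul x9280 (nat_lit 3))) x28962)
    (Nat.sub (Nat.add (Nat.add (Nat.add (Nat.add (Nat.add (Nat.add (Nat.add (Nat.add (Nat.add (Nat.add C x22404) x4908) x13656) x7824) x9768) x9120) x9336) x9300) x9276) x9280) x9282)
    (Nat.sub (Nat.sub (Nat.add (Nat.add (Nat.add (Nat.add (Nat.add (Nat.add (Nat.add (Nat.add (Nat.add C x22412) x4916) x13664) x7832) x9776) x9128) x9344) x9272) x9292) (Nat.mul x9290 (nat_lit 5))) x28972)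
    (Nat.sub (Nat.sub (Nat.add (Nat.add (Nat.add (Nat.add (Nat.add (Nat.add (Nat.add (Nat.add (Nat.add (Nat.add (Nat.add C x22414) x4918) x13666) x7834) x9778) x9130) x9346) x9274) x9298) x9290) x9294) (Nat.mul x9292 (nat_lit 4))) x28974)
    (Nat.sub (Nat.add (Nat.add (Nat.add (Nat.add (Nat.add (Nat.add (Nat.add (Nat.add (Nat.add (Nat.add C x22416) x4920) x13668) x7836) x9780) x9132) x9348) x9276) x9300) x9292) (Nat.mul x9294 (nat_lit 5)))
    (Nat.sub (Nat.sub (Nat.add (Nat.add (Nat.add (Nat.add (Nat.add (Nat.add (Nat.add (Nat.add (Nat.add (Nat.add C x22420) x4924) x13672) x7840) x9784) x9136) x9352) x9280) x9292) x9300) (Nat.mul x9298 (nat_lit 3))) x28980)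
    (Nat.sub (Nat.add (Nat.add (Nat.add (Nat.add (Nat.add (Nat.add (Nat.add (Nat.add (Nat.add (Nat.add (Nat.add C x22422) x4926) x13674) x7842) x9786) x9138) x9354) x9282) x9294) x9306) x9298) (Nat.mul x9300 (nat_lit 2)))
    (Nat.sub (Nat.add (Nat.add (Nat.add (Nat.add (Nat.add (Nat.add (Nat.add (Nat.add C x22428) x4932) x13680) x7848) x9792) x9144) x9360) x9300) x9306)
    (Nat.sub (Nat.sub (Nat.add (Nat.add (Nat.add (Nat.add (Nat.add (Nat.add (Nat.add (Nat.add (Nat.add C x22442) x4946) x13694) x7862) x9806) x9158) x9266) x9326) x9322) x9320) x29002)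
    (Nat.sub (Nat.sub (Nat.add (Nat.add (Nat.add (Nat.add (Nat.add (Nat.add (Nat.add (Nat.add (Nat.add C x22444) x4948) x13696) x7864) x9808) x9160) x9268) x9328) x9320) x9322) x29004)
    (Nat.sub (Nat.sub (Nat.add (Nat.add (Nat.add (Nat.add (Nat.add (Nat.add (Nat.add (Nat.add (Nat.add (Nat.add C x22448) x4952) x13700) x7868) x9812) x9164) x9272) x9344) x9320) x9328) (Nat.mul x9326 (nat_lit 3))) x29008)
    (Nat.sub (Nat.sub (Nat.add (Nat.add (Nat.add (Nat.add (Nat.add (Nat.add (Nat.add (Nat.add (Nat.add (Nat.add (Nat.add (Nat.add C x22450) x4954) x13702) x7870) x9814) x9166) x9274) x9346) x9322) x9334) x9326) x9330) x9328) x29010)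
    (Nat.sub (Nat.add (Nat.add (Nat.add (Nat.add (Nat.add (Nat.add (Nat.add (Nat.add (Nat.add (Nat.add C x22452) x4956) x13704) x7872) x9816) x9168) x9276) x9348) x9336) x9328) x9330)
    (Nat.sub (Nat.sub (Nat.add (Nat.add (Nat.add (Nat.add (Nat.add (Nat.add (Nat.add (Nat.add (Nat.add (Nat.add C x22456) x4960) x13708) x7876) x9820) x9172) x9280) x9352) x9328) x9336) (Nat.mul x9334 (nat_lit 3))) x29016)
    (Nat.sub (Nat.add (Nat.add (Nat.add (Nat.add (Nat.add (Nat.add (Nat.add (Nat.add (Nat.add (Nat.add C x22458) x4962) x13710) x7878) x9822) x9174) x9282) x9354) x9330) x9334) x9336)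
    (Nat.sub (Nat.sub (Nat.add (Nat.add (Nat.add (Nat.add (Nat.add (Nat.add (Nat.add (Nat.add (Nat.add (Nat.add C x22466) x4970) x13718) x7886) x9830) x9182) x9290) x9398) x9326) x9346) (Nat.mul x9344 (nat_lit 2))) x29026)
    (Nat.sub (Nat.sub (Nat.add (Nat.add (Nat.add (Nat.add (Nat.add (Nat.add (Nat.add (Nat.add (Nat.add (Nat.add (Nat.add (Nat.add C x22468) x4972) x13720) x7888) x9832) x9184) x9292) x9400) x9328) x9352) x9344) x9348) x9346) x29028)
    (Nat.sub (Nat.add (Nat.add (Nat.add (Nat.add (Nat.add (Nat.add (Nat.add (Nat.add (Nat.add (Nat.add (Nat.add C x22470) x4974) x13722) x7890) x9834) x9186) x9294) x9402) x9330) x9354) x9346) (Nat.mul x9348 (nat_lit 2)))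
    (Nat.sub (Nat.sub (Nat.add (Nat.add (Nat.add (Nat.add (Nat.add (Nat.add (Nat.add (Nat.add (Nat.add (Nat.add (Nat.add (Nat.add C x22474) x4978) x13726) x7894) x9838) x9190) x9298) x9406) x9334) x9370) x9346) x9354) x9352) x29034)
    (Nat.add (Nat.add (Nat.add (Nat.add (Nat.add (Nat.add (Nat.add (Nat.add (Nat.add (Nat.add (Nat.add (Nat.add (Nat.add C x22476) x4980) x13728) x7896) x9840) x9192) x9300) x9408) x9336) x9372) x9348) x9360) x9352)
    (Nat.add (Nat.add (Nat.add (Nat.add (Nat.add (Nat.add (Nat.add (Nat.add (Nat.add (Nat.add C x22482) x4986) x13734) x7902) x9846) x9198) x9306) x9414) x9378) x9354)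
    (Nat.sub (Nat.sub (Nat.add (Nat.add (Nat.add (Nat.add (Nat.add (Nat.add (Nat.add (Nat.add (Nat.add C x22492) x4996) x13744) x7912) x9856) x9208) x9424) x9352) x9372) x9370) x29052)
    (Nat.sub (Nat.add (Nat.add (Nat.add (Nat.add (Nat.add (Nat.add (Nat.add (Nat.add (Nat.add (Nat.add C x22494) x4998) x13746) x7914) x9858) x9210) x9426) x9354) x9378) x9370) x9372)
    (Nat.add (Nat.add (Nat.add (Nat.add (Nat.add (Nat.add (Nat.add (Nat.add (Nat.add (Nat.add C x9378) x22500) x5004) x13752) x7920) x9864) x9216) x9432) x9360) x9372)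
    (Nat.sub (Nat.sub (Nat.add (Nat.add (Nat.add (Nat.add (Nat.add (Nat.add (Nat.add C x22520) x5024) x13772) x7940) x9884) x9344) x9400) x9398) x29080)
    (Nat.sub (Nat.add (Nat.add (Nat.add (Nat.add (Nat.add (Nat.add (Nat.add (Nat.add (Nat.add C x22522) x5026) x13774) x7942) x9886) x9346) x9406) x9398) x9402) x29082)
    (Nat.sub (Nat.add (Nat.add (Nat.add (Nat.add (Nat.add (Nat.add (Nat.add (Nat.add C x22524) x5028) x13776) x7944) x9888) x9348) x9408) x9400) x9402)
    (Nat.sub (Nat.sub (Nat.add (Nat.add (Nat.add (Nat.add (Nat.add (Nat.add (Nat.add (Nat.add (Nat.add C x22528) x5032) x13780) x7948) x9892) x9352) x9424) x9400) x9408) x9406) x29088)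
    (Nat.add (Nat.add (Nat.add (Nat.add (Nat.add (Nat.add (Nat.add (Nat.add (Nat.add (Nat.add C x22530) x5034) x13782) x7950) x9894) x9354) x9426) x9402) x9414) x9406)
    (Nat.sub (Nat.add (Nat.add (Nat.add (Nat.add (Nat.add (Nat.add (Nat.add (Nat.add C x22536) x5040) x13788) x7956) x9900) x9360) x9432) x9408) x9414)
    (Nat.sub (Nat.add (Nat.add (Nat.add (Nat.add (Nat.add (Nat.add (Nat.add (Nat.add (Nat.add C x9424) x22546) x5050) x13798) x7966) x9910) x9370) x9406) x9426) x29106)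
    (Nat.add (Nat.add (Nat.add (Nat.add (Nat.add (Nat.add (Nat.add (Nat.add (Nat.add (Nat.add C x9426) x22548) x5052) x13800) x7968) x9912) x9372) x9408) x9432) x9424)
    (Nat.add (Nat.add (Nat.add (Nat.add (Nat.add (Nat.add (Nat.add (Nat.add (Nat.add (Nat.add C (Nat.mul x9432 (nat_lit 2))) x22554) x5058) x13806) x7974) x9918) x9378) x9414) x9450) x9426)
    (Nat.add (Nat.add (Nat.add (Nat.add (Nat.add (Nat.add (Nat.add C (Nat.mul x9450 (nat_lit 3))) x22572) x5076) x13824) x7992) x9936) x9432)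
    (Nat.sub (Nat.add (Nat.add (Nat.add (Nat.add (Nat.add (Nat.add (Nat.add (Nat.add (Nat.add C (Nat.mul x9494 (nat_lit 2))) x22616) x5120) x13868) x8036) x10952) x9008) x9512) x9500) x29176)
    (Nat.sub (Nat.add (Nat.add (Nat.add (Nat.add (Nat.add (Nat.add (Nat.add (Nat.add (Nat.add C x22622) x5126) x13874) x8042) x10958) x9014) x9518) x9494) x9502) x29182)
    (Nat.sub (Nat.add (Nat.add (Nat.add (Nat.add (Nat.add (Nat.add (Nat.add (Nat.add (Nat.add C (Nat.mul x9502 (nat_lit 2))) x22624) x5128) x13876) x8044) x10960) x9016) x9520) x9500) x29184)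
    (Nat.sub (Nat.add (Nat.add (Nat.add (Nat.add (Nat.add (Nat.add (Nat.add (Nat.add (Nat.add C x22634) x5138) x13886) x8054) x10970) x9026) x9566) x9494) x9518) x29194)
    (Nat.sub (Nat.add (Nat.add (Nat.add (Nat.add (Nat.add (Nat.add (Nat.add (Nat.add (Nat.add (Nat.add (Nat.add (Nat.add C x22640) x5144) x13892) x8060) x10976) x9032) x9572) x9500) x9536) x9512) x9524) x9520) x29200)
    (Nat.sub (Nat.add (Nat.add (Nat.add (Nat.add (Nat.add (Nat.add (Nat.add (Nat.add (Nat.add (Nat.add (Nat.add (Nat.add C x9520) x22642) x5146) x13894) x8062) x10978) x9034) x9574) x9502) x9538) x9526) x9518) x29202)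
    (Nat.sub (Nat.sub (Nat.add (Nat.add (Nat.add (Nat.add (Nat.add (Nat.add (Nat.add (Nat.add (Nat.add (Nat.add C x22646) x5150) x13898) x8066) x10982) x9038) x9578) x9542) x9518) x9526) (Nat.mul x9524 (nat_lit 2))) x29206)
    (Nat.sub (Nat.add (Nat.add (Nat.add (Nat.add (Nat.add (Nat.add (Nat.add (Nat.add (Nat.add (Nat.add (Nat.add (Nat.add C x9526) x22648) x5152) x13900) x8068) x10984) x9040) x9580) x9544) x9520) x9524) x9528) x29208)
    (Nat.add (Nat.add (Nat.add (Nat.add (Nat.add (Nat.add (Nat.add (Nat.add (Nat.add (Nat.add C (Nat.mul x9528 (nat_lit 2))) x22650) x5154) x13902) x8070) x10986) x9042) x9582) x9546) x9526)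
    (Nat.sub (Nat.sub (Nat.add (Nat.add (Nat.add (Nat.add (Nat.add (Nat.add (Nat.add (Nat.add (Nat.add (Nat.add C x22658) x5162) x13910) x8078) x10994) x9050) x9590) x9518) x9542) x9538) (Nat.mul x9536 (nat_lit 2))) x29218)
    (Nat.sub (Nat.sub (Nat.add (Nat.add (Nat.add (Nat.add (Nat.add (Nat.add (Nat.add (Nat.add (Nat.add (Nat.add C x22660) x5164) x13912) x8080) x10996) x9052) x9592) x9520) x9544) x9536) (Nat.mul x9538 (nat_lit 2))) x29220)
    (Nat.sub (Nat.sub (Nat.add (Nat.add (Nat.add (Nat.add (Nat.add (Nat.add (Nat.add (Nat.add (Nat.add (Nat.add C x22664) x5168) x13916) x8084) x11000) x9056) x9596) x9524) x9536) x9544) (Nat.mul x9542 (nat_lit 2))) x29224)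
    (Nat.sub (Nat.add (Nat.add (Nat.add (Nat.add (Nat.add (Nat.add (Nat.add (Nat.add (Nat.add (Nat.add (Nat.add (Nat.add C x22666) x5170) x13918) x8086) x11002) x9058) x9598) x9526) x9538) x9550) x9542) x9546) x29226)
    (Nat.add (Nat.add (Nat.add (Nat.add (Nat.add (Nat.add (Nat.add (Nat.add (Nat.add (Nat.add C x22668) x5172) x13920) x8088) x11004) x9060) x9600) x9528) x9552) x9544)
    (Nat.sub (Nat.add (Nat.add (Nat.add (Nat.add (Nat.add (Nat.add (Nat.add (Nat.add (Nat.add C x22672) x5176) x13924) x8092) x11008) x9064) x9604) x9544) x9552) x29232)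
    (Nat.add (Nat.add (Nat.add (Nat.add (Nat.add (Nat.add (Nat.add (Nat.add (Nat.add (Nat.add C (Nat.mul x9552 (nat_lit 2))) x22674) x5178) x13926) x8094) x11010) x9066) x9606) x9546) x9550)
    (Nat.sub (Nat.add (Nat.add (Nat.add (Nat.add (Nat.add (Nat.add (Nat.add (Nat.add (Nat.add C x22688) x5192) x13940) x8108) x11024) x9080) x9728) x9512) x9572) x29248)
    (Nat.sub (Nat.sub (Nat.add (Nat.add (Nat.add (Nat.add (Nat.add (Nat.add (Nat.add (Nat.add (Nat.add (Nat.add (Nat.add (Nat.add C x22694) x5198) x13946) x8114) x11030) x9086) x9734) x9518) x9590) x9566) x9578) x9574) x9572) x29254)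
    (Nat.sub (Nat.add (Nat.add (Nat.add (Nat.add (Nat.add (Nat.add (Nat.add (Nat.add (Nat.add (Nat.add (Nat.add C x22696) x5200) x13948) x8116) x11032) x9088) x9736) x9520) x9592) x9580) x9572) x29256)
    (Nat.sub (Nat.sub (Nat.add (Nat.add (Nat.add (Nat.add (Nat.add (Nat.add (Nat.add (Nat.add (Nat.add (Nat.add (Nat.add C x22700) x5204) x13952) x8120) x11036) x9092) x9740) x9524) x9596) x9572) x9580) (Nat.mul x9578 (nat_lit 4))) x29260)
    (Nat.sub (Nat.sub (Nat.add (Nat.add (Nat.add (Nat.add (Nat.add (Nat.add (Nat.add (Nat.add (Nat.add (Nat.add (Nat.add (Nat.add C x22702) x5206) x13954) x8122) x11038) x9094) x9742) x9526) x9598) x9574) x9578) x9582) x9580) x29262)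
    (Nat.add (Nat.add (Nat.add (Nat.add (Nat.add (Nat.add (Nat.add (Nat.add (Nat.add (Nat.add C x22704) x5208) x13956) x8124) x11040) x9096) x9744) x9528) x9600) x9580)
    (Nat.sub (Nat.sub (Nat.add (Nat.add (Nat.add (Nat.add (Nat.add (Nat.add (Nat.add (Nat.add (Nat.add (Nat.add (Nat.add (Nat.add C x22712) x5216) x13964) x8132) x11048) x9104) x9752) x9536) x9644) x9572) x9596) x9592) x9590) x29272)
    (Nat.sub (Nat.sub (Nat.add (Nat.add (Nat.add (Nat.add (Nat.add (Nat.add (Nat.add (Nat.add (Nat.add (Nat.add (Nat.add (Nat.add C x22714) x5218) x13966) x8134) x11050) x9106) x9754) x9538) x9646) x9574) x9598) x9590) x9592) x29274)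
    (Nat.sub (Nat.sub (Nat.sub (Nat.add (Nat.add (Nat.add (Nat.add (Nat.add (Nat.add (Nat.add (Nat.add (Nat.add (Nat.add (Nat.add (Nat.add (Nat.add (Nat.add C x22718) x5222) x13970) x8138) x11054) x9110) x9758) x9542) x9650) x9578) x9614) x9590) x9598) (Nat.mul (e (nat_lit 9596)) ap)) (Nat.mul x9596 (nat_lit 2))) x29278) (Nat.mul (e (nat_lit 9596)) an))
    (Nat.sub (Nat.sub (Nat.add (Nat.add (Nat.add (Nat.add (Nat.add (Nat.add (Nat.add (Nat.add (Nat.add (Nat.add (Nat.add (Nat.add (Nat.add (Nat.add (Nat.add (Nat.add C x22720) x5224) x13972) x8140) x11056) x9112) x9760) x9544) x9652) x9580) x9616) x9592) x9604) x9596) x9600) (Nat.mul (e (nat_lit 9598)) ap)) x29280) (Nat.mul (e (nat_lit 9598)) an))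
    (Nat.add (Nat.add (Nat.add (Nat.add (Nat.add (Nat.add (Nat.add (Nat.add (Nat.add (Nat.add (Nat.add (Nat.add (Nat.add C x22722) x5226) x13974) x8142) x11058) x9114) x9762) x9546) x9654) x9582) x9618) x9606) x9598)
    (Nat.sub (Nat.sub (Nat.add (Nat.add (Nat.add (Nat.add (Nat.add (Nat.add (Nat.add (Nat.add (Nat.add (Nat.add (Nat.add (Nat.add C x22726) x5230) x13978) x8146) x11062) x9118) x9766) x9550) x9658) x9622) x9598) x9606) x9604) x29286)
    (Nat.add (Nat.add (Nat.add (Nat.add (Nat.add (Nat.add (Nat.add (Nat.add (Nat.add (Nat.add (Nat.add (Nat.add (Nat.add C x9606) x22728) x5232) x13980) x8148) x11064) x9120) x9768) x9552) x9660) x9624) x9600) x9604)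
    (Nat.sub (Nat.sub (Nat.add (Nat.add (Nat.add (Nat.add (Nat.add (Nat.add (Nat.add (Nat.add (Nat.add (Nat.add C x22736) x5240) x13988) x8156) x11072) x9128) x9776) x9668) x9596) x9616) (Nat.mul x9614 (nat_lit 2))) x29296)
    (Nat.sub (Nat.sub (Nat.add (Nat.add (Nat.add (Nat.add (Nat.add (Nat.add (Nat.add (Nat.add (Nat.add (Nat.add (Nat.add (Nat.add C x22738) x5242) x13990) x8158) x11074) x9130) x9778) x9670) x9598) x9622) x9614) x9618) x9616) x29298)
    (Nat.sub (Nat.add (Nat.add (Nat.add (Nat.add (Nat.add (Nat.add (Nat.add (Nat.add (Nat.add (Nat.add (Nat.add C x22740) x5244) x13992) x8160) x11076) x9132) x9780) x9672) x9600) x9624) x9616) (Nat.mul x9618 (nat_lit 2)))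
    (Nat.sub (Nat.add (Nat.add (Nat.add (Nat.add (Nat.add (Nat.add (Nat.add (Nat.add (Nat.add (Nat.add (Nat.add C x22744) x5248) x13996) x8164) x11080) x9136) x9784) x9676) x9604) x9616) x9624) x29304)
    (Nat.add (Nat.add (Nat.add (Nat.add (Nat.add (Nat.add (Nat.add (Nat.add (Nat.add (Nat.add (Nat.add (Nat.add (Nat.add C x9624) x22746) x5250) x13998) x8166) x11082) x9138) x9786) x9678) x9606) x9618) x9630) x9622)
    (Nat.add (Nat.add (Nat.add (Nat.add (Nat.add (Nat.add (Nat.add (Nat.add (Nat.add (Nat.add C (Nat.mul x9630 (nat_lit 2))) x22752) x5256) x14004) x8172) x11088) x9144) x9792) x9684) x9624)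
    (Nat.sub (Nat.sub (Nat.add (Nat.add (Nat.add (Nat.add (Nat.add (Nat.add (Nat.add (Nat.add (Nat.add (Nat.add C x22766) x5270) x14018) x8186) x11102) x9158) x9806) x9590) x9650) x9646) (Nat.mul x9644 (nat_lit 2))) x29326)
    (Nat.sub (Nat.sub (Nat.add (Nat.add (Nat.add (Nat.add (Nat.add (Nat.add (Nat.add (Nat.add (Nat.add (Nat.add C x22768) x5272) x14020) x8188) x11104) x9160) x9808) x9592) x9652) x9644) (Nat.mul x9646 (nat_lit 2))) x29328)
    (Nat.sub (Nat.sub (Nat.add (Nat.add (Nat.add (Nat.add (Nat.add (Nat.add (Nat.add (Nat.add (Nat.add (Nat.add (Nat.add C x22772) x5276) x14024) x8192) x11108) x9164) x9812) x9596) x9668) x9644) x9652) (Nat.mul x9650 (nat_lit 4))) x29332)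
    (Nat.sub (Nat.sub (Nat.add (Nat.add (Nat.add (Nat.add (Nat.add (Nat.add (Nat.add (Nat.add (Nat.add (Nat.add (Nat.add (Nat.add (Nat.add C x22774) x5278) x14026) x8194) x11110) x9166) x9814) x9598) x9670) x9646) x9658) x9650) x9654) (Nat.mul x9652 (nat_lit 2))) x29334)
    (Nat.sub (Nat.add (Nat.add (Nat.add (Nat.add (Nat.add (Nat.add (Nat.add (Nat.add (Nat.add (Nat.add (Nat.add C x22776) x5280) x14028) x8196) x11112) x9168) x9816) x9600) x9672) x9660) x9652) (Nat.mul x9654 (nat_lit 2)))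
    (Nat.sub (Nat.sub (Nat.add (Nat.add (Nat.add (Nat.add (Nat.add (Nat.add (Nat.add (Nat.add (Nat.add (Nat.add (Nat.add C x22780) x5284) x14032) x8200) x11116) x9172) x9820) x9604) x9676) x9652) x9660) (Nat.mul x9658 (nat_lit 4))) x29340)
    (Nat.sub (Nat.add (Nat.add (Nat.add (Nat.add (Nat.add (Nat.add (Nat.add (Nat.add (Nat.add (Nat.add (Nat.add C x22782) x5286) x14034) x8202) x11118) x9174) x9822) x9606) x9678) x9654) x9658) (Nat.mul x9660 (nat_lit 2)))
    (Nat.sub (Nat.sub (Nat.add (Nat.add (Nat.add (Nat.add (Nat.add (Nat.add (Nat.add (Nat.add (Nat.add (Nat.add C x22790) x5294) x14042) x8210) x11126) x9182) x9830) x9614) x9650) x9670) (Nat.mul x9668 (nat_lit 2))) x29350)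
    (Nat.sub (Nat.sub (Nat.add (Nat.add (Nat.add (Nat.add (Nat.add (Nat.add (Nat.add (Nat.add (Nat.add (Nat.add (Nat.add (Nat.add C x22792) x5296) x14044) x8212) x11128) x9184) x9832) x9616) x9652) x9676) x9668) x9672) x9670) x29352)
    (Nat.sub (Nat.add (Nat.add (Nat.add (Nat.add (Nat.add (Nat.add (Nat.add (Nat.add (Nat.add (Nat.add (Nat.add C x22794) x5298) x14046) x8214) x11130) x9186) x9834) x9618) x9654) x9678) x9670) (Nat.mul x9672 (nat_lit 2)))
    (Nat.sub (Nat.sub (Nat.add (Nat.add (Nat.add (Nat.add (Nat.add (Nat.add (Nat.add (Nat.add (Nat.add (Nat.add (Nat.add (Nat.add C x22798) x5302) x14050) x8218) x11134) x9190) x9838) x9622) x9658) x9694) x9670) x9678) x9676) x29358)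
    (Nat.add (Nat.add (Nat.add (Nat.add (Nat.add (Nat.add (Nat.add (Nat.add (Nat.add (Nat.add (Nat.add (Nat.add (Nat.add C x22800) x5304) x14052) x8220) x11136) x9192) x9840) x9624) x9660) x9696) x9672) x9684) x9676)
    (Nat.add (Nat.add (Nat.add (Nat.add (Nat.add (Nat.add (Nat.add (Nat.add (Nat.add (Nat.add C x22806) x5310) x14058) x8226) x11142) x9198) x9846) x9630) x9702) x9678)
    (Nat.sub (Nat.add (Nat.add (Nat.add (Nat.add (Nat.add (Nat.add (Nat.add (Nat.add (Nat.add C x22816) x5320) x14068) x8236) x11152) x9208) x9856) x9676) x9696) x29376)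
    (Nat.add (Nat.add (Nat.add (Nat.add (Nat.add (Nat.add (Nat.add (Nat.add (Nat.add (Nat.add C x22818) x5322) x14070) x8238) x11154) x9210) x9858) x9678) x9702) x9694)
    (Nat.add (Nat.add (Nat.add (Nat.add (Nat.add (Nat.add (Nat.add (Nat.add (Nat.add (Nat.add C (Nat.mul x9702 (nat_lit 2))) x22824) x5328) x14076) x8244) x11160) x9216) x9864) x9684) x9696)
    (Nat.sub (Nat.add (Nat.add (Nat.add (Nat.add (Nat.add (Nat.add (Nat.add (Nat.add (Nat.add (Nat.add C x9728) x22850) x5354) x14102) x8270) x11186) x9242) x10214) x9566) x9734) x29410)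
    (Nat.sub (Nat.add (Nat.add (Nat.add (Nat.add (Nat.add (Nat.add (Nat.add (Nat.add (Nat.add (Nat.add (Nat.add (Nat.add C x22856) x5360) x14108) x8276) x11192) x9248) x10220) x9572) x9752) x9728) x9740) x9736) x29416)
    (Nat.sub (Nat.add (Nat.add (Nat.add (Nat.add (Nat.add (Nat.add (Nat.add (Nat.add (Nat.add (Nat.add (Nat.add (Nat.add C x9736) x22858) x5362) x14110) x8278) x11194) x9250) x10222) x9574) x9754) x9742) x9734) x29418)
    (Nat.sub (Nat.sub (Nat.add (Nat.add (Nat.add (Nat.add (Nat.add (Nat.add (Nat.add (Nat.add (Nat.add (Nat.add (Nat.add C x22862) x5366) x14114) x8282) x11198) x9254) x10226) x9578) x9758) x9734) x9742) (Nat.mul x9740 (nat_lit 3))) x29422)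
    (Nat.sub (Nat.add (Nat.add (Nat.add (Nat.add (Nat.add (Nat.add (Nat.add (Nat.add (Nat.add (Nat.add (Nat.add (Nat.add C x22864) x5368) x14116) x8284) x11200) x9256) x10228) x9580) x9760) x9736) x9740) x9744) x29424)
    (Nat.add (Nat.add (Nat.add (Nat.add (Nat.add (Nat.add (Nat.add (Nat.add (Nat.add (Nat.add (Nat.add C x9744) x22866) x5370) x14118) x8286) x11202) x9258) x10230) x9582) x9762) x9742)
    (Nat.sub (Nat.sub (Nat.add (Nat.add (Nat.add (Nat.add (Nat.add (Nat.add (Nat.add (Nat.add (Nat.add (Nat.add (Nat.add (Nat.add C x22874) x5378) x14126) x8294) x11210) x9266) x10238) x9590) x9806) x9734) x9758) x9754) x9752) x29434)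
    (Nat.sub (Nat.sub (Nat.add (Nat.add (Nat.add (Nat.add (Nat.add (Nat.add (Nat.add (Nat.add (Nat.add (Nat.add (Nat.add (Nat.add C x22876) x5380) x14128) x8296) x11212) x9268) x10240) x9592) x9808) x9736) x9760) x9752) x9754) x29436)
    (Nat.sub (Nat.sub (Nat.add (Nat.add (Nat.add (Nat.add (Nat.add (Nat.add (Nat.add (Nat.add (Nat.add (Nat.add (Nat.add (Nat.add (Nat.add C x22880) x5384) x14132) x8300) x11216) x9272) x10244) x9596) x9812) x9740) x9776) x9752) x9760) (Nat.mul x9758 (nat_lit 2))) x29440)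
    (Nat.sub (Nat.sub (Nat.add (Nat.add (Nat.add (Nat.add (Nat.add (Nat.add (Nat.add (Nat.add (Nat.add (Nat.add (Nat.add (Nat.add (Nat.add (Nat.add (Nat.add (Nat.add C x22882) x5386) x14134) x8302) x11218) x9274) x10246) x9598) x9814) x9742) x9778) x9754) x9766) x9758) x9762) (Nat.mul (e (nat_lit 9760)) ap)) x29442) (Nat.mul (e (nat_lit 9760)) an))
    (Nat.add (Nat.add (Nat.add (Nat.add (Nat.add (Nat.add (Nat.add (Nat.add (Nat.add (Nat.add (Nat.add (Nat.add (Nat.add C x22884) x5388) x14136) x8304) x11220) x9276) x10248) x9600) x9816) x9744) x9780) x9768) x9760)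
    (Nat.sub (Nat.sub (Nat.add (Nat.add (Nat.add (Nat.add (Nat.add (Nat.add (Nat.add (Nat.add (Nat.add (Nat.add (Nat.add (Nat.add C x22888) x5392) x14140) x8308) x11224) x9280) x10252) x9604) x9820) x9784) x9760) x9768) x9766) x29448)
    (Nat.add (Nat.add (Nat.add (Nat.add (Nat.add (Nat.add (Nat.add (Nat.add (Nat.add (Nat.add (Nat.add (Nat.add (Nat.add C x9768) x22890) x5394) x14142) x8310) x11226) x9282) x10254) x9606) x9822) x9786) x9762) x9766)
    (Nat.sub (Nat.sub (Nat.add (Nat.add (Nat.add (Nat.add (Nat.add (Nat.add (Nat.add (Nat.add (Nat.add (Nat.add (Nat.add C x22898) x5402) x14150) x8318) x11234) x9290) x10262) x9614) x9830) x9758) x9778) (Nat.mul x9776 (nat_lit 3))) x29458)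
    (Nat.sub (Nat.sub (Nat.add (Nat.add (Nat.add (Nat.add (Nat.add (Nat.add (Nat.add (Nat.add (Nat.add (Nat.add (Nat.add (Nat.add (Nat.add C x22900) x5404) x14152) x8320) x11236) x9292) x10264) x9616) x9832) x9760) x9784) x9776) x9780) (Nat.mul x9778 (nat_lit 2))) x29460)
    (Nat.sub (Nat.add (Nat.add (Nat.add (Nat.add (Nat.add (Nat.add (Nat.add (Nat.add (Nat.add (Nat.add (Nat.add (Nat.add C x22902) x5406) x14154) x8322) x11238) x9294) x10266) x9618) x9834) x9762) x9786) x9778) (Nat.mul x9780 (nat_lit 3)))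
    (Nat.sub (Nat.sub (Nat.add (Nat.add (Nat.add (Nat.add (Nat.add (Nat.add (Nat.add (Nat.add (Nat.add (Nat.add (Nat.add (Nat.add C x22906) x5410) x14158) x8326) x11242) x9298) x10270) x9622) x9838) x9766) x9778) x9786) x9784) x29466)
    (Nat.add (Nat.add (Nat.add (Nat.add (Nat.add (Nat.add (Nat.add (Nat.add (Nat.add (Nat.add (Nat.add (Nat.add (Nat.add C x22908) x5412) x14160) x8328) x11244) x9300) x10272) x9624) x9840) x9768) x9780) x9792) x9784)
    (Nat.add (Nat.add (Nat.add (Nat.add (Nat.add (Nat.add (Nat.add (Nat.add (Nat.add (Nat.add (Nat.add C x9792) x22914) x5418) x14166) x8334) x11250) x9306) x10278) x9630) x9846) x9786)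
    (Nat.sub (Nat.add (Nat.add (Nat.add (Nat.add (Nat.add (Nat.add (Nat.add (Nat.add (Nat.add (Nat.add (Nat.add (Nat.add C x22928) x5432) x14180) x8348) x11264) x9320) x10292) x9644) x9968) x9752) x9812) x9808) x29488)
    (Nat.sub (Nat.add (Nat.add (Nat.add (Nat.add (Nat.add (Nat.add (Nat.add (Nat.add (Nat.add (Nat.add (Nat.add (Nat.add C x22930) x5434) x14182) x8350) x11266) x9322) x10294) x9646) x9970) x9754) x9814) x9806) x29490)
    (Nat.sub (Nat.sub (Nat.add (Nat.add (Nat.add (Nat.add (Nat.add (Nat.add (Nat.add (Nat.add (Nat.add (Nat.add (Nat.add (Nat.add (Nat.add C x22934) x5438) x14186) x8354) x11270) x9326) x10298) x9650) x9974) x9758) x9830) x9806) x9814) (Nat.mul x9812 (nat_lit 2))) x29494)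
    (Nat.sub (Nat.add (Nat.add (Nat.add (Nat.add (Nat.add (Nat.add (Nat.add (Nat.add (Nat.add (Nat.add (Nat.add (Nat.add (Nat.add (Nat.add (Nat.add C x22936) x5440) x14188) x8356) x11272) x9328) x10300) x9652) x9976) x9760) x9832) x9808) x9820) x9812) x9816) x29496)
    (Nat.add (Nat.add (Nat.add (Nat.add (Nat.add (Nat.add (Nat.add (Nat.add (Nat.add (Nat.add (Nat.add (Nat.add (Nat.add C x22938) x5442) x14190) x8358) x11274) x9330) x10302) x9654) x9978) x9762) x9834) x9822) x9814)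
    (Nat.sub (Nat.sub (Nat.add (Nat.add (Nat.add (Nat.add (Nat.add (Nat.add (Nat.add (Nat.add (Nat.add (Nat.add (Nat.add (Nat.add (Nat.add C x22942) x5446) x14194) x8362) x11278) x9334) x10306) x9658) x9982) x9766) x9838) x9814) x9822) (Nat.mul x9820 (nat_lit 2))) x29502)
    (Nat.add (Nat.add (Nat.add (Nat.add (Nat.add (Nat.add (Nat.add (Nat.add (Nat.add (Nat.add (Nat.add (Nat.add (Nat.add C x22944) x5448) x14196) x8364) x11280) x9336) x10308) x9660) x9984) x9768) x9840) x9816) x9820)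
    (Nat.sub (Nat.sub (Nat.add (Nat.add (Nat.add (Nat.add (Nat.add (Nat.add (Nat.add (Nat.add (Nat.add (Nat.add (Nat.add (Nat.add (Nat.add C x22952) x5456) x14204) x8372) x11288) x9344) x10316) x9668) x9992) x9776) x9884) x9812) x9832) x9830) x29512)
    (Nat.sub (Nat.add (Nat.add (Nat.add (Nat.add (Nat.add (Nat.add (Nat.add (Nat.add (Nat.add (Nat.add (Nat.add (Nat.add (Nat.add (Nat.add (Nat.add C x22954) x5458) x14206) x8374) x11290) x9346) x10318) x9670) x9994) x9778) x9886) x9814) x9838) x9830) x9834) x29514)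
    (Nat.sub (Nat.add (Nat.add (Nat.add (Nat.add (Nat.add (Nat.add (Nat.add (Nat.add (Nat.add (Nat.add (Nat.add (Nat.add (Nat.add (Nat.add C x22956) x5460) x14208) x8376) x11292) x9348) x10320) x9672) x9996) x9780) x9888) x9816) x9840) x9832) x9834)
    (Nat.sub (Nat.add (Nat.add (Nat.add (Nat.add (Nat.add (Nat.add (Nat.add (Nat.add (Nat.add (Nat.add (Nat.add (Nat.add (Nat.add (Nat.add (Nat.add C x22960) x5464) x14212) x8380) x11296) x9352) x10324) x9676) x10000) x9784) x9892) x9820) x9856) x9832) x9840) x29520)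
    (Nat.add (Nat.add (Nat.add (Nat.add (Nat.add (Nat.add (Nat.add (Nat.add (Nat.add (Nat.add (Nat.add (Nat.add (Nat.add (Nat.add (Nat.add (Nat.add (Nat.add C x9840) x22962) x5466) x14214) x8382) x11298) x9354) x10326) x9678) x10002) x9786) x9894) x9822) x9858) x9834) x9846) x9838)
    (Nat.add (Nat.add (Nat.add (Nat.add (Nat.add (Nat.add (Nat.add (Nat.add (Nat.add (Nat.add (Nat.add (Nat.add (Nat.add (Nat.add C x9846) x22968) x5472) x14220) x8388) x11304) x9360) x10332) x9684) x10008) x9792) x9900) x9864) x9840)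
    (Nat.sub (Nat.add (Nat.add (Nat.add (Nat.add (Nat.add (Nat.add (Nat.add (Nat.add (Nat.add (Nat.add (Nat.add (Nat.add C x22978) x5482) x14230) x8398) x11314) x9370) x10342) x9694) x10018) x9910) x9838) x9858) x29538)
    (Nat.add (Nat.add (Nat.add (Nat.add (Nat.add (Nat.add (Nat.add (Nat.add (Nat.add (Nat.add (Nat.add (Nat.add (Nat.add C x22980) x5484) x14232) x8400) x11316) x9372) x10344) x9696) x10020) x9912) x9840) x9864) x9856)
    (Nat.add (Nat.add (Nat.add (Nat.add (Nat.add (Nat.add (Nat.add (Nat.add (Nat.add (Nat.add (Nat.add (Nat.add (Nat.add C (Nat.mul x9864 (nat_lit 2))) x22986) x5490) x14238) x8406) x11322) x9378) x10350) x9702) x10026) x9918) x9846) x9858)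
    (Nat.sub (Nat.sub (Nat.add (Nat.add (Nat.add (Nat.add (Nat.add (Nat.add (Nat.add (Nat.add (Nat.add (Nat.add C x23006) x5510) x14258) x8426) x11342) x9398) x10370) x10046) x9830) x9886) x9884) x29566)
    (Nat.sub (Nat.add (Nat.add (Nat.add (Nat.add (Nat.add (Nat.add (Nat.add (Nat.add (Nat.add (Nat.add (Nat.add (Nat.add C x23008) x5512) x14260) x8428) x11344) x9400) x10372) x10048) x9832) x9892) x9884) x9888) x29568)
    (Nat.sub (Nat.add (Nat.add (Nat.add (Nat.add (Nat.add (Nat.add (Nat.add (Nat.add (Nat.add (Nat.add (Nat.add C x23010) x5514) x14262) x8430) x11346) x9402) x10374) x10050) x9834) x9894) x9886) x9888)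
    (Nat.sub (Nat.sub (Nat.add (Nat.add (Nat.add (Nat.add (Nat.add (Nat.add (Nat.add (Nat.add (Nat.add (Nat.add (Nat.add (Nat.add C x23014) x5518) x14266) x8434) x11350) x9406) x10378) x10054) x9838) x9910) x9886) x9894) x9892) x29574)
    (Nat.add (Nat.add (Nat.add (Nat.add (Nat.add (Nat.add (Nat.add (Nat.add (Nat.add (Nat.add (Nat.add (Nat.add (Nat.add C x23016) x5520) x14268) x8436) x11352) x9408) x10380) x10056) x9840) x9912) x9888) x9900) x9892)
    (Nat.sub (Nat.add (Nat.add (Nat.add (Nat.add (Nat.add (Nat.add (Nat.add (Nat.add (Nat.add (Nat.add (Nat.add C x23022) x5526) x14274) x8442) x11358) x9414) x10386) x10062) x9846) x9918) x9894) x9900)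
    (Nat.sub (Nat.add (Nat.add (Nat.add (Nat.add (Nat.add (Nat.add (Nat.add (Nat.add (Nat.add (Nat.add (Nat.add (Nat.add C x9910) x23032) x5536) x14284) x8452) x11368) x9424) x10396) x10072) x9856) x9892) x9912) x29592)
    (Nat.add (Nat.add (Nat.add (Nat.add (Nat.add (Nat.add (Nat.add (Nat.add (Nat.add (Nat.add (Nat.add (Nat.add (Nat.add C x9912) x23034) x5538) x14286) x8454) x11370) x9426) x10398) x10074) x9858) x9894) x9918) x9910)
    (Nat.add (Nat.add (Nat.add (Nat.add (Nat.add (Nat.add (Nat.add (Nat.add (Nat.add (Nat.add (Nat.add (Nat.add (Nat.add C (Nat.mul x9918 (nat_lit 2))) x23040) x5544) x14292) x8460) x11376) x9432) x10404) x10080) x9864) x9900) x9936) x9912)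
    (Nat.add (Nat.add (Nat.add (Nat.add (Nat.add (Nat.add (Nat.add (Nat.add (Nat.add (Nat.add C (Nat.mul x9936 (nat_lit 3))) x23058) x5562) x14310) x8478) x11394) x9450) x10422) x10098) x9918)
    (Nat.sub (Nat.add (Nat.add (Nat.add (Nat.add (Nat.add (Nat.add (Nat.add (Nat.add (Nat.add C x23090) x5594) x14342) x8510) x11426) x10454) x9806) x9974) x9970) x29650)
    (Nat.sub (Nat.add (Nat.add (Nat.add (Nat.add (Nat.add (Nat.add (Nat.add (Nat.add (Nat.add C x23092) x5596) x14344) x8512) x11428) x10456) x9808) x9976) x9968) x29652)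
    (Nat.sub (Nat.sub (Nat.add (Nat.add (Nat.add (Nat.add (Nat.add (Nat.add (Nat.add (Nat.add (Nat.add (Nat.add C x23096) x5600) x14348) x8516) x11432) x10460) x9812) x9992) x9968) x9976) (Nat.mul x9974 (nat_lit 2))) x29656)
    (Nat.sub (Nat.add (Nat.add (Nat.add (Nat.add (Nat.add (Nat.add (Nat.add (Nat.add (Nat.add (Nat.add (Nat.add (Nat.add C x23098) x5602) x14350) x8518) x11434) x10462) x9814) x9994) x9970) x9982) x9974) x9978) x29658)
    (Nat.add (Nat.add (Nat.add (Nat.add (Nat.add (Nat.add (Nat.add (Nat.add (Nat.add (Nat.add C x23100) x5604) x14352) x8520) x11436) x10464) x9816) x9996) x9984) x9976)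
    (Nat.sub (Nat.sub (Nat.add (Nat.add (Nat.add (Nat.add (Nat.add (Nat.add (Nat.add (Nat.add (Nat.add (Nat.add C x23104) x5608) x14356) x8524) x11440) x10468) x9820) x10000) x9976) x9984) (Nat.mul x9982 (nat_lit 2))) x29664)
    (Nat.add (Nat.add (Nat.add (Nat.add (Nat.add (Nat.add (Nat.add (Nat.add (Nat.add (Nat.add C x23106) x5610) x14358) x8526) x11442) x10470) x9822) x10002) x9978) x9982)
    (Nat.sub (Nat.sub (Nat.add (Nat.add (Nat.add (Nat.add (Nat.add (Nat.add (Nat.add (Nat.add (Nat.add (Nat.add C x23114) x5618) x14366) x8534) x11450) x10478) x9830) x10046) x9974) x9994) (Nat.mul x9992 (nat_lit 2))) x29674)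
    (Nat.sub (Nat.sub (Nat.add (Nat.add (Nat.add (Nat.add (Nat.add (Nat.add (Nat.add (Nat.add (Nat.add (Nat.add (Nat.add (Nat.add C x23116) x5620) x14368) x8536) x11452) x10480) x9832) x10048) x9976) x10000) x9992) x9996) x9994) x29676)
    (Nat.sub (Nat.add (Nat.add (Nat.add (Nat.add (Nat.add (Nat.add (Nat.add (Nat.add (Nat.add (Nat.add (Nat.add C x23118) x5622) x14370) x8538) x11454) x10482) x9834) x10050) x9978) x10002) x9994) (Nat.mul x9996 (nat_lit 2)))
    (Nat.sub (Nat.sub (Nat.add (Nat.add (Nat.add (Nat.add (Nat.add (Nat.add (Nat.add (Nat.add (Nat.add (Nat.add (Nat.add (Nat.add C x23122) x5626) x14374) x8542) x11458) x10486) x9838) x10054) x9982) x10018) x9994) x10002) x10000) x29682)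
    (Nat.add (Nat.add (Nat.add (Nat.add (Nat.add (Nat.add (Nat.add (Nat.add (Nat.add (Nat.add (Nat.add (Nat.add (Nat.add C x23124) x5628) x14376) x8544) x11460) x10488) x9840) x10056) x9984) x10020) x9996) x10008) x10000)
    (Nat.add (Nat.add (Nat.add (Nat.add (Nat.add (Nat.add (Nat.add (Nat.add (Nat.add (Nat.add C x23130) x5634) x14382) x8550) x11466) x10494) x9846) x10062) x10026) x10002)
    (Nat.sub (Nat.sub (Nat.add (Nat.add (Nat.add (Nat.add (Nat.add (Nat.add (Nat.add (Nat.add (Nat.add (Nat.add C x23140) x5644) x14392) x8560) x11476) x10504) x9856) x10072) x10000) x10020) (Nat.mul x10018 (nat_lit 2))) x29700)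
    (Nat.sub (Nat.add (Nat.add (Nat.add (Nat.add (Nat.add (Nat.add (Nat.add (Nat.add (Nat.add (Nat.add (Nat.add C x23142) x5646) x14394) x8562) x11478) x10506) x9858) x10074) x10002) x10026) x10018) (Nat.mul x10020 (nat_lit 2)))
    (Nat.add (Nat.add (Nat.add (Nat.add (Nat.add (Nat.add (Nat.add (Nat.add (Nat.add (Nat.add C x23148) x5652) x14400) x8568) x11484) x10512) x9864) x10080) x10008) x10020)
    (Nat.sub (Nat.add (Nat.add (Nat.add (Nat.add (Nat.add (Nat.add (Nat.add (Nat.add (Nat.add C x23168) x5672) x14420) x8588) x11504) x10532) x9884) x9992) x10048) x29728)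
    (Nat.sub (Nat.add (Nat.add (Nat.add (Nat.add (Nat.add (Nat.add (Nat.add (Nat.add (Nat.add (Nat.add (Nat.add (Nat.add C x10048) x23170) x5674) x14422) x8590) x11506) x10534) x9886) x9994) x10054) x10046) x10050) x29730)
    (Nat.add (Nat.add (Nat.add (Nat.add (Nat.add (Nat.add (Nat.add (Nat.add (Nat.add (Nat.add C x23172) x5676) x14424) x8592) x11508) x10536) x9888) x9996) x10056) x10048)
    (Nat.sub (Nat.add (Nat.add (Nat.add (Nat.add (Nat.add (Nat.add (Nat.add (Nat.add (Nat.add (Nat.add (Nat.add C x23176) x5680) x14428) x8596) x11512) x10540) x9892) x10000) x10072) x10048) x10056) x29736)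
    (Nat.add (Nat.add (Nat.add (Nat.add (Nat.add (Nat.add (Nat.add (Nat.add (Nat.add (Nat.add (Nat.add (Nat.add (Nat.add C x10056) x23178) x5682) x14430) x8598) x11514) x10542) x9894) x10002) x10074) x10050) x10062) x10054)
    (Nat.add (Nat.add (Nat.add (Nat.add (Nat.add (Nat.add (Nat.add (Nat.add (Nat.add (Nat.add C x23184) x5688) x14436) x8604) x11520) x10548) x9900) x10008) x10080) x10056)
    (Nat.sub (Nat.add (Nat.add (Nat.add (Nat.add (Nat.add (Nat.add (Nat.add (Nat.add (Nat.add (Nat.add (Nat.add (Nat.add C x10072) x23194) x5698) x14446) x8614) x11530) x10558) x9910) x10018) x10126) x10054) x10074) x29754)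
    (Nat.add (Nat.add (Nat.add (Nat.add (Nat.add (Nat.add (Nat.add (Nat.add (Nat.add (Nat.add (Nat.add (Nat.add (Nat.add C x10074) x23196) x5700) x14448) x8616) x11532) x10560) x9912) x10020) x10128) x10056) x10080) x10072)
    (Nat.add (Nat.add (Nat.add (Nat.add (Nat.add (Nat.add (Nat.add (Nat.add (Nat.add (Nat.add (Nat.add (Nat.add (Nat.add C (Nat.mul x10080 (nat_lit 2))) x23202) x5706) x14454) x8622) x11538) x10566) x9918) x10026) x10134) x10062) x10098) x10074)
    (Nat.add (Nat.add (Nat.add (Nat.add (Nat.add (Nat.add (Nat.add (Nat.add (Nat.add (Nat.add C (Nat.mul x10098 (nat_lit 2))) x23220) x5724) x14472) x8640) x11556) x10584) x9936) x10152) x10080)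
    (Nat.sub (Nat.add (Nat.add (Nat.add (Nat.add (Nat.add (Nat.add (Nat.add (Nat.add (Nat.add C (Nat.mul x10126 (nat_lit 2))) x23248) x5752) x14500) x8668) x11584) x10612) x10072) x10128) x29808)
    (Nat.add (Nat.add (Nat.add (Nat.add (Nat.add (Nat.add (Nat.add (Nat.add (Nat.add (Nat.add C (Nat.mul x10128 (nat_lit 2))) x23250) x5754) x14502) x8670) x11586) x10614) x10074) x10134) x10126)
    (Nat.add (Nat.add (Nat.add (Nat.add (Nat.add (Nat.add (Nat.add (Nat.add (Nat.add (Nat.add C (Nat.mul x10134 (nat_lit 2))) x23256) x5760) x14508) x8676) x11592) x10620) x10080) x10152) x10128)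
    (Nat.add (Nat.add (Nat.add (Nat.add (Nat.add (Nat.add (Nat.add (Nat.add (Nat.add C (Nat.mul x10152 (nat_lit 4))) x23274) x5778) x14526) x8694) x11610) x10638) x10098) x10134)
    (Nat.sub (Nat.add (Nat.add (Nat.add (Nat.add (Nat.add (Nat.add (Nat.add C x10214) x23336) x5840) x14588) x11672) x9728) x10220) x29896)
    (Nat.sub (Nat.add (Nat.add (Nat.add (Nat.add (Nat.add (Nat.add (Nat.add (Nat.add (Nat.add C x23342) x5846) x14594) x11678) x9734) x10238) x10214) x10226) x10222) x29902)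
    (Nat.sub (Nat.add (Nat.add (Nat.add (Nat.add (Nat.add (Nat.add (Nat.add (Nat.add (Nat.add C x10222) x23344) x5848) x14596) x11680) x9736) x10240) x10228) x10220) x29904)
    (Nat.sub (Nat.sub (Nat.add (Nat.add (Nat.add (Nat.add (Nat.add (Nat.add (Nat.add (Nat.add C x23348) x5852) x14600) x11684) x9740) x10244) x10220) x10228) (Nat.mul x10226 (nat_lit 3))) x29908)
    (Nat.sub (Nat.add (Nat.add (Nat.add (Nat.add (Nat.add (Nat.add (Nat.add (Nat.add (Nat.add C x23350) x5854) x14602) x11686) x9742) x10246) x10222) x10226) x10230) x29910)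
    (Nat.add (Nat.add (Nat.add (Nat.add (Nat.add (Nat.add (Nat.add (Nat.add C x10230) x23352) x5856) x14604) x11688) x9744) x10248) x10228)
    (Nat.sub (Nat.sub (Nat.add (Nat.add (Nat.add (Nat.add (Nat.add (Nat.add (Nat.add (Nat.add (Nat.add C x23360) x5864) x14612) x11696) x9752) x10292) x10220) x10244) x10240) x10238) x29920)
    (Nat.sub (Nat.sub (Nat.add (Nat.add (Nat.add (Nat.add (Nat.add (Nat.add (Nat.add (Nat.add (Nat.add C x23362) x5866) x14614) x11698) x9754) x10294) x10222) x10246) x10238) x10240) x29922)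
    (Nat.sub (Nat.sub (Nat.add (Nat.add (Nat.add (Nat.add (Nat.add (Nat.add (Nat.add (Nat.add (Nat.add (Nat.add C x23366) x5870) x14618) x11702) x9758) x10298) x10226) x10262) x10238) x10246) (Nat.mul x10244 (nat_lit 2))) x29926)
    (Nat.sub (Nat.add (Nat.add (Nat.add (Nat.add (Nat.add (Nat.add (Nat.add (Nat.add (Nat.add (Nat.add (Nat.add (Nat.add C x23368) x5872) x14620) x11704) x9760) x10300) x10228) x10264) x10240) x10252) x10244) x10248) x29928)
    (Nat.add (Nat.add (Nat.add (Nat.add (Nat.add (Nat.add (Nat.add (Nat.add (Nat.add (Nat.add C x23370) x5874) x14622) x11706) x9762) x10302) x10230) x10266) x10254) x10246)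
    (Nat.sub (Nat.sub (Nat.add (Nat.add (Nat.add (Nat.add (Nat.add (Nat.add (Nat.add (Nat.add (Nat.add C x23374) x5878) x14626) x11710) x9766) x10306) x10270) x10246) x10254) x10252) x29934)
    (Nat.add (Nat.add (Nat.add (Nat.add (Nat.add (Nat.add (Nat.add (Nat.add (Nat.add (Nat.add C x10254) x23376) x5880) x14628) x11712) x9768) x10308) x10272) x10248) x10252)
    (Nat.sub (Nat.sub (Nat.add (Nat.add (Nat.add (Nat.add (Nat.add (Nat.add (Nat.add (Nat.add C x23384) x5888) x14636) x11720) x9776) x10316) x10244) x10264) (Nat.mul x10262 (nat_lit 3))) x29944)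
    (Nat.sub (Nat.sub (Nat.add (Nat.add (Nat.add (Nat.add (Nat.add (Nat.add (Nat.add (Nat.add (Nat.add (Nat.add C x23386) x5890) x14638) x11722) x9778) x10318) x10246) x10270) x10262) x10266) (Nat.mul x10264 (nat_lit 2))) x29946)
    (Nat.sub (Nat.add (Nat.add (Nat.add (Nat.add (Nat.add (Nat.add (Nat.add (Nat.add (Nat.add C x23388) x5892) x14640) x11724) x9780) x10320) x10248) x10272) x10264) (Nat.mul x10266 (nat_lit 3)))
    (Nat.sub (Nat.sub (Nat.add (Nat.add (Nat.add (Nat.add (Nat.add (Nat.add (Nat.add (Nat.add (Nat.add C x23392) x5896) x14644) x11728) x9784) x10324) x10252) x10264) x10272) x10270) x29952)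
    (Nat.add (Nat.add (Nat.add (Nat.add (Nat.add (Nat.add (Nat.add (Nat.add (Nat.add (Nat.add C x23394) x5898) x14646) x11730) x9786) x10326) x10254) x10266) x10278) x10270)
    (Nat.add (Nat.add (Nat.add (Nat.add (Nat.add (Nat.add (Nat.add (Nat.add C x10278) x23400) x5904) x14652) x11736) x9792) x10332) x10272)
    (Nat.sub (Nat.sub (Nat.add (Nat.add (Nat.add (Nat.add (Nat.add (Nat.add (Nat.add (Nat.add (Nat.add C x23414) x5918) x14666) x11750) x9806) x10454) x10238) x10298) x10294) x10292) x29974)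
    (Nat.sub (Nat.sub (Nat.add (Nat.add (Nat.add (Nat.add (Nat.add (Nat.add (Nat.add (Nat.add (Nat.add C x23416) x5920) x14668) x11752) x9808) x10456) x10240) x10300) x10292) x10294) x29976)
    (Nat.sub (Nat.sub (Nat.add (Nat.add (Nat.add (Nat.add (Nat.add (Nat.add (Nat.add (Nat.add (Nat.add (Nat.add C x23420) x5924) x14672) x11756) x9812) x10460) x10244) x10316) x10292) x10300) (Nat.mul x10298 (nat_lit 3))) x29980)
    (Nat.sub (Nat.sub (Nat.add (Nat.add (Nat.add (Nat.add (Nat.add (Nat.add (Nat.add (Nat.add (Nat.add (Nat.add (Nat.add (Nat.add C x23422) x5926) x14674) x11758) x9814) x10462) x10246) x10318) x10294) x10306) x10298) x10302) x10300) x29982)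
    (Nat.sub (Nat.add (Nat.add (Nat.add (Nat.add (Nat.add (Nat.add (Nat.add (Nat.add (Nat.add (Nat.add C x23424) x5928) x14676) x11760) x9816) x10464) x10248) x10320) x10308) x10300) x10302)
    (Nat.sub (Nat.sub (Nat.add (Nat.add (Nat.add (Nat.add (Nat.add (Nat.add (Nat.add (Nat.add (Nat.add (Nat.add C x23428) x5932) x14680) x11764) x9820) x10468) x10252) x10324) x10300) x10308) (Nat.mul x10306 (nat_lit 3))) x29988)
    (Nat.sub (Nat.add (Nat.add (Nat.add (Nat.add (Nat.add (Nat.add (Nat.add (Nat.add (Nat.add (Nat.add C x23430) x5934) x14682) x11766) x9822) x10470) x10254) x10326) x10302) x10306) x10308)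
    (Nat.sub (Nat.sub (Nat.add (Nat.add (Nat.add (Nat.add (Nat.add (Nat.add (Nat.add (Nat.add (Nat.add (Nat.add C x23438) x5942) x14690) x11774) x9830) x10478) x10262) x10370) x10298) x10318) (Nat.mul x10316 (nat_lit 2))) x29998)
    (Nat.sub (Nat.sub (Nat.add (Nat.add (Nat.add (Nat.add (Nat.add (Nat.add (Nat.add (Nat.add (Nat.add (Nat.add (Nat.add (Nat.add C x23440) x5944) x14692) x11776) x9832) x10480) x10264) x10372) x10300) x10324) x10316) x10320) x10318) x30000)
    (Nat.sub (Nat.add (Nat.add (Nat.add (Nat.add (Nat.add (Nat.add (Nat.add (Nat.add (Nat.add (Nat.add (Nat.add C x23442) x5946) x14694) x11778) x9834) x10482) x10266) x10374) x10302) x10326) x10318) (Nat.mul x10320 (nat_lit 2)))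
    (Nat.sub (Nat.sub (Nat.add (Nat.add (Nat.add (Nat.add (Nat.add (Nat.add (Nat.add (Nat.add (Nat.add (Nat.add (Nat.add (Nat.add C x23446) x5950) x14698) x11782) x9838) x10486) x10270) x10378) x10306) x10342) x10318) x10326) x10324) x30006)
    (Nat.add (Nat.add (Nat.add (Nat.add (Nat.add (Nat.add (Nat.add (Nat.add (Nat.add (Nat.add (Nat.add (Nat.add (Nat.add C x23448) x5952) x14700) x11784) x9840) x10488) x10272) x10380) x10308) x10344) x10320) x10332) x10324)
    (Nat.add (Nat.add (Nat.add (Nat.add (Nat.add (Nat.add (Nat.add (Nat.add (Nat.add (Nat.add C x23454) x5958) x14706) x11790) x9846) x10494) x10278) x10386) x10350) x10326)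
    (Nat.sub (Nat.sub (Nat.add (Nat.add (Nat.add (Nat.add (Nat.add (Nat.add (Nat.add (Nat.add (Nat.add C x23464) x5968) x14716) x11800) x9856) x10504) x10396) x10324) x10344) x10342) x30024)
    (Nat.sub (Nat.add (Nat.add (Nat.add (Nat.add (Nat.add (Nat.add (Nat.add (Nat.add (Nat.add (Nat.add C x23466) x5970) x14718) x11802) x9858) x10506) x10398) x10326) x10350) x10342) x10344)
    (Nat.add (Nat.add (Nat.add (Nat.add (Nat.add (Nat.add (Nat.add (Nat.add (Nat.add (Nat.add C x10350) x23472) x5976) x14724) x11808) x9864) x10512) x10404) x10332) x10344)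
    (Nat.sub (Nat.sub (Nat.add (Nat.add (Nat.add (Nat.add (Nat.add (Nat.add (Nat.add (Nat.add C x23492) x5996) x14744) x11828) x9884) x10532) x10316) x10372) (Nat.mul x10370 (nat_lit 3))) x30052)
    (Nat.sub (Nat.sub (Nat.add (Nat.add (Nat.add (Nat.add (Nat.add (Nat.add (Nat.add (Nat.add (Nat.add (Nat.add C x23494) x5998) x14746) x11830) x9886) x10534) x10318) x10378) x10370) x10374) (Nat.mul x10372 (nat_lit 2))) x30054)
    (Nat.sub (Nat.add (Nat.add (Nat.add (Nat.add (Nat.add (Nat.add (Nat.add (Nat.add (Nat.add C x23496) x6000) x14748) x11832) x9888) x10536) x10320) x10380) x10372) (Nat.mul x10374 (nat_lit 3)))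
    (Nat.sub (Nat.sub (Nat.add (Nat.add (Nat.add (Nat.add (Nat.add (Nat.add (Nat.add (Nat.add (Nat.add (Nat.add C x23500) x6004) x14752) x11836) x9892) x10540) x10324) x10396) x10372) x10380) (Nat.mul x10378 (nat_lit 3))) x30060)
    (Nat.sub (Nat.add (Nat.add (Nat.add (Nat.add (Nat.add (Nat.add (Nat.add (Nat.add (Nat.add (Nat.add (Nat.add C x23502) x6006) x14754) x11838) x9894) x10542) x10326) x10398) x10374) x10386) x10378) (Nat.mul x10380 (nat_lit 2)))
    (Nat.sub (Nat.add (Nat.add (Nat.add (Nat.add (Nat.add (Nat.add (Nat.add (Nat.add (Nat.add C x23508) x6012) x14760) x11844) x9900) x10548) x10332) x10404) x10380) (Nat.mul x10386 (nat_lit 3)))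
    (Nat.sub (Nat.sub (Nat.add (Nat.add (Nat.add (Nat.add (Nat.add (Nat.add (Nat.add (Nat.add (Nat.add C x23518) x6022) x14770) x11854) x9910) x10558) x10342) x10378) x10398) x10396) x30078)
    (Nat.sub (Nat.add (Nat.add (Nat.add (Nat.add (Nat.add (Nat.add (Nat.add (Nat.add (Nat.add (Nat.add C x23520) x6024) x14772) x11856) x9912) x10560) x10344) x10380) x10404) x10396) x10398)
    (Nat.add (Nat.add (Nat.add (Nat.add (Nat.add (Nat.add (Nat.add (Nat.add (Nat.add (Nat.add C x23526) x6030) x14778) x11862) x9918) x10566) x10350) x10386) x10422) x10398)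
    (Nat.add (Nat.add (Nat.add (Nat.add (Nat.add (Nat.add (Nat.add (Nat.add C x10422) x23544) x6048) x14796) x11880) x9936) x10584) x10404)
    (Nat.sub (Nat.add (Nat.add (Nat.add (Nat.add (Nat.add (Nat.add (Nat.add (Nat.add (Nat.add C x10454) x23576) x6080) x14828) x11912) x9968) x10292) x10460) x10456) x30136)
    (Nat.sub (Nat.add (Nat.add (Nat.add (Nat.add (Nat.add (Nat.add (Nat.add (Nat.add (Nat.add C x10456) x23578) x6082) x14830) x11914) x9970) x10294) x10462) x10454) x30138)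
    (Nat.sub (Nat.sub (Nat.add (Nat.add (Nat.add (Nat.add (Nat.add (Nat.add (Nat.add (Nat.add (Nat.add C x23582) x6086) x14834) x11918) x9974) x10298) x10478) x10454) x10462) x10460) x30142)
    (Nat.sub (Nat.add (Nat.add (Nat.add (Nat.add (Nat.add (Nat.add (Nat.add (Nat.add (Nat.add (Nat.add (Nat.add (Nat.add C x10462) x23584) x6088) x14836) x11920) x9976) x10300) x10480) x10456) x10468) x10460) x10464) x30144)
    (Nat.add (Nat.add (Nat.add (Nat.add (Nat.add (Nat.add (Nat.add (Nat.add (Nat.add (Nat.add C x10464) x23586) x6090) x14838) x11922) x9978) x10302) x10482) x10470) x10462)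
    (Nat.sub (Nat.sub (Nat.add (Nat.add (Nat.add (Nat.add (Nat.add (Nat.add (Nat.add (Nat.add (Nat.add C x23590) x6094) x14842) x11926) x9982) x10306) x10486) x10462) x10470) x10468) x30150)
    (Nat.add (Nat.add (Nat.add (Nat.add (Nat.add (Nat.add (Nat.add (Nat.add (Nat.add (Nat.add C x10470) x23592) x6096) x14844) x11928) x9984) x10308) x10488) x10464) x10468)
    (Nat.sub (Nat.sub (Nat.add (Nat.add (Nat.add (Nat.add (Nat.add (Nat.add (Nat.add (Nat.add (Nat.add C x23600) x6104) x14852) x11936) x9992) x10316) x10532) x10460) x10480) x10478) x30160)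
    (Nat.sub (Nat.add (Nat.add (Nat.add (Nat.add (Nat.add (Nat.add (Nat.add (Nat.add (Nat.add (Nat.add (Nat.add C x23602) x6106) x14854) x11938) x9994) x10318) x10534) x10462) x10486) x10478) x10482) x30162)
    (Nat.sub (Nat.add (Nat.add (Nat.add (Nat.add (Nat.add (Nat.add (Nat.add (Nat.add (Nat.add (Nat.add C x23604) x6108) x14856) x11940) x9996) x10320) x10536) x10464) x10488) x10480) x10482)
    (Nat.sub (Nat.add (Nat.add (Nat.add (Nat.add (Nat.add (Nat.add (Nat.add (Nat.add (Nat.add (Nat.add (Nat.add C x23608) x6112) x14860) x11944) x10000) x10324) x10540) x10468) x10504) x10480) x10488) x30168)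
    (Nat.add (Nat.add (Nat.add (Nat.add (Nat.add (Nat.add (Nat.add (Nat.add (Nat.add (Nat.add (Nat.add (Nat.add (Nat.add C x10488) x23610) x6114) x14862) x11946) x10002) x10326) x10542) x10470) x10506) x10482) x10494) x10486)
    (Nat.add (Nat.add (Nat.add (Nat.add (Nat.add (Nat.add (Nat.add (Nat.add (Nat.add (Nat.add C x10494) x23616) x6120) x14868) x11952) x10008) x10332) x10548) x10512) x10488)
    (Nat.sub (Nat.sub (Nat.add (Nat.add (Nat.add (Nat.add (Nat.add (Nat.add (Nat.add (Nat.add (Nat.add C x23626) x6130) x14878) x11962) x10018) x10342) x10558) x10486) x10506) x10504) x30186)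
    (Nat.sub (Nat.add (Nat.add (Nat.add (Nat.add (Nat.add (Nat.add (Nat.add (Nat.add (Nat.add (Nat.add C x23628) x6132) x14880) x11964) x10020) x10344) x10560) x10488) x10512) x10504) x10506)
    (Nat.add (Nat.add (Nat.add (Nat.add (Nat.add (Nat.add (Nat.add (Nat.add (Nat.add (Nat.add C x10512) x23634) x6138) x14886) x11970) x10026) x10350) x10566) x10494) x10506)
    (Nat.sub (Nat.add (Nat.add (Nat.add (Nat.add (Nat.add (Nat.add (Nat.add (Nat.add (Nat.add C x23654) x6158) x14906) x11990) x10046) x10370) x10694) x10478) x10534) x30214)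
    (Nat.sub (Nat.add (Nat.add (Nat.add (Nat.add (Nat.add (Nat.add (Nat.add (Nat.add (Nat.add (Nat.add (Nat.add (Nat.add C x10534) x23656) x6160) x14908) x11992) x10048) x10372) x10696) x10480) x10540) x10532) x10536) x30216)
    (Nat.add (Nat.add (Nat.add (Nat.add (Nat.add (Nat.add (Nat.add (Nat.add (Nat.add (Nat.add C x23658) x6162) x14910) x11994) x10050) x10374) x10698) x10482) x10542) x10534)
    (Nat.sub (Nat.add (Nat.add (Nat.add (Nat.add (Nat.add (Nat.add (Nat.add (Nat.add (Nat.add (Nat.add (Nat.add C x23662) x6166) x14914) x11998) x10054) x10378) x10702) x10486) x10558) x10534) x10542) x30222)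
    (Nat.add (Nat.add (Nat.add (Nat.add (Nat.add (Nat.add (Nat.add (Nat.add (Nat.add (Nat.add (Nat.add (Nat.add (Nat.add C x10542) x23664) x6168) x14916) x12000) x10056) x10380) x10704) x10488) x10560) x10536) x10548) x10540)
    (Nat.add (Nat.add (Nat.add (Nat.add (Nat.add (Nat.add (Nat.add (Nat.add (Nat.add (Nat.add C x23670) x6174) x14922) x12006) x10062) x10386) x10710) x10494) x10566) x10542)
    (Nat.sub (Nat.add (Nat.add (Nat.add (Nat.add (Nat.add (Nat.add (Nat.add (Nat.add (Nat.add (Nat.add (Nat.add (Nat.add C x10558) x23680) x6184) x14932) x12016) x10072) x10396) x10720) x10504) x10612) x10540) x10560) x30240)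
    (Nat.add (Nat.add (Nat.add (Nat.add (Nat.add (Nat.add (Nat.add (Nat.add (Nat.add (Nat.add (Nat.add (Nat.add (Nat.add C x10560) x23682) x6186) x14934) x12018) x10074) x10398) x10722) x10506) x10614) x10542) x10566) x10558)
    (Nat.add (Nat.add (Nat.add (Nat.add (Nat.add (Nat.add (Nat.add (Nat.add (Nat.add (Nat.add (Nat.add (Nat.add (Nat.add C (Nat.mul x10566 (nat_lit 2))) x23688) x6192) x14940) x12024) x10080) x10404) x10728) x10512) x10620) x10548) x10584) x10560)
    (Nat.add (Nat.add (Nat.add (Nat.add (Nat.add (Nat.add (Nat.add (Nat.add (Nat.add (Nat.add C (Nat.mul x10584 (nat_lit 2))) x23706) x6210) x14958) x12042) x10098) x10422) x10746) x10638) x10566)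
    (Nat.sub (Nat.add (Nat.add (Nat.add (Nat.add (Nat.add (Nat.add (Nat.add (Nat.add (Nat.add C x10612) x23734) x6238) x14986) x12070) x10126) x10774) x10558) x10614) x30294)
    (Nat.add (Nat.add (Nat.add (Nat.add (Nat.add (Nat.add (Nat.add (Nat.add (Nat.add (Nat.add C x10614) x23736) x6240) x14988) x12072) x10128) x10776) x10560) x10620) x10612)
    (Nat.add (Nat.add (Nat.add (Nat.add (Nat.add (Nat.add (Nat.add (Nat.add (Nat.add (Nat.add C x10620) x23742) x6246) x14994) x12078) x10134) x10782) x10566) x10638) x10614)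
    (Nat.add (Nat.add (Nat.add (Nat.add (Nat.add (Nat.add (Nat.add (Nat.add (Nat.add C (Nat.mul x10638 (nat_lit 3))) x23760) x6264) x15012) x12096) x10152) x10800) x10584) x10620)
    (Nat.sub (Nat.add (Nat.add (Nat.add (Nat.add (Nat.add (Nat.add (Nat.add C x10694) x23816) x6320) x15068) x12152) x10532) x10696) x30376)
    (Nat.sub (Nat.add (Nat.add (Nat.add (Nat.add (Nat.add (Nat.add (Nat.add (Nat.add (Nat.add C (Nat.mul x10696 (nat_lit 2))) x23818) x6322) x15070) x12154) x10534) x10702) x10694) x10698) x30378)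
    (Nat.add (Nat.add (Nat.add (Nat.add (Nat.add (Nat.add (Nat.add (Nat.add C x10698) x23820) x6324) x15072) x12156) x10536) x10704) x10696)
    (Nat.sub (Nat.add (Nat.add (Nat.add (Nat.add (Nat.add (Nat.add (Nat.add (Nat.add (Nat.add C x10702) x23824) x6328) x15076) x12160) x10540) x10720) x10696) x10704) x30384)
    (Nat.add (Nat.add (Nat.add (Nat.add (Nat.add (Nat.add (Nat.add (Nat.add (Nat.add (Nat.add C (Nat.mul x10704 (nat_lit 2))) x23826) x6330) x15078) x12162) x10542) x10722) x10698) x10710) x10702)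
    (Nat.add (Nat.add (Nat.add (Nat.add (Nat.add (Nat.add (Nat.add (Nat.add C x10710) x23832) x6336) x15084) x12168) x10548) x10728) x10704)
    (Nat.sub (Nat.add (Nat.add (Nat.add (Nat.add (Nat.add (Nat.add (Nat.add (Nat.add (Nat.add C x10720) x23842) x6346) x15094) x12178) x10558) x10774) x10702) x10722) x30402)
    (Nat.add (Nat.add (Nat.add (Nat.add (Nat.add (Nat.add (Nat.add (Nat.add (Nat.add (Nat.add C x10722) x23844) x6348) x15096) x12180) x10560) x10776) x10704) x10728) x10720)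
    (Nat.add (Nat.add (Nat.add (Nat.add (Nat.add (Nat.add (Nat.add (Nat.add (Nat.add (Nat.add C (Nat.mul x10728 (nat_lit 2))) x23850) x6354) x15102) x12186) x10566) x10782) x10710) x10746) x10722)
    (Nat.add (Nat.add (Nat.add (Nat.add (Nat.add (Nat.add (Nat.add (Nat.add C x10746) x23868) x6372) x15120) x12204) x10584) x10800) x10728)
    (Nat.sub (Nat.add (Nat.add (Nat.add (Nat.add (Nat.add (Nat.add (Nat.add (Nat.add C (Nat.mul x10774 (nat_lit 3))) x23896) x6400) x15148) x12232) x10612) x10720) x10776) x30456)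
    (Nat.add (Nat.add (Nat.add (Nat.add (Nat.add (Nat.add (Nat.add (Nat.add (Nat.add C (Nat.mul x10776 (nat_lit 3))) x23898) x6402) x15150) x12234) x10614) x10722) x10782) x10774)
    (Nat.add (Nat.add (Nat.add (Nat.add (Nat.add (Nat.add (Nat.add (Nat.add (Nat.add C (Nat.mul x10782 (nat_lit 3))) x23904) x6408) x15156) x12240) x10620) x10728) x10800) x10776)
    (Nat.add (Nat.add (Nat.add (Nat.add (Nat.add (Nat.add (Nat.add (Nat.add (Nat.add C (Nat.mul x10800 (nat_lit 4))) x23922) x6426) x15174) x12258) x10638) x10746) x10854) x10782)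
    (Nat.add (Nat.add (Nat.add (Nat.add (Nat.add (Nat.add C (Nat.mul x10854 (nat_lit 5))) x23976) x6480) x15228) x12312) x10800)
    (Nat.sub (Nat.add (Nat.add (Nat.add (Nat.add (Nat.add (Nat.add C (Nat.mul x10952 (nat_lit 2))) x24074) x15326) x9494) x10970) x10958) x30634)
    (Nat.sub (Nat.add (Nat.add (Nat.add (Nat.add (Nat.add (Nat.add C x24080) x15332) x9500) x10976) x10952) x10960) x30640)
    (Nat.sub (Nat.add (Nat.add (Nat.add (Nat.add (Nat.add (Nat.add C (Nat.mul x10960 (nat_lit 2))) x24082) x15334) x9502) x10978) x10958) x30642)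
    (Nat.sub (Nat.add (Nat.add (Nat.add (Nat.add (Nat.add (Nat.add C x24092) x15344) x9512) x11024) x10952) x10976) x30652)
    (Nat.sub (Nat.add (Nat.add (Nat.add (Nat.add (Nat.add (Nat.add (Nat.add (Nat.add (Nat.add C x24098) x15350) x9518) x11030) x10958) x10994) x10970) x10982) x10978) x30658)
    (Nat.sub (Nat.add (Nat.add (Nat.add (Nat.add (Nat.add (Nat.add (Nat.add (Nat.add (Nat.add C x10978) x24100) x15352) x9520) x11032) x10960) x10996) x10984) x10976) x30660)
    (Nat.sub (Nat.sub (Nat.add (Nat.add (Nat.add (Nat.add (Nat.add (Nat.add (Nat.add C x24104) x15356) x9524) x11036) x11000) x10976) x10984) (Nat.mul x10982 (nat_lit 2))) x30664)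
    (Nat.sub (Nat.add (Nat.add (Nat.add (Nat.add (Nat.add (Nat.add (Nat.add (Nat.add (Nat.add C x10984) x24106) x15358) x9526) x11038) x11002) x10978) x10982) x10986) x30666)
    (Nat.add (Nat.add (Nat.add (Nat.add (Nat.add (Nat.add (Nat.add C (Nat.mul x10986 (nat_lit 2))) x24108) x15360) x9528) x11040) x11004) x10984)
    (Nat.sub (Nat.sub (Nat.add (Nat.add (Nat.add (Nat.add (Nat.add (Nat.add (Nat.add C x24116) x15368) x9536) x11048) x10976) x11000) x10996) (Nat.mul x10994 (nat_lit 2))) x30676)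
    (Nat.sub (Nat.sub (Nat.add (Nat.add (Nat.add (Nat.add (Nat.add (Nat.add (Nat.add C x24118) x15370) x9538) x11050) x10978) x11002) x10994) (Nat.mul x10996 (nat_lit 2))) x30678)
    (Nat.sub (Nat.sub (Nat.add (Nat.add (Nat.add (Nat.add (Nat.add (Nat.add (Nat.add C x24122) x15374) x9542) x11054) x10982) x10994) x11002) (Nat.mul x11000 (nat_lit 2))) x30682)
    (Nat.sub (Nat.add (Nat.add (Nat.add (Nat.add (Nat.add (Nat.add (Nat.add (Nat.add (Nat.add C x24124) x15376) x9544) x11056) x10984) x10996) x11008) x11000) x11004) x30684)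
    (Nat.add (Nat.add (Nat.add (Nat.add (Nat.add (Nat.add (Nat.add C x24126) x15378) x9546) x11058) x10986) x11010) x11002)
    (Nat.sub (Nat.add (Nat.add (Nat.add (Nat.add (Nat.add (Nat.add C x24130) x15382) x9550) x11062) x11002) x11010) x30690)
    (Nat.add (Nat.add (Nat.add (Nat.add (Nat.add (Nat.add (Nat.add C (Nat.mul x11010 (nat_lit 2))) x24132) x15384) x9552) x11064) x11004) x11008)
    (Nat.sub (Nat.add (Nat.add (Nat.add (Nat.add (Nat.add (Nat.add C x24146) x15398) x9566) x11186) x10970) x11030) x30706)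
    (Nat.sub (Nat.sub (Nat.add (Nat.add (Nat.add (Nat.add (Nat.add (Nat.add (Nat.add (Nat.add (Nat.add C x24152) x15404) x9572) x11192) x10976) x11048) x11024) x11036) x11032) x11030) x30712)
    (Nat.sub (Nat.add (Nat.add (Nat.add (Nat.add (Nat.add (Nat.add (Nat.add (Nat.add C x24154) x15406) x9574) x11194) x10978) x11050) x11038) x11030) x30714)
    (Nat.sub (Nat.sub (Nat.add (Nat.add (Nat.add (Nat.add (Nat.add (Nat.add (Nat.add (Nat.add C x24158) x15410) x9578) x11198) x10982) x11054) x11030) x11038) (Nat.mul x11036 (nat_lit 4))) x30718)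
    (Nat.sub (Nat.sub (Nat.add (Nat.add (Nat.add (Nat.add (Nat.add (Nat.add (Nat.add (Nat.add (Nat.add C x24160) x15412) x9580) x11200) x10984) x11056) x11032) x11036) x11040) x11038) x30720)
    (Nat.add (Nat.add (Nat.add (Nat.add (Nat.add (Nat.add (Nat.add C x24162) x15414) x9582) x11202) x10986) x11058) x11038)
    (Nat.sub (Nat.sub (Nat.add (Nat.add (Nat.add (Nat.add (Nat.add (Nat.add (Nat.add (Nat.add (Nat.add C x24170) x15422) x9590) x11210) x10994) x11102) x11030) x11054) x11050) x11048) x30730)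
    (Nat.sub (Nat.sub (Nat.add (Nat.add (Nat.add (Nat.add (Nat.add (Nat.add (Nat.add (Nat.add (Nat.add C x24172) x15424) x9592) x11212) x10996) x11104) x11032) x11056) x11048) x11050) x30732)
    (Nat.sub (Nat.sub (Nat.add (Nat.add (Nat.add (Nat.add (Nat.add (Nat.add (Nat.add (Nat.add (Nat.add (Nat.add C x24176) x15428) x9596) x11216) x11000) x11108) x11036) x11072) x11048) x11056) (Nat.mul x11054 (nat_lit 2))) x30736)
    (Nat.sub (Nat.add (Nat.add (Nat.add (Nat.add (Nat.add (Nat.add (Nat.add (Nat.add (Nat.add (Nat.add (Nat.add (Nat.add C x24178) x15430) x9598) x11218) x11002) x11110) x11038) x11074) x11050) x11062) x11054) x11058) x30738)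
    (Nat.add (Nat.add (Nat.add (Nat.add (Nat.add (Nat.add (Nat.add (Nat.add (Nat.add (Nat.add C x24180) x15432) x9600) x11220) x11004) x11112) x11040) x11076) x11064) x11056)
    (Nat.sub (Nat.sub (Nat.add (Nat.add (Nat.add (Nat.add (Nat.add (Nat.add (Nat.add (Nat.add (Nat.add C x24184) x15436) x9604) x11224) x11008) x11116) x11080) x11056) x11064) x11062) x30744)
    (Nat.add (Nat.add (Nat.add (Nat.add (Nat.add (Nat.add (Nat.add (Nat.add (Nat.add (Nat.add C x11064) x24186) x15438) x9606) x11226) x11010) x11118) x11082) x11058) x11062)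
    (Nat.sub (Nat.sub (Nat.add (Nat.add (Nat.add (Nat.add (Nat.add (Nat.add (Nat.add C x24194) x15446) x9614) x11234) x11126) x11054) x11074) (Nat.mul x11072 (nat_lit 2))) x30754)
    (Nat.sub (Nat.sub (Nat.add (Nat.add (Nat.add (Nat.add (Nat.add (Nat.add (Nat.add (Nat.add (Nat.add C x24196) x15448) x9616) x11236) x11128) x11056) x11080) x11072) x11076) x11074) x30756)
    (Nat.sub (Nat.add (Nat.add (Nat.add (Nat.add (Nat.add (Nat.add (Nat.add (Nat.add C x24198) x15450) x9618) x11238) x11130) x11058) x11082) x11074) (Nat.mul x11076 (nat_lit 2)))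
    (Nat.sub (Nat.add (Nat.add (Nat.add (Nat.add (Nat.add (Nat.add (Nat.add (Nat.add C x24202) x15454) x9622) x11242) x11134) x11062) x11074) x11082) x30762)
    (Nat.add (Nat.add (Nat.add (Nat.add (Nat.add (Nat.add (Nat.add (Nat.add (Nat.add (Nat.add C x11082) x24204) x15456) x9624) x11244) x11136) x11064) x11076) x11088) x11080)
    (Nat.add (Nat.add (Nat.add (Nat.add (Nat.add (Nat.add (Nat.add C (Nat.mul x11088 (nat_lit 2))) x24210) x15462) x9630) x11250) x11142) x11082)
    (Nat.sub (Nat.sub (Nat.add (Nat.add (Nat.add (Nat.add (Nat.add (Nat.add (Nat.add C x24224) x15476) x9644) x11264) x11048) x11108) x11104) (Nat.mul x11102 (nat_lit 2))) x30784)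
    (Nat.sub (Nat.sub (Nat.add (Nat.add (Nat.add (Nat.add (Nat.add (Nat.add (Nat.add C x24226) x15478) x9646) x11266) x11050) x11110) x11102) (Nat.mul x11104 (nat_lit 2))) x30786)
    (Nat.sub (Nat.sub (Nat.add (Nat.add (Nat.add (Nat.add (Nat.add (Nat.add (Nat.add (Nat.add C x24230) x15482) x9650) x11270) x11054) x11126) x11102) x11110) (Nat.mul x11108 (nat_lit 4))) x30790)
    (Nat.sub (Nat.sub (Nat.add (Nat.add (Nat.add (Nat.add (Nat.add (Nat.add (Nat.add (Nat.add (Nat.add (Nat.add C x24232) x15484) x9652) x11272) x11056) x11128) x11104) x11116) x11108) x11112) (Nat.mul x11110 (nat_lit 2))) x30792)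
    (Nat.sub (Nat.add (Nat.add (Nat.add (Nat.add (Nat.add (Nat.add (Nat.add (Nat.add C x24234) x15486) x9654) x11274) x11058) x11130) x11118) x11110) (Nat.mul x11112 (nat_lit 2)))
    (Nat.sub (Nat.sub (Nat.add (Nat.add (Nat.add (Nat.add (Nat.add (Nat.add (Nat.add (Nat.add C x24238) x15490) x9658) x11278) x11062) x11134) x11110) x11118) (Nat.mul x11116 (nat_lit 4))) x30798)
    (Nat.sub (Nat.add (Nat.add (Nat.add (Nat.add (Nat.add (Nat.add (Nat.add (Nat.add C x24240) x15492) x9660) x11280) x11064) x11136) x11112) x11116) (Nat.mul x11118 (nat_lit 2)))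
    (Nat.sub (Nat.sub (Nat.add (Nat.add (Nat.add (Nat.add (Nat.add (Nat.add (Nat.add C x24248) x15500) x9668) x11288) x11072) x11108) x11128) (Nat.mul x11126 (nat_lit 2))) x30808)
    (Nat.sub (Nat.sub (Nat.add (Nat.add (Nat.add (Nat.add (Nat.add (Nat.add (Nat.add (Nat.add (Nat.add C x24250) x15502) x9670) x11290) x11074) x11110) x11134) x11126) x11130) x11128) x30810)
    (Nat.sub (Nat.add (Nat.add (Nat.add (Nat.add (Nat.add (Nat.add (Nat.add (Nat.add C x24252) x15504) x9672) x11292) x11076) x11112) x11136) x11128) (Nat.mul x11130 (nat_lit 2)))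
    (Nat.sub (Nat.sub (Nat.add (Nat.add (Nat.add (Nat.add (Nat.add (Nat.add (Nat.add (Nat.add (Nat.add C x24256) x15508) x9676) x11296) x11080) x11116) x11152) x11128) x11136) x11134) x30816)
    (Nat.add (Nat.add (Nat.add (Nat.add (Nat.add (Nat.add (Nat.add (Nat.add (Nat.add (Nat.add C x24258) x15510) x9678) x11298) x11082) x11118) x11154) x11130) x11142) x11134)
    (Nat.add (Nat.add (Nat.add (Nat.add (Nat.add (Nat.add (Nat.add C x24264) x15516) x9684) x11304) x11088) x11160) x11136)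
    (Nat.sub (Nat.add (Nat.add (Nat.add (Nat.add (Nat.add (Nat.add C x24274) x15526) x9694) x11314) x11134) x11154) x30834)
    (Nat.add (Nat.add (Nat.add (Nat.add (Nat.add (Nat.add (Nat.add C x24276) x15528) x9696) x11316) x11136) x11160) x11152)
    (Nat.add (Nat.add (Nat.add (Nat.add (Nat.add (Nat.add (Nat.add C (Nat.mul x11160 (nat_lit 2))) x24282) x15534) x9702) x11322) x11142) x11154)
    (Nat.sub (Nat.add (Nat.add (Nat.add (Nat.add (Nat.add (Nat.add C x24308) x15560) x9728) x11672) x11024) x11192) x30868)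
    (Nat.sub (Nat.sub (Nat.add (Nat.add (Nat.add (Nat.add (Nat.add (Nat.add (Nat.add (Nat.add (Nat.add C x24314) x15566) x9734) x11678) x11030) x11210) x11186) x11198) x11194) x11192) x30874)
    (Nat.sub (Nat.add (Nat.add (Nat.add (Nat.add (Nat.add (Nat.add (Nat.add (Nat.add C x24316) x15568) x9736) x11680) x11032) x11212) x11200) x11192) x30876)
    (Nat.sub (Nat.sub (Nat.add (Nat.add (Nat.add (Nat.add (Nat.add (Nat.add (Nat.add (Nat.add C x24320) x15572) x9740) x11684) x11036) x11216) x11192) x11200) (Nat.mul x11198 (nat_lit 4))) x30880)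
    (Nat.sub (Nat.sub (Nat.add (Nat.add (Nat.add (Nat.add (Nat.add (Nat.add (Nat.add (Nat.add (Nat.add C x24322) x15574) x9742) x11686) x11038) x11218) x11194) x11198) x11202) x11200) x30882)
    (Nat.add (Nat.add (Nat.add (Nat.add (Nat.add (Nat.add (Nat.add C x24324) x15576) x9744) x11688) x11040) x11220) x11200)
    (Nat.sub (Nat.sub (Nat.add (Nat.add (Nat.add (Nat.add (Nat.add (Nat.add (Nat.add (Nat.add (Nat.add C x24332) x15584) x9752) x11696) x11048) x11264) x11192) x11216) x11212) (Nat.mul x11210 (nat_lit 2))) x30892)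
    (Nat.sub (Nat.sub (Nat.add (Nat.add (Nat.add (Nat.add (Nat.add (Nat.add (Nat.add (Nat.add (Nat.add C x24334) x15586) x9754) x11698) x11050) x11266) x11194) x11218) x11210) (Nat.mul x11212 (nat_lit 2))) x30894)
    (Nat.sub (Nat.sub (Nat.add (Nat.add (Nat.add (Nat.add (Nat.add (Nat.add (Nat.add (Nat.add (Nat.add (Nat.add C x24338) x15590) x9758) x11702) x11054) x11270) x11198) x11234) x11210) x11218) (Nat.mul x11216 (nat_lit 3))) x30898)
    (Nat.sub (Nat.sub (Nat.add (Nat.add (Nat.add (Nat.add (Nat.add (Nat.add (Nat.add (Nat.add (Nat.add (Nat.add (Nat.add (Nat.add C x24340) x15592) x9760) x11704) x11056) x11272) x11200) x11236) x11212) x11224) x11216) x11220) x11218) x30900)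
    (Nat.sub (Nat.add (Nat.add (Nat.add (Nat.add (Nat.add (Nat.add (Nat.add (Nat.add (Nat.add (Nat.add C x24342) x15594) x9762) x11706) x11058) x11274) x11202) x11238) x11226) x11218) x11220)
    (Nat.sub (Nat.sub (Nat.add (Nat.add (Nat.add (Nat.add (Nat.add (Nat.add (Nat.add (Nat.add (Nat.add C x24346) x15598) x9766) x11710) x11062) x11278) x11242) x11218) x11226) (Nat.mul x11224 (nat_lit 2))) x30906)
    (Nat.add (Nat.add (Nat.add (Nat.add (Nat.add (Nat.add (Nat.add (Nat.add (Nat.add C x24348) x15600) x9768) x11712) x11064) x11280) x11244) x11220) x11224)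
    (Nat.sub (Nat.sub (Nat.add (Nat.add (Nat.add (Nat.add (Nat.add (Nat.add (Nat.add (Nat.add C x24356) x15608) x9776) x11720) x11072) x11288) x11216) x11236) (Nat.mul x11234 (nat_lit 4))) x30916)
    (Nat.sub (Nat.sub (Nat.add (Nat.add (Nat.add (Nat.add (Nat.add (Nat.add (Nat.add (Nat.add (Nat.add (Nat.add C x24358) x15610) x9778) x11722) x11074) x11290) x11218) x11242) x11234) x11238) (Nat.mul x11236 (nat_lit 3))) x30918)
    (Nat.sub (Nat.add (Nat.add (Nat.add (Nat.add (Nat.add (Nat.add (Nat.add (Nat.add (Nat.add C x24360) x15612) x9780) x11724) x11076) x11292) x11220) x11244) x11236) (Nat.mul x11238 (nat_lit 4)))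
    (Nat.sub (Nat.sub (Nat.add (Nat.add (Nat.add (Nat.add (Nat.add (Nat.add (Nat.add (Nat.add (Nat.add C x24364) x15616) x9784) x11728) x11080) x11296) x11224) x11236) x11244) (Nat.mul x11242 (nat_lit 2))) x30924)
    (Nat.sub (Nat.add (Nat.add (Nat.add (Nat.add (Nat.add (Nat.add (Nat.add (Nat.add (Nat.add (Nat.add C x24366) x15618) x9786) x11730) x11082) x11298) x11226) x11238) x11250) x11242) x11244)
    (Nat.add (Nat.add (Nat.add (Nat.add (Nat.add (Nat.add (Nat.add C x24372) x15624) x9792) x11736) x11088) x11304) x11244)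
    (Nat.sub (Nat.sub (Nat.add (Nat.add (Nat.add (Nat.add (Nat.add (Nat.add (Nat.add (Nat.add (Nat.add C x24386) x15638) x9806) x11750) x11102) x11426) x11210) x11270) x11266) x11264) x30946)
    (Nat.sub (Nat.sub (Nat.add (Nat.add (Nat.add (Nat.add (Nat.add (Nat.add (Nat.add (Nat.add (Nat.add C x24388) x15640) x9808) x11752) x11104) x11428) x11212) x11272) x11264) x11266) x30948)
    (Nat.sub (Nat.sub (Nat.add (Nat.add (Nat.add (Nat.add (Nat.add (Nat.add (Nat.add (Nat.add (Nat.add (Nat.add C x24392) x15644) x9812) x11756) x11108) x11432) x11216) x11288) x11264) x11272) (Nat.mul x11270 (nat_lit 3))) x30952)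
    (Nat.sub (Nat.sub (Nat.add (Nat.add (Nat.add (Nat.add (Nat.add (Nat.add (Nat.add (Nat.add (Nat.add (Nat.add (Nat.add (Nat.add C x24394) x15646) x9814) x11758) x11110) x11434) x11218) x11290) x11266) x11278) x11270) x11274) x11272) x30954)
    (Nat.sub (Nat.add (Nat.add (Nat.add (Nat.add (Nat.add (Nat.add (Nat.add (Nat.add (Nat.add (Nat.add C x24396) x15648) x9816) x11760) x11112) x11436) x11220) x11292) x11280) x11272) x11274)
    (Nat.sub (Nat.sub (Nat.add (Nat.add (Nat.add (Nat.add (Nat.add (Nat.add (Nat.add (Nat.add (Nat.add (Nat.add C x24400) x15652) x9820) x11764) x11116) x11440) x11224) x11296) x11272) x11280) (Nat.mul x11278 (nat_lit 3))) x30960)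
    (Nat.sub (Nat.add (Nat.add (Nat.add (Nat.add (Nat.add (Nat.add (Nat.add (Nat.add (Nat.add (Nat.add C x24402) x15654) x9822) x11766) x11118) x11442) x11226) x11298) x11274) x11278) x11280)
    (Nat.sub (Nat.sub (Nat.add (Nat.add (Nat.add (Nat.add (Nat.add (Nat.add (Nat.add (Nat.add (Nat.add (Nat.add C x24410) x15662) x9830) x11774) x11126) x11450) x11234) x11342) x11270) x11290) (Nat.mul x11288 (nat_lit 2))) x30970)
    (Nat.sub (Nat.sub (Nat.add (Nat.add (Nat.add (Nat.add (Nat.add (Nat.add (Nat.add (Nat.add (Nat.add (Nat.add (Nat.add (Nat.add C x24412) x15664) x9832) x11776) x11128) x11452) x11236) x11344) x11272) x11296) x11288) x11292) x11290) x30972)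
    (Nat.sub (Nat.add (Nat.add (Nat.add (Nat.add (Nat.add (Nat.add (Nat.add (Nat.add (Nat.add (Nat.add (Nat.add C x24414) x15666) x9834) x11778) x11130) x11454) x11238) x11346) x11274) x11298) x11290) (Nat.mul x11292 (nat_lit 2)))
    (Nat.sub (Nat.sub (Nat.add (Nat.add (Nat.add (Nat.add (Nat.add (Nat.add (Nat.add (Nat.add (Nat.add (Nat.add (Nat.add (Nat.add C x24418) x15670) x9838) x11782) x11134) x11458) x11242) x11350) x11278) x11314) x11290) x11298) x11296) x30978)
    (Nat.add (Nat.add (Nat.add (Nat.add (Nat.add (Nat.add (Nat.add (Nat.add (Nat.add (Nat.add (Nat.add (Nat.add (Nat.add C x24420) x15672) x9840) x11784) x11136) x11460) x11244) x11352) x11280) x11316) x11292) x11304) x11296)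
    (Nat.add (Nat.add (Nat.add (Nat.add (Nat.add (Nat.add (Nat.add (Nat.add (Nat.add (Nat.add C x24426) x15678) x9846) x11790) x11142) x11466) x11250) x11358) x11322) x11298)
    (Nat.sub (Nat.sub (Nat.add (Nat.add (Nat.add (Nat.add (Nat.add (Nat.add (Nat.add (Nat.add (Nat.add C x24436) x15688) x9856) x11800) x11152) x11476) x11368) x11296) x11316) x11314) x30996)
    (Nat.sub (Nat.add (Nat.add (Nat.add (Nat.add (Nat.add (Nat.add (Nat.add (Nat.add (Nat.add (Nat.add C x24438) x15690) x9858) x11802) x11154) x11478) x11370) x11298) x11322) x11314) x11316)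
    (Nat.add (Nat.add (Nat.add (Nat.add (Nat.add (Nat.add (Nat.add (Nat.add (Nat.add (Nat.add C x11322) x24444) x15696) x9864) x11808) x11160) x11484) x11376) x11304) x11316)
    (Nat.sub (Nat.sub (Nat.add (Nat.add (Nat.add (Nat.add (Nat.add (Nat.add (Nat.add C x24464) x15716) x9884) x11828) x11504) x11288) x11344) (Nat.mul x11342 (nat_lit 2))) x31024)
    (Nat.sub (Nat.sub (Nat.add (Nat.add (Nat.add (Nat.add (Nat.add (Nat.add (Nat.add (Nat.add (Nat.add C x24466) x15718) x9886) x11830) x11506) x11290) x11350) x11342) x11346) x11344) x31026)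
    (Nat.sub (Nat.add (Nat.add (Nat.add (Nat.add (Nat.add (Nat.add (Nat.add (Nat.add C x24468) x15720) x9888) x11832) x11508) x11292) x11352) x11344) (Nat.mul x11346 (nat_lit 2)))
    (Nat.sub (Nat.sub (Nat.add (Nat.add (Nat.add (Nat.add (Nat.add (Nat.add (Nat.add (Nat.add (Nat.add C x24472) x15724) x9892) x11836) x11512) x11296) x11368) x11344) x11352) (Nat.mul x11350 (nat_lit 2))) x31032)
    (Nat.sub (Nat.add (Nat.add (Nat.add (Nat.add (Nat.add (Nat.add (Nat.add (Nat.add (Nat.add (Nat.add C x24474) x15726) x9894) x11838) x11514) x11298) x11370) x11346) x11358) x11350) x11352)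
    (Nat.sub (Nat.add (Nat.add (Nat.add (Nat.add (Nat.add (Nat.add (Nat.add (Nat.add C x24480) x15732) x9900) x11844) x11520) x11304) x11376) x11352) (Nat.mul x11358 (nat_lit 2)))
    (Nat.sub (Nat.add (Nat.add (Nat.add (Nat.add (Nat.add (Nat.add (Nat.add (Nat.add C x24490) x15742) x9910) x11854) x11530) x11314) x11350) x11370) x31050)
    (Nat.add (Nat.add (Nat.add (Nat.add (Nat.add (Nat.add (Nat.add (Nat.add (Nat.add C x24492) x15744) x9912) x11856) x11532) x11316) x11352) x11376) x11368)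
    (Nat.add (Nat.add (Nat.add (Nat.add (Nat.add (Nat.add (Nat.add (Nat.add (Nat.add (Nat.add C x11376) x24498) x15750) x9918) x11862) x11538) x11322) x11358) x11394) x11370)
    (Nat.add (Nat.add (Nat.add (Nat.add (Nat.add (Nat.add (Nat.add C (Nat.mul x11394 (nat_lit 2))) x24516) x15768) x9936) x11880) x11556) x11376)
    (Nat.sub (Nat.sub (Nat.add (Nat.add (Nat.add (Nat.add (Nat.add (Nat.add (Nat.add C x24548) x15800) x9968) x11912) x11264) x11432) x11428) (Nat.mul x11426 (nat_lit 2))) x31108)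
    (Nat.sub (Nat.sub (Nat.add (Nat.add (Nat.add (Nat.add (Nat.add (Nat.add (Nat.add C x24550) x15802) x9970) x11914) x11266) x11434) x11426) (Nat.mul x11428 (nat_lit 2))) x31110)
    (Nat.sub (Nat.sub (Nat.add (Nat.add (Nat.add (Nat.add (Nat.add (Nat.add (Nat.add (Nat.add C x24554) x15806) x9974) x11918) x11270) x11450) x11426) x11434) (Nat.mul x11432 (nat_lit 4))) x31114)
    (Nat.sub (Nat.sub (Nat.add (Nat.add (Nat.add (Nat.add (Nat.add (Nat.add (Nat.add (Nat.add (Nat.add (Nat.add C x24556) x15808) x9976) x11920) x11272) x11452) x11428) x11440) x11432) x11436) (Nat.mul x11434 (nat_lit 2))) x31116)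
    (Nat.sub (Nat.add (Nat.add (Nat.add (Nat.add (Nat.add (Nat.add (Nat.add (Nat.add C x24558) x15810) x9978) x11922) x11274) x11454) x11442) x11434) (Nat.mul x11436 (nat_lit 2)))
    (Nat.sub (Nat.sub (Nat.add (Nat.add (Nat.add (Nat.add (Nat.add (Nat.add (Nat.add (Nat.add C x24562) x15814) x9982) x11926) x11278) x11458) x11434) x11442) (Nat.mul x11440 (nat_lit 4))) x31122)
    (Nat.sub (Nat.add (Nat.add (Nat.add (Nat.add (Nat.add (Nat.add (Nat.add (Nat.add C x24564) x15816) x9984) x11928) x11280) x11460) x11436) x11440) (Nat.mul x11442 (nat_lit 2)))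
    (Nat.sub (Nat.sub (Nat.add (Nat.add (Nat.add (Nat.add (Nat.add (Nat.add (Nat.add (Nat.add C x24572) x15824) x9992) x11936) x11288) x11504) x11432) x11452) (Nat.mul x11450 (nat_lit 4))) x31132)
    (Nat.sub (Nat.sub (Nat.add (Nat.add (Nat.add (Nat.add (Nat.add (Nat.add (Nat.add (Nat.add (Nat.add (Nat.add C x24574) x15826) x9994) x11938) x11290) x11506) x11434) x11458) x11450) x11454) (Nat.mul x11452 (nat_lit 3))) x31134)
    (Nat.sub (Nat.add (Nat.add (Nat.add (Nat.add (Nat.add (Nat.add (Nat.add (Nat.add (Nat.add C x24576) x15828) x9996) x11940) x11292) x11508) x11436) x11460) x11452) (Nat.mul x11454 (nat_lit 4)))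
    (Nat.sub (Nat.sub (Nat.add (Nat.add (Nat.add (Nat.add (Nat.add (Nat.add (Nat.add (Nat.add (Nat.add (Nat.add C x24580) x15832) x10000) x11944) x11296) x11512) x11440) x11476) x11452) x11460) (Nat.mul x11458 (nat_lit 3))) x31140)
    (Nat.sub (Nat.add (Nat.add (Nat.add (Nat.add (Nat.add (Nat.add (Nat.add (Nat.add (Nat.add (Nat.add (Nat.add C x24582) x15834) x10002) x11946) x11298) x11514) x11442) x11478) x11454) x11466) x11458) (Nat.mul x11460 (nat_lit 2)))
    (Nat.sub (Nat.add (Nat.add (Nat.add (Nat.add (Nat.add (Nat.add (Nat.add (Nat.add C x24588) x15840) x10008) x11952) x11304) x11520) x11484) x11460) (Nat.mul x11466 (nat_lit 2)))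
    (Nat.sub (Nat.sub (Nat.add (Nat.add (Nat.add (Nat.add (Nat.add (Nat.add (Nat.add (Nat.add C x24598) x15850) x10018) x11962) x11314) x11530) x11458) x11478) (Nat.mul x11476 (nat_lit 4))) x31158)
    (Nat.sub (Nat.add (Nat.add (Nat.add (Nat.add (Nat.add (Nat.add (Nat.add (Nat.add (Nat.add C x24600) x15852) x10020) x11964) x11316) x11532) x11460) x11484) x11476) (Nat.mul x11478 (nat_lit 4)))
    (Nat.sub (Nat.add (Nat.add (Nat.add (Nat.add (Nat.add (Nat.add (Nat.add (Nat.add C x24606) x15858) x10026) x11970) x11322) x11538) x11466) x11478) (Nat.mul x11484 (nat_lit 2)))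
    (Nat.sub (Nat.sub (Nat.add (Nat.add (Nat.add (Nat.add (Nat.add (Nat.add (Nat.add C x24626) x15878) x10046) x11990) x11342) x11450) x11506) (Nat.mul x11504 (nat_lit 2))) x31186)
    (Nat.sub (Nat.sub (Nat.add (Nat.add (Nat.add (Nat.add (Nat.add (Nat.add (Nat.add (Nat.add (Nat.add C x24628) x15880) x10048) x11992) x11344) x11452) x11512) x11504) x11508) x11506) x31188)
    (Nat.sub (Nat.add (Nat.add (Nat.add (Nat.add (Nat.add (Nat.add (Nat.add (Nat.add C x24630) x15882) x10050) x11994) x11346) x11454) x11514) x11506) (Nat.mul x11508 (nat_lit 2)))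
    (Nat.sub (Nat.sub (Nat.add (Nat.add (Nat.add (Nat.add (Nat.add (Nat.add (Nat.add (Nat.add (Nat.add C x24634) x15886) x10054) x11998) x11350) x11458) x11530) x11506) x11514) (Nat.mul x11512 (nat_lit 2))) x31194)
    (Nat.sub (Nat.add (Nat.add (Nat.add (Nat.add (Nat.add (Nat.add (Nat.add (Nat.add (Nat.add (Nat.add C x24636) x15888) x10056) x12000) x11352) x11460) x11532) x11508) x11520) x11512) x11514)
    (Nat.sub (Nat.add (Nat.add (Nat.add (Nat.add (Nat.add (Nat.add (Nat.add (Nat.add C x24642) x15894) x10062) x12006) x11358) x11466) x11538) x11514) (Nat.mul x11520 (nat_lit 2)))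
    (Nat.sub (Nat.sub (Nat.add (Nat.add (Nat.add (Nat.add (Nat.add (Nat.add (Nat.add (Nat.add (Nat.add C x24652) x15904) x10072) x12016) x11368) x11476) x11584) x11512) x11532) x11530) x31212)
    (Nat.sub (Nat.add (Nat.add (Nat.add (Nat.add (Nat.add (Nat.add (Nat.add (Nat.add (Nat.add (Nat.add C x24654) x15906) x10074) x12018) x11370) x11478) x11586) x11514) x11538) x11530) x11532)
    (Nat.add (Nat.add (Nat.add (Nat.add (Nat.add (Nat.add (Nat.add (Nat.add (Nat.add (Nat.add C x24660) x15912) x10080) x12024) x11376) x11484) x11592) x11520) x11556) x11532)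
    (Nat.add (Nat.add (Nat.add (Nat.add (Nat.add (Nat.add (Nat.add C x24678) x15930) x10098) x12042) x11394) x11610) x11538)
    (Nat.sub (Nat.add (Nat.add (Nat.add (Nat.add (Nat.add (Nat.add C x24706) x15958) x10126) x12070) x11530) x11586) x31266)
    (Nat.add (Nat.add (Nat.add (Nat.add (Nat.add (Nat.add (Nat.add C x24708) x15960) x10128) x12072) x11532) x11592) x11584)
    (Nat.add (Nat.add (Nat.add (Nat.add (Nat.add (Nat.add (Nat.add C x24714) x15966) x10134) x12078) x11538) x11610) x11586)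
    (Nat.add (Nat.add (Nat.add (Nat.add (Nat.add (Nat.add (Nat.add C (Nat.mul x11610 (nat_lit 2))) x24732) x15984) x10152) x12096) x11556) x11592)
    (Nat.sub (Nat.add (Nat.add (Nat.add (Nat.add (Nat.add (Nat.add C (Nat.mul x11672 (nat_lit 2))) x24794) x16046) x10214) x11186) x11678) x31354)
    (Nat.sub (Nat.add (Nat.add (Nat.add (Nat.add (Nat.add (Nat.add (Nat.add (Nat.add (Nat.add C x11678) x24800) x16052) x10220) x11192) x11696) x11672) x11684) x11680) x31360)
    (Nat.sub (Nat.add (Nat.add (Nat.add (Nat.add (Nat.add (Nat.add (Nat.add (Nat.add C (Nat.mul x11680 (nat_lit 2))) x24802) x16054) x10222) x11194) x11698) x11686) x11678) x31362)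
    (Nat.sub (Nat.sub (Nat.add (Nat.add (Nat.add (Nat.add (Nat.add (Nat.add (Nat.add C x24806) x16058) x10226) x11198) x11702) x11678) x11686) (Nat.mul x11684 (nat_lit 2))) x31366)
    (Nat.sub (Nat.add (Nat.add (Nat.add (Nat.add (Nat.add (Nat.add (Nat.add (Nat.add (Nat.add C x11686) x24808) x16060) x10228) x11200) x11704) x11680) x11684) x11688) x31368)
    (Nat.add (Nat.add (Nat.add (Nat.add (Nat.add (Nat.add (Nat.add C (Nat.mul x11688 (nat_lit 2))) x24810) x16062) x10230) x11202) x11706) x11686)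
    (Nat.sub (Nat.add (Nat.add (Nat.add (Nat.add (Nat.add (Nat.add (Nat.add (Nat.add C x24818) x16070) x10238) x11210) x11750) x11678) x11702) x11698) x31378)
    (Nat.sub (Nat.add (Nat.add (Nat.add (Nat.add (Nat.add (Nat.add (Nat.add (Nat.add C x24820) x16072) x10240) x11212) x11752) x11680) x11704) x11696) x31380)
    (Nat.sub (Nat.sub (Nat.add (Nat.add (Nat.add (Nat.add (Nat.add (Nat.add (Nat.add (Nat.add (Nat.add C x24824) x16076) x10244) x11216) x11756) x11684) x11720) x11696) x11704) x11702) x31384)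
    (Nat.sub (Nat.add (Nat.add (Nat.add (Nat.add (Nat.add (Nat.add (Nat.add (Nat.add (Nat.add (Nat.add (Nat.add (Nat.add C x11704) x24826) x16078) x10246) x11218) x11758) x11686) x11722) x11698) x11710) x11702) x11706) x31386)
    (Nat.add (Nat.add (Nat.add (Nat.add (Nat.add (Nat.add (Nat.add (Nat.add (Nat.add (Nat.add C x11706) x24828) x16080) x10248) x11220) x11760) x11688) x11724) x11712) x11704)
    (Nat.sub (Nat.add (Nat.add (Nat.add (Nat.add (Nat.add (Nat.add (Nat.add (Nat.add C x24832) x16084) x10252) x11224) x11764) x11728) x11704) x11712) x31392)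
    (Nat.add (Nat.add (Nat.add (Nat.add (Nat.add (Nat.add (Nat.add (Nat.add (Nat.add C (Nat.mul x11712 (nat_lit 2))) x24834) x16086) x10254) x11226) x11766) x11730) x11706) x11710)
    (Nat.sub (Nat.sub (Nat.add (Nat.add (Nat.add (Nat.add (Nat.add (Nat.add (Nat.add C x24842) x16094) x10262) x11234) x11774) x11702) x11722) (Nat.mul x11720 (nat_lit 2))) x31402)
    (Nat.sub (Nat.sub (Nat.add (Nat.add (Nat.add (Nat.add (Nat.add (Nat.add (Nat.add (Nat.add (Nat.add C x24844) x16096) x10264) x11236) x11776) x11704) x11728) x11720) x11724) x11722) x31404)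
    (Nat.sub (Nat.add (Nat.add (Nat.add (Nat.add (Nat.add (Nat.add (Nat.add (Nat.add C x24846) x16098) x10266) x11238) x11778) x11706) x11730) x11722) (Nat.mul x11724 (nat_lit 2)))
    (Nat.sub (Nat.add (Nat.add (Nat.add (Nat.add (Nat.add (Nat.add (Nat.add (Nat.add C x24850) x16102) x10270) x11242) x11782) x11710) x11722) x11730) x31410)
    (Nat.add (Nat.add (Nat.add (Nat.add (Nat.add (Nat.add (Nat.add (Nat.add (Nat.add (Nat.add C x11730) x24852) x16104) x10272) x11244) x11784) x11712) x11724) x11736) x11728)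
    (Nat.add (Nat.add (Nat.add (Nat.add (Nat.add (Nat.add (Nat.add C (Nat.mul x11736 (nat_lit 2))) x24858) x16110) x10278) x11250) x11790) x11730)
    (Nat.sub (Nat.add (Nat.add (Nat.add (Nat.add (Nat.add (Nat.add (Nat.add (Nat.add C x24872) x16124) x10292) x11264) x11912) x11696) x11756) x11752) x31432)
    (Nat.sub (Nat.add (Nat.add (Nat.add (Nat.add (Nat.add (Nat.add (Nat.add (Nat.add C x24874) x16126) x10294) x11266) x11914) x11698) x11758) x11750) x31434)
    (Nat.sub (Nat.sub (Nat.add (Nat.add (Nat.add (Nat.add (Nat.add (Nat.add (Nat.add (Nat.add (Nat.add C x24878) x16130) x10298) x11270) x11918) x11702) x11774) x11750) x11758) (Nat.mul x11756 (nat_lit 2))) x31438)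
    (Nat.sub (Nat.add (Nat.add (Nat.add (Nat.add (Nat.add (Nat.add (Nat.add (Nat.add (Nat.add (Nat.add (Nat.add C x24880) x16132) x10300) x11272) x11920) x11704) x11776) x11752) x11764) x11756) x11760) x31440)
    (Nat.add (Nat.add (Nat.add (Nat.add (Nat.add (Nat.add (Nat.add (Nat.add (Nat.add C x24882) x16134) x10302) x11274) x11922) x11706) x11778) x11766) x11758)
    (Nat.sub (Nat.sub (Nat.add (Nat.add (Nat.add (Nat.add (Nat.add (Nat.add (Nat.add (Nat.add (Nat.add C x24886) x16138) x10306) x11278) x11926) x11710) x11782) x11758) x11766) (Nat.mul x11764 (nat_lit 2))) x31446)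
    (Nat.add (Nat.add (Nat.add (Nat.add (Nat.add (Nat.add (Nat.add (Nat.add (Nat.add C x24888) x16140) x10308) x11280) x11928) x11712) x11784) x11760) x11764)
    (Nat.sub (Nat.sub (Nat.add (Nat.add (Nat.add (Nat.add (Nat.add (Nat.add (Nat.add (Nat.add (Nat.add C x24896) x16148) x10316) x11288) x11936) x11720) x11828) x11756) x11776) x11774) x31456)
    (Nat.sub (Nat.add (Nat.add (Nat.add (Nat.add (Nat.add (Nat.add (Nat.add (Nat.add (Nat.add (Nat.add (Nat.add C x24898) x16150) x10318) x11290) x11938) x11722) x11830) x11758) x11782) x11774) x11778) x31458)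
    (Nat.sub (Nat.add (Nat.add (Nat.add (Nat.add (Nat.add (Nat.add (Nat.add (Nat.add (Nat.add (Nat.add C x24900) x16152) x10320) x11292) x11940) x11724) x11832) x11760) x11784) x11776) x11778)
    (Nat.sub (Nat.add (Nat.add (Nat.add (Nat.add (Nat.add (Nat.add (Nat.add (Nat.add (Nat.add (Nat.add (Nat.add C x24904) x16156) x10324) x11296) x11944) x11728) x11836) x11764) x11800) x11776) x11784) x31464)
    (Nat.add (Nat.add (Nat.add (Nat.add (Nat.add (Nat.add (Nat.add (Nat.add (Nat.add (Nat.add (Nat.add (Nat.add (Nat.add C x11784) x24906) x16158) x10326) x11298) x11946) x11730) x11838) x11766) x11802) x11778) x11790) x11782)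
    (Nat.add (Nat.add (Nat.add (Nat.add (Nat.add (Nat.add (Nat.add (Nat.add (Nat.add (Nat.add C x11790) x24912) x16164) x10332) x11304) x11952) x11736) x11844) x11808) x11784)
    (Nat.sub (Nat.add (Nat.add (Nat.add (Nat.add (Nat.add (Nat.add (Nat.add (Nat.add C x24922) x16174) x10342) x11314) x11962) x11854) x11782) x11802) x31482)
    (Nat.add (Nat.add (Nat.add (Nat.add (Nat.add (Nat.add (Nat.add (Nat.add (Nat.add C x24924) x16176) x10344) x11316) x11964) x11856) x11784) x11808) x11800)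
    (Nat.add (Nat.add (Nat.add (Nat.add (Nat.add (Nat.add (Nat.add (Nat.add (Nat.add C (Nat.mul x11808 (nat_lit 2))) x24930) x16182) x10350) x11322) x11970) x11862) x11790) x11802)
    (Nat.sub (Nat.sub (Nat.add (Nat.add (Nat.add (Nat.add (Nat.add (Nat.add (Nat.add C x24950) x16202) x10370) x11342) x11990) x11774) x11830) (Nat.mul x11828 (nat_lit 2))) x31510)
    (Nat.sub (Nat.sub (Nat.add (Nat.add (Nat.add (Nat.add (Nat.add (Nat.add (Nat.add (Nat.add (Nat.add C x24952) x16204) x10372) x11344) x11992) x11776) x11836) x11828) x11832) x11830) x31512)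
    (Nat.sub (Nat.add (Nat.add (Nat.add (Nat.add (Nat.add (Nat.add (Nat.add (Nat.add C x24954) x16206) x10374) x11346) x11994) x11778) x11838) x11830) (Nat.mul x11832 (nat_lit 2)))
    (Nat.sub (Nat.sub (Nat.add (Nat.add (Nat.add (Nat.add (Nat.add (Nat.add (Nat.add (Nat.add (Nat.add C x24958) x16210) x10378) x11350) x11998) x11782) x11854) x11830) x11838) (Nat.mul x11836 (nat_lit 2))) x31518)
    (Nat.sub (Nat.add (Nat.add (Nat.add (Nat.add (Nat.add (Nat.add (Nat.add (Nat.add (Nat.add (Nat.add C x24960) x16212) x10380) x11352) x12000) x11784) x11856) x11832) x11844) x11836) x11838)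
    (Nat.sub (Nat.add (Nat.add (Nat.add (Nat.add (Nat.add (Nat.add (Nat.add (Nat.add C x24966) x16218) x10386) x11358) x12006) x11790) x11862) x11838) (Nat.mul x11844 (nat_lit 2)))
    (Nat.sub (Nat.add (Nat.add (Nat.add (Nat.add (Nat.add (Nat.add (Nat.add (Nat.add C x24976) x16228) x10396) x11368) x12016) x11800) x11836) x11856) x31536)
    (Nat.add (Nat.add (Nat.add (Nat.add (Nat.add (Nat.add (Nat.add (Nat.add (Nat.add C x24978) x16230) x10398) x11370) x12018) x11802) x11838) x11862) x11854)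
    (Nat.add (Nat.add (Nat.add (Nat.add (Nat.add (Nat.add (Nat.add (Nat.add (Nat.add (Nat.add C x11862) x24984) x16236) x10404) x11376) x12024) x11808) x11844) x11880) x11856)
    (Nat.add (Nat.add (Nat.add (Nat.add (Nat.add (Nat.add (Nat.add C (Nat.mul x11880 (nat_lit 2))) x25002) x16254) x10422) x11394) x12042) x11862)
    (Nat.sub (Nat.add (Nat.add (Nat.add (Nat.add (Nat.add (Nat.add (Nat.add (Nat.add (Nat.add C x11912) x25034) x16286) x10454) x11426) x12398) x11750) x11918) x11914) x31594)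
    (Nat.sub (Nat.add (Nat.add (Nat.add (Nat.add (Nat.add (Nat.add (Nat.add (Nat.add (Nat.add C x11914) x25036) x16288) x10456) x11428) x12400) x11752) x11920) x11912) x31596)
    (Nat.sub (Nat.sub (Nat.add (Nat.add (Nat.add (Nat.add (Nat.add (Nat.add (Nat.add (Nat.add (Nat.add C x25040) x16292) x10460) x11432) x12404) x11756) x11936) x11912) x11920) x11918) x31600)
    (Nat.sub (Nat.add (Nat.add (Nat.add (Nat.add (Nat.add (Nat.add (Nat.add (Nat.add (Nat.add (Nat.add (Nat.add (Nat.add C x11920) x25042) x16294) x10462) x11434) x12406) x11758) x11938) x11914) x11926) x11918) x11922) x31602)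
    (Nat.add (Nat.add (Nat.add (Nat.add (Nat.add (Nat.add (Nat.add (Nat.add (Nat.add (Nat.add C x11922) x25044) x16296) x10464) x11436) x12408) x11760) x11940) x11928) x11920)
    (Nat.sub (Nat.sub (Nat.add (Nat.add (Nat.add (Nat.add (Nat.add (Nat.add (Nat.add (Nat.add (Nat.add C x25048) x16300) x10468) x11440) x12412) x11764) x11944) x11920) x11928) x11926) x31608)
    (Nat.add (Nat.add (Nat.add (Nat.add (Nat.add (Nat.add (Nat.add (Nat.add (Nat.add (Nat.add C x11928) x25050) x16302) x10470) x11442) x12414) x11766) x11946) x11922) x11926)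
    (Nat.sub (Nat.sub (Nat.add (Nat.add (Nat.add (Nat.add (Nat.add (Nat.add (Nat.add (Nat.add (Nat.add C x25058) x16310) x10478) x11450) x12422) x11774) x11990) x11918) x11938) x11936) x31618)
    (Nat.sub (Nat.add (Nat.add (Nat.add (Nat.add (Nat.add (Nat.add (Nat.add (Nat.add (Nat.add (Nat.add (Nat.add C x25060) x16312) x10480) x11452) x12424) x11776) x11992) x11920) x11944) x11936) x11940) x31620)
    (Nat.sub (Nat.add (Nat.add (Nat.add (Nat.add (Nat.add (Nat.add (Nat.add (Nat.add (Nat.add (Nat.add C x25062) x16314) x10482) x11454) x12426) x11778) x11994) x11922) x11946) x11938) x11940)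
    (Nat.sub (Nat.add (Nat.add (Nat.add (Nat.add (Nat.add (Nat.add (Nat.add (Nat.add (Nat.add (Nat.add (Nat.add C x25066) x16318) x10486) x11458) x12430) x11782) x11998) x11926) x11962) x11938) x11946) x31626)
    (Nat.add (Nat.add (Nat.add (Nat.add (Nat.add (Nat.add (Nat.add (Nat.add (Nat.add (Nat.add (Nat.add (Nat.add (Nat.add C x11946) x25068) x16320) x10488) x11460) x12432) x11784) x12000) x11928) x11964) x11940) x11952) x11944)
    (Nat.add (Nat.add (Nat.add (Nat.add (Nat.add (Nat.add (Nat.add (Nat.add (Nat.add (Nat.add C x11952) x25074) x16326) x10494) x11466) x12438) x11790) x12006) x11970) x11946)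
    (Nat.sub (Nat.sub (Nat.add (Nat.add (Nat.add (Nat.add (Nat.add (Nat.add (Nat.add (Nat.add (Nat.add C x25084) x16336) x10504) x11476) x12448) x11800) x12016) x11944) x11964) x11962) x31644)
    (Nat.sub (Nat.add (Nat.add (Nat.add (Nat.add (Nat.add (Nat.add (Nat.add (Nat.add (Nat.add (Nat.add C x25086) x16338) x10506) x11478) x12450) x11802) x12018) x11946) x11970) x11962) x11964)
    (Nat.add (Nat.add (Nat.add (Nat.add (Nat.add (Nat.add (Nat.add (Nat.add (Nat.add (Nat.add C x11970) x25092) x16344) x10512) x11484) x12456) x11808) x12024) x11952) x11964)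
    (Nat.sub (Nat.add (Nat.add (Nat.add (Nat.add (Nat.add (Nat.add (Nat.add (Nat.add (Nat.add C x25112) x16364) x10532) x11504) x12476) x11828) x12152) x11936) x11992) x31672)
    (Nat.sub (Nat.add (Nat.add (Nat.add (Nat.add (Nat.add (Nat.add (Nat.add (Nat.add (Nat.add (Nat.add (Nat.add (Nat.add C x11992) x25114) x16366) x10534) x11506) x12478) x11830) x12154) x11938) x11998) x11990) x11994) x31674)
    (Nat.add (Nat.add (Nat.add (Nat.add (Nat.add (Nat.add (Nat.add (Nat.add (Nat.add (Nat.add C x25116) x16368) x10536) x11508) x12480) x11832) x12156) x11940) x12000) x11992)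
    (Nat.sub (Nat.add (Nat.add (Nat.add (Nat.add (Nat.add (Nat.add (Nat.add (Nat.add (Nat.add (Nat.add (Nat.add C x25120) x16372) x10540) x11512) x12484) x11836) x12160) x11944) x12016) x11992) x12000) x31680)
    (Nat.add (Nat.add (Nat.add (Nat.add (Nat.add (Nat.add (Nat.add (Nat.add (Nat.add (Nat.add (Nat.add (Nat.add (Nat.add C x12000) x25122) x16374) x10542) x11514) x12486) x11838) x12162) x11946) x12018) x11994) x12006) x11998)
    (Nat.add (Nat.add (Nat.add (Nat.add (Nat.add (Nat.add (Nat.add (Nat.add (Nat.add (Nat.add C x25128) x16380) x10548) x11520) x12492) x11844) x12168) x11952) x12024) x12000)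
    (Nat.sub (Nat.add (Nat.add (Nat.add (Nat.add (Nat.add (Nat.add (Nat.add (Nat.add (Nat.add (Nat.add (Nat.add (Nat.add C x12016) x25138) x16390) x10558) x11530) x12502) x11854) x12178) x11962) x12070) x11998) x12018) x31698)
    (Nat.add (Nat.add (Nat.add (Nat.add (Nat.add (Nat.add (Nat.add (Nat.add (Nat.add (Nat.add (Nat.add (Nat.add (Nat.add C x12018) x25140) x16392) x10560) x11532) x12504) x11856) x12180) x11964) x12072) x12000) x12024) x12016)
    (Nat.add (Nat.add (Nat.add (Nat.add (Nat.add (Nat.add (Nat.add (Nat.add (Nat.add (Nat.add (Nat.add (Nat.add (Nat.add C (Nat.mul x12024 (nat_lit 2))) x25146) x16398) x10566) x11538) x12510) x11862) x12186) x11970) x12078) x12006) x12042) x12018)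
    (Nat.add (Nat.add (Nat.add (Nat.add (Nat.add (Nat.add (Nat.add (Nat.add (Nat.add (Nat.add C (Nat.mul x12042 (nat_lit 2))) x25164) x16416) x10584) x11556) x12528) x11880) x12204) x12096) x12024)
    (Nat.sub (Nat.add (Nat.add (Nat.add (Nat.add (Nat.add (Nat.add (Nat.add (Nat.add (Nat.add C x12070) x25192) x16444) x10612) x11584) x12556) x12232) x12016) x12072) x31752)
    (Nat.add (Nat.add (Nat.add (Nat.add (Nat.add (Nat.add (Nat.add (Nat.add (Nat.add (Nat.add C x12072) x25194) x16446) x10614) x11586) x12558) x12234) x12018) x12078) x12070)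
    (Nat.add (Nat.add (Nat.add (Nat.add (Nat.add (Nat.add (Nat.add (Nat.add (Nat.add (Nat.add C x12078) x25200) x16452) x10620) x11592) x12564) x12240) x12024) x12096) x12072)
    (Nat.add (Nat.add (Nat.add (Nat.add (Nat.add (Nat.add (Nat.add (Nat.add (Nat.add C (Nat.mul x12096 (nat_lit 3))) x25218) x16470) x10638) x11610) x12582) x12258) x12042) x12078)
    (Nat.sub (Nat.add (Nat.add (Nat.add (Nat.add (Nat.add (Nat.add C x25274) x16526) x10694) x12638) x11990) x12154) x31834)
    (Nat.sub (Nat.add (Nat.add (Nat.add (Nat.add (Nat.add (Nat.add (Nat.add (Nat.add (Nat.add C x12154) x25276) x16528) x10696) x12640) x11992) x12160) x12152) x12156) x31836)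
    (Nat.add (Nat.add (Nat.add (Nat.add (Nat.add (Nat.add (Nat.add C x25278) x16530) x10698) x12642) x11994) x12162) x12154)
    (Nat.sub (Nat.add (Nat.add (Nat.add (Nat.add (Nat.add (Nat.add (Nat.add (Nat.add C x25282) x16534) x10702) x12646) x11998) x12178) x12154) x12162) x31842)
    (Nat.add (Nat.add (Nat.add (Nat.add (Nat.add (Nat.add (Nat.add (Nat.add (Nat.add (Nat.add C x12162) x25284) x16536) x10704) x12648) x12000) x12180) x12156) x12168) x12160)
    (Nat.add (Nat.add (Nat.add (Nat.add (Nat.add (Nat.add (Nat.add C x25290) x16542) x10710) x12654) x12006) x12186) x12162)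
    (Nat.sub (Nat.add (Nat.add (Nat.add (Nat.add (Nat.add (Nat.add (Nat.add (Nat.add C x25300) x16552) x10720) x12664) x12016) x12232) x12160) x12180) x31860)
    (Nat.add (Nat.add (Nat.add (Nat.add (Nat.add (Nat.add (Nat.add (Nat.add (Nat.add C x25302) x16554) x10722) x12666) x12018) x12234) x12162) x12186) x12178)
    (Nat.add (Nat.add (Nat.add (Nat.add (Nat.add (Nat.add (Nat.add (Nat.add (Nat.add (Nat.add C x12186) x25308) x16560) x10728) x12672) x12024) x12240) x12168) x12204) x12180)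
    (Nat.add (Nat.add (Nat.add (Nat.add (Nat.add (Nat.add (Nat.add C x25326) x16578) x10746) x12690) x12042) x12258) x12186)
    (Nat.sub (Nat.add (Nat.add (Nat.add (Nat.add (Nat.add (Nat.add (Nat.add (Nat.add C (Nat.mul x12232 (nat_lit 2))) x25354) x16606) x10774) x12718) x12070) x12178) x12234) x31914)
    (Nat.add (Nat.add (Nat.add (Nat.add (Nat.add (Nat.add (Nat.add (Nat.add (Nat.add C (Nat.mul x12234 (nat_lit 2))) x25356) x16608) x10776) x12720) x12072) x12180) x12240) x12232)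
    (Nat.add (Nat.add (Nat.add (Nat.add (Nat.add (Nat.add (Nat.add (Nat.add (Nat.add C (Nat.mul x12240 (nat_lit 2))) x25362) x16614) x10782) x12726) x12078) x12186) x12258) x12234)
    (Nat.add (Nat.add (Nat.add (Nat.add (Nat.add (Nat.add (Nat.add (Nat.add (Nat.add C (Nat.mul x12258 (nat_lit 3))) x25380) x16632) x10800) x12744) x12096) x12204) x12312) x12240)
    (Nat.add (Nat.add (Nat.add (Nat.add (Nat.add (Nat.add C (Nat.mul x12312 (nat_lit 4))) x25434) x16686) x10854) x12798) x12258)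
    (Nat.sub (Nat.add (Nat.add (Nat.add (Nat.add (Nat.add (Nat.add C (Nat.mul x12398 (nat_lit 2))) x25520) x16772) x11912) x12404) x12400) x32080)
    (Nat.sub (Nat.add (Nat.add (Nat.add (Nat.add (Nat.add (Nat.add C (Nat.mul x12400 (nat_lit 2))) x25522) x16774) x11914) x12406) x12398) x32082)
    (Nat.sub (Nat.add (Nat.add (Nat.add (Nat.add (Nat.add (Nat.add C x25526) x16778) x11918) x12422) x12398) x12406) x32086)
    (Nat.sub (Nat.add (Nat.add (Nat.add (Nat.add (Nat.add (Nat.add (Nat.add (Nat.add (Nat.add C (Nat.mul x12406 (nat_lit 2))) x25528) x16780) x11920) x12424) x12400) x12412) x12404) x12408) x32088)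
    (Nat.add (Nat.add (Nat.add (Nat.add (Nat.add (Nat.add (Nat.add C (Nat.mul x12408 (nat_lit 2))) x25530) x16782) x11922) x12426) x12414) x12406)
    (Nat.sub (Nat.add (Nat.add (Nat.add (Nat.add (Nat.add (Nat.add C x25534) x16786) x11926) x12430) x12406) x12414) x32094)
    (Nat.add (Nat.add (Nat.add (Nat.add (Nat.add (Nat.add (Nat.add C (Nat.mul x12414 (nat_lit 2))) x25536) x16788) x11928) x12432) x12408) x12412)
    (Nat.sub (Nat.add (Nat.add (Nat.add (Nat.add (Nat.add (Nat.add C x25544) x16796) x11936) x12476) x12404) x12424) x32104)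
    (Nat.sub (Nat.add (Nat.add (Nat.add (Nat.add (Nat.add (Nat.add (Nat.add (Nat.add (Nat.add C x12424) x25546) x16798) x11938) x12478) x12406) x12430) x12422) x12426) x32106)
    (Nat.add (Nat.add (Nat.add (Nat.add (Nat.add (Nat.add (Nat.add C x25548) x16800) x11940) x12480) x12408) x12432) x12424)
    (Nat.sub (Nat.add (Nat.add (Nat.add (Nat.add (Nat.add (Nat.add (Nat.add (Nat.add (Nat.add C x12430) x25552) x16804) x11944) x12484) x12412) x12448) x12424) x12432) x32112)
    (Nat.add (Nat.add (Nat.add (Nat.add (Nat.add (Nat.add (Nat.add (Nat.add (Nat.add (Nat.add C (Nat.mul x12432 (nat_lit 2))) x25554) x16806) x11946) x12486) x12414) x12450) x12426) x12438) x12430)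
    (Nat.add (Nat.add (Nat.add (Nat.add (Nat.add (Nat.add (Nat.add C (Nat.mul x12438 (nat_lit 2))) x25560) x16812) x11952) x12492) x12456) x12432)
    (Nat.sub (Nat.add (Nat.add (Nat.add (Nat.add (Nat.add (Nat.add C x25570) x16822) x11962) x12502) x12430) x12450) x32130)
    (Nat.add (Nat.add (Nat.add (Nat.add (Nat.add (Nat.add (Nat.add C x25572) x16824) x11964) x12504) x12432) x12456) x12448)
    (Nat.add (Nat.add (Nat.add (Nat.add (Nat.add (Nat.add (Nat.add C (Nat.mul x12456 (nat_lit 2))) x25578) x16830) x11970) x12510) x12438) x12450)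
    (Nat.sub (Nat.add (Nat.add (Nat.add (Nat.add (Nat.add (Nat.add C x25598) x16850) x11990) x12638) x12422) x12478) x32158)
    (Nat.sub (Nat.add (Nat.add (Nat.add (Nat.add (Nat.add (Nat.add (Nat.add (Nat.add (Nat.add C x12478) x25600) x16852) x11992) x12640) x12424) x12484) x12476) x12480) x32160)
    (Nat.add (Nat.add (Nat.add (Nat.add (Nat.add (Nat.add (Nat.add C x25602) x16854) x11994) x12642) x12426) x12486) x12478)
    (Nat.sub (Nat.add (Nat.add (Nat.add (Nat.add (Nat.add (Nat.add (Nat.add (Nat.add C x25606) x16858) x11998) x12646) x12430) x12502) x12478) x12486) x32166)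
    (Nat.add (Nat.add (Nat.add (Nat.add (Nat.add (Nat.add (Nat.add (Nat.add (Nat.add (Nat.add C x12486) x25608) x16860) x12000) x12648) x12432) x12504) x12480) x12492) x12484)
    (Nat.add (Nat.add (Nat.add (Nat.add (Nat.add (Nat.add (Nat.add C x25614) x16866) x12006) x12654) x12438) x12510) x12486)
    (Nat.sub (Nat.add (Nat.add (Nat.add (Nat.add (Nat.add (Nat.add (Nat.add (Nat.add (Nat.add C x12502) x25624) x16876) x12016) x12664) x12448) x12556) x12484) x12504) x32184)
    (Nat.add (Nat.add (Nat.add (Nat.add (Nat.add (Nat.add (Nat.add (Nat.add (Nat.add (Nat.add C x12504) x25626) x16878) x12018) x12666) x12450) x12558) x12486) x12510) x12502)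
    (Nat.add (Nat.add (Nat.add (Nat.add (Nat.add (Nat.add (Nat.add (Nat.add (Nat.add (Nat.add C (Nat.mul x12510 (nat_lit 2))) x25632) x16884) x12024) x12672) x12456) x12564) x12492) x12528) x12504)
    (Nat.add (Nat.add (Nat.add (Nat.add (Nat.add (Nat.add (Nat.add C (Nat.mul x12528 (nat_lit 2))) x25650) x16902) x12042) x12690) x12582) x12510)
    (Nat.sub (Nat.add (Nat.add (Nat.add (Nat.add (Nat.add (Nat.add C x25678) x16930) x12070) x12718) x12502) x12558) x32238)
    (Nat.add (Nat.add (Nat.add (Nat.add (Nat.add (Nat.add (Nat.add C x25680) x16932) x12072) x12720) x12504) x12564) x12556)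
    (Nat.add (Nat.add (Nat.add (Nat.add (Nat.add (Nat.add (Nat.add C x25686) x16938) x12078) x12726) x12510) x12582) x12558)
    (Nat.add (Nat.add (Nat.add (Nat.add (Nat.add (Nat.add (Nat.add C (Nat.mul x12582 (nat_lit 2))) x25704) x16956) x12096) x12744) x12528) x12564)
    (Nat.sub (Nat.add (Nat.add (Nat.add (Nat.add (Nat.add (Nat.add C (Nat.mul x12638 (nat_lit 2))) x25760) x17012) x12152) x12476) x12640) x32320)
    (Nat.sub (Nat.add (Nat.add (Nat.add (Nat.add (Nat.add (Nat.add (Nat.add (Nat.add C (Nat.mul x12640 (nat_lit 3))) x25762) x17014) x12154) x12478) x12646) x12638) x12642) x32322)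
    (Nat.add (Nat.add (Nat.add (Nat.add (Nat.add (Nat.add (Nat.add C (Nat.mul x12642 (nat_lit 2))) x25764) x17016) x12156) x12480) x12648) x12640)
    (Nat.sub (Nat.add (Nat.add (Nat.add (Nat.add (Nat.add (Nat.add (Nat.add (Nat.add C (Nat.mul x12646 (nat_lit 2))) x25768) x17020) x12160) x12484) x12664) x12640) x12648) x32328)
    (Nat.add (Nat.add (Nat.add (Nat.add (Nat.add (Nat.add (Nat.add (Nat.add (Nat.add C (Nat.mul x12648 (nat_lit 3))) x25770) x17022) x12162) x12486) x12666) x12642) x12654) x12646)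
    (Nat.add (Nat.add (Nat.add (Nat.add (Nat.add (Nat.add (Nat.add C (Nat.mul x12654 (nat_lit 2))) x25776) x17028) x12168) x12492) x12672) x12648)
    (Nat.sub (Nat.add (Nat.add (Nat.add (Nat.add (Nat.add (Nat.add (Nat.add (Nat.add C (Nat.mul x12664 (nat_lit 2))) x25786) x17038) x12178) x12502) x12718) x12646) x12666) x32346)
    (Nat.add (Nat.add (Nat.add (Nat.add (Nat.add (Nat.add (Nat.add (Nat.add (Nat.add C (Nat.mul x12666 (nat_lit 2))) x25788) x17040) x12180) x12504) x12720) x12648) x12672) x12664)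
    (Nat.add (Nat.add (Nat.add (Nat.add (Nat.add (Nat.add (Nat.add (Nat.add (Nat.add C (Nat.mul x12672 (nat_lit 3))) x25794) x17046) x12186) x12510) x12726) x12654) x12690) x12666)
    (Nat.add (Nat.add (Nat.add (Nat.add (Nat.add (Nat.add (Nat.add C (Nat.mul x12690 (nat_lit 2))) x25812) x17064) x12204) x12528) x12744) x12672)
    (Nat.sub (Nat.add (Nat.add (Nat.add (Nat.add (Nat.add (Nat.add (Nat.add (Nat.add C (Nat.mul x12718 (nat_lit 3))) x25840) x17092) x12232) x12556) x12880) x12664) x12720) x32400)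
    (Nat.add (Nat.add (Nat.add (Nat.add (Nat.add (Nat.add (Nat.add (Nat.add (Nat.add C (Nat.mul x12720 (nat_lit 3))) x25842) x17094) x12234) x12558) x12882) x12666) x12726) x12718)
    (Nat.add (Nat.add (Nat.add (Nat.add (Nat.add (Nat.add (Nat.add (Nat.add (Nat.add C (Nat.mul x12726 (nat_lit 3))) x25848) x17100) x12240) x12564) x12888) x12672) x12744) x12720)
    (Nat.add (Nat.add (Nat.add (Nat.add (Nat.add (Nat.add (Nat.add (Nat.add (Nat.add C (Nat.mul x12744 (nat_lit 4))) x25866) x17118) x12258) x12582) x12906) x12690) x12798) x12726)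
    (Nat.add (Nat.add (Nat.add (Nat.add (Nat.add (Nat.add C (Nat.mul x12798 (nat_lit 4))) x25920) x17172) x12312) x12960) x12744)
    (Nat.sub (Nat.add (Nat.add (Nat.add (Nat.add (Nat.add C (Nat.mul x12880 (nat_lit 4))) x26002) x17254) x12718) x12882) x32562)
    (Nat.add (Nat.add (Nat.add (Nat.add (Nat.add (Nat.add C (Nat.mul x12882 (nat_lit 4))) x26004) x17256) x12720) x12888) x12880)
    (Nat.add (Nat.add (Nat.add (Nat.add (Nat.add (Nat.add C (Nat.mul x12888 (nat_lit 4))) x26010) x17262) x12726) x12906) x12882)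
    (Nat.add (Nat.add (Nat.add (Nat.add (Nat.add (Nat.add C (Nat.mul x12906 (nat_lit 4))) x26028) x17280) x12744) x12960) x12888)
    (Nat.add (Nat.add (Nat.add (Nat.add (Nat.add C (Nat.mul x12960 (nat_lit 6))) x26082) x17334) x12798) x12906)
    (Nat.sub (Nat.add (Nat.add (Nat.add (Nat.add C (Nat.mul x13148 (nat_lit 2))) x26270) x8774) x13166) x32830)
    (Nat.sub (Nat.add (Nat.add (Nat.add (Nat.add (Nat.add (Nat.add (Nat.add C x13166) x26288) x8792) x13220) x13148) x13184) x13172) x32848)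
    (Nat.sub (Nat.add (Nat.add (Nat.add (Nat.add (Nat.add (Nat.add C x26294) x8798) x13226) x13190) x13166) x13174) x32854)
    (Nat.sub (Nat.add (Nat.add (Nat.add (Nat.add (Nat.add (Nat.add C (Nat.mul x13174 (nat_lit 2))) x26296) x8800) x13228) x13192) x13172) x32856)
    (Nat.sub (Nat.sub (Nat.add (Nat.add (Nat.add (Nat.add (Nat.add C x26306) x8810) x13238) x13166) x13190) (Nat.mul x13184 (nat_lit 2))) x32866)
    (Nat.sub (Nat.sub (Nat.add (Nat.add (Nat.add (Nat.add (Nat.add (Nat.add (Nat.add C x26312) x8816) x13244) x13172) x13184) x13196) x13192) x13190) x32872)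
    (Nat.sub (Nat.add (Nat.add (Nat.add (Nat.add (Nat.add (Nat.add C x26314) x8818) x13246) x13174) x13198) x13190) x32874)
    (Nat.sub (Nat.sub (Nat.add (Nat.add (Nat.add (Nat.add (Nat.add C x26318) x8822) x13250) x13190) x13198) (Nat.mul x13196 (nat_lit 2))) x32878)
    (Nat.sub (Nat.add (Nat.add (Nat.add (Nat.add (Nat.add (Nat.add (Nat.add C x13198) x26320) x8824) x13252) x13192) x13196) x13200) x32880)
    (Nat.add (Nat.add (Nat.add (Nat.add (Nat.add C (Nat.mul x13200 (nat_lit 2))) x26322) x8826) x13254) x13198)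
    (Nat.sub (Nat.add (Nat.add (Nat.add (Nat.add (Nat.add (Nat.add C x26342) x8846) x13382) x13166) x13238) x13226) x32902)
    (Nat.sub (Nat.sub (Nat.add (Nat.add (Nat.add (Nat.add (Nat.add (Nat.add (Nat.add C x26348) x8852) x13388) x13172) x13244) x13220) x13228) (Nat.mul x13226 (nat_lit 2))) x32908)
    (Nat.sub (Nat.add (Nat.add (Nat.add (Nat.add (Nat.add (Nat.add C x26350) x8854) x13390) x13174) x13246) x13226) x32910)
    (Nat.sub (Nat.sub (Nat.add (Nat.add (Nat.add (Nat.add (Nat.add (Nat.add (Nat.add C x26360) x8864) x13400) x13184) x13292) x13220) x13244) x13238) x32920)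
    (Nat.sub (Nat.sub (Nat.add (Nat.add (Nat.add (Nat.add (Nat.add (Nat.add (Nat.add (Nat.add (Nat.add (Nat.add C x26366) x8870) x13406) x13190) x13298) x13226) x13262) x13238) x13250) x13246) x13244) x32926)
    (Nat.sub (Nat.add (Nat.add (Nat.add (Nat.add (Nat.add (Nat.add (Nat.add (Nat.add (Nat.add C x26368) x8872) x13408) x13192) x13300) x13228) x13264) x13252) x13244) x32928)
    (Nat.sub (Nat.sub (Nat.add (Nat.add (Nat.add (Nat.add (Nat.add (Nat.add (Nat.add (Nat.add C x26372) x8876) x13412) x13196) x13304) x13268) x13244) x13252) (Nat.mul x13250 (nat_lit 3))) x32932)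
    (Nat.sub (Nat.add (Nat.add (Nat.add (Nat.add (Nat.add (Nat.add (Nat.add (Nat.add (Nat.add C x26374) x8878) x13414) x13198) x13306) x13270) x13246) x13250) x13254) x32934)
    (Nat.add (Nat.add (Nat.add (Nat.add (Nat.add (Nat.add (Nat.add (Nat.add C x13254) x26376) x8880) x13416) x13200) x13308) x13272) x13252)
    (Nat.sub (Nat.sub (Nat.add (Nat.add (Nat.add (Nat.add (Nat.add (Nat.add (Nat.add C x26384) x8888) x13424) x13316) x13244) x13268) x13264) (Nat.mul x13262 (nat_lit 2))) x32944)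
    (Nat.sub (Nat.sub (Nat.add (Nat.add (Nat.add (Nat.add (Nat.add (Nat.add (Nat.add C x26386) x8890) x13426) x13318) x13246) x13270) x13262) (Nat.mul x13264 (nat_lit 2))) x32946)
    (Nat.sub (Nat.sub (Nat.add (Nat.add (Nat.add (Nat.add (Nat.add (Nat.add (Nat.add C x26390) x8894) x13430) x13322) x13250) x13262) x13270) (Nat.mul x13268 (nat_lit 2))) x32950)
    (Nat.sub (Nat.add (Nat.add (Nat.add (Nat.add (Nat.add (Nat.add (Nat.add (Nat.add (Nat.add C x26392) x8896) x13432) x13324) x13252) x13264) x13276) x13268) x13272) x32952)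
    (Nat.add (Nat.add (Nat.add (Nat.add (Nat.add (Nat.add (Nat.add C x26394) x8898) x13434) x13326) x13254) x13278) x13270)
    (Nat.sub (Nat.add (Nat.add (Nat.add (Nat.add (Nat.add (Nat.add C x26398) x8902) x13438) x13330) x13270) x13278) x32958)
    (Nat.add (Nat.add (Nat.add (Nat.add (Nat.add (Nat.add (Nat.add C (Nat.mul x13278 (nat_lit 2))) x26400) x8904) x13440) x13332) x13272) x13276)
    (Nat.sub (Nat.sub (Nat.add (Nat.add (Nat.add (Nat.add (Nat.add C x26414) x8918) x13454) x13238) x13298) (Nat.mul x13292 (nat_lit 2))) x32974)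
    (Nat.sub (Nat.sub (Nat.add (Nat.add (Nat.add (Nat.add (Nat.add (Nat.add (Nat.add (Nat.add C x26420) x8924) x13460) x13244) x13316) x13292) x13304) x13300) (Nat.mul x13298 (nat_lit 3))) x32980)
    (Nat.sub (Nat.sub (Nat.add (Nat.add (Nat.add (Nat.add (Nat.add (Nat.add (Nat.add C x26422) x8926) x13462) x13246) x13318) x13306) x13298) (Nat.mul x13300 (nat_lit 2))) x32982)
    (Nat.sub (Nat.sub (Nat.add (Nat.add (Nat.add (Nat.add (Nat.add (Nat.add (Nat.add C x26426) x8930) x13466) x13250) x13322) x13298) x13306) (Nat.mul x13304 (nat_lit 6))) x32986)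
    (Nat.sub (Nat.sub (Nat.add (Nat.add (Nat.add (Nat.add (Nat.add (Nat.add (Nat.add (Nat.add C x26428) x8932) x13468) x13252) x13324) x13300) x13304) x13308) (Nat.mul x13306 (nat_lit 3))) x32988)
    (Nat.sub (Nat.add (Nat.add (Nat.add (Nat.add (Nat.add (Nat.add C x26430) x8934) x13470) x13254) x13326) x13306) (Nat.mul x13308 (nat_lit 2)))
    (Nat.sub (Nat.sub (Nat.add (Nat.add (Nat.add (Nat.add (Nat.add (Nat.add (Nat.add C x26438) x8942) x13478) x13262) x13298) x13322) x13318) (Nat.mul x13316 (nat_lit 2))) x32998)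
    (Nat.sub (Nat.sub (Nat.add (Nat.add (Nat.add (Nat.add (Nat.add (Nat.add (Nat.add C x26440) x8944) x13480) x13264) x13300) x13324) x13316) (Nat.mul x13318 (nat_lit 2))) x33000)
    (Nat.sub (Nat.sub (Nat.add (Nat.add (Nat.add (Nat.add (Nat.add (Nat.add (Nat.add (Nat.add C x26444) x8948) x13484) x13268) x13304) x13340) x13316) x13324) (Nat.mul x13322 (nat_lit 3))) x33004)
    (Nat.sub (Nat.sub (Nat.add (Nat.add (Nat.add (Nat.add (Nat.add (Nat.add (Nat.add (Nat.add (Nat.add (Nat.add C x26446) x8950) x13486) x13270) x13306) x13342) x13318) x13330) x13322) x13326) x13324) x33006)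
    (Nat.sub (Nat.add (Nat.add (Nat.add (Nat.add (Nat.add (Nat.add (Nat.add (Nat.add C x26448) x8952) x13488) x13272) x13308) x13344) x13332) x13324) x13326)
    (Nat.sub (Nat.sub (Nat.add (Nat.add (Nat.add (Nat.add (Nat.add (Nat.add (Nat.add C x26452) x8956) x13492) x13276) x13348) x13324) x13332) (Nat.mul x13330 (nat_lit 2))) x33012)
    (Nat.add (Nat.add (Nat.add (Nat.add (Nat.add (Nat.add (Nat.add C x26454) x8958) x13494) x13278) x13350) x13326) x13330)
    (Nat.sub (Nat.sub (Nat.add (Nat.add (Nat.add (Nat.add (Nat.add C x26462) x8966) x13502) x13322) x13342) (Nat.mul x13340 (nat_lit 2))) x33022)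
    (Nat.sub (Nat.sub (Nat.add (Nat.add (Nat.add (Nat.add (Nat.add (Nat.add (Nat.add C x26464) x8968) x13504) x13324) x13348) x13340) x13344) x13342) x33024)
    (Nat.sub (Nat.add (Nat.add (Nat.add (Nat.add (Nat.add (Nat.add C x26466) x8970) x13506) x13326) x13350) x13342) (Nat.mul x13344 (nat_lit 2)))
    (Nat.sub (Nat.add (Nat.add (Nat.add (Nat.add (Nat.add (Nat.add C x26470) x8974) x13510) x13330) x13342) x13350) x33030)
    (Nat.add (Nat.add (Nat.add (Nat.add (Nat.add (Nat.add (Nat.add (Nat.add C x13350) x26472) x8976) x13512) x13332) x13344) x13356) x13348)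
    (Nat.add (Nat.add (Nat.add (Nat.add (Nat.add C (Nat.mul x13356 (nat_lit 2))) x26478) x8982) x13518) x13350)
    (Nat.sub (Nat.add (Nat.add (Nat.add (Nat.add (Nat.add (Nat.add C x26504) x9008) x13868) x13220) x13400) x13388) x33064)
    (Nat.sub (Nat.sub (Nat.add (Nat.add (Nat.add (Nat.add (Nat.add (Nat.add (Nat.add C x26510) x9014) x13874) x13226) x13406) x13382) x13390) (Nat.mul x13388 (nat_lit 2))) x33070)
    (Nat.sub (Nat.add (Nat.add (Nat.add (Nat.add (Nat.add (Nat.add C x26512) x9016) x13876) x13228) x13408) x13388) x33072)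
    (Nat.sub (Nat.sub (Nat.add (Nat.add (Nat.add (Nat.add (Nat.add (Nat.add (Nat.add C x26522) x9026) x13886) x13238) x13454) x13382) x13406) (Nat.mul x13400 (nat_lit 2))) x33082)
    (Nat.sub (Nat.sub (Nat.add (Nat.add (Nat.add (Nat.add (Nat.add (Nat.add (Nat.add (Nat.add (Nat.add (Nat.add C x26528) x9032) x13892) x13244) x13460) x13388) x13424) x13400) x13412) x13408) (Nat.mul x13406 (nat_lit 2))) x33088)
    (Nat.sub (Nat.sub (Nat.add (Nat.add (Nat.add (Nat.add (Nat.add (Nat.add (Nat.add (Nat.add (Nat.add C x26530) x9034) x13894) x13246) x13462) x13390) x13426) x13414) x13406) x13408) x33090)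
    (Nat.sub (Nat.sub (Nat.add (Nat.add (Nat.add (Nat.add (Nat.add (Nat.add (Nat.add (Nat.add C x26534) x9038) x13898) x13250) x13466) x13430) x13406) x13414) (Nat.mul x13412 (nat_lit 4))) x33094)
    (Nat.sub (Nat.sub (Nat.add (Nat.add (Nat.add (Nat.add (Nat.add (Nat.add (Nat.add (Nat.add (Nat.add C x26536) x9040) x13900) x13252) x13468) x13432) x13408) x13412) x13416) x13414) x33096)
    (Nat.add (Nat.add (Nat.add (Nat.add (Nat.add (Nat.add (Nat.add C x26538) x9042) x13902) x13254) x13470) x13434) x13414)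
    (Nat.sub (Nat.sub (Nat.add (Nat.add (Nat.add (Nat.add (Nat.add (Nat.add (Nat.add (Nat.add C x26546) x9050) x13910) x13262) x13478) x13406) x13430) x13426) (Nat.mul x13424 (nat_lit 4))) x33106)
    (Nat.sub (Nat.sub (Nat.add (Nat.add (Nat.add (Nat.add (Nat.add (Nat.add (Nat.add (Nat.add C x26548) x9052) x13912) x13264) x13480) x13408) x13432) x13424) (Nat.mul x13426 (nat_lit 4))) x33108)
    (Nat.sub (Nat.sub (Nat.add (Nat.add (Nat.add (Nat.add (Nat.add (Nat.add (Nat.add (Nat.add C x26552) x9056) x13916) x13268) x13484) x13412) x13424) x13432) (Nat.mul x13430 (nat_lit 4))) x33112)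
    (Nat.sub (Nat.sub (Nat.add (Nat.add (Nat.add (Nat.add (Nat.add (Nat.add (Nat.add (Nat.add (Nat.add (Nat.add C x26554) x9058) x13918) x13270) x13486) x13414) x13426) x13438) x13430) x13434) (Nat.mul x13432 (nat_lit 2))) x33114)
    (Nat.sub (Nat.add (Nat.add (Nat.add (Nat.add (Nat.add (Nat.add (Nat.add (Nat.add C x26556) x9060) x13920) x13272) x13488) x13416) x13440) x13432) (Nat.mul x13434 (nat_lit 2)))
    (Nat.sub (Nat.sub (Nat.add (Nat.add (Nat.add (Nat.add (Nat.add (Nat.add (Nat.add C x26560) x9064) x13924) x13276) x13492) x13432) x13440) (Nat.mul x13438 (nat_lit 2))) x33120)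
    (Nat.add (Nat.add (Nat.add (Nat.add (Nat.add (Nat.add (Nat.add C x26562) x9066) x13926) x13278) x13494) x13434) x13438)
    (Nat.sub (Nat.sub (Nat.add (Nat.add (Nat.add (Nat.add (Nat.add (Nat.add (Nat.add C x26576) x9080) x13940) x13292) x13616) x13400) x13460) x13454) x33136)
    (Nat.sub (Nat.sub (Nat.add (Nat.add (Nat.add (Nat.add (Nat.add (Nat.add (Nat.add (Nat.add (Nat.add (Nat.add C x26582) x9086) x13946) x13298) x13622) x13406) x13478) x13454) x13466) x13462) (Nat.mul x13460 (nat_lit 2))) x33142)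
    (Nat.sub (Nat.sub (Nat.add (Nat.add (Nat.add (Nat.add (Nat.add (Nat.add (Nat.add (Nat.add (Nat.add C x26584) x9088) x13948) x13300) x13624) x13408) x13480) x13468) x13460) x13462) x33144)
    (Nat.sub (Nat.sub (Nat.add (Nat.add (Nat.add (Nat.add (Nat.add (Nat.add (Nat.add (Nat.add (Nat.add C x26588) x9092) x13952) x13304) x13628) x13412) x13484) x13460) x13468) (Nat.mul x13466 (nat_lit 5))) x33148)
    (Nat.sub (Nat.sub (Nat.add (Nat.add (Nat.add (Nat.add (Nat.add (Nat.add (Nat.add (Nat.add (Nat.add (Nat.add C x26590) x9094) x13954) x13306) x13630) x13414) x13486) x13462) x13466) x13470) (Nat.mul x13468 (nat_lit 2))) x33150)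
    (Nat.sub (Nat.add (Nat.add (Nat.add (Nat.add (Nat.add (Nat.add (Nat.add (Nat.add C x26592) x9096) x13956) x13308) x13632) x13416) x13488) x13468) x13470)
    (Nat.sub (Nat.sub (Nat.add (Nat.add (Nat.add (Nat.add (Nat.add (Nat.add (Nat.add (Nat.add (Nat.add (Nat.add C x26600) x9104) x13964) x13316) x13640) x13424) x13532) x13460) x13484) x13480) (Nat.mul x13478 (nat_lit 2))) x33160)
    (Nat.sub (Nat.sub (Nat.add (Nat.add (Nat.add (Nat.add (Nat.add (Nat.add (Nat.add (Nat.add (Nat.add (Nat.add C x26602) x9106) x13966) x13318) x13642) x13426) x13534) x13462) x13486) x13478) (Nat.mul x13480 (nat_lit 2))) x33162)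
    (Nat.sub (Nat.sub (Nat.add (Nat.add (Nat.add (Nat.add (Nat.add (Nat.add (Nat.add (Nat.add (Nat.add (Nat.add (Nat.add C x26606) x9110) x13970) x13322) x13646) x13430) x13538) x13466) x13502) x13478) x13486) (Nat.mul x13484 (nat_lit 3))) x33166)
    (Nat.sub (Nat.sub (Nat.add (Nat.add (Nat.add (Nat.add (Nat.add (Nat.add (Nat.add (Nat.add (Nat.add (Nat.add (Nat.add (Nat.add (Nat.add C x26608) x9112) x13972) x13324) x13648) x13432) x13540) x13468) x13504) x13480) x13492) x13484) x13488) x13486) x33168)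
    (Nat.sub (Nat.add (Nat.add (Nat.add (Nat.add (Nat.add (Nat.add (Nat.add (Nat.add (Nat.add (Nat.add (Nat.add C x26610) x9114) x13974) x13326) x13650) x13434) x13542) x13470) x13506) x13494) x13486) x13488)
    (Nat.sub (Nat.sub (Nat.add (Nat.add (Nat.add (Nat.add (Nat.add (Nat.add (Nat.add (Nat.add (Nat.add (Nat.add C x26614) x9118) x13978) x13330) x13654) x13438) x13546) x13510) x13486) x13494) (Nat.mul x13492 (nat_lit 2))) x33174)
    (Nat.add (Nat.add (Nat.add (Nat.add (Nat.add (Nat.add (Nat.add (Nat.add (Nat.add (Nat.add C x26616) x9120) x13980) x13332) x13656) x13440) x13548) x13512) x13488) x13492)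
    (Nat.sub (Nat.sub (Nat.add (Nat.add (Nat.add (Nat.add (Nat.add (Nat.add (Nat.add (Nat.add C x26624) x9128) x13988) x13340) x13664) x13556) x13484) x13504) (Nat.mul x13502 (nat_lit 3))) x33184)
    (Nat.sub (Nat.sub (Nat.add (Nat.add (Nat.add (Nat.add (Nat.add (Nat.add (Nat.add (Nat.add (Nat.add (Nat.add C x26626) x9130) x13990) x13342) x13666) x13558) x13486) x13510) x13502) x13506) (Nat.mul x13504 (nat_lit 2))) x33186)
    (Nat.sub (Nat.add (Nat.add (Nat.add (Nat.add (Nat.add (Nat.add (Nat.add (Nat.add (Nat.add C x26628) x9132) x13992) x13344) x13668) x13560) x13488) x13512) x13504) (Nat.mul x13506 (nat_lit 3)))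
    (Nat.sub (Nat.sub (Nat.add (Nat.add (Nat.add (Nat.add (Nat.add (Nat.add (Nat.add (Nat.add (Nat.add C x26632) x9136) x13996) x13348) x13672) x13564) x13492) x13504) x13512) x13510) x33192)
    (Nat.add (Nat.add (Nat.add (Nat.add (Nat.add (Nat.add (Nat.add (Nat.add (Nat.add (Nat.add C x26634) x9138) x13998) x13350) x13674) x13566) x13494) x13506) x13518) x13510)
    (Nat.add (Nat.add (Nat.add (Nat.add (Nat.add (Nat.add (Nat.add (Nat.add C x13518) x26640) x9144) x14004) x13356) x13680) x13572) x13512)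
    (Nat.sub (Nat.sub (Nat.add (Nat.add (Nat.add (Nat.add (Nat.add (Nat.add (Nat.add C x26654) x9158) x14018) x13694) x13478) x13538) x13534) (Nat.mul x13532 (nat_lit 2))) x33214)
    (Nat.sub (Nat.sub (Nat.add (Nat.add (Nat.add (Nat.add (Nat.add (Nat.add (Nat.add C x26656) x9160) x14020) x13696) x13480) x13540) x13532) (Nat.mul x13534 (nat_lit 2))) x33216)
    (Nat.sub (Nat.sub (Nat.add (Nat.add (Nat.add (Nat.add (Nat.add (Nat.add (Nat.add (Nat.add C x26660) x9164) x14024) x13700) x13484) x13556) x13532) x13540) (Nat.mul x13538 (nat_lit 4))) x33220)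
    (Nat.sub (Nat.sub (Nat.add (Nat.add (Nat.add (Nat.add (Nat.add (Nat.add (Nat.add (Nat.add (Nat.add (Nat.add C x26662) x9166) x14026) x13702) x13486) x13558) x13534) x13546) x13538) x13542) (Nat.mul x13540 (nat_lit 2))) x33222)
    (Nat.sub (Nat.add (Nat.add (Nat.add (Nat.add (Nat.add (Nat.add (Nat.add (Nat.add C x26664) x9168) x14028) x13704) x13488) x13560) x13548) x13540) (Nat.mul x13542 (nat_lit 2)))
    (Nat.sub (Nat.sub (Nat.add (Nat.add (Nat.add (Nat.add (Nat.add (Nat.add (Nat.add (Nat.add C x26668) x9172) x14032) x13708) x13492) x13564) x13540) x13548) (Nat.mul x13546 (nat_lit 4))) x33228)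
    (Nat.sub (Nat.add (Nat.add (Nat.add (Nat.add (Nat.add (Nat.add (Nat.add (Nat.add C x26670) x9174) x14034) x13710) x13494) x13566) x13542) x13546) (Nat.mul x13548 (nat_lit 2)))
    (Nat.sub (Nat.sub (Nat.add (Nat.add (Nat.add (Nat.add (Nat.add (Nat.add (Nat.add C x26678) x9182) x14042) x13718) x13502) x13538) x13558) (Nat.mul x13556 (nat_lit 2))) x33238)
    (Nat.sub (Nat.sub (Nat.add (Nat.add (Nat.add (Nat.add (Nat.add (Nat.add (Nat.add (Nat.add (Nat.add C x26680) x9184) x14044) x13720) x13504) x13540) x13564) x13556) x13560) x13558) x33240)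
    (Nat.sub (Nat.add (Nat.add (Nat.add (Nat.add (Nat.add (Nat.add (Nat.add (Nat.add C x26682) x9186) x14046) x13722) x13506) x13542) x13566) x13558) (Nat.mul x13560 (nat_lit 2)))
    (Nat.sub (Nat.sub (Nat.add (Nat.add (Nat.add (Nat.add (Nat.add (Nat.add (Nat.add (Nat.add (Nat.add C x26686) x9190) x14050) x13726) x13510) x13546) x13582) x13558) x13566) x13564) x33246)
    (Nat.add (Nat.add (Nat.add (Nat.add (Nat.add (Nat.add (Nat.add (Nat.add (Nat.add (Nat.add C x26688) x9192) x14052) x13728) x13512) x13548) x13584) x13560) x13572) x13564)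
    (Nat.add (Nat.add (Nat.add (Nat.add (Nat.add (Nat.add (Nat.add C x26694) x9198) x14058) x13734) x13518) x13590) x13566)
    (Nat.sub (Nat.add (Nat.add (Nat.add (Nat.add (Nat.add (Nat.add C x26704) x9208) x14068) x13744) x13564) x13584) x33264)
    (Nat.add (Nat.add (Nat.add (Nat.add (Nat.add (Nat.add (Nat.add C x26706) x9210) x14070) x13746) x13566) x13590) x13582)
    (Nat.add (Nat.add (Nat.add (Nat.add (Nat.add (Nat.add (Nat.add C (Nat.mul x13590 (nat_lit 2))) x26712) x9216) x14076) x13752) x13572) x13584)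
    (Nat.sub (Nat.sub (Nat.add (Nat.add (Nat.add (Nat.add (Nat.add C x26738) x9242) x14102) x13454) x13622) (Nat.mul x13616 (nat_lit 2))) x33298)
    (Nat.sub (Nat.sub (Nat.add (Nat.add (Nat.add (Nat.add (Nat.add (Nat.add (Nat.add (Nat.add C x26744) x9248) x14108) x13460) x13640) x13616) x13628) x13624) (Nat.mul x13622 (nat_lit 3))) x33304)
    (Nat.sub (Nat.sub (Nat.add (Nat.add (Nat.add (Nat.add (Nat.add (Nat.add (Nat.add C x26746) x9250) x14110) x13462) x13642) x13630) x13622) (Nat.mul x13624 (nat_lit 2))) x33306)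
    (Nat.sub (Nat.sub (Nat.add (Nat.add (Nat.add (Nat.add (Nat.add (Nat.add (Nat.add C x26750) x9254) x14114) x13466) x13646) x13622) x13630) (Nat.mul x13628 (nat_lit 6))) x33310)
    (Nat.sub (Nat.sub (Nat.add (Nat.add (Nat.add (Nat.add (Nat.add (Nat.add (Nat.add (Nat.add C x26752) x9256) x14116) x13468) x13648) x13624) x13628) x13632) (Nat.mul x13630 (nat_lit 3))) x33312)
    (Nat.sub (Nat.add (Nat.add (Nat.add (Nat.add (Nat.add (Nat.add C x26754) x9258) x14118) x13470) x13650) x13630) (Nat.mul x13632 (nat_lit 2)))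
    (Nat.sub (Nat.sub (Nat.add (Nat.add (Nat.add (Nat.add (Nat.add (Nat.add (Nat.add (Nat.add C x26762) x9266) x14126) x13478) x13694) x13622) x13646) x13642) (Nat.mul x13640 (nat_lit 4))) x33322)
    (Nat.sub (Nat.sub (Nat.add (Nat.add (Nat.add (Nat.add (Nat.add (Nat.add (Nat.add (Nat.add C x26764) x9268) x14128) x13480) x13696) x13624) x13648) x13640) (Nat.mul x13642 (nat_lit 4))) x33324)
    (Nat.sub (Nat.sub (Nat.add (Nat.add (Nat.add (Nat.add (Nat.add (Nat.add (Nat.add (Nat.add (Nat.add C x26768) x9272) x14132) x13484) x13700) x13628) x13664) x13640) x13648) (Nat.mul x13646 (nat_lit 5))) x33328)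
    (Nat.sub (Nat.sub (Nat.add (Nat.add (Nat.add (Nat.add (Nat.add (Nat.add (Nat.add (Nat.add (Nat.add (Nat.add (Nat.add C x26770) x9274) x14134) x13486) x13702) x13630) x13666) x13642) x13654) x13646) x13650) (Nat.mul x13648 (nat_lit 3))) x33330)
    (Nat.sub (Nat.add (Nat.add (Nat.add (Nat.add (Nat.add (Nat.add (Nat.add (Nat.add (Nat.add C x26772) x9276) x14136) x13488) x13704) x13632) x13668) x13656) x13648) (Nat.mul x13650 (nat_lit 3)))
    (Nat.sub (Nat.sub (Nat.add (Nat.add (Nat.add (Nat.add (Nat.add (Nat.add (Nat.add (Nat.add C x26776) x9280) x14140) x13492) x13708) x13672) x13648) x13656) (Nat.mul x13654 (nat_lit 4))) x33336)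
    (Nat.sub (Nat.add (Nat.add (Nat.add (Nat.add (Nat.add (Nat.add (Nat.add (Nat.add C x26778) x9282) x14142) x13494) x13710) x13674) x13650) x13654) (Nat.mul x13656 (nat_lit 2)))
    (Nat.sub (Nat.sub (Nat.add (Nat.add (Nat.add (Nat.add (Nat.add (Nat.add (Nat.add C x26786) x9290) x14150) x13502) x13718) x13646) x13666) (Nat.mul x13664 (nat_lit 6))) x33346)
    (Nat.sub (Nat.sub (Nat.add (Nat.add (Nat.add (Nat.add (Nat.add (Nat.add (Nat.add (Nat.add (Nat.add C x26788) x9292) x14152) x13504) x13720) x13648) x13672) x13664) x13668) (Nat.mul x13666 (nat_lit 5))) x33348)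
    (Nat.sub (Nat.add (Nat.add (Nat.add (Nat.add (Nat.add (Nat.add (Nat.add (Nat.add C x26790) x9294) x14154) x13506) x13722) x13650) x13674) x13666) (Nat.mul x13668 (nat_lit 6)))
    (Nat.sub (Nat.sub (Nat.add (Nat.add (Nat.add (Nat.add (Nat.add (Nat.add (Nat.add (Nat.add C x26794) x9298) x14158) x13510) x13726) x13654) x13666) x13674) (Nat.mul x13672 (nat_lit 4))) x33354)
    (Nat.sub (Nat.add (Nat.add (Nat.add (Nat.add (Nat.add (Nat.add (Nat.add (Nat.add (Nat.add C x26796) x9300) x14160) x13512) x13728) x13656) x13668) x13680) x13672) (Nat.mul x13674 (nat_lit 3)))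
    (Nat.sub (Nat.add (Nat.add (Nat.add (Nat.add (Nat.add (Nat.add C x26802) x9306) x14166) x13518) x13734) x13674) (Nat.mul x13680 (nat_lit 2)))
    (Nat.sub (Nat.sub (Nat.add (Nat.add (Nat.add (Nat.add (Nat.add (Nat.add (Nat.add C x26816) x9320) x14180) x13532) x13640) x13700) x13696) (Nat.mul x13694 (nat_lit 2))) x33376)
    (Nat.sub (Nat.sub (Nat.add (Nat.add (Nat.add (Nat.add (Nat.add (Nat.add (Nat.add C x26818) x9322) x14182) x13534) x13642) x13702) x13694) (Nat.mul x13696 (nat_lit 2))) x33378)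
    (Nat.sub (Nat.sub (Nat.add (Nat.add (Nat.add (Nat.add (Nat.add (Nat.add (Nat.add (Nat.add C x26822) x9326) x14186) x13538) x13646) x13718) x13694) x13702) (Nat.mul x13700 (nat_lit 4))) x33382)
    (Nat.sub (Nat.sub (Nat.add (Nat.add (Nat.add (Nat.add (Nat.add (Nat.add (Nat.add (Nat.add (Nat.add (Nat.add C x26824) x9328) x14188) x13540) x13648) x13720) x13696) x13708) x13700) x13704) (Nat.mul x13702 (nat_lit 2))) x33384)
    (Nat.sub (Nat.add (Nat.add (Nat.add (Nat.add (Nat.add (Nat.add (Nat.add (Nat.add C x26826) x9330) x14190) x13542) x13650) x13722) x13710) x13702) (Nat.mul x13704 (nat_lit 2)))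
    (Nat.sub (Nat.sub (Nat.add (Nat.add (Nat.add (Nat.add (Nat.add (Nat.add (Nat.add (Nat.add C x26830) x9334) x14194) x13546) x13654) x13726) x13702) x13710) (Nat.mul x13708 (nat_lit 4))) x33390)
    (Nat.sub (Nat.add (Nat.add (Nat.add (Nat.add (Nat.add (Nat.add (Nat.add (Nat.add C x26832) x9336) x14196) x13548) x13656) x13728) x13704) x13708) (Nat.mul x13710 (nat_lit 2)))
    (Nat.sub (Nat.sub (Nat.add (Nat.add (Nat.add (Nat.add (Nat.add (Nat.add (Nat.add (Nat.add C x26840) x9344) x14204) x13556) x13664) x13772) x13700) x13720) (Nat.mul x13718 (nat_lit 3))) x33400)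
    (Nat.sub (Nat.sub (Nat.add (Nat.add (Nat.add (Nat.add (Nat.add (Nat.add (Nat.add (Nat.add (Nat.add (Nat.add C x26842) x9346) x14206) x13558) x13666) x13774) x13702) x13726) x13718) x13722) (Nat.mul x13720 (nat_lit 2))) x33402)
    (Nat.sub (Nat.add (Nat.add (Nat.add (Nat.add (Nat.add (Nat.add (Nat.add (Nat.add (Nat.add C x26844) x9348) x14208) x13560) x13668) x13776) x13704) x13728) x13720) (Nat.mul x13722 (nat_lit 3)))
    (Nat.sub (Nat.sub (Nat.add (Nat.add (Nat.add (Nat.add (Nat.add (Nat.add (Nat.add (Nat.add (Nat.add (Nat.add C x26848) x9352) x14212) x13564) x13672) x13780) x13708) x13744) x13720) x13728) (Nat.mul x13726 (nat_lit 2))) x33408)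
    (Nat.sub (Nat.add (Nat.add (Nat.add (Nat.add (Nat.add (Nat.add (Nat.add (Nat.add (Nat.add (Nat.add (Nat.add C x26850) x9354) x14214) x13566) x13674) x13782) x13710) x13746) x13722) x13734) x13726) x13728)
    (Nat.sub (Nat.add (Nat.add (Nat.add (Nat.add (Nat.add (Nat.add (Nat.add (Nat.add C x26856) x9360) x14220) x13572) x13680) x13788) x13752) x13728) x13734)
    (Nat.sub (Nat.sub (Nat.add (Nat.add (Nat.add (Nat.add (Nat.add (Nat.add (Nat.add C x26866) x9370) x14230) x13582) x13798) x13726) x13746) (Nat.mul x13744 (nat_lit 2))) x33426)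
    (Nat.sub (Nat.add (Nat.add (Nat.add (Nat.add (Nat.add (Nat.add (Nat.add (Nat.add C x26868) x9372) x14232) x13584) x13800) x13728) x13752) x13744) (Nat.mul x13746 (nat_lit 2)))
    (Nat.add (Nat.add (Nat.add (Nat.add (Nat.add (Nat.add (Nat.add C x26874) x9378) x14238) x13590) x13806) x13734) x13746)
    (Nat.sub (Nat.sub (Nat.add (Nat.add (Nat.add (Nat.add (Nat.add C x26894) x9398) x14258) x13718) x13774) (Nat.mul x13772 (nat_lit 2))) x33454)
    (Nat.sub (Nat.sub (Nat.add (Nat.add (Nat.add (Nat.add (Nat.add (Nat.add (Nat.add C x26896) x9400) x14260) x13720) x13780) x13772) x13776) x13774) x33456)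
    (Nat.sub (Nat.add (Nat.add (Nat.add (Nat.add (Nat.add (Nat.add C x26898) x9402) x14262) x13722) x13782) x13774) (Nat.mul x13776 (nat_lit 2)))
    (Nat.sub (Nat.sub (Nat.add (Nat.add (Nat.add (Nat.add (Nat.add (Nat.add (Nat.add C x26902) x9406) x14266) x13726) x13798) x13774) x13782) (Nat.mul x13780 (nat_lit 2))) x33462)
    (Nat.sub (Nat.add (Nat.add (Nat.add (Nat.add (Nat.add (Nat.add (Nat.add (Nat.add C x26904) x9408) x14268) x13728) x13800) x13776) x13788) x13780) x13782)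
    (Nat.sub (Nat.add (Nat.add (Nat.add (Nat.add (Nat.add (Nat.add C x26910) x9414) x14274) x13734) x13806) x13782) (Nat.mul x13788 (nat_lit 2)))
    (Nat.sub (Nat.add (Nat.add (Nat.add (Nat.add (Nat.add (Nat.add C x26920) x9424) x14284) x13744) x13780) x13800) x33480)
    (Nat.add (Nat.add (Nat.add (Nat.add (Nat.add (Nat.add (Nat.add C x26922) x9426) x14286) x13746) x13782) x13806) x13798)
    (Nat.add (Nat.add (Nat.add (Nat.add (Nat.add (Nat.add (Nat.add (Nat.add C x13806) x26928) x9432) x14292) x13752) x13788) x13824) x13800)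
    (Nat.add (Nat.add (Nat.add (Nat.add (Nat.add C (Nat.mul x13824 (nat_lit 2))) x26946) x9450) x14310) x13806)
    (Nat.sub (Nat.add (Nat.add (Nat.add (Nat.add (Nat.add (Nat.add C x26990) x9494) x15326) x13382) x13886) x13874) x33550)
    (Nat.sub (Nat.sub (Nat.add (Nat.add (Nat.add (Nat.add (Nat.add (Nat.add (Nat.add C x26996) x9500) x15332) x13388) x13892) x13868) x13876) (Nat.mul x13874 (nat_lit 2))) x33556)
    (Nat.sub (Nat.add (Nat.add (Nat.add (Nat.add (Nat.add (Nat.add C x26998) x9502) x15334) x13390) x13894) x13874) x33558)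
    (Nat.sub (Nat.sub (Nat.add (Nat.add (Nat.add (Nat.add (Nat.add (Nat.add (Nat.add C x27008) x9512) x15344) x13400) x13940) x13868) x13892) (Nat.mul x13886 (nat_lit 2))) x33568)
    (Nat.sub (Nat.sub (Nat.add (Nat.add (Nat.add (Nat.add (Nat.add (Nat.add (Nat.add (Nat.add (Nat.add (Nat.add C x27014) x9518) x15350) x13406) x13946) x13874) x13910) x13886) x13898) x13894) (Nat.mul x13892 (nat_lit 2))) x33574)
    (Nat.sub (Nat.sub (Nat.add (Nat.add (Nat.add (Nat.add (Nat.add (Nat.add (Nat.add (Nat.add (Nat.add C x27016) x9520) x15352) x13408) x13948) x13876) x13912) x13900) x13892) x13894) x33576)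
    (Nat.sub (Nat.sub (Nat.add (Nat.add (Nat.add (Nat.add (Nat.add (Nat.add (Nat.add (Nat.add C x27020) x9524) x15356) x13412) x13952) x13916) x13892) x13900) (Nat.mul x13898 (nat_lit 4))) x33580)
    (Nat.sub (Nat.sub (Nat.add (Nat.add (Nat.add (Nat.add (Nat.add (Nat.add (Nat.add (Nat.add (Nat.add C x27022) x9526) x15358) x13414) x13954) x13918) x13894) x13898) x13902) x13900) x33582)
    (Nat.add (Nat.add (Nat.add (Nat.add (Nat.add (Nat.add (Nat.add C x27024) x9528) x15360) x13416) x13956) x13920) x13900)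
    (Nat.sub (Nat.sub (Nat.add (Nat.add (Nat.add (Nat.add (Nat.add (Nat.add (Nat.add (Nat.add C x27032) x9536) x15368) x13424) x13964) x13892) x13916) x13912) (Nat.mul x13910 (nat_lit 4))) x33592)
    (Nat.sub (Nat.sub (Nat.add (Nat.add (Nat.add (Nat.add (Nat.add (Nat.add (Nat.add (Nat.add C x27034) x9538) x15370) x13426) x13966) x13894) x13918) x13910) (Nat.mul x13912 (nat_lit 4))) x33594)
    (Nat.sub (Nat.sub (Nat.add (Nat.add (Nat.add (Nat.add (Nat.add (Nat.add (Nat.add (Nat.add C x27038) x9542) x15374) x13430) x13970) x13898) x13910) x13918) (Nat.mul x13916 (nat_lit 4))) x33598)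
    (Nat.sub (Nat.sub (Nat.add (Nat.add (Nat.add (Nat.add (Nat.add (Nat.add (Nat.add (Nat.add (Nat.add (Nat.add C x27040) x9544) x15376) x13432) x13972) x13900) x13912) x13924) x13916) x13920) (Nat.mul x13918 (nat_lit 2))) x33600)
    (Nat.sub (Nat.add (Nat.add (Nat.add (Nat.add (Nat.add (Nat.add (Nat.add (Nat.add C x27042) x9546) x15378) x13434) x13974) x13902) x13926) x13918) (Nat.mul x13920 (nat_lit 2)))
    (Nat.sub (Nat.sub (Nat.add (Nat.add (Nat.add (Nat.add (Nat.add (Nat.add (Nat.add C x27046) x9550) x15382) x13438) x13978) x13918) x13926) (Nat.mul x13924 (nat_lit 2))) x33606)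
    (Nat.add (Nat.add (Nat.add (Nat.add (Nat.add (Nat.add (Nat.add C x27048) x9552) x15384) x13440) x13980) x13920) x13924)
    (Nat.sub (Nat.sub (Nat.add (Nat.add (Nat.add (Nat.add (Nat.add (Nat.add (Nat.add C x27062) x9566) x15398) x13454) x14102) x13886) x13946) (Nat.mul x13940 (nat_lit 2))) x33622)
    (Nat.sub (Nat.sub (Nat.add (Nat.add (Nat.add (Nat.add (Nat.add (Nat.add (Nat.add (Nat.add (Nat.add (Nat.add C x27068) x9572) x15404) x13460) x14108) x13892) x13964) x13940) x13952) x13948) (Nat.mul x13946 (nat_lit 3))) x33628)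
    (Nat.sub (Nat.sub (Nat.add (Nat.add (Nat.add (Nat.add (Nat.add (Nat.add (Nat.add (Nat.add (Nat.add C x27070) x9574) x15406) x13462) x14110) x13894) x13966) x13954) x13946) (Nat.mul x13948 (nat_lit 2))) x33630)
    (Nat.sub (Nat.sub (Nat.add (Nat.add (Nat.add (Nat.add (Nat.add (Nat.add (Nat.add (Nat.add (Nat.add C x27074) x9578) x15410) x13466) x14114) x13898) x13970) x13946) x13954) (Nat.mul x13952 (nat_lit 6))) x33634)
    (Nat.sub (Nat.sub (Nat.add (Nat.add (Nat.add (Nat.add (Nat.add (Nat.add (Nat.add (Nat.add (Nat.add (Nat.add C x27076) x9580) x15412) x13468) x14116) x13900) x13972) x13948) x13952) x13956) (Nat.mul x13954 (nat_lit 3))) x33636)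
    (Nat.sub (Nat.add (Nat.add (Nat.add (Nat.add (Nat.add (Nat.add (Nat.add (Nat.add C x27078) x9582) x15414) x13470) x14118) x13902) x13974) x13954) (Nat.mul x13956 (nat_lit 2)))
    (Nat.sub (Nat.sub (Nat.add (Nat.add (Nat.add (Nat.add (Nat.add (Nat.add (Nat.add (Nat.add (Nat.add (Nat.add C x27086) x9590) x15422) x13478) x14126) x13910) x14018) x13946) x13970) x13966) (Nat.mul x13964 (nat_lit 3))) x33646)
    (Nat.sub (Nat.sub (Nat.add (Nat.add (Nat.add (Nat.add (Nat.add (Nat.add (Nat.add (Nat.add (Nat.add (Nat.add C x27088) x9592) x15424) x13480) x14128) x13912) x14020) x13948) x13972) x13964) (Nat.mul x13966 (nat_lit 3))) x33648)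
    (Nat.sub (Nat.sub (Nat.add (Nat.add (Nat.add (Nat.add (Nat.add (Nat.add (Nat.add (Nat.add (Nat.add (Nat.add (Nat.add C x27092) x9596) x15428) x13484) x14132) x13916) x14024) x13952) x13988) x13964) x13972) (Nat.mul x13970 (nat_lit 4))) x33652)
    (Nat.sub (Nat.sub (Nat.add (Nat.add (Nat.add (Nat.add (Nat.add (Nat.add (Nat.add (Nat.add (Nat.add (Nat.add (Nat.add (Nat.add (Nat.add C x27094) x9598) x15430) x13486) x14134) x13918) x14026) x13954) x13990) x13966) x13978) x13970) x13974) (Nat.mul x13972 (nat_lit 2))) x33654)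
    (Nat.sub (Nat.add (Nat.add (Nat.add (Nat.add (Nat.add (Nat.add (Nat.add (Nat.add (Nat.add (Nat.add (Nat.add C x27096) x9600) x15432) x13488) x14136) x13920) x14028) x13956) x13992) x13980) x13972) (Nat.mul x13974 (nat_lit 2)))
    (Nat.sub (Nat.sub (Nat.add (Nat.add (Nat.add (Nat.add (Nat.add (Nat.add (Nat.add (Nat.add (Nat.add (Nat.add C x27100) x9604) x15436) x13492) x14140) x13924) x14032) x13996) x13972) x13980) (Nat.mul x13978 (nat_lit 3))) x33660)
    (Nat.sub (Nat.add (Nat.add (Nat.add (Nat.add (Nat.add (Nat.add (Nat.add (Nat.add (Nat.add (Nat.add C x27102) x9606) x15438) x13494) x14142) x13926) x14034) x13998) x13974) x13978) x13980)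
    (Nat.sub (Nat.sub (Nat.add (Nat.add (Nat.add (Nat.add (Nat.add (Nat.add (Nat.add (Nat.add C x27110) x9614) x15446) x13502) x14150) x14042) x13970) x13990) (Nat.mul x13988 (nat_lit 4))) x33670)
    (Nat.sub (Nat.sub (Nat.add (Nat.add (Nat.add (Nat.add (Nat.add (Nat.add (Nat.add (Nat.add (Nat.add (Nat.add C x27112) x9616) x15448) x13504) x14152) x14044) x13972) x13996) x13988) x13992) (Nat.mul x13990 (nat_lit 3))) x33672)
    (Nat.sub (Nat.add (Nat.add (Nat.add (Nat.add (Nat.add (Nat.add (Nat.add (Nat.add (Nat.add C x27114) x9618) x15450) x13506) x14154) x14046) x13974) x13998) x13990) (Nat.mul x13992 (nat_lit 4)))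
    (Nat.sub (Nat.sub (Nat.add (Nat.add (Nat.add (Nat.add (Nat.add (Nat.add (Nat.add (Nat.add (Nat.add C x27118) x9622) x15454) x13510) x14158) x14050) x13978) x13990) x13998) (Nat.mul x13996 (nat_lit 2))) x33678)
    (Nat.sub (Nat.add (Nat.add (Nat.add (Nat.add (Nat.add (Nat.add (Nat.add (Nat.add (Nat.add (Nat.add C x27120) x9624) x15456) x13512) x14160) x14052) x13980) x13992) x14004) x13996) x13998)
    (Nat.add (Nat.add (Nat.add (Nat.add (Nat.add (Nat.add (Nat.add C x27126) x9630) x15462) x13518) x14166) x14058) x13998)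
    (Nat.sub (Nat.sub (Nat.add (Nat.add (Nat.add (Nat.add (Nat.add (Nat.add (Nat.add (Nat.add C x27140) x9644) x15476) x13532) x14180) x13964) x14024) x14020) (Nat.mul x14018 (nat_lit 4))) x33700)
    (Nat.sub (Nat.sub (Nat.add (Nat.add (Nat.add (Nat.add (Nat.add (Nat.add (Nat.add (Nat.add C x27142) x9646) x15478) x13534) x14182) x13966) x14026) x14018) (Nat.mul x14020 (nat_lit 4))) x33702)
    (Nat.sub (Nat.sub (Nat.add (Nat.add (Nat.add (Nat.add (Nat.add (Nat.add (Nat.add (Nat.add (Nat.add C x27146) x9650) x15482) x13538) x14186) x13970) x14042) x14018) x14026) (Nat.mul x14024 (nat_lit 6))) x33706)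
    (Nat.sub (Nat.sub (Nat.add (Nat.add (Nat.add (Nat.add (Nat.add (Nat.add (Nat.add (Nat.add (Nat.add (Nat.add (Nat.add C x27148) x9652) x15484) x13540) x14188) x13972) x14044) x14020) x14032) x14024) x14028) (Nat.mul x14026 (nat_lit 4))) x33708)
    (Nat.sub (Nat.add (Nat.add (Nat.add (Nat.add (Nat.add (Nat.add (Nat.add (Nat.add (Nat.add C x27150) x9654) x15486) x13542) x14190) x13974) x14046) x14034) x14026) (Nat.mul x14028 (nat_lit 4)))
    (Nat.sub (Nat.sub (Nat.add (Nat.add (Nat.add (Nat.add (Nat.add (Nat.add (Nat.add (Nat.add (Nat.add C x27154) x9658) x15490) x13546) x14194) x13978) x14050) x14026) x14034) (Nat.mul x14032 (nat_lit 6))) x33714)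
    (Nat.sub (Nat.add (Nat.add (Nat.add (Nat.add (Nat.add (Nat.add (Nat.add (Nat.add (Nat.add C x27156) x9660) x15492) x13548) x14196) x13980) x14052) x14028) x14032) (Nat.mul x14034 (nat_lit 4)))
    (Nat.sub (Nat.sub (Nat.add (Nat.add (Nat.add (Nat.add (Nat.add (Nat.add (Nat.add (Nat.add C x27164) x9668) x15500) x13556) x14204) x13988) x14024) x14044) (Nat.mul x14042 (nat_lit 4))) x33724)
    (Nat.sub (Nat.sub (Nat.add (Nat.add (Nat.add (Nat.add (Nat.add (Nat.add (Nat.add (Nat.add (Nat.add (Nat.add C x27166) x9670) x15502) x13558) x14206) x13990) x14026) x14050) x14042) x14046) (Nat.mul x14044 (nat_lit 3))) x33726)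
    (Nat.sub (Nat.add (Nat.add (Nat.add (Nat.add (Nat.add (Nat.add (Nat.add (Nat.add (Nat.add C x27168) x9672) x15504) x13560) x14208) x13992) x14028) x14052) x14044) (Nat.mul x14046 (nat_lit 4)))
    (Nat.sub (Nat.sub (Nat.add (Nat.add (Nat.add (Nat.add (Nat.add (Nat.add (Nat.add (Nat.add (Nat.add (Nat.add C x27172) x9676) x15508) x13564) x14212) x13996) x14032) x14068) x14044) x14052) (Nat.mul x14050 (nat_lit 3))) x33732)
    (Nat.sub (Nat.add (Nat.add (Nat.add (Nat.add (Nat.add (Nat.add (Nat.add (Nat.add (Nat.add (Nat.add (Nat.add C x27174) x9678) x15510) x13566) x14214) x13998) x14034) x14070) x14046) x14058) x14050) (Nat.mul x14052 (nat_lit 2)))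
    (Nat.sub (Nat.add (Nat.add (Nat.add (Nat.add (Nat.add (Nat.add (Nat.add (Nat.add C x27180) x9684) x15516) x13572) x14220) x14004) x14076) x14052) (Nat.mul x14058 (nat_lit 2)))
    (Nat.sub (Nat.sub (Nat.add (Nat.add (Nat.add (Nat.add (Nat.add (Nat.add (Nat.add C x27190) x9694) x15526) x13582) x14230) x14050) x14070) (Nat.mul x14068 (nat_lit 2))) x33750)
    (Nat.sub (Nat.add (Nat.add (Nat.add (Nat.add (Nat.add (Nat.add (Nat.add (Nat.add C x27192) x9696) x15528) x13584) x14232) x14052) x14076) x14068) (Nat.mul x14070 (nat_lit 2)))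
    (Nat.add (Nat.add (Nat.add (Nat.add (Nat.add (Nat.add (Nat.add C x27198) x9702) x15534) x13590) x14238) x14058) x14070)
    (Nat.sub (Nat.sub (Nat.add (Nat.add (Nat.add (Nat.add (Nat.add (Nat.add (Nat.add C x27224) x9728) x15560) x13616) x14588) x13940) x14108) x14102) x33784)
    (Nat.sub (Nat.sub (Nat.add (Nat.add (Nat.add (Nat.add (Nat.add (Nat.add (Nat.add (Nat.add (Nat.add (Nat.add C x27230) x9734) x15566) x13622) x14594) x13946) x14126) x14102) x14114) x14110) (Nat.mul x14108 (nat_lit 2))) x33790)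
    (Nat.sub (Nat.sub (Nat.add (Nat.add (Nat.add (Nat.add (Nat.add (Nat.add (Nat.add (Nat.add (Nat.add C x27232) x9736) x15568) x13624) x14596) x13948) x14128) x14116) x14108) x14110) x33792)
    (Nat.sub (Nat.sub (Nat.add (Nat.add (Nat.add (Nat.add (Nat.add (Nat.add (Nat.add (Nat.add (Nat.add C x27236) x9740) x15572) x13628) x14600) x13952) x14132) x14108) x14116) (Nat.mul x14114 (nat_lit 5))) x33796)
    (Nat.sub (Nat.sub (Nat.add (Nat.add (Nat.add (Nat.add (Nat.add (Nat.add (Nat.add (Nat.add (Nat.add (Nat.add C x27238) x9742) x15574) x13630) x14602) x13954) x14134) x14110) x14114) x14118) (Nat.mul x14116 (nat_lit 2))) x33798)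
    (Nat.sub (Nat.add (Nat.add (Nat.add (Nat.add (Nat.add (Nat.add (Nat.add (Nat.add C x27240) x9744) x15576) x13632) x14604) x13956) x14136) x14116) x14118)
    (Nat.sub (Nat.sub (Nat.add (Nat.add (Nat.add (Nat.add (Nat.add (Nat.add (Nat.add (Nat.add (Nat.add (Nat.add C x27248) x9752) x15584) x13640) x14612) x13964) x14180) x14108) x14132) x14128) (Nat.mul x14126 (nat_lit 3))) x33808)
    (Nat.sub (Nat.sub (Nat.add (Nat.add (Nat.add (Nat.add (Nat.add (Nat.add (Nat.add (Nat.add (Nat.add (Nat.add C x27250) x9754) x15586) x13642) x14614) x13966) x14182) x14110) x14134) x14126) (Nat.mul x14128 (nat_lit 3))) x33810)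
    (Nat.sub (Nat.sub (Nat.add (Nat.add (Nat.add (Nat.add (Nat.add (Nat.add (Nat.add (Nat.add (Nat.add (Nat.add (Nat.add C x27254) x9758) x15590) x13646) x14618) x13970) x14186) x14114) x14150) x14126) x14134) (Nat.mul x14132 (nat_lit 4))) x33814)
    (Nat.sub (Nat.sub (Nat.add (Nat.add (Nat.add (Nat.add (Nat.add (Nat.add (Nat.add (Nat.add (Nat.add (Nat.add (Nat.add (Nat.add (Nat.add C x27256) x9760) x15592) x13648) x14620) x13972) x14188) x14116) x14152) x14128) x14140) x14132) x14136) (Nat.mul x14134 (nat_lit 2))) x33816)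
    (Nat.sub (Nat.add (Nat.add (Nat.add (Nat.add (Nat.add (Nat.add (Nat.add (Nat.add (Nat.add (Nat.add (Nat.add C x27258) x9762) x15594) x13650) x14622) x13974) x14190) x14118) x14154) x14142) x14134) (Nat.mul x14136 (nat_lit 2)))
    (Nat.sub (Nat.sub (Nat.add (Nat.add (Nat.add (Nat.add (Nat.add (Nat.add (Nat.add (Nat.add (Nat.add (Nat.add C x27262) x9766) x15598) x13654) x14626) x13978) x14194) x14158) x14134) x14142) (Nat.mul x14140 (nat_lit 3))) x33822)
    (Nat.sub (Nat.add (Nat.add (Nat.add (Nat.add (Nat.add (Nat.add (Nat.add (Nat.add (Nat.add (Nat.add C x27264) x9768) x15600) x13656) x14628) x13980) x14196) x14160) x14136) x14140) x14142)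
    (Nat.sub (Nat.sub (Nat.add (Nat.add (Nat.add (Nat.add (Nat.add (Nat.add (Nat.add (Nat.add (Nat.add C x27272) x9776) x15608) x13664) x14636) x13988) x14204) x14132) x14152) (Nat.mul x14150 (nat_lit 5))) x33832)
    (Nat.sub (Nat.sub (Nat.add (Nat.add (Nat.add (Nat.add (Nat.add (Nat.add (Nat.add (Nat.add (Nat.add (Nat.add (Nat.add C x27274) x9778) x15610) x13666) x14638) x13990) x14206) x14134) x14158) x14150) x14154) (Nat.mul x14152 (nat_lit 4))) x33834)
    (Nat.sub (Nat.add (Nat.add (Nat.add (Nat.add (Nat.add (Nat.add (Nat.add (Nat.add (Nat.add (Nat.add C x27276) x9780) x15612) x13668) x14640) x13992) x14208) x14136) x14160) x14152) (Nat.mul x14154 (nat_lit 5)))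
    (Nat.sub (Nat.sub (Nat.add (Nat.add (Nat.add (Nat.add (Nat.add (Nat.add (Nat.add (Nat.add (Nat.add (Nat.add C x27280) x9784) x15616) x13672) x14644) x13996) x14212) x14140) x14152) x14160) (Nat.mul x14158 (nat_lit 3))) x33840)
    (Nat.sub (Nat.add (Nat.add (Nat.add (Nat.add (Nat.add (Nat.add (Nat.add (Nat.add (Nat.add (Nat.add (Nat.add C x27282) x9786) x15618) x13674) x14646) x13998) x14214) x14142) x14154) x14166) x14158) (Nat.mul x14160 (nat_lit 2)))
    (Nat.sub (Nat.add (Nat.add (Nat.add (Nat.add (Nat.add (Nat.add (Nat.add (Nat.add C x27288) x9792) x15624) x13680) x14652) x14004) x14220) x14160) x14166)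
    (Nat.sub (Nat.sub (Nat.add (Nat.add (Nat.add (Nat.add (Nat.add (Nat.add (Nat.add (Nat.add (Nat.add (Nat.add C x27302) x9806) x15638) x13694) x14666) x14018) x14342) x14126) x14186) x14182) (Nat.mul x14180 (nat_lit 2))) x33862)
    (Nat.sub (Nat.sub (Nat.add (Nat.add (Nat.add (Nat.add (Nat.add (Nat.add (Nat.add (Nat.add (Nat.add (Nat.add C x27304) x9808) x15640) x13696) x14668) x14020) x14344) x14128) x14188) x14180) (Nat.mul x14182 (nat_lit 2))) x33864)
    (Nat.sub (Nat.sub (Nat.add (Nat.add (Nat.add (Nat.add (Nat.add (Nat.add (Nat.add (Nat.add (Nat.add (Nat.add (Nat.add C x27308) x9812) x15644) x13700) x14672) x14024) x14348) x14132) x14204) x14180) x14188) (Nat.mul x14186 (nat_lit 4))) x33868)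
    (Nat.sub (Nat.sub (Nat.add (Nat.add (Nat.add (Nat.add (Nat.add (Nat.add (Nat.add (Nat.add (Nat.add (Nat.add (Nat.add (Nat.add (Nat.add C x27310) x9814) x15646) x13702) x14674) x14026) x14350) x14134) x14206) x14182) x14194) x14186) x14190) (Nat.mul x14188 (nat_lit 2))) x33870)
    (Nat.sub (Nat.add (Nat.add (Nat.add (Nat.add (Nat.add (Nat.add (Nat.add (Nat.add (Nat.add (Nat.add (Nat.add C x27312) x9816) x15648) x13704) x14676) x14028) x14352) x14136) x14208) x14196) x14188) (Nat.mul x14190 (nat_lit 2)))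
    (Nat.sub (Nat.sub (Nat.add (Nat.add (Nat.add (Nat.add (Nat.add (Nat.add (Nat.add (Nat.add (Nat.add (Nat.add (Nat.add C x27316) x9820) x15652) x13708) x14680) x14032) x14356) x14140) x14212) x14188) x14196) (Nat.mul x14194 (nat_lit 4))) x33876)
    (Nat.sub (Nat.add (Nat.add (Nat.add (Nat.add (Nat.add (Nat.add (Nat.add (Nat.add (Nat.add (Nat.add (Nat.add C x27318) x9822) x15654) x13710) x14682) x14034) x14358) x14142) x14214) x14190) x14194) (Nat.mul x14196 (nat_lit 2)))
    (Nat.sub (Nat.sub (Nat.add (Nat.add (Nat.add (Nat.add (Nat.add (Nat.add (Nat.add (Nat.add (Nat.add (Nat.add (Nat.add C x27326) x9830) x15662) x13718) x14690) x14042) x14366) x14150) x14258) x14186) x14206) (Nat.mul x14204 (nat_lit 3))) x33886)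
    (Nat.sub (Nat.sub (Nat.add (Nat.add (Nat.add (Nat.add (Nat.add (Nat.add (Nat.add (Nat.add (Nat.add (Nat.add (Nat.add (Nat.add (Nat.add C x27328) x9832) x15664) x13720) x14692) x14044) x14368) x14152) x14260) x14188) x14212) x14204) x14208) (Nat.mul x14206 (nat_lit 2))) x33888)
    (Nat.sub (Nat.add (Nat.add (Nat.add (Nat.add (Nat.add (Nat.add (Nat.add (Nat.add (Nat.add (Nat.add (Nat.add (Nat.add C x27330) x9834) x15666) x13722) x14694) x14046) x14370) x14154) x14262) x14190) x14214) x14206) (Nat.mul x14208 (nat_lit 3)))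
    (Nat.sub (Nat.sub (Nat.add (Nat.add (Nat.add (Nat.add (Nat.add (Nat.add (Nat.add (Nat.add (Nat.add (Nat.add (Nat.add (Nat.add (Nat.add C x27334) x9838) x15670) x13726) x14698) x14050) x14374) x14158) x14266) x14194) x14230) x14206) x14214) (Nat.mul x14212 (nat_lit 2))) x33894)
    (Nat.sub (Nat.add (Nat.add (Nat.add (Nat.add (Nat.add (Nat.add (Nat.add (Nat.add (Nat.add (Nat.add (Nat.add (Nat.add (Nat.add (Nat.add C x27336) x9840) x15672) x13728) x14700) x14052) x14376) x14160) x14268) x14196) x14232) x14208) x14220) x14212) x14214)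
    (Nat.sub (Nat.add (Nat.add (Nat.add (Nat.add (Nat.add (Nat.add (Nat.add (Nat.add (Nat.add (Nat.add (Nat.add C x27342) x9846) x15678) x13734) x14706) x14058) x14382) x14166) x14274) x14238) x14214) x14220)
    (Nat.sub (Nat.sub (Nat.add (Nat.add (Nat.add (Nat.add (Nat.add (Nat.add (Nat.add (Nat.add (Nat.add (Nat.add C x27352) x9856) x15688) x13744) x14716) x14068) x14392) x14284) x14212) x14232) (Nat.mul x14230 (nat_lit 2))) x33912)
    (Nat.sub (Nat.add (Nat.add (Nat.add (Nat.add (Nat.add (Nat.add (Nat.add (Nat.add (Nat.add (Nat.add (Nat.add C x27354) x9858) x15690) x13746) x14718) x14070) x14394) x14286) x14214) x14238) x14230) (Nat.mul x14232 (nat_lit 2)))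
    (Nat.add (Nat.add (Nat.add (Nat.add (Nat.add (Nat.add (Nat.add (Nat.add (Nat.add (Nat.add C x27360) x9864) x15696) x13752) x14724) x14076) x14400) x14292) x14220) x14232)
    (Nat.sub (Nat.sub (Nat.add (Nat.add (Nat.add (Nat.add (Nat.add (Nat.add (Nat.add (Nat.add C x27380) x9884) x15716) x13772) x14744) x14420) x14204) x14260) (Nat.mul x14258 (nat_lit 3))) x33940)
    (Nat.sub (Nat.sub (Nat.add (Nat.add (Nat.add (Nat.add (Nat.add (Nat.add (Nat.add (Nat.add (Nat.add (Nat.add C x27382) x9886) x15718) x13774) x14746) x14422) x14206) x14266) x14258) x14262) (Nat.mul x14260 (nat_lit 2))) x33942)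
    (Nat.sub (Nat.add (Nat.add (Nat.add (Nat.add (Nat.add (Nat.add (Nat.add (Nat.add (Nat.add C x27384) x9888) x15720) x13776) x14748) x14424) x14208) x14268) x14260) (Nat.mul x14262 (nat_lit 3)))
    (Nat.sub (Nat.sub (Nat.add (Nat.add (Nat.add (Nat.add (Nat.add (Nat.add (Nat.add (Nat.add (Nat.add (Nat.add C x27388) x9892) x15724) x13780) x14752) x14428) x14212) x14284) x14260) x14268) (Nat.mul x14266 (nat_lit 3))) x33948)
    (Nat.sub (Nat.add (Nat.add (Nat.add (Nat.add (Nat.add (Nat.add (Nat.add (Nat.add (Nat.add (Nat.add (Nat.add C x27390) x9894) x15726) x13782) x14754) x14430) x14214) x14286) x14262) x14274) x14266) (Nat.mul x14268 (nat_lit 2)))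
    (Nat.sub (Nat.add (Nat.add (Nat.add (Nat.add (Nat.add (Nat.add (Nat.add (Nat.add (Nat.add C x27396) x9900) x15732) x13788) x14760) x14436) x14220) x14292) x14268) (Nat.mul x14274 (nat_lit 3)))
    (Nat.sub (Nat.sub (Nat.add (Nat.add (Nat.add (Nat.add (Nat.add (Nat.add (Nat.add (Nat.add (Nat.add C x27406) x9910) x15742) x13798) x14770) x14446) x14230) x14266) x14286) x14284) x33966)
    (Nat.sub (Nat.add (Nat.add (Nat.add (Nat.add (Nat.add (Nat.add (Nat.add (Nat.add (Nat.add (Nat.add C x27408) x9912) x15744) x13800) x14772) x14448) x14232) x14268) x14292) x14284) x14286)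
    (Nat.add (Nat.add (Nat.add (Nat.add (Nat.add (Nat.add (Nat.add (Nat.add (Nat.add (Nat.add C x27414) x9918) x15750) x13806) x14778) x14454) x14238) x14274) x14310) x14286)
    (Nat.add (Nat.add (Nat.add (Nat.add (Nat.add (Nat.add (Nat.add (Nat.add C x14310) x27432) x9936) x15768) x13824) x14796) x14472) x14292)
    (Nat.sub (Nat.sub (Nat.add (Nat.add (Nat.add (Nat.add (Nat.add (Nat.add (Nat.add C x27464) x9968) x15800) x14828) x14180) x14348) x14344) (Nat.mul x14342 (nat_lit 2))) x34024)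
    (Nat.sub (Nat.sub (Nat.add (Nat.add (Nat.add (Nat.add (Nat.add (Nat.add (Nat.add C x27466) x9970) x15802) x14830) x14182) x14350) x14342) (Nat.mul x14344 (nat_lit 2))) x34026)
    (Nat.sub (Nat.sub (Nat.add (Nat.add (Nat.add (Nat.add (Nat.add (Nat.add (Nat.add (Nat.add C x27470) x9974) x15806) x14834) x14186) x14366) x14342) x14350) (Nat.mul x14348 (nat_lit 4))) x34030)
    (Nat.sub (Nat.sub (Nat.add (Nat.add (Nat.add (Nat.add (Nat.add (Nat.add (Nat.add (Nat.add (Nat.add (Nat.add C x27472) x9976) x15808) x14836) x14188) x14368) x14344) x14356) x14348) x14352) (Nat.mul x14350 (nat_lit 2))) x34032)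
    (Nat.sub (Nat.add (Nat.add (Nat.add (Nat.add (Nat.add (Nat.add (Nat.add (Nat.add C x27474) x9978) x15810) x14838) x14190) x14370) x14358) x14350) (Nat.mul x14352 (nat_lit 2)))
    (Nat.sub (Nat.sub (Nat.add (Nat.add (Nat.add (Nat.add (Nat.add (Nat.add (Nat.add (Nat.add C x27478) x9982) x15814) x14842) x14194) x14374) x14350) x14358) (Nat.mul x14356 (nat_lit 4))) x34038)
    (Nat.sub (Nat.add (Nat.add (Nat.add (Nat.add (Nat.add (Nat.add (Nat.add (Nat.add C x27480) x9984) x15816) x14844) x14196) x14376) x14352) x14356) (Nat.mul x14358 (nat_lit 2)))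
    (Nat.sub (Nat.sub (Nat.add (Nat.add (Nat.add (Nat.add (Nat.add (Nat.add (Nat.add (Nat.add C x27488) x9992) x15824) x14852) x14204) x14420) x14348) x14368) (Nat.mul x14366 (nat_lit 4))) x34048)
    (Nat.sub (Nat.sub (Nat.add (Nat.add (Nat.add (Nat.add (Nat.add (Nat.add (Nat.add (Nat.add (Nat.add (Nat.add C x27490) x9994) x15826) x14854) x14206) x14422) x14350) x14374) x14366) x14370) (Nat.mul x14368 (nat_lit 3))) x34050)
    (Nat.sub (Nat.add (Nat.add (Nat.add (Nat.add (Nat.add (Nat.add (Nat.add (Nat.add (Nat.add C x27492) x9996) x15828) x14856) x14208) x14424) x14352) x14376) x14368) (Nat.mul x14370 (nat_lit 4)))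
    (Nat.sub (Nat.sub (Nat.add (Nat.add (Nat.add (Nat.add (Nat.add (Nat.add (Nat.add (Nat.add (Nat.add (Nat.add C x27496) x10000) x15832) x14860) x14212) x14428) x14356) x14392) x14368) x14376) (Nat.mul x14374 (nat_lit 3))) x34056)
    (Nat.sub (Nat.add (Nat.add (Nat.add (Nat.add (Nat.add (Nat.add (Nat.add (Nat.add (Nat.add (Nat.add (Nat.add C x27498) x10002) x15834) x14862) x14214) x14430) x14358) x14394) x14370) x14382) x14374) (Nat.mul x14376 (nat_lit 2)))
    (Nat.sub (Nat.add (Nat.add (Nat.add (Nat.add (Nat.add (Nat.add (Nat.add (Nat.add C x27504) x10008) x15840) x14868) x14220) x14436) x14400) x14376) (Nat.mul x14382 (nat_lit 2)))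
    (Nat.sub (Nat.sub (Nat.add (Nat.add (Nat.add (Nat.add (Nat.add (Nat.add (Nat.add (Nat.add C x27514) x10018) x15850) x14878) x14230) x14446) x14374) x14394) (Nat.mul x14392 (nat_lit 4))) x34074)
    (Nat.sub (Nat.add (Nat.add (Nat.add (Nat.add (Nat.add (Nat.add (Nat.add (Nat.add (Nat.add C x27516) x10020) x15852) x14880) x14232) x14448) x14376) x14400) x14392) (Nat.mul x14394 (nat_lit 4)))
    (Nat.sub (Nat.add (Nat.add (Nat.add (Nat.add (Nat.add (Nat.add (Nat.add (Nat.add C x27522) x10026) x15858) x14886) x14238) x14454) x14382) x14394) (Nat.mul x14400 (nat_lit 2)))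
    (Nat.sub (Nat.sub (Nat.add (Nat.add (Nat.add (Nat.add (Nat.add (Nat.add (Nat.add C x27542) x10046) x15878) x14906) x14258) x14366) x14422) (Nat.mul x14420 (nat_lit 2))) x34102)
    (Nat.sub (Nat.sub (Nat.add (Nat.add (Nat.add (Nat.add (Nat.add (Nat.add (Nat.add (Nat.add (Nat.add C x27544) x10048) x15880) x14908) x14260) x14368) x14428) x14420) x14424) x14422) x34104)
    (Nat.sub (Nat.add (Nat.add (Nat.add (Nat.add (Nat.add (Nat.add (Nat.add (Nat.add C x27546) x10050) x15882) x14910) x14262) x14370) x14430) x14422) (Nat.mul x14424 (nat_lit 2)))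
    (Nat.sub (Nat.sub (Nat.add (Nat.add (Nat.add (Nat.add (Nat.add (Nat.add (Nat.add (Nat.add (Nat.add C x27550) x10054) x15886) x14914) x14266) x14374) x14446) x14422) x14430) (Nat.mul x14428 (nat_lit 2))) x34110)
    (Nat.sub (Nat.add (Nat.add (Nat.add (Nat.add (Nat.add (Nat.add (Nat.add (Nat.add (Nat.add (Nat.add C x27552) x10056) x15888) x14916) x14268) x14376) x14448) x14424) x14436) x14428) x14430)
    (Nat.sub (Nat.add (Nat.add (Nat.add (Nat.add (Nat.add (Nat.add (Nat.add (Nat.add C x27558) x10062) x15894) x14922) x14274) x14382) x14454) x14430) (Nat.mul x14436 (nat_lit 2)))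
    (Nat.sub (Nat.sub (Nat.add (Nat.add (Nat.add (Nat.add (Nat.add (Nat.add (Nat.add (Nat.add (Nat.add C x27568) x10072) x15904) x14932) x14284) x14392) x14500) x14428) x14448) x14446) x34128)
    (Nat.sub (Nat.add (Nat.add (Nat.add (Nat.add (Nat.add (Nat.add (Nat.add (Nat.add (Nat.add (Nat.add C x27570) x10074) x15906) x14934) x14286) x14394) x14502) x14430) x14454) x14446) x14448)
    (Nat.add (Nat.add (Nat.add (Nat.add (Nat.add (Nat.add (Nat.add (Nat.add (Nat.add (Nat.add C x27576) x10080) x15912) x14940) x14292) x14400) x14508) x14436) x14472) x14448)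
    (Nat.add (Nat.add (Nat.add (Nat.add (Nat.add (Nat.add (Nat.add C x27594) x10098) x15930) x14958) x14310) x14526) x14454)
    (Nat.sub (Nat.add (Nat.add (Nat.add (Nat.add (Nat.add (Nat.add C x27622) x10126) x15958) x14986) x14446) x14502) x34182)
    (Nat.add (Nat.add (Nat.add (Nat.add (Nat.add (Nat.add (Nat.add C x27624) x10128) x15960) x14988) x14448) x14508) x14500)
    (Nat.add (Nat.add (Nat.add (Nat.add (Nat.add (Nat.add (Nat.add C x27630) x10134) x15966) x14994) x14454) x14526) x14502)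
    (Nat.add (Nat.add (Nat.add (Nat.add (Nat.add (Nat.add (Nat.add C (Nat.mul x14526 (nat_lit 2))) x27648) x10152) x15984) x15012) x14472) x14508)
    (Nat.sub (Nat.sub (Nat.add (Nat.add (Nat.add (Nat.add (Nat.add C x27710) x10214) x16046) x14102) x14594) (Nat.mul x14588 (nat_lit 2))) x34270)
    (Nat.sub (Nat.sub (Nat.add (Nat.add (Nat.add (Nat.add (Nat.add (Nat.add (Nat.add (Nat.add C x27716) x10220) x16052) x14108) x14612) x14588) x14600) x14596) (Nat.mul x14594 (nat_lit 3))) x34276)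
    (Nat.sub (Nat.sub (Nat.add (Nat.add (Nat.add (Nat.add (Nat.add (Nat.add (Nat.add C x27718) x10222) x16054) x14110) x14614) x14602) x14594) (Nat.mul x14596 (nat_lit 2))) x34278)
    (Nat.sub (Nat.sub (Nat.add (Nat.add (Nat.add (Nat.add (Nat.add (Nat.add (Nat.add C x27722) x10226) x16058) x14114) x14618) x14594) x14602) (Nat.mul x14600 (nat_lit 6))) x34282)
    (Nat.sub (Nat.sub (Nat.add (Nat.add (Nat.add (Nat.add (Nat.add (Nat.add (Nat.add (Nat.add C x27724) x10228) x16060) x14116) x14620) x14596) x14600) x14604) (Nat.mul x14602 (nat_lit 3))) x34284)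
    (Nat.sub (Nat.add (Nat.add (Nat.add (Nat.add (Nat.add (Nat.add C x27726) x10230) x16062) x14118) x14622) x14602) (Nat.mul x14604 (nat_lit 2)))
    (Nat.sub (Nat.sub (Nat.add (Nat.add (Nat.add (Nat.add (Nat.add (Nat.add (Nat.add (Nat.add C x27734) x10238) x16070) x14126) x14666) x14594) x14618) x14614) (Nat.mul x14612 (nat_lit 4))) x34294)
    (Nat.sub (Nat.sub (Nat.add (Nat.add (Nat.add (Nat.add (Nat.add (Nat.add (Nat.add (Nat.add C x27736) x10240) x16072) x14128) x14668) x14596) x14620) x14612) (Nat.mul x14614 (nat_lit 4))) x34296)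
    (Nat.sub (Nat.sub (Nat.add (Nat.add (Nat.add (Nat.add (Nat.add (Nat.add (Nat.add (Nat.add (Nat.add C x27740) x10244) x16076) x14132) x14672) x14600) x14636) x14612) x14620) (Nat.mul x14618 (nat_lit 5))) x34300)
    (Nat.sub (Nat.sub (Nat.add (Nat.add (Nat.add (Nat.add (Nat.add (Nat.add (Nat.add (Nat.add (Nat.add (Nat.add (Nat.add C x27742) x10246) x16078) x14134) x14674) x14602) x14638) x14614) x14626) x14618) x14622) (Nat.mul x14620 (nat_lit 3))) x34302)
    (Nat.sub (Nat.add (Nat.add (Nat.add (Nat.add (Nat.add (Nat.add (Nat.add (Nat.add (Nat.add C x27744) x10248) x16080) x14136) x14676) x14604) x14640) x14628) x14620) (Nat.mul x14622 (nat_lit 3)))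
    (Nat.sub (Nat.sub (Nat.add (Nat.add (Nat.add (Nat.add (Nat.add (Nat.add (Nat.add (Nat.add C x27748) x10252) x16084) x14140) x14680) x14644) x14620) x14628) (Nat.mul x14626 (nat_lit 4))) x34308)
    (Nat.sub (Nat.add (Nat.add (Nat.add (Nat.add (Nat.add (Nat.add (Nat.add (Nat.add C x27750) x10254) x16086) x14142) x14682) x14646) x14622) x14626) (Nat.mul x14628 (nat_lit 2)))
    (Nat.sub (Nat.sub (Nat.add (Nat.add (Nat.add (Nat.add (Nat.add (Nat.add (Nat.add C x27758) x10262) x16094) x14150) x14690) x14618) x14638) (Nat.mul x14636 (nat_lit 6))) x34318)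
    (Nat.sub (Nat.sub (Nat.add (Nat.add (Nat.add (Nat.add (Nat.add (Nat.add (Nat.add (Nat.add (Nat.add C x27760) x10264) x16096) x14152) x14692) x14620) x14644) x14636) x14640) (Nat.mul x14638 (nat_lit 5))) x34320)
    (Nat.sub (Nat.add (Nat.add (Nat.add (Nat.add (Nat.add (Nat.add (Nat.add (Nat.add C x27762) x10266) x16098) x14154) x14694) x14622) x14646) x14638) (Nat.mul x14640 (nat_lit 6)))
    (Nat.sub (Nat.sub (Nat.add (Nat.add (Nat.add (Nat.add (Nat.add (Nat.add (Nat.add (Nat.add C x27766) x10270) x16102) x14158) x14698) x14626) x14638) x14646) (Nat.mul x14644 (nat_lit 4))) x34326)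
    (Nat.sub (Nat.add (Nat.add (Nat.add (Nat.add (Nat.add (Nat.add (Nat.add (Nat.add (Nat.add C x27768) x10272) x16104) x14160) x14700) x14628) x14640) x14652) x14644) (Nat.mul x14646 (nat_lit 3)))
    (Nat.sub (Nat.add (Nat.add (Nat.add (Nat.add (Nat.add (Nat.add C x27774) x10278) x16110) x14166) x14706) x14646) (Nat.mul x14652 (nat_lit 2)))
    (Nat.sub (Nat.sub (Nat.add (Nat.add (Nat.add (Nat.add (Nat.add (Nat.add (Nat.add (Nat.add C x27788) x10292) x16124) x14180) x14828) x14612) x14672) x14668) (Nat.mul x14666 (nat_lit 4))) x34348)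
    (Nat.sub (Nat.sub (Nat.add (Nat.add (Nat.add (Nat.add (Nat.add (Nat.add (Nat.add (Nat.add C x27790) x10294) x16126) x14182) x14830) x14614) x14674) x14666) (Nat.mul x14668 (nat_lit 4))) x34350)
    (Nat.sub (Nat.sub (Nat.add (Nat.add (Nat.add (Nat.add (Nat.add (Nat.add (Nat.add (Nat.add (Nat.add C x27794) x10298) x16130) x14186) x14834) x14618) x14690) x14666) x14674) (Nat.mul x14672 (nat_lit 6))) x34354)
    (Nat.sub (Nat.sub (Nat.add (Nat.add (Nat.add (Nat.add (Nat.add (Nat.add (Nat.add (Nat.add (Nat.add (Nat.add (Nat.add C x27796) x10300) x16132) x14188) x14836) x14620) x14692) x14668) x14680) x14672) x14676) (Nat.mul x14674 (nat_lit 4))) x34356)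
    (Nat.sub (Nat.add (Nat.add (Nat.add (Nat.add (Nat.add (Nat.add (Nat.add (Nat.add (Nat.add C x27798) x10302) x16134) x14190) x14838) x14622) x14694) x14682) x14674) (Nat.mul x14676 (nat_lit 4)))
    (Nat.sub (Nat.sub (Nat.add (Nat.add (Nat.add (Nat.add (Nat.add (Nat.add (Nat.add (Nat.add (Nat.add C x27802) x10306) x16138) x14194) x14842) x14626) x14698) x14674) x14682) (Nat.mul x14680 (nat_lit 6))) x34362)
    (Nat.sub (Nat.add (Nat.add (Nat.add (Nat.add (Nat.add (Nat.add (Nat.add (Nat.add (Nat.add C x27804) x10308) x16140) x14196) x14844) x14628) x14700) x14676) x14680) (Nat.mul x14682 (nat_lit 4)))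
    (Nat.sub (Nat.sub (Nat.add (Nat.add (Nat.add (Nat.add (Nat.add (Nat.add (Nat.add (Nat.add (Nat.add C x27812) x10316) x16148) x14204) x14852) x14636) x14744) x14672) x14692) (Nat.mul x14690 (nat_lit 5))) x34372)
    (Nat.sub (Nat.sub (Nat.add (Nat.add (Nat.add (Nat.add (Nat.add (Nat.add (Nat.add (Nat.add (Nat.add (Nat.add (Nat.add C x27814) x10318) x16150) x14206) x14854) x14638) x14746) x14674) x14698) x14690) x14694) (Nat.mul x14692 (nat_lit 4))) x34374)
    (Nat.sub (Nat.add (Nat.add (Nat.add (Nat.add (Nat.add (Nat.add (Nat.add (Nat.add (Nat.add (Nat.add C x27816) x10320) x16152) x14208) x14856) x14640) x14748) x14676) x14700) x14692) (Nat.mul x14694 (nat_lit 5)))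
    (Nat.sub (Nat.sub (Nat.add (Nat.add (Nat.add (Nat.add (Nat.add (Nat.add (Nat.add (Nat.add (Nat.add (Nat.add (Nat.add C x27820) x10324) x16156) x14212) x14860) x14644) x14752) x14680) x14716) x14692) x14700) (Nat.mul x14698 (nat_lit 4))) x34380)
    (Nat.sub (Nat.add (Nat.add (Nat.add (Nat.add (Nat.add (Nat.add (Nat.add (Nat.add (Nat.add (Nat.add (Nat.add (Nat.add C x27822) x10326) x16158) x14214) x14862) x14646) x14754) x14682) x14718) x14694) x14706) x14698) (Nat.mul x14700 (nat_lit 3)))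
    (Nat.sub (Nat.add (Nat.add (Nat.add (Nat.add (Nat.add (Nat.add (Nat.add (Nat.add (Nat.add C x27828) x10332) x16164) x14220) x14868) x14652) x14760) x14724) x14700) (Nat.mul x14706 (nat_lit 3)))
    (Nat.sub (Nat.sub (Nat.add (Nat.add (Nat.add (Nat.add (Nat.add (Nat.add (Nat.add (Nat.add C x27838) x10342) x16174) x14230) x14878) x14770) x14698) x14718) (Nat.mul x14716 (nat_lit 4))) x34398)
    (Nat.sub (Nat.add (Nat.add (Nat.add (Nat.add (Nat.add (Nat.add (Nat.add (Nat.add (Nat.add C x27840) x10344) x16176) x14232) x14880) x14772) x14700) x14724) x14716) (Nat.mul x14718 (nat_lit 4)))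
    (Nat.sub (Nat.add (Nat.add (Nat.add (Nat.add (Nat.add (Nat.add (Nat.add (Nat.add C x27846) x10350) x16182) x14238) x14886) x14778) x14706) x14718) (Nat.mul x14724 (nat_lit 2)))
    (Nat.sub (Nat.sub (Nat.add (Nat.add (Nat.add (Nat.add (Nat.add (Nat.add (Nat.add C x27866) x10370) x16202) x14258) x14906) x14690) x14746) (Nat.mul x14744 (nat_lit 6))) x34426)
    (Nat.sub (Nat.sub (Nat.add (Nat.add (Nat.add (Nat.add (Nat.add (Nat.add (Nat.add (Nat.add (Nat.add C x27868) x10372) x16204) x14260) x14908) x14692) x14752) x14744) x14748) (Nat.mul x14746 (nat_lit 5))) x34428)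
    (Nat.sub (Nat.add (Nat.add (Nat.add (Nat.add (Nat.add (Nat.add (Nat.add (Nat.add C x27870) x10374) x16206) x14262) x14910) x14694) x14754) x14746) (Nat.mul x14748 (nat_lit 6)))
    (Nat.sub (Nat.sub (Nat.add (Nat.add (Nat.add (Nat.add (Nat.add (Nat.add (Nat.add (Nat.add (Nat.add C x27874) x10378) x16210) x14266) x14914) x14698) x14770) x14746) x14754) (Nat.mul x14752 (nat_lit 6))) x34434)
    (Nat.sub (Nat.add (Nat.add (Nat.add (Nat.add (Nat.add (Nat.add (Nat.add (Nat.add (Nat.add (Nat.add C x27876) x10380) x16212) x14268) x14916) x14700) x14772) x14748) x14760) x14752) (Nat.mul x14754 (nat_lit 5)))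
    (Nat.sub (Nat.add (Nat.add (Nat.add (Nat.add (Nat.add (Nat.add (Nat.add (Nat.add C x27882) x10386) x16218) x14274) x14922) x14706) x14778) x14754) (Nat.mul x14760 (nat_lit 6)))
    (Nat.sub (Nat.sub (Nat.add (Nat.add (Nat.add (Nat.add (Nat.add (Nat.add (Nat.add (Nat.add C x27892) x10396) x16228) x14284) x14932) x14716) x14752) x14772) (Nat.mul x14770 (nat_lit 4))) x34452)
    (Nat.sub (Nat.add (Nat.add (Nat.add (Nat.add (Nat.add (Nat.add (Nat.add (Nat.add (Nat.add C x27894) x10398) x16230) x14286) x14934) x14718) x14754) x14778) x14770) (Nat.mul x14772 (nat_lit 4)))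
    (Nat.sub (Nat.add (Nat.add (Nat.add (Nat.add (Nat.add (Nat.add (Nat.add (Nat.add (Nat.add C x27900) x10404) x16236) x14292) x14940) x14724) x14760) x14796) x14772) (Nat.mul x14778 (nat_lit 3)))
    (Nat.sub (Nat.add (Nat.add (Nat.add (Nat.add (Nat.add (Nat.add C x27918) x10422) x16254) x14310) x14958) x14778) (Nat.mul x14796 (nat_lit 2)))
    (Nat.sub (Nat.sub (Nat.add (Nat.add (Nat.add (Nat.add (Nat.add (Nat.add (Nat.add C x27950) x10454) x16286) x14342) x14666) x14834) x14830) (Nat.mul x14828 (nat_lit 2))) x34510)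
    (Nat.sub (Nat.sub (Nat.add (Nat.add (Nat.add (Nat.add (Nat.add (Nat.add (Nat.add C x27952) x10456) x16288) x14344) x14668) x14836) x14828) (Nat.mul x14830 (nat_lit 2))) x34512)
    (Nat.sub (Nat.sub (Nat.add (Nat.add (Nat.add (Nat.add (Nat.add (Nat.add (Nat.add (Nat.add C x27956) x10460) x16292) x14348) x14672) x14852) x14828) x14836) (Nat.mul x14834 (nat_lit 4))) x34516)
    (Nat.sub (Nat.sub (Nat.add (Nat.add (Nat.add (Nat.add (Nat.add (Nat.add (Nat.add (Nat.add (Nat.add (Nat.add C x27958) x10462) x16294) x14350) x14674) x14854) x14830) x14842) x14834) x14838) (Nat.mul x14836 (nat_lit 2))) x34518)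
    (Nat.sub (Nat.add (Nat.add (Nat.add (Nat.add (Nat.add (Nat.add (Nat.add (Nat.add C x27960) x10464) x16296) x14352) x14676) x14856) x14844) x14836) (Nat.mul x14838 (nat_lit 2)))
    (Nat.sub (Nat.sub (Nat.add (Nat.add (Nat.add (Nat.add (Nat.add (Nat.add (Nat.add (Nat.add C x27964) x10468) x16300) x14356) x14680) x14860) x14836) x14844) (Nat.mul x14842 (nat_lit 4))) x34524)
    (Nat.sub (Nat.add (Nat.add (Nat.add (Nat.add (Nat.add (Nat.add (Nat.add (Nat.add C x27966) x10470) x16302) x14358) x14682) x14862) x14838) x14842) (Nat.mul x14844 (nat_lit 2)))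
    (Nat.sub (Nat.sub (Nat.add (Nat.add (Nat.add (Nat.add (Nat.add (Nat.add (Nat.add (Nat.add C x27974) x10478) x16310) x14366) x14690) x14906) x14834) x14854) (Nat.mul x14852 (nat_lit 4))) x34534)
    (Nat.sub (Nat.sub (Nat.add (Nat.add (Nat.add (Nat.add (Nat.add (Nat.add (Nat.add (Nat.add (Nat.add (Nat.add C x27976) x10480) x16312) x14368) x14692) x14908) x14836) x14860) x14852) x14856) (Nat.mul x14854 (nat_lit 3))) x34536)
    (Nat.sub (Nat.add (Nat.add (Nat.add (Nat.add (Nat.add (Nat.add (Nat.add (Nat.add (Nat.add C x27978) x10482) x16314) x14370) x14694) x14910) x14838) x14862) x14854) (Nat.mul x14856 (nat_lit 4)))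
    (Nat.sub (Nat.sub (Nat.add (Nat.add (Nat.add (Nat.add (Nat.add (Nat.add (Nat.add (Nat.add (Nat.add (Nat.add C x27982) x10486) x16318) x14374) x14698) x14914) x14842) x14878) x14854) x14862) (Nat.mul x14860 (nat_lit 3))) x34542)
    (Nat.sub (Nat.add (Nat.add (Nat.add (Nat.add (Nat.add (Nat.add (Nat.add (Nat.add (Nat.add (Nat.add (Nat.add C x27984) x10488) x16320) x14376) x14700) x14916) x14844) x14880) x14856) x14868) x14860) (Nat.mul x14862 (nat_lit 2)))
    (Nat.sub (Nat.add (Nat.add (Nat.add (Nat.add (Nat.add (Nat.add (Nat.add (Nat.add C x27990) x10494) x16326) x14382) x14706) x14922) x14886) x14862) (Nat.mul x14868 (nat_lit 2)))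
    (Nat.sub (Nat.sub (Nat.add (Nat.add (Nat.add (Nat.add (Nat.add (Nat.add (Nat.add (Nat.add C x28000) x10504) x16336) x14392) x14716) x14932) x14860) x14880) (Nat.mul x14878 (nat_lit 4))) x34560)
    (Nat.sub (Nat.add (Nat.add (Nat.add (Nat.add (Nat.add (Nat.add (Nat.add (Nat.add (Nat.add C x28002) x10506) x16338) x14394) x14718) x14934) x14862) x14886) x14878) (Nat.mul x14880 (nat_lit 4)))
    (Nat.sub (Nat.add (Nat.add (Nat.add (Nat.add (Nat.add (Nat.add (Nat.add (Nat.add C x28008) x10512) x16344) x14400) x14724) x14940) x14868) x14880) (Nat.mul x14886 (nat_lit 2)))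
    (Nat.sub (Nat.sub (Nat.add (Nat.add (Nat.add (Nat.add (Nat.add (Nat.add (Nat.add (Nat.add C x28028) x10532) x16364) x14420) x14744) x15068) x14852) x14908) (Nat.mul x14906 (nat_lit 3))) x34588)
    (Nat.sub (Nat.sub (Nat.add (Nat.add (Nat.add (Nat.add (Nat.add (Nat.add (Nat.add (Nat.add (Nat.add (Nat.add C x28030) x10534) x16366) x14422) x14746) x15070) x14854) x14914) x14906) x14910) (Nat.mul x14908 (nat_lit 2))) x34590)
    (Nat.sub (Nat.add (Nat.add (Nat.add (Nat.add (Nat.add (Nat.add (Nat.add (Nat.add (Nat.add C x28032) x10536) x16368) x14424) x14748) x15072) x14856) x14916) x14908) (Nat.mul x14910 (nat_lit 3)))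
    (Nat.sub (Nat.sub (Nat.add (Nat.add (Nat.add (Nat.add (Nat.add (Nat.add (Nat.add (Nat.add (Nat.add (Nat.add C x28036) x10540) x16372) x14428) x14752) x15076) x14860) x14932) x14908) x14916) (Nat.mul x14914 (nat_lit 3))) x34596)
    (Nat.sub (Nat.add (Nat.add (Nat.add (Nat.add (Nat.add (Nat.add (Nat.add (Nat.add (Nat.add (Nat.add (Nat.add C x28038) x10542) x16374) x14430) x14754) x15078) x14862) x14934) x14910) x14922) x14914) (Nat.mul x14916 (nat_lit 2)))
    (Nat.sub (Nat.add (Nat.add (Nat.add (Nat.add (Nat.add (Nat.add (Nat.add (Nat.add (Nat.add C x28044) x10548) x16380) x14436) x14760) x15084) x14868) x14940) x14916) (Nat.mul x14922 (nat_lit 3)))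
    (Nat.sub (Nat.sub (Nat.add (Nat.add (Nat.add (Nat.add (Nat.add (Nat.add (Nat.add (Nat.add (Nat.add (Nat.add C x28054) x10558) x16390) x14446) x14770) x15094) x14878) x14986) x14914) x14934) (Nat.mul x14932 (nat_lit 2))) x34614)
    (Nat.sub (Nat.add (Nat.add (Nat.add (Nat.add (Nat.add (Nat.add (Nat.add (Nat.add (Nat.add (Nat.add (Nat.add C x28056) x10560) x16392) x14448) x14772) x15096) x14880) x14988) x14916) x14940) x14932) (Nat.mul x14934 (nat_lit 2)))
    (Nat.sub (Nat.add (Nat.add (Nat.add (Nat.add (Nat.add (Nat.add (Nat.add (Nat.add (Nat.add (Nat.add (Nat.add C x28062) x10566) x16398) x14454) x14778) x15102) x14886) x14994) x14922) x14958) x14934) x14940)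
    (Nat.sub (Nat.add (Nat.add (Nat.add (Nat.add (Nat.add (Nat.add (Nat.add (Nat.add C x28080) x10584) x16416) x14472) x14796) x15120) x15012) x14940) x14958)
    (Nat.sub (Nat.sub (Nat.add (Nat.add (Nat.add (Nat.add (Nat.add (Nat.add (Nat.add C x28108) x10612) x16444) x14500) x15148) x14932) x14988) (Nat.mul x14986 (nat_lit 2))) x34668)
    (Nat.sub (Nat.add (Nat.add (Nat.add (Nat.add (Nat.add (Nat.add (Nat.add (Nat.add C x28110) x10614) x16446) x14502) x15150) x14934) x14994) x14986) (Nat.mul x14988 (nat_lit 2)))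
    (Nat.sub (Nat.add (Nat.add (Nat.add (Nat.add (Nat.add (Nat.add (Nat.add (Nat.add C x28116) x10620) x16452) x14508) x15156) x14940) x15012) x14988) (Nat.mul x14994 (nat_lit 2)))
    (Nat.add (Nat.add (Nat.add (Nat.add (Nat.add (Nat.add (Nat.add C x28134) x10638) x16470) x14526) x15174) x14958) x14994)
    (Nat.sub (Nat.sub (Nat.add (Nat.add (Nat.add (Nat.add (Nat.add C x28190) x10694) x16526) x14906) x15070) (Nat.mul x15068 (nat_lit 2))) x34750)
    (Nat.sub (Nat.sub (Nat.add (Nat.add (Nat.add (Nat.add (Nat.add (Nat.add (Nat.add C x28192) x10696) x16528) x14908) x15076) x15068) x15072) x15070) x34752)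
    (Nat.sub (Nat.add (Nat.add (Nat.add (Nat.add (Nat.add (Nat.add C x28194) x10698) x16530) x14910) x15078) x15070) (Nat.mul x15072 (nat_lit 2)))
    (Nat.sub (Nat.sub (Nat.add (Nat.add (Nat.add (Nat.add (Nat.add (Nat.add (Nat.add C x28198) x10702) x16534) x14914) x15094) x15070) x15078) (Nat.mul x15076 (nat_lit 2))) x34758)
    (Nat.sub (Nat.add (Nat.add (Nat.add (Nat.add (Nat.add (Nat.add (Nat.add (Nat.add C x28200) x10704) x16536) x14916) x15096) x15072) x15084) x15076) x15078)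
    (Nat.sub (Nat.add (Nat.add (Nat.add (Nat.add (Nat.add (Nat.add C x28206) x10710) x16542) x14922) x15102) x15078) (Nat.mul x15084 (nat_lit 2)))
    (Nat.sub (Nat.sub (Nat.add (Nat.add (Nat.add (Nat.add (Nat.add (Nat.add (Nat.add C x28216) x10720) x16552) x14932) x15148) x15076) x15096) (Nat.mul x15094 (nat_lit 2))) x34776)
    (Nat.sub (Nat.add (Nat.add (Nat.add (Nat.add (Nat.add (Nat.add (Nat.add (Nat.add C x28218) x10722) x16554) x14934) x15150) x15078) x15102) x15094) (Nat.mul x15096 (nat_lit 2)))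
    (Nat.sub (Nat.add (Nat.add (Nat.add (Nat.add (Nat.add (Nat.add (Nat.add (Nat.add C x28224) x10728) x16560) x14940) x15156) x15084) x15120) x15096) x15102)
    (Nat.sub (Nat.add (Nat.add (Nat.add (Nat.add (Nat.add (Nat.add C x28242) x10746) x16578) x14958) x15174) x15102) (Nat.mul x15120 (nat_lit 2)))
    (Nat.sub (Nat.add (Nat.add (Nat.add (Nat.add (Nat.add (Nat.add C x28270) x10774) x16606) x14986) x15094) x15150) x34830)
    (Nat.add (Nat.add (Nat.add (Nat.add (Nat.add (Nat.add (Nat.add C x28272) x10776) x16608) x14988) x15096) x15156) x15148)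
    (Nat.add (Nat.add (Nat.add (Nat.add (Nat.add (Nat.add (Nat.add C x28278) x10782) x16614) x14994) x15102) x15174) x15150)
    (Nat.add (Nat.add (Nat.add (Nat.add (Nat.add (Nat.add (Nat.add (Nat.add C x15174) x28296) x10800) x16632) x15012) x15120) x15228) x15156)
    (Nat.add (Nat.add (Nat.add (Nat.add (Nat.add C (Nat.mul x15228 (nat_lit 2))) x28350) x10854) x16686) x15174)
    (Nat.sub (Nat.add (Nat.add (Nat.add (Nat.add (Nat.add (Nat.add C (Nat.mul x15326 (nat_lit 2))) x28448) x10952) x13868) x15344) x15332) x35008)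
    (Nat.sub (Nat.add (Nat.add (Nat.add (Nat.add (Nat.add (Nat.add C x28454) x10958) x13874) x15350) x15326) x15334) x35014)
    (Nat.sub (Nat.add (Nat.add (Nat.add (Nat.add (Nat.add (Nat.add C (Nat.mul x15334 (nat_lit 2))) x28456) x10960) x13876) x15352) x15332) x35016)
    (Nat.sub (Nat.add (Nat.add (Nat.add (Nat.add (Nat.add (Nat.add C x28466) x10970) x13886) x15398) x15326) x15350) x35026)
    (Nat.sub (Nat.add (Nat.add (Nat.add (Nat.add (Nat.add (Nat.add (Nat.add (Nat.add (Nat.add C x28472) x10976) x13892) x15404) x15332) x15368) x15344) x15356) x15352) x35032)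
    (Nat.sub (Nat.add (Nat.add (Nat.add (Nat.add (Nat.add (Nat.add (Nat.add (Nat.add (Nat.add C x15352) x28474) x10978) x13894) x15406) x15334) x15370) x15358) x15350) x35034)
    (Nat.sub (Nat.sub (Nat.add (Nat.add (Nat.add (Nat.add (Nat.add (Nat.add (Nat.add C x28478) x10982) x13898) x15410) x15374) x15350) x15358) (Nat.mul x15356 (nat_lit 2))) x35038)
    (Nat.sub (Nat.add (Nat.add (Nat.add (Nat.add (Nat.add (Nat.add (Nat.add (Nat.add (Nat.add C x15358) x28480) x10984) x13900) x15412) x15376) x15352) x15356) x15360) x35040)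
    (Nat.add (Nat.add (Nat.add (Nat.add (Nat.add (Nat.add (Nat.add C (Nat.mul x15360 (nat_lit 2))) x28482) x10986) x13902) x15414) x15378) x15358)
    (Nat.sub (Nat.sub (Nat.add (Nat.add (Nat.add (Nat.add (Nat.add (Nat.add (Nat.add C x28490) x10994) x13910) x15422) x15350) x15374) x15370) (Nat.mul x15368 (nat_lit 2))) x35050)
    (Nat.sub (Nat.sub (Nat.add (Nat.add (Nat.add (Nat.add (Nat.add (Nat.add (Nat.add C x28492) x10996) x13912) x15424) x15352) x15376) x15368) (Nat.mul x15370 (nat_lit 2))) x35052)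
    (Nat.sub (Nat.sub (Nat.add (Nat.add (Nat.add (Nat.add (Nat.add (Nat.add (Nat.add C x28496) x11000) x13916) x15428) x15356) x15368) x15376) (Nat.mul x15374 (nat_lit 2))) x35056)
    (Nat.sub (Nat.add (Nat.add (Nat.add (Nat.add (Nat.add (Nat.add (Nat.add (Nat.add (Nat.add C x28498) x11002) x13918) x15430) x15358) x15370) x15382) x15374) x15378) x35058)
    (Nat.add (Nat.add (Nat.add (Nat.add (Nat.add (Nat.add (Nat.add C x28500) x11004) x13920) x15432) x15360) x15384) x15376)
    (Nat.sub (Nat.add (Nat.add (Nat.add (Nat.add (Nat.add (Nat.add C x28504) x11008) x13924) x15436) x15376) x15384) x35064)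
    (Nat.add (Nat.add (Nat.add (Nat.add (Nat.add (Nat.add (Nat.add C (Nat.mul x15384 (nat_lit 2))) x28506) x11010) x13926) x15438) x15378) x15382)
    (Nat.sub (Nat.add (Nat.add (Nat.add (Nat.add (Nat.add (Nat.add C x28520) x11024) x13940) x15560) x15344) x15404) x35080)
    (Nat.sub (Nat.sub (Nat.add (Nat.add (Nat.add (Nat.add (Nat.add (Nat.add (Nat.add (Nat.add (Nat.add C x28526) x11030) x13946) x15566) x15350) x15422) x15398) x15410) x15406) x15404) x35086)
    (Nat.sub (Nat.add (Nat.add (Nat.add (Nat.add (Nat.add (Nat.add (Nat.add (Nat.add C x28528) x11032) x13948) x15568) x15352) x15424) x15412) x15404) x35088)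
    (Nat.sub (Nat.sub (Nat.add (Nat.add (Nat.add (Nat.add (Nat.add (Nat.add (Nat.add (Nat.add C x28532) x11036) x13952) x15572) x15356) x15428) x15404) x15412) (Nat.mul x15410 (nat_lit 4))) x35092)
    (Nat.sub (Nat.sub (Nat.add (Nat.add (Nat.add (Nat.add (Nat.add (Nat.add (Nat.add (Nat.add (Nat.add C x28534) x11038) x13954) x15574) x15358) x15430) x15406) x15410) x15414) x15412) x35094)
    (Nat.add (Nat.add (Nat.add (Nat.add (Nat.add (Nat.add (Nat.add C x28536) x11040) x13956) x15576) x15360) x15432) x15412)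
    (Nat.sub (Nat.sub (Nat.add (Nat.add (Nat.add (Nat.add (Nat.add (Nat.add (Nat.add (Nat.add (Nat.add C x28544) x11048) x13964) x15584) x15368) x15476) x15404) x15428) x15424) x15422) x35104)
    (Nat.sub (Nat.sub (Nat.add (Nat.add (Nat.add (Nat.add (Nat.add (Nat.add (Nat.add (Nat.add (Nat.add C x28546) x11050) x13966) x15586) x15370) x15478) x15406) x15430) x15422) x15424) x35106)
    (Nat.sub (Nat.sub (Nat.add (Nat.add (Nat.add (Nat.add (Nat.add (Nat.add (Nat.add (Nat.add (Nat.add (Nat.add C x28550) x11054) x13970) x15590) x15374) x15482) x15410) x15446) x15422) x15430) (Nat.mul x15428 (nat_lit 2))) x35110)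
    (Nat.sub (Nat.add (Nat.add (Nat.add (Nat.add (Nat.add (Nat.add (Nat.add (Nat.add (Nat.add (Nat.add (Nat.add (Nat.add C x28552) x11056) x13972) x15592) x15376) x15484) x15412) x15448) x15424) x15436) x15428) x15432) x35112)
    (Nat.add (Nat.add (Nat.add (Nat.add (Nat.add (Nat.add (Nat.add (Nat.add (Nat.add (Nat.add C x28554) x11058) x13974) x15594) x15378) x15486) x15414) x15450) x15438) x15430)
    (Nat.sub (Nat.sub (Nat.add (Nat.add (Nat.add (Nat.add (Nat.add (Nat.add (Nat.add (Nat.add (Nat.add C x28558) x11062) x13978) x15598) x15382) x15490) x15454) x15430) x15438) x15436) x35118)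
    (Nat.add (Nat.add (Nat.add (Nat.add (Nat.add (Nat.add (Nat.add (Nat.add (Nat.add (Nat.add C x15438) x28560) x11064) x13980) x15600) x15384) x15492) x15456) x15432) x15436)
    (Nat.sub (Nat.sub (Nat.add (Nat.add (Nat.add (Nat.add (Nat.add (Nat.add (Nat.add C x28568) x11072) x13988) x15608) x15500) x15428) x15448) (Nat.mul x15446 (nat_lit 2))) x35128)
    (Nat.sub (Nat.sub (Nat.add (Nat.add (Nat.add (Nat.add (Nat.add (Nat.add (Nat.add (Nat.add (Nat.add C x28570) x11074) x13990) x15610) x15502) x15430) x15454) x15446) x15450) x15448) x35130)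
    (Nat.sub (Nat.add (Nat.add (Nat.add (Nat.add (Nat.add (Nat.add (Nat.add (Nat.add C x28572) x11076) x13992) x15612) x15504) x15432) x15456) x15448) (Nat.mul x15450 (nat_lit 2)))
    (Nat.sub (Nat.add (Nat.add (Nat.add (Nat.add (Nat.add (Nat.add (Nat.add (Nat.add C x28576) x11080) x13996) x15616) x15508) x15436) x15448) x15456) x35136)
    (Nat.add (Nat.add (Nat.add (Nat.add (Nat.add (Nat.add (Nat.add (Nat.add (Nat.add (Nat.add C x15456) x28578) x11082) x13998) x15618) x15510) x15438) x15450) x15462) x15454)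
    (Nat.add (Nat.add (Nat.add (Nat.add (Nat.add (Nat.add (Nat.add C (Nat.mul x15462 (nat_lit 2))) x28584) x11088) x14004) x15624) x15516) x15456)
    (Nat.sub (Nat.sub (Nat.add (Nat.add (Nat.add (Nat.add (Nat.add (Nat.add (Nat.add C x28598) x11102) x14018) x15638) x15422) x15482) x15478) (Nat.mul x15476 (nat_lit 2))) x35158)
    (Nat.sub (Nat.sub (Nat.add (Nat.add (Nat.add (Nat.add (Nat.add (Nat.add (Nat.add C x28600) x11104) x14020) x15640) x15424) x15484) x15476) (Nat.mul x15478 (nat_lit 2))) x35160)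
    (Nat.sub (Nat.sub (Nat.add (Nat.add (Nat.add (Nat.add (Nat.add (Nat.add (Nat.add (Nat.add C x28604) x11108) x14024) x15644) x15428) x15500) x15476) x15484) (Nat.mul x15482 (nat_lit 4))) x35164)
    (Nat.sub (Nat.sub (Nat.add (Nat.add (Nat.add (Nat.add (Nat.add (Nat.add (Nat.add (Nat.add (Nat.add (Nat.add C x28606) x11110) x14026) x15646) x15430) x15502) x15478) x15490) x15482) x15486) (Nat.mul x15484 (nat_lit 2))) x35166)
    (Nat.sub (Nat.add (Nat.add (Nat.add (Nat.add (Nat.add (Nat.add (Nat.add (Nat.add C x28608) x11112) x14028) x15648) x15432) x15504) x15492) x15484) (Nat.mul x15486 (nat_lit 2)))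
    (Nat.sub (Nat.sub (Nat.add (Nat.add (Nat.add (Nat.add (Nat.add (Nat.add (Nat.add (Nat.add C x28612) x11116) x14032) x15652) x15436) x15508) x15484) x15492) (Nat.mul x15490 (nat_lit 4))) x35172)
    (Nat.sub (Nat.add (Nat.add (Nat.add (Nat.add (Nat.add (Nat.add (Nat.add (Nat.add C x28614) x11118) x14034) x15654) x15438) x15510) x15486) x15490) (Nat.mul x15492 (nat_lit 2)))
    (Nat.sub (Nat.sub (Nat.add (Nat.add (Nat.add (Nat.add (Nat.add (Nat.add (Nat.add C x28622) x11126) x14042) x15662) x15446) x15482) x15502) (Nat.mul x15500 (nat_lit 2))) x35182)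
    (Nat.sub (Nat.sub (Nat.add (Nat.add (Nat.add (Nat.add (Nat.add (Nat.add (Nat.add (Nat.add (Nat.add C x28624) x11128) x14044) x15664) x15448) x15484) x15508) x15500) x15504) x15502) x35184)
    (Nat.sub (Nat.add (Nat.add (Nat.add (Nat.add (Nat.add (Nat.add (Nat.add (Nat.add C x28626) x11130) x14046) x15666) x15450) x15486) x15510) x15502) (Nat.mul x15504 (nat_lit 2)))
    (Nat.sub (Nat.sub (Nat.add (Nat.add (Nat.add (Nat.add (Nat.add (Nat.add (Nat.add (Nat.add (Nat.add C x28630) x11134) x14050) x15670) x15454) x15490) x15526) x15502) x15510) x15508) x35190)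
    (Nat.add (Nat.add (Nat.add (Nat.add (Nat.add (Nat.add (Nat.add (Nat.add (Nat.add (Nat.add C x28632) x11136) x14052) x15672) x15456) x15492) x15528) x15504) x15516) x15508)
    (Nat.add (Nat.add (Nat.add (Nat.add (Nat.add (Nat.add (Nat.add C x28638) x11142) x14058) x15678) x15462) x15534) x15510)
    (Nat.sub (Nat.add (Nat.add (Nat.add (Nat.add (Nat.add (Nat.add C x28648) x11152) x14068) x15688) x15508) x15528) x35208)
    (Nat.add (Nat.add (Nat.add (Nat.add (Nat.add (Nat.add (Nat.add C x28650) x11154) x14070) x15690) x15510) x15534) x15526)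
    (Nat.add (Nat.add (Nat.add (Nat.add (Nat.add (Nat.add (Nat.add C (Nat.mul x15534 (nat_lit 2))) x28656) x11160) x14076) x15696) x15516) x15528)
    (Nat.sub (Nat.add (Nat.add (Nat.add (Nat.add (Nat.add (Nat.add C x28682) x11186) x14102) x16046) x15398) x15566) x35242)
    (Nat.sub (Nat.sub (Nat.add (Nat.add (Nat.add (Nat.add (Nat.add (Nat.add (Nat.add (Nat.add (Nat.add C x28688) x11192) x14108) x16052) x15404) x15584) x15560) x15572) x15568) x15566) x35248)
    (Nat.sub (Nat.add (Nat.add (Nat.add (Nat.add (Nat.add (Nat.add (Nat.add (Nat.add C x28690) x11194) x14110) x16054) x15406) x15586) x15574) x15566) x35250)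
    (Nat.sub (Nat.sub (Nat.add (Nat.add (Nat.add (Nat.add (Nat.add (Nat.add (Nat.add (Nat.add C x28694) x11198) x14114) x16058) x15410) x15590) x15566) x15574) (Nat.mul x15572 (nat_lit 4))) x35254)
    (Nat.sub (Nat.sub (Nat.add (Nat.add (Nat.add (Nat.add (Nat.add (Nat.add (Nat.add (Nat.add (Nat.add C x28696) x11200) x14116) x16060) x15412) x15592) x15568) x15572) x15576) x15574) x35256)
    (Nat.add (Nat.add (Nat.add (Nat.add (Nat.add (Nat.add (Nat.add C x28698) x11202) x14118) x16062) x15414) x15594) x15574)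
    (Nat.sub (Nat.sub (Nat.add (Nat.add (Nat.add (Nat.add (Nat.add (Nat.add (Nat.add (Nat.add (Nat.add C x28706) x11210) x14126) x16070) x15422) x15638) x15566) x15590) x15586) (Nat.mul x15584 (nat_lit 2))) x35266)
    (Nat.sub (Nat.sub (Nat.add (Nat.add (Nat.add (Nat.add (Nat.add (Nat.add (Nat.add (Nat.add (Nat.add C x28708) x11212) x14128) x16072) x15424) x15640) x15568) x15592) x15584) (Nat.mul x15586 (nat_lit 2))) x35268)
    (Nat.sub (Nat.sub (Nat.add (Nat.add (Nat.add (Nat.add (Nat.add (Nat.add (Nat.add (Nat.add (Nat.add (Nat.add C x28712) x11216) x14132) x16076) x15428) x15644) x15572) x15608) x15584) x15592) (Nat.mul x15590 (nat_lit 3))) x35272)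
    (Nat.sub (Nat.sub (Nat.add (Nat.add (Nat.add (Nat.add (Nat.add (Nat.add (Nat.add (Nat.add (Nat.add (Nat.add (Nat.add (Nat.add C x28714) x11218) x14134) x16078) x15430) x15646) x15574) x15610) x15586) x15598) x15590) x15594) x15592) x35274)
    (Nat.sub (Nat.add (Nat.add (Nat.add (Nat.add (Nat.add (Nat.add (Nat.add (Nat.add (Nat.add (Nat.add C x28716) x11220) x14136) x16080) x15432) x15648) x15576) x15612) x15600) x15592) x15594)
    (Nat.sub (Nat.sub (Nat.add (Nat.add (Nat.add (Nat.add (Nat.add (Nat.add (Nat.add (Nat.add (Nat.add C x28720) x11224) x14140) x16084) x15436) x15652) x15616) x15592) x15600) (Nat.mul x15598 (nat_lit 2))) x35280)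
    (Nat.add (Nat.add (Nat.add (Nat.add (Nat.add (Nat.add (Nat.add (Nat.add (Nat.add C x28722) x11226) x14142) x16086) x15438) x15654) x15618) x15594) x15598)
    (Nat.sub (Nat.sub (Nat.add (Nat.add (Nat.add (Nat.add (Nat.add (Nat.add (Nat.add (Nat.add C x28730) x11234) x14150) x16094) x15446) x15662) x15590) x15610) (Nat.mul x15608 (nat_lit 4))) x35290)
    (Nat.sub (Nat.sub (Nat.add (Nat.add (Nat.add (Nat.add (Nat.add (Nat.add (Nat.add (Nat.add (Nat.add (Nat.add C x28732) x11236) x14152) x16096) x15448) x15664) x15592) x15616) x15608) x15612) (Nat.mul x15610 (nat_lit 3))) x35292)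
    (Nat.sub (Nat.add (Nat.add (Nat.add (Nat.add (Nat.add (Nat.add (Nat.add (Nat.add (Nat.add C x28734) x11238) x14154) x16098) x15450) x15666) x15594) x15618) x15610) (Nat.mul x15612 (nat_lit 4)))
    (Nat.sub (Nat.sub (Nat.add (Nat.add (Nat.add (Nat.add (Nat.add (Nat.add (Nat.add (Nat.add (Nat.add C x28738) x11242) x14158) x16102) x15454) x15670) x15598) x15610) x15618) (Nat.mul x15616 (nat_lit 2))) x35298)
    (Nat.sub (Nat.add (Nat.add (Nat.add (Nat.add (Nat.add (Nat.add (Nat.add (Nat.add (Nat.add (Nat.add C x28740) x11244) x14160) x16104) x15456) x15672) x15600) x15612) x15624) x15616) x15618)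
    (Nat.add (Nat.add (Nat.add (Nat.add (Nat.add (Nat.add (Nat.add C x28746) x11250) x14166) x16110) x15462) x15678) x15618)
    (Nat.sub (Nat.sub (Nat.add (Nat.add (Nat.add (Nat.add (Nat.add (Nat.add (Nat.add (Nat.add (Nat.add C x28760) x11264) x14180) x16124) x15476) x15800) x15584) x15644) x15640) x15638) x35320)
    (Nat.sub (Nat.sub (Nat.add (Nat.add (Nat.add (Nat.add (Nat.add (Nat.add (Nat.add (Nat.add (Nat.add C x28762) x11266) x14182) x16126) x15478) x15802) x15586) x15646) x15638) x15640) x35322)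
    (Nat.sub (Nat.sub (Nat.add (Nat.add (Nat.add (Nat.add (Nat.add (Nat.add (Nat.add (Nat.add (Nat.add (Nat.add C x28766) x11270) x14186) x16130) x15482) x15806) x15590) x15662) x15638) x15646) (Nat.mul x15644 (nat_lit 3))) x35326)
    (Nat.sub (Nat.sub (Nat.add (Nat.add (Nat.add (Nat.add (Nat.add (Nat.add (Nat.add (Nat.add (Nat.add (Nat.add (Nat.add (Nat.add C x28768) x11272) x14188) x16132) x15484) x15808) x15592) x15664) x15640) x15652) x15644) x15648) x15646) x35328)
    (Nat.sub (Nat.add (Nat.add (Nat.add (Nat.add (Nat.add (Nat.add (Nat.add (Nat.add (Nat.add (Nat.add C x28770) x11274) x14190) x16134) x15486) x15810) x15594) x15666) x15654) x15646) x15648)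
    (Nat.sub (Nat.sub (Nat.add (Nat.add (Nat.add (Nat.add (Nat.add (Nat.add (Nat.add (Nat.add (Nat.add (Nat.add C x28774) x11278) x14194) x16138) x15490) x15814) x15598) x15670) x15646) x15654) (Nat.mul x15652 (nat_lit 3))) x35334)
    (Nat.sub (Nat.add (Nat.add (Nat.add (Nat.add (Nat.add (Nat.add (Nat.add (Nat.add (Nat.add (Nat.add C x28776) x11280) x14196) x16140) x15492) x15816) x15600) x15672) x15648) x15652) x15654)
    (Nat.sub (Nat.sub (Nat.add (Nat.add (Nat.add (Nat.add (Nat.add (Nat.add (Nat.add (Nat.add (Nat.add (Nat.add C x28784) x11288) x14204) x16148) x15500) x15824) x15608) x15716) x15644) x15664) (Nat.mul x15662 (nat_lit 2))) x35344)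
    (Nat.sub (Nat.sub (Nat.add (Nat.add (Nat.add (Nat.add (Nat.add (Nat.add (Nat.add (Nat.add (Nat.add (Nat.add (Nat.add (Nat.add C x28786) x11290) x14206) x16150) x15502) x15826) x15610) x15718) x15646) x15670) x15662) x15666) x15664) x35346)
    (Nat.sub (Nat.add (Nat.add (Nat.add (Nat.add (Nat.add (Nat.add (Nat.add (Nat.add (Nat.add (Nat.add (Nat.add C x28788) x11292) x14208) x16152) x15504) x15828) x15612) x15720) x15648) x15672) x15664) (Nat.mul x15666 (nat_lit 2)))
    (Nat.sub (Nat.sub (Nat.add (Nat.add (Nat.add (Nat.add (Nat.add (Nat.add (Nat.add (Nat.add (Nat.add (Nat.add (Nat.add (Nat.add C x28792) x11296) x14212) x16156) x15508) x15832) x15616) x15724) x15652) x15688) x15664) x15672) x15670) x35352)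
    (Nat.add (Nat.add (Nat.add (Nat.add (Nat.add (Nat.add (Nat.add (Nat.add (Nat.add (Nat.add (Nat.add (Nat.add (Nat.add C x28794) x11298) x14214) x16158) x15510) x15834) x15618) x15726) x15654) x15690) x15666) x15678) x15670)
    (Nat.add (Nat.add (Nat.add (Nat.add (Nat.add (Nat.add (Nat.add (Nat.add (Nat.add (Nat.add C x28800) x11304) x14220) x16164) x15516) x15840) x15624) x15732) x15696) x15672)
    (Nat.sub (Nat.sub (Nat.add (Nat.add (Nat.add (Nat.add (Nat.add (Nat.add (Nat.add (Nat.add (Nat.add C x28810) x11314) x14230) x16174) x15526) x15850) x15742) x15670) x15690) x15688) x35370)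
    (Nat.sub (Nat.add (Nat.add (Nat.add (Nat.add (Nat.add (Nat.add (Nat.add (Nat.add (Nat.add (Nat.add C x28812) x11316) x14232) x16176) x15528) x15852) x15744) x15672) x15696) x15688) x15690)
    (Nat.add (Nat.add (Nat.add (Nat.add (Nat.add (Nat.add (Nat.add (Nat.add (Nat.add (Nat.add C x15696) x28818) x11322) x14238) x16182) x15534) x15858) x15750) x15678) x15690)
    (Nat.sub (Nat.sub (Nat.add (Nat.add (Nat.add (Nat.add (Nat.add (Nat.add (Nat.add C x28838) x11342) x14258) x16202) x15878) x15662) x15718) (Nat.mul x15716 (nat_lit 2))) x35398)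
    (Nat.sub (Nat.sub (Nat.add (Nat.add (Nat.add (Nat.add (Nat.add (Nat.add (Nat.add (Nat.add (Nat.add C x28840) x11344) x14260) x16204) x15880) x15664) x15724) x15716) x15720) x15718) x35400)
    (Nat.sub (Nat.add (Nat.add (Nat.add (Nat.add (Nat.add (Nat.add (Nat.add (Nat.add C x28842) x11346) x14262) x16206) x15882) x15666) x15726) x15718) (Nat.mul x15720 (nat_lit 2)))
    (Nat.sub (Nat.sub (Nat.add (Nat.add (Nat.add (Nat.add (Nat.add (Nat.add (Nat.add (Nat.add (Nat.add C x28846) x11350) x14266) x16210) x15886) x15670) x15742) x15718) x15726) (Nat.mul x15724 (nat_lit 2))) x35406)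
    (Nat.sub (Nat.add (Nat.add (Nat.add (Nat.add (Nat.add (Nat.add (Nat.add (Nat.add (Nat.add (Nat.add C x28848) x11352) x14268) x16212) x15888) x15672) x15744) x15720) x15732) x15724) x15726)
    (Nat.sub (Nat.add (Nat.add (Nat.add (Nat.add (Nat.add (Nat.add (Nat.add (Nat.add C x28854) x11358) x14274) x16218) x15894) x15678) x15750) x15726) (Nat.mul x15732 (nat_lit 2)))
    (Nat.sub (Nat.add (Nat.add (Nat.add (Nat.add (Nat.add (Nat.add (Nat.add (Nat.add C x28864) x11368) x14284) x16228) x15904) x15688) x15724) x15744) x35424)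
    (Nat.add (Nat.add (Nat.add (Nat.add (Nat.add (Nat.add (Nat.add (Nat.add (Nat.add C x28866) x11370) x14286) x16230) x15906) x15690) x15726) x15750) x15742)
    (Nat.add (Nat.add (Nat.add (Nat.add (Nat.add (Nat.add (Nat.add (Nat.add (Nat.add (Nat.add C x15750) x28872) x11376) x14292) x16236) x15912) x15696) x15732) x15768) x15744)
    (Nat.add (Nat.add (Nat.add (Nat.add (Nat.add (Nat.add (Nat.add C (Nat.mul x15768 (nat_lit 2))) x28890) x11394) x14310) x16254) x15930) x15750)
    (Nat.sub (Nat.sub (Nat.add (Nat.add (Nat.add (Nat.add (Nat.add (Nat.add (Nat.add C x28922) x11426) x14342) x16286) x15638) x15806) x15802) (Nat.mul x15800 (nat_lit 2))) x35482)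
    (Nat.sub (Nat.sub (Nat.add (Nat.add (Nat.add (Nat.add (Nat.add (Nat.add (Nat.add C x28924) x11428) x14344) x16288) x15640) x15808) x15800) (Nat.mul x15802 (nat_lit 2))) x35484)
    (Nat.sub (Nat.sub (Nat.add (Nat.add (Nat.add (Nat.add (Nat.add (Nat.add (Nat.add (Nat.add C x28928) x11432) x14348) x16292) x15644) x15824) x15800) x15808) (Nat.mul x15806 (nat_lit 4))) x35488)
    (Nat.sub (Nat.sub (Nat.add (Nat.add (Nat.add (Nat.add (Nat.add (Nat.add (Nat.add (Nat.add (Nat.add (Nat.add C x28930) x11434) x14350) x16294) x15646) x15826) x15802) x15814) x15806) x15810) (Nat.mul x15808 (nat_lit 2))) x35490)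
    (Nat.sub (Nat.add (Nat.add (Nat.add (Nat.add (Nat.add (Nat.add (Nat.add (Nat.add C x28932) x11436) x14352) x16296) x15648) x15828) x15816) x15808) (Nat.mul x15810 (nat_lit 2)))
    (Nat.sub (Nat.sub (Nat.add (Nat.add (Nat.add (Nat.add (Nat.add (Nat.add (Nat.add (Nat.add C x28936) x11440) x14356) x16300) x15652) x15832) x15808) x15816) (Nat.mul x15814 (nat_lit 4))) x35496)
    (Nat.sub (Nat.add (Nat.add (Nat.add (Nat.add (Nat.add (Nat.add (Nat.add (Nat.add C x28938) x11442) x14358) x16302) x15654) x15834) x15810) x15814) (Nat.mul x15816 (nat_lit 2)))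
    (Nat.sub (Nat.sub (Nat.add (Nat.add (Nat.add (Nat.add (Nat.add (Nat.add (Nat.add (Nat.add C x28946) x11450) x14366) x16310) x15662) x15878) x15806) x15826) (Nat.mul x15824 (nat_lit 4))) x35506)
    (Nat.sub (Nat.sub (Nat.add (Nat.add (Nat.add (Nat.add (Nat.add (Nat.add (Nat.add (Nat.add (Nat.add (Nat.add C x28948) x11452) x14368) x16312) x15664) x15880) x15808) x15832) x15824) x15828) (Nat.mul x15826 (nat_lit 3))) x35508)
    (Nat.sub (Nat.add (Nat.add (Nat.add (Nat.add (Nat.add (Nat.add (Nat.add (Nat.add (Nat.add C x28950) x11454) x14370) x16314) x15666) x15882) x15810) x15834) x15826) (Nat.mul x15828 (nat_lit 4)))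
    (Nat.sub (Nat.sub (Nat.add (Nat.add (Nat.add (Nat.add (Nat.add (Nat.add (Nat.add (Nat.add (Nat.add (Nat.add C x28954) x11458) x14374) x16318) x15670) x15886) x15814) x15850) x15826) x15834) (Nat.mul x15832 (nat_lit 3))) x35514)
    (Nat.sub (Nat.add (Nat.add (Nat.add (Nat.add (Nat.add (Nat.add (Nat.add (Nat.add (Nat.add (Nat.add (Nat.add C x28956) x11460) x14376) x16320) x15672) x15888) x15816) x15852) x15828) x15840) x15832) (Nat.mul x15834 (nat_lit 2)))
    (Nat.sub (Nat.add (Nat.add (Nat.add (Nat.add (Nat.add (Nat.add (Nat.add (Nat.add C x28962) x11466) x14382) x16326) x15678) x15894) x15858) x15834) (Nat.mul x15840 (nat_lit 2)))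
    (Nat.sub (Nat.sub (Nat.add (Nat.add (Nat.add (Nat.add (Nat.add (Nat.add (Nat.add (Nat.add C x28972) x11476) x14392) x16336) x15688) x15904) x15832) x15852) (Nat.mul x15850 (nat_lit 4))) x35532)
    (Nat.sub (Nat.add (Nat.add (Nat.add (Nat.add (Nat.add (Nat.add (Nat.add (Nat.add (Nat.add C x28974) x11478) x14394) x16338) x15690) x15906) x15834) x15858) x15850) (Nat.mul x15852 (nat_lit 4)))
    (Nat.sub (Nat.add (Nat.add (Nat.add (Nat.add (Nat.add (Nat.add (Nat.add (Nat.add C x28980) x11484) x14400) x16344) x15696) x15912) x15840) x15852) (Nat.mul x15858 (nat_lit 2)))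
    (Nat.sub (Nat.sub (Nat.add (Nat.add (Nat.add (Nat.add (Nat.add (Nat.add (Nat.add C x29000) x11504) x14420) x16364) x15716) x15824) x15880) (Nat.mul x15878 (nat_lit 2))) x35560)
    (Nat.sub (Nat.sub (Nat.add (Nat.add (Nat.add (Nat.add (Nat.add (Nat.add (Nat.add (Nat.add (Nat.add C x29002) x11506) x14422) x16366) x15718) x15826) x15886) x15878) x15882) x15880) x35562)
    (Nat.sub (Nat.add (Nat.add (Nat.add (Nat.add (Nat.add (Nat.add (Nat.add (Nat.add C x29004) x11508) x14424) x16368) x15720) x15828) x15888) x15880) (Nat.mul x15882 (nat_lit 2)))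
    (Nat.sub (Nat.sub (Nat.add (Nat.add (Nat.add (Nat.add (Nat.add (Nat.add (Nat.add (Nat.add (Nat.add C x29008) x11512) x14428) x16372) x15724) x15832) x15904) x15880) x15888) (Nat.mul x15886 (nat_lit 2))) x35568)
    (Nat.sub (Nat.add (Nat.add (Nat.add (Nat.add (Nat.add (Nat.add (Nat.add (Nat.add (Nat.add (Nat.add C x29010) x11514) x14430) x16374) x15726) x15834) x15906) x15882) x15894) x15886) x15888)
    (Nat.sub (Nat.add (Nat.add (Nat.add (Nat.add (Nat.add (Nat.add (Nat.add (Nat.add C x29016) x11520) x14436) x16380) x15732) x15840) x15912) x15888) (Nat.mul x15894 (nat_lit 2)))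
    (Nat.sub (Nat.sub (Nat.add (Nat.add (Nat.add (Nat.add (Nat.add (Nat.add (Nat.add (Nat.add (Nat.add C x29026) x11530) x14446) x16390) x15742) x15850) x15958) x15886) x15906) x15904) x35586)
    (Nat.sub (Nat.add (Nat.add (Nat.add (Nat.add (Nat.add (Nat.add (Nat.add (Nat.add (Nat.add (Nat.add C x29028) x11532) x14448) x16392) x15744) x15852) x15960) x15888) x15912) x15904) x15906)
    (Nat.add (Nat.add (Nat.add (Nat.add (Nat.add (Nat.add (Nat.add (Nat.add (Nat.add (Nat.add C x29034) x11538) x14454) x16398) x15750) x15858) x15966) x15894) x15930) x15906)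
    (Nat.add (Nat.add (Nat.add (Nat.add (Nat.add (Nat.add (Nat.add C x29052) x11556) x14472) x16416) x15768) x15984) x15912)
    (Nat.sub (Nat.add (Nat.add (Nat.add (Nat.add (Nat.add (Nat.add C x29080) x11584) x14500) x16444) x15904) x15960) x35640)
    (Nat.add (Nat.add (Nat.add (Nat.add (Nat.add (Nat.add (Nat.add C x29082) x11586) x14502) x16446) x15906) x15966) x15958)
    (Nat.add (Nat.add (Nat.add (Nat.add (Nat.add (Nat.add (Nat.add C x29088) x11592) x14508) x16452) x15912) x15984) x15960)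
    (Nat.add (Nat.add (Nat.add (Nat.add (Nat.add (Nat.add (Nat.add C (Nat.mul x15984 (nat_lit 2))) x29106) x11610) x14526) x16470) x15930) x15966)
    (Nat.sub (Nat.add (Nat.add (Nat.add (Nat.add (Nat.add (Nat.add (Nat.add C x16046) x29168) x11672) x14588) x17504) x15560) x16052) x35728)
    (Nat.sub (Nat.add (Nat.add (Nat.add (Nat.add (Nat.add (Nat.add (Nat.add (Nat.add (Nat.add C x29174) x11678) x14594) x17510) x15566) x16070) x16046) x16058) x16054) x35734)
    (Nat.sub (Nat.add (Nat.add (Nat.add (Nat.add (Nat.add (Nat.add (Nat.add (Nat.add (Nat.add C x16054) x29176) x11680) x14596) x17512) x15568) x16072) x16060) x16052) x35736)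
    (Nat.sub (Nat.sub (Nat.add (Nat.add (Nat.add (Nat.add (Nat.add (Nat.add (Nat.add (Nat.add C x29180) x11684) x14600) x17516) x15572) x16076) x16052) x16060) (Nat.mul x16058 (nat_lit 3))) x35740)
    (Nat.sub (Nat.add (Nat.add (Nat.add (Nat.add (Nat.add (Nat.add (Nat.add (Nat.add (Nat.add C x29182) x11686) x14602) x17518) x15574) x16078) x16054) x16058) x16062) x35742)
    (Nat.add (Nat.add (Nat.add (Nat.add (Nat.add (Nat.add (Nat.add (Nat.add C x16062) x29184) x11688) x14604) x17520) x15576) x16080) x16060)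
    (Nat.sub (Nat.sub (Nat.add (Nat.add (Nat.add (Nat.add (Nat.add (Nat.add (Nat.add (Nat.add (Nat.add C x29192) x11696) x14612) x17528) x15584) x16124) x16052) x16076) x16072) x16070) x35752)
    (Nat.sub (Nat.sub (Nat.add (Nat.add (Nat.add (Nat.add (Nat.add (Nat.add (Nat.add (Nat.add (Nat.add C x29194) x11698) x14614) x17530) x15586) x16126) x16054) x16078) x16070) x16072) x35754)
    (Nat.sub (Nat.sub (Nat.add (Nat.add (Nat.add (Nat.add (Nat.add (Nat.add (Nat.add (Nat.add (Nat.add (Nat.add C x29198) x11702) x14618) x17534) x15590) x16130) x16058) x16094) x16070) x16078) (Nat.mul x16076 (nat_lit 2))) x35758)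
    (Nat.sub (Nat.add (Nat.add (Nat.add (Nat.add (Nat.add (Nat.add (Nat.add (Nat.add (Nat.add (Nat.add (Nat.add (Nat.add C x29200) x11704) x14620) x17536) x15592) x16132) x16060) x16096) x16072) x16084) x16076) x16080) x35760)
    (Nat.add (Nat.add (Nat.add (Nat.add (Nat.add (Nat.add (Nat.add (Nat.add (Nat.add (Nat.add C x29202) x11706) x14622) x17538) x15594) x16134) x16062) x16098) x16086) x16078)
    (Nat.sub (Nat.sub (Nat.add (Nat.add (Nat.add (Nat.add (Nat.add (Nat.add (Nat.add (Nat.add (Nat.add C x29206) x11710) x14626) x17542) x15598) x16138) x16102) x16078) x16086) x16084) x35766)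
    (Nat.add (Nat.add (Nat.add (Nat.add (Nat.add (Nat.add (Nat.add (Nat.add (Nat.add (Nat.add C x16086) x29208) x11712) x14628) x17544) x15600) x16140) x16104) x16080) x16084)
    (Nat.sub (Nat.sub (Nat.add (Nat.add (Nat.add (Nat.add (Nat.add (Nat.add (Nat.add (Nat.add C x29216) x11720) x14636) x17552) x15608) x16148) x16076) x16096) (Nat.mul x16094 (nat_lit 3))) x35776)
    (Nat.sub (Nat.sub (Nat.add (Nat.add (Nat.add (Nat.add (Nat.add (Nat.add (Nat.add (Nat.add (Nat.add (Nat.add C x29218) x11722) x14638) x17554) x15610) x16150) x16078) x16102) x16094) x16098) (Nat.mul x16096 (nat_lit 2))) x35778)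
    (Nat.sub (Nat.add (Nat.add (Nat.add (Nat.add (Nat.add (Nat.add (Nat.add (Nat.add (Nat.add C x29220) x11724) x14640) x17556) x15612) x16152) x16080) x16104) x16096) (Nat.mul x16098 (nat_lit 3)))
    (Nat.sub (Nat.sub (Nat.add (Nat.add (Nat.add (Nat.add (Nat.add (Nat.add (Nat.add (Nat.add (Nat.add C x29224) x11728) x14644) x17560) x15616) x16156) x16084) x16096) x16104) x16102) x35784)
    (Nat.add (Nat.add (Nat.add (Nat.add (Nat.add (Nat.add (Nat.add (Nat.add (Nat.add (Nat.add C x29226) x11730) x14646) x17562) x15618) x16158) x16086) x16098) x16110) x16102)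
    (Nat.add (Nat.add (Nat.add (Nat.add (Nat.add (Nat.add (Nat.add (Nat.add C x16110) x29232) x11736) x14652) x17568) x15624) x16164) x16104)
    (Nat.sub (Nat.sub (Nat.add (Nat.add (Nat.add (Nat.add (Nat.add (Nat.add (Nat.add (Nat.add (Nat.add C x29246) x11750) x14666) x17582) x15638) x16286) x16070) x16130) x16126) x16124) x35806)
    (Nat.sub (Nat.sub (Nat.add (Nat.add (Nat.add (Nat.add (Nat.add (Nat.add (Nat.add (Nat.add (Nat.add C x29248) x11752) x14668) x17584) x15640) x16288) x16072) x16132) x16124) x16126) x35808)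
    (Nat.sub (Nat.sub (Nat.add (Nat.add (Nat.add (Nat.add (Nat.add (Nat.add (Nat.add (Nat.add (Nat.add (Nat.add C x29252) x11756) x14672) x17588) x15644) x16292) x16076) x16148) x16124) x16132) (Nat.mul x16130 (nat_lit 3))) x35812)
    (Nat.sub (Nat.sub (Nat.add (Nat.add (Nat.add (Nat.add (Nat.add (Nat.add (Nat.add (Nat.add (Nat.add (Nat.add (Nat.add (Nat.add C x29254) x11758) x14674) x17590) x15646) x16294) x16078) x16150) x16126) x16138) x16130) x16134) x16132) x35814)
    (Nat.sub (Nat.add (Nat.add (Nat.add (Nat.add (Nat.add (Nat.add (Nat.add (Nat.add (Nat.add (Nat.add C x29256) x11760) x14676) x17592) x15648) x16296) x16080) x16152) x16140) x16132) x16134)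
    (Nat.sub (Nat.sub (Nat.add (Nat.add (Nat.add (Nat.add (Nat.add (Nat.add (Nat.add (Nat.add (Nat.add (Nat.add C x29260) x11764) x14680) x17596) x15652) x16300) x16084) x16156) x16132) x16140) (Nat.mul x16138 (nat_lit 3))) x35820)
    (Nat.sub (Nat.add (Nat.add (Nat.add (Nat.add (Nat.add (Nat.add (Nat.add (Nat.add (Nat.add (Nat.add C x29262) x11766) x14682) x17598) x15654) x16302) x16086) x16158) x16134) x16138) x16140)
    (Nat.sub (Nat.sub (Nat.add (Nat.add (Nat.add (Nat.add (Nat.add (Nat.add (Nat.add (Nat.add (Nat.add (Nat.add C x29270) x11774) x14690) x17606) x15662) x16310) x16094) x16202) x16130) x16150) (Nat.mul x16148 (nat_lit 2))) x35830)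
    (Nat.sub (Nat.sub (Nat.add (Nat.add (Nat.add (Nat.add (Nat.add (Nat.add (Nat.add (Nat.add (Nat.add (Nat.add (Nat.add (Nat.add C x29272) x11776) x14692) x17608) x15664) x16312) x16096) x16204) x16132) x16156) x16148) x16152) x16150) x35832)
    (Nat.sub (Nat.add (Nat.add (Nat.add (Nat.add (Nat.add (Nat.add (Nat.add (Nat.add (Nat.add (Nat.add (Nat.add C x29274) x11778) x14694) x17610) x15666) x16314) x16098) x16206) x16134) x16158) x16150) (Nat.mul x16152 (nat_lit 2)))
    (Nat.sub (Nat.sub (Nat.add (Nat.add (Nat.add (Nat.add (Nat.add (Nat.add (Nat.add (Nat.add (Nat.add (Nat.add (Nat.add (Nat.add C x29278) x11782) x14698) x17614) x15670) x16318) x16102) x16210) x16138) x16174) x16150) x16158) x16156) x35838)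
    (Nat.add (Nat.add (Nat.add (Nat.add (Nat.add (Nat.add (Nat.add (Nat.add (Nat.add (Nat.add (Nat.add (Nat.add (Nat.add C x29280) x11784) x14700) x17616) x15672) x16320) x16104) x16212) x16140) x16176) x16152) x16164) x16156)
    (Nat.add (Nat.add (Nat.add (Nat.add (Nat.add (Nat.add (Nat.add (Nat.add (Nat.add (Nat.add C x29286) x11790) x14706) x17622) x15678) x16326) x16110) x16218) x16182) x16158)
    (Nat.sub (Nat.sub (Nat.add (Nat.add (Nat.add (Nat.add (Nat.add (Nat.add (Nat.add (Nat.add (Nat.add C x29296) x11800) x14716) x17632) x15688) x16336) x16228) x16156) x16176) x16174) x35856)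
    (Nat.sub (Nat.add (Nat.add (Nat.add (Nat.add (Nat.add (Nat.add (Nat.add (Nat.add (Nat.add (Nat.add C x29298) x11802) x14718) x17634) x15690) x16338) x16230) x16158) x16182) x16174) x16176)
    (Nat.add (Nat.add (Nat.add (Nat.add (Nat.add (Nat.add (Nat.add (Nat.add (Nat.add (Nat.add C x16182) x29304) x11808) x14724) x17640) x15696) x16344) x16236) x16164) x16176)
    (Nat.sub (Nat.sub (Nat.add (Nat.add (Nat.add (Nat.add (Nat.add (Nat.add (Nat.add (Nat.add C x29324) x11828) x14744) x17660) x15716) x16364) x16148) x16204) (Nat.mul x16202 (nat_lit 3))) x35884)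
    (Nat.sub (Nat.sub (Nat.add (Nat.add (Nat.add (Nat.add (Nat.add (Nat.add (Nat.add (Nat.add (Nat.add (Nat.add C x29326) x11830) x14746) x17662) x15718) x16366) x16150) x16210) x16202) x16206) (Nat.mul x16204 (nat_lit 2))) x35886)
    (Nat.sub (Nat.add (Nat.add (Nat.add (Nat.add (Nat.add (Nat.add (Nat.add (Nat.add (Nat.add C x29328) x11832) x14748) x17664) x15720) x16368) x16152) x16212) x16204) (Nat.mul x16206 (nat_lit 3)))
    (Nat.sub (Nat.sub (Nat.add (Nat.add (Nat.add (Nat.add (Nat.add (Nat.add (Nat.add (Nat.add (Nat.add (Nat.add C x29332) x11836) x14752) x17668) x15724) x16372) x16156) x16228) x16204) x16212) (Nat.mul x16210 (nat_lit 3))) x35892)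
    (Nat.sub (Nat.add (Nat.add (Nat.add (Nat.add (Nat.add (Nat.add (Nat.add (Nat.add (Nat.add (Nat.add (Nat.add C x29334) x11838) x14754) x17670) x15726) x16374) x16158) x16230) x16206) x16218) x16210) (Nat.mul x16212 (nat_lit 2)))
    (Nat.sub (Nat.add (Nat.add (Nat.add (Nat.add (Nat.add (Nat.add (Nat.add (Nat.add (Nat.add C x29340) x11844) x14760) x17676) x15732) x16380) x16164) x16236) x16212) (Nat.mul x16218 (nat_lit 3)))
    (Nat.sub (Nat.sub (Nat.add (Nat.add (Nat.add (Nat.add (Nat.add (Nat.add (Nat.add (Nat.add (Nat.add C x29350) x11854) x14770) x17686) x15742) x16390) x16174) x16210) x16230) x16228) x35910)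
    (Nat.sub (Nat.add (Nat.add (Nat.add (Nat.add (Nat.add (Nat.add (Nat.add (Nat.add (Nat.add (Nat.add C x29352) x11856) x14772) x17688) x15744) x16392) x16176) x16212) x16236) x16228) x16230)
    (Nat.add (Nat.add (Nat.add (Nat.add (Nat.add (Nat.add (Nat.add (Nat.add (Nat.add (Nat.add C x29358) x11862) x14778) x17694) x15750) x16398) x16182) x16218) x16254) x16230)
    (Nat.add (Nat.add (Nat.add (Nat.add (Nat.add (Nat.add (Nat.add (Nat.add C x16254) x29376) x11880) x14796) x17712) x15768) x16416) x16236)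
    (Nat.sub (Nat.add (Nat.add (Nat.add (Nat.add (Nat.add (Nat.add (Nat.add (Nat.add (Nat.add C x29408) x11912) x14828) x17744) x15800) x16772) x16124) x16292) x16288) x35968)
    (Nat.sub (Nat.add (Nat.add (Nat.add (Nat.add (Nat.add (Nat.add (Nat.add (Nat.add (Nat.add C x29410) x11914) x14830) x17746) x15802) x16774) x16126) x16294) x16286) x35970)
    (Nat.sub (Nat.sub (Nat.add (Nat.add (Nat.add (Nat.add (Nat.add (Nat.add (Nat.add (Nat.add (Nat.add (Nat.add C x29414) x11918) x14834) x17750) x15806) x16778) x16130) x16310) x16286) x16294) (Nat.mul x16292 (nat_lit 2))) x35974)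
    (Nat.sub (Nat.add (Nat.add (Nat.add (Nat.add (Nat.add (Nat.add (Nat.add (Nat.add (Nat.add (Nat.add (Nat.add (Nat.add C x29416) x11920) x14836) x17752) x15808) x16780) x16132) x16312) x16288) x16300) x16292) x16296) x35976)
    (Nat.add (Nat.add (Nat.add (Nat.add (Nat.add (Nat.add (Nat.add (Nat.add (Nat.add (Nat.add C x29418) x11922) x14838) x17754) x15810) x16782) x16134) x16314) x16302) x16294)
    (Nat.sub (Nat.sub (Nat.add (Nat.add (Nat.add (Nat.add (Nat.add (Nat.add (Nat.add (Nat.add (Nat.add (Nat.add C x29422) x11926) x14842) x17758) x15814) x16786) x16138) x16318) x16294) x16302) (Nat.mul x16300 (nat_lit 2))) x35982)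
    (Nat.add (Nat.add (Nat.add (Nat.add (Nat.add (Nat.add (Nat.add (Nat.add (Nat.add (Nat.add C x29424) x11928) x14844) x17760) x15816) x16788) x16140) x16320) x16296) x16300)
    (Nat.sub (Nat.sub (Nat.add (Nat.add (Nat.add (Nat.add (Nat.add (Nat.add (Nat.add (Nat.add (Nat.add (Nat.add C x29432) x11936) x14852) x17768) x15824) x16796) x16148) x16364) x16292) x16312) (Nat.mul x16310 (nat_lit 2))) x35992)
    (Nat.sub (Nat.sub (Nat.add (Nat.add (Nat.add (Nat.add (Nat.add (Nat.add (Nat.add (Nat.add (Nat.add (Nat.add (Nat.add (Nat.add C x29434) x11938) x14854) x17770) x15826) x16798) x16150) x16366) x16294) x16318) x16310) x16314) x16312) x35994)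
    (Nat.sub (Nat.add (Nat.add (Nat.add (Nat.add (Nat.add (Nat.add (Nat.add (Nat.add (Nat.add (Nat.add (Nat.add C x29436) x11940) x14856) x17772) x15828) x16800) x16152) x16368) x16296) x16320) x16312) (Nat.mul x16314 (nat_lit 2)))
    (Nat.sub (Nat.sub (Nat.add (Nat.add (Nat.add (Nat.add (Nat.add (Nat.add (Nat.add (Nat.add (Nat.add (Nat.add (Nat.add (Nat.add C x29440) x11944) x14860) x17776) x15832) x16804) x16156) x16372) x16300) x16336) x16312) x16320) x16318) x36000)
    (Nat.add (Nat.add (Nat.add (Nat.add (Nat.add (Nat.add (Nat.add (Nat.add (Nat.add (Nat.add (Nat.add (Nat.add (Nat.add C x29442) x11946) x14862) x17778) x15834) x16806) x16158) x16374) x16302) x16338) x16314) x16326) x16318)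
    (Nat.add (Nat.add (Nat.add (Nat.add (Nat.add (Nat.add (Nat.add (Nat.add (Nat.add (Nat.add C x29448) x11952) x14868) x17784) x15840) x16812) x16164) x16380) x16344) x16320)
    (Nat.sub (Nat.sub (Nat.add (Nat.add (Nat.add (Nat.add (Nat.add (Nat.add (Nat.add (Nat.add (Nat.add (Nat.add C x29458) x11962) x14878) x17794) x15850) x16822) x16174) x16390) x16318) x16338) (Nat.mul x16336 (nat_lit 2))) x36018)
    (Nat.sub (Nat.add (Nat.add (Nat.add (Nat.add (Nat.add (Nat.add (Nat.add (Nat.add (Nat.add (Nat.add (Nat.add C x29460) x11964) x14880) x17796) x15852) x16824) x16176) x16392) x16320) x16344) x16336) (Nat.mul x16338 (nat_lit 2)))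
    (Nat.add (Nat.add (Nat.add (Nat.add (Nat.add (Nat.add (Nat.add (Nat.add (Nat.add (Nat.add C x29466) x11970) x14886) x17802) x15858) x16830) x16182) x16398) x16326) x16338)
    (Nat.sub (Nat.sub (Nat.add (Nat.add (Nat.add (Nat.add (Nat.add (Nat.add (Nat.add (Nat.add (Nat.add (Nat.add C x29486) x11990) x14906) x17822) x15878) x16850) x16202) x16526) x16310) x16366) x16364) x36046)
    (Nat.sub (Nat.add (Nat.add (Nat.add (Nat.add (Nat.add (Nat.add (Nat.add (Nat.add (Nat.add (Nat.add (Nat.add (Nat.add C x29488) x11992) x14908) x17824) x15880) x16852) x16204) x16528) x16312) x16372) x16364) x16368) x36048)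
    (Nat.sub (Nat.add (Nat.add (Nat.add (Nat.add (Nat.add (Nat.add (Nat.add (Nat.add (Nat.add (Nat.add (Nat.add C x29490) x11994) x14910) x17826) x15882) x16854) x16206) x16530) x16314) x16374) x16366) x16368)
    (Nat.sub (Nat.sub (Nat.add (Nat.add (Nat.add (Nat.add (Nat.add (Nat.add (Nat.add (Nat.add (Nat.add (Nat.add (Nat.add (Nat.add C x29494) x11998) x14914) x17830) x15886) x16858) x16210) x16534) x16318) x16390) x16366) x16374) x16372) x36054)
    (Nat.add (Nat.add (Nat.add (Nat.add (Nat.add (Nat.add (Nat.add (Nat.add (Nat.add (Nat.add (Nat.add (Nat.add (Nat.add C x29496) x12000) x14916) x17832) x15888) x16860) x16212) x16536) x16320) x16392) x16368) x16380) x16372)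
    (Nat.sub (Nat.add (Nat.add (Nat.add (Nat.add (Nat.add (Nat.add (Nat.add (Nat.add (Nat.add (Nat.add (Nat.add C x29502) x12006) x14922) x17838) x15894) x16866) x16218) x16542) x16326) x16398) x16374) x16380)
    (Nat.sub (Nat.add (Nat.add (Nat.add (Nat.add (Nat.add (Nat.add (Nat.add (Nat.add (Nat.add (Nat.add (Nat.add (Nat.add C x29512) x12016) x14932) x17848) x15904) x16876) x16228) x16552) x16336) x16444) x16372) x16392) x36072)
    (Nat.add (Nat.add (Nat.add (Nat.add (Nat.add (Nat.add (Nat.add (Nat.add (Nat.add (Nat.add (Nat.add (Nat.add (Nat.add C x29514) x12018) x14934) x17850) x15906) x16878) x16230) x16554) x16338) x16446) x16374) x16398) x16390)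
    (Nat.add (Nat.add (Nat.add (Nat.add (Nat.add (Nat.add (Nat.add (Nat.add (Nat.add (Nat.add (Nat.add (Nat.add (Nat.add (Nat.add C x16398) x29520) x12024) x14940) x17856) x15912) x16884) x16236) x16560) x16344) x16452) x16380) x16416) x16392)
    (Nat.add (Nat.add (Nat.add (Nat.add (Nat.add (Nat.add (Nat.add (Nat.add (Nat.add (Nat.add (Nat.add C x16416) x29538) x12042) x14958) x17874) x15930) x16902) x16254) x16578) x16470) x16398)
    (Nat.sub (Nat.add (Nat.add (Nat.add (Nat.add (Nat.add (Nat.add (Nat.add (Nat.add (Nat.add C x29566) x12070) x14986) x17902) x15958) x16930) x16606) x16390) x16446) x36126)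
    (Nat.add (Nat.add (Nat.add (Nat.add (Nat.add (Nat.add (Nat.add (Nat.add (Nat.add (Nat.add C x29568) x12072) x14988) x17904) x15960) x16932) x16608) x16392) x16452) x16444)
    (Nat.add (Nat.add (Nat.add (Nat.add (Nat.add (Nat.add (Nat.add (Nat.add (Nat.add (Nat.add C x29574) x12078) x14994) x17910) x15966) x16938) x16614) x16398) x16470) x16446)
    (Nat.add (Nat.add (Nat.add (Nat.add (Nat.add (Nat.add (Nat.add (Nat.add (Nat.add (Nat.add C (Nat.mul x16470 (nat_lit 2))) x29592) x12096) x15012) x17928) x15984) x16956) x16632) x16416) x16452)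
    (Nat.sub (Nat.sub (Nat.add (Nat.add (Nat.add (Nat.add (Nat.add (Nat.add (Nat.add C x29648) x12152) x15068) x17984) x17012) x16364) x16528) x16526) x36208)
    (Nat.sub (Nat.add (Nat.add (Nat.add (Nat.add (Nat.add (Nat.add (Nat.add (Nat.add (Nat.add C x29650) x12154) x15070) x17986) x17014) x16366) x16534) x16526) x16530) x36210)
    (Nat.sub (Nat.add (Nat.add (Nat.add (Nat.add (Nat.add (Nat.add (Nat.add (Nat.add C x29652) x12156) x15072) x17988) x17016) x16368) x16536) x16528) x16530)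
    (Nat.sub (Nat.sub (Nat.add (Nat.add (Nat.add (Nat.add (Nat.add (Nat.add (Nat.add (Nat.add (Nat.add C x29656) x12160) x15076) x17992) x17020) x16372) x16552) x16528) x16536) x16534) x36216)
    (Nat.add (Nat.add (Nat.add (Nat.add (Nat.add (Nat.add (Nat.add (Nat.add (Nat.add (Nat.add C x29658) x12162) x15078) x17994) x17022) x16374) x16554) x16530) x16542) x16534)
    (Nat.sub (Nat.add (Nat.add (Nat.add (Nat.add (Nat.add (Nat.add (Nat.add (Nat.add C x29664) x12168) x15084) x18000) x17028) x16380) x16560) x16536) x16542)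
    (Nat.sub (Nat.sub (Nat.add (Nat.add (Nat.add (Nat.add (Nat.add (Nat.add (Nat.add (Nat.add (Nat.add C x29674) x12178) x15094) x18010) x17038) x16390) x16606) x16534) x16554) x16552) x36234)
    (Nat.sub (Nat.add (Nat.add (Nat.add (Nat.add (Nat.add (Nat.add (Nat.add (Nat.add (Nat.add (Nat.add C x29676) x12180) x15096) x18012) x17040) x16392) x16608) x16536) x16560) x16552) x16554)
    (Nat.add (Nat.add (Nat.add (Nat.add (Nat.add (Nat.add (Nat.add (Nat.add (Nat.add (Nat.add C x29682) x12186) x15102) x18018) x17046) x16398) x16614) x16542) x16578) x16554)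
    (Nat.sub (Nat.add (Nat.add (Nat.add (Nat.add (Nat.add (Nat.add (Nat.add (Nat.add C x29700) x12204) x15120) x18036) x17064) x16416) x16632) x16560) x16578)
    (Nat.sub (Nat.add (Nat.add (Nat.add (Nat.add (Nat.add (Nat.add (Nat.add (Nat.add (Nat.add C x16606) x29728) x12232) x15148) x18064) x17092) x16444) x16552) x16608) x36288)
    (Nat.add (Nat.add (Nat.add (Nat.add (Nat.add (Nat.add (Nat.add (Nat.add (Nat.add (Nat.add C x16608) x29730) x12234) x15150) x18066) x17094) x16446) x16554) x16614) x16606)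
    (Nat.add (Nat.add (Nat.add (Nat.add (Nat.add (Nat.add (Nat.add (Nat.add (Nat.add (Nat.add C x16614) x29736) x12240) x15156) x18072) x17100) x16452) x16560) x16632) x16608)
    (Nat.add (Nat.add (Nat.add (Nat.add (Nat.add (Nat.add (Nat.add (Nat.add (Nat.add (Nat.add C (Nat.mul x16632 (nat_lit 2))) x29754) x12258) x15174) x18090) x17118) x16470) x16578) x16686) x16614)
    (Nat.add (Nat.add (Nat.add (Nat.add (Nat.add (Nat.add (Nat.add C (Nat.mul x16686 (nat_lit 3))) x29808) x12312) x15228) x18144) x17172) x16632)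
    (Nat.sub (Nat.add (Nat.add (Nat.add (Nat.add (Nat.add (Nat.add C x29894) x12398) x18230) x16286) x16778) x16774) x36454)
    (Nat.sub (Nat.add (Nat.add (Nat.add (Nat.add (Nat.add (Nat.add C x29896) x12400) x18232) x16288) x16780) x16772) x36456)
    (Nat.sub (Nat.sub (Nat.add (Nat.add (Nat.add (Nat.add (Nat.add (Nat.add (Nat.add C x29900) x12404) x18236) x16292) x16796) x16772) x16780) (Nat.mul x16778 (nat_lit 2))) x36460)
    (Nat.sub (Nat.add (Nat.add (Nat.add (Nat.add (Nat.add (Nat.add (Nat.add (Nat.add (Nat.add C x29902) x12406) x18238) x16294) x16798) x16774) x16786) x16778) x16782) x36462)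
    (Nat.add (Nat.add (Nat.add (Nat.add (Nat.add (Nat.add (Nat.add C x29904) x12408) x18240) x16296) x16800) x16788) x16780)
    (Nat.sub (Nat.sub (Nat.add (Nat.add (Nat.add (Nat.add (Nat.add (Nat.add (Nat.add C x29908) x12412) x18244) x16300) x16804) x16780) x16788) (Nat.mul x16786 (nat_lit 2))) x36468)
    (Nat.add (Nat.add (Nat.add (Nat.add (Nat.add (Nat.add (Nat.add C x29910) x12414) x18246) x16302) x16806) x16782) x16786)
    (Nat.sub (Nat.sub (Nat.add (Nat.add (Nat.add (Nat.add (Nat.add (Nat.add (Nat.add C x29918) x12422) x18254) x16310) x16850) x16778) x16798) (Nat.mul x16796 (nat_lit 2))) x36478)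
    (Nat.sub (Nat.sub (Nat.add (Nat.add (Nat.add (Nat.add (Nat.add (Nat.add (Nat.add (Nat.add (Nat.add C x29920) x12424) x18256) x16312) x16852) x16780) x16804) x16796) x16800) x16798) x36480)
    (Nat.sub (Nat.add (Nat.add (Nat.add (Nat.add (Nat.add (Nat.add (Nat.add (Nat.add C x29922) x12426) x18258) x16314) x16854) x16782) x16806) x16798) (Nat.mul x16800 (nat_lit 2)))
    (Nat.sub (Nat.sub (Nat.add (Nat.add (Nat.add (Nat.add (Nat.add (Nat.add (Nat.add (Nat.add (Nat.add C x29926) x12430) x18262) x16318) x16858) x16786) x16822) x16798) x16806) x16804) x36486)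
    (Nat.add (Nat.add (Nat.add (Nat.add (Nat.add (Nat.add (Nat.add (Nat.add (Nat.add (Nat.add C x29928) x12432) x18264) x16320) x16860) x16788) x16824) x16800) x16812) x16804)
    (Nat.add (Nat.add (Nat.add (Nat.add (Nat.add (Nat.add (Nat.add C x29934) x12438) x18270) x16326) x16866) x16830) x16806)
    (Nat.sub (Nat.sub (Nat.add (Nat.add (Nat.add (Nat.add (Nat.add (Nat.add (Nat.add C x29944) x12448) x18280) x16336) x16876) x16804) x16824) (Nat.mul x16822 (nat_lit 2))) x36504)
    (Nat.sub (Nat.add (Nat.add (Nat.add (Nat.add (Nat.add (Nat.add (Nat.add (Nat.add C x29946) x12450) x18282) x16338) x16878) x16806) x16830) x16822) (Nat.mul x16824 (nat_lit 2)))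
    (Nat.add (Nat.add (Nat.add (Nat.add (Nat.add (Nat.add (Nat.add C x29952) x12456) x18288) x16344) x16884) x16812) x16824)
    (Nat.sub (Nat.sub (Nat.add (Nat.add (Nat.add (Nat.add (Nat.add (Nat.add (Nat.add C x29972) x12476) x18308) x16364) x17012) x16796) x16852) (Nat.mul x16850 (nat_lit 2))) x36532)
    (Nat.sub (Nat.sub (Nat.add (Nat.add (Nat.add (Nat.add (Nat.add (Nat.add (Nat.add (Nat.add (Nat.add C x29974) x12478) x18310) x16366) x17014) x16798) x16858) x16850) x16854) x16852) x36534)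
    (Nat.sub (Nat.add (Nat.add (Nat.add (Nat.add (Nat.add (Nat.add (Nat.add (Nat.add C x29976) x12480) x18312) x16368) x17016) x16800) x16860) x16852) (Nat.mul x16854 (nat_lit 2)))
    (Nat.sub (Nat.sub (Nat.add (Nat.add (Nat.add (Nat.add (Nat.add (Nat.add (Nat.add (Nat.add (Nat.add C x29980) x12484) x18316) x16372) x17020) x16804) x16876) x16852) x16860) (Nat.mul x16858 (nat_lit 2))) x36540)
    (Nat.sub (Nat.add (Nat.add (Nat.add (Nat.add (Nat.add (Nat.add (Nat.add (Nat.add (Nat.add (Nat.add C x29982) x12486) x18318) x16374) x17022) x16806) x16878) x16854) x16866) x16858) x16860)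
    (Nat.sub (Nat.add (Nat.add (Nat.add (Nat.add (Nat.add (Nat.add (Nat.add (Nat.add C x29988) x12492) x18324) x16380) x17028) x16812) x16884) x16860) (Nat.mul x16866 (nat_lit 2)))
    (Nat.sub (Nat.sub (Nat.add (Nat.add (Nat.add (Nat.add (Nat.add (Nat.add (Nat.add (Nat.add (Nat.add C x29998) x12502) x18334) x16390) x17038) x16822) x16930) x16858) x16878) x16876) x36558)
    (Nat.sub (Nat.add (Nat.add (Nat.add (Nat.add (Nat.add (Nat.add (Nat.add (Nat.add (Nat.add (Nat.add C x30000) x12504) x18336) x16392) x17040) x16824) x16932) x16860) x16884) x16876) x16878)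
    (Nat.add (Nat.add (Nat.add (Nat.add (Nat.add (Nat.add (Nat.add (Nat.add (Nat.add (Nat.add C x30006) x12510) x18342) x16398) x17046) x16830) x16938) x16866) x16902) x16878)
    (Nat.add (Nat.add (Nat.add (Nat.add (Nat.add (Nat.add (Nat.add C x30024) x12528) x18360) x16416) x17064) x16956) x16884)
    (Nat.sub (Nat.sub (Nat.add (Nat.add (Nat.add (Nat.add (Nat.add (Nat.add (Nat.add C x30052) x12556) x18388) x16444) x17092) x16876) x16932) (Nat.mul x16930 (nat_lit 2))) x36612)
    (Nat.sub (Nat.add (Nat.add (Nat.add (Nat.add (Nat.add (Nat.add (Nat.add (Nat.add C x30054) x12558) x18390) x16446) x17094) x16878) x16938) x16930) (Nat.mul x16932 (nat_lit 2)))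
    (Nat.sub (Nat.add (Nat.add (Nat.add (Nat.add (Nat.add (Nat.add (Nat.add (Nat.add C x30060) x12564) x18396) x16452) x17100) x16884) x16956) x16932) (Nat.mul x16938 (nat_lit 2)))
    (Nat.add (Nat.add (Nat.add (Nat.add (Nat.add (Nat.add (Nat.add C x30078) x12582) x18414) x16470) x17118) x16902) x16938)
    (Nat.sub (Nat.add (Nat.add (Nat.add (Nat.add (Nat.add (Nat.add C x30134) x12638) x18470) x16526) x16850) x17014) x36694)
    (Nat.sub (Nat.add (Nat.add (Nat.add (Nat.add (Nat.add (Nat.add (Nat.add (Nat.add (Nat.add C x17014) x30136) x12640) x18472) x16528) x16852) x17020) x17012) x17016) x36696)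
    (Nat.add (Nat.add (Nat.add (Nat.add (Nat.add (Nat.add (Nat.add C x30138) x12642) x18474) x16530) x16854) x17022) x17014)
    (Nat.sub (Nat.add (Nat.add (Nat.add (Nat.add (Nat.add (Nat.add (Nat.add (Nat.add C x30142) x12646) x18478) x16534) x16858) x17038) x17014) x17022) x36702)
    (Nat.add (Nat.add (Nat.add (Nat.add (Nat.add (Nat.add (Nat.add (Nat.add (Nat.add (Nat.add C x17022) x30144) x12648) x18480) x16536) x16860) x17040) x17016) x17028) x17020)
    (Nat.add (Nat.add (Nat.add (Nat.add (Nat.add (Nat.add (Nat.add C x30150) x12654) x18486) x16542) x16866) x17046) x17022)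
    (Nat.sub (Nat.add (Nat.add (Nat.add (Nat.add (Nat.add (Nat.add (Nat.add (Nat.add C x30160) x12664) x18496) x16552) x16876) x17092) x17020) x17040) x36720)
    (Nat.add (Nat.add (Nat.add (Nat.add (Nat.add (Nat.add (Nat.add (Nat.add (Nat.add C x30162) x12666) x18498) x16554) x16878) x17094) x17022) x17046) x17038)
    (Nat.add (Nat.add (Nat.add (Nat.add (Nat.add (Nat.add (Nat.add (Nat.add (Nat.add (Nat.add C x17046) x30168) x12672) x18504) x16560) x16884) x17100) x17028) x17064) x17040)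
    (Nat.add (Nat.add (Nat.add (Nat.add (Nat.add (Nat.add (Nat.add C x30186) x12690) x18522) x16578) x16902) x17118) x17046)
    (Nat.sub (Nat.add (Nat.add (Nat.add (Nat.add (Nat.add (Nat.add (Nat.add (Nat.add (Nat.add C x17092) x30214) x12718) x18550) x16606) x16930) x17254) x17038) x17094) x36774)
    (Nat.add (Nat.add (Nat.add (Nat.add (Nat.add (Nat.add (Nat.add (Nat.add (Nat.add (Nat.add C x17094) x30216) x12720) x18552) x16608) x16932) x17256) x17040) x17100) x17092)
    (Nat.add (Nat.add (Nat.add (Nat.add (Nat.add (Nat.add (Nat.add (Nat.add (Nat.add (Nat.add C x17100) x30222) x12726) x18558) x16614) x16938) x17262) x17046) x17118) x17094)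
    (Nat.add (Nat.add (Nat.add (Nat.add (Nat.add (Nat.add (Nat.add (Nat.add (Nat.add (Nat.add C (Nat.mul x17118 (nat_lit 2))) x30240) x12744) x18576) x16632) x16956) x17280) x17064) x17172) x17100)
    (Nat.add (Nat.add (Nat.add (Nat.add (Nat.add (Nat.add (Nat.add C (Nat.mul x17172 (nat_lit 2))) x30294) x12798) x18630) x16686) x17334) x17118)
    (Nat.sub (Nat.add (Nat.add (Nat.add (Nat.add (Nat.add (Nat.add C (Nat.mul x17254 (nat_lit 2))) x30376) x12880) x18712) x17092) x17256) x36936)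
    (Nat.add (Nat.add (Nat.add (Nat.add (Nat.add (Nat.add (Nat.add C (Nat.mul x17256 (nat_lit 2))) x30378) x12882) x18714) x17094) x17262) x17254)
    (Nat.add (Nat.add (Nat.add (Nat.add (Nat.add (Nat.add (Nat.add C (Nat.mul x17262 (nat_lit 2))) x30384) x12888) x18720) x17100) x17280) x17256)
    (Nat.add (Nat.add (Nat.add (Nat.add (Nat.add (Nat.add (Nat.add C (Nat.mul x17280 (nat_lit 2))) x30402) x12906) x18738) x17118) x17334) x17262)
    (Nat.add (Nat.add (Nat.add (Nat.add (Nat.add (Nat.add C (Nat.mul x17334 (nat_lit 4))) x30456) x12960) x18792) x17172) x17280)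
    (Nat.sub (Nat.add (Nat.add (Nat.add (Nat.add C (Nat.mul x17504 (nat_lit 2))) x30626) x16046) x17510) x37186)
    (Nat.sub (Nat.add (Nat.add (Nat.add (Nat.add (Nat.add (Nat.add (Nat.add C x17510) x30632) x16052) x17528) x17504) x17516) x17512) x37192)
    (Nat.sub (Nat.add (Nat.add (Nat.add (Nat.add (Nat.add (Nat.add C (Nat.mul x17512 (nat_lit 2))) x30634) x16054) x17530) x17518) x17510) x37194)
    (Nat.sub (Nat.sub (Nat.add (Nat.add (Nat.add (Nat.add (Nat.add C x30638) x16058) x17534) x17510) x17518) (Nat.mul x17516 (nat_lit 2))) x37198)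
    (Nat.sub (Nat.add (Nat.add (Nat.add (Nat.add (Nat.add (Nat.add (Nat.add C x17518) x30640) x16060) x17536) x17512) x17516) x17520) x37200)
    (Nat.add (Nat.add (Nat.add (Nat.add (Nat.add C (Nat.mul x17520 (nat_lit 2))) x30642) x16062) x17538) x17518)
    (Nat.sub (Nat.add (Nat.add (Nat.add (Nat.add (Nat.add (Nat.add C x30650) x16070) x17582) x17510) x17534) x17530) x37210)
    (Nat.sub (Nat.add (Nat.add (Nat.add (Nat.add (Nat.add (Nat.add C x30652) x16072) x17584) x17512) x17536) x17528) x37212)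
    (Nat.sub (Nat.sub (Nat.add (Nat.add (Nat.add (Nat.add (Nat.add (Nat.add (Nat.add C x30656) x16076) x17588) x17516) x17552) x17528) x17536) x17534) x37216)
    (Nat.sub (Nat.add (Nat.add (Nat.add (Nat.add (Nat.add (Nat.add (Nat.add (Nat.add (Nat.add (Nat.add C x17536) x30658) x16078) x17590) x17518) x17554) x17530) x17542) x17534) x17538) x37218)
    (Nat.add (Nat.add (Nat.add (Nat.add (Nat.add (Nat.add (Nat.add (Nat.add C x17538) x30660) x16080) x17592) x17520) x17556) x17544) x17536)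
    (Nat.sub (Nat.add (Nat.add (Nat.add (Nat.add (Nat.add (Nat.add C x30664) x16084) x17596) x17560) x17536) x17544) x37224)
    (Nat.add (Nat.add (Nat.add (Nat.add (Nat.add (Nat.add (Nat.add C (Nat.mul x17544 (nat_lit 2))) x30666) x16086) x17598) x17562) x17538) x17542)
    (Nat.sub (Nat.sub (Nat.add (Nat.add (Nat.add (Nat.add (Nat.add C x30674) x16094) x17606) x17534) x17554) (Nat.mul x17552 (nat_lit 2))) x37234)
    (Nat.sub (Nat.sub (Nat.add (Nat.add (Nat.add (Nat.add (Nat.add (Nat.add (Nat.add C x30676) x16096) x17608) x17536) x17560) x17552) x17556) x17554) x37236)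
    (Nat.sub (Nat.add (Nat.add (Nat.add (Nat.add (Nat.add (Nat.add C x30678) x16098) x17610) x17538) x17562) x17554) (Nat.mul x17556 (nat_lit 2)))
    (Nat.sub (Nat.add (Nat.add (Nat.add (Nat.add (Nat.add (Nat.add C x30682) x16102) x17614) x17542) x17554) x17562) x37242)
    (Nat.add (Nat.add (Nat.add (Nat.add (Nat.add (Nat.add (Nat.add (Nat.add C x17562) x30684) x16104) x17616) x17544) x17556) x17568) x17560)
    (Nat.add (Nat.add (Nat.add (Nat.add (Nat.add C (Nat.mul x17568 (nat_lit 2))) x30690) x16110) x17622) x17562)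
    (Nat.sub (Nat.add (Nat.add (Nat.add (Nat.add (Nat.add (Nat.add C x30704) x16124) x17744) x17528) x17588) x17584) x37264)
    (Nat.sub (Nat.add (Nat.add (Nat.add (Nat.add (Nat.add (Nat.add C x30706) x16126) x17746) x17530) x17590) x17582) x37266)
    (Nat.sub (Nat.sub (Nat.add (Nat.add (Nat.add (Nat.add (Nat.add (Nat.add (Nat.add C x30710) x16130) x17750) x17534) x17606) x17582) x17590) (Nat.mul x17588 (nat_lit 2))) x37270)
    (Nat.sub (Nat.add (Nat.add (Nat.add (Nat.add (Nat.add (Nat.add (Nat.add (Nat.add (Nat.add C x30712) x16132) x17752) x17536) x17608) x17584) x17596) x17588) x17592) x37272)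
    (Nat.add (Nat.add (Nat.add (Nat.add (Nat.add (Nat.add (Nat.add C x30714) x16134) x17754) x17538) x17610) x17598) x17590)
    (Nat.sub (Nat.sub (Nat.add (Nat.add (Nat.add (Nat.add (Nat.add (Nat.add (Nat.add C x30718) x16138) x17758) x17542) x17614) x17590) x17598) (Nat.mul x17596 (nat_lit 2))) x37278)
    (Nat.add (Nat.add (Nat.add (Nat.add (Nat.add (Nat.add (Nat.add C x30720) x16140) x17760) x17544) x17616) x17592) x17596)
    (Nat.sub (Nat.sub (Nat.add (Nat.add (Nat.add (Nat.add (Nat.add (Nat.add (Nat.add C x30728) x16148) x17768) x17552) x17660) x17588) x17608) x17606) x37288)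
    (Nat.sub (Nat.add (Nat.add (Nat.add (Nat.add (Nat.add (Nat.add (Nat.add (Nat.add (Nat.add C x30730) x16150) x17770) x17554) x17662) x17590) x17614) x17606) x17610) x37290)
    (Nat.sub (Nat.add (Nat.add (Nat.add (Nat.add (Nat.add (Nat.add (Nat.add (Nat.add C x30732) x16152) x17772) x17556) x17664) x17592) x17616) x17608) x17610)
    (Nat.sub (Nat.add (Nat.add (Nat.add (Nat.add (Nat.add (Nat.add (Nat.add (Nat.add (Nat.add C x30736) x16156) x17776) x17560) x17668) x17596) x17632) x17608) x17616) x37296)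
    (Nat.add (Nat.add (Nat.add (Nat.add (Nat.add (Nat.add (Nat.add (Nat.add (Nat.add (Nat.add (Nat.add C x17616) x30738) x16158) x17778) x17562) x17670) x17598) x17634) x17610) x17622) x17614)
    (Nat.add (Nat.add (Nat.add (Nat.add (Nat.add (Nat.add (Nat.add (Nat.add C x17622) x30744) x16164) x17784) x17568) x17676) x17640) x17616)
    (Nat.sub (Nat.add (Nat.add (Nat.add (Nat.add (Nat.add (Nat.add C x30754) x16174) x17794) x17686) x17614) x17634) x37314)
    (Nat.add (Nat.add (Nat.add (Nat.add (Nat.add (Nat.add (Nat.add C x30756) x16176) x17796) x17688) x17616) x17640) x17632)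
    (Nat.add (Nat.add (Nat.add (Nat.add (Nat.add (Nat.add (Nat.add C (Nat.mul x17640 (nat_lit 2))) x30762) x16182) x17802) x17694) x17622) x17634)
    (Nat.sub (Nat.sub (Nat.add (Nat.add (Nat.add (Nat.add (Nat.add C x30782) x16202) x17822) x17606) x17662) (Nat.mul x17660 (nat_lit 2))) x37342)
    (Nat.sub (Nat.sub (Nat.add (Nat.add (Nat.add (Nat.add (Nat.add (Nat.add (Nat.add C x30784) x16204) x17824) x17608) x17668) x17660) x17664) x17662) x37344)
    (Nat.sub (Nat.add (Nat.add (Nat.add (Nat.add (Nat.add (Nat.add C x30786) x16206) x17826) x17610) x17670) x17662) (Nat.mul x17664 (nat_lit 2)))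
    (Nat.sub (Nat.sub (Nat.add (Nat.add (Nat.add (Nat.add (Nat.add (Nat.add (Nat.add C x30790) x16210) x17830) x17614) x17686) x17662) x17670) (Nat.mul x17668 (nat_lit 2))) x37350)
    (Nat.sub (Nat.add (Nat.add (Nat.add (Nat.add (Nat.add (Nat.add (Nat.add (Nat.add C x30792) x16212) x17832) x17616) x17688) x17664) x17676) x17668) x17670)
    (Nat.sub (Nat.add (Nat.add (Nat.add (Nat.add (Nat.add (Nat.add C x30798) x16218) x17838) x17622) x17694) x17670) (Nat.mul x17676 (nat_lit 2)))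
    (Nat.sub (Nat.add (Nat.add (Nat.add (Nat.add (Nat.add (Nat.add C x30808) x16228) x17848) x17632) x17668) x17688) x37368)
    (Nat.add (Nat.add (Nat.add (Nat.add (Nat.add (Nat.add (Nat.add C x30810) x16230) x17850) x17634) x17670) x17694) x17686)
    (Nat.add (Nat.add (Nat.add (Nat.add (Nat.add (Nat.add (Nat.add (Nat.add C x17694) x30816) x16236) x17856) x17640) x17676) x17712) x17688)
    (Nat.add (Nat.add (Nat.add (Nat.add (Nat.add C (Nat.mul x17712 (nat_lit 2))) x30834) x16254) x17874) x17694)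
    (Nat.sub (Nat.add (Nat.add (Nat.add (Nat.add (Nat.add (Nat.add C x30866) x16286) x18230) x17582) x17750) x17746) x37426)
    (Nat.sub (Nat.add (Nat.add (Nat.add (Nat.add (Nat.add (Nat.add C x30868) x16288) x18232) x17584) x17752) x17744) x37428)
    (Nat.sub (Nat.sub (Nat.add (Nat.add (Nat.add (Nat.add (Nat.add (Nat.add (Nat.add C x30872) x16292) x18236) x17588) x17768) x17744) x17752) (Nat.mul x17750 (nat_lit 2))) x37432)
    (Nat.sub (Nat.add (Nat.add (Nat.add (Nat.add (Nat.add (Nat.add (Nat.add (Nat.add (Nat.add C x30874) x16294) x18238) x17590) x17770) x17746) x17758) x17750) x17754) x37434)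
    (Nat.add (Nat.add (Nat.add (Nat.add (Nat.add (Nat.add (Nat.add C x30876) x16296) x18240) x17592) x17772) x17760) x17752)
    (Nat.sub (Nat.sub (Nat.add (Nat.add (Nat.add (Nat.add (Nat.add (Nat.add (Nat.add C x30880) x16300) x18244) x17596) x17776) x17752) x17760) (Nat.mul x17758 (nat_lit 2))) x37440)
    (Nat.add (Nat.add (Nat.add (Nat.add (Nat.add (Nat.add (Nat.add C x30882) x16302) x18246) x17598) x17778) x17754) x17758)
    (Nat.sub (Nat.sub (Nat.add (Nat.add (Nat.add (Nat.add (Nat.add (Nat.add (Nat.add C x30890) x16310) x18254) x17606) x17822) x17750) x17770) (Nat.mul x17768 (nat_lit 2))) x37450)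
    (Nat.sub (Nat.sub (Nat.add (Nat.add (Nat.add (Nat.add (Nat.add (Nat.add (Nat.add (Nat.add (Nat.add C x30892) x16312) x18256) x17608) x17824) x17752) x17776) x17768) x17772) x17770) x37452)
    (Nat.sub (Nat.add (Nat.add (Nat.add (Nat.add (Nat.add (Nat.add (Nat.add (Nat.add C x30894) x16314) x18258) x17610) x17826) x17754) x17778) x17770) (Nat.mul x17772 (nat_lit 2)))
    (Nat.sub (Nat.sub (Nat.add (Nat.add (Nat.add (Nat.add (Nat.add (Nat.add (Nat.add (Nat.add (Nat.add C x30898) x16318) x18262) x17614) x17830) x17758) x17794) x17770) x17778) x17776) x37458)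
    (Nat.add (Nat.add (Nat.add (Nat.add (Nat.add (Nat.add (Nat.add (Nat.add (Nat.add (Nat.add C x30900) x16320) x18264) x17616) x17832) x17760) x17796) x17772) x17784) x17776)
    (Nat.add (Nat.add (Nat.add (Nat.add (Nat.add (Nat.add (Nat.add C x30906) x16326) x18270) x17622) x17838) x17802) x17778)
    (Nat.sub (Nat.sub (Nat.add (Nat.add (Nat.add (Nat.add (Nat.add (Nat.add (Nat.add C x30916) x16336) x18280) x17632) x17848) x17776) x17796) (Nat.mul x17794 (nat_lit 2))) x37476)
    (Nat.sub (Nat.add (Nat.add (Nat.add (Nat.add (Nat.add (Nat.add (Nat.add (Nat.add C x30918) x16338) x18282) x17634) x17850) x17778) x17802) x17794) (Nat.mul x17796 (nat_lit 2)))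
    (Nat.add (Nat.add (Nat.add (Nat.add (Nat.add (Nat.add (Nat.add C x30924) x16344) x18288) x17640) x17856) x17784) x17796)
    (Nat.sub (Nat.sub (Nat.add (Nat.add (Nat.add (Nat.add (Nat.add (Nat.add (Nat.add C x30944) x16364) x18308) x17660) x17984) x17768) x17824) x17822) x37504)
    (Nat.sub (Nat.add (Nat.add (Nat.add (Nat.add (Nat.add (Nat.add (Nat.add (Nat.add (Nat.add C x30946) x16366) x18310) x17662) x17986) x17770) x17830) x17822) x17826) x37506)
    (Nat.sub (Nat.add (Nat.add (Nat.add (Nat.add (Nat.add (Nat.add (Nat.add (Nat.add C x30948) x16368) x18312) x17664) x17988) x17772) x17832) x17824) x17826)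
    (Nat.sub (Nat.sub (Nat.add (Nat.add (Nat.add (Nat.add (Nat.add (Nat.add (Nat.add (Nat.add (Nat.add C x30952) x16372) x18316) x17668) x17992) x17776) x17848) x17824) x17832) x17830) x37512)
    (Nat.add (Nat.add (Nat.add (Nat.add (Nat.add (Nat.add (Nat.add (Nat.add (Nat.add (Nat.add C x30954) x16374) x18318) x17670) x17994) x17778) x17850) x17826) x17838) x17830)
    (Nat.sub (Nat.add (Nat.add (Nat.add (Nat.add (Nat.add (Nat.add (Nat.add (Nat.add C x30960) x16380) x18324) x17676) x18000) x17784) x17856) x17832) x17838)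
    (Nat.sub (Nat.add (Nat.add (Nat.add (Nat.add (Nat.add (Nat.add (Nat.add (Nat.add (Nat.add C x30970) x16390) x18334) x17686) x18010) x17794) x17902) x17830) x17850) x37530)
    (Nat.add (Nat.add (Nat.add (Nat.add (Nat.add (Nat.add (Nat.add (Nat.add (Nat.add (Nat.add C x30972) x16392) x18336) x17688) x18012) x17796) x17904) x17832) x17856) x17848)
    (Nat.add (Nat.add (Nat.add (Nat.add (Nat.add (Nat.add (Nat.add (Nat.add (Nat.add (Nat.add (Nat.add C x17856) x30978) x16398) x18342) x17694) x18018) x17802) x17910) x17838) x17874) x17850)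
    (Nat.add (Nat.add (Nat.add (Nat.add (Nat.add (Nat.add (Nat.add (Nat.add C x17874) x30996) x16416) x18360) x17712) x18036) x17928) x17856)
    (Nat.sub (Nat.add (Nat.add (Nat.add (Nat.add (Nat.add (Nat.add C x31024) x16444) x18388) x18064) x17848) x17904) x37584)
    (Nat.add (Nat.add (Nat.add (Nat.add (Nat.add (Nat.add (Nat.add C x31026) x16446) x18390) x18066) x17850) x17910) x17902)
    (Nat.add (Nat.add (Nat.add (Nat.add (Nat.add (Nat.add (Nat.add C x31032) x16452) x18396) x18072) x17856) x17928) x17904)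
    (Nat.add (Nat.add (Nat.add (Nat.add (Nat.add (Nat.add (Nat.add C (Nat.mul x17928 (nat_lit 2))) x31050) x16470) x18414) x18090) x17874) x17910)
    (Nat.sub (Nat.sub (Nat.add (Nat.add (Nat.add (Nat.add (Nat.add C x31106) x16526) x18470) x17822) x17986) (Nat.mul x17984 (nat_lit 2))) x37666)
    (Nat.sub (Nat.sub (Nat.add (Nat.add (Nat.add (Nat.add (Nat.add (Nat.add (Nat.add C x31108) x16528) x18472) x17824) x17992) x17984) x17988) x17986) x37668)
    (Nat.sub (Nat.add (Nat.add (Nat.add (Nat.add (Nat.add (Nat.add C x31110) x16530) x18474) x17826) x17994) x17986) (Nat.mul x17988 (nat_lit 2)))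
    (Nat.sub (Nat.sub (Nat.add (Nat.add (Nat.add (Nat.add (Nat.add (Nat.add (Nat.add C x31114) x16534) x18478) x17830) x18010) x17986) x17994) (Nat.mul x17992 (nat_lit 2))) x37674)
    (Nat.sub (Nat.add (Nat.add (Nat.add (Nat.add (Nat.add (Nat.add (Nat.add (Nat.add C x31116) x16536) x18480) x17832) x18012) x17988) x18000) x17992) x17994)
    (Nat.sub (Nat.add (Nat.add (Nat.add (Nat.add (Nat.add (Nat.add C x31122) x16542) x18486) x17838) x18018) x17994) (Nat.mul x18000 (nat_lit 2)))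
    (Nat.sub (Nat.sub (Nat.add (Nat.add (Nat.add (Nat.add (Nat.add (Nat.add (Nat.add C x31132) x16552) x18496) x17848) x18064) x17992) x18012) (Nat.mul x18010 (nat_lit 2))) x37692)
    (Nat.sub (Nat.add (Nat.add (Nat.add (Nat.add (Nat.add (Nat.add (Nat.add (Nat.add C x31134) x16554) x18498) x17850) x18066) x17994) x18018) x18010) (Nat.mul x18012 (nat_lit 2)))
    (Nat.sub (Nat.add (Nat.add (Nat.add (Nat.add (Nat.add (Nat.add (Nat.add (Nat.add C x31140) x16560) x18504) x17856) x18072) x18000) x18036) x18012) x18018)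
    (Nat.sub (Nat.add (Nat.add (Nat.add (Nat.add (Nat.add (Nat.add C x31158) x16578) x18522) x17874) x18090) x18018) (Nat.mul x18036 (nat_lit 2)))
    (Nat.sub (Nat.add (Nat.add (Nat.add (Nat.add (Nat.add (Nat.add C x31186) x16606) x18550) x17902) x18010) x18066) x37746)
    (Nat.add (Nat.add (Nat.add (Nat.add (Nat.add (Nat.add (Nat.add C x31188) x16608) x18552) x17904) x18012) x18072) x18064)
    (Nat.add (Nat.add (Nat.add (Nat.add (Nat.add (Nat.add (Nat.add C x31194) x16614) x18558) x17910) x18018) x18090) x18066)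
    (Nat.add (Nat.add (Nat.add (Nat.add (Nat.add (Nat.add (Nat.add (Nat.add C x18090) x31212) x16632) x18576) x17928) x18036) x18144) x18072)
    (Nat.add (Nat.add (Nat.add (Nat.add (Nat.add C (Nat.mul x18144 (nat_lit 2))) x31266) x16686) x18630) x18090)
    (Nat.sub (Nat.add (Nat.add (Nat.add (Nat.add (Nat.add (Nat.add C (Nat.mul x18230 (nat_lit 2))) x31352) x16772) x17744) x18236) x18232) x37912)
    (Nat.sub (Nat.add (Nat.add (Nat.add (Nat.add (Nat.add (Nat.add C (Nat.mul x18232 (nat_lit 2))) x31354) x16774) x17746) x18238) x18230) x37914)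
    (Nat.sub (Nat.add (Nat.add (Nat.add (Nat.add (Nat.add (Nat.add C x31358) x16778) x17750) x18254) x18230) x18238) x37918)
    (Nat.sub (Nat.add (Nat.add (Nat.add (Nat.add (Nat.add (Nat.add (Nat.add (Nat.add (Nat.add C (Nat.mul x18238 (nat_lit 2))) x31360) x16780) x17752) x18256) x18232) x18244) x18236) x18240) x37920)
    (Nat.add (Nat.add (Nat.add (Nat.add (Nat.add (Nat.add (Nat.add C (Nat.mul x18240 (nat_lit 2))) x31362) x16782) x17754) x18258) x18246) x18238)
    (Nat.sub (Nat.add (Nat.add (Nat.add (Nat.add (Nat.add (Nat.add C x31366) x16786) x17758) x18262) x18238) x18246) x37926)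
    (Nat.add (Nat.add (Nat.add (Nat.add (Nat.add (Nat.add (Nat.add C (Nat.mul x18246 (nat_lit 2))) x31368) x16788) x17760) x18264) x18240) x18244)
    (Nat.sub (Nat.add (Nat.add (Nat.add (Nat.add (Nat.add (Nat.add C x31376) x16796) x17768) x18308) x18236) x18256) x37936)
    (Nat.sub (Nat.add (Nat.add (Nat.add (Nat.add (Nat.add (Nat.add (Nat.add (Nat.add (Nat.add C x18256) x31378) x16798) x17770) x18310) x18238) x18262) x18254) x18258) x37938)
    (Nat.add (Nat.add (Nat.add (Nat.add (Nat.add (Nat.add (Nat.add C x31380) x16800) x17772) x18312) x18240) x18264) x18256)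
    (Nat.sub (Nat.add (Nat.add (Nat.add (Nat.add (Nat.add (Nat.add (Nat.add (Nat.add (Nat.add C x18262) x31384) x16804) x17776) x18316) x18244) x18280) x18256) x18264) x37944)
    (Nat.add (Nat.add (Nat.add (Nat.add (Nat.add (Nat.add (Nat.add (Nat.add (Nat.add (Nat.add C (Nat.mul x18264 (nat_lit 2))) x31386) x16806) x17778) x18318) x18246) x18282) x18258) x18270) x18262)
    (Nat.add (Nat.add (Nat.add (Nat.add (Nat.add (Nat.add (Nat.add C (Nat.mul x18270 (nat_lit 2))) x31392) x16812) x17784) x18324) x18288) x18264)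
    (Nat.sub (Nat.add (Nat.add (Nat.add (Nat.add (Nat.add (Nat.add C x31402) x16822) x17794) x18334) x18262) x18282) x37962)
    (Nat.add (Nat.add (Nat.add (Nat.add (Nat.add (Nat.add (Nat.add C x31404) x16824) x17796) x18336) x18264) x18288) x18280)
    (Nat.add (Nat.add (Nat.add (Nat.add (Nat.add (Nat.add (Nat.add C (Nat.mul x18288 (nat_lit 2))) x31410) x16830) x17802) x18342) x18270) x18282)
    (Nat.sub (Nat.add (Nat.add (Nat.add (Nat.add (Nat.add (Nat.add C x31430) x16850) x17822) x18470) x18254) x18310) x37990)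
    (Nat.sub (Nat.add (Nat.add (Nat.add (Nat.add (Nat.add (Nat.add (Nat.add (Nat.add (Nat.add C x18310) x31432) x16852) x17824) x18472) x18256) x18316) x18308) x18312) x37992)
    (Nat.add (Nat.add (Nat.add (Nat.add (Nat.add (Nat.add (Nat.add C x31434) x16854) x17826) x18474) x18258) x18318) x18310)
    (Nat.sub (Nat.add (Nat.add (Nat.add (Nat.add (Nat.add (Nat.add (Nat.add (Nat.add C x31438) x16858) x17830) x18478) x18262) x18334) x18310) x18318) x37998)
    (Nat.add (Nat.add (Nat.add (Nat.add (Nat.add (Nat.add (Nat.add (Nat.add (Nat.add (Nat.add C x18318) x31440) x16860) x17832) x18480) x18264) x18336) x18312) x18324) x18316)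
    (Nat.add (Nat.add (Nat.add (Nat.add (Nat.add (Nat.add (Nat.add C x31446) x16866) x17838) x18486) x18270) x18342) x18318)
    (Nat.sub (Nat.add (Nat.add (Nat.add (Nat.add (Nat.add (Nat.add (Nat.add (Nat.add (Nat.add C x18334) x31456) x16876) x17848) x18496) x18280) x18388) x18316) x18336) x38016)
    (Nat.add (Nat.add (Nat.add (Nat.add (Nat.add (Nat.add (Nat.add (Nat.add (Nat.add (Nat.add C x18336) x31458) x16878) x17850) x18498) x18282) x18390) x18318) x18342) x18334)
    (Nat.add (Nat.add (Nat.add (Nat.add (Nat.add (Nat.add (Nat.add (Nat.add (Nat.add (Nat.add C (Nat.mul x18342 (nat_lit 2))) x31464) x16884) x17856) x18504) x18288) x18396) x18324) x18360) x18336)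
    (Nat.add (Nat.add (Nat.add (Nat.add (Nat.add (Nat.add (Nat.add C (Nat.mul x18360 (nat_lit 2))) x31482) x16902) x17874) x18522) x18414) x18342)
    (Nat.sub (Nat.add (Nat.add (Nat.add (Nat.add (Nat.add (Nat.add C x31510) x16930) x17902) x18550) x18334) x18390) x38070)
    (Nat.add (Nat.add (Nat.add (Nat.add (Nat.add (Nat.add (Nat.add C x31512) x16932) x17904) x18552) x18336) x18396) x18388)
    (Nat.add (Nat.add (Nat.add (Nat.add (Nat.add (Nat.add (Nat.add C x31518) x16938) x17910) x18558) x18342) x18414) x18390)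
    (Nat.add (Nat.add (Nat.add (Nat.add (Nat.add (Nat.add (Nat.add C (Nat.mul x18414 (nat_lit 2))) x31536) x16956) x17928) x18576) x18360) x18396)
    (Nat.sub (Nat.add (Nat.add (Nat.add (Nat.add (Nat.add (Nat.add (Nat.add C x18470) x31592) x17012) x17984) x18956) x18308) x18472) x38152)
    (Nat.sub (Nat.add (Nat.add (Nat.add (Nat.add (Nat.add (Nat.add (Nat.add (Nat.add (Nat.add C (Nat.mul x18472 (nat_lit 2))) x31594) x17014) x17986) x18958) x18310) x18478) x18470) x18474) x38154)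
    (Nat.add (Nat.add (Nat.add (Nat.add (Nat.add (Nat.add (Nat.add (Nat.add C x18474) x31596) x17016) x17988) x18960) x18312) x18480) x18472)
    (Nat.sub (Nat.add (Nat.add (Nat.add (Nat.add (Nat.add (Nat.add (Nat.add (Nat.add (Nat.add C x18478) x31600) x17020) x17992) x18964) x18316) x18496) x18472) x18480) x38160)
    (Nat.add (Nat.add (Nat.add (Nat.add (Nat.add (Nat.add (Nat.add (Nat.add (Nat.add (Nat.add C (Nat.mul x18480 (nat_lit 2))) x31602) x17022) x17994) x18966) x18318) x18498) x18474) x18486) x18478)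
    (Nat.add (Nat.add (Nat.add (Nat.add (Nat.add (Nat.add (Nat.add (Nat.add C x18486) x31608) x17028) x18000) x18972) x18324) x18504) x18480)
    (Nat.sub (Nat.add (Nat.add (Nat.add (Nat.add (Nat.add (Nat.add (Nat.add (Nat.add (Nat.add C x18496) x31618) x17038) x18010) x18982) x18334) x18550) x18478) x18498) x38178)
    (Nat.add (Nat.add (Nat.add (Nat.add (Nat.add (Nat.add (Nat.add (Nat.add (Nat.add (Nat.add C x18498) x31620) x17040) x18012) x18984) x18336) x18552) x18480) x18504) x18496)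
    (Nat.add (Nat.add (Nat.add (Nat.add (Nat.add (Nat.add (Nat.add (Nat.add (Nat.add (Nat.add C (Nat.mul x18504 (nat_lit 2))) x31626) x17046) x18018) x18990) x18342) x18558) x18486) x18522) x18498)
    (Nat.add (Nat.add (Nat.add (Nat.add (Nat.add (Nat.add (Nat.add (Nat.add C x18522) x31644) x17064) x18036) x19008) x18360) x18576) x18504)
    (Nat.sub (Nat.add (Nat.add (Nat.add (Nat.add (Nat.add (Nat.add (Nat.add (Nat.add (Nat.add C (Nat.mul x18550 (nat_lit 2))) x31672) x17092) x18064) x19036) x18388) x18712) x18496) x18552) x38232)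
    (Nat.add (Nat.add (Nat.add (Nat.add (Nat.add (Nat.add (Nat.add (Nat.add (Nat.add (Nat.add C (Nat.mul x18552 (nat_lit 2))) x31674) x17094) x18066) x19038) x18390) x18714) x18498) x18558) x18550)
    (Nat.add (Nat.add (Nat.add (Nat.add (Nat.add (Nat.add (Nat.add (Nat.add (Nat.add (Nat.add C (Nat.mul x18558 (nat_lit 2))) x31680) x17100) x18072) x19044) x18396) x18720) x18504) x18576) x18552)
    (Nat.add (Nat.add (Nat.add (Nat.add (Nat.add (Nat.add (Nat.add (Nat.add (Nat.add (Nat.add C (Nat.mul x18576 (nat_lit 3))) x31698) x17118) x18090) x19062) x18414) x18738) x18522) x18630) x18558)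
    (Nat.add (Nat.add (Nat.add (Nat.add (Nat.add (Nat.add (Nat.add C (Nat.mul x18630 (nat_lit 3))) x31752) x17172) x18144) x19116) x18792) x18576)
    (Nat.sub (Nat.add (Nat.add (Nat.add (Nat.add (Nat.add (Nat.add C (Nat.mul x18712 (nat_lit 2))) x31834) x17254) x19198) x18550) x18714) x38394)
    (Nat.add (Nat.add (Nat.add (Nat.add (Nat.add (Nat.add (Nat.add C (Nat.mul x18714 (nat_lit 2))) x31836) x17256) x19200) x18552) x18720) x18712)
    (Nat.add (Nat.add (Nat.add (Nat.add (Nat.add (Nat.add (Nat.add C (Nat.mul x18720 (nat_lit 2))) x31842) x17262) x19206) x18558) x18738) x18714)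
    (Nat.add (Nat.add (Nat.add (Nat.add (Nat.add (Nat.add (Nat.add C (Nat.mul x18738 (nat_lit 2))) x31860) x17280) x19224) x18576) x18792) x18720)
    (Nat.add (Nat.add (Nat.add (Nat.add (Nat.add (Nat.add C (Nat.mul x18792 (nat_lit 4))) x31914) x17334) x19278) x18630) x18738)
    (Nat.sub (Nat.add (Nat.add (Nat.add (Nat.add C (Nat.mul x18956 (nat_lit 2))) x32078) x18470) x18958) x38638)
    (Nat.sub (Nat.add (Nat.add (Nat.add (Nat.add (Nat.add (Nat.add C (Nat.mul x18958 (nat_lit 3))) x32080) x18472) x18964) x18956) x18960) x38640)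
    (Nat.add (Nat.add (Nat.add (Nat.add (Nat.add C (Nat.mul x18960 (nat_lit 2))) x32082) x18474) x18966) x18958)
    (Nat.sub (Nat.add (Nat.add (Nat.add (Nat.add (Nat.add (Nat.add C (Nat.mul x18964 (nat_lit 2))) x32086) x18478) x18982) x18958) x18966) x38646)
    (Nat.add (Nat.add (Nat.add (Nat.add (Nat.add (Nat.add (Nat.add C (Nat.mul x18966 (nat_lit 3))) x32088) x18480) x18984) x18960) x18972) x18964)
    (Nat.add (Nat.add (Nat.add (Nat.add (Nat.add C (Nat.mul x18972 (nat_lit 2))) x32094) x18486) x18990) x18966)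
    (Nat.sub (Nat.add (Nat.add (Nat.add (Nat.add (Nat.add (Nat.add C (Nat.mul x18982 (nat_lit 2))) x32104) x18496) x19036) x18964) x18984) x38664)
    (Nat.add (Nat.add (Nat.add (Nat.add (Nat.add (Nat.add (Nat.add C (Nat.mul x18984 (nat_lit 2))) x32106) x18498) x19038) x18966) x18990) x18982)
    (Nat.add (Nat.add (Nat.add (Nat.add (Nat.add (Nat.add (Nat.add C (Nat.mul x18990 (nat_lit 3))) x32112) x18504) x19044) x18972) x19008) x18984)
    (Nat.add (Nat.add (Nat.add (Nat.add (Nat.add C (Nat.mul x19008 (nat_lit 2))) x32130) x18522) x19062) x18990)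
    (Nat.sub (Nat.add (Nat.add (Nat.add (Nat.add (Nat.add (Nat.add C (Nat.mul x19036 (nat_lit 2))) x32158) x18550) x19198) x18982) x19038) x38718)
    (Nat.add (Nat.add (Nat.add (Nat.add (Nat.add (Nat.add (Nat.add C (Nat.mul x19038 (nat_lit 2))) x32160) x18552) x19200) x18984) x19044) x19036)
    (Nat.add (Nat.add (Nat.add (Nat.add (Nat.add (Nat.add (Nat.add C (Nat.mul x19044 (nat_lit 2))) x32166) x18558) x19206) x18990) x19062) x19038)
    (Nat.add (Nat.add (Nat.add (Nat.add (Nat.add (Nat.add (Nat.add C (Nat.mul x19062 (nat_lit 3))) x32184) x18576) x19224) x19008) x19116) x19044)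
    (Nat.add (Nat.add (Nat.add (Nat.add (Nat.add C (Nat.mul x19116 (nat_lit 2))) x32238) x18630) x19278) x19062)
    (Nat.sub (Nat.add (Nat.add (Nat.add (Nat.add (Nat.add C (Nat.mul x19198 (nat_lit 4))) x32320) x18712) x19036) x19200) x38880)
    (Nat.add (Nat.add (Nat.add (Nat.add (Nat.add (Nat.add C (Nat.mul x19200 (nat_lit 4))) x32322) x18714) x19038) x19206) x19198)
    (Nat.add (Nat.add (Nat.add (Nat.add (Nat.add (Nat.add C (Nat.mul x19206 (nat_lit 4))) x32328) x18720) x19044) x19224) x19200)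
    (Nat.add (Nat.add (Nat.add (Nat.add (Nat.add (Nat.add C (Nat.mul x19224 (nat_lit 4))) x32346) x18738) x19062) x19278) x19206)
    (Nat.add (Nat.add (Nat.add (Nat.add (Nat.add (Nat.add C (Nat.mul x19278 (nat_lit 5))) x32400) x18792) x19116) x19440) x19224)
    (Nat.add (Nat.add (Nat.add C (Nat.mul x19440 (nat_lit 6))) x32562) x19278)
    (Nat.sub (Nat.add (Nat.add (Nat.add (Nat.add C (Nat.mul x19736 (nat_lit 6))) x6614) x19790) x19754) x39418)
    (Nat.sub (Nat.add (Nat.add (Nat.add (Nat.add (Nat.add C (Nat.mul x19754 (nat_lit 4))) x6632) x19808) x19736) x19760) x39436)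
    (Nat.sub (Nat.add (Nat.add (Nat.add (Nat.add (Nat.add C (Nat.mul x19760 (nat_lit 4))) x6638) x19814) x19754) x19762) x39442)
    (Nat.sub (Nat.sub (Nat.add (Nat.add (Nat.add (Nat.add C (Nat.mul x19762 (nat_lit 5))) x6640) x19816) x19760) x39444) x80)
    (Nat.sub (Nat.add (Nat.add (Nat.add (Nat.add (Nat.add C (Nat.mul x19790 (nat_lit 4))) x6668) x19952) x19736) x19808) x39472)
    (Nat.sub (Nat.add (Nat.add (Nat.add (Nat.add (Nat.add (Nat.add (Nat.add (Nat.add C (Nat.mul x19808 (nat_lit 4))) x6686) x19970) x19754) x19862) x19790) x19826) x19814) x39490)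
    (Nat.sub (Nat.add (Nat.add (Nat.add (Nat.add (Nat.add (Nat.add (Nat.add (Nat.add C (Nat.mul x19814 (nat_lit 3))) x6692) x19976) x19760) x19868) x19832) x19808) x19816) x39496)
    (Nat.sub (Nat.sub (Nat.add (Nat.add (Nat.add (Nat.add (Nat.add (Nat.add (Nat.add C (Nat.mul x19816 (nat_lit 4))) x6694) x19978) x19762) x19870) x19834) x19814) x39498) x134)
    (Nat.sub (Nat.add (Nat.add (Nat.add (Nat.add (Nat.add (Nat.add C (Nat.mul x19826 (nat_lit 2))) x6704) x19988) x19880) x19808) x19832) x39508)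
    (Nat.sub (Nat.add (Nat.add (Nat.add (Nat.add (Nat.add (Nat.add (Nat.add (Nat.add C (Nat.mul x19832 (nat_lit 3))) x6710) x19994) x19886) x19814) x19826) x19838) x19834) x39514)
    (Nat.sub (Nat.sub (Nat.add (Nat.add (Nat.add (Nat.add (Nat.add (Nat.add (Nat.add C (Nat.mul x19834 (nat_lit 3))) x6712) x19996) x19888) x19816) x19840) x19832) x39516) x152)
    (Nat.sub (Nat.add (Nat.add (Nat.add (Nat.add (Nat.add (Nat.add C (Nat.mul x19838 (nat_lit 2))) x6716) x20000) x19892) x19832) x19840) x39520)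
    (Nat.sub (Nat.sub (Nat.add (Nat.add (Nat.add (Nat.add (Nat.add (Nat.add (Nat.add C (Nat.mul x19840 (nat_lit 4))) x6718) x20002) x19894) x19834) x19838) x19842) x39522) x158)
    (Nat.sub (Nat.add (Nat.add (Nat.add (Nat.add (Nat.add C (Nat.mul x19842 (nat_lit 4))) x6720) x20004) x19896) x19840) x160)
    (Nat.sub (Nat.add (Nat.add (Nat.add (Nat.add (Nat.add (Nat.add C (Nat.mul x19862 (nat_lit 2))) x6740) x20024) x19808) x19880) x19868) x39544)
    (Nat.sub (Nat.add (Nat.add (Nat.add (Nat.add (Nat.add (Nat.add C x6746) x20030) x19814) x19886) x19862) x19870) x39550)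
    (Nat.sub (Nat.sub (Nat.add (Nat.add (Nat.add (Nat.add (Nat.add (Nat.add C x19870) x6748) x20032) x19816) x19888) x19868) x39552) x188)
    (Nat.sub (Nat.add (Nat.add (Nat.add (Nat.add (Nat.add (Nat.add C (Nat.mul x19880 (nat_lit 2))) x6758) x20042) x19826) x19862) x19886) x39562)
    (Nat.sub (Nat.add (Nat.add (Nat.add (Nat.add (Nat.add (Nat.add (Nat.add (Nat.add (Nat.add C (Nat.mul x19886 (nat_lit 2))) x6764) x20048) x19832) x19868) x19904) x19880) x19892) x19888) x39568)
    (Nat.sub (Nat.sub (Nat.add (Nat.add (Nat.add (Nat.add (Nat.add (Nat.add (Nat.add (Nat.add C (Nat.mul x19888 (nat_lit 2))) x6766) x20050) x19834) x19870) x19906) x19894) x19886) x39570) x206)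
    (Nat.sub (Nat.add (Nat.add (Nat.add (Nat.add (Nat.add (Nat.add C x6770) x20054) x19838) x19910) x19886) x19894) x39574)
    (Nat.sub (Nat.sub (Nat.add (Nat.add (Nat.add (Nat.add (Nat.add (Nat.add (Nat.add (Nat.add C (Nat.mul x19894 (nat_lit 2))) x6772) x20056) x19840) x19912) x19888) x19892) x19896) x39576) x212)
    (Nat.sub (Nat.add (Nat.add (Nat.add (Nat.add (Nat.add (Nat.add C (Nat.mul x19896 (nat_lit 2))) x6774) x20058) x19842) x19914) x19894) x214)
    (Nat.sub (Nat.add (Nat.add (Nat.add (Nat.add (Nat.add (Nat.add C (Nat.mul x19904 (nat_lit 2))) x6782) x20066) x19886) x19910) x19906) x39586)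
    (Nat.sub (Nat.sub (Nat.add (Nat.add (Nat.add (Nat.add (Nat.add (Nat.add C x19906) x6784) x20068) x19888) x19912) x19904) x39588) x224)
    (Nat.sub (Nat.add (Nat.add (Nat.add (Nat.add (Nat.add (Nat.add C (Nat.mul x19910 (nat_lit 2))) x6788) x20072) x19892) x19904) x19912) x39592)
    (Nat.sub (Nat.sub (Nat.add (Nat.add (Nat.add (Nat.add (Nat.add (Nat.add (Nat.add (Nat.add C (Nat.mul x19912 (nat_lit 3))) x6790) x20074) x19894) x19906) x19918) x19910) x19914) x39594) x230)
    (Nat.sub (Nat.add (Nat.add (Nat.add (Nat.add (Nat.add (Nat.add C (Nat.mul x19914 (nat_lit 2))) x6792) x20076) x19896) x19920) x19912) x232)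
    (Nat.sub (Nat.sub (Nat.add (Nat.add (Nat.add (Nat.add (Nat.add C (Nat.mul x19918 (nat_lit 3))) x6796) x20080) x19912) x19920) x39600) x236)
    (Nat.sub (Nat.add (Nat.add (Nat.add (Nat.add (Nat.add C (Nat.mul x19920 (nat_lit 4))) x6798) x20082) x19914) x19918) x238)
    (Nat.sub (Nat.add (Nat.add (Nat.add (Nat.add (Nat.add C (Nat.mul x19952 (nat_lit 4))) x6830) x20438) x19790) x19970) x39634)
    (Nat.sub (Nat.add (Nat.add (Nat.add (Nat.add (Nat.add (Nat.add (Nat.add (Nat.add C (Nat.mul x19970 (nat_lit 3))) x6848) x20456) x19808) x20024) x19952) x19988) x19976) x39652)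
    (Nat.sub (Nat.add (Nat.add (Nat.add (Nat.add (Nat.add (Nat.add (Nat.add (Nat.add C (Nat.mul x19976 (nat_lit 2))) x6854) x20462) x19814) x20030) x19994) x19970) x19978) x39658)
    (Nat.sub (Nat.sub (Nat.add (Nat.add (Nat.add (Nat.add (Nat.add (Nat.add (Nat.add C (Nat.mul x19978 (nat_lit 3))) x6856) x20464) x19816) x20032) x19996) x19976) x39660) x296)
    (Nat.sub (Nat.add (Nat.add (Nat.add (Nat.add (Nat.add (Nat.add C x6866) x20474) x19826) x20042) x19970) x19994) x39670)
    (Nat.sub (Nat.add (Nat.add (Nat.add (Nat.add (Nat.add (Nat.add (Nat.add (Nat.add (Nat.add C x19994) x6872) x20480) x19832) x20048) x19976) x19988) x20000) x19996) x39676)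
    (Nat.sub (Nat.sub (Nat.add (Nat.add (Nat.add (Nat.add (Nat.add (Nat.add (Nat.add (Nat.add C x19996) x6874) x20482) x19834) x20050) x19978) x20002) x19994) x39678) x314)
    (Nat.sub (Nat.add (Nat.add (Nat.add (Nat.add (Nat.add (Nat.add C x6878) x20486) x19838) x20054) x19994) x20002) x39682)
    (Nat.sub (Nat.sub (Nat.add (Nat.add (Nat.add (Nat.add (Nat.add (Nat.add (Nat.add (Nat.add C (Nat.mul x20002 (nat_lit 2))) x6880) x20488) x19840) x20056) x19996) x20000) x20004) x39684) x320)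
    (Nat.sub (Nat.add (Nat.add (Nat.add (Nat.add (Nat.add (Nat.add C (Nat.mul x20004 (nat_lit 2))) x6882) x20490) x19842) x20058) x20002) x322)
    (Nat.sub (Nat.add (Nat.add (Nat.add (Nat.add (Nat.add (Nat.add (Nat.add (Nat.add C (Nat.mul x20024 (nat_lit 3))) x6902) x20510) x19862) x20186) x19970) x20042) x20030) x39706)
    (Nat.sub (Nat.add (Nat.add (Nat.add (Nat.add (Nat.add (Nat.add (Nat.add (Nat.add (Nat.add C x20030) x6908) x20516) x19868) x20192) x19976) x20048) x20024) x20032) x39712)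
    (Nat.sub (Nat.sub (Nat.add (Nat.add (Nat.add (Nat.add (Nat.add (Nat.add (Nat.add (Nat.add C (Nat.mul x20032 (nat_lit 2))) x6910) x20518) x19870) x20194) x19978) x20050) x20030) x39714) x350)
    (Nat.sub (Nat.add (Nat.add (Nat.add (Nat.add (Nat.add (Nat.add (Nat.add (Nat.add (Nat.add C (Nat.mul x20042 (nat_lit 2))) x6920) x20528) x19880) x20204) x19988) x20096) x20024) x20048) x39724)
    (Nat.sub (Nat.add (Nat.add (Nat.add (Nat.add (Nat.add (Nat.add (Nat.add (Nat.add (Nat.add (Nat.add (Nat.add (Nat.add C (Nat.mul x20048 (nat_lit 2))) x6926) x20534) x19886) x20210) x19994) x20102) x20030) x20066) x20042) x20054) x20050) x39730)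
    (Nat.sub (Nat.sub (Nat.add (Nat.add (Nat.add (Nat.add (Nat.add (Nat.add (Nat.add (Nat.add (Nat.add (Nat.add (Nat.add C (Nat.mul x20050 (nat_lit 2))) x6928) x20536) x19888) x20212) x19996) x20104) x20032) x20068) x20056) x20048) x39732) x368)
    (Nat.sub (Nat.add (Nat.add (Nat.add (Nat.add (Nat.add (Nat.add (Nat.add (Nat.add (Nat.add C x6932) x20540) x19892) x20216) x20000) x20108) x20072) x20048) x20056) x39736)
    (Nat.sub (Nat.sub (Nat.add (Nat.add (Nat.add (Nat.add (Nat.add (Nat.add (Nat.add (Nat.add (Nat.add (Nat.add (Nat.add C (Nat.mul x20056 (nat_lit 2))) x6934) x20542) x19894) x20218) x20002) x20110) x20074) x20050) x20054) x20058) x39738) x374)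
    (Nat.sub (Nat.add (Nat.add (Nat.add (Nat.add (Nat.add (Nat.add (Nat.add (Nat.add (Nat.add C (Nat.mul x20058 (nat_lit 2))) x6936) x20544) x19896) x20220) x20004) x20112) x20076) x20056) x376)
    (Nat.sub (Nat.add (Nat.add (Nat.add (Nat.add (Nat.add (Nat.add (Nat.add (Nat.add (Nat.add C x20066) x6944) x20552) x19904) x20228) x20120) x20048) x20072) x20068) x39748)
    (Nat.sub (Nat.sub (Nat.add (Nat.add (Nat.add (Nat.add (Nat.add (Nat.add (Nat.add (Nat.add C x6946) x20554) x19906) x20230) x20122) x20050) x20074) x20066) x39750) x386)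
    (Nat.sub (Nat.add (Nat.add (Nat.add (Nat.add (Nat.add (Nat.add (Nat.add (Nat.add (Nat.add C x20072) x6950) x20558) x19910) x20234) x20126) x20054) x20066) x20074) x39754)
    (Nat.sub (Nat.sub (Nat.add (Nat.add (Nat.add (Nat.add (Nat.add (Nat.add (Nat.add (Nat.add (Nat.add (Nat.add (Nat.add C (Nat.mul x20074 (nat_lit 2))) x6952) x20560) x19912) x20236) x20128) x20056) x20068) x20080) x20072) x20076) x39756) x392)
    (Nat.sub (Nat.add (Nat.add (Nat.add (Nat.add (Nat.add (Nat.add (Nat.add (Nat.add (Nat.add C x20076) x6954) x20562) x19914) x20238) x20130) x20058) x20082) x20074) x394)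
    (Nat.sub (Nat.sub (Nat.add (Nat.add (Nat.add (Nat.add (Nat.add (Nat.add (Nat.add (Nat.add C (Nat.mul x20080 (nat_lit 2))) x6958) x20566) x19918) x20242) x20134) x20074) x20082) x39762) x398)
    (Nat.sub (Nat.add (Nat.add (Nat.add (Nat.add (Nat.add (Nat.add (Nat.add (Nat.add C (Nat.mul x20082 (nat_lit 3))) x6960) x20568) x19920) x20244) x20136) x20076) x20080) x400)
    (Nat.sub (Nat.add (Nat.add (Nat.add (Nat.add (Nat.add (Nat.add C (Nat.mul x20096 (nat_lit 2))) x6974) x20582) x20258) x20042) x20102) x39778)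
    (Nat.sub (Nat.add (Nat.add (Nat.add (Nat.add (Nat.add (Nat.add (Nat.add (Nat.add (Nat.add C x20102) x6980) x20588) x20264) x20048) x20120) x20096) x20108) x20104) x39784)
    (Nat.sub (Nat.sub (Nat.add (Nat.add (Nat.add (Nat.add (Nat.add (Nat.add (Nat.add (Nat.add C x20104) x6982) x20590) x20266) x20050) x20122) x20110) x20102) x39786) x422)
    (Nat.sub (Nat.sub (Nat.add (Nat.add (Nat.add (Nat.add (Nat.add (Nat.add (Nat.add C x6986) x20594) x20270) x20054) x20126) x20102) x20110) (Nat.mul x20108 (nat_lit 2))) x39790)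
    (Nat.sub (Nat.sub (Nat.add (Nat.add (Nat.add (Nat.add (Nat.add (Nat.add (Nat.add (Nat.add C x6988) x20596) x20272) x20056) x20128) x20104) x20108) x20112) x39792) x428)
    (Nat.sub (Nat.add (Nat.add (Nat.add (Nat.add (Nat.add (Nat.add C x6990) x20598) x20274) x20058) x20130) x20110) x430)
    (Nat.sub (Nat.add (Nat.add (Nat.add (Nat.add (Nat.add (Nat.add (Nat.add (Nat.add C (Nat.mul x20120 (nat_lit 2))) x6998) x20606) x20282) x20066) x20102) x20126) x20122) x39802)
    (Nat.sub (Nat.sub (Nat.add (Nat.add (Nat.add (Nat.add (Nat.add (Nat.add (Nat.add (Nat.add C x20122) x7000) x20608) x20284) x20068) x20104) x20128) x20120) x39804) x440)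
    (Nat.sub (Nat.add (Nat.add (Nat.add (Nat.add (Nat.add (Nat.add (Nat.add (Nat.add (Nat.add C x20126) x7004) x20612) x20288) x20072) x20108) x20144) x20120) x20128) x39808)
    (Nat.sub (Nat.sub (Nat.add (Nat.add (Nat.add (Nat.add (Nat.add (Nat.add (Nat.add (Nat.add (Nat.add (Nat.add (Nat.add C (Nat.mul x20128 (nat_lit 2))) x7006) x20614) x20290) x20074) x20110) x20146) x20122) x20134) x20126) x20130) x39810) x446)
    (Nat.sub (Nat.add (Nat.add (Nat.add (Nat.add (Nat.add (Nat.add (Nat.add (Nat.add (Nat.add C x20130) x7008) x20616) x20292) x20076) x20112) x20148) x20136) x20128) x448)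
    (Nat.sub (Nat.sub (Nat.add (Nat.add (Nat.add (Nat.add (Nat.add (Nat.add (Nat.add (Nat.add C x20134) x7012) x20620) x20296) x20080) x20152) x20128) x20136) x39816) x452)
    (Nat.sub (Nat.add (Nat.add (Nat.add (Nat.add (Nat.add (Nat.add (Nat.add (Nat.add C (Nat.mul x20136 (nat_lit 2))) x7014) x20622) x20298) x20082) x20154) x20130) x20134) x454)
    (Nat.sub (Nat.add (Nat.add (Nat.add (Nat.add (Nat.add (Nat.add C (Nat.mul x20144 (nat_lit 2))) x7022) x20630) x20306) x20126) x20146) x39826)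
    (Nat.sub (Nat.sub (Nat.add (Nat.add (Nat.add (Nat.add (Nat.add (Nat.add (Nat.add (Nat.add C (Nat.mul x20146 (nat_lit 2))) x7024) x20632) x20308) x20128) x20152) x20144) x20148) x39828) x464)
    (Nat.sub (Nat.add (Nat.add (Nat.add (Nat.add (Nat.add (Nat.add C x7026) x20634) x20310) x20130) x20154) x20146) x466)
    (Nat.sub (Nat.sub (Nat.add (Nat.add (Nat.add (Nat.add (Nat.add (Nat.add (Nat.add C (Nat.mul x20152 (nat_lit 3))) x7030) x20638) x20314) x20134) x20146) x20154) x39834) x470)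
    (Nat.sub (Nat.add (Nat.add (Nat.add (Nat.add (Nat.add (Nat.add (Nat.add (Nat.add C (Nat.mul x20154 (nat_lit 3))) x7032) x20640) x20316) x20136) x20148) x20160) x20152) x472)
    (Nat.sub (Nat.add (Nat.add (Nat.add (Nat.add (Nat.add C (Nat.mul x20160 (nat_lit 4))) x7038) x20646) x20322) x20154) x478)
    (Nat.sub (Nat.add (Nat.add (Nat.add (Nat.add (Nat.add (Nat.add C (Nat.mul x20186 (nat_lit 2))) x7064) x20672) x20024) x20204) x20192) x39868)
    (Nat.sub (Nat.add (Nat.add (Nat.add (Nat.add (Nat.add (Nat.add C x7070) x20678) x20030) x20210) x20186) x20194) x39874)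
    (Nat.sub (Nat.sub (Nat.add (Nat.add (Nat.add (Nat.add (Nat.add (Nat.add C x20194) x7072) x20680) x20032) x20212) x20192) x39876) x512)
    (Nat.sub (Nat.add (Nat.add (Nat.add (Nat.add (Nat.add (Nat.add C x7082) x20690) x20042) x20258) x20186) x20210) x39886)
    (Nat.sub (Nat.add (Nat.add (Nat.add (Nat.add (Nat.add (Nat.add (Nat.add (Nat.add (Nat.add C x7088) x20696) x20048) x20264) x20192) x20228) x20204) x20216) x20212) x39892)
    (Nat.sub (Nat.sub (Nat.add (Nat.add (Nat.add (Nat.add (Nat.add (Nat.add (Nat.add (Nat.add C x7090) x20698) x20050) x20266) x20194) x20230) x20218) x20210) x39894) x530)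
    (Nat.sub (Nat.sub (Nat.add (Nat.add (Nat.add (Nat.add (Nat.add (Nat.add (Nat.add C x7094) x20702) x20054) x20270) x20234) x20210) x20218) (Nat.mul x20216 (nat_lit 2))) x39898)
    (Nat.sub (Nat.sub (Nat.add (Nat.add (Nat.add (Nat.add (Nat.add (Nat.add (Nat.add (Nat.add C x7096) x20704) x20056) x20272) x20236) x20212) x20216) x20220) x39900) x536)
    (Nat.sub (Nat.add (Nat.add (Nat.add (Nat.add (Nat.add (Nat.add C x7098) x20706) x20058) x20274) x20238) x20218) x538)
    (Nat.sub (Nat.sub (Nat.add (Nat.add (Nat.add (Nat.add (Nat.add (Nat.add (Nat.add C x7106) x20714) x20066) x20282) x20210) x20234) x20230) (Nat.mul x20228 (nat_lit 2))) x39910)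
    (Nat.sub (Nat.sub (Nat.sub (Nat.add (Nat.add (Nat.add (Nat.add (Nat.add (Nat.add (Nat.add C x7108) x20716) x20068) x20284) x20212) x20236) x20228) (Nat.mul x20230 (nat_lit 3))) x39912) x548)
    (Nat.sub (Nat.sub (Nat.add (Nat.add (Nat.add (Nat.add (Nat.add (Nat.add (Nat.add C x7112) x20720) x20072) x20288) x20216) x20228) x20236) (Nat.mul x20234 (nat_lit 2))) x39916)
    (Nat.sub (Nat.sub (Nat.sub (Nat.add (Nat.add (Nat.add (Nat.add (Nat.add (Nat.add (Nat.add (Nat.add (Nat.add C x7114) x20722) x20074) x20290) x20218) x20230) x20242) x20234) x20238) x20236) x39918) x554)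
    (Nat.sub (Nat.sub (Nat.add (Nat.add (Nat.add (Nat.add (Nat.add (Nat.add (Nat.add C x7116) x20724) x20076) x20292) x20220) x20244) x20236) (Nat.mul x20238 (nat_lit 2))) x556)
    (Nat.sub (Nat.sub (Nat.sub (Nat.add (Nat.add (Nat.add (Nat.add (Nat.add (Nat.add C x7120) x20728) x20080) x20296) x20236) x20244) x20242) x39924) x560)
    (Nat.sub (Nat.add (Nat.add (Nat.add (Nat.add (Nat.add (Nat.add C x7122) x20730) x20082) x20298) x20238) x20242) x562)
    (Nat.sub (Nat.add (Nat.add (Nat.add (Nat.add (Nat.add (Nat.add C (Nat.mul x20258 (nat_lit 2))) x7136) x20744) x20096) x20204) x20264) x39940)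
    (Nat.sub (Nat.add (Nat.add (Nat.add (Nat.add (Nat.add (Nat.add (Nat.add (Nat.add (Nat.add C x20264) x7142) x20750) x20102) x20210) x20282) x20258) x20270) x20266) x39946)
    (Nat.sub (Nat.sub (Nat.add (Nat.add (Nat.add (Nat.add (Nat.add (Nat.add (Nat.add (Nat.add C x20266) x7144) x20752) x20104) x20212) x20284) x20272) x20264) x39948) x584)
    (Nat.sub (Nat.sub (Nat.add (Nat.add (Nat.add (Nat.add (Nat.add (Nat.add (Nat.add C x7148) x20756) x20108) x20216) x20288) x20264) x20272) (Nat.mul x20270 (nat_lit 2))) x39952)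
    (Nat.sub (Nat.sub (Nat.add (Nat.add (Nat.add (Nat.add (Nat.add (Nat.add (Nat.add (Nat.add C x7150) x20758) x20110) x20218) x20290) x20266) x20270) x20274) x39954) x590)
    (Nat.sub (Nat.add (Nat.add (Nat.add (Nat.add (Nat.add (Nat.add C x7152) x20760) x20112) x20220) x20292) x20272) x592)
    (Nat.sub (Nat.add (Nat.add (Nat.add (Nat.add (Nat.add (Nat.add (Nat.add (Nat.add (Nat.add C x20282) x7160) x20768) x20120) x20228) x20336) x20264) x20288) x20284) x39964)
    (Nat.sub (Nat.sub (Nat.add (Nat.add (Nat.add (Nat.add (Nat.add (Nat.add (Nat.add (Nat.add C x7162) x20770) x20122) x20230) x20338) x20266) x20290) x20282) x39966) x602)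
    (Nat.sub (Nat.add (Nat.add (Nat.add (Nat.add (Nat.add (Nat.add (Nat.add (Nat.add (Nat.add C x7166) x20774) x20126) x20234) x20342) x20270) x20306) x20282) x20290) x39970)
    (Nat.sub (Nat.sub (Nat.add (Nat.add (Nat.add (Nat.add (Nat.add (Nat.add (Nat.add (Nat.add (Nat.add (Nat.add (Nat.add (Nat.add C x20290) x7168) x20776) x20128) x20236) x20344) x20272) x20308) x20284) x20296) x20288) x20292) x39972) x608)
    (Nat.sub (Nat.add (Nat.add (Nat.add (Nat.add (Nat.add (Nat.add (Nat.add (Nat.add (Nat.add C x7170) x20778) x20130) x20238) x20346) x20274) x20310) x20298) x20290) x610)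
    (Nat.sub (Nat.sub (Nat.add (Nat.add (Nat.add (Nat.add (Nat.add (Nat.add (Nat.add (Nat.add C x7174) x20782) x20134) x20242) x20350) x20314) x20290) x20298) x39978) x614)
    (Nat.sub (Nat.add (Nat.add (Nat.add (Nat.add (Nat.add (Nat.add (Nat.add (Nat.add (Nat.add C x20298) x7176) x20784) x20136) x20244) x20352) x20316) x20292) x20296) x616)
    (Nat.sub (Nat.add (Nat.add (Nat.add (Nat.add (Nat.add (Nat.add C x7184) x20792) x20144) x20360) x20288) x20308) x39988)
    (Nat.sub (Nat.sub (Nat.add (Nat.add (Nat.add (Nat.add (Nat.add (Nat.add (Nat.add (Nat.add C x7186) x20794) x20146) x20362) x20290) x20314) x20306) x20310) x39990) x626)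
    (Nat.sub (Nat.sub (Nat.add (Nat.add (Nat.add (Nat.add (Nat.add (Nat.add (Nat.add C x7188) x20796) x20148) x20364) x20292) x20316) x20308) (Nat.mul x20310 (nat_lit 2))) x628)
    (Nat.sub (Nat.sub (Nat.add (Nat.add (Nat.add (Nat.add (Nat.add (Nat.add (Nat.add (Nat.add C x20314) x7192) x20800) x20152) x20368) x20296) x20308) x20316) x39996) x632)
    (Nat.sub (Nat.add (Nat.add (Nat.add (Nat.add (Nat.add (Nat.add (Nat.add (Nat.add (Nat.add C x20316) x7194) x20802) x20154) x20370) x20298) x20310) x20322) x20314) x634)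
    (Nat.sub (Nat.add (Nat.add (Nat.add (Nat.add (Nat.add (Nat.add C (Nat.mul x20322 (nat_lit 2))) x7200) x20808) x20160) x20376) x20316) x640)
    (Nat.sub (Nat.add (Nat.add (Nat.add (Nat.add (Nat.add (Nat.add C (Nat.mul x20336 (nat_lit 2))) x7214) x20822) x20282) x20342) x20338) x40018)
    (Nat.sub (Nat.sub (Nat.add (Nat.add (Nat.add (Nat.add (Nat.add (Nat.add C x20338) x7216) x20824) x20284) x20344) x20336) x40020) x656)
    (Nat.sub (Nat.add (Nat.add (Nat.add (Nat.add (Nat.add (Nat.add C x7220) x20828) x20288) x20360) x20336) x20344) x40024)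
    (Nat.sub (Nat.sub (Nat.add (Nat.add (Nat.add (Nat.add (Nat.add (Nat.add (Nat.add (Nat.add (Nat.add C x20344) x7222) x20830) x20290) x20362) x20338) x20350) x20342) x20346) x40026) x662)
    (Nat.sub (Nat.add (Nat.add (Nat.add (Nat.add (Nat.add (Nat.add C x7224) x20832) x20292) x20364) x20352) x20344) x664)
    (Nat.sub (Nat.sub (Nat.sub (Nat.add (Nat.add (Nat.add (Nat.add (Nat.add (Nat.add C x7228) x20836) x20296) x20368) x20344) x20352) x20350) x40032) x668)
    (Nat.sub (Nat.add (Nat.add (Nat.add (Nat.add (Nat.add (Nat.add C x7230) x20838) x20298) x20370) x20346) x20350) x670)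
    (Nat.sub (Nat.add (Nat.add (Nat.add (Nat.add (Nat.add (Nat.add C (Nat.mul x20360 (nat_lit 2))) x7238) x20846) x20306) x20342) x20362) x40042)
    (Nat.sub (Nat.sub (Nat.add (Nat.add (Nat.add (Nat.add (Nat.add (Nat.add (Nat.add (Nat.add C (Nat.mul x20362 (nat_lit 2))) x7240) x20848) x20308) x20344) x20368) x20360) x20364) x40044) x680)
    (Nat.sub (Nat.add (Nat.add (Nat.add (Nat.add (Nat.add (Nat.add C x7242) x20850) x20310) x20346) x20370) x20362) x682)
    (Nat.sub (Nat.sub (Nat.add (Nat.add (Nat.add (Nat.add (Nat.add (Nat.add (Nat.add (Nat.add C (Nat.mul x20368 (nat_lit 2))) x7246) x20854) x20314) x20350) x20386) x20362) x20370) x40050) x686)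
    (Nat.sub (Nat.add (Nat.add (Nat.add (Nat.add (Nat.add (Nat.add (Nat.add (Nat.add (Nat.add C (Nat.mul x20370 (nat_lit 2))) x7248) x20856) x20316) x20352) x20388) x20364) x20376) x20368) x688)
    (Nat.sub (Nat.add (Nat.add (Nat.add (Nat.add (Nat.add (Nat.add C (Nat.mul x20376 (nat_lit 2))) x7254) x20862) x20322) x20394) x20370) x694)
    (Nat.sub (Nat.sub (Nat.add (Nat.add (Nat.add (Nat.add (Nat.add C (Nat.mul x20386 (nat_lit 3))) x7264) x20872) x20368) x20388) x40068) x704)
    (Nat.sub (Nat.add (Nat.add (Nat.add (Nat.add (Nat.add (Nat.add C (Nat.mul x20388 (nat_lit 2))) x7266) x20874) x20370) x20394) x20386) x706)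
    (Nat.sub (Nat.add (Nat.add (Nat.add (Nat.add (Nat.add C (Nat.mul x20394 (nat_lit 4))) x7272) x20880) x20376) x20388) x712)
    (Nat.sub (Nat.add (Nat.add (Nat.add (Nat.add (Nat.add C (Nat.mul x20438 (nat_lit 4))) x7316) x21896) x19952) x20456) x40120)
    (Nat.sub (Nat.add (Nat.add (Nat.add (Nat.add (Nat.add (Nat.add (Nat.add (Nat.add C (Nat.mul x20456 (nat_lit 3))) x7334) x21914) x19970) x20510) x20438) x20474) x20462) x40138)
    (Nat.sub (Nat.add (Nat.add (Nat.add (Nat.add (Nat.add (Nat.add (Nat.add (Nat.add C (Nat.mul x20462 (nat_lit 2))) x7340) x21920) x19976) x20516) x20480) x20456) x20464) x40144)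
    (Nat.sub (Nat.sub (Nat.add (Nat.add (Nat.add (Nat.add (Nat.add (Nat.add (Nat.add C (Nat.mul x20464 (nat_lit 3))) x7342) x21922) x19978) x20518) x20482) x20462) x40146) x782)
    (Nat.sub (Nat.add (Nat.add (Nat.add (Nat.add (Nat.add (Nat.add C x7352) x21932) x19988) x20528) x20456) x20480) x40156)
    (Nat.sub (Nat.add (Nat.add (Nat.add (Nat.add (Nat.add (Nat.add (Nat.add (Nat.add (Nat.add C x20480) x7358) x21938) x19994) x20534) x20462) x20474) x20486) x20482) x40162)
    (Nat.sub (Nat.sub (Nat.add (Nat.add (Nat.add (Nat.add (Nat.add (Nat.add (Nat.add (Nat.add C x20482) x7360) x21940) x19996) x20536) x20464) x20488) x20480) x40164) x800)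
    (Nat.sub (Nat.add (Nat.add (Nat.add (Nat.add (Nat.add (Nat.add C x7364) x21944) x20000) x20540) x20480) x20488) x40168)
    (Nat.sub (Nat.sub (Nat.add (Nat.add (Nat.add (Nat.add (Nat.add (Nat.add (Nat.add (Nat.add C (Nat.mul x20488 (nat_lit 2))) x7366) x21946) x20002) x20542) x20482) x20486) x20490) x40170) x806)
    (Nat.sub (Nat.add (Nat.add (Nat.add (Nat.add (Nat.add (Nat.add C (Nat.mul x20490 (nat_lit 2))) x7368) x21948) x20004) x20544) x20488) x808)
    (Nat.sub (Nat.add (Nat.add (Nat.add (Nat.add (Nat.add (Nat.add (Nat.add (Nat.add C (Nat.mul x20510 (nat_lit 2))) x7388) x21968) x20024) x20672) x20456) x20528) x20516) x40192)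
    (Nat.sub (Nat.add (Nat.add (Nat.add (Nat.add (Nat.add (Nat.add (Nat.add (Nat.add C x7394) x21974) x20030) x20678) x20462) x20534) x20510) x20518) x40198)
    (Nat.sub (Nat.sub (Nat.add (Nat.add (Nat.add (Nat.add (Nat.add (Nat.add (Nat.add (Nat.add C x20518) x7396) x21976) x20032) x20680) x20464) x20536) x20516) x40200) x836)
    (Nat.sub (Nat.add (Nat.add (Nat.add (Nat.add (Nat.add (Nat.add (Nat.add (Nat.add (Nat.add C x20528) x7406) x21986) x20042) x20690) x20474) x20582) x20510) x20534) x40210)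
    (Nat.sub (Nat.add (Nat.add (Nat.add (Nat.add (Nat.add (Nat.add (Nat.add (Nat.add (Nat.add (Nat.add (Nat.add (Nat.add C x20534) x7412) x21992) x20048) x20696) x20480) x20588) x20516) x20552) x20528) x20540) x20536) x40216)
    (Nat.sub (Nat.sub (Nat.add (Nat.add (Nat.add (Nat.add (Nat.add (Nat.add (Nat.add (Nat.add (Nat.add (Nat.add (Nat.add C x20536) x7414) x21994) x20050) x20698) x20482) x20590) x20518) x20554) x20542) x20534) x40218) x854)
    (Nat.sub (Nat.sub (Nat.add (Nat.add (Nat.add (Nat.add (Nat.add (Nat.add (Nat.add (Nat.add (Nat.add C x7418) x21998) x20054) x20702) x20486) x20594) x20558) x20534) x20542) x20540) x40222)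
    (Nat.sub (Nat.sub (Nat.add (Nat.add (Nat.add (Nat.add (Nat.add (Nat.add (Nat.add (Nat.add (Nat.add (Nat.add (Nat.add C x20542) x7420) x22000) x20056) x20704) x20488) x20596) x20560) x20536) x20540) x20544) x40224) x860)
    (Nat.sub (Nat.add (Nat.add (Nat.add (Nat.add (Nat.add (Nat.add (Nat.add (Nat.add (Nat.add C x20544) x7422) x22002) x20058) x20706) x20490) x20598) x20562) x20542) x862)
    (Nat.sub (Nat.add (Nat.add (Nat.add (Nat.add (Nat.add (Nat.add (Nat.add (Nat.add C x7430) x22010) x20066) x20714) x20606) x20534) x20558) x20554) x40234)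
    (Nat.sub (Nat.sub (Nat.sub (Nat.add (Nat.add (Nat.add (Nat.add (Nat.add (Nat.add (Nat.add (Nat.add C x7432) x22012) x20068) x20716) x20608) x20536) x20560) x20552) x20554) x40236) x872)
    (Nat.sub (Nat.add (Nat.add (Nat.add (Nat.add (Nat.add (Nat.add (Nat.add (Nat.add C x7436) x22016) x20072) x20720) x20612) x20540) x20552) x20560) x40240)
    (Nat.sub (Nat.sub (Nat.add (Nat.add (Nat.add (Nat.add (Nat.add (Nat.add (Nat.add (Nat.add (Nat.add (Nat.add (Nat.add C x20560) x7438) x22018) x20074) x20722) x20614) x20542) x20554) x20566) x20558) x20562) x40242) x878)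
    (Nat.sub (Nat.add (Nat.add (Nat.add (Nat.add (Nat.add (Nat.add (Nat.add (Nat.add C x7440) x22020) x20076) x20724) x20616) x20544) x20568) x20560) x880)
    (Nat.sub (Nat.sub (Nat.add (Nat.add (Nat.add (Nat.add (Nat.add (Nat.add (Nat.add (Nat.add C x20566) x7444) x22024) x20080) x20728) x20620) x20560) x20568) x40248) x884)
    (Nat.sub (Nat.add (Nat.add (Nat.add (Nat.add (Nat.add (Nat.add (Nat.add (Nat.add C (Nat.mul x20568 (nat_lit 2))) x7446) x22026) x20082) x20730) x20622) x20562) x20566) x886)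
    (Nat.sub (Nat.add (Nat.add (Nat.add (Nat.add (Nat.add (Nat.add C x7460) x22040) x20096) x20744) x20528) x20588) x40264)
    (Nat.sub (Nat.sub (Nat.add (Nat.add (Nat.add (Nat.add (Nat.add (Nat.add (Nat.add (Nat.add (Nat.add C x7466) x22046) x20102) x20750) x20534) x20606) x20582) x20594) x20590) x20588) x40270)
    (Nat.sub (Nat.sub (Nat.sub (Nat.add (Nat.add (Nat.add (Nat.add (Nat.add (Nat.add (Nat.add (Nat.add C x7468) x22048) x20104) x20752) x20536) x20608) x20596) x20588) x20590) x40272) x908)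
    (Nat.sub (Nat.sub (Nat.add (Nat.add (Nat.add (Nat.add (Nat.add (Nat.add (Nat.add (Nat.add C x7472) x22052) x20108) x20756) x20540) x20612) x20588) x20596) (Nat.mul x20594 (nat_lit 4))) x40276)
    (Nat.sub (Nat.sub (Nat.sub (Nat.add (Nat.add (Nat.add (Nat.add (Nat.add (Nat.add (Nat.add (Nat.add (Nat.add C x7474) x22054) x20110) x20758) x20542) x20614) x20590) x20594) x20598) (Nat.mul x20596 (nat_lit 2))) x40278) x914)
    (Nat.sub (Nat.sub (Nat.add (Nat.add (Nat.add (Nat.add (Nat.add (Nat.add (Nat.add C x7476) x22056) x20112) x20760) x20544) x20616) x20596) (Nat.mul x20598 (nat_lit 2))) x916)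
    (Nat.sub (Nat.add (Nat.add (Nat.add (Nat.add (Nat.add (Nat.add (Nat.add (Nat.add C x7484) x22064) x20120) x20768) x20552) x20588) x20612) x20608) x40288)
    (Nat.sub (Nat.sub (Nat.sub (Nat.add (Nat.add (Nat.add (Nat.add (Nat.add (Nat.add (Nat.add (Nat.add C x7486) x22066) x20122) x20770) x20554) x20590) x20614) x20606) x20608) x40290) x926)
    (Nat.sub (Nat.sub (Nat.add (Nat.add (Nat.add (Nat.add (Nat.add (Nat.add (Nat.add (Nat.add (Nat.add C x7490) x22070) x20126) x20774) x20558) x20594) x20630) x20606) x20614) x20612) x40294)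
    (Nat.sub (Nat.sub (Nat.add (Nat.add (Nat.add (Nat.add (Nat.add (Nat.add (Nat.add (Nat.add (Nat.add (Nat.add (Nat.add C x7492) x22072) x20128) x20776) x20560) x20596) x20632) x20608) x20620) x20612) x20616) x40296) x932)
    (Nat.sub (Nat.sub (Nat.add (Nat.add (Nat.add (Nat.add (Nat.add (Nat.add (Nat.add (Nat.add (Nat.add C x7494) x22074) x20130) x20778) x20562) x20598) x20634) x20622) x20614) x20616) x934)
    (Nat.sub (Nat.sub (Nat.sub (Nat.add (Nat.add (Nat.add (Nat.add (Nat.add (Nat.add (Nat.add (Nat.add C x7498) x22078) x20134) x20782) x20566) x20638) x20614) x20622) x20620) x40302) x938)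
    (Nat.sub (Nat.add (Nat.add (Nat.add (Nat.add (Nat.add (Nat.add (Nat.add (Nat.add C x7500) x22080) x20136) x20784) x20568) x20640) x20616) x20620) x940)
    (Nat.sub (Nat.add (Nat.add (Nat.add (Nat.add (Nat.add (Nat.add C x7508) x22088) x20144) x20792) x20612) x20632) x40312)
    (Nat.sub (Nat.sub (Nat.add (Nat.add (Nat.add (Nat.add (Nat.add (Nat.add (Nat.add (Nat.add C x7510) x22090) x20146) x20794) x20614) x20638) x20630) x20634) x40314) x950)
    (Nat.sub (Nat.sub (Nat.add (Nat.add (Nat.add (Nat.add (Nat.add (Nat.add (Nat.add C x7512) x22092) x20148) x20796) x20616) x20640) x20632) (Nat.mul x20634 (nat_lit 2))) x952)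
    (Nat.sub (Nat.sub (Nat.add (Nat.add (Nat.add (Nat.add (Nat.add (Nat.add (Nat.add (Nat.add C x20638) x7516) x22096) x20152) x20800) x20620) x20632) x20640) x40320) x956)
    (Nat.sub (Nat.add (Nat.add (Nat.add (Nat.add (Nat.add (Nat.add (Nat.add (Nat.add (Nat.add C x20640) x7518) x22098) x20154) x20802) x20622) x20634) x20646) x20638) x958)
    (Nat.sub (Nat.add (Nat.add (Nat.add (Nat.add (Nat.add (Nat.add C (Nat.mul x20646 (nat_lit 2))) x7524) x22104) x20160) x20808) x20640) x964)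
    (Nat.sub (Nat.add (Nat.add (Nat.add (Nat.add (Nat.add (Nat.add (Nat.add (Nat.add C (Nat.mul x20672 (nat_lit 3))) x7550) x22130) x20186) x21158) x20510) x20690) x20678) x40354)
    (Nat.sub (Nat.add (Nat.add (Nat.add (Nat.add (Nat.add (Nat.add (Nat.add (Nat.add (Nat.add C x20678) x7556) x22136) x20192) x21164) x20516) x20696) x20672) x20680) x40360)
    (Nat.sub (Nat.sub (Nat.add (Nat.add (Nat.add (Nat.add (Nat.add (Nat.add (Nat.add (Nat.add C (Nat.mul x20680 (nat_lit 2))) x7558) x22138) x20194) x21166) x20518) x20698) x20678) x40362) x998)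
    (Nat.sub (Nat.add (Nat.add (Nat.add (Nat.add (Nat.add (Nat.add (Nat.add (Nat.add (Nat.add C x20690) x7568) x22148) x20204) x21176) x20528) x20744) x20672) x20696) x40372)
    (Nat.sub (Nat.add (Nat.add (Nat.add (Nat.add (Nat.add (Nat.add (Nat.add (Nat.add (Nat.add (Nat.add (Nat.add (Nat.add C x20696) x7574) x22154) x20210) x21182) x20534) x20750) x20678) x20714) x20690) x20702) x20698) x40378)
    (Nat.sub (Nat.sub (Nat.add (Nat.add (Nat.add (Nat.add (Nat.add (Nat.add (Nat.add (Nat.add (Nat.add (Nat.add (Nat.add C x20698) x7576) x22156) x20212) x21184) x20536) x20752) x20680) x20716) x20704) x20696) x40380) x1016)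
    (Nat.sub (Nat.sub (Nat.add (Nat.add (Nat.add (Nat.add (Nat.add (Nat.add (Nat.add (Nat.add (Nat.add C x7580) x22160) x20216) x21188) x20540) x20756) x20720) x20696) x20704) x20702) x40384)
    (Nat.sub (Nat.sub (Nat.add (Nat.add (Nat.add (Nat.add (Nat.add (Nat.add (Nat.add (Nat.add (Nat.add (Nat.add (Nat.add C x20704) x7582) x22162) x20218) x21190) x20542) x20758) x20722) x20698) x20702) x20706) x40386) x1022)
    (Nat.sub (Nat.add (Nat.add (Nat.add (Nat.add (Nat.add (Nat.add (Nat.add (Nat.add (Nat.add C x20706) x7584) x22164) x20220) x21192) x20544) x20760) x20724) x20704) x1024)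
    (Nat.sub (Nat.sub (Nat.add (Nat.add (Nat.add (Nat.add (Nat.add (Nat.add (Nat.add (Nat.add (Nat.add C x7592) x22172) x20228) x21200) x20552) x20768) x20696) x20720) x20716) x20714) x40396)
    (Nat.sub (Nat.sub (Nat.sub (Nat.add (Nat.add (Nat.add (Nat.add (Nat.add (Nat.add (Nat.add (Nat.add (Nat.add C x7594) x22174) x20230) x21202) x20554) x20770) x20698) x20722) x20714) (Nat.mul x20716 (nat_lit 2))) x40398) x1034)
    (Nat.sub (Nat.sub (Nat.add (Nat.add (Nat.add (Nat.add (Nat.add (Nat.add (Nat.add (Nat.add (Nat.add C x7598) x22178) x20234) x21206) x20558) x20774) x20702) x20714) x20722) x20720) x40402)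
    (Nat.sub (Nat.sub (Nat.add (Nat.add (Nat.add (Nat.add (Nat.add (Nat.add (Nat.add (Nat.add (Nat.add (Nat.add (Nat.add C x7600) x22180) x20236) x21208) x20560) x20776) x20704) x20716) x20728) x20720) x20724) x40404) x1040)
    (Nat.sub (Nat.sub (Nat.add (Nat.add (Nat.add (Nat.add (Nat.add (Nat.add (Nat.add (Nat.add (Nat.add C x7602) x22182) x20238) x21210) x20562) x20778) x20706) x20730) x20722) x20724) x1042)
    (Nat.sub (Nat.sub (Nat.add (Nat.add (Nat.add (Nat.add (Nat.add (Nat.add (Nat.add (Nat.add C x7606) x22186) x20242) x21214) x20566) x20782) x20722) x20730) x40410) x1046)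
    (Nat.sub (Nat.add (Nat.add (Nat.add (Nat.add (Nat.add (Nat.add (Nat.add (Nat.add (Nat.add C x20730) x7608) x22188) x20244) x21216) x20568) x20784) x20724) x20728) x1048)
    (Nat.sub (Nat.add (Nat.add (Nat.add (Nat.add (Nat.add (Nat.add (Nat.add (Nat.add (Nat.add C (Nat.mul x20744 (nat_lit 2))) x7622) x22202) x20258) x21230) x20582) x20906) x20690) x20750) x40426)
    (Nat.sub (Nat.add (Nat.add (Nat.add (Nat.add (Nat.add (Nat.add (Nat.add (Nat.add (Nat.add (Nat.add (Nat.add (Nat.add C x20750) x7628) x22208) x20264) x21236) x20588) x20912) x20696) x20768) x20744) x20756) x20752) x40432)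
    (Nat.sub (Nat.sub (Nat.add (Nat.add (Nat.add (Nat.add (Nat.add (Nat.add (Nat.add (Nat.add (Nat.add (Nat.add (Nat.add C x20752) x7630) x22210) x20266) x21238) x20590) x20914) x20698) x20770) x20758) x20750) x40434) x1070)
    (Nat.sub (Nat.sub (Nat.add (Nat.add (Nat.add (Nat.add (Nat.add (Nat.add (Nat.add (Nat.add (Nat.add (Nat.add C x7634) x22214) x20270) x21242) x20594) x20918) x20702) x20774) x20750) x20758) (Nat.mul x20756 (nat_lit 2))) x40438)
    (Nat.sub (Nat.sub (Nat.add (Nat.add (Nat.add (Nat.add (Nat.add (Nat.add (Nat.add (Nat.add (Nat.add (Nat.add (Nat.add C x7636) x22216) x20272) x21244) x20596) x20920) x20704) x20776) x20752) x20756) x20760) x40440) x1076)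
    (Nat.sub (Nat.add (Nat.add (Nat.add (Nat.add (Nat.add (Nat.add (Nat.add (Nat.add (Nat.add C x7638) x22218) x20274) x21246) x20598) x20922) x20706) x20778) x20758) x1078)
    (Nat.sub (Nat.add (Nat.add (Nat.add (Nat.add (Nat.add (Nat.add (Nat.add (Nat.add (Nat.add (Nat.add (Nat.add (Nat.add C x20768) x7646) x22226) x20282) x21254) x20606) x20930) x20714) x20822) x20750) x20774) x20770) x40450)
    (Nat.sub (Nat.sub (Nat.add (Nat.add (Nat.add (Nat.add (Nat.add (Nat.add (Nat.add (Nat.add (Nat.add (Nat.add (Nat.add C x7648) x22228) x20284) x21256) x20608) x20932) x20716) x20824) x20752) x20776) x20768) x40452) x1088)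
    (Nat.sub (Nat.add (Nat.add (Nat.add (Nat.add (Nat.add (Nat.add (Nat.add (Nat.add (Nat.add (Nat.add (Nat.add (Nat.add C x7652) x22232) x20288) x21260) x20612) x20936) x20720) x20828) x20756) x20792) x20768) x20776) x40456)
    (Nat.sub (Nat.sub (Nat.add (Nat.add (Nat.add (Nat.add (Nat.add (Nat.add (Nat.add (Nat.add (Nat.add (Nat.add (Nat.add (Nat.add (Nat.add (Nat.add (Nat.add C x20776) x7654) x22234) x20290) x21262) x20614) x20938) x20722) x20830) x20758) x20794) x20770) x20782) x20774) x20778) x40458) x1094)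
    (Nat.sub (Nat.add (Nat.add (Nat.add (Nat.add (Nat.add (Nat.add (Nat.add (Nat.add (Nat.add (Nat.add (Nat.add (Nat.add C x7656) x22236) x20292) x21264) x20616) x20940) x20724) x20832) x20760) x20796) x20784) x20776) x1096)
    (Nat.sub (Nat.sub (Nat.add (Nat.add (Nat.add (Nat.add (Nat.add (Nat.add (Nat.add (Nat.add (Nat.add (Nat.add (Nat.add C x7660) x22240) x20296) x21268) x20620) x20944) x20728) x20836) x20800) x20776) x20784) x40464) x1100)
    (Nat.sub (Nat.add (Nat.add (Nat.add (Nat.add (Nat.add (Nat.add (Nat.add (Nat.add (Nat.add (Nat.add (Nat.add (Nat.add C x20784) x7662) x22242) x20298) x21270) x20622) x20946) x20730) x20838) x20802) x20778) x20782) x1102)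
    (Nat.sub (Nat.add (Nat.add (Nat.add (Nat.add (Nat.add (Nat.add (Nat.add (Nat.add (Nat.add C x7670) x22250) x20306) x21278) x20630) x20954) x20846) x20774) x20794) x40474)
    (Nat.sub (Nat.sub (Nat.add (Nat.add (Nat.add (Nat.add (Nat.add (Nat.add (Nat.add (Nat.add (Nat.add (Nat.add (Nat.add C x7672) x22252) x20308) x21280) x20632) x20956) x20848) x20776) x20800) x20792) x20796) x40476) x1112)
    (Nat.sub (Nat.sub (Nat.add (Nat.add (Nat.add (Nat.add (Nat.add (Nat.add (Nat.add (Nat.add (Nat.add (Nat.add C x7674) x22254) x20310) x21282) x20634) x20958) x20850) x20778) x20802) x20794) (Nat.mul x20796 (nat_lit 2))) x1114)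
    (Nat.sub (Nat.sub (Nat.add (Nat.add (Nat.add (Nat.add (Nat.add (Nat.add (Nat.add (Nat.add (Nat.add (Nat.add (Nat.add C x20800) x7678) x22258) x20314) x21286) x20638) x20962) x20854) x20782) x20794) x20802) x40482) x1118)
    (Nat.sub (Nat.add (Nat.add (Nat.add (Nat.add (Nat.add (Nat.add (Nat.add (Nat.add (Nat.add (Nat.add (Nat.add (Nat.add C x20802) x7680) x22260) x20316) x21288) x20640) x20964) x20856) x20784) x20796) x20808) x20800) x1120)
    (Nat.sub (Nat.add (Nat.add (Nat.add (Nat.add (Nat.add (Nat.add (Nat.add (Nat.add (Nat.add C (Nat.mul x20808 (nat_lit 2))) x7686) x22266) x20322) x21294) x20646) x20970) x20862) x20802) x1126)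
    (Nat.sub (Nat.add (Nat.add (Nat.add (Nat.add (Nat.add (Nat.add (Nat.add (Nat.add (Nat.add C x20822) x7700) x22280) x20336) x21308) x20984) x20768) x20828) x20824) x40504)
    (Nat.sub (Nat.sub (Nat.add (Nat.add (Nat.add (Nat.add (Nat.add (Nat.add (Nat.add (Nat.add C x7702) x22282) x20338) x21310) x20986) x20770) x20830) x20822) x40506) x1142)
    (Nat.sub (Nat.sub (Nat.add (Nat.add (Nat.add (Nat.add (Nat.add (Nat.add (Nat.add (Nat.add (Nat.add C x7706) x22286) x20342) x21314) x20990) x20774) x20846) x20822) x20830) x20828) x40510)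
    (Nat.sub (Nat.sub (Nat.add (Nat.add (Nat.add (Nat.add (Nat.add (Nat.add (Nat.add (Nat.add (Nat.add (Nat.add (Nat.add C x7708) x22288) x20344) x21316) x20992) x20776) x20848) x20824) x20836) x20828) x20832) x40512) x1148)
    (Nat.sub (Nat.sub (Nat.add (Nat.add (Nat.add (Nat.add (Nat.add (Nat.add (Nat.add (Nat.add (Nat.add C x7710) x22290) x20346) x21318) x20994) x20778) x20850) x20838) x20830) x20832) x1150)
    (Nat.sub (Nat.sub (Nat.sub (Nat.add (Nat.add (Nat.add (Nat.add (Nat.add (Nat.add (Nat.add (Nat.add (Nat.add C x7714) x22294) x20350) x21322) x20998) x20782) x20854) x20830) x20838) (Nat.mul x20836 (nat_lit 2))) x40518) x1154)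
    (Nat.sub (Nat.sub (Nat.add (Nat.add (Nat.add (Nat.add (Nat.add (Nat.add (Nat.add (Nat.add (Nat.add C x7716) x22296) x20352) x21324) x21000) x20784) x20856) x20832) x20836) x20838) x1156)
    (Nat.sub (Nat.add (Nat.add (Nat.add (Nat.add (Nat.add (Nat.add (Nat.add (Nat.add (Nat.add C x20846) x7724) x22304) x20360) x21332) x21008) x20792) x20828) x20848) x40528)
    (Nat.sub (Nat.sub (Nat.add (Nat.add (Nat.add (Nat.add (Nat.add (Nat.add (Nat.add (Nat.add (Nat.add (Nat.add (Nat.add C x20848) x7726) x22306) x20362) x21334) x21010) x20794) x20830) x20854) x20846) x20850) x40530) x1166)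
    (Nat.sub (Nat.sub (Nat.add (Nat.add (Nat.add (Nat.add (Nat.add (Nat.add (Nat.add (Nat.add (Nat.add C x7728) x22308) x20364) x21336) x21012) x20796) x20832) x20856) x20848) x20850) x1168)
    (Nat.sub (Nat.sub (Nat.add (Nat.add (Nat.add (Nat.add (Nat.add (Nat.add (Nat.add (Nat.add (Nat.add (Nat.add (Nat.add C x20854) x7732) x22312) x20368) x21340) x21016) x20800) x20836) x20872) x20848) x20856) x40536) x1172)
    (Nat.sub (Nat.add (Nat.add (Nat.add (Nat.add (Nat.add (Nat.add (Nat.add (Nat.add (Nat.add (Nat.add (Nat.add (Nat.add C x20856) x7734) x22314) x20370) x21342) x21018) x20802) x20838) x20874) x20850) x20862) x20854) x1174)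
    (Nat.sub (Nat.add (Nat.add (Nat.add (Nat.add (Nat.add (Nat.add (Nat.add (Nat.add (Nat.add C x20862) x7740) x22320) x20376) x21348) x21024) x20808) x20880) x20856) x1180)
    (Nat.sub (Nat.sub (Nat.add (Nat.add (Nat.add (Nat.add (Nat.add (Nat.add (Nat.add (Nat.add C (Nat.mul x20872 (nat_lit 2))) x7750) x22330) x20386) x21358) x21034) x20854) x20874) x40554) x1190)
    (Nat.sub (Nat.add (Nat.add (Nat.add (Nat.add (Nat.add (Nat.add (Nat.add (Nat.add (Nat.add C x20874) x7752) x22332) x20388) x21360) x21036) x20856) x20880) x20872) x1192)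
    (Nat.sub (Nat.add (Nat.add (Nat.add (Nat.add (Nat.add (Nat.add (Nat.add (Nat.add C (Nat.mul x20880 (nat_lit 3))) x7758) x22338) x20394) x21366) x21042) x20862) x20874) x1198)
    (Nat.sub (Nat.add (Nat.add (Nat.add (Nat.add (Nat.add (Nat.add C (Nat.mul x20906 (nat_lit 2))) x7784) x22364) x21392) x20744) x20912) x40588)
    (Nat.sub (Nat.add (Nat.add (Nat.add (Nat.add (Nat.add (Nat.add (Nat.add (Nat.add (Nat.add C x20912) x7790) x22370) x21398) x20750) x20930) x20906) x20918) x20914) x40594)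
    (Nat.sub (Nat.sub (Nat.add (Nat.add (Nat.add (Nat.add (Nat.add (Nat.add (Nat.add (Nat.add C x20914) x7792) x22372) x21400) x20752) x20932) x20920) x20912) x40596) x1232)
    (Nat.sub (Nat.sub (Nat.add (Nat.add (Nat.add (Nat.add (Nat.add (Nat.add (Nat.add C x7796) x22376) x21404) x20756) x20936) x20912) x20920) (Nat.mul x20918 (nat_lit 2))) x40600)
    (Nat.sub (Nat.sub (Nat.add (Nat.add (Nat.add (Nat.add (Nat.add (Nat.add (Nat.add (Nat.add C x7798) x22378) x21406) x20758) x20938) x20914) x20918) x20922) x40602) x1238)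
    (Nat.sub (Nat.add (Nat.add (Nat.add (Nat.add (Nat.add (Nat.add C x7800) x22380) x21408) x20760) x20940) x20920) x1240)
    (Nat.sub (Nat.add (Nat.add (Nat.add (Nat.add (Nat.add (Nat.add (Nat.add (Nat.add C x7808) x22388) x21416) x20768) x20984) x20912) x20936) x20932) x40612)
    (Nat.sub (Nat.sub (Nat.sub (Nat.add (Nat.add (Nat.add (Nat.add (Nat.add (Nat.add (Nat.add (Nat.add C x7810) x22390) x21418) x20770) x20986) x20914) x20938) x20930) x20932) x40614) x1250)
    (Nat.sub (Nat.sub (Nat.add (Nat.add (Nat.add (Nat.add (Nat.add (Nat.add (Nat.add (Nat.add (Nat.add C x7814) x22394) x21422) x20774) x20990) x20918) x20954) x20930) x20938) x20936) x40618)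
    (Nat.sub (Nat.sub (Nat.add (Nat.add (Nat.add (Nat.add (Nat.add (Nat.add (Nat.add (Nat.add (Nat.add (Nat.add (Nat.add C x7816) x22396) x21424) x20776) x20992) x20920) x20956) x20932) x20944) x20936) x20940) x40620) x1256)
    (Nat.sub (Nat.sub (Nat.add (Nat.add (Nat.add (Nat.add (Nat.add (Nat.add (Nat.add (Nat.add (Nat.add C x7818) x22398) x21426) x20778) x20994) x20922) x20958) x20946) x20938) x20940) x1258)
    (Nat.sub (Nat.sub (Nat.sub (Nat.add (Nat.add (Nat.add (Nat.add (Nat.add (Nat.add (Nat.add (Nat.add C x7822) x22402) x21430) x20782) x20998) x20962) x20938) x20946) x20944) x40626) x1262)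
    (Nat.sub (Nat.add (Nat.add (Nat.add (Nat.add (Nat.add (Nat.add (Nat.add (Nat.add C x7824) x22404) x21432) x20784) x21000) x20964) x20940) x20944) x1264)
    (Nat.sub (Nat.sub (Nat.add (Nat.add (Nat.add (Nat.add (Nat.add (Nat.add (Nat.add C x7832) x22412) x21440) x20792) x21008) x20936) x20956) (Nat.mul x20954 (nat_lit 2))) x40636)
    (Nat.sub (Nat.sub (Nat.sub (Nat.add (Nat.add (Nat.add (Nat.add (Nat.add (Nat.add (Nat.add (Nat.add (Nat.add C x7834) x22414) x21442) x20794) x21010) x20938) x20962) x20954) x20958) (Nat.mul x20956 (nat_lit 2))) x40638) x1274)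
    (Nat.sub (Nat.sub (Nat.add (Nat.add (Nat.add (Nat.add (Nat.add (Nat.add (Nat.add (Nat.add C x7836) x22416) x21444) x20796) x21012) x20940) x20964) x20956) (Nat.mul x20958 (nat_lit 4))) x1276)
    (Nat.sub (Nat.sub (Nat.sub (Nat.add (Nat.add (Nat.add (Nat.add (Nat.add (Nat.add (Nat.add (Nat.add C x7840) x22420) x21448) x20800) x21016) x20944) x20956) x20964) x20962) x40644) x1280)
    (Nat.sub (Nat.sub (Nat.add (Nat.add (Nat.add (Nat.add (Nat.add (Nat.add (Nat.add (Nat.add (Nat.add C x7842) x22422) x21450) x20802) x21018) x20946) x20958) x20970) x20962) x20964) x1282)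
    (Nat.sub (Nat.add (Nat.add (Nat.add (Nat.add (Nat.add (Nat.add C x7848) x22428) x21456) x20808) x21024) x20964) x1288)
    (Nat.sub (Nat.add (Nat.add (Nat.add (Nat.add (Nat.add (Nat.add (Nat.add (Nat.add C (Nat.mul x20984 (nat_lit 2))) x7862) x22442) x21470) x20822) x20930) x20990) x20986) x40666)
    (Nat.sub (Nat.sub (Nat.add (Nat.add (Nat.add (Nat.add (Nat.add (Nat.add (Nat.add (Nat.add C x20986) x7864) x22444) x21472) x20824) x20932) x20992) x20984) x40668) x1304)
    (Nat.sub (Nat.add (Nat.add (Nat.add (Nat.add (Nat.add (Nat.add (Nat.add (Nat.add C x7868) x22448) x21476) x20828) x20936) x21008) x20984) x20992) x40672)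
    (Nat.sub (Nat.sub (Nat.add (Nat.add (Nat.add (Nat.add (Nat.add (Nat.add (Nat.add (Nat.add (Nat.add (Nat.add (Nat.add C x20992) x7870) x22450) x21478) x20830) x20938) x21010) x20986) x20998) x20990) x20994) x40674) x1310)
    (Nat.sub (Nat.add (Nat.add (Nat.add (Nat.add (Nat.add (Nat.add (Nat.add (Nat.add C x7872) x22452) x21480) x20832) x20940) x21012) x21000) x20992) x1312)
    (Nat.sub (Nat.sub (Nat.sub (Nat.add (Nat.add (Nat.add (Nat.add (Nat.add (Nat.add (Nat.add (Nat.add C x7876) x22456) x21484) x20836) x20944) x21016) x20992) x21000) x20998) x40680) x1316)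
    (Nat.sub (Nat.add (Nat.add (Nat.add (Nat.add (Nat.add (Nat.add (Nat.add (Nat.add C x7878) x22458) x21486) x20838) x20946) x21018) x20994) x20998) x1318)
    (Nat.sub (Nat.add (Nat.add (Nat.add (Nat.add (Nat.add (Nat.add (Nat.add (Nat.add (Nat.add C x21008) x7886) x22466) x21494) x20846) x20954) x21062) x20990) x21010) x40690)
    (Nat.sub (Nat.sub (Nat.add (Nat.add (Nat.add (Nat.add (Nat.add (Nat.add (Nat.add (Nat.add (Nat.add (Nat.add (Nat.add C x21010) x7888) x22468) x21496) x20848) x20956) x21064) x20992) x21016) x21008) x21012) x40692) x1328)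
    (Nat.sub (Nat.sub (Nat.add (Nat.add (Nat.add (Nat.add (Nat.add (Nat.add (Nat.add (Nat.add (Nat.add C x7890) x22470) x21498) x20850) x20958) x21066) x20994) x21018) x21010) x21012) x1330)
    (Nat.sub (Nat.sub (Nat.add (Nat.add (Nat.add (Nat.add (Nat.add (Nat.add (Nat.add (Nat.add (Nat.add (Nat.add (Nat.add C x21016) x7894) x22474) x21502) x20854) x20962) x21070) x20998) x21034) x21010) x21018) x40698) x1334)
    (Nat.sub (Nat.add (Nat.add (Nat.add (Nat.add (Nat.add (Nat.add (Nat.add (Nat.add (Nat.add (Nat.add (Nat.add (Nat.add C x21018) x7896) x22476) x21504) x20856) x20964) x21072) x21000) x21036) x21012) x21024) x21016) x1336)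
    (Nat.sub (Nat.add (Nat.add (Nat.add (Nat.add (Nat.add (Nat.add (Nat.add (Nat.add (Nat.add C x21024) x7902) x22482) x21510) x20862) x20970) x21078) x21042) x21018) x1342)
    (Nat.sub (Nat.sub (Nat.add (Nat.add (Nat.add (Nat.add (Nat.add (Nat.add (Nat.add (Nat.add C x21034) x7912) x22492) x21520) x20872) x21088) x21016) x21036) x40716) x1352)
    (Nat.sub (Nat.add (Nat.add (Nat.add (Nat.add (Nat.add (Nat.add (Nat.add (Nat.add C x7914) x22494) x21522) x20874) x21090) x21018) x21042) x21034) x1354)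
    (Nat.sub (Nat.add (Nat.add (Nat.add (Nat.add (Nat.add (Nat.add (Nat.add (Nat.add C (Nat.mul x21042 (nat_lit 2))) x7920) x22500) x21528) x20880) x21096) x21024) x21036) x1360)
    (Nat.sub (Nat.add (Nat.add (Nat.add (Nat.add (Nat.add (Nat.add C (Nat.mul x21062 (nat_lit 2))) x7940) x22520) x21548) x21008) x21064) x40744)
    (Nat.sub (Nat.sub (Nat.add (Nat.add (Nat.add (Nat.add (Nat.add (Nat.add (Nat.add (Nat.add C (Nat.mul x21064 (nat_lit 2))) x7942) x22522) x21550) x21010) x21070) x21062) x21066) x40746) x1382)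
    (Nat.sub (Nat.add (Nat.add (Nat.add (Nat.add (Nat.add (Nat.add C x7944) x22524) x21552) x21012) x21072) x21064) x1384)
    (Nat.sub (Nat.sub (Nat.add (Nat.add (Nat.add (Nat.add (Nat.add (Nat.add (Nat.add (Nat.add C x21070) x7948) x22528) x21556) x21016) x21088) x21064) x21072) x40752) x1388)
    (Nat.sub (Nat.add (Nat.add (Nat.add (Nat.add (Nat.add (Nat.add (Nat.add (Nat.add (Nat.add C x21072) x7950) x22530) x21558) x21018) x21090) x21066) x21078) x21070) x1390)
    (Nat.sub (Nat.add (Nat.add (Nat.add (Nat.add (Nat.add (Nat.add C x7956) x22536) x21564) x21024) x21096) x21072) x1396)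
    (Nat.sub (Nat.sub (Nat.add (Nat.add (Nat.add (Nat.add (Nat.add (Nat.add (Nat.add C (Nat.mul x21088 (nat_lit 3))) x7966) x22546) x21574) x21034) x21070) x21090) x40770) x1406)
    (Nat.sub (Nat.add (Nat.add (Nat.add (Nat.add (Nat.add (Nat.add (Nat.add (Nat.add C (Nat.mul x21090 (nat_lit 2))) x7968) x22548) x21576) x21036) x21072) x21096) x21088) x1408)
    (Nat.sub (Nat.add (Nat.add (Nat.add (Nat.add (Nat.add (Nat.add (Nat.add (Nat.add C (Nat.mul x21096 (nat_lit 3))) x7974) x22554) x21582) x21042) x21078) x21114) x21090) x1414)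
    (Nat.sub (Nat.add (Nat.add (Nat.add (Nat.add (Nat.add C (Nat.mul x21114 (nat_lit 4))) x7992) x22572) x21600) x21096) x1432)
    (Nat.sub (Nat.add (Nat.add (Nat.add (Nat.add (Nat.add (Nat.add C (Nat.mul x21158 (nat_lit 2))) x8036) x22616) x20672) x21176) x21164) x40840)
    (Nat.sub (Nat.add (Nat.add (Nat.add (Nat.add (Nat.add (Nat.add C x8042) x22622) x20678) x21182) x21158) x21166) x40846)
    (Nat.sub (Nat.sub (Nat.add (Nat.add (Nat.add (Nat.add (Nat.add (Nat.add C x21166) x8044) x22624) x20680) x21184) x21164) x40848) x1484)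
    (Nat.sub (Nat.add (Nat.add (Nat.add (Nat.add (Nat.add (Nat.add C x8054) x22634) x20690) x21230) x21158) x21182) x40858)
    (Nat.sub (Nat.add (Nat.add (Nat.add (Nat.add (Nat.add (Nat.add (Nat.add (Nat.add (Nat.add C x8060) x22640) x20696) x21236) x21164) x21200) x21176) x21188) x21184) x40864)
    (Nat.sub (Nat.sub (Nat.add (Nat.add (Nat.add (Nat.add (Nat.add (Nat.add (Nat.add (Nat.add C x8062) x22642) x20698) x21238) x21166) x21202) x21190) x21182) x40866) x1502)
    (Nat.sub (Nat.sub (Nat.add (Nat.add (Nat.add (Nat.add (Nat.add (Nat.add (Nat.add C x8066) x22646) x20702) x21242) x21206) x21182) x21190) (Nat.mul x21188 (nat_lit 2))) x40870)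
    (Nat.sub (Nat.sub (Nat.add (Nat.add (Nat.add (Nat.add (Nat.add (Nat.add (Nat.add (Nat.add C x8068) x22648) x20704) x21244) x21208) x21184) x21188) x21192) x40872) x1508)
    (Nat.sub (Nat.add (Nat.add (Nat.add (Nat.add (Nat.add (Nat.add C x8070) x22650) x20706) x21246) x21210) x21190) x1510)
    (Nat.sub (Nat.sub (Nat.add (Nat.add (Nat.add (Nat.add (Nat.add (Nat.add (Nat.add C x8078) x22658) x20714) x21254) x21182) x21206) x21202) (Nat.mul x21200 (nat_lit 2))) x40882)
    (Nat.sub (Nat.sub (Nat.sub (Nat.add (Nat.add (Nat.add (Nat.add (Nat.add (Nat.add (Nat.add C x8080) x22660) x20716) x21256) x21184) x21208) x21200) (Nat.mul x21202 (nat_lit 3))) x40884) x1520)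
    (Nat.sub (Nat.sub (Nat.add (Nat.add (Nat.add (Nat.add (Nat.add (Nat.add (Nat.add C x8084) x22664) x20720) x21260) x21188) x21200) x21208) (Nat.mul x21206 (nat_lit 2))) x40888)
    (Nat.sub (Nat.sub (Nat.sub (Nat.add (Nat.add (Nat.add (Nat.add (Nat.add (Nat.add (Nat.add (Nat.add (Nat.add C x8086) x22666) x20722) x21262) x21190) x21202) x21214) x21206) x21210) x21208) x40890) x1526)
    (Nat.sub (Nat.sub (Nat.add (Nat.add (Nat.add (Nat.add (Nat.add (Nat.add (Nat.add C x8088) x22668) x20724) x21264) x21192) x21216) x21208) (Nat.mul x21210 (nat_lit 2))) x1528)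
    (Nat.sub (Nat.sub (Nat.sub (Nat.add (Nat.add (Nat.add (Nat.add (Nat.add (Nat.add C x8092) x22672) x20728) x21268) x21208) x21216) x21214) x40896) x1532)
    (Nat.sub (Nat.add (Nat.add (Nat.add (Nat.add (Nat.add (Nat.add C x8094) x22674) x20730) x21270) x21210) x21214) x1534)
    (Nat.sub (Nat.add (Nat.add (Nat.add (Nat.add (Nat.add (Nat.add C x8108) x22688) x20744) x21392) x21176) x21236) x40912)
    (Nat.sub (Nat.sub (Nat.add (Nat.add (Nat.add (Nat.add (Nat.add (Nat.add (Nat.add (Nat.add (Nat.add C x8114) x22694) x20750) x21398) x21182) x21254) x21230) x21242) x21238) x21236) x40918)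
    (Nat.sub (Nat.sub (Nat.sub (Nat.add (Nat.add (Nat.add (Nat.add (Nat.add (Nat.add (Nat.add (Nat.add C x8116) x22696) x20752) x21400) x21184) x21256) x21244) x21236) x21238) x40920) x1556)
    (Nat.sub (Nat.sub (Nat.add (Nat.add (Nat.add (Nat.add (Nat.add (Nat.add (Nat.add (Nat.add C x8120) x22700) x20756) x21404) x21188) x21260) x21236) x21244) (Nat.mul x21242 (nat_lit 4))) x40924)
    (Nat.sub (Nat.sub (Nat.sub (Nat.add (Nat.add (Nat.add (Nat.add (Nat.add (Nat.add (Nat.add (Nat.add (Nat.add C x8122) x22702) x20758) x21406) x21190) x21262) x21238) x21242) x21246) (Nat.mul x21244 (nat_lit 2))) x40926) x1562)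
    (Nat.sub (Nat.sub (Nat.add (Nat.add (Nat.add (Nat.add (Nat.add (Nat.add (Nat.add C x8124) x22704) x20760) x21408) x21192) x21264) x21244) (Nat.mul x21246 (nat_lit 2))) x1564)
    (Nat.sub (Nat.sub (Nat.add (Nat.add (Nat.add (Nat.add (Nat.add (Nat.add (Nat.add (Nat.add (Nat.add C x8132) x22712) x20768) x21416) x21200) x21308) x21236) x21260) x21256) x21254) x40936)
    (Nat.sub (Nat.sub (Nat.sub (Nat.add (Nat.add (Nat.add (Nat.add (Nat.add (Nat.add (Nat.add (Nat.add (Nat.add C x8134) x22714) x20770) x21418) x21202) x21310) x21238) x21262) x21254) (Nat.mul x21256 (nat_lit 2))) x40938) x1574)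
    (Nat.sub (Nat.sub (Nat.add (Nat.add (Nat.add (Nat.add (Nat.add (Nat.add (Nat.add (Nat.add (Nat.add (Nat.add C x8138) x22718) x20774) x21422) x21206) x21314) x21242) x21278) x21254) x21262) (Nat.mul x21260 (nat_lit 2))) x40942)
    (Nat.sub (Nat.sub (Nat.sub (Nat.add (Nat.add (Nat.add (Nat.add (Nat.add (Nat.add (Nat.add (Nat.add (Nat.add (Nat.add (Nat.add (Nat.add C x8140) x22720) x20776) x21424) x21208) x21316) x21244) x21280) x21256) x21268) x21260) x21264) x21262) x40944) x1580)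
    (Nat.sub (Nat.sub (Nat.add (Nat.add (Nat.add (Nat.add (Nat.add (Nat.add (Nat.add (Nat.add (Nat.add (Nat.add C x8142) x22722) x20778) x21426) x21210) x21318) x21246) x21282) x21270) x21262) (Nat.mul x21264 (nat_lit 2))) x1582)
    (Nat.sub (Nat.sub (Nat.sub (Nat.add (Nat.add (Nat.add (Nat.add (Nat.add (Nat.add (Nat.add (Nat.add (Nat.add C x8146) x22726) x20782) x21430) x21214) x21322) x21286) x21262) x21270) (Nat.mul x21268 (nat_lit 2))) x40950) x1586)
    (Nat.sub (Nat.sub (Nat.add (Nat.add (Nat.add (Nat.add (Nat.add (Nat.add (Nat.add (Nat.add (Nat.add C x8148) x22728) x20784) x21432) x21216) x21324) x21288) x21264) x21268) x21270) x1588)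
    (Nat.sub (Nat.sub (Nat.add (Nat.add (Nat.add (Nat.add (Nat.add (Nat.add (Nat.add C x8156) x22736) x20792) x21440) x21332) x21260) x21280) (Nat.mul x21278 (nat_lit 2))) x40960)
    (Nat.sub (Nat.sub (Nat.sub (Nat.add (Nat.add (Nat.add (Nat.add (Nat.add (Nat.add (Nat.add (Nat.add (Nat.add C x8158) x22738) x20794) x21442) x21334) x21262) x21286) x21278) x21282) (Nat.mul x21280 (nat_lit 2))) x40962) x1598)
    (Nat.sub (Nat.sub (Nat.add (Nat.add (Nat.add (Nat.add (Nat.add (Nat.add (Nat.add (Nat.add C x8160) x22740) x20796) x21444) x21336) x21264) x21288) x21280) (Nat.mul x21282 (nat_lit 4))) x1600)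
    (Nat.sub (Nat.sub (Nat.sub (Nat.add (Nat.add (Nat.add (Nat.add (Nat.add (Nat.add (Nat.add (Nat.add C x8164) x22744) x20800) x21448) x21340) x21268) x21280) x21288) x21286) x40968) x1604)
    (Nat.sub (Nat.sub (Nat.add (Nat.add (Nat.add (Nat.add (Nat.add (Nat.add (Nat.add (Nat.add (Nat.add C x8166) x22746) x20802) x21450) x21342) x21270) x21282) x21294) x21286) x21288) x1606)
    (Nat.sub (Nat.add (Nat.add (Nat.add (Nat.add (Nat.add (Nat.add C x8172) x22752) x20808) x21456) x21348) x21288) x1612)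
    (Nat.sub (Nat.sub (Nat.add (Nat.add (Nat.add (Nat.add (Nat.add (Nat.add (Nat.add C x8186) x22766) x20822) x21470) x21254) x21314) x21310) (Nat.mul x21308 (nat_lit 2))) x40990)
    (Nat.sub (Nat.sub (Nat.sub (Nat.add (Nat.add (Nat.add (Nat.add (Nat.add (Nat.add (Nat.add C x8188) x22768) x20824) x21472) x21256) x21316) x21308) (Nat.mul x21310 (nat_lit 3))) x40992) x1628)
    (Nat.sub (Nat.sub (Nat.add (Nat.add (Nat.add (Nat.add (Nat.add (Nat.add (Nat.add (Nat.add C x8192) x22772) x20828) x21476) x21260) x21332) x21308) x21316) (Nat.mul x21314 (nat_lit 4))) x40996)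
    (Nat.sub (Nat.sub (Nat.sub (Nat.add (Nat.add (Nat.add (Nat.add (Nat.add (Nat.add (Nat.add (Nat.add (Nat.add (Nat.add C x8194) x22774) x20830) x21478) x21262) x21334) x21310) x21322) x21314) x21318) (Nat.mul x21316 (nat_lit 3))) x40998) x1634)
    (Nat.sub (Nat.sub (Nat.add (Nat.add (Nat.add (Nat.add (Nat.add (Nat.add (Nat.add (Nat.add C x8196) x22776) x20832) x21480) x21264) x21336) x21324) x21316) (Nat.mul x21318 (nat_lit 4))) x1636)
    (Nat.sub (Nat.sub (Nat.sub (Nat.add (Nat.add (Nat.add (Nat.add (Nat.add (Nat.add (Nat.add (Nat.add C x8200) x22780) x20836) x21484) x21268) x21340) x21316) x21324) (Nat.mul x21322 (nat_lit 5))) x41004) x1640)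
    (Nat.sub (Nat.sub (Nat.add (Nat.add (Nat.add (Nat.add (Nat.add (Nat.add (Nat.add (Nat.add C x8202) x22782) x20838) x21486) x21270) x21342) x21318) x21322) (Nat.mul x21324 (nat_lit 4))) x1642)
    (Nat.sub (Nat.sub (Nat.add (Nat.add (Nat.add (Nat.add (Nat.add (Nat.add (Nat.add C x8210) x22790) x20846) x21494) x21278) x21314) x21334) (Nat.mul x21332 (nat_lit 2))) x41014)
    (Nat.sub (Nat.sub (Nat.sub (Nat.add (Nat.add (Nat.add (Nat.add (Nat.add (Nat.add (Nat.add (Nat.add (Nat.add C x8212) x22792) x20848) x21496) x21280) x21316) x21340) x21332) x21336) (Nat.mul x21334 (nat_lit 2))) x41016) x1652)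
    (Nat.sub (Nat.sub (Nat.add (Nat.add (Nat.add (Nat.add (Nat.add (Nat.add (Nat.add (Nat.add C x8214) x22794) x20850) x21498) x21282) x21318) x21342) x21334) (Nat.mul x21336 (nat_lit 4))) x1654)
    (Nat.sub (Nat.sub (Nat.sub (Nat.add (Nat.add (Nat.add (Nat.add (Nat.add (Nat.add (Nat.add (Nat.add (Nat.add C x8218) x22798) x20854) x21502) x21286) x21322) x21358) x21334) x21342) (Nat.mul x21340 (nat_lit 2))) x41022) x1658)
    (Nat.sub (Nat.sub (Nat.add (Nat.add (Nat.add (Nat.add (Nat.add (Nat.add (Nat.add (Nat.add (Nat.add (Nat.add C x8220) x22800) x20856) x21504) x21288) x21324) x21360) x21336) x21348) x21340) (Nat.mul x21342 (nat_lit 2))) x1660)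
    (Nat.sub (Nat.sub (Nat.add (Nat.add (Nat.add (Nat.add (Nat.add (Nat.add (Nat.add C x8226) x22806) x20862) x21510) x21294) x21366) x21342) (Nat.mul x21348 (nat_lit 2))) x1666)
    (Nat.sub (Nat.sub (Nat.sub (Nat.add (Nat.add (Nat.add (Nat.add (Nat.add (Nat.add C x8236) x22816) x20872) x21520) x21340) x21360) x21358) x41040) x1676)
    (Nat.sub (Nat.sub (Nat.add (Nat.add (Nat.add (Nat.add (Nat.add (Nat.add (Nat.add C x8238) x22818) x20874) x21522) x21342) x21366) x21358) (Nat.mul x21360 (nat_lit 2))) x1678)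
    (Nat.sub (Nat.add (Nat.add (Nat.add (Nat.add (Nat.add (Nat.add C x8244) x22824) x20880) x21528) x21348) x21360) x1684)
    (Nat.sub (Nat.add (Nat.add (Nat.add (Nat.add (Nat.add (Nat.add C (Nat.mul x21392 (nat_lit 2))) x8270) x22850) x20906) x21230) x21398) x41074)
    (Nat.sub (Nat.add (Nat.add (Nat.add (Nat.add (Nat.add (Nat.add (Nat.add (Nat.add (Nat.add C x21398) x8276) x22856) x20912) x21236) x21416) x21392) x21404) x21400) x41080)
    (Nat.sub (Nat.sub (Nat.add (Nat.add (Nat.add (Nat.add (Nat.add (Nat.add (Nat.add (Nat.add C x21400) x8278) x22858) x20914) x21238) x21418) x21406) x21398) x41082) x1718)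
    (Nat.sub (Nat.sub (Nat.add (Nat.add (Nat.add (Nat.add (Nat.add (Nat.add (Nat.add C x8282) x22862) x20918) x21242) x21422) x21398) x21406) (Nat.mul x21404 (nat_lit 2))) x41086)
    (Nat.sub (Nat.sub (Nat.add (Nat.add (Nat.add (Nat.add (Nat.add (Nat.add (Nat.add (Nat.add C x8284) x22864) x20920) x21244) x21424) x21400) x21404) x21408) x41088) x1724)
    (Nat.sub (Nat.add (Nat.add (Nat.add (Nat.add (Nat.add (Nat.add C x8286) x22866) x20922) x21246) x21426) x21406) x1726)
    (Nat.sub (Nat.add (Nat.add (Nat.add (Nat.add (Nat.add (Nat.add (Nat.add (Nat.add C x8294) x22874) x20930) x21254) x21470) x21398) x21422) x21418) x41098)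
    (Nat.sub (Nat.sub (Nat.sub (Nat.add (Nat.add (Nat.add (Nat.add (Nat.add (Nat.add (Nat.add (Nat.add C x8296) x22876) x20932) x21256) x21472) x21400) x21424) x21416) x21418) x41100) x1736)
    (Nat.sub (Nat.sub (Nat.add (Nat.add (Nat.add (Nat.add (Nat.add (Nat.add (Nat.add (Nat.add (Nat.add C x8300) x22880) x20936) x21260) x21476) x21404) x21440) x21416) x21424) x21422) x41104)
    (Nat.sub (Nat.sub (Nat.add (Nat.add (Nat.add (Nat.add (Nat.add (Nat.add (Nat.add (Nat.add (Nat.add (Nat.add (Nat.add C x8302) x22882) x20938) x21262) x21478) x21406) x21442) x21418) x21430) x21422) x21426) x41106) x1742)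
    (Nat.sub (Nat.sub (Nat.add (Nat.add (Nat.add (Nat.add (Nat.add (Nat.add (Nat.add (Nat.add (Nat.add C x8304) x22884) x20940) x21264) x21480) x21408) x21444) x21432) x21424) x21426) x1744)
    (Nat.sub (Nat.sub (Nat.sub (Nat.add (Nat.add (Nat.add (Nat.add (Nat.add (Nat.add (Nat.add (Nat.add C x8308) x22888) x20944) x21268) x21484) x21448) x21424) x21432) x21430) x41112) x1748)
    (Nat.sub (Nat.add (Nat.add (Nat.add (Nat.add (Nat.add (Nat.add (Nat.add (Nat.add C x8310) x22890) x20946) x21270) x21486) x21450) x21426) x21430) x1750)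
    (Nat.sub (Nat.sub (Nat.add (Nat.add (Nat.add (Nat.add (Nat.add (Nat.add (Nat.add C x8318) x22898) x20954) x21278) x21494) x21422) x21442) (Nat.mul x21440 (nat_lit 2))) x41122)
    (Nat.sub (Nat.sub (Nat.sub (Nat.add (Nat.add (Nat.add (Nat.add (Nat.add (Nat.add (Nat.add (Nat.add (Nat.add C x8320) x22900) x20956) x21280) x21496) x21424) x21448) x21440) x21444) (Nat.mul x21442 (nat_lit 2))) x41124) x1760)
    (Nat.sub (Nat.sub (Nat.add (Nat.add (Nat.add (Nat.add (Nat.add (Nat.add (Nat.add (Nat.add C x8322) x22902) x20958) x21282) x21498) x21426) x21450) x21442) (Nat.mul x21444 (nat_lit 4))) x1762)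
    (Nat.sub (Nat.sub (Nat.sub (Nat.add (Nat.add (Nat.add (Nat.add (Nat.add (Nat.add (Nat.add (Nat.add C x8326) x22906) x20962) x21286) x21502) x21430) x21442) x21450) x21448) x41130) x1766)
    (Nat.sub (Nat.sub (Nat.add (Nat.add (Nat.add (Nat.add (Nat.add (Nat.add (Nat.add (Nat.add (Nat.add C x8328) x22908) x20964) x21288) x21504) x21432) x21444) x21456) x21448) x21450) x1768)
    (Nat.sub (Nat.add (Nat.add (Nat.add (Nat.add (Nat.add (Nat.add C x8334) x22914) x20970) x21294) x21510) x21450) x1774)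
    (Nat.sub (Nat.add (Nat.add (Nat.add (Nat.add (Nat.add (Nat.add (Nat.add (Nat.add (Nat.add C x21470) x8348) x22928) x20984) x21308) x21632) x21416) x21476) x21472) x41152)
    (Nat.sub (Nat.sub (Nat.add (Nat.add (Nat.add (Nat.add (Nat.add (Nat.add (Nat.add (Nat.add C x8350) x22930) x20986) x21310) x21634) x21418) x21478) x21470) x41154) x1790)
    (Nat.sub (Nat.sub (Nat.add (Nat.add (Nat.add (Nat.add (Nat.add (Nat.add (Nat.add (Nat.add (Nat.add C x8354) x22934) x20990) x21314) x21638) x21422) x21494) x21470) x21478) x21476) x41158)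
    (Nat.sub (Nat.sub (Nat.add (Nat.add (Nat.add (Nat.add (Nat.add (Nat.add (Nat.add (Nat.add (Nat.add (Nat.add (Nat.add C x8356) x22936) x20992) x21316) x21640) x21424) x21496) x21472) x21484) x21476) x21480) x41160) x1796)
    (Nat.sub (Nat.sub (Nat.add (Nat.add (Nat.add (Nat.add (Nat.add (Nat.add (Nat.add (Nat.add (Nat.add C x8358) x22938) x20994) x21318) x21642) x21426) x21498) x21486) x21478) x21480) x1798)
    (Nat.sub (Nat.sub (Nat.sub (Nat.add (Nat.add (Nat.add (Nat.add (Nat.add (Nat.add (Nat.add (Nat.add (Nat.add C x8362) x22942) x20998) x21322) x21646) x21430) x21502) x21478) x21486) (Nat.mul x21484 (nat_lit 2))) x41166) x1802)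
    (Nat.sub (Nat.sub (Nat.add (Nat.add (Nat.add (Nat.add (Nat.add (Nat.add (Nat.add (Nat.add (Nat.add C x8364) x22944) x21000) x21324) x21648) x21432) x21504) x21480) x21484) x21486) x1804)
    (Nat.sub (Nat.add (Nat.add (Nat.add (Nat.add (Nat.add (Nat.add (Nat.add (Nat.add (Nat.add C x8372) x22952) x21008) x21332) x21656) x21440) x21548) x21476) x21496) x41176)
    (Nat.sub (Nat.sub (Nat.add (Nat.add (Nat.add (Nat.add (Nat.add (Nat.add (Nat.add (Nat.add (Nat.add (Nat.add (Nat.add C x8374) x22954) x21010) x21334) x21658) x21442) x21550) x21478) x21502) x21494) x21498) x41178) x1814)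
    (Nat.sub (Nat.sub (Nat.add (Nat.add (Nat.add (Nat.add (Nat.add (Nat.add (Nat.add (Nat.add (Nat.add (Nat.add C x8376) x22956) x21012) x21336) x21660) x21444) x21552) x21480) x21504) x21496) (Nat.mul x21498 (nat_lit 2))) x1816)
    (Nat.sub (Nat.sub (Nat.add (Nat.add (Nat.add (Nat.add (Nat.add (Nat.add (Nat.add (Nat.add (Nat.add (Nat.add (Nat.add C x8380) x22960) x21016) x21340) x21664) x21448) x21556) x21484) x21520) x21496) x21504) x41184) x1820)
    (Nat.sub (Nat.add (Nat.add (Nat.add (Nat.add (Nat.add (Nat.add (Nat.add (Nat.add (Nat.add (Nat.add (Nat.add (Nat.add C x8382) x22962) x21018) x21342) x21666) x21450) x21558) x21486) x21522) x21498) x21510) x21502) x1822)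
    (Nat.sub (Nat.add (Nat.add (Nat.add (Nat.add (Nat.add (Nat.add (Nat.add (Nat.add (Nat.add C x8388) x22968) x21024) x21348) x21672) x21456) x21564) x21528) x21504) x1828)
    (Nat.sub (Nat.sub (Nat.add (Nat.add (Nat.add (Nat.add (Nat.add (Nat.add (Nat.add (Nat.add C x8398) x22978) x21034) x21358) x21682) x21574) x21502) x21522) x41202) x1838)
    (Nat.sub (Nat.sub (Nat.add (Nat.add (Nat.add (Nat.add (Nat.add (Nat.add (Nat.add (Nat.add (Nat.add C x8400) x22980) x21036) x21360) x21684) x21576) x21504) x21528) x21520) x21522) x1840)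
    (Nat.sub (Nat.add (Nat.add (Nat.add (Nat.add (Nat.add (Nat.add (Nat.add (Nat.add (Nat.add C x21528) x8406) x22986) x21042) x21366) x21690) x21582) x21510) x21522) x1846)
    (Nat.sub (Nat.add (Nat.add (Nat.add (Nat.add (Nat.add (Nat.add C x8426) x23006) x21062) x21710) x21494) x21550) x41230)
    (Nat.sub (Nat.sub (Nat.add (Nat.add (Nat.add (Nat.add (Nat.add (Nat.add (Nat.add (Nat.add C x8428) x23008) x21064) x21712) x21496) x21556) x21548) x21552) x41232) x1868)
    (Nat.sub (Nat.sub (Nat.add (Nat.add (Nat.add (Nat.add (Nat.add (Nat.add (Nat.add C x8430) x23010) x21066) x21714) x21498) x21558) x21550) (Nat.mul x21552 (nat_lit 2))) x1870)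
    (Nat.sub (Nat.sub (Nat.sub (Nat.add (Nat.add (Nat.add (Nat.add (Nat.add (Nat.add (Nat.add (Nat.add C x8434) x23014) x21070) x21718) x21502) x21574) x21550) x21558) x21556) x41238) x1874)
    (Nat.sub (Nat.sub (Nat.add (Nat.add (Nat.add (Nat.add (Nat.add (Nat.add (Nat.add (Nat.add (Nat.add C x8436) x23016) x21072) x21720) x21504) x21576) x21552) x21564) x21556) x21558) x1876)
    (Nat.sub (Nat.sub (Nat.add (Nat.add (Nat.add (Nat.add (Nat.add (Nat.add (Nat.add C x8442) x23022) x21078) x21726) x21510) x21582) x21558) (Nat.mul x21564 (nat_lit 2))) x1882)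
    (Nat.sub (Nat.sub (Nat.add (Nat.add (Nat.add (Nat.add (Nat.add (Nat.add (Nat.add (Nat.add C x21574) x8452) x23032) x21088) x21736) x21520) x21556) x21576) x41256) x1892)
    (Nat.sub (Nat.add (Nat.add (Nat.add (Nat.add (Nat.add (Nat.add (Nat.add (Nat.add C x8454) x23034) x21090) x21738) x21522) x21558) x21582) x21574) x1894)
    (Nat.sub (Nat.add (Nat.add (Nat.add (Nat.add (Nat.add (Nat.add (Nat.add (Nat.add (Nat.add C x21582) x8460) x23040) x21096) x21744) x21528) x21564) x21600) x21576) x1900)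
    (Nat.sub (Nat.add (Nat.add (Nat.add (Nat.add (Nat.add (Nat.add C (Nat.mul x21600 (nat_lit 2))) x8478) x23058) x21114) x21762) x21582) x1918)
    (Nat.sub (Nat.add (Nat.add (Nat.add (Nat.add (Nat.add (Nat.add C (Nat.mul x21632 (nat_lit 2))) x8510) x23090) x21470) x21638) x21634) x41314)
    (Nat.sub (Nat.sub (Nat.add (Nat.add (Nat.add (Nat.add (Nat.add (Nat.add C x21634) x8512) x23092) x21472) x21640) x21632) x41316) x1952)
    (Nat.sub (Nat.add (Nat.add (Nat.add (Nat.add (Nat.add (Nat.add C x8516) x23096) x21476) x21656) x21632) x21640) x41320)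
    (Nat.sub (Nat.sub (Nat.add (Nat.add (Nat.add (Nat.add (Nat.add (Nat.add (Nat.add (Nat.add (Nat.add C x21640) x8518) x23098) x21478) x21658) x21634) x21646) x21638) x21642) x41322) x1958)
    (Nat.sub (Nat.add (Nat.add (Nat.add (Nat.add (Nat.add (Nat.add C x8520) x23100) x21480) x21660) x21648) x21640) x1960)
    (Nat.sub (Nat.sub (Nat.sub (Nat.add (Nat.add (Nat.add (Nat.add (Nat.add (Nat.add C x8524) x23104) x21484) x21664) x21640) x21648) x21646) x41328) x1964)
    (Nat.sub (Nat.add (Nat.add (Nat.add (Nat.add (Nat.add (Nat.add C x8526) x23106) x21486) x21666) x21642) x21646) x1966)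
    (Nat.sub (Nat.add (Nat.add (Nat.add (Nat.add (Nat.add (Nat.add C x8534) x23114) x21494) x21710) x21638) x21658) x41338)
    (Nat.sub (Nat.sub (Nat.add (Nat.add (Nat.add (Nat.add (Nat.add (Nat.add (Nat.add (Nat.add C x8536) x23116) x21496) x21712) x21640) x21664) x21656) x21660) x41340) x1976)
    (Nat.sub (Nat.sub (Nat.add (Nat.add (Nat.add (Nat.add (Nat.add (Nat.add (Nat.add C x8538) x23118) x21498) x21714) x21642) x21666) x21658) (Nat.mul x21660 (nat_lit 2))) x1978)
    (Nat.sub (Nat.sub (Nat.add (Nat.add (Nat.add (Nat.add (Nat.add (Nat.add (Nat.add (Nat.add C x8542) x23122) x21502) x21718) x21646) x21682) x21658) x21666) x41346) x1982)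
    (Nat.sub (Nat.add (Nat.add (Nat.add (Nat.add (Nat.add (Nat.add (Nat.add (Nat.add (Nat.add C x8544) x23124) x21504) x21720) x21648) x21684) x21660) x21672) x21664) x1984)
    (Nat.sub (Nat.add (Nat.add (Nat.add (Nat.add (Nat.add (Nat.add C x8550) x23130) x21510) x21726) x21690) x21666) x1990)
    (Nat.sub (Nat.sub (Nat.sub (Nat.add (Nat.add (Nat.add (Nat.add (Nat.add (Nat.add C x8560) x23140) x21520) x21736) x21664) x21684) x21682) x41364) x2000)
    (Nat.sub (Nat.sub (Nat.add (Nat.add (Nat.add (Nat.add (Nat.add (Nat.add (Nat.add C x8562) x23142) x21522) x21738) x21666) x21690) x21682) (Nat.mul x21684 (nat_lit 2))) x2002)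
    (Nat.sub (Nat.add (Nat.add (Nat.add (Nat.add (Nat.add (Nat.add C x8568) x23148) x21528) x21744) x21672) x21684) x2008)
    (Nat.sub (Nat.add (Nat.add (Nat.add (Nat.add (Nat.add (Nat.add C (Nat.mul x21710 (nat_lit 2))) x8588) x23168) x21548) x21656) x21712) x41392)
    (Nat.sub (Nat.sub (Nat.add (Nat.add (Nat.add (Nat.add (Nat.add (Nat.add (Nat.add (Nat.add C (Nat.mul x21712 (nat_lit 2))) x8590) x23170) x21550) x21658) x21718) x21710) x21714) x41394) x2030)
    (Nat.sub (Nat.add (Nat.add (Nat.add (Nat.add (Nat.add (Nat.add C x8592) x23172) x21552) x21660) x21720) x21712) x2032)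
    (Nat.sub (Nat.sub (Nat.add (Nat.add (Nat.add (Nat.add (Nat.add (Nat.add (Nat.add (Nat.add C x21718) x8596) x23176) x21556) x21664) x21736) x21712) x21720) x41400) x2036)
    (Nat.sub (Nat.add (Nat.add (Nat.add (Nat.add (Nat.add (Nat.add (Nat.add (Nat.add (Nat.add C x21720) x8598) x23178) x21558) x21666) x21738) x21714) x21726) x21718) x2038)
    (Nat.sub (Nat.add (Nat.add (Nat.add (Nat.add (Nat.add (Nat.add C x8604) x23184) x21564) x21672) x21744) x21720) x2044)
    (Nat.sub (Nat.sub (Nat.add (Nat.add (Nat.add (Nat.add (Nat.add (Nat.add (Nat.add (Nat.add C (Nat.mul x21736 (nat_lit 2))) x8614) x23194) x21574) x21682) x21790) x21718) x21738) x41418) x2054)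
    (Nat.sub (Nat.add (Nat.add (Nat.add (Nat.add (Nat.add (Nat.add (Nat.add (Nat.add (Nat.add C x21738) x8616) x23196) x21576) x21684) x21792) x21720) x21744) x21736) x2056)
    (Nat.sub (Nat.add (Nat.add (Nat.add (Nat.add (Nat.add (Nat.add (Nat.add (Nat.add (Nat.add C (Nat.mul x21744 (nat_lit 2))) x8622) x23202) x21582) x21690) x21798) x21726) x21762) x21738) x2062)
    (Nat.sub (Nat.add (Nat.add (Nat.add (Nat.add (Nat.add (Nat.add C (Nat.mul x21762 (nat_lit 2))) x8640) x23220) x21600) x21816) x21744) x2080)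
    (Nat.sub (Nat.sub (Nat.add (Nat.add (Nat.add (Nat.add (Nat.add C (Nat.mul x21790 (nat_lit 3))) x8668) x23248) x21736) x21792) x41472) x2108)
    (Nat.sub (Nat.add (Nat.add (Nat.add (Nat.add (Nat.add (Nat.add C (Nat.mul x21792 (nat_lit 2))) x8670) x23250) x21738) x21798) x21790) x2110)
    (Nat.sub (Nat.add (Nat.add (Nat.add (Nat.add (Nat.add (Nat.add C (Nat.mul x21798 (nat_lit 2))) x8676) x23256) x21744) x21816) x21792) x2116)
    (Nat.sub (Nat.add (Nat.add (Nat.add (Nat.add (Nat.add C (Nat.mul x21816 (nat_lit 4))) x8694) x23274) x21762) x21798) x2134)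
    (Nat.sub (Nat.add (Nat.add (Nat.add (Nat.add (Nat.add C (Nat.mul x21896 (nat_lit 4))) x8774) x26270) x20438) x21914) x41578)
    (Nat.sub (Nat.add (Nat.add (Nat.add (Nat.add (Nat.add (Nat.add (Nat.add (Nat.add C (Nat.mul x21914 (nat_lit 3))) x8792) x26288) x20456) x21968) x21896) x21932) x21920) x41596)
    (Nat.sub (Nat.add (Nat.add (Nat.add (Nat.add (Nat.add (Nat.add (Nat.add (Nat.add C (Nat.mul x21920 (nat_lit 2))) x8798) x26294) x20462) x21974) x21938) x21914) x21922) x41602)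
    (Nat.sub (Nat.sub (Nat.add (Nat.add (Nat.add (Nat.add (Nat.add (Nat.add (Nat.add C (Nat.mul x21922 (nat_lit 3))) x8800) x26296) x20464) x21976) x21940) x21920) x41604) x2240)
    (Nat.sub (Nat.add (Nat.add (Nat.add (Nat.add (Nat.add (Nat.add C x8810) x26306) x20474) x21986) x21914) x21938) x41614)
    (Nat.sub (Nat.add (Nat.add (Nat.add (Nat.add (Nat.add (Nat.add (Nat.add (Nat.add (Nat.add C x21938) x8816) x26312) x20480) x21992) x21920) x21932) x21944) x21940) x41620)
    (Nat.sub (Nat.sub (Nat.add (Nat.add (Nat.add (Nat.add (Nat.add (Nat.add (Nat.add (Nat.add C x21940) x8818) x26314) x20482) x21994) x21922) x21946) x21938) x41622) x2258)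
    (Nat.sub (Nat.add (Nat.add (Nat.add (Nat.add (Nat.add (Nat.add C x8822) x26318) x20486) x21998) x21938) x21946) x41626)
    (Nat.sub (Nat.sub (Nat.add (Nat.add (Nat.add (Nat.add (Nat.add (Nat.add (Nat.add (Nat.add C (Nat.mul x21946 (nat_lit 2))) x8824) x26320) x20488) x22000) x21940) x21944) x21948) x41628) x2264)
    (Nat.sub (Nat.add (Nat.add (Nat.add (Nat.add (Nat.add (Nat.add C (Nat.mul x21948 (nat_lit 2))) x8826) x26322) x20490) x22002) x21946) x2266)
    (Nat.sub (Nat.add (Nat.add (Nat.add (Nat.add (Nat.add (Nat.add (Nat.add (Nat.add C (Nat.mul x21968 (nat_lit 2))) x8846) x26342) x20510) x22130) x21914) x21986) x21974) x41650)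
    (Nat.sub (Nat.add (Nat.add (Nat.add (Nat.add (Nat.add (Nat.add (Nat.add (Nat.add C x8852) x26348) x20516) x22136) x21920) x21992) x21968) x21976) x41656)
    (Nat.sub (Nat.sub (Nat.add (Nat.add (Nat.add (Nat.add (Nat.add (Nat.add (Nat.add (Nat.add C x21976) x8854) x26350) x20518) x22138) x21922) x21994) x21974) x41658) x2294)
    (Nat.sub (Nat.add (Nat.add (Nat.add (Nat.add (Nat.add (Nat.add (Nat.add (Nat.add (Nat.add C x21986) x8864) x26360) x20528) x22148) x21932) x22040) x21968) x21992) x41668)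
    (Nat.sub (Nat.add (Nat.add (Nat.add (Nat.add (Nat.add (Nat.add (Nat.add (Nat.add (Nat.add (Nat.add (Nat.add (Nat.add C x21992) x8870) x26366) x20534) x22154) x21938) x22046) x21974) x22010) x21986) x21998) x21994) x41674)
    (Nat.sub (Nat.sub (Nat.add (Nat.add (Nat.add (Nat.add (Nat.add (Nat.add (Nat.add (Nat.add (Nat.add (Nat.add (Nat.add C x21994) x8872) x26368) x20536) x22156) x21940) x22048) x21976) x22012) x22000) x21992) x41676) x2312)
    (Nat.sub (Nat.sub (Nat.add (Nat.add (Nat.add (Nat.add (Nat.add (Nat.add (Nat.add (Nat.add (Nat.add C x8876) x26372) x20540) x22160) x21944) x22052) x22016) x21992) x22000) x21998) x41680)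
    (Nat.sub (Nat.sub (Nat.add (Nat.add (Nat.add (Nat.add (Nat.add (Nat.add (Nat.add (Nat.add (Nat.add (Nat.add (Nat.add C x22000) x8878) x26374) x20542) x22162) x21946) x22054) x22018) x21994) x21998) x22002) x41682) x2318)
    (Nat.sub (Nat.add (Nat.add (Nat.add (Nat.add (Nat.add (Nat.add (Nat.add (Nat.add (Nat.add C x22002) x8880) x26376) x20544) x22164) x21948) x22056) x22020) x22000) x2320)
    (Nat.sub (Nat.add (Nat.add (Nat.add (Nat.add (Nat.add (Nat.add (Nat.add (Nat.add C x8888) x26384) x20552) x22172) x22064) x21992) x22016) x22012) x41692)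
    (Nat.sub (Nat.sub (Nat.sub (Nat.add (Nat.add (Nat.add (Nat.add (Nat.add (Nat.add (Nat.add (Nat.add C x8890) x26386) x20554) x22174) x22066) x21994) x22018) x22010) x22012) x41694) x2330)
    (Nat.sub (Nat.add (Nat.add (Nat.add (Nat.add (Nat.add (Nat.add (Nat.add (Nat.add C x8894) x26390) x20558) x22178) x22070) x21998) x22010) x22018) x41698)
    (Nat.sub (Nat.sub (Nat.add (Nat.add (Nat.add (Nat.add (Nat.add (Nat.add (Nat.add (Nat.add (Nat.add (Nat.add (Nat.add C x22018) x8896) x26392) x20560) x22180) x22072) x22000) x22012) x22024) x22016) x22020) x41700) x2336)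
    (Nat.sub (Nat.add (Nat.add (Nat.add (Nat.add (Nat.add (Nat.add (Nat.add (Nat.add C x8898) x26394) x20562) x22182) x22074) x22002) x22026) x22018) x2338)
    (Nat.sub (Nat.sub (Nat.add (Nat.add (Nat.add (Nat.add (Nat.add (Nat.add (Nat.add (Nat.add C x22024) x8902) x26398) x20566) x22186) x22078) x22018) x22026) x41706) x2342)
    (Nat.sub (Nat.add (Nat.add (Nat.add (Nat.add (Nat.add (Nat.add (Nat.add (Nat.add C (Nat.mul x22026 (nat_lit 2))) x8904) x26400) x20568) x22188) x22080) x22020) x22024) x2344)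
    (Nat.sub (Nat.add (Nat.add (Nat.add (Nat.add (Nat.add (Nat.add C x8918) x26414) x20582) x22202) x21986) x22046) x41722)
    (Nat.sub (Nat.sub (Nat.add (Nat.add (Nat.add (Nat.add (Nat.add (Nat.add (Nat.add (Nat.add (Nat.add C x8924) x26420) x20588) x22208) x21992) x22064) x22040) x22052) x22048) x22046) x41728)
    (Nat.sub (Nat.sub (Nat.sub (Nat.add (Nat.add (Nat.add (Nat.add (Nat.add (Nat.add (Nat.add (Nat.add C x8926) x26422) x20590) x22210) x21994) x22066) x22054) x22046) x22048) x41730) x2366)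
    (Nat.sub (Nat.sub (Nat.add (Nat.add (Nat.add (Nat.add (Nat.add (Nat.add (Nat.add (Nat.add C x8930) x26426) x20594) x22214) x21998) x22070) x22046) x22054) (Nat.mul x22052 (nat_lit 4))) x41734)
    (Nat.sub (Nat.sub (Nat.sub (Nat.add (Nat.add (Nat.add (Nat.add (Nat.add (Nat.add (Nat.add (Nat.add (Nat.add C x8932) x26428) x20596) x22216) x22000) x22072) x22048) x22052) x22056) (Nat.mul x22054 (nat_lit 2))) x41736) x2372)
    (Nat.sub (Nat.sub (Nat.add (Nat.add (Nat.add (Nat.add (Nat.add (Nat.add (Nat.add C x8934) x26430) x20598) x22218) x22002) x22074) x22054) (Nat.mul x22056 (nat_lit 2))) x2374)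
    (Nat.sub (Nat.add (Nat.add (Nat.add (Nat.add (Nat.add (Nat.add (Nat.add (Nat.add C x8942) x26438) x20606) x22226) x22010) x22046) x22070) x22066) x41746)
    (Nat.sub (Nat.sub (Nat.sub (Nat.add (Nat.add (Nat.add (Nat.add (Nat.add (Nat.add (Nat.add (Nat.add C x8944) x26440) x20608) x22228) x22012) x22048) x22072) x22064) x22066) x41748) x2384)
    (Nat.sub (Nat.sub (Nat.add (Nat.add (Nat.add (Nat.add (Nat.add (Nat.add (Nat.add (Nat.add (Nat.add C x8948) x26444) x20612) x22232) x22016) x22052) x22088) x22064) x22072) x22070) x41752)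
    (Nat.sub (Nat.sub (Nat.add (Nat.add (Nat.add (Nat.add (Nat.add (Nat.add (Nat.add (Nat.add (Nat.add (Nat.add (Nat.add C x8950) x26446) x20614) x22234) x22018) x22054) x22090) x22066) x22078) x22070) x22074) x41754) x2390)
    (Nat.sub (Nat.sub (Nat.add (Nat.add (Nat.add (Nat.add (Nat.add (Nat.add (Nat.add (Nat.add (Nat.add C x8952) x26448) x20616) x22236) x22020) x22056) x22092) x22080) x22072) x22074) x2392)
    (Nat.sub (Nat.sub (Nat.sub (Nat.add (Nat.add (Nat.add (Nat.add (Nat.add (Nat.add (Nat.add (Nat.add C x8956) x26452) x20620) x22240) x22024) x22096) x22072) x22080) x22078) x41760) x2396)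
    (Nat.sub (Nat.add (Nat.add (Nat.add (Nat.add (Nat.add (Nat.add (Nat.add (Nat.add C x8958) x26454) x20622) x22242) x22026) x22098) x22074) x22078) x2398)
    (Nat.sub (Nat.add (Nat.add (Nat.add (Nat.add (Nat.add (Nat.add C x8966) x26462) x20630) x22250) x22070) x22090) x41770)
    (Nat.sub (Nat.sub (Nat.add (Nat.add (Nat.add (Nat.add (Nat.add (Nat.add (Nat.add (Nat.add C x8968) x26464) x20632) x22252) x22072) x22096) x22088) x22092) x41772) x2408)
    (Nat.sub (Nat.sub (Nat.add (Nat.add (Nat.add (Nat.add (Nat.add (Nat.add (Nat.add C x8970) x26466) x20634) x22254) x22074) x22098) x22090) (Nat.mul x22092 (nat_lit 2))) x2410)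
    (Nat.sub (Nat.sub (Nat.add (Nat.add (Nat.add (Nat.add (Nat.add (Nat.add (Nat.add (Nat.add C x22096) x8974) x26470) x20638) x22258) x22078) x22090) x22098) x41778) x2414)
    (Nat.sub (Nat.add (Nat.add (Nat.add (Nat.add (Nat.add (Nat.add (Nat.add (Nat.add (Nat.add C x22098) x8976) x26472) x20640) x22260) x22080) x22092) x22104) x22096) x2416)
    (Nat.sub (Nat.add (Nat.add (Nat.add (Nat.add (Nat.add (Nat.add C (Nat.mul x22104 (nat_lit 2))) x8982) x26478) x20646) x22266) x22098) x2422)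
    (Nat.sub (Nat.add (Nat.add (Nat.add (Nat.add (Nat.add (Nat.add (Nat.add (Nat.add C (Nat.mul x22130 (nat_lit 2))) x9008) x26504) x20672) x22616) x21968) x22148) x22136) x41812)
    (Nat.sub (Nat.add (Nat.add (Nat.add (Nat.add (Nat.add (Nat.add (Nat.add (Nat.add C x9014) x26510) x20678) x22622) x21974) x22154) x22130) x22138) x41818)
    (Nat.sub (Nat.sub (Nat.add (Nat.add (Nat.add (Nat.add (Nat.add (Nat.add (Nat.add (Nat.add C x22138) x9016) x26512) x20680) x22624) x21976) x22156) x22136) x41820) x2456)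
    (Nat.sub (Nat.add (Nat.add (Nat.add (Nat.add (Nat.add (Nat.add (Nat.add (Nat.add C x9026) x26522) x20690) x22634) x21986) x22202) x22130) x22154) x41830)
    (Nat.sub (Nat.add (Nat.add (Nat.add (Nat.add (Nat.add (Nat.add (Nat.add (Nat.add (Nat.add (Nat.add (Nat.add C x9032) x26528) x20696) x22640) x21992) x22208) x22136) x22172) x22148) x22160) x22156) x41836)
    (Nat.sub (Nat.sub (Nat.add (Nat.add (Nat.add (Nat.add (Nat.add (Nat.add (Nat.add (Nat.add (Nat.add (Nat.add C x9034) x26530) x20698) x22642) x21994) x22210) x22138) x22174) x22162) x22154) x41838) x2474)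
    (Nat.sub (Nat.sub (Nat.add (Nat.add (Nat.add (Nat.add (Nat.add (Nat.add (Nat.add (Nat.add (Nat.add C x9038) x26534) x20702) x22646) x21998) x22214) x22178) x22154) x22162) (Nat.mul x22160 (nat_lit 2))) x41842)
    (Nat.sub (Nat.sub (Nat.add (Nat.add (Nat.add (Nat.add (Nat.add (Nat.add (Nat.add (Nat.add (Nat.add (Nat.add C x9040) x26536) x20704) x22648) x22000) x22216) x22180) x22156) x22160) x22164) x41844) x2480)
    (Nat.sub (Nat.add (Nat.add (Nat.add (Nat.add (Nat.add (Nat.add (Nat.add (Nat.add C x9042) x26538) x20706) x22650) x22002) x22218) x22182) x22162) x2482)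
    (Nat.sub (Nat.sub (Nat.add (Nat.add (Nat.add (Nat.add (Nat.add (Nat.add (Nat.add (Nat.add (Nat.add C x9050) x26546) x20714) x22658) x22010) x22226) x22154) x22178) x22174) (Nat.mul x22172 (nat_lit 2))) x41854)
    (Nat.sub (Nat.sub (Nat.sub (Nat.add (Nat.add (Nat.add (Nat.add (Nat.add (Nat.add (Nat.add (Nat.add (Nat.add C x9052) x26548) x20716) x22660) x22012) x22228) x22156) x22180) x22172) (Nat.mul x22174 (nat_lit 3))) x41856) x2492)
    (Nat.sub (Nat.sub (Nat.add (Nat.add (Nat.add (Nat.add (Nat.add (Nat.add (Nat.add (Nat.add (Nat.add C x9056) x26552) x20720) x22664) x22016) x22232) x22160) x22172) x22180) (Nat.mul x22178 (nat_lit 2))) x41860)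
    (Nat.sub (Nat.sub (Nat.sub (Nat.add (Nat.add (Nat.add (Nat.add (Nat.add (Nat.add (Nat.add (Nat.add (Nat.add (Nat.add (Nat.add C x9058) x26554) x20722) x22666) x22018) x22234) x22162) x22174) x22186) x22178) x22182) x22180) x41862) x2498)
    (Nat.sub (Nat.sub (Nat.add (Nat.add (Nat.add (Nat.add (Nat.add (Nat.add (Nat.add (Nat.add (Nat.add C x9060) x26556) x20724) x22668) x22020) x22236) x22164) x22188) x22180) (Nat.mul x22182 (nat_lit 2))) x2500)
    (Nat.sub (Nat.sub (Nat.sub (Nat.add (Nat.add (Nat.add (Nat.add (Nat.add (Nat.add (Nat.add (Nat.add C x9064) x26560) x20728) x22672) x22024) x22240) x22180) x22188) x22186) x41868) x2504)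
    (Nat.sub (Nat.add (Nat.add (Nat.add (Nat.add (Nat.add (Nat.add (Nat.add (Nat.add C x9066) x26562) x20730) x22674) x22026) x22242) x22182) x22186) x2506)
    (Nat.sub (Nat.add (Nat.add (Nat.add (Nat.add (Nat.add (Nat.add (Nat.add (Nat.add (Nat.add C x22202) x9080) x26576) x20744) x22688) x22040) x22364) x22148) x22208) x41884)
    (Nat.sub (Nat.add (Nat.add (Nat.add (Nat.add (Nat.add (Nat.add (Nat.add (Nat.add (Nat.add (Nat.add (Nat.add C x9086) x26582) x20750) x22694) x22046) x22370) x22154) x22226) x22202) x22214) x22210) x41890)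
    (Nat.sub (Nat.sub (Nat.add (Nat.add (Nat.add (Nat.add (Nat.add (Nat.add (Nat.add (Nat.add (Nat.add (Nat.add C x9088) x26584) x20752) x22696) x22048) x22372) x22156) x22228) x22216) x22208) x41892) x2528)
    (Nat.sub (Nat.sub (Nat.add (Nat.add (Nat.add (Nat.add (Nat.add (Nat.add (Nat.add (Nat.add (Nat.add (Nat.add C x9092) x26588) x20756) x22700) x22052) x22376) x22160) x22232) x22208) x22216) (Nat.mul x22214 (nat_lit 3))) x41896)
    (Nat.sub (Nat.sub (Nat.sub (Nat.add (Nat.add (Nat.add (Nat.add (Nat.add (Nat.add (Nat.add (Nat.add (Nat.add (Nat.add (Nat.add C x9094) x26590) x20758) x22702) x22054) x22378) x22162) x22234) x22210) x22214) x22218) x22216) x41898) x2534)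
    (Nat.sub (Nat.sub (Nat.add (Nat.add (Nat.add (Nat.add (Nat.add (Nat.add (Nat.add (Nat.add (Nat.add C x9096) x26592) x20760) x22704) x22056) x22380) x22164) x22236) x22216) x22218) x2536)
    (Nat.sub (Nat.add (Nat.add (Nat.add (Nat.add (Nat.add (Nat.add (Nat.add (Nat.add (Nat.add (Nat.add (Nat.add C x9104) x26600) x20768) x22712) x22064) x22388) x22172) x22280) x22208) x22232) x22228) x41908)
    (Nat.sub (Nat.sub (Nat.sub (Nat.add (Nat.add (Nat.add (Nat.add (Nat.add (Nat.add (Nat.add (Nat.add (Nat.add (Nat.add (Nat.add C x9106) x26602) x20770) x22714) x22066) x22390) x22174) x22282) x22210) x22234) x22226) x22228) x41910) x2546)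
    (Nat.sub (Nat.sub (Nat.add (Nat.add (Nat.add (Nat.add (Nat.add (Nat.add (Nat.add (Nat.add (Nat.add (Nat.add (Nat.add (Nat.add C x9110) x26606) x20774) x22718) x22070) x22394) x22178) x22286) x22214) x22250) x22226) x22234) x22232) x41914)
    (Nat.sub (Nat.sub (Nat.add (Nat.add (Nat.add (Nat.add (Nat.add (Nat.add (Nat.add (Nat.add (Nat.add (Nat.add (Nat.add (Nat.add (Nat.add (Nat.add C x9112) x26608) x20776) x22720) x22072) x22396) x22180) x22288) x22216) x22252) x22228) x22240) x22232) x22236) x41916) x2552)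
    (Nat.sub (Nat.sub (Nat.add (Nat.add (Nat.add (Nat.add (Nat.add (Nat.add (Nat.add (Nat.add (Nat.add (Nat.add (Nat.add (Nat.add C x9114) x26610) x20778) x22722) x22074) x22398) x22182) x22290) x22218) x22254) x22242) x22234) x22236) x2554)
    (Nat.sub (Nat.sub (Nat.sub (Nat.add (Nat.add (Nat.add (Nat.add (Nat.add (Nat.add (Nat.add (Nat.add (Nat.add (Nat.add (Nat.add C x9118) x26614) x20782) x22726) x22078) x22402) x22186) x22294) x22258) x22234) x22242) x22240) x41922) x2558)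
    (Nat.sub (Nat.add (Nat.add (Nat.add (Nat.add (Nat.add (Nat.add (Nat.add (Nat.add (Nat.add (Nat.add (Nat.add C x9120) x26616) x20784) x22728) x22080) x22404) x22188) x22296) x22260) x22236) x22240) x2560)
    (Nat.sub (Nat.sub (Nat.add (Nat.add (Nat.add (Nat.add (Nat.add (Nat.add (Nat.add (Nat.add (Nat.add C x9128) x26624) x20792) x22736) x22088) x22412) x22304) x22232) x22252) x22250) x41932)
    (Nat.sub (Nat.sub (Nat.sub (Nat.add (Nat.add (Nat.add (Nat.add (Nat.add (Nat.add (Nat.add (Nat.add (Nat.add (Nat.add (Nat.add C x9130) x26626) x20794) x22738) x22090) x22414) x22306) x22234) x22258) x22250) x22254) x22252) x41934) x2570)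
    (Nat.sub (Nat.sub (Nat.add (Nat.add (Nat.add (Nat.add (Nat.add (Nat.add (Nat.add (Nat.add (Nat.add (Nat.add C x9132) x26628) x20796) x22740) x22092) x22416) x22308) x22236) x22260) x22252) (Nat.mul x22254 (nat_lit 3))) x2572)
    (Nat.sub (Nat.sub (Nat.add (Nat.add (Nat.add (Nat.add (Nat.add (Nat.add (Nat.add (Nat.add (Nat.add (Nat.add C x9136) x26632) x20800) x22744) x22096) x22420) x22312) x22240) x22252) x22260) x41940) x2576)
    (Nat.sub (Nat.add (Nat.add (Nat.add (Nat.add (Nat.add (Nat.add (Nat.add (Nat.add (Nat.add (Nat.add (Nat.add C x9138) x26634) x20802) x22746) x22098) x22422) x22314) x22242) x22254) x22266) x22258) x2578)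
    (Nat.sub (Nat.add (Nat.add (Nat.add (Nat.add (Nat.add (Nat.add (Nat.add (Nat.add (Nat.add C x22266) x9144) x26640) x20808) x22752) x22104) x22428) x22320) x22260) x2584)
    (Nat.sub (Nat.add (Nat.add (Nat.add (Nat.add (Nat.add (Nat.add (Nat.add (Nat.add C x9158) x26654) x20822) x22766) x22442) x22226) x22286) x22282) x41962)
    (Nat.sub (Nat.sub (Nat.sub (Nat.add (Nat.add (Nat.add (Nat.add (Nat.add (Nat.add (Nat.add (Nat.add C x9160) x26656) x20824) x22768) x22444) x22228) x22288) x22280) x22282) x41964) x2600)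
    (Nat.sub (Nat.sub (Nat.add (Nat.add (Nat.add (Nat.add (Nat.add (Nat.add (Nat.add (Nat.add (Nat.add C x9164) x26660) x20828) x22772) x22448) x22232) x22304) x22280) x22288) (Nat.mul x22286 (nat_lit 2))) x41968)
    (Nat.sub (Nat.sub (Nat.sub (Nat.add (Nat.add (Nat.add (Nat.add (Nat.add (Nat.add (Nat.add (Nat.add (Nat.add (Nat.add (Nat.add C x9166) x26662) x20830) x22774) x22450) x22234) x22306) x22282) x22294) x22286) x22290) x22288) x41970) x2606)
    (Nat.sub (Nat.sub (Nat.add (Nat.add (Nat.add (Nat.add (Nat.add (Nat.add (Nat.add (Nat.add (Nat.add C x9168) x26664) x20832) x22776) x22452) x22236) x22308) x22296) x22288) (Nat.mul x22290 (nat_lit 2))) x2608)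
    (Nat.sub (Nat.sub (Nat.sub (Nat.add (Nat.add (Nat.add (Nat.add (Nat.add (Nat.add (Nat.add (Nat.add (Nat.add C x9172) x26668) x20836) x22780) x22456) x22240) x22312) x22288) x22296) (Nat.mul x22294 (nat_lit 3))) x41976) x2612)
    (Nat.sub (Nat.sub (Nat.add (Nat.add (Nat.add (Nat.add (Nat.add (Nat.add (Nat.add (Nat.add (Nat.add C x9174) x26670) x20838) x22782) x22458) x22242) x22314) x22290) x22294) (Nat.mul x22296 (nat_lit 2))) x2614)
    (Nat.sub (Nat.add (Nat.add (Nat.add (Nat.add (Nat.add (Nat.add (Nat.add (Nat.add C x9182) x26678) x20846) x22790) x22466) x22250) x22286) x22306) x41986)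
    (Nat.sub (Nat.sub (Nat.add (Nat.add (Nat.add (Nat.add (Nat.add (Nat.add (Nat.add (Nat.add (Nat.add (Nat.add C x9184) x26680) x20848) x22792) x22468) x22252) x22288) x22312) x22304) x22308) x41988) x2624)
    (Nat.sub (Nat.sub (Nat.add (Nat.add (Nat.add (Nat.add (Nat.add (Nat.add (Nat.add (Nat.add (Nat.add C x9186) x26682) x20850) x22794) x22470) x22254) x22290) x22314) x22306) (Nat.mul x22308 (nat_lit 2))) x2626)
    (Nat.sub (Nat.sub (Nat.add (Nat.add (Nat.add (Nat.add (Nat.add (Nat.add (Nat.add (Nat.add (Nat.add (Nat.add C x9190) x26686) x20854) x22798) x22474) x22258) x22294) x22330) x22306) x22314) x41994) x2630)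
    (Nat.sub (Nat.add (Nat.add (Nat.add (Nat.add (Nat.add (Nat.add (Nat.add (Nat.add (Nat.add (Nat.add (Nat.add C x9192) x26688) x20856) x22800) x22476) x22260) x22296) x22332) x22308) x22320) x22312) x2632)
    (Nat.sub (Nat.add (Nat.add (Nat.add (Nat.add (Nat.add (Nat.add (Nat.add (Nat.add C x9198) x26694) x20862) x22806) x22482) x22266) x22338) x22314) x2638)
    (Nat.sub (Nat.sub (Nat.add (Nat.add (Nat.add (Nat.add (Nat.add (Nat.add (Nat.add (Nat.add C x22330) x9208) x26704) x20872) x22816) x22492) x22312) x22332) x42012) x2648)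
    (Nat.sub (Nat.add (Nat.add (Nat.add (Nat.add (Nat.add (Nat.add (Nat.add (Nat.add C x9210) x26706) x20874) x22818) x22494) x22314) x22338) x22330) x2650)
    (Nat.sub (Nat.add (Nat.add (Nat.add (Nat.add (Nat.add (Nat.add (Nat.add (Nat.add C (Nat.mul x22338 (nat_lit 2))) x9216) x26712) x20880) x22824) x22500) x22320) x22332) x2656)
    (Nat.sub (Nat.add (Nat.add (Nat.add (Nat.add (Nat.add (Nat.add C x9242) x26738) x20906) x22850) x22202) x22370) x42046)
    (Nat.sub (Nat.sub (Nat.add (Nat.add (Nat.add (Nat.add (Nat.add (Nat.add (Nat.add (Nat.add (Nat.add C x9248) x26744) x20912) x22856) x22208) x22388) x22364) x22376) x22372) x22370) x42052)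
    (Nat.sub (Nat.sub (Nat.sub (Nat.add (Nat.add (Nat.add (Nat.add (Nat.add (Nat.add (Nat.add (Nat.add C x9250) x26746) x20914) x22858) x22210) x22390) x22378) x22370) x22372) x42054) x2690)
    (Nat.sub (Nat.sub (Nat.add (Nat.add (Nat.add (Nat.add (Nat.add (Nat.add (Nat.add (Nat.add C x9254) x26750) x20918) x22862) x22214) x22394) x22370) x22378) (Nat.mul x22376 (nat_lit 4))) x42058)
    (Nat.sub (Nat.sub (Nat.sub (Nat.add (Nat.add (Nat.add (Nat.add (Nat.add (Nat.add (Nat.add (Nat.add (Nat.add C x9256) x26752) x20920) x22864) x22216) x22396) x22372) x22376) x22380) (Nat.mul x22378 (nat_lit 2))) x42060) x2696)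
    (Nat.sub (Nat.sub (Nat.add (Nat.add (Nat.add (Nat.add (Nat.add (Nat.add (Nat.add C x9258) x26754) x20922) x22866) x22218) x22398) x22378) (Nat.mul x22380 (nat_lit 2))) x2698)
    (Nat.sub (Nat.sub (Nat.add (Nat.add (Nat.add (Nat.add (Nat.add (Nat.add (Nat.add (Nat.add (Nat.add C x9266) x26762) x20930) x22874) x22226) x22442) x22370) x22394) x22390) (Nat.mul x22388 (nat_lit 2))) x42070)
    (Nat.sub (Nat.sub (Nat.sub (Nat.add (Nat.add (Nat.add (Nat.add (Nat.add (Nat.add (Nat.add (Nat.add (Nat.add C x9268) x26764) x20932) x22876) x22228) x22444) x22372) x22396) x22388) (Nat.mul x22390 (nat_lit 3))) x42072) x2708)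
    (Nat.sub (Nat.sub (Nat.add (Nat.add (Nat.add (Nat.add (Nat.add (Nat.add (Nat.add (Nat.add (Nat.add (Nat.add C x9272) x26768) x20936) x22880) x22232) x22448) x22376) x22412) x22388) x22396) (Nat.mul x22394 (nat_lit 3))) x42076)
    (Nat.sub (Nat.sub (Nat.sub (Nat.add (Nat.add (Nat.add (Nat.add (Nat.add (Nat.add (Nat.add (Nat.add (Nat.add (Nat.add (Nat.add (Nat.add C x9274) x26770) x20938) x22882) x22234) x22450) x22378) x22414) x22390) x22402) x22394) x22398) (Nat.mul x22396 (nat_lit 2))) x42078) x2714)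
    (Nat.sub (Nat.sub (Nat.add (Nat.add (Nat.add (Nat.add (Nat.add (Nat.add (Nat.add (Nat.add (Nat.add (Nat.add C x9276) x26772) x20940) x22884) x22236) x22452) x22380) x22416) x22404) x22396) (Nat.mul x22398 (nat_lit 3))) x2716)
    (Nat.sub (Nat.sub (Nat.sub (Nat.add (Nat.add (Nat.add (Nat.add (Nat.add (Nat.add (Nat.add (Nat.add (Nat.add C x9280) x26776) x20944) x22888) x22240) x22456) x22420) x22396) x22404) (Nat.mul x22402 (nat_lit 3))) x42084) x2720)
    (Nat.sub (Nat.sub (Nat.add (Nat.add (Nat.add (Nat.add (Nat.add (Nat.add (Nat.add (Nat.add (Nat.add C x9282) x26778) x20946) x22890) x22242) x22458) x22422) x22398) x22402) (Nat.mul x22404 (nat_lit 2))) x2722)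
    (Nat.sub (Nat.sub (Nat.add (Nat.add (Nat.add (Nat.add (Nat.add (Nat.add (Nat.add (Nat.add C x9290) x26786) x20954) x22898) x22250) x22466) x22394) x22414) (Nat.mul x22412 (nat_lit 4))) x42094)
    (Nat.sub (Nat.sub (Nat.sub (Nat.add (Nat.add (Nat.add (Nat.add (Nat.add (Nat.add (Nat.add (Nat.add (Nat.add (Nat.add C x9292) x26788) x20956) x22900) x22252) x22468) x22396) x22420) x22412) x22416) (Nat.mul x22414 (nat_lit 4))) x42096) x2732)
    (Nat.sub (Nat.sub (Nat.add (Nat.add (Nat.add (Nat.add (Nat.add (Nat.add (Nat.add (Nat.add (Nat.add C x9294) x26790) x20958) x22902) x22254) x22470) x22398) x22422) x22414) (Nat.mul x22416 (nat_lit 6))) x2734)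
    (Nat.sub (Nat.sub (Nat.sub (Nat.add (Nat.add (Nat.add (Nat.add (Nat.add (Nat.add (Nat.add (Nat.add (Nat.add C x9298) x26794) x20962) x22906) x22258) x22474) x22402) x22414) x22422) (Nat.mul x22420 (nat_lit 3))) x42102) x2738)
    (Nat.sub (Nat.sub (Nat.add (Nat.add (Nat.add (Nat.add (Nat.add (Nat.add (Nat.add (Nat.add (Nat.add (Nat.add C x9300) x26796) x20964) x22908) x22260) x22476) x22404) x22416) x22428) x22420) (Nat.mul x22422 (nat_lit 3))) x2740)
    (Nat.sub (Nat.sub (Nat.add (Nat.add (Nat.add (Nat.add (Nat.add (Nat.add (Nat.add C x9306) x26802) x20970) x22914) x22266) x22482) x22422) (Nat.mul x22428 (nat_lit 2))) x2746)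
    (Nat.sub (Nat.add (Nat.add (Nat.add (Nat.add (Nat.add (Nat.add (Nat.add (Nat.add C x9320) x26816) x20984) x22928) x22280) x22388) x22448) x22444) x42124)
    (Nat.sub (Nat.sub (Nat.sub (Nat.add (Nat.add (Nat.add (Nat.add (Nat.add (Nat.add (Nat.add (Nat.add C x9322) x26818) x20986) x22930) x22282) x22390) x22450) x22442) x22444) x42126) x2762)
    (Nat.sub (Nat.sub (Nat.add (Nat.add (Nat.add (Nat.add (Nat.add (Nat.add (Nat.add (Nat.add (Nat.add C x9326) x26822) x20990) x22934) x22286) x22394) x22466) x22442) x22450) (Nat.mul x22448 (nat_lit 2))) x42130)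
    (Nat.sub (Nat.sub (Nat.sub (Nat.add (Nat.add (Nat.add (Nat.add (Nat.add (Nat.add (Nat.add (Nat.add (Nat.add (Nat.add (Nat.add C x9328) x26824) x20992) x22936) x22288) x22396) x22468) x22444) x22456) x22448) x22452) x22450) x42132) x2768)
    (Nat.sub (Nat.sub (Nat.add (Nat.add (Nat.add (Nat.add (Nat.add (Nat.add (Nat.add (Nat.add (Nat.add C x9330) x26826) x20994) x22938) x22290) x22398) x22470) x22458) x22450) (Nat.mul x22452 (nat_lit 2))) x2770)
    (Nat.sub (Nat.sub (Nat.sub (Nat.add (Nat.add (Nat.add (Nat.add (Nat.add (Nat.add (Nat.add (Nat.add (Nat.add C x9334) x26830) x20998) x22942) x22294) x22402) x22474) x22450) x22458) (Nat.mul x22456 (nat_lit 3))) x42138) x2774)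
    (Nat.sub (Nat.sub (Nat.add (Nat.add (Nat.add (Nat.add (Nat.add (Nat.add (Nat.add (Nat.add (Nat.add C x9336) x26832) x21000) x22944) x22296) x22404) x22476) x22452) x22456) (Nat.mul x22458 (nat_lit 2))) x2776)
    (Nat.sub (Nat.sub (Nat.add (Nat.add (Nat.add (Nat.add (Nat.add (Nat.add (Nat.add (Nat.add (Nat.add C x9344) x26840) x21008) x22952) x22304) x22412) x22520) x22448) x22468) x22466) x42148)
    (Nat.sub (Nat.sub (Nat.sub (Nat.add (Nat.add (Nat.add (Nat.add (Nat.add (Nat.add (Nat.add (Nat.add (Nat.add (Nat.add (Nat.add C x9346) x26842) x21010) x22954) x22306) x22414) x22522) x22450) x22474) x22466) x22470) x22468) x42150) x2786)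
    (Nat.sub (Nat.sub (Nat.add (Nat.add (Nat.add (Nat.add (Nat.add (Nat.add (Nat.add (Nat.add (Nat.add (Nat.add C x9348) x26844) x21012) x22956) x22308) x22416) x22524) x22452) x22476) x22468) (Nat.mul x22470 (nat_lit 3))) x2788)
    (Nat.sub (Nat.sub (Nat.sub (Nat.add (Nat.add (Nat.add (Nat.add (Nat.add (Nat.add (Nat.add (Nat.add (Nat.add (Nat.add (Nat.add C x9352) x26848) x21016) x22960) x22312) x22420) x22528) x22456) x22492) x22468) x22476) x22474) x42156) x2792)
    (Nat.sub (Nat.sub (Nat.add (Nat.add (Nat.add (Nat.add (Nat.add (Nat.add (Nat.add (Nat.add (Nat.add (Nat.add (Nat.add (Nat.add C x9354) x26850) x21018) x22962) x22314) x22422) x22530) x22458) x22494) x22470) x22482) x22474) x22476) x2794)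
    (Nat.sub (Nat.sub (Nat.add (Nat.add (Nat.add (Nat.add (Nat.add (Nat.add (Nat.add (Nat.add (Nat.add C x9360) x26856) x21024) x22968) x22320) x22428) x22536) x22500) x22476) x22482) x2800)
    (Nat.sub (Nat.sub (Nat.sub (Nat.add (Nat.add (Nat.add (Nat.add (Nat.add (Nat.add (Nat.add (Nat.add C x9370) x26866) x21034) x22978) x22330) x22546) x22474) x22494) x22492) x42174) x2810)
    (Nat.sub (Nat.sub (Nat.add (Nat.add (Nat.add (Nat.add (Nat.add (Nat.add (Nat.add (Nat.add (Nat.add C x9372) x26868) x21036) x22980) x22332) x22548) x22476) x22500) x22492) (Nat.mul x22494 (nat_lit 2))) x2812)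
    (Nat.sub (Nat.add (Nat.add (Nat.add (Nat.add (Nat.add (Nat.add (Nat.add (Nat.add C x9378) x26874) x21042) x22986) x22338) x22554) x22482) x22494) x2818)
    (Nat.sub (Nat.add (Nat.add (Nat.add (Nat.add (Nat.add (Nat.add C x9398) x26894) x21062) x23006) x22466) x22522) x42202)
    (Nat.sub (Nat.sub (Nat.add (Nat.add (Nat.add (Nat.add (Nat.add (Nat.add (Nat.add (Nat.add C x9400) x26896) x21064) x23008) x22468) x22528) x22520) x22524) x42204) x2840)
    (Nat.sub (Nat.sub (Nat.add (Nat.add (Nat.add (Nat.add (Nat.add (Nat.add (Nat.add C x9402) x26898) x21066) x23010) x22470) x22530) x22522) (Nat.mul x22524 (nat_lit 2))) x2842)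
    (Nat.sub (Nat.sub (Nat.sub (Nat.add (Nat.add (Nat.add (Nat.add (Nat.add (Nat.add (Nat.add (Nat.add C x9406) x26902) x21070) x23014) x22474) x22546) x22522) x22530) x22528) x42210) x2846)
    (Nat.sub (Nat.sub (Nat.add (Nat.add (Nat.add (Nat.add (Nat.add (Nat.add (Nat.add (Nat.add (Nat.add C x9408) x26904) x21072) x23016) x22476) x22548) x22524) x22536) x22528) x22530) x2848)
    (Nat.sub (Nat.sub (Nat.add (Nat.add (Nat.add (Nat.add (Nat.add (Nat.add (Nat.add C x9414) x26910) x21078) x23022) x22482) x22554) x22530) (Nat.mul x22536 (nat_lit 2))) x2854)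
    (Nat.sub (Nat.sub (Nat.add (Nat.add (Nat.add (Nat.add (Nat.add (Nat.add (Nat.add (Nat.add C x22546) x9424) x26920) x21088) x23032) x22492) x22528) x22548) x42228) x2864)
    (Nat.sub (Nat.add (Nat.add (Nat.add (Nat.add (Nat.add (Nat.add (Nat.add (Nat.add C x9426) x26922) x21090) x23034) x22494) x22530) x22554) x22546) x2866)
    (Nat.sub (Nat.add (Nat.add (Nat.add (Nat.add (Nat.add (Nat.add (Nat.add (Nat.add (Nat.add C x22554) x9432) x26928) x21096) x23040) x22500) x22536) x22572) x22548) x2872)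
    (Nat.sub (Nat.add (Nat.add (Nat.add (Nat.add (Nat.add (Nat.add C (Nat.mul x22572 (nat_lit 2))) x9450) x26946) x21114) x23058) x22554) x2890)
    (Nat.sub (Nat.add (Nat.add (Nat.add (Nat.add (Nat.add (Nat.add (Nat.add (Nat.add C (Nat.mul x22616 (nat_lit 3))) x9494) x26990) x21158) x24074) x22130) x22634) x22622) x42298)
    (Nat.sub (Nat.add (Nat.add (Nat.add (Nat.add (Nat.add (Nat.add (Nat.add (Nat.add (Nat.add C x22622) x9500) x26996) x21164) x24080) x22136) x22640) x22616) x22624) x42304)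
    (Nat.sub (Nat.sub (Nat.add (Nat.add (Nat.add (Nat.add (Nat.add (Nat.add (Nat.add (Nat.add C (Nat.mul x22624 (nat_lit 2))) x9502) x26998) x21166) x24082) x22138) x22642) x22622) x42306) x2942)
    (Nat.sub (Nat.add (Nat.add (Nat.add (Nat.add (Nat.add (Nat.add (Nat.add (Nat.add (Nat.add C x22634) x9512) x27008) x21176) x24092) x22148) x22688) x22616) x22640) x42316)
    (Nat.sub (Nat.add (Nat.add (Nat.add (Nat.add (Nat.add (Nat.add (Nat.add (Nat.add (Nat.add (Nat.add (Nat.add (Nat.add C x22640) x9518) x27014) x21182) x24098) x22154) x22694) x22622) x22658) x22634) x22646) x22642) x42322)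
    (Nat.sub (Nat.sub (Nat.add (Nat.add (Nat.add (Nat.add (Nat.add (Nat.add (Nat.add (Nat.add (Nat.add (Nat.add (Nat.add C x22642) x9520) x27016) x21184) x24100) x22156) x22696) x22624) x22660) x22648) x22640) x42324) x2960)
    (Nat.sub (Nat.sub (Nat.add (Nat.add (Nat.add (Nat.add (Nat.add (Nat.add (Nat.add (Nat.add (Nat.add C x9524) x27020) x21188) x24104) x22160) x22700) x22664) x22640) x22648) x22646) x42328)
    (Nat.sub (Nat.sub (Nat.add (Nat.add (Nat.add (Nat.add (Nat.add (Nat.add (Nat.add (Nat.add (Nat.add (Nat.add (Nat.add C x22648) x9526) x27022) x21190) x24106) x22162) x22702) x22666) x22642) x22646) x22650) x42330) x2966)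
    (Nat.sub (Nat.add (Nat.add (Nat.add (Nat.add (Nat.add (Nat.add (Nat.add (Nat.add (Nat.add C x22650) x9528) x27024) x21192) x24108) x22164) x22704) x22668) x22648) x2968)
    (Nat.sub (Nat.sub (Nat.add (Nat.add (Nat.add (Nat.add (Nat.add (Nat.add (Nat.add (Nat.add (Nat.add C x9536) x27032) x21200) x24116) x22172) x22712) x22640) x22664) x22660) x22658) x42340)
    (Nat.sub (Nat.sub (Nat.sub (Nat.add (Nat.add (Nat.add (Nat.add (Nat.add (Nat.add (Nat.add (Nat.add (Nat.add C x9538) x27034) x21202) x24118) x22174) x22714) x22642) x22666) x22658) (Nat.mul x22660 (nat_lit 2))) x42342) x2978)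
    (Nat.sub (Nat.sub (Nat.add (Nat.add (Nat.add (Nat.add (Nat.add (Nat.add (Nat.add (Nat.add (Nat.add C x9542) x27038) x21206) x24122) x22178) x22718) x22646) x22658) x22666) x22664) x42346)
    (Nat.sub (Nat.sub (Nat.add (Nat.add (Nat.add (Nat.add (Nat.add (Nat.add (Nat.add (Nat.add (Nat.add (Nat.add (Nat.add C x9544) x27040) x21208) x24124) x22180) x22720) x22648) x22660) x22672) x22664) x22668) x42348) x2984)
    (Nat.sub (Nat.sub (Nat.add (Nat.add (Nat.add (Nat.add (Nat.add (Nat.add (Nat.add (Nat.add (Nat.add C x9546) x27042) x21210) x24126) x22182) x22722) x22650) x22674) x22666) x22668) x2986)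
    (Nat.sub (Nat.sub (Nat.add (Nat.add (Nat.add (Nat.add (Nat.add (Nat.add (Nat.add (Nat.add C x9550) x27046) x21214) x24130) x22186) x22726) x22666) x22674) x42354) x2990)
    (Nat.sub (Nat.add (Nat.add (Nat.add (Nat.add (Nat.add (Nat.add (Nat.add (Nat.add (Nat.add C x22674) x9552) x27048) x21216) x24132) x22188) x22728) x22668) x22672) x2992)
    (Nat.sub (Nat.add (Nat.add (Nat.add (Nat.add (Nat.add (Nat.add (Nat.add (Nat.add (Nat.add C x22688) x9566) x27062) x21230) x24146) x22202) x22850) x22634) x22694) x42370)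
    (Nat.sub (Nat.add (Nat.add (Nat.add (Nat.add (Nat.add (Nat.add (Nat.add (Nat.add (Nat.add (Nat.add (Nat.add C x9572) x27068) x21236) x24152) x22208) x22856) x22640) x22712) x22688) x22700) x22696) x42376)
    (Nat.sub (Nat.sub (Nat.add (Nat.add (Nat.add (Nat.add (Nat.add (Nat.add (Nat.add (Nat.add (Nat.add (Nat.add C x9574) x27070) x21238) x24154) x22210) x22858) x22642) x22714) x22702) x22694) x42378) x3014)
    (Nat.sub (Nat.sub (Nat.add (Nat.add (Nat.add (Nat.add (Nat.add (Nat.add (Nat.add (Nat.add (Nat.add (Nat.add C x9578) x27074) x21242) x24158) x22214) x22862) x22646) x22718) x22694) x22702) (Nat.mul x22700 (nat_lit 3))) x42382)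
    (Nat.sub (Nat.sub (Nat.sub (Nat.add (Nat.add (Nat.add (Nat.add (Nat.add (Nat.add (Nat.add (Nat.add (Nat.add (Nat.add (Nat.add C x9580) x27076) x21244) x24160) x22216) x22864) x22648) x22720) x22696) x22700) x22704) x22702) x42384) x3020)
    (Nat.sub (Nat.sub (Nat.add (Nat.add (Nat.add (Nat.add (Nat.add (Nat.add (Nat.add (Nat.add (Nat.add C x9582) x27078) x21246) x24162) x22218) x22866) x22650) x22722) x22702) x22704) x3022)
    (Nat.sub (Nat.add (Nat.add (Nat.add (Nat.add (Nat.add (Nat.add (Nat.add (Nat.add (Nat.add (Nat.add (Nat.add C x9590) x27086) x21254) x24170) x22226) x22874) x22658) x22766) x22694) x22718) x22714) x42394)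
    (Nat.sub (Nat.sub (Nat.sub (Nat.add (Nat.add (Nat.add (Nat.add (Nat.add (Nat.add (Nat.add (Nat.add (Nat.add (Nat.add (Nat.add C x9592) x27088) x21256) x24172) x22228) x22876) x22660) x22768) x22696) x22720) x22712) x22714) x42396) x3032)
    (Nat.sub (Nat.sub (Nat.add (Nat.add (Nat.add (Nat.add (Nat.add (Nat.add (Nat.add (Nat.add (Nat.add (Nat.add (Nat.add (Nat.add C x9596) x27092) x21260) x24176) x22232) x22880) x22664) x22772) x22700) x22736) x22712) x22720) x22718) x42400)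
    (Nat.sub (Nat.sub (Nat.add (Nat.add (Nat.add (Nat.add (Nat.add (Nat.add (Nat.add (Nat.add (Nat.add (Nat.add (Nat.add (Nat.add (Nat.add (Nat.add C x9598) x27094) x21262) x24178) x22234) x22882) x22666) x22774) x22702) x22738) x22714) x22726) x22718) x22722) x42402) x3038)
    (Nat.sub (Nat.sub (Nat.add (Nat.add (Nat.add (Nat.add (Nat.add (Nat.add (Nat.add (Nat.add (Nat.add (Nat.add (Nat.add (Nat.add C x9600) x27096) x21264) x24180) x22236) x22884) x22668) x22776) x22704) x22740) x22728) x22720) x22722) x3040)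
    (Nat.sub (Nat.sub (Nat.sub (Nat.add (Nat.add (Nat.add (Nat.add (Nat.add (Nat.add (Nat.add (Nat.add (Nat.add (Nat.add (Nat.add C x9604) x27100) x21268) x24184) x22240) x22888) x22672) x22780) x22744) x22720) x22728) x22726) x42408) x3044)
    (Nat.sub (Nat.add (Nat.add (Nat.add (Nat.add (Nat.add (Nat.add (Nat.add (Nat.add (Nat.add (Nat.add (Nat.add C x9606) x27102) x21270) x24186) x22242) x22890) x22674) x22782) x22746) x22722) x22726) x3046)
    (Nat.sub (Nat.sub (Nat.add (Nat.add (Nat.add (Nat.add (Nat.add (Nat.add (Nat.add (Nat.add (Nat.add C x9614) x27110) x21278) x24194) x22250) x22898) x22790) x22718) x22738) x22736) x42418)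
    (Nat.sub (Nat.sub (Nat.sub (Nat.add (Nat.add (Nat.add (Nat.add (Nat.add (Nat.add (Nat.add (Nat.add (Nat.add (Nat.add (Nat.add C x9616) x27112) x21280) x24196) x22252) x22900) x22792) x22720) x22744) x22736) x22740) x22738) x42420) x3056)
    (Nat.sub (Nat.sub (Nat.add (Nat.add (Nat.add (Nat.add (Nat.add (Nat.add (Nat.add (Nat.add (Nat.add (Nat.add C x9618) x27114) x21282) x24198) x22254) x22902) x22794) x22722) x22746) x22738) (Nat.mul x22740 (nat_lit 3))) x3058)
    (Nat.sub (Nat.sub (Nat.add (Nat.add (Nat.add (Nat.add (Nat.add (Nat.add (Nat.add (Nat.add (Nat.add (Nat.add C x9622) x27118) x21286) x24202) x22258) x22906) x22798) x22726) x22738) x22746) x42426) x3062)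
    (Nat.sub (Nat.add (Nat.add (Nat.add (Nat.add (Nat.add (Nat.add (Nat.add (Nat.add (Nat.add (Nat.add (Nat.add C x9624) x27120) x21288) x24204) x22260) x22908) x22800) x22728) x22740) x22752) x22744) x3064)
    (Nat.sub (Nat.add (Nat.add (Nat.add (Nat.add (Nat.add (Nat.add (Nat.add (Nat.add (Nat.add C x22752) x9630) x27126) x21294) x24210) x22266) x22914) x22806) x22746) x3070)
    (Nat.sub (Nat.sub (Nat.add (Nat.add (Nat.add (Nat.add (Nat.add (Nat.add (Nat.add (Nat.add (Nat.add C x9644) x27140) x21308) x24224) x22280) x22928) x22712) x22772) x22768) x22766) x42448)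
    (Nat.sub (Nat.sub (Nat.sub (Nat.add (Nat.add (Nat.add (Nat.add (Nat.add (Nat.add (Nat.add (Nat.add (Nat.add C x9646) x27142) x21310) x24226) x22282) x22930) x22714) x22774) x22766) (Nat.mul x22768 (nat_lit 2))) x42450) x3086)
    (Nat.sub (Nat.sub (Nat.add (Nat.add (Nat.add (Nat.add (Nat.add (Nat.add (Nat.add (Nat.add (Nat.add (Nat.add C x9650) x27146) x21314) x24230) x22286) x22934) x22718) x22790) x22766) x22774) (Nat.mul x22772 (nat_lit 3))) x42454)
    (Nat.sub (Nat.sub (Nat.sub (Nat.add (Nat.add (Nat.add (Nat.add (Nat.add (Nat.add (Nat.add (Nat.add (Nat.add (Nat.add (Nat.add (Nat.add C x9652) x27148) x21316) x24232) x22288) x22936) x22720) x22792) x22768) x22780) x22772) x22776) (Nat.mul x22774 (nat_lit 2))) x42456) x3092)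
    (Nat.sub (Nat.sub (Nat.add (Nat.add (Nat.add (Nat.add (Nat.add (Nat.add (Nat.add (Nat.add (Nat.add (Nat.add C x9654) x27150) x21318) x24234) x22290) x22938) x22722) x22794) x22782) x22774) (Nat.mul x22776 (nat_lit 3))) x3094)
    (Nat.sub (Nat.sub (Nat.sub (Nat.add (Nat.add (Nat.add (Nat.add (Nat.add (Nat.add (Nat.add (Nat.add (Nat.add (Nat.add C x9658) x27154) x21322) x24238) x22294) x22942) x22726) x22798) x22774) x22782) (Nat.mul x22780 (nat_lit 4))) x42462) x3098)
    (Nat.sub (Nat.sub (Nat.add (Nat.add (Nat.add (Nat.add (Nat.add (Nat.add (Nat.add (Nat.add (Nat.add (Nat.add C x9660) x27156) x21324) x24240) x22296) x22944) x22728) x22800) x22776) x22780) (Nat.mul x22782 (nat_lit 3))) x3100)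
    (Nat.sub (Nat.sub (Nat.add (Nat.add (Nat.add (Nat.add (Nat.add (Nat.add (Nat.add (Nat.add (Nat.add C x9668) x27164) x21332) x24248) x22304) x22952) x22736) x22772) x22792) x22790) x42472)
    (Nat.sub (Nat.sub (Nat.sub (Nat.add (Nat.add (Nat.add (Nat.add (Nat.add (Nat.add (Nat.add (Nat.add (Nat.add (Nat.add (Nat.add C x9670) x27166) x21334) x24250) x22306) x22954) x22738) x22774) x22798) x22790) x22794) x22792) x42474) x3110)
    (Nat.sub (Nat.sub (Nat.add (Nat.add (Nat.add (Nat.add (Nat.add (Nat.add (Nat.add (Nat.add (Nat.add (Nat.add C x9672) x27168) x21336) x24252) x22308) x22956) x22740) x22776) x22800) x22792) (Nat.mul x22794 (nat_lit 3))) x3112)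
    (Nat.sub (Nat.sub (Nat.sub (Nat.add (Nat.add (Nat.add (Nat.add (Nat.add (Nat.add (Nat.add (Nat.add (Nat.add (Nat.add (Nat.add C x9676) x27172) x21340) x24256) x22312) x22960) x22744) x22780) x22816) x22792) x22800) x22798) x42480) x3116)
    (Nat.sub (Nat.sub (Nat.add (Nat.add (Nat.add (Nat.add (Nat.add (Nat.add (Nat.add (Nat.add (Nat.add (Nat.add (Nat.add (Nat.add C x9678) x27174) x21342) x24258) x22314) x22962) x22746) x22782) x22818) x22794) x22806) x22798) x22800) x3118)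
    (Nat.sub (Nat.sub (Nat.add (Nat.add (Nat.add (Nat.add (Nat.add (Nat.add (Nat.add (Nat.add (Nat.add C x9684) x27180) x21348) x24264) x22320) x22968) x22752) x22824) x22800) x22806) x3124)
    (Nat.sub (Nat.sub (Nat.add (Nat.add (Nat.add (Nat.add (Nat.add (Nat.add (Nat.add (Nat.add C x9694) x27190) x21358) x24274) x22330) x22978) x22798) x22818) x42498) x3134)
    (Nat.sub (Nat.sub (Nat.add (Nat.add (Nat.add (Nat.add (Nat.add (Nat.add (Nat.add (Nat.add (Nat.add C x9696) x27192) x21360) x24276) x22332) x22980) x22800) x22824) x22816) x22818) x3136)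
    (Nat.sub (Nat.add (Nat.add (Nat.add (Nat.add (Nat.add (Nat.add (Nat.add (Nat.add (Nat.add C x22824) x9702) x27198) x21366) x24282) x22338) x22986) x22806) x22818) x3142)
    (Nat.sub (Nat.add (Nat.add (Nat.add (Nat.add (Nat.add (Nat.add (Nat.add (Nat.add (Nat.add C (Nat.mul x22850 (nat_lit 2))) x9728) x27224) x21392) x24308) x22364) x23336) x22688) x22856) x42532)
    (Nat.sub (Nat.add (Nat.add (Nat.add (Nat.add (Nat.add (Nat.add (Nat.add (Nat.add (Nat.add (Nat.add (Nat.add (Nat.add C x22856) x9734) x27230) x21398) x24314) x22370) x23342) x22694) x22874) x22850) x22862) x22858) x42538)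
    (Nat.sub (Nat.sub (Nat.add (Nat.add (Nat.add (Nat.add (Nat.add (Nat.add (Nat.add (Nat.add (Nat.add (Nat.add (Nat.add C x22858) x9736) x27232) x21400) x24316) x22372) x23344) x22696) x22876) x22864) x22856) x42540) x3176)
    (Nat.sub (Nat.sub (Nat.add (Nat.add (Nat.add (Nat.add (Nat.add (Nat.add (Nat.add (Nat.add (Nat.add (Nat.add C x9740) x27236) x21404) x24320) x22376) x23348) x22700) x22880) x22856) x22864) (Nat.mul x22862 (nat_lit 2))) x42544)
    (Nat.sub (Nat.sub (Nat.add (Nat.add (Nat.add (Nat.add (Nat.add (Nat.add (Nat.add (Nat.add (Nat.add (Nat.add (Nat.add C x9742) x27238) x21406) x24322) x22378) x23350) x22702) x22882) x22858) x22862) x22866) x42546) x3182)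
    (Nat.sub (Nat.add (Nat.add (Nat.add (Nat.add (Nat.add (Nat.add (Nat.add (Nat.add (Nat.add C x9744) x27240) x21408) x24324) x22380) x23352) x22704) x22884) x22864) x3184)
    (Nat.sub (Nat.add (Nat.add (Nat.add (Nat.add (Nat.add (Nat.add (Nat.add (Nat.add (Nat.add (Nat.add (Nat.add C x9752) x27248) x21416) x24332) x22388) x23360) x22712) x22928) x22856) x22880) x22876) x42556)
    (Nat.sub (Nat.sub (Nat.sub (Nat.add (Nat.add (Nat.add (Nat.add (Nat.add (Nat.add (Nat.add (Nat.add (Nat.add (Nat.add (Nat.add C x9754) x27250) x21418) x24334) x22390) x23362) x22714) x22930) x22858) x22882) x22874) x22876) x42558) x3194)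
    (Nat.sub (Nat.sub (Nat.add (Nat.add (Nat.add (Nat.add (Nat.add (Nat.add (Nat.add (Nat.add (Nat.add (Nat.add (Nat.add (Nat.add C x9758) x27254) x21422) x24338) x22394) x23366) x22718) x22934) x22862) x22898) x22874) x22882) x22880) x42562)
    (Nat.sub (Nat.sub (Nat.add (Nat.add (Nat.add (Nat.add (Nat.add (Nat.add (Nat.add (Nat.add (Nat.add (Nat.add (Nat.add (Nat.add (Nat.add (Nat.add C x9760) x27256) x21424) x24340) x22396) x23368) x22720) x22936) x22864) x22900) x22876) x22888) x22880) x22884) x42564) x3200)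
    (Nat.sub (Nat.sub (Nat.add (Nat.add (Nat.add (Nat.add (Nat.add (Nat.add (Nat.add (Nat.add (Nat.add (Nat.add (Nat.add (Nat.add C x9762) x27258) x21426) x24342) x22398) x23370) x22722) x22938) x22866) x22902) x22890) x22882) x22884) x3202)
    (Nat.sub (Nat.sub (Nat.sub (Nat.add (Nat.add (Nat.add (Nat.add (Nat.add (Nat.add (Nat.add (Nat.add (Nat.add (Nat.add (Nat.add C x9766) x27262) x21430) x24346) x22402) x23374) x22726) x22942) x22906) x22882) x22890) x22888) x42570) x3206)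
    (Nat.sub (Nat.add (Nat.add (Nat.add (Nat.add (Nat.add (Nat.add (Nat.add (Nat.add (Nat.add (Nat.add (Nat.add C x9768) x27264) x21432) x24348) x22404) x23376) x22728) x22944) x22908) x22884) x22888) x3208)
    (Nat.sub (Nat.sub (Nat.add (Nat.add (Nat.add (Nat.add (Nat.add (Nat.add (Nat.add (Nat.add (Nat.add (Nat.add C x9776) x27272) x21440) x24356) x22412) x23384) x22736) x22952) x22880) x22900) (Nat.mul x22898 (nat_lit 2))) x42580)
    (Nat.sub (Nat.sub (Nat.sub (Nat.add (Nat.add (Nat.add (Nat.add (Nat.add (Nat.add (Nat.add (Nat.add (Nat.add (Nat.add (Nat.add (Nat.add C x9778) x27274) x21442) x24358) x22414) x23386) x22738) x22954) x22882) x22906) x22898) x22902) (Nat.mul x22900 (nat_lit 2))) x42582) x3218)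
    (Nat.sub (Nat.sub (Nat.add (Nat.add (Nat.add (Nat.add (Nat.add (Nat.add (Nat.add (Nat.add (Nat.add (Nat.add (Nat.add C x9780) x27276) x21444) x24360) x22416) x23388) x22740) x22956) x22884) x22908) x22900) (Nat.mul x22902 (nat_lit 4))) x3220)
    (Nat.sub (Nat.sub (Nat.sub (Nat.add (Nat.add (Nat.add (Nat.add (Nat.add (Nat.add (Nat.add (Nat.add (Nat.add (Nat.add (Nat.add C x9784) x27280) x21448) x24364) x22420) x23392) x22744) x22960) x22888) x22900) x22908) x22906) x42588) x3224)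
    (Nat.sub (Nat.sub (Nat.add (Nat.add (Nat.add (Nat.add (Nat.add (Nat.add (Nat.add (Nat.add (Nat.add (Nat.add (Nat.add (Nat.add C x9786) x27282) x21450) x24366) x22422) x23394) x22746) x22962) x22890) x22902) x22914) x22906) x22908) x3226)
    (Nat.sub (Nat.add (Nat.add (Nat.add (Nat.add (Nat.add (Nat.add (Nat.add (Nat.add (Nat.add C x9792) x27288) x21456) x24372) x22428) x23400) x22752) x22968) x22908) x3232)
    (Nat.sub (Nat.add (Nat.add (Nat.add (Nat.add (Nat.add (Nat.add (Nat.add (Nat.add (Nat.add (Nat.add (Nat.add (Nat.add C x22928) x9806) x27302) x21470) x24386) x22442) x23414) x22766) x23090) x22874) x22934) x22930) x42610)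
    (Nat.sub (Nat.sub (Nat.add (Nat.add (Nat.add (Nat.add (Nat.add (Nat.add (Nat.add (Nat.add (Nat.add (Nat.add (Nat.add C x9808) x27304) x21472) x24388) x22444) x23416) x22768) x23092) x22876) x22936) x22928) x42612) x3248)
    (Nat.sub (Nat.sub (Nat.add (Nat.add (Nat.add (Nat.add (Nat.add (Nat.add (Nat.add (Nat.add (Nat.add (Nat.add (Nat.add (Nat.add C x9812) x27308) x21476) x24392) x22448) x23420) x22772) x23096) x22880) x22952) x22928) x22936) x22934) x42616)
    (Nat.sub (Nat.sub (Nat.add (Nat.add (Nat.add (Nat.add (Nat.add (Nat.add (Nat.add (Nat.add (Nat.add (Nat.add (Nat.add (Nat.add (Nat.add (Nat.add C x9814) x27310) x21478) x24394) x22450) x23422) x22774) x23098) x22882) x22954) x22930) x22942) x22934) x22938) x42618) x3254)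
    (Nat.sub (Nat.sub (Nat.add (Nat.add (Nat.add (Nat.add (Nat.add (Nat.add (Nat.add (Nat.add (Nat.add (Nat.add (Nat.add (Nat.add C x9816) x27312) x21480) x24396) x22452) x23424) x22776) x23100) x22884) x22956) x22944) x22936) x22938) x3256)
    (Nat.sub (Nat.sub (Nat.sub (Nat.add (Nat.add (Nat.add (Nat.add (Nat.add (Nat.add (Nat.add (Nat.add (Nat.add (Nat.add (Nat.add (Nat.add C x9820) x27316) x21484) x24400) x22456) x23428) x22780) x23104) x22888) x22960) x22936) x22944) (Nat.mul x22942 (nat_lit 2))) x42624) x3260)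
    (Nat.sub (Nat.sub (Nat.add (Nat.add (Nat.add (Nat.add (Nat.add (Nat.add (Nat.add (Nat.add (Nat.add (Nat.add (Nat.add (Nat.add C x9822) x27318) x21486) x24402) x22458) x23430) x22782) x23106) x22890) x22962) x22938) x22942) x22944) x3262)
    (Nat.sub (Nat.add (Nat.add (Nat.add (Nat.add (Nat.add (Nat.add (Nat.add (Nat.add (Nat.add (Nat.add (Nat.add (Nat.add C x9830) x27326) x21494) x24410) x22466) x23438) x22790) x23114) x22898) x23006) x22934) x22954) x42634)
    (Nat.sub (Nat.sub (Nat.add (Nat.add (Nat.add (Nat.add (Nat.add (Nat.add (Nat.add (Nat.add (Nat.add (Nat.add (Nat.add (Nat.add (Nat.add (Nat.add C x9832) x27328) x21496) x24412) x22468) x23440) x22792) x23116) x22900) x23008) x22936) x22960) x22952) x22956) x42636) x3272)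
    (Nat.sub (Nat.sub (Nat.add (Nat.add (Nat.add (Nat.add (Nat.add (Nat.add (Nat.add (Nat.add (Nat.add (Nat.add (Nat.add (Nat.add (Nat.add C x9834) x27330) x21498) x24414) x22470) x23442) x22794) x23118) x22902) x23010) x22938) x22962) x22954) (Nat.mul x22956 (nat_lit 2))) x3274)
    (Nat.sub (Nat.sub (Nat.add (Nat.add (Nat.add (Nat.add (Nat.add (Nat.add (Nat.add (Nat.add (Nat.add (Nat.add (Nat.add (Nat.add (Nat.add (Nat.add C x9838) x27334) x21502) x24418) x22474) x23446) x22798) x23122) x22906) x23014) x22942) x22978) x22954) x22962) x42642) x3278)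
    (Nat.sub (Nat.add (Nat.add (Nat.add (Nat.add (Nat.add (Nat.add (Nat.add (Nat.add (Nat.add (Nat.add (Nat.add (Nat.add (Nat.add (Nat.add (Nat.add C x9840) x27336) x21504) x24420) x22476) x23448) x22800) x23124) x22908) x23016) x22944) x22980) x22956) x22968) x22960) x3280)
    (Nat.sub (Nat.add (Nat.add (Nat.add (Nat.add (Nat.add (Nat.add (Nat.add (Nat.add (Nat.add (Nat.add (Nat.add (Nat.add C x9846) x27342) x21510) x24426) x22482) x23454) x22806) x23130) x22914) x23022) x22986) x22962) x3286)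
    (Nat.sub (Nat.sub (Nat.add (Nat.add (Nat.add (Nat.add (Nat.add (Nat.add (Nat.add (Nat.add (Nat.add (Nat.add (Nat.add C x9856) x27352) x21520) x24436) x22492) x23464) x22816) x23140) x23032) x22960) x22980) x42660) x3296)
    (Nat.sub (Nat.sub (Nat.add (Nat.add (Nat.add (Nat.add (Nat.add (Nat.add (Nat.add (Nat.add (Nat.add (Nat.add (Nat.add (Nat.add C x9858) x27354) x21522) x24438) x22494) x23466) x22818) x23142) x23034) x22962) x22986) x22978) x22980) x3298)
    (Nat.sub (Nat.add (Nat.add (Nat.add (Nat.add (Nat.add (Nat.add (Nat.add (Nat.add (Nat.add (Nat.add (Nat.add (Nat.add C x22986) x9864) x27360) x21528) x24444) x22500) x23472) x22824) x23148) x23040) x22968) x22980) x3304)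
    (Nat.sub (Nat.add (Nat.add (Nat.add (Nat.add (Nat.add (Nat.add (Nat.add (Nat.add (Nat.add C x9884) x27380) x21548) x24464) x22520) x23492) x23168) x22952) x23008) x42688)
    (Nat.sub (Nat.sub (Nat.add (Nat.add (Nat.add (Nat.add (Nat.add (Nat.add (Nat.add (Nat.add (Nat.add (Nat.add (Nat.add C x9886) x27382) x21550) x24466) x22522) x23494) x23170) x22954) x23014) x23006) x23010) x42690) x3326)
    (Nat.sub (Nat.sub (Nat.add (Nat.add (Nat.add (Nat.add (Nat.add (Nat.add (Nat.add (Nat.add (Nat.add (Nat.add C x9888) x27384) x21552) x24468) x22524) x23496) x23172) x22956) x23016) x23008) (Nat.mul x23010 (nat_lit 2))) x3328)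
    (Nat.sub (Nat.sub (Nat.sub (Nat.add (Nat.add (Nat.add (Nat.add (Nat.add (Nat.add (Nat.add (Nat.add (Nat.add (Nat.add (Nat.add C x9892) x27388) x21556) x24472) x22528) x23500) x23176) x22960) x23032) x23008) x23016) x23014) x42696) x3332)
    (Nat.sub (Nat.sub (Nat.add (Nat.add (Nat.add (Nat.add (Nat.add (Nat.add (Nat.add (Nat.add (Nat.add (Nat.add (Nat.add (Nat.add C x9894) x27390) x21558) x24474) x22530) x23502) x23178) x22962) x23034) x23010) x23022) x23014) x23016) x3334)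
    (Nat.sub (Nat.sub (Nat.add (Nat.add (Nat.add (Nat.add (Nat.add (Nat.add (Nat.add (Nat.add (Nat.add (Nat.add C x9900) x27396) x21564) x24480) x22536) x23508) x23184) x22968) x23040) x23016) (Nat.mul x23022 (nat_lit 2))) x3340)
    (Nat.sub (Nat.sub (Nat.add (Nat.add (Nat.add (Nat.add (Nat.add (Nat.add (Nat.add (Nat.add (Nat.add (Nat.add (Nat.add C x23032) x9910) x27406) x21574) x24490) x22546) x23518) x23194) x22978) x23014) x23034) x42714) x3350)
    (Nat.sub (Nat.add (Nat.add (Nat.add (Nat.add (Nat.add (Nat.add (Nat.add (Nat.add (Nat.add (Nat.add (Nat.add C x9912) x27408) x21576) x24492) x22548) x23520) x23196) x22980) x23016) x23040) x23032) x3352)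
    (Nat.sub (Nat.add (Nat.add (Nat.add (Nat.add (Nat.add (Nat.add (Nat.add (Nat.add (Nat.add (Nat.add (Nat.add (Nat.add C x23040) x9918) x27414) x21582) x24498) x22554) x23526) x23202) x22986) x23022) x23058) x23034) x3358)
    (Nat.sub (Nat.add (Nat.add (Nat.add (Nat.add (Nat.add (Nat.add (Nat.add (Nat.add (Nat.add C (Nat.mul x23058 (nat_lit 2))) x9936) x27432) x21600) x24516) x22572) x23544) x23220) x23040) x3376)
    (Nat.sub (Nat.add (Nat.add (Nat.add (Nat.add (Nat.add (Nat.add (Nat.add (Nat.add (Nat.add C x23090) x9968) x27464) x21632) x24548) x23576) x22928) x23096) x23092) x42772)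
    (Nat.sub (Nat.sub (Nat.add (Nat.add (Nat.add (Nat.add (Nat.add (Nat.add (Nat.add (Nat.add C x9970) x27466) x21634) x24550) x23578) x22930) x23098) x23090) x42774) x3410)
    (Nat.sub (Nat.sub (Nat.add (Nat.add (Nat.add (Nat.add (Nat.add (Nat.add (Nat.add (Nat.add (Nat.add C x9974) x27470) x21638) x24554) x23582) x22934) x23114) x23090) x23098) x23096) x42778)
    (Nat.sub (Nat.sub (Nat.add (Nat.add (Nat.add (Nat.add (Nat.add (Nat.add (Nat.add (Nat.add (Nat.add (Nat.add (Nat.add C x9976) x27472) x21640) x24556) x23584) x22936) x23116) x23092) x23104) x23096) x23100) x42780) x3416)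
    (Nat.sub (Nat.sub (Nat.add (Nat.add (Nat.add (Nat.add (Nat.add (Nat.add (Nat.add (Nat.add (Nat.add C x9978) x27474) x21642) x24558) x23586) x22938) x23118) x23106) x23098) x23100) x3418)
    (Nat.sub (Nat.sub (Nat.sub (Nat.add (Nat.add (Nat.add (Nat.add (Nat.add (Nat.add (Nat.add (Nat.add (Nat.add C x9982) x27478) x21646) x24562) x23590) x22942) x23122) x23098) x23106) (Nat.mul x23104 (nat_lit 2))) x42786) x3422)
    (Nat.sub (Nat.sub (Nat.add (Nat.add (Nat.add (Nat.add (Nat.add (Nat.add (Nat.add (Nat.add (Nat.add C x9984) x27480) x21648) x24564) x23592) x22944) x23124) x23100) x23104) x23106) x3424)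
    (Nat.sub (Nat.sub (Nat.add (Nat.add (Nat.add (Nat.add (Nat.add (Nat.add (Nat.add (Nat.add (Nat.add C x9992) x27488) x21656) x24572) x23600) x22952) x23168) x23096) x23116) x23114) x42796)
    (Nat.sub (Nat.sub (Nat.sub (Nat.add (Nat.add (Nat.add (Nat.add (Nat.add (Nat.add (Nat.add (Nat.add (Nat.add (Nat.add (Nat.add C x9994) x27490) x21658) x24574) x23602) x22954) x23170) x23098) x23122) x23114) x23118) x23116) x42798) x3434)
    (Nat.sub (Nat.sub (Nat.add (Nat.add (Nat.add (Nat.add (Nat.add (Nat.add (Nat.add (Nat.add (Nat.add (Nat.add C x9996) x27492) x21660) x24576) x23604) x22956) x23172) x23100) x23124) x23116) (Nat.mul x23118 (nat_lit 3))) x3436)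
    (Nat.sub (Nat.sub (Nat.sub (Nat.add (Nat.add (Nat.add (Nat.add (Nat.add (Nat.add (Nat.add (Nat.add (Nat.add (Nat.add (Nat.add C x10000) x27496) x21664) x24580) x23608) x22960) x23176) x23104) x23140) x23116) x23124) x23122) x42804) x3440)
    (Nat.sub (Nat.sub (Nat.add (Nat.add (Nat.add (Nat.add (Nat.add (Nat.add (Nat.add (Nat.add (Nat.add (Nat.add (Nat.add (Nat.add C x10002) x27498) x21666) x24582) x23610) x22962) x23178) x23106) x23142) x23118) x23130) x23122) x23124) x3442)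
    (Nat.sub (Nat.sub (Nat.add (Nat.add (Nat.add (Nat.add (Nat.add (Nat.add (Nat.add (Nat.add (Nat.add C x10008) x27504) x21672) x24588) x23616) x22968) x23184) x23148) x23124) x23130) x3448)
    (Nat.sub (Nat.sub (Nat.sub (Nat.add (Nat.add (Nat.add (Nat.add (Nat.add (Nat.add (Nat.add (Nat.add (Nat.add C x10018) x27514) x21682) x24598) x23626) x22978) x23194) x23122) x23142) (Nat.mul x23140 (nat_lit 2))) x42822) x3458)
    (Nat.sub (Nat.sub (Nat.add (Nat.add (Nat.add (Nat.add (Nat.add (Nat.add (Nat.add (Nat.add (Nat.add (Nat.add C x10020) x27516) x21684) x24600) x23628) x22980) x23196) x23124) x23148) x23140) (Nat.mul x23142 (nat_lit 3))) x3460)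
    (Nat.sub (Nat.sub (Nat.add (Nat.add (Nat.add (Nat.add (Nat.add (Nat.add (Nat.add (Nat.add (Nat.add C x10026) x27522) x21690) x24606) x23634) x22986) x23202) x23130) x23142) x23148) x3466)
    (Nat.sub (Nat.add (Nat.add (Nat.add (Nat.add (Nat.add (Nat.add (Nat.add (Nat.add (Nat.add C x23168) x10046) x27542) x21710) x24626) x23654) x23006) x23114) x23170) x42850)
    (Nat.sub (Nat.sub (Nat.add (Nat.add (Nat.add (Nat.add (Nat.add (Nat.add (Nat.add (Nat.add (Nat.add (Nat.add (Nat.add C x23170) x10048) x27544) x21712) x24628) x23656) x23008) x23116) x23176) x23168) x23172) x42852) x3488)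
    (Nat.sub (Nat.sub (Nat.add (Nat.add (Nat.add (Nat.add (Nat.add (Nat.add (Nat.add (Nat.add (Nat.add C x10050) x27546) x21714) x24630) x23658) x23010) x23118) x23178) x23170) x23172) x3490)
    (Nat.sub (Nat.sub (Nat.add (Nat.add (Nat.add (Nat.add (Nat.add (Nat.add (Nat.add (Nat.add (Nat.add (Nat.add C x10054) x27550) x21718) x24634) x23662) x23014) x23122) x23194) x23170) x23178) x42858) x3494)
    (Nat.sub (Nat.add (Nat.add (Nat.add (Nat.add (Nat.add (Nat.add (Nat.add (Nat.add (Nat.add (Nat.add (Nat.add C x10056) x27552) x21720) x24636) x23664) x23016) x23124) x23196) x23172) x23184) x23176) x3496)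
    (Nat.sub (Nat.sub (Nat.add (Nat.add (Nat.add (Nat.add (Nat.add (Nat.add (Nat.add (Nat.add (Nat.add C x10062) x27558) x21726) x24642) x23670) x23022) x23130) x23202) x23178) x23184) x3502)
    (Nat.sub (Nat.sub (Nat.add (Nat.add (Nat.add (Nat.add (Nat.add (Nat.add (Nat.add (Nat.add (Nat.add (Nat.add (Nat.add C x23194) x10072) x27568) x21736) x24652) x23680) x23032) x23140) x23248) x23176) x23196) x42876) x3512)
    (Nat.sub (Nat.add (Nat.add (Nat.add (Nat.add (Nat.add (Nat.add (Nat.add (Nat.add (Nat.add (Nat.add (Nat.add C x10074) x27570) x21738) x24654) x23682) x23034) x23142) x23250) x23178) x23202) x23194) x3514)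
    (Nat.sub (Nat.add (Nat.add (Nat.add (Nat.add (Nat.add (Nat.add (Nat.add (Nat.add (Nat.add (Nat.add (Nat.add (Nat.add C x23202) x10080) x27576) x21744) x24660) x23688) x23040) x23148) x23256) x23184) x23220) x23196) x3520)
    (Nat.sub (Nat.add (Nat.add (Nat.add (Nat.add (Nat.add (Nat.add (Nat.add (Nat.add (Nat.add C x23220) x10098) x27594) x21762) x24678) x23706) x23058) x23274) x23202) x3538)
    (Nat.sub (Nat.sub (Nat.add (Nat.add (Nat.add (Nat.add (Nat.add (Nat.add (Nat.add (Nat.add C (Nat.mul x23248 (nat_lit 2))) x10126) x27622) x21790) x24706) x23734) x23194) x23250) x42930) x3566)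
    (Nat.sub (Nat.add (Nat.add (Nat.add (Nat.add (Nat.add (Nat.add (Nat.add (Nat.add (Nat.add C x23250) x10128) x27624) x21792) x24708) x23736) x23196) x23256) x23248) x3568)
    (Nat.sub (Nat.add (Nat.add (Nat.add (Nat.add (Nat.add (Nat.add (Nat.add (Nat.add (Nat.add C x23256) x10134) x27630) x21798) x24714) x23742) x23202) x23274) x23250) x3574)
    (Nat.sub (Nat.add (Nat.add (Nat.add (Nat.add (Nat.add (Nat.add (Nat.add (Nat.add C (Nat.mul x23274 (nat_lit 3))) x10152) x27648) x21816) x24732) x23760) x23220) x23256) x3592)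
    (Nat.sub (Nat.add (Nat.add (Nat.add (Nat.add (Nat.add (Nat.add C (Nat.mul x23336 (nat_lit 2))) x10214) x27710) x24794) x22850) x23342) x43018)
    (Nat.sub (Nat.add (Nat.add (Nat.add (Nat.add (Nat.add (Nat.add (Nat.add (Nat.add (Nat.add C x23342) x10220) x27716) x24800) x22856) x23360) x23336) x23348) x23344) x43024)
    (Nat.sub (Nat.sub (Nat.add (Nat.add (Nat.add (Nat.add (Nat.add (Nat.add (Nat.add (Nat.add C x23344) x10222) x27718) x24802) x22858) x23362) x23350) x23342) x43026) x3662)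
    (Nat.sub (Nat.sub (Nat.add (Nat.add (Nat.add (Nat.add (Nat.add (Nat.add (Nat.add C x10226) x27722) x24806) x22862) x23366) x23342) x23350) (Nat.mul x23348 (nat_lit 2))) x43030)
    (Nat.sub (Nat.sub (Nat.add (Nat.add (Nat.add (Nat.add (Nat.add (Nat.add (Nat.add (Nat.add C x10228) x27724) x24808) x22864) x23368) x23344) x23348) x23352) x43032) x3668)
    (Nat.sub (Nat.add (Nat.add (Nat.add (Nat.add (Nat.add (Nat.add C x10230) x27726) x24810) x22866) x23370) x23350) x3670)
    (Nat.sub (Nat.add (Nat.add (Nat.add (Nat.add (Nat.add (Nat.add (Nat.add (Nat.add C x10238) x27734) x24818) x22874) x23414) x23342) x23366) x23362) x43042)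
    (Nat.sub (Nat.sub (Nat.sub (Nat.add (Nat.add (Nat.add (Nat.add (Nat.add (Nat.add (Nat.add (Nat.add C x10240) x27736) x24820) x22876) x23416) x23344) x23368) x23360) x23362) x43044) x3680)
    (Nat.sub (Nat.sub (Nat.add (Nat.add (Nat.add (Nat.add (Nat.add (Nat.add (Nat.add (Nat.add (Nat.add C x10244) x27740) x24824) x22880) x23420) x23348) x23384) x23360) x23368) x23366) x43048)
    (Nat.sub (Nat.sub (Nat.add (Nat.add (Nat.add (Nat.add (Nat.add (Nat.add (Nat.add (Nat.add (Nat.add (Nat.add (Nat.add C x10246) x27742) x24826) x22882) x23422) x23350) x23386) x23362) x23374) x23366) x23370) x43050) x3686)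
    (Nat.sub (Nat.sub (Nat.add (Nat.add (Nat.add (Nat.add (Nat.add (Nat.add (Nat.add (Nat.add (Nat.add C x10248) x27744) x24828) x22884) x23424) x23352) x23388) x23376) x23368) x23370) x3688)
    (Nat.sub (Nat.sub (Nat.sub (Nat.add (Nat.add (Nat.add (Nat.add (Nat.add (Nat.add (Nat.add (Nat.add C x10252) x27748) x24832) x22888) x23428) x23392) x23368) x23376) x23374) x43056) x3692)
    (Nat.sub (Nat.add (Nat.add (Nat.add (Nat.add (Nat.add (Nat.add (Nat.add (Nat.add C x10254) x27750) x24834) x22890) x23430) x23394) x23370) x23374) x3694)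
    (Nat.sub (Nat.sub (Nat.add (Nat.add (Nat.add (Nat.add (Nat.add (Nat.add (Nat.add C x10262) x27758) x24842) x22898) x23438) x23366) x23386) (Nat.mul x23384 (nat_lit 2))) x43066)
    (Nat.sub (Nat.sub (Nat.sub (Nat.add (Nat.add (Nat.add (Nat.add (Nat.add (Nat.add (Nat.add (Nat.add (Nat.add C x10264) x27760) x24844) x22900) x23440) x23368) x23392) x23384) x23388) (Nat.mul x23386 (nat_lit 2))) x43068) x3704)
    (Nat.sub (Nat.sub (Nat.add (Nat.add (Nat.add (Nat.add (Nat.add (Nat.add (Nat.add (Nat.add C x10266) x27762) x24846) x22902) x23442) x23370) x23394) x23386) (Nat.mul x23388 (nat_lit 4))) x3706)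
    (Nat.sub (Nat.sub (Nat.sub (Nat.add (Nat.add (Nat.add (Nat.add (Nat.add (Nat.add (Nat.add (Nat.add C x10270) x27766) x24850) x22906) x23446) x23374) x23386) x23394) x23392) x43074) x3710)
    (Nat.sub (Nat.sub (Nat.add (Nat.add (Nat.add (Nat.add (Nat.add (Nat.add (Nat.add (Nat.add (Nat.add C x10272) x27768) x24852) x22908) x23448) x23376) x23388) x23400) x23392) x23394) x3712)
    (Nat.sub (Nat.add (Nat.add (Nat.add (Nat.add (Nat.add (Nat.add C x10278) x27774) x24858) x22914) x23454) x23394) x3718)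
    (Nat.sub (Nat.add (Nat.add (Nat.add (Nat.add (Nat.add (Nat.add (Nat.add (Nat.add C x10292) x27788) x24872) x22928) x23576) x23360) x23420) x23416) x43096)
    (Nat.sub (Nat.sub (Nat.sub (Nat.add (Nat.add (Nat.add (Nat.add (Nat.add (Nat.add (Nat.add (Nat.add C x10294) x27790) x24874) x22930) x23578) x23362) x23422) x23414) x23416) x43098) x3734)
    (Nat.sub (Nat.sub (Nat.add (Nat.add (Nat.add (Nat.add (Nat.add (Nat.add (Nat.add (Nat.add (Nat.add C x10298) x27794) x24878) x22934) x23582) x23366) x23438) x23414) x23422) (Nat.mul x23420 (nat_lit 2))) x43102)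
    (Nat.sub (Nat.sub (Nat.sub (Nat.add (Nat.add (Nat.add (Nat.add (Nat.add (Nat.add (Nat.add (Nat.add (Nat.add (Nat.add (Nat.add C x10300) x27796) x24880) x22936) x23584) x23368) x23440) x23416) x23428) x23420) x23424) x23422) x43104) x3740)
    (Nat.sub (Nat.sub (Nat.add (Nat.add (Nat.add (Nat.add (Nat.add (Nat.add (Nat.add (Nat.add (Nat.add C x10302) x27798) x24882) x22938) x23586) x23370) x23442) x23430) x23422) (Nat.mul x23424 (nat_lit 2))) x3742)
    (Nat.sub (Nat.sub (Nat.sub (Nat.add (Nat.add (Nat.add (Nat.add (Nat.add (Nat.add (Nat.add (Nat.add (Nat.add C x10306) x27802) x24886) x22942) x23590) x23374) x23446) x23422) x23430) (Nat.mul x23428 (nat_lit 3))) x43110) x3746)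
    (Nat.sub (Nat.sub (Nat.add (Nat.add (Nat.add (Nat.add (Nat.add (Nat.add (Nat.add (Nat.add (Nat.add C x10308) x27804) x24888) x22944) x23592) x23376) x23448) x23424) x23428) (Nat.mul x23430 (nat_lit 2))) x3748)
    (Nat.sub (Nat.sub (Nat.add (Nat.add (Nat.add (Nat.add (Nat.add (Nat.add (Nat.add (Nat.add (Nat.add C x10316) x27812) x24896) x22952) x23600) x23384) x23492) x23420) x23440) x23438) x43120)
    (Nat.sub (Nat.sub (Nat.sub (Nat.add (Nat.add (Nat.add (Nat.add (Nat.add (Nat.add (Nat.add (Nat.add (Nat.add (Nat.add (Nat.add C x10318) x27814) x24898) x22954) x23602) x23386) x23494) x23422) x23446) x23438) x23442) x23440) x43122) x3758)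
    (Nat.sub (Nat.sub (Nat.add (Nat.add (Nat.add (Nat.add (Nat.add (Nat.add (Nat.add (Nat.add (Nat.add (Nat.add C x10320) x27816) x24900) x22956) x23604) x23388) x23496) x23424) x23448) x23440) (Nat.mul x23442 (nat_lit 3))) x3760)
    (Nat.sub (Nat.sub (Nat.sub (Nat.add (Nat.add (Nat.add (Nat.add (Nat.add (Nat.add (Nat.add (Nat.add (Nat.add (Nat.add (Nat.add C x10324) x27820) x24904) x22960) x23608) x23392) x23500) x23428) x23464) x23440) x23448) x23446) x43128) x3764)
    (Nat.sub (Nat.sub (Nat.add (Nat.add (Nat.add (Nat.add (Nat.add (Nat.add (Nat.add (Nat.add (Nat.add (Nat.add (Nat.add (Nat.add C x10326) x27822) x24906) x22962) x23610) x23394) x23502) x23430) x23466) x23442) x23454) x23446) x23448) x3766)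
    (Nat.sub (Nat.sub (Nat.add (Nat.add (Nat.add (Nat.add (Nat.add (Nat.add (Nat.add (Nat.add (Nat.add C x10332) x27828) x24912) x22968) x23616) x23400) x23508) x23472) x23448) x23454) x3772)
    (Nat.sub (Nat.sub (Nat.sub (Nat.add (Nat.add (Nat.add (Nat.add (Nat.add (Nat.add (Nat.add (Nat.add C x10342) x27838) x24922) x22978) x23626) x23518) x23446) x23466) x23464) x43146) x3782)
    (Nat.sub (Nat.sub (Nat.add (Nat.add (Nat.add (Nat.add (Nat.add (Nat.add (Nat.add (Nat.add (Nat.add C x10344) x27840) x24924) x22980) x23628) x23520) x23448) x23472) x23464) (Nat.mul x23466 (nat_lit 2))) x3784)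
    (Nat.sub (Nat.add (Nat.add (Nat.add (Nat.add (Nat.add (Nat.add (Nat.add (Nat.add C x10350) x27846) x24930) x22986) x23634) x23526) x23454) x23466) x3790)
    (Nat.sub (Nat.sub (Nat.add (Nat.add (Nat.add (Nat.add (Nat.add (Nat.add (Nat.add C x10370) x27866) x24950) x23006) x23654) x23438) x23494) (Nat.mul x23492 (nat_lit 2))) x43174)
    (Nat.sub (Nat.sub (Nat.sub (Nat.add (Nat.add (Nat.add (Nat.add (Nat.add (Nat.add (Nat.add (Nat.add (Nat.add C x10372) x27868) x24952) x23008) x23656) x23440) x23500) x23492) x23496) (Nat.mul x23494 (nat_lit 2))) x43176) x3812)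
    (Nat.sub (Nat.sub (Nat.add (Nat.add (Nat.add (Nat.add (Nat.add (Nat.add (Nat.add (Nat.add C x10374) x27870) x24954) x23010) x23658) x23442) x23502) x23494) (Nat.mul x23496 (nat_lit 4))) x3814)
    (Nat.sub (Nat.sub (Nat.sub (Nat.add (Nat.add (Nat.add (Nat.add (Nat.add (Nat.add (Nat.add (Nat.add (Nat.add C x10378) x27874) x24958) x23014) x23662) x23446) x23518) x23494) x23502) (Nat.mul x23500 (nat_lit 3))) x43182) x3818)
    (Nat.sub (Nat.sub (Nat.add (Nat.add (Nat.add (Nat.add (Nat.add (Nat.add (Nat.add (Nat.add (Nat.add (Nat.add C x10380) x27876) x24960) x23016) x23664) x23448) x23520) x23496) x23508) x23500) (Nat.mul x23502 (nat_lit 3))) x3820)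
    (Nat.sub (Nat.sub (Nat.add (Nat.add (Nat.add (Nat.add (Nat.add (Nat.add (Nat.add (Nat.add C x10386) x27882) x24966) x23022) x23670) x23454) x23526) x23502) (Nat.mul x23508 (nat_lit 4))) x3826)
    (Nat.sub (Nat.sub (Nat.sub (Nat.add (Nat.add (Nat.add (Nat.add (Nat.add (Nat.add (Nat.add (Nat.add C x10396) x27892) x24976) x23032) x23680) x23464) x23500) x23520) x23518) x43200) x3836)
    (Nat.sub (Nat.sub (Nat.add (Nat.add (Nat.add (Nat.add (Nat.add (Nat.add (Nat.add (Nat.add (Nat.add C x10398) x27894) x24978) x23034) x23682) x23466) x23502) x23526) x23518) (Nat.mul x23520 (nat_lit 2))) x3838)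
    (Nat.sub (Nat.sub (Nat.add (Nat.add (Nat.add (Nat.add (Nat.add (Nat.add (Nat.add (Nat.add (Nat.add C x10404) x27900) x24984) x23040) x23688) x23472) x23508) x23544) x23520) x23526) x3844)
    (Nat.sub (Nat.add (Nat.add (Nat.add (Nat.add (Nat.add (Nat.add C x10422) x27918) x25002) x23058) x23706) x23526) x3862)
    (Nat.sub (Nat.add (Nat.add (Nat.add (Nat.add (Nat.add (Nat.add (Nat.add (Nat.add C (Nat.mul x23576 (nat_lit 2))) x10454) x27950) x25034) x23090) x23414) x23582) x23578) x43258)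
    (Nat.sub (Nat.sub (Nat.add (Nat.add (Nat.add (Nat.add (Nat.add (Nat.add (Nat.add (Nat.add C x23578) x10456) x27952) x25036) x23092) x23416) x23584) x23576) x43260) x3896)
    (Nat.sub (Nat.add (Nat.add (Nat.add (Nat.add (Nat.add (Nat.add (Nat.add (Nat.add C x10460) x27956) x25040) x23096) x23420) x23600) x23576) x23584) x43264)
    (Nat.sub (Nat.sub (Nat.add (Nat.add (Nat.add (Nat.add (Nat.add (Nat.add (Nat.add (Nat.add (Nat.add (Nat.add (Nat.add C x23584) x10462) x27958) x25042) x23098) x23422) x23602) x23578) x23590) x23582) x23586) x43266) x3902)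
    (Nat.sub (Nat.add (Nat.add (Nat.add (Nat.add (Nat.add (Nat.add (Nat.add (Nat.add C x10464) x27960) x25044) x23100) x23424) x23604) x23592) x23584) x3904)
    (Nat.sub (Nat.sub (Nat.sub (Nat.add (Nat.add (Nat.add (Nat.add (Nat.add (Nat.add (Nat.add (Nat.add C x10468) x27964) x25048) x23104) x23428) x23608) x23584) x23592) x23590) x43272) x3908)
    (Nat.sub (Nat.add (Nat.add (Nat.add (Nat.add (Nat.add (Nat.add (Nat.add (Nat.add C x10470) x27966) x25050) x23106) x23430) x23610) x23586) x23590) x3910)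
    (Nat.sub (Nat.add (Nat.add (Nat.add (Nat.add (Nat.add (Nat.add (Nat.add (Nat.add C x10478) x27974) x25058) x23114) x23438) x23654) x23582) x23602) x43282)
    (Nat.sub (Nat.sub (Nat.add (Nat.add (Nat.add (Nat.add (Nat.add (Nat.add (Nat.add (Nat.add (Nat.add (Nat.add C x10480) x27976) x25060) x23116) x23440) x23656) x23584) x23608) x23600) x23604) x43284) x3920)
    (Nat.sub (Nat.sub (Nat.add (Nat.add (Nat.add (Nat.add (Nat.add (Nat.add (Nat.add (Nat.add (Nat.add C x10482) x27978) x25062) x23118) x23442) x23658) x23586) x23610) x23602) (Nat.mul x23604 (nat_lit 2))) x3922)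
    (Nat.sub (Nat.sub (Nat.add (Nat.add (Nat.add (Nat.add (Nat.add (Nat.add (Nat.add (Nat.add (Nat.add (Nat.add C x10486) x27982) x25066) x23122) x23446) x23662) x23590) x23626) x23602) x23610) x43290) x3926)
    (Nat.sub (Nat.add (Nat.add (Nat.add (Nat.add (Nat.add (Nat.add (Nat.add (Nat.add (Nat.add (Nat.add (Nat.add C x10488) x27984) x25068) x23124) x23448) x23664) x23592) x23628) x23604) x23616) x23608) x3928)
    (Nat.sub (Nat.add (Nat.add (Nat.add (Nat.add (Nat.add (Nat.add (Nat.add (Nat.add C x10494) x27990) x25074) x23130) x23454) x23670) x23634) x23610) x3934)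
    (Nat.sub (Nat.sub (Nat.sub (Nat.add (Nat.add (Nat.add (Nat.add (Nat.add (Nat.add (Nat.add (Nat.add C x10504) x28000) x25084) x23140) x23464) x23680) x23608) x23628) x23626) x43308) x3944)
    (Nat.sub (Nat.sub (Nat.add (Nat.add (Nat.add (Nat.add (Nat.add (Nat.add (Nat.add (Nat.add (Nat.add C x10506) x28002) x25086) x23142) x23466) x23682) x23610) x23634) x23626) (Nat.mul x23628 (nat_lit 2))) x3946)
    (Nat.sub (Nat.add (Nat.add (Nat.add (Nat.add (Nat.add (Nat.add (Nat.add (Nat.add C x10512) x28008) x25092) x23148) x23472) x23688) x23616) x23628) x3952)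
    (Nat.sub (Nat.add (Nat.add (Nat.add (Nat.add (Nat.add (Nat.add (Nat.add (Nat.add (Nat.add C x23654) x10532) x28028) x25112) x23168) x23492) x23816) x23600) x23656) x43336)
    (Nat.sub (Nat.sub (Nat.add (Nat.add (Nat.add (Nat.add (Nat.add (Nat.add (Nat.add (Nat.add (Nat.add (Nat.add (Nat.add C x23656) x10534) x28030) x25114) x23170) x23494) x23818) x23602) x23662) x23654) x23658) x43338) x3974)
    (Nat.sub (Nat.sub (Nat.add (Nat.add (Nat.add (Nat.add (Nat.add (Nat.add (Nat.add (Nat.add (Nat.add C x10536) x28032) x25116) x23172) x23496) x23820) x23604) x23664) x23656) x23658) x3976)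
    (Nat.sub (Nat.sub (Nat.add (Nat.add (Nat.add (Nat.add (Nat.add (Nat.add (Nat.add (Nat.add (Nat.add (Nat.add C x10540) x28036) x25120) x23176) x23500) x23824) x23608) x23680) x23656) x23664) x43344) x3980)
    (Nat.sub (Nat.add (Nat.add (Nat.add (Nat.add (Nat.add (Nat.add (Nat.add (Nat.add (Nat.add (Nat.add (Nat.add C x10542) x28038) x25122) x23178) x23502) x23826) x23610) x23682) x23658) x23670) x23662) x3982)
    (Nat.sub (Nat.sub (Nat.add (Nat.add (Nat.add (Nat.add (Nat.add (Nat.add (Nat.add (Nat.add (Nat.add C x10548) x28044) x25128) x23184) x23508) x23832) x23616) x23688) x23664) x23670) x3988)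
    (Nat.sub (Nat.sub (Nat.add (Nat.add (Nat.add (Nat.add (Nat.add (Nat.add (Nat.add (Nat.add (Nat.add (Nat.add (Nat.add C x23680) x10558) x28054) x25138) x23194) x23518) x23842) x23626) x23734) x23662) x23682) x43362) x3998)
    (Nat.sub (Nat.add (Nat.add (Nat.add (Nat.add (Nat.add (Nat.add (Nat.add (Nat.add (Nat.add (Nat.add (Nat.add C x10560) x28056) x25140) x23196) x23520) x23844) x23628) x23736) x23664) x23688) x23680) x4000)
    (Nat.sub (Nat.add (Nat.add (Nat.add (Nat.add (Nat.add (Nat.add (Nat.add (Nat.add (Nat.add (Nat.add (Nat.add (Nat.add C x23688) x10566) x28062) x25146) x23202) x23526) x23850) x23634) x23742) x23670) x23706) x23682) x4006)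
    (Nat.sub (Nat.add (Nat.add (Nat.add (Nat.add (Nat.add (Nat.add (Nat.add (Nat.add (Nat.add C x23706) x10584) x28080) x25164) x23220) x23544) x23868) x23760) x23688) x4024)
    (Nat.sub (Nat.sub (Nat.add (Nat.add (Nat.add (Nat.add (Nat.add (Nat.add (Nat.add (Nat.add C x23734) x10612) x28108) x25192) x23248) x23896) x23680) x23736) x43416) x4052)
    (Nat.sub (Nat.add (Nat.add (Nat.add (Nat.add (Nat.add (Nat.add (Nat.add (Nat.add C x10614) x28110) x25194) x23250) x23898) x23682) x23742) x23734) x4054)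
    (Nat.sub (Nat.add (Nat.add (Nat.add (Nat.add (Nat.add (Nat.add (Nat.add (Nat.add C x10620) x28116) x25200) x23256) x23904) x23688) x23760) x23736) x4060)
    (Nat.sub (Nat.add (Nat.add (Nat.add (Nat.add (Nat.add (Nat.add (Nat.add (Nat.add C (Nat.mul x23760 (nat_lit 2))) x10638) x28134) x25218) x23274) x23922) x23706) x23742) x4078)
    (Nat.sub (Nat.add (Nat.add (Nat.add (Nat.add (Nat.add (Nat.add C (Nat.mul x23816 (nat_lit 2))) x10694) x28190) x25274) x23654) x23818) x43498)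
    (Nat.sub (Nat.sub (Nat.add (Nat.add (Nat.add (Nat.add (Nat.add (Nat.add (Nat.add (Nat.add C (Nat.mul x23818 (nat_lit 2))) x10696) x28192) x25276) x23656) x23824) x23816) x23820) x43500) x4136)
    (Nat.sub (Nat.add (Nat.add (Nat.add (Nat.add (Nat.add (Nat.add C x10698) x28194) x25278) x23658) x23826) x23818) x4138)
    (Nat.sub (Nat.sub (Nat.add (Nat.add (Nat.add (Nat.add (Nat.add (Nat.add (Nat.add (Nat.add C x23824) x10702) x28198) x25282) x23662) x23842) x23818) x23826) x43506) x4142)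
    (Nat.sub (Nat.add (Nat.add (Nat.add (Nat.add (Nat.add (Nat.add (Nat.add (Nat.add (Nat.add C x23826) x10704) x28200) x25284) x23664) x23844) x23820) x23832) x23824) x4144)
    (Nat.sub (Nat.add (Nat.add (Nat.add (Nat.add (Nat.add (Nat.add C x10710) x28206) x25290) x23670) x23850) x23826) x4150)
    (Nat.sub (Nat.sub (Nat.add (Nat.add (Nat.add (Nat.add (Nat.add (Nat.add (Nat.add (Nat.add C x23842) x10720) x28216) x25300) x23680) x23896) x23824) x23844) x43524) x4160)
    (Nat.sub (Nat.add (Nat.add (Nat.add (Nat.add (Nat.add (Nat.add (Nat.add (Nat.add C x10722) x28218) x25302) x23682) x23898) x23826) x23850) x23842) x4162)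
    (Nat.sub (Nat.add (Nat.add (Nat.add (Nat.add (Nat.add (Nat.add (Nat.add (Nat.add (Nat.add C x23850) x10728) x28224) x25308) x23688) x23904) x23832) x23868) x23844) x4168)
    (Nat.sub (Nat.add (Nat.add (Nat.add (Nat.add (Nat.add (Nat.add C x10746) x28242) x25326) x23706) x23922) x23850) x4186)
    (Nat.sub (Nat.sub (Nat.add (Nat.add (Nat.add (Nat.add (Nat.add (Nat.add (Nat.add C (Nat.mul x23896 (nat_lit 3))) x10774) x28270) x25354) x23734) x23842) x23898) x43578) x4214)
    (Nat.sub (Nat.add (Nat.add (Nat.add (Nat.add (Nat.add (Nat.add (Nat.add (Nat.add C (Nat.mul x23898 (nat_lit 2))) x10776) x28272) x25356) x23736) x23844) x23904) x23896) x4216)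
    (Nat.sub (Nat.add (Nat.add (Nat.add (Nat.add (Nat.add (Nat.add (Nat.add (Nat.add C (Nat.mul x23904 (nat_lit 2))) x10782) x28278) x25362) x23742) x23850) x23922) x23898) x4222)
    (Nat.sub (Nat.add (Nat.add (Nat.add (Nat.add (Nat.add (Nat.add (Nat.add (Nat.add C (Nat.mul x23922 (nat_lit 3))) x10800) x28296) x25380) x23760) x23868) x23976) x23904) x4240)
    (Nat.sub (Nat.add (Nat.add (Nat.add (Nat.add (Nat.add C (Nat.mul x23976 (nat_lit 4))) x10854) x28350) x25434) x23922) x4294)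
    (Nat.sub (Nat.add (Nat.add (Nat.add (Nat.add (Nat.add (Nat.add C (Nat.mul x24074 (nat_lit 2))) x10952) x28448) x22616) x24092) x24080) x43756)
    (Nat.sub (Nat.add (Nat.add (Nat.add (Nat.add (Nat.add (Nat.add C x10958) x28454) x22622) x24098) x24074) x24082) x43762)
    (Nat.sub (Nat.sub (Nat.add (Nat.add (Nat.add (Nat.add (Nat.add (Nat.add C x24082) x10960) x28456) x22624) x24100) x24080) x43764) x4400)
    (Nat.sub (Nat.add (Nat.add (Nat.add (Nat.add (Nat.add (Nat.add C x10970) x28466) x22634) x24146) x24074) x24098) x43774)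
    (Nat.sub (Nat.add (Nat.add (Nat.add (Nat.add (Nat.add (Nat.add (Nat.add (Nat.add (Nat.add C x10976) x28472) x22640) x24152) x24080) x24116) x24092) x24104) x24100) x43780)
    (Nat.sub (Nat.sub (Nat.add (Nat.add (Nat.add (Nat.add (Nat.add (Nat.add (Nat.add (Nat.add C x10978) x28474) x22642) x24154) x24082) x24118) x24106) x24098) x43782) x4418)
    (Nat.sub (Nat.sub (Nat.add (Nat.add (Nat.add (Nat.add (Nat.add (Nat.add (Nat.add C x10982) x28478) x22646) x24158) x24122) x24098) x24106) (Nat.mul x24104 (nat_lit 2))) x43786)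
    (Nat.sub (Nat.sub (Nat.add (Nat.add (Nat.add (Nat.add (Nat.add (Nat.add (Nat.add (Nat.add C x10984) x28480) x22648) x24160) x24124) x24100) x24104) x24108) x43788) x4424)
    (Nat.sub (Nat.add (Nat.add (Nat.add (Nat.add (Nat.add (Nat.add C x10986) x28482) x22650) x24162) x24126) x24106) x4426)
    (Nat.sub (Nat.sub (Nat.add (Nat.add (Nat.add (Nat.add (Nat.add (Nat.add (Nat.add C x10994) x28490) x22658) x24170) x24098) x24122) x24118) (Nat.mul x24116 (nat_lit 2))) x43798)
    (Nat.sub (Nat.sub (Nat.sub (Nat.add (Nat.add (Nat.add (Nat.add (Nat.add (Nat.add (Nat.add C x10996) x28492) x22660) x24172) x24100) x24124) x24116) (Nat.mul x24118 (nat_lit 3))) x43800) x4436)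
    (Nat.sub (Nat.sub (Nat.add (Nat.add (Nat.add (Nat.add (Nat.add (Nat.add (Nat.add C x11000) x28496) x22664) x24176) x24104) x24116) x24124) (Nat.mul x24122 (nat_lit 2))) x43804)
    (Nat.sub (Nat.sub (Nat.sub (Nat.add (Nat.add (Nat.add (Nat.add (Nat.add (Nat.add (Nat.add (Nat.add (Nat.add C x11002) x28498) x22666) x24178) x24106) x24118) x24130) x24122) x24126) x24124) x43806) x4442)
    (Nat.sub (Nat.sub (Nat.add (Nat.add (Nat.add (Nat.add (Nat.add (Nat.add (Nat.add C x11004) x28500) x22668) x24180) x24108) x24132) x24124) (Nat.mul x24126 (nat_lit 2))) x4444)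
    (Nat.sub (Nat.sub (Nat.sub (Nat.add (Nat.add (Nat.add (Nat.add (Nat.add (Nat.add C x11008) x28504) x22672) x24184) x24124) x24132) x24130) x43812) x4448)
    (Nat.sub (Nat.add (Nat.add (Nat.add (Nat.add (Nat.add (Nat.add C x11010) x28506) x22674) x24186) x24126) x24130) x4450)
    (Nat.sub (Nat.add (Nat.add (Nat.add (Nat.add (Nat.add (Nat.add C x11024) x28520) x22688) x24308) x24092) x24152) x43828)
    (Nat.sub (Nat.sub (Nat.add (Nat.add (Nat.add (Nat.add (Nat.add (Nat.add (Nat.add (Nat.add (Nat.add C x11030) x28526) x22694) x24314) x24098) x24170) x24146) x24158) x24154) x24152) x43834)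
    (Nat.sub (Nat.sub (Nat.sub (Nat.add (Nat.add (Nat.add (Nat.add (Nat.add (Nat.add (Nat.add (Nat.add C x11032) x28528) x22696) x24316) x24100) x24172) x24160) x24152) x24154) x43836) x4472)
    (Nat.sub (Nat.sub (Nat.add (Nat.add (Nat.add (Nat.add (Nat.add (Nat.add (Nat.add (Nat.add C x11036) x28532) x22700) x24320) x24104) x24176) x24152) x24160) (Nat.mul x24158 (nat_lit 4))) x43840)
    (Nat.sub (Nat.sub (Nat.sub (Nat.add (Nat.add (Nat.add (Nat.add (Nat.add (Nat.add (Nat.add (Nat.add (Nat.add C x11038) x28534) x22702) x24322) x24106) x24178) x24154) x24158) x24162) (Nat.mul x24160 (nat_lit 2))) x43842) x4478)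
    (Nat.sub (Nat.sub (Nat.add (Nat.add (Nat.add (Nat.add (Nat.add (Nat.add (Nat.add C x11040) x28536) x22704) x24324) x24108) x24180) x24160) (Nat.mul x24162 (nat_lit 2))) x4480)
    (Nat.sub (Nat.sub (Nat.add (Nat.add (Nat.add (Nat.add (Nat.add (Nat.add (Nat.add (Nat.add (Nat.add C x11048) x28544) x22712) x24332) x24116) x24224) x24152) x24176) x24172) x24170) x43852)
    (Nat.sub (Nat.sub (Nat.sub (Nat.add (Nat.add (Nat.add (Nat.add (Nat.add (Nat.add (Nat.add (Nat.add (Nat.add C x11050) x28546) x22714) x24334) x24118) x24226) x24154) x24178) x24170) (Nat.mul x24172 (nat_lit 2))) x43854) x4490)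
    (Nat.sub (Nat.sub (Nat.add (Nat.add (Nat.add (Nat.add (Nat.add (Nat.add (Nat.add (Nat.add (Nat.add (Nat.add C x11054) x28550) x22718) x24338) x24122) x24230) x24158) x24194) x24170) x24178) (Nat.mul x24176 (nat_lit 2))) x43858)
    (Nat.sub (Nat.sub (Nat.sub (Nat.add (Nat.add (Nat.add (Nat.add (Nat.add (Nat.add (Nat.add (Nat.add (Nat.add (Nat.add (Nat.add (Nat.add C x11056) x28552) x22720) x24340) x24124) x24232) x24160) x24196) x24172) x24184) x24176) x24180) x24178) x43860) x4496)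
    (Nat.sub (Nat.sub (Nat.add (Nat.add (Nat.add (Nat.add (Nat.add (Nat.add (Nat.add (Nat.add (Nat.add (Nat.add C x11058) x28554) x22722) x24342) x24126) x24234) x24162) x24198) x24186) x24178) (Nat.mul x24180 (nat_lit 2))) x4498)
    (Nat.sub (Nat.sub (Nat.sub (Nat.add (Nat.add (Nat.add (Nat.add (Nat.add (Nat.add (Nat.add (Nat.add (Nat.add C x11062) x28558) x22726) x24346) x24130) x24238) x24202) x24178) x24186) (Nat.mul x24184 (nat_lit 2))) x43866) x4502)
    (Nat.sub (Nat.sub (Nat.add (Nat.add (Nat.add (Nat.add (Nat.add (Nat.add (Nat.add (Nat.add (Nat.add C x11064) x28560) x22728) x24348) x24132) x24240) x24204) x24180) x24184) x24186) x4504)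
    (Nat.sub (Nat.sub (Nat.add (Nat.add (Nat.add (Nat.add (Nat.add (Nat.add (Nat.add C x11072) x28568) x22736) x24356) x24248) x24176) x24196) (Nat.mul x24194 (nat_lit 2))) x43876)
    (Nat.sub (Nat.sub (Nat.sub (Nat.add (Nat.add (Nat.add (Nat.add (Nat.add (Nat.add (Nat.add (Nat.add (Nat.add C x11074) x28570) x22738) x24358) x24250) x24178) x24202) x24194) x24198) (Nat.mul x24196 (nat_lit 2))) x43878) x4514)
    (Nat.sub (Nat.sub (Nat.add (Nat.add (Nat.add (Nat.add (Nat.add (Nat.add (Nat.add (Nat.add C x11076) x28572) x22740) x24360) x24252) x24180) x24204) x24196) (Nat.mul x24198 (nat_lit 4))) x4516)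
    (Nat.sub (Nat.sub (Nat.sub (Nat.add (Nat.add (Nat.add (Nat.add (Nat.add (Nat.add (Nat.add (Nat.add C x11080) x28576) x22744) x24364) x24256) x24184) x24196) x24204) x24202) x43884) x4520)
    (Nat.sub (Nat.sub (Nat.add (Nat.add (Nat.add (Nat.add (Nat.add (Nat.add (Nat.add (Nat.add (Nat.add C x11082) x28578) x22746) x24366) x24258) x24186) x24198) x24210) x24202) x24204) x4522)
    (Nat.sub (Nat.add (Nat.add (Nat.add (Nat.add (Nat.add (Nat.add C x11088) x28584) x22752) x24372) x24264) x24204) x4528)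
    (Nat.sub (Nat.sub (Nat.add (Nat.add (Nat.add (Nat.add (Nat.add (Nat.add (Nat.add C x11102) x28598) x22766) x24386) x24170) x24230) x24226) (Nat.mul x24224 (nat_lit 2))) x43906)
    (Nat.sub (Nat.sub (Nat.sub (Nat.add (Nat.add (Nat.add (Nat.add (Nat.add (Nat.add (Nat.add C x11104) x28600) x22768) x24388) x24172) x24232) x24224) (Nat.mul x24226 (nat_lit 3))) x43908) x4544)
    (Nat.sub (Nat.sub (Nat.add (Nat.add (Nat.add (Nat.add (Nat.add (Nat.add (Nat.add (Nat.add C x11108) x28604) x22772) x24392) x24176) x24248) x24224) x24232) (Nat.mul x24230 (nat_lit 4))) x43912)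
    (Nat.sub (Nat.sub (Nat.sub (Nat.add (Nat.add (Nat.add (Nat.add (Nat.add (Nat.add (Nat.add (Nat.add (Nat.add (Nat.add C x11110) x28606) x22774) x24394) x24178) x24250) x24226) x24238) x24230) x24234) (Nat.mul x24232 (nat_lit 3))) x43914) x4550)
    (Nat.sub (Nat.sub (Nat.add (Nat.add (Nat.add (Nat.add (Nat.add (Nat.add (Nat.add (Nat.add C x11112) x28608) x22776) x24396) x24180) x24252) x24240) x24232) (Nat.mul x24234 (nat_lit 4))) x4552)
    (Nat.sub (Nat.sub (Nat.sub (Nat.add (Nat.add (Nat.add (Nat.add (Nat.add (Nat.add (Nat.add (Nat.add C x11116) x28612) x22780) x24400) x24184) x24256) x24232) x24240) (Nat.mul x24238 (nat_lit 5))) x43920) x4556)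
    (Nat.sub (Nat.sub (Nat.add (Nat.add (Nat.add (Nat.add (Nat.add (Nat.add (Nat.add (Nat.add C x11118) x28614) x22782) x24402) x24186) x24258) x24234) x24238) (Nat.mul x24240 (nat_lit 4))) x4558)
    (Nat.sub (Nat.sub (Nat.add (Nat.add (Nat.add (Nat.add (Nat.add (Nat.add (Nat.add C x11126) x28622) x22790) x24410) x24194) x24230) x24250) (Nat.mul x24248 (nat_lit 2))) x43930)
    (Nat.sub (Nat.sub (Nat.sub (Nat.add (Nat.add (Nat.add (Nat.add (Nat.add (Nat.add (Nat.add (Nat.add (Nat.add C x11128) x28624) x22792) x24412) x24196) x24232) x24256) x24248) x24252) (Nat.mul x24250 (nat_lit 2))) x43932) x4568)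
    (Nat.sub (Nat.sub (Nat.add (Nat.add (Nat.add (Nat.add (Nat.add (Nat.add (Nat.add (Nat.add C x11130) x28626) x22794) x24414) x24198) x24234) x24258) x24250) (Nat.mul x24252 (nat_lit 4))) x4570)
    (Nat.sub (Nat.sub (Nat.sub (Nat.add (Nat.add (Nat.add (Nat.add (Nat.add (Nat.add (Nat.add (Nat.add (Nat.add C x11134) x28630) x22798) x24418) x24202) x24238) x24274) x24250) x24258) (Nat.mul x24256 (nat_lit 2))) x43938) x4574)
    (Nat.sub (Nat.sub (Nat.add (Nat.add (Nat.add (Nat.add (Nat.add (Nat.add (Nat.add (Nat.add (Nat.add (Nat.add C x11136) x28632) x22800) x24420) x24204) x24240) x24276) x24252) x24264) x24256) (Nat.mul x24258 (nat_lit 2))) x4576)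
    (Nat.sub (Nat.sub (Nat.add (Nat.add (Nat.add (Nat.add (Nat.add (Nat.add (Nat.add C x11142) x28638) x22806) x24426) x24210) x24282) x24258) (Nat.mul x24264 (nat_lit 2))) x4582)
    (Nat.sub (Nat.sub (Nat.sub (Nat.add (Nat.add (Nat.add (Nat.add (Nat.add (Nat.add C x11152) x28648) x22816) x24436) x24256) x24276) x24274) x43956) x4592)
    (Nat.sub (Nat.sub (Nat.add (Nat.add (Nat.add (Nat.add (Nat.add (Nat.add (Nat.add C x11154) x28650) x22818) x24438) x24258) x24282) x24274) (Nat.mul x24276 (nat_lit 2))) x4594)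
    (Nat.sub (Nat.add (Nat.add (Nat.add (Nat.add (Nat.add (Nat.add C x11160) x28656) x22824) x24444) x24264) x24276) x4600)
    (Nat.sub (Nat.add (Nat.add (Nat.add (Nat.add (Nat.add (Nat.add C x11186) x28682) x22850) x24794) x24146) x24314) x43990)
    (Nat.sub (Nat.sub (Nat.add (Nat.add (Nat.add (Nat.add (Nat.add (Nat.add (Nat.add (Nat.add (Nat.add C x11192) x28688) x22856) x24800) x24152) x24332) x24308) x24320) x24316) x24314) x43996)
    (Nat.sub (Nat.sub (Nat.sub (Nat.add (Nat.add (Nat.add (Nat.add (Nat.add (Nat.add (Nat.add (Nat.add C x11194) x28690) x22858) x24802) x24154) x24334) x24322) x24314) x24316) x43998) x4634)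
    (Nat.sub (Nat.sub (Nat.add (Nat.add (Nat.add (Nat.add (Nat.add (Nat.add (Nat.add (Nat.add C x11198) x28694) x22862) x24806) x24158) x24338) x24314) x24322) (Nat.mul x24320 (nat_lit 4))) x44002)
    (Nat.sub (Nat.sub (Nat.sub (Nat.add (Nat.add (Nat.add (Nat.add (Nat.add (Nat.add (Nat.add (Nat.add (Nat.add C x11200) x28696) x22864) x24808) x24160) x24340) x24316) x24320) x24324) (Nat.mul x24322 (nat_lit 2))) x44004) x4640)
    (Nat.sub (Nat.sub (Nat.add (Nat.add (Nat.add (Nat.add (Nat.add (Nat.add (Nat.add C x11202) x28698) x22866) x24810) x24162) x24342) x24322) (Nat.mul x24324 (nat_lit 2))) x4642)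
    (Nat.sub (Nat.sub (Nat.add (Nat.add (Nat.add (Nat.add (Nat.add (Nat.add (Nat.add (Nat.add (Nat.add C x11210) x28706) x22874) x24818) x24170) x24386) x24314) x24338) x24334) (Nat.mul x24332 (nat_lit 2))) x44014)
    (Nat.sub (Nat.sub (Nat.sub (Nat.add (Nat.add (Nat.add (Nat.add (Nat.add (Nat.add (Nat.add (Nat.add (Nat.add C x11212) x28708) x22876) x24820) x24172) x24388) x24316) x24340) x24332) (Nat.mul x24334 (nat_lit 3))) x44016) x4652)
    (Nat.sub (Nat.sub (Nat.add (Nat.add (Nat.add (Nat.add (Nat.add (Nat.add (Nat.add (Nat.add (Nat.add (Nat.add C x11216) x28712) x22880) x24824) x24176) x24392) x24320) x24356) x24332) x24340) (Nat.mul x24338 (nat_lit 3))) x44020)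
    (Nat.sub (Nat.sub (Nat.sub (Nat.add (Nat.add (Nat.add (Nat.add (Nat.add (Nat.add (Nat.add (Nat.add (Nat.add (Nat.add (Nat.add (Nat.add C x11218) x28714) x22882) x24826) x24178) x24394) x24322) x24358) x24334) x24346) x24338) x24342) (Nat.mul x24340 (nat_lit 2))) x44022) x4658)
    (Nat.sub (Nat.sub (Nat.add (Nat.add (Nat.add (Nat.add (Nat.add (Nat.add (Nat.add (Nat.add (Nat.add (Nat.add C x11220) x28716) x22884) x24828) x24180) x24396) x24324) x24360) x24348) x24340) (Nat.mul x24342 (nat_lit 3))) x4660)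
    (Nat.sub (Nat.sub (Nat.sub (Nat.add (Nat.add (Nat.add (Nat.add (Nat.add (Nat.add (Nat.add (Nat.add (Nat.add C x11224) x28720) x22888) x24832) x24184) x24400) x24364) x24340) x24348) (Nat.mul x24346 (nat_lit 3))) x44028) x4664)
    (Nat.sub (Nat.sub (Nat.add (Nat.add (Nat.add (Nat.add (Nat.add (Nat.add (Nat.add (Nat.add (Nat.add C x11226) x28722) x22890) x24834) x24186) x24402) x24366) x24342) x24346) (Nat.mul x24348 (nat_lit 2))) x4666)
    (Nat.sub (Nat.sub (Nat.add (Nat.add (Nat.add (Nat.add (Nat.add (Nat.add (Nat.add (Nat.add C x11234) x28730) x22898) x24842) x24194) x24410) x24338) x24358) (Nat.mul x24356 (nat_lit 4))) x44038)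
    (Nat.sub (Nat.sub (Nat.sub (Nat.add (Nat.add (Nat.add (Nat.add (Nat.add (Nat.add (Nat.add (Nat.add (Nat.add (Nat.add C x11236) x28732) x22900) x24844) x24196) x24412) x24340) x24364) x24356) x24360) (Nat.mul x24358 (nat_lit 4))) x44040) x4676)
    (Nat.sub (Nat.sub (Nat.add (Nat.add (Nat.add (Nat.add (Nat.add (Nat.add (Nat.add (Nat.add (Nat.add C x11238) x28734) x22902) x24846) x24198) x24414) x24342) x24366) x24358) (Nat.mul x24360 (nat_lit 6))) x4678)
    (Nat.sub (Nat.sub (Nat.sub (Nat.add (Nat.add (Nat.add (Nat.add (Nat.add (Nat.add (Nat.add (Nat.add (Nat.add C x11242) x28738) x22906) x24850) x24202) x24418) x24346) x24358) x24366) (Nat.mul x24364 (nat_lit 3))) x44046) x4682)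
    (Nat.sub (Nat.sub (Nat.add (Nat.add (Nat.add (Nat.add (Nat.add (Nat.add (Nat.add (Nat.add (Nat.add (Nat.add C x11244) x28740) x22908) x24852) x24204) x24420) x24348) x24360) x24372) x24364) (Nat.mul x24366 (nat_lit 3))) x4684)
    (Nat.sub (Nat.sub (Nat.add (Nat.add (Nat.add (Nat.add (Nat.add (Nat.add (Nat.add C x11250) x28746) x22914) x24858) x24210) x24426) x24366) (Nat.mul x24372 (nat_lit 2))) x4690)
    (Nat.sub (Nat.sub (Nat.add (Nat.add (Nat.add (Nat.add (Nat.add (Nat.add (Nat.add (Nat.add (Nat.add C x11264) x28760) x22928) x24872) x24224) x24548) x24332) x24392) x24388) x24386) x44068)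
    (Nat.sub (Nat.sub (Nat.sub (Nat.add (Nat.add (Nat.add (Nat.add (Nat.add (Nat.add (Nat.add (Nat.add (Nat.add C x11266) x28762) x22930) x24874) x24226) x24550) x24334) x24394) x24386) (Nat.mul x24388 (nat_lit 2))) x44070) x4706)
    (Nat.sub (Nat.sub (Nat.add (Nat.add (Nat.add (Nat.add (Nat.add (Nat.add (Nat.add (Nat.add (Nat.add (Nat.add C x11270) x28766) x22934) x24878) x24230) x24554) x24338) x24410) x24386) x24394) (Nat.mul x24392 (nat_lit 3))) x44074)
    (Nat.sub (Nat.sub (Nat.sub (Nat.add (Nat.add (Nat.add (Nat.add (Nat.add (Nat.add (Nat.add (Nat.add (Nat.add (Nat.add (Nat.add (Nat.add C x11272) x28768) x22936) x24880) x24232) x24556) x24340) x24412) x24388) x24400) x24392) x24396) (Nat.mul x24394 (nat_lit 2))) x44076) x4712)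
    (Nat.sub (Nat.sub (Nat.add (Nat.add (Nat.add (Nat.add (Nat.add (Nat.add (Nat.add (Nat.add (Nat.add (Nat.add C x11274) x28770) x22938) x24882) x24234) x24558) x24342) x24414) x24402) x24394) (Nat.mul x24396 (nat_lit 3))) x4714)
    (Nat.sub (Nat.sub (Nat.sub (Nat.add (Nat.add (Nat.add (Nat.add (Nat.add (Nat.add (Nat.add (Nat.add (Nat.add (Nat.add C x11278) x28774) x22942) x24886) x24238) x24562) x24346) x24418) x24394) x24402) (Nat.mul x24400 (nat_lit 4))) x44082) x4718)
    (Nat.sub (Nat.sub (Nat.add (Nat.add (Nat.add (Nat.add (Nat.add (Nat.add (Nat.add (Nat.add (Nat.add (Nat.add C x11280) x28776) x22944) x24888) x24240) x24564) x24348) x24420) x24396) x24400) (Nat.mul x24402 (nat_lit 3))) x4720)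
    (Nat.sub (Nat.sub (Nat.add (Nat.add (Nat.add (Nat.add (Nat.add (Nat.add (Nat.add (Nat.add (Nat.add (Nat.add C x11288) x28784) x22952) x24896) x24248) x24572) x24356) x24464) x24392) x24412) (Nat.mul x24410 (nat_lit 2))) x44092)
    (Nat.sub (Nat.sub (Nat.sub (Nat.add (Nat.add (Nat.add (Nat.add (Nat.add (Nat.add (Nat.add (Nat.add (Nat.add (Nat.add (Nat.add (Nat.add C x11290) x28786) x22954) x24898) x24250) x24574) x24358) x24466) x24394) x24418) x24410) x24414) (Nat.mul x24412 (nat_lit 2))) x44094) x4730)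
    (Nat.sub (Nat.sub (Nat.add (Nat.add (Nat.add (Nat.add (Nat.add (Nat.add (Nat.add (Nat.add (Nat.add (Nat.add (Nat.add C x11292) x28788) x22956) x24900) x24252) x24576) x24360) x24468) x24396) x24420) x24412) (Nat.mul x24414 (nat_lit 4))) x4732)
    (Nat.sub (Nat.sub (Nat.sub (Nat.add (Nat.add (Nat.add (Nat.add (Nat.add (Nat.add (Nat.add (Nat.add (Nat.add (Nat.add (Nat.add (Nat.add C x11296) x28792) x22960) x24904) x24256) x24580) x24364) x24472) x24400) x24436) x24412) x24420) (Nat.mul x24418 (nat_lit 2))) x44100) x4736)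
    (Nat.sub (Nat.sub (Nat.add (Nat.add (Nat.add (Nat.add (Nat.add (Nat.add (Nat.add (Nat.add (Nat.add (Nat.add (Nat.add (Nat.add (Nat.add C x11298) x28794) x22962) x24906) x24258) x24582) x24366) x24474) x24402) x24438) x24414) x24426) x24418) (Nat.mul x24420 (nat_lit 2))) x4738)
    (Nat.sub (Nat.sub (Nat.add (Nat.add (Nat.add (Nat.add (Nat.add (Nat.add (Nat.add (Nat.add (Nat.add (Nat.add C x11304) x28800) x22968) x24912) x24264) x24588) x24372) x24480) x24444) x24420) (Nat.mul x24426 (nat_lit 2))) x4744)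
    (Nat.sub (Nat.sub (Nat.sub (Nat.add (Nat.add (Nat.add (Nat.add (Nat.add (Nat.add (Nat.add (Nat.add (Nat.add C x11314) x28810) x22978) x24922) x24274) x24598) x24490) x24418) x24438) (Nat.mul x24436 (nat_lit 2))) x44118) x4754)
    (Nat.sub (Nat.sub (Nat.add (Nat.add (Nat.add (Nat.add (Nat.add (Nat.add (Nat.add (Nat.add (Nat.add (Nat.add C x11316) x28812) x22980) x24924) x24276) x24600) x24492) x24420) x24444) x24436) (Nat.mul x24438 (nat_lit 3))) x4756)
    (Nat.sub (Nat.sub (Nat.add (Nat.add (Nat.add (Nat.add (Nat.add (Nat.add (Nat.add (Nat.add (Nat.add C x11322) x28818) x22986) x24930) x24282) x24606) x24498) x24426) x24438) x24444) x4762)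
    (Nat.sub (Nat.sub (Nat.add (Nat.add (Nat.add (Nat.add (Nat.add (Nat.add (Nat.add C x11342) x28838) x23006) x24950) x24626) x24410) x24466) (Nat.mul x24464 (nat_lit 2))) x44146)
    (Nat.sub (Nat.sub (Nat.sub (Nat.add (Nat.add (Nat.add (Nat.add (Nat.add (Nat.add (Nat.add (Nat.add (Nat.add C x11344) x28840) x23008) x24952) x24628) x24412) x24472) x24464) x24468) (Nat.mul x24466 (nat_lit 2))) x44148) x4784)
    (Nat.sub (Nat.sub (Nat.add (Nat.add (Nat.add (Nat.add (Nat.add (Nat.add (Nat.add (Nat.add C x11346) x28842) x23010) x24954) x24630) x24414) x24474) x24466) (Nat.mul x24468 (nat_lit 4))) x4786)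
    (Nat.sub (Nat.sub (Nat.sub (Nat.add (Nat.add (Nat.add (Nat.add (Nat.add (Nat.add (Nat.add (Nat.add (Nat.add C x11350) x28846) x23014) x24958) x24634) x24418) x24490) x24466) x24474) (Nat.mul x24472 (nat_lit 3))) x44154) x4790)
    (Nat.sub (Nat.sub (Nat.add (Nat.add (Nat.add (Nat.add (Nat.add (Nat.add (Nat.add (Nat.add (Nat.add (Nat.add C x11352) x28848) x23016) x24960) x24636) x24420) x24492) x24468) x24480) x24472) (Nat.mul x24474 (nat_lit 3))) x4792)
    (Nat.sub (Nat.sub (Nat.add (Nat.add (Nat.add (Nat.add (Nat.add (Nat.add (Nat.add (Nat.add C x11358) x28854) x23022) x24966) x24642) x24426) x24498) x24474) (Nat.mul x24480 (nat_lit 4))) x4798)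
    (Nat.sub (Nat.sub (Nat.sub (Nat.add (Nat.add (Nat.add (Nat.add (Nat.add (Nat.add (Nat.add (Nat.add C x11368) x28864) x23032) x24976) x24652) x24436) x24472) x24492) x24490) x44172) x4808)
    (Nat.sub (Nat.sub (Nat.add (Nat.add (Nat.add (Nat.add (Nat.add (Nat.add (Nat.add (Nat.add (Nat.add C x11370) x28866) x23034) x24978) x24654) x24438) x24474) x24498) x24490) (Nat.mul x24492 (nat_lit 2))) x4810)
    (Nat.sub (Nat.sub (Nat.add (Nat.add (Nat.add (Nat.add (Nat.add (Nat.add (Nat.add (Nat.add (Nat.add C x11376) x28872) x23040) x24984) x24660) x24444) x24480) x24516) x24492) x24498) x4816)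
    (Nat.sub (Nat.add (Nat.add (Nat.add (Nat.add (Nat.add (Nat.add C x11394) x28890) x23058) x25002) x24678) x24498) x4834)
    (Nat.sub (Nat.sub (Nat.add (Nat.add (Nat.add (Nat.add (Nat.add (Nat.add (Nat.add C x11426) x28922) x23090) x25034) x24386) x24554) x24550) (Nat.mul x24548 (nat_lit 2))) x44230)
    (Nat.sub (Nat.sub (Nat.sub (Nat.add (Nat.add (Nat.add (Nat.add (Nat.add (Nat.add (Nat.add C x11428) x28924) x23092) x25036) x24388) x24556) x24548) (Nat.mul x24550 (nat_lit 3))) x44232) x4868)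
    (Nat.sub (Nat.sub (Nat.add (Nat.add (Nat.add (Nat.add (Nat.add (Nat.add (Nat.add (Nat.add C x11432) x28928) x23096) x25040) x24392) x24572) x24548) x24556) (Nat.mul x24554 (nat_lit 4))) x44236)
    (Nat.sub (Nat.sub (Nat.sub (Nat.add (Nat.add (Nat.add (Nat.add (Nat.add (Nat.add (Nat.add (Nat.add (Nat.add (Nat.add C x11434) x28930) x23098) x25042) x24394) x24574) x24550) x24562) x24554) x24558) (Nat.mul x24556 (nat_lit 3))) x44238) x4874)
    (Nat.sub (Nat.sub (Nat.add (Nat.add (Nat.add (Nat.add (Nat.add (Nat.add (Nat.add (Nat.add C x11436) x28932) x23100) x25044) x24396) x24576) x24564) x24556) (Nat.mul x24558 (nat_lit 4))) x4876)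
    (Nat.sub (Nat.sub (Nat.sub (Nat.add (Nat.add (Nat.add (Nat.add (Nat.add (Nat.add (Nat.add (Nat.add C x11440) x28936) x23104) x25048) x24400) x24580) x24556) x24564) (Nat.mul x24562 (nat_lit 5))) x44244) x4880)
    (Nat.sub (Nat.sub (Nat.add (Nat.add (Nat.add (Nat.add (Nat.add (Nat.add (Nat.add (Nat.add C x11442) x28938) x23106) x25050) x24402) x24582) x24558) x24562) (Nat.mul x24564 (nat_lit 4))) x4882)
    (Nat.sub (Nat.sub (Nat.add (Nat.add (Nat.add (Nat.add (Nat.add (Nat.add (Nat.add (Nat.add C x11450) x28946) x23114) x25058) x24410) x24626) x24554) x24574) (Nat.mul x24572 (nat_lit 4))) x44254)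
    (Nat.sub (Nat.sub (Nat.sub (Nat.add (Nat.add (Nat.add (Nat.add (Nat.add (Nat.add (Nat.add (Nat.add (Nat.add (Nat.add C x11452) x28948) x23116) x25060) x24412) x24628) x24556) x24580) x24572) x24576) (Nat.mul x24574 (nat_lit 4))) x44256) x4892)
    (Nat.sub (Nat.sub (Nat.add (Nat.add (Nat.add (Nat.add (Nat.add (Nat.add (Nat.add (Nat.add (Nat.add C x11454) x28950) x23118) x25062) x24414) x24630) x24558) x24582) x24574) (Nat.mul x24576 (nat_lit 6))) x4894)
    (Nat.sub (Nat.sub (Nat.sub (Nat.add (Nat.add (Nat.add (Nat.add (Nat.add (Nat.add (Nat.add (Nat.add (Nat.add (Nat.add C x11458) x28954) x23122) x25066) x24418) x24634) x24562) x24598) x24574) x24582) (Nat.mul x24580 (nat_lit 4))) x44262) x4898)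
    (Nat.sub (Nat.sub (Nat.add (Nat.add (Nat.add (Nat.add (Nat.add (Nat.add (Nat.add (Nat.add (Nat.add (Nat.add (Nat.add C x11460) x28956) x23124) x25068) x24420) x24636) x24564) x24600) x24576) x24588) x24580) (Nat.mul x24582 (nat_lit 4))) x4900)
    (Nat.sub (Nat.sub (Nat.add (Nat.add (Nat.add (Nat.add (Nat.add (Nat.add (Nat.add (Nat.add C x11466) x28962) x23130) x25074) x24426) x24642) x24606) x24582) (Nat.mul x24588 (nat_lit 4))) x4906)
    (Nat.sub (Nat.sub (Nat.sub (Nat.add (Nat.add (Nat.add (Nat.add (Nat.add (Nat.add (Nat.add (Nat.add C x11476) x28972) x23140) x25084) x24436) x24652) x24580) x24600) (Nat.mul x24598 (nat_lit 5))) x44280) x4916)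
    (Nat.sub (Nat.sub (Nat.add (Nat.add (Nat.add (Nat.add (Nat.add (Nat.add (Nat.add (Nat.add (Nat.add C x11478) x28974) x23142) x25086) x24438) x24654) x24582) x24606) x24598) (Nat.mul x24600 (nat_lit 6))) x4918)
    (Nat.sub (Nat.sub (Nat.add (Nat.add (Nat.add (Nat.add (Nat.add (Nat.add (Nat.add (Nat.add C x11484) x28980) x23148) x25092) x24444) x24660) x24588) x24600) (Nat.mul x24606 (nat_lit 4))) x4924)
    (Nat.sub (Nat.sub (Nat.add (Nat.add (Nat.add (Nat.add (Nat.add (Nat.add (Nat.add C x11504) x29000) x23168) x25112) x24464) x24572) x24628) (Nat.mul x24626 (nat_lit 2))) x44308)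
    (Nat.sub (Nat.sub (Nat.sub (Nat.add (Nat.add (Nat.add (Nat.add (Nat.add (Nat.add (Nat.add (Nat.add (Nat.add C x11506) x29002) x23170) x25114) x24466) x24574) x24634) x24626) x24630) (Nat.mul x24628 (nat_lit 2))) x44310) x4946)
    (Nat.sub (Nat.sub (Nat.add (Nat.add (Nat.add (Nat.add (Nat.add (Nat.add (Nat.add (Nat.add C x11508) x29004) x23172) x25116) x24468) x24576) x24636) x24628) (Nat.mul x24630 (nat_lit 4))) x4948)
    (Nat.sub (Nat.sub (Nat.sub (Nat.add (Nat.add (Nat.add (Nat.add (Nat.add (Nat.add (Nat.add (Nat.add (Nat.add C x11512) x29008) x23176) x25120) x24472) x24580) x24652) x24628) x24636) (Nat.mul x24634 (nat_lit 3))) x44316) x4952)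
    (Nat.sub (Nat.sub (Nat.add (Nat.add (Nat.add (Nat.add (Nat.add (Nat.add (Nat.add (Nat.add (Nat.add (Nat.add C x11514) x29010) x23178) x25122) x24474) x24582) x24654) x24630) x24642) x24634) (Nat.mul x24636 (nat_lit 3))) x4954)
    (Nat.sub (Nat.sub (Nat.add (Nat.add (Nat.add (Nat.add (Nat.add (Nat.add (Nat.add (Nat.add C x11520) x29016) x23184) x25128) x24480) x24588) x24660) x24636) (Nat.mul x24642 (nat_lit 4))) x4960)
    (Nat.sub (Nat.sub (Nat.sub (Nat.add (Nat.add (Nat.add (Nat.add (Nat.add (Nat.add (Nat.add (Nat.add (Nat.add C x11530) x29026) x23194) x25138) x24490) x24598) x24706) x24634) x24654) (Nat.mul x24652 (nat_lit 2))) x44334) x4970)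
    (Nat.sub (Nat.sub (Nat.add (Nat.add (Nat.add (Nat.add (Nat.add (Nat.add (Nat.add (Nat.add (Nat.add (Nat.add C x11532) x29028) x23196) x25140) x24492) x24600) x24708) x24636) x24660) x24652) (Nat.mul x24654 (nat_lit 3))) x4972)
    (Nat.sub (Nat.sub (Nat.add (Nat.add (Nat.add (Nat.add (Nat.add (Nat.add (Nat.add (Nat.add (Nat.add (Nat.add C x11538) x29034) x23202) x25146) x24498) x24606) x24714) x24642) x24678) x24654) (Nat.mul x24660 (nat_lit 2))) x4978)
    (Nat.sub (Nat.sub (Nat.add (Nat.add (Nat.add (Nat.add (Nat.add (Nat.add (Nat.add C x11556) x29052) x23220) x25164) x24516) x24732) x24660) (Nat.mul x24678 (nat_lit 2))) x4996)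
    (Nat.sub (Nat.sub (Nat.sub (Nat.add (Nat.add (Nat.add (Nat.add (Nat.add (Nat.add C x11584) x29080) x23248) x25192) x24652) x24708) x24706) x44388) x5024)
    (Nat.sub (Nat.sub (Nat.add (Nat.add (Nat.add (Nat.add (Nat.add (Nat.add (Nat.add C x11586) x29082) x23250) x25194) x24654) x24714) x24706) (Nat.mul x24708 (nat_lit 2))) x5026)
    (Nat.sub (Nat.sub (Nat.add (Nat.add (Nat.add (Nat.add (Nat.add (Nat.add (Nat.add C x11592) x29088) x23256) x25200) x24660) x24732) x24708) (Nat.mul x24714 (nat_lit 2))) x5032)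
    (Nat.sub (Nat.add (Nat.add (Nat.add (Nat.add (Nat.add (Nat.add C x11610) x29106) x23274) x25218) x24678) x24714) x5050)
    (Nat.sub (Nat.add (Nat.add (Nat.add (Nat.add (Nat.add (Nat.add C (Nat.mul x24794 (nat_lit 2))) x11672) x29168) x23336) x24308) x24800) x44476)
    (Nat.sub (Nat.add (Nat.add (Nat.add (Nat.add (Nat.add (Nat.add (Nat.add (Nat.add (Nat.add C x24800) x11678) x29174) x23342) x24314) x24818) x24794) x24806) x24802) x44482)
    (Nat.sub (Nat.sub (Nat.add (Nat.add (Nat.add (Nat.add (Nat.add (Nat.add (Nat.add (Nat.add C x24802) x11680) x29176) x23344) x24316) x24820) x24808) x24800) x44484) x5120)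
    (Nat.sub (Nat.sub (Nat.add (Nat.add (Nat.add (Nat.add (Nat.add (Nat.add (Nat.add C x11684) x29180) x23348) x24320) x24824) x24800) x24808) (Nat.mul x24806 (nat_lit 2))) x44488)
    (Nat.sub (Nat.sub (Nat.add (Nat.add (Nat.add (Nat.add (Nat.add (Nat.add (Nat.add (Nat.add C x11686) x29182) x23350) x24322) x24826) x24802) x24806) x24810) x44490) x5126)
    (Nat.sub (Nat.add (Nat.add (Nat.add (Nat.add (Nat.add (Nat.add C x11688) x29184) x23352) x24324) x24828) x24808) x5128)
    (Nat.sub (Nat.add (Nat.add (Nat.add (Nat.add (Nat.add (Nat.add (Nat.add (Nat.add C x11696) x29192) x23360) x24332) x24872) x24800) x24824) x24820) x44500)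
    (Nat.sub (Nat.sub (Nat.sub (Nat.add (Nat.add (Nat.add (Nat.add (Nat.add (Nat.add (Nat.add (Nat.add C x11698) x29194) x23362) x24334) x24874) x24802) x24826) x24818) x24820) x44502) x5138)
    (Nat.sub (Nat.sub (Nat.add (Nat.add (Nat.add (Nat.add (Nat.add (Nat.add (Nat.add (Nat.add (Nat.add C x11702) x29198) x23366) x24338) x24878) x24806) x24842) x24818) x24826) x24824) x44506)
    (Nat.sub (Nat.sub (Nat.add (Nat.add (Nat.add (Nat.add (Nat.add (Nat.add (Nat.add (Nat.add (Nat.add (Nat.add (Nat.add C x11704) x29200) x23368) x24340) x24880) x24808) x24844) x24820) x24832) x24824) x24828) x44508) x5144)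
    (Nat.sub (Nat.sub (Nat.add (Nat.add (Nat.add (Nat.add (Nat.add (Nat.add (Nat.add (Nat.add (Nat.add C x11706) x29202) x23370) x24342) x24882) x24810) x24846) x24834) x24826) x24828) x5146)
    (Nat.sub (Nat.sub (Nat.sub (Nat.add (Nat.add (Nat.add (Nat.add (Nat.add (Nat.add (Nat.add (Nat.add C x11710) x29206) x23374) x24346) x24886) x24850) x24826) x24834) x24832) x44514) x5150)
    (Nat.sub (Nat.add (Nat.add (Nat.add (Nat.add (Nat.add (Nat.add (Nat.add (Nat.add C x11712) x29208) x23376) x24348) x24888) x24852) x24828) x24832) x5152)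
    (Nat.sub (Nat.sub (Nat.add (Nat.add (Nat.add (Nat.add (Nat.add (Nat.add (Nat.add C x11720) x29216) x23384) x24356) x24896) x24824) x24844) (Nat.mul x24842 (nat_lit 2))) x44524)
    (Nat.sub (Nat.sub (Nat.sub (Nat.add (Nat.add (Nat.add (Nat.add (Nat.add (Nat.add (Nat.add (Nat.add (Nat.add C x11722) x29218) x23386) x24358) x24898) x24826) x24850) x24842) x24846) (Nat.mul x24844 (nat_lit 2))) x44526) x5162)
    (Nat.sub (Nat.sub (Nat.add (Nat.add (Nat.add (Nat.add (Nat.add (Nat.add (Nat.add (Nat.add C x11724) x29220) x23388) x24360) x24900) x24828) x24852) x24844) (Nat.mul x24846 (nat_lit 4))) x5164)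
    (Nat.sub (Nat.sub (Nat.sub (Nat.add (Nat.add (Nat.add (Nat.add (Nat.add (Nat.add (Nat.add (Nat.add C x11728) x29224) x23392) x24364) x24904) x24832) x24844) x24852) x24850) x44532) x5168)
    (Nat.sub (Nat.sub (Nat.add (Nat.add (Nat.add (Nat.add (Nat.add (Nat.add (Nat.add (Nat.add (Nat.add C x11730) x29226) x23394) x24366) x24906) x24834) x24846) x24858) x24850) x24852) x5170)
    (Nat.sub (Nat.add (Nat.add (Nat.add (Nat.add (Nat.add (Nat.add C x11736) x29232) x23400) x24372) x24912) x24852) x5176)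
    (Nat.sub (Nat.add (Nat.add (Nat.add (Nat.add (Nat.add (Nat.add (Nat.add (Nat.add C x11750) x29246) x23414) x24386) x25034) x24818) x24878) x24874) x44554)
    (Nat.sub (Nat.sub (Nat.sub (Nat.add (Nat.add (Nat.add (Nat.add (Nat.add (Nat.add (Nat.add (Nat.add C x11752) x29248) x23416) x24388) x25036) x24820) x24880) x24872) x24874) x44556) x5192)
    (Nat.sub (Nat.sub (Nat.add (Nat.add (Nat.add (Nat.add (Nat.add (Nat.add (Nat.add (Nat.add (Nat.add C x11756) x29252) x23420) x24392) x25040) x24824) x24896) x24872) x24880) (Nat.mul x24878 (nat_lit 2))) x44560)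
    (Nat.sub (Nat.sub (Nat.sub (Nat.add (Nat.add (Nat.add (Nat.add (Nat.add (Nat.add (Nat.add (Nat.add (Nat.add (Nat.add (Nat.add C x11758) x29254) x23422) x24394) x25042) x24826) x24898) x24874) x24886) x24878) x24882) x24880) x44562) x5198)
    (Nat.sub (Nat.sub (Nat.add (Nat.add (Nat.add (Nat.add (Nat.add (Nat.add (Nat.add (Nat.add (Nat.add C x11760) x29256) x23424) x24396) x25044) x24828) x24900) x24888) x24880) (Nat.mul x24882 (nat_lit 2))) x5200)
    (Nat.sub (Nat.sub (Nat.sub (Nat.add (Nat.add (Nat.add (Nat.add (Nat.add (Nat.add (Nat.add (Nat.add (Nat.add C x11764) x29260) x23428) x24400) x25048) x24832) x24904) x24880) x24888) (Nat.mul x24886 (nat_lit 3))) x44568) x5204)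
    (Nat.sub (Nat.sub (Nat.add (Nat.add (Nat.add (Nat.add (Nat.add (Nat.add (Nat.add (Nat.add (Nat.add C x11766) x29262) x23430) x24402) x25050) x24834) x24906) x24882) x24886) (Nat.mul x24888 (nat_lit 2))) x5206)
    (Nat.sub (Nat.sub (Nat.add (Nat.add (Nat.add (Nat.add (Nat.add (Nat.add (Nat.add (Nat.add (Nat.add C x11774) x29270) x23438) x24410) x25058) x24842) x24950) x24878) x24898) x24896) x44578)
    (Nat.sub (Nat.sub (Nat.sub (Nat.add (Nat.add (Nat.add (Nat.add (Nat.add (Nat.add (Nat.add (Nat.add (Nat.add (Nat.add (Nat.add C x11776) x29272) x23440) x24412) x25060) x24844) x24952) x24880) x24904) x24896) x24900) x24898) x44580) x5216)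
    (Nat.sub (Nat.sub (Nat.add (Nat.add (Nat.add (Nat.add (Nat.add (Nat.add (Nat.add (Nat.add (Nat.add (Nat.add C x11778) x29274) x23442) x24414) x25062) x24846) x24954) x24882) x24906) x24898) (Nat.mul x24900 (nat_lit 3))) x5218)
    (Nat.sub (Nat.sub (Nat.sub (Nat.add (Nat.add (Nat.add (Nat.add (Nat.add (Nat.add (Nat.add (Nat.add (Nat.add (Nat.add (Nat.add C x11782) x29278) x23446) x24418) x25066) x24850) x24958) x24886) x24922) x24898) x24906) x24904) x44586) x5222)
    (Nat.sub (Nat.sub (Nat.add (Nat.add (Nat.add (Nat.add (Nat.add (Nat.add (Nat.add (Nat.add (Nat.add (Nat.add (Nat.add (Nat.add C x11784) x29280) x23448) x24420) x25068) x24852) x24960) x24888) x24924) x24900) x24912) x24904) x24906) x5224)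
    (Nat.sub (Nat.sub (Nat.add (Nat.add (Nat.add (Nat.add (Nat.add (Nat.add (Nat.add (Nat.add (Nat.add C x11790) x29286) x23454) x24426) x25074) x24858) x24966) x24930) x24906) x24912) x5230)
    (Nat.sub (Nat.sub (Nat.sub (Nat.add (Nat.add (Nat.add (Nat.add (Nat.add (Nat.add (Nat.add (Nat.add C x11800) x29296) x23464) x24436) x25084) x24976) x24904) x24924) x24922) x44604) x5240)
    (Nat.sub (Nat.sub (Nat.add (Nat.add (Nat.add (Nat.add (Nat.add (Nat.add (Nat.add (Nat.add (Nat.add C x11802) x29298) x23466) x24438) x25086) x24978) x24906) x24930) x24922) (Nat.mul x24924 (nat_lit 2))) x5242)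
    (Nat.sub (Nat.add (Nat.add (Nat.add (Nat.add (Nat.add (Nat.add (Nat.add (Nat.add C x11808) x29304) x23472) x24444) x25092) x24984) x24912) x24924) x5248)
    (Nat.sub (Nat.sub (Nat.add (Nat.add (Nat.add (Nat.add (Nat.add (Nat.add (Nat.add C x11828) x29324) x23492) x24464) x25112) x24896) x24952) (Nat.mul x24950 (nat_lit 2))) x44632)
    (Nat.sub (Nat.sub (Nat.sub (Nat.add (Nat.add (Nat.add (Nat.add (Nat.add (Nat.add (Nat.add (Nat.add (Nat.add C x11830) x29326) x23494) x24466) x25114) x24898) x24958) x24950) x24954) (Nat.mul x24952 (nat_lit 2))) x44634) x5270)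
    (Nat.sub (Nat.sub (Nat.add (Nat.add (Nat.add (Nat.add (Nat.add (Nat.add (Nat.add (Nat.add C x11832) x29328) x23496) x24468) x25116) x24900) x24960) x24952) (Nat.mul x24954 (nat_lit 4))) x5272)
    (Nat.sub (Nat.sub (Nat.sub (Nat.add (Nat.add (Nat.add (Nat.add (Nat.add (Nat.add (Nat.add (Nat.add (Nat.add C x11836) x29332) x23500) x24472) x25120) x24904) x24976) x24952) x24960) (Nat.mul x24958 (nat_lit 3))) x44640) x5276)
    (Nat.sub (Nat.sub (Nat.add (Nat.add (Nat.add (Nat.add (Nat.add (Nat.add (Nat.add (Nat.add (Nat.add (Nat.add C x11838) x29334) x23502) x24474) x25122) x24906) x24978) x24954) x24966) x24958) (Nat.mul x24960 (nat_lit 3))) x5278)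
    (Nat.sub (Nat.sub (Nat.add (Nat.add (Nat.add (Nat.add (Nat.add (Nat.add (Nat.add (Nat.add C x11844) x29340) x23508) x24480) x25128) x24912) x24984) x24960) (Nat.mul x24966 (nat_lit 4))) x5284)
    (Nat.sub (Nat.sub (Nat.sub (Nat.add (Nat.add (Nat.add (Nat.add (Nat.add (Nat.add (Nat.add (Nat.add C x11854) x29350) x23518) x24490) x25138) x24922) x24958) x24978) x24976) x44658) x5294)
    (Nat.sub (Nat.sub (Nat.add (Nat.add (Nat.add (Nat.add (Nat.add (Nat.add (Nat.add (Nat.add (Nat.add C x11856) x29352) x23520) x24492) x25140) x24924) x24960) x24984) x24976) (Nat.mul x24978 (nat_lit 2))) x5296)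
    (Nat.sub (Nat.sub (Nat.add (Nat.add (Nat.add (Nat.add (Nat.add (Nat.add (Nat.add (Nat.add (Nat.add C x11862) x29358) x23526) x24498) x25146) x24930) x24966) x25002) x24978) x24984) x5302)
    (Nat.sub (Nat.add (Nat.add (Nat.add (Nat.add (Nat.add (Nat.add C x11880) x29376) x23544) x24516) x25164) x24984) x5320)
    (Nat.sub (Nat.add (Nat.add (Nat.add (Nat.add (Nat.add (Nat.add (Nat.add (Nat.add (Nat.add C x25034) x11912) x29408) x23576) x24548) x25520) x24872) x25040) x25036) x44716)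
    (Nat.sub (Nat.sub (Nat.add (Nat.add (Nat.add (Nat.add (Nat.add (Nat.add (Nat.add (Nat.add C x11914) x29410) x23578) x24550) x25522) x24874) x25042) x25034) x44718) x5354)
    (Nat.sub (Nat.sub (Nat.add (Nat.add (Nat.add (Nat.add (Nat.add (Nat.add (Nat.add (Nat.add (Nat.add C x11918) x29414) x23582) x24554) x25526) x24878) x25058) x25034) x25042) x25040) x44722)
    (Nat.sub (Nat.sub (Nat.add (Nat.add (Nat.add (Nat.add (Nat.add (Nat.add (Nat.add (Nat.add (Nat.add (Nat.add (Nat.add C x11920) x29416) x23584) x24556) x25528) x24880) x25060) x25036) x25048) x25040) x25044) x44724) x5360)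
    (Nat.sub (Nat.sub (Nat.add (Nat.add (Nat.add (Nat.add (Nat.add (Nat.add (Nat.add (Nat.add (Nat.add C x11922) x29418) x23586) x24558) x25530) x24882) x25062) x25050) x25042) x25044) x5362)
    (Nat.sub (Nat.sub (Nat.sub (Nat.add (Nat.add (Nat.add (Nat.add (Nat.add (Nat.add (Nat.add (Nat.add (Nat.add C x11926) x29422) x23590) x24562) x25534) x24886) x25066) x25042) x25050) (Nat.mul x25048 (nat_lit 2))) x44730) x5366)
    (Nat.sub (Nat.sub (Nat.add (Nat.add (Nat.add (Nat.add (Nat.add (Nat.add (Nat.add (Nat.add (Nat.add C x11928) x29424) x23592) x24564) x25536) x24888) x25068) x25044) x25048) x25050) x5368)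
    (Nat.sub (Nat.sub (Nat.add (Nat.add (Nat.add (Nat.add (Nat.add (Nat.add (Nat.add (Nat.add (Nat.add C x11936) x29432) x23600) x24572) x25544) x24896) x25112) x25040) x25060) x25058) x44740)
    (Nat.sub (Nat.sub (Nat.sub (Nat.add (Nat.add (Nat.add (Nat.add (Nat.add (Nat.add (Nat.add (Nat.add (Nat.add (Nat.add (Nat.add C x11938) x29434) x23602) x24574) x25546) x24898) x25114) x25042) x25066) x25058) x25062) x25060) x44742) x5378)
    (Nat.sub (Nat.sub (Nat.add (Nat.add (Nat.add (Nat.add (Nat.add (Nat.add (Nat.add (Nat.add (Nat.add (Nat.add C x11940) x29436) x23604) x24576) x25548) x24900) x25116) x25044) x25068) x25060) (Nat.mul x25062 (nat_lit 3))) x5380)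
    (Nat.sub (Nat.sub (Nat.sub (Nat.add (Nat.add (Nat.add (Nat.add (Nat.add (Nat.add (Nat.add (Nat.add (Nat.add (Nat.add (Nat.add C x11944) x29440) x23608) x24580) x25552) x24904) x25120) x25048) x25084) x25060) x25068) x25066) x44748) x5384)
    (Nat.sub (Nat.sub (Nat.add (Nat.add (Nat.add (Nat.add (Nat.add (Nat.add (Nat.add (Nat.add (Nat.add (Nat.add (Nat.add (Nat.add C x11946) x29442) x23610) x24582) x25554) x24906) x25122) x25050) x25086) x25062) x25074) x25066) x25068) x5386)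
    (Nat.sub (Nat.sub (Nat.add (Nat.add (Nat.add (Nat.add (Nat.add (Nat.add (Nat.add (Nat.add (Nat.add C x11952) x29448) x23616) x24588) x25560) x24912) x25128) x25092) x25068) x25074) x5392)
    (Nat.sub (Nat.sub (Nat.sub (Nat.add (Nat.add (Nat.add (Nat.add (Nat.add (Nat.add (Nat.add (Nat.add (Nat.add C x11962) x29458) x23626) x24598) x25570) x24922) x25138) x25066) x25086) (Nat.mul x25084 (nat_lit 2))) x44766) x5402)
    (Nat.sub (Nat.sub (Nat.add (Nat.add (Nat.add (Nat.add (Nat.add (Nat.add (Nat.add (Nat.add (Nat.add (Nat.add C x11964) x29460) x23628) x24600) x25572) x24924) x25140) x25068) x25092) x25084) (Nat.mul x25086 (nat_lit 3))) x5404)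
    (Nat.sub (Nat.sub (Nat.add (Nat.add (Nat.add (Nat.add (Nat.add (Nat.add (Nat.add (Nat.add (Nat.add C x11970) x29466) x23634) x24606) x25578) x24930) x25146) x25074) x25086) x25092) x5410)
    (Nat.sub (Nat.add (Nat.add (Nat.add (Nat.add (Nat.add (Nat.add (Nat.add (Nat.add (Nat.add C x11990) x29486) x23654) x24626) x25598) x24950) x25274) x25058) x25114) x44794)
    (Nat.sub (Nat.sub (Nat.add (Nat.add (Nat.add (Nat.add (Nat.add (Nat.add (Nat.add (Nat.add (Nat.add (Nat.add (Nat.add C x11992) x29488) x23656) x24628) x25600) x24952) x25276) x25060) x25120) x25112) x25116) x44796) x5432)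
    (Nat.sub (Nat.sub (Nat.add (Nat.add (Nat.add (Nat.add (Nat.add (Nat.add (Nat.add (Nat.add (Nat.add (Nat.add C x11994) x29490) x23658) x24630) x25602) x24954) x25278) x25062) x25122) x25114) (Nat.mul x25116 (nat_lit 2))) x5434)
    (Nat.sub (Nat.sub (Nat.sub (Nat.add (Nat.add (Nat.add (Nat.add (Nat.add (Nat.add (Nat.add (Nat.add (Nat.add (Nat.add (Nat.add C x11998) x29494) x23662) x24634) x25606) x24958) x25282) x25066) x25138) x25114) x25122) x25120) x44802) x5438)
    (Nat.sub (Nat.sub (Nat.add (Nat.add (Nat.add (Nat.add (Nat.add (Nat.add (Nat.add (Nat.add (Nat.add (Nat.add (Nat.add (Nat.add C x12000) x29496) x23664) x24636) x25608) x24960) x25284) x25068) x25140) x25116) x25128) x25120) x25122) x5440)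
    (Nat.sub (Nat.sub (Nat.add (Nat.add (Nat.add (Nat.add (Nat.add (Nat.add (Nat.add (Nat.add (Nat.add (Nat.add C x12006) x29502) x23670) x24642) x25614) x24966) x25290) x25074) x25146) x25122) (Nat.mul x25128 (nat_lit 2))) x5446)
    (Nat.sub (Nat.sub (Nat.add (Nat.add (Nat.add (Nat.add (Nat.add (Nat.add (Nat.add (Nat.add (Nat.add (Nat.add (Nat.add C x12016) x29512) x23680) x24652) x25624) x24976) x25300) x25084) x25192) x25120) x25140) x44820) x5456)
    (Nat.sub (Nat.sub (Nat.add (Nat.add (Nat.add (Nat.add (Nat.add (Nat.add (Nat.add (Nat.add (Nat.add (Nat.add (Nat.add (Nat.add C x12018) x29514) x23682) x24654) x25626) x24978) x25302) x25086) x25194) x25122) x25146) x25138) x25140) x5458)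
    (Nat.sub (Nat.add (Nat.add (Nat.add (Nat.add (Nat.add (Nat.add (Nat.add (Nat.add (Nat.add (Nat.add (Nat.add (Nat.add C x12024) x29520) x23688) x24660) x25632) x24984) x25308) x25092) x25200) x25128) x25164) x25140) x5464)
    (Nat.sub (Nat.add (Nat.add (Nat.add (Nat.add (Nat.add (Nat.add (Nat.add (Nat.add (Nat.add C x12042) x29538) x23706) x24678) x25650) x25002) x25326) x25218) x25146) x5482)
    (Nat.sub (Nat.sub (Nat.add (Nat.add (Nat.add (Nat.add (Nat.add (Nat.add (Nat.add (Nat.add C x12070) x29566) x23734) x24706) x25678) x25354) x25138) x25194) x44874) x5510)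
    (Nat.sub (Nat.sub (Nat.add (Nat.add (Nat.add (Nat.add (Nat.add (Nat.add (Nat.add (Nat.add (Nat.add C x12072) x29568) x23736) x24708) x25680) x25356) x25140) x25200) x25192) x25194) x5512)
    (Nat.sub (Nat.sub (Nat.add (Nat.add (Nat.add (Nat.add (Nat.add (Nat.add (Nat.add (Nat.add (Nat.add C x12078) x29574) x23742) x24714) x25686) x25362) x25146) x25218) x25194) x25200) x5518)
    (Nat.sub (Nat.add (Nat.add (Nat.add (Nat.add (Nat.add (Nat.add (Nat.add (Nat.add (Nat.add C x25218) x12096) x29592) x23760) x24732) x25704) x25380) x25164) x25200) x5536)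
    (Nat.sub (Nat.add (Nat.add (Nat.add (Nat.add (Nat.add (Nat.add C x12152) x29648) x23816) x25760) x25112) x25276) x44956)
    (Nat.sub (Nat.sub (Nat.add (Nat.add (Nat.add (Nat.add (Nat.add (Nat.add (Nat.add (Nat.add C x12154) x29650) x23818) x25762) x25114) x25282) x25274) x25278) x44958) x5594)
    (Nat.sub (Nat.sub (Nat.add (Nat.add (Nat.add (Nat.add (Nat.add (Nat.add (Nat.add C x12156) x29652) x23820) x25764) x25116) x25284) x25276) (Nat.mul x25278 (nat_lit 2))) x5596)
    (Nat.sub (Nat.sub (Nat.sub (Nat.add (Nat.add (Nat.add (Nat.add (Nat.add (Nat.add (Nat.add (Nat.add C x12160) x29656) x23824) x25768) x25120) x25300) x25276) x25284) x25282) x44964) x5600)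
    (Nat.sub (Nat.sub (Nat.add (Nat.add (Nat.add (Nat.add (Nat.add (Nat.add (Nat.add (Nat.add (Nat.add C x12162) x29658) x23826) x25770) x25122) x25302) x25278) x25290) x25282) x25284) x5602)
    (Nat.sub (Nat.sub (Nat.add (Nat.add (Nat.add (Nat.add (Nat.add (Nat.add (Nat.add C x12168) x29664) x23832) x25776) x25128) x25308) x25284) (Nat.mul x25290 (nat_lit 2))) x5608)
    (Nat.sub (Nat.sub (Nat.sub (Nat.add (Nat.add (Nat.add (Nat.add (Nat.add (Nat.add (Nat.add (Nat.add C x12178) x29674) x23842) x25786) x25138) x25354) x25282) x25302) x25300) x44982) x5618)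
    (Nat.sub (Nat.sub (Nat.add (Nat.add (Nat.add (Nat.add (Nat.add (Nat.add (Nat.add (Nat.add (Nat.add C x12180) x29676) x23844) x25788) x25140) x25356) x25284) x25308) x25300) (Nat.mul x25302 (nat_lit 2))) x5620)
    (Nat.sub (Nat.sub (Nat.add (Nat.add (Nat.add (Nat.add (Nat.add (Nat.add (Nat.add (Nat.add (Nat.add C x12186) x29682) x23850) x25794) x25146) x25362) x25290) x25326) x25302) x25308) x5626)
    (Nat.sub (Nat.sub (Nat.add (Nat.add (Nat.add (Nat.add (Nat.add (Nat.add (Nat.add C x12204) x29700) x23868) x25812) x25164) x25380) x25308) (Nat.mul x25326 (nat_lit 2))) x5644)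
    (Nat.sub (Nat.sub (Nat.add (Nat.add (Nat.add (Nat.add (Nat.add (Nat.add (Nat.add (Nat.add C x25354) x12232) x29728) x23896) x25840) x25192) x25300) x25356) x45036) x5672)
    (Nat.sub (Nat.add (Nat.add (Nat.add (Nat.add (Nat.add (Nat.add (Nat.add (Nat.add C x12234) x29730) x23898) x25842) x25194) x25302) x25362) x25354) x5674)
    (Nat.sub (Nat.add (Nat.add (Nat.add (Nat.add (Nat.add (Nat.add (Nat.add (Nat.add C x12240) x29736) x23904) x25848) x25200) x25308) x25380) x25356) x5680)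
    (Nat.sub (Nat.add (Nat.add (Nat.add (Nat.add (Nat.add (Nat.add (Nat.add (Nat.add (Nat.add C x25380) x12258) x29754) x23922) x25866) x25218) x25326) x25434) x25362) x5698)
    (Nat.sub (Nat.add (Nat.add (Nat.add (Nat.add (Nat.add (Nat.add C (Nat.mul x25434 (nat_lit 2))) x12312) x29808) x23976) x25920) x25380) x5752)
    (Nat.sub (Nat.add (Nat.add (Nat.add (Nat.add (Nat.add (Nat.add C (Nat.mul x25520 (nat_lit 2))) x12398) x29894) x25034) x25526) x25522) x45202)
    (Nat.sub (Nat.sub (Nat.add (Nat.add (Nat.add (Nat.add (Nat.add (Nat.add C x25522) x12400) x29896) x25036) x25528) x25520) x45204) x5840)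
    (Nat.sub (Nat.add (Nat.add (Nat.add (Nat.add (Nat.add (Nat.add C x12404) x29900) x25040) x25544) x25520) x25528) x45208)
    (Nat.sub (Nat.sub (Nat.add (Nat.add (Nat.add (Nat.add (Nat.add (Nat.add (Nat.add (Nat.add (Nat.add C x25528) x12406) x29902) x25042) x25546) x25522) x25534) x25526) x25530) x45210) x5846)
    (Nat.sub (Nat.add (Nat.add (Nat.add (Nat.add (Nat.add (Nat.add C x12408) x29904) x25044) x25548) x25536) x25528) x5848)
    (Nat.sub (Nat.sub (Nat.sub (Nat.add (Nat.add (Nat.add (Nat.add (Nat.add (Nat.add C x12412) x29908) x25048) x25552) x25528) x25536) x25534) x45216) x5852)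
    (Nat.sub (Nat.add (Nat.add (Nat.add (Nat.add (Nat.add (Nat.add C x12414) x29910) x25050) x25554) x25530) x25534) x5854)
    (Nat.sub (Nat.add (Nat.add (Nat.add (Nat.add (Nat.add (Nat.add C x12422) x29918) x25058) x25598) x25526) x25546) x45226)
    (Nat.sub (Nat.sub (Nat.add (Nat.add (Nat.add (Nat.add (Nat.add (Nat.add (Nat.add (Nat.add C x12424) x29920) x25060) x25600) x25528) x25552) x25544) x25548) x45228) x5864)
    (Nat.sub (Nat.sub (Nat.add (Nat.add (Nat.add (Nat.add (Nat.add (Nat.add (Nat.add C x12426) x29922) x25062) x25602) x25530) x25554) x25546) (Nat.mul x25548 (nat_lit 2))) x5866)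
    (Nat.sub (Nat.sub (Nat.add (Nat.add (Nat.add (Nat.add (Nat.add (Nat.add (Nat.add (Nat.add C x12430) x29926) x25066) x25606) x25534) x25570) x25546) x25554) x45234) x5870)
    (Nat.sub (Nat.add (Nat.add (Nat.add (Nat.add (Nat.add (Nat.add (Nat.add (Nat.add (Nat.add C x12432) x29928) x25068) x25608) x25536) x25572) x25548) x25560) x25552) x5872)
    (Nat.sub (Nat.add (Nat.add (Nat.add (Nat.add (Nat.add (Nat.add C x12438) x29934) x25074) x25614) x25578) x25554) x5878)
    (Nat.sub (Nat.sub (Nat.sub (Nat.add (Nat.add (Nat.add (Nat.add (Nat.add (Nat.add C x12448) x29944) x25084) x25624) x25552) x25572) x25570) x45252) x5888)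
    (Nat.sub (Nat.sub (Nat.add (Nat.add (Nat.add (Nat.add (Nat.add (Nat.add (Nat.add C x12450) x29946) x25086) x25626) x25554) x25578) x25570) (Nat.mul x25572 (nat_lit 2))) x5890)
    (Nat.sub (Nat.add (Nat.add (Nat.add (Nat.add (Nat.add (Nat.add C x12456) x29952) x25092) x25632) x25560) x25572) x5896)
    (Nat.sub (Nat.add (Nat.add (Nat.add (Nat.add (Nat.add (Nat.add C x12476) x29972) x25112) x25760) x25544) x25600) x45280)
    (Nat.sub (Nat.sub (Nat.add (Nat.add (Nat.add (Nat.add (Nat.add (Nat.add (Nat.add (Nat.add C x12478) x29974) x25114) x25762) x25546) x25606) x25598) x25602) x45282) x5918)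
    (Nat.sub (Nat.sub (Nat.add (Nat.add (Nat.add (Nat.add (Nat.add (Nat.add (Nat.add C x12480) x29976) x25116) x25764) x25548) x25608) x25600) (Nat.mul x25602 (nat_lit 2))) x5920)
    (Nat.sub (Nat.sub (Nat.sub (Nat.add (Nat.add (Nat.add (Nat.add (Nat.add (Nat.add (Nat.add (Nat.add C x12484) x29980) x25120) x25768) x25552) x25624) x25600) x25608) x25606) x45288) x5924)
    (Nat.sub (Nat.sub (Nat.add (Nat.add (Nat.add (Nat.add (Nat.add (Nat.add (Nat.add (Nat.add (Nat.add C x12486) x29982) x25122) x25770) x25554) x25626) x25602) x25614) x25606) x25608) x5926)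
    (Nat.sub (Nat.sub (Nat.add (Nat.add (Nat.add (Nat.add (Nat.add (Nat.add (Nat.add C x12492) x29988) x25128) x25776) x25560) x25632) x25608) (Nat.mul x25614 (nat_lit 2))) x5932)
    (Nat.sub (Nat.sub (Nat.add (Nat.add (Nat.add (Nat.add (Nat.add (Nat.add (Nat.add (Nat.add C x12502) x29998) x25138) x25786) x25570) x25678) x25606) x25626) x45306) x5942)
    (Nat.sub (Nat.sub (Nat.add (Nat.add (Nat.add (Nat.add (Nat.add (Nat.add (Nat.add (Nat.add (Nat.add C x12504) x30000) x25140) x25788) x25572) x25680) x25608) x25632) x25624) x25626) x5944)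
    (Nat.sub (Nat.add (Nat.add (Nat.add (Nat.add (Nat.add (Nat.add (Nat.add (Nat.add (Nat.add C x12510) x30006) x25146) x25794) x25578) x25686) x25614) x25650) x25626) x5950)
    (Nat.sub (Nat.add (Nat.add (Nat.add (Nat.add (Nat.add (Nat.add C x12528) x30024) x25164) x25812) x25704) x25632) x5968)
    (Nat.sub (Nat.sub (Nat.sub (Nat.add (Nat.add (Nat.add (Nat.add (Nat.add (Nat.add C x12556) x30052) x25192) x25840) x25624) x25680) x25678) x45360) x5996)
    (Nat.sub (Nat.sub (Nat.add (Nat.add (Nat.add (Nat.add (Nat.add (Nat.add (Nat.add C x12558) x30054) x25194) x25842) x25626) x25686) x25678) (Nat.mul x25680 (nat_lit 2))) x5998)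
    (Nat.sub (Nat.sub (Nat.add (Nat.add (Nat.add (Nat.add (Nat.add (Nat.add (Nat.add C x12564) x30060) x25200) x25848) x25632) x25704) x25680) (Nat.mul x25686 (nat_lit 2))) x6004)
    (Nat.sub (Nat.add (Nat.add (Nat.add (Nat.add (Nat.add (Nat.add C x12582) x30078) x25218) x25866) x25650) x25686) x6022)
    (Nat.sub (Nat.add (Nat.add (Nat.add (Nat.add (Nat.add (Nat.add C (Nat.mul x25760 (nat_lit 2))) x12638) x30134) x25274) x25598) x25762) x45442)
    (Nat.sub (Nat.sub (Nat.add (Nat.add (Nat.add (Nat.add (Nat.add (Nat.add (Nat.add (Nat.add C (Nat.mul x25762 (nat_lit 2))) x12640) x30136) x25276) x25600) x25768) x25760) x25764) x45444) x6080)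
    (Nat.sub (Nat.add (Nat.add (Nat.add (Nat.add (Nat.add (Nat.add C x12642) x30138) x25278) x25602) x25770) x25762) x6082)
    (Nat.sub (Nat.sub (Nat.add (Nat.add (Nat.add (Nat.add (Nat.add (Nat.add (Nat.add (Nat.add C x25768) x12646) x30142) x25282) x25606) x25786) x25762) x25770) x45450) x6086)
    (Nat.sub (Nat.add (Nat.add (Nat.add (Nat.add (Nat.add (Nat.add (Nat.add (Nat.add (Nat.add C x25770) x12648) x30144) x25284) x25608) x25788) x25764) x25776) x25768) x6088)
    (Nat.sub (Nat.add (Nat.add (Nat.add (Nat.add (Nat.add (Nat.add C x12654) x30150) x25290) x25614) x25794) x25770) x6094)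
    (Nat.sub (Nat.sub (Nat.add (Nat.add (Nat.add (Nat.add (Nat.add (Nat.add (Nat.add (Nat.add C x25786) x12664) x30160) x25300) x25624) x25840) x25768) x25788) x45468) x6104)
    (Nat.sub (Nat.add (Nat.add (Nat.add (Nat.add (Nat.add (Nat.add (Nat.add (Nat.add C x12666) x30162) x25302) x25626) x25842) x25770) x25794) x25786) x6106)
    (Nat.sub (Nat.add (Nat.add (Nat.add (Nat.add (Nat.add (Nat.add (Nat.add (Nat.add (Nat.add C x25794) x12672) x30168) x25308) x25632) x25848) x25776) x25812) x25788) x6112)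
    (Nat.sub (Nat.add (Nat.add (Nat.add (Nat.add (Nat.add (Nat.add C x12690) x30186) x25326) x25650) x25866) x25794) x6130)
    (Nat.sub (Nat.sub (Nat.add (Nat.add (Nat.add (Nat.add (Nat.add (Nat.add (Nat.add (Nat.add C (Nat.mul x25840 (nat_lit 2))) x12718) x30214) x25354) x25678) x26002) x25786) x25842) x45522) x6158)
    (Nat.sub (Nat.add (Nat.add (Nat.add (Nat.add (Nat.add (Nat.add (Nat.add (Nat.add (Nat.add C x25842) x12720) x30216) x25356) x25680) x26004) x25788) x25848) x25840) x6160)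
    (Nat.sub (Nat.add (Nat.add (Nat.add (Nat.add (Nat.add (Nat.add (Nat.add (Nat.add (Nat.add C x25848) x12726) x30222) x25362) x25686) x26010) x25794) x25866) x25842) x6166)
    (Nat.sub (Nat.add (Nat.add (Nat.add (Nat.add (Nat.add (Nat.add (Nat.add (Nat.add (Nat.add C (Nat.mul x25866 (nat_lit 2))) x12744) x30240) x25380) x25704) x26028) x25812) x25920) x25848) x6184)
    (Nat.sub (Nat.add (Nat.add (Nat.add (Nat.add (Nat.add (Nat.add C (Nat.mul x25920 (nat_lit 2))) x12798) x30294) x25434) x26082) x25866) x6238)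
    (Nat.sub (Nat.sub (Nat.add (Nat.add (Nat.add (Nat.add (Nat.add C (Nat.mul x26002 (nat_lit 3))) x12880) x30376) x25840) x26004) x45684) x6320)
    (Nat.sub (Nat.add (Nat.add (Nat.add (Nat.add (Nat.add (Nat.add C (Nat.mul x26004 (nat_lit 2))) x12882) x30378) x25842) x26010) x26002) x6322)
    (Nat.sub (Nat.add (Nat.add (Nat.add (Nat.add (Nat.add (Nat.add C (Nat.mul x26010 (nat_lit 2))) x12888) x30384) x25848) x26028) x26004) x6328)
    (Nat.sub (Nat.add (Nat.add (Nat.add (Nat.add (Nat.add (Nat.add C (Nat.mul x26028 (nat_lit 2))) x12906) x30402) x25866) x26082) x26010) x6346)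
    (Nat.sub (Nat.add (Nat.add (Nat.add (Nat.add (Nat.add C (Nat.mul x26082 (nat_lit 4))) x12960) x30456) x25920) x26028) x6400)
    (Nat.sub (Nat.add (Nat.add (Nat.add (Nat.add (Nat.add C (Nat.mul x26270 (nat_lit 5))) x13148) x39392) x21896) x26288) x45952)
    (Nat.sub (Nat.add (Nat.add (Nat.add (Nat.add (Nat.add (Nat.add (Nat.add (Nat.add C (Nat.mul x26288 (nat_lit 4))) x13166) x39410) x21914) x26342) x26270) x26306) x26294) x45970)
    (Nat.sub (Nat.add (Nat.add (Nat.add (Nat.add (Nat.add (Nat.add (Nat.add (Nat.add C (Nat.mul x26294 (nat_lit 3))) x13172) x39416) x21920) x26348) x26312) x26288) x26296) x45976)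
    (Nat.sub (Nat.sub (Nat.add (Nat.add (Nat.add (Nat.add (Nat.add (Nat.add (Nat.add C (Nat.mul x26296 (nat_lit 4))) x13174) x39418) x21922) x26350) x26314) x26294) x45978) x6614)
    (Nat.sub (Nat.add (Nat.add (Nat.add (Nat.add (Nat.add (Nat.add (Nat.add C x26306) x13184) x39428) x21932) x26360) x26288) x26312) x45988)
    (Nat.sub (Nat.add (Nat.add (Nat.add (Nat.add (Nat.add (Nat.add (Nat.add (Nat.add (Nat.add C (Nat.mul x26312 (nat_lit 2))) x13190) x39434) x21938) x26366) x26294) x26306) x26318) x26314) x45994)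
    (Nat.sub (Nat.sub (Nat.add (Nat.add (Nat.add (Nat.add (Nat.add (Nat.add (Nat.add (Nat.add C (Nat.mul x26314 (nat_lit 2))) x13192) x39436) x21940) x26368) x26296) x26320) x26312) x45996) x6632)
    (Nat.sub (Nat.add (Nat.add (Nat.add (Nat.add (Nat.add (Nat.add (Nat.add C x26318) x13196) x39440) x21944) x26372) x26312) x26320) x46000)
    (Nat.sub (Nat.sub (Nat.add (Nat.add (Nat.add (Nat.add (Nat.add (Nat.add (Nat.add (Nat.add C (Nat.mul x26320 (nat_lit 3))) x13198) x39442) x21946) x26374) x26314) x26318) x26322) x46002) x6638)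
    (Nat.sub (Nat.add (Nat.add (Nat.add (Nat.add (Nat.add (Nat.add C (Nat.mul x26322 (nat_lit 3))) x13200) x39444) x21948) x26376) x26320) x6640)
    (Nat.sub (Nat.add (Nat.add (Nat.add (Nat.add (Nat.add (Nat.add (Nat.add (Nat.add C (Nat.mul x26342 (nat_lit 3))) x13220) x39464) x21968) x26504) x26288) x26360) x26348) x46024)
    (Nat.sub (Nat.add (Nat.add (Nat.add (Nat.add (Nat.add (Nat.add (Nat.add (Nat.add (Nat.add C x26348) x13226) x39470) x21974) x26510) x26294) x26366) x26342) x26350) x46030)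
    (Nat.sub (Nat.sub (Nat.add (Nat.add (Nat.add (Nat.add (Nat.add (Nat.add (Nat.add (Nat.add C (Nat.mul x26350 (nat_lit 2))) x13228) x39472) x21976) x26512) x26296) x26368) x26348) x46032) x6668)
    (Nat.sub (Nat.add (Nat.add (Nat.add (Nat.add (Nat.add (Nat.add (Nat.add (Nat.add (Nat.add C (Nat.mul x26360 (nat_lit 2))) x13238) x39482) x21986) x26522) x26306) x26414) x26342) x26366) x46042)
    (Nat.sub (Nat.add (Nat.add (Nat.add (Nat.add (Nat.add (Nat.add (Nat.add (Nat.add (Nat.add (Nat.add (Nat.add (Nat.add C (Nat.mul x26366 (nat_lit 2))) x13244) x39488) x21992) x26528) x26312) x26420) x26348) x26384) x26360) x26372) x26368) x46048)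
    (Nat.sub (Nat.sub (Nat.add (Nat.add (Nat.add (Nat.add (Nat.add (Nat.add (Nat.add (Nat.add (Nat.add (Nat.add (Nat.add C (Nat.mul x26368 (nat_lit 2))) x13246) x39490) x21994) x26530) x26314) x26422) x26350) x26386) x26374) x26366) x46050) x6686)
    (Nat.sub (Nat.add (Nat.add (Nat.add (Nat.add (Nat.add (Nat.add (Nat.add (Nat.add (Nat.add C x13250) x39494) x21998) x26534) x26318) x26426) x26390) x26366) x26374) x46054)
    (Nat.sub (Nat.sub (Nat.add (Nat.add (Nat.add (Nat.add (Nat.add (Nat.add (Nat.add (Nat.add (Nat.add (Nat.add (Nat.add C (Nat.mul x26374 (nat_lit 2))) x13252) x39496) x22000) x26536) x26320) x26428) x26392) x26368) x26372) x26376) x46056) x6692)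
    (Nat.sub (Nat.add (Nat.add (Nat.add (Nat.add (Nat.add (Nat.add (Nat.add (Nat.add (Nat.add C (Nat.mul x26376 (nat_lit 2))) x13254) x39498) x22002) x26538) x26322) x26430) x26394) x26374) x6694)
    (Nat.sub (Nat.add (Nat.add (Nat.add (Nat.add (Nat.add (Nat.add (Nat.add (Nat.add (Nat.add C x26384) x13262) x39506) x22010) x26546) x26438) x26366) x26390) x26386) x46066)
    (Nat.sub (Nat.sub (Nat.add (Nat.add (Nat.add (Nat.add (Nat.add (Nat.add (Nat.add (Nat.add C x13264) x39508) x22012) x26548) x26440) x26368) x26392) x26384) x46068) x6704)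
    (Nat.sub (Nat.add (Nat.add (Nat.add (Nat.add (Nat.add (Nat.add (Nat.add (Nat.add (Nat.add C x26390) x13268) x39512) x22016) x26552) x26444) x26372) x26384) x26392) x46072)
    (Nat.sub (Nat.sub (Nat.add (Nat.add (Nat.add (Nat.add (Nat.add (Nat.add (Nat.add (Nat.add (Nat.add (Nat.add (Nat.add C (Nat.mul x26392 (nat_lit 2))) x13270) x39514) x22018) x26554) x26446) x26374) x26386) x26398) x26390) x26394) x46074) x6710)
    (Nat.sub (Nat.add (Nat.add (Nat.add (Nat.add (Nat.add (Nat.add (Nat.add (Nat.add (Nat.add C x26394) x13272) x39516) x22020) x26556) x26448) x26376) x26400) x26392) x6712)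
    (Nat.sub (Nat.sub (Nat.add (Nat.add (Nat.add (Nat.add (Nat.add (Nat.add (Nat.add (Nat.add C (Nat.mul x26398 (nat_lit 2))) x13276) x39520) x22024) x26560) x26452) x26392) x26400) x46080) x6716)
    (Nat.sub (Nat.add (Nat.add (Nat.add (Nat.add (Nat.add (Nat.add (Nat.add (Nat.add C (Nat.mul x26400 (nat_lit 3))) x13278) x39522) x22026) x26562) x26454) x26394) x26398) x6718)
    (Nat.sub (Nat.add (Nat.add (Nat.add (Nat.add (Nat.add (Nat.add (Nat.add C x26414) x13292) x39536) x22040) x26576) x26360) x26420) x46096)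
    (Nat.sub (Nat.add (Nat.add (Nat.add (Nat.add (Nat.add (Nat.add (Nat.add (Nat.add (Nat.add C x13298) x39542) x22046) x26582) x26366) x26438) x26414) x26426) x26422) x46102)
    (Nat.sub (Nat.sub (Nat.add (Nat.add (Nat.add (Nat.add (Nat.add (Nat.add (Nat.add (Nat.add C x13300) x39544) x22048) x26584) x26368) x26440) x26428) x26420) x46104) x6740)
    (Nat.sub (Nat.sub (Nat.add (Nat.add (Nat.add (Nat.add (Nat.add (Nat.add (Nat.add (Nat.add C x13304) x39548) x22052) x26588) x26372) x26444) x26420) x26428) (Nat.mul x26426 (nat_lit 3))) x46108)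
    (Nat.sub (Nat.sub (Nat.sub (Nat.add (Nat.add (Nat.add (Nat.add (Nat.add (Nat.add (Nat.add (Nat.add (Nat.add C x13306) x39550) x22054) x26590) x26374) x26446) x26422) x26426) x26430) x26428) x46110) x6746)
    (Nat.sub (Nat.sub (Nat.add (Nat.add (Nat.add (Nat.add (Nat.add (Nat.add (Nat.add C x13308) x39552) x22056) x26592) x26376) x26448) x26428) x26430) x6748)
    (Nat.sub (Nat.add (Nat.add (Nat.add (Nat.add (Nat.add (Nat.add (Nat.add (Nat.add (Nat.add C x26438) x13316) x39560) x22064) x26600) x26384) x26420) x26444) x26440) x46120)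
    (Nat.sub (Nat.sub (Nat.add (Nat.add (Nat.add (Nat.add (Nat.add (Nat.add (Nat.add (Nat.add C x13318) x39562) x22066) x26602) x26386) x26422) x26446) x26438) x46122) x6758)
    (Nat.sub (Nat.add (Nat.add (Nat.add (Nat.add (Nat.add (Nat.add (Nat.add (Nat.add (Nat.add C x13322) x39566) x22070) x26606) x26390) x26426) x26462) x26438) x26446) x46126)
    (Nat.sub (Nat.sub (Nat.add (Nat.add (Nat.add (Nat.add (Nat.add (Nat.add (Nat.add (Nat.add (Nat.add (Nat.add (Nat.add (Nat.add C x26446) x13324) x39568) x22072) x26608) x26392) x26428) x26464) x26440) x26452) x26444) x26448) x46128) x6764)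
    (Nat.sub (Nat.add (Nat.add (Nat.add (Nat.add (Nat.add (Nat.add (Nat.add (Nat.add (Nat.add C x13326) x39570) x22074) x26610) x26394) x26430) x26466) x26454) x26446) x6766)
    (Nat.sub (Nat.sub (Nat.add (Nat.add (Nat.add (Nat.add (Nat.add (Nat.add (Nat.add (Nat.add C x13330) x39574) x22078) x26614) x26398) x26470) x26446) x26454) x46134) x6770)
    (Nat.sub (Nat.add (Nat.add (Nat.add (Nat.add (Nat.add (Nat.add (Nat.add (Nat.add (Nat.add C x26454) x13332) x39576) x22080) x26616) x26400) x26472) x26448) x26452) x6772)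
    (Nat.sub (Nat.add (Nat.add (Nat.add (Nat.add (Nat.add (Nat.add (Nat.add C x26462) x13340) x39584) x22088) x26624) x26444) x26464) x46144)
    (Nat.sub (Nat.sub (Nat.add (Nat.add (Nat.add (Nat.add (Nat.add (Nat.add (Nat.add (Nat.add (Nat.add C x26464) x13342) x39586) x22090) x26626) x26446) x26470) x26462) x26466) x46146) x6782)
    (Nat.sub (Nat.sub (Nat.add (Nat.add (Nat.add (Nat.add (Nat.add (Nat.add (Nat.add C x13344) x39588) x22092) x26628) x26448) x26472) x26464) x26466) x6784)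
    (Nat.sub (Nat.sub (Nat.add (Nat.add (Nat.add (Nat.add (Nat.add (Nat.add (Nat.add (Nat.add C (Nat.mul x26470 (nat_lit 2))) x13348) x39592) x22096) x26632) x26452) x26464) x26472) x46152) x6788)
    (Nat.sub (Nat.add (Nat.add (Nat.add (Nat.add (Nat.add (Nat.add (Nat.add (Nat.add (Nat.add C (Nat.mul x26472 (nat_lit 2))) x13350) x39594) x22098) x26634) x26454) x26466) x26478) x26470) x6790)
    (Nat.sub (Nat.add (Nat.add (Nat.add (Nat.add (Nat.add (Nat.add C (Nat.mul x26478 (nat_lit 3))) x13356) x39600) x22104) x26640) x26472) x6796)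
    (Nat.sub (Nat.add (Nat.add (Nat.add (Nat.add (Nat.add (Nat.add (Nat.add (Nat.add C (Nat.mul x26504 (nat_lit 3))) x13382) x39626) x22130) x26990) x26342) x26522) x26510) x46186)
    (Nat.sub (Nat.add (Nat.add (Nat.add (Nat.add (Nat.add (Nat.add (Nat.add (Nat.add (Nat.add C x26510) x13388) x39632) x22136) x26996) x26348) x26528) x26504) x26512) x46192)
    (Nat.sub (Nat.sub (Nat.add (Nat.add (Nat.add (Nat.add (Nat.add (Nat.add (Nat.add (Nat.add C (Nat.mul x26512 (nat_lit 2))) x13390) x39634) x22138) x26998) x26350) x26530) x26510) x46194) x6830)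
    (Nat.sub (Nat.add (Nat.add (Nat.add (Nat.add (Nat.add (Nat.add (Nat.add (Nat.add (Nat.add C x26522) x13400) x39644) x22148) x27008) x26360) x26576) x26504) x26528) x46204)
    (Nat.sub (Nat.add (Nat.add (Nat.add (Nat.add (Nat.add (Nat.add (Nat.add (Nat.add (Nat.add (Nat.add (Nat.add (Nat.add C x26528) x13406) x39650) x22154) x27014) x26366) x26582) x26510) x26546) x26522) x26534) x26530) x46210)
    (Nat.sub (Nat.sub (Nat.add (Nat.add (Nat.add (Nat.add (Nat.add (Nat.add (Nat.add (Nat.add (Nat.add (Nat.add (Nat.add C x26530) x13408) x39652) x22156) x27016) x26368) x26584) x26512) x26548) x26536) x26528) x46212) x6848)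
    (Nat.sub (Nat.sub (Nat.add (Nat.add (Nat.add (Nat.add (Nat.add (Nat.add (Nat.add (Nat.add (Nat.add C x13412) x39656) x22160) x27020) x26372) x26588) x26552) x26528) x26536) x26534) x46216)
    (Nat.sub (Nat.sub (Nat.add (Nat.add (Nat.add (Nat.add (Nat.add (Nat.add (Nat.add (Nat.add (Nat.add (Nat.add (Nat.add C x26536) x13414) x39658) x22162) x27022) x26374) x26590) x26554) x26530) x26534) x26538) x46218) x6854)
    (Nat.sub (Nat.add (Nat.add (Nat.add (Nat.add (Nat.add (Nat.add (Nat.add (Nat.add (Nat.add C x26538) x13416) x39660) x22164) x27024) x26376) x26592) x26556) x26536) x6856)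
    (Nat.sub (Nat.sub (Nat.add (Nat.add (Nat.add (Nat.add (Nat.add (Nat.add (Nat.add (Nat.add (Nat.add C x13424) x39668) x22172) x27032) x26384) x26600) x26528) x26552) x26548) x26546) x46228)
    (Nat.sub (Nat.sub (Nat.sub (Nat.add (Nat.add (Nat.add (Nat.add (Nat.add (Nat.add (Nat.add (Nat.add (Nat.add C x13426) x39670) x22174) x27034) x26386) x26602) x26530) x26554) x26546) (Nat.mul x26548 (nat_lit 2))) x46230) x6866)
    (Nat.sub (Nat.sub (Nat.add (Nat.add (Nat.add (Nat.add (Nat.add (Nat.add (Nat.add (Nat.add (Nat.add C x13430) x39674) x22178) x27038) x26390) x26606) x26534) x26546) x26554) x26552) x46234)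
    (Nat.sub (Nat.sub (Nat.add (Nat.add (Nat.add (Nat.add (Nat.add (Nat.add (Nat.add (Nat.add (Nat.add (Nat.add (Nat.add C x13432) x39676) x22180) x27040) x26392) x26608) x26536) x26548) x26560) x26552) x26556) x46236) x6872)
    (Nat.sub (Nat.sub (Nat.add (Nat.add (Nat.add (Nat.add (Nat.add (Nat.add (Nat.add (Nat.add (Nat.add C x13434) x39678) x22182) x27042) x26394) x26610) x26538) x26562) x26554) x26556) x6874)
    (Nat.sub (Nat.sub (Nat.add (Nat.add (Nat.add (Nat.add (Nat.add (Nat.add (Nat.add (Nat.add C x13438) x39682) x22186) x27046) x26398) x26614) x26554) x26562) x46242) x6878)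
    (Nat.sub (Nat.add (Nat.add (Nat.add (Nat.add (Nat.add (Nat.add (Nat.add (Nat.add (Nat.add C x26562) x13440) x39684) x22188) x27048) x26400) x26616) x26556) x26560) x6880)
    (Nat.sub (Nat.add (Nat.add (Nat.add (Nat.add (Nat.add (Nat.add (Nat.add (Nat.add (Nat.add C (Nat.mul x26576 (nat_lit 2))) x13454) x39698) x22202) x27062) x26414) x26738) x26522) x26582) x46258)
    (Nat.sub (Nat.add (Nat.add (Nat.add (Nat.add (Nat.add (Nat.add (Nat.add (Nat.add (Nat.add (Nat.add (Nat.add (Nat.add C x26582) x13460) x39704) x22208) x27068) x26420) x26744) x26528) x26600) x26576) x26588) x26584) x46264)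
    (Nat.sub (Nat.sub (Nat.add (Nat.add (Nat.add (Nat.add (Nat.add (Nat.add (Nat.add (Nat.add (Nat.add (Nat.add (Nat.add C x26584) x13462) x39706) x22210) x27070) x26422) x26746) x26530) x26602) x26590) x26582) x46266) x6902)
    (Nat.sub (Nat.sub (Nat.add (Nat.add (Nat.add (Nat.add (Nat.add (Nat.add (Nat.add (Nat.add (Nat.add (Nat.add C x13466) x39710) x22214) x27074) x26426) x26750) x26534) x26606) x26582) x26590) (Nat.mul x26588 (nat_lit 2))) x46270)
    (Nat.sub (Nat.sub (Nat.add (Nat.add (Nat.add (Nat.add (Nat.add (Nat.add (Nat.add (Nat.add (Nat.add (Nat.add (Nat.add C x13468) x39712) x22216) x27076) x26428) x26752) x26536) x26608) x26584) x26588) x26592) x46272) x6908)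
    (Nat.sub (Nat.add (Nat.add (Nat.add (Nat.add (Nat.add (Nat.add (Nat.add (Nat.add (Nat.add C x13470) x39714) x22218) x27078) x26430) x26754) x26538) x26610) x26590) x6910)
    (Nat.sub (Nat.add (Nat.add (Nat.add (Nat.add (Nat.add (Nat.add (Nat.add (Nat.add (Nat.add (Nat.add (Nat.add (Nat.add C x26600) x13478) x39722) x22226) x27086) x26438) x26762) x26546) x26654) x26582) x26606) x26602) x46282)
    (Nat.sub (Nat.sub (Nat.add (Nat.add (Nat.add (Nat.add (Nat.add (Nat.add (Nat.add (Nat.add (Nat.add (Nat.add (Nat.add C x13480) x39724) x22228) x27088) x26440) x26764) x26548) x26656) x26584) x26608) x26600) x46284) x6920)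
    (Nat.sub (Nat.add (Nat.add (Nat.add (Nat.add (Nat.add (Nat.add (Nat.add (Nat.add (Nat.add (Nat.add (Nat.add (Nat.add C x13484) x39728) x22232) x27092) x26444) x26768) x26552) x26660) x26588) x26624) x26600) x26608) x46288)
    (Nat.sub (Nat.sub (Nat.add (Nat.add (Nat.add (Nat.add (Nat.add (Nat.add (Nat.add (Nat.add (Nat.add (Nat.add (Nat.add (Nat.add (Nat.add (Nat.add (Nat.add C x26608) x13486) x39730) x22234) x27094) x26446) x26770) x26554) x26662) x26590) x26626) x26602) x26614) x26606) x26610) x46290) x6926)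
    (Nat.sub (Nat.add (Nat.add (Nat.add (Nat.add (Nat.add (Nat.add (Nat.add (Nat.add (Nat.add (Nat.add (Nat.add (Nat.add C x13488) x39732) x22236) x27096) x26448) x26772) x26556) x26664) x26592) x26628) x26616) x26608) x6928)
    (Nat.sub (Nat.sub (Nat.add (Nat.add (Nat.add (Nat.add (Nat.add (Nat.add (Nat.add (Nat.add (Nat.add (Nat.add (Nat.add C x13492) x39736) x22240) x27100) x26452) x26776) x26560) x26668) x26632) x26608) x26616) x46296) x6932)
    (Nat.sub (Nat.add (Nat.add (Nat.add (Nat.add (Nat.add (Nat.add (Nat.add (Nat.add (Nat.add (Nat.add (Nat.add (Nat.add C x26616) x13494) x39738) x22242) x27102) x26454) x26778) x26562) x26670) x26634) x26610) x26614) x6934)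
    (Nat.sub (Nat.add (Nat.add (Nat.add (Nat.add (Nat.add (Nat.add (Nat.add (Nat.add (Nat.add C x13502) x39746) x22250) x27110) x26462) x26786) x26678) x26606) x26626) x46306)
    (Nat.sub (Nat.sub (Nat.add (Nat.add (Nat.add (Nat.add (Nat.add (Nat.add (Nat.add (Nat.add (Nat.add (Nat.add (Nat.add C x13504) x39748) x22252) x27112) x26464) x26788) x26680) x26608) x26632) x26624) x26628) x46308) x6944)
    (Nat.sub (Nat.sub (Nat.add (Nat.add (Nat.add (Nat.add (Nat.add (Nat.add (Nat.add (Nat.add (Nat.add (Nat.add C x13506) x39750) x22254) x27114) x26466) x26790) x26682) x26610) x26634) x26626) (Nat.mul x26628 (nat_lit 2))) x6946)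
    (Nat.sub (Nat.sub (Nat.add (Nat.add (Nat.add (Nat.add (Nat.add (Nat.add (Nat.add (Nat.add (Nat.add (Nat.add (Nat.add C x26632) x13510) x39754) x22258) x27118) x26470) x26794) x26686) x26614) x26626) x26634) x46314) x6950)
    (Nat.sub (Nat.add (Nat.add (Nat.add (Nat.add (Nat.add (Nat.add (Nat.add (Nat.add (Nat.add (Nat.add (Nat.add (Nat.add C x26634) x13512) x39756) x22260) x27120) x26472) x26796) x26688) x26616) x26628) x26640) x26632) x6952)
    (Nat.sub (Nat.add (Nat.add (Nat.add (Nat.add (Nat.add (Nat.add (Nat.add (Nat.add (Nat.add C (Nat.mul x26640 (nat_lit 2))) x13518) x39762) x22266) x27126) x26478) x26802) x26694) x26634) x6958)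
    (Nat.sub (Nat.add (Nat.add (Nat.add (Nat.add (Nat.add (Nat.add (Nat.add (Nat.add (Nat.add C x26654) x13532) x39776) x22280) x27140) x26816) x26600) x26660) x26656) x46336)
    (Nat.sub (Nat.sub (Nat.add (Nat.add (Nat.add (Nat.add (Nat.add (Nat.add (Nat.add (Nat.add C x13534) x39778) x22282) x27142) x26818) x26602) x26662) x26654) x46338) x6974)
    (Nat.sub (Nat.sub (Nat.add (Nat.add (Nat.add (Nat.add (Nat.add (Nat.add (Nat.add (Nat.add (Nat.add C x13538) x39782) x22286) x27146) x26822) x26606) x26678) x26654) x26662) x26660) x46342)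
    (Nat.sub (Nat.sub (Nat.add (Nat.add (Nat.add (Nat.add (Nat.add (Nat.add (Nat.add (Nat.add (Nat.add (Nat.add (Nat.add C x13540) x39784) x22288) x27148) x26824) x26608) x26680) x26656) x26668) x26660) x26664) x46344) x6980)
    (Nat.sub (Nat.sub (Nat.add (Nat.add (Nat.add (Nat.add (Nat.add (Nat.add (Nat.add (Nat.add (Nat.add C x13542) x39786) x22290) x27150) x26826) x26610) x26682) x26670) x26662) x26664) x6982)
    (Nat.sub (Nat.sub (Nat.sub (Nat.add (Nat.add (Nat.add (Nat.add (Nat.add (Nat.add (Nat.add (Nat.add (Nat.add C x13546) x39790) x22294) x27154) x26830) x26614) x26686) x26662) x26670) (Nat.mul x26668 (nat_lit 2))) x46350) x6986)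
    (Nat.sub (Nat.sub (Nat.add (Nat.add (Nat.add (Nat.add (Nat.add (Nat.add (Nat.add (Nat.add (Nat.add C x13548) x39792) x22296) x27156) x26832) x26616) x26688) x26664) x26668) x26670) x6988)
    (Nat.sub (Nat.add (Nat.add (Nat.add (Nat.add (Nat.add (Nat.add (Nat.add (Nat.add (Nat.add C x26678) x13556) x39800) x22304) x27164) x26840) x26624) x26660) x26680) x46360)
    (Nat.sub (Nat.sub (Nat.add (Nat.add (Nat.add (Nat.add (Nat.add (Nat.add (Nat.add (Nat.add (Nat.add (Nat.add (Nat.add C x26680) x13558) x39802) x22306) x27166) x26842) x26626) x26662) x26686) x26678) x26682) x46362) x6998)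
    (Nat.sub (Nat.sub (Nat.add (Nat.add (Nat.add (Nat.add (Nat.add (Nat.add (Nat.add (Nat.add (Nat.add C x13560) x39804) x22308) x27168) x26844) x26628) x26664) x26688) x26680) x26682) x7000)
    (Nat.sub (Nat.sub (Nat.add (Nat.add (Nat.add (Nat.add (Nat.add (Nat.add (Nat.add (Nat.add (Nat.add (Nat.add (Nat.add C x26686) x13564) x39808) x22312) x27172) x26848) x26632) x26668) x26704) x26680) x26688) x46368) x7004)
    (Nat.sub (Nat.add (Nat.add (Nat.add (Nat.add (Nat.add (Nat.add (Nat.add (Nat.add (Nat.add (Nat.add (Nat.add (Nat.add C x26688) x13566) x39810) x22314) x27174) x26850) x26634) x26670) x26706) x26682) x26694) x26686) x7006)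
    (Nat.sub (Nat.add (Nat.add (Nat.add (Nat.add (Nat.add (Nat.add (Nat.add (Nat.add (Nat.add C x26694) x13572) x39816) x22320) x27180) x26856) x26640) x26712) x26688) x7012)
    (Nat.sub (Nat.sub (Nat.add (Nat.add (Nat.add (Nat.add (Nat.add (Nat.add (Nat.add (Nat.add C (Nat.mul x26704 (nat_lit 2))) x13582) x39826) x22330) x27190) x26866) x26686) x26706) x46386) x7022)
    (Nat.sub (Nat.add (Nat.add (Nat.add (Nat.add (Nat.add (Nat.add (Nat.add (Nat.add (Nat.add C x26706) x13584) x39828) x22332) x27192) x26868) x26688) x26712) x26704) x7024)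
    (Nat.sub (Nat.add (Nat.add (Nat.add (Nat.add (Nat.add (Nat.add (Nat.add (Nat.add C (Nat.mul x26712 (nat_lit 3))) x13590) x39834) x22338) x27198) x26874) x26694) x26706) x7030)
    (Nat.sub (Nat.add (Nat.add (Nat.add (Nat.add (Nat.add (Nat.add (Nat.add C x26738) x13616) x39860) x22364) x27224) x26576) x26744) x46420)
    (Nat.sub (Nat.add (Nat.add (Nat.add (Nat.add (Nat.add (Nat.add (Nat.add (Nat.add (Nat.add C x13622) x39866) x22370) x27230) x26582) x26762) x26738) x26750) x26746) x46426)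
    (Nat.sub (Nat.sub (Nat.add (Nat.add (Nat.add (Nat.add (Nat.add (Nat.add (Nat.add (Nat.add C x13624) x39868) x22372) x27232) x26584) x26764) x26752) x26744) x46428) x7064)
    (Nat.sub (Nat.sub (Nat.add (Nat.add (Nat.add (Nat.add (Nat.add (Nat.add (Nat.add (Nat.add C x13628) x39872) x22376) x27236) x26588) x26768) x26744) x26752) (Nat.mul x26750 (nat_lit 3))) x46432)
    (Nat.sub (Nat.sub (Nat.sub (Nat.add (Nat.add (Nat.add (Nat.add (Nat.add (Nat.add (Nat.add (Nat.add (Nat.add C x13630) x39874) x22378) x27238) x26590) x26770) x26746) x26750) x26754) x26752) x46434) x7070)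
    (Nat.sub (Nat.sub (Nat.add (Nat.add (Nat.add (Nat.add (Nat.add (Nat.add (Nat.add C x13632) x39876) x22380) x27240) x26592) x26772) x26752) x26754) x7072)
    (Nat.sub (Nat.sub (Nat.add (Nat.add (Nat.add (Nat.add (Nat.add (Nat.add (Nat.add (Nat.add (Nat.add C x13640) x39884) x22388) x27248) x26600) x26816) x26744) x26768) x26764) x26762) x46444)
    (Nat.sub (Nat.sub (Nat.sub (Nat.add (Nat.add (Nat.add (Nat.add (Nat.add (Nat.add (Nat.add (Nat.add (Nat.add C x13642) x39886) x22390) x27250) x26602) x26818) x26746) x26770) x26762) (Nat.mul x26764 (nat_lit 2))) x46446) x7082)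
    (Nat.sub (Nat.sub (Nat.add (Nat.add (Nat.add (Nat.add (Nat.add (Nat.add (Nat.add (Nat.add (Nat.add (Nat.add C x13646) x39890) x22394) x27254) x26606) x26822) x26750) x26786) x26762) x26770) (Nat.mul x26768 (nat_lit 2))) x46450)
    (Nat.sub (Nat.sub (Nat.sub (Nat.add (Nat.add (Nat.add (Nat.add (Nat.add (Nat.add (Nat.add (Nat.add (Nat.add (Nat.add (Nat.add (Nat.add C x13648) x39892) x22396) x27256) x26608) x26824) x26752) x26788) x26764) x26776) x26768) x26772) x26770) x46452) x7088)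
    (Nat.sub (Nat.sub (Nat.add (Nat.add (Nat.add (Nat.add (Nat.add (Nat.add (Nat.add (Nat.add (Nat.add (Nat.add C x13650) x39894) x22398) x27258) x26610) x26826) x26754) x26790) x26778) x26770) (Nat.mul x26772 (nat_lit 2))) x7090)
    (Nat.sub (Nat.sub (Nat.sub (Nat.add (Nat.add (Nat.add (Nat.add (Nat.add (Nat.add (Nat.add (Nat.add (Nat.add C x13654) x39898) x22402) x27262) x26614) x26830) x26794) x26770) x26778) (Nat.mul x26776 (nat_lit 2))) x46458) x7094)
    (Nat.sub (Nat.sub (Nat.add (Nat.add (Nat.add (Nat.add (Nat.add (Nat.add (Nat.add (Nat.add (Nat.add C x13656) x39900) x22404) x27264) x26616) x26832) x26796) x26772) x26776) x26778) x7096)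
    (Nat.sub (Nat.sub (Nat.add (Nat.add (Nat.add (Nat.add (Nat.add (Nat.add (Nat.add (Nat.add C x13664) x39908) x22412) x27272) x26624) x26840) x26768) x26788) (Nat.mul x26786 (nat_lit 3))) x46468)
    (Nat.sub (Nat.sub (Nat.sub (Nat.add (Nat.add (Nat.add (Nat.add (Nat.add (Nat.add (Nat.add (Nat.add (Nat.add (Nat.add C x13666) x39910) x22414) x27274) x26626) x26842) x26770) x26794) x26786) x26790) (Nat.mul x26788 (nat_lit 3))) x46470) x7106)
    (Nat.sub (Nat.sub (Nat.add (Nat.add (Nat.add (Nat.add (Nat.add (Nat.add (Nat.add (Nat.add (Nat.add C x13668) x39912) x22416) x27276) x26628) x26844) x26772) x26796) x26788) (Nat.mul x26790 (nat_lit 5))) x7108)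
    (Nat.sub (Nat.sub (Nat.sub (Nat.add (Nat.add (Nat.add (Nat.add (Nat.add (Nat.add (Nat.add (Nat.add (Nat.add C x13672) x39916) x22420) x27280) x26632) x26848) x26776) x26788) x26796) (Nat.mul x26794 (nat_lit 2))) x46476) x7112)
    (Nat.sub (Nat.sub (Nat.add (Nat.add (Nat.add (Nat.add (Nat.add (Nat.add (Nat.add (Nat.add (Nat.add (Nat.add C x13674) x39918) x22422) x27282) x26634) x26850) x26778) x26790) x26802) x26794) (Nat.mul x26796 (nat_lit 2))) x7114)
    (Nat.sub (Nat.sub (Nat.add (Nat.add (Nat.add (Nat.add (Nat.add (Nat.add (Nat.add C x13680) x39924) x22428) x27288) x26640) x26856) x26796) x26802) x7120)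
    (Nat.sub (Nat.add (Nat.add (Nat.add (Nat.add (Nat.add (Nat.add (Nat.add (Nat.add (Nat.add C x26816) x13694) x39938) x22442) x27302) x26654) x26762) x26822) x26818) x46498)
    (Nat.sub (Nat.sub (Nat.add (Nat.add (Nat.add (Nat.add (Nat.add (Nat.add (Nat.add (Nat.add C x13696) x39940) x22444) x27304) x26656) x26764) x26824) x26816) x46500) x7136)
    (Nat.sub (Nat.sub (Nat.add (Nat.add (Nat.add (Nat.add (Nat.add (Nat.add (Nat.add (Nat.add (Nat.add C x13700) x39944) x22448) x27308) x26660) x26768) x26840) x26816) x26824) x26822) x46504)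
    (Nat.sub (Nat.sub (Nat.add (Nat.add (Nat.add (Nat.add (Nat.add (Nat.add (Nat.add (Nat.add (Nat.add (Nat.add (Nat.add C x13702) x39946) x22450) x27310) x26662) x26770) x26842) x26818) x26830) x26822) x26826) x46506) x7142)
    (Nat.sub (Nat.sub (Nat.add (Nat.add (Nat.add (Nat.add (Nat.add (Nat.add (Nat.add (Nat.add (Nat.add C x13704) x39948) x22452) x27312) x26664) x26772) x26844) x26832) x26824) x26826) x7144)
    (Nat.sub (Nat.sub (Nat.sub (Nat.add (Nat.add (Nat.add (Nat.add (Nat.add (Nat.add (Nat.add (Nat.add (Nat.add C x13708) x39952) x22456) x27316) x26668) x26776) x26848) x26824) x26832) (Nat.mul x26830 (nat_lit 2))) x46512) x7148)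
    (Nat.sub (Nat.sub (Nat.add (Nat.add (Nat.add (Nat.add (Nat.add (Nat.add (Nat.add (Nat.add (Nat.add C x13710) x39954) x22458) x27318) x26670) x26778) x26850) x26826) x26830) x26832) x7150)
    (Nat.sub (Nat.add (Nat.add (Nat.add (Nat.add (Nat.add (Nat.add (Nat.add (Nat.add (Nat.add C x13718) x39962) x22466) x27326) x26678) x26786) x26894) x26822) x26842) x46522)
    (Nat.sub (Nat.sub (Nat.add (Nat.add (Nat.add (Nat.add (Nat.add (Nat.add (Nat.add (Nat.add (Nat.add (Nat.add (Nat.add C x13720) x39964) x22468) x27328) x26680) x26788) x26896) x26824) x26848) x26840) x26844) x46524) x7160)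
    (Nat.sub (Nat.sub (Nat.add (Nat.add (Nat.add (Nat.add (Nat.add (Nat.add (Nat.add (Nat.add (Nat.add (Nat.add C x13722) x39966) x22470) x27330) x26682) x26790) x26898) x26826) x26850) x26842) (Nat.mul x26844 (nat_lit 2))) x7162)
    (Nat.sub (Nat.sub (Nat.add (Nat.add (Nat.add (Nat.add (Nat.add (Nat.add (Nat.add (Nat.add (Nat.add (Nat.add (Nat.add C x13726) x39970) x22474) x27334) x26686) x26794) x26902) x26830) x26866) x26842) x26850) x46530) x7166)
    (Nat.sub (Nat.add (Nat.add (Nat.add (Nat.add (Nat.add (Nat.add (Nat.add (Nat.add (Nat.add (Nat.add (Nat.add (Nat.add C x13728) x39972) x22476) x27336) x26688) x26796) x26904) x26832) x26868) x26844) x26856) x26848) x7168)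
    (Nat.sub (Nat.add (Nat.add (Nat.add (Nat.add (Nat.add (Nat.add (Nat.add (Nat.add (Nat.add C x13734) x39978) x22482) x27342) x26694) x26802) x26910) x26874) x26850) x7174)
    (Nat.sub (Nat.sub (Nat.add (Nat.add (Nat.add (Nat.add (Nat.add (Nat.add (Nat.add (Nat.add C x13744) x39988) x22492) x27352) x26704) x26920) x26848) x26868) x46548) x7184)
    (Nat.sub (Nat.sub (Nat.add (Nat.add (Nat.add (Nat.add (Nat.add (Nat.add (Nat.add (Nat.add (Nat.add C x13746) x39990) x22494) x27354) x26706) x26922) x26850) x26874) x26866) x26868) x7186)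
    (Nat.sub (Nat.add (Nat.add (Nat.add (Nat.add (Nat.add (Nat.add (Nat.add (Nat.add (Nat.add C x26874) x13752) x39996) x22500) x27360) x26712) x26928) x26856) x26868) x7192)
    (Nat.sub (Nat.add (Nat.add (Nat.add (Nat.add (Nat.add (Nat.add (Nat.add C x26894) x13772) x40016) x22520) x27380) x26840) x26896) x46576)
    (Nat.sub (Nat.sub (Nat.add (Nat.add (Nat.add (Nat.add (Nat.add (Nat.add (Nat.add (Nat.add (Nat.add C x26896) x13774) x40018) x22522) x27382) x26842) x26902) x26894) x26898) x46578) x7214)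
    (Nat.sub (Nat.sub (Nat.add (Nat.add (Nat.add (Nat.add (Nat.add (Nat.add (Nat.add C x13776) x40020) x22524) x27384) x26844) x26904) x26896) x26898) x7216)
    (Nat.sub (Nat.sub (Nat.add (Nat.add (Nat.add (Nat.add (Nat.add (Nat.add (Nat.add (Nat.add C x13780) x40024) x22528) x27388) x26848) x26920) x26896) x26904) x46584) x7220)
    (Nat.sub (Nat.add (Nat.add (Nat.add (Nat.add (Nat.add (Nat.add (Nat.add (Nat.add (Nat.add C x13782) x40026) x22530) x27390) x26850) x26922) x26898) x26910) x26902) x7222)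
    (Nat.sub (Nat.sub (Nat.add (Nat.add (Nat.add (Nat.add (Nat.add (Nat.add (Nat.add C x13788) x40032) x22536) x27396) x26856) x26928) x26904) x26910) x7228)
    (Nat.sub (Nat.sub (Nat.add (Nat.add (Nat.add (Nat.add (Nat.add (Nat.add (Nat.add (Nat.add C (Nat.mul x26920 (nat_lit 2))) x13798) x40042) x22546) x27406) x26866) x26902) x26922) x46602) x7238)
    (Nat.sub (Nat.add (Nat.add (Nat.add (Nat.add (Nat.add (Nat.add (Nat.add (Nat.add (Nat.add C x26922) x13800) x40044) x22548) x27408) x26868) x26904) x26928) x26920) x7240)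
    (Nat.sub (Nat.add (Nat.add (Nat.add (Nat.add (Nat.add (Nat.add (Nat.add (Nat.add (Nat.add C (Nat.mul x26928 (nat_lit 2))) x13806) x40050) x22554) x27414) x26874) x26910) x26946) x26922) x7246)
    (Nat.sub (Nat.add (Nat.add (Nat.add (Nat.add (Nat.add (Nat.add C (Nat.mul x26946 (nat_lit 3))) x13824) x40068) x22572) x27432) x26928) x7264)
    (Nat.sub (Nat.add (Nat.add (Nat.add (Nat.add (Nat.add (Nat.add (Nat.add (Nat.add C (Nat.mul x26990 (nat_lit 3))) x13868) x40112) x22616) x28448) x26504) x27008) x26996) x46672)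
    (Nat.sub (Nat.add (Nat.add (Nat.add (Nat.add (Nat.add (Nat.add (Nat.add (Nat.add (Nat.add C x26996) x13874) x40118) x22622) x28454) x26510) x27014) x26990) x26998) x46678)
    (Nat.sub (Nat.sub (Nat.add (Nat.add (Nat.add (Nat.add (Nat.add (Nat.add (Nat.add (Nat.add C (Nat.mul x26998 (nat_lit 2))) x13876) x40120) x22624) x28456) x26512) x27016) x26996) x46680) x7316)
    (Nat.sub (Nat.add (Nat.add (Nat.add (Nat.add (Nat.add (Nat.add (Nat.add (Nat.add (Nat.add C x27008) x13886) x40130) x22634) x28466) x26522) x27062) x26990) x27014) x46690)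
    (Nat.sub (Nat.add (Nat.add (Nat.add (Nat.add (Nat.add (Nat.add (Nat.add (Nat.add (Nat.add (Nat.add (Nat.add (Nat.add C x27014) x13892) x40136) x22640) x28472) x26528) x27068) x26996) x27032) x27008) x27020) x27016) x46696)
    (Nat.sub (Nat.sub (Nat.add (Nat.add (Nat.add (Nat.add (Nat.add (Nat.add (Nat.add (Nat.add (Nat.add (Nat.add (Nat.add C x27016) x13894) x40138) x22642) x28474) x26530) x27070) x26998) x27034) x27022) x27014) x46698) x7334)
    (Nat.sub (Nat.sub (Nat.add (Nat.add (Nat.add (Nat.add (Nat.add (Nat.add (Nat.add (Nat.add (Nat.add C x13898) x40142) x22646) x28478) x26534) x27074) x27038) x27014) x27022) x27020) x46702)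
    (Nat.sub (Nat.sub (Nat.add (Nat.add (Nat.add (Nat.add (Nat.add (Nat.add (Nat.add (Nat.add (Nat.add (Nat.add (Nat.add C x27022) x13900) x40144) x22648) x28480) x26536) x27076) x27040) x27016) x27020) x27024) x46704) x7340)
    (Nat.sub (Nat.add (Nat.add (Nat.add (Nat.add (Nat.add (Nat.add (Nat.add (Nat.add (Nat.add C x27024) x13902) x40146) x22650) x28482) x26538) x27078) x27042) x27022) x7342)
    (Nat.sub (Nat.sub (Nat.add (Nat.add (Nat.add (Nat.add (Nat.add (Nat.add (Nat.add (Nat.add (Nat.add C x13910) x40154) x22658) x28490) x26546) x27086) x27014) x27038) x27034) x27032) x46714)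
    (Nat.sub (Nat.sub (Nat.sub (Nat.add (Nat.add (Nat.add (Nat.add (Nat.add (Nat.add (Nat.add (Nat.add (Nat.add C x13912) x40156) x22660) x28492) x26548) x27088) x27016) x27040) x27032) (Nat.mul x27034 (nat_lit 2))) x46716) x7352)
    (Nat.sub (Nat.sub (Nat.add (Nat.add (Nat.add (Nat.add (Nat.add (Nat.add (Nat.add (Nat.add (Nat.add C x13916) x40160) x22664) x28496) x26552) x27092) x27020) x27032) x27040) x27038) x46720)
    (Nat.sub (Nat.sub (Nat.add (Nat.add (Nat.add (Nat.add (Nat.add (Nat.add (Nat.add (Nat.add (Nat.add (Nat.add (Nat.add C x13918) x40162) x22666) x28498) x26554) x27094) x27022) x27034) x27046) x27038) x27042) x46722) x7358)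
    (Nat.sub (Nat.sub (Nat.add (Nat.add (Nat.add (Nat.add (Nat.add (Nat.add (Nat.add (Nat.add (Nat.add C x13920) x40164) x22668) x28500) x26556) x27096) x27024) x27048) x27040) x27042) x7360)
    (Nat.sub (Nat.sub (Nat.add (Nat.add (Nat.add (Nat.add (Nat.add (Nat.add (Nat.add (Nat.add C x13924) x40168) x22672) x28504) x26560) x27100) x27040) x27048) x46728) x7364)
    (Nat.sub (Nat.add (Nat.add (Nat.add (Nat.add (Nat.add (Nat.add (Nat.add (Nat.add (Nat.add C x27048) x13926) x40170) x22674) x28506) x26562) x27102) x27042) x27046) x7366)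
    (Nat.sub (Nat.add (Nat.add (Nat.add (Nat.add (Nat.add (Nat.add (Nat.add (Nat.add (Nat.add C x27062) x13940) x40184) x22688) x28520) x26576) x27224) x27008) x27068) x46744)
    (Nat.sub (Nat.add (Nat.add (Nat.add (Nat.add (Nat.add (Nat.add (Nat.add (Nat.add (Nat.add (Nat.add (Nat.add C x13946) x40190) x22694) x28526) x26582) x27230) x27014) x27086) x27062) x27074) x27070) x46750)
    (Nat.sub (Nat.sub (Nat.add (Nat.add (Nat.add (Nat.add (Nat.add (Nat.add (Nat.add (Nat.add (Nat.add (Nat.add C x13948) x40192) x22696) x28528) x26584) x27232) x27016) x27088) x27076) x27068) x46752) x7388)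
    (Nat.sub (Nat.sub (Nat.add (Nat.add (Nat.add (Nat.add (Nat.add (Nat.add (Nat.add (Nat.add (Nat.add (Nat.add C x13952) x40196) x22700) x28532) x26588) x27236) x27020) x27092) x27068) x27076) (Nat.mul x27074 (nat_lit 3))) x46756)
    (Nat.sub (Nat.sub (Nat.sub (Nat.add (Nat.add (Nat.add (Nat.add (Nat.add (Nat.add (Nat.add (Nat.add (Nat.add (Nat.add (Nat.add C x13954) x40198) x22702) x28534) x26590) x27238) x27022) x27094) x27070) x27074) x27078) x27076) x46758) x7394)
    (Nat.sub (Nat.sub (Nat.add (Nat.add (Nat.add (Nat.add (Nat.add (Nat.add (Nat.add (Nat.add (Nat.add C x13956) x40200) x22704) x28536) x26592) x27240) x27024) x27096) x27076) x27078) x7396)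
    (Nat.sub (Nat.add (Nat.add (Nat.add (Nat.add (Nat.add (Nat.add (Nat.add (Nat.add (Nat.add (Nat.add (Nat.add C x13964) x40208) x22712) x28544) x26600) x27248) x27032) x27140) x27068) x27092) x27088) x46768)
    (Nat.sub (Nat.sub (Nat.sub (Nat.add (Nat.add (Nat.add (Nat.add (Nat.add (Nat.add (Nat.add (Nat.add (Nat.add (Nat.add (Nat.add C x13966) x40210) x22714) x28546) x26602) x27250) x27034) x27142) x27070) x27094) x27086) x27088) x46770) x7406)
    (Nat.sub (Nat.sub (Nat.add (Nat.add (Nat.add (Nat.add (Nat.add (Nat.add (Nat.add (Nat.add (Nat.add (Nat.add (Nat.add (Nat.add C x13970) x40214) x22718) x28550) x26606) x27254) x27038) x27146) x27074) x27110) x27086) x27094) x27092) x46774)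
    (Nat.sub (Nat.sub (Nat.add (Nat.add (Nat.add (Nat.add (Nat.add (Nat.add (Nat.add (Nat.add (Nat.add (Nat.add (Nat.add (Nat.add (Nat.add (Nat.add C x13972) x40216) x22720) x28552) x26608) x27256) x27040) x27148) x27076) x27112) x27088) x27100) x27092) x27096) x46776) x7412)
    (Nat.sub (Nat.sub (Nat.add (Nat.add (Nat.add (Nat.add (Nat.add (Nat.add (Nat.add (Nat.add (Nat.add (Nat.add (Nat.add (Nat.add C x13974) x40218) x22722) x28554) x26610) x27258) x27042) x27150) x27078) x27114) x27102) x27094) x27096) x7414)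
    (Nat.sub (Nat.sub (Nat.sub (Nat.add (Nat.add (Nat.add (Nat.add (Nat.add (Nat.add (Nat.add (Nat.add (Nat.add (Nat.add (Nat.add C x13978) x40222) x22726) x28558) x26614) x27262) x27046) x27154) x27118) x27094) x27102) x27100) x46782) x7418)
    (Nat.sub (Nat.add (Nat.add (Nat.add (Nat.add (Nat.add (Nat.add (Nat.add (Nat.add (Nat.add (Nat.add (Nat.add C x13980) x40224) x22728) x28560) x26616) x27264) x27048) x27156) x27120) x27096) x27100) x7420)
    (Nat.sub (Nat.sub (Nat.add (Nat.add (Nat.add (Nat.add (Nat.add (Nat.add (Nat.add (Nat.add (Nat.add C x13988) x40232) x22736) x28568) x26624) x27272) x27164) x27092) x27112) x27110) x46792)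
    (Nat.sub (Nat.sub (Nat.sub (Nat.add (Nat.add (Nat.add (Nat.add (Nat.add (Nat.add (Nat.add (Nat.add (Nat.add (Nat.add (Nat.add C x13990) x40234) x22738) x28570) x26626) x27274) x27166) x27094) x27118) x27110) x27114) x27112) x46794) x7430)
    (Nat.sub (Nat.sub (Nat.add (Nat.add (Nat.add (Nat.add (Nat.add (Nat.add (Nat.add (Nat.add (Nat.add (Nat.add C x13992) x40236) x22740) x28572) x26628) x27276) x27168) x27096) x27120) x27112) (Nat.mul x27114 (nat_lit 3))) x7432)
    (Nat.sub (Nat.sub (Nat.add (Nat.add (Nat.add (Nat.add (Nat.add (Nat.add (Nat.add (Nat.add (Nat.add (Nat.add C x13996) x40240) x22744) x28576) x26632) x27280) x27172) x27100) x27112) x27120) x46800) x7436)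
    (Nat.sub (Nat.add (Nat.add (Nat.add (Nat.add (Nat.add (Nat.add (Nat.add (Nat.add (Nat.add (Nat.add (Nat.add C x13998) x40242) x22746) x28578) x26634) x27282) x27174) x27102) x27114) x27126) x27118) x7438)
    (Nat.sub (Nat.add (Nat.add (Nat.add (Nat.add (Nat.add (Nat.add (Nat.add (Nat.add (Nat.add C x27126) x14004) x40248) x22752) x28584) x26640) x27288) x27180) x27120) x7444)
    (Nat.sub (Nat.sub (Nat.add (Nat.add (Nat.add (Nat.add (Nat.add (Nat.add (Nat.add (Nat.add (Nat.add C x14018) x40262) x22766) x28598) x26654) x27302) x27086) x27146) x27142) x27140) x46822)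
    (Nat.sub (Nat.sub (Nat.sub (Nat.add (Nat.add (Nat.add (Nat.add (Nat.add (Nat.add (Nat.add (Nat.add (Nat.add C x14020) x40264) x22768) x28600) x26656) x27304) x27088) x27148) x27140) (Nat.mul x27142 (nat_lit 2))) x46824) x7460)
    (Nat.sub (Nat.sub (Nat.add (Nat.add (Nat.add (Nat.add (Nat.add (Nat.add (Nat.add (Nat.add (Nat.add (Nat.add C x14024) x40268) x22772) x28604) x26660) x27308) x27092) x27164) x27140) x27148) (Nat.mul x27146 (nat_lit 3))) x46828)
    (Nat.sub (Nat.sub (Nat.sub (Nat.add (Nat.add (Nat.add (Nat.add (Nat.add (Nat.add (Nat.add (Nat.add (Nat.add (Nat.add (Nat.add (Nat.add C x14026) x40270) x22774) x28606) x26662) x27310) x27094) x27166) x27142) x27154) x27146) x27150) (Nat.mul x27148 (nat_lit 2))) x46830) x7466)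
    (Nat.sub (Nat.sub (Nat.add (Nat.add (Nat.add (Nat.add (Nat.add (Nat.add (Nat.add (Nat.add (Nat.add (Nat.add C x14028) x40272) x22776) x28608) x26664) x27312) x27096) x27168) x27156) x27148) (Nat.mul x27150 (nat_lit 3))) x7468)
    (Nat.sub (Nat.sub (Nat.sub (Nat.add (Nat.add (Nat.add (Nat.add (Nat.add (Nat.add (Nat.add (Nat.add (Nat.add (Nat.add C x14032) x40276) x22780) x28612) x26668) x27316) x27100) x27172) x27148) x27156) (Nat.mul x27154 (nat_lit 4))) x46836) x7472)
    (Nat.sub (Nat.sub (Nat.add (Nat.add (Nat.add (Nat.add (Nat.add (Nat.add (Nat.add (Nat.add (Nat.add (Nat.add C x14034) x40278) x22782) x28614) x26670) x27318) x27102) x27174) x27150) x27154) (Nat.mul x27156 (nat_lit 3))) x7474)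
    (Nat.sub (Nat.sub (Nat.add (Nat.add (Nat.add (Nat.add (Nat.add (Nat.add (Nat.add (Nat.add (Nat.add C x14042) x40286) x22790) x28622) x26678) x27326) x27110) x27146) x27166) x27164) x46846)
    (Nat.sub (Nat.sub (Nat.sub (Nat.add (Nat.add (Nat.add (Nat.add (Nat.add (Nat.add (Nat.add (Nat.add (Nat.add (Nat.add (Nat.add C x14044) x40288) x22792) x28624) x26680) x27328) x27112) x27148) x27172) x27164) x27168) x27166) x46848) x7484)
    (Nat.sub (Nat.sub (Nat.add (Nat.add (Nat.add (Nat.add (Nat.add (Nat.add (Nat.add (Nat.add (Nat.add (Nat.add C x14046) x40290) x22794) x28626) x26682) x27330) x27114) x27150) x27174) x27166) (Nat.mul x27168 (nat_lit 3))) x7486)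
    (Nat.sub (Nat.sub (Nat.sub (Nat.add (Nat.add (Nat.add (Nat.add (Nat.add (Nat.add (Nat.add (Nat.add (Nat.add (Nat.add (Nat.add C x14050) x40294) x22798) x28630) x26686) x27334) x27118) x27154) x27190) x27166) x27174) x27172) x46854) x7490)
    (Nat.sub (Nat.sub (Nat.add (Nat.add (Nat.add (Nat.add (Nat.add (Nat.add (Nat.add (Nat.add (Nat.add (Nat.add (Nat.add (Nat.add C x14052) x40296) x22800) x28632) x26688) x27336) x27120) x27156) x27192) x27168) x27180) x27172) x27174) x7492)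
    (Nat.sub (Nat.sub (Nat.add (Nat.add (Nat.add (Nat.add (Nat.add (Nat.add (Nat.add (Nat.add (Nat.add C x14058) x40302) x22806) x28638) x26694) x27342) x27126) x27198) x27174) x27180) x7498)
    (Nat.sub (Nat.sub (Nat.add (Nat.add (Nat.add (Nat.add (Nat.add (Nat.add (Nat.add (Nat.add C x14068) x40312) x22816) x28648) x26704) x27352) x27172) x27192) x46872) x7508)
    (Nat.sub (Nat.sub (Nat.add (Nat.add (Nat.add (Nat.add (Nat.add (Nat.add (Nat.add (Nat.add (Nat.add C x14070) x40314) x22818) x28650) x26706) x27354) x27174) x27198) x27190) x27192) x7510)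
    (Nat.sub (Nat.add (Nat.add (Nat.add (Nat.add (Nat.add (Nat.add (Nat.add (Nat.add (Nat.add C x27198) x14076) x40320) x22824) x28656) x26712) x27360) x27180) x27192) x7516)
    (Nat.sub (Nat.add (Nat.add (Nat.add (Nat.add (Nat.add (Nat.add (Nat.add (Nat.add (Nat.add C (Nat.mul x27224 (nat_lit 2))) x14102) x40346) x22850) x28682) x26738) x27710) x27062) x27230) x46906)
    (Nat.sub (Nat.add (Nat.add (Nat.add (Nat.add (Nat.add (Nat.add (Nat.add (Nat.add (Nat.add (Nat.add (Nat.add (Nat.add C x27230) x14108) x40352) x22856) x28688) x26744) x27716) x27068) x27248) x27224) x27236) x27232) x46912)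
    (Nat.sub (Nat.sub (Nat.add (Nat.add (Nat.add (Nat.add (Nat.add (Nat.add (Nat.add (Nat.add (Nat.add (Nat.add (Nat.add C x27232) x14110) x40354) x22858) x28690) x26746) x27718) x27070) x27250) x27238) x27230) x46914) x7550)
    (Nat.sub (Nat.sub (Nat.add (Nat.add (Nat.add (Nat.add (Nat.add (Nat.add (Nat.add (Nat.add (Nat.add (Nat.add C x14114) x40358) x22862) x28694) x26750) x27722) x27074) x27254) x27230) x27238) (Nat.mul x27236 (nat_lit 2))) x46918)
    (Nat.sub (Nat.sub (Nat.add (Nat.add (Nat.add (Nat.add (Nat.add (Nat.add (Nat.add (Nat.add (Nat.add (Nat.add (Nat.add C x14116) x40360) x22864) x28696) x26752) x27724) x27076) x27256) x27232) x27236) x27240) x46920) x7556)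
    (Nat.sub (Nat.add (Nat.add (Nat.add (Nat.add (Nat.add (Nat.add (Nat.add (Nat.add (Nat.add C x14118) x40362) x22866) x28698) x26754) x27726) x27078) x27258) x27238) x7558)
    (Nat.sub (Nat.add (Nat.add (Nat.add (Nat.add (Nat.add (Nat.add (Nat.add (Nat.add (Nat.add (Nat.add (Nat.add C x14126) x40370) x22874) x28706) x26762) x27734) x27086) x27302) x27230) x27254) x27250) x46930)
    (Nat.sub (Nat.sub (Nat.sub (Nat.add (Nat.add (Nat.add (Nat.add (Nat.add (Nat.add (Nat.add (Nat.add (Nat.add (Nat.add (Nat.add C x14128) x40372) x22876) x28708) x26764) x27736) x27088) x27304) x27232) x27256) x27248) x27250) x46932) x7568)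
    (Nat.sub (Nat.sub (Nat.add (Nat.add (Nat.add (Nat.add (Nat.add (Nat.add (Nat.add (Nat.add (Nat.add (Nat.add (Nat.add (Nat.add C x14132) x40376) x22880) x28712) x26768) x27740) x27092) x27308) x27236) x27272) x27248) x27256) x27254) x46936)
    (Nat.sub (Nat.sub (Nat.add (Nat.add (Nat.add (Nat.add (Nat.add (Nat.add (Nat.add (Nat.add (Nat.add (Nat.add (Nat.add (Nat.add (Nat.add (Nat.add C x14134) x40378) x22882) x28714) x26770) x27742) x27094) x27310) x27238) x27274) x27250) x27262) x27254) x27258) x46938) x7574)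
    (Nat.sub (Nat.sub (Nat.add (Nat.add (Nat.add (Nat.add (Nat.add (Nat.add (Nat.add (Nat.add (Nat.add (Nat.add (Nat.add (Nat.add C x14136) x40380) x22884) x28716) x26772) x27744) x27096) x27312) x27240) x27276) x27264) x27256) x27258) x7576)
    (Nat.sub (Nat.sub (Nat.sub (Nat.add (Nat.add (Nat.add (Nat.add (Nat.add (Nat.add (Nat.add (Nat.add (Nat.add (Nat.add (Nat.add C x14140) x40384) x22888) x28720) x26776) x27748) x27100) x27316) x27280) x27256) x27264) x27262) x46944) x7580)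
    (Nat.sub (Nat.add (Nat.add (Nat.add (Nat.add (Nat.add (Nat.add (Nat.add (Nat.add (Nat.add (Nat.add (Nat.add C x14142) x40386) x22890) x28722) x26778) x27750) x27102) x27318) x27282) x27258) x27262) x7582)
    (Nat.sub (Nat.sub (Nat.add (Nat.add (Nat.add (Nat.add (Nat.add (Nat.add (Nat.add (Nat.add (Nat.add (Nat.add C x14150) x40394) x22898) x28730) x26786) x27758) x27110) x27326) x27254) x27274) (Nat.mul x27272 (nat_lit 2))) x46954)
    (Nat.sub (Nat.sub (Nat.sub (Nat.add (Nat.add (Nat.add (Nat.add (Nat.add (Nat.add (Nat.add (Nat.add (Nat.add (Nat.add (Nat.add (Nat.add C x14152) x40396) x22900) x28732) x26788) x27760) x27112) x27328) x27256) x27280) x27272) x27276) (Nat.mul x27274 (nat_lit 2))) x46956) x7592)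
    (Nat.sub (Nat.sub (Nat.add (Nat.add (Nat.add (Nat.add (Nat.add (Nat.add (Nat.add (Nat.add (Nat.add (Nat.add (Nat.add C x14154) x40398) x22902) x28734) x26790) x27762) x27114) x27330) x27258) x27282) x27274) (Nat.mul x27276 (nat_lit 4))) x7594)
    (Nat.sub (Nat.sub (Nat.sub (Nat.add (Nat.add (Nat.add (Nat.add (Nat.add (Nat.add (Nat.add (Nat.add (Nat.add (Nat.add (Nat.add C x14158) x40402) x22906) x28738) x26794) x27766) x27118) x27334) x27262) x27274) x27282) x27280) x46962) x7598)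
    (Nat.sub (Nat.sub (Nat.add (Nat.add (Nat.add (Nat.add (Nat.add (Nat.add (Nat.add (Nat.add (Nat.add (Nat.add (Nat.add (Nat.add C x14160) x40404) x22908) x28740) x26796) x27768) x27120) x27336) x27264) x27276) x27288) x27280) x27282) x7600)
    (Nat.sub (Nat.add (Nat.add (Nat.add (Nat.add (Nat.add (Nat.add (Nat.add (Nat.add (Nat.add C x14166) x40410) x22914) x28746) x26802) x27774) x27126) x27342) x27282) x7606)
    (Nat.sub (Nat.add (Nat.add (Nat.add (Nat.add (Nat.add (Nat.add (Nat.add (Nat.add (Nat.add (Nat.add (Nat.add (Nat.add C x27302) x14180) x40424) x22928) x28760) x26816) x27788) x27140) x27464) x27248) x27308) x27304) x46984)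
    (Nat.sub (Nat.sub (Nat.add (Nat.add (Nat.add (Nat.add (Nat.add (Nat.add (Nat.add (Nat.add (Nat.add (Nat.add (Nat.add C x14182) x40426) x22930) x28762) x26818) x27790) x27142) x27466) x27250) x27310) x27302) x46986) x7622)
    (Nat.sub (Nat.sub (Nat.add (Nat.add (Nat.add (Nat.add (Nat.add (Nat.add (Nat.add (Nat.add (Nat.add (Nat.add (Nat.add (Nat.add C x14186) x40430) x22934) x28766) x26822) x27794) x27146) x27470) x27254) x27326) x27302) x27310) x27308) x46990)
    (Nat.sub (Nat.sub (Nat.add (Nat.add (Nat.add (Nat.add (Nat.add (Nat.add (Nat.add (Nat.add (Nat.add (Nat.add (Nat.add (Nat.add (Nat.add (Nat.add C x14188) x40432) x22936) x28768) x26824) x27796) x27148) x27472) x27256) x27328) x27304) x27316) x27308) x27312) x46992) x7628)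
    (Nat.sub (Nat.sub (Nat.add (Nat.add (Nat.add (Nat.add (Nat.add (Nat.add (Nat.add (Nat.add (Nat.add (Nat.add (Nat.add (Nat.add C x14190) x40434) x22938) x28770) x26826) x27798) x27150) x27474) x27258) x27330) x27318) x27310) x27312) x7630)
    (Nat.sub (Nat.sub (Nat.sub (Nat.add (Nat.add (Nat.add (Nat.add (Nat.add (Nat.add (Nat.add (Nat.add (Nat.add (Nat.add (Nat.add (Nat.add C x14194) x40438) x22942) x28774) x26830) x27802) x27154) x27478) x27262) x27334) x27310) x27318) (Nat.mul x27316 (nat_lit 2))) x46998) x7634)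
    (Nat.sub (Nat.sub (Nat.add (Nat.add (Nat.add (Nat.add (Nat.add (Nat.add (Nat.add (Nat.add (Nat.add (Nat.add (Nat.add (Nat.add C x14196) x40440) x22944) x28776) x26832) x27804) x27156) x27480) x27264) x27336) x27312) x27316) x27318) x7636)
    (Nat.sub (Nat.add (Nat.add (Nat.add (Nat.add (Nat.add (Nat.add (Nat.add (Nat.add (Nat.add (Nat.add (Nat.add (Nat.add C x14204) x40448) x22952) x28784) x26840) x27812) x27164) x27488) x27272) x27380) x27308) x27328) x47008)
    (Nat.sub (Nat.sub (Nat.add (Nat.add (Nat.add (Nat.add (Nat.add (Nat.add (Nat.add (Nat.add (Nat.add (Nat.add (Nat.add (Nat.add (Nat.add (Nat.add C x14206) x40450) x22954) x28786) x26842) x27814) x27166) x27490) x27274) x27382) x27310) x27334) x27326) x27330) x47010) x7646)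
    (Nat.sub (Nat.sub (Nat.add (Nat.add (Nat.add (Nat.add (Nat.add (Nat.add (Nat.add (Nat.add (Nat.add (Nat.add (Nat.add (Nat.add (Nat.add C x14208) x40452) x22956) x28788) x26844) x27816) x27168) x27492) x27276) x27384) x27312) x27336) x27328) (Nat.mul x27330 (nat_lit 2))) x7648)
    (Nat.sub (Nat.sub (Nat.add (Nat.add (Nat.add (Nat.add (Nat.add (Nat.add (Nat.add (Nat.add (Nat.add (Nat.add (Nat.add (Nat.add (Nat.add (Nat.add C x14212) x40456) x22960) x28792) x26848) x27820) x27172) x27496) x27280) x27388) x27316) x27352) x27328) x27336) x47016) x7652)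
    (Nat.sub (Nat.add (Nat.add (Nat.add (Nat.add (Nat.add (Nat.add (Nat.add (Nat.add (Nat.add (Nat.add (Nat.add (Nat.add (Nat.add (Nat.add (Nat.add C x14214) x40458) x22962) x28794) x26850) x27822) x27174) x27498) x27282) x27390) x27318) x27354) x27330) x27342) x27334) x7654)
    (Nat.sub (Nat.add (Nat.add (Nat.add (Nat.add (Nat.add (Nat.add (Nat.add (Nat.add (Nat.add (Nat.add (Nat.add (Nat.add C x14220) x40464) x22968) x28800) x26856) x27828) x27180) x27504) x27288) x27396) x27360) x27336) x7660)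
    (Nat.sub (Nat.sub (Nat.add (Nat.add (Nat.add (Nat.add (Nat.add (Nat.add (Nat.add (Nat.add (Nat.add (Nat.add (Nat.add C x14230) x40474) x22978) x28810) x26866) x27838) x27190) x27514) x27406) x27334) x27354) x47034) x7670)
    (Nat.sub (Nat.sub (Nat.add (Nat.add (Nat.add (Nat.add (Nat.add (Nat.add (Nat.add (Nat.add (Nat.add (Nat.add (Nat.add (Nat.add C x14232) x40476) x22980) x28812) x26868) x27840) x27192) x27516) x27408) x27336) x27360) x27352) x27354) x7672)
    (Nat.sub (Nat.add (Nat.add (Nat.add (Nat.add (Nat.add (Nat.add (Nat.add (Nat.add (Nat.add (Nat.add (Nat.add (Nat.add C x27360) x14238) x40482) x22986) x28818) x26874) x27846) x27198) x27522) x27414) x27342) x27354) x7678)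
    (Nat.sub (Nat.add (Nat.add (Nat.add (Nat.add (Nat.add (Nat.add (Nat.add (Nat.add (Nat.add C x14258) x40502) x23006) x28838) x26894) x27866) x27542) x27326) x27382) x47062)
    (Nat.sub (Nat.sub (Nat.add (Nat.add (Nat.add (Nat.add (Nat.add (Nat.add (Nat.add (Nat.add (Nat.add (Nat.add (Nat.add C x14260) x40504) x23008) x28840) x26896) x27868) x27544) x27328) x27388) x27380) x27384) x47064) x7700)
    (Nat.sub (Nat.sub (Nat.add (Nat.add (Nat.add (Nat.add (Nat.add (Nat.add (Nat.add (Nat.add (Nat.add (Nat.add C x14262) x40506) x23010) x28842) x26898) x27870) x27546) x27330) x27390) x27382) (Nat.mul x27384 (nat_lit 2))) x7702)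
    (Nat.sub (Nat.sub (Nat.sub (Nat.add (Nat.add (Nat.add (Nat.add (Nat.add (Nat.add (Nat.add (Nat.add (Nat.add (Nat.add (Nat.add C x14266) x40510) x23014) x28846) x26902) x27874) x27550) x27334) x27406) x27382) x27390) x27388) x47070) x7706)
    (Nat.sub (Nat.sub (Nat.add (Nat.add (Nat.add (Nat.add (Nat.add (Nat.add (Nat.add (Nat.add (Nat.add (Nat.add (Nat.add (Nat.add C x14268) x40512) x23016) x28848) x26904) x27876) x27552) x27336) x27408) x27384) x27396) x27388) x27390) x7708)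
    (Nat.sub (Nat.sub (Nat.add (Nat.add (Nat.add (Nat.add (Nat.add (Nat.add (Nat.add (Nat.add (Nat.add (Nat.add C x14274) x40518) x23022) x28854) x26910) x27882) x27558) x27342) x27414) x27390) (Nat.mul x27396 (nat_lit 2))) x7714)
    (Nat.sub (Nat.sub (Nat.add (Nat.add (Nat.add (Nat.add (Nat.add (Nat.add (Nat.add (Nat.add (Nat.add (Nat.add (Nat.add C x27406) x14284) x40528) x23032) x28864) x26920) x27892) x27568) x27352) x27388) x27408) x47088) x7724)
    (Nat.sub (Nat.add (Nat.add (Nat.add (Nat.add (Nat.add (Nat.add (Nat.add (Nat.add (Nat.add (Nat.add (Nat.add C x14286) x40530) x23034) x28866) x26922) x27894) x27570) x27354) x27390) x27414) x27406) x7726)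
    (Nat.sub (Nat.add (Nat.add (Nat.add (Nat.add (Nat.add (Nat.add (Nat.add (Nat.add (Nat.add (Nat.add (Nat.add (Nat.add C x27414) x14292) x40536) x23040) x28872) x26928) x27900) x27576) x27360) x27396) x27432) x27408) x7732)
    (Nat.sub (Nat.add (Nat.add (Nat.add (Nat.add (Nat.add (Nat.add (Nat.add (Nat.add (Nat.add C (Nat.mul x27432 (nat_lit 2))) x14310) x40554) x23058) x28890) x26946) x27918) x27594) x27414) x7750)
    (Nat.sub (Nat.add (Nat.add (Nat.add (Nat.add (Nat.add (Nat.add (Nat.add (Nat.add (Nat.add C x27464) x14342) x40586) x23090) x28922) x27950) x27302) x27470) x27466) x47146)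
    (Nat.sub (Nat.sub (Nat.add (Nat.add (Nat.add (Nat.add (Nat.add (Nat.add (Nat.add (Nat.add C x14344) x40588) x23092) x28924) x27952) x27304) x27472) x27464) x47148) x7784)
    (Nat.sub (Nat.sub (Nat.add (Nat.add (Nat.add (Nat.add (Nat.add (Nat.add (Nat.add (Nat.add (Nat.add C x14348) x40592) x23096) x28928) x27956) x27308) x27488) x27464) x27472) x27470) x47152)
    (Nat.sub (Nat.sub (Nat.add (Nat.add (Nat.add (Nat.add (Nat.add (Nat.add (Nat.add (Nat.add (Nat.add (Nat.add (Nat.add C x14350) x40594) x23098) x28930) x27958) x27310) x27490) x27466) x27478) x27470) x27474) x47154) x7790)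
    (Nat.sub (Nat.sub (Nat.add (Nat.add (Nat.add (Nat.add (Nat.add (Nat.add (Nat.add (Nat.add (Nat.add C x14352) x40596) x23100) x28932) x27960) x27312) x27492) x27480) x27472) x27474) x7792)
    (Nat.sub (Nat.sub (Nat.sub (Nat.add (Nat.add (Nat.add (Nat.add (Nat.add (Nat.add (Nat.add (Nat.add (Nat.add C x14356) x40600) x23104) x28936) x27964) x27316) x27496) x27472) x27480) (Nat.mul x27478 (nat_lit 2))) x47160) x7796)
    (Nat.sub (Nat.sub (Nat.add (Nat.add (Nat.add (Nat.add (Nat.add (Nat.add (Nat.add (Nat.add (Nat.add C x14358) x40602) x23106) x28938) x27966) x27318) x27498) x27474) x27478) x27480) x7798)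
    (Nat.sub (Nat.sub (Nat.add (Nat.add (Nat.add (Nat.add (Nat.add (Nat.add (Nat.add (Nat.add (Nat.add C x14366) x40610) x23114) x28946) x27974) x27326) x27542) x27470) x27490) x27488) x47170)
    (Nat.sub (Nat.sub (Nat.sub (Nat.add (Nat.add (Nat.add (Nat.add (Nat.add (Nat.add (Nat.add (Nat.add (Nat.add (Nat.add (Nat.add C x14368) x40612) x23116) x28948) x27976) x27328) x27544) x27472) x27496) x27488) x27492) x27490) x47172) x7808)
    (Nat.sub (Nat.sub (Nat.add (Nat.add (Nat.add (Nat.add (Nat.add (Nat.add (Nat.add (Nat.add (Nat.add (Nat.add C x14370) x40614) x23118) x28950) x27978) x27330) x27546) x27474) x27498) x27490) (Nat.mul x27492 (nat_lit 3))) x7810)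
    (Nat.sub (Nat.sub (Nat.sub (Nat.add (Nat.add (Nat.add (Nat.add (Nat.add (Nat.add (Nat.add (Nat.add (Nat.add (Nat.add (Nat.add C x14374) x40618) x23122) x28954) x27982) x27334) x27550) x27478) x27514) x27490) x27498) x27496) x47178) x7814)
    (Nat.sub (Nat.sub (Nat.add (Nat.add (Nat.add (Nat.add (Nat.add (Nat.add (Nat.add (Nat.add (Nat.add (Nat.add (Nat.add (Nat.add C x14376) x40620) x23124) x28956) x27984) x27336) x27552) x27480) x27516) x27492) x27504) x27496) x27498) x7816)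
    (Nat.sub (Nat.sub (Nat.add (Nat.add (Nat.add (Nat.add (Nat.add (Nat.add (Nat.add (Nat.add (Nat.add C x14382) x40626) x23130) x28962) x27990) x27342) x27558) x27522) x27498) x27504) x7822)
    (Nat.sub (Nat.sub (Nat.sub (Nat.add (Nat.add (Nat.add (Nat.add (Nat.add (Nat.add (Nat.add (Nat.add (Nat.add C x14392) x40636) x23140) x28972) x28000) x27352) x27568) x27496) x27516) (Nat.mul x27514 (nat_lit 2))) x47196) x7832)
    (Nat.sub (Nat.sub (Nat.add (Nat.add (Nat.add (Nat.add (Nat.add (Nat.add (Nat.add (Nat.add (Nat.add (Nat.add C x14394) x40638) x23142) x28974) x28002) x27354) x27570) x27498) x27522) x27514) (Nat.mul x27516 (nat_lit 3))) x7834)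
    (Nat.sub (Nat.sub (Nat.add (Nat.add (Nat.add (Nat.add (Nat.add (Nat.add (Nat.add (Nat.add (Nat.add C x14400) x40644) x23148) x28980) x28008) x27360) x27576) x27504) x27516) x27522) x7840)
    (Nat.sub (Nat.add (Nat.add (Nat.add (Nat.add (Nat.add (Nat.add (Nat.add (Nat.add (Nat.add C x27542) x14420) x40664) x23168) x29000) x28028) x27380) x27488) x27544) x47224)
    (Nat.sub (Nat.sub (Nat.add (Nat.add (Nat.add (Nat.add (Nat.add (Nat.add (Nat.add (Nat.add (Nat.add (Nat.add (Nat.add C x27544) x14422) x40666) x23170) x29002) x28030) x27382) x27490) x27550) x27542) x27546) x47226) x7862)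
    (Nat.sub (Nat.sub (Nat.add (Nat.add (Nat.add (Nat.add (Nat.add (Nat.add (Nat.add (Nat.add (Nat.add C x14424) x40668) x23172) x29004) x28032) x27384) x27492) x27552) x27544) x27546) x7864)
    (Nat.sub (Nat.sub (Nat.add (Nat.add (Nat.add (Nat.add (Nat.add (Nat.add (Nat.add (Nat.add (Nat.add (Nat.add C x14428) x40672) x23176) x29008) x28036) x27388) x27496) x27568) x27544) x27552) x47232) x7868)
    (Nat.sub (Nat.add (Nat.add (Nat.add (Nat.add (Nat.add (Nat.add (Nat.add (Nat.add (Nat.add (Nat.add (Nat.add C x14430) x40674) x23178) x29010) x28038) x27390) x27498) x27570) x27546) x27558) x27550) x7870)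
    (Nat.sub (Nat.sub (Nat.add (Nat.add (Nat.add (Nat.add (Nat.add (Nat.add (Nat.add (Nat.add (Nat.add C x14436) x40680) x23184) x29016) x28044) x27396) x27504) x27576) x27552) x27558) x7876)
    (Nat.sub (Nat.sub (Nat.add (Nat.add (Nat.add (Nat.add (Nat.add (Nat.add (Nat.add (Nat.add (Nat.add (Nat.add (Nat.add C x27568) x14446) x40690) x23194) x29026) x28054) x27406) x27514) x27622) x27550) x27570) x47250) x7886)
    (Nat.sub (Nat.add (Nat.add (Nat.add (Nat.add (Nat.add (Nat.add (Nat.add (Nat.add (Nat.add (Nat.add (Nat.add C x14448) x40692) x23196) x29028) x28056) x27408) x27516) x27624) x27552) x27576) x27568) x7888)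
    (Nat.sub (Nat.add (Nat.add (Nat.add (Nat.add (Nat.add (Nat.add (Nat.add (Nat.add (Nat.add (Nat.add (Nat.add (Nat.add C x27576) x14454) x40698) x23202) x29034) x28062) x27414) x27522) x27630) x27558) x27594) x27570) x7894)
    (Nat.sub (Nat.add (Nat.add (Nat.add (Nat.add (Nat.add (Nat.add (Nat.add (Nat.add (Nat.add C x27594) x14472) x40716) x23220) x29052) x28080) x27432) x27648) x27576) x7912)
    (Nat.sub (Nat.sub (Nat.add (Nat.add (Nat.add (Nat.add (Nat.add (Nat.add (Nat.add (Nat.add C (Nat.mul x27622 (nat_lit 2))) x14500) x40744) x23248) x29080) x28108) x27568) x27624) x47304) x7940)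
    (Nat.sub (Nat.add (Nat.add (Nat.add (Nat.add (Nat.add (Nat.add (Nat.add (Nat.add (Nat.add C x27624) x14502) x40746) x23250) x29082) x28110) x27570) x27630) x27622) x7942)
    (Nat.sub (Nat.add (Nat.add (Nat.add (Nat.add (Nat.add (Nat.add (Nat.add (Nat.add (Nat.add C x27630) x14508) x40752) x23256) x29088) x28116) x27576) x27648) x27624) x7948)
    (Nat.sub (Nat.add (Nat.add (Nat.add (Nat.add (Nat.add (Nat.add (Nat.add (Nat.add C (Nat.mul x27648 (nat_lit 3))) x14526) x40770) x23274) x29106) x28134) x27594) x27630) x7966)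
    (Nat.sub (Nat.add (Nat.add (Nat.add (Nat.add (Nat.add (Nat.add (Nat.add C x27710) x14588) x40832) x23336) x29168) x27224) x27716) x47392)
    (Nat.sub (Nat.add (Nat.add (Nat.add (Nat.add (Nat.add (Nat.add (Nat.add (Nat.add (Nat.add C x14594) x40838) x23342) x29174) x27230) x27734) x27710) x27722) x27718) x47398)
    (Nat.sub (Nat.sub (Nat.add (Nat.add (Nat.add (Nat.add (Nat.add (Nat.add (Nat.add (Nat.add C x14596) x40840) x23344) x29176) x27232) x27736) x27724) x27716) x47400) x8036)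
    (Nat.sub (Nat.sub (Nat.add (Nat.add (Nat.add (Nat.add (Nat.add (Nat.add (Nat.add (Nat.add C x14600) x40844) x23348) x29180) x27236) x27740) x27716) x27724) (Nat.mul x27722 (nat_lit 3))) x47404)
    (Nat.sub (Nat.sub (Nat.sub (Nat.add (Nat.add (Nat.add (Nat.add (Nat.add (Nat.add (Nat.add (Nat.add (Nat.add C x14602) x40846) x23350) x29182) x27238) x27742) x27718) x27722) x27726) x27724) x47406) x8042)
    (Nat.sub (Nat.sub (Nat.add (Nat.add (Nat.add (Nat.add (Nat.add (Nat.add (Nat.add C x14604) x40848) x23352) x29184) x27240) x27744) x27724) x27726) x8044)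
    (Nat.sub (Nat.sub (Nat.add (Nat.add (Nat.add (Nat.add (Nat.add (Nat.add (Nat.add (Nat.add (Nat.add C x14612) x40856) x23360) x29192) x27248) x27788) x27716) x27740) x27736) x27734) x47416)
    (Nat.sub (Nat.sub (Nat.sub (Nat.add (Nat.add (Nat.add (Nat.add (Nat.add (Nat.add (Nat.add (Nat.add (Nat.add C x14614) x40858) x23362) x29194) x27250) x27790) x27718) x27742) x27734) (Nat.mul x27736 (nat_lit 2))) x47418) x8054)
    (Nat.sub (Nat.sub (Nat.add (Nat.add (Nat.add (Nat.add (Nat.add (Nat.add (Nat.add (Nat.add (Nat.add (Nat.add C x14618) x40862) x23366) x29198) x27254) x27794) x27722) x27758) x27734) x27742) (Nat.mul x27740 (nat_lit 2))) x47422)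
    (Nat.sub (Nat.sub (Nat.sub (Nat.add (Nat.add (Nat.add (Nat.add (Nat.add (Nat.add (Nat.add (Nat.add (Nat.add (Nat.add (Nat.add (Nat.add C x14620) x40864) x23368) x29200) x27256) x27796) x27724) x27760) x27736) x27748) x27740) x27744) x27742) x47424) x8060)
    (Nat.sub (Nat.sub (Nat.add (Nat.add (Nat.add (Nat.add (Nat.add (Nat.add (Nat.add (Nat.add (Nat.add (Nat.add C x14622) x40866) x23370) x29202) x27258) x27798) x27726) x27762) x27750) x27742) (Nat.mul x27744 (nat_lit 2))) x8062)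
    (Nat.sub (Nat.sub (Nat.sub (Nat.add (Nat.add (Nat.add (Nat.add (Nat.add (Nat.add (Nat.add (Nat.add (Nat.add C x14626) x40870) x23374) x29206) x27262) x27802) x27766) x27742) x27750) (Nat.mul x27748 (nat_lit 2))) x47430) x8066)
    (Nat.sub (Nat.sub (Nat.add (Nat.add (Nat.add (Nat.add (Nat.add (Nat.add (Nat.add (Nat.add (Nat.add C x14628) x40872) x23376) x29208) x27264) x27804) x27768) x27744) x27748) x27750) x8068)
    (Nat.sub (Nat.sub (Nat.add (Nat.add (Nat.add (Nat.add (Nat.add (Nat.add (Nat.add (Nat.add C x14636) x40880) x23384) x29216) x27272) x27812) x27740) x27760) (Nat.mul x27758 (nat_lit 3))) x47440)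
    (Nat.sub (Nat.sub (Nat.sub (Nat.add (Nat.add (Nat.add (Nat.add (Nat.add (Nat.add (Nat.add (Nat.add (Nat.add (Nat.add C x14638) x40882) x23386) x29218) x27274) x27814) x27742) x27766) x27758) x27762) (Nat.mul x27760 (nat_lit 3))) x47442) x8078)
    (Nat.sub (Nat.sub (Nat.add (Nat.add (Nat.add (Nat.add (Nat.add (Nat.add (Nat.add (Nat.add (Nat.add C x14640) x40884) x23388) x29220) x27276) x27816) x27744) x27768) x27760) (Nat.mul x27762 (nat_lit 5))) x8080)
    (Nat.sub (Nat.sub (Nat.sub (Nat.add (Nat.add (Nat.add (Nat.add (Nat.add (Nat.add (Nat.add (Nat.add (Nat.add C x14644) x40888) x23392) x29224) x27280) x27820) x27748) x27760) x27768) (Nat.mul x27766 (nat_lit 2))) x47448) x8084)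
    (Nat.sub (Nat.sub (Nat.add (Nat.add (Nat.add (Nat.add (Nat.add (Nat.add (Nat.add (Nat.add (Nat.add (Nat.add C x14646) x40890) x23394) x29226) x27282) x27822) x27750) x27762) x27774) x27766) (Nat.mul x27768 (nat_lit 2))) x8086)
    (Nat.sub (Nat.sub (Nat.add (Nat.add (Nat.add (Nat.add (Nat.add (Nat.add (Nat.add C x14652) x40896) x23400) x29232) x27288) x27828) x27768) x27774) x8092)
    (Nat.sub (Nat.sub (Nat.add (Nat.add (Nat.add (Nat.add (Nat.add (Nat.add (Nat.add (Nat.add (Nat.add C x14666) x40910) x23414) x29246) x27302) x27950) x27734) x27794) x27790) x27788) x47470)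
    (Nat.sub (Nat.sub (Nat.sub (Nat.add (Nat.add (Nat.add (Nat.add (Nat.add (Nat.add (Nat.add (Nat.add (Nat.add C x14668) x40912) x23416) x29248) x27304) x27952) x27736) x27796) x27788) (Nat.mul x27790 (nat_lit 2))) x47472) x8108)
    (Nat.sub (Nat.sub (Nat.add (Nat.add (Nat.add (Nat.add (Nat.add (Nat.add (Nat.add (Nat.add (Nat.add (Nat.add C x14672) x40916) x23420) x29252) x27308) x27956) x27740) x27812) x27788) x27796) (Nat.mul x27794 (nat_lit 3))) x47476)
    (Nat.sub (Nat.sub (Nat.sub (Nat.add (Nat.add (Nat.add (Nat.add (Nat.add (Nat.add (Nat.add (Nat.add (Nat.add (Nat.add (Nat.add (Nat.add C x14674) x40918) x23422) x29254) x27310) x27958) x27742) x27814) x27790) x27802) x27794) x27798) (Nat.mul x27796 (nat_lit 2))) x47478) x8114)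
    (Nat.sub (Nat.sub (Nat.add (Nat.add (Nat.add (Nat.add (Nat.add (Nat.add (Nat.add (Nat.add (Nat.add (Nat.add C x14676) x40920) x23424) x29256) x27312) x27960) x27744) x27816) x27804) x27796) (Nat.mul x27798 (nat_lit 3))) x8116)
    (Nat.sub (Nat.sub (Nat.sub (Nat.add (Nat.add (Nat.add (Nat.add (Nat.add (Nat.add (Nat.add (Nat.add (Nat.add (Nat.add C x14680) x40924) x23428) x29260) x27316) x27964) x27748) x27820) x27796) x27804) (Nat.mul x27802 (nat_lit 4))) x47484) x8120)
    (Nat.sub (Nat.sub (Nat.add (Nat.add (Nat.add (Nat.add (Nat.add (Nat.add (Nat.add (Nat.add (Nat.add (Nat.add C x14682) x40926) x23430) x29262) x27318) x27966) x27750) x27822) x27798) x27802) (Nat.mul x27804 (nat_lit 3))) x8122)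
    (Nat.sub (Nat.sub (Nat.add (Nat.add (Nat.add (Nat.add (Nat.add (Nat.add (Nat.add (Nat.add (Nat.add (Nat.add C x14690) x40934) x23438) x29270) x27326) x27974) x27758) x27866) x27794) x27814) (Nat.mul x27812 (nat_lit 2))) x47494)
    (Nat.sub (Nat.sub (Nat.sub (Nat.add (Nat.add (Nat.add (Nat.add (Nat.add (Nat.add (Nat.add (Nat.add (Nat.add (Nat.add (Nat.add (Nat.add C x14692) x40936) x23440) x29272) x27328) x27976) x27760) x27868) x27796) x27820) x27812) x27816) (Nat.mul x27814 (nat_lit 2))) x47496) x8132)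
    (Nat.sub (Nat.sub (Nat.add (Nat.add (Nat.add (Nat.add (Nat.add (Nat.add (Nat.add (Nat.add (Nat.add (Nat.add (Nat.add C x14694) x40938) x23442) x29274) x27330) x27978) x27762) x27870) x27798) x27822) x27814) (Nat.mul x27816 (nat_lit 4))) x8134)
    (Nat.sub (Nat.sub (Nat.sub (Nat.add (Nat.add (Nat.add (Nat.add (Nat.add (Nat.add (Nat.add (Nat.add (Nat.add (Nat.add (Nat.add (Nat.add C x14698) x40942) x23446) x29278) x27334) x27982) x27766) x27874) x27802) x27838) x27814) x27822) (Nat.mul x27820 (nat_lit 2))) x47502) x8138)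
    (Nat.sub (Nat.sub (Nat.add (Nat.add (Nat.add (Nat.add (Nat.add (Nat.add (Nat.add (Nat.add (Nat.add (Nat.add (Nat.add (Nat.add (Nat.add C x14700) x40944) x23448) x29280) x27336) x27984) x27768) x27876) x27804) x27840) x27816) x27828) x27820) (Nat.mul x27822 (nat_lit 2))) x8140)
    (Nat.sub (Nat.sub (Nat.add (Nat.add (Nat.add (Nat.add (Nat.add (Nat.add (Nat.add (Nat.add (Nat.add (Nat.add C x14706) x40950) x23454) x29286) x27342) x27990) x27774) x27882) x27846) x27822) (Nat.mul x27828 (nat_lit 2))) x8146)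
    (Nat.sub (Nat.sub (Nat.sub (Nat.add (Nat.add (Nat.add (Nat.add (Nat.add (Nat.add (Nat.add (Nat.add (Nat.add C x14716) x40960) x23464) x29296) x27352) x28000) x27892) x27820) x27840) (Nat.mul x27838 (nat_lit 2))) x47520) x8156)
    (Nat.sub (Nat.sub (Nat.add (Nat.add (Nat.add (Nat.add (Nat.add (Nat.add (Nat.add (Nat.add (Nat.add (Nat.add C x14718) x40962) x23466) x29298) x27354) x28002) x27894) x27822) x27846) x27838) (Nat.mul x27840 (nat_lit 3))) x8158)
    (Nat.sub (Nat.sub (Nat.add (Nat.add (Nat.add (Nat.add (Nat.add (Nat.add (Nat.add (Nat.add (Nat.add C x14724) x40968) x23472) x29304) x27360) x28008) x27900) x27828) x27840) x27846) x8164)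
    (Nat.sub (Nat.sub (Nat.add (Nat.add (Nat.add (Nat.add (Nat.add (Nat.add (Nat.add (Nat.add C x14744) x40988) x23492) x29324) x27380) x28028) x27812) x27868) (Nat.mul x27866 (nat_lit 3))) x47548)
    (Nat.sub (Nat.sub (Nat.sub (Nat.add (Nat.add (Nat.add (Nat.add (Nat.add (Nat.add (Nat.add (Nat.add (Nat.add (Nat.add C x14746) x40990) x23494) x29326) x27382) x28030) x27814) x27874) x27866) x27870) (Nat.mul x27868 (nat_lit 3))) x47550) x8186)
    (Nat.sub (Nat.sub (Nat.add (Nat.add (Nat.add (Nat.add (Nat.add (Nat.add (Nat.add (Nat.add (Nat.add C x14748) x40992) x23496) x29328) x27384) x28032) x27816) x27876) x27868) (Nat.mul x27870 (nat_lit 5))) x8188)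
    (Nat.sub (Nat.sub (Nat.sub (Nat.add (Nat.add (Nat.add (Nat.add (Nat.add (Nat.add (Nat.add (Nat.add (Nat.add (Nat.add C x14752) x40996) x23500) x29332) x27388) x28036) x27820) x27892) x27868) x27876) (Nat.mul x27874 (nat_lit 4))) x47556) x8192)
    (Nat.sub (Nat.sub (Nat.add (Nat.add (Nat.add (Nat.add (Nat.add (Nat.add (Nat.add (Nat.add (Nat.add (Nat.add (Nat.add C x14754) x40998) x23502) x29334) x27390) x28038) x27822) x27894) x27870) x27882) x27874) (Nat.mul x27876 (nat_lit 4))) x8194)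
    (Nat.sub (Nat.sub (Nat.add (Nat.add (Nat.add (Nat.add (Nat.add (Nat.add (Nat.add (Nat.add (Nat.add C x14760) x41004) x23508) x29340) x27396) x28044) x27828) x27900) x27876) (Nat.mul x27882 (nat_lit 5))) x8200)
    (Nat.sub (Nat.sub (Nat.sub (Nat.add (Nat.add (Nat.add (Nat.add (Nat.add (Nat.add (Nat.add (Nat.add (Nat.add C x14770) x41014) x23518) x29350) x27406) x28054) x27838) x27874) x27894) (Nat.mul x27892 (nat_lit 2))) x47574) x8210)
    (Nat.sub (Nat.sub (Nat.add (Nat.add (Nat.add (Nat.add (Nat.add (Nat.add (Nat.add (Nat.add (Nat.add (Nat.add C x14772) x41016) x23520) x29352) x27408) x28056) x27840) x27876) x27900) x27892) (Nat.mul x27894 (nat_lit 3))) x8212)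
    (Nat.sub (Nat.sub (Nat.add (Nat.add (Nat.add (Nat.add (Nat.add (Nat.add (Nat.add (Nat.add (Nat.add (Nat.add C x14778) x41022) x23526) x29358) x27414) x28062) x27846) x27882) x27918) x27894) (Nat.mul x27900 (nat_lit 2))) x8218)
    (Nat.sub (Nat.sub (Nat.add (Nat.add (Nat.add (Nat.add (Nat.add (Nat.add (Nat.add C x14796) x41040) x23544) x29376) x27432) x28080) x27900) x27918) x8236)
    (Nat.sub (Nat.add (Nat.add (Nat.add (Nat.add (Nat.add (Nat.add (Nat.add (Nat.add (Nat.add C x27950) x14828) x41072) x23576) x29408) x27464) x27788) x27956) x27952) x47632)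
    (Nat.sub (Nat.sub (Nat.add (Nat.add (Nat.add (Nat.add (Nat.add (Nat.add (Nat.add (Nat.add C x14830) x41074) x23578) x29410) x27466) x27790) x27958) x27950) x47634) x8270)
    (Nat.sub (Nat.sub (Nat.add (Nat.add (Nat.add (Nat.add (Nat.add (Nat.add (Nat.add (Nat.add (Nat.add C x14834) x41078) x23582) x29414) x27470) x27794) x27974) x27950) x27958) x27956) x47638)
    (Nat.sub (Nat.sub (Nat.add (Nat.add (Nat.add (Nat.add (Nat.add (Nat.add (Nat.add (Nat.add (Nat.add (Nat.add (Nat.add C x14836) x41080) x23584) x29416) x27472) x27796) x27976) x27952) x27964) x27956) x27960) x47640) x8276)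
    (Nat.sub (Nat.sub (Nat.add (Nat.add (Nat.add (Nat.add (Nat.add (Nat.add (Nat.add (Nat.add (Nat.add C x14838) x41082) x23586) x29418) x27474) x27798) x27978) x27966) x27958) x27960) x8278)
    (Nat.sub (Nat.sub (Nat.sub (Nat.add (Nat.add (Nat.add (Nat.add (Nat.add (Nat.add (Nat.add (Nat.add (Nat.add C x14842) x41086) x23590) x29422) x27478) x27802) x27982) x27958) x27966) (Nat.mul x27964 (nat_lit 2))) x47646) x8282)
    (Nat.sub (Nat.sub (Nat.add (Nat.add (Nat.add (Nat.add (Nat.add (Nat.add (Nat.add (Nat.add (Nat.add C x14844) x41088) x23592) x29424) x27480) x27804) x27984) x27960) x27964) x27966) x8284)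
    (Nat.sub (Nat.sub (Nat.add (Nat.add (Nat.add (Nat.add (Nat.add (Nat.add (Nat.add (Nat.add (Nat.add C x14852) x41096) x23600) x29432) x27488) x27812) x28028) x27956) x27976) x27974) x47656)
    (Nat.sub (Nat.sub (Nat.sub (Nat.add (Nat.add (Nat.add (Nat.add (Nat.add (Nat.add (Nat.add (Nat.add (Nat.add (Nat.add (Nat.add C x14854) x41098) x23602) x29434) x27490) x27814) x28030) x27958) x27982) x27974) x27978) x27976) x47658) x8294)
    (Nat.sub (Nat.sub (Nat.add (Nat.add (Nat.add (Nat.add (Nat.add (Nat.add (Nat.add (Nat.add (Nat.add (Nat.add C x14856) x41100) x23604) x29436) x27492) x27816) x28032) x27960) x27984) x27976) (Nat.mul x27978 (nat_lit 3))) x8296)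
    (Nat.sub (Nat.sub (Nat.sub (Nat.add (Nat.add (Nat.add (Nat.add (Nat.add (Nat.add (Nat.add (Nat.add (Nat.add (Nat.add (Nat.add C x14860) x41104) x23608) x29440) x27496) x27820) x28036) x27964) x28000) x27976) x27984) x27982) x47664) x8300)
    (Nat.sub (Nat.sub (Nat.add (Nat.add (Nat.add (Nat.add (Nat.add (Nat.add (Nat.add (Nat.add (Nat.add (Nat.add (Nat.add (Nat.add C x14862) x41106) x23610) x29442) x27498) x27822) x28038) x27966) x28002) x27978) x27990) x27982) x27984) x8302)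
    (Nat.sub (Nat.sub (Nat.add (Nat.add (Nat.add (Nat.add (Nat.add (Nat.add (Nat.add (Nat.add (Nat.add C x14868) x41112) x23616) x29448) x27504) x27828) x28044) x28008) x27984) x27990) x8308)
    (Nat.sub (Nat.sub (Nat.sub (Nat.add (Nat.add (Nat.add (Nat.add (Nat.add (Nat.add (Nat.add (Nat.add (Nat.add C x14878) x41122) x23626) x29458) x27514) x27838) x28054) x27982) x28002) (Nat.mul x28000 (nat_lit 2))) x47682) x8318)
    (Nat.sub (Nat.sub (Nat.add (Nat.add (Nat.add (Nat.add (Nat.add (Nat.add (Nat.add (Nat.add (Nat.add (Nat.add C x14880) x41124) x23628) x29460) x27516) x27840) x28056) x27984) x28008) x28000) (Nat.mul x28002 (nat_lit 3))) x8320)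
    (Nat.sub (Nat.sub (Nat.add (Nat.add (Nat.add (Nat.add (Nat.add (Nat.add (Nat.add (Nat.add (Nat.add C x14886) x41130) x23634) x29466) x27522) x27846) x28062) x27990) x28002) x28008) x8326)
    (Nat.sub (Nat.add (Nat.add (Nat.add (Nat.add (Nat.add (Nat.add (Nat.add (Nat.add (Nat.add C x14906) x41150) x23654) x29486) x27542) x27866) x28190) x27974) x28030) x47710)
    (Nat.sub (Nat.sub (Nat.add (Nat.add (Nat.add (Nat.add (Nat.add (Nat.add (Nat.add (Nat.add (Nat.add (Nat.add (Nat.add C x14908) x41152) x23656) x29488) x27544) x27868) x28192) x27976) x28036) x28028) x28032) x47712) x8348)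
    (Nat.sub (Nat.sub (Nat.add (Nat.add (Nat.add (Nat.add (Nat.add (Nat.add (Nat.add (Nat.add (Nat.add (Nat.add C x14910) x41154) x23658) x29490) x27546) x27870) x28194) x27978) x28038) x28030) (Nat.mul x28032 (nat_lit 2))) x8350)
    (Nat.sub (Nat.sub (Nat.sub (Nat.add (Nat.add (Nat.add (Nat.add (Nat.add (Nat.add (Nat.add (Nat.add (Nat.add (Nat.add (Nat.add C x14914) x41158) x23662) x29494) x27550) x27874) x28198) x27982) x28054) x28030) x28038) x28036) x47718) x8354)
    (Nat.sub (Nat.sub (Nat.add (Nat.add (Nat.add (Nat.add (Nat.add (Nat.add (Nat.add (Nat.add (Nat.add (Nat.add (Nat.add (Nat.add C x14916) x41160) x23664) x29496) x27552) x27876) x28200) x27984) x28056) x28032) x28044) x28036) x28038) x8356)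
    (Nat.sub (Nat.sub (Nat.add (Nat.add (Nat.add (Nat.add (Nat.add (Nat.add (Nat.add (Nat.add (Nat.add (Nat.add C x14922) x41166) x23670) x29502) x27558) x27882) x28206) x27990) x28062) x28038) (Nat.mul x28044 (nat_lit 2))) x8362)
    (Nat.sub (Nat.sub (Nat.add (Nat.add (Nat.add (Nat.add (Nat.add (Nat.add (Nat.add (Nat.add (Nat.add (Nat.add (Nat.add C x14932) x41176) x23680) x29512) x27568) x27892) x28216) x28000) x28108) x28036) x28056) x47736) x8372)
    (Nat.sub (Nat.sub (Nat.add (Nat.add (Nat.add (Nat.add (Nat.add (Nat.add (Nat.add (Nat.add (Nat.add (Nat.add (Nat.add (Nat.add C x14934) x41178) x23682) x29514) x27570) x27894) x28218) x28002) x28110) x28038) x28062) x28054) x28056) x8374)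
    (Nat.sub (Nat.add (Nat.add (Nat.add (Nat.add (Nat.add (Nat.add (Nat.add (Nat.add (Nat.add (Nat.add (Nat.add (Nat.add C x14940) x41184) x23688) x29520) x27576) x27900) x28224) x28008) x28116) x28044) x28080) x28056) x8380)
    (Nat.sub (Nat.add (Nat.add (Nat.add (Nat.add (Nat.add (Nat.add (Nat.add (Nat.add (Nat.add C x14958) x41202) x23706) x29538) x27594) x27918) x28242) x28134) x28062) x8398)
    (Nat.sub (Nat.sub (Nat.add (Nat.add (Nat.add (Nat.add (Nat.add (Nat.add (Nat.add (Nat.add C x14986) x41230) x23734) x29566) x27622) x28270) x28054) x28110) x47790) x8426)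
    (Nat.sub (Nat.sub (Nat.add (Nat.add (Nat.add (Nat.add (Nat.add (Nat.add (Nat.add (Nat.add (Nat.add C x14988) x41232) x23736) x29568) x27624) x28272) x28056) x28116) x28108) x28110) x8428)
    (Nat.sub (Nat.sub (Nat.add (Nat.add (Nat.add (Nat.add (Nat.add (Nat.add (Nat.add (Nat.add (Nat.add C x14994) x41238) x23742) x29574) x27630) x28278) x28062) x28134) x28110) x28116) x8434)
    (Nat.sub (Nat.add (Nat.add (Nat.add (Nat.add (Nat.add (Nat.add (Nat.add (Nat.add (Nat.add C x28134) x15012) x41256) x23760) x29592) x27648) x28296) x28080) x28116) x8452)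
    (Nat.sub (Nat.add (Nat.add (Nat.add (Nat.add (Nat.add (Nat.add (Nat.add C x28190) x15068) x41312) x23816) x29648) x28028) x28192) x47872)
    (Nat.sub (Nat.sub (Nat.add (Nat.add (Nat.add (Nat.add (Nat.add (Nat.add (Nat.add (Nat.add (Nat.add C x28192) x15070) x41314) x23818) x29650) x28030) x28198) x28190) x28194) x47874) x8510)
    (Nat.sub (Nat.sub (Nat.add (Nat.add (Nat.add (Nat.add (Nat.add (Nat.add (Nat.add C x15072) x41316) x23820) x29652) x28032) x28200) x28192) x28194) x8512)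
    (Nat.sub (Nat.sub (Nat.add (Nat.add (Nat.add (Nat.add (Nat.add (Nat.add (Nat.add (Nat.add C x15076) x41320) x23824) x29656) x28036) x28216) x28192) x28200) x47880) x8516)
    (Nat.sub (Nat.add (Nat.add (Nat.add (Nat.add (Nat.add (Nat.add (Nat.add (Nat.add (Nat.add C x15078) x41322) x23826) x29658) x28038) x28218) x28194) x28206) x28198) x8518)
    (Nat.sub (Nat.sub (Nat.add (Nat.add (Nat.add (Nat.add (Nat.add (Nat.add (Nat.add C x15084) x41328) x23832) x29664) x28044) x28224) x28200) x28206) x8524)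
    (Nat.sub (Nat.sub (Nat.add (Nat.add (Nat.add (Nat.add (Nat.add (Nat.add (Nat.add (Nat.add C x15094) x41338) x23842) x29674) x28054) x28270) x28198) x28218) x47898) x8534)
    (Nat.sub (Nat.sub (Nat.add (Nat.add (Nat.add (Nat.add (Nat.add (Nat.add (Nat.add (Nat.add (Nat.add C x15096) x41340) x23844) x29676) x28056) x28272) x28200) x28224) x28216) x28218) x8536)
    (Nat.sub (Nat.add (Nat.add (Nat.add (Nat.add (Nat.add (Nat.add (Nat.add (Nat.add (Nat.add C x15102) x41346) x23850) x29682) x28062) x28278) x28206) x28242) x28218) x8542)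
    (Nat.sub (Nat.sub (Nat.add (Nat.add (Nat.add (Nat.add (Nat.add (Nat.add (Nat.add C x15120) x41364) x23868) x29700) x28080) x28296) x28224) x28242) x8560)
    (Nat.sub (Nat.sub (Nat.add (Nat.add (Nat.add (Nat.add (Nat.add (Nat.add (Nat.add (Nat.add C (Nat.mul x28270 (nat_lit 2))) x15148) x41392) x23896) x29728) x28108) x28216) x28272) x47952) x8588)
    (Nat.sub (Nat.add (Nat.add (Nat.add (Nat.add (Nat.add (Nat.add (Nat.add (Nat.add (Nat.add C x28272) x15150) x41394) x23898) x29730) x28110) x28218) x28278) x28270) x8590)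
    (Nat.sub (Nat.add (Nat.add (Nat.add (Nat.add (Nat.add (Nat.add (Nat.add (Nat.add (Nat.add C x28278) x15156) x41400) x23904) x29736) x28116) x28224) x28296) x28272) x8596)
    (Nat.sub (Nat.add (Nat.add (Nat.add (Nat.add (Nat.add (Nat.add (Nat.add (Nat.add (Nat.add C (Nat.mul x28296 (nat_lit 2))) x15174) x41418) x23922) x29754) x28134) x28242) x28350) x28278) x8614)
    (Nat.sub (Nat.add (Nat.add (Nat.add (Nat.add (Nat.add (Nat.add C (Nat.mul x28350 (nat_lit 3))) x15228) x41472) x23976) x29808) x28296) x8668)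
    (Nat.sub (Nat.add (Nat.add (Nat.add (Nat.add (Nat.add (Nat.add (Nat.add (Nat.add C (Nat.mul x28448 (nat_lit 4))) x15326) x41570) x24074) x32822) x26990) x28466) x28454) x48130)
    (Nat.sub (Nat.add (Nat.add (Nat.add (Nat.add (Nat.add (Nat.add (Nat.add (Nat.add (Nat.add C (Nat.mul x28454 (nat_lit 2))) x15332) x41576) x24080) x32828) x26996) x28472) x28448) x28456) x48136)
    (Nat.sub (Nat.sub (Nat.add (Nat.add (Nat.add (Nat.add (Nat.add (Nat.add (Nat.add (Nat.add C (Nat.mul x28456 (nat_lit 3))) x15334) x41578) x24082) x32830) x26998) x28474) x28454) x48138) x8774)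
    (Nat.sub (Nat.add (Nat.add (Nat.add (Nat.add (Nat.add (Nat.add (Nat.add (Nat.add (Nat.add C (Nat.mul x28466 (nat_lit 2))) x15344) x41588) x24092) x32840) x27008) x28520) x28448) x28472) x48148)
    (Nat.sub (Nat.add (Nat.add (Nat.add (Nat.add (Nat.add (Nat.add (Nat.add (Nat.add (Nat.add (Nat.add (Nat.add (Nat.add C (Nat.mul x28472 (nat_lit 2))) x15350) x41594) x24098) x32846) x27014) x28526) x28454) x28490) x28466) x28478) x28474) x48154)
    (Nat.sub (Nat.sub (Nat.add (Nat.add (Nat.add (Nat.add (Nat.add (Nat.add (Nat.add (Nat.add (Nat.add (Nat.add (Nat.add C (Nat.mul x28474 (nat_lit 2))) x15352) x41596) x24100) x32848) x27016) x28528) x28456) x28492) x28480) x28472) x48156) x8792)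
    (Nat.sub (Nat.add (Nat.add (Nat.add (Nat.add (Nat.add (Nat.add (Nat.add (Nat.add (Nat.add C x15356) x41600) x24104) x32852) x27020) x28532) x28496) x28472) x28480) x48160)
    (Nat.sub (Nat.sub (Nat.add (Nat.add (Nat.add (Nat.add (Nat.add (Nat.add (Nat.add (Nat.add (Nat.add (Nat.add (Nat.add C (Nat.mul x28480 (nat_lit 2))) x15358) x41602) x24106) x32854) x27022) x28534) x28498) x28474) x28478) x28482) x48162) x8798)
    (Nat.sub (Nat.add (Nat.add (Nat.add (Nat.add (Nat.add (Nat.add (Nat.add (Nat.add (Nat.add C (Nat.mul x28482 (nat_lit 2))) x15360) x41604) x24108) x32856) x27024) x28536) x28500) x28480) x8800)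
    (Nat.sub (Nat.add (Nat.add (Nat.add (Nat.add (Nat.add (Nat.add (Nat.add (Nat.add (Nat.add C x15368) x41612) x24116) x32864) x27032) x28544) x28472) x28496) x28492) x48172)
    (Nat.sub (Nat.sub (Nat.sub (Nat.add (Nat.add (Nat.add (Nat.add (Nat.add (Nat.add (Nat.add (Nat.add (Nat.add C x15370) x41614) x24118) x32866) x27034) x28546) x28474) x28498) x28490) x28492) x48174) x8810)
    (Nat.sub (Nat.add (Nat.add (Nat.add (Nat.add (Nat.add (Nat.add (Nat.add (Nat.add (Nat.add C x15374) x41618) x24122) x32870) x27038) x28550) x28478) x28490) x28498) x48178)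
    (Nat.sub (Nat.sub (Nat.add (Nat.add (Nat.add (Nat.add (Nat.add (Nat.add (Nat.add (Nat.add (Nat.add (Nat.add (Nat.add (Nat.add C x28498) x15376) x41620) x24124) x32872) x27040) x28552) x28480) x28492) x28504) x28496) x28500) x48180) x8816)
    (Nat.sub (Nat.add (Nat.add (Nat.add (Nat.add (Nat.add (Nat.add (Nat.add (Nat.add (Nat.add C x15378) x41622) x24126) x32874) x27042) x28554) x28482) x28506) x28498) x8818)
    (Nat.sub (Nat.sub (Nat.add (Nat.add (Nat.add (Nat.add (Nat.add (Nat.add (Nat.add (Nat.add (Nat.add C x28504) x15382) x41626) x24130) x32878) x27046) x28558) x28498) x28506) x48186) x8822)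
    (Nat.sub (Nat.add (Nat.add (Nat.add (Nat.add (Nat.add (Nat.add (Nat.add (Nat.add (Nat.add C (Nat.mul x28506 (nat_lit 2))) x15384) x41628) x24132) x32880) x27048) x28560) x28500) x28504) x8824)
    (Nat.sub (Nat.add (Nat.add (Nat.add (Nat.add (Nat.add (Nat.add (Nat.add (Nat.add (Nat.add C (Nat.mul x28520 (nat_lit 2))) x15398) x41642) x24146) x32894) x27062) x28682) x28466) x28526) x48202)
    (Nat.sub (Nat.add (Nat.add (Nat.add (Nat.add (Nat.add (Nat.add (Nat.add (Nat.add (Nat.add (Nat.add (Nat.add (Nat.add C x28526) x15404) x41648) x24152) x32900) x27068) x28688) x28472) x28544) x28520) x28532) x28528) x48208)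
    (Nat.sub (Nat.sub (Nat.add (Nat.add (Nat.add (Nat.add (Nat.add (Nat.add (Nat.add (Nat.add (Nat.add (Nat.add (Nat.add C x28528) x15406) x41650) x24154) x32902) x27070) x28690) x28474) x28546) x28534) x28526) x48210) x8846)
    (Nat.sub (Nat.sub (Nat.add (Nat.add (Nat.add (Nat.add (Nat.add (Nat.add (Nat.add (Nat.add (Nat.add (Nat.add C x15410) x41654) x24158) x32906) x27074) x28694) x28478) x28550) x28526) x28534) (Nat.mul x28532 (nat_lit 2))) x48214)
    (Nat.sub (Nat.sub (Nat.add (Nat.add (Nat.add (Nat.add (Nat.add (Nat.add (Nat.add (Nat.add (Nat.add (Nat.add (Nat.add C x15412) x41656) x24160) x32908) x27076) x28696) x28480) x28552) x28528) x28532) x28536) x48216) x8852)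
    (Nat.sub (Nat.add (Nat.add (Nat.add (Nat.add (Nat.add (Nat.add (Nat.add (Nat.add (Nat.add C x15414) x41658) x24162) x32910) x27078) x28698) x28482) x28554) x28534) x8854)
    (Nat.sub (Nat.add (Nat.add (Nat.add (Nat.add (Nat.add (Nat.add (Nat.add (Nat.add (Nat.add (Nat.add (Nat.add (Nat.add C x28544) x15422) x41666) x24170) x32918) x27086) x28706) x28490) x28598) x28526) x28550) x28546) x48226)
    (Nat.sub (Nat.sub (Nat.add (Nat.add (Nat.add (Nat.add (Nat.add (Nat.add (Nat.add (Nat.add (Nat.add (Nat.add (Nat.add C x15424) x41668) x24172) x32920) x27088) x28708) x28492) x28600) x28528) x28552) x28544) x48228) x8864)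
    (Nat.sub (Nat.add (Nat.add (Nat.add (Nat.add (Nat.add (Nat.add (Nat.add (Nat.add (Nat.add (Nat.add (Nat.add (Nat.add C x15428) x41672) x24176) x32924) x27092) x28712) x28496) x28604) x28532) x28568) x28544) x28552) x48232)
    (Nat.sub (Nat.sub (Nat.add (Nat.add (Nat.add (Nat.add (Nat.add (Nat.add (Nat.add (Nat.add (Nat.add (Nat.add (Nat.add (Nat.add (Nat.add (Nat.add (Nat.add C x28552) x15430) x41674) x24178) x32926) x27094) x28714) x28498) x28606) x28534) x28570) x28546) x28558) x28550) x28554) x48234) x8870)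
    (Nat.sub (Nat.add (Nat.add (Nat.add (Nat.add (Nat.add (Nat.add (Nat.add (Nat.add (Nat.add (Nat.add (Nat.add (Nat.add C x15432) x41676) x24180) x32928) x27096) x28716) x28500) x28608) x28536) x28572) x28560) x28552) x8872)
    (Nat.sub (Nat.sub (Nat.add (Nat.add (Nat.add (Nat.add (Nat.add (Nat.add (Nat.add (Nat.add (Nat.add (Nat.add (Nat.add C x15436) x41680) x24184) x32932) x27100) x28720) x28504) x28612) x28576) x28552) x28560) x48240) x8876)
    (Nat.sub (Nat.add (Nat.add (Nat.add (Nat.add (Nat.add (Nat.add (Nat.add (Nat.add (Nat.add (Nat.add (Nat.add (Nat.add C x28560) x15438) x41682) x24186) x32934) x27102) x28722) x28506) x28614) x28578) x28554) x28558) x8878)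
    (Nat.sub (Nat.add (Nat.add (Nat.add (Nat.add (Nat.add (Nat.add (Nat.add (Nat.add (Nat.add C x15446) x41690) x24194) x32942) x27110) x28730) x28622) x28550) x28570) x48250)
    (Nat.sub (Nat.sub (Nat.add (Nat.add (Nat.add (Nat.add (Nat.add (Nat.add (Nat.add (Nat.add (Nat.add (Nat.add (Nat.add C x15448) x41692) x24196) x32944) x27112) x28732) x28624) x28552) x28576) x28568) x28572) x48252) x8888)
    (Nat.sub (Nat.sub (Nat.add (Nat.add (Nat.add (Nat.add (Nat.add (Nat.add (Nat.add (Nat.add (Nat.add (Nat.add C x15450) x41694) x24198) x32946) x27114) x28734) x28626) x28554) x28578) x28570) (Nat.mul x28572 (nat_lit 2))) x8890)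
    (Nat.sub (Nat.sub (Nat.add (Nat.add (Nat.add (Nat.add (Nat.add (Nat.add (Nat.add (Nat.add (Nat.add (Nat.add (Nat.add C x28576) x15454) x41698) x24202) x32950) x27118) x28738) x28630) x28558) x28570) x28578) x48258) x8894)
    (Nat.sub (Nat.add (Nat.add (Nat.add (Nat.add (Nat.add (Nat.add (Nat.add (Nat.add (Nat.add (Nat.add (Nat.add (Nat.add C x28578) x15456) x41700) x24204) x32952) x27120) x28740) x28632) x28560) x28572) x28584) x28576) x8896)
    (Nat.sub (Nat.add (Nat.add (Nat.add (Nat.add (Nat.add (Nat.add (Nat.add (Nat.add (Nat.add C (Nat.mul x28584 (nat_lit 2))) x15462) x41706) x24210) x32958) x27126) x28746) x28638) x28578) x8902)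
    (Nat.sub (Nat.add (Nat.add (Nat.add (Nat.add (Nat.add (Nat.add (Nat.add (Nat.add (Nat.add C x15476) x41720) x24224) x32972) x27140) x28760) x28544) x28604) x28600) x48280)
    (Nat.sub (Nat.sub (Nat.sub (Nat.add (Nat.add (Nat.add (Nat.add (Nat.add (Nat.add (Nat.add (Nat.add (Nat.add C x15478) x41722) x24226) x32974) x27142) x28762) x28546) x28606) x28598) x28600) x48282) x8918)
    (Nat.sub (Nat.sub (Nat.add (Nat.add (Nat.add (Nat.add (Nat.add (Nat.add (Nat.add (Nat.add (Nat.add (Nat.add C x15482) x41726) x24230) x32978) x27146) x28766) x28550) x28622) x28598) x28606) (Nat.mul x28604 (nat_lit 2))) x48286)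
    (Nat.sub (Nat.sub (Nat.sub (Nat.add (Nat.add (Nat.add (Nat.add (Nat.add (Nat.add (Nat.add (Nat.add (Nat.add (Nat.add (Nat.add (Nat.add C x15484) x41728) x24232) x32980) x27148) x28768) x28552) x28624) x28600) x28612) x28604) x28608) x28606) x48288) x8924)
    (Nat.sub (Nat.sub (Nat.add (Nat.add (Nat.add (Nat.add (Nat.add (Nat.add (Nat.add (Nat.add (Nat.add (Nat.add C x15486) x41730) x24234) x32982) x27150) x28770) x28554) x28626) x28614) x28606) (Nat.mul x28608 (nat_lit 2))) x8926)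
    (Nat.sub (Nat.sub (Nat.sub (Nat.add (Nat.add (Nat.add (Nat.add (Nat.add (Nat.add (Nat.add (Nat.add (Nat.add (Nat.add C x15490) x41734) x24238) x32986) x27154) x28774) x28558) x28630) x28606) x28614) (Nat.mul x28612 (nat_lit 3))) x48294) x8930)
    (Nat.sub (Nat.sub (Nat.add (Nat.add (Nat.add (Nat.add (Nat.add (Nat.add (Nat.add (Nat.add (Nat.add (Nat.add C x15492) x41736) x24240) x32988) x27156) x28776) x28560) x28632) x28608) x28612) (Nat.mul x28614 (nat_lit 2))) x8932)
    (Nat.sub (Nat.add (Nat.add (Nat.add (Nat.add (Nat.add (Nat.add (Nat.add (Nat.add (Nat.add C x15500) x41744) x24248) x32996) x27164) x28784) x28568) x28604) x28624) x48304)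
    (Nat.sub (Nat.sub (Nat.add (Nat.add (Nat.add (Nat.add (Nat.add (Nat.add (Nat.add (Nat.add (Nat.add (Nat.add (Nat.add C x15502) x41746) x24250) x32998) x27166) x28786) x28570) x28606) x28630) x28622) x28626) x48306) x8942)
    (Nat.sub (Nat.sub (Nat.add (Nat.add (Nat.add (Nat.add (Nat.add (Nat.add (Nat.add (Nat.add (Nat.add (Nat.add C x15504) x41748) x24252) x33000) x27168) x28788) x28572) x28608) x28632) x28624) (Nat.mul x28626 (nat_lit 2))) x8944)
    (Nat.sub (Nat.sub (Nat.add (Nat.add (Nat.add (Nat.add (Nat.add (Nat.add (Nat.add (Nat.add (Nat.add (Nat.add (Nat.add C x15508) x41752) x24256) x33004) x27172) x28792) x28576) x28612) x28648) x28624) x28632) x48312) x8948)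
    (Nat.sub (Nat.add (Nat.add (Nat.add (Nat.add (Nat.add (Nat.add (Nat.add (Nat.add (Nat.add (Nat.add (Nat.add (Nat.add C x15510) x41754) x24258) x33006) x27174) x28794) x28578) x28614) x28650) x28626) x28638) x28630) x8950)
    (Nat.sub (Nat.add (Nat.add (Nat.add (Nat.add (Nat.add (Nat.add (Nat.add (Nat.add (Nat.add C x15516) x41760) x24264) x33012) x27180) x28800) x28584) x28656) x28632) x8956)
    (Nat.sub (Nat.sub (Nat.add (Nat.add (Nat.add (Nat.add (Nat.add (Nat.add (Nat.add (Nat.add (Nat.add C x28648) x15526) x41770) x24274) x33022) x27190) x28810) x28630) x28650) x48330) x8966)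
    (Nat.sub (Nat.add (Nat.add (Nat.add (Nat.add (Nat.add (Nat.add (Nat.add (Nat.add (Nat.add C x15528) x41772) x24276) x33024) x27192) x28812) x28632) x28656) x28648) x8968)
    (Nat.sub (Nat.add (Nat.add (Nat.add (Nat.add (Nat.add (Nat.add (Nat.add (Nat.add (Nat.add C (Nat.mul x28656 (nat_lit 2))) x15534) x41778) x24282) x33030) x27198) x28818) x28638) x28650) x8974)
    (Nat.sub (Nat.add (Nat.add (Nat.add (Nat.add (Nat.add (Nat.add (Nat.add (Nat.add (Nat.add C (Nat.mul x28682 (nat_lit 2))) x15560) x41804) x24308) x33056) x27224) x29168) x28520) x28688) x48364)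
    (Nat.sub (Nat.add (Nat.add (Nat.add (Nat.add (Nat.add (Nat.add (Nat.add (Nat.add (Nat.add (Nat.add (Nat.add (Nat.add C x28688) x15566) x41810) x24314) x33062) x27230) x29174) x28526) x28706) x28682) x28694) x28690) x48370)
    (Nat.sub (Nat.sub (Nat.add (Nat.add (Nat.add (Nat.add (Nat.add (Nat.add (Nat.add (Nat.add (Nat.add (Nat.add (Nat.add C x28690) x15568) x41812) x24316) x33064) x27232) x29176) x28528) x28708) x28696) x28688) x48372) x9008)
    (Nat.sub (Nat.sub (Nat.add (Nat.add (Nat.add (Nat.add (Nat.add (Nat.add (Nat.add (Nat.add (Nat.add (Nat.add C x15572) x41816) x24320) x33068) x27236) x29180) x28532) x28712) x28688) x28696) (Nat.mul x28694 (nat_lit 2))) x48376)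
    (Nat.sub (Nat.sub (Nat.add (Nat.add (Nat.add (Nat.add (Nat.add (Nat.add (Nat.add (Nat.add (Nat.add (Nat.add (Nat.add C x15574) x41818) x24322) x33070) x27238) x29182) x28534) x28714) x28690) x28694) x28698) x48378) x9014)
    (Nat.sub (Nat.add (Nat.add (Nat.add (Nat.add (Nat.add (Nat.add (Nat.add (Nat.add (Nat.add C x15576) x41820) x24324) x33072) x27240) x29184) x28536) x28716) x28696) x9016)
    (Nat.sub (Nat.add (Nat.add (Nat.add (Nat.add (Nat.add (Nat.add (Nat.add (Nat.add (Nat.add (Nat.add (Nat.add C x15584) x41828) x24332) x33080) x27248) x29192) x28544) x28760) x28688) x28712) x28708) x48388)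
    (Nat.sub (Nat.sub (Nat.sub (Nat.add (Nat.add (Nat.add (Nat.add (Nat.add (Nat.add (Nat.add (Nat.add (Nat.add (Nat.add (Nat.add C x15586) x41830) x24334) x33082) x27250) x29194) x28546) x28762) x28690) x28714) x28706) x28708) x48390) x9026)
    (Nat.sub (Nat.sub (Nat.add (Nat.add (Nat.add (Nat.add (Nat.add (Nat.add (Nat.add (Nat.add (Nat.add (Nat.add (Nat.add (Nat.add C x15590) x41834) x24338) x33086) x27254) x29198) x28550) x28766) x28694) x28730) x28706) x28714) x28712) x48394)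
    (Nat.sub (Nat.sub (Nat.add (Nat.add (Nat.add (Nat.add (Nat.add (Nat.add (Nat.add (Nat.add (Nat.add (Nat.add (Nat.add (Nat.add (Nat.add (Nat.add C x15592) x41836) x24340) x33088) x27256) x29200) x28552) x28768) x28696) x28732) x28708) x28720) x28712) x28716) x48396) x9032)
    (Nat.sub (Nat.sub (Nat.add (Nat.add (Nat.add (Nat.add (Nat.add (Nat.add (Nat.add (Nat.add (Nat.add (Nat.add (Nat.add (Nat.add C x15594) x41838) x24342) x33090) x27258) x29202) x28554) x28770) x28698) x28734) x28722) x28714) x28716) x9034)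
    (Nat.sub (Nat.sub (Nat.sub (Nat.add (Nat.add (Nat.add (Nat.add (Nat.add (Nat.add (Nat.add (Nat.add (Nat.add (Nat.add (Nat.add C x15598) x41842) x24346) x33094) x27262) x29206) x28558) x28774) x28738) x28714) x28722) x28720) x48402) x9038)
    (Nat.sub (Nat.add (Nat.add (Nat.add (Nat.add (Nat.add (Nat.add (Nat.add (Nat.add (Nat.add (Nat.add (Nat.add C x15600) x41844) x24348) x33096) x27264) x29208) x28560) x28776) x28740) x28716) x28720) x9040)
    (Nat.sub (Nat.sub (Nat.add (Nat.add (Nat.add (Nat.add (Nat.add (Nat.add (Nat.add (Nat.add (Nat.add (Nat.add C x15608) x41852) x24356) x33104) x27272) x29216) x28568) x28784) x28712) x28732) (Nat.mul x28730 (nat_lit 2))) x48412)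
    (Nat.sub (Nat.sub (Nat.sub (Nat.add (Nat.add (Nat.add (Nat.add (Nat.add (Nat.add (Nat.add (Nat.add (Nat.add (Nat.add (Nat.add (Nat.add C x15610) x41854) x24358) x33106) x27274) x29218) x28570) x28786) x28714) x28738) x28730) x28734) (Nat.mul x28732 (nat_lit 2))) x48414) x9050)
    (Nat.sub (Nat.sub (Nat.add (Nat.add (Nat.add (Nat.add (Nat.add (Nat.add (Nat.add (Nat.add (Nat.add (Nat.add (Nat.add C x15612) x41856) x24360) x33108) x27276) x29220) x28572) x28788) x28716) x28740) x28732) (Nat.mul x28734 (nat_lit 4))) x9052)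
    (Nat.sub (Nat.sub (Nat.sub (Nat.add (Nat.add (Nat.add (Nat.add (Nat.add (Nat.add (Nat.add (Nat.add (Nat.add (Nat.add (Nat.add C x15616) x41860) x24364) x33112) x27280) x29224) x28576) x28792) x28720) x28732) x28740) x28738) x48420) x9056)
    (Nat.sub (Nat.sub (Nat.add (Nat.add (Nat.add (Nat.add (Nat.add (Nat.add (Nat.add (Nat.add (Nat.add (Nat.add (Nat.add (Nat.add C x15618) x41862) x24366) x33114) x27282) x29226) x28578) x28794) x28722) x28734) x28746) x28738) x28740) x9058)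
    (Nat.sub (Nat.add (Nat.add (Nat.add (Nat.add (Nat.add (Nat.add (Nat.add (Nat.add (Nat.add C x15624) x41868) x24372) x33120) x27288) x29232) x28584) x28800) x28740) x9064)
    (Nat.sub (Nat.add (Nat.add (Nat.add (Nat.add (Nat.add (Nat.add (Nat.add (Nat.add (Nat.add (Nat.add (Nat.add (Nat.add C x28760) x15638) x41882) x24386) x33134) x27302) x29246) x28598) x28922) x28706) x28766) x28762) x48442)
    (Nat.sub (Nat.sub (Nat.add (Nat.add (Nat.add (Nat.add (Nat.add (Nat.add (Nat.add (Nat.add (Nat.add (Nat.add (Nat.add C x15640) x41884) x24388) x33136) x27304) x29248) x28600) x28924) x28708) x28768) x28760) x48444) x9080)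
    (Nat.sub (Nat.sub (Nat.add (Nat.add (Nat.add (Nat.add (Nat.add (Nat.add (Nat.add (Nat.add (Nat.add (Nat.add (Nat.add (Nat.add C x15644) x41888) x24392) x33140) x27308) x29252) x28604) x28928) x28712) x28784) x28760) x28768) x28766) x48448)
    (Nat.sub (Nat.sub (Nat.add (Nat.add (Nat.add (Nat.add (Nat.add (Nat.add (Nat.add (Nat.add (Nat.add (Nat.add (Nat.add (Nat.add (Nat.add (Nat.add C x15646) x41890) x24394) x33142) x27310) x29254) x28606) x28930) x28714) x28786) x28762) x28774) x28766) x28770) x48450) x9086)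
    (Nat.sub (Nat.sub (Nat.add (Nat.add (Nat.add (Nat.add (Nat.add (Nat.add (Nat.add (Nat.add (Nat.add (Nat.add (Nat.add (Nat.add C x15648) x41892) x24396) x33144) x27312) x29256) x28608) x28932) x28716) x28788) x28776) x28768) x28770) x9088)
    (Nat.sub (Nat.sub (Nat.sub (Nat.add (Nat.add (Nat.add (Nat.add (Nat.add (Nat.add (Nat.add (Nat.add (Nat.add (Nat.add (Nat.add (Nat.add C x15652) x41896) x24400) x33148) x27316) x29260) x28612) x28936) x28720) x28792) x28768) x28776) (Nat.mul x28774 (nat_lit 2))) x48456) x9092)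
    (Nat.sub (Nat.sub (Nat.add (Nat.add (Nat.add (Nat.add (Nat.add (Nat.add (Nat.add (Nat.add (Nat.add (Nat.add (Nat.add (Nat.add C x15654) x41898) x24402) x33150) x27318) x29262) x28614) x28938) x28722) x28794) x28770) x28774) x28776) x9094)
    (Nat.sub (Nat.add (Nat.add (Nat.add (Nat.add (Nat.add (Nat.add (Nat.add (Nat.add (Nat.add (Nat.add (Nat.add (Nat.add C x15662) x41906) x24410) x33158) x27326) x29270) x28622) x28946) x28730) x28838) x28766) x28786) x48466)
    (Nat.sub (Nat.sub (Nat.add (Nat.add (Nat.add (Nat.add (Nat.add (Nat.add (Nat.add (Nat.add (Nat.add (Nat.add (Nat.add (Nat.add (Nat.add (Nat.add C x15664) x41908) x24412) x33160) x27328) x29272) x28624) x28948) x28732) x28840) x28768) x28792) x28784) x28788) x48468) x9104)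
    (Nat.sub (Nat.sub (Nat.add (Nat.add (Nat.add (Nat.add (Nat.add (Nat.add (Nat.add (Nat.add (Nat.add (Nat.add (Nat.add (Nat.add (Nat.add C x15666) x41910) x24414) x33162) x27330) x29274) x28626) x28950) x28734) x28842) x28770) x28794) x28786) (Nat.mul x28788 (nat_lit 2))) x9106)
    (Nat.sub (Nat.sub (Nat.add (Nat.add (Nat.add (Nat.add (Nat.add (Nat.add (Nat.add (Nat.add (Nat.add (Nat.add (Nat.add (Nat.add (Nat.add (Nat.add C x15670) x41914) x24418) x33166) x27334) x29278) x28630) x28954) x28738) x28846) x28774) x28810) x28786) x28794) x48474) x9110)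
    (Nat.sub (Nat.add (Nat.add (Nat.add (Nat.add (Nat.add (Nat.add (Nat.add (Nat.add (Nat.add (Nat.add (Nat.add (Nat.add (Nat.add (Nat.add (Nat.add C x15672) x41916) x24420) x33168) x27336) x29280) x28632) x28956) x28740) x28848) x28776) x28812) x28788) x28800) x28792) x9112)
    (Nat.sub (Nat.add (Nat.add (Nat.add (Nat.add (Nat.add (Nat.add (Nat.add (Nat.add (Nat.add (Nat.add (Nat.add (Nat.add C x15678) x41922) x24426) x33174) x27342) x29286) x28638) x28962) x28746) x28854) x28818) x28794) x9118)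
    (Nat.sub (Nat.sub (Nat.add (Nat.add (Nat.add (Nat.add (Nat.add (Nat.add (Nat.add (Nat.add (Nat.add (Nat.add (Nat.add C x15688) x41932) x24436) x33184) x27352) x29296) x28648) x28972) x28864) x28792) x28812) x48492) x9128)
    (Nat.sub (Nat.sub (Nat.add (Nat.add (Nat.add (Nat.add (Nat.add (Nat.add (Nat.add (Nat.add (Nat.add (Nat.add (Nat.add (Nat.add C x15690) x41934) x24438) x33186) x27354) x29298) x28650) x28974) x28866) x28794) x28818) x28810) x28812) x9130)
    (Nat.sub (Nat.add (Nat.add (Nat.add (Nat.add (Nat.add (Nat.add (Nat.add (Nat.add (Nat.add (Nat.add (Nat.add (Nat.add C x28818) x15696) x41940) x24444) x33192) x27360) x29304) x28656) x28980) x28872) x28800) x28812) x9136)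
    (Nat.sub (Nat.add (Nat.add (Nat.add (Nat.add (Nat.add (Nat.add (Nat.add (Nat.add (Nat.add C x15716) x41960) x24464) x33212) x27380) x29324) x29000) x28784) x28840) x48520)
    (Nat.sub (Nat.sub (Nat.add (Nat.add (Nat.add (Nat.add (Nat.add (Nat.add (Nat.add (Nat.add (Nat.add (Nat.add (Nat.add C x15718) x41962) x24466) x33214) x27382) x29326) x29002) x28786) x28846) x28838) x28842) x48522) x9158)
    (Nat.sub (Nat.sub (Nat.add (Nat.add (Nat.add (Nat.add (Nat.add (Nat.add (Nat.add (Nat.add (Nat.add (Nat.add C x15720) x41964) x24468) x33216) x27384) x29328) x29004) x28788) x28848) x28840) (Nat.mul x28842 (nat_lit 2))) x9160)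
    (Nat.sub (Nat.sub (Nat.sub (Nat.add (Nat.add (Nat.add (Nat.add (Nat.add (Nat.add (Nat.add (Nat.add (Nat.add (Nat.add (Nat.add C x15724) x41968) x24472) x33220) x27388) x29332) x29008) x28792) x28864) x28840) x28848) x28846) x48528) x9164)
    (Nat.sub (Nat.sub (Nat.add (Nat.add (Nat.add (Nat.add (Nat.add (Nat.add (Nat.add (Nat.add (Nat.add (Nat.add (Nat.add (Nat.add C x15726) x41970) x24474) x33222) x27390) x29334) x29010) x28794) x28866) x28842) x28854) x28846) x28848) x9166)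
    (Nat.sub (Nat.sub (Nat.add (Nat.add (Nat.add (Nat.add (Nat.add (Nat.add (Nat.add (Nat.add (Nat.add (Nat.add C x15732) x41976) x24480) x33228) x27396) x29340) x29016) x28800) x28872) x28848) (Nat.mul x28854 (nat_lit 2))) x9172)
    (Nat.sub (Nat.sub (Nat.add (Nat.add (Nat.add (Nat.add (Nat.add (Nat.add (Nat.add (Nat.add (Nat.add (Nat.add (Nat.add C x28864) x15742) x41986) x24490) x33238) x27406) x29350) x29026) x28810) x28846) x28866) x48546) x9182)
    (Nat.sub (Nat.add (Nat.add (Nat.add (Nat.add (Nat.add (Nat.add (Nat.add (Nat.add (Nat.add (Nat.add (Nat.add C x15744) x41988) x24492) x33240) x27408) x29352) x29028) x28812) x28848) x28872) x28864) x9184)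
    (Nat.sub (Nat.add (Nat.add (Nat.add (Nat.add (Nat.add (Nat.add (Nat.add (Nat.add (Nat.add (Nat.add (Nat.add (Nat.add C x28872) x15750) x41994) x24498) x33246) x27414) x29358) x29034) x28818) x28854) x28890) x28866) x9190)
    (Nat.sub (Nat.add (Nat.add (Nat.add (Nat.add (Nat.add (Nat.add (Nat.add (Nat.add (Nat.add C (Nat.mul x28890 (nat_lit 2))) x15768) x42012) x24516) x33264) x27432) x29376) x29052) x28872) x9208)
    (Nat.sub (Nat.add (Nat.add (Nat.add (Nat.add (Nat.add (Nat.add (Nat.add (Nat.add (Nat.add C x15800) x42044) x24548) x33296) x27464) x29408) x28760) x28928) x28924) x48604)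
    (Nat.sub (Nat.sub (Nat.sub (Nat.add (Nat.add (Nat.add (Nat.add (Nat.add (Nat.add (Nat.add (Nat.add (Nat.add C x15802) x42046) x24550) x33298) x27466) x29410) x28762) x28930) x28922) x28924) x48606) x9242)
    (Nat.sub (Nat.sub (Nat.add (Nat.add (Nat.add (Nat.add (Nat.add (Nat.add (Nat.add (Nat.add (Nat.add (Nat.add C x15806) x42050) x24554) x33302) x27470) x29414) x28766) x28946) x28922) x28930) (Nat.mul x28928 (nat_lit 2))) x48610)
    (Nat.sub (Nat.sub (Nat.sub (Nat.add (Nat.add (Nat.add (Nat.add (Nat.add (Nat.add (Nat.add (Nat.add (Nat.add (Nat.add (Nat.add (Nat.add C x15808) x42052) x24556) x33304) x27472) x29416) x28768) x28948) x28924) x28936) x28928) x28932) x28930) x48612) x9248)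
    (Nat.sub (Nat.sub (Nat.add (Nat.add (Nat.add (Nat.add (Nat.add (Nat.add (Nat.add (Nat.add (Nat.add (Nat.add C x15810) x42054) x24558) x33306) x27474) x29418) x28770) x28950) x28938) x28930) (Nat.mul x28932 (nat_lit 2))) x9250)
    (Nat.sub (Nat.sub (Nat.sub (Nat.add (Nat.add (Nat.add (Nat.add (Nat.add (Nat.add (Nat.add (Nat.add (Nat.add (Nat.add C x15814) x42058) x24562) x33310) x27478) x29422) x28774) x28954) x28930) x28938) (Nat.mul x28936 (nat_lit 3))) x48618) x9254)
    (Nat.sub (Nat.sub (Nat.add (Nat.add (Nat.add (Nat.add (Nat.add (Nat.add (Nat.add (Nat.add (Nat.add (Nat.add C x15816) x42060) x24564) x33312) x27480) x29424) x28776) x28956) x28932) x28936) (Nat.mul x28938 (nat_lit 2))) x9256)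
    (Nat.sub (Nat.sub (Nat.add (Nat.add (Nat.add (Nat.add (Nat.add (Nat.add (Nat.add (Nat.add (Nat.add (Nat.add C x15824) x42068) x24572) x33320) x27488) x29432) x28784) x29000) x28928) x28948) (Nat.mul x28946 (nat_lit 2))) x48628)
    (Nat.sub (Nat.sub (Nat.sub (Nat.add (Nat.add (Nat.add (Nat.add (Nat.add (Nat.add (Nat.add (Nat.add (Nat.add (Nat.add (Nat.add (Nat.add C x15826) x42070) x24574) x33322) x27490) x29434) x28786) x29002) x28930) x28954) x28946) x28950) (Nat.mul x28948 (nat_lit 2))) x48630) x9266)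
    (Nat.sub (Nat.sub (Nat.add (Nat.add (Nat.add (Nat.add (Nat.add (Nat.add (Nat.add (Nat.add (Nat.add (Nat.add (Nat.add C x15828) x42072) x24576) x33324) x27492) x29436) x28788) x29004) x28932) x28956) x28948) (Nat.mul x28950 (nat_lit 4))) x9268)
    (Nat.sub (Nat.sub (Nat.sub (Nat.add (Nat.add (Nat.add (Nat.add (Nat.add (Nat.add (Nat.add (Nat.add (Nat.add (Nat.add (Nat.add (Nat.add C x15832) x42076) x24580) x33328) x27496) x29440) x28792) x29008) x28936) x28972) x28948) x28956) (Nat.mul x28954 (nat_lit 2))) x48636) x9272)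
    (Nat.sub (Nat.sub (Nat.add (Nat.add (Nat.add (Nat.add (Nat.add (Nat.add (Nat.add (Nat.add (Nat.add (Nat.add (Nat.add (Nat.add (Nat.add C x15834) x42078) x24582) x33330) x27498) x29442) x28794) x29010) x28938) x28974) x28950) x28962) x28954) (Nat.mul x28956 (nat_lit 2))) x9274)
    (Nat.sub (Nat.sub (Nat.add (Nat.add (Nat.add (Nat.add (Nat.add (Nat.add (Nat.add (Nat.add (Nat.add (Nat.add C x15840) x42084) x24588) x33336) x27504) x29448) x28800) x29016) x28980) x28956) (Nat.mul x28962 (nat_lit 2))) x9280)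
    (Nat.sub (Nat.sub (Nat.sub (Nat.add (Nat.add (Nat.add (Nat.add (Nat.add (Nat.add (Nat.add (Nat.add (Nat.add (Nat.add C x15850) x42094) x24598) x33346) x27514) x29458) x28810) x29026) x28954) x28974) (Nat.mul x28972 (nat_lit 3))) x48654) x9290)
    (Nat.sub (Nat.sub (Nat.add (Nat.add (Nat.add (Nat.add (Nat.add (Nat.add (Nat.add (Nat.add (Nat.add (Nat.add (Nat.add C x15852) x42096) x24600) x33348) x27516) x29460) x28812) x29028) x28956) x28980) x28972) (Nat.mul x28974 (nat_lit 4))) x9292)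
    (Nat.sub (Nat.sub (Nat.add (Nat.add (Nat.add (Nat.add (Nat.add (Nat.add (Nat.add (Nat.add (Nat.add (Nat.add C x15858) x42102) x24606) x33354) x27522) x29466) x28818) x29034) x28962) x28974) (Nat.mul x28980 (nat_lit 2))) x9298)
    (Nat.sub (Nat.add (Nat.add (Nat.add (Nat.add (Nat.add (Nat.add (Nat.add (Nat.add (Nat.add C x15878) x42122) x24626) x33374) x27542) x29486) x28838) x28946) x29002) x48682)
    (Nat.sub (Nat.sub (Nat.add (Nat.add (Nat.add (Nat.add (Nat.add (Nat.add (Nat.add (Nat.add (Nat.add (Nat.add (Nat.add C x15880) x42124) x24628) x33376) x27544) x29488) x28840) x28948) x29008) x29000) x29004) x48684) x9320)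
    (Nat.sub (Nat.sub (Nat.add (Nat.add (Nat.add (Nat.add (Nat.add (Nat.add (Nat.add (Nat.add (Nat.add (Nat.add C x15882) x42126) x24630) x33378) x27546) x29490) x28842) x28950) x29010) x29002) (Nat.mul x29004 (nat_lit 2))) x9322)
    (Nat.sub (Nat.sub (Nat.sub (Nat.add (Nat.add (Nat.add (Nat.add (Nat.add (Nat.add (Nat.add (Nat.add (Nat.add (Nat.add (Nat.add C x15886) x42130) x24634) x33382) x27550) x29494) x28846) x28954) x29026) x29002) x29010) x29008) x48690) x9326)
    (Nat.sub (Nat.sub (Nat.add (Nat.add (Nat.add (Nat.add (Nat.add (Nat.add (Nat.add (Nat.add (Nat.add (Nat.add (Nat.add (Nat.add C x15888) x42132) x24636) x33384) x27552) x29496) x28848) x28956) x29028) x29004) x29016) x29008) x29010) x9328)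
    (Nat.sub (Nat.sub (Nat.add (Nat.add (Nat.add (Nat.add (Nat.add (Nat.add (Nat.add (Nat.add (Nat.add (Nat.add C x15894) x42138) x24642) x33390) x27558) x29502) x28854) x28962) x29034) x29010) (Nat.mul x29016 (nat_lit 2))) x9334)
    (Nat.sub (Nat.sub (Nat.add (Nat.add (Nat.add (Nat.add (Nat.add (Nat.add (Nat.add (Nat.add (Nat.add (Nat.add (Nat.add C x15904) x42148) x24652) x33400) x27568) x29512) x28864) x28972) x29080) x29008) x29028) x48708) x9344)
    (Nat.sub (Nat.sub (Nat.add (Nat.add (Nat.add (Nat.add (Nat.add (Nat.add (Nat.add (Nat.add (Nat.add (Nat.add (Nat.add (Nat.add C x15906) x42150) x24654) x33402) x27570) x29514) x28866) x28974) x29082) x29010) x29034) x29026) x29028) x9346)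
    (Nat.sub (Nat.add (Nat.add (Nat.add (Nat.add (Nat.add (Nat.add (Nat.add (Nat.add (Nat.add (Nat.add (Nat.add (Nat.add C x15912) x42156) x24660) x33408) x27576) x29520) x28872) x28980) x29088) x29016) x29052) x29028) x9352)
    (Nat.sub (Nat.add (Nat.add (Nat.add (Nat.add (Nat.add (Nat.add (Nat.add (Nat.add (Nat.add C x15930) x42174) x24678) x33426) x27594) x29538) x28890) x29106) x29034) x9370)
    (Nat.sub (Nat.sub (Nat.add (Nat.add (Nat.add (Nat.add (Nat.add (Nat.add (Nat.add (Nat.add (Nat.add C x29080) x15958) x42202) x24706) x33454) x27622) x29566) x29026) x29082) x48762) x9398)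
    (Nat.sub (Nat.add (Nat.add (Nat.add (Nat.add (Nat.add (Nat.add (Nat.add (Nat.add (Nat.add C x15960) x42204) x24708) x33456) x27624) x29568) x29028) x29088) x29080) x9400)
    (Nat.sub (Nat.add (Nat.add (Nat.add (Nat.add (Nat.add (Nat.add (Nat.add (Nat.add (Nat.add C x15966) x42210) x24714) x33462) x27630) x29574) x29034) x29106) x29082) x9406)
    (Nat.sub (Nat.add (Nat.add (Nat.add (Nat.add (Nat.add (Nat.add (Nat.add (Nat.add (Nat.add C (Nat.mul x29106 (nat_lit 2))) x15984) x42228) x24732) x33480) x27648) x29592) x29052) x29088) x9424)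
    (Nat.sub (Nat.add (Nat.add (Nat.add (Nat.add (Nat.add (Nat.add (Nat.add (Nat.add (Nat.add C (Nat.mul x29168 (nat_lit 3))) x16046) x42290) x24794) x33542) x27710) x30626) x28682) x29174) x48850)
    (Nat.sub (Nat.add (Nat.add (Nat.add (Nat.add (Nat.add (Nat.add (Nat.add (Nat.add (Nat.add (Nat.add (Nat.add (Nat.add C (Nat.mul x29174 (nat_lit 2))) x16052) x42296) x24800) x33548) x27716) x30632) x28688) x29192) x29168) x29180) x29176) x48856)
    (Nat.sub (Nat.sub (Nat.add (Nat.add (Nat.add (Nat.add (Nat.add (Nat.add (Nat.add (Nat.add (Nat.add (Nat.add (Nat.add C (Nat.mul x29176 (nat_lit 2))) x16054) x42298) x24802) x33550) x27718) x30634) x28690) x29194) x29182) x29174) x48858) x9494)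
    (Nat.sub (Nat.sub (Nat.add (Nat.add (Nat.add (Nat.add (Nat.add (Nat.add (Nat.add (Nat.add (Nat.add (Nat.add C x16058) x42302) x24806) x33554) x27722) x30638) x28694) x29198) x29174) x29182) x29180) x48862)
    (Nat.sub (Nat.sub (Nat.add (Nat.add (Nat.add (Nat.add (Nat.add (Nat.add (Nat.add (Nat.add (Nat.add (Nat.add (Nat.add (Nat.add C x29182) x16060) x42304) x24808) x33556) x27724) x30640) x28696) x29200) x29176) x29180) x29184) x48864) x9500)
    (Nat.sub (Nat.add (Nat.add (Nat.add (Nat.add (Nat.add (Nat.add (Nat.add (Nat.add (Nat.add (Nat.add C x29184) x16062) x42306) x24810) x33558) x27726) x30642) x28698) x29202) x29182) x9502)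
    (Nat.sub (Nat.add (Nat.add (Nat.add (Nat.add (Nat.add (Nat.add (Nat.add (Nat.add (Nat.add (Nat.add (Nat.add (Nat.add C x29192) x16070) x42314) x24818) x33566) x27734) x30650) x28706) x29246) x29174) x29198) x29194) x48874)
    (Nat.sub (Nat.sub (Nat.add (Nat.add (Nat.add (Nat.add (Nat.add (Nat.add (Nat.add (Nat.add (Nat.add (Nat.add (Nat.add C x16072) x42316) x24820) x33568) x27736) x30652) x28708) x29248) x29176) x29200) x29192) x48876) x9512)
    (Nat.sub (Nat.add (Nat.add (Nat.add (Nat.add (Nat.add (Nat.add (Nat.add (Nat.add (Nat.add (Nat.add (Nat.add (Nat.add C x16076) x42320) x24824) x33572) x27740) x30656) x28712) x29252) x29180) x29216) x29192) x29200) x48880)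
    (Nat.sub (Nat.sub (Nat.add (Nat.add (Nat.add (Nat.add (Nat.add (Nat.add (Nat.add (Nat.add (Nat.add (Nat.add (Nat.add (Nat.add (Nat.add (Nat.add (Nat.add C x29200) x16078) x42322) x24826) x33574) x27742) x30658) x28714) x29254) x29182) x29218) x29194) x29206) x29198) x29202) x48882) x9518)
    (Nat.sub (Nat.add (Nat.add (Nat.add (Nat.add (Nat.add (Nat.add (Nat.add (Nat.add (Nat.add (Nat.add (Nat.add (Nat.add C x16080) x42324) x24828) x33576) x27744) x30660) x28716) x29256) x29184) x29220) x29208) x29200) x9520)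
    (Nat.sub (Nat.sub (Nat.add (Nat.add (Nat.add (Nat.add (Nat.add (Nat.add (Nat.add (Nat.add (Nat.add (Nat.add (Nat.add C x16084) x42328) x24832) x33580) x27748) x30664) x28720) x29260) x29224) x29200) x29208) x48888) x9524)
    (Nat.sub (Nat.add (Nat.add (Nat.add (Nat.add (Nat.add (Nat.add (Nat.add (Nat.add (Nat.add (Nat.add (Nat.add (Nat.add C x29208) x16086) x42330) x24834) x33582) x27750) x30666) x28722) x29262) x29226) x29202) x29206) x9526)
    (Nat.sub (Nat.sub (Nat.add (Nat.add (Nat.add (Nat.add (Nat.add (Nat.add (Nat.add (Nat.add (Nat.add (Nat.add C x16094) x42338) x24842) x33590) x27758) x30674) x28730) x29270) x29198) x29218) x29216) x48898)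
    (Nat.sub (Nat.sub (Nat.sub (Nat.add (Nat.add (Nat.add (Nat.add (Nat.add (Nat.add (Nat.add (Nat.add (Nat.add (Nat.add (Nat.add (Nat.add C x16096) x42340) x24844) x33592) x27760) x30676) x28732) x29272) x29200) x29224) x29216) x29220) x29218) x48900) x9536)
    (Nat.sub (Nat.sub (Nat.add (Nat.add (Nat.add (Nat.add (Nat.add (Nat.add (Nat.add (Nat.add (Nat.add (Nat.add (Nat.add C x16098) x42342) x24846) x33594) x27762) x30678) x28734) x29274) x29202) x29226) x29218) (Nat.mul x29220 (nat_lit 3))) x9538)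
    (Nat.sub (Nat.sub (Nat.add (Nat.add (Nat.add (Nat.add (Nat.add (Nat.add (Nat.add (Nat.add (Nat.add (Nat.add (Nat.add C x16102) x42346) x24850) x33598) x27766) x30682) x28738) x29278) x29206) x29218) x29226) x48906) x9542)
    (Nat.sub (Nat.add (Nat.add (Nat.add (Nat.add (Nat.add (Nat.add (Nat.add (Nat.add (Nat.add (Nat.add (Nat.add (Nat.add C x16104) x42348) x24852) x33600) x27768) x30684) x28740) x29280) x29208) x29220) x29232) x29224) x9544)
    (Nat.sub (Nat.add (Nat.add (Nat.add (Nat.add (Nat.add (Nat.add (Nat.add (Nat.add (Nat.add (Nat.add C x29232) x16110) x42354) x24858) x33606) x27774) x30690) x28746) x29286) x29226) x9550)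
    (Nat.sub (Nat.add (Nat.add (Nat.add (Nat.add (Nat.add (Nat.add (Nat.add (Nat.add (Nat.add (Nat.add (Nat.add (Nat.add C x29246) x16124) x42368) x24872) x33620) x27788) x30704) x28760) x29408) x29192) x29252) x29248) x48928)
    (Nat.sub (Nat.sub (Nat.add (Nat.add (Nat.add (Nat.add (Nat.add (Nat.add (Nat.add (Nat.add (Nat.add (Nat.add (Nat.add C x16126) x42370) x24874) x33622) x27790) x30706) x28762) x29410) x29194) x29254) x29246) x48930) x9566)
    (Nat.sub (Nat.sub (Nat.add (Nat.add (Nat.add (Nat.add (Nat.add (Nat.add (Nat.add (Nat.add (Nat.add (Nat.add (Nat.add (Nat.add C x16130) x42374) x24878) x33626) x27794) x30710) x28766) x29414) x29198) x29270) x29246) x29254) x29252) x48934)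
    (Nat.sub (Nat.sub (Nat.add (Nat.add (Nat.add (Nat.add (Nat.add (Nat.add (Nat.add (Nat.add (Nat.add (Nat.add (Nat.add (Nat.add (Nat.add (Nat.add C x16132) x42376) x24880) x33628) x27796) x30712) x28768) x29416) x29200) x29272) x29248) x29260) x29252) x29256) x48936) x9572)
    (Nat.sub (Nat.sub (Nat.add (Nat.add (Nat.add (Nat.add (Nat.add (Nat.add (Nat.add (Nat.add (Nat.add (Nat.add (Nat.add (Nat.add C x16134) x42378) x24882) x33630) x27798) x30714) x28770) x29418) x29202) x29274) x29262) x29254) x29256) x9574)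
    (Nat.sub (Nat.sub (Nat.sub (Nat.add (Nat.add (Nat.add (Nat.add (Nat.add (Nat.add (Nat.add (Nat.add (Nat.add (Nat.add (Nat.add (Nat.add C x16138) x42382) x24886) x33634) x27802) x30718) x28774) x29422) x29206) x29278) x29254) x29262) (Nat.mul x29260 (nat_lit 2))) x48942) x9578)
    (Nat.sub (Nat.sub (Nat.add (Nat.add (Nat.add (Nat.add (Nat.add (Nat.add (Nat.add (Nat.add (Nat.add (Nat.add (Nat.add (Nat.add C x16140) x42384) x24888) x33636) x27804) x30720) x28776) x29424) x29208) x29280) x29256) x29260) x29262) x9580)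
    (Nat.sub (Nat.add (Nat.add (Nat.add (Nat.add (Nat.add (Nat.add (Nat.add (Nat.add (Nat.add (Nat.add (Nat.add (Nat.add C x16148) x42392) x24896) x33644) x27812) x30728) x28784) x29432) x29216) x29324) x29252) x29272) x48952)
    (Nat.sub (Nat.sub (Nat.add (Nat.add (Nat.add (Nat.add (Nat.add (Nat.add (Nat.add (Nat.add (Nat.add (Nat.add (Nat.add (Nat.add (Nat.add (Nat.add C x16150) x42394) x24898) x33646) x27814) x30730) x28786) x29434) x29218) x29326) x29254) x29278) x29270) x29274) x48954) x9590)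
    (Nat.sub (Nat.sub (Nat.add (Nat.add (Nat.add (Nat.add (Nat.add (Nat.add (Nat.add (Nat.add (Nat.add (Nat.add (Nat.add (Nat.add (Nat.add C x16152) x42396) x24900) x33648) x27816) x30732) x28788) x29436) x29220) x29328) x29256) x29280) x29272) (Nat.mul x29274 (nat_lit 2))) x9592)
    (Nat.sub (Nat.sub (Nat.add (Nat.add (Nat.add (Nat.add (Nat.add (Nat.add (Nat.add (Nat.add (Nat.add (Nat.add (Nat.add (Nat.add (Nat.add (Nat.add C x16156) x42400) x24904) x33652) x27820) x30736) x28792) x29440) x29224) x29332) x29260) x29296) x29272) x29280) x48960) x9596)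
    (Nat.sub (Nat.add (Nat.add (Nat.add (Nat.add (Nat.add (Nat.add (Nat.add (Nat.add (Nat.add (Nat.add (Nat.add (Nat.add (Nat.add (Nat.add (Nat.add C x16158) x42402) x24906) x33654) x27822) x30738) x28794) x29442) x29226) x29334) x29262) x29298) x29274) x29286) x29278) x9598)
    (Nat.sub (Nat.add (Nat.add (Nat.add (Nat.add (Nat.add (Nat.add (Nat.add (Nat.add (Nat.add (Nat.add (Nat.add (Nat.add C x16164) x42408) x24912) x33660) x27828) x30744) x28800) x29448) x29232) x29340) x29304) x29280) x9604)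
    (Nat.sub (Nat.sub (Nat.add (Nat.add (Nat.add (Nat.add (Nat.add (Nat.add (Nat.add (Nat.add (Nat.add (Nat.add (Nat.add C x16174) x42418) x24922) x33670) x27838) x30754) x28810) x29458) x29350) x29278) x29298) x48978) x9614)
    (Nat.sub (Nat.sub (Nat.add (Nat.add (Nat.add (Nat.add (Nat.add (Nat.add (Nat.add (Nat.add (Nat.add (Nat.add (Nat.add (Nat.add C x16176) x42420) x24924) x33672) x27840) x30756) x28812) x29460) x29352) x29280) x29304) x29296) x29298) x9616)
    (Nat.sub (Nat.add (Nat.add (Nat.add (Nat.add (Nat.add (Nat.add (Nat.add (Nat.add (Nat.add (Nat.add (Nat.add (Nat.add C x29304) x16182) x42426) x24930) x33678) x27846) x30762) x28818) x29466) x29358) x29286) x29298) x9622)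
    (Nat.sub (Nat.sub (Nat.add (Nat.add (Nat.add (Nat.add (Nat.add (Nat.add (Nat.add (Nat.add (Nat.add (Nat.add C x16202) x42446) x24950) x33698) x27866) x30782) x28838) x29486) x29270) x29326) x29324) x49006)
    (Nat.sub (Nat.sub (Nat.sub (Nat.add (Nat.add (Nat.add (Nat.add (Nat.add (Nat.add (Nat.add (Nat.add (Nat.add (Nat.add (Nat.add (Nat.add C x16204) x42448) x24952) x33700) x27868) x30784) x28840) x29488) x29272) x29332) x29324) x29328) x29326) x49008) x9644)
    (Nat.sub (Nat.sub (Nat.add (Nat.add (Nat.add (Nat.add (Nat.add (Nat.add (Nat.add (Nat.add (Nat.add (Nat.add (Nat.add C x16206) x42450) x24954) x33702) x27870) x30786) x28842) x29490) x29274) x29334) x29326) (Nat.mul x29328 (nat_lit 3))) x9646)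
    (Nat.sub (Nat.sub (Nat.sub (Nat.add (Nat.add (Nat.add (Nat.add (Nat.add (Nat.add (Nat.add (Nat.add (Nat.add (Nat.add (Nat.add (Nat.add C x16210) x42454) x24958) x33706) x27874) x30790) x28846) x29494) x29278) x29350) x29326) x29334) (Nat.mul x29332 (nat_lit 2))) x49014) x9650)
    (Nat.sub (Nat.sub (Nat.add (Nat.add (Nat.add (Nat.add (Nat.add (Nat.add (Nat.add (Nat.add (Nat.add (Nat.add (Nat.add (Nat.add (Nat.add C x16212) x42456) x24960) x33708) x27876) x30792) x28848) x29496) x29280) x29352) x29328) x29340) x29332) (Nat.mul x29334 (nat_lit 2))) x9652)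
    (Nat.sub (Nat.sub (Nat.add (Nat.add (Nat.add (Nat.add (Nat.add (Nat.add (Nat.add (Nat.add (Nat.add (Nat.add (Nat.add C x16218) x42462) x24966) x33714) x27882) x30798) x28854) x29502) x29286) x29358) x29334) (Nat.mul x29340 (nat_lit 3))) x9658)
    (Nat.sub (Nat.sub (Nat.add (Nat.add (Nat.add (Nat.add (Nat.add (Nat.add (Nat.add (Nat.add (Nat.add (Nat.add (Nat.add C x16228) x42472) x24976) x33724) x27892) x30808) x28864) x29512) x29296) x29332) x29352) x49032) x9668)
    (Nat.sub (Nat.sub (Nat.add (Nat.add (Nat.add (Nat.add (Nat.add (Nat.add (Nat.add (Nat.add (Nat.add (Nat.add (Nat.add (Nat.add C x16230) x42474) x24978) x33726) x27894) x30810) x28866) x29514) x29298) x29334) x29358) x29350) x29352) x9670)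
    (Nat.sub (Nat.add (Nat.add (Nat.add (Nat.add (Nat.add (Nat.add (Nat.add (Nat.add (Nat.add (Nat.add (Nat.add (Nat.add C x16236) x42480) x24984) x33732) x27900) x30816) x28872) x29520) x29304) x29340) x29376) x29352) x9676)
    (Nat.sub (Nat.add (Nat.add (Nat.add (Nat.add (Nat.add (Nat.add (Nat.add (Nat.add (Nat.add (Nat.add C x29376) x16254) x42498) x25002) x33750) x27918) x30834) x28890) x29538) x29358) x9694)
    (Nat.sub (Nat.add (Nat.add (Nat.add (Nat.add (Nat.add (Nat.add (Nat.add (Nat.add (Nat.add (Nat.add (Nat.add (Nat.add C (Nat.mul x29408 (nat_lit 2))) x16286) x42530) x25034) x33782) x27950) x30866) x28922) x29894) x29246) x29414) x29410) x49090)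
    (Nat.sub (Nat.sub (Nat.add (Nat.add (Nat.add (Nat.add (Nat.add (Nat.add (Nat.add (Nat.add (Nat.add (Nat.add (Nat.add (Nat.add C x29410) x16288) x42532) x25036) x33784) x27952) x30868) x28924) x29896) x29248) x29416) x29408) x49092) x9728)
    (Nat.sub (Nat.add (Nat.add (Nat.add (Nat.add (Nat.add (Nat.add (Nat.add (Nat.add (Nat.add (Nat.add (Nat.add (Nat.add C x16292) x42536) x25040) x33788) x27956) x30872) x28928) x29900) x29252) x29432) x29408) x29416) x49096)
    (Nat.sub (Nat.sub (Nat.add (Nat.add (Nat.add (Nat.add (Nat.add (Nat.add (Nat.add (Nat.add (Nat.add (Nat.add (Nat.add (Nat.add (Nat.add (Nat.add (Nat.add C x29416) x16294) x42538) x25042) x33790) x27958) x30874) x28930) x29902) x29254) x29434) x29410) x29422) x29414) x29418) x49098) x9734)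
    (Nat.sub (Nat.add (Nat.add (Nat.add (Nat.add (Nat.add (Nat.add (Nat.add (Nat.add (Nat.add (Nat.add (Nat.add (Nat.add C x16296) x42540) x25044) x33792) x27960) x30876) x28932) x29904) x29256) x29436) x29424) x29416) x9736)
    (Nat.sub (Nat.sub (Nat.sub (Nat.add (Nat.add (Nat.add (Nat.add (Nat.add (Nat.add (Nat.add (Nat.add (Nat.add (Nat.add (Nat.add (Nat.add C x16300) x42544) x25048) x33796) x27964) x30880) x28936) x29908) x29260) x29440) x29416) x29424) x29422) x49104) x9740)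
    (Nat.sub (Nat.add (Nat.add (Nat.add (Nat.add (Nat.add (Nat.add (Nat.add (Nat.add (Nat.add (Nat.add (Nat.add (Nat.add C x16302) x42546) x25050) x33798) x27966) x30882) x28938) x29910) x29262) x29442) x29418) x29422) x9742)
    (Nat.sub (Nat.add (Nat.add (Nat.add (Nat.add (Nat.add (Nat.add (Nat.add (Nat.add (Nat.add (Nat.add (Nat.add (Nat.add C x16310) x42554) x25058) x33806) x27974) x30890) x28946) x29918) x29270) x29486) x29414) x29434) x49114)
    (Nat.sub (Nat.sub (Nat.add (Nat.add (Nat.add (Nat.add (Nat.add (Nat.add (Nat.add (Nat.add (Nat.add (Nat.add (Nat.add (Nat.add (Nat.add (Nat.add C x16312) x42556) x25060) x33808) x27976) x30892) x28948) x29920) x29272) x29488) x29416) x29440) x29432) x29436) x49116) x9752)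
    (Nat.sub (Nat.sub (Nat.add (Nat.add (Nat.add (Nat.add (Nat.add (Nat.add (Nat.add (Nat.add (Nat.add (Nat.add (Nat.add (Nat.add (Nat.add C x16314) x42558) x25062) x33810) x27978) x30894) x28950) x29922) x29274) x29490) x29418) x29442) x29434) (Nat.mul x29436 (nat_lit 2))) x9754)
    (Nat.sub (Nat.sub (Nat.add (Nat.add (Nat.add (Nat.add (Nat.add (Nat.add (Nat.add (Nat.add (Nat.add (Nat.add (Nat.add (Nat.add (Nat.add (Nat.add C x16318) x42562) x25066) x33814) x27982) x30898) x28954) x29926) x29278) x29494) x29422) x29458) x29434) x29442) x49122) x9758)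
    (Nat.sub (Nat.add (Nat.add (Nat.add (Nat.add (Nat.add (Nat.add (Nat.add (Nat.add (Nat.add (Nat.add (Nat.add (Nat.add (Nat.add (Nat.add (Nat.add C x16320) x42564) x25068) x33816) x27984) x30900) x28956) x29928) x29280) x29496) x29424) x29460) x29436) x29448) x29440) x9760)
    (Nat.sub (Nat.add (Nat.add (Nat.add (Nat.add (Nat.add (Nat.add (Nat.add (Nat.add (Nat.add (Nat.add (Nat.add (Nat.add C x16326) x42570) x25074) x33822) x27990) x30906) x28962) x29934) x29286) x29502) x29466) x29442) x9766)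
    (Nat.sub (Nat.sub (Nat.sub (Nat.add (Nat.add (Nat.add (Nat.add (Nat.add (Nat.add (Nat.add (Nat.add (Nat.add (Nat.add (Nat.add (Nat.add C x16336) x42580) x25084) x33832) x28000) x30916) x28972) x29944) x29296) x29512) x29440) x29460) x29458) x49140) x9776)
    (Nat.sub (Nat.sub (Nat.add (Nat.add (Nat.add (Nat.add (Nat.add (Nat.add (Nat.add (Nat.add (Nat.add (Nat.add (Nat.add (Nat.add (Nat.add C x16338) x42582) x25086) x33834) x28002) x30918) x28974) x29946) x29298) x29514) x29442) x29466) x29458) (Nat.mul x29460 (nat_lit 2))) x9778)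
    (Nat.sub (Nat.add (Nat.add (Nat.add (Nat.add (Nat.add (Nat.add (Nat.add (Nat.add (Nat.add (Nat.add (Nat.add (Nat.add C x16344) x42588) x25092) x33840) x28008) x30924) x28980) x29952) x29304) x29520) x29448) x29460) x9784)
    (Nat.sub (Nat.add (Nat.add (Nat.add (Nat.add (Nat.add (Nat.add (Nat.add (Nat.add (Nat.add (Nat.add (Nat.add (Nat.add (Nat.add C x29486) x16364) x42608) x25112) x33860) x28028) x30944) x29000) x29972) x29324) x29648) x29432) x29488) x49168)
    (Nat.sub (Nat.sub (Nat.add (Nat.add (Nat.add (Nat.add (Nat.add (Nat.add (Nat.add (Nat.add (Nat.add (Nat.add (Nat.add (Nat.add (Nat.add (Nat.add (Nat.add C x29488) x16366) x42610) x25114) x33862) x28030) x30946) x29002) x29974) x29326) x29650) x29434) x29494) x29486) x29490) x49170) x9806)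
    (Nat.sub (Nat.sub (Nat.add (Nat.add (Nat.add (Nat.add (Nat.add (Nat.add (Nat.add (Nat.add (Nat.add (Nat.add (Nat.add (Nat.add (Nat.add C x16368) x42612) x25116) x33864) x28032) x30948) x29004) x29976) x29328) x29652) x29436) x29496) x29488) x29490) x9808)
    (Nat.sub (Nat.sub (Nat.add (Nat.add (Nat.add (Nat.add (Nat.add (Nat.add (Nat.add (Nat.add (Nat.add (Nat.add (Nat.add (Nat.add (Nat.add (Nat.add C x16372) x42616) x25120) x33868) x28036) x30952) x29008) x29980) x29332) x29656) x29440) x29512) x29488) x29496) x49176) x9812)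
    (Nat.sub (Nat.add (Nat.add (Nat.add (Nat.add (Nat.add (Nat.add (Nat.add (Nat.add (Nat.add (Nat.add (Nat.add (Nat.add (Nat.add (Nat.add (Nat.add C x16374) x42618) x25122) x33870) x28038) x30954) x29010) x29982) x29334) x29658) x29442) x29514) x29490) x29502) x29494) x9814)
    (Nat.sub (Nat.sub (Nat.add (Nat.add (Nat.add (Nat.add (Nat.add (Nat.add (Nat.add (Nat.add (Nat.add (Nat.add (Nat.add (Nat.add (Nat.add C x16380) x42624) x25128) x33876) x28044) x30960) x29016) x29988) x29340) x29664) x29448) x29520) x29496) x29502) x9820)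
    (Nat.sub (Nat.sub (Nat.add (Nat.add (Nat.add (Nat.add (Nat.add (Nat.add (Nat.add (Nat.add (Nat.add (Nat.add (Nat.add (Nat.add (Nat.add (Nat.add (Nat.add C x29512) x16390) x42634) x25138) x33886) x28054) x30970) x29026) x29998) x29350) x29674) x29458) x29566) x29494) x29514) x49194) x9830)
    (Nat.sub (Nat.add (Nat.add (Nat.add (Nat.add (Nat.add (Nat.add (Nat.add (Nat.add (Nat.add (Nat.add (Nat.add (Nat.add (Nat.add (Nat.add (Nat.add C x16392) x42636) x25140) x33888) x28056) x30972) x29028) x30000) x29352) x29676) x29460) x29568) x29496) x29520) x29512) x9832)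
    (Nat.sub (Nat.add (Nat.add (Nat.add (Nat.add (Nat.add (Nat.add (Nat.add (Nat.add (Nat.add (Nat.add (Nat.add (Nat.add (Nat.add (Nat.add (Nat.add (Nat.add C x29520) x16398) x42642) x25146) x33894) x28062) x30978) x29034) x30006) x29358) x29682) x29466) x29574) x29502) x29538) x29514) x9838)
    (Nat.sub (Nat.add (Nat.add (Nat.add (Nat.add (Nat.add (Nat.add (Nat.add (Nat.add (Nat.add (Nat.add (Nat.add (Nat.add (Nat.add C x29538) x16416) x42660) x25164) x33912) x28080) x30996) x29052) x30024) x29376) x29700) x29592) x29520) x9856)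
    (Nat.sub (Nat.sub (Nat.add (Nat.add (Nat.add (Nat.add (Nat.add (Nat.add (Nat.add (Nat.add (Nat.add (Nat.add (Nat.add (Nat.add C x29566) x16444) x42688) x25192) x33940) x28108) x31024) x29080) x30052) x29728) x29512) x29568) x49248) x9884)
    (Nat.sub (Nat.add (Nat.add (Nat.add (Nat.add (Nat.add (Nat.add (Nat.add (Nat.add (Nat.add (Nat.add (Nat.add (Nat.add C x16446) x42690) x25194) x33942) x28110) x31026) x29082) x30054) x29730) x29514) x29574) x29566) x9886)
    (Nat.sub (Nat.add (Nat.add (Nat.add (Nat.add (Nat.add (Nat.add (Nat.add (Nat.add (Nat.add (Nat.add (Nat.add (Nat.add C x16452) x42696) x25200) x33948) x28116) x31032) x29088) x30060) x29736) x29520) x29592) x29568) x9892)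
    (Nat.sub (Nat.add (Nat.add (Nat.add (Nat.add (Nat.add (Nat.add (Nat.add (Nat.add (Nat.add (Nat.add (Nat.add (Nat.add C (Nat.mul x29592 (nat_lit 2))) x16470) x42714) x25218) x33966) x28134) x31050) x29106) x30078) x29754) x29538) x29574) x9910)
    (Nat.sub (Nat.add (Nat.add (Nat.add (Nat.add (Nat.add (Nat.add (Nat.add (Nat.add (Nat.add (Nat.add C x29648) x16526) x42770) x25274) x34022) x28190) x31106) x30134) x29486) x29650) x49330)
    (Nat.sub (Nat.sub (Nat.add (Nat.add (Nat.add (Nat.add (Nat.add (Nat.add (Nat.add (Nat.add (Nat.add (Nat.add (Nat.add (Nat.add C x29650) x16528) x42772) x25276) x34024) x28192) x31108) x30136) x29488) x29656) x29648) x29652) x49332) x9968)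
    (Nat.sub (Nat.sub (Nat.add (Nat.add (Nat.add (Nat.add (Nat.add (Nat.add (Nat.add (Nat.add (Nat.add (Nat.add C x16530) x42774) x25278) x34026) x28194) x31110) x30138) x29490) x29658) x29650) x29652) x9970)
    (Nat.sub (Nat.sub (Nat.add (Nat.add (Nat.add (Nat.add (Nat.add (Nat.add (Nat.add (Nat.add (Nat.add (Nat.add (Nat.add C x16534) x42778) x25282) x34030) x28198) x31114) x30142) x29494) x29674) x29650) x29658) x49338) x9974)
    (Nat.sub (Nat.add (Nat.add (Nat.add (Nat.add (Nat.add (Nat.add (Nat.add (Nat.add (Nat.add (Nat.add (Nat.add (Nat.add C x16536) x42780) x25284) x34032) x28200) x31116) x30144) x29496) x29676) x29652) x29664) x29656) x9976)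
    (Nat.sub (Nat.sub (Nat.add (Nat.add (Nat.add (Nat.add (Nat.add (Nat.add (Nat.add (Nat.add (Nat.add (Nat.add C x16542) x42786) x25290) x34038) x28206) x31122) x30150) x29502) x29682) x29658) x29664) x9982)
    (Nat.sub (Nat.sub (Nat.add (Nat.add (Nat.add (Nat.add (Nat.add (Nat.add (Nat.add (Nat.add (Nat.add (Nat.add (Nat.add C x16552) x42796) x25300) x34048) x28216) x31132) x30160) x29512) x29728) x29656) x29676) x49356) x9992)
    (Nat.sub (Nat.sub (Nat.add (Nat.add (Nat.add (Nat.add (Nat.add (Nat.add (Nat.add (Nat.add (Nat.add (Nat.add (Nat.add (Nat.add C x16554) x42798) x25302) x34050) x28218) x31134) x30162) x29514) x29730) x29658) x29682) x29674) x29676) x9994)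
    (Nat.sub (Nat.add (Nat.add (Nat.add (Nat.add (Nat.add (Nat.add (Nat.add (Nat.add (Nat.add (Nat.add (Nat.add (Nat.add C x16560) x42804) x25308) x34056) x28224) x31140) x30168) x29520) x29736) x29664) x29700) x29676) x10000)
    (Nat.sub (Nat.sub (Nat.add (Nat.add (Nat.add (Nat.add (Nat.add (Nat.add (Nat.add (Nat.add (Nat.add (Nat.add C x16578) x42822) x25326) x34074) x28242) x31158) x30186) x29538) x29754) x29682) x29700) x10018)
    (Nat.sub (Nat.sub (Nat.add (Nat.add (Nat.add (Nat.add (Nat.add (Nat.add (Nat.add (Nat.add (Nat.add (Nat.add (Nat.add C (Nat.mul x29728 (nat_lit 2))) x16606) x42850) x25354) x34102) x28270) x31186) x30214) x29566) x29674) x29730) x49410) x10046)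
    (Nat.sub (Nat.add (Nat.add (Nat.add (Nat.add (Nat.add (Nat.add (Nat.add (Nat.add (Nat.add (Nat.add (Nat.add (Nat.add C x29730) x16608) x42852) x25356) x34104) x28272) x31188) x30216) x29568) x29676) x29736) x29728) x10048)
    (Nat.sub (Nat.add (Nat.add (Nat.add (Nat.add (Nat.add (Nat.add (Nat.add (Nat.add (Nat.add (Nat.add (Nat.add (Nat.add C x29736) x16614) x42858) x25362) x34110) x28278) x31194) x30222) x29574) x29682) x29754) x29730) x10054)
    (Nat.sub (Nat.add (Nat.add (Nat.add (Nat.add (Nat.add (Nat.add (Nat.add (Nat.add (Nat.add (Nat.add (Nat.add (Nat.add C (Nat.mul x29754 (nat_lit 2))) x16632) x42876) x25380) x34128) x28296) x31212) x30240) x29592) x29700) x29808) x29736) x10072)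
    (Nat.sub (Nat.add (Nat.add (Nat.add (Nat.add (Nat.add (Nat.add (Nat.add (Nat.add (Nat.add C (Nat.mul x29808 (nat_lit 3))) x16686) x42930) x25434) x34182) x28350) x31266) x30294) x29754) x10126)
    (Nat.sub (Nat.add (Nat.add (Nat.add (Nat.add (Nat.add (Nat.add (Nat.add (Nat.add (Nat.add C (Nat.mul x29894 (nat_lit 2))) x16772) x43016) x25520) x34268) x31352) x29408) x29900) x29896) x49576)
    (Nat.sub (Nat.sub (Nat.add (Nat.add (Nat.add (Nat.add (Nat.add (Nat.add (Nat.add (Nat.add (Nat.add C x29896) x16774) x43018) x25522) x34270) x31354) x29410) x29902) x29894) x49578) x10214)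
    (Nat.sub (Nat.add (Nat.add (Nat.add (Nat.add (Nat.add (Nat.add (Nat.add (Nat.add (Nat.add C x16778) x43022) x25526) x34274) x31358) x29414) x29918) x29894) x29902) x49582)
    (Nat.sub (Nat.sub (Nat.add (Nat.add (Nat.add (Nat.add (Nat.add (Nat.add (Nat.add (Nat.add (Nat.add (Nat.add (Nat.add (Nat.add C x29902) x16780) x43024) x25528) x34276) x31360) x29416) x29920) x29896) x29908) x29900) x29904) x49584) x10220)
    (Nat.sub (Nat.add (Nat.add (Nat.add (Nat.add (Nat.add (Nat.add (Nat.add (Nat.add (Nat.add C x16782) x43026) x25530) x34278) x31362) x29418) x29922) x29910) x29902) x10222)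
    (Nat.sub (Nat.sub (Nat.sub (Nat.add (Nat.add (Nat.add (Nat.add (Nat.add (Nat.add (Nat.add (Nat.add (Nat.add C x16786) x43030) x25534) x34282) x31366) x29422) x29926) x29902) x29910) x29908) x49590) x10226)
    (Nat.sub (Nat.add (Nat.add (Nat.add (Nat.add (Nat.add (Nat.add (Nat.add (Nat.add (Nat.add C x16788) x43032) x25536) x34284) x31368) x29424) x29928) x29904) x29908) x10228)
    (Nat.sub (Nat.add (Nat.add (Nat.add (Nat.add (Nat.add (Nat.add (Nat.add (Nat.add (Nat.add C x16796) x43040) x25544) x34292) x31376) x29432) x29972) x29900) x29920) x49600)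
    (Nat.sub (Nat.sub (Nat.add (Nat.add (Nat.add (Nat.add (Nat.add (Nat.add (Nat.add (Nat.add (Nat.add (Nat.add (Nat.add C x16798) x43042) x25546) x34294) x31378) x29434) x29974) x29902) x29926) x29918) x29922) x49602) x10238)
    (Nat.sub (Nat.sub (Nat.add (Nat.add (Nat.add (Nat.add (Nat.add (Nat.add (Nat.add (Nat.add (Nat.add (Nat.add C x16800) x43044) x25548) x34296) x31380) x29436) x29976) x29904) x29928) x29920) (Nat.mul x29922 (nat_lit 2))) x10240)
    (Nat.sub (Nat.sub (Nat.add (Nat.add (Nat.add (Nat.add (Nat.add (Nat.add (Nat.add (Nat.add (Nat.add (Nat.add (Nat.add C x16804) x43048) x25552) x34300) x31384) x29440) x29980) x29908) x29944) x29920) x29928) x49608) x10244)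
    (Nat.sub (Nat.add (Nat.add (Nat.add (Nat.add (Nat.add (Nat.add (Nat.add (Nat.add (Nat.add (Nat.add (Nat.add (Nat.add C x16806) x43050) x25554) x34302) x31386) x29442) x29982) x29910) x29946) x29922) x29934) x29926) x10246)
    (Nat.sub (Nat.add (Nat.add (Nat.add (Nat.add (Nat.add (Nat.add (Nat.add (Nat.add (Nat.add C x16812) x43056) x25560) x34308) x31392) x29448) x29988) x29952) x29928) x10252)
    (Nat.sub (Nat.sub (Nat.sub (Nat.add (Nat.add (Nat.add (Nat.add (Nat.add (Nat.add (Nat.add (Nat.add (Nat.add C x16822) x43066) x25570) x34318) x31402) x29458) x29998) x29926) x29946) x29944) x49626) x10262)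
    (Nat.sub (Nat.sub (Nat.add (Nat.add (Nat.add (Nat.add (Nat.add (Nat.add (Nat.add (Nat.add (Nat.add (Nat.add C x16824) x43068) x25572) x34320) x31404) x29460) x30000) x29928) x29952) x29944) (Nat.mul x29946 (nat_lit 2))) x10264)
    (Nat.sub (Nat.add (Nat.add (Nat.add (Nat.add (Nat.add (Nat.add (Nat.add (Nat.add (Nat.add C x16830) x43074) x25578) x34326) x31410) x29466) x30006) x29934) x29946) x10270)
    (Nat.sub (Nat.add (Nat.add (Nat.add (Nat.add (Nat.add (Nat.add (Nat.add (Nat.add (Nat.add C x16850) x43094) x25598) x34346) x31430) x29486) x30134) x29918) x29974) x49654)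
    (Nat.sub (Nat.sub (Nat.add (Nat.add (Nat.add (Nat.add (Nat.add (Nat.add (Nat.add (Nat.add (Nat.add (Nat.add (Nat.add C x16852) x43096) x25600) x34348) x31432) x29488) x30136) x29920) x29980) x29972) x29976) x49656) x10292)
    (Nat.sub (Nat.sub (Nat.add (Nat.add (Nat.add (Nat.add (Nat.add (Nat.add (Nat.add (Nat.add (Nat.add (Nat.add C x16854) x43098) x25602) x34350) x31434) x29490) x30138) x29922) x29982) x29974) (Nat.mul x29976 (nat_lit 2))) x10294)
    (Nat.sub (Nat.sub (Nat.sub (Nat.add (Nat.add (Nat.add (Nat.add (Nat.add (Nat.add (Nat.add (Nat.add (Nat.add (Nat.add (Nat.add C x16858) x43102) x25606) x34354) x31438) x29494) x30142) x29926) x29998) x29974) x29982) x29980) x49662) x10298)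
    (Nat.sub (Nat.sub (Nat.add (Nat.add (Nat.add (Nat.add (Nat.add (Nat.add (Nat.add (Nat.add (Nat.add (Nat.add (Nat.add (Nat.add C x16860) x43104) x25608) x34356) x31440) x29496) x30144) x29928) x30000) x29976) x29988) x29980) x29982) x10300)
    (Nat.sub (Nat.sub (Nat.add (Nat.add (Nat.add (Nat.add (Nat.add (Nat.add (Nat.add (Nat.add (Nat.add (Nat.add C x16866) x43110) x25614) x34362) x31446) x29502) x30150) x29934) x30006) x29982) (Nat.mul x29988 (nat_lit 2))) x10306)
    (Nat.sub (Nat.sub (Nat.add (Nat.add (Nat.add (Nat.add (Nat.add (Nat.add (Nat.add (Nat.add (Nat.add (Nat.add (Nat.add C x16876) x43120) x25624) x34372) x31456) x29512) x30160) x29944) x30052) x29980) x30000) x49680) x10316)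
    (Nat.sub (Nat.sub (Nat.add (Nat.add (Nat.add (Nat.add (Nat.add (Nat.add (Nat.add (Nat.add (Nat.add (Nat.add (Nat.add (Nat.add C x16878) x43122) x25626) x34374) x31458) x29514) x30162) x29946) x30054) x29982) x30006) x29998) x30000) x10318)
    (Nat.sub (Nat.add (Nat.add (Nat.add (Nat.add (Nat.add (Nat.add (Nat.add (Nat.add (Nat.add (Nat.add (Nat.add (Nat.add C x16884) x43128) x25632) x34380) x31464) x29520) x30168) x29952) x30060) x29988) x30024) x30000) x10324)
    (Nat.sub (Nat.add (Nat.add (Nat.add (Nat.add (Nat.add (Nat.add (Nat.add (Nat.add (Nat.add C x16902) x43146) x25650) x34398) x31482) x29538) x30186) x30078) x30006) x10342)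
    (Nat.sub (Nat.sub (Nat.sub (Nat.add (Nat.add (Nat.add (Nat.add (Nat.add (Nat.add (Nat.add (Nat.add (Nat.add C x16930) x43174) x25678) x34426) x31510) x29566) x30214) x29998) x30054) x30052) x49734) x10370)
    (Nat.sub (Nat.sub (Nat.add (Nat.add (Nat.add (Nat.add (Nat.add (Nat.add (Nat.add (Nat.add (Nat.add (Nat.add C x16932) x43176) x25680) x34428) x31512) x29568) x30216) x30000) x30060) x30052) (Nat.mul x30054 (nat_lit 2))) x10372)
    (Nat.sub (Nat.sub (Nat.add (Nat.add (Nat.add (Nat.add (Nat.add (Nat.add (Nat.add (Nat.add (Nat.add (Nat.add C x16938) x43182) x25686) x34434) x31518) x29574) x30222) x30006) x30078) x30054) (Nat.mul x30060 (nat_lit 2))) x10378)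
    (Nat.sub (Nat.add (Nat.add (Nat.add (Nat.add (Nat.add (Nat.add (Nat.add (Nat.add (Nat.add C x16956) x43200) x25704) x34452) x31536) x29592) x30240) x30024) x30060) x10396)
    (Nat.sub (Nat.add (Nat.add (Nat.add (Nat.add (Nat.add (Nat.add (Nat.add (Nat.add (Nat.add C (Nat.mul x30134 (nat_lit 2))) x17012) x43256) x25760) x34508) x31592) x29648) x29972) x30136) x49816)
    (Nat.sub (Nat.sub (Nat.add (Nat.add (Nat.add (Nat.add (Nat.add (Nat.add (Nat.add (Nat.add (Nat.add (Nat.add (Nat.add C (Nat.mul x30136 (nat_lit 2))) x17014) x43258) x25762) x34510) x31594) x29650) x29974) x30142) x30134) x30138) x49818) x10454)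
    (Nat.sub (Nat.add (Nat.add (Nat.add (Nat.add (Nat.add (Nat.add (Nat.add (Nat.add (Nat.add C x17016) x43260) x25764) x34512) x31596) x29652) x29976) x30144) x30136) x10456)
    (Nat.sub (Nat.sub (Nat.add (Nat.add (Nat.add (Nat.add (Nat.add (Nat.add (Nat.add (Nat.add (Nat.add (Nat.add (Nat.add C x30142) x17020) x43264) x25768) x34516) x31600) x29656) x29980) x30160) x30136) x30144) x49824) x10460)
    (Nat.sub (Nat.add (Nat.add (Nat.add (Nat.add (Nat.add (Nat.add (Nat.add (Nat.add (Nat.add (Nat.add (Nat.add (Nat.add C x30144) x17022) x43266) x25770) x34518) x31602) x29658) x29982) x30162) x30138) x30150) x30142) x10462)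
    (Nat.sub (Nat.add (Nat.add (Nat.add (Nat.add (Nat.add (Nat.add (Nat.add (Nat.add (Nat.add C x17028) x43272) x25776) x34524) x31608) x29664) x29988) x30168) x30144) x10468)
    (Nat.sub (Nat.sub (Nat.add (Nat.add (Nat.add (Nat.add (Nat.add (Nat.add (Nat.add (Nat.add (Nat.add (Nat.add (Nat.add C x30160) x17038) x43282) x25786) x34534) x31618) x29674) x29998) x30214) x30142) x30162) x49842) x10478)
    (Nat.sub (Nat.add (Nat.add (Nat.add (Nat.add (Nat.add (Nat.add (Nat.add (Nat.add (Nat.add (Nat.add (Nat.add C x17040) x43284) x25788) x34536) x31620) x29676) x30000) x30216) x30144) x30168) x30160) x10480)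
    (Nat.sub (Nat.add (Nat.add (Nat.add (Nat.add (Nat.add (Nat.add (Nat.add (Nat.add (Nat.add (Nat.add (Nat.add (Nat.add C x30168) x17046) x43290) x25794) x34542) x31626) x29682) x30006) x30222) x30150) x30186) x30162) x10486)
    (Nat.sub (Nat.add (Nat.add (Nat.add (Nat.add (Nat.add (Nat.add (Nat.add (Nat.add (Nat.add C x17064) x43308) x25812) x34560) x31644) x29700) x30024) x30240) x30168) x10504)
    (Nat.sub (Nat.sub (Nat.add (Nat.add (Nat.add (Nat.add (Nat.add (Nat.add (Nat.add (Nat.add (Nat.add (Nat.add (Nat.add C (Nat.mul x30214 (nat_lit 2))) x17092) x43336) x25840) x34588) x31672) x29728) x30052) x30376) x30160) x30216) x49896) x10532)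
    (Nat.sub (Nat.add (Nat.add (Nat.add (Nat.add (Nat.add (Nat.add (Nat.add (Nat.add (Nat.add (Nat.add (Nat.add (Nat.add C x30216) x17094) x43338) x25842) x34590) x31674) x29730) x30054) x30378) x30162) x30222) x30214) x10534)
    (Nat.sub (Nat.add (Nat.add (Nat.add (Nat.add (Nat.add (Nat.add (Nat.add (Nat.add (Nat.add (Nat.add (Nat.add (Nat.add C x30222) x17100) x43344) x25848) x34596) x31680) x29736) x30060) x30384) x30168) x30240) x30216) x10540)
    (Nat.sub (Nat.add (Nat.add (Nat.add (Nat.add (Nat.add (Nat.add (Nat.add (Nat.add (Nat.add (Nat.add (Nat.add (Nat.add C (Nat.mul x30240 (nat_lit 2))) x17118) x43362) x25866) x34614) x31698) x29754) x30078) x30402) x30186) x30294) x30222) x10558)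
    (Nat.sub (Nat.add (Nat.add (Nat.add (Nat.add (Nat.add (Nat.add (Nat.add (Nat.add (Nat.add C (Nat.mul x30294 (nat_lit 2))) x17172) x43416) x25920) x34668) x31752) x29808) x30456) x30240) x10612)
    (Nat.sub (Nat.sub (Nat.add (Nat.add (Nat.add (Nat.add (Nat.add (Nat.add (Nat.add (Nat.add C (Nat.mul x30376 (nat_lit 3))) x17254) x43498) x26002) x34750) x31834) x30214) x30378) x50058) x10694)
    (Nat.sub (Nat.add (Nat.add (Nat.add (Nat.add (Nat.add (Nat.add (Nat.add (Nat.add (Nat.add C (Nat.mul x30378 (nat_lit 2))) x17256) x43500) x26004) x34752) x31836) x30216) x30384) x30376) x10696)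
    (Nat.sub (Nat.add (Nat.add (Nat.add (Nat.add (Nat.add (Nat.add (Nat.add (Nat.add (Nat.add C (Nat.mul x30384 (nat_lit 2))) x17262) x43506) x26010) x34758) x31842) x30222) x30402) x30378) x10702)
    (Nat.sub (Nat.add (Nat.add (Nat.add (Nat.add (Nat.add (Nat.add (Nat.add (Nat.add (Nat.add C (Nat.mul x30402 (nat_lit 2))) x17280) x43524) x26028) x34776) x31860) x30240) x30456) x30384) x10720)
    (Nat.sub (Nat.add (Nat.add (Nat.add (Nat.add (Nat.add (Nat.add (Nat.add (Nat.add C (Nat.mul x30456 (nat_lit 4))) x17334) x43578) x26082) x34830) x31914) x30294) x30402) x10774)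
    (Nat.sub (Nat.add (Nat.add (Nat.add (Nat.add (Nat.add (Nat.add C (Nat.mul x30626 (nat_lit 3))) x17504) x43748) x35000) x29168) x30632) x50308)
    (Nat.sub (Nat.add (Nat.add (Nat.add (Nat.add (Nat.add (Nat.add (Nat.add (Nat.add (Nat.add C (Nat.mul x30632 (nat_lit 2))) x17510) x43754) x35006) x29174) x30650) x30626) x30638) x30634) x50314)
    (Nat.sub (Nat.sub (Nat.add (Nat.add (Nat.add (Nat.add (Nat.add (Nat.add (Nat.add (Nat.add C (Nat.mul x30634 (nat_lit 2))) x17512) x43756) x35008) x29176) x30652) x30640) x30632) x50316) x10952)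
    (Nat.sub (Nat.sub (Nat.add (Nat.add (Nat.add (Nat.add (Nat.add (Nat.add (Nat.add C x17516) x43760) x35012) x29180) x30656) x30632) x30640) x30638) x50320)
    (Nat.sub (Nat.sub (Nat.add (Nat.add (Nat.add (Nat.add (Nat.add (Nat.add (Nat.add (Nat.add (Nat.add C x30640) x17518) x43762) x35014) x29182) x30658) x30634) x30638) x30642) x50322) x10958)
    (Nat.sub (Nat.add (Nat.add (Nat.add (Nat.add (Nat.add (Nat.add (Nat.add C x30642) x17520) x43764) x35016) x29184) x30660) x30640) x10960)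
    (Nat.sub (Nat.add (Nat.add (Nat.add (Nat.add (Nat.add (Nat.add (Nat.add (Nat.add (Nat.add C x30650) x17528) x43772) x35024) x29192) x30704) x30632) x30656) x30652) x50332)
    (Nat.sub (Nat.sub (Nat.add (Nat.add (Nat.add (Nat.add (Nat.add (Nat.add (Nat.add (Nat.add C x17530) x43774) x35026) x29194) x30706) x30634) x30658) x30650) x50334) x10970)
    (Nat.sub (Nat.add (Nat.add (Nat.add (Nat.add (Nat.add (Nat.add (Nat.add (Nat.add (Nat.add C x17534) x43778) x35030) x29198) x30710) x30638) x30674) x30650) x30658) x50338)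
    (Nat.sub (Nat.sub (Nat.add (Nat.add (Nat.add (Nat.add (Nat.add (Nat.add (Nat.add (Nat.add (Nat.add (Nat.add (Nat.add (Nat.add C x30658) x17536) x43780) x35032) x29200) x30712) x30640) x30676) x30652) x30664) x30656) x30660) x50340) x10976)
    (Nat.sub (Nat.add (Nat.add (Nat.add (Nat.add (Nat.add (Nat.add (Nat.add (Nat.add (Nat.add C x17538) x43782) x35034) x29202) x30714) x30642) x30678) x30666) x30658) x10978)
    (Nat.sub (Nat.sub (Nat.add (Nat.add (Nat.add (Nat.add (Nat.add (Nat.add (Nat.add (Nat.add C x17542) x43786) x35038) x29206) x30718) x30682) x30658) x30666) x50346) x10982)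
    (Nat.sub (Nat.add (Nat.add (Nat.add (Nat.add (Nat.add (Nat.add (Nat.add (Nat.add (Nat.add C x30666) x17544) x43788) x35040) x29208) x30720) x30684) x30660) x30664) x10984)
    (Nat.sub (Nat.sub (Nat.add (Nat.add (Nat.add (Nat.add (Nat.add (Nat.add (Nat.add C x17552) x43796) x35048) x29216) x30728) x30656) x30676) x30674) x50356)
    (Nat.sub (Nat.sub (Nat.sub (Nat.add (Nat.add (Nat.add (Nat.add (Nat.add (Nat.add (Nat.add (Nat.add (Nat.add C x17554) x43798) x35050) x29218) x30730) x30658) x30682) x30674) x30678) x30676) x50358) x10994)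
    (Nat.sub (Nat.sub (Nat.add (Nat.add (Nat.add (Nat.add (Nat.add (Nat.add (Nat.add (Nat.add C x17556) x43800) x35052) x29220) x30732) x30660) x30684) x30676) (Nat.mul x30678 (nat_lit 3))) x10996)
    (Nat.sub (Nat.sub (Nat.add (Nat.add (Nat.add (Nat.add (Nat.add (Nat.add (Nat.add (Nat.add C x17560) x43804) x35056) x29224) x30736) x30664) x30676) x30684) x50364) x11000)
    (Nat.sub (Nat.add (Nat.add (Nat.add (Nat.add (Nat.add (Nat.add (Nat.add (Nat.add (Nat.add C x17562) x43806) x35058) x29226) x30738) x30666) x30678) x30690) x30682) x11002)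
    (Nat.sub (Nat.add (Nat.add (Nat.add (Nat.add (Nat.add (Nat.add (Nat.add C x30690) x17568) x43812) x35064) x29232) x30744) x30684) x11008)
    (Nat.sub (Nat.add (Nat.add (Nat.add (Nat.add (Nat.add (Nat.add (Nat.add (Nat.add (Nat.add C x30704) x17582) x43826) x35078) x29246) x30866) x30650) x30710) x30706) x50386)
    (Nat.sub (Nat.sub (Nat.add (Nat.add (Nat.add (Nat.add (Nat.add (Nat.add (Nat.add (Nat.add C x17584) x43828) x35080) x29248) x30868) x30652) x30712) x30704) x50388) x11024)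
    (Nat.sub (Nat.sub (Nat.add (Nat.add (Nat.add (Nat.add (Nat.add (Nat.add (Nat.add (Nat.add (Nat.add C x17588) x43832) x35084) x29252) x30872) x30656) x30728) x30704) x30712) x30710) x50392)
    (Nat.sub (Nat.sub (Nat.add (Nat.add (Nat.add (Nat.add (Nat.add (Nat.add (Nat.add (Nat.add (Nat.add (Nat.add (Nat.add C x17590) x43834) x35086) x29254) x30874) x30658) x30730) x30706) x30718) x30710) x30714) x50394) x11030)
    (Nat.sub (Nat.sub (Nat.add (Nat.add (Nat.add (Nat.add (Nat.add (Nat.add (Nat.add (Nat.add (Nat.add C x17592) x43836) x35088) x29256) x30876) x30660) x30732) x30720) x30712) x30714) x11032)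
    (Nat.sub (Nat.sub (Nat.sub (Nat.add (Nat.add (Nat.add (Nat.add (Nat.add (Nat.add (Nat.add (Nat.add (Nat.add C x17596) x43840) x35092) x29260) x30880) x30664) x30736) x30712) x30720) (Nat.mul x30718 (nat_lit 2))) x50400) x11036)
    (Nat.sub (Nat.sub (Nat.add (Nat.add (Nat.add (Nat.add (Nat.add (Nat.add (Nat.add (Nat.add (Nat.add C x17598) x43842) x35094) x29262) x30882) x30666) x30738) x30714) x30718) x30720) x11038)
    (Nat.sub (Nat.add (Nat.add (Nat.add (Nat.add (Nat.add (Nat.add (Nat.add (Nat.add (Nat.add C x17606) x43850) x35102) x29270) x30890) x30674) x30782) x30710) x30730) x50410)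
    (Nat.sub (Nat.sub (Nat.add (Nat.add (Nat.add (Nat.add (Nat.add (Nat.add (Nat.add (Nat.add (Nat.add (Nat.add (Nat.add C x17608) x43852) x35104) x29272) x30892) x30676) x30784) x30712) x30736) x30728) x30732) x50412) x11048)
    (Nat.sub (Nat.sub (Nat.add (Nat.add (Nat.add (Nat.add (Nat.add (Nat.add (Nat.add (Nat.add (Nat.add (Nat.add C x17610) x43854) x35106) x29274) x30894) x30678) x30786) x30714) x30738) x30730) (Nat.mul x30732 (nat_lit 2))) x11050)
    (Nat.sub (Nat.sub (Nat.add (Nat.add (Nat.add (Nat.add (Nat.add (Nat.add (Nat.add (Nat.add (Nat.add (Nat.add (Nat.add C x17614) x43858) x35110) x29278) x30898) x30682) x30790) x30718) x30754) x30730) x30738) x50418) x11054)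
    (Nat.sub (Nat.add (Nat.add (Nat.add (Nat.add (Nat.add (Nat.add (Nat.add (Nat.add (Nat.add (Nat.add (Nat.add (Nat.add C x17616) x43860) x35112) x29280) x30900) x30684) x30792) x30720) x30756) x30732) x30744) x30736) x11056)
    (Nat.sub (Nat.add (Nat.add (Nat.add (Nat.add (Nat.add (Nat.add (Nat.add (Nat.add (Nat.add C x17622) x43866) x35118) x29286) x30906) x30690) x30798) x30762) x30738) x11062)
    (Nat.sub (Nat.sub (Nat.add (Nat.add (Nat.add (Nat.add (Nat.add (Nat.add (Nat.add (Nat.add C x17632) x43876) x35128) x29296) x30916) x30808) x30736) x30756) x50436) x11072)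
    (Nat.sub (Nat.sub (Nat.add (Nat.add (Nat.add (Nat.add (Nat.add (Nat.add (Nat.add (Nat.add (Nat.add C x17634) x43878) x35130) x29298) x30918) x30810) x30738) x30762) x30754) x30756) x11074)
    (Nat.sub (Nat.add (Nat.add (Nat.add (Nat.add (Nat.add (Nat.add (Nat.add (Nat.add (Nat.add C x30762) x17640) x43884) x35136) x29304) x30924) x30816) x30744) x30756) x11080)
    (Nat.sub (Nat.sub (Nat.add (Nat.add (Nat.add (Nat.add (Nat.add (Nat.add (Nat.add C x17660) x43904) x35156) x29324) x30944) x30728) x30784) x30782) x50464)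
    (Nat.sub (Nat.sub (Nat.sub (Nat.add (Nat.add (Nat.add (Nat.add (Nat.add (Nat.add (Nat.add (Nat.add (Nat.add C x17662) x43906) x35158) x29326) x30946) x30730) x30790) x30782) x30786) x30784) x50466) x11102)
    (Nat.sub (Nat.sub (Nat.add (Nat.add (Nat.add (Nat.add (Nat.add (Nat.add (Nat.add (Nat.add C x17664) x43908) x35160) x29328) x30948) x30732) x30792) x30784) (Nat.mul x30786 (nat_lit 3))) x11104)
    (Nat.sub (Nat.sub (Nat.sub (Nat.add (Nat.add (Nat.add (Nat.add (Nat.add (Nat.add (Nat.add (Nat.add (Nat.add C x17668) x43912) x35164) x29332) x30952) x30736) x30808) x30784) x30792) (Nat.mul x30790 (nat_lit 2))) x50472) x11108)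
    (Nat.sub (Nat.sub (Nat.add (Nat.add (Nat.add (Nat.add (Nat.add (Nat.add (Nat.add (Nat.add (Nat.add (Nat.add C x17670) x43914) x35166) x29334) x30954) x30738) x30810) x30786) x30798) x30790) (Nat.mul x30792 (nat_lit 2))) x11110)
    (Nat.sub (Nat.sub (Nat.add (Nat.add (Nat.add (Nat.add (Nat.add (Nat.add (Nat.add (Nat.add C x17676) x43920) x35172) x29340) x30960) x30744) x30816) x30792) (Nat.mul x30798 (nat_lit 3))) x11116)
    (Nat.sub (Nat.sub (Nat.add (Nat.add (Nat.add (Nat.add (Nat.add (Nat.add (Nat.add (Nat.add C x17686) x43930) x35182) x29350) x30970) x30754) x30790) x30810) x50490) x11126)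
    (Nat.sub (Nat.sub (Nat.add (Nat.add (Nat.add (Nat.add (Nat.add (Nat.add (Nat.add (Nat.add (Nat.add C x17688) x43932) x35184) x29352) x30972) x30756) x30792) x30816) x30808) x30810) x11128)
    (Nat.sub (Nat.add (Nat.add (Nat.add (Nat.add (Nat.add (Nat.add (Nat.add (Nat.add (Nat.add C x17694) x43938) x35190) x29358) x30978) x30762) x30798) x30834) x30810) x11134)
    (Nat.sub (Nat.add (Nat.add (Nat.add (Nat.add (Nat.add (Nat.add (Nat.add C x30834) x17712) x43956) x35208) x29376) x30996) x30816) x11152)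
    (Nat.sub (Nat.add (Nat.add (Nat.add (Nat.add (Nat.add (Nat.add (Nat.add (Nat.add (Nat.add C x30866) x17744) x43988) x35240) x29408) x31352) x30704) x30872) x30868) x50548)
    (Nat.sub (Nat.sub (Nat.add (Nat.add (Nat.add (Nat.add (Nat.add (Nat.add (Nat.add (Nat.add C x17746) x43990) x35242) x29410) x31354) x30706) x30874) x30866) x50550) x11186)
    (Nat.sub (Nat.sub (Nat.add (Nat.add (Nat.add (Nat.add (Nat.add (Nat.add (Nat.add (Nat.add (Nat.add C x17750) x43994) x35246) x29414) x31358) x30710) x30890) x30866) x30874) x30872) x50554)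
    (Nat.sub (Nat.sub (Nat.add (Nat.add (Nat.add (Nat.add (Nat.add (Nat.add (Nat.add (Nat.add (Nat.add (Nat.add (Nat.add C x17752) x43996) x35248) x29416) x31360) x30712) x30892) x30868) x30880) x30872) x30876) x50556) x11192)
    (Nat.sub (Nat.sub (Nat.add (Nat.add (Nat.add (Nat.add (Nat.add (Nat.add (Nat.add (Nat.add (Nat.add C x17754) x43998) x35250) x29418) x31362) x30714) x30894) x30882) x30874) x30876) x11194)
    (Nat.sub (Nat.sub (Nat.sub (Nat.add (Nat.add (Nat.add (Nat.add (Nat.add (Nat.add (Nat.add (Nat.add (Nat.add C x17758) x44002) x35254) x29422) x31366) x30718) x30898) x30874) x30882) (Nat.mul x30880 (nat_lit 2))) x50562) x11198)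
    (Nat.sub (Nat.sub (Nat.add (Nat.add (Nat.add (Nat.add (Nat.add (Nat.add (Nat.add (Nat.add (Nat.add C x17760) x44004) x35256) x29424) x31368) x30720) x30900) x30876) x30880) x30882) x11200)
    (Nat.sub (Nat.sub (Nat.add (Nat.add (Nat.add (Nat.add (Nat.add (Nat.add (Nat.add (Nat.add (Nat.add C x17768) x44012) x35264) x29432) x31376) x30728) x30944) x30872) x30892) x30890) x50572)
    (Nat.sub (Nat.sub (Nat.sub (Nat.add (Nat.add (Nat.add (Nat.add (Nat.add (Nat.add (Nat.add (Nat.add (Nat.add (Nat.add (Nat.add C x17770) x44014) x35266) x29434) x31378) x30730) x30946) x30874) x30898) x30890) x30894) x30892) x50574) x11210)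
    (Nat.sub (Nat.sub (Nat.add (Nat.add (Nat.add (Nat.add (Nat.add (Nat.add (Nat.add (Nat.add (Nat.add (Nat.add C x17772) x44016) x35268) x29436) x31380) x30732) x30948) x30876) x30900) x30892) (Nat.mul x30894 (nat_lit 3))) x11212)
    (Nat.sub (Nat.sub (Nat.sub (Nat.add (Nat.add (Nat.add (Nat.add (Nat.add (Nat.add (Nat.add (Nat.add (Nat.add (Nat.add (Nat.add C x17776) x44020) x35272) x29440) x31384) x30736) x30952) x30880) x30916) x30892) x30900) x30898) x50580) x11216)
    (Nat.sub (Nat.sub (Nat.add (Nat.add (Nat.add (Nat.add (Nat.add (Nat.add (Nat.add (Nat.add (Nat.add (Nat.add (Nat.add (Nat.add C x17778) x44022) x35274) x29442) x31386) x30738) x30954) x30882) x30918) x30894) x30906) x30898) x30900) x11218)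
    (Nat.sub (Nat.sub (Nat.add (Nat.add (Nat.add (Nat.add (Nat.add (Nat.add (Nat.add (Nat.add (Nat.add C x17784) x44028) x35280) x29448) x31392) x30744) x30960) x30924) x30900) x30906) x11224)
    (Nat.sub (Nat.sub (Nat.sub (Nat.add (Nat.add (Nat.add (Nat.add (Nat.add (Nat.add (Nat.add (Nat.add (Nat.add C x17794) x44038) x35290) x29458) x31402) x30754) x30970) x30898) x30918) (Nat.mul x30916 (nat_lit 2))) x50598) x11234)
    (Nat.sub (Nat.sub (Nat.add (Nat.add (Nat.add (Nat.add (Nat.add (Nat.add (Nat.add (Nat.add (Nat.add (Nat.add C x17796) x44040) x35292) x29460) x31404) x30756) x30972) x30900) x30924) x30916) (Nat.mul x30918 (nat_lit 3))) x11236)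
    (Nat.sub (Nat.sub (Nat.add (Nat.add (Nat.add (Nat.add (Nat.add (Nat.add (Nat.add (Nat.add (Nat.add C x17802) x44046) x35298) x29466) x31410) x30762) x30978) x30906) x30918) x30924) x11242)
    (Nat.sub (Nat.add (Nat.add (Nat.add (Nat.add (Nat.add (Nat.add (Nat.add (Nat.add (Nat.add C x17822) x44066) x35318) x29486) x31430) x30782) x31106) x30890) x30946) x50626)
    (Nat.sub (Nat.sub (Nat.add (Nat.add (Nat.add (Nat.add (Nat.add (Nat.add (Nat.add (Nat.add (Nat.add (Nat.add (Nat.add C x17824) x44068) x35320) x29488) x31432) x30784) x31108) x30892) x30952) x30944) x30948) x50628) x11264)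
    (Nat.sub (Nat.sub (Nat.add (Nat.add (Nat.add (Nat.add (Nat.add (Nat.add (Nat.add (Nat.add (Nat.add (Nat.add C x17826) x44070) x35322) x29490) x31434) x30786) x31110) x30894) x30954) x30946) (Nat.mul x30948 (nat_lit 2))) x11266)
    (Nat.sub (Nat.sub (Nat.sub (Nat.add (Nat.add (Nat.add (Nat.add (Nat.add (Nat.add (Nat.add (Nat.add (Nat.add (Nat.add (Nat.add C x17830) x44074) x35326) x29494) x31438) x30790) x31114) x30898) x30970) x30946) x30954) x30952) x50634) x11270)
    (Nat.sub (Nat.sub (Nat.add (Nat.add (Nat.add (Nat.add (Nat.add (Nat.add (Nat.add (Nat.add (Nat.add (Nat.add (Nat.add (Nat.add C x17832) x44076) x35328) x29496) x31440) x30792) x31116) x30900) x30972) x30948) x30960) x30952) x30954) x11272)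
    (Nat.sub (Nat.sub (Nat.add (Nat.add (Nat.add (Nat.add (Nat.add (Nat.add (Nat.add (Nat.add (Nat.add (Nat.add C x17838) x44082) x35334) x29502) x31446) x30798) x31122) x30906) x30978) x30954) (Nat.mul x30960 (nat_lit 2))) x11278)
    (Nat.sub (Nat.sub (Nat.add (Nat.add (Nat.add (Nat.add (Nat.add (Nat.add (Nat.add (Nat.add (Nat.add (Nat.add (Nat.add C x17848) x44092) x35344) x29512) x31456) x30808) x31132) x30916) x31024) x30952) x30972) x50652) x11288)
    (Nat.sub (Nat.sub (Nat.add (Nat.add (Nat.add (Nat.add (Nat.add (Nat.add (Nat.add (Nat.add (Nat.add (Nat.add (Nat.add (Nat.add C x17850) x44094) x35346) x29514) x31458) x30810) x31134) x30918) x31026) x30954) x30978) x30970) x30972) x11290)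
    (Nat.sub (Nat.add (Nat.add (Nat.add (Nat.add (Nat.add (Nat.add (Nat.add (Nat.add (Nat.add (Nat.add (Nat.add (Nat.add C x17856) x44100) x35352) x29520) x31464) x30816) x31140) x30924) x31032) x30960) x30996) x30972) x11296)
    (Nat.sub (Nat.add (Nat.add (Nat.add (Nat.add (Nat.add (Nat.add (Nat.add (Nat.add (Nat.add C x17874) x44118) x35370) x29538) x31482) x30834) x31158) x31050) x30978) x11314)
    (Nat.sub (Nat.sub (Nat.add (Nat.add (Nat.add (Nat.add (Nat.add (Nat.add (Nat.add (Nat.add C x17902) x44146) x35398) x29566) x31510) x31186) x30970) x31026) x50706) x11342)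
    (Nat.sub (Nat.sub (Nat.add (Nat.add (Nat.add (Nat.add (Nat.add (Nat.add (Nat.add (Nat.add (Nat.add C x17904) x44148) x35400) x29568) x31512) x31188) x30972) x31032) x31024) x31026) x11344)
    (Nat.sub (Nat.sub (Nat.add (Nat.add (Nat.add (Nat.add (Nat.add (Nat.add (Nat.add (Nat.add (Nat.add C x17910) x44154) x35406) x29574) x31518) x31194) x30978) x31050) x31026) x31032) x11350)
    (Nat.sub (Nat.add (Nat.add (Nat.add (Nat.add (Nat.add (Nat.add (Nat.add (Nat.add (Nat.add C x31050) x17928) x44172) x35424) x29592) x31536) x31212) x30996) x31032) x11368)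
    (Nat.sub (Nat.sub (Nat.add (Nat.add (Nat.add (Nat.add (Nat.add (Nat.add (Nat.add C x17984) x44228) x35480) x29648) x31592) x30944) x31108) x31106) x50788)
    (Nat.sub (Nat.sub (Nat.sub (Nat.add (Nat.add (Nat.add (Nat.add (Nat.add (Nat.add (Nat.add (Nat.add (Nat.add C x17986) x44230) x35482) x29650) x31594) x30946) x31114) x31106) x31110) x31108) x50790) x11426)
    (Nat.sub (Nat.sub (Nat.add (Nat.add (Nat.add (Nat.add (Nat.add (Nat.add (Nat.add (Nat.add C x17988) x44232) x35484) x29652) x31596) x30948) x31116) x31108) (Nat.mul x31110 (nat_lit 3))) x11428)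
    (Nat.sub (Nat.sub (Nat.sub (Nat.add (Nat.add (Nat.add (Nat.add (Nat.add (Nat.add (Nat.add (Nat.add (Nat.add C x17992) x44236) x35488) x29656) x31600) x30952) x31132) x31108) x31116) (Nat.mul x31114 (nat_lit 2))) x50796) x11432)
    (Nat.sub (Nat.sub (Nat.add (Nat.add (Nat.add (Nat.add (Nat.add (Nat.add (Nat.add (Nat.add (Nat.add (Nat.add C x17994) x44238) x35490) x29658) x31602) x30954) x31134) x31110) x31122) x31114) (Nat.mul x31116 (nat_lit 2))) x11434)
    (Nat.sub (Nat.sub (Nat.add (Nat.add (Nat.add (Nat.add (Nat.add (Nat.add (Nat.add (Nat.add C x18000) x44244) x35496) x29664) x31608) x30960) x31140) x31116) (Nat.mul x31122 (nat_lit 3))) x11440)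
    (Nat.sub (Nat.sub (Nat.sub (Nat.add (Nat.add (Nat.add (Nat.add (Nat.add (Nat.add (Nat.add (Nat.add (Nat.add C x18010) x44254) x35506) x29674) x31618) x30970) x31186) x31114) x31134) (Nat.mul x31132 (nat_lit 2))) x50814) x11450)
    (Nat.sub (Nat.sub (Nat.add (Nat.add (Nat.add (Nat.add (Nat.add (Nat.add (Nat.add (Nat.add (Nat.add (Nat.add C x18012) x44256) x35508) x29676) x31620) x30972) x31188) x31116) x31140) x31132) (Nat.mul x31134 (nat_lit 3))) x11452)
    (Nat.sub (Nat.sub (Nat.add (Nat.add (Nat.add (Nat.add (Nat.add (Nat.add (Nat.add (Nat.add (Nat.add (Nat.add C x18018) x44262) x35514) x29682) x31626) x30978) x31194) x31122) x31158) x31134) (Nat.mul x31140 (nat_lit 2))) x11458)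
    (Nat.sub (Nat.sub (Nat.add (Nat.add (Nat.add (Nat.add (Nat.add (Nat.add (Nat.add (Nat.add C x18036) x44280) x35532) x29700) x31644) x30996) x31212) x31140) (Nat.mul x31158 (nat_lit 3))) x11476)
    (Nat.sub (Nat.sub (Nat.add (Nat.add (Nat.add (Nat.add (Nat.add (Nat.add (Nat.add (Nat.add C x18064) x44308) x35560) x29728) x31672) x31024) x31132) x31188) x50868) x11504)
    (Nat.sub (Nat.sub (Nat.add (Nat.add (Nat.add (Nat.add (Nat.add (Nat.add (Nat.add (Nat.add (Nat.add C x18066) x44310) x35562) x29730) x31674) x31026) x31134) x31194) x31186) x31188) x11506)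
    (Nat.sub (Nat.sub (Nat.add (Nat.add (Nat.add (Nat.add (Nat.add (Nat.add (Nat.add (Nat.add (Nat.add C x18072) x44316) x35568) x29736) x31680) x31032) x31140) x31212) x31188) x31194) x11512)
    (Nat.sub (Nat.add (Nat.add (Nat.add (Nat.add (Nat.add (Nat.add (Nat.add (Nat.add (Nat.add C x18090) x44334) x35586) x29754) x31698) x31050) x31158) x31266) x31194) x11530)
    (Nat.sub (Nat.add (Nat.add (Nat.add (Nat.add (Nat.add (Nat.add (Nat.add C x31266) x18144) x44388) x35640) x29808) x31752) x31212) x11584)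
    (Nat.sub (Nat.add (Nat.add (Nat.add (Nat.add (Nat.add (Nat.add (Nat.add (Nat.add C (Nat.mul x31352 (nat_lit 3))) x18230) x44474) x35726) x29894) x30866) x31358) x31354) x51034)
    (Nat.sub (Nat.sub (Nat.add (Nat.add (Nat.add (Nat.add (Nat.add (Nat.add (Nat.add (Nat.add C (Nat.mul x31354 (nat_lit 2))) x18232) x44476) x35728) x29896) x30868) x31360) x31352) x51036) x11672)
    (Nat.sub (Nat.add (Nat.add (Nat.add (Nat.add (Nat.add (Nat.add (Nat.add (Nat.add (Nat.add C x31358) x18236) x44480) x35732) x29900) x30872) x31376) x31352) x31360) x51040)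
    (Nat.sub (Nat.sub (Nat.add (Nat.add (Nat.add (Nat.add (Nat.add (Nat.add (Nat.add (Nat.add (Nat.add (Nat.add (Nat.add C (Nat.mul x31360 (nat_lit 2))) x18238) x44482) x35734) x29902) x30874) x31378) x31354) x31366) x31358) x31362) x51042) x11678)
    (Nat.sub (Nat.add (Nat.add (Nat.add (Nat.add (Nat.add (Nat.add (Nat.add (Nat.add (Nat.add C x31362) x18240) x44484) x35736) x29904) x30876) x31380) x31368) x31360) x11680)
    (Nat.sub (Nat.sub (Nat.add (Nat.add (Nat.add (Nat.add (Nat.add (Nat.add (Nat.add (Nat.add C x18244) x44488) x35740) x29908) x30880) x31384) x31360) x31368) x51048) x11684)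
    (Nat.sub (Nat.add (Nat.add (Nat.add (Nat.add (Nat.add (Nat.add (Nat.add (Nat.add (Nat.add C x31368) x18246) x44490) x35742) x29910) x30882) x31386) x31362) x31366) x11686)
    (Nat.sub (Nat.add (Nat.add (Nat.add (Nat.add (Nat.add (Nat.add (Nat.add (Nat.add (Nat.add C x31376) x18254) x44498) x35750) x29918) x30890) x31430) x31358) x31378) x51058)
    (Nat.sub (Nat.sub (Nat.add (Nat.add (Nat.add (Nat.add (Nat.add (Nat.add (Nat.add (Nat.add (Nat.add (Nat.add (Nat.add C x31378) x18256) x44500) x35752) x29920) x30892) x31432) x31360) x31384) x31376) x31380) x51060) x11696)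
    (Nat.sub (Nat.sub (Nat.add (Nat.add (Nat.add (Nat.add (Nat.add (Nat.add (Nat.add (Nat.add (Nat.add C x18258) x44502) x35754) x29922) x30894) x31434) x31362) x31386) x31378) x31380) x11698)
    (Nat.sub (Nat.sub (Nat.add (Nat.add (Nat.add (Nat.add (Nat.add (Nat.add (Nat.add (Nat.add (Nat.add (Nat.add (Nat.add C x31384) x18262) x44506) x35758) x29926) x30898) x31438) x31366) x31402) x31378) x31386) x51066) x11702)
    (Nat.sub (Nat.add (Nat.add (Nat.add (Nat.add (Nat.add (Nat.add (Nat.add (Nat.add (Nat.add (Nat.add (Nat.add (Nat.add C x31386) x18264) x44508) x35760) x29928) x30900) x31440) x31368) x31404) x31380) x31392) x31384) x11704)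
    (Nat.sub (Nat.add (Nat.add (Nat.add (Nat.add (Nat.add (Nat.add (Nat.add (Nat.add (Nat.add C x31392) x18270) x44514) x35766) x29934) x30906) x31446) x31410) x31386) x11710)
    (Nat.sub (Nat.sub (Nat.add (Nat.add (Nat.add (Nat.add (Nat.add (Nat.add (Nat.add (Nat.add C x18280) x44524) x35776) x29944) x30916) x31456) x31384) x31404) x51084) x11720)
    (Nat.sub (Nat.sub (Nat.add (Nat.add (Nat.add (Nat.add (Nat.add (Nat.add (Nat.add (Nat.add (Nat.add C x18282) x44526) x35778) x29946) x30918) x31458) x31386) x31410) x31402) x31404) x11722)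
    (Nat.sub (Nat.add (Nat.add (Nat.add (Nat.add (Nat.add (Nat.add (Nat.add (Nat.add (Nat.add C x31410) x18288) x44532) x35784) x29952) x30924) x31464) x31392) x31404) x11728)
    (Nat.sub (Nat.add (Nat.add (Nat.add (Nat.add (Nat.add (Nat.add (Nat.add (Nat.add (Nat.add C x31430) x18308) x44552) x35804) x29972) x30944) x31592) x31376) x31432) x51112)
    (Nat.sub (Nat.sub (Nat.add (Nat.add (Nat.add (Nat.add (Nat.add (Nat.add (Nat.add (Nat.add (Nat.add (Nat.add (Nat.add C x31432) x18310) x44554) x35806) x29974) x30946) x31594) x31378) x31438) x31430) x31434) x51114) x11750)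
    (Nat.sub (Nat.sub (Nat.add (Nat.add (Nat.add (Nat.add (Nat.add (Nat.add (Nat.add (Nat.add (Nat.add C x18312) x44556) x35808) x29976) x30948) x31596) x31380) x31440) x31432) x31434) x11752)
    (Nat.sub (Nat.sub (Nat.add (Nat.add (Nat.add (Nat.add (Nat.add (Nat.add (Nat.add (Nat.add (Nat.add (Nat.add C x18316) x44560) x35812) x29980) x30952) x31600) x31384) x31456) x31432) x31440) x51120) x11756)
    (Nat.sub (Nat.add (Nat.add (Nat.add (Nat.add (Nat.add (Nat.add (Nat.add (Nat.add (Nat.add (Nat.add (Nat.add C x18318) x44562) x35814) x29982) x30954) x31602) x31386) x31458) x31434) x31446) x31438) x11758)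
    (Nat.sub (Nat.sub (Nat.add (Nat.add (Nat.add (Nat.add (Nat.add (Nat.add (Nat.add (Nat.add (Nat.add C x18324) x44568) x35820) x29988) x30960) x31608) x31392) x31464) x31440) x31446) x11764)
    (Nat.sub (Nat.sub (Nat.add (Nat.add (Nat.add (Nat.add (Nat.add (Nat.add (Nat.add (Nat.add (Nat.add (Nat.add (Nat.add C x31456) x18334) x44578) x35830) x29998) x30970) x31618) x31402) x31510) x31438) x31458) x51138) x11774)
    (Nat.sub (Nat.add (Nat.add (Nat.add (Nat.add (Nat.add (Nat.add (Nat.add (Nat.add (Nat.add (Nat.add (Nat.add C x18336) x44580) x35832) x30000) x30972) x31620) x31404) x31512) x31440) x31464) x31456) x11776)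
    (Nat.sub (Nat.add (Nat.add (Nat.add (Nat.add (Nat.add (Nat.add (Nat.add (Nat.add (Nat.add (Nat.add (Nat.add (Nat.add C x31464) x18342) x44586) x35838) x30006) x30978) x31626) x31410) x31518) x31446) x31482) x31458) x11782)
    (Nat.sub (Nat.add (Nat.add (Nat.add (Nat.add (Nat.add (Nat.add (Nat.add (Nat.add (Nat.add C x31482) x18360) x44604) x35856) x30024) x30996) x31644) x31536) x31464) x11800)
    (Nat.sub (Nat.sub (Nat.add (Nat.add (Nat.add (Nat.add (Nat.add (Nat.add (Nat.add (Nat.add C x18388) x44632) x35884) x30052) x31024) x31672) x31456) x31512) x51192) x11828)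
    (Nat.sub (Nat.sub (Nat.add (Nat.add (Nat.add (Nat.add (Nat.add (Nat.add (Nat.add (Nat.add (Nat.add C x18390) x44634) x35886) x30054) x31026) x31674) x31458) x31518) x31510) x31512) x11830)
    (Nat.sub (Nat.sub (Nat.add (Nat.add (Nat.add (Nat.add (Nat.add (Nat.add (Nat.add (Nat.add (Nat.add C x18396) x44640) x35892) x30060) x31032) x31680) x31464) x31536) x31512) x31518) x11836)
    (Nat.sub (Nat.add (Nat.add (Nat.add (Nat.add (Nat.add (Nat.add (Nat.add (Nat.add (Nat.add C x31536) x18414) x44658) x35910) x30078) x31050) x31698) x31482) x31518) x11854)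
    (Nat.sub (Nat.add (Nat.add (Nat.add (Nat.add (Nat.add (Nat.add (Nat.add (Nat.add (Nat.add C (Nat.mul x31592 (nat_lit 2))) x18470) x44714) x35966) x30134) x31106) x32078) x31430) x31594) x51274)
    (Nat.sub (Nat.sub (Nat.add (Nat.add (Nat.add (Nat.add (Nat.add (Nat.add (Nat.add (Nat.add (Nat.add (Nat.add (Nat.add C (Nat.mul x31594 (nat_lit 2))) x18472) x44716) x35968) x30136) x31108) x32080) x31432) x31600) x31592) x31596) x51276) x11912)
    (Nat.sub (Nat.add (Nat.add (Nat.add (Nat.add (Nat.add (Nat.add (Nat.add (Nat.add (Nat.add C x18474) x44718) x35970) x30138) x31110) x32082) x31434) x31602) x31594) x11914)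
    (Nat.sub (Nat.sub (Nat.add (Nat.add (Nat.add (Nat.add (Nat.add (Nat.add (Nat.add (Nat.add (Nat.add (Nat.add (Nat.add C x31600) x18478) x44722) x35974) x30142) x31114) x32086) x31438) x31618) x31594) x31602) x51282) x11918)
    (Nat.sub (Nat.add (Nat.add (Nat.add (Nat.add (Nat.add (Nat.add (Nat.add (Nat.add (Nat.add (Nat.add (Nat.add (Nat.add C x31602) x18480) x44724) x35976) x30144) x31116) x32088) x31440) x31620) x31596) x31608) x31600) x11920)
    (Nat.sub (Nat.add (Nat.add (Nat.add (Nat.add (Nat.add (Nat.add (Nat.add (Nat.add (Nat.add C x18486) x44730) x35982) x30150) x31122) x32094) x31446) x31626) x31602) x11926)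
    (Nat.sub (Nat.sub (Nat.add (Nat.add (Nat.add (Nat.add (Nat.add (Nat.add (Nat.add (Nat.add (Nat.add (Nat.add (Nat.add C x31618) x18496) x44740) x35992) x30160) x31132) x32104) x31456) x31672) x31600) x31620) x51300) x11936)
    (Nat.sub (Nat.add (Nat.add (Nat.add (Nat.add (Nat.add (Nat.add (Nat.add (Nat.add (Nat.add (Nat.add (Nat.add C x18498) x44742) x35994) x30162) x31134) x32106) x31458) x31674) x31602) x31626) x31618) x11938)
    (Nat.sub (Nat.add (Nat.add (Nat.add (Nat.add (Nat.add (Nat.add (Nat.add (Nat.add (Nat.add (Nat.add (Nat.add (Nat.add C x31626) x18504) x44748) x36000) x30168) x31140) x32112) x31464) x31680) x31608) x31644) x31620) x11944)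
    (Nat.sub (Nat.add (Nat.add (Nat.add (Nat.add (Nat.add (Nat.add (Nat.add (Nat.add (Nat.add C x18522) x44766) x36018) x30186) x31158) x32130) x31482) x31698) x31626) x11962)
    (Nat.sub (Nat.sub (Nat.add (Nat.add (Nat.add (Nat.add (Nat.add (Nat.add (Nat.add (Nat.add (Nat.add (Nat.add (Nat.add C (Nat.mul x31672 (nat_lit 2))) x18550) x44794) x36046) x30214) x31186) x32158) x31510) x31834) x31618) x31674) x51354) x11990)
    (Nat.sub (Nat.add (Nat.add (Nat.add (Nat.add (Nat.add (Nat.add (Nat.add (Nat.add (Nat.add (Nat.add (Nat.add (Nat.add C x31674) x18552) x44796) x36048) x30216) x31188) x32160) x31512) x31836) x31620) x31680) x31672) x11992)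
    (Nat.sub (Nat.add (Nat.add (Nat.add (Nat.add (Nat.add (Nat.add (Nat.add (Nat.add (Nat.add (Nat.add (Nat.add (Nat.add C x31680) x18558) x44802) x36054) x30222) x31194) x32166) x31518) x31842) x31626) x31698) x31674) x11998)
    (Nat.sub (Nat.add (Nat.add (Nat.add (Nat.add (Nat.add (Nat.add (Nat.add (Nat.add (Nat.add (Nat.add (Nat.add (Nat.add C (Nat.mul x31698 (nat_lit 2))) x18576) x44820) x36072) x30240) x31212) x32184) x31536) x31860) x31644) x31752) x31680) x12016)
    (Nat.sub (Nat.add (Nat.add (Nat.add (Nat.add (Nat.add (Nat.add (Nat.add (Nat.add (Nat.add C (Nat.mul x31752 (nat_lit 2))) x18630) x44874) x36126) x30294) x31266) x32238) x31914) x31698) x12070)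
    (Nat.sub (Nat.sub (Nat.add (Nat.add (Nat.add (Nat.add (Nat.add (Nat.add (Nat.add (Nat.add C (Nat.mul x31834 (nat_lit 2))) x18712) x44956) x36208) x30376) x32320) x31672) x31836) x51516) x12152)
    (Nat.sub (Nat.add (Nat.add (Nat.add (Nat.add (Nat.add (Nat.add (Nat.add (Nat.add (Nat.add C x31836) x18714) x44958) x36210) x30378) x32322) x31674) x31842) x31834) x12154)
    (Nat.sub (Nat.add (Nat.add (Nat.add (Nat.add (Nat.add (Nat.add (Nat.add (Nat.add (Nat.add C x31842) x18720) x44964) x36216) x30384) x32328) x31680) x31860) x31836) x12160)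
    (Nat.sub (Nat.add (Nat.add (Nat.add (Nat.add (Nat.add (Nat.add (Nat.add (Nat.add (Nat.add C x31860) x18738) x44982) x36234) x30402) x32346) x31698) x31914) x31842) x12178)
    (Nat.sub (Nat.add (Nat.add (Nat.add (Nat.add (Nat.add (Nat.add (Nat.add (Nat.add C (Nat.mul x31914 (nat_lit 3))) x18792) x45036) x36288) x30456) x32400) x31752) x31860) x12232)
    (Nat.sub (Nat.add (Nat.add (Nat.add (Nat.add (Nat.add (Nat.add C (Nat.mul x32078 (nat_lit 3))) x18956) x45200) x36452) x31592) x32080) x51760)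
    (Nat.sub (Nat.sub (Nat.add (Nat.add (Nat.add (Nat.add (Nat.add (Nat.add (Nat.add (Nat.add C (Nat.mul x32080 (nat_lit 3))) x18958) x45202) x36454) x31594) x32086) x32078) x32082) x51762) x12398)
    (Nat.sub (Nat.add (Nat.add (Nat.add (Nat.add (Nat.add (Nat.add (Nat.add C x32082) x18960) x45204) x36456) x31596) x32088) x32080) x12400)
    (Nat.sub (Nat.sub (Nat.add (Nat.add (Nat.add (Nat.add (Nat.add (Nat.add (Nat.add (Nat.add C (Nat.mul x32086 (nat_lit 2))) x18964) x45208) x36460) x31600) x32104) x32080) x32088) x51768) x12404)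
    (Nat.sub (Nat.add (Nat.add (Nat.add (Nat.add (Nat.add (Nat.add (Nat.add (Nat.add (Nat.add C (Nat.mul x32088 (nat_lit 2))) x18966) x45210) x36462) x31602) x32106) x32082) x32094) x32086) x12406)
    (Nat.sub (Nat.add (Nat.add (Nat.add (Nat.add (Nat.add (Nat.add (Nat.add C x32094) x18972) x45216) x36468) x31608) x32112) x32088) x12412)
    (Nat.sub (Nat.sub (Nat.add (Nat.add (Nat.add (Nat.add (Nat.add (Nat.add (Nat.add (Nat.add C (Nat.mul x32104 (nat_lit 2))) x18982) x45226) x36478) x31618) x32158) x32086) x32106) x51786) x12422)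
    (Nat.sub (Nat.add (Nat.add (Nat.add (Nat.add (Nat.add (Nat.add (Nat.add (Nat.add (Nat.add C x32106) x18984) x45228) x36480) x31620) x32160) x32088) x32112) x32104) x12424)
    (Nat.sub (Nat.add (Nat.add (Nat.add (Nat.add (Nat.add (Nat.add (Nat.add (Nat.add (Nat.add C (Nat.mul x32112 (nat_lit 2))) x18990) x45234) x36486) x31626) x32166) x32094) x32130) x32106) x12430)
    (Nat.sub (Nat.add (Nat.add (Nat.add (Nat.add (Nat.add (Nat.add (Nat.add C x32130) x19008) x45252) x36504) x31644) x32184) x32112) x12448)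
    (Nat.sub (Nat.sub (Nat.add (Nat.add (Nat.add (Nat.add (Nat.add (Nat.add (Nat.add (Nat.add C (Nat.mul x32158 (nat_lit 2))) x19036) x45280) x36532) x31672) x32320) x32104) x32160) x51840) x12476)
    (Nat.sub (Nat.add (Nat.add (Nat.add (Nat.add (Nat.add (Nat.add (Nat.add (Nat.add (Nat.add C x32160) x19038) x45282) x36534) x31674) x32322) x32106) x32166) x32158) x12478)
    (Nat.sub (Nat.add (Nat.add (Nat.add (Nat.add (Nat.add (Nat.add (Nat.add (Nat.add (Nat.add C x32166) x19044) x45288) x36540) x31680) x32328) x32112) x32184) x32160) x12484)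
    (Nat.sub (Nat.add (Nat.add (Nat.add (Nat.add (Nat.add (Nat.add (Nat.add (Nat.add (Nat.add C (Nat.mul x32184 (nat_lit 2))) x19062) x45306) x36558) x31698) x32346) x32130) x32238) x32166) x12502)
    (Nat.sub (Nat.add (Nat.add (Nat.add (Nat.add (Nat.add (Nat.add (Nat.add C x32238) x19116) x45360) x36612) x31752) x32400) x32184) x12556)
    (Nat.sub (Nat.sub (Nat.add (Nat.add (Nat.add (Nat.add (Nat.add (Nat.add (Nat.add C (Nat.mul x32320 (nat_lit 4))) x19198) x45442) x36694) x31834) x32158) x32322) x52002) x12638)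
    (Nat.sub (Nat.add (Nat.add (Nat.add (Nat.add (Nat.add (Nat.add (Nat.add (Nat.add C (Nat.mul x32322 (nat_lit 3))) x19200) x45444) x36696) x31836) x32160) x32328) x32320) x12640)
    (Nat.sub (Nat.add (Nat.add (Nat.add (Nat.add (Nat.add (Nat.add (Nat.add (Nat.add C (Nat.mul x32328 (nat_lit 3))) x19206) x45450) x36702) x31842) x32166) x32346) x32322) x12646)
    (Nat.sub (Nat.add (Nat.add (Nat.add (Nat.add (Nat.add (Nat.add (Nat.add (Nat.add C (Nat.mul x32346 (nat_lit 3))) x19224) x45468) x36720) x31860) x32184) x32400) x32328) x12664)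
    (Nat.sub (Nat.add (Nat.add (Nat.add (Nat.add (Nat.add (Nat.add (Nat.add (Nat.add C (Nat.mul x32400 (nat_lit 4))) x19278) x45522) x36774) x31914) x32238) x32562) x32346) x12718)
    (Nat.sub (Nat.add (Nat.add (Nat.add (Nat.add (Nat.add C (Nat.mul x32562 (nat_lit 5))) x19440) x45684) x36936) x32400) x12880)
    (Nat.sub (Nat.add (Nat.add (Nat.add (Nat.add (Nat.add C (Nat.mul x32822 (nat_lit 4))) x45944) x28448) x32840) x32828) x52504)
    (Nat.sub (Nat.add (Nat.add (Nat.add (Nat.add (Nat.add (Nat.add C (Nat.mul x32828 (nat_lit 2))) x45950) x28454) x32846) x32822) x32830) x52510)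
    (Nat.sub (Nat.sub (Nat.add (Nat.add (Nat.add (Nat.add (Nat.add C (Nat.mul x32830 (nat_lit 3))) x45952) x28456) x32848) x32828) x52512) x13148)
    (Nat.sub (Nat.add (Nat.add (Nat.add (Nat.add (Nat.add (Nat.add C (Nat.mul x32840 (nat_lit 2))) x45962) x28466) x32894) x32822) x32846) x52522)
    (Nat.sub (Nat.add (Nat.add (Nat.add (Nat.add (Nat.add (Nat.add (Nat.add (Nat.add (Nat.add C (Nat.mul x32846 (nat_lit 2))) x45968) x28472) x32900) x32828) x32864) x32840) x32852) x32848) x52528)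
    (Nat.sub (Nat.sub (Nat.add (Nat.add (Nat.add (Nat.add (Nat.add (Nat.add (Nat.add (Nat.add C (Nat.mul x32848 (nat_lit 2))) x45970) x28474) x32902) x32830) x32866) x32854) x32846) x52530) x13166)
    (Nat.sub (Nat.add (Nat.add (Nat.add (Nat.add (Nat.add (Nat.add C x45974) x28478) x32906) x32870) x32846) x32854) x52534)
    (Nat.sub (Nat.sub (Nat.add (Nat.add (Nat.add (Nat.add (Nat.add (Nat.add (Nat.add (Nat.add C (Nat.mul x32854 (nat_lit 2))) x45976) x28480) x32908) x32872) x32848) x32852) x32856) x52536) x13172)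
    (Nat.sub (Nat.add (Nat.add (Nat.add (Nat.add (Nat.add (Nat.add C (Nat.mul x32856 (nat_lit 2))) x45978) x28482) x32910) x32874) x32854) x13174)
    (Nat.sub (Nat.add (Nat.add (Nat.add (Nat.add (Nat.add (Nat.add C x45986) x28490) x32918) x32846) x32870) x32866) x52546)
    (Nat.sub (Nat.sub (Nat.sub (Nat.add (Nat.add (Nat.add (Nat.add (Nat.add (Nat.add C x45988) x28492) x32920) x32848) x32872) x32864) x32866) x52548) x13184)
    (Nat.sub (Nat.add (Nat.add (Nat.add (Nat.add (Nat.add (Nat.add C x45992) x28496) x32924) x32852) x32864) x32872) x52552)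
    (Nat.sub (Nat.sub (Nat.add (Nat.add (Nat.add (Nat.add (Nat.add (Nat.add (Nat.add (Nat.add (Nat.add C x32872) x45994) x28498) x32926) x32854) x32866) x32878) x32870) x32874) x52554) x13190)
    (Nat.sub (Nat.add (Nat.add (Nat.add (Nat.add (Nat.add (Nat.add C x45996) x28500) x32928) x32856) x32880) x32872) x13192)
    (Nat.sub (Nat.sub (Nat.add (Nat.add (Nat.add (Nat.add (Nat.add (Nat.add C x32878) x46000) x28504) x32932) x32872) x32880) x52560) x13196)
    (Nat.sub (Nat.add (Nat.add (Nat.add (Nat.add (Nat.add (Nat.add C (Nat.mul x32880 (nat_lit 2))) x46002) x28506) x32934) x32874) x32878) x13198)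
    (Nat.sub (Nat.add (Nat.add (Nat.add (Nat.add (Nat.add (Nat.add C (Nat.mul x32894 (nat_lit 2))) x46016) x28520) x33056) x32840) x32900) x52576)
    (Nat.sub (Nat.add (Nat.add (Nat.add (Nat.add (Nat.add (Nat.add (Nat.add (Nat.add (Nat.add C x32900) x46022) x28526) x33062) x32846) x32918) x32894) x32906) x32902) x52582)
    (Nat.sub (Nat.sub (Nat.add (Nat.add (Nat.add (Nat.add (Nat.add (Nat.add (Nat.add (Nat.add C x32902) x46024) x28528) x33064) x32848) x32920) x32908) x32900) x52584) x13220)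
    (Nat.sub (Nat.sub (Nat.add (Nat.add (Nat.add (Nat.add (Nat.add (Nat.add (Nat.add C x46028) x28532) x33068) x32852) x32924) x32900) x32908) (Nat.mul x32906 (nat_lit 2))) x52588)
    (Nat.sub (Nat.sub (Nat.add (Nat.add (Nat.add (Nat.add (Nat.add (Nat.add (Nat.add (Nat.add C x46030) x28534) x33070) x32854) x32926) x32902) x32906) x32910) x52590) x13226)
    (Nat.sub (Nat.add (Nat.add (Nat.add (Nat.add (Nat.add (Nat.add C x46032) x28536) x33072) x32856) x32928) x32908) x13228)
    (Nat.sub (Nat.add (Nat.add (Nat.add (Nat.add (Nat.add (Nat.add (Nat.add (Nat.add (Nat.add C x32918) x46040) x28544) x33080) x32864) x32972) x32900) x32924) x32920) x52600)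
    (Nat.sub (Nat.sub (Nat.add (Nat.add (Nat.add (Nat.add (Nat.add (Nat.add (Nat.add (Nat.add C x46042) x28546) x33082) x32866) x32974) x32902) x32926) x32918) x52602) x13238)
    (Nat.sub (Nat.add (Nat.add (Nat.add (Nat.add (Nat.add (Nat.add (Nat.add (Nat.add (Nat.add C x46046) x28550) x33086) x32870) x32978) x32906) x32942) x32918) x32926) x52606)
    (Nat.sub (Nat.sub (Nat.add (Nat.add (Nat.add (Nat.add (Nat.add (Nat.add (Nat.add (Nat.add (Nat.add (Nat.add (Nat.add (Nat.add C x32926) x46048) x28552) x33088) x32872) x32980) x32908) x32944) x32920) x32932) x32924) x32928) x52608) x13244)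
    (Nat.sub (Nat.add (Nat.add (Nat.add (Nat.add (Nat.add (Nat.add (Nat.add (Nat.add (Nat.add C x46050) x28554) x33090) x32874) x32982) x32910) x32946) x32934) x32926) x13246)
    (Nat.sub (Nat.sub (Nat.add (Nat.add (Nat.add (Nat.add (Nat.add (Nat.add (Nat.add (Nat.add C x46054) x28558) x33094) x32878) x32986) x32950) x32926) x32934) x52614) x13250)
    (Nat.sub (Nat.add (Nat.add (Nat.add (Nat.add (Nat.add (Nat.add (Nat.add (Nat.add (Nat.add C x32934) x46056) x28560) x33096) x32880) x32988) x32952) x32928) x32932) x13252)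
    (Nat.sub (Nat.add (Nat.add (Nat.add (Nat.add (Nat.add (Nat.add C x46064) x28568) x33104) x32996) x32924) x32944) x52624)
    (Nat.sub (Nat.sub (Nat.add (Nat.add (Nat.add (Nat.add (Nat.add (Nat.add (Nat.add (Nat.add C x46066) x28570) x33106) x32998) x32926) x32950) x32942) x32946) x52626) x13262)
    (Nat.sub (Nat.sub (Nat.add (Nat.add (Nat.add (Nat.add (Nat.add (Nat.add (Nat.add C x46068) x28572) x33108) x33000) x32928) x32952) x32944) (Nat.mul x32946 (nat_lit 2))) x13264)
    (Nat.sub (Nat.sub (Nat.add (Nat.add (Nat.add (Nat.add (Nat.add (Nat.add (Nat.add (Nat.add C x32950) x46072) x28576) x33112) x33004) x32932) x32944) x32952) x52632) x13268)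
    (Nat.sub (Nat.add (Nat.add (Nat.add (Nat.add (Nat.add (Nat.add (Nat.add (Nat.add (Nat.add C x32952) x46074) x28578) x33114) x33006) x32934) x32946) x32958) x32950) x13270)
    (Nat.sub (Nat.add (Nat.add (Nat.add (Nat.add (Nat.add (Nat.add C (Nat.mul x32958 (nat_lit 2))) x46080) x28584) x33120) x33012) x32952) x13276)
    (Nat.sub (Nat.add (Nat.add (Nat.add (Nat.add (Nat.add (Nat.add C x46094) x28598) x33134) x32918) x32978) x32974) x52654)
    (Nat.sub (Nat.sub (Nat.sub (Nat.add (Nat.add (Nat.add (Nat.add (Nat.add (Nat.add C x46096) x28600) x33136) x32920) x32980) x32972) x32974) x52656) x13292)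
    (Nat.sub (Nat.sub (Nat.add (Nat.add (Nat.add (Nat.add (Nat.add (Nat.add (Nat.add C x46100) x28604) x33140) x32924) x32996) x32972) x32980) (Nat.mul x32978 (nat_lit 2))) x52660)
    (Nat.sub (Nat.sub (Nat.sub (Nat.add (Nat.add (Nat.add (Nat.add (Nat.add (Nat.add (Nat.add (Nat.add (Nat.add C x46102) x28606) x33142) x32926) x32998) x32974) x32986) x32978) x32982) x32980) x52662) x13298)
    (Nat.sub (Nat.sub (Nat.add (Nat.add (Nat.add (Nat.add (Nat.add (Nat.add (Nat.add C x46104) x28608) x33144) x32928) x33000) x32988) x32980) (Nat.mul x32982 (nat_lit 2))) x13300)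
    (Nat.sub (Nat.sub (Nat.sub (Nat.add (Nat.add (Nat.add (Nat.add (Nat.add (Nat.add (Nat.add C x46108) x28612) x33148) x32932) x33004) x32980) x32988) (Nat.mul x32986 (nat_lit 3))) x52668) x13304)
    (Nat.sub (Nat.sub (Nat.add (Nat.add (Nat.add (Nat.add (Nat.add (Nat.add (Nat.add C x46110) x28614) x33150) x32934) x33006) x32982) x32986) (Nat.mul x32988 (nat_lit 2))) x13306)
    (Nat.sub (Nat.add (Nat.add (Nat.add (Nat.add (Nat.add (Nat.add C x46118) x28622) x33158) x32942) x32978) x32998) x52678)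
    (Nat.sub (Nat.sub (Nat.add (Nat.add (Nat.add (Nat.add (Nat.add (Nat.add (Nat.add (Nat.add C x46120) x28624) x33160) x32944) x32980) x33004) x32996) x33000) x52680) x13316)
    (Nat.sub (Nat.sub (Nat.add (Nat.add (Nat.add (Nat.add (Nat.add (Nat.add (Nat.add C x46122) x28626) x33162) x32946) x32982) x33006) x32998) (Nat.mul x33000 (nat_lit 2))) x13318)
    (Nat.sub (Nat.sub (Nat.add (Nat.add (Nat.add (Nat.add (Nat.add (Nat.add (Nat.add (Nat.add C x46126) x28630) x33166) x32950) x32986) x33022) x32998) x33006) x52686) x13322)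
    (Nat.sub (Nat.add (Nat.add (Nat.add (Nat.add (Nat.add (Nat.add (Nat.add (Nat.add (Nat.add C x46128) x28632) x33168) x32952) x32988) x33024) x33000) x33012) x33004) x13324)
    (Nat.sub (Nat.add (Nat.add (Nat.add (Nat.add (Nat.add (Nat.add C x46134) x28638) x33174) x32958) x33030) x33006) x13330)
    (Nat.sub (Nat.sub (Nat.add (Nat.add (Nat.add (Nat.add (Nat.add (Nat.add C x33022) x46144) x28648) x33184) x33004) x33024) x52704) x13340)
    (Nat.sub (Nat.add (Nat.add (Nat.add (Nat.add (Nat.add (Nat.add C x46146) x28650) x33186) x33006) x33030) x33022) x13342)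
    (Nat.sub (Nat.add (Nat.add (Nat.add (Nat.add (Nat.add (Nat.add C (Nat.mul x33030 (nat_lit 2))) x46152) x28656) x33192) x33012) x33024) x13348)
    (Nat.sub (Nat.add (Nat.add (Nat.add (Nat.add (Nat.add (Nat.add C (Nat.mul x33056 (nat_lit 2))) x46178) x28682) x33542) x32894) x33062) x52738)
    (Nat.sub (Nat.add (Nat.add (Nat.add (Nat.add (Nat.add (Nat.add (Nat.add (Nat.add (Nat.add C x33062) x46184) x28688) x33548) x32900) x33080) x33056) x33068) x33064) x52744)
    (Nat.sub (Nat.sub (Nat.add (Nat.add (Nat.add (Nat.add (Nat.add (Nat.add (Nat.add (Nat.add C x33064) x46186) x28690) x33550) x32902) x33082) x33070) x33062) x52746) x13382)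
    (Nat.sub (Nat.sub (Nat.add (Nat.add (Nat.add (Nat.add (Nat.add (Nat.add (Nat.add C x46190) x28694) x33554) x32906) x33086) x33062) x33070) (Nat.mul x33068 (nat_lit 2))) x52750)
    (Nat.sub (Nat.sub (Nat.add (Nat.add (Nat.add (Nat.add (Nat.add (Nat.add (Nat.add (Nat.add C x46192) x28696) x33556) x32908) x33088) x33064) x33068) x33072) x52752) x13388)
    (Nat.sub (Nat.add (Nat.add (Nat.add (Nat.add (Nat.add (Nat.add C x46194) x28698) x33558) x32910) x33090) x33070) x13390)
    (Nat.sub (Nat.add (Nat.add (Nat.add (Nat.add (Nat.add (Nat.add (Nat.add (Nat.add C x46202) x28706) x33566) x32918) x33134) x33062) x33086) x33082) x52762)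
    (Nat.sub (Nat.sub (Nat.sub (Nat.add (Nat.add (Nat.add (Nat.add (Nat.add (Nat.add (Nat.add (Nat.add C x46204) x28708) x33568) x32920) x33136) x33064) x33088) x33080) x33082) x52764) x13400)
    (Nat.sub (Nat.sub (Nat.add (Nat.add (Nat.add (Nat.add (Nat.add (Nat.add (Nat.add (Nat.add (Nat.add C x46208) x28712) x33572) x32924) x33140) x33068) x33104) x33080) x33088) x33086) x52768)
    (Nat.sub (Nat.sub (Nat.add (Nat.add (Nat.add (Nat.add (Nat.add (Nat.add (Nat.add (Nat.add (Nat.add (Nat.add (Nat.add C x46210) x28714) x33574) x32926) x33142) x33070) x33106) x33082) x33094) x33086) x33090) x52770) x13406)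
    (Nat.sub (Nat.sub (Nat.add (Nat.add (Nat.add (Nat.add (Nat.add (Nat.add (Nat.add (Nat.add (Nat.add C x46212) x28716) x33576) x32928) x33144) x33072) x33108) x33096) x33088) x33090) x13408)
    (Nat.sub (Nat.sub (Nat.sub (Nat.add (Nat.add (Nat.add (Nat.add (Nat.add (Nat.add (Nat.add (Nat.add C x46216) x28720) x33580) x32932) x33148) x33112) x33088) x33096) x33094) x52776) x13412)
    (Nat.sub (Nat.add (Nat.add (Nat.add (Nat.add (Nat.add (Nat.add (Nat.add (Nat.add C x46218) x28722) x33582) x32934) x33150) x33114) x33090) x33094) x13414)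
    (Nat.sub (Nat.sub (Nat.add (Nat.add (Nat.add (Nat.add (Nat.add (Nat.add (Nat.add C x46226) x28730) x33590) x32942) x33158) x33086) x33106) (Nat.mul x33104 (nat_lit 2))) x52786)
    (Nat.sub (Nat.sub (Nat.sub (Nat.add (Nat.add (Nat.add (Nat.add (Nat.add (Nat.add (Nat.add (Nat.add (Nat.add C x46228) x28732) x33592) x32944) x33160) x33088) x33112) x33104) x33108) (Nat.mul x33106 (nat_lit 2))) x52788) x13424)
    (Nat.sub (Nat.sub (Nat.add (Nat.add (Nat.add (Nat.add (Nat.add (Nat.add (Nat.add (Nat.add C x46230) x28734) x33594) x32946) x33162) x33090) x33114) x33106) (Nat.mul x33108 (nat_lit 4))) x13426)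
    (Nat.sub (Nat.sub (Nat.sub (Nat.add (Nat.add (Nat.add (Nat.add (Nat.add (Nat.add (Nat.add (Nat.add C x46234) x28738) x33598) x32950) x33166) x33094) x33106) x33114) x33112) x52794) x13430)
    (Nat.sub (Nat.sub (Nat.add (Nat.add (Nat.add (Nat.add (Nat.add (Nat.add (Nat.add (Nat.add (Nat.add C x46236) x28740) x33600) x32952) x33168) x33096) x33108) x33120) x33112) x33114) x13432)
    (Nat.sub (Nat.add (Nat.add (Nat.add (Nat.add (Nat.add (Nat.add C x46242) x28746) x33606) x32958) x33174) x33114) x13438)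
    (Nat.sub (Nat.add (Nat.add (Nat.add (Nat.add (Nat.add (Nat.add (Nat.add (Nat.add (Nat.add C x33134) x46256) x28760) x33620) x32972) x33296) x33080) x33140) x33136) x52816)
    (Nat.sub (Nat.sub (Nat.add (Nat.add (Nat.add (Nat.add (Nat.add (Nat.add (Nat.add (Nat.add C x46258) x28762) x33622) x32974) x33298) x33082) x33142) x33134) x52818) x13454)
    (Nat.sub (Nat.sub (Nat.add (Nat.add (Nat.add (Nat.add (Nat.add (Nat.add (Nat.add (Nat.add (Nat.add C x46262) x28766) x33626) x32978) x33302) x33086) x33158) x33134) x33142) x33140) x52822)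
    (Nat.sub (Nat.sub (Nat.add (Nat.add (Nat.add (Nat.add (Nat.add (Nat.add (Nat.add (Nat.add (Nat.add (Nat.add (Nat.add C x46264) x28768) x33628) x32980) x33304) x33088) x33160) x33136) x33148) x33140) x33144) x52824) x13460)
    (Nat.sub (Nat.sub (Nat.add (Nat.add (Nat.add (Nat.add (Nat.add (Nat.add (Nat.add (Nat.add (Nat.add C x46266) x28770) x33630) x32982) x33306) x33090) x33162) x33150) x33142) x33144) x13462)
    (Nat.sub (Nat.sub (Nat.sub (Nat.add (Nat.add (Nat.add (Nat.add (Nat.add (Nat.add (Nat.add (Nat.add (Nat.add C x46270) x28774) x33634) x32986) x33310) x33094) x33166) x33142) x33150) (Nat.mul x33148 (nat_lit 2))) x52830) x13466)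
    (Nat.sub (Nat.sub (Nat.add (Nat.add (Nat.add (Nat.add (Nat.add (Nat.add (Nat.add (Nat.add (Nat.add C x46272) x28776) x33636) x32988) x33312) x33096) x33168) x33144) x33148) x33150) x13468)
    (Nat.sub (Nat.add (Nat.add (Nat.add (Nat.add (Nat.add (Nat.add (Nat.add (Nat.add (Nat.add C x46280) x28784) x33644) x32996) x33320) x33104) x33212) x33140) x33160) x52840)
    (Nat.sub (Nat.sub (Nat.add (Nat.add (Nat.add (Nat.add (Nat.add (Nat.add (Nat.add (Nat.add (Nat.add (Nat.add (Nat.add C x46282) x28786) x33646) x32998) x33322) x33106) x33214) x33142) x33166) x33158) x33162) x52842) x13478)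
    (Nat.sub (Nat.sub (Nat.add (Nat.add (Nat.add (Nat.add (Nat.add (Nat.add (Nat.add (Nat.add (Nat.add (Nat.add C x46284) x28788) x33648) x33000) x33324) x33108) x33216) x33144) x33168) x33160) (Nat.mul x33162 (nat_lit 2))) x13480)
    (Nat.sub (Nat.sub (Nat.add (Nat.add (Nat.add (Nat.add (Nat.add (Nat.add (Nat.add (Nat.add (Nat.add (Nat.add (Nat.add C x46288) x28792) x33652) x33004) x33328) x33112) x33220) x33148) x33184) x33160) x33168) x52848) x13484)
    (Nat.sub (Nat.add (Nat.add (Nat.add (Nat.add (Nat.add (Nat.add (Nat.add (Nat.add (Nat.add (Nat.add (Nat.add (Nat.add C x46290) x28794) x33654) x33006) x33330) x33114) x33222) x33150) x33186) x33162) x33174) x33166) x13486)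
    (Nat.sub (Nat.add (Nat.add (Nat.add (Nat.add (Nat.add (Nat.add (Nat.add (Nat.add (Nat.add C x46296) x28800) x33660) x33012) x33336) x33120) x33228) x33192) x33168) x13492)
    (Nat.sub (Nat.sub (Nat.add (Nat.add (Nat.add (Nat.add (Nat.add (Nat.add (Nat.add (Nat.add C x46306) x28810) x33670) x33022) x33346) x33238) x33166) x33186) x52866) x13502)
    (Nat.sub (Nat.sub (Nat.add (Nat.add (Nat.add (Nat.add (Nat.add (Nat.add (Nat.add (Nat.add (Nat.add C x46308) x28812) x33672) x33024) x33348) x33240) x33168) x33192) x33184) x33186) x13504)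
    (Nat.sub (Nat.add (Nat.add (Nat.add (Nat.add (Nat.add (Nat.add (Nat.add (Nat.add (Nat.add C x33192) x46314) x28818) x33678) x33030) x33354) x33246) x33174) x33186) x13510)
    (Nat.sub (Nat.add (Nat.add (Nat.add (Nat.add (Nat.add (Nat.add C x46334) x28838) x33698) x33374) x33158) x33214) x52894)
    (Nat.sub (Nat.sub (Nat.add (Nat.add (Nat.add (Nat.add (Nat.add (Nat.add (Nat.add (Nat.add C x46336) x28840) x33700) x33376) x33160) x33220) x33212) x33216) x52896) x13532)
    (Nat.sub (Nat.sub (Nat.add (Nat.add (Nat.add (Nat.add (Nat.add (Nat.add (Nat.add C x46338) x28842) x33702) x33378) x33162) x33222) x33214) (Nat.mul x33216 (nat_lit 2))) x13534)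
    (Nat.sub (Nat.sub (Nat.sub (Nat.add (Nat.add (Nat.add (Nat.add (Nat.add (Nat.add (Nat.add (Nat.add C x46342) x28846) x33706) x33382) x33166) x33238) x33214) x33222) x33220) x52902) x13538)
    (Nat.sub (Nat.sub (Nat.add (Nat.add (Nat.add (Nat.add (Nat.add (Nat.add (Nat.add (Nat.add (Nat.add C x46344) x28848) x33708) x33384) x33168) x33240) x33216) x33228) x33220) x33222) x13540)
    (Nat.sub (Nat.sub (Nat.add (Nat.add (Nat.add (Nat.add (Nat.add (Nat.add (Nat.add C x46350) x28854) x33714) x33390) x33174) x33246) x33222) (Nat.mul x33228 (nat_lit 2))) x13546)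
    (Nat.sub (Nat.sub (Nat.add (Nat.add (Nat.add (Nat.add (Nat.add (Nat.add (Nat.add (Nat.add C x33238) x46360) x28864) x33724) x33400) x33184) x33220) x33240) x52920) x13556)
    (Nat.sub (Nat.add (Nat.add (Nat.add (Nat.add (Nat.add (Nat.add (Nat.add (Nat.add C x46362) x28866) x33726) x33402) x33186) x33222) x33246) x33238) x13558)
    (Nat.sub (Nat.add (Nat.add (Nat.add (Nat.add (Nat.add (Nat.add (Nat.add (Nat.add (Nat.add C x33246) x46368) x28872) x33732) x33408) x33192) x33228) x33264) x33240) x13564)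
    (Nat.sub (Nat.add (Nat.add (Nat.add (Nat.add (Nat.add (Nat.add C (Nat.mul x33264 (nat_lit 2))) x46386) x28890) x33750) x33426) x33246) x13582)
    (Nat.sub (Nat.add (Nat.add (Nat.add (Nat.add (Nat.add (Nat.add C x46418) x28922) x33782) x33134) x33302) x33298) x52978)
    (Nat.sub (Nat.sub (Nat.sub (Nat.add (Nat.add (Nat.add (Nat.add (Nat.add (Nat.add C x46420) x28924) x33784) x33136) x33304) x33296) x33298) x52980) x13616)
    (Nat.sub (Nat.sub (Nat.add (Nat.add (Nat.add (Nat.add (Nat.add (Nat.add (Nat.add C x46424) x28928) x33788) x33140) x33320) x33296) x33304) (Nat.mul x33302 (nat_lit 2))) x52984)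
    (Nat.sub (Nat.sub (Nat.sub (Nat.add (Nat.add (Nat.add (Nat.add (Nat.add (Nat.add (Nat.add (Nat.add (Nat.add C x46426) x28930) x33790) x33142) x33322) x33298) x33310) x33302) x33306) x33304) x52986) x13622)
    (Nat.sub (Nat.sub (Nat.add (Nat.add (Nat.add (Nat.add (Nat.add (Nat.add (Nat.add C x46428) x28932) x33792) x33144) x33324) x33312) x33304) (Nat.mul x33306 (nat_lit 2))) x13624)
    (Nat.sub (Nat.sub (Nat.sub (Nat.add (Nat.add (Nat.add (Nat.add (Nat.add (Nat.add (Nat.add C x46432) x28936) x33796) x33148) x33328) x33304) x33312) (Nat.mul x33310 (nat_lit 3))) x52992) x13628)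
    (Nat.sub (Nat.sub (Nat.add (Nat.add (Nat.add (Nat.add (Nat.add (Nat.add (Nat.add C x46434) x28938) x33798) x33150) x33330) x33306) x33310) (Nat.mul x33312 (nat_lit 2))) x13630)
    (Nat.sub (Nat.sub (Nat.add (Nat.add (Nat.add (Nat.add (Nat.add (Nat.add (Nat.add C x46442) x28946) x33806) x33158) x33374) x33302) x33322) (Nat.mul x33320 (nat_lit 2))) x53002)
    (Nat.sub (Nat.sub (Nat.sub (Nat.add (Nat.add (Nat.add (Nat.add (Nat.add (Nat.add (Nat.add (Nat.add (Nat.add C x46444) x28948) x33808) x33160) x33376) x33304) x33328) x33320) x33324) (Nat.mul x33322 (nat_lit 2))) x53004) x13640)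
    (Nat.sub (Nat.sub (Nat.add (Nat.add (Nat.add (Nat.add (Nat.add (Nat.add (Nat.add (Nat.add C x46446) x28950) x33810) x33162) x33378) x33306) x33330) x33322) (Nat.mul x33324 (nat_lit 4))) x13642)
    (Nat.sub (Nat.sub (Nat.sub (Nat.add (Nat.add (Nat.add (Nat.add (Nat.add (Nat.add (Nat.add (Nat.add (Nat.add C x46450) x28954) x33814) x33166) x33382) x33310) x33346) x33322) x33330) (Nat.mul x33328 (nat_lit 2))) x53010) x13646)
    (Nat.sub (Nat.sub (Nat.add (Nat.add (Nat.add (Nat.add (Nat.add (Nat.add (Nat.add (Nat.add (Nat.add (Nat.add C x46452) x28956) x33816) x33168) x33384) x33312) x33348) x33324) x33336) x33328) (Nat.mul x33330 (nat_lit 2))) x13648)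
    (Nat.sub (Nat.sub (Nat.add (Nat.add (Nat.add (Nat.add (Nat.add (Nat.add (Nat.add C x46458) x28962) x33822) x33174) x33390) x33354) x33330) (Nat.mul x33336 (nat_lit 2))) x13654)
    (Nat.sub (Nat.sub (Nat.sub (Nat.add (Nat.add (Nat.add (Nat.add (Nat.add (Nat.add (Nat.add C x46468) x28972) x33832) x33184) x33400) x33328) x33348) (Nat.mul x33346 (nat_lit 3))) x53028) x13664)
    (Nat.sub (Nat.sub (Nat.add (Nat.add (Nat.add (Nat.add (Nat.add (Nat.add (Nat.add (Nat.add C x46470) x28974) x33834) x33186) x33402) x33330) x33354) x33346) (Nat.mul x33348 (nat_lit 4))) x13666)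
    (Nat.sub (Nat.sub (Nat.add (Nat.add (Nat.add (Nat.add (Nat.add (Nat.add (Nat.add C x46476) x28980) x33840) x33192) x33408) x33336) x33348) (Nat.mul x33354 (nat_lit 2))) x13672)
    (Nat.sub (Nat.add (Nat.add (Nat.add (Nat.add (Nat.add (Nat.add C x46496) x29000) x33860) x33212) x33320) x33376) x53056)
    (Nat.sub (Nat.sub (Nat.add (Nat.add (Nat.add (Nat.add (Nat.add (Nat.add (Nat.add (Nat.add C x46498) x29002) x33862) x33214) x33322) x33382) x33374) x33378) x53058) x13694)
    (Nat.sub (Nat.sub (Nat.add (Nat.add (Nat.add (Nat.add (Nat.add (Nat.add (Nat.add C x46500) x29004) x33864) x33216) x33324) x33384) x33376) (Nat.mul x33378 (nat_lit 2))) x13696)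
    (Nat.sub (Nat.sub (Nat.sub (Nat.add (Nat.add (Nat.add (Nat.add (Nat.add (Nat.add (Nat.add (Nat.add C x46504) x29008) x33868) x33220) x33328) x33400) x33376) x33384) x33382) x53064) x13700)
    (Nat.sub (Nat.sub (Nat.add (Nat.add (Nat.add (Nat.add (Nat.add (Nat.add (Nat.add (Nat.add (Nat.add C x46506) x29010) x33870) x33222) x33330) x33402) x33378) x33390) x33382) x33384) x13702)
    (Nat.sub (Nat.sub (Nat.add (Nat.add (Nat.add (Nat.add (Nat.add (Nat.add (Nat.add C x46512) x29016) x33876) x33228) x33336) x33408) x33384) (Nat.mul x33390 (nat_lit 2))) x13708)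
    (Nat.sub (Nat.sub (Nat.add (Nat.add (Nat.add (Nat.add (Nat.add (Nat.add (Nat.add (Nat.add C x46522) x29026) x33886) x33238) x33346) x33454) x33382) x33402) x53082) x13718)
    (Nat.sub (Nat.sub (Nat.add (Nat.add (Nat.add (Nat.add (Nat.add (Nat.add (Nat.add (Nat.add (Nat.add C x46524) x29028) x33888) x33240) x33348) x33456) x33384) x33408) x33400) x33402) x13720)
    (Nat.sub (Nat.add (Nat.add (Nat.add (Nat.add (Nat.add (Nat.add (Nat.add (Nat.add (Nat.add C x46530) x29034) x33894) x33246) x33354) x33462) x33390) x33426) x33402) x13726)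
    (Nat.sub (Nat.add (Nat.add (Nat.add (Nat.add (Nat.add (Nat.add C x46548) x29052) x33912) x33264) x33480) x33408) x13744)
    (Nat.sub (Nat.sub (Nat.add (Nat.add (Nat.add (Nat.add (Nat.add (Nat.add C x33454) x46576) x29080) x33940) x33400) x33456) x53136) x13772)
    (Nat.sub (Nat.add (Nat.add (Nat.add (Nat.add (Nat.add (Nat.add C x46578) x29082) x33942) x33402) x33462) x33454) x13774)
    (Nat.sub (Nat.add (Nat.add (Nat.add (Nat.add (Nat.add (Nat.add C x46584) x29088) x33948) x33408) x33480) x33456) x13780)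
    (Nat.sub (Nat.add (Nat.add (Nat.add (Nat.add (Nat.add (Nat.add C (Nat.mul x33480 (nat_lit 2))) x46602) x29106) x33966) x33426) x33462) x13798)
    (Nat.sub (Nat.add (Nat.add (Nat.add (Nat.add (Nat.add (Nat.add C (Nat.mul x33542 (nat_lit 2))) x46664) x29168) x35000) x33056) x33548) x53224)
    (Nat.sub (Nat.add (Nat.add (Nat.add (Nat.add (Nat.add (Nat.add (Nat.add (Nat.add (Nat.add C x33548) x46670) x29174) x35006) x33062) x33566) x33542) x33554) x33550) x53230)
    (Nat.sub (Nat.sub (Nat.add (Nat.add (Nat.add (Nat.add (Nat.add (Nat.add (Nat.add (Nat.add C x33550) x46672) x29176) x35008) x33064) x33568) x33556) x33548) x53232) x13868)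
    (Nat.sub (Nat.sub (Nat.add (Nat.add (Nat.add (Nat.add (Nat.add (Nat.add (Nat.add C x46676) x29180) x35012) x33068) x33572) x33548) x33556) (Nat.mul x33554 (nat_lit 2))) x53236)
    (Nat.sub (Nat.sub (Nat.add (Nat.add (Nat.add (Nat.add (Nat.add (Nat.add (Nat.add (Nat.add C x46678) x29182) x35014) x33070) x33574) x33550) x33554) x33558) x53238) x13874)
    (Nat.sub (Nat.add (Nat.add (Nat.add (Nat.add (Nat.add (Nat.add C x46680) x29184) x35016) x33072) x33576) x33556) x13876)
    (Nat.sub (Nat.add (Nat.add (Nat.add (Nat.add (Nat.add (Nat.add (Nat.add (Nat.add C x46688) x29192) x35024) x33080) x33620) x33548) x33572) x33568) x53248)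
    (Nat.sub (Nat.sub (Nat.sub (Nat.add (Nat.add (Nat.add (Nat.add (Nat.add (Nat.add (Nat.add (Nat.add C x46690) x29194) x35026) x33082) x33622) x33550) x33574) x33566) x33568) x53250) x13886)
    (Nat.sub (Nat.sub (Nat.add (Nat.add (Nat.add (Nat.add (Nat.add (Nat.add (Nat.add (Nat.add (Nat.add C x46694) x29198) x35030) x33086) x33626) x33554) x33590) x33566) x33574) x33572) x53254)
    (Nat.sub (Nat.sub (Nat.add (Nat.add (Nat.add (Nat.add (Nat.add (Nat.add (Nat.add (Nat.add (Nat.add (Nat.add (Nat.add C x46696) x29200) x35032) x33088) x33628) x33556) x33592) x33568) x33580) x33572) x33576) x53256) x13892)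
    (Nat.sub (Nat.sub (Nat.add (Nat.add (Nat.add (Nat.add (Nat.add (Nat.add (Nat.add (Nat.add (Nat.add C x46698) x29202) x35034) x33090) x33630) x33558) x33594) x33582) x33574) x33576) x13894)
    (Nat.sub (Nat.sub (Nat.sub (Nat.add (Nat.add (Nat.add (Nat.add (Nat.add (Nat.add (Nat.add (Nat.add C x46702) x29206) x35038) x33094) x33634) x33598) x33574) x33582) x33580) x53262) x13898)
    (Nat.sub (Nat.add (Nat.add (Nat.add (Nat.add (Nat.add (Nat.add (Nat.add (Nat.add C x46704) x29208) x35040) x33096) x33636) x33600) x33576) x33580) x13900)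
    (Nat.sub (Nat.sub (Nat.add (Nat.add (Nat.add (Nat.add (Nat.add (Nat.add (Nat.add C x46712) x29216) x35048) x33104) x33644) x33572) x33592) (Nat.mul x33590 (nat_lit 2))) x53272)
    (Nat.sub (Nat.sub (Nat.sub (Nat.add (Nat.add (Nat.add (Nat.add (Nat.add (Nat.add (Nat.add (Nat.add (Nat.add C x46714) x29218) x35050) x33106) x33646) x33574) x33598) x33590) x33594) (Nat.mul x33592 (nat_lit 2))) x53274) x13910)
    (Nat.sub (Nat.sub (Nat.add (Nat.add (Nat.add (Nat.add (Nat.add (Nat.add (Nat.add (Nat.add C x46716) x29220) x35052) x33108) x33648) x33576) x33600) x33592) (Nat.mul x33594 (nat_lit 4))) x13912)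
    (Nat.sub (Nat.sub (Nat.sub (Nat.add (Nat.add (Nat.add (Nat.add (Nat.add (Nat.add (Nat.add (Nat.add C x46720) x29224) x35056) x33112) x33652) x33580) x33592) x33600) x33598) x53280) x13916)
    (Nat.sub (Nat.sub (Nat.add (Nat.add (Nat.add (Nat.add (Nat.add (Nat.add (Nat.add (Nat.add (Nat.add C x46722) x29226) x35058) x33114) x33654) x33582) x33594) x33606) x33598) x33600) x13918)
    (Nat.sub (Nat.add (Nat.add (Nat.add (Nat.add (Nat.add (Nat.add C x46728) x29232) x35064) x33120) x33660) x33600) x13924)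
    (Nat.sub (Nat.add (Nat.add (Nat.add (Nat.add (Nat.add (Nat.add (Nat.add (Nat.add C x46742) x29246) x35078) x33134) x33782) x33566) x33626) x33622) x53302)
    (Nat.sub (Nat.sub (Nat.sub (Nat.add (Nat.add (Nat.add (Nat.add (Nat.add (Nat.add (Nat.add (Nat.add C x46744) x29248) x35080) x33136) x33784) x33568) x33628) x33620) x33622) x53304) x13940)
    (Nat.sub (Nat.sub (Nat.add (Nat.add (Nat.add (Nat.add (Nat.add (Nat.add (Nat.add (Nat.add (Nat.add C x46748) x29252) x35084) x33140) x33788) x33572) x33644) x33620) x33628) (Nat.mul x33626 (nat_lit 2))) x53308)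
    (Nat.sub (Nat.sub (Nat.sub (Nat.add (Nat.add (Nat.add (Nat.add (Nat.add (Nat.add (Nat.add (Nat.add (Nat.add (Nat.add (Nat.add C x46750) x29254) x35086) x33142) x33790) x33574) x33646) x33622) x33634) x33626) x33630) x33628) x53310) x13946)
    (Nat.sub (Nat.sub (Nat.add (Nat.add (Nat.add (Nat.add (Nat.add (Nat.add (Nat.add (Nat.add (Nat.add C x46752) x29256) x35088) x33144) x33792) x33576) x33648) x33636) x33628) (Nat.mul x33630 (nat_lit 2))) x13948)
    (Nat.sub (Nat.sub (Nat.sub (Nat.add (Nat.add (Nat.add (Nat.add (Nat.add (Nat.add (Nat.add (Nat.add (Nat.add C x46756) x29260) x35092) x33148) x33796) x33580) x33652) x33628) x33636) (Nat.mul x33634 (nat_lit 3))) x53316) x13952)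
    (Nat.sub (Nat.sub (Nat.add (Nat.add (Nat.add (Nat.add (Nat.add (Nat.add (Nat.add (Nat.add (Nat.add C x46758) x29262) x35094) x33150) x33798) x33582) x33654) x33630) x33634) (Nat.mul x33636 (nat_lit 2))) x13954)
    (Nat.sub (Nat.sub (Nat.add (Nat.add (Nat.add (Nat.add (Nat.add (Nat.add (Nat.add (Nat.add (Nat.add C x46766) x29270) x35102) x33158) x33806) x33590) x33698) x33626) x33646) x33644) x53326)
    (Nat.sub (Nat.sub (Nat.sub (Nat.add (Nat.add (Nat.add (Nat.add (Nat.add (Nat.add (Nat.add (Nat.add (Nat.add (Nat.add (Nat.add C x46768) x29272) x35104) x33160) x33808) x33592) x33700) x33628) x33652) x33644) x33648) x33646) x53328) x13964)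
    (Nat.sub (Nat.sub (Nat.add (Nat.add (Nat.add (Nat.add (Nat.add (Nat.add (Nat.add (Nat.add (Nat.add (Nat.add C x46770) x29274) x35106) x33162) x33810) x33594) x33702) x33630) x33654) x33646) (Nat.mul x33648 (nat_lit 3))) x13966)
    (Nat.sub (Nat.sub (Nat.sub (Nat.add (Nat.add (Nat.add (Nat.add (Nat.add (Nat.add (Nat.add (Nat.add (Nat.add (Nat.add (Nat.add C x46774) x29278) x35110) x33166) x33814) x33598) x33706) x33634) x33670) x33646) x33654) x33652) x53334) x13970)
    (Nat.sub (Nat.sub (Nat.add (Nat.add (Nat.add (Nat.add (Nat.add (Nat.add (Nat.add (Nat.add (Nat.add (Nat.add (Nat.add (Nat.add C x46776) x29280) x35112) x33168) x33816) x33600) x33708) x33636) x33672) x33648) x33660) x33652) x33654) x13972)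
    (Nat.sub (Nat.sub (Nat.add (Nat.add (Nat.add (Nat.add (Nat.add (Nat.add (Nat.add (Nat.add (Nat.add C x46782) x29286) x35118) x33174) x33822) x33606) x33714) x33678) x33654) x33660) x13978)
    (Nat.sub (Nat.sub (Nat.sub (Nat.add (Nat.add (Nat.add (Nat.add (Nat.add (Nat.add (Nat.add (Nat.add C x46792) x29296) x35128) x33184) x33832) x33724) x33652) x33672) x33670) x53352) x13988)
    (Nat.sub (Nat.sub (Nat.add (Nat.add (Nat.add (Nat.add (Nat.add (Nat.add (Nat.add (Nat.add (Nat.add C x46794) x29298) x35130) x33186) x33834) x33726) x33654) x33678) x33670) (Nat.mul x33672 (nat_lit 2))) x13990)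
    (Nat.sub (Nat.add (Nat.add (Nat.add (Nat.add (Nat.add (Nat.add (Nat.add (Nat.add C x46800) x29304) x35136) x33192) x33840) x33732) x33660) x33672) x13996)
    (Nat.sub (Nat.sub (Nat.add (Nat.add (Nat.add (Nat.add (Nat.add (Nat.add (Nat.add C x46820) x29324) x35156) x33212) x33860) x33644) x33700) (Nat.mul x33698 (nat_lit 2))) x53380)
    (Nat.sub (Nat.sub (Nat.sub (Nat.add (Nat.add (Nat.add (Nat.add (Nat.add (Nat.add (Nat.add (Nat.add (Nat.add C x46822) x29326) x35158) x33214) x33862) x33646) x33706) x33698) x33702) (Nat.mul x33700 (nat_lit 2))) x53382) x14018)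
    (Nat.sub (Nat.sub (Nat.add (Nat.add (Nat.add (Nat.add (Nat.add (Nat.add (Nat.add (Nat.add C x46824) x29328) x35160) x33216) x33864) x33648) x33708) x33700) (Nat.mul x33702 (nat_lit 4))) x14020)
    (Nat.sub (Nat.sub (Nat.sub (Nat.add (Nat.add (Nat.add (Nat.add (Nat.add (Nat.add (Nat.add (Nat.add (Nat.add C x46828) x29332) x35164) x33220) x33868) x33652) x33724) x33700) x33708) (Nat.mul x33706 (nat_lit 3))) x53388) x14024)
    (Nat.sub (Nat.sub (Nat.add (Nat.add (Nat.add (Nat.add (Nat.add (Nat.add (Nat.add (Nat.add (Nat.add (Nat.add C x46830) x29334) x35166) x33222) x33870) x33654) x33726) x33702) x33714) x33706) (Nat.mul x33708 (nat_lit 3))) x14026)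
    (Nat.sub (Nat.sub (Nat.add (Nat.add (Nat.add (Nat.add (Nat.add (Nat.add (Nat.add (Nat.add C x46836) x29340) x35172) x33228) x33876) x33660) x33732) x33708) (Nat.mul x33714 (nat_lit 4))) x14032)
    (Nat.sub (Nat.sub (Nat.sub (Nat.add (Nat.add (Nat.add (Nat.add (Nat.add (Nat.add (Nat.add (Nat.add C x46846) x29350) x35182) x33238) x33886) x33670) x33706) x33726) x33724) x53406) x14042)
    (Nat.sub (Nat.sub (Nat.add (Nat.add (Nat.add (Nat.add (Nat.add (Nat.add (Nat.add (Nat.add (Nat.add C x46848) x29352) x35184) x33240) x33888) x33672) x33708) x33732) x33724) (Nat.mul x33726 (nat_lit 2))) x14044)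
    (Nat.sub (Nat.sub (Nat.add (Nat.add (Nat.add (Nat.add (Nat.add (Nat.add (Nat.add (Nat.add (Nat.add C x46854) x29358) x35190) x33246) x33894) x33678) x33714) x33750) x33726) x33732) x14050)
    (Nat.sub (Nat.add (Nat.add (Nat.add (Nat.add (Nat.add (Nat.add C x46872) x29376) x35208) x33264) x33912) x33732) x14068)
    (Nat.sub (Nat.add (Nat.add (Nat.add (Nat.add (Nat.add (Nat.add (Nat.add (Nat.add (Nat.add C x33782) x46904) x29408) x35240) x33296) x34268) x33620) x33788) x33784) x53464)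
    (Nat.sub (Nat.sub (Nat.add (Nat.add (Nat.add (Nat.add (Nat.add (Nat.add (Nat.add (Nat.add C x46906) x29410) x35242) x33298) x34270) x33622) x33790) x33782) x53466) x14102)
    (Nat.sub (Nat.sub (Nat.add (Nat.add (Nat.add (Nat.add (Nat.add (Nat.add (Nat.add (Nat.add (Nat.add C x46910) x29414) x35246) x33302) x34274) x33626) x33806) x33782) x33790) x33788) x53470)
    (Nat.sub (Nat.sub (Nat.add (Nat.add (Nat.add (Nat.add (Nat.add (Nat.add (Nat.add (Nat.add (Nat.add (Nat.add (Nat.add C x46912) x29416) x35248) x33304) x34276) x33628) x33808) x33784) x33796) x33788) x33792) x53472) x14108)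
    (Nat.sub (Nat.sub (Nat.add (Nat.add (Nat.add (Nat.add (Nat.add (Nat.add (Nat.add (Nat.add (Nat.add C x46914) x29418) x35250) x33306) x34278) x33630) x33810) x33798) x33790) x33792) x14110)
    (Nat.sub (Nat.sub (Nat.sub (Nat.add (Nat.add (Nat.add (Nat.add (Nat.add (Nat.add (Nat.add (Nat.add (Nat.add C x46918) x29422) x35254) x33310) x34282) x33634) x33814) x33790) x33798) (Nat.mul x33796 (nat_lit 2))) x53478) x14114)
    (Nat.sub (Nat.sub (Nat.add (Nat.add (Nat.add (Nat.add (Nat.add (Nat.add (Nat.add (Nat.add (Nat.add C x46920) x29424) x35256) x33312) x34284) x33636) x33816) x33792) x33796) x33798) x14116)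
    (Nat.sub (Nat.sub (Nat.add (Nat.add (Nat.add (Nat.add (Nat.add (Nat.add (Nat.add (Nat.add (Nat.add C x46928) x29432) x35264) x33320) x34292) x33644) x33860) x33788) x33808) x33806) x53488)
    (Nat.sub (Nat.sub (Nat.sub (Nat.add (Nat.add (Nat.add (Nat.add (Nat.add (Nat.add (Nat.add (Nat.add (Nat.add (Nat.add (Nat.add C x46930) x29434) x35266) x33322) x34294) x33646) x33862) x33790) x33814) x33806) x33810) x33808) x53490) x14126)
    (Nat.sub (Nat.sub (Nat.add (Nat.add (Nat.add (Nat.add (Nat.add (Nat.add (Nat.add (Nat.add (Nat.add (Nat.add C x46932) x29436) x35268) x33324) x34296) x33648) x33864) x33792) x33816) x33808) (Nat.mul x33810 (nat_lit 3))) x14128)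
    (Nat.sub (Nat.sub (Nat.sub (Nat.add (Nat.add (Nat.add (Nat.add (Nat.add (Nat.add (Nat.add (Nat.add (Nat.add (Nat.add (Nat.add C x46936) x29440) x35272) x33328) x34300) x33652) x33868) x33796) x33832) x33808) x33816) x33814) x53496) x14132)
    (Nat.sub (Nat.sub (Nat.add (Nat.add (Nat.add (Nat.add (Nat.add (Nat.add (Nat.add (Nat.add (Nat.add (Nat.add (Nat.add (Nat.add C x46938) x29442) x35274) x33330) x34302) x33654) x33870) x33798) x33834) x33810) x33822) x33814) x33816) x14134)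
    (Nat.sub (Nat.sub (Nat.add (Nat.add (Nat.add (Nat.add (Nat.add (Nat.add (Nat.add (Nat.add (Nat.add C x46944) x29448) x35280) x33336) x34308) x33660) x33876) x33840) x33816) x33822) x14140)
    (Nat.sub (Nat.sub (Nat.sub (Nat.add (Nat.add (Nat.add (Nat.add (Nat.add (Nat.add (Nat.add (Nat.add (Nat.add C x46954) x29458) x35290) x33346) x34318) x33670) x33886) x33814) x33834) (Nat.mul x33832 (nat_lit 2))) x53514) x14150)
    (Nat.sub (Nat.sub (Nat.add (Nat.add (Nat.add (Nat.add (Nat.add (Nat.add (Nat.add (Nat.add (Nat.add (Nat.add C x46956) x29460) x35292) x33348) x34320) x33672) x33888) x33816) x33840) x33832) (Nat.mul x33834 (nat_lit 3))) x14152)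
    (Nat.sub (Nat.sub (Nat.add (Nat.add (Nat.add (Nat.add (Nat.add (Nat.add (Nat.add (Nat.add (Nat.add C x46962) x29466) x35298) x33354) x34326) x33678) x33894) x33822) x33834) x33840) x14158)
    (Nat.sub (Nat.add (Nat.add (Nat.add (Nat.add (Nat.add (Nat.add (Nat.add (Nat.add (Nat.add C x46982) x29486) x35318) x33374) x34346) x33698) x34022) x33806) x33862) x53542)
    (Nat.sub (Nat.sub (Nat.add (Nat.add (Nat.add (Nat.add (Nat.add (Nat.add (Nat.add (Nat.add (Nat.add (Nat.add (Nat.add C x46984) x29488) x35320) x33376) x34348) x33700) x34024) x33808) x33868) x33860) x33864) x53544) x14180)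
    (Nat.sub (Nat.sub (Nat.add (Nat.add (Nat.add (Nat.add (Nat.add (Nat.add (Nat.add (Nat.add (Nat.add (Nat.add C x46986) x29490) x35322) x33378) x34350) x33702) x34026) x33810) x33870) x33862) (Nat.mul x33864 (nat_lit 2))) x14182)
    (Nat.sub (Nat.sub (Nat.sub (Nat.add (Nat.add (Nat.add (Nat.add (Nat.add (Nat.add (Nat.add (Nat.add (Nat.add (Nat.add (Nat.add C x46990) x29494) x35326) x33382) x34354) x33706) x34030) x33814) x33886) x33862) x33870) x33868) x53550) x14186)
    (Nat.sub (Nat.sub (Nat.add (Nat.add (Nat.add (Nat.add (Nat.add (Nat.add (Nat.add (Nat.add (Nat.add (Nat.add (Nat.add (Nat.add C x46992) x29496) x35328) x33384) x34356) x33708) x34032) x33816) x33888) x33864) x33876) x33868) x33870) x14188)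
    (Nat.sub (Nat.sub (Nat.add (Nat.add (Nat.add (Nat.add (Nat.add (Nat.add (Nat.add (Nat.add (Nat.add (Nat.add C x46998) x29502) x35334) x33390) x34362) x33714) x34038) x33822) x33894) x33870) (Nat.mul x33876 (nat_lit 2))) x14194)
    (Nat.sub (Nat.sub (Nat.add (Nat.add (Nat.add (Nat.add (Nat.add (Nat.add (Nat.add (Nat.add (Nat.add (Nat.add (Nat.add C x47008) x29512) x35344) x33400) x34372) x33724) x34048) x33832) x33940) x33868) x33888) x53568) x14204)
    (Nat.sub (Nat.sub (Nat.add (Nat.add (Nat.add (Nat.add (Nat.add (Nat.add (Nat.add (Nat.add (Nat.add (Nat.add (Nat.add (Nat.add C x47010) x29514) x35346) x33402) x34374) x33726) x34050) x33834) x33942) x33870) x33894) x33886) x33888) x14206)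
    (Nat.sub (Nat.add (Nat.add (Nat.add (Nat.add (Nat.add (Nat.add (Nat.add (Nat.add (Nat.add (Nat.add (Nat.add (Nat.add C x47016) x29520) x35352) x33408) x34380) x33732) x34056) x33840) x33948) x33876) x33912) x33888) x14212)
    (Nat.sub (Nat.add (Nat.add (Nat.add (Nat.add (Nat.add (Nat.add (Nat.add (Nat.add (Nat.add C x47034) x29538) x35370) x33426) x34398) x33750) x34074) x33966) x33894) x14230)
    (Nat.sub (Nat.sub (Nat.add (Nat.add (Nat.add (Nat.add (Nat.add (Nat.add (Nat.add (Nat.add C x47062) x29566) x35398) x33454) x34426) x34102) x33886) x33942) x53622) x14258)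
    (Nat.sub (Nat.sub (Nat.add (Nat.add (Nat.add (Nat.add (Nat.add (Nat.add (Nat.add (Nat.add (Nat.add C x47064) x29568) x35400) x33456) x34428) x34104) x33888) x33948) x33940) x33942) x14260)
    (Nat.sub (Nat.sub (Nat.add (Nat.add (Nat.add (Nat.add (Nat.add (Nat.add (Nat.add (Nat.add (Nat.add C x47070) x29574) x35406) x33462) x34434) x34110) x33894) x33966) x33942) x33948) x14266)
    (Nat.sub (Nat.add (Nat.add (Nat.add (Nat.add (Nat.add (Nat.add (Nat.add (Nat.add (Nat.add C x33966) x47088) x29592) x35424) x33480) x34452) x34128) x33912) x33948) x14284)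
    (Nat.sub (Nat.add (Nat.add (Nat.add (Nat.add (Nat.add (Nat.add C x47144) x29648) x35480) x34508) x33860) x34024) x53704)
    (Nat.sub (Nat.sub (Nat.add (Nat.add (Nat.add (Nat.add (Nat.add (Nat.add (Nat.add (Nat.add C x47146) x29650) x35482) x34510) x33862) x34030) x34022) x34026) x53706) x14342)
    (Nat.sub (Nat.sub (Nat.add (Nat.add (Nat.add (Nat.add (Nat.add (Nat.add (Nat.add C x47148) x29652) x35484) x34512) x33864) x34032) x34024) (Nat.mul x34026 (nat_lit 2))) x14344)
    (Nat.sub (Nat.sub (Nat.sub (Nat.add (Nat.add (Nat.add (Nat.add (Nat.add (Nat.add (Nat.add (Nat.add C x47152) x29656) x35488) x34516) x33868) x34048) x34024) x34032) x34030) x53712) x14348)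
    (Nat.sub (Nat.sub (Nat.add (Nat.add (Nat.add (Nat.add (Nat.add (Nat.add (Nat.add (Nat.add (Nat.add C x47154) x29658) x35490) x34518) x33870) x34050) x34026) x34038) x34030) x34032) x14350)
    (Nat.sub (Nat.sub (Nat.add (Nat.add (Nat.add (Nat.add (Nat.add (Nat.add (Nat.add C x47160) x29664) x35496) x34524) x33876) x34056) x34032) (Nat.mul x34038 (nat_lit 2))) x14356)
    (Nat.sub (Nat.sub (Nat.sub (Nat.add (Nat.add (Nat.add (Nat.add (Nat.add (Nat.add (Nat.add (Nat.add C x47170) x29674) x35506) x34534) x33886) x34102) x34030) x34050) x34048) x53730) x14366)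
    (Nat.sub (Nat.sub (Nat.add (Nat.add (Nat.add (Nat.add (Nat.add (Nat.add (Nat.add (Nat.add (Nat.add C x47172) x29676) x35508) x34536) x33888) x34104) x34032) x34056) x34048) (Nat.mul x34050 (nat_lit 2))) x14368)
    (Nat.sub (Nat.sub (Nat.add (Nat.add (Nat.add (Nat.add (Nat.add (Nat.add (Nat.add (Nat.add (Nat.add C x47178) x29682) x35514) x34542) x33894) x34110) x34038) x34074) x34050) x34056) x14374)
    (Nat.sub (Nat.sub (Nat.add (Nat.add (Nat.add (Nat.add (Nat.add (Nat.add (Nat.add C x47196) x29700) x35532) x34560) x33912) x34128) x34056) (Nat.mul x34074 (nat_lit 2))) x14392)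
    (Nat.sub (Nat.sub (Nat.add (Nat.add (Nat.add (Nat.add (Nat.add (Nat.add (Nat.add (Nat.add C x34102) x47224) x29728) x35560) x34588) x33940) x34048) x34104) x53784) x14420)
    (Nat.sub (Nat.add (Nat.add (Nat.add (Nat.add (Nat.add (Nat.add (Nat.add (Nat.add C x47226) x29730) x35562) x34590) x33942) x34050) x34110) x34102) x14422)
    (Nat.sub (Nat.add (Nat.add (Nat.add (Nat.add (Nat.add (Nat.add (Nat.add (Nat.add C x47232) x29736) x35568) x34596) x33948) x34056) x34128) x34104) x14428)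
    (Nat.sub (Nat.add (Nat.add (Nat.add (Nat.add (Nat.add (Nat.add (Nat.add (Nat.add (Nat.add C x34128) x47250) x29754) x35586) x34614) x33966) x34074) x34182) x34110) x14446)
    (Nat.sub (Nat.add (Nat.add (Nat.add (Nat.add (Nat.add (Nat.add C (Nat.mul x34182 (nat_lit 2))) x47304) x29808) x35640) x34668) x34128) x14500)
    (Nat.sub (Nat.add (Nat.add (Nat.add (Nat.add (Nat.add (Nat.add C x47390) x29894) x35726) x33782) x34274) x34270) x53950)
    (Nat.sub (Nat.sub (Nat.sub (Nat.add (Nat.add (Nat.add (Nat.add (Nat.add (Nat.add C x47392) x29896) x35728) x33784) x34276) x34268) x34270) x53952) x14588)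
    (Nat.sub (Nat.sub (Nat.add (Nat.add (Nat.add (Nat.add (Nat.add (Nat.add (Nat.add C x47396) x29900) x35732) x33788) x34292) x34268) x34276) (Nat.mul x34274 (nat_lit 2))) x53956)
    (Nat.sub (Nat.sub (Nat.sub (Nat.add (Nat.add (Nat.add (Nat.add (Nat.add (Nat.add (Nat.add (Nat.add (Nat.add C x47398) x29902) x35734) x33790) x34294) x34270) x34282) x34274) x34278) x34276) x53958) x14594)
    (Nat.sub (Nat.sub (Nat.add (Nat.add (Nat.add (Nat.add (Nat.add (Nat.add (Nat.add C x47400) x29904) x35736) x33792) x34296) x34284) x34276) (Nat.mul x34278 (nat_lit 2))) x14596)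
    (Nat.sub (Nat.sub (Nat.sub (Nat.add (Nat.add (Nat.add (Nat.add (Nat.add (Nat.add (Nat.add C x47404) x29908) x35740) x33796) x34300) x34276) x34284) (Nat.mul x34282 (nat_lit 3))) x53964) x14600)
    (Nat.sub (Nat.sub (Nat.add (Nat.add (Nat.add (Nat.add (Nat.add (Nat.add (Nat.add C x47406) x29910) x35742) x33798) x34302) x34278) x34282) (Nat.mul x34284 (nat_lit 2))) x14602)
    (Nat.sub (Nat.sub (Nat.add (Nat.add (Nat.add (Nat.add (Nat.add (Nat.add (Nat.add C x47414) x29918) x35750) x33806) x34346) x34274) x34294) (Nat.mul x34292 (nat_lit 2))) x53974)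
    (Nat.sub (Nat.sub (Nat.sub (Nat.add (Nat.add (Nat.add (Nat.add (Nat.add (Nat.add (Nat.add (Nat.add (Nat.add C x47416) x29920) x35752) x33808) x34348) x34276) x34300) x34292) x34296) (Nat.mul x34294 (nat_lit 2))) x53976) x14612)
    (Nat.sub (Nat.sub (Nat.add (Nat.add (Nat.add (Nat.add (Nat.add (Nat.add (Nat.add (Nat.add C x47418) x29922) x35754) x33810) x34350) x34278) x34302) x34294) (Nat.mul x34296 (nat_lit 4))) x14614)
    (Nat.sub (Nat.sub (Nat.sub (Nat.add (Nat.add (Nat.add (Nat.add (Nat.add (Nat.add (Nat.add (Nat.add (Nat.add C x47422) x29926) x35758) x33814) x34354) x34282) x34318) x34294) x34302) (Nat.mul x34300 (nat_lit 2))) x53982) x14618)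
    (Nat.sub (Nat.sub (Nat.add (Nat.add (Nat.add (Nat.add (Nat.add (Nat.add (Nat.add (Nat.add (Nat.add (Nat.add C x47424) x29928) x35760) x33816) x34356) x34284) x34320) x34296) x34308) x34300) (Nat.mul x34302 (nat_lit 2))) x14620)
    (Nat.sub (Nat.sub (Nat.add (Nat.add (Nat.add (Nat.add (Nat.add (Nat.add (Nat.add C x47430) x29934) x35766) x33822) x34362) x34326) x34302) (Nat.mul x34308 (nat_lit 2))) x14626)
    (Nat.sub (Nat.sub (Nat.sub (Nat.add (Nat.add (Nat.add (Nat.add (Nat.add (Nat.add (Nat.add C x47440) x29944) x35776) x33832) x34372) x34300) x34320) (Nat.mul x34318 (nat_lit 3))) x54000) x14636)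
    (Nat.sub (Nat.sub (Nat.add (Nat.add (Nat.add (Nat.add (Nat.add (Nat.add (Nat.add (Nat.add C x47442) x29946) x35778) x33834) x34374) x34302) x34326) x34318) (Nat.mul x34320 (nat_lit 4))) x14638)
    (Nat.sub (Nat.sub (Nat.add (Nat.add (Nat.add (Nat.add (Nat.add (Nat.add (Nat.add C x47448) x29952) x35784) x33840) x34380) x34308) x34320) (Nat.mul x34326 (nat_lit 2))) x14644)
    (Nat.sub (Nat.sub (Nat.add (Nat.add (Nat.add (Nat.add (Nat.add (Nat.add (Nat.add C x47468) x29972) x35804) x33860) x34508) x34292) x34348) (Nat.mul x34346 (nat_lit 2))) x54028)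
    (Nat.sub (Nat.sub (Nat.sub (Nat.add (Nat.add (Nat.add (Nat.add (Nat.add (Nat.add (Nat.add (Nat.add (Nat.add C x47470) x29974) x35806) x33862) x34510) x34294) x34354) x34346) x34350) (Nat.mul x34348 (nat_lit 2))) x54030) x14666)
    (Nat.sub (Nat.sub (Nat.add (Nat.add (Nat.add (Nat.add (Nat.add (Nat.add (Nat.add (Nat.add C x47472) x29976) x35808) x33864) x34512) x34296) x34356) x34348) (Nat.mul x34350 (nat_lit 4))) x14668)
    (Nat.sub (Nat.sub (Nat.sub (Nat.add (Nat.add (Nat.add (Nat.add (Nat.add (Nat.add (Nat.add (Nat.add (Nat.add C x47476) x29980) x35812) x33868) x34516) x34300) x34372) x34348) x34356) (Nat.mul x34354 (nat_lit 3))) x54036) x14672)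
    (Nat.sub (Nat.sub (Nat.add (Nat.add (Nat.add (Nat.add (Nat.add (Nat.add (Nat.add (Nat.add (Nat.add (Nat.add C x47478) x29982) x35814) x33870) x34518) x34302) x34374) x34350) x34362) x34354) (Nat.mul x34356 (nat_lit 3))) x14674)
    (Nat.sub (Nat.sub (Nat.add (Nat.add (Nat.add (Nat.add (Nat.add (Nat.add (Nat.add (Nat.add C x47484) x29988) x35820) x33876) x34524) x34308) x34380) x34356) (Nat.mul x34362 (nat_lit 4))) x14680)
    (Nat.sub (Nat.sub (Nat.sub (Nat.add (Nat.add (Nat.add (Nat.add (Nat.add (Nat.add (Nat.add (Nat.add (Nat.add C x47494) x29998) x35830) x33886) x34534) x34318) x34426) x34354) x34374) (Nat.mul x34372 (nat_lit 2))) x54054) x14690)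
    (Nat.sub (Nat.sub (Nat.add (Nat.add (Nat.add (Nat.add (Nat.add (Nat.add (Nat.add (Nat.add (Nat.add (Nat.add C x47496) x30000) x35832) x33888) x34536) x34320) x34428) x34356) x34380) x34372) (Nat.mul x34374 (nat_lit 3))) x14692)
    (Nat.sub (Nat.sub (Nat.add (Nat.add (Nat.add (Nat.add (Nat.add (Nat.add (Nat.add (Nat.add (Nat.add (Nat.add C x47502) x30006) x35838) x33894) x34542) x34326) x34434) x34362) x34398) x34374) (Nat.mul x34380 (nat_lit 2))) x14698)
    (Nat.sub (Nat.sub (Nat.add (Nat.add (Nat.add (Nat.add (Nat.add (Nat.add (Nat.add C x47520) x30024) x35856) x33912) x34560) x34452) x34380) (Nat.mul x34398 (nat_lit 2))) x14716)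
    (Nat.sub (Nat.sub (Nat.sub (Nat.add (Nat.add (Nat.add (Nat.add (Nat.add (Nat.add (Nat.add C x47548) x30052) x35884) x33940) x34588) x34372) x34428) (Nat.mul x34426 (nat_lit 3))) x54108) x14744)
    (Nat.sub (Nat.sub (Nat.add (Nat.add (Nat.add (Nat.add (Nat.add (Nat.add (Nat.add (Nat.add C x47550) x30054) x35886) x33942) x34590) x34374) x34434) x34426) (Nat.mul x34428 (nat_lit 4))) x14746)
    (Nat.sub (Nat.sub (Nat.add (Nat.add (Nat.add (Nat.add (Nat.add (Nat.add (Nat.add (Nat.add C x47556) x30060) x35892) x33948) x34596) x34380) x34452) x34428) (Nat.mul x34434 (nat_lit 4))) x14752)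
    (Nat.sub (Nat.sub (Nat.add (Nat.add (Nat.add (Nat.add (Nat.add (Nat.add (Nat.add C x47574) x30078) x35910) x33966) x34614) x34398) x34434) (Nat.mul x34452 (nat_lit 2))) x14770)
    (Nat.sub (Nat.add (Nat.add (Nat.add (Nat.add (Nat.add (Nat.add C x47630) x30134) x35966) x34022) x34346) x34510) x54190)
    (Nat.sub (Nat.sub (Nat.add (Nat.add (Nat.add (Nat.add (Nat.add (Nat.add (Nat.add (Nat.add C x47632) x30136) x35968) x34024) x34348) x34516) x34508) x34512) x54192) x14828)
    (Nat.sub (Nat.sub (Nat.add (Nat.add (Nat.add (Nat.add (Nat.add (Nat.add (Nat.add C x47634) x30138) x35970) x34026) x34350) x34518) x34510) (Nat.mul x34512 (nat_lit 2))) x14830)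
    (Nat.sub (Nat.sub (Nat.sub (Nat.add (Nat.add (Nat.add (Nat.add (Nat.add (Nat.add (Nat.add (Nat.add C x47638) x30142) x35974) x34030) x34354) x34534) x34510) x34518) x34516) x54198) x14834)
    (Nat.sub (Nat.sub (Nat.add (Nat.add (Nat.add (Nat.add (Nat.add (Nat.add (Nat.add (Nat.add (Nat.add C x47640) x30144) x35976) x34032) x34356) x34536) x34512) x34524) x34516) x34518) x14836)
    (Nat.sub (Nat.sub (Nat.add (Nat.add (Nat.add (Nat.add (Nat.add (Nat.add (Nat.add C x47646) x30150) x35982) x34038) x34362) x34542) x34518) (Nat.mul x34524 (nat_lit 2))) x14842)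
    (Nat.sub (Nat.sub (Nat.sub (Nat.add (Nat.add (Nat.add (Nat.add (Nat.add (Nat.add (Nat.add (Nat.add C x47656) x30160) x35992) x34048) x34372) x34588) x34516) x34536) x34534) x54216) x14852)
    (Nat.sub (Nat.sub (Nat.add (Nat.add (Nat.add (Nat.add (Nat.add (Nat.add (Nat.add (Nat.add (Nat.add C x47658) x30162) x35994) x34050) x34374) x34590) x34518) x34542) x34534) (Nat.mul x34536 (nat_lit 2))) x14854)
    (Nat.sub (Nat.sub (Nat.add (Nat.add (Nat.add (Nat.add (Nat.add (Nat.add (Nat.add (Nat.add (Nat.add C x47664) x30168) x36000) x34056) x34380) x34596) x34524) x34560) x34536) x34542) x14860)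
    (Nat.sub (Nat.sub (Nat.add (Nat.add (Nat.add (Nat.add (Nat.add (Nat.add (Nat.add C x47682) x30186) x36018) x34074) x34398) x34614) x34542) (Nat.mul x34560 (nat_lit 2))) x14878)
    (Nat.sub (Nat.sub (Nat.add (Nat.add (Nat.add (Nat.add (Nat.add (Nat.add (Nat.add (Nat.add C x47710) x30214) x36046) x34102) x34426) x34750) x34534) x34590) x54270) x14906)
    (Nat.sub (Nat.sub (Nat.add (Nat.add (Nat.add (Nat.add (Nat.add (Nat.add (Nat.add (Nat.add (Nat.add C x47712) x30216) x36048) x34104) x34428) x34752) x34536) x34596) x34588) x34590) x14908)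
    (Nat.sub (Nat.sub (Nat.add (Nat.add (Nat.add (Nat.add (Nat.add (Nat.add (Nat.add (Nat.add (Nat.add C x47718) x30222) x36054) x34110) x34434) x34758) x34542) x34614) x34590) x34596) x14914)
    (Nat.sub (Nat.add (Nat.add (Nat.add (Nat.add (Nat.add (Nat.add (Nat.add (Nat.add (Nat.add C x47736) x30240) x36072) x34128) x34452) x34776) x34560) x34668) x34596) x14932)
    (Nat.sub (Nat.add (Nat.add (Nat.add (Nat.add (Nat.add (Nat.add C x47790) x30294) x36126) x34182) x34830) x34614) x14986)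
    (Nat.sub (Nat.sub (Nat.add (Nat.add (Nat.add (Nat.add (Nat.add (Nat.add C x34750) x47872) x30376) x36208) x34588) x34752) x54432) x15068)
    (Nat.sub (Nat.add (Nat.add (Nat.add (Nat.add (Nat.add (Nat.add C x47874) x30378) x36210) x34590) x34758) x34750) x15070)
    (Nat.sub (Nat.add (Nat.add (Nat.add (Nat.add (Nat.add (Nat.add C x47880) x30384) x36216) x34596) x34776) x34752) x15076)
    (Nat.sub (Nat.add (Nat.add (Nat.add (Nat.add (Nat.add (Nat.add C x47898) x30402) x36234) x34614) x34830) x34758) x15094)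
    (Nat.sub (Nat.add (Nat.add (Nat.add (Nat.add (Nat.add (Nat.add C (Nat.mul x34830 (nat_lit 2))) x47952) x30456) x36288) x34668) x34776) x15148)
    (Nat.sub (Nat.add (Nat.add (Nat.add (Nat.add (Nat.add C (Nat.mul x35000 (nat_lit 4))) x48122) x30626) x33542) x35006) x54682)
    (Nat.sub (Nat.add (Nat.add (Nat.add (Nat.add (Nat.add (Nat.add (Nat.add (Nat.add C (Nat.mul x35006 (nat_lit 3))) x48128) x30632) x33548) x35024) x35000) x35012) x35008) x54688)
    (Nat.sub (Nat.sub (Nat.add (Nat.add (Nat.add (Nat.add (Nat.add (Nat.add (Nat.add C (Nat.mul x35008 (nat_lit 3))) x48130) x30634) x33550) x35026) x35014) x35006) x54690) x15326)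
    (Nat.sub (Nat.add (Nat.add (Nat.add (Nat.add (Nat.add (Nat.add C x48134) x30638) x33554) x35030) x35006) x35014) x54694)
    (Nat.sub (Nat.sub (Nat.add (Nat.add (Nat.add (Nat.add (Nat.add (Nat.add (Nat.add (Nat.add C (Nat.mul x35014 (nat_lit 2))) x48136) x30640) x33556) x35032) x35008) x35012) x35016) x54696) x15332)
    (Nat.sub (Nat.add (Nat.add (Nat.add (Nat.add (Nat.add (Nat.add C (Nat.mul x35016 (nat_lit 2))) x48138) x30642) x33558) x35034) x35014) x15334)
    (Nat.sub (Nat.add (Nat.add (Nat.add (Nat.add (Nat.add (Nat.add (Nat.add (Nat.add C (Nat.mul x35024 (nat_lit 2))) x48146) x30650) x33566) x35078) x35006) x35030) x35026) x54706)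
    (Nat.sub (Nat.sub (Nat.add (Nat.add (Nat.add (Nat.add (Nat.add (Nat.add (Nat.add (Nat.add C x35026) x48148) x30652) x33568) x35080) x35008) x35032) x35024) x54708) x15344)
    (Nat.sub (Nat.add (Nat.add (Nat.add (Nat.add (Nat.add (Nat.add (Nat.add (Nat.add (Nat.add C x35030) x48152) x30656) x33572) x35084) x35012) x35048) x35024) x35032) x54712)
    (Nat.sub (Nat.sub (Nat.add (Nat.add (Nat.add (Nat.add (Nat.add (Nat.add (Nat.add (Nat.add (Nat.add (Nat.add (Nat.add C (Nat.mul x35032 (nat_lit 2))) x48154) x30658) x33574) x35086) x35014) x35050) x35026) x35038) x35030) x35034) x54714) x15350)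
    (Nat.sub (Nat.add (Nat.add (Nat.add (Nat.add (Nat.add (Nat.add (Nat.add (Nat.add (Nat.add C x35034) x48156) x30660) x33576) x35088) x35016) x35052) x35040) x35032) x15352)
    (Nat.sub (Nat.sub (Nat.add (Nat.add (Nat.add (Nat.add (Nat.add (Nat.add (Nat.add (Nat.add C x35038) x48160) x30664) x33580) x35092) x35056) x35032) x35040) x54720) x15356)
    (Nat.sub (Nat.add (Nat.add (Nat.add (Nat.add (Nat.add (Nat.add (Nat.add (Nat.add C (Nat.mul x35040 (nat_lit 2))) x48162) x30666) x33582) x35094) x35058) x35034) x35038) x15358)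
    (Nat.sub (Nat.add (Nat.add (Nat.add (Nat.add (Nat.add (Nat.add C x48170) x30674) x33590) x35102) x35030) x35050) x54730)
    (Nat.sub (Nat.sub (Nat.add (Nat.add (Nat.add (Nat.add (Nat.add (Nat.add (Nat.add (Nat.add C x48172) x30676) x33592) x35104) x35032) x35056) x35048) x35052) x54732) x15368)
    (Nat.sub (Nat.sub (Nat.add (Nat.add (Nat.add (Nat.add (Nat.add (Nat.add (Nat.add C x48174) x30678) x33594) x35106) x35034) x35058) x35050) (Nat.mul x35052 (nat_lit 2))) x15370)
    (Nat.sub (Nat.sub (Nat.add (Nat.add (Nat.add (Nat.add (Nat.add (Nat.add (Nat.add (Nat.add C x35056) x48178) x30682) x33598) x35110) x35038) x35050) x35058) x54738) x15374)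
    (Nat.sub (Nat.add (Nat.add (Nat.add (Nat.add (Nat.add (Nat.add (Nat.add (Nat.add (Nat.add C x35058) x48180) x30684) x33600) x35112) x35040) x35052) x35064) x35056) x15376)
    (Nat.sub (Nat.add (Nat.add (Nat.add (Nat.add (Nat.add (Nat.add C (Nat.mul x35064 (nat_lit 2))) x48186) x30690) x33606) x35118) x35058) x15382)
    (Nat.sub (Nat.add (Nat.add (Nat.add (Nat.add (Nat.add (Nat.add (Nat.add (Nat.add C (Nat.mul x35078 (nat_lit 2))) x48200) x30704) x33620) x35240) x35024) x35084) x35080) x54760)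
    (Nat.sub (Nat.sub (Nat.add (Nat.add (Nat.add (Nat.add (Nat.add (Nat.add (Nat.add (Nat.add C x35080) x48202) x30706) x33622) x35242) x35026) x35086) x35078) x54762) x15398)
    (Nat.sub (Nat.add (Nat.add (Nat.add (Nat.add (Nat.add (Nat.add (Nat.add (Nat.add C x48206) x30710) x33626) x35246) x35030) x35102) x35078) x35086) x54766)
    (Nat.sub (Nat.sub (Nat.add (Nat.add (Nat.add (Nat.add (Nat.add (Nat.add (Nat.add (Nat.add (Nat.add (Nat.add (Nat.add C x35086) x48208) x30712) x33628) x35248) x35032) x35104) x35080) x35092) x35084) x35088) x54768) x15404)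
    (Nat.sub (Nat.add (Nat.add (Nat.add (Nat.add (Nat.add (Nat.add (Nat.add (Nat.add C x48210) x30714) x33630) x35250) x35034) x35106) x35094) x35086) x15406)
    (Nat.sub (Nat.sub (Nat.sub (Nat.add (Nat.add (Nat.add (Nat.add (Nat.add (Nat.add (Nat.add (Nat.add C x48214) x30718) x33634) x35254) x35038) x35110) x35086) x35094) x35092) x54774) x15410)
    (Nat.sub (Nat.add (Nat.add (Nat.add (Nat.add (Nat.add (Nat.add (Nat.add (Nat.add C x48216) x30720) x33636) x35256) x35040) x35112) x35088) x35092) x15412)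
    (Nat.sub (Nat.add (Nat.add (Nat.add (Nat.add (Nat.add (Nat.add (Nat.add (Nat.add (Nat.add C x35102) x48224) x30728) x33644) x35264) x35048) x35156) x35084) x35104) x54784)
    (Nat.sub (Nat.sub (Nat.add (Nat.add (Nat.add (Nat.add (Nat.add (Nat.add (Nat.add (Nat.add (Nat.add (Nat.add (Nat.add C x35104) x48226) x30730) x33646) x35266) x35050) x35158) x35086) x35110) x35102) x35106) x54786) x15422)
    (Nat.sub (Nat.sub (Nat.add (Nat.add (Nat.add (Nat.add (Nat.add (Nat.add (Nat.add (Nat.add (Nat.add C x48228) x30732) x33648) x35268) x35052) x35160) x35088) x35112) x35104) x35106) x15424)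
    (Nat.sub (Nat.sub (Nat.add (Nat.add (Nat.add (Nat.add (Nat.add (Nat.add (Nat.add (Nat.add (Nat.add (Nat.add (Nat.add C x35110) x48232) x30736) x33652) x35272) x35056) x35164) x35092) x35128) x35104) x35112) x54792) x15428)
    (Nat.sub (Nat.add (Nat.add (Nat.add (Nat.add (Nat.add (Nat.add (Nat.add (Nat.add (Nat.add (Nat.add (Nat.add (Nat.add C x35112) x48234) x30738) x33654) x35274) x35058) x35166) x35094) x35130) x35106) x35118) x35110) x15430)
    (Nat.sub (Nat.add (Nat.add (Nat.add (Nat.add (Nat.add (Nat.add (Nat.add (Nat.add (Nat.add C x35118) x48240) x30744) x33660) x35280) x35064) x35172) x35136) x35112) x15436)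
    (Nat.sub (Nat.sub (Nat.add (Nat.add (Nat.add (Nat.add (Nat.add (Nat.add (Nat.add (Nat.add C x35128) x48250) x30754) x33670) x35290) x35182) x35110) x35130) x54810) x15446)
    (Nat.sub (Nat.add (Nat.add (Nat.add (Nat.add (Nat.add (Nat.add (Nat.add (Nat.add C x48252) x30756) x33672) x35292) x35184) x35112) x35136) x35128) x15448)
    (Nat.sub (Nat.add (Nat.add (Nat.add (Nat.add (Nat.add (Nat.add (Nat.add (Nat.add C (Nat.mul x35136 (nat_lit 2))) x48258) x30762) x33678) x35298) x35190) x35118) x35130) x15454)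
    (Nat.sub (Nat.add (Nat.add (Nat.add (Nat.add (Nat.add (Nat.add C x48278) x30782) x33698) x35318) x35102) x35158) x54838)
    (Nat.sub (Nat.sub (Nat.add (Nat.add (Nat.add (Nat.add (Nat.add (Nat.add (Nat.add (Nat.add C x48280) x30784) x33700) x35320) x35104) x35164) x35156) x35160) x54840) x15476)
    (Nat.sub (Nat.sub (Nat.add (Nat.add (Nat.add (Nat.add (Nat.add (Nat.add (Nat.add C x48282) x30786) x33702) x35322) x35106) x35166) x35158) (Nat.mul x35160 (nat_lit 2))) x15478)
    (Nat.sub (Nat.sub (Nat.sub (Nat.add (Nat.add (Nat.add (Nat.add (Nat.add (Nat.add (Nat.add (Nat.add C x48286) x30790) x33706) x35326) x35110) x35182) x35158) x35166) x35164) x54846) x15482)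
    (Nat.sub (Nat.sub (Nat.add (Nat.add (Nat.add (Nat.add (Nat.add (Nat.add (Nat.add (Nat.add (Nat.add C x48288) x30792) x33708) x35328) x35112) x35184) x35160) x35172) x35164) x35166) x15484)
    (Nat.sub (Nat.sub (Nat.add (Nat.add (Nat.add (Nat.add (Nat.add (Nat.add (Nat.add C x48294) x30798) x33714) x35334) x35118) x35190) x35166) (Nat.mul x35172 (nat_lit 2))) x15490)
    (Nat.sub (Nat.sub (Nat.add (Nat.add (Nat.add (Nat.add (Nat.add (Nat.add (Nat.add (Nat.add C x35182) x48304) x30808) x33724) x35344) x35128) x35164) x35184) x54864) x15500)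
    (Nat.sub (Nat.add (Nat.add (Nat.add (Nat.add (Nat.add (Nat.add (Nat.add (Nat.add C x48306) x30810) x33726) x35346) x35130) x35166) x35190) x35182) x15502)
    (Nat.sub (Nat.add (Nat.add (Nat.add (Nat.add (Nat.add (Nat.add (Nat.add (Nat.add (Nat.add C x35190) x48312) x30816) x33732) x35352) x35136) x35172) x35208) x35184) x15508)
    (Nat.sub (Nat.add (Nat.add (Nat.add (Nat.add (Nat.add (Nat.add C (Nat.mul x35208 (nat_lit 2))) x48330) x30834) x33750) x35370) x35190) x15526)
    (Nat.sub (Nat.add (Nat.add (Nat.add (Nat.add (Nat.add (Nat.add (Nat.add (Nat.add C (Nat.mul x35240 (nat_lit 2))) x48362) x30866) x33782) x35726) x35078) x35246) x35242) x54922)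
    (Nat.sub (Nat.sub (Nat.add (Nat.add (Nat.add (Nat.add (Nat.add (Nat.add (Nat.add (Nat.add C x35242) x48364) x30868) x33784) x35728) x35080) x35248) x35240) x54924) x15560)
    (Nat.sub (Nat.add (Nat.add (Nat.add (Nat.add (Nat.add (Nat.add (Nat.add (Nat.add C x48368) x30872) x33788) x35732) x35084) x35264) x35240) x35248) x54928)
    (Nat.sub (Nat.sub (Nat.add (Nat.add (Nat.add (Nat.add (Nat.add (Nat.add (Nat.add (Nat.add (Nat.add (Nat.add (Nat.add C x35248) x48370) x30874) x33790) x35734) x35086) x35266) x35242) x35254) x35246) x35250) x54930) x15566)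
    (Nat.sub (Nat.add (Nat.add (Nat.add (Nat.add (Nat.add (Nat.add (Nat.add (Nat.add C x48372) x30876) x33792) x35736) x35088) x35268) x35256) x35248) x15568)
    (Nat.sub (Nat.sub (Nat.sub (Nat.add (Nat.add (Nat.add (Nat.add (Nat.add (Nat.add (Nat.add (Nat.add C x48376) x30880) x33796) x35740) x35092) x35272) x35248) x35256) x35254) x54936) x15572)
    (Nat.sub (Nat.add (Nat.add (Nat.add (Nat.add (Nat.add (Nat.add (Nat.add (Nat.add C x48378) x30882) x33798) x35742) x35094) x35274) x35250) x35254) x15574)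
    (Nat.sub (Nat.add (Nat.add (Nat.add (Nat.add (Nat.add (Nat.add (Nat.add (Nat.add C x48386) x30890) x33806) x35750) x35102) x35318) x35246) x35266) x54946)
    (Nat.sub (Nat.sub (Nat.add (Nat.add (Nat.add (Nat.add (Nat.add (Nat.add (Nat.add (Nat.add (Nat.add (Nat.add C x48388) x30892) x33808) x35752) x35104) x35320) x35248) x35272) x35264) x35268) x54948) x15584)
    (Nat.sub (Nat.sub (Nat.add (Nat.add (Nat.add (Nat.add (Nat.add (Nat.add (Nat.add (Nat.add (Nat.add C x48390) x30894) x33810) x35754) x35106) x35322) x35250) x35274) x35266) (Nat.mul x35268 (nat_lit 2))) x15586)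
    (Nat.sub (Nat.sub (Nat.add (Nat.add (Nat.add (Nat.add (Nat.add (Nat.add (Nat.add (Nat.add (Nat.add (Nat.add C x48394) x30898) x33814) x35758) x35110) x35326) x35254) x35290) x35266) x35274) x54954) x15590)
    (Nat.sub (Nat.add (Nat.add (Nat.add (Nat.add (Nat.add (Nat.add (Nat.add (Nat.add (Nat.add (Nat.add (Nat.add C x48396) x30900) x33816) x35760) x35112) x35328) x35256) x35292) x35268) x35280) x35272) x15592)
    (Nat.sub (Nat.add (Nat.add (Nat.add (Nat.add (Nat.add (Nat.add (Nat.add (Nat.add C x48402) x30906) x33822) x35766) x35118) x35334) x35298) x35274) x15598)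
    (Nat.sub (Nat.sub (Nat.sub (Nat.add (Nat.add (Nat.add (Nat.add (Nat.add (Nat.add (Nat.add (Nat.add C x48412) x30916) x33832) x35776) x35128) x35344) x35272) x35292) x35290) x54972) x15608)
    (Nat.sub (Nat.sub (Nat.add (Nat.add (Nat.add (Nat.add (Nat.add (Nat.add (Nat.add (Nat.add (Nat.add C x48414) x30918) x33834) x35778) x35130) x35346) x35274) x35298) x35290) (Nat.mul x35292 (nat_lit 2))) x15610)
    (Nat.sub (Nat.add (Nat.add (Nat.add (Nat.add (Nat.add (Nat.add (Nat.add (Nat.add C x48420) x30924) x33840) x35784) x35136) x35352) x35280) x35292) x15616)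
    (Nat.sub (Nat.add (Nat.add (Nat.add (Nat.add (Nat.add (Nat.add (Nat.add (Nat.add (Nat.add C x35318) x48440) x30944) x33860) x35804) x35156) x35480) x35264) x35320) x55000)
    (Nat.sub (Nat.sub (Nat.add (Nat.add (Nat.add (Nat.add (Nat.add (Nat.add (Nat.add (Nat.add (Nat.add (Nat.add (Nat.add C x35320) x48442) x30946) x33862) x35806) x35158) x35482) x35266) x35326) x35318) x35322) x55002) x15638)
    (Nat.sub (Nat.sub (Nat.add (Nat.add (Nat.add (Nat.add (Nat.add (Nat.add (Nat.add (Nat.add (Nat.add C x48444) x30948) x33864) x35808) x35160) x35484) x35268) x35328) x35320) x35322) x15640)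
    (Nat.sub (Nat.sub (Nat.add (Nat.add (Nat.add (Nat.add (Nat.add (Nat.add (Nat.add (Nat.add (Nat.add (Nat.add C x48448) x30952) x33868) x35812) x35164) x35488) x35272) x35344) x35320) x35328) x55008) x15644)
    (Nat.sub (Nat.add (Nat.add (Nat.add (Nat.add (Nat.add (Nat.add (Nat.add (Nat.add (Nat.add (Nat.add (Nat.add C x48450) x30954) x33870) x35814) x35166) x35490) x35274) x35346) x35322) x35334) x35326) x15646)
    (Nat.sub (Nat.sub (Nat.add (Nat.add (Nat.add (Nat.add (Nat.add (Nat.add (Nat.add (Nat.add (Nat.add C x48456) x30960) x33876) x35820) x35172) x35496) x35280) x35352) x35328) x35334) x15652)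
    (Nat.sub (Nat.sub (Nat.add (Nat.add (Nat.add (Nat.add (Nat.add (Nat.add (Nat.add (Nat.add (Nat.add (Nat.add (Nat.add C x35344) x48466) x30970) x33886) x35830) x35182) x35506) x35290) x35398) x35326) x35346) x55026) x15662)
    (Nat.sub (Nat.add (Nat.add (Nat.add (Nat.add (Nat.add (Nat.add (Nat.add (Nat.add (Nat.add (Nat.add (Nat.add C x48468) x30972) x33888) x35832) x35184) x35508) x35292) x35400) x35328) x35352) x35344) x15664)
    (Nat.sub (Nat.add (Nat.add (Nat.add (Nat.add (Nat.add (Nat.add (Nat.add (Nat.add (Nat.add (Nat.add (Nat.add (Nat.add C x35352) x48474) x30978) x33894) x35838) x35190) x35514) x35298) x35406) x35334) x35370) x35346) x15670)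
    (Nat.sub (Nat.add (Nat.add (Nat.add (Nat.add (Nat.add (Nat.add (Nat.add (Nat.add (Nat.add C x35370) x48492) x30996) x33912) x35856) x35208) x35532) x35424) x35352) x15688)
    (Nat.sub (Nat.sub (Nat.add (Nat.add (Nat.add (Nat.add (Nat.add (Nat.add (Nat.add (Nat.add C x35398) x48520) x31024) x33940) x35884) x35560) x35344) x35400) x55080) x15716)
    (Nat.sub (Nat.add (Nat.add (Nat.add (Nat.add (Nat.add (Nat.add (Nat.add (Nat.add C x48522) x31026) x33942) x35886) x35562) x35346) x35406) x35398) x15718)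
    (Nat.sub (Nat.add (Nat.add (Nat.add (Nat.add (Nat.add (Nat.add (Nat.add (Nat.add C x48528) x31032) x33948) x35892) x35568) x35352) x35424) x35400) x15724)
    (Nat.sub (Nat.add (Nat.add (Nat.add (Nat.add (Nat.add (Nat.add (Nat.add (Nat.add C (Nat.mul x35424 (nat_lit 2))) x48546) x31050) x33966) x35910) x35586) x35370) x35406) x15742)
    (Nat.sub (Nat.add (Nat.add (Nat.add (Nat.add (Nat.add (Nat.add C x48602) x31106) x34022) x35966) x35318) x35482) x55162)
    (Nat.sub (Nat.sub (Nat.add (Nat.add (Nat.add (Nat.add (Nat.add (Nat.add (Nat.add (Nat.add C x48604) x31108) x34024) x35968) x35320) x35488) x35480) x35484) x55164) x15800)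
    (Nat.sub (Nat.sub (Nat.add (Nat.add (Nat.add (Nat.add (Nat.add (Nat.add (Nat.add C x48606) x31110) x34026) x35970) x35322) x35490) x35482) (Nat.mul x35484 (nat_lit 2))) x15802)
    (Nat.sub (Nat.sub (Nat.sub (Nat.add (Nat.add (Nat.add (Nat.add (Nat.add (Nat.add (Nat.add (Nat.add C x48610) x31114) x34030) x35974) x35326) x35506) x35482) x35490) x35488) x55170) x15806)
    (Nat.sub (Nat.sub (Nat.add (Nat.add (Nat.add (Nat.add (Nat.add (Nat.add (Nat.add (Nat.add (Nat.add C x48612) x31116) x34032) x35976) x35328) x35508) x35484) x35496) x35488) x35490) x15808)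
    (Nat.sub (Nat.sub (Nat.add (Nat.add (Nat.add (Nat.add (Nat.add (Nat.add (Nat.add C x48618) x31122) x34038) x35982) x35334) x35514) x35490) (Nat.mul x35496 (nat_lit 2))) x15814)
    (Nat.sub (Nat.sub (Nat.sub (Nat.add (Nat.add (Nat.add (Nat.add (Nat.add (Nat.add (Nat.add (Nat.add C x48628) x31132) x34048) x35992) x35344) x35560) x35488) x35508) x35506) x55188) x15824)
    (Nat.sub (Nat.sub (Nat.add (Nat.add (Nat.add (Nat.add (Nat.add (Nat.add (Nat.add (Nat.add (Nat.add C x48630) x31134) x34050) x35994) x35346) x35562) x35490) x35514) x35506) (Nat.mul x35508 (nat_lit 2))) x15826)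
    (Nat.sub (Nat.sub (Nat.add (Nat.add (Nat.add (Nat.add (Nat.add (Nat.add (Nat.add (Nat.add (Nat.add C x48636) x31140) x34056) x36000) x35352) x35568) x35496) x35532) x35508) x35514) x15832)
    (Nat.sub (Nat.sub (Nat.add (Nat.add (Nat.add (Nat.add (Nat.add (Nat.add (Nat.add C x48654) x31158) x34074) x36018) x35370) x35586) x35514) (Nat.mul x35532 (nat_lit 2))) x15850)
    (Nat.sub (Nat.sub (Nat.add (Nat.add (Nat.add (Nat.add (Nat.add (Nat.add (Nat.add (Nat.add C x35560) x48682) x31186) x34102) x36046) x35398) x35506) x35562) x55242) x15878)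
    (Nat.sub (Nat.add (Nat.add (Nat.add (Nat.add (Nat.add (Nat.add (Nat.add (Nat.add C x48684) x31188) x34104) x36048) x35400) x35508) x35568) x35560) x15880)
    (Nat.sub (Nat.add (Nat.add (Nat.add (Nat.add (Nat.add (Nat.add (Nat.add (Nat.add C x48690) x31194) x34110) x36054) x35406) x35514) x35586) x35562) x15886)
    (Nat.sub (Nat.add (Nat.add (Nat.add (Nat.add (Nat.add (Nat.add (Nat.add (Nat.add (Nat.add C x35586) x48708) x31212) x34128) x36072) x35424) x35532) x35640) x35568) x15904)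
    (Nat.sub (Nat.add (Nat.add (Nat.add (Nat.add (Nat.add (Nat.add C (Nat.mul x35640 (nat_lit 2))) x48762) x31266) x34182) x36126) x35586) x15958)
    (Nat.sub (Nat.add (Nat.add (Nat.add (Nat.add (Nat.add (Nat.add (Nat.add (Nat.add C (Nat.mul x35726 (nat_lit 3))) x48848) x31352) x34268) x37184) x35240) x35732) x35728) x55408)
    (Nat.sub (Nat.sub (Nat.add (Nat.add (Nat.add (Nat.add (Nat.add (Nat.add (Nat.add (Nat.add C (Nat.mul x35728 (nat_lit 2))) x48850) x31354) x34270) x37186) x35242) x35734) x35726) x55410) x16046)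
    (Nat.sub (Nat.add (Nat.add (Nat.add (Nat.add (Nat.add (Nat.add (Nat.add (Nat.add (Nat.add C x35732) x48854) x31358) x34274) x37190) x35246) x35750) x35726) x35734) x55414)
    (Nat.sub (Nat.sub (Nat.add (Nat.add (Nat.add (Nat.add (Nat.add (Nat.add (Nat.add (Nat.add (Nat.add (Nat.add (Nat.add C (Nat.mul x35734 (nat_lit 2))) x48856) x31360) x34276) x37192) x35248) x35752) x35728) x35740) x35732) x35736) x55416) x16052)
    (Nat.sub (Nat.add (Nat.add (Nat.add (Nat.add (Nat.add (Nat.add (Nat.add (Nat.add (Nat.add C x35736) x48858) x31362) x34278) x37194) x35250) x35754) x35742) x35734) x16054)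
    (Nat.sub (Nat.sub (Nat.add (Nat.add (Nat.add (Nat.add (Nat.add (Nat.add (Nat.add (Nat.add C x48862) x31366) x34282) x37198) x35254) x35758) x35734) x35742) x55422) x16058)
    (Nat.sub (Nat.add (Nat.add (Nat.add (Nat.add (Nat.add (Nat.add (Nat.add (Nat.add (Nat.add C x35742) x48864) x31368) x34284) x37200) x35256) x35760) x35736) x35740) x16060)
    (Nat.sub (Nat.add (Nat.add (Nat.add (Nat.add (Nat.add (Nat.add (Nat.add (Nat.add (Nat.add C x35750) x48872) x31376) x34292) x37208) x35264) x35804) x35732) x35752) x55432)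
    (Nat.sub (Nat.sub (Nat.add (Nat.add (Nat.add (Nat.add (Nat.add (Nat.add (Nat.add (Nat.add (Nat.add (Nat.add (Nat.add C x35752) x48874) x31378) x34294) x37210) x35266) x35806) x35734) x35758) x35750) x35754) x55434) x16070)
    (Nat.sub (Nat.sub (Nat.add (Nat.add (Nat.add (Nat.add (Nat.add (Nat.add (Nat.add (Nat.add (Nat.add C x48876) x31380) x34296) x37212) x35268) x35808) x35736) x35760) x35752) x35754) x16072)
    (Nat.sub (Nat.sub (Nat.add (Nat.add (Nat.add (Nat.add (Nat.add (Nat.add (Nat.add (Nat.add (Nat.add (Nat.add (Nat.add C x35758) x48880) x31384) x34300) x37216) x35272) x35812) x35740) x35776) x35752) x35760) x55440) x16076)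
    (Nat.sub (Nat.add (Nat.add (Nat.add (Nat.add (Nat.add (Nat.add (Nat.add (Nat.add (Nat.add (Nat.add (Nat.add (Nat.add C x35760) x48882) x31386) x34302) x37218) x35274) x35814) x35742) x35778) x35754) x35766) x35758) x16078)
    (Nat.sub (Nat.add (Nat.add (Nat.add (Nat.add (Nat.add (Nat.add (Nat.add (Nat.add (Nat.add C x35766) x48888) x31392) x34308) x37224) x35280) x35820) x35784) x35760) x16084)
    (Nat.sub (Nat.sub (Nat.add (Nat.add (Nat.add (Nat.add (Nat.add (Nat.add (Nat.add (Nat.add C x48898) x31402) x34318) x37234) x35290) x35830) x35758) x35778) x55458) x16094)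
    (Nat.sub (Nat.sub (Nat.add (Nat.add (Nat.add (Nat.add (Nat.add (Nat.add (Nat.add (Nat.add (Nat.add C x48900) x31404) x34320) x37236) x35292) x35832) x35760) x35784) x35776) x35778) x16096)
    (Nat.sub (Nat.add (Nat.add (Nat.add (Nat.add (Nat.add (Nat.add (Nat.add (Nat.add (Nat.add C x35784) x48906) x31410) x34326) x37242) x35298) x35838) x35766) x35778) x16102)
    (Nat.sub (Nat.add (Nat.add (Nat.add (Nat.add (Nat.add (Nat.add (Nat.add (Nat.add (Nat.add C x35804) x48926) x31430) x34346) x37262) x35318) x35966) x35750) x35806) x55486)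
    (Nat.sub (Nat.sub (Nat.add (Nat.add (Nat.add (Nat.add (Nat.add (Nat.add (Nat.add (Nat.add (Nat.add (Nat.add (Nat.add C x35806) x48928) x31432) x34348) x37264) x35320) x35968) x35752) x35812) x35804) x35808) x55488) x16124)
    (Nat.sub (Nat.sub (Nat.add (Nat.add (Nat.add (Nat.add (Nat.add (Nat.add (Nat.add (Nat.add (Nat.add C x48930) x31434) x34350) x37266) x35322) x35970) x35754) x35814) x35806) x35808) x16126)
    (Nat.sub (Nat.sub (Nat.add (Nat.add (Nat.add (Nat.add (Nat.add (Nat.add (Nat.add (Nat.add (Nat.add (Nat.add C x48934) x31438) x34354) x37270) x35326) x35974) x35758) x35830) x35806) x35814) x55494) x16130)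
    (Nat.sub (Nat.add (Nat.add (Nat.add (Nat.add (Nat.add (Nat.add (Nat.add (Nat.add (Nat.add (Nat.add (Nat.add C x48936) x31440) x34356) x37272) x35328) x35976) x35760) x35832) x35808) x35820) x35812) x16132)
    (Nat.sub (Nat.sub (Nat.add (Nat.add (Nat.add (Nat.add (Nat.add (Nat.add (Nat.add (Nat.add (Nat.add C x48942) x31446) x34362) x37278) x35334) x35982) x35766) x35838) x35814) x35820) x16138)
    (Nat.sub (Nat.sub (Nat.add (Nat.add (Nat.add (Nat.add (Nat.add (Nat.add (Nat.add (Nat.add (Nat.add (Nat.add (Nat.add C x35830) x48952) x31456) x34372) x37288) x35344) x35992) x35776) x35884) x35812) x35832) x55512) x16148)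
    (Nat.sub (Nat.add (Nat.add (Nat.add (Nat.add (Nat.add (Nat.add (Nat.add (Nat.add (Nat.add (Nat.add (Nat.add C x48954) x31458) x34374) x37290) x35346) x35994) x35778) x35886) x35814) x35838) x35830) x16150)
    (Nat.sub (Nat.add (Nat.add (Nat.add (Nat.add (Nat.add (Nat.add (Nat.add (Nat.add (Nat.add (Nat.add (Nat.add (Nat.add C x35838) x48960) x31464) x34380) x37296) x35352) x36000) x35784) x35892) x35820) x35856) x35832) x16156)
    (Nat.sub (Nat.add (Nat.add (Nat.add (Nat.add (Nat.add (Nat.add (Nat.add (Nat.add (Nat.add C x35856) x48978) x31482) x34398) x37314) x35370) x36018) x35910) x35838) x16174)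
    (Nat.sub (Nat.sub (Nat.add (Nat.add (Nat.add (Nat.add (Nat.add (Nat.add (Nat.add (Nat.add C x49006) x31510) x34426) x37342) x35398) x36046) x35830) x35886) x55566) x16202)
    (Nat.sub (Nat.sub (Nat.add (Nat.add (Nat.add (Nat.add (Nat.add (Nat.add (Nat.add (Nat.add (Nat.add C x49008) x31512) x34428) x37344) x35400) x36048) x35832) x35892) x35884) x35886) x16204)
    (Nat.sub (Nat.sub (Nat.add (Nat.add (Nat.add (Nat.add (Nat.add (Nat.add (Nat.add (Nat.add (Nat.add C x49014) x31518) x34434) x37350) x35406) x36054) x35838) x35910) x35886) x35892) x16210)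
    (Nat.sub (Nat.add (Nat.add (Nat.add (Nat.add (Nat.add (Nat.add (Nat.add (Nat.add (Nat.add C x35910) x49032) x31536) x34452) x37368) x35424) x36072) x35856) x35892) x16228)
    (Nat.sub (Nat.add (Nat.add (Nat.add (Nat.add (Nat.add (Nat.add (Nat.add (Nat.add (Nat.add C (Nat.mul x35966 (nat_lit 2))) x49088) x31592) x34508) x37424) x35480) x36452) x35804) x35968) x55648)
    (Nat.sub (Nat.sub (Nat.add (Nat.add (Nat.add (Nat.add (Nat.add (Nat.add (Nat.add (Nat.add (Nat.add (Nat.add (Nat.add C (Nat.mul x35968 (nat_lit 2))) x49090) x31594) x34510) x37426) x35482) x36454) x35806) x35974) x35966) x35970) x55650) x16286)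
    (Nat.sub (Nat.add (Nat.add (Nat.add (Nat.add (Nat.add (Nat.add (Nat.add (Nat.add (Nat.add C x49092) x31596) x34512) x37428) x35484) x36456) x35808) x35976) x35968) x16288)
    (Nat.sub (Nat.sub (Nat.add (Nat.add (Nat.add (Nat.add (Nat.add (Nat.add (Nat.add (Nat.add (Nat.add (Nat.add (Nat.add C x35974) x49096) x31600) x34516) x37432) x35488) x36460) x35812) x35992) x35968) x35976) x55656) x16292)
    (Nat.sub (Nat.add (Nat.add (Nat.add (Nat.add (Nat.add (Nat.add (Nat.add (Nat.add (Nat.add (Nat.add (Nat.add (Nat.add C x35976) x49098) x31602) x34518) x37434) x35490) x36462) x35814) x35994) x35970) x35982) x35974) x16294)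
    (Nat.sub (Nat.add (Nat.add (Nat.add (Nat.add (Nat.add (Nat.add (Nat.add (Nat.add (Nat.add C x49104) x31608) x34524) x37440) x35496) x36468) x35820) x36000) x35976) x16300)
    (Nat.sub (Nat.sub (Nat.add (Nat.add (Nat.add (Nat.add (Nat.add (Nat.add (Nat.add (Nat.add (Nat.add (Nat.add (Nat.add C x35992) x49114) x31618) x34534) x37450) x35506) x36478) x35830) x36046) x35974) x35994) x55674) x16310)
    (Nat.sub (Nat.add (Nat.add (Nat.add (Nat.add (Nat.add (Nat.add (Nat.add (Nat.add (Nat.add (Nat.add (Nat.add C x49116) x31620) x34536) x37452) x35508) x36480) x35832) x36048) x35976) x36000) x35992) x16312)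
    (Nat.sub (Nat.add (Nat.add (Nat.add (Nat.add (Nat.add (Nat.add (Nat.add (Nat.add (Nat.add (Nat.add (Nat.add (Nat.add C x36000) x49122) x31626) x34542) x37458) x35514) x36486) x35838) x36054) x35982) x36018) x35994) x16318)
    (Nat.sub (Nat.add (Nat.add (Nat.add (Nat.add (Nat.add (Nat.add (Nat.add (Nat.add (Nat.add C x49140) x31644) x34560) x37476) x35532) x36504) x35856) x36072) x36000) x16336)
    (Nat.sub (Nat.sub (Nat.add (Nat.add (Nat.add (Nat.add (Nat.add (Nat.add (Nat.add (Nat.add (Nat.add (Nat.add (Nat.add C (Nat.mul x36046 (nat_lit 2))) x49168) x31672) x34588) x37504) x35560) x36532) x35884) x36208) x35992) x36048) x55728) x16364)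
    (Nat.sub (Nat.add (Nat.add (Nat.add (Nat.add (Nat.add (Nat.add (Nat.add (Nat.add (Nat.add (Nat.add (Nat.add (Nat.add C x36048) x49170) x31674) x34590) x37506) x35562) x36534) x35886) x36210) x35994) x36054) x36046) x16366)
    (Nat.sub (Nat.add (Nat.add (Nat.add (Nat.add (Nat.add (Nat.add (Nat.add (Nat.add (Nat.add (Nat.add (Nat.add (Nat.add C x36054) x49176) x31680) x34596) x37512) x35568) x36540) x35892) x36216) x36000) x36072) x36048) x16372)
    (Nat.sub (Nat.add (Nat.add (Nat.add (Nat.add (Nat.add (Nat.add (Nat.add (Nat.add (Nat.add (Nat.add (Nat.add (Nat.add C (Nat.mul x36072 (nat_lit 2))) x49194) x31698) x34614) x37530) x35586) x36558) x35910) x36234) x36018) x36126) x36054) x16390)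
    (Nat.sub (Nat.add (Nat.add (Nat.add (Nat.add (Nat.add (Nat.add (Nat.add (Nat.add (Nat.add C (Nat.mul x36126 (nat_lit 2))) x49248) x31752) x34668) x37584) x35640) x36612) x36288) x36072) x16444)
    (Nat.sub (Nat.sub (Nat.add (Nat.add (Nat.add (Nat.add (Nat.add (Nat.add (Nat.add (Nat.add C (Nat.mul x36208 (nat_lit 2))) x49330) x31834) x34750) x37666) x36694) x36046) x36210) x55890) x16526)
    (Nat.sub (Nat.add (Nat.add (Nat.add (Nat.add (Nat.add (Nat.add (Nat.add (Nat.add (Nat.add C x36210) x49332) x31836) x34752) x37668) x36696) x36048) x36216) x36208) x16528)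
    (Nat.sub (Nat.add (Nat.add (Nat.add (Nat.add (Nat.add (Nat.add (Nat.add (Nat.add (Nat.add C x36216) x49338) x31842) x34758) x37674) x36702) x36054) x36234) x36210) x16534)
    (Nat.sub (Nat.add (Nat.add (Nat.add (Nat.add (Nat.add (Nat.add (Nat.add (Nat.add (Nat.add C x36234) x49356) x31860) x34776) x37692) x36720) x36072) x36288) x36216) x16552)
    (Nat.sub (Nat.add (Nat.add (Nat.add (Nat.add (Nat.add (Nat.add (Nat.add (Nat.add C (Nat.mul x36288 (nat_lit 3))) x49410) x31914) x34830) x37746) x36774) x36126) x36234) x16606)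
    (Nat.sub (Nat.add (Nat.add (Nat.add (Nat.add (Nat.add (Nat.add C (Nat.mul x36452 (nat_lit 2))) x49574) x32078) x37910) x35966) x36454) x56134)
    (Nat.sub (Nat.sub (Nat.add (Nat.add (Nat.add (Nat.add (Nat.add (Nat.add (Nat.add (Nat.add C (Nat.mul x36454 (nat_lit 2))) x49576) x32080) x37912) x35968) x36460) x36452) x36456) x56136) x16772)
    (Nat.sub (Nat.add (Nat.add (Nat.add (Nat.add (Nat.add (Nat.add C x49578) x32082) x37914) x35970) x36462) x36454) x16774)
    (Nat.sub (Nat.sub (Nat.add (Nat.add (Nat.add (Nat.add (Nat.add (Nat.add (Nat.add (Nat.add C x36460) x49582) x32086) x37918) x35974) x36478) x36454) x36462) x56142) x16778)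
    (Nat.sub (Nat.add (Nat.add (Nat.add (Nat.add (Nat.add (Nat.add (Nat.add (Nat.add (Nat.add C x36462) x49584) x32088) x37920) x35976) x36480) x36456) x36468) x36460) x16780)
    (Nat.sub (Nat.add (Nat.add (Nat.add (Nat.add (Nat.add (Nat.add C x49590) x32094) x37926) x35982) x36486) x36462) x16786)
    (Nat.sub (Nat.sub (Nat.add (Nat.add (Nat.add (Nat.add (Nat.add (Nat.add (Nat.add (Nat.add C x36478) x49600) x32104) x37936) x35992) x36532) x36460) x36480) x56160) x16796)
    (Nat.sub (Nat.add (Nat.add (Nat.add (Nat.add (Nat.add (Nat.add (Nat.add (Nat.add C x49602) x32106) x37938) x35994) x36534) x36462) x36486) x36478) x16798)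
    (Nat.sub (Nat.add (Nat.add (Nat.add (Nat.add (Nat.add (Nat.add (Nat.add (Nat.add (Nat.add C x36486) x49608) x32112) x37944) x36000) x36540) x36468) x36504) x36480) x16804)
    (Nat.sub (Nat.add (Nat.add (Nat.add (Nat.add (Nat.add (Nat.add C x49626) x32130) x37962) x36018) x36558) x36486) x16822)
    (Nat.sub (Nat.sub (Nat.add (Nat.add (Nat.add (Nat.add (Nat.add (Nat.add (Nat.add (Nat.add C x36532) x49654) x32158) x37990) x36046) x36694) x36478) x36534) x56214) x16850)
    (Nat.sub (Nat.add (Nat.add (Nat.add (Nat.add (Nat.add (Nat.add (Nat.add (Nat.add C x49656) x32160) x37992) x36048) x36696) x36480) x36540) x36532) x16852)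
    (Nat.sub (Nat.add (Nat.add (Nat.add (Nat.add (Nat.add (Nat.add (Nat.add (Nat.add C x49662) x32166) x37998) x36054) x36702) x36486) x36558) x36534) x16858)
    (Nat.sub (Nat.add (Nat.add (Nat.add (Nat.add (Nat.add (Nat.add (Nat.add (Nat.add (Nat.add C x36558) x49680) x32184) x38016) x36072) x36720) x36504) x36612) x36540) x16876)
    (Nat.sub (Nat.add (Nat.add (Nat.add (Nat.add (Nat.add (Nat.add C x49734) x32238) x38070) x36126) x36774) x36558) x16930)
    (Nat.sub (Nat.sub (Nat.add (Nat.add (Nat.add (Nat.add (Nat.add (Nat.add (Nat.add C (Nat.mul x36694 (nat_lit 3))) x49816) x32320) x38152) x36208) x36532) x36696) x56376) x17012)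
    (Nat.sub (Nat.add (Nat.add (Nat.add (Nat.add (Nat.add (Nat.add (Nat.add (Nat.add C (Nat.mul x36696 (nat_lit 2))) x49818) x32322) x38154) x36210) x36534) x36702) x36694) x17014)
    (Nat.sub (Nat.add (Nat.add (Nat.add (Nat.add (Nat.add (Nat.add (Nat.add (Nat.add C (Nat.mul x36702 (nat_lit 2))) x49824) x32328) x38160) x36216) x36540) x36720) x36696) x17020)
    (Nat.sub (Nat.add (Nat.add (Nat.add (Nat.add (Nat.add (Nat.add (Nat.add (Nat.add C (Nat.mul x36720 (nat_lit 2))) x49842) x32346) x38178) x36234) x36558) x36774) x36702) x17038)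
    (Nat.sub (Nat.add (Nat.add (Nat.add (Nat.add (Nat.add (Nat.add (Nat.add (Nat.add C (Nat.mul x36774 (nat_lit 3))) x49896) x32400) x38232) x36288) x36612) x36936) x36720) x17092)
    (Nat.sub (Nat.add (Nat.add (Nat.add (Nat.add (Nat.add C (Nat.mul x36936 (nat_lit 4))) x50058) x32562) x38394) x36774) x17254)
    (Nat.sub (Nat.add (Nat.add (Nat.add (Nat.add (Nat.add C (Nat.mul x37184 (nat_lit 4))) x50306) x35726) x37190) x37186) x56866)
    (Nat.sub (Nat.sub (Nat.add (Nat.add (Nat.add (Nat.add (Nat.add C (Nat.mul x37186 (nat_lit 3))) x50308) x35728) x37192) x37184) x56868) x17504)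
    (Nat.sub (Nat.add (Nat.add (Nat.add (Nat.add (Nat.add (Nat.add C (Nat.mul x37190 (nat_lit 2))) x50312) x35732) x37208) x37184) x37192) x56872)
    (Nat.sub (Nat.sub (Nat.add (Nat.add (Nat.add (Nat.add (Nat.add (Nat.add (Nat.add (Nat.add C (Nat.mul x37192 (nat_lit 3))) x50314) x35734) x37210) x37186) x37198) x37190) x37194) x56874) x17510)
    (Nat.sub (Nat.add (Nat.add (Nat.add (Nat.add (Nat.add (Nat.add C (Nat.mul x37194 (nat_lit 2))) x50316) x35736) x37212) x37200) x37192) x17512)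
    (Nat.sub (Nat.sub (Nat.add (Nat.add (Nat.add (Nat.add (Nat.add (Nat.add C x37198) x50320) x35740) x37216) x37192) x37200) x56880) x17516)
    (Nat.sub (Nat.add (Nat.add (Nat.add (Nat.add (Nat.add (Nat.add C (Nat.mul x37200 (nat_lit 2))) x50322) x35742) x37218) x37194) x37198) x17518)
    (Nat.sub (Nat.add (Nat.add (Nat.add (Nat.add (Nat.add (Nat.add C (Nat.mul x37208 (nat_lit 2))) x50330) x35750) x37262) x37190) x37210) x56890)
    (Nat.sub (Nat.sub (Nat.add (Nat.add (Nat.add (Nat.add (Nat.add (Nat.add (Nat.add (Nat.add C (Nat.mul x37210 (nat_lit 2))) x50332) x35752) x37264) x37192) x37216) x37208) x37212) x56892) x17528)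
    (Nat.sub (Nat.add (Nat.add (Nat.add (Nat.add (Nat.add (Nat.add C x50334) x35754) x37266) x37194) x37218) x37210) x17530)
    (Nat.sub (Nat.sub (Nat.add (Nat.add (Nat.add (Nat.add (Nat.add (Nat.add (Nat.add (Nat.add C (Nat.mul x37216 (nat_lit 2))) x50338) x35758) x37270) x37198) x37234) x37210) x37218) x56898) x17534)
    (Nat.sub (Nat.add (Nat.add (Nat.add (Nat.add (Nat.add (Nat.add (Nat.add (Nat.add (Nat.add C (Nat.mul x37218 (nat_lit 2))) x50340) x35760) x37272) x37200) x37236) x37212) x37224) x37216) x17536)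
    (Nat.sub (Nat.add (Nat.add (Nat.add (Nat.add (Nat.add (Nat.add C (Nat.mul x37224 (nat_lit 2))) x50346) x35766) x37278) x37242) x37218) x17542)
    (Nat.sub (Nat.sub (Nat.add (Nat.add (Nat.add (Nat.add (Nat.add (Nat.add C x37234) x50356) x35776) x37288) x37216) x37236) x56916) x17552)
    (Nat.sub (Nat.add (Nat.add (Nat.add (Nat.add (Nat.add (Nat.add C x50358) x35778) x37290) x37218) x37242) x37234) x17554)
    (Nat.sub (Nat.add (Nat.add (Nat.add (Nat.add (Nat.add (Nat.add C (Nat.mul x37242 (nat_lit 2))) x50364) x35784) x37296) x37224) x37236) x17560)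
    (Nat.sub (Nat.add (Nat.add (Nat.add (Nat.add (Nat.add (Nat.add C (Nat.mul x37262 (nat_lit 2))) x50384) x35804) x37424) x37208) x37264) x56944)
    (Nat.sub (Nat.sub (Nat.add (Nat.add (Nat.add (Nat.add (Nat.add (Nat.add (Nat.add (Nat.add C (Nat.mul x37264 (nat_lit 2))) x50386) x35806) x37426) x37210) x37270) x37262) x37266) x56946) x17582)
    (Nat.sub (Nat.add (Nat.add (Nat.add (Nat.add (Nat.add (Nat.add C x50388) x35808) x37428) x37212) x37272) x37264) x17584)
    (Nat.sub (Nat.sub (Nat.add (Nat.add (Nat.add (Nat.add (Nat.add (Nat.add (Nat.add (Nat.add C x37270) x50392) x35812) x37432) x37216) x37288) x37264) x37272) x56952) x17588)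
    (Nat.sub (Nat.add (Nat.add (Nat.add (Nat.add (Nat.add (Nat.add (Nat.add (Nat.add (Nat.add C x37272) x50394) x35814) x37434) x37218) x37290) x37266) x37278) x37270) x17590)
    (Nat.sub (Nat.add (Nat.add (Nat.add (Nat.add (Nat.add (Nat.add C x50400) x35820) x37440) x37224) x37296) x37272) x17596)
    (Nat.sub (Nat.sub (Nat.add (Nat.add (Nat.add (Nat.add (Nat.add (Nat.add (Nat.add (Nat.add C (Nat.mul x37288 (nat_lit 2))) x50410) x35830) x37450) x37234) x37342) x37270) x37290) x56970) x17606)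
    (Nat.sub (Nat.add (Nat.add (Nat.add (Nat.add (Nat.add (Nat.add (Nat.add (Nat.add (Nat.add C x37290) x50412) x35832) x37452) x37236) x37344) x37272) x37296) x37288) x17608)
    (Nat.sub (Nat.add (Nat.add (Nat.add (Nat.add (Nat.add (Nat.add (Nat.add (Nat.add (Nat.add C (Nat.mul x37296 (nat_lit 2))) x50418) x35838) x37458) x37242) x37350) x37278) x37314) x37290) x17614)
    (Nat.sub (Nat.add (Nat.add (Nat.add (Nat.add (Nat.add (Nat.add C (Nat.mul x37314 (nat_lit 2))) x50436) x35856) x37476) x37368) x37296) x17632)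
    (Nat.sub (Nat.sub (Nat.add (Nat.add (Nat.add (Nat.add (Nat.add (Nat.add C x37342) x50464) x35884) x37504) x37288) x37344) x57024) x17660)
    (Nat.sub (Nat.add (Nat.add (Nat.add (Nat.add (Nat.add (Nat.add C x50466) x35886) x37506) x37290) x37350) x37342) x17662)
    (Nat.sub (Nat.add (Nat.add (Nat.add (Nat.add (Nat.add (Nat.add C x50472) x35892) x37512) x37296) x37368) x37344) x17668)
    (Nat.sub (Nat.add (Nat.add (Nat.add (Nat.add (Nat.add (Nat.add C (Nat.mul x37368 (nat_lit 2))) x50490) x35910) x37530) x37314) x37350) x17686)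
    (Nat.sub (Nat.add (Nat.add (Nat.add (Nat.add (Nat.add (Nat.add C (Nat.mul x37424 (nat_lit 2))) x50546) x35966) x37910) x37262) x37426) x57106)
    (Nat.sub (Nat.sub (Nat.add (Nat.add (Nat.add (Nat.add (Nat.add (Nat.add (Nat.add (Nat.add C (Nat.mul x37426 (nat_lit 2))) x50548) x35968) x37912) x37264) x37432) x37424) x37428) x57108) x17744)
    (Nat.sub (Nat.add (Nat.add (Nat.add (Nat.add (Nat.add (Nat.add C x50550) x35970) x37914) x37266) x37434) x37426) x17746)
    (Nat.sub (Nat.sub (Nat.add (Nat.add (Nat.add (Nat.add (Nat.add (Nat.add (Nat.add (Nat.add C x37432) x50554) x35974) x37918) x37270) x37450) x37426) x37434) x57114) x17750)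
    (Nat.sub (Nat.add (Nat.add (Nat.add (Nat.add (Nat.add (Nat.add (Nat.add (Nat.add (Nat.add C x37434) x50556) x35976) x37920) x37272) x37452) x37428) x37440) x37432) x17752)
    (Nat.sub (Nat.add (Nat.add (Nat.add (Nat.add (Nat.add (Nat.add C x50562) x35982) x37926) x37278) x37458) x37434) x17758)
    (Nat.sub (Nat.sub (Nat.add (Nat.add (Nat.add (Nat.add (Nat.add (Nat.add (Nat.add (Nat.add C x37450) x50572) x35992) x37936) x37288) x37504) x37432) x37452) x57132) x17768)
    (Nat.sub (Nat.add (Nat.add (Nat.add (Nat.add (Nat.add (Nat.add (Nat.add (Nat.add C x50574) x35994) x37938) x37290) x37506) x37434) x37458) x37450) x17770)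
    (Nat.sub (Nat.add (Nat.add (Nat.add (Nat.add (Nat.add (Nat.add (Nat.add (Nat.add (Nat.add C x37458) x50580) x36000) x37944) x37296) x37512) x37440) x37476) x37452) x17776)
    (Nat.sub (Nat.add (Nat.add (Nat.add (Nat.add (Nat.add (Nat.add C x50598) x36018) x37962) x37314) x37530) x37458) x17794)
    (Nat.sub (Nat.sub (Nat.add (Nat.add (Nat.add (Nat.add (Nat.add (Nat.add (Nat.add (Nat.add C (Nat.mul x37504 (nat_lit 2))) x50626) x36046) x37990) x37342) x37666) x37450) x37506) x57186) x17822)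
    (Nat.sub (Nat.add (Nat.add (Nat.add (Nat.add (Nat.add (Nat.add (Nat.add (Nat.add (Nat.add C x37506) x50628) x36048) x37992) x37344) x37668) x37452) x37512) x37504) x17824)
    (Nat.sub (Nat.add (Nat.add (Nat.add (Nat.add (Nat.add (Nat.add (Nat.add (Nat.add (Nat.add C x37512) x50634) x36054) x37998) x37350) x37674) x37458) x37530) x37506) x17830)
    (Nat.sub (Nat.add (Nat.add (Nat.add (Nat.add (Nat.add (Nat.add (Nat.add (Nat.add (Nat.add C (Nat.mul x37530 (nat_lit 2))) x50652) x36072) x38016) x37368) x37692) x37476) x37584) x37512) x17848)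
    (Nat.sub (Nat.add (Nat.add (Nat.add (Nat.add (Nat.add (Nat.add C (Nat.mul x37584 (nat_lit 2))) x50706) x36126) x38070) x37746) x37530) x17902)
    (Nat.sub (Nat.sub (Nat.add (Nat.add (Nat.add (Nat.add (Nat.add (Nat.add C x37666) x50788) x36208) x38152) x37504) x37668) x57348) x17984)
    (Nat.sub (Nat.add (Nat.add (Nat.add (Nat.add (Nat.add (Nat.add C x50790) x36210) x38154) x37506) x37674) x37666) x17986)
    (Nat.sub (Nat.add (Nat.add (Nat.add (Nat.add (Nat.add (Nat.add C x50796) x36216) x38160) x37512) x37692) x37668) x17992)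
    (Nat.sub (Nat.add (Nat.add (Nat.add (Nat.add (Nat.add (Nat.add C x50814) x36234) x38178) x37530) x37746) x37674) x18010)
    (Nat.sub (Nat.add (Nat.add (Nat.add (Nat.add (Nat.add (Nat.add C (Nat.mul x37746 (nat_lit 2))) x50868) x36288) x38232) x37584) x37692) x18064)
    (Nat.sub (Nat.add (Nat.add (Nat.add (Nat.add (Nat.add C (Nat.mul x37910 (nat_lit 4))) x51032) x36452) x37424) x37912) x57592)
    (Nat.sub (Nat.sub (Nat.add (Nat.add (Nat.add (Nat.add (Nat.add (Nat.add (Nat.add C (Nat.mul x37912 (nat_lit 4))) x51034) x36454) x37426) x37918) x37910) x37914) x57594) x18230)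
    (Nat.sub (Nat.add (Nat.add (Nat.add (Nat.add (Nat.add (Nat.add C (Nat.mul x37914 (nat_lit 2))) x51036) x36456) x37428) x37920) x37912) x18232)
    (Nat.sub (Nat.sub (Nat.add (Nat.add (Nat.add (Nat.add (Nat.add (Nat.add (Nat.add C (Nat.mul x37918 (nat_lit 3))) x51040) x36460) x37432) x37936) x37912) x37920) x57600) x18236)
    (Nat.sub (Nat.add (Nat.add (Nat.add (Nat.add (Nat.add (Nat.add (Nat.add (Nat.add C (Nat.mul x37920 (nat_lit 3))) x51042) x36462) x37434) x37938) x37914) x37926) x37918) x18238)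
    (Nat.sub (Nat.add (Nat.add (Nat.add (Nat.add (Nat.add (Nat.add C (Nat.mul x37926 (nat_lit 2))) x51048) x36468) x37440) x37944) x37920) x18244)
    (Nat.sub (Nat.sub (Nat.add (Nat.add (Nat.add (Nat.add (Nat.add (Nat.add (Nat.add C (Nat.mul x37936 (nat_lit 3))) x51058) x36478) x37450) x37990) x37918) x37938) x57618) x18254)
    (Nat.sub (Nat.add (Nat.add (Nat.add (Nat.add (Nat.add (Nat.add (Nat.add (Nat.add C (Nat.mul x37938 (nat_lit 2))) x51060) x36480) x37452) x37992) x37920) x37944) x37936) x18256)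
    (Nat.sub (Nat.add (Nat.add (Nat.add (Nat.add (Nat.add (Nat.add (Nat.add (Nat.add C (Nat.mul x37944 (nat_lit 3))) x51066) x36486) x37458) x37998) x37926) x37962) x37938) x18262)
    (Nat.sub (Nat.add (Nat.add (Nat.add (Nat.add (Nat.add (Nat.add C (Nat.mul x37962 (nat_lit 2))) x51084) x36504) x37476) x38016) x37944) x18280)
    (Nat.sub (Nat.sub (Nat.add (Nat.add (Nat.add (Nat.add (Nat.add (Nat.add (Nat.add C (Nat.mul x37990 (nat_lit 3))) x51112) x36532) x37504) x38152) x37936) x37992) x57672) x18308)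
    (Nat.sub (Nat.add (Nat.add (Nat.add (Nat.add (Nat.add (Nat.add (Nat.add (Nat.add C (Nat.mul x37992 (nat_lit 2))) x51114) x36534) x37506) x38154) x37938) x37998) x37990) x18310)
    (Nat.sub (Nat.add (Nat.add (Nat.add (Nat.add (Nat.add (Nat.add (Nat.add (Nat.add C (Nat.mul x37998 (nat_lit 2))) x51120) x36540) x37512) x38160) x37944) x38016) x37992) x18316)
    (Nat.sub (Nat.add (Nat.add (Nat.add (Nat.add (Nat.add (Nat.add (Nat.add (Nat.add C (Nat.mul x38016 (nat_lit 3))) x51138) x36558) x37530) x38178) x37962) x38070) x37998) x18334)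
    (Nat.sub (Nat.add (Nat.add (Nat.add (Nat.add (Nat.add (Nat.add C (Nat.mul x38070 (nat_lit 2))) x51192) x36612) x37584) x38232) x38016) x18388)
    (Nat.sub (Nat.sub (Nat.add (Nat.add (Nat.add (Nat.add (Nat.add (Nat.add (Nat.add C (Nat.mul x38152 (nat_lit 4))) x51274) x36694) x37666) x38638) x37990) x38154) x57834) x18470)
    (Nat.sub (Nat.add (Nat.add (Nat.add (Nat.add (Nat.add (Nat.add (Nat.add (Nat.add C (Nat.mul x38154 (nat_lit 3))) x51276) x36696) x37668) x38640) x37992) x38160) x38152) x18472)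
    (Nat.sub (Nat.add (Nat.add (Nat.add (Nat.add (Nat.add (Nat.add (Nat.add (Nat.add C (Nat.mul x38160 (nat_lit 3))) x51282) x36702) x37674) x38646) x37998) x38178) x38154) x18478)
    (Nat.sub (Nat.add (Nat.add (Nat.add (Nat.add (Nat.add (Nat.add (Nat.add (Nat.add C (Nat.mul x38178 (nat_lit 3))) x51300) x36720) x37692) x38664) x38016) x38232) x38160) x18496)
    (Nat.sub (Nat.add (Nat.add (Nat.add (Nat.add (Nat.add (Nat.add (Nat.add (Nat.add C (Nat.mul x38232 (nat_lit 4))) x51354) x36774) x37746) x38718) x38070) x38394) x38178) x18550)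
    (Nat.sub (Nat.add (Nat.add (Nat.add (Nat.add (Nat.add C (Nat.mul x38394 (nat_lit 4))) x51516) x36936) x38880) x38232) x18712)
    (Nat.sub (Nat.sub (Nat.add (Nat.add (Nat.add (Nat.add C (Nat.mul x38638 (nat_lit 5))) x51760) x38152) x38640) x58320) x18956)
    (Nat.sub (Nat.add (Nat.add (Nat.add (Nat.add (Nat.add C (Nat.mul x38640 (nat_lit 4))) x51762) x38154) x38646) x38638) x18958)
    (Nat.sub (Nat.add (Nat.add (Nat.add (Nat.add (Nat.add C (Nat.mul x38646 (nat_lit 4))) x51768) x38160) x38664) x38640) x18964)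
    (Nat.sub (Nat.add (Nat.add (Nat.add (Nat.add (Nat.add C (Nat.mul x38664 (nat_lit 4))) x51786) x38178) x38718) x38646) x18982)
    (Nat.sub (Nat.add (Nat.add (Nat.add (Nat.add (Nat.add C (Nat.mul x38718 (nat_lit 4))) x51840) x38232) x38880) x38664) x19036)
    (Nat.sub (Nat.add (Nat.add (Nat.add (Nat.add C (Nat.mul x38880 (nat_lit 6))) x52002) x38394) x38718) x19198)
    (Nat.add (Nat.add (Nat.add C (Nat.mul x39392 (nat_lit 6))) x26270) x39410)
    (Nat.add (Nat.add (Nat.add (Nat.add (Nat.add (Nat.add C (Nat.mul x39410 (nat_lit 5))) x26288) x39464) x39392) x39428) x39416)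
    (Nat.add (Nat.add (Nat.add (Nat.add (Nat.add (Nat.add C (Nat.mul x39416 (nat_lit 4))) x26294) x39470) x39434) x39410) x39418)
    (Nat.sub (Nat.add (Nat.add (Nat.add (Nat.add (Nat.add C (Nat.mul x39418 (nat_lit 4))) x26296) x39472) x39436) x39416) x19736)
    (Nat.add (Nat.add (Nat.add (Nat.add (Nat.add C (Nat.mul x39428 (nat_lit 2))) x26306) x39482) x39410) x39434)
    (Nat.add (Nat.add (Nat.add (Nat.add (Nat.add (Nat.add (Nat.add C (Nat.mul x39434 (nat_lit 3))) x26312) x39488) x39416) x39428) x39440) x39436)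
    (Nat.sub (Nat.add (Nat.add (Nat.add (Nat.add (Nat.add (Nat.add C (Nat.mul x39436 (nat_lit 2))) x26314) x39490) x39418) x39442) x39434) x19754)
    (Nat.add (Nat.add (Nat.add (Nat.add (Nat.add C (Nat.mul x39440 (nat_lit 2))) x26318) x39494) x39434) x39442)
    (Nat.sub (Nat.add (Nat.add (Nat.add (Nat.add (Nat.add (Nat.add C (Nat.mul x39442 (nat_lit 3))) x26320) x39496) x39436) x39440) x39444) x19760)
    (Nat.sub (Nat.add (Nat.add (Nat.add (Nat.add C (Nat.mul x39444 (nat_lit 2))) x26322) x39498) x39442) x19762)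
    (Nat.add (Nat.add (Nat.add (Nat.add (Nat.add (Nat.add C (Nat.mul x39464 (nat_lit 4))) x26342) x39626) x39410) x39482) x39470)
    (Nat.add (Nat.add (Nat.add (Nat.add (Nat.add (Nat.add (Nat.add C (Nat.mul x39470 (nat_lit 2))) x26348) x39632) x39416) x39488) x39464) x39472)
    (Nat.sub (Nat.add (Nat.add (Nat.add (Nat.add (Nat.add (Nat.add C (Nat.mul x39472 (nat_lit 2))) x26350) x39634) x39418) x39490) x39470) x19790)
    (Nat.add (Nat.add (Nat.add (Nat.add (Nat.add (Nat.add (Nat.add C (Nat.mul x39482 (nat_lit 3))) x26360) x39644) x39428) x39536) x39464) x39488)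
    (Nat.add (Nat.add (Nat.add (Nat.add (Nat.add (Nat.add (Nat.add (Nat.add (Nat.add (Nat.add C (Nat.mul x39488 (nat_lit 3))) x26366) x39650) x39434) x39542) x39470) x39506) x39482) x39494) x39490)
    (Nat.sub (Nat.add (Nat.add (Nat.add (Nat.add (Nat.add (Nat.add (Nat.add (Nat.add (Nat.add C (Nat.mul x39490 (nat_lit 2))) x26368) x39652) x39436) x39544) x39472) x39508) x39496) x39488) x19808)
    (Nat.add (Nat.add (Nat.add (Nat.add (Nat.add (Nat.add (Nat.add (Nat.add C x39494) x26372) x39656) x39440) x39548) x39512) x39488) x39496)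
    (Nat.sub (Nat.add (Nat.add (Nat.add (Nat.add (Nat.add (Nat.add (Nat.add (Nat.add (Nat.add C (Nat.mul x39496 (nat_lit 2))) x26374) x39658) x39442) x39550) x39514) x39490) x39494) x39498) x19814)
    (Nat.sub (Nat.add (Nat.add (Nat.add (Nat.add (Nat.add (Nat.add (Nat.add C x39498) x26376) x39660) x39444) x39552) x39516) x39496) x19816)
    (Nat.add (Nat.add (Nat.add (Nat.add (Nat.add (Nat.add (Nat.add C (Nat.mul x39506 (nat_lit 2))) x26384) x39668) x39560) x39488) x39512) x39508)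
    (Nat.sub (Nat.add (Nat.add (Nat.add (Nat.add (Nat.add (Nat.add C x26386) x39670) x39562) x39490) x39514) x39506) x19826)
    (Nat.add (Nat.add (Nat.add (Nat.add (Nat.add (Nat.add (Nat.add C (Nat.mul x39512 (nat_lit 2))) x26390) x39674) x39566) x39494) x39506) x39514)
    (Nat.sub (Nat.add (Nat.add (Nat.add (Nat.add (Nat.add (Nat.add (Nat.add (Nat.add (Nat.add C (Nat.mul x39514 (nat_lit 2))) x26392) x39676) x39568) x39496) x39508) x39520) x39512) x39516) x19832)
    (Nat.sub (Nat.add (Nat.add (Nat.add (Nat.add (Nat.add (Nat.add C x26394) x39678) x39570) x39498) x39522) x39514) x19834)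
    (Nat.sub (Nat.add (Nat.add (Nat.add (Nat.add (Nat.add (Nat.add C (Nat.mul x39520 (nat_lit 2))) x26398) x39682) x39574) x39514) x39522) x19838)
    (Nat.sub (Nat.add (Nat.add (Nat.add (Nat.add (Nat.add (Nat.add C (Nat.mul x39522 (nat_lit 2))) x26400) x39684) x39576) x39516) x39520) x19840)
    (Nat.add (Nat.add (Nat.add (Nat.add (Nat.add C (Nat.mul x39536 (nat_lit 2))) x26414) x39698) x39482) x39542)
    (Nat.add (Nat.add (Nat.add (Nat.add (Nat.add (Nat.add (Nat.add (Nat.add C x39542) x26420) x39704) x39488) x39560) x39536) x39548) x39544)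
    (Nat.sub (Nat.add (Nat.add (Nat.add (Nat.add (Nat.add (Nat.add C x26422) x39706) x39490) x39562) x39550) x39542) x19862)
    (Nat.sub (Nat.add (Nat.add (Nat.add (Nat.add (Nat.add (Nat.add C x26426) x39710) x39494) x39566) x39542) x39550) (Nat.mul x39548 (nat_lit 2)))
    (Nat.sub (Nat.sub (Nat.add (Nat.add (Nat.add (Nat.add (Nat.add (Nat.add (Nat.add C x26428) x39712) x39496) x39568) x39544) x39548) x39552) x39550) x19868)
    (Nat.sub (Nat.sub (Nat.add (Nat.add (Nat.add (Nat.add (Nat.add C x26430) x39714) x39498) x39570) x39550) (Nat.mul x39552 (nat_lit 2))) x19870)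
    (Nat.add (Nat.add (Nat.add (Nat.add (Nat.add (Nat.add (Nat.add C (Nat.mul x39560 (nat_lit 2))) x26438) x39722) x39506) x39542) x39566) x39562)
    (Nat.sub (Nat.add (Nat.add (Nat.add (Nat.add (Nat.add (Nat.add C x26440) x39724) x39508) x39544) x39568) x39560) x19880)
    (Nat.add (Nat.add (Nat.add (Nat.add (Nat.add (Nat.add (Nat.add (Nat.add C x39566) x26444) x39728) x39512) x39548) x39584) x39560) x39568)
    (Nat.sub (Nat.add (Nat.add (Nat.add (Nat.add (Nat.add (Nat.add (Nat.add (Nat.add (Nat.add (Nat.add C x39568) x26446) x39730) x39514) x39550) x39586) x39562) x39574) x39566) x39570) x19886)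
    (Nat.sub (Nat.sub (Nat.add (Nat.add (Nat.add (Nat.add (Nat.add (Nat.add (Nat.add C x26448) x39732) x39516) x39552) x39588) x39576) x39568) x39570) x19888)
    (Nat.sub (Nat.add (Nat.add (Nat.add (Nat.add (Nat.add (Nat.add C x26452) x39736) x39520) x39592) x39568) x39576) x19892)
    (Nat.sub (Nat.add (Nat.add (Nat.add (Nat.add (Nat.add (Nat.add C x26454) x39738) x39522) x39594) x39570) x39574) x19894)
    (Nat.add (Nat.add (Nat.add (Nat.add (Nat.add C (Nat.mul x39584 (nat_lit 2))) x26462) x39746) x39566) x39586)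
    (Nat.sub (Nat.add (Nat.add (Nat.add (Nat.add (Nat.add (Nat.add (Nat.add C x39586) x26464) x39748) x39568) x39592) x39584) x39588) x19904)
    (Nat.sub (Nat.sub (Nat.add (Nat.add (Nat.add (Nat.add (Nat.add C x26466) x39750) x39570) x39594) x39586) (Nat.mul x39588 (nat_lit 2))) x19906)
    (Nat.sub (Nat.add (Nat.add (Nat.add (Nat.add (Nat.add (Nat.add C (Nat.mul x39592 (nat_lit 2))) x26470) x39754) x39574) x39586) x39594) x19910)
    (Nat.sub (Nat.add (Nat.add (Nat.add (Nat.add (Nat.add (Nat.add (Nat.add C x39594) x26472) x39756) x39576) x39588) x39600) x39592) x19912)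
    (Nat.sub (Nat.add (Nat.add (Nat.add (Nat.add C (Nat.mul x39600 (nat_lit 2))) x26478) x39762) x39594) x19918)
    (Nat.add (Nat.add (Nat.add (Nat.add (Nat.add (Nat.add C (Nat.mul x39626 (nat_lit 4))) x26504) x40112) x39464) x39644) x39632)
    (Nat.add (Nat.add (Nat.add (Nat.add (Nat.add (Nat.add (Nat.add C (Nat.mul x39632 (nat_lit 2))) x26510) x40118) x39470) x39650) x39626) x39634)
    (Nat.sub (Nat.add (Nat.add (Nat.add (Nat.add (Nat.add (Nat.add C (Nat.mul x39634 (nat_lit 2))) x26512) x40120) x39472) x39652) x39632) x19952)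
    (Nat.add (Nat.add (Nat.add (Nat.add (Nat.add (Nat.add (Nat.add C (Nat.mul x39644 (nat_lit 2))) x26522) x40130) x39482) x39698) x39626) x39650)
    (Nat.add (Nat.add (Nat.add (Nat.add (Nat.add (Nat.add (Nat.add (Nat.add (Nat.add (Nat.add C (Nat.mul x39650 (nat_lit 2))) x26528) x40136) x39488) x39704) x39632) x39668) x39644) x39656) x39652)
    (Nat.sub (Nat.add (Nat.add (Nat.add (Nat.add (Nat.add (Nat.add (Nat.add (Nat.add (Nat.add C x39652) x26530) x40138) x39490) x39706) x39634) x39670) x39658) x39650) x19970)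
    (Nat.add (Nat.add (Nat.add (Nat.add (Nat.add (Nat.add (Nat.add C x26534) x40142) x39494) x39710) x39674) x39650) x39658)
    (Nat.sub (Nat.add (Nat.add (Nat.add (Nat.add (Nat.add (Nat.add (Nat.add (Nat.add (Nat.add C x39658) x26536) x40144) x39496) x39712) x39676) x39652) x39656) x39660) x19976)
    (Nat.sub (Nat.add (Nat.add (Nat.add (Nat.add (Nat.add (Nat.add C x26538) x40146) x39498) x39714) x39678) x39658) x19978)
    (Nat.add (Nat.add (Nat.add (Nat.add (Nat.add (Nat.add (Nat.add C x26546) x40154) x39506) x39722) x39650) x39674) x39670)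
    (Nat.sub (Nat.sub (Nat.add (Nat.add (Nat.add (Nat.add (Nat.add (Nat.add (Nat.add C x26548) x40156) x39508) x39724) x39652) x39676) x39668) (Nat.mul x39670 (nat_lit 2))) x19988)
    (Nat.add (Nat.add (Nat.add (Nat.add (Nat.add (Nat.add (Nat.add C x26552) x40160) x39512) x39728) x39656) x39668) x39676)
    (Nat.sub (Nat.add (Nat.add (Nat.add (Nat.add (Nat.add (Nat.add (Nat.add (Nat.add (Nat.add C x26554) x40162) x39514) x39730) x39658) x39670) x39682) x39674) x39678) x19994)
    (Nat.sub (Nat.sub (Nat.add (Nat.add (Nat.add (Nat.add (Nat.add (Nat.add (Nat.add C x26556) x40164) x39516) x39732) x39660) x39684) x39676) (Nat.mul x39678 (nat_lit 2))) x19996)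
    (Nat.sub (Nat.add (Nat.add (Nat.add (Nat.add (Nat.add (Nat.add C x26560) x40168) x39520) x39736) x39676) x39684) x20000)
    (Nat.sub (Nat.add (Nat.add (Nat.add (Nat.add (Nat.add (Nat.add C x26562) x40170) x39522) x39738) x39678) x39682) x20002)
    (Nat.add (Nat.add (Nat.add (Nat.add (Nat.add (Nat.add (Nat.add C (Nat.mul x39698 (nat_lit 3))) x26576) x40184) x39536) x39860) x39644) x39704)
    (Nat.add (Nat.add (Nat.add (Nat.add (Nat.add (Nat.add (Nat.add (Nat.add (Nat.add (Nat.add C (Nat.mul x39704 (nat_lit 2))) x26582) x40190) x39542) x39866) x39650) x39722) x39698) x39710) x39706)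
    (Nat.sub (Nat.add (Nat.add (Nat.add (Nat.add (Nat.add (Nat.add (Nat.add (Nat.add (Nat.add C x39706) x26584) x40192) x39544) x39868) x39652) x39724) x39712) x39704) x20024)
    (Nat.sub (Nat.add (Nat.add (Nat.add (Nat.add (Nat.add (Nat.add (Nat.add (Nat.add C x26588) x40196) x39548) x39872) x39656) x39728) x39704) x39712) x39710)
    (Nat.sub (Nat.add (Nat.add (Nat.add (Nat.add (Nat.add (Nat.add (Nat.add (Nat.add (Nat.add C x26590) x40198) x39550) x39874) x39658) x39730) x39706) x39710) x39714) x20030)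
    (Nat.sub (Nat.sub (Nat.add (Nat.add (Nat.add (Nat.add (Nat.add (Nat.add (Nat.add C x26592) x40200) x39552) x39876) x39660) x39732) x39712) x39714) x20032)
    (Nat.add (Nat.add (Nat.add (Nat.add (Nat.add (Nat.add (Nat.add (Nat.add (Nat.add (Nat.add C (Nat.mul x39722 (nat_lit 2))) x26600) x40208) x39560) x39884) x39668) x39776) x39704) x39728) x39724)
    (Nat.sub (Nat.add (Nat.add (Nat.add (Nat.add (Nat.add (Nat.add (Nat.add (Nat.add (Nat.add C x26602) x40210) x39562) x39886) x39670) x39778) x39706) x39730) x39722) x20042)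
    (Nat.add (Nat.add (Nat.add (Nat.add (Nat.add (Nat.add (Nat.add (Nat.add (Nat.add (Nat.add (Nat.add C x39728) x26606) x40214) x39566) x39890) x39674) x39782) x39710) x39746) x39722) x39730)
    (Nat.sub (Nat.add (Nat.add (Nat.add (Nat.add (Nat.add (Nat.add (Nat.add (Nat.add (Nat.add (Nat.add (Nat.add (Nat.add (Nat.add C x39730) x26608) x40216) x39568) x39892) x39676) x39784) x39712) x39748) x39724) x39736) x39728) x39732) x20048)
    (Nat.sub (Nat.sub (Nat.add (Nat.add (Nat.add (Nat.add (Nat.add (Nat.add (Nat.add (Nat.add (Nat.add (Nat.add C x26610) x40218) x39570) x39894) x39678) x39786) x39714) x39750) x39738) x39730) x39732) x20050)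
    (Nat.sub (Nat.add (Nat.add (Nat.add (Nat.add (Nat.add (Nat.add (Nat.add (Nat.add (Nat.add C x26614) x40222) x39574) x39898) x39682) x39790) x39754) x39730) x39738) x20054)
    (Nat.sub (Nat.add (Nat.add (Nat.add (Nat.add (Nat.add (Nat.add (Nat.add (Nat.add (Nat.add C x26616) x40224) x39576) x39900) x39684) x39792) x39756) x39732) x39736) x20056)
    (Nat.add (Nat.add (Nat.add (Nat.add (Nat.add (Nat.add (Nat.add (Nat.add C x39746) x26624) x40232) x39584) x39908) x39800) x39728) x39748)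
    (Nat.sub (Nat.add (Nat.add (Nat.add (Nat.add (Nat.add (Nat.add (Nat.add (Nat.add (Nat.add C x26626) x40234) x39586) x39910) x39802) x39730) x39754) x39746) x39750) x20066)
    (Nat.sub (Nat.sub (Nat.add (Nat.add (Nat.add (Nat.add (Nat.add (Nat.add (Nat.add (Nat.add C x26628) x40236) x39588) x39912) x39804) x39732) x39756) x39748) (Nat.mul x39750 (nat_lit 3))) x20068)
    (Nat.sub (Nat.add (Nat.add (Nat.add (Nat.add (Nat.add (Nat.add (Nat.add (Nat.add (Nat.add C x39754) x26632) x40240) x39592) x39916) x39808) x39736) x39748) x39756) x20072)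
    (Nat.sub (Nat.add (Nat.add (Nat.add (Nat.add (Nat.add (Nat.add (Nat.add (Nat.add (Nat.add C x26634) x40242) x39594) x39918) x39810) x39738) x39750) x39762) x39754) x20074)
    (Nat.sub (Nat.add (Nat.add (Nat.add (Nat.add (Nat.add (Nat.add (Nat.add C x39762) x26640) x40248) x39600) x39924) x39816) x39756) x20080)
    (Nat.add (Nat.add (Nat.add (Nat.add (Nat.add (Nat.add (Nat.add C (Nat.mul x39776 (nat_lit 2))) x26654) x40262) x39938) x39722) x39782) x39778)
    (Nat.sub (Nat.add (Nat.add (Nat.add (Nat.add (Nat.add (Nat.add C x26656) x40264) x39940) x39724) x39784) x39776) x20096)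
    (Nat.add (Nat.add (Nat.add (Nat.add (Nat.add (Nat.add (Nat.add C x26660) x40268) x39944) x39728) x39800) x39776) x39784)
    (Nat.sub (Nat.add (Nat.add (Nat.add (Nat.add (Nat.add (Nat.add (Nat.add (Nat.add (Nat.add C x26662) x40270) x39946) x39730) x39802) x39778) x39790) x39782) x39786) x20102)
    (Nat.sub (Nat.sub (Nat.add (Nat.add (Nat.add (Nat.add (Nat.add (Nat.add (Nat.add C x26664) x40272) x39948) x39732) x39804) x39792) x39784) (Nat.mul x39786 (nat_lit 2))) x20104)
    (Nat.sub (Nat.sub (Nat.add (Nat.add (Nat.add (Nat.add (Nat.add (Nat.add (Nat.add C x26668) x40276) x39952) x39736) x39808) x39784) x39792) (Nat.mul x39790 (nat_lit 2))) x20108)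
    (Nat.sub (Nat.sub (Nat.add (Nat.add (Nat.add (Nat.add (Nat.add (Nat.add (Nat.add C x26670) x40278) x39954) x39738) x39810) x39786) x39790) (Nat.mul x39792 (nat_lit 2))) x20110)
    (Nat.add (Nat.add (Nat.add (Nat.add (Nat.add (Nat.add (Nat.add C (Nat.mul x39800 (nat_lit 2))) x26678) x40286) x39962) x39746) x39782) x39802)
    (Nat.sub (Nat.add (Nat.add (Nat.add (Nat.add (Nat.add (Nat.add (Nat.add (Nat.add (Nat.add C x39802) x26680) x40288) x39964) x39748) x39784) x39808) x39800) x39804) x20120)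
    (Nat.sub (Nat.sub (Nat.add (Nat.add (Nat.add (Nat.add (Nat.add (Nat.add (Nat.add C x26682) x40290) x39966) x39750) x39786) x39810) x39802) (Nat.mul x39804 (nat_lit 2))) x20122)
    (Nat.sub (Nat.add (Nat.add (Nat.add (Nat.add (Nat.add (Nat.add (Nat.add (Nat.add (Nat.add C x39808) x26686) x40294) x39970) x39754) x39790) x39826) x39802) x39810) x20126)
    (Nat.sub (Nat.add (Nat.add (Nat.add (Nat.add (Nat.add (Nat.add (Nat.add (Nat.add (Nat.add C x26688) x40296) x39972) x39756) x39792) x39828) x39804) x39816) x39808) x20128)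
    (Nat.sub (Nat.add (Nat.add (Nat.add (Nat.add (Nat.add (Nat.add C x26694) x40302) x39978) x39762) x39834) x39810) x20134)
    (Nat.sub (Nat.add (Nat.add (Nat.add (Nat.add (Nat.add (Nat.add C (Nat.mul x39826 (nat_lit 2))) x26704) x40312) x39988) x39808) x39828) x20144)
    (Nat.sub (Nat.add (Nat.add (Nat.add (Nat.add (Nat.add (Nat.add C x26706) x40314) x39990) x39810) x39834) x39826) x20146)
    (Nat.sub (Nat.add (Nat.add (Nat.add (Nat.add (Nat.add (Nat.add C (Nat.mul x39834 (nat_lit 2))) x26712) x40320) x39996) x39816) x39828) x20152)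
    (Nat.add (Nat.add (Nat.add (Nat.add (Nat.add C (Nat.mul x39860 (nat_lit 2))) x26738) x40346) x39698) x39866)
    (Nat.add (Nat.add (Nat.add (Nat.add (Nat.add (Nat.add (Nat.add (Nat.add C x39866) x26744) x40352) x39704) x39884) x39860) x39872) x39868)
    (Nat.sub (Nat.add (Nat.add (Nat.add (Nat.add (Nat.add (Nat.add C x26746) x40354) x39706) x39886) x39874) x39866) x20186)
    (Nat.sub (Nat.add (Nat.add (Nat.add (Nat.add (Nat.add (Nat.add C x26750) x40358) x39710) x39890) x39866) x39874) (Nat.mul x39872 (nat_lit 2)))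
    (Nat.sub (Nat.sub (Nat.add (Nat.add (Nat.add (Nat.add (Nat.add (Nat.add (Nat.add C x26752) x40360) x39712) x39892) x39868) x39872) x39876) x39874) x20192)
    (Nat.sub (Nat.sub (Nat.add (Nat.add (Nat.add (Nat.add (Nat.add C x26754) x40362) x39714) x39894) x39874) (Nat.mul x39876 (nat_lit 2))) x20194)
    (Nat.add (Nat.add (Nat.add (Nat.add (Nat.add (Nat.add (Nat.add C x26762) x40370) x39722) x39938) x39866) x39890) x39886)
    (Nat.sub (Nat.sub (Nat.add (Nat.add (Nat.add (Nat.add (Nat.add (Nat.add (Nat.add C x26764) x40372) x39724) x39940) x39868) x39892) x39884) (Nat.mul x39886 (nat_lit 2))) x20204)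
    (Nat.sub (Nat.add (Nat.add (Nat.add (Nat.add (Nat.add (Nat.add (Nat.add (Nat.add C x26768) x40376) x39728) x39944) x39872) x39908) x39884) x39892) x39890)
    (Nat.sub (Nat.sub (Nat.add (Nat.add (Nat.add (Nat.add (Nat.add (Nat.add (Nat.add (Nat.add (Nat.add (Nat.add C x26770) x40378) x39730) x39946) x39874) x39910) x39886) x39898) x39890) x39894) x39892) x20210)
    (Nat.sub (Nat.sub (Nat.add (Nat.add (Nat.add (Nat.add (Nat.add (Nat.add (Nat.add (Nat.add C x26772) x40380) x39732) x39948) x39876) x39912) x39900) x39892) (Nat.mul x39894 (nat_lit 3))) x20212)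
    (Nat.sub (Nat.sub (Nat.add (Nat.add (Nat.add (Nat.add (Nat.add (Nat.add (Nat.add C x26776) x40384) x39736) x39952) x39916) x39892) x39900) (Nat.mul x39898 (nat_lit 2))) x20216)
    (Nat.sub (Nat.sub (Nat.add (Nat.add (Nat.add (Nat.add (Nat.add (Nat.add (Nat.add C x26778) x40386) x39738) x39954) x39918) x39894) x39898) (Nat.mul x39900 (nat_lit 2))) x20218)
    (Nat.sub (Nat.add (Nat.add (Nat.add (Nat.add (Nat.add (Nat.add C x26786) x40394) x39746) x39962) x39890) x39910) (Nat.mul x39908 (nat_lit 2)))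
    (Nat.sub (Nat.sub (Nat.add (Nat.add (Nat.add (Nat.add (Nat.add (Nat.add (Nat.add (Nat.add C x26788) x40396) x39748) x39964) x39892) x39916) x39908) x39912) (Nat.mul x39910 (nat_lit 3))) x20228)
    (Nat.sub (Nat.sub (Nat.add (Nat.add (Nat.add (Nat.add (Nat.add (Nat.add (Nat.add C x26790) x40398) x39750) x39966) x39894) x39918) x39910) (Nat.mul x39912 (nat_lit 6))) x20230)
    (Nat.sub (Nat.sub (Nat.add (Nat.add (Nat.add (Nat.add (Nat.add (Nat.add (Nat.add C x26794) x40402) x39754) x39970) x39898) x39910) x39918) (Nat.mul x39916 (nat_lit 2))) x20234)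
    (Nat.sub (Nat.sub (Nat.add (Nat.add (Nat.add (Nat.add (Nat.add (Nat.add (Nat.add (Nat.add C x26796) x40404) x39756) x39972) x39900) x39912) x39924) x39916) (Nat.mul x39918 (nat_lit 3))) x20236)
    (Nat.sub (Nat.sub (Nat.add (Nat.add (Nat.add (Nat.add (Nat.add C x26802) x40410) x39762) x39978) x39918) (Nat.mul x39924 (nat_lit 2))) x20242)
    (Nat.add (Nat.add (Nat.add (Nat.add (Nat.add (Nat.add (Nat.add C (Nat.mul x39938 (nat_lit 2))) x26816) x40424) x39776) x39884) x39944) x39940)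
    (Nat.sub (Nat.add (Nat.add (Nat.add (Nat.add (Nat.add (Nat.add C x26818) x40426) x39778) x39886) x39946) x39938) x20258)
    (Nat.add (Nat.add (Nat.add (Nat.add (Nat.add (Nat.add (Nat.add C x26822) x40430) x39782) x39890) x39962) x39938) x39946)
    (Nat.sub (Nat.add (Nat.add (Nat.add (Nat.add (Nat.add (Nat.add (Nat.add (Nat.add (Nat.add C x26824) x40432) x39784) x39892) x39964) x39940) x39952) x39944) x39948) x20264)
    (Nat.sub (Nat.sub (Nat.add (Nat.add (Nat.add (Nat.add (Nat.add (Nat.add (Nat.add C x26826) x40434) x39786) x39894) x39966) x39954) x39946) (Nat.mul x39948 (nat_lit 2))) x20266)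
    (Nat.sub (Nat.sub (Nat.add (Nat.add (Nat.add (Nat.add (Nat.add (Nat.add (Nat.add C x26830) x40438) x39790) x39898) x39970) x39946) x39954) (Nat.mul x39952 (nat_lit 2))) x20270)
    (Nat.sub (Nat.sub (Nat.add (Nat.add (Nat.add (Nat.add (Nat.add (Nat.add (Nat.add C x26832) x40440) x39792) x39900) x39972) x39948) x39952) (Nat.mul x39954 (nat_lit 2))) x20272)
    (Nat.add (Nat.add (Nat.add (Nat.add (Nat.add (Nat.add (Nat.add (Nat.add C x39962) x26840) x40448) x39800) x39908) x40016) x39944) x39964)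
    (Nat.sub (Nat.add (Nat.add (Nat.add (Nat.add (Nat.add (Nat.add (Nat.add (Nat.add (Nat.add C x26842) x40450) x39802) x39910) x40018) x39946) x39970) x39962) x39966) x20282)
    (Nat.sub (Nat.sub (Nat.add (Nat.add (Nat.add (Nat.add (Nat.add (Nat.add (Nat.add (Nat.add C x26844) x40452) x39804) x39912) x40020) x39948) x39972) x39964) (Nat.mul x39966 (nat_lit 3))) x20284)
    (Nat.sub (Nat.add (Nat.add (Nat.add (Nat.add (Nat.add (Nat.add (Nat.add (Nat.add (Nat.add C x26848) x40456) x39808) x39916) x40024) x39952) x39988) x39964) x39972) x20288)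
    (Nat.sub (Nat.sub (Nat.add (Nat.add (Nat.add (Nat.add (Nat.add (Nat.add (Nat.add (Nat.add (Nat.add (Nat.add C x26850) x40458) x39810) x39918) x40026) x39954) x39990) x39966) x39978) x39970) x39972) x20290)
    (Nat.sub (Nat.sub (Nat.add (Nat.add (Nat.add (Nat.add (Nat.add (Nat.add (Nat.add C x26856) x40464) x39816) x39924) x40032) x39996) x39972) x39978) x20296)
    (Nat.sub (Nat.add (Nat.add (Nat.add (Nat.add (Nat.add (Nat.add C x26866) x40474) x39826) x40042) x39970) x39990) x20306)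
    (Nat.sub (Nat.sub (Nat.add (Nat.add (Nat.add (Nat.add (Nat.add (Nat.add (Nat.add C x26868) x40476) x39828) x40044) x39972) x39996) x39988) (Nat.mul x39990 (nat_lit 2))) x20308)
    (Nat.sub (Nat.add (Nat.add (Nat.add (Nat.add (Nat.add (Nat.add C x26874) x40482) x39834) x40050) x39978) x39990) x20314)
    (Nat.add (Nat.add (Nat.add (Nat.add (Nat.add C (Nat.mul x40016 (nat_lit 2))) x26894) x40502) x39962) x40018)
    (Nat.sub (Nat.add (Nat.add (Nat.add (Nat.add (Nat.add (Nat.add (Nat.add C x40018) x26896) x40504) x39964) x40024) x40016) x40020) x20336)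
    (Nat.sub (Nat.sub (Nat.add (Nat.add (Nat.add (Nat.add (Nat.add C x26898) x40506) x39966) x40026) x40018) (Nat.mul x40020 (nat_lit 2))) x20338)
    (Nat.sub (Nat.add (Nat.add (Nat.add (Nat.add (Nat.add (Nat.add C x26902) x40510) x39970) x40042) x40018) x40026) x20342)
    (Nat.sub (Nat.sub (Nat.add (Nat.add (Nat.add (Nat.add (Nat.add (Nat.add (Nat.add C x26904) x40512) x39972) x40044) x40020) x40032) x40024) x40026) x20344)
    (Nat.sub (Nat.sub (Nat.add (Nat.add (Nat.add (Nat.add (Nat.add C x26910) x40518) x39978) x40050) x40026) (Nat.mul x40032 (nat_lit 2))) x20350)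
    (Nat.sub (Nat.add (Nat.add (Nat.add (Nat.add (Nat.add (Nat.add C (Nat.mul x40042 (nat_lit 2))) x26920) x40528) x39988) x40024) x40044) x20360)
    (Nat.sub (Nat.add (Nat.add (Nat.add (Nat.add (Nat.add (Nat.add C x26922) x40530) x39990) x40026) x40050) x40042) x20362)
    (Nat.sub (Nat.add (Nat.add (Nat.add (Nat.add (Nat.add (Nat.add (Nat.add C x40050) x26928) x40536) x39996) x40032) x40068) x40044) x20368)
    (Nat.sub (Nat.add (Nat.add (Nat.add (Nat.add C (Nat.mul x40068 (nat_lit 2))) x26946) x40554) x40050) x20386)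
    (Nat.add (Nat.add (Nat.add (Nat.add (Nat.add (Nat.add C (Nat.mul x40112 (nat_lit 4))) x26990) x41570) x39626) x40130) x40118)
    (Nat.add (Nat.add (Nat.add (Nat.add (Nat.add (Nat.add (Nat.add C (Nat.mul x40118 (nat_lit 2))) x26996) x41576) x39632) x40136) x40112) x40120)
    (Nat.sub (Nat.add (Nat.add (Nat.add (Nat.add (Nat.add (Nat.add C (Nat.mul x40120 (nat_lit 2))) x26998) x41578) x39634) x40138) x40118) x20438)
    (Nat.add (Nat.add (Nat.add (Nat.add (Nat.add (Nat.add (Nat.add C (Nat.mul x40130 (nat_lit 2))) x27008) x41588) x39644) x40184) x40112) x40136)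
    (Nat.add (Nat.add (Nat.add (Nat.add (Nat.add (Nat.add (Nat.add (Nat.add (Nat.add (Nat.add C (Nat.mul x40136 (nat_lit 2))) x27014) x41594) x39650) x40190) x40118) x40154) x40130) x40142) x40138)
    (Nat.sub (Nat.add (Nat.add (Nat.add (Nat.add (Nat.add (Nat.add (Nat.add (Nat.add (Nat.add C x40138) x27016) x41596) x39652) x40192) x40120) x40156) x40144) x40136) x20456)
    (Nat.add (Nat.add (Nat.add (Nat.add (Nat.add (Nat.add (Nat.add C x27020) x41600) x39656) x40196) x40160) x40136) x40144)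
    (Nat.sub (Nat.add (Nat.add (Nat.add (Nat.add (Nat.add (Nat.add (Nat.add (Nat.add (Nat.add C x40144) x27022) x41602) x39658) x40198) x40162) x40138) x40142) x40146) x20462)
    (Nat.sub (Nat.add (Nat.add (Nat.add (Nat.add (Nat.add (Nat.add C x27024) x41604) x39660) x40200) x40164) x40144) x20464)
    (Nat.add (Nat.add (Nat.add (Nat.add (Nat.add (Nat.add (Nat.add C x27032) x41612) x39668) x40208) x40136) x40160) x40156)
    (Nat.sub (Nat.sub (Nat.add (Nat.add (Nat.add (Nat.add (Nat.add (Nat.add (Nat.add C x27034) x41614) x39670) x40210) x40138) x40162) x40154) (Nat.mul x40156 (nat_lit 2))) x20474)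
    (Nat.add (Nat.add (Nat.add (Nat.add (Nat.add (Nat.add (Nat.add C x27038) x41618) x39674) x40214) x40142) x40154) x40162)
    (Nat.sub (Nat.add (Nat.add (Nat.add (Nat.add (Nat.add (Nat.add (Nat.add (Nat.add (Nat.add C x27040) x41620) x39676) x40216) x40144) x40156) x40168) x40160) x40164) x20480)
    (Nat.sub (Nat.sub (Nat.add (Nat.add (Nat.add (Nat.add (Nat.add (Nat.add (Nat.add C x27042) x41622) x39678) x40218) x40146) x40170) x40162) (Nat.mul x40164 (nat_lit 2))) x20482)
    (Nat.sub (Nat.add (Nat.add (Nat.add (Nat.add (Nat.add (Nat.add C x27046) x41626) x39682) x40222) x40162) x40170) x20486)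
    (Nat.sub (Nat.add (Nat.add (Nat.add (Nat.add (Nat.add (Nat.add C x27048) x41628) x39684) x40224) x40164) x40168) x20488)
    (Nat.add (Nat.add (Nat.add (Nat.add (Nat.add (Nat.add (Nat.add C (Nat.mul x40184 (nat_lit 2))) x27062) x41642) x39698) x40346) x40130) x40190)
    (Nat.add (Nat.add (Nat.add (Nat.add (Nat.add (Nat.add (Nat.add (Nat.add (Nat.add (Nat.add C x40190) x27068) x41648) x39704) x40352) x40136) x40208) x40184) x40196) x40192)
    (Nat.sub (Nat.add (Nat.add (Nat.add (Nat.add (Nat.add (Nat.add (Nat.add (Nat.add C x27070) x41650) x39706) x40354) x40138) x40210) x40198) x40190) x20510)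
    (Nat.sub (Nat.add (Nat.add (Nat.add (Nat.add (Nat.add (Nat.add (Nat.add (Nat.add C x27074) x41654) x39710) x40358) x40142) x40214) x40190) x40198) (Nat.mul x40196 (nat_lit 2)))
    (Nat.sub (Nat.sub (Nat.add (Nat.add (Nat.add (Nat.add (Nat.add (Nat.add (Nat.add (Nat.add (Nat.add C x27076) x41656) x39712) x40360) x40144) x40216) x40192) x40196) x40200) x40198) x20516)
    (Nat.sub (Nat.sub (Nat.add (Nat.add (Nat.add (Nat.add (Nat.add (Nat.add (Nat.add C x27078) x41658) x39714) x40362) x40146) x40218) x40198) (Nat.mul x40200 (nat_lit 2))) x20518)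
    (Nat.add (Nat.add (Nat.add (Nat.add (Nat.add (Nat.add (Nat.add (Nat.add (Nat.add (Nat.add C x40208) x27086) x41666) x39722) x40370) x40154) x40262) x40190) x40214) x40210)
    (Nat.sub (Nat.sub (Nat.add (Nat.add (Nat.add (Nat.add (Nat.add (Nat.add (Nat.add (Nat.add (Nat.add C x27088) x41668) x39724) x40372) x40156) x40264) x40192) x40216) x40208) x40210) x20528)
    (Nat.add (Nat.add (Nat.add (Nat.add (Nat.add (Nat.add (Nat.add (Nat.add (Nat.add (Nat.add C x27092) x41672) x39728) x40376) x40160) x40268) x40196) x40232) x40208) x40216)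
    (Nat.sub (Nat.add (Nat.add (Nat.add (Nat.add (Nat.add (Nat.add (Nat.add (Nat.add (Nat.add (Nat.add (Nat.add (Nat.add C x27094) x41674) x39730) x40378) x40162) x40270) x40198) x40234) x40210) x40222) x40214) x40218) x20534)
    (Nat.sub (Nat.sub (Nat.add (Nat.add (Nat.add (Nat.add (Nat.add (Nat.add (Nat.add (Nat.add (Nat.add (Nat.add C x27096) x41676) x39732) x40380) x40164) x40272) x40200) x40236) x40224) x40216) (Nat.mul x40218 (nat_lit 2))) x20536)
    (Nat.sub (Nat.sub (Nat.add (Nat.add (Nat.add (Nat.add (Nat.add (Nat.add (Nat.add (Nat.add (Nat.add C x27100) x41680) x39736) x40384) x40168) x40276) x40240) x40216) x40224) x40222) x20540)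
    (Nat.sub (Nat.sub (Nat.add (Nat.add (Nat.add (Nat.add (Nat.add (Nat.add (Nat.add (Nat.add (Nat.add C x27102) x41682) x39738) x40386) x40170) x40278) x40242) x40218) x40222) x40224) x20542)
    (Nat.add (Nat.add (Nat.add (Nat.add (Nat.add (Nat.add (Nat.add C x27110) x41690) x39746) x40394) x40286) x40214) x40234)
    (Nat.sub (Nat.sub (Nat.add (Nat.add (Nat.add (Nat.add (Nat.add (Nat.add (Nat.add (Nat.add (Nat.add C x27112) x41692) x39748) x40396) x40288) x40216) x40240) x40232) x40236) x40234) x20552)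
    (Nat.sub (Nat.sub (Nat.add (Nat.add (Nat.add (Nat.add (Nat.add (Nat.add (Nat.add (Nat.add C x27114) x41694) x39750) x40398) x40290) x40218) x40242) x40234) (Nat.mul x40236 (nat_lit 4))) x20554)
    (Nat.sub (Nat.add (Nat.add (Nat.add (Nat.add (Nat.add (Nat.add (Nat.add (Nat.add C x27118) x41698) x39754) x40402) x40294) x40222) x40234) x40242) x20558)
    (Nat.sub (Nat.sub (Nat.add (Nat.add (Nat.add (Nat.add (Nat.add (Nat.add (Nat.add (Nat.add (Nat.add C x27120) x41700) x39756) x40404) x40296) x40224) x40236) x40248) x40240) x40242) x20560)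
    (Nat.sub (Nat.add (Nat.add (Nat.add (Nat.add (Nat.add (Nat.add C x27126) x41706) x39762) x40410) x40302) x40242) x20566)
    (Nat.add (Nat.add (Nat.add (Nat.add (Nat.add (Nat.add (Nat.add C x27140) x41720) x39776) x40424) x40208) x40268) x40264)
    (Nat.sub (Nat.sub (Nat.add (Nat.add (Nat.add (Nat.add (Nat.add (Nat.add (Nat.add C x27142) x41722) x39778) x40426) x40210) x40270) x40262) (Nat.mul x40264 (nat_lit 2))) x20582)
    (Nat.sub (Nat.add (Nat.add (Nat.add (Nat.add (Nat.add (Nat.add (Nat.add (Nat.add C x27146) x41726) x39782) x40430) x40214) x40286) x40262) x40270) (Nat.mul x40268 (nat_lit 2)))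
    (Nat.sub (Nat.sub (Nat.add (Nat.add (Nat.add (Nat.add (Nat.add (Nat.add (Nat.add (Nat.add (Nat.add (Nat.add C x27148) x41728) x39784) x40432) x40216) x40288) x40264) x40276) x40268) x40272) (Nat.mul x40270 (nat_lit 2))) x20588)
    (Nat.sub (Nat.sub (Nat.add (Nat.add (Nat.add (Nat.add (Nat.add (Nat.add (Nat.add (Nat.add C x27150) x41730) x39786) x40434) x40218) x40290) x40278) x40270) (Nat.mul x40272 (nat_lit 4))) x20590)
    (Nat.sub (Nat.sub (Nat.add (Nat.add (Nat.add (Nat.add (Nat.add (Nat.add (Nat.add (Nat.add C x27154) x41734) x39790) x40438) x40222) x40294) x40270) x40278) (Nat.mul x40276 (nat_lit 4))) x20594)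
    (Nat.sub (Nat.sub (Nat.add (Nat.add (Nat.add (Nat.add (Nat.add (Nat.add (Nat.add (Nat.add C x27156) x41736) x39792) x40440) x40224) x40296) x40272) x40276) (Nat.mul x40278 (nat_lit 4))) x20596)
    (Nat.add (Nat.add (Nat.add (Nat.add (Nat.add (Nat.add (Nat.add C x27164) x41744) x39800) x40448) x40232) x40268) x40288)
    (Nat.sub (Nat.sub (Nat.add (Nat.add (Nat.add (Nat.add (Nat.add (Nat.add (Nat.add (Nat.add (Nat.add C x27166) x41746) x39802) x40450) x40234) x40270) x40294) x40286) x40290) x40288) x20606)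
    (Nat.sub (Nat.sub (Nat.add (Nat.add (Nat.add (Nat.add (Nat.add (Nat.add (Nat.add (Nat.add C x27168) x41748) x39804) x40452) x40236) x40272) x40296) x40288) (Nat.mul x40290 (nat_lit 4))) x20608)
    (Nat.sub (Nat.sub (Nat.add (Nat.add (Nat.add (Nat.add (Nat.add (Nat.add (Nat.add (Nat.add (Nat.add C x27172) x41752) x39808) x40456) x40240) x40276) x40312) x40288) x40296) x40294) x20612)
    (Nat.sub (Nat.sub (Nat.add (Nat.add (Nat.add (Nat.add (Nat.add (Nat.add (Nat.add (Nat.add (Nat.add (Nat.add C x27174) x41754) x39810) x40458) x40242) x40278) x40314) x40290) x40302) x40294) (Nat.mul x40296 (nat_lit 2))) x20614)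
    (Nat.sub (Nat.sub (Nat.add (Nat.add (Nat.add (Nat.add (Nat.add (Nat.add (Nat.add C x27180) x41760) x39816) x40464) x40248) x40320) x40296) (Nat.mul x40302 (nat_lit 2))) x20620)
    (Nat.sub (Nat.add (Nat.add (Nat.add (Nat.add (Nat.add (Nat.add C x27190) x41770) x39826) x40474) x40294) x40314) x20630)
    (Nat.sub (Nat.sub (Nat.add (Nat.add (Nat.add (Nat.add (Nat.add (Nat.add (Nat.add C x27192) x41772) x39828) x40476) x40296) x40320) x40312) (Nat.mul x40314 (nat_lit 2))) x20632)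
    (Nat.sub (Nat.add (Nat.add (Nat.add (Nat.add (Nat.add (Nat.add C x27198) x41778) x39834) x40482) x40302) x40314) x20638)
    (Nat.add (Nat.add (Nat.add (Nat.add (Nat.add (Nat.add (Nat.add C (Nat.mul x40346 (nat_lit 3))) x27224) x41804) x39860) x40832) x40184) x40352)
    (Nat.add (Nat.add (Nat.add (Nat.add (Nat.add (Nat.add (Nat.add (Nat.add (Nat.add (Nat.add C (Nat.mul x40352 (nat_lit 2))) x27230) x41810) x39866) x40838) x40190) x40370) x40346) x40358) x40354)
    (Nat.sub (Nat.add (Nat.add (Nat.add (Nat.add (Nat.add (Nat.add (Nat.add (Nat.add (Nat.add C x40354) x27232) x41812) x39868) x40840) x40192) x40372) x40360) x40352) x20672)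
    (Nat.sub (Nat.add (Nat.add (Nat.add (Nat.add (Nat.add (Nat.add (Nat.add (Nat.add C x27236) x41816) x39872) x40844) x40196) x40376) x40352) x40360) x40358)
    (Nat.sub (Nat.add (Nat.add (Nat.add (Nat.add (Nat.add (Nat.add (Nat.add (Nat.add (Nat.add C x27238) x41818) x39874) x40846) x40198) x40378) x40354) x40358) x40362) x20678)
    (Nat.sub (Nat.sub (Nat.add (Nat.add (Nat.add (Nat.add (Nat.add (Nat.add (Nat.add C x27240) x41820) x39876) x40848) x40200) x40380) x40360) x40362) x20680)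
    (Nat.add (Nat.add (Nat.add (Nat.add (Nat.add (Nat.add (Nat.add (Nat.add (Nat.add (Nat.add C x40370) x27248) x41828) x39884) x40856) x40208) x40424) x40352) x40376) x40372)
    (Nat.sub (Nat.sub (Nat.add (Nat.add (Nat.add (Nat.add (Nat.add (Nat.add (Nat.add (Nat.add (Nat.add C x27250) x41830) x39886) x40858) x40210) x40426) x40354) x40378) x40370) x40372) x20690)
    (Nat.add (Nat.add (Nat.add (Nat.add (Nat.add (Nat.add (Nat.add (Nat.add (Nat.add (Nat.add C x27254) x41834) x39890) x40862) x40214) x40430) x40358) x40394) x40370) x40378)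
    (Nat.sub (Nat.add (Nat.add (Nat.add (Nat.add (Nat.add (Nat.add (Nat.add (Nat.add (Nat.add (Nat.add (Nat.add (Nat.add C x27256) x41836) x39892) x40864) x40216) x40432) x40360) x40396) x40372) x40384) x40376) x40380) x20696)
    (Nat.sub (Nat.sub (Nat.add (Nat.add (Nat.add (Nat.add (Nat.add (Nat.add (Nat.add (Nat.add (Nat.add (Nat.add C x27258) x41838) x39894) x40866) x40218) x40434) x40362) x40398) x40386) x40378) (Nat.mul x40380 (nat_lit 2))) x20698)
    (Nat.sub (Nat.sub (Nat.add (Nat.add (Nat.add (Nat.add (Nat.add (Nat.add (Nat.add (Nat.add (Nat.add C x27262) x41842) x39898) x40870) x40222) x40438) x40402) x40378) x40386) x40384) x20702)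
    (Nat.sub (Nat.sub (Nat.add (Nat.add (Nat.add (Nat.add (Nat.add (Nat.add (Nat.add (Nat.add (Nat.add C x27264) x41844) x39900) x40872) x40224) x40440) x40404) x40380) x40384) x40386) x20704)
    (Nat.sub (Nat.add (Nat.add (Nat.add (Nat.add (Nat.add (Nat.add (Nat.add (Nat.add C x27272) x41852) x39908) x40880) x40232) x40448) x40376) x40396) x40394)
    (Nat.sub (Nat.sub (Nat.add (Nat.add (Nat.add (Nat.add (Nat.add (Nat.add (Nat.add (Nat.add (Nat.add (Nat.add C x27274) x41854) x39910) x40882) x40234) x40450) x40378) x40402) x40394) x40398) (Nat.mul x40396 (nat_lit 2))) x20714)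
    (Nat.sub (Nat.sub (Nat.add (Nat.add (Nat.add (Nat.add (Nat.add (Nat.add (Nat.add (Nat.add (Nat.add C x27276) x41856) x39912) x40884) x40236) x40452) x40380) x40404) x40396) (Nat.mul x40398 (nat_lit 5))) x20716)
    (Nat.sub (Nat.sub (Nat.add (Nat.add (Nat.add (Nat.add (Nat.add (Nat.add (Nat.add (Nat.add (Nat.add C x27280) x41860) x39916) x40888) x40240) x40456) x40384) x40396) x40404) x40402) x20720)
    (Nat.sub (Nat.sub (Nat.add (Nat.add (Nat.add (Nat.add (Nat.add (Nat.add (Nat.add (Nat.add (Nat.add (Nat.add C x27282) x41862) x39918) x40890) x40242) x40458) x40386) x40398) x40410) x40402) (Nat.mul x40404 (nat_lit 2))) x20722)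
    (Nat.sub (Nat.sub (Nat.add (Nat.add (Nat.add (Nat.add (Nat.add (Nat.add (Nat.add C x27288) x41868) x39924) x40896) x40248) x40464) x40404) x40410) x20728)
    (Nat.add (Nat.add (Nat.add (Nat.add (Nat.add (Nat.add (Nat.add (Nat.add (Nat.add (Nat.add C (Nat.mul x40424 (nat_lit 2))) x27302) x41882) x39938) x40910) x40262) x40586) x40370) x40430) x40426)
    (Nat.sub (Nat.add (Nat.add (Nat.add (Nat.add (Nat.add (Nat.add (Nat.add (Nat.add (Nat.add C x27304) x41884) x39940) x40912) x40264) x40588) x40372) x40432) x40424) x20744)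
    (Nat.add (Nat.add (Nat.add (Nat.add (Nat.add (Nat.add (Nat.add (Nat.add (Nat.add (Nat.add C x27308) x41888) x39944) x40916) x40268) x40592) x40376) x40448) x40424) x40432)
    (Nat.sub (Nat.add (Nat.add (Nat.add (Nat.add (Nat.add (Nat.add (Nat.add (Nat.add (Nat.add (Nat.add (Nat.add (Nat.add C x27310) x41890) x39946) x40918) x40270) x40594) x40378) x40450) x40426) x40438) x40430) x40434) x20750)
    (Nat.sub (Nat.sub (Nat.add (Nat.add (Nat.add (Nat.add (Nat.add (Nat.add (Nat.add (Nat.add (Nat.add (Nat.add C x27312) x41892) x39948) x40920) x40272) x40596) x40380) x40452) x40440) x40432) (Nat.mul x40434 (nat_lit 2))) x20752)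
    (Nat.sub (Nat.sub (Nat.add (Nat.add (Nat.add (Nat.add (Nat.add (Nat.add (Nat.add (Nat.add (Nat.add (Nat.add C x27316) x41896) x39952) x40924) x40276) x40600) x40384) x40456) x40432) x40440) (Nat.mul x40438 (nat_lit 2))) x20756)
    (Nat.sub (Nat.sub (Nat.add (Nat.add (Nat.add (Nat.add (Nat.add (Nat.add (Nat.add (Nat.add (Nat.add (Nat.add C x27318) x41898) x39954) x40926) x40278) x40602) x40386) x40458) x40434) x40438) (Nat.mul x40440 (nat_lit 2))) x20758)
    (Nat.add (Nat.add (Nat.add (Nat.add (Nat.add (Nat.add (Nat.add (Nat.add (Nat.add (Nat.add (Nat.add C x40448) x27326) x41906) x39962) x40934) x40286) x40610) x40394) x40502) x40430) x40450)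
    (Nat.sub (Nat.add (Nat.add (Nat.add (Nat.add (Nat.add (Nat.add (Nat.add (Nat.add (Nat.add (Nat.add (Nat.add (Nat.add C x27328) x41908) x39964) x40936) x40288) x40612) x40396) x40504) x40432) x40456) x40448) x40452) x20768)
    (Nat.sub (Nat.sub (Nat.add (Nat.add (Nat.add (Nat.add (Nat.add (Nat.add (Nat.add (Nat.add (Nat.add (Nat.add (Nat.add C x27330) x41910) x39966) x40938) x40290) x40614) x40398) x40506) x40434) x40458) x40450) (Nat.mul x40452 (nat_lit 3))) x20770)
    (Nat.sub (Nat.add (Nat.add (Nat.add (Nat.add (Nat.add (Nat.add (Nat.add (Nat.add (Nat.add (Nat.add (Nat.add (Nat.add C x27334) x41914) x39970) x40942) x40294) x40618) x40402) x40510) x40438) x40474) x40450) x40458) x20774)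
    (Nat.sub (Nat.sub (Nat.add (Nat.add (Nat.add (Nat.add (Nat.add (Nat.add (Nat.add (Nat.add (Nat.add (Nat.add (Nat.add (Nat.add (Nat.add C x27336) x41916) x39972) x40944) x40296) x40620) x40404) x40512) x40440) x40476) x40452) x40464) x40456) x40458) x20776)
    (Nat.sub (Nat.sub (Nat.add (Nat.add (Nat.add (Nat.add (Nat.add (Nat.add (Nat.add (Nat.add (Nat.add (Nat.add C x27342) x41922) x39978) x40950) x40302) x40626) x40410) x40518) x40482) x40458) x40464) x20782)
    (Nat.sub (Nat.add (Nat.add (Nat.add (Nat.add (Nat.add (Nat.add (Nat.add (Nat.add (Nat.add C x27352) x41932) x39988) x40960) x40312) x40636) x40528) x40456) x40476) x20792)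
    (Nat.sub (Nat.sub (Nat.add (Nat.add (Nat.add (Nat.add (Nat.add (Nat.add (Nat.add (Nat.add (Nat.add (Nat.add C x27354) x41934) x39990) x40962) x40314) x40638) x40530) x40458) x40482) x40474) (Nat.mul x40476 (nat_lit 2))) x20794)
    (Nat.sub (Nat.add (Nat.add (Nat.add (Nat.add (Nat.add (Nat.add (Nat.add (Nat.add (Nat.add C x27360) x41940) x39996) x40968) x40320) x40644) x40536) x40464) x40476) x20800)
    (Nat.add (Nat.add (Nat.add (Nat.add (Nat.add (Nat.add (Nat.add (Nat.add C x40502) x27380) x41960) x40016) x40988) x40664) x40448) x40504)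
    (Nat.sub (Nat.add (Nat.add (Nat.add (Nat.add (Nat.add (Nat.add (Nat.add (Nat.add (Nat.add C x27382) x41962) x40018) x40990) x40666) x40450) x40510) x40502) x40506) x20822)
    (Nat.sub (Nat.sub (Nat.add (Nat.add (Nat.add (Nat.add (Nat.add (Nat.add (Nat.add (Nat.add C x27384) x41964) x40020) x40992) x40668) x40452) x40512) x40504) (Nat.mul x40506 (nat_lit 3))) x20824)
    (Nat.sub (Nat.sub (Nat.add (Nat.add (Nat.add (Nat.add (Nat.add (Nat.add (Nat.add (Nat.add (Nat.add C x27388) x41968) x40024) x40996) x40672) x40456) x40528) x40504) x40512) x40510) x20828)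
    (Nat.sub (Nat.sub (Nat.add (Nat.add (Nat.add (Nat.add (Nat.add (Nat.add (Nat.add (Nat.add (Nat.add (Nat.add C x27390) x41970) x40026) x40998) x40674) x40458) x40530) x40506) x40518) x40510) (Nat.mul x40512 (nat_lit 2))) x20830)
    (Nat.sub (Nat.sub (Nat.add (Nat.add (Nat.add (Nat.add (Nat.add (Nat.add (Nat.add (Nat.add C x27396) x41976) x40032) x41004) x40680) x40464) x40536) x40512) (Nat.mul x40518 (nat_lit 3))) x20836)
    (Nat.sub (Nat.add (Nat.add (Nat.add (Nat.add (Nat.add (Nat.add (Nat.add (Nat.add (Nat.add C x40528) x27406) x41986) x40042) x41014) x40690) x40474) x40510) x40530) x20846)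
    (Nat.sub (Nat.sub (Nat.add (Nat.add (Nat.add (Nat.add (Nat.add (Nat.add (Nat.add (Nat.add (Nat.add C x27408) x41988) x40044) x41016) x40692) x40476) x40512) x40536) x40528) x40530) x20848)
    (Nat.sub (Nat.add (Nat.add (Nat.add (Nat.add (Nat.add (Nat.add (Nat.add (Nat.add (Nat.add C x27414) x41994) x40050) x41022) x40698) x40482) x40518) x40554) x40530) x20854)
    (Nat.sub (Nat.add (Nat.add (Nat.add (Nat.add (Nat.add (Nat.add (Nat.add C x40554) x27432) x42012) x40068) x41040) x40716) x40536) x20872)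
    (Nat.add (Nat.add (Nat.add (Nat.add (Nat.add (Nat.add (Nat.add C (Nat.mul x40586 (nat_lit 2))) x27464) x42044) x41072) x40424) x40592) x40588)
    (Nat.sub (Nat.add (Nat.add (Nat.add (Nat.add (Nat.add (Nat.add C x27466) x42046) x41074) x40426) x40594) x40586) x20906)
    (Nat.add (Nat.add (Nat.add (Nat.add (Nat.add (Nat.add (Nat.add C x27470) x42050) x41078) x40430) x40610) x40586) x40594)
    (Nat.sub (Nat.add (Nat.add (Nat.add (Nat.add (Nat.add (Nat.add (Nat.add (Nat.add (Nat.add C x27472) x42052) x41080) x40432) x40612) x40588) x40600) x40592) x40596) x20912)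
    (Nat.sub (Nat.sub (Nat.add (Nat.add (Nat.add (Nat.add (Nat.add (Nat.add (Nat.add C x27474) x42054) x41082) x40434) x40614) x40602) x40594) (Nat.mul x40596 (nat_lit 2))) x20914)
    (Nat.sub (Nat.sub (Nat.add (Nat.add (Nat.add (Nat.add (Nat.add (Nat.add (Nat.add C x27478) x42058) x41086) x40438) x40618) x40594) x40602) (Nat.mul x40600 (nat_lit 2))) x20918)
    (Nat.sub (Nat.sub (Nat.add (Nat.add (Nat.add (Nat.add (Nat.add (Nat.add (Nat.add C x27480) x42060) x41088) x40440) x40620) x40596) x40600) (Nat.mul x40602 (nat_lit 2))) x20920)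
    (Nat.add (Nat.add (Nat.add (Nat.add (Nat.add (Nat.add (Nat.add C x27488) x42068) x41096) x40448) x40664) x40592) x40612)
    (Nat.sub (Nat.sub (Nat.add (Nat.add (Nat.add (Nat.add (Nat.add (Nat.add (Nat.add (Nat.add (Nat.add C x27490) x42070) x41098) x40450) x40666) x40594) x40618) x40610) x40614) x40612) x20930)
    (Nat.sub (Nat.sub (Nat.add (Nat.add (Nat.add (Nat.add (Nat.add (Nat.add (Nat.add (Nat.add C x27492) x42072) x41100) x40452) x40668) x40596) x40620) x40612) (Nat.mul x40614 (nat_lit 4))) x20932)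
    (Nat.sub (Nat.sub (Nat.add (Nat.add (Nat.add (Nat.add (Nat.add (Nat.add (Nat.add (Nat.add (Nat.add C x27496) x42076) x41104) x40456) x40672) x40600) x40636) x40612) x40620) x40618) x20936)
    (Nat.sub (Nat.sub (Nat.add (Nat.add (Nat.add (Nat.add (Nat.add (Nat.add (Nat.add (Nat.add (Nat.add (Nat.add C x27498) x42078) x41106) x40458) x40674) x40602) x40638) x40614) x40626) x40618) (Nat.mul x40620 (nat_lit 2))) x20938)
    (Nat.sub (Nat.sub (Nat.add (Nat.add (Nat.add (Nat.add (Nat.add (Nat.add (Nat.add C x27504) x42084) x41112) x40464) x40680) x40644) x40620) (Nat.mul x40626 (nat_lit 2))) x20944)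
    (Nat.sub (Nat.sub (Nat.add (Nat.add (Nat.add (Nat.add (Nat.add (Nat.add (Nat.add C x27514) x42094) x41122) x40474) x40690) x40618) x40638) (Nat.mul x40636 (nat_lit 2))) x20954)
    (Nat.sub (Nat.sub (Nat.add (Nat.add (Nat.add (Nat.add (Nat.add (Nat.add (Nat.add (Nat.add C x27516) x42096) x41124) x40476) x40692) x40620) x40644) x40636) (Nat.mul x40638 (nat_lit 4))) x20956)
    (Nat.sub (Nat.sub (Nat.add (Nat.add (Nat.add (Nat.add (Nat.add (Nat.add (Nat.add C x27522) x42102) x41130) x40482) x40698) x40626) x40638) (Nat.mul x40644 (nat_lit 2))) x20962)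
    (Nat.add (Nat.add (Nat.add (Nat.add (Nat.add (Nat.add (Nat.add C (Nat.mul x40664 (nat_lit 2))) x27542) x42122) x41150) x40502) x40610) x40666)
    (Nat.sub (Nat.add (Nat.add (Nat.add (Nat.add (Nat.add (Nat.add (Nat.add (Nat.add (Nat.add C x40666) x27544) x42124) x41152) x40504) x40612) x40672) x40664) x40668) x20984)
    (Nat.sub (Nat.sub (Nat.add (Nat.add (Nat.add (Nat.add (Nat.add (Nat.add (Nat.add C x27546) x42126) x41154) x40506) x40614) x40674) x40666) (Nat.mul x40668 (nat_lit 2))) x20986)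
    (Nat.sub (Nat.add (Nat.add (Nat.add (Nat.add (Nat.add (Nat.add (Nat.add (Nat.add C x27550) x42130) x41158) x40510) x40618) x40690) x40666) x40674) x20990)
    (Nat.sub (Nat.sub (Nat.add (Nat.add (Nat.add (Nat.add (Nat.add (Nat.add (Nat.add (Nat.add (Nat.add C x27552) x42132) x41160) x40512) x40620) x40692) x40668) x40680) x40672) x40674) x20992)
    (Nat.sub (Nat.sub (Nat.add (Nat.add (Nat.add (Nat.add (Nat.add (Nat.add (Nat.add C x27558) x42138) x41166) x40518) x40626) x40698) x40674) (Nat.mul x40680 (nat_lit 2))) x20998)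
    (Nat.sub (Nat.add (Nat.add (Nat.add (Nat.add (Nat.add (Nat.add (Nat.add (Nat.add (Nat.add C x40690) x27568) x42148) x41176) x40528) x40636) x40744) x40672) x40692) x21008)
    (Nat.sub (Nat.sub (Nat.add (Nat.add (Nat.add (Nat.add (Nat.add (Nat.add (Nat.add (Nat.add (Nat.add C x27570) x42150) x41178) x40530) x40638) x40746) x40674) x40698) x40690) x40692) x21010)
    (Nat.sub (Nat.add (Nat.add (Nat.add (Nat.add (Nat.add (Nat.add (Nat.add (Nat.add (Nat.add C x27576) x42156) x41184) x40536) x40644) x40752) x40680) x40716) x40692) x21016)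
    (Nat.sub (Nat.add (Nat.add (Nat.add (Nat.add (Nat.add (Nat.add C x27594) x42174) x41202) x40554) x40770) x40698) x21034)
    (Nat.sub (Nat.add (Nat.add (Nat.add (Nat.add (Nat.add (Nat.add C (Nat.mul x40744 (nat_lit 2))) x27622) x42202) x41230) x40690) x40746) x21062)
    (Nat.sub (Nat.add (Nat.add (Nat.add (Nat.add (Nat.add (Nat.add C x27624) x42204) x41232) x40692) x40752) x40744) x21064)
    (Nat.sub (Nat.add (Nat.add (Nat.add (Nat.add (Nat.add (Nat.add C x27630) x42210) x41238) x40698) x40770) x40746) x21070)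
    (Nat.sub (Nat.add (Nat.add (Nat.add (Nat.add (Nat.add (Nat.add C (Nat.mul x40770 (nat_lit 2))) x27648) x42228) x41256) x40716) x40752) x21088)
    (Nat.add (Nat.add (Nat.add (Nat.add (Nat.add C (Nat.mul x40832 (nat_lit 2))) x27710) x42290) x40346) x40838)
    (Nat.add (Nat.add (Nat.add (Nat.add (Nat.add (Nat.add (Nat.add (Nat.add C x40838) x27716) x42296) x40352) x40856) x40832) x40844) x40840)
    (Nat.sub (Nat.add (Nat.add (Nat.add (Nat.add (Nat.add (Nat.add C x27718) x42298) x40354) x40858) x40846) x40838) x21158)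
    (Nat.sub (Nat.add (Nat.add (Nat.add (Nat.add (Nat.add (Nat.add C x27722) x42302) x40358) x40862) x40838) x40846) (Nat.mul x40844 (nat_lit 2)))
    (Nat.sub (Nat.sub (Nat.add (Nat.add (Nat.add (Nat.add (Nat.add (Nat.add (Nat.add C x27724) x42304) x40360) x40864) x40840) x40844) x40848) x40846) x21164)
    (Nat.sub (Nat.sub (Nat.add (Nat.add (Nat.add (Nat.add (Nat.add C x27726) x42306) x40362) x40866) x40846) (Nat.mul x40848 (nat_lit 2))) x21166)
    (Nat.add (Nat.add (Nat.add (Nat.add (Nat.add (Nat.add (Nat.add C x27734) x42314) x40370) x40910) x40838) x40862) x40858)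
    (Nat.sub (Nat.sub (Nat.add (Nat.add (Nat.add (Nat.add (Nat.add (Nat.add (Nat.add C x27736) x42316) x40372) x40912) x40840) x40864) x40856) (Nat.mul x40858 (nat_lit 2))) x21176)
    (Nat.sub (Nat.add (Nat.add (Nat.add (Nat.add (Nat.add (Nat.add (Nat.add (Nat.add C x27740) x42320) x40376) x40916) x40844) x40880) x40856) x40864) x40862)
    (Nat.sub (Nat.sub (Nat.add (Nat.add (Nat.add (Nat.add (Nat.add (Nat.add (Nat.add (Nat.add (Nat.add (Nat.add C x27742) x42322) x40378) x40918) x40846) x40882) x40858) x40870) x40862) x40866) x40864) x21182)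
    (Nat.sub (Nat.sub (Nat.add (Nat.add (Nat.add (Nat.add (Nat.add (Nat.add (Nat.add (Nat.add C x27744) x42324) x40380) x40920) x40848) x40884) x40872) x40864) (Nat.mul x40866 (nat_lit 3))) x21184)
    (Nat.sub (Nat.sub (Nat.add (Nat.add (Nat.add (Nat.add (Nat.add (Nat.add (Nat.add C x27748) x42328) x40384) x40924) x40888) x40864) x40872) (Nat.mul x40870 (nat_lit 2))) x21188)
    (Nat.sub (Nat.sub (Nat.add (Nat.add (Nat.add (Nat.add (Nat.add (Nat.add (Nat.add C x27750) x42330) x40386) x40926) x40890) x40866) x40870) (Nat.mul x40872 (nat_lit 2))) x21190)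
    (Nat.sub (Nat.add (Nat.add (Nat.add (Nat.add (Nat.add (Nat.add C x27758) x42338) x40394) x40934) x40862) x40882) (Nat.mul x40880 (nat_lit 2)))
    (Nat.sub (Nat.sub (Nat.add (Nat.add (Nat.add (Nat.add (Nat.add (Nat.add (Nat.add (Nat.add C x27760) x42340) x40396) x40936) x40864) x40888) x40880) x40884) (Nat.mul x40882 (nat_lit 3))) x21200)
    (Nat.sub (Nat.sub (Nat.add (Nat.add (Nat.add (Nat.add (Nat.add (Nat.add (Nat.add C x27762) x42342) x40398) x40938) x40866) x40890) x40882) (Nat.mul x40884 (nat_lit 6))) x21202)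
    (Nat.sub (Nat.sub (Nat.add (Nat.add (Nat.add (Nat.add (Nat.add (Nat.add (Nat.add C x27766) x42346) x40402) x40942) x40870) x40882) x40890) (Nat.mul x40888 (nat_lit 2))) x21206)
    (Nat.sub (Nat.sub (Nat.add (Nat.add (Nat.add (Nat.add (Nat.add (Nat.add (Nat.add (Nat.add C x27768) x42348) x40404) x40944) x40872) x40884) x40896) x40888) (Nat.mul x40890 (nat_lit 3))) x21208)
    (Nat.sub (Nat.sub (Nat.add (Nat.add (Nat.add (Nat.add (Nat.add C x27774) x42354) x40410) x40950) x40890) (Nat.mul x40896 (nat_lit 2))) x21214)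
    (Nat.add (Nat.add (Nat.add (Nat.add (Nat.add (Nat.add (Nat.add C x27788) x42368) x40424) x41072) x40856) x40916) x40912)
    (Nat.sub (Nat.sub (Nat.add (Nat.add (Nat.add (Nat.add (Nat.add (Nat.add (Nat.add C x27790) x42370) x40426) x41074) x40858) x40918) x40910) (Nat.mul x40912 (nat_lit 2))) x21230)
    (Nat.sub (Nat.add (Nat.add (Nat.add (Nat.add (Nat.add (Nat.add (Nat.add (Nat.add C x27794) x42374) x40430) x41078) x40862) x40934) x40910) x40918) (Nat.mul x40916 (nat_lit 2)))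
    (Nat.sub (Nat.sub (Nat.add (Nat.add (Nat.add (Nat.add (Nat.add (Nat.add (Nat.add (Nat.add (Nat.add (Nat.add C x27796) x42376) x40432) x41080) x40864) x40936) x40912) x40924) x40916) x40920) (Nat.mul x40918 (nat_lit 2))) x21236)
    (Nat.sub (Nat.sub (Nat.add (Nat.add (Nat.add (Nat.add (Nat.add (Nat.add (Nat.add (Nat.add C x27798) x42378) x40434) x41082) x40866) x40938) x40926) x40918) (Nat.mul x40920 (nat_lit 4))) x21238)
    (Nat.sub (Nat.sub (Nat.add (Nat.add (Nat.add (Nat.add (Nat.add (Nat.add (Nat.add (Nat.add C x27802) x42382) x40438) x41086) x40870) x40942) x40918) x40926) (Nat.mul x40924 (nat_lit 4))) x21242)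
    (Nat.sub (Nat.sub (Nat.add (Nat.add (Nat.add (Nat.add (Nat.add (Nat.add (Nat.add (Nat.add C x27804) x42384) x40440) x41088) x40872) x40944) x40920) x40924) (Nat.mul x40926 (nat_lit 4))) x21244)
    (Nat.sub (Nat.add (Nat.add (Nat.add (Nat.add (Nat.add (Nat.add (Nat.add (Nat.add C x27812) x42392) x40448) x41096) x40880) x40988) x40916) x40936) x40934)
    (Nat.sub (Nat.sub (Nat.add (Nat.add (Nat.add (Nat.add (Nat.add (Nat.add (Nat.add (Nat.add (Nat.add (Nat.add C x27814) x42394) x40450) x41098) x40882) x40990) x40918) x40942) x40934) x40938) (Nat.mul x40936 (nat_lit 2))) x21254)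
    (Nat.sub (Nat.sub (Nat.add (Nat.add (Nat.add (Nat.add (Nat.add (Nat.add (Nat.add (Nat.add (Nat.add C x27816) x42396) x40452) x41100) x40884) x40992) x40920) x40944) x40936) (Nat.mul x40938 (nat_lit 5))) x21256)
    (Nat.sub (Nat.sub (Nat.add (Nat.add (Nat.add (Nat.add (Nat.add (Nat.add (Nat.add (Nat.add (Nat.add (Nat.add C x27820) x42400) x40456) x41104) x40888) x40996) x40924) x40960) x40936) x40944) (Nat.mul x40942 (nat_lit 2))) x21260)
    (Nat.sub (Nat.sub (Nat.add (Nat.add (Nat.add (Nat.add (Nat.add (Nat.add (Nat.add (Nat.add (Nat.add (Nat.add (Nat.add C x27822) x42402) x40458) x41106) x40890) x40998) x40926) x40962) x40938) x40950) x40942) (Nat.mul x40944 (nat_lit 3))) x21262)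
    (Nat.sub (Nat.sub (Nat.add (Nat.add (Nat.add (Nat.add (Nat.add (Nat.add (Nat.add (Nat.add C x27828) x42408) x40464) x41112) x40896) x41004) x40968) x40944) (Nat.mul x40950 (nat_lit 3))) x21268)
    (Nat.sub (Nat.sub (Nat.add (Nat.add (Nat.add (Nat.add (Nat.add (Nat.add (Nat.add C x27838) x42418) x40474) x41122) x41014) x40942) x40962) (Nat.mul x40960 (nat_lit 2))) x21278)
    (Nat.sub (Nat.sub (Nat.add (Nat.add (Nat.add (Nat.add (Nat.add (Nat.add (Nat.add (Nat.add C x27840) x42420) x40476) x41124) x41016) x40944) x40968) x40960) (Nat.mul x40962 (nat_lit 4))) x21280)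
    (Nat.sub (Nat.sub (Nat.add (Nat.add (Nat.add (Nat.add (Nat.add (Nat.add (Nat.add C x27846) x42426) x40482) x41130) x41022) x40950) x40962) (Nat.mul x40968 (nat_lit 2))) x21286)
    (Nat.sub (Nat.add (Nat.add (Nat.add (Nat.add (Nat.add (Nat.add C x27866) x42446) x40502) x41150) x40934) x40990) (Nat.mul x40988 (nat_lit 2)))
    (Nat.sub (Nat.sub (Nat.add (Nat.add (Nat.add (Nat.add (Nat.add (Nat.add (Nat.add (Nat.add C x27868) x42448) x40504) x41152) x40936) x40996) x40988) x40992) (Nat.mul x40990 (nat_lit 3))) x21308)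
    (Nat.sub (Nat.sub (Nat.add (Nat.add (Nat.add (Nat.add (Nat.add (Nat.add (Nat.add C x27870) x42450) x40506) x41154) x40938) x40998) x40990) (Nat.mul x40992 (nat_lit 6))) x21310)
    (Nat.sub (Nat.sub (Nat.add (Nat.add (Nat.add (Nat.add (Nat.add (Nat.add (Nat.add (Nat.add C x27874) x42454) x40510) x41158) x40942) x41014) x40990) x40998) (Nat.mul x40996 (nat_lit 4))) x21314)
    (Nat.sub (Nat.sub (Nat.add (Nat.add (Nat.add (Nat.add (Nat.add (Nat.add (Nat.add (Nat.add (Nat.add C x27876) x42456) x40512) x41160) x40944) x41016) x40992) x41004) x40996) (Nat.mul x40998 (nat_lit 5))) x21316)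
    (Nat.sub (Nat.sub (Nat.add (Nat.add (Nat.add (Nat.add (Nat.add (Nat.add (Nat.add C x27882) x42462) x40518) x41166) x40950) x41022) x40998) (Nat.mul x41004 (nat_lit 6))) x21322)
    (Nat.sub (Nat.sub (Nat.add (Nat.add (Nat.add (Nat.add (Nat.add (Nat.add (Nat.add C x27892) x42472) x40528) x41176) x40960) x40996) x41016) (Nat.mul x41014 (nat_lit 2))) x21332)
    (Nat.sub (Nat.sub (Nat.add (Nat.add (Nat.add (Nat.add (Nat.add (Nat.add (Nat.add (Nat.add C x27894) x42474) x40530) x41178) x40962) x40998) x41022) x41014) (Nat.mul x41016 (nat_lit 4))) x21334)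
    (Nat.sub (Nat.sub (Nat.add (Nat.add (Nat.add (Nat.add (Nat.add (Nat.add (Nat.add (Nat.add C x27900) x42480) x40536) x41184) x40968) x41004) x41040) x41016) (Nat.mul x41022 (nat_lit 3))) x21340)
    (Nat.sub (Nat.sub (Nat.add (Nat.add (Nat.add (Nat.add (Nat.add C x27918) x42498) x40554) x41202) x41022) (Nat.mul x41040 (nat_lit 2))) x21358)
    (Nat.add (Nat.add (Nat.add (Nat.add (Nat.add (Nat.add (Nat.add C (Nat.mul x41072 (nat_lit 2))) x27950) x42530) x40586) x40910) x41078) x41074)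
    (Nat.sub (Nat.add (Nat.add (Nat.add (Nat.add (Nat.add (Nat.add C x27952) x42532) x40588) x40912) x41080) x41072) x21392)
    (Nat.add (Nat.add (Nat.add (Nat.add (Nat.add (Nat.add (Nat.add C x27956) x42536) x40592) x40916) x41096) x41072) x41080)
    (Nat.sub (Nat.add (Nat.add (Nat.add (Nat.add (Nat.add (Nat.add (Nat.add (Nat.add (Nat.add C x27958) x42538) x40594) x40918) x41098) x41074) x41086) x41078) x41082) x21398)
    (Nat.sub (Nat.sub (Nat.add (Nat.add (Nat.add (Nat.add (Nat.add (Nat.add (Nat.add C x27960) x42540) x40596) x40920) x41100) x41088) x41080) (Nat.mul x41082 (nat_lit 2))) x21400)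
    (Nat.sub (Nat.sub (Nat.add (Nat.add (Nat.add (Nat.add (Nat.add (Nat.add (Nat.add C x27964) x42544) x40600) x40924) x41104) x41080) x41088) (Nat.mul x41086 (nat_lit 2))) x21404)
    (Nat.sub (Nat.sub (Nat.add (Nat.add (Nat.add (Nat.add (Nat.add (Nat.add (Nat.add C x27966) x42546) x40602) x40926) x41106) x41082) x41086) (Nat.mul x41088 (nat_lit 2))) x21406)
    (Nat.add (Nat.add (Nat.add (Nat.add (Nat.add (Nat.add (Nat.add C x27974) x42554) x40610) x40934) x41150) x41078) x41098)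
    (Nat.sub (Nat.sub (Nat.add (Nat.add (Nat.add (Nat.add (Nat.add (Nat.add (Nat.add (Nat.add (Nat.add C x27976) x42556) x40612) x40936) x41152) x41080) x41104) x41096) x41100) x41098) x21416)
    (Nat.sub (Nat.sub (Nat.add (Nat.add (Nat.add (Nat.add (Nat.add (Nat.add (Nat.add (Nat.add C x27978) x42558) x40614) x40938) x41154) x41082) x41106) x41098) (Nat.mul x41100 (nat_lit 4))) x21418)
    (Nat.sub (Nat.sub (Nat.add (Nat.add (Nat.add (Nat.add (Nat.add (Nat.add (Nat.add (Nat.add (Nat.add C x27982) x42562) x40618) x40942) x41158) x41086) x41122) x41098) x41106) x41104) x21422)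
    (Nat.sub (Nat.sub (Nat.add (Nat.add (Nat.add (Nat.add (Nat.add (Nat.add (Nat.add (Nat.add (Nat.add (Nat.add C x27984) x42564) x40620) x40944) x41160) x41088) x41124) x41100) x41112) x41104) (Nat.mul x41106 (nat_lit 2))) x21424)
    (Nat.sub (Nat.sub (Nat.add (Nat.add (Nat.add (Nat.add (Nat.add (Nat.add (Nat.add C x27990) x42570) x40626) x40950) x41166) x41130) x41106) (Nat.mul x41112 (nat_lit 2))) x21430)
    (Nat.sub (Nat.sub (Nat.add (Nat.add (Nat.add (Nat.add (Nat.add (Nat.add (Nat.add C x28000) x42580) x40636) x40960) x41176) x41104) x41124) (Nat.mul x41122 (nat_lit 2))) x21440)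
    (Nat.sub (Nat.sub (Nat.add (Nat.add (Nat.add (Nat.add (Nat.add (Nat.add (Nat.add (Nat.add C x28002) x42582) x40638) x40962) x41178) x41106) x41130) x41122) (Nat.mul x41124 (nat_lit 4))) x21442)
    (Nat.sub (Nat.sub (Nat.add (Nat.add (Nat.add (Nat.add (Nat.add (Nat.add (Nat.add C x28008) x42588) x40644) x40968) x41184) x41112) x41124) (Nat.mul x41130 (nat_lit 2))) x21448)
    (Nat.add (Nat.add (Nat.add (Nat.add (Nat.add (Nat.add (Nat.add (Nat.add C x41150) x28028) x42608) x40664) x40988) x41312) x41096) x41152)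
    (Nat.sub (Nat.add (Nat.add (Nat.add (Nat.add (Nat.add (Nat.add (Nat.add (Nat.add (Nat.add C x28030) x42610) x40666) x40990) x41314) x41098) x41158) x41150) x41154) x21470)
    (Nat.sub (Nat.sub (Nat.add (Nat.add (Nat.add (Nat.add (Nat.add (Nat.add (Nat.add (Nat.add C x28032) x42612) x40668) x40992) x41316) x41100) x41160) x41152) (Nat.mul x41154 (nat_lit 3))) x21472)
    (Nat.sub (Nat.sub (Nat.add (Nat.add (Nat.add (Nat.add (Nat.add (Nat.add (Nat.add (Nat.add (Nat.add C x28036) x42616) x40672) x40996) x41320) x41104) x41176) x41152) x41160) x41158) x21476)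
    (Nat.sub (Nat.sub (Nat.add (Nat.add (Nat.add (Nat.add (Nat.add (Nat.add (Nat.add (Nat.add (Nat.add (Nat.add C x28038) x42618) x40674) x40998) x41322) x41106) x41178) x41154) x41166) x41158) (Nat.mul x41160 (nat_lit 2))) x21478)
    (Nat.sub (Nat.sub (Nat.add (Nat.add (Nat.add (Nat.add (Nat.add (Nat.add (Nat.add (Nat.add C x28044) x42624) x40680) x41004) x41328) x41112) x41184) x41160) (Nat.mul x41166 (nat_lit 3))) x21484)
    (Nat.sub (Nat.add (Nat.add (Nat.add (Nat.add (Nat.add (Nat.add (Nat.add (Nat.add (Nat.add C x28054) x42634) x40690) x41014) x41338) x41122) x41230) x41158) x41178) x21494)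
    (Nat.sub (Nat.sub (Nat.add (Nat.add (Nat.add (Nat.add (Nat.add (Nat.add (Nat.add (Nat.add (Nat.add (Nat.add C x28056) x42636) x40692) x41016) x41340) x41124) x41232) x41160) x41184) x41176) (Nat.mul x41178 (nat_lit 2))) x21496)
    (Nat.sub (Nat.sub (Nat.add (Nat.add (Nat.add (Nat.add (Nat.add (Nat.add (Nat.add (Nat.add (Nat.add (Nat.add C x28062) x42642) x40698) x41022) x41346) x41130) x41238) x41166) x41202) x41178) x41184) x21502)
    (Nat.sub (Nat.sub (Nat.add (Nat.add (Nat.add (Nat.add (Nat.add (Nat.add (Nat.add C x28080) x42660) x40716) x41040) x41364) x41256) x41184) x41202) x21520)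
    (Nat.sub (Nat.add (Nat.add (Nat.add (Nat.add (Nat.add (Nat.add C x28108) x42688) x40744) x41392) x41176) x41232) x21548)
    (Nat.sub (Nat.sub (Nat.add (Nat.add (Nat.add (Nat.add (Nat.add (Nat.add (Nat.add C x28110) x42690) x40746) x41394) x41178) x41238) x41230) (Nat.mul x41232 (nat_lit 2))) x21550)
    (Nat.sub (Nat.sub (Nat.add (Nat.add (Nat.add (Nat.add (Nat.add (Nat.add (Nat.add C x28116) x42696) x40752) x41400) x41184) x41256) x41232) (Nat.mul x41238 (nat_lit 2))) x21556)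
    (Nat.sub (Nat.add (Nat.add (Nat.add (Nat.add (Nat.add (Nat.add C x28134) x42714) x40770) x41418) x41202) x41238) x21574)
    (Nat.add (Nat.add (Nat.add (Nat.add (Nat.add C (Nat.mul x41312 (nat_lit 2))) x28190) x42770) x41150) x41314)
    (Nat.sub (Nat.add (Nat.add (Nat.add (Nat.add (Nat.add (Nat.add (Nat.add C x41314) x28192) x42772) x41152) x41320) x41312) x41316) x21632)
    (Nat.sub (Nat.sub (Nat.add (Nat.add (Nat.add (Nat.add (Nat.add C x28194) x42774) x41154) x41322) x41314) (Nat.mul x41316 (nat_lit 2))) x21634)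
    (Nat.sub (Nat.add (Nat.add (Nat.add (Nat.add (Nat.add (Nat.add C x28198) x42778) x41158) x41338) x41314) x41322) x21638)
    (Nat.sub (Nat.sub (Nat.add (Nat.add (Nat.add (Nat.add (Nat.add (Nat.add (Nat.add C x28200) x42780) x41160) x41340) x41316) x41328) x41320) x41322) x21640)
    (Nat.sub (Nat.sub (Nat.add (Nat.add (Nat.add (Nat.add (Nat.add C x28206) x42786) x41166) x41346) x41322) (Nat.mul x41328 (nat_lit 2))) x21646)
    (Nat.sub (Nat.add (Nat.add (Nat.add (Nat.add (Nat.add (Nat.add C x28216) x42796) x41176) x41392) x41320) x41340) x21656)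
    (Nat.sub (Nat.sub (Nat.add (Nat.add (Nat.add (Nat.add (Nat.add (Nat.add (Nat.add C x28218) x42798) x41178) x41394) x41322) x41346) x41338) (Nat.mul x41340 (nat_lit 2))) x21658)
    (Nat.sub (Nat.sub (Nat.add (Nat.add (Nat.add (Nat.add (Nat.add (Nat.add (Nat.add C x28224) x42804) x41184) x41400) x41328) x41364) x41340) x41346) x21664)
    (Nat.sub (Nat.sub (Nat.add (Nat.add (Nat.add (Nat.add (Nat.add C x28242) x42822) x41202) x41418) x41346) (Nat.mul x41364 (nat_lit 2))) x21682)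
    (Nat.sub (Nat.add (Nat.add (Nat.add (Nat.add (Nat.add (Nat.add C (Nat.mul x41392 (nat_lit 2))) x28270) x42850) x41230) x41338) x41394) x21710)
    (Nat.sub (Nat.add (Nat.add (Nat.add (Nat.add (Nat.add (Nat.add C x28272) x42852) x41232) x41340) x41400) x41392) x21712)
    (Nat.sub (Nat.add (Nat.add (Nat.add (Nat.add (Nat.add (Nat.add C x28278) x42858) x41238) x41346) x41418) x41394) x21718)
    (Nat.sub (Nat.add (Nat.add (Nat.add (Nat.add (Nat.add (Nat.add (Nat.add C x41418) x28296) x42876) x41256) x41364) x41472) x41400) x21736)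
    (Nat.sub (Nat.add (Nat.add (Nat.add (Nat.add C (Nat.mul x41472 (nat_lit 2))) x28350) x42930) x41418) x21790)
    (Nat.add (Nat.add (Nat.add (Nat.add (Nat.add (Nat.add C (Nat.mul x41570 (nat_lit 4))) x28448) x45944) x40112) x41588) x41576)
    (Nat.add (Nat.add (Nat.add (Nat.add (Nat.add (Nat.add (Nat.add C (Nat.mul x41576 (nat_lit 2))) x28454) x45950) x40118) x41594) x41570) x41578)
    (Nat.sub (Nat.add (Nat.add (Nat.add (Nat.add (Nat.add (Nat.add C (Nat.mul x41578 (nat_lit 2))) x28456) x45952) x40120) x41596) x41576) x21896)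
    (Nat.add (Nat.add (Nat.add (Nat.add (Nat.add (Nat.add (Nat.add C (Nat.mul x41588 (nat_lit 2))) x28466) x45962) x40130) x41642) x41570) x41594)
    (Nat.add (Nat.add (Nat.add (Nat.add (Nat.add (Nat.add (Nat.add (Nat.add (Nat.add (Nat.add C (Nat.mul x41594 (nat_lit 2))) x28472) x45968) x40136) x41648) x41576) x41612) x41588) x41600) x41596)
    (Nat.sub (Nat.add (Nat.add (Nat.add (Nat.add (Nat.add (Nat.add (Nat.add (Nat.add (Nat.add C x41596) x28474) x45970) x40138) x41650) x41578) x41614) x41602) x41594) x21914)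
    (Nat.add (Nat.add (Nat.add (Nat.add (Nat.add (Nat.add (Nat.add C x28478) x45974) x40142) x41654) x41618) x41594) x41602)
    (Nat.sub (Nat.add (Nat.add (Nat.add (Nat.add (Nat.add (Nat.add (Nat.add (Nat.add (Nat.add C x41602) x28480) x45976) x40144) x41656) x41620) x41596) x41600) x41604) x21920)
    (Nat.sub (Nat.add (Nat.add (Nat.add (Nat.add (Nat.add (Nat.add C x28482) x45978) x40146) x41658) x41622) x41602) x21922)
    (Nat.add (Nat.add (Nat.add (Nat.add (Nat.add (Nat.add (Nat.add C x28490) x45986) x40154) x41666) x41594) x41618) x41614)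
    (Nat.sub (Nat.sub (Nat.add (Nat.add (Nat.add (Nat.add (Nat.add (Nat.add (Nat.add C x28492) x45988) x40156) x41668) x41596) x41620) x41612) (Nat.mul x41614 (nat_lit 2))) x21932)
    (Nat.add (Nat.add (Nat.add (Nat.add (Nat.add (Nat.add (Nat.add C x28496) x45992) x40160) x41672) x41600) x41612) x41620)
    (Nat.sub (Nat.add (Nat.add (Nat.add (Nat.add (Nat.add (Nat.add (Nat.add (Nat.add (Nat.add C x28498) x45994) x40162) x41674) x41602) x41614) x41626) x41618) x41622) x21938)
    (Nat.sub (Nat.sub (Nat.add (Nat.add (Nat.add (Nat.add (Nat.add (Nat.add (Nat.add C x28500) x45996) x40164) x41676) x41604) x41628) x41620) (Nat.mul x41622 (nat_lit 2))) x21940)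
    (Nat.sub (Nat.add (Nat.add (Nat.add (Nat.add (Nat.add (Nat.add C x28504) x46000) x40168) x41680) x41620) x41628) x21944)
    (Nat.sub (Nat.add (Nat.add (Nat.add (Nat.add (Nat.add (Nat.add C x28506) x46002) x40170) x41682) x41622) x41626) x21946)
    (Nat.add (Nat.add (Nat.add (Nat.add (Nat.add (Nat.add (Nat.add C (Nat.mul x41642 (nat_lit 2))) x28520) x46016) x40184) x41804) x41588) x41648)
    (Nat.add (Nat.add (Nat.add (Nat.add (Nat.add (Nat.add (Nat.add (Nat.add (Nat.add (Nat.add C x41648) x28526) x46022) x40190) x41810) x41594) x41666) x41642) x41654) x41650)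
    (Nat.sub (Nat.add (Nat.add (Nat.add (Nat.add (Nat.add (Nat.add (Nat.add (Nat.add C x28528) x46024) x40192) x41812) x41596) x41668) x41656) x41648) x21968)
    (Nat.sub (Nat.add (Nat.add (Nat.add (Nat.add (Nat.add (Nat.add (Nat.add (Nat.add C x28532) x46028) x40196) x41816) x41600) x41672) x41648) x41656) (Nat.mul x41654 (nat_lit 2)))
    (Nat.sub (Nat.sub (Nat.add (Nat.add (Nat.add (Nat.add (Nat.add (Nat.add (Nat.add (Nat.add (Nat.add C x28534) x46030) x40198) x41818) x41602) x41674) x41650) x41654) x41658) x41656) x21974)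
    (Nat.sub (Nat.sub (Nat.add (Nat.add (Nat.add (Nat.add (Nat.add (Nat.add (Nat.add C x28536) x46032) x40200) x41820) x41604) x41676) x41656) (Nat.mul x41658 (nat_lit 2))) x21976)
    (Nat.add (Nat.add (Nat.add (Nat.add (Nat.add (Nat.add (Nat.add (Nat.add (Nat.add (Nat.add C x41666) x28544) x46040) x40208) x41828) x41612) x41720) x41648) x41672) x41668)
    (Nat.sub (Nat.sub (Nat.add (Nat.add (Nat.add (Nat.add (Nat.add (Nat.add (Nat.add (Nat.add (Nat.add C x28546) x46042) x40210) x41830) x41614) x41722) x41650) x41674) x41666) x41668) x21986)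
    (Nat.add (Nat.add (Nat.add (Nat.add (Nat.add (Nat.add (Nat.add (Nat.add (Nat.add (Nat.add C x28550) x46046) x40214) x41834) x41618) x41726) x41654) x41690) x41666) x41674)
    (Nat.sub (Nat.add (Nat.add (Nat.add (Nat.add (Nat.add (Nat.add (Nat.add (Nat.add (Nat.add (Nat.add (Nat.add (Nat.add C x28552) x46048) x40216) x41836) x41620) x41728) x41656) x41692) x41668) x41680) x41672) x41676) x21992)
    (Nat.sub (Nat.sub (Nat.add (Nat.add (Nat.add (Nat.add (Nat.add (Nat.add (Nat.add (Nat.add (Nat.add (Nat.add C x28554) x46050) x40218) x41838) x41622) x41730) x41658) x41694) x41682) x41674) (Nat.mul x41676 (nat_lit 2))) x21994)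
    (Nat.sub (Nat.sub (Nat.add (Nat.add (Nat.add (Nat.add (Nat.add (Nat.add (Nat.add (Nat.add (Nat.add C x28558) x46054) x40222) x41842) x41626) x41734) x41698) x41674) x41682) x41680) x21998)
    (Nat.sub (Nat.sub (Nat.add (Nat.add (Nat.add (Nat.add (Nat.add (Nat.add (Nat.add (Nat.add (Nat.add C x28560) x46056) x40224) x41844) x41628) x41736) x41700) x41676) x41680) x41682) x22000)
    (Nat.add (Nat.add (Nat.add (Nat.add (Nat.add (Nat.add (Nat.add C x28568) x46064) x40232) x41852) x41744) x41672) x41692)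
    (Nat.sub (Nat.sub (Nat.add (Nat.add (Nat.add (Nat.add (Nat.add (Nat.add (Nat.add (Nat.add (Nat.add C x28570) x46066) x40234) x41854) x41746) x41674) x41698) x41690) x41694) x41692) x22010)
    (Nat.sub (Nat.sub (Nat.add (Nat.add (Nat.add (Nat.add (Nat.add (Nat.add (Nat.add (Nat.add C x28572) x46068) x40236) x41856) x41748) x41676) x41700) x41692) (Nat.mul x41694 (nat_lit 4))) x22012)
    (Nat.sub (Nat.add (Nat.add (Nat.add (Nat.add (Nat.add (Nat.add (Nat.add (Nat.add C x28576) x46072) x40240) x41860) x41752) x41680) x41692) x41700) x22016)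
    (Nat.sub (Nat.sub (Nat.add (Nat.add (Nat.add (Nat.add (Nat.add (Nat.add (Nat.add (Nat.add (Nat.add C x28578) x46074) x40242) x41862) x41754) x41682) x41694) x41706) x41698) x41700) x22018)
    (Nat.sub (Nat.add (Nat.add (Nat.add (Nat.add (Nat.add (Nat.add C x28584) x46080) x40248) x41868) x41760) x41700) x22024)
    (Nat.add (Nat.add (Nat.add (Nat.add (Nat.add (Nat.add (Nat.add C x28598) x46094) x40262) x41882) x41666) x41726) x41722)
    (Nat.sub (Nat.sub (Nat.add (Nat.add (Nat.add (Nat.add (Nat.add (Nat.add (Nat.add C x28600) x46096) x40264) x41884) x41668) x41728) x41720) (Nat.mul x41722 (nat_lit 2))) x22040)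
    (Nat.sub (Nat.add (Nat.add (Nat.add (Nat.add (Nat.add (Nat.add (Nat.add (Nat.add C x28604) x46100) x40268) x41888) x41672) x41744) x41720) x41728) (Nat.mul x41726 (nat_lit 2)))
    (Nat.sub (Nat.sub (Nat.add (Nat.add (Nat.add (Nat.add (Nat.add (Nat.add (Nat.add (Nat.add (Nat.add (Nat.add C x28606) x46102) x40270) x41890) x41674) x41746) x41722) x41734) x41726) x41730) (Nat.mul x41728 (nat_lit 2))) x22046)
    (Nat.sub (Nat.sub (Nat.add (Nat.add (Nat.add (Nat.add (Nat.add (Nat.add (Nat.add (Nat.add C x28608) x46104) x40272) x41892) x41676) x41748) x41736) x41728) (Nat.mul x41730 (nat_lit 4))) x22048)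
    (Nat.sub (Nat.sub (Nat.add (Nat.add (Nat.add (Nat.add (Nat.add (Nat.add (Nat.add (Nat.add C x28612) x46108) x40276) x41896) x41680) x41752) x41728) x41736) (Nat.mul x41734 (nat_lit 4))) x22052)
    (Nat.sub (Nat.sub (Nat.add (Nat.add (Nat.add (Nat.add (Nat.add (Nat.add (Nat.add (Nat.add C x28614) x46110) x40278) x41898) x41682) x41754) x41730) x41734) (Nat.mul x41736 (nat_lit 4))) x22054)
    (Nat.add (Nat.add (Nat.add (Nat.add (Nat.add (Nat.add (Nat.add C x28622) x46118) x40286) x41906) x41690) x41726) x41746)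
    (Nat.sub (Nat.sub (Nat.add (Nat.add (Nat.add (Nat.add (Nat.add (Nat.add (Nat.add (Nat.add (Nat.add C x28624) x46120) x40288) x41908) x41692) x41728) x41752) x41744) x41748) x41746) x22064)
    (Nat.sub (Nat.sub (Nat.add (Nat.add (Nat.add (Nat.add (Nat.add (Nat.add (Nat.add (Nat.add C x28626) x46122) x40290) x41910) x41694) x41730) x41754) x41746) (Nat.mul x41748 (nat_lit 4))) x22066)
    (Nat.sub (Nat.sub (Nat.add (Nat.add (Nat.add (Nat.add (Nat.add (Nat.add (Nat.add (Nat.add (Nat.add C x28630) x46126) x40294) x41914) x41698) x41734) x41770) x41746) x41754) x41752) x22070)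
    (Nat.sub (Nat.sub (Nat.add (Nat.add (Nat.add (Nat.add (Nat.add (Nat.add (Nat.add (Nat.add (Nat.add (Nat.add C x28632) x46128) x40296) x41916) x41700) x41736) x41772) x41748) x41760) x41752) (Nat.mul x41754 (nat_lit 2))) x22072)
    (Nat.sub (Nat.sub (Nat.add (Nat.add (Nat.add (Nat.add (Nat.add (Nat.add (Nat.add C x28638) x46134) x40302) x41922) x41706) x41778) x41754) (Nat.mul x41760 (nat_lit 2))) x22078)
    (Nat.sub (Nat.add (Nat.add (Nat.add (Nat.add (Nat.add (Nat.add C x28648) x46144) x40312) x41932) x41752) x41772) x22088)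
    (Nat.sub (Nat.sub (Nat.add (Nat.add (Nat.add (Nat.add (Nat.add (Nat.add (Nat.add C x28650) x46146) x40314) x41934) x41754) x41778) x41770) (Nat.mul x41772 (nat_lit 2))) x22090)
    (Nat.sub (Nat.add (Nat.add (Nat.add (Nat.add (Nat.add (Nat.add C x28656) x46152) x40320) x41940) x41760) x41772) x22096)
    (Nat.add (Nat.add (Nat.add (Nat.add (Nat.add (Nat.add (Nat.add C (Nat.mul x41804 (nat_lit 2))) x28682) x46178) x40346) x42290) x41642) x41810)
    (Nat.add (Nat.add (Nat.add (Nat.add (Nat.add (Nat.add (Nat.add (Nat.add (Nat.add (Nat.add C x41810) x28688) x46184) x40352) x42296) x41648) x41828) x41804) x41816) x41812)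
    (Nat.sub (Nat.add (Nat.add (Nat.add (Nat.add (Nat.add (Nat.add (Nat.add (Nat.add C x28690) x46186) x40354) x42298) x41650) x41830) x41818) x41810) x22130)
    (Nat.sub (Nat.add (Nat.add (Nat.add (Nat.add (Nat.add (Nat.add (Nat.add (Nat.add C x28694) x46190) x40358) x42302) x41654) x41834) x41810) x41818) (Nat.mul x41816 (nat_lit 2)))
    (Nat.sub (Nat.sub (Nat.add (Nat.add (Nat.add (Nat.add (Nat.add (Nat.add (Nat.add (Nat.add (Nat.add C x28696) x46192) x40360) x42304) x41656) x41836) x41812) x41816) x41820) x41818) x22136)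
    (Nat.sub (Nat.sub (Nat.add (Nat.add (Nat.add (Nat.add (Nat.add (Nat.add (Nat.add C x28698) x46194) x40362) x42306) x41658) x41838) x41818) (Nat.mul x41820 (nat_lit 2))) x22138)
    (Nat.add (Nat.add (Nat.add (Nat.add (Nat.add (Nat.add (Nat.add (Nat.add (Nat.add C x28706) x46202) x40370) x42314) x41666) x41882) x41810) x41834) x41830)
    (Nat.sub (Nat.sub (Nat.add (Nat.add (Nat.add (Nat.add (Nat.add (Nat.add (Nat.add (Nat.add (Nat.add C x28708) x46204) x40372) x42316) x41668) x41884) x41812) x41836) x41828) (Nat.mul x41830 (nat_lit 2))) x22148)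
    (Nat.sub (Nat.add (Nat.add (Nat.add (Nat.add (Nat.add (Nat.add (Nat.add (Nat.add (Nat.add (Nat.add C x28712) x46208) x40376) x42320) x41672) x41888) x41816) x41852) x41828) x41836) x41834)
    (Nat.sub (Nat.sub (Nat.add (Nat.add (Nat.add (Nat.add (Nat.add (Nat.add (Nat.add (Nat.add (Nat.add (Nat.add (Nat.add (Nat.add C x28714) x46210) x40378) x42322) x41674) x41890) x41818) x41854) x41830) x41842) x41834) x41838) x41836) x22154)
    (Nat.sub (Nat.sub (Nat.add (Nat.add (Nat.add (Nat.add (Nat.add (Nat.add (Nat.add (Nat.add (Nat.add (Nat.add C x28716) x46212) x40380) x42324) x41676) x41892) x41820) x41856) x41844) x41836) (Nat.mul x41838 (nat_lit 3))) x22156)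
    (Nat.sub (Nat.sub (Nat.add (Nat.add (Nat.add (Nat.add (Nat.add (Nat.add (Nat.add (Nat.add (Nat.add C x28720) x46216) x40384) x42328) x41680) x41896) x41860) x41836) x41844) (Nat.mul x41842 (nat_lit 2))) x22160)
    (Nat.sub (Nat.sub (Nat.add (Nat.add (Nat.add (Nat.add (Nat.add (Nat.add (Nat.add (Nat.add (Nat.add C x28722) x46218) x40386) x42330) x41682) x41898) x41862) x41838) x41842) (Nat.mul x41844 (nat_lit 2))) x22162)
    (Nat.sub (Nat.add (Nat.add (Nat.add (Nat.add (Nat.add (Nat.add (Nat.add (Nat.add C x28730) x46226) x40394) x42338) x41690) x41906) x41834) x41854) (Nat.mul x41852 (nat_lit 2)))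
    (Nat.sub (Nat.sub (Nat.add (Nat.add (Nat.add (Nat.add (Nat.add (Nat.add (Nat.add (Nat.add (Nat.add (Nat.add C x28732) x46228) x40396) x42340) x41692) x41908) x41836) x41860) x41852) x41856) (Nat.mul x41854 (nat_lit 3))) x22172)
    (Nat.sub (Nat.sub (Nat.add (Nat.add (Nat.add (Nat.add (Nat.add (Nat.add (Nat.add (Nat.add (Nat.add C x28734) x46230) x40398) x42342) x41694) x41910) x41838) x41862) x41854) (Nat.mul x41856 (nat_lit 6))) x22174)
    (Nat.sub (Nat.sub (Nat.add (Nat.add (Nat.add (Nat.add (Nat.add (Nat.add (Nat.add (Nat.add (Nat.add C x28738) x46234) x40402) x42346) x41698) x41914) x41842) x41854) x41862) (Nat.mul x41860 (nat_lit 2))) x22178)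
    (Nat.sub (Nat.sub (Nat.add (Nat.add (Nat.add (Nat.add (Nat.add (Nat.add (Nat.add (Nat.add (Nat.add (Nat.add C x28740) x46236) x40404) x42348) x41700) x41916) x41844) x41856) x41868) x41860) (Nat.mul x41862 (nat_lit 3))) x22180)
    (Nat.sub (Nat.sub (Nat.add (Nat.add (Nat.add (Nat.add (Nat.add (Nat.add (Nat.add C x28746) x46242) x40410) x42354) x41706) x41922) x41862) (Nat.mul x41868 (nat_lit 2))) x22186)
    (Nat.add (Nat.add (Nat.add (Nat.add (Nat.add (Nat.add (Nat.add (Nat.add (Nat.add (Nat.add C x41882) x28760) x46256) x40424) x42368) x41720) x42044) x41828) x41888) x41884)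
    (Nat.sub (Nat.sub (Nat.add (Nat.add (Nat.add (Nat.add (Nat.add (Nat.add (Nat.add (Nat.add (Nat.add C x28762) x46258) x40426) x42370) x41722) x42046) x41830) x41890) x41882) x41884) x22202)
    (Nat.sub (Nat.add (Nat.add (Nat.add (Nat.add (Nat.add (Nat.add (Nat.add (Nat.add (Nat.add (Nat.add C x28766) x46262) x40430) x42374) x41726) x42050) x41834) x41906) x41882) x41890) x41888)
    (Nat.sub (Nat.sub (Nat.add (Nat.add (Nat.add (Nat.add (Nat.add (Nat.add (Nat.add (Nat.add (Nat.add (Nat.add (Nat.add (Nat.add C x28768) x46264) x40432) x42376) x41728) x42052) x41836) x41908) x41884) x41896) x41888) x41892) x41890) x22208)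
    (Nat.sub (Nat.sub (Nat.add (Nat.add (Nat.add (Nat.add (Nat.add (Nat.add (Nat.add (Nat.add (Nat.add (Nat.add C x28770) x46266) x40434) x42378) x41730) x42054) x41838) x41910) x41898) x41890) (Nat.mul x41892 (nat_lit 3))) x22210)
    (Nat.sub (Nat.sub (Nat.add (Nat.add (Nat.add (Nat.add (Nat.add (Nat.add (Nat.add (Nat.add (Nat.add (Nat.add C x28774) x46270) x40438) x42382) x41734) x42058) x41842) x41914) x41890) x41898) (Nat.mul x41896 (nat_lit 3))) x22214)
    (Nat.sub (Nat.sub (Nat.add (Nat.add (Nat.add (Nat.add (Nat.add (Nat.add (Nat.add (Nat.add (Nat.add (Nat.add C x28776) x46272) x40440) x42384) x41736) x42060) x41844) x41916) x41892) x41896) (Nat.mul x41898 (nat_lit 3))) x22216)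
    (Nat.add (Nat.add (Nat.add (Nat.add (Nat.add (Nat.add (Nat.add (Nat.add (Nat.add (Nat.add C x28784) x46280) x40448) x42392) x41744) x42068) x41852) x41960) x41888) x41908)
    (Nat.sub (Nat.sub (Nat.add (Nat.add (Nat.add (Nat.add (Nat.add (Nat.add (Nat.add (Nat.add (Nat.add (Nat.add (Nat.add (Nat.add C x28786) x46282) x40450) x42394) x41746) x42070) x41854) x41962) x41890) x41914) x41906) x41910) x41908) x22226)
    (Nat.sub (Nat.sub (Nat.add (Nat.add (Nat.add (Nat.add (Nat.add (Nat.add (Nat.add (Nat.add (Nat.add (Nat.add (Nat.add C x28788) x46284) x40452) x42396) x41748) x42072) x41856) x41964) x41892) x41916) x41908) (Nat.mul x41910 (nat_lit 4))) x22228)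
    (Nat.sub (Nat.sub (Nat.add (Nat.add (Nat.add (Nat.add (Nat.add (Nat.add (Nat.add (Nat.add (Nat.add (Nat.add (Nat.add (Nat.add C x28792) x46288) x40456) x42400) x41752) x42076) x41860) x41968) x41896) x41932) x41908) x41916) x41914) x22232)
    (Nat.sub (Nat.sub (Nat.add (Nat.add (Nat.add (Nat.add (Nat.add (Nat.add (Nat.add (Nat.add (Nat.add (Nat.add (Nat.add (Nat.add (Nat.add C x28794) x46290) x40458) x42402) x41754) x42078) x41862) x41970) x41898) x41934) x41910) x41922) x41914) (Nat.mul x41916 (nat_lit 2))) x22234)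
    (Nat.sub (Nat.sub (Nat.add (Nat.add (Nat.add (Nat.add (Nat.add (Nat.add (Nat.add (Nat.add (Nat.add (Nat.add C x28800) x46296) x40464) x42408) x41760) x42084) x41868) x41976) x41940) x41916) (Nat.mul x41922 (nat_lit 2))) x22240)
    (Nat.sub (Nat.sub (Nat.add (Nat.add (Nat.add (Nat.add (Nat.add (Nat.add (Nat.add (Nat.add (Nat.add C x28810) x46306) x40474) x42418) x41770) x42094) x41986) x41914) x41934) x41932) x22250)
    (Nat.sub (Nat.sub (Nat.add (Nat.add (Nat.add (Nat.add (Nat.add (Nat.add (Nat.add (Nat.add (Nat.add (Nat.add C x28812) x46308) x40476) x42420) x41772) x42096) x41988) x41916) x41940) x41932) (Nat.mul x41934 (nat_lit 3))) x22252)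
    (Nat.sub (Nat.sub (Nat.add (Nat.add (Nat.add (Nat.add (Nat.add (Nat.add (Nat.add (Nat.add (Nat.add C x28818) x46314) x40482) x42426) x41778) x42102) x41994) x41922) x41934) x41940) x22258)
    (Nat.add (Nat.add (Nat.add (Nat.add (Nat.add (Nat.add (Nat.add C x28838) x46334) x40502) x42446) x42122) x41906) x41962)
    (Nat.sub (Nat.sub (Nat.add (Nat.add (Nat.add (Nat.add (Nat.add (Nat.add (Nat.add (Nat.add (Nat.add C x28840) x46336) x40504) x42448) x42124) x41908) x41968) x41960) x41964) x41962) x22280)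
    (Nat.sub (Nat.sub (Nat.add (Nat.add (Nat.add (Nat.add (Nat.add (Nat.add (Nat.add (Nat.add C x28842) x46338) x40506) x42450) x42126) x41910) x41970) x41962) (Nat.mul x41964 (nat_lit 4))) x22282)
    (Nat.sub (Nat.sub (Nat.add (Nat.add (Nat.add (Nat.add (Nat.add (Nat.add (Nat.add (Nat.add (Nat.add C x28846) x46342) x40510) x42454) x42130) x41914) x41986) x41962) x41970) (Nat.mul x41968 (nat_lit 2))) x22286)
    (Nat.sub (Nat.sub (Nat.add (Nat.add (Nat.add (Nat.add (Nat.add (Nat.add (Nat.add (Nat.add (Nat.add (Nat.add C x28848) x46344) x40512) x42456) x42132) x41916) x41988) x41964) x41976) x41968) (Nat.mul x41970 (nat_lit 3))) x22288)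
    (Nat.sub (Nat.sub (Nat.add (Nat.add (Nat.add (Nat.add (Nat.add (Nat.add (Nat.add (Nat.add C x28854) x46350) x40518) x42462) x42138) x41922) x41994) x41970) (Nat.mul x41976 (nat_lit 4))) x22294)
    (Nat.sub (Nat.add (Nat.add (Nat.add (Nat.add (Nat.add (Nat.add (Nat.add (Nat.add C x28864) x46360) x40528) x42472) x42148) x41932) x41968) x41988) x22304)
    (Nat.sub (Nat.sub (Nat.add (Nat.add (Nat.add (Nat.add (Nat.add (Nat.add (Nat.add (Nat.add (Nat.add C x28866) x46362) x40530) x42474) x42150) x41934) x41970) x41994) x41986) (Nat.mul x41988 (nat_lit 2))) x22306)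
    (Nat.sub (Nat.sub (Nat.add (Nat.add (Nat.add (Nat.add (Nat.add (Nat.add (Nat.add (Nat.add (Nat.add C x28872) x46368) x40536) x42480) x42156) x41940) x41976) x42012) x41988) x41994) x22312)
    (Nat.sub (Nat.add (Nat.add (Nat.add (Nat.add (Nat.add (Nat.add C x28890) x46386) x40554) x42498) x42174) x41994) x22330)
    (Nat.add (Nat.add (Nat.add (Nat.add (Nat.add (Nat.add (Nat.add C x28922) x46418) x40586) x42530) x41882) x42050) x42046)
    (Nat.sub (Nat.sub (Nat.add (Nat.add (Nat.add (Nat.add (Nat.add (Nat.add (Nat.add C x28924) x46420) x40588) x42532) x41884) x42052) x42044) (Nat.mul x42046 (nat_lit 2))) x22364)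
    (Nat.sub (Nat.add (Nat.add (Nat.add (Nat.add (Nat.add (Nat.add (Nat.add (Nat.add C x28928) x46424) x40592) x42536) x41888) x42068) x42044) x42052) (Nat.mul x42050 (nat_lit 2)))
    (Nat.sub (Nat.sub (Nat.add (Nat.add (Nat.add (Nat.add (Nat.add (Nat.add (Nat.add (Nat.add (Nat.add (Nat.add C x28930) x46426) x40594) x42538) x41890) x42070) x42046) x42058) x42050) x42054) (Nat.mul x42052 (nat_lit 2))) x22370)
    (Nat.sub (Nat.sub (Nat.add (Nat.add (Nat.add (Nat.add (Nat.add (Nat.add (Nat.add (Nat.add C x28932) x46428) x40596) x42540) x41892) x42072) x42060) x42052) (Nat.mul x42054 (nat_lit 4))) x22372)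
    (Nat.sub (Nat.sub (Nat.add (Nat.add (Nat.add (Nat.add (Nat.add (Nat.add (Nat.add (Nat.add C x28936) x46432) x40600) x42544) x41896) x42076) x42052) x42060) (Nat.mul x42058 (nat_lit 4))) x22376)
    (Nat.sub (Nat.sub (Nat.add (Nat.add (Nat.add (Nat.add (Nat.add (Nat.add (Nat.add (Nat.add C x28938) x46434) x40602) x42546) x41898) x42078) x42054) x42058) (Nat.mul x42060 (nat_lit 4))) x22378)
    (Nat.sub (Nat.add (Nat.add (Nat.add (Nat.add (Nat.add (Nat.add (Nat.add (Nat.add C x28946) x46442) x40610) x42554) x41906) x42122) x42050) x42070) (Nat.mul x42068 (nat_lit 2)))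
    (Nat.sub (Nat.sub (Nat.add (Nat.add (Nat.add (Nat.add (Nat.add (Nat.add (Nat.add (Nat.add (Nat.add (Nat.add C x28948) x46444) x40612) x42556) x41908) x42124) x42052) x42076) x42068) x42072) (Nat.mul x42070 (nat_lit 3))) x22388)
    (Nat.sub (Nat.sub (Nat.add (Nat.add (Nat.add (Nat.add (Nat.add (Nat.add (Nat.add (Nat.add (Nat.add C x28950) x46446) x40614) x42558) x41910) x42126) x42054) x42078) x42070) (Nat.mul x42072 (nat_lit 6))) x22390)
    (Nat.sub (Nat.sub (Nat.add (Nat.add (Nat.add (Nat.add (Nat.add (Nat.add (Nat.add (Nat.add (Nat.add (Nat.add C x28954) x46450) x40618) x42562) x41914) x42130) x42058) x42094) x42070) x42078) (Nat.mul x42076 (nat_lit 3))) x22394)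
    (Nat.sub (Nat.sub (Nat.add (Nat.add (Nat.add (Nat.add (Nat.add (Nat.add (Nat.add (Nat.add (Nat.add (Nat.add (Nat.add C x28956) x46452) x40620) x42564) x41916) x42132) x42060) x42096) x42072) x42084) x42076) (Nat.mul x42078 (nat_lit 4))) x22396)
    (Nat.sub (Nat.sub (Nat.add (Nat.add (Nat.add (Nat.add (Nat.add (Nat.add (Nat.add (Nat.add C x28962) x46458) x40626) x42570) x41922) x42138) x42102) x42078) (Nat.mul x42084 (nat_lit 4))) x22402)
    (Nat.sub (Nat.sub (Nat.add (Nat.add (Nat.add (Nat.add (Nat.add (Nat.add (Nat.add (Nat.add C x28972) x46468) x40636) x42580) x41932) x42148) x42076) x42096) (Nat.mul x42094 (nat_lit 4))) x22412)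
    (Nat.sub (Nat.sub (Nat.add (Nat.add (Nat.add (Nat.add (Nat.add (Nat.add (Nat.add (Nat.add (Nat.add C x28974) x46470) x40638) x42582) x41934) x42150) x42078) x42102) x42094) (Nat.mul x42096 (nat_lit 6))) x22414)
    (Nat.sub (Nat.sub (Nat.add (Nat.add (Nat.add (Nat.add (Nat.add (Nat.add (Nat.add (Nat.add C x28980) x46476) x40644) x42588) x41940) x42156) x42084) x42096) (Nat.mul x42102 (nat_lit 4))) x22420)
    (Nat.add (Nat.add (Nat.add (Nat.add (Nat.add (Nat.add (Nat.add C x29000) x46496) x40664) x42608) x41960) x42068) x42124)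
    (Nat.sub (Nat.sub (Nat.add (Nat.add (Nat.add (Nat.add (Nat.add (Nat.add (Nat.add (Nat.add (Nat.add C x29002) x46498) x40666) x42610) x41962) x42070) x42130) x42122) x42126) x42124) x22442)
    (Nat.sub (Nat.sub (Nat.add (Nat.add (Nat.add (Nat.add (Nat.add (Nat.add (Nat.add (Nat.add C x29004) x46500) x40668) x42612) x41964) x42072) x42132) x42124) (Nat.mul x42126 (nat_lit 4))) x22444)
    (Nat.sub (Nat.sub (Nat.add (Nat.add (Nat.add (Nat.add (Nat.add (Nat.add (Nat.add (Nat.add (Nat.add C x29008) x46504) x40672) x42616) x41968) x42076) x42148) x42124) x42132) (Nat.mul x42130 (nat_lit 2))) x22448)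
    (Nat.sub (Nat.sub (Nat.add (Nat.add (Nat.add (Nat.add (Nat.add (Nat.add (Nat.add (Nat.add (Nat.add (Nat.add C x29010) x46506) x40674) x42618) x41970) x42078) x42150) x42126) x42138) x42130) (Nat.mul x42132 (nat_lit 3))) x22450)
    (Nat.sub (Nat.sub (Nat.add (Nat.add (Nat.add (Nat.add (Nat.add (Nat.add (Nat.add (Nat.add C x29016) x46512) x40680) x42624) x41976) x42084) x42156) x42132) (Nat.mul x42138 (nat_lit 4))) x22456)
    (Nat.sub (Nat.sub (Nat.add (Nat.add (Nat.add (Nat.add (Nat.add (Nat.add (Nat.add (Nat.add (Nat.add C x29026) x46522) x40690) x42634) x41986) x42094) x42202) x42130) x42150) x42148) x22466)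
    (Nat.sub (Nat.sub (Nat.add (Nat.add (Nat.add (Nat.add (Nat.add (Nat.add (Nat.add (Nat.add (Nat.add (Nat.add C x29028) x46524) x40692) x42636) x41988) x42096) x42204) x42132) x42156) x42148) (Nat.mul x42150 (nat_lit 3))) x22468)
    (Nat.sub (Nat.sub (Nat.add (Nat.add (Nat.add (Nat.add (Nat.add (Nat.add (Nat.add (Nat.add (Nat.add (Nat.add C x29034) x46530) x40698) x42642) x41994) x42102) x42210) x42138) x42174) x42150) (Nat.mul x42156 (nat_lit 2))) x22474)
    (Nat.sub (Nat.sub (Nat.add (Nat.add (Nat.add (Nat.add (Nat.add (Nat.add (Nat.add C x29052) x46548) x40716) x42660) x42012) x42228) x42156) (Nat.mul x42174 (nat_lit 2))) x22492)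
    (Nat.sub (Nat.add (Nat.add (Nat.add (Nat.add (Nat.add (Nat.add C x29080) x46576) x40744) x42688) x42148) x42204) x22520)
    (Nat.sub (Nat.sub (Nat.add (Nat.add (Nat.add (Nat.add (Nat.add (Nat.add (Nat.add C x29082) x46578) x40746) x42690) x42150) x42210) x42202) (Nat.mul x42204 (nat_lit 2))) x22522)
    (Nat.sub (Nat.sub (Nat.add (Nat.add (Nat.add (Nat.add (Nat.add (Nat.add (Nat.add C x29088) x46584) x40752) x42696) x42156) x42228) x42204) (Nat.mul x42210 (nat_lit 2))) x22528)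
    (Nat.sub (Nat.add (Nat.add (Nat.add (Nat.add (Nat.add (Nat.add C x29106) x46602) x40770) x42714) x42174) x42210) x22546)
    (Nat.add (Nat.add (Nat.add (Nat.add (Nat.add (Nat.add (Nat.add C (Nat.mul x42290 (nat_lit 3))) x29168) x46664) x40832) x43748) x41804) x42296)
    (Nat.add (Nat.add (Nat.add (Nat.add (Nat.add (Nat.add (Nat.add (Nat.add (Nat.add (Nat.add C (Nat.mul x42296 (nat_lit 2))) x29174) x46670) x40838) x43754) x41810) x42314) x42290) x42302) x42298)
    (Nat.sub (Nat.add (Nat.add (Nat.add (Nat.add (Nat.add (Nat.add (Nat.add (Nat.add (Nat.add C x42298) x29176) x46672) x40840) x43756) x41812) x42316) x42304) x42296) x22616)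
    (Nat.sub (Nat.add (Nat.add (Nat.add (Nat.add (Nat.add (Nat.add (Nat.add (Nat.add C x29180) x46676) x40844) x43760) x41816) x42320) x42296) x42304) x42302)
    (Nat.sub (Nat.add (Nat.add (Nat.add (Nat.add (Nat.add (Nat.add (Nat.add (Nat.add (Nat.add C x29182) x46678) x40846) x43762) x41818) x42322) x42298) x42302) x42306) x22622)
    (Nat.sub (Nat.sub (Nat.add (Nat.add (Nat.add (Nat.add (Nat.add (Nat.add (Nat.add C x29184) x46680) x40848) x43764) x41820) x42324) x42304) x42306) x22624)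
    (Nat.add (Nat.add (Nat.add (Nat.add (Nat.add (Nat.add (Nat.add (Nat.add (Nat.add (Nat.add C x42314) x29192) x46688) x40856) x43772) x41828) x42368) x42296) x42320) x42316)
    (Nat.sub (Nat.sub (Nat.add (Nat.add (Nat.add (Nat.add (Nat.add (Nat.add (Nat.add (Nat.add (Nat.add C x29194) x46690) x40858) x43774) x41830) x42370) x42298) x42322) x42314) x42316) x22634)
    (Nat.add (Nat.add (Nat.add (Nat.add (Nat.add (Nat.add (Nat.add (Nat.add (Nat.add (Nat.add C x29198) x46694) x40862) x43778) x41834) x42374) x42302) x42338) x42314) x42322)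
    (Nat.sub (Nat.add (Nat.add (Nat.add (Nat.add (Nat.add (Nat.add (Nat.add (Nat.add (Nat.add (Nat.add (Nat.add (Nat.add C x29200) x46696) x40864) x43780) x41836) x42376) x42304) x42340) x42316) x42328) x42320) x42324) x22640)
    (Nat.sub (Nat.sub (Nat.add (Nat.add (Nat.add (Nat.add (Nat.add (Nat.add (Nat.add (Nat.add (Nat.add (Nat.add C x29202) x46698) x40866) x43782) x41838) x42378) x42306) x42342) x42330) x42322) (Nat.mul x42324 (nat_lit 2))) x22642)
    (Nat.sub (Nat.sub (Nat.add (Nat.add (Nat.add (Nat.add (Nat.add (Nat.add (Nat.add (Nat.add (Nat.add C x29206) x46702) x40870) x43786) x41842) x42382) x42346) x42322) x42330) x42328) x22646)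
    (Nat.sub (Nat.sub (Nat.add (Nat.add (Nat.add (Nat.add (Nat.add (Nat.add (Nat.add (Nat.add (Nat.add C x29208) x46704) x40872) x43788) x41844) x42384) x42348) x42324) x42328) x42330) x22648)
    (Nat.sub (Nat.add (Nat.add (Nat.add (Nat.add (Nat.add (Nat.add (Nat.add (Nat.add C x29216) x46712) x40880) x43796) x41852) x42392) x42320) x42340) x42338)
    (Nat.sub (Nat.sub (Nat.add (Nat.add (Nat.add (Nat.add (Nat.add (Nat.add (Nat.add (Nat.add (Nat.add (Nat.add C x29218) x46714) x40882) x43798) x41854) x42394) x42322) x42346) x42338) x42342) (Nat.mul x42340 (nat_lit 2))) x22658)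
    (Nat.sub (Nat.sub (Nat.add (Nat.add (Nat.add (Nat.add (Nat.add (Nat.add (Nat.add (Nat.add (Nat.add C x29220) x46716) x40884) x43800) x41856) x42396) x42324) x42348) x42340) (Nat.mul x42342 (nat_lit 5))) x22660)
    (Nat.sub (Nat.sub (Nat.add (Nat.add (Nat.add (Nat.add (Nat.add (Nat.add (Nat.add (Nat.add (Nat.add C x29224) x46720) x40888) x43804) x41860) x42400) x42328) x42340) x42348) x42346) x22664)
    (Nat.sub (Nat.sub (Nat.add (Nat.add (Nat.add (Nat.add (Nat.add (Nat.add (Nat.add (Nat.add (Nat.add (Nat.add C x29226) x46722) x40890) x43806) x41862) x42402) x42330) x42342) x42354) x42346) (Nat.mul x42348 (nat_lit 2))) x22666)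
    (Nat.sub (Nat.sub (Nat.add (Nat.add (Nat.add (Nat.add (Nat.add (Nat.add (Nat.add C x29232) x46728) x40896) x43812) x41868) x42408) x42348) x42354) x22672)
    (Nat.add (Nat.add (Nat.add (Nat.add (Nat.add (Nat.add (Nat.add (Nat.add (Nat.add (Nat.add C x42368) x29246) x46742) x40910) x43826) x41882) x42530) x42314) x42374) x42370)
    (Nat.sub (Nat.sub (Nat.add (Nat.add (Nat.add (Nat.add (Nat.add (Nat.add (Nat.add (Nat.add (Nat.add C x29248) x46744) x40912) x43828) x41884) x42532) x42316) x42376) x42368) x42370) x22688)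
    (Nat.sub (Nat.add (Nat.add (Nat.add (Nat.add (Nat.add (Nat.add (Nat.add (Nat.add (Nat.add (Nat.add C x29252) x46748) x40916) x43832) x41888) x42536) x42320) x42392) x42368) x42376) x42374)
    (Nat.sub (Nat.sub (Nat.add (Nat.add (Nat.add (Nat.add (Nat.add (Nat.add (Nat.add (Nat.add (Nat.add (Nat.add (Nat.add (Nat.add C x29254) x46750) x40918) x43834) x41890) x42538) x42322) x42394) x42370) x42382) x42374) x42378) x42376) x22694)
    (Nat.sub (Nat.sub (Nat.add (Nat.add (Nat.add (Nat.add (Nat.add (Nat.add (Nat.add (Nat.add (Nat.add (Nat.add C x29256) x46752) x40920) x43836) x41892) x42540) x42324) x42396) x42384) x42376) (Nat.mul x42378 (nat_lit 3))) x22696)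
    (Nat.sub (Nat.sub (Nat.add (Nat.add (Nat.add (Nat.add (Nat.add (Nat.add (Nat.add (Nat.add (Nat.add (Nat.add C x29260) x46756) x40924) x43840) x41896) x42544) x42328) x42400) x42376) x42384) (Nat.mul x42382 (nat_lit 3))) x22700)
    (Nat.sub (Nat.sub (Nat.add (Nat.add (Nat.add (Nat.add (Nat.add (Nat.add (Nat.add (Nat.add (Nat.add (Nat.add C x29262) x46758) x40926) x43842) x41898) x42546) x42330) x42402) x42378) x42382) (Nat.mul x42384 (nat_lit 3))) x22702)
    (Nat.add (Nat.add (Nat.add (Nat.add (Nat.add (Nat.add (Nat.add (Nat.add (Nat.add (Nat.add C x29270) x46766) x40934) x43850) x41906) x42554) x42338) x42446) x42374) x42394)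
    (Nat.sub (Nat.sub (Nat.add (Nat.add (Nat.add (Nat.add (Nat.add (Nat.add (Nat.add (Nat.add (Nat.add (Nat.add (Nat.add (Nat.add C x29272) x46768) x40936) x43852) x41908) x42556) x42340) x42448) x42376) x42400) x42392) x42396) x42394) x22712)
    (Nat.sub (Nat.sub (Nat.add (Nat.add (Nat.add (Nat.add (Nat.add (Nat.add (Nat.add (Nat.add (Nat.add (Nat.add (Nat.add C x29274) x46770) x40938) x43854) x41910) x42558) x42342) x42450) x42378) x42402) x42394) (Nat.mul x42396 (nat_lit 4))) x22714)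
    (Nat.sub (Nat.sub (Nat.add (Nat.add (Nat.add (Nat.add (Nat.add (Nat.add (Nat.add (Nat.add (Nat.add (Nat.add (Nat.add (Nat.add C x29278) x46774) x40942) x43858) x41914) x42562) x42346) x42454) x42382) x42418) x42394) x42402) x42400) x22718)
    (Nat.sub (Nat.sub (Nat.add (Nat.add (Nat.add (Nat.add (Nat.add (Nat.add (Nat.add (Nat.add (Nat.add (Nat.add (Nat.add (Nat.add (Nat.add C x29280) x46776) x40944) x43860) x41916) x42564) x42348) x42456) x42384) x42420) x42396) x42408) x42400) (Nat.mul x42402 (nat_lit 2))) x22720)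
    (Nat.sub (Nat.sub (Nat.add (Nat.add (Nat.add (Nat.add (Nat.add (Nat.add (Nat.add (Nat.add (Nat.add (Nat.add C x29286) x46782) x40950) x43866) x41922) x42570) x42354) x42462) x42426) x42402) (Nat.mul x42408 (nat_lit 2))) x22726)
    (Nat.sub (Nat.sub (Nat.add (Nat.add (Nat.add (Nat.add (Nat.add (Nat.add (Nat.add (Nat.add (Nat.add C x29296) x46792) x40960) x43876) x41932) x42580) x42472) x42400) x42420) x42418) x22736)
    (Nat.sub (Nat.sub (Nat.add (Nat.add (Nat.add (Nat.add (Nat.add (Nat.add (Nat.add (Nat.add (Nat.add (Nat.add C x29298) x46794) x40962) x43878) x41934) x42582) x42474) x42402) x42426) x42418) (Nat.mul x42420 (nat_lit 3))) x22738)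
    (Nat.sub (Nat.sub (Nat.add (Nat.add (Nat.add (Nat.add (Nat.add (Nat.add (Nat.add (Nat.add (Nat.add C x29304) x46800) x40968) x43884) x41940) x42588) x42480) x42408) x42420) x42426) x22744)
    (Nat.sub (Nat.add (Nat.add (Nat.add (Nat.add (Nat.add (Nat.add (Nat.add (Nat.add C x29324) x46820) x40988) x43904) x41960) x42608) x42392) x42448) x42446)
    (Nat.sub (Nat.sub (Nat.add (Nat.add (Nat.add (Nat.add (Nat.add (Nat.add (Nat.add (Nat.add (Nat.add (Nat.add C x29326) x46822) x40990) x43906) x41962) x42610) x42394) x42454) x42446) x42450) (Nat.mul x42448 (nat_lit 2))) x22766)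
    (Nat.sub (Nat.sub (Nat.add (Nat.add (Nat.add (Nat.add (Nat.add (Nat.add (Nat.add (Nat.add (Nat.add C x29328) x46824) x40992) x43908) x41964) x42612) x42396) x42456) x42448) (Nat.mul x42450 (nat_lit 5))) x22768)
    (Nat.sub (Nat.sub (Nat.add (Nat.add (Nat.add (Nat.add (Nat.add (Nat.add (Nat.add (Nat.add (Nat.add (Nat.add C x29332) x46828) x40996) x43912) x41968) x42616) x42400) x42472) x42448) x42456) (Nat.mul x42454 (nat_lit 3))) x22772)
    (Nat.sub (Nat.sub (Nat.add (Nat.add (Nat.add (Nat.add (Nat.add (Nat.add (Nat.add (Nat.add (Nat.add (Nat.add (Nat.add C x29334) x46830) x40998) x43914) x41970) x42618) x42402) x42474) x42450) x42462) x42454) (Nat.mul x42456 (nat_lit 4))) x22774)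
    (Nat.sub (Nat.sub (Nat.add (Nat.add (Nat.add (Nat.add (Nat.add (Nat.add (Nat.add (Nat.add (Nat.add C x29340) x46836) x41004) x43920) x41976) x42624) x42408) x42480) x42456) (Nat.mul x42462 (nat_lit 5))) x22780)
    (Nat.sub (Nat.sub (Nat.add (Nat.add (Nat.add (Nat.add (Nat.add (Nat.add (Nat.add (Nat.add (Nat.add C x29350) x46846) x41014) x43930) x41986) x42634) x42418) x42454) x42474) x42472) x22790)
    (Nat.sub (Nat.sub (Nat.add (Nat.add (Nat.add (Nat.add (Nat.add (Nat.add (Nat.add (Nat.add (Nat.add (Nat.add C x29352) x46848) x41016) x43932) x41988) x42636) x42420) x42456) x42480) x42472) (Nat.mul x42474 (nat_lit 3))) x22792)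
    (Nat.sub (Nat.sub (Nat.add (Nat.add (Nat.add (Nat.add (Nat.add (Nat.add (Nat.add (Nat.add (Nat.add (Nat.add C x29358) x46854) x41022) x43938) x41994) x42642) x42426) x42462) x42498) x42474) (Nat.mul x42480 (nat_lit 2))) x22798)
    (Nat.sub (Nat.sub (Nat.add (Nat.add (Nat.add (Nat.add (Nat.add (Nat.add (Nat.add C x29376) x46872) x41040) x43956) x42012) x42660) x42480) x42498) x22816)
    (Nat.add (Nat.add (Nat.add (Nat.add (Nat.add (Nat.add (Nat.add (Nat.add (Nat.add (Nat.add C (Nat.mul x42530 (nat_lit 2))) x29408) x46904) x41072) x43988) x42044) x43016) x42368) x42536) x42532)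
    (Nat.sub (Nat.add (Nat.add (Nat.add (Nat.add (Nat.add (Nat.add (Nat.add (Nat.add (Nat.add C x29410) x46906) x41074) x43990) x42046) x43018) x42370) x42538) x42530) x22850)
    (Nat.add (Nat.add (Nat.add (Nat.add (Nat.add (Nat.add (Nat.add (Nat.add (Nat.add (Nat.add C x29414) x46910) x41078) x43994) x42050) x43022) x42374) x42554) x42530) x42538)
    (Nat.sub (Nat.add (Nat.add (Nat.add (Nat.add (Nat.add (Nat.add (Nat.add (Nat.add (Nat.add (Nat.add (Nat.add (Nat.add C x29416) x46912) x41080) x43996) x42052) x43024) x42376) x42556) x42532) x42544) x42536) x42540) x22856)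
    (Nat.sub (Nat.sub (Nat.add (Nat.add (Nat.add (Nat.add (Nat.add (Nat.add (Nat.add (Nat.add (Nat.add (Nat.add C x29418) x46914) x41082) x43998) x42054) x43026) x42378) x42558) x42546) x42538) (Nat.mul x42540 (nat_lit 2))) x22858)
    (Nat.sub (Nat.sub (Nat.add (Nat.add (Nat.add (Nat.add (Nat.add (Nat.add (Nat.add (Nat.add (Nat.add (Nat.add C x29422) x46918) x41086) x44002) x42058) x43030) x42382) x42562) x42538) x42546) (Nat.mul x42544 (nat_lit 2))) x22862)
    (Nat.sub (Nat.sub (Nat.add (Nat.add (Nat.add (Nat.add (Nat.add (Nat.add (Nat.add (Nat.add (Nat.add (Nat.add C x29424) x46920) x41088) x44004) x42060) x43032) x42384) x42564) x42540) x42544) (Nat.mul x42546 (nat_lit 2))) x22864)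
    (Nat.add (Nat.add (Nat.add (Nat.add (Nat.add (Nat.add (Nat.add (Nat.add (Nat.add (Nat.add C x29432) x46928) x41096) x44012) x42068) x43040) x42392) x42608) x42536) x42556)
    (Nat.sub (Nat.sub (Nat.add (Nat.add (Nat.add (Nat.add (Nat.add (Nat.add (Nat.add (Nat.add (Nat.add (Nat.add (Nat.add (Nat.add C x29434) x46930) x41098) x44014) x42070) x43042) x42394) x42610) x42538) x42562) x42554) x42558) x42556) x22874)
    (Nat.sub (Nat.sub (Nat.add (Nat.add (Nat.add (Nat.add (Nat.add (Nat.add (Nat.add (Nat.add (Nat.add (Nat.add (Nat.add C x29436) x46932) x41100) x44016) x42072) x43044) x42396) x42612) x42540) x42564) x42556) (Nat.mul x42558 (nat_lit 4))) x22876)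
    (Nat.sub (Nat.sub (Nat.add (Nat.add (Nat.add (Nat.add (Nat.add (Nat.add (Nat.add (Nat.add (Nat.add (Nat.add (Nat.add (Nat.add C x29440) x46936) x41104) x44020) x42076) x43048) x42400) x42616) x42544) x42580) x42556) x42564) x42562) x22880)
    (Nat.sub (Nat.sub (Nat.add (Nat.add (Nat.add (Nat.add (Nat.add (Nat.add (Nat.add (Nat.add (Nat.add (Nat.add (Nat.add (Nat.add (Nat.add C x29442) x46938) x41106) x44022) x42078) x43050) x42402) x42618) x42546) x42582) x42558) x42570) x42562) (Nat.mul x42564 (nat_lit 2))) x22882)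
    (Nat.sub (Nat.sub (Nat.add (Nat.add (Nat.add (Nat.add (Nat.add (Nat.add (Nat.add (Nat.add (Nat.add (Nat.add C x29448) x46944) x41112) x44028) x42084) x43056) x42408) x42624) x42588) x42564) (Nat.mul x42570 (nat_lit 2))) x22888)
    (Nat.sub (Nat.sub (Nat.add (Nat.add (Nat.add (Nat.add (Nat.add (Nat.add (Nat.add (Nat.add (Nat.add (Nat.add C x29458) x46954) x41122) x44038) x42094) x43066) x42418) x42634) x42562) x42582) (Nat.mul x42580 (nat_lit 2))) x22898)
    (Nat.sub (Nat.sub (Nat.add (Nat.add (Nat.add (Nat.add (Nat.add (Nat.add (Nat.add (Nat.add (Nat.add (Nat.add (Nat.add C x29460) x46956) x41124) x44040) x42096) x43068) x42420) x42636) x42564) x42588) x42580) (Nat.mul x42582 (nat_lit 4))) x22900)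
    (Nat.sub (Nat.sub (Nat.add (Nat.add (Nat.add (Nat.add (Nat.add (Nat.add (Nat.add (Nat.add (Nat.add (Nat.add C x29466) x46962) x41130) x44046) x42102) x43074) x42426) x42642) x42570) x42582) (Nat.mul x42588 (nat_lit 2))) x22906)
    (Nat.add (Nat.add (Nat.add (Nat.add (Nat.add (Nat.add (Nat.add (Nat.add (Nat.add (Nat.add (Nat.add C x42608) x29486) x46982) x41150) x44066) x42122) x43094) x42446) x42770) x42554) x42610)
    (Nat.sub (Nat.add (Nat.add (Nat.add (Nat.add (Nat.add (Nat.add (Nat.add (Nat.add (Nat.add (Nat.add (Nat.add (Nat.add C x29488) x46984) x41152) x44068) x42124) x43096) x42448) x42772) x42556) x42616) x42608) x42612) x22928)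
    (Nat.sub (Nat.sub (Nat.add (Nat.add (Nat.add (Nat.add (Nat.add (Nat.add (Nat.add (Nat.add (Nat.add (Nat.add (Nat.add C x29490) x46986) x41154) x44070) x42126) x43098) x42450) x42774) x42558) x42618) x42610) (Nat.mul x42612 (nat_lit 3))) x22930)
    (Nat.sub (Nat.sub (Nat.add (Nat.add (Nat.add (Nat.add (Nat.add (Nat.add (Nat.add (Nat.add (Nat.add (Nat.add (Nat.add (Nat.add C x29494) x46990) x41158) x44074) x42130) x43102) x42454) x42778) x42562) x42634) x42610) x42618) x42616) x22934)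
    (Nat.sub (Nat.sub (Nat.add (Nat.add (Nat.add (Nat.add (Nat.add (Nat.add (Nat.add (Nat.add (Nat.add (Nat.add (Nat.add (Nat.add (Nat.add C x29496) x46992) x41160) x44076) x42132) x43104) x42456) x42780) x42564) x42636) x42612) x42624) x42616) (Nat.mul x42618 (nat_lit 2))) x22936)
    (Nat.sub (Nat.sub (Nat.add (Nat.add (Nat.add (Nat.add (Nat.add (Nat.add (Nat.add (Nat.add (Nat.add (Nat.add (Nat.add C x29502) x46998) x41166) x44082) x42138) x43110) x42462) x42786) x42570) x42642) x42618) (Nat.mul x42624 (nat_lit 3))) x22942)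
    (Nat.sub (Nat.add (Nat.add (Nat.add (Nat.add (Nat.add (Nat.add (Nat.add (Nat.add (Nat.add (Nat.add (Nat.add (Nat.add C x29512) x47008) x41176) x44092) x42148) x43120) x42472) x42796) x42580) x42688) x42616) x42636) x22952)
    (Nat.sub (Nat.sub (Nat.add (Nat.add (Nat.add (Nat.add (Nat.add (Nat.add (Nat.add (Nat.add (Nat.add (Nat.add (Nat.add (Nat.add (Nat.add C x29514) x47010) x41178) x44094) x42150) x43122) x42474) x42798) x42582) x42690) x42618) x42642) x42634) (Nat.mul x42636 (nat_lit 2))) x22954)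
    (Nat.sub (Nat.sub (Nat.add (Nat.add (Nat.add (Nat.add (Nat.add (Nat.add (Nat.add (Nat.add (Nat.add (Nat.add (Nat.add (Nat.add (Nat.add C x29520) x47016) x41184) x44100) x42156) x43128) x42480) x42804) x42588) x42696) x42624) x42660) x42636) x42642) x22960)
    (Nat.sub (Nat.sub (Nat.add (Nat.add (Nat.add (Nat.add (Nat.add (Nat.add (Nat.add (Nat.add (Nat.add (Nat.add C x29538) x47034) x41202) x44118) x42174) x43146) x42498) x42822) x42714) x42642) x42660) x22978)
    (Nat.sub (Nat.add (Nat.add (Nat.add (Nat.add (Nat.add (Nat.add (Nat.add (Nat.add (Nat.add C x29566) x47062) x41230) x44146) x42202) x43174) x42850) x42634) x42690) x23006)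
    (Nat.sub (Nat.sub (Nat.add (Nat.add (Nat.add (Nat.add (Nat.add (Nat.add (Nat.add (Nat.add (Nat.add (Nat.add C x29568) x47064) x41232) x44148) x42204) x43176) x42852) x42636) x42696) x42688) (Nat.mul x42690 (nat_lit 2))) x23008)
    (Nat.sub (Nat.sub (Nat.add (Nat.add (Nat.add (Nat.add (Nat.add (Nat.add (Nat.add (Nat.add (Nat.add (Nat.add C x29574) x47070) x41238) x44154) x42210) x43182) x42858) x42642) x42714) x42690) (Nat.mul x42696 (nat_lit 2))) x23014)
    (Nat.sub (Nat.add (Nat.add (Nat.add (Nat.add (Nat.add (Nat.add (Nat.add (Nat.add (Nat.add C x29592) x47088) x41256) x44172) x42228) x43200) x42876) x42660) x42696) x23032)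
    (Nat.add (Nat.add (Nat.add (Nat.add (Nat.add (Nat.add (Nat.add (Nat.add C x42770) x29648) x47144) x41312) x44228) x43256) x42608) x42772)
    (Nat.sub (Nat.add (Nat.add (Nat.add (Nat.add (Nat.add (Nat.add (Nat.add (Nat.add (Nat.add C x29650) x47146) x41314) x44230) x43258) x42610) x42778) x42770) x42774) x23090)
    (Nat.sub (Nat.sub (Nat.add (Nat.add (Nat.add (Nat.add (Nat.add (Nat.add (Nat.add (Nat.add C x29652) x47148) x41316) x44232) x43260) x42612) x42780) x42772) (Nat.mul x42774 (nat_lit 3))) x23092)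
    (Nat.sub (Nat.sub (Nat.add (Nat.add (Nat.add (Nat.add (Nat.add (Nat.add (Nat.add (Nat.add (Nat.add C x29656) x47152) x41320) x44236) x43264) x42616) x42796) x42772) x42780) x42778) x23096)
    (Nat.sub (Nat.sub (Nat.add (Nat.add (Nat.add (Nat.add (Nat.add (Nat.add (Nat.add (Nat.add (Nat.add (Nat.add C x29658) x47154) x41322) x44238) x43266) x42618) x42798) x42774) x42786) x42778) (Nat.mul x42780 (nat_lit 2))) x23098)
    (Nat.sub (Nat.sub (Nat.add (Nat.add (Nat.add (Nat.add (Nat.add (Nat.add (Nat.add (Nat.add C x29664) x47160) x41328) x44244) x43272) x42624) x42804) x42780) (Nat.mul x42786 (nat_lit 3))) x23104)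
    (Nat.sub (Nat.sub (Nat.add (Nat.add (Nat.add (Nat.add (Nat.add (Nat.add (Nat.add (Nat.add (Nat.add C x29674) x47170) x41338) x44254) x43282) x42634) x42850) x42778) x42798) x42796) x23114)
    (Nat.sub (Nat.sub (Nat.add (Nat.add (Nat.add (Nat.add (Nat.add (Nat.add (Nat.add (Nat.add (Nat.add (Nat.add C x29676) x47172) x41340) x44256) x43284) x42636) x42852) x42780) x42804) x42796) (Nat.mul x42798 (nat_lit 3))) x23116)
    (Nat.sub (Nat.sub (Nat.add (Nat.add (Nat.add (Nat.add (Nat.add (Nat.add (Nat.add (Nat.add (Nat.add (Nat.add C x29682) x47178) x41346) x44262) x43290) x42642) x42858) x42786) x42822) x42798) (Nat.mul x42804 (nat_lit 2))) x23122)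
    (Nat.sub (Nat.sub (Nat.add (Nat.add (Nat.add (Nat.add (Nat.add (Nat.add (Nat.add (Nat.add C x29700) x47196) x41364) x44280) x43308) x42660) x42876) x42804) (Nat.mul x42822 (nat_lit 3))) x23140)
    (Nat.sub (Nat.add (Nat.add (Nat.add (Nat.add (Nat.add (Nat.add (Nat.add (Nat.add (Nat.add C x42850) x29728) x47224) x41392) x44308) x43336) x42688) x42796) x42852) x23168)
    (Nat.sub (Nat.sub (Nat.add (Nat.add (Nat.add (Nat.add (Nat.add (Nat.add (Nat.add (Nat.add (Nat.add C x29730) x47226) x41394) x44310) x43338) x42690) x42798) x42858) x42850) x42852) x23170)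
    (Nat.sub (Nat.sub (Nat.add (Nat.add (Nat.add (Nat.add (Nat.add (Nat.add (Nat.add (Nat.add (Nat.add C x29736) x47232) x41400) x44316) x43344) x42696) x42804) x42876) x42852) x42858) x23176)
    (Nat.sub (Nat.add (Nat.add (Nat.add (Nat.add (Nat.add (Nat.add (Nat.add (Nat.add (Nat.add C x29754) x47250) x41418) x44334) x43362) x42714) x42822) x42930) x42858) x23194)
    (Nat.sub (Nat.add (Nat.add (Nat.add (Nat.add (Nat.add (Nat.add (Nat.add C x42930) x29808) x47304) x41472) x44388) x43416) x42876) x23248)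
    (Nat.add (Nat.add (Nat.add (Nat.add (Nat.add (Nat.add (Nat.add C (Nat.mul x43016 (nat_lit 2))) x29894) x47390) x44474) x42530) x43022) x43018)
    (Nat.sub (Nat.add (Nat.add (Nat.add (Nat.add (Nat.add (Nat.add C x29896) x47392) x44476) x42532) x43024) x43016) x23336)
    (Nat.add (Nat.add (Nat.add (Nat.add (Nat.add (Nat.add (Nat.add C x29900) x47396) x44480) x42536) x43040) x43016) x43024)
    (Nat.sub (Nat.add (Nat.add (Nat.add (Nat.add (Nat.add (Nat.add (Nat.add (Nat.add (Nat.add C x29902) x47398) x44482) x42538) x43042) x43018) x43030) x43022) x43026) x23342)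
    (Nat.sub (Nat.sub (Nat.add (Nat.add (Nat.add (Nat.add (Nat.add (Nat.add (Nat.add C x29904) x47400) x44484) x42540) x43044) x43032) x43024) (Nat.mul x43026 (nat_lit 2))) x23344)
    (Nat.sub (Nat.sub (Nat.add (Nat.add (Nat.add (Nat.add (Nat.add (Nat.add (Nat.add C x29908) x47404) x44488) x42544) x43048) x43024) x43032) (Nat.mul x43030 (nat_lit 2))) x23348)
    (Nat.sub (Nat.sub (Nat.add (Nat.add (Nat.add (Nat.add (Nat.add (Nat.add (Nat.add C x29910) x47406) x44490) x42546) x43050) x43026) x43030) (Nat.mul x43032 (nat_lit 2))) x23350)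
    (Nat.add (Nat.add (Nat.add (Nat.add (Nat.add (Nat.add (Nat.add C x29918) x47414) x44498) x42554) x43094) x43022) x43042)
    (Nat.sub (Nat.sub (Nat.add (Nat.add (Nat.add (Nat.add (Nat.add (Nat.add (Nat.add (Nat.add (Nat.add C x29920) x47416) x44500) x42556) x43096) x43024) x43048) x43040) x43044) x43042) x23360)
    (Nat.sub (Nat.sub (Nat.add (Nat.add (Nat.add (Nat.add (Nat.add (Nat.add (Nat.add (Nat.add C x29922) x47418) x44502) x42558) x43098) x43026) x43050) x43042) (Nat.mul x43044 (nat_lit 4))) x23362)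
    (Nat.sub (Nat.sub (Nat.add (Nat.add (Nat.add (Nat.add (Nat.add (Nat.add (Nat.add (Nat.add (Nat.add C x29926) x47422) x44506) x42562) x43102) x43030) x43066) x43042) x43050) x43048) x23366)
    (Nat.sub (Nat.sub (Nat.add (Nat.add (Nat.add (Nat.add (Nat.add (Nat.add (Nat.add (Nat.add (Nat.add (Nat.add C x29928) x47424) x44508) x42564) x43104) x43032) x43068) x43044) x43056) x43048) (Nat.mul x43050 (nat_lit 2))) x23368)
    (Nat.sub (Nat.sub (Nat.add (Nat.add (Nat.add (Nat.add (Nat.add (Nat.add (Nat.add C x29934) x47430) x44514) x42570) x43110) x43074) x43050) (Nat.mul x43056 (nat_lit 2))) x23374)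
    (Nat.sub (Nat.sub (Nat.add (Nat.add (Nat.add (Nat.add (Nat.add (Nat.add (Nat.add C x29944) x47440) x44524) x42580) x43120) x43048) x43068) (Nat.mul x43066 (nat_lit 2))) x23384)
    (Nat.sub (Nat.sub (Nat.add (Nat.add (Nat.add (Nat.add (Nat.add (Nat.add (Nat.add (Nat.add C x29946) x47442) x44526) x42582) x43122) x43050) x43074) x43066) (Nat.mul x43068 (nat_lit 4))) x23386)
    (Nat.sub (Nat.sub (Nat.add (Nat.add (Nat.add (Nat.add (Nat.add (Nat.add (Nat.add C x29952) x47448) x44532) x42588) x43128) x43056) x43068) (Nat.mul x43074 (nat_lit 2))) x23392)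
    (Nat.add (Nat.add (Nat.add (Nat.add (Nat.add (Nat.add (Nat.add C x29972) x47468) x44552) x42608) x43256) x43040) x43096)
    (Nat.sub (Nat.sub (Nat.add (Nat.add (Nat.add (Nat.add (Nat.add (Nat.add (Nat.add (Nat.add (Nat.add C x29974) x47470) x44554) x42610) x43258) x43042) x43102) x43094) x43098) x43096) x23414)
    (Nat.sub (Nat.sub (Nat.add (Nat.add (Nat.add (Nat.add (Nat.add (Nat.add (Nat.add (Nat.add C x29976) x47472) x44556) x42612) x43260) x43044) x43104) x43096) (Nat.mul x43098 (nat_lit 4))) x23416)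
    (Nat.sub (Nat.sub (Nat.add (Nat.add (Nat.add (Nat.add (Nat.add (Nat.add (Nat.add (Nat.add (Nat.add C x29980) x47476) x44560) x42616) x43264) x43048) x43120) x43096) x43104) (Nat.mul x43102 (nat_lit 2))) x23420)
    (Nat.sub (Nat.sub (Nat.add (Nat.add (Nat.add (Nat.add (Nat.add (Nat.add (Nat.add (Nat.add (Nat.add (Nat.add C x29982) x47478) x44562) x42618) x43266) x43050) x43122) x43098) x43110) x43102) (Nat.mul x43104 (nat_lit 3))) x23422)
    (Nat.sub (Nat.sub (Nat.add (Nat.add (Nat.add (Nat.add (Nat.add (Nat.add (Nat.add (Nat.add C x29988) x47484) x44568) x42624) x43272) x43056) x43128) x43104) (Nat.mul x43110 (nat_lit 4))) x23428)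
    (Nat.sub (Nat.sub (Nat.add (Nat.add (Nat.add (Nat.add (Nat.add (Nat.add (Nat.add (Nat.add (Nat.add C x29998) x47494) x44578) x42634) x43282) x43066) x43174) x43102) x43122) x43120) x23438)
    (Nat.sub (Nat.sub (Nat.add (Nat.add (Nat.add (Nat.add (Nat.add (Nat.add (Nat.add (Nat.add (Nat.add (Nat.add C x30000) x47496) x44580) x42636) x43284) x43068) x43176) x43104) x43128) x43120) (Nat.mul x43122 (nat_lit 3))) x23440)
    (Nat.sub (Nat.sub (Nat.add (Nat.add (Nat.add (Nat.add (Nat.add (Nat.add (Nat.add (Nat.add (Nat.add (Nat.add C x30006) x47502) x44586) x42642) x43290) x43074) x43182) x43110) x43146) x43122) (Nat.mul x43128 (nat_lit 2))) x23446)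
    (Nat.sub (Nat.sub (Nat.add (Nat.add (Nat.add (Nat.add (Nat.add (Nat.add (Nat.add C x30024) x47520) x44604) x42660) x43308) x43200) x43128) (Nat.mul x43146 (nat_lit 2))) x23464)
    (Nat.sub (Nat.sub (Nat.add (Nat.add (Nat.add (Nat.add (Nat.add (Nat.add (Nat.add C x30052) x47548) x44632) x42688) x43336) x43120) x43176) (Nat.mul x43174 (nat_lit 2))) x23492)
    (Nat.sub (Nat.sub (Nat.add (Nat.add (Nat.add (Nat.add (Nat.add (Nat.add (Nat.add (Nat.add C x30054) x47550) x44634) x42690) x43338) x43122) x43182) x43174) (Nat.mul x43176 (nat_lit 4))) x23494)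
    (Nat.sub (Nat.sub (Nat.add (Nat.add (Nat.add (Nat.add (Nat.add (Nat.add (Nat.add (Nat.add C x30060) x47556) x44640) x42696) x43344) x43128) x43200) x43176) (Nat.mul x43182 (nat_lit 4))) x23500)
    (Nat.sub (Nat.sub (Nat.add (Nat.add (Nat.add (Nat.add (Nat.add (Nat.add (Nat.add C x30078) x47574) x44658) x42714) x43362) x43146) x43182) (Nat.mul x43200 (nat_lit 2))) x23518)
    (Nat.add (Nat.add (Nat.add (Nat.add (Nat.add (Nat.add (Nat.add C (Nat.mul x43256 (nat_lit 2))) x30134) x47630) x44714) x42770) x43094) x43258)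
    (Nat.sub (Nat.add (Nat.add (Nat.add (Nat.add (Nat.add (Nat.add (Nat.add (Nat.add (Nat.add C x43258) x30136) x47632) x44716) x42772) x43096) x43264) x43256) x43260) x23576)
    (Nat.sub (Nat.sub (Nat.add (Nat.add (Nat.add (Nat.add (Nat.add (Nat.add (Nat.add C x30138) x47634) x44718) x42774) x43098) x43266) x43258) (Nat.mul x43260 (nat_lit 2))) x23578)
    (Nat.sub (Nat.add (Nat.add (Nat.add (Nat.add (Nat.add (Nat.add (Nat.add (Nat.add C x30142) x47638) x44722) x42778) x43102) x43282) x43258) x43266) x23582)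
    (Nat.sub (Nat.sub (Nat.add (Nat.add (Nat.add (Nat.add (Nat.add (Nat.add (Nat.add (Nat.add (Nat.add C x30144) x47640) x44724) x42780) x43104) x43284) x43260) x43272) x43264) x43266) x23584)
    (Nat.sub (Nat.sub (Nat.add (Nat.add (Nat.add (Nat.add (Nat.add (Nat.add (Nat.add C x30150) x47646) x44730) x42786) x43110) x43290) x43266) (Nat.mul x43272 (nat_lit 2))) x23590)
    (Nat.sub (Nat.add (Nat.add (Nat.add (Nat.add (Nat.add (Nat.add (Nat.add (Nat.add C x30160) x47656) x44740) x42796) x43120) x43336) x43264) x43284) x23600)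
    (Nat.sub (Nat.sub (Nat.add (Nat.add (Nat.add (Nat.add (Nat.add (Nat.add (Nat.add (Nat.add (Nat.add C x30162) x47658) x44742) x42798) x43122) x43338) x43266) x43290) x43282) (Nat.mul x43284 (nat_lit 2))) x23602)
    (Nat.sub (Nat.sub (Nat.add (Nat.add (Nat.add (Nat.add (Nat.add (Nat.add (Nat.add (Nat.add (Nat.add C x30168) x47664) x44748) x42804) x43128) x43344) x43272) x43308) x43284) x43290) x23608)
    (Nat.sub (Nat.sub (Nat.add (Nat.add (Nat.add (Nat.add (Nat.add (Nat.add (Nat.add C x30186) x47682) x44766) x42822) x43146) x43362) x43290) (Nat.mul x43308 (nat_lit 2))) x23626)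
    (Nat.sub (Nat.add (Nat.add (Nat.add (Nat.add (Nat.add (Nat.add (Nat.add (Nat.add (Nat.add C x43336) x30214) x47710) x44794) x42850) x43174) x43498) x43282) x43338) x23654)
    (Nat.sub (Nat.sub (Nat.add (Nat.add (Nat.add (Nat.add (Nat.add (Nat.add (Nat.add (Nat.add (Nat.add C x30216) x47712) x44796) x42852) x43176) x43500) x43284) x43344) x43336) x43338) x23656)
    (Nat.sub (Nat.sub (Nat.add (Nat.add (Nat.add (Nat.add (Nat.add (Nat.add (Nat.add (Nat.add (Nat.add C x30222) x47718) x44802) x42858) x43182) x43506) x43290) x43362) x43338) x43344) x23662)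
    (Nat.sub (Nat.add (Nat.add (Nat.add (Nat.add (Nat.add (Nat.add (Nat.add (Nat.add (Nat.add C x30240) x47736) x44820) x42876) x43200) x43524) x43308) x43416) x43344) x23680)
    (Nat.sub (Nat.add (Nat.add (Nat.add (Nat.add (Nat.add (Nat.add C x30294) x47790) x44874) x42930) x43578) x43362) x23734)
    (Nat.sub (Nat.add (Nat.add (Nat.add (Nat.add (Nat.add (Nat.add C (Nat.mul x43498 (nat_lit 2))) x30376) x47872) x44956) x43336) x43500) x23816)
    (Nat.sub (Nat.add (Nat.add (Nat.add (Nat.add (Nat.add (Nat.add C x30378) x47874) x44958) x43338) x43506) x43498) x23818)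
    (Nat.sub (Nat.add (Nat.add (Nat.add (Nat.add (Nat.add (Nat.add C x30384) x47880) x44964) x43344) x43524) x43500) x23824)
    (Nat.sub (Nat.add (Nat.add (Nat.add (Nat.add (Nat.add (Nat.add C x30402) x47898) x44982) x43362) x43578) x43506) x23842)
    (Nat.sub (Nat.add (Nat.add (Nat.add (Nat.add (Nat.add (Nat.add C (Nat.mul x43578 (nat_lit 2))) x30456) x47952) x45036) x43416) x43524) x23896)
    (Nat.add (Nat.add (Nat.add (Nat.add (Nat.add C (Nat.mul x43748 (nat_lit 2))) x30626) x48122) x42290) x43754)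
    (Nat.add (Nat.add (Nat.add (Nat.add (Nat.add (Nat.add (Nat.add (Nat.add C x43754) x30632) x48128) x42296) x43772) x43748) x43760) x43756)
    (Nat.sub (Nat.add (Nat.add (Nat.add (Nat.add (Nat.add (Nat.add C x30634) x48130) x42298) x43774) x43762) x43754) x24074)
    (Nat.sub (Nat.add (Nat.add (Nat.add (Nat.add (Nat.add (Nat.add C x30638) x48134) x42302) x43778) x43754) x43762) (Nat.mul x43760 (nat_lit 2)))
    (Nat.sub (Nat.sub (Nat.add (Nat.add (Nat.add (Nat.add (Nat.add (Nat.add (Nat.add C x30640) x48136) x42304) x43780) x43756) x43760) x43764) x43762) x24080)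
    (Nat.sub (Nat.sub (Nat.add (Nat.add (Nat.add (Nat.add (Nat.add C x30642) x48138) x42306) x43782) x43762) (Nat.mul x43764 (nat_lit 2))) x24082)
    (Nat.add (Nat.add (Nat.add (Nat.add (Nat.add (Nat.add (Nat.add C x30650) x48146) x42314) x43826) x43754) x43778) x43774)
    (Nat.sub (Nat.sub (Nat.add (Nat.add (Nat.add (Nat.add (Nat.add (Nat.add (Nat.add C x30652) x48148) x42316) x43828) x43756) x43780) x43772) (Nat.mul x43774 (nat_lit 2))) x24092)
    (Nat.sub (Nat.add (Nat.add (Nat.add (Nat.add (Nat.add (Nat.add (Nat.add (Nat.add C x30656) x48152) x42320) x43832) x43760) x43796) x43772) x43780) x43778)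
    (Nat.sub (Nat.sub (Nat.add (Nat.add (Nat.add (Nat.add (Nat.add (Nat.add (Nat.add (Nat.add (Nat.add (Nat.add C x30658) x48154) x42322) x43834) x43762) x43798) x43774) x43786) x43778) x43782) x43780) x24098)
    (Nat.sub (Nat.sub (Nat.add (Nat.add (Nat.add (Nat.add (Nat.add (Nat.add (Nat.add (Nat.add C x30660) x48156) x42324) x43836) x43764) x43800) x43788) x43780) (Nat.mul x43782 (nat_lit 3))) x24100)
    (Nat.sub (Nat.sub (Nat.add (Nat.add (Nat.add (Nat.add (Nat.add (Nat.add (Nat.add C x30664) x48160) x42328) x43840) x43804) x43780) x43788) (Nat.mul x43786 (nat_lit 2))) x24104)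
    (Nat.sub (Nat.sub (Nat.add (Nat.add (Nat.add (Nat.add (Nat.add (Nat.add (Nat.add C x30666) x48162) x42330) x43842) x43806) x43782) x43786) (Nat.mul x43788 (nat_lit 2))) x24106)
    (Nat.sub (Nat.add (Nat.add (Nat.add (Nat.add (Nat.add (Nat.add C x30674) x48170) x42338) x43850) x43778) x43798) (Nat.mul x43796 (nat_lit 2)))
    (Nat.sub (Nat.sub (Nat.add (Nat.add (Nat.add (Nat.add (Nat.add (Nat.add (Nat.add (Nat.add C x30676) x48172) x42340) x43852) x43780) x43804) x43796) x43800) (Nat.mul x43798 (nat_lit 3))) x24116)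
    (Nat.sub (Nat.sub (Nat.add (Nat.add (Nat.add (Nat.add (Nat.add (Nat.add (Nat.add C x30678) x48174) x42342) x43854) x43782) x43806) x43798) (Nat.mul x43800 (nat_lit 6))) x24118)
    (Nat.sub (Nat.sub (Nat.add (Nat.add (Nat.add (Nat.add (Nat.add (Nat.add (Nat.add C x30682) x48178) x42346) x43858) x43786) x43798) x43806) (Nat.mul x43804 (nat_lit 2))) x24122)
    (Nat.sub (Nat.sub (Nat.add (Nat.add (Nat.add (Nat.add (Nat.add (Nat.add (Nat.add (Nat.add C x30684) x48180) x42348) x43860) x43788) x43800) x43812) x43804) (Nat.mul x43806 (nat_lit 3))) x24124)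
    (Nat.sub (Nat.sub (Nat.add (Nat.add (Nat.add (Nat.add (Nat.add C x30690) x48186) x42354) x43866) x43806) (Nat.mul x43812 (nat_lit 2))) x24130)
    (Nat.add (Nat.add (Nat.add (Nat.add (Nat.add (Nat.add (Nat.add C x30704) x48200) x42368) x43988) x43772) x43832) x43828)
    (Nat.sub (Nat.sub (Nat.add (Nat.add (Nat.add (Nat.add (Nat.add (Nat.add (Nat.add C x30706) x48202) x42370) x43990) x43774) x43834) x43826) (Nat.mul x43828 (nat_lit 2))) x24146)
    (Nat.sub (Nat.add (Nat.add (Nat.add (Nat.add (Nat.add (Nat.add (Nat.add (Nat.add C x30710) x48206) x42374) x43994) x43778) x43850) x43826) x43834) (Nat.mul x43832 (nat_lit 2)))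
    (Nat.sub (Nat.sub (Nat.add (Nat.add (Nat.add (Nat.add (Nat.add (Nat.add (Nat.add (Nat.add (Nat.add (Nat.add C x30712) x48208) x42376) x43996) x43780) x43852) x43828) x43840) x43832) x43836) (Nat.mul x43834 (nat_lit 2))) x24152)
    (Nat.sub (Nat.sub (Nat.add (Nat.add (Nat.add (Nat.add (Nat.add (Nat.add (Nat.add (Nat.add C x30714) x48210) x42378) x43998) x43782) x43854) x43842) x43834) (Nat.mul x43836 (nat_lit 4))) x24154)
    (Nat.sub (Nat.sub (Nat.add (Nat.add (Nat.add (Nat.add (Nat.add (Nat.add (Nat.add (Nat.add C x30718) x48214) x42382) x44002) x43786) x43858) x43834) x43842) (Nat.mul x43840 (nat_lit 4))) x24158)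
    (Nat.sub (Nat.sub (Nat.add (Nat.add (Nat.add (Nat.add (Nat.add (Nat.add (Nat.add (Nat.add C x30720) x48216) x42384) x44004) x43788) x43860) x43836) x43840) (Nat.mul x43842 (nat_lit 4))) x24160)
    (Nat.sub (Nat.add (Nat.add (Nat.add (Nat.add (Nat.add (Nat.add (Nat.add (Nat.add C x30728) x48224) x42392) x44012) x43796) x43904) x43832) x43852) x43850)
    (Nat.sub (Nat.sub (Nat.add (Nat.add (Nat.add (Nat.add (Nat.add (Nat.add (Nat.add (Nat.add (Nat.add (Nat.add C x30730) x48226) x42394) x44014) x43798) x43906) x43834) x43858) x43850) x43854) (Nat.mul x43852 (nat_lit 2))) x24170)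
    (Nat.sub (Nat.sub (Nat.add (Nat.add (Nat.add (Nat.add (Nat.add (Nat.add (Nat.add (Nat.add (Nat.add C x30732) x48228) x42396) x44016) x43800) x43908) x43836) x43860) x43852) (Nat.mul x43854 (nat_lit 5))) x24172)
    (Nat.sub (Nat.sub (Nat.add (Nat.add (Nat.add (Nat.add (Nat.add (Nat.add (Nat.add (Nat.add (Nat.add (Nat.add C x30736) x48232) x42400) x44020) x43804) x43912) x43840) x43876) x43852) x43860) (Nat.mul x43858 (nat_lit 2))) x24176)
    (Nat.sub (Nat.sub (Nat.add (Nat.add (Nat.add (Nat.add (Nat.add (Nat.add (Nat.add (Nat.add (Nat.add (Nat.add (Nat.add C x30738) x48234) x42402) x44022) x43806) x43914) x43842) x43878) x43854) x43866) x43858) (Nat.mul x43860 (nat_lit 3))) x24178)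
    (Nat.sub (Nat.sub (Nat.add (Nat.add (Nat.add (Nat.add (Nat.add (Nat.add (Nat.add (Nat.add C x30744) x48240) x42408) x44028) x43812) x43920) x43884) x43860) (Nat.mul x43866 (nat_lit 3))) x24184)
    (Nat.sub (Nat.sub (Nat.add (Nat.add (Nat.add (Nat.add (Nat.add (Nat.add (Nat.add C x30754) x48250) x42418) x44038) x43930) x43858) x43878) (Nat.mul x43876 (nat_lit 2))) x24194)
    (Nat.sub (Nat.sub (Nat.add (Nat.add (Nat.add (Nat.add (Nat.add (Nat.add (Nat.add (Nat.add C x30756) x48252) x42420) x44040) x43932) x43860) x43884) x43876) (Nat.mul x43878 (nat_lit 4))) x24196)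
    (Nat.sub (Nat.sub (Nat.add (Nat.add (Nat.add (Nat.add (Nat.add (Nat.add (Nat.add C x30762) x48258) x42426) x44046) x43938) x43866) x43878) (Nat.mul x43884 (nat_lit 2))) x24202)
    (Nat.sub (Nat.add (Nat.add (Nat.add (Nat.add (Nat.add (Nat.add C x30782) x48278) x42446) x44066) x43850) x43906) (Nat.mul x43904 (nat_lit 2)))
    (Nat.sub (Nat.sub (Nat.add (Nat.add (Nat.add (Nat.add (Nat.add (Nat.add (Nat.add (Nat.add C x30784) x48280) x42448) x44068) x43852) x43912) x43904) x43908) (Nat.mul x43906 (nat_lit 3))) x24224)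
    (Nat.sub (Nat.sub (Nat.add (Nat.add (Nat.add (Nat.add (Nat.add (Nat.add (Nat.add C x30786) x48282) x42450) x44070) x43854) x43914) x43906) (Nat.mul x43908 (nat_lit 6))) x24226)
    (Nat.sub (Nat.sub (Nat.add (Nat.add (Nat.add (Nat.add (Nat.add (Nat.add (Nat.add (Nat.add C x30790) x48286) x42454) x44074) x43858) x43930) x43906) x43914) (Nat.mul x43912 (nat_lit 4))) x24230)
    (Nat.sub (Nat.sub (Nat.add (Nat.add (Nat.add (Nat.add (Nat.add (Nat.add (Nat.add (Nat.add (Nat.add C x30792) x48288) x42456) x44076) x43860) x43932) x43908) x43920) x43912) (Nat.mul x43914 (nat_lit 5))) x24232)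
    (Nat.sub (Nat.sub (Nat.add (Nat.add (Nat.add (Nat.add (Nat.add (Nat.add (Nat.add C x30798) x48294) x42462) x44082) x43866) x43938) x43914) (Nat.mul x43920 (nat_lit 6))) x24238)
    (Nat.sub (Nat.sub (Nat.add (Nat.add (Nat.add (Nat.add (Nat.add (Nat.add (Nat.add C x30808) x48304) x42472) x44092) x43876) x43912) x43932) (Nat.mul x43930 (nat_lit 2))) x24248)
    (Nat.sub (Nat.sub (Nat.add (Nat.add (Nat.add (Nat.add (Nat.add (Nat.add (Nat.add (Nat.add C x30810) x48306) x42474) x44094) x43878) x43914) x43938) x43930) (Nat.mul x43932 (nat_lit 4))) x24250)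
    (Nat.sub (Nat.sub (Nat.add (Nat.add (Nat.add (Nat.add (Nat.add (Nat.add (Nat.add (Nat.add C x30816) x48312) x42480) x44100) x43884) x43920) x43956) x43932) (Nat.mul x43938 (nat_lit 3))) x24256)
    (Nat.sub (Nat.sub (Nat.add (Nat.add (Nat.add (Nat.add (Nat.add C x30834) x48330) x42498) x44118) x43938) (Nat.mul x43956 (nat_lit 2))) x24274)
    (Nat.add (Nat.add (Nat.add (Nat.add (Nat.add (Nat.add (Nat.add C x30866) x48362) x42530) x44474) x43826) x43994) x43990)
    (Nat.sub (Nat.sub (Nat.add (Nat.add (Nat.add (Nat.add (Nat.add (Nat.add (Nat.add C x30868) x48364) x42532) x44476) x43828) x43996) x43988) (Nat.mul x43990 (nat_lit 2))) x24308)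
    (Nat.sub (Nat.add (Nat.add (Nat.add (Nat.add (Nat.add (Nat.add (Nat.add (Nat.add C x30872) x48368) x42536) x44480) x43832) x44012) x43988) x43996) (Nat.mul x43994 (nat_lit 2)))
    (Nat.sub (Nat.sub (Nat.add (Nat.add (Nat.add (Nat.add (Nat.add (Nat.add (Nat.add (Nat.add (Nat.add (Nat.add C x30874) x48370) x42538) x44482) x43834) x44014) x43990) x44002) x43994) x43998) (Nat.mul x43996 (nat_lit 2))) x24314)
    (Nat.sub (Nat.sub (Nat.add (Nat.add (Nat.add (Nat.add (Nat.add (Nat.add (Nat.add (Nat.add C x30876) x48372) x42540) x44484) x43836) x44016) x44004) x43996) (Nat.mul x43998 (nat_lit 4))) x24316)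
    (Nat.sub (Nat.sub (Nat.add (Nat.add (Nat.add (Nat.add (Nat.add (Nat.add (Nat.add (Nat.add C x30880) x48376) x42544) x44488) x43840) x44020) x43996) x44004) (Nat.mul x44002 (nat_lit 4))) x24320)
    (Nat.sub (Nat.sub (Nat.add (Nat.add (Nat.add (Nat.add (Nat.add (Nat.add (Nat.add (Nat.add C x30882) x48378) x42546) x44490) x43842) x44022) x43998) x44002) (Nat.mul x44004 (nat_lit 4))) x24322)
    (Nat.sub (Nat.add (Nat.add (Nat.add (Nat.add (Nat.add (Nat.add (Nat.add (Nat.add C x30890) x48386) x42554) x44498) x43850) x44066) x43994) x44014) (Nat.mul x44012 (nat_lit 2)))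
    (Nat.sub (Nat.sub (Nat.add (Nat.add (Nat.add (Nat.add (Nat.add (Nat.add (Nat.add (Nat.add (Nat.add (Nat.add C x30892) x48388) x42556) x44500) x43852) x44068) x43996) x44020) x44012) x44016) (Nat.mul x44014 (nat_lit 3))) x24332)
    (Nat.sub (Nat.sub (Nat.add (Nat.add (Nat.add (Nat.add (Nat.add (Nat.add (Nat.add (Nat.add (Nat.add C x30894) x48390) x42558) x44502) x43854) x44070) x43998) x44022) x44014) (Nat.mul x44016 (nat_lit 6))) x24334)
    (Nat.sub (Nat.sub (Nat.add (Nat.add (Nat.add (Nat.add (Nat.add (Nat.add (Nat.add (Nat.add (Nat.add (Nat.add C x30898) x48394) x42562) x44506) x43858) x44074) x44002) x44038) x44014) x44022) (Nat.mul x44020 (nat_lit 3))) x24338)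
    (Nat.sub (Nat.sub (Nat.add (Nat.add (Nat.add (Nat.add (Nat.add (Nat.add (Nat.add (Nat.add (Nat.add (Nat.add (Nat.add C x30900) x48396) x42564) x44508) x43860) x44076) x44004) x44040) x44016) x44028) x44020) (Nat.mul x44022 (nat_lit 4))) x24340)
    (Nat.sub (Nat.sub (Nat.add (Nat.add (Nat.add (Nat.add (Nat.add (Nat.add (Nat.add (Nat.add C x30906) x48402) x42570) x44514) x43866) x44082) x44046) x44022) (Nat.mul x44028 (nat_lit 4))) x24346)
    (Nat.sub (Nat.sub (Nat.add (Nat.add (Nat.add (Nat.add (Nat.add (Nat.add (Nat.add (Nat.add C x30916) x48412) x42580) x44524) x43876) x44092) x44020) x44040) (Nat.mul x44038 (nat_lit 4))) x24356)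
    (Nat.sub (Nat.sub (Nat.add (Nat.add (Nat.add (Nat.add (Nat.add (Nat.add (Nat.add (Nat.add (Nat.add C x30918) x48414) x42582) x44526) x43878) x44094) x44022) x44046) x44038) (Nat.mul x44040 (nat_lit 6))) x24358)
    (Nat.sub (Nat.sub (Nat.add (Nat.add (Nat.add (Nat.add (Nat.add (Nat.add (Nat.add (Nat.add C x30924) x48420) x42588) x44532) x43884) x44100) x44028) x44040) (Nat.mul x44046 (nat_lit 4))) x24364)
    (Nat.sub (Nat.add (Nat.add (Nat.add (Nat.add (Nat.add (Nat.add (Nat.add (Nat.add C x30944) x48440) x42608) x44552) x43904) x44228) x44012) x44068) x44066)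
    (Nat.sub (Nat.sub (Nat.add (Nat.add (Nat.add (Nat.add (Nat.add (Nat.add (Nat.add (Nat.add (Nat.add (Nat.add C x30946) x48442) x42610) x44554) x43906) x44230) x44014) x44074) x44066) x44070) (Nat.mul x44068 (nat_lit 2))) x24386)
    (Nat.sub (Nat.sub (Nat.add (Nat.add (Nat.add (Nat.add (Nat.add (Nat.add (Nat.add (Nat.add (Nat.add C x30948) x48444) x42612) x44556) x43908) x44232) x44016) x44076) x44068) (Nat.mul x44070 (nat_lit 5))) x24388)
    (Nat.sub (Nat.sub (Nat.add (Nat.add (Nat.add (Nat.add (Nat.add (Nat.add (Nat.add (Nat.add (Nat.add (Nat.add C x30952) x48448) x42616) x44560) x43912) x44236) x44020) x44092) x44068) x44076) (Nat.mul x44074 (nat_lit 3))) x24392)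
    (Nat.sub (Nat.sub (Nat.add (Nat.add (Nat.add (Nat.add (Nat.add (Nat.add (Nat.add (Nat.add (Nat.add (Nat.add (Nat.add C x30954) x48450) x42618) x44562) x43914) x44238) x44022) x44094) x44070) x44082) x44074) (Nat.mul x44076 (nat_lit 4))) x24394)
    (Nat.sub (Nat.sub (Nat.add (Nat.add (Nat.add (Nat.add (Nat.add (Nat.add (Nat.add (Nat.add (Nat.add C x30960) x48456) x42624) x44568) x43920) x44244) x44028) x44100) x44076) (Nat.mul x44082 (nat_lit 5))) x24400)
    (Nat.sub (Nat.sub (Nat.add (Nat.add (Nat.add (Nat.add (Nat.add (Nat.add (Nat.add (Nat.add (Nat.add (Nat.add C x30970) x48466) x42634) x44578) x43930) x44254) x44038) x44146) x44074) x44094) (Nat.mul x44092 (nat_lit 2))) x24410)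
    (Nat.sub (Nat.sub (Nat.add (Nat.add (Nat.add (Nat.add (Nat.add (Nat.add (Nat.add (Nat.add (Nat.add (Nat.add (Nat.add C x30972) x48468) x42636) x44580) x43932) x44256) x44040) x44148) x44076) x44100) x44092) (Nat.mul x44094 (nat_lit 4))) x24412)
    (Nat.sub (Nat.sub (Nat.add (Nat.add (Nat.add (Nat.add (Nat.add (Nat.add (Nat.add (Nat.add (Nat.add (Nat.add (Nat.add C x30978) x48474) x42642) x44586) x43938) x44262) x44046) x44154) x44082) x44118) x44094) (Nat.mul x44100 (nat_lit 3))) x24418)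
    (Nat.sub (Nat.sub (Nat.add (Nat.add (Nat.add (Nat.add (Nat.add (Nat.add (Nat.add (Nat.add C x30996) x48492) x42660) x44604) x43956) x44280) x44172) x44100) (Nat.mul x44118 (nat_lit 3))) x24436)
    (Nat.sub (Nat.sub (Nat.add (Nat.add (Nat.add (Nat.add (Nat.add (Nat.add (Nat.add C x31024) x48520) x42688) x44632) x44308) x44092) x44148) (Nat.mul x44146 (nat_lit 2))) x24464)
    (Nat.sub (Nat.sub (Nat.add (Nat.add (Nat.add (Nat.add (Nat.add (Nat.add (Nat.add (Nat.add C x31026) x48522) x42690) x44634) x44310) x44094) x44154) x44146) (Nat.mul x44148 (nat_lit 4))) x24466)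
    (Nat.sub (Nat.sub (Nat.add (Nat.add (Nat.add (Nat.add (Nat.add (Nat.add (Nat.add (Nat.add C x31032) x48528) x42696) x44640) x44316) x44100) x44172) x44148) (Nat.mul x44154 (nat_lit 4))) x24472)
    (Nat.sub (Nat.sub (Nat.add (Nat.add (Nat.add (Nat.add (Nat.add (Nat.add (Nat.add C x31050) x48546) x42714) x44658) x44334) x44118) x44154) (Nat.mul x44172 (nat_lit 2))) x24490)
    (Nat.sub (Nat.add (Nat.add (Nat.add (Nat.add (Nat.add (Nat.add C x31106) x48602) x42770) x44714) x44066) x44230) (Nat.mul x44228 (nat_lit 2)))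
    (Nat.sub (Nat.sub (Nat.add (Nat.add (Nat.add (Nat.add (Nat.add (Nat.add (Nat.add (Nat.add C x31108) x48604) x42772) x44716) x44068) x44236) x44228) x44232) (Nat.mul x44230 (nat_lit 3))) x24548)
    (Nat.sub (Nat.sub (Nat.add (Nat.add (Nat.add (Nat.add (Nat.add (Nat.add (Nat.add C x31110) x48606) x42774) x44718) x44070) x44238) x44230) (Nat.mul x44232 (nat_lit 6))) x24550)
    (Nat.sub (Nat.sub (Nat.add (Nat.add (Nat.add (Nat.add (Nat.add (Nat.add (Nat.add (Nat.add C x31114) x48610) x42778) x44722) x44074) x44254) x44230) x44238) (Nat.mul x44236 (nat_lit 4))) x24554)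
    (Nat.sub (Nat.sub (Nat.add (Nat.add (Nat.add (Nat.add (Nat.add (Nat.add (Nat.add (Nat.add (Nat.add C x31116) x48612) x42780) x44724) x44076) x44256) x44232) x44244) x44236) (Nat.mul x44238 (nat_lit 5))) x24556)
    (Nat.sub (Nat.sub (Nat.add (Nat.add (Nat.add (Nat.add (Nat.add (Nat.add (Nat.add C x31122) x48618) x42786) x44730) x44082) x44262) x44238) (Nat.mul x44244 (nat_lit 6))) x24562)
    (Nat.sub (Nat.sub (Nat.add (Nat.add (Nat.add (Nat.add (Nat.add (Nat.add (Nat.add (Nat.add C x31132) x48628) x42796) x44740) x44092) x44308) x44236) x44256) (Nat.mul x44254 (nat_lit 4))) x24572)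
    (Nat.sub (Nat.sub (Nat.add (Nat.add (Nat.add (Nat.add (Nat.add (Nat.add (Nat.add (Nat.add (Nat.add C x31134) x48630) x42798) x44742) x44094) x44310) x44238) x44262) x44254) (Nat.mul x44256 (nat_lit 6))) x24574)
    (Nat.sub (Nat.sub (Nat.add (Nat.add (Nat.add (Nat.add (Nat.add (Nat.add (Nat.add (Nat.add (Nat.add C x31140) x48636) x42804) x44748) x44100) x44316) x44244) x44280) x44256) (Nat.mul x44262 (nat_lit 5))) x24580)
    (Nat.sub (Nat.sub (Nat.add (Nat.add (Nat.add (Nat.add (Nat.add (Nat.add (Nat.add C x31158) x48654) x42822) x44766) x44118) x44334) x44262) (Nat.mul x44280 (nat_lit 6))) x24598)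
    (Nat.sub (Nat.sub (Nat.add (Nat.add (Nat.add (Nat.add (Nat.add (Nat.add (Nat.add C x31186) x48682) x42850) x44794) x44146) x44254) x44310) (Nat.mul x44308 (nat_lit 2))) x24626)
    (Nat.sub (Nat.sub (Nat.add (Nat.add (Nat.add (Nat.add (Nat.add (Nat.add (Nat.add (Nat.add C x31188) x48684) x42852) x44796) x44148) x44256) x44316) x44308) (Nat.mul x44310 (nat_lit 4))) x24628)
    (Nat.sub (Nat.sub (Nat.add (Nat.add (Nat.add (Nat.add (Nat.add (Nat.add (Nat.add (Nat.add C x31194) x48690) x42858) x44802) x44154) x44262) x44334) x44310) (Nat.mul x44316 (nat_lit 4))) x24634)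
    (Nat.sub (Nat.sub (Nat.add (Nat.add (Nat.add (Nat.add (Nat.add (Nat.add (Nat.add (Nat.add C x31212) x48708) x42876) x44820) x44172) x44280) x44388) x44316) (Nat.mul x44334 (nat_lit 3))) x24652)
    (Nat.sub (Nat.sub (Nat.add (Nat.add (Nat.add (Nat.add (Nat.add C x31266) x48762) x42930) x44874) x44334) (Nat.mul x44388 (nat_lit 2))) x24706)
    (Nat.add (Nat.add (Nat.add (Nat.add (Nat.add (Nat.add (Nat.add C (Nat.mul x44474 (nat_lit 2))) x31352) x48848) x43016) x43988) x44480) x44476)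
    (Nat.sub (Nat.add (Nat.add (Nat.add (Nat.add (Nat.add (Nat.add C x31354) x48850) x43018) x43990) x44482) x44474) x24794)
    (Nat.add (Nat.add (Nat.add (Nat.add (Nat.add (Nat.add (Nat.add C x31358) x48854) x43022) x43994) x44498) x44474) x44482)
    (Nat.sub (Nat.add (Nat.add (Nat.add (Nat.add (Nat.add (Nat.add (Nat.add (Nat.add (Nat.add C x31360) x48856) x43024) x43996) x44500) x44476) x44488) x44480) x44484) x24800)
    (Nat.sub (Nat.sub (Nat.add (Nat.add (Nat.add (Nat.add (Nat.add (Nat.add (Nat.add C x31362) x48858) x43026) x43998) x44502) x44490) x44482) (Nat.mul x44484 (nat_lit 2))) x24802)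
    (Nat.sub (Nat.sub (Nat.add (Nat.add (Nat.add (Nat.add (Nat.add (Nat.add (Nat.add C x31366) x48862) x43030) x44002) x44506) x44482) x44490) (Nat.mul x44488 (nat_lit 2))) x24806)
    (Nat.sub (Nat.sub (Nat.add (Nat.add (Nat.add (Nat.add (Nat.add (Nat.add (Nat.add C x31368) x48864) x43032) x44004) x44508) x44484) x44488) (Nat.mul x44490 (nat_lit 2))) x24808)
    (Nat.add (Nat.add (Nat.add (Nat.add (Nat.add (Nat.add (Nat.add C x31376) x48872) x43040) x44012) x44552) x44480) x44500)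
    (Nat.sub (Nat.sub (Nat.add (Nat.add (Nat.add (Nat.add (Nat.add (Nat.add (Nat.add (Nat.add (Nat.add C x31378) x48874) x43042) x44014) x44554) x44482) x44506) x44498) x44502) x44500) x24818)
    (Nat.sub (Nat.sub (Nat.add (Nat.add (Nat.add (Nat.add (Nat.add (Nat.add (Nat.add (Nat.add C x31380) x48876) x43044) x44016) x44556) x44484) x44508) x44500) (Nat.mul x44502 (nat_lit 4))) x24820)
    (Nat.sub (Nat.sub (Nat.add (Nat.add (Nat.add (Nat.add (Nat.add (Nat.add (Nat.add (Nat.add (Nat.add C x31384) x48880) x43048) x44020) x44560) x44488) x44524) x44500) x44508) x44506) x24824)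
    (Nat.sub (Nat.sub (Nat.add (Nat.add (Nat.add (Nat.add (Nat.add (Nat.add (Nat.add (Nat.add (Nat.add (Nat.add C x31386) x48882) x43050) x44022) x44562) x44490) x44526) x44502) x44514) x44506) (Nat.mul x44508 (nat_lit 2))) x24826)
    (Nat.sub (Nat.sub (Nat.add (Nat.add (Nat.add (Nat.add (Nat.add (Nat.add (Nat.add C x31392) x48888) x43056) x44028) x44568) x44532) x44508) (Nat.mul x44514 (nat_lit 2))) x24832)
    (Nat.sub (Nat.sub (Nat.add (Nat.add (Nat.add (Nat.add (Nat.add (Nat.add (Nat.add C x31402) x48898) x43066) x44038) x44578) x44506) x44526) (Nat.mul x44524 (nat_lit 2))) x24842)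
    (Nat.sub (Nat.sub (Nat.add (Nat.add (Nat.add (Nat.add (Nat.add (Nat.add (Nat.add (Nat.add C x31404) x48900) x43068) x44040) x44580) x44508) x44532) x44524) (Nat.mul x44526 (nat_lit 4))) x24844)
    (Nat.sub (Nat.sub (Nat.add (Nat.add (Nat.add (Nat.add (Nat.add (Nat.add (Nat.add C x31410) x48906) x43074) x44046) x44586) x44514) x44526) (Nat.mul x44532 (nat_lit 2))) x24850)
    (Nat.add (Nat.add (Nat.add (Nat.add (Nat.add (Nat.add (Nat.add C x31430) x48926) x43094) x44066) x44714) x44498) x44554)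
    (Nat.sub (Nat.sub (Nat.add (Nat.add (Nat.add (Nat.add (Nat.add (Nat.add (Nat.add (Nat.add (Nat.add C x31432) x48928) x43096) x44068) x44716) x44500) x44560) x44552) x44556) x44554) x24872)
    (Nat.sub (Nat.sub (Nat.add (Nat.add (Nat.add (Nat.add (Nat.add (Nat.add (Nat.add (Nat.add C x31434) x48930) x43098) x44070) x44718) x44502) x44562) x44554) (Nat.mul x44556 (nat_lit 4))) x24874)
    (Nat.sub (Nat.sub (Nat.add (Nat.add (Nat.add (Nat.add (Nat.add (Nat.add (Nat.add (Nat.add (Nat.add C x31438) x48934) x43102) x44074) x44722) x44506) x44578) x44554) x44562) (Nat.mul x44560 (nat_lit 2))) x24878)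
    (Nat.sub (Nat.sub (Nat.add (Nat.add (Nat.add (Nat.add (Nat.add (Nat.add (Nat.add (Nat.add (Nat.add (Nat.add C x31440) x48936) x43104) x44076) x44724) x44508) x44580) x44556) x44568) x44560) (Nat.mul x44562 (nat_lit 3))) x24880)
    (Nat.sub (Nat.sub (Nat.add (Nat.add (Nat.add (Nat.add (Nat.add (Nat.add (Nat.add (Nat.add C x31446) x48942) x43110) x44082) x44730) x44514) x44586) x44562) (Nat.mul x44568 (nat_lit 4))) x24886)
    (Nat.sub (Nat.sub (Nat.add (Nat.add (Nat.add (Nat.add (Nat.add (Nat.add (Nat.add (Nat.add (Nat.add C x31456) x48952) x43120) x44092) x44740) x44524) x44632) x44560) x44580) x44578) x24896)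
    (Nat.sub (Nat.sub (Nat.add (Nat.add (Nat.add (Nat.add (Nat.add (Nat.add (Nat.add (Nat.add (Nat.add (Nat.add C x31458) x48954) x43122) x44094) x44742) x44526) x44634) x44562) x44586) x44578) (Nat.mul x44580 (nat_lit 3))) x24898)
    (Nat.sub (Nat.sub (Nat.add (Nat.add (Nat.add (Nat.add (Nat.add (Nat.add (Nat.add (Nat.add (Nat.add (Nat.add C x31464) x48960) x43128) x44100) x44748) x44532) x44640) x44568) x44604) x44580) (Nat.mul x44586 (nat_lit 2))) x24904)
    (Nat.sub (Nat.sub (Nat.add (Nat.add (Nat.add (Nat.add (Nat.add (Nat.add (Nat.add C x31482) x48978) x43146) x44118) x44766) x44658) x44586) (Nat.mul x44604 (nat_lit 2))) x24922)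
    (Nat.sub (Nat.sub (Nat.add (Nat.add (Nat.add (Nat.add (Nat.add (Nat.add (Nat.add C x31510) x49006) x43174) x44146) x44794) x44578) x44634) (Nat.mul x44632 (nat_lit 2))) x24950)
    (Nat.sub (Nat.sub (Nat.add (Nat.add (Nat.add (Nat.add (Nat.add (Nat.add (Nat.add (Nat.add C x31512) x49008) x43176) x44148) x44796) x44580) x44640) x44632) (Nat.mul x44634 (nat_lit 4))) x24952)
    (Nat.sub (Nat.sub (Nat.add (Nat.add (Nat.add (Nat.add (Nat.add (Nat.add (Nat.add (Nat.add C x31518) x49014) x43182) x44154) x44802) x44586) x44658) x44634) (Nat.mul x44640 (nat_lit 4))) x24958)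
    (Nat.sub (Nat.sub (Nat.add (Nat.add (Nat.add (Nat.add (Nat.add (Nat.add (Nat.add C x31536) x49032) x43200) x44172) x44820) x44604) x44640) (Nat.mul x44658 (nat_lit 2))) x24976)
    (Nat.add (Nat.add (Nat.add (Nat.add (Nat.add (Nat.add (Nat.add (Nat.add C x44714) x31592) x49088) x43256) x44228) x45200) x44552) x44716)
    (Nat.sub (Nat.add (Nat.add (Nat.add (Nat.add (Nat.add (Nat.add (Nat.add (Nat.add (Nat.add C x31594) x49090) x43258) x44230) x45202) x44554) x44722) x44714) x44718) x25034)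
    (Nat.sub (Nat.sub (Nat.add (Nat.add (Nat.add (Nat.add (Nat.add (Nat.add (Nat.add (Nat.add C x31596) x49092) x43260) x44232) x45204) x44556) x44724) x44716) (Nat.mul x44718 (nat_lit 3))) x25036)
    (Nat.sub (Nat.sub (Nat.add (Nat.add (Nat.add (Nat.add (Nat.add (Nat.add (Nat.add (Nat.add (Nat.add C x31600) x49096) x43264) x44236) x45208) x44560) x44740) x44716) x44724) x44722) x25040)
    (Nat.sub (Nat.sub (Nat.add (Nat.add (Nat.add (Nat.add (Nat.add (Nat.add (Nat.add (Nat.add (Nat.add (Nat.add C x31602) x49098) x43266) x44238) x45210) x44562) x44742) x44718) x44730) x44722) (Nat.mul x44724 (nat_lit 2))) x25042)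
    (Nat.sub (Nat.sub (Nat.add (Nat.add (Nat.add (Nat.add (Nat.add (Nat.add (Nat.add (Nat.add C x31608) x49104) x43272) x44244) x45216) x44568) x44748) x44724) (Nat.mul x44730 (nat_lit 3))) x25048)
    (Nat.sub (Nat.sub (Nat.add (Nat.add (Nat.add (Nat.add (Nat.add (Nat.add (Nat.add (Nat.add (Nat.add C x31618) x49114) x43282) x44254) x45226) x44578) x44794) x44722) x44742) x44740) x25058)
    (Nat.sub (Nat.sub (Nat.add (Nat.add (Nat.add (Nat.add (Nat.add (Nat.add (Nat.add (Nat.add (Nat.add (Nat.add C x31620) x49116) x43284) x44256) x45228) x44580) x44796) x44724) x44748) x44740) (Nat.mul x44742 (nat_lit 3))) x25060)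
    (Nat.sub (Nat.sub (Nat.add (Nat.add (Nat.add (Nat.add (Nat.add (Nat.add (Nat.add (Nat.add (Nat.add (Nat.add C x31626) x49122) x43290) x44262) x45234) x44586) x44802) x44730) x44766) x44742) (Nat.mul x44748 (nat_lit 2))) x25066)
    (Nat.sub (Nat.sub (Nat.add (Nat.add (Nat.add (Nat.add (Nat.add (Nat.add (Nat.add (Nat.add C x31644) x49140) x43308) x44280) x45252) x44604) x44820) x44748) (Nat.mul x44766 (nat_lit 3))) x25084)
    (Nat.sub (Nat.add (Nat.add (Nat.add (Nat.add (Nat.add (Nat.add (Nat.add (Nat.add (Nat.add C x31672) x49168) x43336) x44308) x45280) x44632) x44956) x44740) x44796) x25112)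
    (Nat.sub (Nat.sub (Nat.add (Nat.add (Nat.add (Nat.add (Nat.add (Nat.add (Nat.add (Nat.add (Nat.add (Nat.add C x31674) x49170) x43338) x44310) x45282) x44634) x44958) x44742) x44802) x44794) (Nat.mul x44796 (nat_lit 2))) x25114)
    (Nat.sub (Nat.sub (Nat.add (Nat.add (Nat.add (Nat.add (Nat.add (Nat.add (Nat.add (Nat.add (Nat.add (Nat.add C x31680) x49176) x43344) x44316) x45288) x44640) x44964) x44748) x44820) x44796) (Nat.mul x44802 (nat_lit 2))) x25120)
    (Nat.sub (Nat.sub (Nat.add (Nat.add (Nat.add (Nat.add (Nat.add (Nat.add (Nat.add (Nat.add (Nat.add (Nat.add C x31698) x49194) x43362) x44334) x45306) x44658) x44982) x44766) x44874) x44802) x44820) x25138)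
    (Nat.sub (Nat.sub (Nat.add (Nat.add (Nat.add (Nat.add (Nat.add (Nat.add (Nat.add C x31752) x49248) x43416) x44388) x45360) x45036) x44820) x44874) x25192)
    (Nat.sub (Nat.add (Nat.add (Nat.add (Nat.add (Nat.add (Nat.add C x31834) x49330) x43498) x45442) x44794) x44958) x25274)
    (Nat.sub (Nat.sub (Nat.add (Nat.add (Nat.add (Nat.add (Nat.add (Nat.add (Nat.add C x31836) x49332) x43500) x45444) x44796) x44964) x44956) (Nat.mul x44958 (nat_lit 2))) x25276)
    (Nat.sub (Nat.sub (Nat.add (Nat.add (Nat.add (Nat.add (Nat.add (Nat.add (Nat.add C x31842) x49338) x43506) x45450) x44802) x44982) x44958) (Nat.mul x44964 (nat_lit 2))) x25282)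
    (Nat.sub (Nat.sub (Nat.add (Nat.add (Nat.add (Nat.add (Nat.add (Nat.add (Nat.add C x31860) x49356) x43524) x45468) x44820) x45036) x44964) (Nat.mul x44982 (nat_lit 2))) x25300)
    (Nat.sub (Nat.add (Nat.add (Nat.add (Nat.add (Nat.add (Nat.add C x31914) x49410) x43578) x45522) x44874) x44982) x25354)
    (Nat.add (Nat.add (Nat.add (Nat.add (Nat.add C (Nat.mul x45200 (nat_lit 2))) x32078) x49574) x44714) x45202)
    (Nat.sub (Nat.add (Nat.add (Nat.add (Nat.add (Nat.add (Nat.add (Nat.add C x45202) x32080) x49576) x44716) x45208) x45200) x45204) x25520)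
    (Nat.sub (Nat.sub (Nat.add (Nat.add (Nat.add (Nat.add (Nat.add C x32082) x49578) x44718) x45210) x45202) (Nat.mul x45204 (nat_lit 2))) x25522)
    (Nat.sub (Nat.add (Nat.add (Nat.add (Nat.add (Nat.add (Nat.add C x32086) x49582) x44722) x45226) x45202) x45210) x25526)
    (Nat.sub (Nat.sub (Nat.add (Nat.add (Nat.add (Nat.add (Nat.add (Nat.add (Nat.add C x32088) x49584) x44724) x45228) x45204) x45216) x45208) x45210) x25528)
    (Nat.sub (Nat.sub (Nat.add (Nat.add (Nat.add (Nat.add (Nat.add C x32094) x49590) x44730) x45234) x45210) (Nat.mul x45216 (nat_lit 2))) x25534)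
    (Nat.sub (Nat.add (Nat.add (Nat.add (Nat.add (Nat.add (Nat.add C x32104) x49600) x44740) x45280) x45208) x45228) x25544)
    (Nat.sub (Nat.sub (Nat.add (Nat.add (Nat.add (Nat.add (Nat.add (Nat.add (Nat.add C x32106) x49602) x44742) x45282) x45210) x45234) x45226) (Nat.mul x45228 (nat_lit 2))) x25546)
    (Nat.sub (Nat.sub (Nat.add (Nat.add (Nat.add (Nat.add (Nat.add (Nat.add (Nat.add C x32112) x49608) x44748) x45288) x45216) x45252) x45228) x45234) x25552)
    (Nat.sub (Nat.sub (Nat.add (Nat.add (Nat.add (Nat.add (Nat.add C x32130) x49626) x44766) x45306) x45234) (Nat.mul x45252 (nat_lit 2))) x25570)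
    (Nat.sub (Nat.add (Nat.add (Nat.add (Nat.add (Nat.add (Nat.add C x32158) x49654) x44794) x45442) x45226) x45282) x25598)
    (Nat.sub (Nat.sub (Nat.add (Nat.add (Nat.add (Nat.add (Nat.add (Nat.add (Nat.add C x32160) x49656) x44796) x45444) x45228) x45288) x45280) (Nat.mul x45282 (nat_lit 2))) x25600)
    (Nat.sub (Nat.sub (Nat.add (Nat.add (Nat.add (Nat.add (Nat.add (Nat.add (Nat.add C x32166) x49662) x44802) x45450) x45234) x45306) x45282) (Nat.mul x45288 (nat_lit 2))) x25606)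
    (Nat.sub (Nat.sub (Nat.add (Nat.add (Nat.add (Nat.add (Nat.add (Nat.add (Nat.add C x32184) x49680) x44820) x45468) x45252) x45360) x45288) x45306) x25624)
    (Nat.sub (Nat.sub (Nat.add (Nat.add (Nat.add (Nat.add (Nat.add C x32238) x49734) x44874) x45522) x45306) (Nat.mul x45360 (nat_lit 2))) x25678)
    (Nat.sub (Nat.add (Nat.add (Nat.add (Nat.add (Nat.add (Nat.add C (Nat.mul x45442 (nat_lit 2))) x32320) x49816) x44956) x45280) x45444) x25760)
    (Nat.sub (Nat.add (Nat.add (Nat.add (Nat.add (Nat.add (Nat.add C x32322) x49818) x44958) x45282) x45450) x45442) x25762)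
    (Nat.sub (Nat.add (Nat.add (Nat.add (Nat.add (Nat.add (Nat.add C x32328) x49824) x44964) x45288) x45468) x45444) x25768)
    (Nat.sub (Nat.add (Nat.add (Nat.add (Nat.add (Nat.add (Nat.add C x32346) x49842) x44982) x45306) x45522) x45450) x25786)
    (Nat.sub (Nat.add (Nat.add (Nat.add (Nat.add (Nat.add (Nat.add (Nat.add C x45522) x32400) x49896) x45036) x45360) x45684) x45468) x25840)
    (Nat.sub (Nat.add (Nat.add (Nat.add (Nat.add C (Nat.mul x45684 (nat_lit 2))) x32562) x50058) x45522) x26002)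
    (Nat.add (Nat.add (Nat.add (Nat.add (Nat.add C (Nat.mul x45944 (nat_lit 6))) x32822) x41570) x45962) x45950)
    (Nat.add (Nat.add (Nat.add (Nat.add (Nat.add (Nat.add C (Nat.mul x45950 (nat_lit 4))) x32828) x41576) x45968) x45944) x45952)
    (Nat.sub (Nat.add (Nat.add (Nat.add (Nat.add (Nat.add C (Nat.mul x45952 (nat_lit 4))) x32830) x41578) x45970) x45950) x26270)
    (Nat.add (Nat.add (Nat.add (Nat.add (Nat.add (Nat.add C (Nat.mul x45962 (nat_lit 4))) x32840) x41588) x46016) x45944) x45968)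
    (Nat.add (Nat.add (Nat.add (Nat.add (Nat.add (Nat.add (Nat.add (Nat.add (Nat.add C (Nat.mul x45968 (nat_lit 4))) x32846) x41594) x46022) x45950) x45986) x45962) x45974) x45970)
    (Nat.sub (Nat.add (Nat.add (Nat.add (Nat.add (Nat.add (Nat.add (Nat.add (Nat.add C (Nat.mul x45970 (nat_lit 3))) x32848) x41596) x46024) x45952) x45988) x45976) x45968) x26288)
    (Nat.add (Nat.add (Nat.add (Nat.add (Nat.add (Nat.add (Nat.add C (Nat.mul x45974 (nat_lit 2))) x32852) x41600) x46028) x45992) x45968) x45976)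
    (Nat.sub (Nat.add (Nat.add (Nat.add (Nat.add (Nat.add (Nat.add (Nat.add (Nat.add C (Nat.mul x45976 (nat_lit 3))) x32854) x41602) x46030) x45994) x45970) x45974) x45978) x26294)
    (Nat.sub (Nat.add (Nat.add (Nat.add (Nat.add (Nat.add (Nat.add C (Nat.mul x45978 (nat_lit 2))) x32856) x41604) x46032) x45996) x45976) x26296)
    (Nat.add (Nat.add (Nat.add (Nat.add (Nat.add (Nat.add (Nat.add C (Nat.mul x45986 (nat_lit 2))) x32864) x41612) x46040) x45968) x45992) x45988)
    (Nat.sub (Nat.add (Nat.add (Nat.add (Nat.add (Nat.add (Nat.add C x32866) x41614) x46042) x45970) x45994) x45986) x26306)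
    (Nat.add (Nat.add (Nat.add (Nat.add (Nat.add (Nat.add (Nat.add C (Nat.mul x45992 (nat_lit 2))) x32870) x41618) x46046) x45974) x45986) x45994)
    (Nat.sub (Nat.add (Nat.add (Nat.add (Nat.add (Nat.add (Nat.add (Nat.add (Nat.add (Nat.add C (Nat.mul x45994 (nat_lit 2))) x32872) x41620) x46048) x45976) x45988) x46000) x45992) x45996) x26312)
    (Nat.sub (Nat.add (Nat.add (Nat.add (Nat.add (Nat.add (Nat.add C x32874) x41622) x46050) x45978) x46002) x45994) x26314)
    (Nat.sub (Nat.add (Nat.add (Nat.add (Nat.add (Nat.add (Nat.add C (Nat.mul x46000 (nat_lit 2))) x32878) x41626) x46054) x45994) x46002) x26318)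
    (Nat.sub (Nat.add (Nat.add (Nat.add (Nat.add (Nat.add (Nat.add C (Nat.mul x46002 (nat_lit 2))) x32880) x41628) x46056) x45996) x46000) x26320)
    (Nat.add (Nat.add (Nat.add (Nat.add (Nat.add (Nat.add C (Nat.mul x46016 (nat_lit 4))) x32894) x41642) x46178) x45962) x46022)
    (Nat.add (Nat.add (Nat.add (Nat.add (Nat.add (Nat.add (Nat.add (Nat.add (Nat.add C (Nat.mul x46022 (nat_lit 3))) x32900) x41648) x46184) x45968) x46040) x46016) x46028) x46024)
    (Nat.sub (Nat.add (Nat.add (Nat.add (Nat.add (Nat.add (Nat.add (Nat.add (Nat.add C (Nat.mul x46024 (nat_lit 2))) x32902) x41650) x46186) x45970) x46042) x46030) x46022) x26342)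
    (Nat.add (Nat.add (Nat.add (Nat.add (Nat.add (Nat.add (Nat.add C x32906) x41654) x46190) x45974) x46046) x46022) x46030)
    (Nat.sub (Nat.add (Nat.add (Nat.add (Nat.add (Nat.add (Nat.add (Nat.add (Nat.add (Nat.add C x46030) x32908) x41656) x46192) x45976) x46048) x46024) x46028) x46032) x26348)
    (Nat.sub (Nat.add (Nat.add (Nat.add (Nat.add (Nat.add (Nat.add C x32910) x41658) x46194) x45978) x46050) x46030) x26350)
    (Nat.add (Nat.add (Nat.add (Nat.add (Nat.add (Nat.add (Nat.add (Nat.add (Nat.add C (Nat.mul x46040 (nat_lit 3))) x32918) x41666) x46202) x45986) x46094) x46022) x46046) x46042)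
    (Nat.sub (Nat.add (Nat.add (Nat.add (Nat.add (Nat.add (Nat.add (Nat.add (Nat.add (Nat.add C x46042) x32920) x41668) x46204) x45988) x46096) x46024) x46048) x46040) x26360)
    (Nat.add (Nat.add (Nat.add (Nat.add (Nat.add (Nat.add (Nat.add (Nat.add (Nat.add (Nat.add C (Nat.mul x46046 (nat_lit 2))) x32924) x41672) x46208) x45992) x46100) x46028) x46064) x46040) x46048)
    (Nat.sub (Nat.add (Nat.add (Nat.add (Nat.add (Nat.add (Nat.add (Nat.add (Nat.add (Nat.add (Nat.add (Nat.add (Nat.add C (Nat.mul x46048 (nat_lit 2))) x32926) x41674) x46210) x45994) x46102) x46030) x46066) x46042) x46054) x46046) x46050) x26366)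
    (Nat.sub (Nat.add (Nat.add (Nat.add (Nat.add (Nat.add (Nat.add (Nat.add (Nat.add (Nat.add C x32928) x41676) x46212) x45996) x46104) x46032) x46068) x46056) x46048) x26368)
    (Nat.sub (Nat.add (Nat.add (Nat.add (Nat.add (Nat.add (Nat.add (Nat.add (Nat.add (Nat.add C x46054) x32932) x41680) x46216) x46000) x46108) x46072) x46048) x46056) x26372)
    (Nat.sub (Nat.add (Nat.add (Nat.add (Nat.add (Nat.add (Nat.add (Nat.add (Nat.add (Nat.add C x46056) x32934) x41682) x46218) x46002) x46110) x46074) x46050) x46054) x26374)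
    (Nat.add (Nat.add (Nat.add (Nat.add (Nat.add (Nat.add (Nat.add C (Nat.mul x46064 (nat_lit 2))) x32942) x41690) x46226) x46118) x46046) x46066)
    (Nat.sub (Nat.add (Nat.add (Nat.add (Nat.add (Nat.add (Nat.add (Nat.add (Nat.add (Nat.add C x46066) x32944) x41692) x46228) x46120) x46048) x46072) x46064) x46068) x26384)
    (Nat.sub (Nat.sub (Nat.add (Nat.add (Nat.add (Nat.add (Nat.add (Nat.add (Nat.add C x32946) x41694) x46230) x46122) x46050) x46074) x46066) (Nat.mul x46068 (nat_lit 2))) x26386)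
    (Nat.sub (Nat.add (Nat.add (Nat.add (Nat.add (Nat.add (Nat.add (Nat.add (Nat.add C (Nat.mul x46072 (nat_lit 2))) x32950) x41698) x46234) x46126) x46054) x46066) x46074) x26390)
    (Nat.sub (Nat.add (Nat.add (Nat.add (Nat.add (Nat.add (Nat.add (Nat.add (Nat.add (Nat.add C x46074) x32952) x41700) x46236) x46128) x46056) x46068) x46080) x46072) x26392)
    (Nat.sub (Nat.add (Nat.add (Nat.add (Nat.add (Nat.add (Nat.add C (Nat.mul x46080 (nat_lit 2))) x32958) x41706) x46242) x46134) x46074) x26398)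
    (Nat.add (Nat.add (Nat.add (Nat.add (Nat.add (Nat.add (Nat.add C (Nat.mul x46094 (nat_lit 2))) x32972) x41720) x46256) x46040) x46100) x46096)
    (Nat.sub (Nat.add (Nat.add (Nat.add (Nat.add (Nat.add (Nat.add C x32974) x41722) x46258) x46042) x46102) x46094) x26414)
    (Nat.add (Nat.add (Nat.add (Nat.add (Nat.add (Nat.add (Nat.add C x32978) x41726) x46262) x46046) x46118) x46094) x46102)
    (Nat.sub (Nat.add (Nat.add (Nat.add (Nat.add (Nat.add (Nat.add (Nat.add (Nat.add (Nat.add C x32980) x41728) x46264) x46048) x46120) x46096) x46108) x46100) x46104) x26420)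
    (Nat.sub (Nat.sub (Nat.add (Nat.add (Nat.add (Nat.add (Nat.add (Nat.add (Nat.add C x32982) x41730) x46266) x46050) x46122) x46110) x46102) (Nat.mul x46104 (nat_lit 2))) x26422)
    (Nat.sub (Nat.sub (Nat.add (Nat.add (Nat.add (Nat.add (Nat.add (Nat.add (Nat.add C x32986) x41734) x46270) x46054) x46126) x46102) x46110) (Nat.mul x46108 (nat_lit 2))) x26426)
    (Nat.sub (Nat.sub (Nat.add (Nat.add (Nat.add (Nat.add (Nat.add (Nat.add (Nat.add C x32988) x41736) x46272) x46056) x46128) x46104) x46108) (Nat.mul x46110 (nat_lit 2))) x26428)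
    (Nat.add (Nat.add (Nat.add (Nat.add (Nat.add (Nat.add (Nat.add C (Nat.mul x46118 (nat_lit 2))) x32996) x41744) x46280) x46064) x46100) x46120)
    (Nat.sub (Nat.add (Nat.add (Nat.add (Nat.add (Nat.add (Nat.add (Nat.add (Nat.add (Nat.add C x46120) x32998) x41746) x46282) x46066) x46102) x46126) x46118) x46122) x26438)
    (Nat.sub (Nat.sub (Nat.add (Nat.add (Nat.add (Nat.add (Nat.add (Nat.add (Nat.add C x33000) x41748) x46284) x46068) x46104) x46128) x46120) (Nat.mul x46122 (nat_lit 2))) x26440)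
    (Nat.sub (Nat.add (Nat.add (Nat.add (Nat.add (Nat.add (Nat.add (Nat.add (Nat.add (Nat.add C x46126) x33004) x41752) x46288) x46072) x46108) x46144) x46120) x46128) x26444)
    (Nat.sub (Nat.add (Nat.add (Nat.add (Nat.add (Nat.add (Nat.add (Nat.add (Nat.add (Nat.add C x33006) x41754) x46290) x46074) x46110) x46146) x46122) x46134) x46126) x26446)
    (Nat.sub (Nat.add (Nat.add (Nat.add (Nat.add (Nat.add (Nat.add C x33012) x41760) x46296) x46080) x46152) x46128) x26452)
    (Nat.sub (Nat.add (Nat.add (Nat.add (Nat.add (Nat.add (Nat.add C (Nat.mul x46144 (nat_lit 2))) x33022) x41770) x46306) x46126) x46146) x26462)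
    (Nat.sub (Nat.add (Nat.add (Nat.add (Nat.add (Nat.add (Nat.add C x33024) x41772) x46308) x46128) x46152) x46144) x26464)
    (Nat.sub (Nat.add (Nat.add (Nat.add (Nat.add (Nat.add (Nat.add C (Nat.mul x46152 (nat_lit 2))) x33030) x41778) x46314) x46134) x46146) x26470)
    (Nat.add (Nat.add (Nat.add (Nat.add (Nat.add (Nat.add C (Nat.mul x46178 (nat_lit 4))) x33056) x41804) x46664) x46016) x46184)
    (Nat.add (Nat.add (Nat.add (Nat.add (Nat.add (Nat.add (Nat.add (Nat.add (Nat.add C (Nat.mul x46184 (nat_lit 3))) x33062) x41810) x46670) x46022) x46202) x46178) x46190) x46186)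
    (Nat.sub (Nat.add (Nat.add (Nat.add (Nat.add (Nat.add (Nat.add (Nat.add (Nat.add C (Nat.mul x46186 (nat_lit 2))) x33064) x41812) x46672) x46024) x46204) x46192) x46184) x26504)
    (Nat.add (Nat.add (Nat.add (Nat.add (Nat.add (Nat.add (Nat.add C x33068) x41816) x46676) x46028) x46208) x46184) x46192)
    (Nat.sub (Nat.add (Nat.add (Nat.add (Nat.add (Nat.add (Nat.add (Nat.add (Nat.add (Nat.add C x46192) x33070) x41818) x46678) x46030) x46210) x46186) x46190) x46194) x26510)
    (Nat.sub (Nat.add (Nat.add (Nat.add (Nat.add (Nat.add (Nat.add C x33072) x41820) x46680) x46032) x46212) x46192) x26512)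
    (Nat.add (Nat.add (Nat.add (Nat.add (Nat.add (Nat.add (Nat.add (Nat.add (Nat.add C (Nat.mul x46202 (nat_lit 2))) x33080) x41828) x46688) x46040) x46256) x46184) x46208) x46204)
    (Nat.sub (Nat.add (Nat.add (Nat.add (Nat.add (Nat.add (Nat.add (Nat.add (Nat.add C x33082) x41830) x46690) x46042) x46258) x46186) x46210) x46202) x26522)
    (Nat.add (Nat.add (Nat.add (Nat.add (Nat.add (Nat.add (Nat.add (Nat.add (Nat.add (Nat.add C x46208) x33086) x41834) x46694) x46046) x46262) x46190) x46226) x46202) x46210)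
    (Nat.sub (Nat.add (Nat.add (Nat.add (Nat.add (Nat.add (Nat.add (Nat.add (Nat.add (Nat.add (Nat.add (Nat.add (Nat.add C x46210) x33088) x41836) x46696) x46048) x46264) x46192) x46228) x46204) x46216) x46208) x46212) x26528)
    (Nat.sub (Nat.sub (Nat.add (Nat.add (Nat.add (Nat.add (Nat.add (Nat.add (Nat.add (Nat.add (Nat.add C x33090) x41838) x46698) x46050) x46266) x46194) x46230) x46218) x46210) x46212) x26530)
    (Nat.sub (Nat.add (Nat.add (Nat.add (Nat.add (Nat.add (Nat.add (Nat.add (Nat.add C x33094) x41842) x46702) x46054) x46270) x46234) x46210) x46218) x26534)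
    (Nat.sub (Nat.add (Nat.add (Nat.add (Nat.add (Nat.add (Nat.add (Nat.add (Nat.add C x33096) x41844) x46704) x46056) x46272) x46236) x46212) x46216) x26536)
    (Nat.add (Nat.add (Nat.add (Nat.add (Nat.add (Nat.add (Nat.add C x33104) x41852) x46712) x46064) x46280) x46208) x46228)
    (Nat.sub (Nat.sub (Nat.add (Nat.add (Nat.add (Nat.add (Nat.add (Nat.add (Nat.add (Nat.add (Nat.add C x33106) x41854) x46714) x46066) x46282) x46210) x46234) x46226) x46230) x46228) x26546)
    (Nat.sub (Nat.sub (Nat.add (Nat.add (Nat.add (Nat.add (Nat.add (Nat.add (Nat.add (Nat.add C x33108) x41856) x46716) x46068) x46284) x46212) x46236) x46228) (Nat.mul x46230 (nat_lit 4))) x26548)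
    (Nat.sub (Nat.add (Nat.add (Nat.add (Nat.add (Nat.add (Nat.add (Nat.add (Nat.add C x33112) x41860) x46720) x46072) x46288) x46216) x46228) x46236) x26552)
    (Nat.sub (Nat.sub (Nat.add (Nat.add (Nat.add (Nat.add (Nat.add (Nat.add (Nat.add (Nat.add (Nat.add C x33114) x41862) x46722) x46074) x46290) x46218) x46230) x46242) x46234) x46236) x26554)
    (Nat.sub (Nat.add (Nat.add (Nat.add (Nat.add (Nat.add (Nat.add C x33120) x41868) x46728) x46080) x46296) x46236) x26560)
    (Nat.add (Nat.add (Nat.add (Nat.add (Nat.add (Nat.add (Nat.add (Nat.add (Nat.add C (Nat.mul x46256 (nat_lit 3))) x33134) x41882) x46742) x46094) x46418) x46202) x46262) x46258)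
    (Nat.sub (Nat.add (Nat.add (Nat.add (Nat.add (Nat.add (Nat.add (Nat.add (Nat.add (Nat.add C x46258) x33136) x41884) x46744) x46096) x46420) x46204) x46264) x46256) x26576)
    (Nat.add (Nat.add (Nat.add (Nat.add (Nat.add (Nat.add (Nat.add (Nat.add (Nat.add (Nat.add C x46262) x33140) x41888) x46748) x46100) x46424) x46208) x46280) x46256) x46264)
    (Nat.sub (Nat.add (Nat.add (Nat.add (Nat.add (Nat.add (Nat.add (Nat.add (Nat.add (Nat.add (Nat.add (Nat.add (Nat.add C x46264) x33142) x41890) x46750) x46102) x46426) x46210) x46282) x46258) x46270) x46262) x46266) x26582)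
    (Nat.sub (Nat.sub (Nat.add (Nat.add (Nat.add (Nat.add (Nat.add (Nat.add (Nat.add (Nat.add (Nat.add C x33144) x41892) x46752) x46104) x46428) x46212) x46284) x46272) x46264) x46266) x26584)
    (Nat.sub (Nat.sub (Nat.add (Nat.add (Nat.add (Nat.add (Nat.add (Nat.add (Nat.add (Nat.add (Nat.add C x33148) x41896) x46756) x46108) x46432) x46216) x46288) x46264) x46272) x46270) x26588)
    (Nat.sub (Nat.sub (Nat.add (Nat.add (Nat.add (Nat.add (Nat.add (Nat.add (Nat.add (Nat.add (Nat.add C x33150) x41898) x46758) x46110) x46434) x46218) x46290) x46266) x46270) x46272) x26590)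
    (Nat.add (Nat.add (Nat.add (Nat.add (Nat.add (Nat.add (Nat.add (Nat.add (Nat.add (Nat.add C (Nat.mul x46280 (nat_lit 2))) x33158) x41906) x46766) x46118) x46442) x46226) x46334) x46262) x46282)
    (Nat.sub (Nat.add (Nat.add (Nat.add (Nat.add (Nat.add (Nat.add (Nat.add (Nat.add (Nat.add (Nat.add (Nat.add (Nat.add C x46282) x33160) x41908) x46768) x46120) x46444) x46228) x46336) x46264) x46288) x46280) x46284) x26600)
    (Nat.sub (Nat.sub (Nat.add (Nat.add (Nat.add (Nat.add (Nat.add (Nat.add (Nat.add (Nat.add (Nat.add (Nat.add C x33162) x41910) x46770) x46122) x46446) x46230) x46338) x46266) x46290) x46282) (Nat.mul x46284 (nat_lit 2))) x26602)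
    (Nat.sub (Nat.add (Nat.add (Nat.add (Nat.add (Nat.add (Nat.add (Nat.add (Nat.add (Nat.add (Nat.add (Nat.add (Nat.add C x46288) x33166) x41914) x46774) x46126) x46450) x46234) x46342) x46270) x46306) x46282) x46290) x26606)
    (Nat.sub (Nat.add (Nat.add (Nat.add (Nat.add (Nat.add (Nat.add (Nat.add (Nat.add (Nat.add (Nat.add (Nat.add (Nat.add C x33168) x41916) x46776) x46128) x46452) x46236) x46344) x46272) x46308) x46284) x46296) x46288) x26608)
    (Nat.sub (Nat.add (Nat.add (Nat.add (Nat.add (Nat.add (Nat.add (Nat.add (Nat.add (Nat.add C x33174) x41922) x46782) x46134) x46458) x46242) x46350) x46314) x46290) x26614)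
    (Nat.sub (Nat.add (Nat.add (Nat.add (Nat.add (Nat.add (Nat.add (Nat.add (Nat.add (Nat.add C x46306) x33184) x41932) x46792) x46144) x46468) x46360) x46288) x46308) x26624)
    (Nat.sub (Nat.sub (Nat.add (Nat.add (Nat.add (Nat.add (Nat.add (Nat.add (Nat.add (Nat.add (Nat.add C x33186) x41934) x46794) x46146) x46470) x46362) x46290) x46314) x46306) x46308) x26626)
    (Nat.sub (Nat.add (Nat.add (Nat.add (Nat.add (Nat.add (Nat.add (Nat.add (Nat.add (Nat.add C x46314) x33192) x41940) x46800) x46152) x46476) x46368) x46296) x46308) x26632)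
    (Nat.add (Nat.add (Nat.add (Nat.add (Nat.add (Nat.add (Nat.add C (Nat.mul x46334 (nat_lit 2))) x33212) x41960) x46820) x46496) x46280) x46336)
    (Nat.sub (Nat.add (Nat.add (Nat.add (Nat.add (Nat.add (Nat.add (Nat.add (Nat.add (Nat.add C x46336) x33214) x41962) x46822) x46498) x46282) x46342) x46334) x46338) x26654)
    (Nat.sub (Nat.sub (Nat.add (Nat.add (Nat.add (Nat.add (Nat.add (Nat.add (Nat.add C x33216) x41964) x46824) x46500) x46284) x46344) x46336) (Nat.mul x46338 (nat_lit 2))) x26656)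
    (Nat.sub (Nat.add (Nat.add (Nat.add (Nat.add (Nat.add (Nat.add (Nat.add (Nat.add C x33220) x41968) x46828) x46504) x46288) x46360) x46336) x46344) x26660)
    (Nat.sub (Nat.sub (Nat.add (Nat.add (Nat.add (Nat.add (Nat.add (Nat.add (Nat.add (Nat.add (Nat.add C x33222) x41970) x46830) x46506) x46290) x46362) x46338) x46350) x46342) x46344) x26662)
    (Nat.sub (Nat.sub (Nat.add (Nat.add (Nat.add (Nat.add (Nat.add (Nat.add (Nat.add C x33228) x41976) x46836) x46512) x46296) x46368) x46344) (Nat.mul x46350 (nat_lit 2))) x26668)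
    (Nat.sub (Nat.add (Nat.add (Nat.add (Nat.add (Nat.add (Nat.add (Nat.add (Nat.add C (Nat.mul x46360 (nat_lit 2))) x33238) x41986) x46846) x46522) x46306) x46342) x46362) x26678)
    (Nat.sub (Nat.add (Nat.add (Nat.add (Nat.add (Nat.add (Nat.add (Nat.add (Nat.add C x33240) x41988) x46848) x46524) x46308) x46344) x46368) x46360) x26680)
    (Nat.sub (Nat.add (Nat.add (Nat.add (Nat.add (Nat.add (Nat.add (Nat.add (Nat.add (Nat.add C x46368) x33246) x41994) x46854) x46530) x46314) x46350) x46386) x46362) x26686)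
    (Nat.sub (Nat.add (Nat.add (Nat.add (Nat.add (Nat.add (Nat.add C (Nat.mul x46386 (nat_lit 2))) x33264) x42012) x46872) x46548) x46368) x26704)
    (Nat.add (Nat.add (Nat.add (Nat.add (Nat.add (Nat.add (Nat.add C (Nat.mul x46418 (nat_lit 2))) x33296) x42044) x46904) x46256) x46424) x46420)
    (Nat.sub (Nat.add (Nat.add (Nat.add (Nat.add (Nat.add (Nat.add C x33298) x42046) x46906) x46258) x46426) x46418) x26738)
    (Nat.add (Nat.add (Nat.add (Nat.add (Nat.add (Nat.add (Nat.add C x33302) x42050) x46910) x46262) x46442) x46418) x46426)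
    (Nat.sub (Nat.add (Nat.add (Nat.add (Nat.add (Nat.add (Nat.add (Nat.add (Nat.add (Nat.add C x33304) x42052) x46912) x46264) x46444) x46420) x46432) x46424) x46428) x26744)
    (Nat.sub (Nat.sub (Nat.add (Nat.add (Nat.add (Nat.add (Nat.add (Nat.add (Nat.add C x33306) x42054) x46914) x46266) x46446) x46434) x46426) (Nat.mul x46428 (nat_lit 2))) x26746)
    (Nat.sub (Nat.sub (Nat.add (Nat.add (Nat.add (Nat.add (Nat.add (Nat.add (Nat.add C x33310) x42058) x46918) x46270) x46450) x46426) x46434) (Nat.mul x46432 (nat_lit 2))) x26750)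
    (Nat.sub (Nat.sub (Nat.add (Nat.add (Nat.add (Nat.add (Nat.add (Nat.add (Nat.add C x33312) x42060) x46920) x46272) x46452) x46428) x46432) (Nat.mul x46434 (nat_lit 2))) x26752)
    (Nat.add (Nat.add (Nat.add (Nat.add (Nat.add (Nat.add (Nat.add C x33320) x42068) x46928) x46280) x46496) x46424) x46444)
    (Nat.sub (Nat.sub (Nat.add (Nat.add (Nat.add (Nat.add (Nat.add (Nat.add (Nat.add (Nat.add (Nat.add C x33322) x42070) x46930) x46282) x46498) x46426) x46450) x46442) x46446) x46444) x26762)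
    (Nat.sub (Nat.sub (Nat.add (Nat.add (Nat.add (Nat.add (Nat.add (Nat.add (Nat.add (Nat.add C x33324) x42072) x46932) x46284) x46500) x46428) x46452) x46444) (Nat.mul x46446 (nat_lit 4))) x26764)
    (Nat.sub (Nat.sub (Nat.add (Nat.add (Nat.add (Nat.add (Nat.add (Nat.add (Nat.add (Nat.add (Nat.add C x33328) x42076) x46936) x46288) x46504) x46432) x46468) x46444) x46452) x46450) x26768)
    (Nat.sub (Nat.sub (Nat.add (Nat.add (Nat.add (Nat.add (Nat.add (Nat.add (Nat.add (Nat.add (Nat.add (Nat.add C x33330) x42078) x46938) x46290) x46506) x46434) x46470) x46446) x46458) x46450) (Nat.mul x46452 (nat_lit 2))) x26770)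
    (Nat.sub (Nat.sub (Nat.add (Nat.add (Nat.add (Nat.add (Nat.add (Nat.add (Nat.add C x33336) x42084) x46944) x46296) x46512) x46476) x46452) (Nat.mul x46458 (nat_lit 2))) x26776)
    (Nat.sub (Nat.sub (Nat.add (Nat.add (Nat.add (Nat.add (Nat.add (Nat.add (Nat.add C x33346) x42094) x46954) x46306) x46522) x46450) x46470) (Nat.mul x46468 (nat_lit 2))) x26786)
    (Nat.sub (Nat.sub (Nat.add (Nat.add (Nat.add (Nat.add (Nat.add (Nat.add (Nat.add (Nat.add C x33348) x42096) x46956) x46308) x46524) x46452) x46476) x46468) (Nat.mul x46470 (nat_lit 4))) x26788)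
    (Nat.sub (Nat.sub (Nat.add (Nat.add (Nat.add (Nat.add (Nat.add (Nat.add (Nat.add C x33354) x42102) x46962) x46314) x46530) x46458) x46470) (Nat.mul x46476 (nat_lit 2))) x26794)
    (Nat.add (Nat.add (Nat.add (Nat.add (Nat.add (Nat.add (Nat.add C (Nat.mul x46496 (nat_lit 2))) x33374) x42122) x46982) x46334) x46442) x46498)
    (Nat.sub (Nat.add (Nat.add (Nat.add (Nat.add (Nat.add (Nat.add (Nat.add (Nat.add (Nat.add C x46498) x33376) x42124) x46984) x46336) x46444) x46504) x46496) x46500) x26816)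
    (Nat.sub (Nat.sub (Nat.add (Nat.add (Nat.add (Nat.add (Nat.add (Nat.add (Nat.add C x33378) x42126) x46986) x46338) x46446) x46506) x46498) (Nat.mul x46500 (nat_lit 2))) x26818)
    (Nat.sub (Nat.add (Nat.add (Nat.add (Nat.add (Nat.add (Nat.add (Nat.add (Nat.add C x33382) x42130) x46990) x46342) x46450) x46522) x46498) x46506) x26822)
    (Nat.sub (Nat.sub (Nat.add (Nat.add (Nat.add (Nat.add (Nat.add (Nat.add (Nat.add (Nat.add (Nat.add C x33384) x42132) x46992) x46344) x46452) x46524) x46500) x46512) x46504) x46506) x26824)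
    (Nat.sub (Nat.sub (Nat.add (Nat.add (Nat.add (Nat.add (Nat.add (Nat.add (Nat.add C x33390) x42138) x46998) x46350) x46458) x46530) x46506) (Nat.mul x46512 (nat_lit 2))) x26830)
    (Nat.sub (Nat.add (Nat.add (Nat.add (Nat.add (Nat.add (Nat.add (Nat.add (Nat.add (Nat.add C x46522) x33400) x42148) x47008) x46360) x46468) x46576) x46504) x46524) x26840)
    (Nat.sub (Nat.sub (Nat.add (Nat.add (Nat.add (Nat.add (Nat.add (Nat.add (Nat.add (Nat.add (Nat.add C x33402) x42150) x47010) x46362) x46470) x46578) x46506) x46530) x46522) x46524) x26842)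
    (Nat.sub (Nat.add (Nat.add (Nat.add (Nat.add (Nat.add (Nat.add (Nat.add (Nat.add (Nat.add C x33408) x42156) x47016) x46368) x46476) x46584) x46512) x46548) x46524) x26848)
    (Nat.sub (Nat.add (Nat.add (Nat.add (Nat.add (Nat.add (Nat.add C x33426) x42174) x47034) x46386) x46602) x46530) x26866)
    (Nat.sub (Nat.add (Nat.add (Nat.add (Nat.add (Nat.add (Nat.add C (Nat.mul x46576 (nat_lit 2))) x33454) x42202) x47062) x46522) x46578) x26894)
    (Nat.sub (Nat.add (Nat.add (Nat.add (Nat.add (Nat.add (Nat.add C x33456) x42204) x47064) x46524) x46584) x46576) x26896)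
    (Nat.sub (Nat.add (Nat.add (Nat.add (Nat.add (Nat.add (Nat.add C x33462) x42210) x47070) x46530) x46602) x46578) x26902)
    (Nat.sub (Nat.add (Nat.add (Nat.add (Nat.add (Nat.add (Nat.add C (Nat.mul x46602 (nat_lit 2))) x33480) x42228) x47088) x46548) x46584) x26920)
    (Nat.add (Nat.add (Nat.add (Nat.add (Nat.add (Nat.add C (Nat.mul x46664 (nat_lit 4))) x33542) x42290) x48122) x46178) x46670)
    (Nat.add (Nat.add (Nat.add (Nat.add (Nat.add (Nat.add (Nat.add (Nat.add (Nat.add C (Nat.mul x46670 (nat_lit 3))) x33548) x42296) x48128) x46184) x46688) x46664) x46676) x46672)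
    (Nat.sub (Nat.add (Nat.add (Nat.add (Nat.add (Nat.add (Nat.add (Nat.add (Nat.add C (Nat.mul x46672 (nat_lit 2))) x33550) x42298) x48130) x46186) x46690) x46678) x46670) x26990)
    (Nat.add (Nat.add (Nat.add (Nat.add (Nat.add (Nat.add (Nat.add C x33554) x42302) x48134) x46190) x46694) x46670) x46678)
    (Nat.sub (Nat.add (Nat.add (Nat.add (Nat.add (Nat.add (Nat.add (Nat.add (Nat.add (Nat.add C x46678) x33556) x42304) x48136) x46192) x46696) x46672) x46676) x46680) x26996)
    (Nat.sub (Nat.add (Nat.add (Nat.add (Nat.add (Nat.add (Nat.add C x33558) x42306) x48138) x46194) x46698) x46678) x26998)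
    (Nat.add (Nat.add (Nat.add (Nat.add (Nat.add (Nat.add (Nat.add (Nat.add (Nat.add C (Nat.mul x46688 (nat_lit 2))) x33566) x42314) x48146) x46202) x46742) x46670) x46694) x46690)
    (Nat.sub (Nat.add (Nat.add (Nat.add (Nat.add (Nat.add (Nat.add (Nat.add (Nat.add C x33568) x42316) x48148) x46204) x46744) x46672) x46696) x46688) x27008)
    (Nat.add (Nat.add (Nat.add (Nat.add (Nat.add (Nat.add (Nat.add (Nat.add (Nat.add (Nat.add C x46694) x33572) x42320) x48152) x46208) x46748) x46676) x46712) x46688) x46696)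
    (Nat.sub (Nat.add (Nat.add (Nat.add (Nat.add (Nat.add (Nat.add (Nat.add (Nat.add (Nat.add (Nat.add (Nat.add (Nat.add C x46696) x33574) x42322) x48154) x46210) x46750) x46678) x46714) x46690) x46702) x46694) x46698) x27014)
    (Nat.sub (Nat.sub (Nat.add (Nat.add (Nat.add (Nat.add (Nat.add (Nat.add (Nat.add (Nat.add (Nat.add C x33576) x42324) x48156) x46212) x46752) x46680) x46716) x46704) x46696) x46698) x27016)
    (Nat.sub (Nat.add (Nat.add (Nat.add (Nat.add (Nat.add (Nat.add (Nat.add (Nat.add C x33580) x42328) x48160) x46216) x46756) x46720) x46696) x46704) x27020)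
    (Nat.sub (Nat.add (Nat.add (Nat.add (Nat.add (Nat.add (Nat.add (Nat.add (Nat.add C x33582) x42330) x48162) x46218) x46758) x46722) x46698) x46702) x27022)
    (Nat.add (Nat.add (Nat.add (Nat.add (Nat.add (Nat.add (Nat.add C x33590) x42338) x48170) x46226) x46766) x46694) x46714)
    (Nat.sub (Nat.sub (Nat.add (Nat.add (Nat.add (Nat.add (Nat.add (Nat.add (Nat.add (Nat.add (Nat.add C x33592) x42340) x48172) x46228) x46768) x46696) x46720) x46712) x46716) x46714) x27032)
    (Nat.sub (Nat.sub (Nat.add (Nat.add (Nat.add (Nat.add (Nat.add (Nat.add (Nat.add (Nat.add C x33594) x42342) x48174) x46230) x46770) x46698) x46722) x46714) (Nat.mul x46716 (nat_lit 4))) x27034)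
    (Nat.sub (Nat.add (Nat.add (Nat.add (Nat.add (Nat.add (Nat.add (Nat.add (Nat.add C x33598) x42346) x48178) x46234) x46774) x46702) x46714) x46722) x27038)
    (Nat.sub (Nat.sub (Nat.add (Nat.add (Nat.add (Nat.add (Nat.add (Nat.add (Nat.add (Nat.add (Nat.add C x33600) x42348) x48180) x46236) x46776) x46704) x46716) x46728) x46720) x46722) x27040)
    (Nat.sub (Nat.add (Nat.add (Nat.add (Nat.add (Nat.add (Nat.add C x33606) x42354) x48186) x46242) x46782) x46722) x27046)
    (Nat.add (Nat.add (Nat.add (Nat.add (Nat.add (Nat.add (Nat.add (Nat.add (Nat.add C (Nat.mul x46742 (nat_lit 2))) x33620) x42368) x48200) x46256) x46904) x46688) x46748) x46744)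
    (Nat.sub (Nat.add (Nat.add (Nat.add (Nat.add (Nat.add (Nat.add (Nat.add (Nat.add C x33622) x42370) x48202) x46258) x46906) x46690) x46750) x46742) x27062)
    (Nat.add (Nat.add (Nat.add (Nat.add (Nat.add (Nat.add (Nat.add (Nat.add (Nat.add C x33626) x42374) x48206) x46262) x46910) x46694) x46766) x46742) x46750)
    (Nat.sub (Nat.add (Nat.add (Nat.add (Nat.add (Nat.add (Nat.add (Nat.add (Nat.add (Nat.add (Nat.add (Nat.add C x33628) x42376) x48208) x46264) x46912) x46696) x46768) x46744) x46756) x46748) x46752) x27068)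
    (Nat.sub (Nat.sub (Nat.add (Nat.add (Nat.add (Nat.add (Nat.add (Nat.add (Nat.add (Nat.add (Nat.add C x33630) x42378) x48210) x46266) x46914) x46698) x46770) x46758) x46750) (Nat.mul x46752 (nat_lit 2))) x27070)
    (Nat.sub (Nat.sub (Nat.add (Nat.add (Nat.add (Nat.add (Nat.add (Nat.add (Nat.add (Nat.add (Nat.add C x33634) x42382) x48214) x46270) x46918) x46702) x46774) x46750) x46758) (Nat.mul x46756 (nat_lit 2))) x27074)
    (Nat.sub (Nat.sub (Nat.add (Nat.add (Nat.add (Nat.add (Nat.add (Nat.add (Nat.add (Nat.add (Nat.add C x33636) x42384) x48216) x46272) x46920) x46704) x46776) x46752) x46756) (Nat.mul x46758 (nat_lit 2))) x27076)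
    (Nat.add (Nat.add (Nat.add (Nat.add (Nat.add (Nat.add (Nat.add (Nat.add (Nat.add (Nat.add C x46766) x33644) x42392) x48224) x46280) x46928) x46712) x46820) x46748) x46768)
    (Nat.sub (Nat.add (Nat.add (Nat.add (Nat.add (Nat.add (Nat.add (Nat.add (Nat.add (Nat.add (Nat.add (Nat.add C x33646) x42394) x48226) x46282) x46930) x46714) x46822) x46750) x46774) x46766) x46770) x27086)
    (Nat.sub (Nat.sub (Nat.add (Nat.add (Nat.add (Nat.add (Nat.add (Nat.add (Nat.add (Nat.add (Nat.add (Nat.add C x33648) x42396) x48228) x46284) x46932) x46716) x46824) x46752) x46776) x46768) (Nat.mul x46770 (nat_lit 3))) x27088)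
    (Nat.sub (Nat.add (Nat.add (Nat.add (Nat.add (Nat.add (Nat.add (Nat.add (Nat.add (Nat.add (Nat.add (Nat.add C x33652) x42400) x48232) x46288) x46936) x46720) x46828) x46756) x46792) x46768) x46776) x27092)
    (Nat.sub (Nat.sub (Nat.add (Nat.add (Nat.add (Nat.add (Nat.add (Nat.add (Nat.add (Nat.add (Nat.add (Nat.add (Nat.add (Nat.add C x33654) x42402) x48234) x46290) x46938) x46722) x46830) x46758) x46794) x46770) x46782) x46774) x46776) x27094)
    (Nat.sub (Nat.sub (Nat.add (Nat.add (Nat.add (Nat.add (Nat.add (Nat.add (Nat.add (Nat.add (Nat.add C x33660) x42408) x48240) x46296) x46944) x46728) x46836) x46800) x46776) x46782) x27100)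
    (Nat.sub (Nat.add (Nat.add (Nat.add (Nat.add (Nat.add (Nat.add (Nat.add (Nat.add C x33670) x42418) x48250) x46306) x46954) x46846) x46774) x46794) x27110)
    (Nat.sub (Nat.sub (Nat.add (Nat.add (Nat.add (Nat.add (Nat.add (Nat.add (Nat.add (Nat.add (Nat.add C x33672) x42420) x48252) x46308) x46956) x46848) x46776) x46800) x46792) (Nat.mul x46794 (nat_lit 2))) x27112)
    (Nat.sub (Nat.add (Nat.add (Nat.add (Nat.add (Nat.add (Nat.add (Nat.add (Nat.add C x33678) x42426) x48258) x46314) x46962) x46854) x46782) x46794) x27118)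
    (Nat.add (Nat.add (Nat.add (Nat.add (Nat.add (Nat.add (Nat.add C x33698) x42446) x48278) x46334) x46982) x46766) x46822)
    (Nat.sub (Nat.sub (Nat.add (Nat.add (Nat.add (Nat.add (Nat.add (Nat.add (Nat.add (Nat.add (Nat.add C x33700) x42448) x48280) x46336) x46984) x46768) x46828) x46820) x46824) x46822) x27140)
    (Nat.sub (Nat.sub (Nat.add (Nat.add (Nat.add (Nat.add (Nat.add (Nat.add (Nat.add (Nat.add C x33702) x42450) x48282) x46338) x46986) x46770) x46830) x46822) (Nat.mul x46824 (nat_lit 4))) x27142)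
    (Nat.sub (Nat.sub (Nat.add (Nat.add (Nat.add (Nat.add (Nat.add (Nat.add (Nat.add (Nat.add (Nat.add C x33706) x42454) x48286) x46342) x46990) x46774) x46846) x46822) x46830) (Nat.mul x46828 (nat_lit 2))) x27146)
    (Nat.sub (Nat.sub (Nat.add (Nat.add (Nat.add (Nat.add (Nat.add (Nat.add (Nat.add (Nat.add (Nat.add (Nat.add C x33708) x42456) x48288) x46344) x46992) x46776) x46848) x46824) x46836) x46828) (Nat.mul x46830 (nat_lit 3))) x27148)
    (Nat.sub (Nat.sub (Nat.add (Nat.add (Nat.add (Nat.add (Nat.add (Nat.add (Nat.add (Nat.add C x33714) x42462) x48294) x46350) x46998) x46782) x46854) x46830) (Nat.mul x46836 (nat_lit 4))) x27154)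
    (Nat.sub (Nat.add (Nat.add (Nat.add (Nat.add (Nat.add (Nat.add (Nat.add (Nat.add C x33724) x42472) x48304) x46360) x47008) x46792) x46828) x46848) x27164)
    (Nat.sub (Nat.sub (Nat.add (Nat.add (Nat.add (Nat.add (Nat.add (Nat.add (Nat.add (Nat.add (Nat.add C x33726) x42474) x48306) x46362) x47010) x46794) x46830) x46854) x46846) (Nat.mul x46848 (nat_lit 2))) x27166)
    (Nat.sub (Nat.sub (Nat.add (Nat.add (Nat.add (Nat.add (Nat.add (Nat.add (Nat.add (Nat.add (Nat.add C x33732) x42480) x48312) x46368) x47016) x46800) x46836) x46872) x46848) x46854) x27172)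
    (Nat.sub (Nat.add (Nat.add (Nat.add (Nat.add (Nat.add (Nat.add C x33750) x42498) x48330) x46386) x47034) x46854) x27190)
    (Nat.add (Nat.add (Nat.add (Nat.add (Nat.add (Nat.add (Nat.add (Nat.add (Nat.add C (Nat.mul x46904 (nat_lit 3))) x33782) x42530) x48362) x46418) x47390) x46742) x46910) x46906)
    (Nat.sub (Nat.add (Nat.add (Nat.add (Nat.add (Nat.add (Nat.add (Nat.add (Nat.add (Nat.add C x46906) x33784) x42532) x48364) x46420) x47392) x46744) x46912) x46904) x27224)
    (Nat.add (Nat.add (Nat.add (Nat.add (Nat.add (Nat.add (Nat.add (Nat.add (Nat.add (Nat.add C x46910) x33788) x42536) x48368) x46424) x47396) x46748) x46928) x46904) x46912)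
    (Nat.sub (Nat.add (Nat.add (Nat.add (Nat.add (Nat.add (Nat.add (Nat.add (Nat.add (Nat.add (Nat.add (Nat.add (Nat.add C x46912) x33790) x42538) x48370) x46426) x47398) x46750) x46930) x46906) x46918) x46910) x46914) x27230)
    (Nat.sub (Nat.sub (Nat.add (Nat.add (Nat.add (Nat.add (Nat.add (Nat.add (Nat.add (Nat.add (Nat.add C x33792) x42540) x48372) x46428) x47400) x46752) x46932) x46920) x46912) x46914) x27232)
    (Nat.sub (Nat.sub (Nat.add (Nat.add (Nat.add (Nat.add (Nat.add (Nat.add (Nat.add (Nat.add (Nat.add C x33796) x42544) x48376) x46432) x47404) x46756) x46936) x46912) x46920) x46918) x27236)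
    (Nat.sub (Nat.sub (Nat.add (Nat.add (Nat.add (Nat.add (Nat.add (Nat.add (Nat.add (Nat.add (Nat.add C x33798) x42546) x48378) x46434) x47406) x46758) x46938) x46914) x46918) x46920) x27238)
    (Nat.add (Nat.add (Nat.add (Nat.add (Nat.add (Nat.add (Nat.add (Nat.add (Nat.add (Nat.add C x46928) x33806) x42554) x48386) x46442) x47414) x46766) x46982) x46910) x46930)
    (Nat.sub (Nat.add (Nat.add (Nat.add (Nat.add (Nat.add (Nat.add (Nat.add (Nat.add (Nat.add (Nat.add (Nat.add C x33808) x42556) x48388) x46444) x47416) x46768) x46984) x46912) x46936) x46928) x46932) x27248)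
    (Nat.sub (Nat.sub (Nat.add (Nat.add (Nat.add (Nat.add (Nat.add (Nat.add (Nat.add (Nat.add (Nat.add (Nat.add C x33810) x42558) x48390) x46446) x47418) x46770) x46986) x46914) x46938) x46930) (Nat.mul x46932 (nat_lit 3))) x27250)
    (Nat.sub (Nat.add (Nat.add (Nat.add (Nat.add (Nat.add (Nat.add (Nat.add (Nat.add (Nat.add (Nat.add (Nat.add C x33814) x42562) x48394) x46450) x47422) x46774) x46990) x46918) x46954) x46930) x46938) x27254)
    (Nat.sub (Nat.sub (Nat.add (Nat.add (Nat.add (Nat.add (Nat.add (Nat.add (Nat.add (Nat.add (Nat.add (Nat.add (Nat.add (Nat.add C x33816) x42564) x48396) x46452) x47424) x46776) x46992) x46920) x46956) x46932) x46944) x46936) x46938) x27256)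
    (Nat.sub (Nat.sub (Nat.add (Nat.add (Nat.add (Nat.add (Nat.add (Nat.add (Nat.add (Nat.add (Nat.add C x33822) x42570) x48402) x46458) x47430) x46782) x46998) x46962) x46938) x46944) x27262)
    (Nat.sub (Nat.sub (Nat.add (Nat.add (Nat.add (Nat.add (Nat.add (Nat.add (Nat.add (Nat.add (Nat.add C x33832) x42580) x48412) x46468) x47440) x46792) x47008) x46936) x46956) x46954) x27272)
    (Nat.sub (Nat.sub (Nat.add (Nat.add (Nat.add (Nat.add (Nat.add (Nat.add (Nat.add (Nat.add (Nat.add (Nat.add C x33834) x42582) x48414) x46470) x47442) x46794) x47010) x46938) x46962) x46954) (Nat.mul x46956 (nat_lit 3))) x27274)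
    (Nat.sub (Nat.sub (Nat.add (Nat.add (Nat.add (Nat.add (Nat.add (Nat.add (Nat.add (Nat.add (Nat.add C x33840) x42588) x48420) x46476) x47448) x46800) x47016) x46944) x46956) x46962) x27280)
    (Nat.add (Nat.add (Nat.add (Nat.add (Nat.add (Nat.add (Nat.add (Nat.add (Nat.add (Nat.add C (Nat.mul x46982 (nat_lit 2))) x33860) x42608) x48440) x46496) x47468) x46820) x47144) x46928) x46984)
    (Nat.sub (Nat.add (Nat.add (Nat.add (Nat.add (Nat.add (Nat.add (Nat.add (Nat.add (Nat.add (Nat.add (Nat.add (Nat.add C x46984) x33862) x42610) x48442) x46498) x47470) x46822) x47146) x46930) x46990) x46982) x46986) x27302)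
    (Nat.sub (Nat.sub (Nat.add (Nat.add (Nat.add (Nat.add (Nat.add (Nat.add (Nat.add (Nat.add (Nat.add (Nat.add C x33864) x42612) x48444) x46500) x47472) x46824) x47148) x46932) x46992) x46984) (Nat.mul x46986 (nat_lit 2))) x27304)
    (Nat.sub (Nat.add (Nat.add (Nat.add (Nat.add (Nat.add (Nat.add (Nat.add (Nat.add (Nat.add (Nat.add (Nat.add C x33868) x42616) x48448) x46504) x47476) x46828) x47152) x46936) x47008) x46984) x46992) x27308)
    (Nat.sub (Nat.sub (Nat.add (Nat.add (Nat.add (Nat.add (Nat.add (Nat.add (Nat.add (Nat.add (Nat.add (Nat.add (Nat.add (Nat.add C x33870) x42618) x48450) x46506) x47478) x46830) x47154) x46938) x47010) x46986) x46998) x46990) x46992) x27310)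
    (Nat.sub (Nat.sub (Nat.add (Nat.add (Nat.add (Nat.add (Nat.add (Nat.add (Nat.add (Nat.add (Nat.add (Nat.add C x33876) x42624) x48456) x46512) x47484) x46836) x47160) x46944) x47016) x46992) (Nat.mul x46998 (nat_lit 2))) x27316)
    (Nat.sub (Nat.add (Nat.add (Nat.add (Nat.add (Nat.add (Nat.add (Nat.add (Nat.add (Nat.add (Nat.add (Nat.add (Nat.add C x47008) x33886) x42634) x48466) x46522) x47494) x46846) x47170) x46954) x47062) x46990) x47010) x27326)
    (Nat.sub (Nat.sub (Nat.add (Nat.add (Nat.add (Nat.add (Nat.add (Nat.add (Nat.add (Nat.add (Nat.add (Nat.add (Nat.add (Nat.add C x33888) x42636) x48468) x46524) x47496) x46848) x47172) x46956) x47064) x46992) x47016) x47008) x47010) x27328)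
    (Nat.sub (Nat.add (Nat.add (Nat.add (Nat.add (Nat.add (Nat.add (Nat.add (Nat.add (Nat.add (Nat.add (Nat.add (Nat.add C x33894) x42642) x48474) x46530) x47502) x46854) x47178) x46962) x47070) x46998) x47034) x47010) x27334)
    (Nat.sub (Nat.add (Nat.add (Nat.add (Nat.add (Nat.add (Nat.add (Nat.add (Nat.add (Nat.add C x33912) x42660) x48492) x46548) x47520) x46872) x47196) x47088) x47016) x27352)
    (Nat.sub (Nat.add (Nat.add (Nat.add (Nat.add (Nat.add (Nat.add (Nat.add (Nat.add (Nat.add C x47062) x33940) x42688) x48520) x46576) x47548) x47224) x47008) x47064) x27380)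
    (Nat.sub (Nat.sub (Nat.add (Nat.add (Nat.add (Nat.add (Nat.add (Nat.add (Nat.add (Nat.add (Nat.add C x33942) x42690) x48522) x46578) x47550) x47226) x47010) x47070) x47062) x47064) x27382)
    (Nat.sub (Nat.sub (Nat.add (Nat.add (Nat.add (Nat.add (Nat.add (Nat.add (Nat.add (Nat.add (Nat.add C x33948) x42696) x48528) x46584) x47556) x47232) x47016) x47088) x47064) x47070) x27388)
    (Nat.sub (Nat.add (Nat.add (Nat.add (Nat.add (Nat.add (Nat.add (Nat.add (Nat.add (Nat.add C x47088) x33966) x42714) x48546) x46602) x47574) x47250) x47034) x47070) x27406)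
    (Nat.add (Nat.add (Nat.add (Nat.add (Nat.add (Nat.add (Nat.add C (Nat.mul x47144 (nat_lit 2))) x34022) x42770) x48602) x47630) x46982) x47146)
    (Nat.sub (Nat.add (Nat.add (Nat.add (Nat.add (Nat.add (Nat.add (Nat.add (Nat.add (Nat.add C x47146) x34024) x42772) x48604) x47632) x46984) x47152) x47144) x47148) x27464)
    (Nat.sub (Nat.sub (Nat.add (Nat.add (Nat.add (Nat.add (Nat.add (Nat.add (Nat.add C x34026) x42774) x48606) x47634) x46986) x47154) x47146) (Nat.mul x47148 (nat_lit 2))) x27466)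
    (Nat.sub (Nat.add (Nat.add (Nat.add (Nat.add (Nat.add (Nat.add (Nat.add (Nat.add C x34030) x42778) x48610) x47638) x46990) x47170) x47146) x47154) x27470)
    (Nat.sub (Nat.sub (Nat.add (Nat.add (Nat.add (Nat.add (Nat.add (Nat.add (Nat.add (Nat.add (Nat.add C x34032) x42780) x48612) x47640) x46992) x47172) x47148) x47160) x47152) x47154) x27472)
    (Nat.sub (Nat.sub (Nat.add (Nat.add (Nat.add (Nat.add (Nat.add (Nat.add (Nat.add C x34038) x42786) x48618) x47646) x46998) x47178) x47154) (Nat.mul x47160 (nat_lit 2))) x27478)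
    (Nat.sub (Nat.add (Nat.add (Nat.add (Nat.add (Nat.add (Nat.add (Nat.add (Nat.add C x34048) x42796) x48628) x47656) x47008) x47224) x47152) x47172) x27488)
    (Nat.sub (Nat.sub (Nat.add (Nat.add (Nat.add (Nat.add (Nat.add (Nat.add (Nat.add (Nat.add (Nat.add C x34050) x42798) x48630) x47658) x47010) x47226) x47154) x47178) x47170) (Nat.mul x47172 (nat_lit 2))) x27490)
    (Nat.sub (Nat.sub (Nat.add (Nat.add (Nat.add (Nat.add (Nat.add (Nat.add (Nat.add (Nat.add (Nat.add C x34056) x42804) x48636) x47664) x47016) x47232) x47160) x47196) x47172) x47178) x27496)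
    (Nat.sub (Nat.sub (Nat.add (Nat.add (Nat.add (Nat.add (Nat.add (Nat.add (Nat.add C x34074) x42822) x48654) x47682) x47034) x47250) x47178) (Nat.mul x47196 (nat_lit 2))) x27514)
    (Nat.sub (Nat.add (Nat.add (Nat.add (Nat.add (Nat.add (Nat.add (Nat.add (Nat.add C (Nat.mul x47224 (nat_lit 2))) x34102) x42850) x48682) x47710) x47062) x47170) x47226) x27542)
    (Nat.sub (Nat.add (Nat.add (Nat.add (Nat.add (Nat.add (Nat.add (Nat.add (Nat.add C x34104) x42852) x48684) x47712) x47064) x47172) x47232) x47224) x27544)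
    (Nat.sub (Nat.add (Nat.add (Nat.add (Nat.add (Nat.add (Nat.add (Nat.add (Nat.add C x34110) x42858) x48690) x47718) x47070) x47178) x47250) x47226) x27550)
    (Nat.sub (Nat.add (Nat.add (Nat.add (Nat.add (Nat.add (Nat.add (Nat.add (Nat.add (Nat.add C x47250) x34128) x42876) x48708) x47736) x47088) x47196) x47304) x47232) x27568)
    (Nat.sub (Nat.add (Nat.add (Nat.add (Nat.add (Nat.add (Nat.add C (Nat.mul x47304 (nat_lit 2))) x34182) x42930) x48762) x47790) x47250) x27622)
    (Nat.add (Nat.add (Nat.add (Nat.add (Nat.add (Nat.add (Nat.add C (Nat.mul x47390 (nat_lit 2))) x34268) x43016) x48848) x46904) x47396) x47392)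
    (Nat.sub (Nat.add (Nat.add (Nat.add (Nat.add (Nat.add (Nat.add C x34270) x43018) x48850) x46906) x47398) x47390) x27710)
    (Nat.add (Nat.add (Nat.add (Nat.add (Nat.add (Nat.add (Nat.add C x34274) x43022) x48854) x46910) x47414) x47390) x47398)
    (Nat.sub (Nat.add (Nat.add (Nat.add (Nat.add (Nat.add (Nat.add (Nat.add (Nat.add (Nat.add C x34276) x43024) x48856) x46912) x47416) x47392) x47404) x47396) x47400) x27716)
    (Nat.sub (Nat.sub (Nat.add (Nat.add (Nat.add (Nat.add (Nat.add (Nat.add (Nat.add C x34278) x43026) x48858) x46914) x47418) x47406) x47398) (Nat.mul x47400 (nat_lit 2))) x27718)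
    (Nat.sub (Nat.sub (Nat.add (Nat.add (Nat.add (Nat.add (Nat.add (Nat.add (Nat.add C x34282) x43030) x48862) x46918) x47422) x47398) x47406) (Nat.mul x47404 (nat_lit 2))) x27722)
    (Nat.sub (Nat.sub (Nat.add (Nat.add (Nat.add (Nat.add (Nat.add (Nat.add (Nat.add C x34284) x43032) x48864) x46920) x47424) x47400) x47404) (Nat.mul x47406 (nat_lit 2))) x27724)
    (Nat.add (Nat.add (Nat.add (Nat.add (Nat.add (Nat.add (Nat.add C x34292) x43040) x48872) x46928) x47468) x47396) x47416)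
    (Nat.sub (Nat.sub (Nat.add (Nat.add (Nat.add (Nat.add (Nat.add (Nat.add (Nat.add (Nat.add (Nat.add C x34294) x43042) x48874) x46930) x47470) x47398) x47422) x47414) x47418) x47416) x27734)
    (Nat.sub (Nat.sub (Nat.add (Nat.add (Nat.add (Nat.add (Nat.add (Nat.add (Nat.add (Nat.add C x34296) x43044) x48876) x46932) x47472) x47400) x47424) x47416) (Nat.mul x47418 (nat_lit 4))) x27736)
    (Nat.sub (Nat.sub (Nat.add (Nat.add (Nat.add (Nat.add (Nat.add (Nat.add (Nat.add (Nat.add (Nat.add C x34300) x43048) x48880) x46936) x47476) x47404) x47440) x47416) x47424) x47422) x27740)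
    (Nat.sub (Nat.sub (Nat.add (Nat.add (Nat.add (Nat.add (Nat.add (Nat.add (Nat.add (Nat.add (Nat.add (Nat.add C x34302) x43050) x48882) x46938) x47478) x47406) x47442) x47418) x47430) x47422) (Nat.mul x47424 (nat_lit 2))) x27742)
    (Nat.sub (Nat.sub (Nat.add (Nat.add (Nat.add (Nat.add (Nat.add (Nat.add (Nat.add C x34308) x43056) x48888) x46944) x47484) x47448) x47424) (Nat.mul x47430 (nat_lit 2))) x27748)
    (Nat.sub (Nat.sub (Nat.add (Nat.add (Nat.add (Nat.add (Nat.add (Nat.add (Nat.add C x34318) x43066) x48898) x46954) x47494) x47422) x47442) (Nat.mul x47440 (nat_lit 2))) x27758)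
    (Nat.sub (Nat.sub (Nat.add (Nat.add (Nat.add (Nat.add (Nat.add (Nat.add (Nat.add (Nat.add C x34320) x43068) x48900) x46956) x47496) x47424) x47448) x47440) (Nat.mul x47442 (nat_lit 4))) x27760)
    (Nat.sub (Nat.sub (Nat.add (Nat.add (Nat.add (Nat.add (Nat.add (Nat.add (Nat.add C x34326) x43074) x48906) x46962) x47502) x47430) x47442) (Nat.mul x47448 (nat_lit 2))) x27766)
    (Nat.add (Nat.add (Nat.add (Nat.add (Nat.add (Nat.add (Nat.add C x34346) x43094) x48926) x46982) x47630) x47414) x47470)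
    (Nat.sub (Nat.sub (Nat.add (Nat.add (Nat.add (Nat.add (Nat.add (Nat.add (Nat.add (Nat.add (Nat.add C x34348) x43096) x48928) x46984) x47632) x47416) x47476) x47468) x47472) x47470) x27788)
    (Nat.sub (Nat.sub (Nat.add (Nat.add (Nat.add (Nat.add (Nat.add (Nat.add (Nat.add (Nat.add C x34350) x43098) x48930) x46986) x47634) x47418) x47478) x47470) (Nat.mul x47472 (nat_lit 4))) x27790)
    (Nat.sub (Nat.sub (Nat.add (Nat.add (Nat.add (Nat.add (Nat.add (Nat.add (Nat.add (Nat.add (Nat.add C x34354) x43102) x48934) x46990) x47638) x47422) x47494) x47470) x47478) (Nat.mul x47476 (nat_lit 2))) x27794)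
    (Nat.sub (Nat.sub (Nat.add (Nat.add (Nat.add (Nat.add (Nat.add (Nat.add (Nat.add (Nat.add (Nat.add (Nat.add C x34356) x43104) x48936) x46992) x47640) x47424) x47496) x47472) x47484) x47476) (Nat.mul x47478 (nat_lit 3))) x27796)
    (Nat.sub (Nat.sub (Nat.add (Nat.add (Nat.add (Nat.add (Nat.add (Nat.add (Nat.add (Nat.add C x34362) x43110) x48942) x46998) x47646) x47430) x47502) x47478) (Nat.mul x47484 (nat_lit 4))) x27802)
    (Nat.sub (Nat.sub (Nat.add (Nat.add (Nat.add (Nat.add (Nat.add (Nat.add (Nat.add (Nat.add (Nat.add C x34372) x43120) x48952) x47008) x47656) x47440) x47548) x47476) x47496) x47494) x27812)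
    (Nat.sub (Nat.sub (Nat.add (Nat.add (Nat.add (Nat.add (Nat.add (Nat.add (Nat.add (Nat.add (Nat.add (Nat.add C x34374) x43122) x48954) x47010) x47658) x47442) x47550) x47478) x47502) x47494) (Nat.mul x47496 (nat_lit 3))) x27814)
    (Nat.sub (Nat.sub (Nat.add (Nat.add (Nat.add (Nat.add (Nat.add (Nat.add (Nat.add (Nat.add (Nat.add (Nat.add C x34380) x43128) x48960) x47016) x47664) x47448) x47556) x47484) x47520) x47496) (Nat.mul x47502 (nat_lit 2))) x27820)
    (Nat.sub (Nat.sub (Nat.add (Nat.add (Nat.add (Nat.add (Nat.add (Nat.add (Nat.add C x34398) x43146) x48978) x47034) x47682) x47574) x47502) (Nat.mul x47520 (nat_lit 2))) x27838)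
    (Nat.sub (Nat.sub (Nat.add (Nat.add (Nat.add (Nat.add (Nat.add (Nat.add (Nat.add C x34426) x43174) x49006) x47062) x47710) x47494) x47550) (Nat.mul x47548 (nat_lit 2))) x27866)
    (Nat.sub (Nat.sub (Nat.add (Nat.add (Nat.add (Nat.add (Nat.add (Nat.add (Nat.add (Nat.add C x34428) x43176) x49008) x47064) x47712) x47496) x47556) x47548) (Nat.mul x47550 (nat_lit 4))) x27868)
    (Nat.sub (Nat.sub (Nat.add (Nat.add (Nat.add (Nat.add (Nat.add (Nat.add (Nat.add (Nat.add C x34434) x43182) x49014) x47070) x47718) x47502) x47574) x47550) (Nat.mul x47556 (nat_lit 4))) x27874)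
    (Nat.sub (Nat.sub (Nat.add (Nat.add (Nat.add (Nat.add (Nat.add (Nat.add (Nat.add C x34452) x43200) x49032) x47088) x47736) x47520) x47556) (Nat.mul x47574 (nat_lit 2))) x27892)
    (Nat.add (Nat.add (Nat.add (Nat.add (Nat.add (Nat.add (Nat.add C (Nat.mul x47630 (nat_lit 2))) x34508) x43256) x49088) x47144) x47468) x47632)
    (Nat.sub (Nat.add (Nat.add (Nat.add (Nat.add (Nat.add (Nat.add (Nat.add (Nat.add (Nat.add C x47632) x34510) x43258) x49090) x47146) x47470) x47638) x47630) x47634) x27950)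
    (Nat.sub (Nat.sub (Nat.add (Nat.add (Nat.add (Nat.add (Nat.add (Nat.add (Nat.add C x34512) x43260) x49092) x47148) x47472) x47640) x47632) (Nat.mul x47634 (nat_lit 2))) x27952)
    (Nat.sub (Nat.add (Nat.add (Nat.add (Nat.add (Nat.add (Nat.add (Nat.add (Nat.add C x34516) x43264) x49096) x47152) x47476) x47656) x47632) x47640) x27956)
    (Nat.sub (Nat.sub (Nat.add (Nat.add (Nat.add (Nat.add (Nat.add (Nat.add (Nat.add (Nat.add (Nat.add C x34518) x43266) x49098) x47154) x47478) x47658) x47634) x47646) x47638) x47640) x27958)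
    (Nat.sub (Nat.sub (Nat.add (Nat.add (Nat.add (Nat.add (Nat.add (Nat.add (Nat.add C x34524) x43272) x49104) x47160) x47484) x47664) x47640) (Nat.mul x47646 (nat_lit 2))) x27964)
    (Nat.sub (Nat.add (Nat.add (Nat.add (Nat.add (Nat.add (Nat.add (Nat.add (Nat.add C x34534) x43282) x49114) x47170) x47494) x47710) x47638) x47658) x27974)
    (Nat.sub (Nat.sub (Nat.add (Nat.add (Nat.add (Nat.add (Nat.add (Nat.add (Nat.add (Nat.add (Nat.add C x34536) x43284) x49116) x47172) x47496) x47712) x47640) x47664) x47656) (Nat.mul x47658 (nat_lit 2))) x27976)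
    (Nat.sub (Nat.sub (Nat.add (Nat.add (Nat.add (Nat.add (Nat.add (Nat.add (Nat.add (Nat.add (Nat.add C x34542) x43290) x49122) x47178) x47502) x47718) x47646) x47682) x47658) x47664) x27982)
    (Nat.sub (Nat.sub (Nat.add (Nat.add (Nat.add (Nat.add (Nat.add (Nat.add (Nat.add C x34560) x43308) x49140) x47196) x47520) x47736) x47664) (Nat.mul x47682 (nat_lit 2))) x28000)
    (Nat.sub (Nat.add (Nat.add (Nat.add (Nat.add (Nat.add (Nat.add (Nat.add (Nat.add (Nat.add C x47710) x34588) x43336) x49168) x47224) x47548) x47872) x47656) x47712) x28028)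
    (Nat.sub (Nat.sub (Nat.add (Nat.add (Nat.add (Nat.add (Nat.add (Nat.add (Nat.add (Nat.add (Nat.add C x34590) x43338) x49170) x47226) x47550) x47874) x47658) x47718) x47710) x47712) x28030)
    (Nat.sub (Nat.sub (Nat.add (Nat.add (Nat.add (Nat.add (Nat.add (Nat.add (Nat.add (Nat.add (Nat.add C x34596) x43344) x49176) x47232) x47556) x47880) x47664) x47736) x47712) x47718) x28036)
    (Nat.sub (Nat.add (Nat.add (Nat.add (Nat.add (Nat.add (Nat.add (Nat.add (Nat.add (Nat.add C x34614) x43362) x49194) x47250) x47574) x47898) x47682) x47790) x47718) x28054)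
    (Nat.sub (Nat.add (Nat.add (Nat.add (Nat.add (Nat.add (Nat.add C x34668) x43416) x49248) x47304) x47952) x47736) x28108)
    (Nat.sub (Nat.add (Nat.add (Nat.add (Nat.add (Nat.add (Nat.add C (Nat.mul x47872 (nat_lit 2))) x34750) x43498) x49330) x47710) x47874) x28190)
    (Nat.sub (Nat.add (Nat.add (Nat.add (Nat.add (Nat.add (Nat.add C x34752) x43500) x49332) x47712) x47880) x47872) x28192)
    (Nat.sub (Nat.add (Nat.add (Nat.add (Nat.add (Nat.add (Nat.add C x34758) x43506) x49338) x47718) x47898) x47874) x28198)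
    (Nat.sub (Nat.add (Nat.add (Nat.add (Nat.add (Nat.add (Nat.add C x34776) x43524) x49356) x47736) x47952) x47880) x28216)
    (Nat.sub (Nat.add (Nat.add (Nat.add (Nat.add (Nat.add (Nat.add C (Nat.mul x47952 (nat_lit 2))) x34830) x43578) x49410) x47790) x47898) x28270)
    (Nat.add (Nat.add (Nat.add (Nat.add (Nat.add (Nat.add C (Nat.mul x48122 (nat_lit 5))) x35000) x43748) x52496) x46664) x48128)
    (Nat.add (Nat.add (Nat.add (Nat.add (Nat.add (Nat.add (Nat.add (Nat.add (Nat.add C (Nat.mul x48128 (nat_lit 4))) x35006) x43754) x52502) x46670) x48146) x48122) x48134) x48130)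
    (Nat.sub (Nat.add (Nat.add (Nat.add (Nat.add (Nat.add (Nat.add (Nat.add (Nat.add C (Nat.mul x48130 (nat_lit 3))) x35008) x43756) x52504) x46672) x48148) x48136) x48128) x28448)
    (Nat.add (Nat.add (Nat.add (Nat.add (Nat.add (Nat.add (Nat.add (Nat.add C x48134) x35012) x43760) x52508) x46676) x48152) x48128) x48136)
    (Nat.sub (Nat.add (Nat.add (Nat.add (Nat.add (Nat.add (Nat.add (Nat.add (Nat.add (Nat.add C (Nat.mul x48136 (nat_lit 2))) x35014) x43762) x52510) x46678) x48154) x48130) x48134) x48138) x28454)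
    (Nat.sub (Nat.add (Nat.add (Nat.add (Nat.add (Nat.add (Nat.add (Nat.add C x48138) x35016) x43764) x52512) x46680) x48156) x48136) x28456)
    (Nat.add (Nat.add (Nat.add (Nat.add (Nat.add (Nat.add (Nat.add (Nat.add (Nat.add C (Nat.mul x48146 (nat_lit 3))) x35024) x43772) x52520) x46688) x48200) x48128) x48152) x48148)
    (Nat.sub (Nat.add (Nat.add (Nat.add (Nat.add (Nat.add (Nat.add (Nat.add (Nat.add (Nat.add C x48148) x35026) x43774) x52522) x46690) x48202) x48130) x48154) x48146) x28466)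
    (Nat.add (Nat.add (Nat.add (Nat.add (Nat.add (Nat.add (Nat.add (Nat.add (Nat.add (Nat.add C (Nat.mul x48152 (nat_lit 2))) x35030) x43778) x52526) x46694) x48206) x48134) x48170) x48146) x48154)
    (Nat.sub (Nat.add (Nat.add (Nat.add (Nat.add (Nat.add (Nat.add (Nat.add (Nat.add (Nat.add (Nat.add (Nat.add (Nat.add C (Nat.mul x48154 (nat_lit 2))) x35032) x43780) x52528) x46696) x48208) x48136) x48172) x48148) x48160) x48152) x48156) x28472)
    (Nat.sub (Nat.add (Nat.add (Nat.add (Nat.add (Nat.add (Nat.add (Nat.add (Nat.add (Nat.add C x35034) x43782) x52530) x46698) x48210) x48138) x48174) x48162) x48154) x28474)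
    (Nat.sub (Nat.add (Nat.add (Nat.add (Nat.add (Nat.add (Nat.add (Nat.add (Nat.add (Nat.add C x48160) x35038) x43786) x52534) x46702) x48214) x48178) x48154) x48162) x28478)
    (Nat.sub (Nat.add (Nat.add (Nat.add (Nat.add (Nat.add (Nat.add (Nat.add (Nat.add (Nat.add C x48162) x35040) x43788) x52536) x46704) x48216) x48180) x48156) x48160) x28480)
    (Nat.add (Nat.add (Nat.add (Nat.add (Nat.add (Nat.add (Nat.add (Nat.add C x48170) x35048) x43796) x52544) x46712) x48224) x48152) x48172)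
    (Nat.sub (Nat.add (Nat.add (Nat.add (Nat.add (Nat.add (Nat.add (Nat.add (Nat.add (Nat.add C x35050) x43798) x52546) x46714) x48226) x48154) x48178) x48170) x48174) x28490)
    (Nat.sub (Nat.sub (Nat.add (Nat.add (Nat.add (Nat.add (Nat.add (Nat.add (Nat.add (Nat.add C x35052) x43800) x52548) x46716) x48228) x48156) x48180) x48172) (Nat.mul x48174 (nat_lit 3))) x28492)
    (Nat.sub (Nat.add (Nat.add (Nat.add (Nat.add (Nat.add (Nat.add (Nat.add (Nat.add (Nat.add C x48178) x35056) x43804) x52552) x46720) x48232) x48160) x48172) x48180) x28496)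
    (Nat.sub (Nat.add (Nat.add (Nat.add (Nat.add (Nat.add (Nat.add (Nat.add (Nat.add (Nat.add C x35058) x43806) x52554) x46722) x48234) x48162) x48174) x48186) x48178) x28498)
    (Nat.sub (Nat.add (Nat.add (Nat.add (Nat.add (Nat.add (Nat.add (Nat.add C x48186) x35064) x43812) x52560) x46728) x48240) x48180) x28504)
    (Nat.add (Nat.add (Nat.add (Nat.add (Nat.add (Nat.add (Nat.add (Nat.add (Nat.add C (Nat.mul x48200 (nat_lit 3))) x35078) x43826) x52574) x46742) x48362) x48146) x48206) x48202)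
    (Nat.sub (Nat.add (Nat.add (Nat.add (Nat.add (Nat.add (Nat.add (Nat.add (Nat.add (Nat.add C x48202) x35080) x43828) x52576) x46744) x48364) x48148) x48208) x48200) x28520)
    (Nat.add (Nat.add (Nat.add (Nat.add (Nat.add (Nat.add (Nat.add (Nat.add (Nat.add (Nat.add C x48206) x35084) x43832) x52580) x46748) x48368) x48152) x48224) x48200) x48208)
    (Nat.sub (Nat.add (Nat.add (Nat.add (Nat.add (Nat.add (Nat.add (Nat.add (Nat.add (Nat.add (Nat.add (Nat.add (Nat.add C x48208) x35086) x43834) x52582) x46750) x48370) x48154) x48226) x48202) x48214) x48206) x48210) x28526)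
    (Nat.sub (Nat.sub (Nat.add (Nat.add (Nat.add (Nat.add (Nat.add (Nat.add (Nat.add (Nat.add (Nat.add C x35088) x43836) x52584) x46752) x48372) x48156) x48228) x48216) x48208) x48210) x28528)
    (Nat.sub (Nat.sub (Nat.add (Nat.add (Nat.add (Nat.add (Nat.add (Nat.add (Nat.add (Nat.add (Nat.add C x35092) x43840) x52588) x46756) x48376) x48160) x48232) x48208) x48216) x48214) x28532)
    (Nat.sub (Nat.sub (Nat.add (Nat.add (Nat.add (Nat.add (Nat.add (Nat.add (Nat.add (Nat.add (Nat.add C x35094) x43842) x52590) x46758) x48378) x48162) x48234) x48210) x48214) x48216) x28534)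
    (Nat.add (Nat.add (Nat.add (Nat.add (Nat.add (Nat.add (Nat.add (Nat.add (Nat.add (Nat.add C (Nat.mul x48224 (nat_lit 2))) x35102) x43850) x52598) x46766) x48386) x48170) x48278) x48206) x48226)
    (Nat.sub (Nat.add (Nat.add (Nat.add (Nat.add (Nat.add (Nat.add (Nat.add (Nat.add (Nat.add (Nat.add (Nat.add (Nat.add C x48226) x35104) x43852) x52600) x46768) x48388) x48172) x48280) x48208) x48232) x48224) x48228) x28544)
    (Nat.sub (Nat.sub (Nat.add (Nat.add (Nat.add (Nat.add (Nat.add (Nat.add (Nat.add (Nat.add (Nat.add (Nat.add C x35106) x43854) x52602) x46770) x48390) x48174) x48282) x48210) x48234) x48226) (Nat.mul x48228 (nat_lit 2))) x28546)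
    (Nat.sub (Nat.add (Nat.add (Nat.add (Nat.add (Nat.add (Nat.add (Nat.add (Nat.add (Nat.add (Nat.add (Nat.add (Nat.add C x48232) x35110) x43858) x52606) x46774) x48394) x48178) x48286) x48214) x48250) x48226) x48234) x28550)
    (Nat.sub (Nat.add (Nat.add (Nat.add (Nat.add (Nat.add (Nat.add (Nat.add (Nat.add (Nat.add (Nat.add (Nat.add (Nat.add C x35112) x43860) x52608) x46776) x48396) x48180) x48288) x48216) x48252) x48228) x48240) x48232) x28552)
    (Nat.sub (Nat.add (Nat.add (Nat.add (Nat.add (Nat.add (Nat.add (Nat.add (Nat.add (Nat.add C x35118) x43866) x52614) x46782) x48402) x48186) x48294) x48258) x48234) x28558)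
    (Nat.sub (Nat.add (Nat.add (Nat.add (Nat.add (Nat.add (Nat.add (Nat.add (Nat.add (Nat.add C x48250) x35128) x43876) x52624) x46792) x48412) x48304) x48232) x48252) x28568)
    (Nat.sub (Nat.sub (Nat.add (Nat.add (Nat.add (Nat.add (Nat.add (Nat.add (Nat.add (Nat.add (Nat.add C x35130) x43878) x52626) x46794) x48414) x48306) x48234) x48258) x48250) x48252) x28570)
    (Nat.sub (Nat.add (Nat.add (Nat.add (Nat.add (Nat.add (Nat.add (Nat.add (Nat.add (Nat.add C x48258) x35136) x43884) x52632) x46800) x48420) x48312) x48240) x48252) x28576)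
    (Nat.add (Nat.add (Nat.add (Nat.add (Nat.add (Nat.add (Nat.add (Nat.add C x48278) x35156) x43904) x52652) x46820) x48440) x48224) x48280)
    (Nat.sub (Nat.add (Nat.add (Nat.add (Nat.add (Nat.add (Nat.add (Nat.add (Nat.add (Nat.add C x35158) x43906) x52654) x46822) x48442) x48226) x48286) x48278) x48282) x28598)
    (Nat.sub (Nat.sub (Nat.add (Nat.add (Nat.add (Nat.add (Nat.add (Nat.add (Nat.add (Nat.add C x35160) x43908) x52656) x46824) x48444) x48228) x48288) x48280) (Nat.mul x48282 (nat_lit 3))) x28600)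
    (Nat.sub (Nat.sub (Nat.add (Nat.add (Nat.add (Nat.add (Nat.add (Nat.add (Nat.add (Nat.add (Nat.add C x35164) x43912) x52660) x46828) x48448) x48232) x48304) x48280) x48288) x48286) x28604)
    (Nat.sub (Nat.sub (Nat.add (Nat.add (Nat.add (Nat.add (Nat.add (Nat.add (Nat.add (Nat.add (Nat.add (Nat.add C x35166) x43914) x52662) x46830) x48450) x48234) x48306) x48282) x48294) x48286) (Nat.mul x48288 (nat_lit 2))) x28606)
    (Nat.sub (Nat.sub (Nat.add (Nat.add (Nat.add (Nat.add (Nat.add (Nat.add (Nat.add (Nat.add C x35172) x43920) x52668) x46836) x48456) x48240) x48312) x48288) (Nat.mul x48294 (nat_lit 3))) x28612)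
    (Nat.sub (Nat.add (Nat.add (Nat.add (Nat.add (Nat.add (Nat.add (Nat.add (Nat.add (Nat.add C x48304) x35182) x43930) x52678) x46846) x48466) x48250) x48286) x48306) x28622)
    (Nat.sub (Nat.sub (Nat.add (Nat.add (Nat.add (Nat.add (Nat.add (Nat.add (Nat.add (Nat.add (Nat.add C x35184) x43932) x52680) x46848) x48468) x48252) x48288) x48312) x48304) x48306) x28624)
    (Nat.sub (Nat.add (Nat.add (Nat.add (Nat.add (Nat.add (Nat.add (Nat.add (Nat.add (Nat.add C x35190) x43938) x52686) x46854) x48474) x48258) x48294) x48330) x48306) x28630)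
    (Nat.sub (Nat.add (Nat.add (Nat.add (Nat.add (Nat.add (Nat.add (Nat.add C x48330) x35208) x43956) x52704) x46872) x48492) x48312) x28648)
    (Nat.add (Nat.add (Nat.add (Nat.add (Nat.add (Nat.add (Nat.add (Nat.add (Nat.add C (Nat.mul x48362 (nat_lit 3))) x35240) x43988) x52736) x46904) x48848) x48200) x48368) x48364)
    (Nat.sub (Nat.add (Nat.add (Nat.add (Nat.add (Nat.add (Nat.add (Nat.add (Nat.add (Nat.add C x48364) x35242) x43990) x52738) x46906) x48850) x48202) x48370) x48362) x28682)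
    (Nat.add (Nat.add (Nat.add (Nat.add (Nat.add (Nat.add (Nat.add (Nat.add (Nat.add (Nat.add C x48368) x35246) x43994) x52742) x46910) x48854) x48206) x48386) x48362) x48370)
    (Nat.sub (Nat.add (Nat.add (Nat.add (Nat.add (Nat.add (Nat.add (Nat.add (Nat.add (Nat.add (Nat.add (Nat.add (Nat.add C x48370) x35248) x43996) x52744) x46912) x48856) x48208) x48388) x48364) x48376) x48368) x48372) x28688)
    (Nat.sub (Nat.sub (Nat.add (Nat.add (Nat.add (Nat.add (Nat.add (Nat.add (Nat.add (Nat.add (Nat.add C x35250) x43998) x52746) x46914) x48858) x48210) x48390) x48378) x48370) x48372) x28690)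
    (Nat.sub (Nat.sub (Nat.add (Nat.add (Nat.add (Nat.add (Nat.add (Nat.add (Nat.add (Nat.add (Nat.add C x35254) x44002) x52750) x46918) x48862) x48214) x48394) x48370) x48378) x48376) x28694)
    (Nat.sub (Nat.sub (Nat.add (Nat.add (Nat.add (Nat.add (Nat.add (Nat.add (Nat.add (Nat.add (Nat.add C x35256) x44004) x52752) x46920) x48864) x48216) x48396) x48372) x48376) x48378) x28696)
    (Nat.add (Nat.add (Nat.add (Nat.add (Nat.add (Nat.add (Nat.add (Nat.add (Nat.add (Nat.add C x48386) x35264) x44012) x52760) x46928) x48872) x48224) x48440) x48368) x48388)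
    (Nat.sub (Nat.add (Nat.add (Nat.add (Nat.add (Nat.add (Nat.add (Nat.add (Nat.add (Nat.add (Nat.add (Nat.add C x35266) x44014) x52762) x46930) x48874) x48226) x48442) x48370) x48394) x48386) x48390) x28706)
    (Nat.sub (Nat.sub (Nat.add (Nat.add (Nat.add (Nat.add (Nat.add (Nat.add (Nat.add (Nat.add (Nat.add (Nat.add C x35268) x44016) x52764) x46932) x48876) x48228) x48444) x48372) x48396) x48388) (Nat.mul x48390 (nat_lit 3))) x28708)
    (Nat.sub (Nat.add (Nat.add (Nat.add (Nat.add (Nat.add (Nat.add (Nat.add (Nat.add (Nat.add (Nat.add (Nat.add C x35272) x44020) x52768) x46936) x48880) x48232) x48448) x48376) x48412) x48388) x48396) x28712)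
    (Nat.sub (Nat.sub (Nat.add (Nat.add (Nat.add (Nat.add (Nat.add (Nat.add (Nat.add (Nat.add (Nat.add (Nat.add (Nat.add (Nat.add C x35274) x44022) x52770) x46938) x48882) x48234) x48450) x48378) x48414) x48390) x48402) x48394) x48396) x28714)
    (Nat.sub (Nat.sub (Nat.add (Nat.add (Nat.add (Nat.add (Nat.add (Nat.add (Nat.add (Nat.add (Nat.add C x35280) x44028) x52776) x46944) x48888) x48240) x48456) x48420) x48396) x48402) x28720)
    (Nat.sub (Nat.sub (Nat.add (Nat.add (Nat.add (Nat.add (Nat.add (Nat.add (Nat.add (Nat.add (Nat.add C x35290) x44038) x52786) x46954) x48898) x48250) x48466) x48394) x48414) x48412) x28730)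
    (Nat.sub (Nat.sub (Nat.add (Nat.add (Nat.add (Nat.add (Nat.add (Nat.add (Nat.add (Nat.add (Nat.add (Nat.add C x35292) x44040) x52788) x46956) x48900) x48252) x48468) x48396) x48420) x48412) (Nat.mul x48414 (nat_lit 3))) x28732)
    (Nat.sub (Nat.sub (Nat.add (Nat.add (Nat.add (Nat.add (Nat.add (Nat.add (Nat.add (Nat.add (Nat.add C x35298) x44046) x52794) x46962) x48906) x48258) x48474) x48402) x48414) x48420) x28738)
    (Nat.add (Nat.add (Nat.add (Nat.add (Nat.add (Nat.add (Nat.add (Nat.add (Nat.add (Nat.add C (Nat.mul x48440 (nat_lit 2))) x35318) x44066) x52814) x46982) x48926) x48278) x48602) x48386) x48442)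
    (Nat.sub (Nat.add (Nat.add (Nat.add (Nat.add (Nat.add (Nat.add (Nat.add (Nat.add (Nat.add (Nat.add (Nat.add (Nat.add C x48442) x35320) x44068) x52816) x46984) x48928) x48280) x48604) x48388) x48448) x48440) x48444) x28760)
    (Nat.sub (Nat.sub (Nat.add (Nat.add (Nat.add (Nat.add (Nat.add (Nat.add (Nat.add (Nat.add (Nat.add (Nat.add C x35322) x44070) x52818) x46986) x48930) x48282) x48606) x48390) x48450) x48442) (Nat.mul x48444 (nat_lit 2))) x28762)
    (Nat.sub (Nat.add (Nat.add (Nat.add (Nat.add (Nat.add (Nat.add (Nat.add (Nat.add (Nat.add (Nat.add (Nat.add C x35326) x44074) x52822) x46990) x48934) x48286) x48610) x48394) x48466) x48442) x48450) x28766)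
    (Nat.sub (Nat.sub (Nat.add (Nat.add (Nat.add (Nat.add (Nat.add (Nat.add (Nat.add (Nat.add (Nat.add (Nat.add (Nat.add (Nat.add C x35328) x44076) x52824) x46992) x48936) x48288) x48612) x48396) x48468) x48444) x48456) x48448) x48450) x28768)
    (Nat.sub (Nat.sub (Nat.add (Nat.add (Nat.add (Nat.add (Nat.add (Nat.add (Nat.add (Nat.add (Nat.add (Nat.add C x35334) x44082) x52830) x46998) x48942) x48294) x48618) x48402) x48474) x48450) (Nat.mul x48456 (nat_lit 2))) x28774)
    (Nat.sub (Nat.add (Nat.add (Nat.add (Nat.add (Nat.add (Nat.add (Nat.add (Nat.add (Nat.add (Nat.add (Nat.add (Nat.add C x48466) x35344) x44092) x52840) x47008) x48952) x48304) x48628) x48412) x48520) x48448) x48468) x28784)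
    (Nat.sub (Nat.sub (Nat.add (Nat.add (Nat.add (Nat.add (Nat.add (Nat.add (Nat.add (Nat.add (Nat.add (Nat.add (Nat.add (Nat.add C x35346) x44094) x52842) x47010) x48954) x48306) x48630) x48414) x48522) x48450) x48474) x48466) x48468) x28786)
    (Nat.sub (Nat.add (Nat.add (Nat.add (Nat.add (Nat.add (Nat.add (Nat.add (Nat.add (Nat.add (Nat.add (Nat.add (Nat.add C x35352) x44100) x52848) x47016) x48960) x48312) x48636) x48420) x48528) x48456) x48492) x48468) x28792)
    (Nat.sub (Nat.add (Nat.add (Nat.add (Nat.add (Nat.add (Nat.add (Nat.add (Nat.add (Nat.add C x35370) x44118) x52866) x47034) x48978) x48330) x48654) x48546) x48474) x28810)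
    (Nat.sub (Nat.add (Nat.add (Nat.add (Nat.add (Nat.add (Nat.add (Nat.add (Nat.add (Nat.add C x48520) x35398) x44146) x52894) x47062) x49006) x48682) x48466) x48522) x28838)
    (Nat.sub (Nat.sub (Nat.add (Nat.add (Nat.add (Nat.add (Nat.add (Nat.add (Nat.add (Nat.add (Nat.add C x35400) x44148) x52896) x47064) x49008) x48684) x48468) x48528) x48520) x48522) x28840)
    (Nat.sub (Nat.sub (Nat.add (Nat.add (Nat.add (Nat.add (Nat.add (Nat.add (Nat.add (Nat.add (Nat.add C x35406) x44154) x52902) x47070) x49014) x48690) x48474) x48546) x48522) x48528) x28846)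
    (Nat.sub (Nat.add (Nat.add (Nat.add (Nat.add (Nat.add (Nat.add (Nat.add (Nat.add (Nat.add C x48546) x35424) x44172) x52920) x47088) x49032) x48708) x48492) x48528) x28864)
    (Nat.add (Nat.add (Nat.add (Nat.add (Nat.add (Nat.add (Nat.add (Nat.add C x48602) x35480) x44228) x52976) x47144) x49088) x48440) x48604)
    (Nat.sub (Nat.add (Nat.add (Nat.add (Nat.add (Nat.add (Nat.add (Nat.add (Nat.add (Nat.add C x35482) x44230) x52978) x47146) x49090) x48442) x48610) x48602) x48606) x28922)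
    (Nat.sub (Nat.sub (Nat.add (Nat.add (Nat.add (Nat.add (Nat.add (Nat.add (Nat.add (Nat.add C x35484) x44232) x52980) x47148) x49092) x48444) x48612) x48604) (Nat.mul x48606 (nat_lit 3))) x28924)
    (Nat.sub (Nat.sub (Nat.add (Nat.add (Nat.add (Nat.add (Nat.add (Nat.add (Nat.add (Nat.add (Nat.add C x35488) x44236) x52984) x47152) x49096) x48448) x48628) x48604) x48612) x48610) x28928)
    (Nat.sub (Nat.sub (Nat.add (Nat.add (Nat.add (Nat.add (Nat.add (Nat.add (Nat.add (Nat.add (Nat.add (Nat.add C x35490) x44238) x52986) x47154) x49098) x48450) x48630) x48606) x48618) x48610) (Nat.mul x48612 (nat_lit 2))) x28930)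
    (Nat.sub (Nat.sub (Nat.add (Nat.add (Nat.add (Nat.add (Nat.add (Nat.add (Nat.add (Nat.add C x35496) x44244) x52992) x47160) x49104) x48456) x48636) x48612) (Nat.mul x48618 (nat_lit 3))) x28936)
    (Nat.sub (Nat.sub (Nat.add (Nat.add (Nat.add (Nat.add (Nat.add (Nat.add (Nat.add (Nat.add (Nat.add C x35506) x44254) x53002) x47170) x49114) x48466) x48682) x48610) x48630) x48628) x28946)
    (Nat.sub (Nat.sub (Nat.add (Nat.add (Nat.add (Nat.add (Nat.add (Nat.add (Nat.add (Nat.add (Nat.add (Nat.add C x35508) x44256) x53004) x47172) x49116) x48468) x48684) x48612) x48636) x48628) (Nat.mul x48630 (nat_lit 3))) x28948)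
    (Nat.sub (Nat.sub (Nat.add (Nat.add (Nat.add (Nat.add (Nat.add (Nat.add (Nat.add (Nat.add (Nat.add (Nat.add C x35514) x44262) x53010) x47178) x49122) x48474) x48690) x48618) x48654) x48630) (Nat.mul x48636 (nat_lit 2))) x28954)
    (Nat.sub (Nat.sub (Nat.add (Nat.add (Nat.add (Nat.add (Nat.add (Nat.add (Nat.add (Nat.add C x35532) x44280) x53028) x47196) x49140) x48492) x48708) x48636) (Nat.mul x48654 (nat_lit 3))) x28972)
    (Nat.sub (Nat.add (Nat.add (Nat.add (Nat.add (Nat.add (Nat.add (Nat.add (Nat.add (Nat.add C x48682) x35560) x44308) x53056) x47224) x49168) x48520) x48628) x48684) x29000)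
    (Nat.sub (Nat.sub (Nat.add (Nat.add (Nat.add (Nat.add (Nat.add (Nat.add (Nat.add (Nat.add (Nat.add C x35562) x44310) x53058) x47226) x49170) x48522) x48630) x48690) x48682) x48684) x29002)
    (Nat.sub (Nat.sub (Nat.add (Nat.add (Nat.add (Nat.add (Nat.add (Nat.add (Nat.add (Nat.add (Nat.add C x35568) x44316) x53064) x47232) x49176) x48528) x48636) x48708) x48684) x48690) x29008)
    (Nat.sub (Nat.add (Nat.add (Nat.add (Nat.add (Nat.add (Nat.add (Nat.add (Nat.add (Nat.add C x35586) x44334) x53082) x47250) x49194) x48546) x48654) x48762) x48690) x29026)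
    (Nat.sub (Nat.add (Nat.add (Nat.add (Nat.add (Nat.add (Nat.add (Nat.add C x48762) x35640) x44388) x53136) x47304) x49248) x48708) x29080)
    (Nat.add (Nat.add (Nat.add (Nat.add (Nat.add (Nat.add (Nat.add (Nat.add (Nat.add C (Nat.mul x48848 (nat_lit 4))) x35726) x44474) x53222) x47390) x50306) x48362) x48854) x48850)
    (Nat.sub (Nat.add (Nat.add (Nat.add (Nat.add (Nat.add (Nat.add (Nat.add (Nat.add (Nat.add C (Nat.mul x48850 (nat_lit 2))) x35728) x44476) x53224) x47392) x50308) x48364) x48856) x48848) x29168)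
    (Nat.add (Nat.add (Nat.add (Nat.add (Nat.add (Nat.add (Nat.add (Nat.add (Nat.add (Nat.add C (Nat.mul x48854 (nat_lit 2))) x35732) x44480) x53228) x47396) x50312) x48368) x48872) x48848) x48856)
    (Nat.sub (Nat.add (Nat.add (Nat.add (Nat.add (Nat.add (Nat.add (Nat.add (Nat.add (Nat.add (Nat.add (Nat.add (Nat.add C (Nat.mul x48856 (nat_lit 2))) x35734) x44482) x53230) x47398) x50314) x48370) x48874) x48850) x48862) x48854) x48858) x29174)
    (Nat.sub (Nat.add (Nat.add (Nat.add (Nat.add (Nat.add (Nat.add (Nat.add (Nat.add (Nat.add C x35736) x44484) x53232) x47400) x50316) x48372) x48876) x48864) x48856) x29176)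
    (Nat.sub (Nat.add (Nat.add (Nat.add (Nat.add (Nat.add (Nat.add (Nat.add (Nat.add (Nat.add C x35740) x44488) x53236) x47404) x50320) x48376) x48880) x48856) x48864) x29180)
    (Nat.sub (Nat.add (Nat.add (Nat.add (Nat.add (Nat.add (Nat.add (Nat.add (Nat.add (Nat.add C x35742) x44490) x53238) x47406) x50322) x48378) x48882) x48858) x48862) x29182)
    (Nat.add (Nat.add (Nat.add (Nat.add (Nat.add (Nat.add (Nat.add (Nat.add (Nat.add (Nat.add C (Nat.mul x48872 (nat_lit 2))) x35750) x44498) x53246) x47414) x50330) x48386) x48926) x48854) x48874)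
    (Nat.sub (Nat.add (Nat.add (Nat.add (Nat.add (Nat.add (Nat.add (Nat.add (Nat.add (Nat.add (Nat.add (Nat.add (Nat.add C x48874) x35752) x44500) x53248) x47416) x50332) x48388) x48928) x48856) x48880) x48872) x48876) x29192)
    (Nat.sub (Nat.sub (Nat.add (Nat.add (Nat.add (Nat.add (Nat.add (Nat.add (Nat.add (Nat.add (Nat.add (Nat.add C x35754) x44502) x53250) x47418) x50334) x48390) x48930) x48858) x48882) x48874) (Nat.mul x48876 (nat_lit 2))) x29194)
    (Nat.sub (Nat.add (Nat.add (Nat.add (Nat.add (Nat.add (Nat.add (Nat.add (Nat.add (Nat.add (Nat.add (Nat.add (Nat.add C x48880) x35758) x44506) x53254) x47422) x50338) x48394) x48934) x48862) x48898) x48874) x48882) x29198)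
    (Nat.sub (Nat.add (Nat.add (Nat.add (Nat.add (Nat.add (Nat.add (Nat.add (Nat.add (Nat.add (Nat.add (Nat.add (Nat.add C x35760) x44508) x53256) x47424) x50340) x48396) x48936) x48864) x48900) x48876) x48888) x48880) x29200)
    (Nat.sub (Nat.add (Nat.add (Nat.add (Nat.add (Nat.add (Nat.add (Nat.add (Nat.add (Nat.add C x35766) x44514) x53262) x47430) x50346) x48402) x48942) x48906) x48882) x29206)
    (Nat.sub (Nat.add (Nat.add (Nat.add (Nat.add (Nat.add (Nat.add (Nat.add (Nat.add (Nat.add C x35776) x44524) x53272) x47440) x50356) x48412) x48952) x48880) x48900) x29216)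
    (Nat.sub (Nat.sub (Nat.add (Nat.add (Nat.add (Nat.add (Nat.add (Nat.add (Nat.add (Nat.add (Nat.add (Nat.add C x35778) x44526) x53274) x47442) x50358) x48414) x48954) x48882) x48906) x48898) (Nat.mul x48900 (nat_lit 2))) x29218)
    (Nat.sub (Nat.add (Nat.add (Nat.add (Nat.add (Nat.add (Nat.add (Nat.add (Nat.add (Nat.add C x35784) x44532) x53280) x47448) x50364) x48420) x48960) x48888) x48900) x29224)
    (Nat.add (Nat.add (Nat.add (Nat.add (Nat.add (Nat.add (Nat.add (Nat.add (Nat.add (Nat.add C (Nat.mul x48926 (nat_lit 2))) x35804) x44552) x53300) x47468) x50384) x48440) x49088) x48872) x48928)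
    (Nat.sub (Nat.add (Nat.add (Nat.add (Nat.add (Nat.add (Nat.add (Nat.add (Nat.add (Nat.add (Nat.add (Nat.add (Nat.add C x48928) x35806) x44554) x53302) x47470) x50386) x48442) x49090) x48874) x48934) x48926) x48930) x29246)
    (Nat.sub (Nat.sub (Nat.add (Nat.add (Nat.add (Nat.add (Nat.add (Nat.add (Nat.add (Nat.add (Nat.add (Nat.add C x35808) x44556) x53304) x47472) x50388) x48444) x49092) x48876) x48936) x48928) (Nat.mul x48930 (nat_lit 2))) x29248)
    (Nat.sub (Nat.add (Nat.add (Nat.add (Nat.add (Nat.add (Nat.add (Nat.add (Nat.add (Nat.add (Nat.add (Nat.add C x35812) x44560) x53308) x47476) x50392) x48448) x49096) x48880) x48952) x48928) x48936) x29252)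
    (Nat.sub (Nat.sub (Nat.add (Nat.add (Nat.add (Nat.add (Nat.add (Nat.add (Nat.add (Nat.add (Nat.add (Nat.add (Nat.add (Nat.add C x35814) x44562) x53310) x47478) x50394) x48450) x49098) x48882) x48954) x48930) x48942) x48934) x48936) x29254)
    (Nat.sub (Nat.sub (Nat.add (Nat.add (Nat.add (Nat.add (Nat.add (Nat.add (Nat.add (Nat.add (Nat.add (Nat.add C x35820) x44568) x53316) x47484) x50400) x48456) x49104) x48888) x48960) x48936) (Nat.mul x48942 (nat_lit 2))) x29260)
    (Nat.sub (Nat.add (Nat.add (Nat.add (Nat.add (Nat.add (Nat.add (Nat.add (Nat.add (Nat.add (Nat.add (Nat.add (Nat.add C x48952) x35830) x44578) x53326) x47494) x50410) x48466) x49114) x48898) x49006) x48934) x48954) x29270)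
    (Nat.sub (Nat.sub (Nat.add (Nat.add (Nat.add (Nat.add (Nat.add (Nat.add (Nat.add (Nat.add (Nat.add (Nat.add (Nat.add (Nat.add C x35832) x44580) x53328) x47496) x50412) x48468) x49116) x48900) x49008) x48936) x48960) x48952) x48954) x29272)
    (Nat.sub (Nat.add (Nat.add (Nat.add (Nat.add (Nat.add (Nat.add (Nat.add (Nat.add (Nat.add (Nat.add (Nat.add (Nat.add C x35838) x44586) x53334) x47502) x50418) x48474) x49122) x48906) x49014) x48942) x48978) x48954) x29278)
    (Nat.sub (Nat.add (Nat.add (Nat.add (Nat.add (Nat.add (Nat.add (Nat.add (Nat.add (Nat.add C x35856) x44604) x53352) x47520) x50436) x48492) x49140) x49032) x48960) x29296)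
    (Nat.sub (Nat.add (Nat.add (Nat.add (Nat.add (Nat.add (Nat.add (Nat.add (Nat.add (Nat.add C x35884) x44632) x53380) x47548) x50464) x48520) x49168) x48952) x49008) x29324)
    (Nat.sub (Nat.sub (Nat.add (Nat.add (Nat.add (Nat.add (Nat.add (Nat.add (Nat.add (Nat.add (Nat.add (Nat.add C x35886) x44634) x53382) x47550) x50466) x48522) x49170) x48954) x49014) x49006) (Nat.mul x49008 (nat_lit 2))) x29326)
    (Nat.sub (Nat.sub (Nat.add (Nat.add (Nat.add (Nat.add (Nat.add (Nat.add (Nat.add (Nat.add (Nat.add (Nat.add C x35892) x44640) x53388) x47556) x50472) x48528) x49176) x48960) x49032) x49008) (Nat.mul x49014 (nat_lit 2))) x29332)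
    (Nat.sub (Nat.add (Nat.add (Nat.add (Nat.add (Nat.add (Nat.add (Nat.add (Nat.add (Nat.add C x35910) x44658) x53406) x47574) x50490) x48546) x49194) x48978) x49014) x29350)
    (Nat.add (Nat.add (Nat.add (Nat.add (Nat.add (Nat.add (Nat.add (Nat.add (Nat.add (Nat.add C (Nat.mul x49088 (nat_lit 3))) x35966) x44714) x53462) x47630) x50546) x48602) x49574) x48926) x49090)
    (Nat.sub (Nat.add (Nat.add (Nat.add (Nat.add (Nat.add (Nat.add (Nat.add (Nat.add (Nat.add (Nat.add (Nat.add (Nat.add C (Nat.mul x49090 (nat_lit 2))) x35968) x44716) x53464) x47632) x50548) x48604) x49576) x48928) x49096) x49088) x49092) x29408)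
    (Nat.sub (Nat.sub (Nat.add (Nat.add (Nat.add (Nat.add (Nat.add (Nat.add (Nat.add (Nat.add (Nat.add (Nat.add C x35970) x44718) x53466) x47634) x50550) x48606) x49578) x48930) x49098) x49090) x49092) x29410)
    (Nat.sub (Nat.add (Nat.add (Nat.add (Nat.add (Nat.add (Nat.add (Nat.add (Nat.add (Nat.add (Nat.add (Nat.add (Nat.add C x49096) x35974) x44722) x53470) x47638) x50554) x48610) x49582) x48934) x49114) x49090) x49098) x29414)
    (Nat.sub (Nat.add (Nat.add (Nat.add (Nat.add (Nat.add (Nat.add (Nat.add (Nat.add (Nat.add (Nat.add (Nat.add (Nat.add C x35976) x44724) x53472) x47640) x50556) x48612) x49584) x48936) x49116) x49092) x49104) x49096) x29416)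
    (Nat.sub (Nat.sub (Nat.add (Nat.add (Nat.add (Nat.add (Nat.add (Nat.add (Nat.add (Nat.add (Nat.add (Nat.add C x35982) x44730) x53478) x47646) x50562) x48618) x49590) x48942) x49122) x49098) x49104) x29422)
    (Nat.sub (Nat.add (Nat.add (Nat.add (Nat.add (Nat.add (Nat.add (Nat.add (Nat.add (Nat.add (Nat.add (Nat.add (Nat.add C x49114) x35992) x44740) x53488) x47656) x50572) x48628) x49600) x48952) x49168) x49096) x49116) x29432)
    (Nat.sub (Nat.sub (Nat.add (Nat.add (Nat.add (Nat.add (Nat.add (Nat.add (Nat.add (Nat.add (Nat.add (Nat.add (Nat.add (Nat.add C x35994) x44742) x53490) x47658) x50574) x48630) x49602) x48954) x49170) x49098) x49122) x49114) x49116) x29434)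
    (Nat.sub (Nat.add (Nat.add (Nat.add (Nat.add (Nat.add (Nat.add (Nat.add (Nat.add (Nat.add (Nat.add (Nat.add (Nat.add C x36000) x44748) x53496) x47664) x50580) x48636) x49608) x48960) x49176) x49104) x49140) x49116) x29440)
    (Nat.sub (Nat.sub (Nat.add (Nat.add (Nat.add (Nat.add (Nat.add (Nat.add (Nat.add (Nat.add (Nat.add (Nat.add C x36018) x44766) x53514) x47682) x50598) x48654) x49626) x48978) x49194) x49122) x49140) x29458)
    (Nat.sub (Nat.add (Nat.add (Nat.add (Nat.add (Nat.add (Nat.add (Nat.add (Nat.add (Nat.add (Nat.add (Nat.add (Nat.add C (Nat.mul x49168 (nat_lit 2))) x36046) x44794) x53542) x47710) x50626) x48682) x49654) x49006) x49330) x49114) x49170) x29486)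
    (Nat.sub (Nat.add (Nat.add (Nat.add (Nat.add (Nat.add (Nat.add (Nat.add (Nat.add (Nat.add (Nat.add (Nat.add (Nat.add C x36048) x44796) x53544) x47712) x50628) x48684) x49656) x49008) x49332) x49116) x49176) x49168) x29488)
    (Nat.sub (Nat.add (Nat.add (Nat.add (Nat.add (Nat.add (Nat.add (Nat.add (Nat.add (Nat.add (Nat.add (Nat.add (Nat.add C x36054) x44802) x53550) x47718) x50634) x48690) x49662) x49014) x49338) x49122) x49194) x49170) x29494)
    (Nat.sub (Nat.add (Nat.add (Nat.add (Nat.add (Nat.add (Nat.add (Nat.add (Nat.add (Nat.add (Nat.add (Nat.add (Nat.add (Nat.add C x49194) x36072) x44820) x53568) x47736) x50652) x48708) x49680) x49032) x49356) x49140) x49248) x49176) x29512)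
    (Nat.sub (Nat.add (Nat.add (Nat.add (Nat.add (Nat.add (Nat.add (Nat.add (Nat.add (Nat.add (Nat.add C x49248) x36126) x44874) x53622) x47790) x50706) x48762) x49734) x49410) x49194) x29566)
    (Nat.sub (Nat.add (Nat.add (Nat.add (Nat.add (Nat.add (Nat.add (Nat.add (Nat.add (Nat.add C (Nat.mul x49330 (nat_lit 2))) x36208) x44956) x53704) x47872) x50788) x49816) x49168) x49332) x29648)
    (Nat.sub (Nat.add (Nat.add (Nat.add (Nat.add (Nat.add (Nat.add (Nat.add (Nat.add (Nat.add C x36210) x44958) x53706) x47874) x50790) x49818) x49170) x49338) x49330) x29650)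
    (Nat.sub (Nat.add (Nat.add (Nat.add (Nat.add (Nat.add (Nat.add (Nat.add (Nat.add (Nat.add C x36216) x44964) x53712) x47880) x50796) x49824) x49176) x49356) x49332) x29656)
    (Nat.sub (Nat.add (Nat.add (Nat.add (Nat.add (Nat.add (Nat.add (Nat.add (Nat.add (Nat.add C x36234) x44982) x53730) x47898) x50814) x49842) x49194) x49410) x49338) x29674)
    (Nat.sub (Nat.add (Nat.add (Nat.add (Nat.add (Nat.add (Nat.add (Nat.add (Nat.add (Nat.add C (Nat.mul x49410 (nat_lit 2))) x36288) x45036) x53784) x47952) x50868) x49896) x49248) x49356) x29728)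
    (Nat.add (Nat.add (Nat.add (Nat.add (Nat.add (Nat.add (Nat.add C (Nat.mul x49574 (nat_lit 3))) x36452) x45200) x53948) x51032) x49088) x49576)
    (Nat.sub (Nat.add (Nat.add (Nat.add (Nat.add (Nat.add (Nat.add (Nat.add (Nat.add (Nat.add C (Nat.mul x49576 (nat_lit 2))) x36454) x45202) x53950) x51034) x49090) x49582) x49574) x49578) x29894)
    (Nat.sub (Nat.sub (Nat.add (Nat.add (Nat.add (Nat.add (Nat.add (Nat.add (Nat.add C x36456) x45204) x53952) x51036) x49092) x49584) x49576) x49578) x29896)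
    (Nat.sub (Nat.add (Nat.add (Nat.add (Nat.add (Nat.add (Nat.add (Nat.add (Nat.add (Nat.add C x49582) x36460) x45208) x53956) x51040) x49096) x49600) x49576) x49584) x29900)
    (Nat.sub (Nat.add (Nat.add (Nat.add (Nat.add (Nat.add (Nat.add (Nat.add (Nat.add (Nat.add C x36462) x45210) x53958) x51042) x49098) x49602) x49578) x49590) x49582) x29902)
    (Nat.sub (Nat.sub (Nat.add (Nat.add (Nat.add (Nat.add (Nat.add (Nat.add (Nat.add C x36468) x45216) x53964) x51048) x49104) x49608) x49584) x49590) x29908)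
    (Nat.sub (Nat.add (Nat.add (Nat.add (Nat.add (Nat.add (Nat.add (Nat.add (Nat.add (Nat.add C x49600) x36478) x45226) x53974) x51058) x49114) x49654) x49582) x49602) x29918)
    (Nat.sub (Nat.sub (Nat.add (Nat.add (Nat.add (Nat.add (Nat.add (Nat.add (Nat.add (Nat.add (Nat.add C x36480) x45228) x53976) x51060) x49116) x49656) x49584) x49608) x49600) x49602) x29920)
    (Nat.sub (Nat.add (Nat.add (Nat.add (Nat.add (Nat.add (Nat.add (Nat.add (Nat.add (Nat.add C x36486) x45234) x53982) x51066) x49122) x49662) x49590) x49626) x49602) x29926)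
    (Nat.sub (Nat.sub (Nat.add (Nat.add (Nat.add (Nat.add (Nat.add (Nat.add (Nat.add C x36504) x45252) x54000) x51084) x49140) x49680) x49608) x49626) x29944)
    (Nat.sub (Nat.add (Nat.add (Nat.add (Nat.add (Nat.add (Nat.add (Nat.add (Nat.add (Nat.add C x49654) x36532) x45280) x54028) x51112) x49168) x49816) x49600) x49656) x29972)
    (Nat.sub (Nat.sub (Nat.add (Nat.add (Nat.add (Nat.add (Nat.add (Nat.add (Nat.add (Nat.add (Nat.add C x36534) x45282) x54030) x51114) x49170) x49818) x49602) x49662) x49654) x49656) x29974)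
    (Nat.sub (Nat.sub (Nat.add (Nat.add (Nat.add (Nat.add (Nat.add (Nat.add (Nat.add (Nat.add (Nat.add C x36540) x45288) x54036) x51120) x49176) x49824) x49608) x49680) x49656) x49662) x29980)
    (Nat.sub (Nat.add (Nat.add (Nat.add (Nat.add (Nat.add (Nat.add (Nat.add (Nat.add (Nat.add C x36558) x45306) x54054) x51138) x49194) x49842) x49626) x49734) x49662) x29998)
    (Nat.sub (Nat.sub (Nat.add (Nat.add (Nat.add (Nat.add (Nat.add (Nat.add (Nat.add C x36612) x45360) x54108) x51192) x49248) x49896) x49680) x49734) x30052)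
    (Nat.sub (Nat.add (Nat.add (Nat.add (Nat.add (Nat.add (Nat.add (Nat.add (Nat.add C (Nat.mul x49816 (nat_lit 3))) x36694) x45442) x54190) x51274) x49330) x49654) x49818) x30134)
    (Nat.sub (Nat.add (Nat.add (Nat.add (Nat.add (Nat.add (Nat.add (Nat.add (Nat.add (Nat.add C x49818) x36696) x45444) x54192) x51276) x49332) x49656) x49824) x49816) x30136)
    (Nat.sub (Nat.add (Nat.add (Nat.add (Nat.add (Nat.add (Nat.add (Nat.add (Nat.add (Nat.add C x49824) x36702) x45450) x54198) x51282) x49338) x49662) x49842) x49818) x30142)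
    (Nat.sub (Nat.add (Nat.add (Nat.add (Nat.add (Nat.add (Nat.add (Nat.add (Nat.add (Nat.add C x49842) x36720) x45468) x54216) x51300) x49356) x49680) x49896) x49824) x30160)
    (Nat.sub (Nat.add (Nat.add (Nat.add (Nat.add (Nat.add (Nat.add (Nat.add (Nat.add (Nat.add C (Nat.mul x49896 (nat_lit 2))) x36774) x45522) x54270) x51354) x49410) x49734) x50058) x49842) x30214)
    (Nat.sub (Nat.add (Nat.add (Nat.add (Nat.add (Nat.add (Nat.add C (Nat.mul x50058 (nat_lit 3))) x36936) x45684) x54432) x51516) x49896) x30376)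
    (Nat.add (Nat.add (Nat.add (Nat.add (Nat.add (Nat.add C (Nat.mul x50306 (nat_lit 4))) x37184) x54680) x48848) x50312) x50308)
    (Nat.sub (Nat.add (Nat.add (Nat.add (Nat.add (Nat.add (Nat.add C (Nat.mul x50308 (nat_lit 2))) x37186) x54682) x48850) x50314) x50306) x30626)
    (Nat.add (Nat.add (Nat.add (Nat.add (Nat.add (Nat.add (Nat.add C (Nat.mul x50312 (nat_lit 2))) x37190) x54686) x48854) x50330) x50306) x50314)
    (Nat.sub (Nat.add (Nat.add (Nat.add (Nat.add (Nat.add (Nat.add (Nat.add (Nat.add (Nat.add C (Nat.mul x50314 (nat_lit 2))) x37192) x54688) x48856) x50332) x50308) x50320) x50312) x50316) x30632)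
    (Nat.sub (Nat.add (Nat.add (Nat.add (Nat.add (Nat.add (Nat.add C x37194) x54690) x48858) x50334) x50322) x50314) x30634)
    (Nat.sub (Nat.add (Nat.add (Nat.add (Nat.add (Nat.add (Nat.add C x37198) x54694) x48862) x50338) x50314) x50322) x30638)
    (Nat.sub (Nat.add (Nat.add (Nat.add (Nat.add (Nat.add (Nat.add C x37200) x54696) x48864) x50340) x50316) x50320) x30640)
    (Nat.add (Nat.add (Nat.add (Nat.add (Nat.add (Nat.add (Nat.add C (Nat.mul x50330 (nat_lit 2))) x37208) x54704) x48872) x50384) x50312) x50332)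
    (Nat.sub (Nat.add (Nat.add (Nat.add (Nat.add (Nat.add (Nat.add (Nat.add (Nat.add (Nat.add C x50332) x37210) x54706) x48874) x50386) x50314) x50338) x50330) x50334) x30650)
    (Nat.sub (Nat.sub (Nat.add (Nat.add (Nat.add (Nat.add (Nat.add (Nat.add (Nat.add C x37212) x54708) x48876) x50388) x50316) x50340) x50332) (Nat.mul x50334 (nat_lit 2))) x30652)
    (Nat.sub (Nat.add (Nat.add (Nat.add (Nat.add (Nat.add (Nat.add (Nat.add (Nat.add (Nat.add C x50338) x37216) x54712) x48880) x50392) x50320) x50356) x50332) x50340) x30656)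
    (Nat.sub (Nat.add (Nat.add (Nat.add (Nat.add (Nat.add (Nat.add (Nat.add (Nat.add (Nat.add C x37218) x54714) x48882) x50394) x50322) x50358) x50334) x50346) x50338) x30658)
    (Nat.sub (Nat.add (Nat.add (Nat.add (Nat.add (Nat.add (Nat.add C x37224) x54720) x48888) x50400) x50364) x50340) x30664)
    (Nat.sub (Nat.add (Nat.add (Nat.add (Nat.add (Nat.add (Nat.add C x37234) x54730) x48898) x50410) x50338) x50358) x30674)
    (Nat.sub (Nat.sub (Nat.add (Nat.add (Nat.add (Nat.add (Nat.add (Nat.add (Nat.add C x37236) x54732) x48900) x50412) x50340) x50364) x50356) (Nat.mul x50358 (nat_lit 2))) x30676)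
    (Nat.sub (Nat.add (Nat.add (Nat.add (Nat.add (Nat.add (Nat.add C x37242) x54738) x48906) x50418) x50346) x50358) x30682)
    (Nat.add (Nat.add (Nat.add (Nat.add (Nat.add (Nat.add (Nat.add C (Nat.mul x50384 (nat_lit 2))) x37262) x54758) x48926) x50546) x50330) x50386)
    (Nat.sub (Nat.add (Nat.add (Nat.add (Nat.add (Nat.add (Nat.add (Nat.add (Nat.add (Nat.add C x50386) x37264) x54760) x48928) x50548) x50332) x50392) x50384) x50388) x30704)
    (Nat.sub (Nat.sub (Nat.add (Nat.add (Nat.add (Nat.add (Nat.add (Nat.add (Nat.add C x37266) x54762) x48930) x50550) x50334) x50394) x50386) (Nat.mul x50388 (nat_lit 2))) x30706)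
    (Nat.sub (Nat.add (Nat.add (Nat.add (Nat.add (Nat.add (Nat.add (Nat.add (Nat.add C x37270) x54766) x48934) x50554) x50338) x50410) x50386) x50394) x30710)
    (Nat.sub (Nat.sub (Nat.add (Nat.add (Nat.add (Nat.add (Nat.add (Nat.add (Nat.add (Nat.add (Nat.add C x37272) x54768) x48936) x50556) x50340) x50412) x50388) x50400) x50392) x50394) x30712)
    (Nat.sub (Nat.sub (Nat.add (Nat.add (Nat.add (Nat.add (Nat.add (Nat.add (Nat.add C x37278) x54774) x48942) x50562) x50346) x50418) x50394) (Nat.mul x50400 (nat_lit 2))) x30718)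
    (Nat.sub (Nat.add (Nat.add (Nat.add (Nat.add (Nat.add (Nat.add (Nat.add (Nat.add (Nat.add C x50410) x37288) x54784) x48952) x50572) x50356) x50464) x50392) x50412) x30728)
    (Nat.sub (Nat.sub (Nat.add (Nat.add (Nat.add (Nat.add (Nat.add (Nat.add (Nat.add (Nat.add (Nat.add C x37290) x54786) x48954) x50574) x50358) x50466) x50394) x50418) x50410) x50412) x30730)
    (Nat.sub (Nat.add (Nat.add (Nat.add (Nat.add (Nat.add (Nat.add (Nat.add (Nat.add (Nat.add C x37296) x54792) x48960) x50580) x50364) x50472) x50400) x50436) x50412) x30736)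
    (Nat.sub (Nat.add (Nat.add (Nat.add (Nat.add (Nat.add (Nat.add C x37314) x54810) x48978) x50598) x50490) x50418) x30754)
    (Nat.sub (Nat.add (Nat.add (Nat.add (Nat.add (Nat.add (Nat.add C x37342) x54838) x49006) x50626) x50410) x50466) x30782)
    (Nat.sub (Nat.sub (Nat.add (Nat.add (Nat.add (Nat.add (Nat.add (Nat.add (Nat.add C x37344) x54840) x49008) x50628) x50412) x50472) x50464) (Nat.mul x50466 (nat_lit 2))) x30784)
    (Nat.sub (Nat.sub (Nat.add (Nat.add (Nat.add (Nat.add (Nat.add (Nat.add (Nat.add C x37350) x54846) x49014) x50634) x50418) x50490) x50466) (Nat.mul x50472 (nat_lit 2))) x30790)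
    (Nat.sub (Nat.add (Nat.add (Nat.add (Nat.add (Nat.add (Nat.add C x37368) x54864) x49032) x50652) x50436) x50472) x30808)
    (Nat.add (Nat.add (Nat.add (Nat.add (Nat.add (Nat.add (Nat.add C (Nat.mul x50546 (nat_lit 2))) x37424) x54920) x49088) x51032) x50384) x50548)
    (Nat.sub (Nat.add (Nat.add (Nat.add (Nat.add (Nat.add (Nat.add (Nat.add (Nat.add (Nat.add C x50548) x37426) x54922) x49090) x51034) x50386) x50554) x50546) x50550) x30866)
    (Nat.sub (Nat.sub (Nat.add (Nat.add (Nat.add (Nat.add (Nat.add (Nat.add (Nat.add C x37428) x54924) x49092) x51036) x50388) x50556) x50548) (Nat.mul x50550 (nat_lit 2))) x30868)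
    (Nat.sub (Nat.add (Nat.add (Nat.add (Nat.add (Nat.add (Nat.add (Nat.add (Nat.add C x37432) x54928) x49096) x51040) x50392) x50572) x50548) x50556) x30872)
    (Nat.sub (Nat.sub (Nat.add (Nat.add (Nat.add (Nat.add (Nat.add (Nat.add (Nat.add (Nat.add (Nat.add C x37434) x54930) x49098) x51042) x50394) x50574) x50550) x50562) x50554) x50556) x30874)
    (Nat.sub (Nat.sub (Nat.add (Nat.add (Nat.add (Nat.add (Nat.add (Nat.add (Nat.add C x37440) x54936) x49104) x51048) x50400) x50580) x50556) (Nat.mul x50562 (nat_lit 2))) x30880)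
    (Nat.sub (Nat.add (Nat.add (Nat.add (Nat.add (Nat.add (Nat.add (Nat.add (Nat.add C x37450) x54946) x49114) x51058) x50410) x50626) x50554) x50574) x30890)
    (Nat.sub (Nat.sub (Nat.add (Nat.add (Nat.add (Nat.add (Nat.add (Nat.add (Nat.add (Nat.add (Nat.add C x37452) x54948) x49116) x51060) x50412) x50628) x50556) x50580) x50572) (Nat.mul x50574 (nat_lit 2))) x30892)
    (Nat.sub (Nat.sub (Nat.add (Nat.add (Nat.add (Nat.add (Nat.add (Nat.add (Nat.add (Nat.add (Nat.add C x37458) x54954) x49122) x51066) x50418) x50634) x50562) x50598) x50574) x50580) x30898)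
    (Nat.sub (Nat.sub (Nat.add (Nat.add (Nat.add (Nat.add (Nat.add (Nat.add (Nat.add C x37476) x54972) x49140) x51084) x50436) x50652) x50580) (Nat.mul x50598 (nat_lit 2))) x30916)
    (Nat.sub (Nat.add (Nat.add (Nat.add (Nat.add (Nat.add (Nat.add (Nat.add (Nat.add (Nat.add C x50626) x37504) x55000) x49168) x51112) x50464) x50788) x50572) x50628) x30944)
    (Nat.sub (Nat.sub (Nat.add (Nat.add (Nat.add (Nat.add (Nat.add (Nat.add (Nat.add (Nat.add (Nat.add C x37506) x55002) x49170) x51114) x50466) x50790) x50574) x50634) x50626) x50628) x30946)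
    (Nat.sub (Nat.sub (Nat.add (Nat.add (Nat.add (Nat.add (Nat.add (Nat.add (Nat.add (Nat.add (Nat.add C x37512) x55008) x49176) x51120) x50472) x50796) x50580) x50652) x50628) x50634) x30952)
    (Nat.sub (Nat.add (Nat.add (Nat.add (Nat.add (Nat.add (Nat.add (Nat.add (Nat.add (Nat.add C x37530) x55026) x49194) x51138) x50490) x50814) x50598) x50706) x50634) x30970)
    (Nat.sub (Nat.add (Nat.add (Nat.add (Nat.add (Nat.add (Nat.add C x37584) x55080) x49248) x51192) x50868) x50652) x31024)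
    (Nat.sub (Nat.add (Nat.add (Nat.add (Nat.add (Nat.add (Nat.add C x37666) x55162) x49330) x51274) x50626) x50790) x31106)
    (Nat.sub (Nat.sub (Nat.add (Nat.add (Nat.add (Nat.add (Nat.add (Nat.add (Nat.add C x37668) x55164) x49332) x51276) x50628) x50796) x50788) (Nat.mul x50790 (nat_lit 2))) x31108)
    (Nat.sub (Nat.sub (Nat.add (Nat.add (Nat.add (Nat.add (Nat.add (Nat.add (Nat.add C x37674) x55170) x49338) x51282) x50634) x50814) x50790) (Nat.mul x50796 (nat_lit 2))) x31114)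
    (Nat.sub (Nat.sub (Nat.add (Nat.add (Nat.add (Nat.add (Nat.add (Nat.add (Nat.add C x37692) x55188) x49356) x51300) x50652) x50868) x50796) (Nat.mul x50814 (nat_lit 2))) x31132)
    (Nat.sub (Nat.add (Nat.add (Nat.add (Nat.add (Nat.add (Nat.add C x37746) x55242) x49410) x51354) x50706) x50814) x31186)
    (Nat.add (Nat.add (Nat.add (Nat.add (Nat.add (Nat.add C (Nat.mul x51032 (nat_lit 4))) x37910) x55406) x49574) x50546) x51034)
    (Nat.sub (Nat.add (Nat.add (Nat.add (Nat.add (Nat.add (Nat.add (Nat.add (Nat.add C (Nat.mul x51034 (nat_lit 3))) x37912) x55408) x49576) x50548) x51040) x51032) x51036) x31352)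
    (Nat.sub (Nat.add (Nat.add (Nat.add (Nat.add (Nat.add (Nat.add C x37914) x55410) x49578) x50550) x51042) x51034) x31354)
    (Nat.sub (Nat.add (Nat.add (Nat.add (Nat.add (Nat.add (Nat.add (Nat.add (Nat.add C (Nat.mul x51040 (nat_lit 2))) x37918) x55414) x49582) x50554) x51058) x51034) x51042) x31358)
    (Nat.sub (Nat.add (Nat.add (Nat.add (Nat.add (Nat.add (Nat.add (Nat.add (Nat.add (Nat.add C x51042) x37920) x55416) x49584) x50556) x51060) x51036) x51048) x51040) x31360)
    (Nat.sub (Nat.add (Nat.add (Nat.add (Nat.add (Nat.add (Nat.add C x37926) x55422) x49590) x50562) x51066) x51042) x31366)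
    (Nat.sub (Nat.add (Nat.add (Nat.add (Nat.add (Nat.add (Nat.add (Nat.add (Nat.add C (Nat.mul x51058 (nat_lit 2))) x37936) x55432) x49600) x50572) x51112) x51040) x51060) x31376)
    (Nat.sub (Nat.add (Nat.add (Nat.add (Nat.add (Nat.add (Nat.add (Nat.add (Nat.add C x37938) x55434) x49602) x50574) x51114) x51042) x51066) x51058) x31378)
    (Nat.sub (Nat.add (Nat.add (Nat.add (Nat.add (Nat.add (Nat.add (Nat.add (Nat.add (Nat.add C x51066) x37944) x55440) x49608) x50580) x51120) x51048) x51084) x51060) x31384)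
    (Nat.sub (Nat.add (Nat.add (Nat.add (Nat.add (Nat.add (Nat.add C x37962) x55458) x49626) x50598) x51138) x51066) x31402)
    (Nat.sub (Nat.add (Nat.add (Nat.add (Nat.add (Nat.add (Nat.add (Nat.add (Nat.add C (Nat.mul x51112 (nat_lit 2))) x37990) x55486) x49654) x50626) x51274) x51058) x51114) x31430)
    (Nat.sub (Nat.add (Nat.add (Nat.add (Nat.add (Nat.add (Nat.add (Nat.add (Nat.add C x37992) x55488) x49656) x50628) x51276) x51060) x51120) x51112) x31432)
    (Nat.sub (Nat.add (Nat.add (Nat.add (Nat.add (Nat.add (Nat.add (Nat.add (Nat.add C x37998) x55494) x49662) x50634) x51282) x51066) x51138) x51114) x31438)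
    (Nat.sub (Nat.add (Nat.add (Nat.add (Nat.add (Nat.add (Nat.add (Nat.add (Nat.add (Nat.add C x51138) x38016) x55512) x49680) x50652) x51300) x51084) x51192) x51120) x31456)
    (Nat.sub (Nat.add (Nat.add (Nat.add (Nat.add (Nat.add (Nat.add C x38070) x55566) x49734) x50706) x51354) x51138) x31510)
    (Nat.sub (Nat.add (Nat.add (Nat.add (Nat.add (Nat.add (Nat.add (Nat.add (Nat.add C (Nat.mul x51274 (nat_lit 3))) x38152) x55648) x49816) x50788) x51760) x51112) x51276) x31592)
    (Nat.sub (Nat.add (Nat.add (Nat.add (Nat.add (Nat.add (Nat.add (Nat.add (Nat.add (Nat.add C x51276) x38154) x55650) x49818) x50790) x51762) x51114) x51282) x51274) x31594)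
    (Nat.sub (Nat.add (Nat.add (Nat.add (Nat.add (Nat.add (Nat.add (Nat.add (Nat.add (Nat.add C x51282) x38160) x55656) x49824) x50796) x51768) x51120) x51300) x51276) x31600)
    (Nat.sub (Nat.add (Nat.add (Nat.add (Nat.add (Nat.add (Nat.add (Nat.add (Nat.add (Nat.add C x51300) x38178) x55674) x49842) x50814) x51786) x51138) x51354) x51282) x31618)
    (Nat.sub (Nat.add (Nat.add (Nat.add (Nat.add (Nat.add (Nat.add (Nat.add (Nat.add (Nat.add C (Nat.mul x51354 (nat_lit 2))) x38232) x55728) x49896) x50868) x51840) x51192) x51516) x51300) x31672)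
    (Nat.sub (Nat.add (Nat.add (Nat.add (Nat.add (Nat.add (Nat.add C (Nat.mul x51516 (nat_lit 2))) x38394) x55890) x50058) x52002) x51354) x31834)
    (Nat.sub (Nat.add (Nat.add (Nat.add (Nat.add (Nat.add C (Nat.mul x51760 (nat_lit 4))) x38638) x56134) x51274) x51762) x32078)
    (Nat.sub (Nat.add (Nat.add (Nat.add (Nat.add (Nat.add (Nat.add C (Nat.mul x51762 (nat_lit 2))) x38640) x56136) x51276) x51768) x51760) x32080)
    (Nat.sub (Nat.add (Nat.add (Nat.add (Nat.add (Nat.add (Nat.add C (Nat.mul x51768 (nat_lit 2))) x38646) x56142) x51282) x51786) x51762) x32086)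
    (Nat.sub (Nat.add (Nat.add (Nat.add (Nat.add (Nat.add (Nat.add C (Nat.mul x51786 (nat_lit 2))) x38664) x56160) x51300) x51840) x51768) x32104)
    (Nat.sub (Nat.add (Nat.add (Nat.add (Nat.add (Nat.add (Nat.add C (Nat.mul x51840 (nat_lit 2))) x38718) x56214) x51354) x52002) x51786) x32158)
    (Nat.sub (Nat.add (Nat.add (Nat.add (Nat.add (Nat.add C (Nat.mul x52002 (nat_lit 4))) x38880) x56376) x51516) x51840) x32320)
    (Nat.add (Nat.add (Nat.add C (Nat.mul x52496 (nat_lit 6))) x48122) x52502)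
    (Nat.add (Nat.add (Nat.add (Nat.add (Nat.add (Nat.add C (Nat.mul x52502 (nat_lit 5))) x48128) x52520) x52496) x52508) x52504)
    (Nat.sub (Nat.add (Nat.add (Nat.add (Nat.add (Nat.add C (Nat.mul x52504 (nat_lit 4))) x48130) x52522) x52510) x52502) x32822)
    (Nat.add (Nat.add (Nat.add (Nat.add (Nat.add C (Nat.mul x52508 (nat_lit 2))) x48134) x52526) x52502) x52510)
    (Nat.sub (Nat.add (Nat.add (Nat.add (Nat.add (Nat.add (Nat.add C (Nat.mul x52510 (nat_lit 3))) x48136) x52528) x52504) x52508) x52512) x32828)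
    (Nat.sub (Nat.add (Nat.add (Nat.add (Nat.add C (Nat.mul x52512 (nat_lit 2))) x48138) x52530) x52510) x32830)
    (Nat.add (Nat.add (Nat.add (Nat.add (Nat.add (Nat.add C (Nat.mul x52520 (nat_lit 4))) x48146) x52574) x52502) x52526) x52522)
    (Nat.sub (Nat.add (Nat.add (Nat.add (Nat.add (Nat.add (Nat.add C (Nat.mul x52522 (nat_lit 2))) x48148) x52576) x52504) x52528) x52520) x32840)
    (Nat.add (Nat.add (Nat.add (Nat.add (Nat.add (Nat.add (Nat.add C (Nat.mul x52526 (nat_lit 3))) x48152) x52580) x52508) x52544) x52520) x52528)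
    (Nat.sub (Nat.add (Nat.add (Nat.add (Nat.add (Nat.add (Nat.add (Nat.add (Nat.add (Nat.add C (Nat.mul x52528 (nat_lit 3))) x48154) x52582) x52510) x52546) x52522) x52534) x52526) x52530) x32846)
    (Nat.sub (Nat.add (Nat.add (Nat.add (Nat.add (Nat.add (Nat.add (Nat.add C x52530) x48156) x52584) x52512) x52548) x52536) x52528) x32848)
    (Nat.sub (Nat.add (Nat.add (Nat.add (Nat.add (Nat.add (Nat.add C (Nat.mul x52534 (nat_lit 2))) x48160) x52588) x52552) x52528) x52536) x32852)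
    (Nat.sub (Nat.add (Nat.add (Nat.add (Nat.add (Nat.add (Nat.add C (Nat.mul x52536 (nat_lit 2))) x48162) x52590) x52554) x52530) x52534) x32854)
    (Nat.add (Nat.add (Nat.add (Nat.add (Nat.add C (Nat.mul x52544 (nat_lit 2))) x48170) x52598) x52526) x52546)
    (Nat.sub (Nat.add (Nat.add (Nat.add (Nat.add (Nat.add (Nat.add (Nat.add C x52546) x48172) x52600) x52528) x52552) x52544) x52548) x32864)
    (Nat.sub (Nat.sub (Nat.add (Nat.add (Nat.add (Nat.add (Nat.add C x48174) x52602) x52530) x52554) x52546) (Nat.mul x52548 (nat_lit 2))) x32866)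
    (Nat.sub (Nat.add (Nat.add (Nat.add (Nat.add (Nat.add (Nat.add C (Nat.mul x52552 (nat_lit 2))) x48178) x52606) x52534) x52546) x52554) x32870)
    (Nat.sub (Nat.add (Nat.add (Nat.add (Nat.add (Nat.add (Nat.add (Nat.add C x52554) x48180) x52608) x52536) x52548) x52560) x52552) x32872)
    (Nat.sub (Nat.add (Nat.add (Nat.add (Nat.add C (Nat.mul x52560 (nat_lit 2))) x48186) x52614) x52554) x32878)
    (Nat.add (Nat.add (Nat.add (Nat.add (Nat.add (Nat.add C (Nat.mul x52574 (nat_lit 4))) x48200) x52736) x52520) x52580) x52576)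
    (Nat.sub (Nat.add (Nat.add (Nat.add (Nat.add (Nat.add (Nat.add C (Nat.mul x52576 (nat_lit 2))) x48202) x52738) x52522) x52582) x52574) x32894)
    (Nat.add (Nat.add (Nat.add (Nat.add (Nat.add (Nat.add (Nat.add C (Nat.mul x52580 (nat_lit 2))) x48206) x52742) x52526) x52598) x52574) x52582)
    (Nat.sub (Nat.add (Nat.add (Nat.add (Nat.add (Nat.add (Nat.add (Nat.add (Nat.add (Nat.add C (Nat.mul x52582 (nat_lit 2))) x48208) x52744) x52528) x52600) x52576) x52588) x52580) x52584) x32900)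
    (Nat.sub (Nat.add (Nat.add (Nat.add (Nat.add (Nat.add (Nat.add C x48210) x52746) x52530) x52602) x52590) x52582) x32902)
    (Nat.sub (Nat.add (Nat.add (Nat.add (Nat.add (Nat.add (Nat.add C x48214) x52750) x52534) x52606) x52582) x52590) x32906)
    (Nat.sub (Nat.add (Nat.add (Nat.add (Nat.add (Nat.add (Nat.add C x48216) x52752) x52536) x52608) x52584) x52588) x32908)
    (Nat.add (Nat.add (Nat.add (Nat.add (Nat.add (Nat.add (Nat.add C (Nat.mul x52598 (nat_lit 3))) x48224) x52760) x52544) x52652) x52580) x52600)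
    (Nat.sub (Nat.add (Nat.add (Nat.add (Nat.add (Nat.add (Nat.add (Nat.add (Nat.add (Nat.add C (Nat.mul x52600 (nat_lit 2))) x48226) x52762) x52546) x52654) x52582) x52606) x52598) x52602) x32918)
    (Nat.sub (Nat.sub (Nat.add (Nat.add (Nat.add (Nat.add (Nat.add (Nat.add (Nat.add C x48228) x52764) x52548) x52656) x52584) x52608) x52600) x52602) x32920)
    (Nat.sub (Nat.add (Nat.add (Nat.add (Nat.add (Nat.add (Nat.add (Nat.add (Nat.add (Nat.add C (Nat.mul x52606 (nat_lit 2))) x48232) x52768) x52552) x52660) x52588) x52624) x52600) x52608) x32924)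
    (Nat.sub (Nat.add (Nat.add (Nat.add (Nat.add (Nat.add (Nat.add (Nat.add (Nat.add (Nat.add (Nat.add C x52608) x48234) x52770) x52554) x52662) x52590) x52626) x52602) x52614) x52606) x32926)
    (Nat.sub (Nat.add (Nat.add (Nat.add (Nat.add (Nat.add (Nat.add (Nat.add C x52614) x48240) x52776) x52560) x52668) x52632) x52608) x32932)
    (Nat.sub (Nat.add (Nat.add (Nat.add (Nat.add (Nat.add (Nat.add C (Nat.mul x52624 (nat_lit 2))) x48250) x52786) x52678) x52606) x52626) x32942)
    (Nat.sub (Nat.add (Nat.add (Nat.add (Nat.add (Nat.add (Nat.add C x48252) x52788) x52680) x52608) x52632) x52624) x32944)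
    (Nat.sub (Nat.add (Nat.add (Nat.add (Nat.add (Nat.add (Nat.add C (Nat.mul x52632 (nat_lit 2))) x48258) x52794) x52686) x52614) x52626) x32950)
    (Nat.add (Nat.add (Nat.add (Nat.add (Nat.add C (Nat.mul x52652 (nat_lit 2))) x48278) x52814) x52598) x52654)
    (Nat.sub (Nat.add (Nat.add (Nat.add (Nat.add (Nat.add (Nat.add (Nat.add C x52654) x48280) x52816) x52600) x52660) x52652) x52656) x32972)
    (Nat.sub (Nat.sub (Nat.add (Nat.add (Nat.add (Nat.add (Nat.add C x48282) x52818) x52602) x52662) x52654) (Nat.mul x52656 (nat_lit 2))) x32974)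
    (Nat.sub (Nat.add (Nat.add (Nat.add (Nat.add (Nat.add (Nat.add C x48286) x52822) x52606) x52678) x52654) x52662) x32978)
    (Nat.sub (Nat.sub (Nat.add (Nat.add (Nat.add (Nat.add (Nat.add (Nat.add (Nat.add C x48288) x52824) x52608) x52680) x52656) x52668) x52660) x52662) x32980)
    (Nat.sub (Nat.sub (Nat.add (Nat.add (Nat.add (Nat.add (Nat.add C x48294) x52830) x52614) x52686) x52662) (Nat.mul x52668 (nat_lit 2))) x32986)
    (Nat.sub (Nat.add (Nat.add (Nat.add (Nat.add (Nat.add (Nat.add C (Nat.mul x52678 (nat_lit 2))) x48304) x52840) x52624) x52660) x52680) x32996)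
    (Nat.sub (Nat.add (Nat.add (Nat.add (Nat.add (Nat.add (Nat.add C x48306) x52842) x52626) x52662) x52686) x52678) x32998)
    (Nat.sub (Nat.add (Nat.add (Nat.add (Nat.add (Nat.add (Nat.add (Nat.add C x52686) x48312) x52848) x52632) x52668) x52704) x52680) x33004)
    (Nat.sub (Nat.add (Nat.add (Nat.add (Nat.add C (Nat.mul x52704 (nat_lit 2))) x48330) x52866) x52686) x33022)
    (Nat.add (Nat.add (Nat.add (Nat.add (Nat.add (Nat.add C (Nat.mul x52736 (nat_lit 4))) x48362) x53222) x52574) x52742) x52738)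
    (Nat.sub (Nat.add (Nat.add (Nat.add (Nat.add (Nat.add (Nat.add C (Nat.mul x52738 (nat_lit 2))) x48364) x53224) x52576) x52744) x52736) x33056)
    (Nat.add (Nat.add (Nat.add (Nat.add (Nat.add (Nat.add (Nat.add C (Nat.mul x52742 (nat_lit 2))) x48368) x53228) x52580) x52760) x52736) x52744)
    (Nat.sub (Nat.add (Nat.add (Nat.add (Nat.add (Nat.add (Nat.add (Nat.add (Nat.add (Nat.add C (Nat.mul x52744 (nat_lit 2))) x48370) x53230) x52582) x52762) x52738) x52750) x52742) x52746) x33062)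
    (Nat.sub (Nat.add (Nat.add (Nat.add (Nat.add (Nat.add (Nat.add C x48372) x53232) x52584) x52764) x52752) x52744) x33064)
    (Nat.sub (Nat.add (Nat.add (Nat.add (Nat.add (Nat.add (Nat.add C x48376) x53236) x52588) x52768) x52744) x52752) x33068)
    (Nat.sub (Nat.add (Nat.add (Nat.add (Nat.add (Nat.add (Nat.add C x48378) x53238) x52590) x52770) x52746) x52750) x33070)
    (Nat.add (Nat.add (Nat.add (Nat.add (Nat.add (Nat.add (Nat.add C (Nat.mul x52760 (nat_lit 2))) x48386) x53246) x52598) x52814) x52742) x52762)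
    (Nat.sub (Nat.add (Nat.add (Nat.add (Nat.add (Nat.add (Nat.add (Nat.add (Nat.add (Nat.add C x52762) x48388) x53248) x52600) x52816) x52744) x52768) x52760) x52764) x33080)
    (Nat.sub (Nat.sub (Nat.add (Nat.add (Nat.add (Nat.add (Nat.add (Nat.add (Nat.add C x48390) x53250) x52602) x52818) x52746) x52770) x52762) (Nat.mul x52764 (nat_lit 2))) x33082)
    (Nat.sub (Nat.add (Nat.add (Nat.add (Nat.add (Nat.add (Nat.add (Nat.add (Nat.add (Nat.add C x52768) x48394) x53254) x52606) x52822) x52750) x52786) x52762) x52770) x33086)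
    (Nat.sub (Nat.add (Nat.add (Nat.add (Nat.add (Nat.add (Nat.add (Nat.add (Nat.add (Nat.add C x48396) x53256) x52608) x52824) x52752) x52788) x52764) x52776) x52768) x33088)
    (Nat.sub (Nat.add (Nat.add (Nat.add (Nat.add (Nat.add (Nat.add C x48402) x53262) x52614) x52830) x52794) x52770) x33094)
    (Nat.sub (Nat.add (Nat.add (Nat.add (Nat.add (Nat.add (Nat.add C x48412) x53272) x52624) x52840) x52768) x52788) x33104)
    (Nat.sub (Nat.sub (Nat.add (Nat.add (Nat.add (Nat.add (Nat.add (Nat.add (Nat.add C x48414) x53274) x52626) x52842) x52770) x52794) x52786) (Nat.mul x52788 (nat_lit 2))) x33106)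
    (Nat.sub (Nat.add (Nat.add (Nat.add (Nat.add (Nat.add (Nat.add C x48420) x53280) x52632) x52848) x52776) x52788) x33112)
    (Nat.add (Nat.add (Nat.add (Nat.add (Nat.add (Nat.add (Nat.add C (Nat.mul x52814 (nat_lit 3))) x48440) x53300) x52652) x52976) x52760) x52816)
    (Nat.sub (Nat.add (Nat.add (Nat.add (Nat.add (Nat.add (Nat.add (Nat.add (Nat.add (Nat.add C (Nat.mul x52816 (nat_lit 2))) x48442) x53302) x52654) x52978) x52762) x52822) x52814) x52818) x33134)
    (Nat.sub (Nat.sub (Nat.add (Nat.add (Nat.add (Nat.add (Nat.add (Nat.add (Nat.add C x48444) x53304) x52656) x52980) x52764) x52824) x52816) x52818) x33136)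
    (Nat.sub (Nat.add (Nat.add (Nat.add (Nat.add (Nat.add (Nat.add (Nat.add (Nat.add (Nat.add C x52822) x48448) x53308) x52660) x52984) x52768) x52840) x52816) x52824) x33140)
    (Nat.sub (Nat.add (Nat.add (Nat.add (Nat.add (Nat.add (Nat.add (Nat.add (Nat.add (Nat.add C x48450) x53310) x52662) x52986) x52770) x52842) x52818) x52830) x52822) x33142)
    (Nat.sub (Nat.sub (Nat.add (Nat.add (Nat.add (Nat.add (Nat.add (Nat.add (Nat.add C x48456) x53316) x52668) x52992) x52776) x52848) x52824) x52830) x33148)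
    (Nat.sub (Nat.add (Nat.add (Nat.add (Nat.add (Nat.add (Nat.add (Nat.add (Nat.add (Nat.add C (Nat.mul x52840 (nat_lit 2))) x48466) x53326) x52678) x53002) x52786) x52894) x52822) x52842) x33158)
    (Nat.sub (Nat.add (Nat.add (Nat.add (Nat.add (Nat.add (Nat.add (Nat.add (Nat.add (Nat.add C x48468) x53328) x52680) x53004) x52788) x52896) x52824) x52848) x52840) x33160)
    (Nat.sub (Nat.add (Nat.add (Nat.add (Nat.add (Nat.add (Nat.add (Nat.add (Nat.add (Nat.add (Nat.add C x52848) x48474) x53334) x52686) x53010) x52794) x52902) x52830) x52866) x52842) x33166)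
    (Nat.sub (Nat.add (Nat.add (Nat.add (Nat.add (Nat.add (Nat.add (Nat.add C x52866) x48492) x53352) x52704) x53028) x52920) x52848) x33184)
    (Nat.sub (Nat.add (Nat.add (Nat.add (Nat.add (Nat.add (Nat.add C (Nat.mul x52894 (nat_lit 2))) x48520) x53380) x53056) x52840) x52896) x33212)
    (Nat.sub (Nat.add (Nat.add (Nat.add (Nat.add (Nat.add (Nat.add C x48522) x53382) x53058) x52842) x52902) x52894) x33214)
    (Nat.sub (Nat.add (Nat.add (Nat.add (Nat.add (Nat.add (Nat.add C x48528) x53388) x53064) x52848) x52920) x52896) x33220)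
    (Nat.sub (Nat.add (Nat.add (Nat.add (Nat.add (Nat.add (Nat.add C (Nat.mul x52920 (nat_lit 2))) x48546) x53406) x53082) x52866) x52902) x33238)
    (Nat.add (Nat.add (Nat.add (Nat.add (Nat.add C (Nat.mul x52976 (nat_lit 2))) x48602) x53462) x52814) x52978)
    (Nat.sub (Nat.add (Nat.add (Nat.add (Nat.add (Nat.add (Nat.add (Nat.add C x52978) x48604) x53464) x52816) x52984) x52976) x52980) x33296)
    (Nat.sub (Nat.sub (Nat.add (Nat.add (Nat.add (Nat.add (Nat.add C x48606) x53466) x52818) x52986) x52978) (Nat.mul x52980 (nat_lit 2))) x33298)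
    (Nat.sub (Nat.add (Nat.add (Nat.add (Nat.add (Nat.add (Nat.add C x48610) x53470) x52822) x53002) x52978) x52986) x33302)
    (Nat.sub (Nat.sub (Nat.add (Nat.add (Nat.add (Nat.add (Nat.add (Nat.add (Nat.add C x48612) x53472) x52824) x53004) x52980) x52992) x52984) x52986) x33304)
    (Nat.sub (Nat.sub (Nat.add (Nat.add (Nat.add (Nat.add (Nat.add C x48618) x53478) x52830) x53010) x52986) (Nat.mul x52992 (nat_lit 2))) x33310)
    (Nat.sub (Nat.add (Nat.add (Nat.add (Nat.add (Nat.add (Nat.add C x48628) x53488) x52840) x53056) x52984) x53004) x33320)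
    (Nat.sub (Nat.sub (Nat.add (Nat.add (Nat.add (Nat.add (Nat.add (Nat.add (Nat.add C x48630) x53490) x52842) x53058) x52986) x53010) x53002) (Nat.mul x53004 (nat_lit 2))) x33322)
    (Nat.sub (Nat.sub (Nat.add (Nat.add (Nat.add (Nat.add (Nat.add (Nat.add (Nat.add C x48636) x53496) x52848) x53064) x52992) x53028) x53004) x53010) x33328)
    (Nat.sub (Nat.sub (Nat.add (Nat.add (Nat.add (Nat.add (Nat.add C x48654) x53514) x52866) x53082) x53010) (Nat.mul x53028 (nat_lit 2))) x33346)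
    (Nat.sub (Nat.add (Nat.add (Nat.add (Nat.add (Nat.add (Nat.add C (Nat.mul x53056 (nat_lit 2))) x48682) x53542) x52894) x53002) x53058) x33374)
    (Nat.sub (Nat.add (Nat.add (Nat.add (Nat.add (Nat.add (Nat.add C x48684) x53544) x52896) x53004) x53064) x53056) x33376)
    (Nat.sub (Nat.add (Nat.add (Nat.add (Nat.add (Nat.add (Nat.add C x48690) x53550) x52902) x53010) x53082) x53058) x33382)
    (Nat.sub (Nat.add (Nat.add (Nat.add (Nat.add (Nat.add (Nat.add (Nat.add C x53082) x48708) x53568) x52920) x53028) x53136) x53064) x33400)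
    (Nat.sub (Nat.add (Nat.add (Nat.add (Nat.add C (Nat.mul x53136 (nat_lit 2))) x48762) x53622) x53082) x33454)
    (Nat.add (Nat.add (Nat.add (Nat.add (Nat.add (Nat.add C (Nat.mul x53222 (nat_lit 4))) x48848) x54680) x52736) x53228) x53224)
    (Nat.sub (Nat.add (Nat.add (Nat.add (Nat.add (Nat.add (Nat.add C (Nat.mul x53224 (nat_lit 2))) x48850) x54682) x52738) x53230) x53222) x33542)
    (Nat.add (Nat.add (Nat.add (Nat.add (Nat.add (Nat.add (Nat.add C (Nat.mul x53228 (nat_lit 2))) x48854) x54686) x52742) x53246) x53222) x53230)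
    (Nat.sub (Nat.add (Nat.add (Nat.add (Nat.add (Nat.add (Nat.add (Nat.add (Nat.add (Nat.add C (Nat.mul x53230 (nat_lit 2))) x48856) x54688) x52744) x53248) x53224) x53236) x53228) x53232) x33548)
    (Nat.sub (Nat.add (Nat.add (Nat.add (Nat.add (Nat.add (Nat.add C x48858) x54690) x52746) x53250) x53238) x53230) x33550)
    (Nat.sub (Nat.add (Nat.add (Nat.add (Nat.add (Nat.add (Nat.add C x48862) x54694) x52750) x53254) x53230) x53238) x33554)
    (Nat.sub (Nat.add (Nat.add (Nat.add (Nat.add (Nat.add (Nat.add C x48864) x54696) x52752) x53256) x53232) x53236) x33556)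
    (Nat.add (Nat.add (Nat.add (Nat.add (Nat.add (Nat.add (Nat.add C (Nat.mul x53246 (nat_lit 2))) x48872) x54704) x52760) x53300) x53228) x53248)
    (Nat.sub (Nat.add (Nat.add (Nat.add (Nat.add (Nat.add (Nat.add (Nat.add (Nat.add (Nat.add C x53248) x48874) x54706) x52762) x53302) x53230) x53254) x53246) x53250) x33566)
    (Nat.sub (Nat.sub (Nat.add (Nat.add (Nat.add (Nat.add (Nat.add (Nat.add (Nat.add C x48876) x54708) x52764) x53304) x53232) x53256) x53248) (Nat.mul x53250 (nat_lit 2))) x33568)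
    (Nat.sub (Nat.add (Nat.add (Nat.add (Nat.add (Nat.add (Nat.add (Nat.add (Nat.add (Nat.add C x53254) x48880) x54712) x52768) x53308) x53236) x53272) x53248) x53256) x33572)
    (Nat.sub (Nat.add (Nat.add (Nat.add (Nat.add (Nat.add (Nat.add (Nat.add (Nat.add (Nat.add C x48882) x54714) x52770) x53310) x53238) x53274) x53250) x53262) x53254) x33574)
    (Nat.sub (Nat.add (Nat.add (Nat.add (Nat.add (Nat.add (Nat.add C x48888) x54720) x52776) x53316) x53280) x53256) x33580)
    (Nat.sub (Nat.add (Nat.add (Nat.add (Nat.add (Nat.add (Nat.add C x48898) x54730) x52786) x53326) x53254) x53274) x33590)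
    (Nat.sub (Nat.sub (Nat.add (Nat.add (Nat.add (Nat.add (Nat.add (Nat.add (Nat.add C x48900) x54732) x52788) x53328) x53256) x53280) x53272) (Nat.mul x53274 (nat_lit 2))) x33592)
    (Nat.sub (Nat.add (Nat.add (Nat.add (Nat.add (Nat.add (Nat.add C x48906) x54738) x52794) x53334) x53262) x53274) x33598)
    (Nat.add (Nat.add (Nat.add (Nat.add (Nat.add (Nat.add (Nat.add C (Nat.mul x53300 (nat_lit 2))) x48926) x54758) x52814) x53462) x53246) x53302)
    (Nat.sub (Nat.add (Nat.add (Nat.add (Nat.add (Nat.add (Nat.add (Nat.add (Nat.add (Nat.add C x53302) x48928) x54760) x52816) x53464) x53248) x53308) x53300) x53304) x33620)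
    (Nat.sub (Nat.sub (Nat.add (Nat.add (Nat.add (Nat.add (Nat.add (Nat.add (Nat.add C x48930) x54762) x52818) x53466) x53250) x53310) x53302) (Nat.mul x53304 (nat_lit 2))) x33622)
    (Nat.sub (Nat.add (Nat.add (Nat.add (Nat.add (Nat.add (Nat.add (Nat.add (Nat.add C x48934) x54766) x52822) x53470) x53254) x53326) x53302) x53310) x33626)
    (Nat.sub (Nat.sub (Nat.add (Nat.add (Nat.add (Nat.add (Nat.add (Nat.add (Nat.add (Nat.add (Nat.add C x48936) x54768) x52824) x53472) x53256) x53328) x53304) x53316) x53308) x53310) x33628)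
    (Nat.sub (Nat.sub (Nat.add (Nat.add (Nat.add (Nat.add (Nat.add (Nat.add (Nat.add C x48942) x54774) x52830) x53478) x53262) x53334) x53310) (Nat.mul x53316 (nat_lit 2))) x33634)
    (Nat.sub (Nat.add (Nat.add (Nat.add (Nat.add (Nat.add (Nat.add (Nat.add (Nat.add (Nat.add C x53326) x48952) x54784) x52840) x53488) x53272) x53380) x53308) x53328) x33644)
    (Nat.sub (Nat.sub (Nat.add (Nat.add (Nat.add (Nat.add (Nat.add (Nat.add (Nat.add (Nat.add (Nat.add C x48954) x54786) x52842) x53490) x53274) x53382) x53310) x53334) x53326) x53328) x33646)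
    (Nat.sub (Nat.add (Nat.add (Nat.add (Nat.add (Nat.add (Nat.add (Nat.add (Nat.add (Nat.add C x48960) x54792) x52848) x53496) x53280) x53388) x53316) x53352) x53328) x33652)
    (Nat.sub (Nat.add (Nat.add (Nat.add (Nat.add (Nat.add (Nat.add C x48978) x54810) x52866) x53514) x53406) x53334) x33670)
    (Nat.sub (Nat.add (Nat.add (Nat.add (Nat.add (Nat.add (Nat.add C x49006) x54838) x52894) x53542) x53326) x53382) x33698)
    (Nat.sub (Nat.sub (Nat.add (Nat.add (Nat.add (Nat.add (Nat.add (Nat.add (Nat.add C x49008) x54840) x52896) x53544) x53328) x53388) x53380) (Nat.mul x53382 (nat_lit 2))) x33700)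
    (Nat.sub (Nat.sub (Nat.add (Nat.add (Nat.add (Nat.add (Nat.add (Nat.add (Nat.add C x49014) x54846) x52902) x53550) x53334) x53406) x53382) (Nat.mul x53388 (nat_lit 2))) x33706)
    (Nat.sub (Nat.add (Nat.add (Nat.add (Nat.add (Nat.add (Nat.add C x49032) x54864) x52920) x53568) x53352) x53388) x33724)
    (Nat.add (Nat.add (Nat.add (Nat.add (Nat.add (Nat.add (Nat.add C (Nat.mul x53462 (nat_lit 3))) x49088) x54920) x52976) x53948) x53300) x53464)
    (Nat.sub (Nat.add (Nat.add (Nat.add (Nat.add (Nat.add (Nat.add (Nat.add (Nat.add (Nat.add C (Nat.mul x53464 (nat_lit 2))) x49090) x54922) x52978) x53950) x53302) x53470) x53462) x53466) x33782)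
    (Nat.sub (Nat.sub (Nat.add (Nat.add (Nat.add (Nat.add (Nat.add (Nat.add (Nat.add C x49092) x54924) x52980) x53952) x53304) x53472) x53464) x53466) x33784)
    (Nat.sub (Nat.add (Nat.add (Nat.add (Nat.add (Nat.add (Nat.add (Nat.add (Nat.add (Nat.add C x53470) x49096) x54928) x52984) x53956) x53308) x53488) x53464) x53472) x33788)
    (Nat.sub (Nat.add (Nat.add (Nat.add (Nat.add (Nat.add (Nat.add (Nat.add (Nat.add (Nat.add C x49098) x54930) x52986) x53958) x53310) x53490) x53466) x53478) x53470) x33790)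
    (Nat.sub (Nat.sub (Nat.add (Nat.add (Nat.add (Nat.add (Nat.add (Nat.add (Nat.add C x49104) x54936) x52992) x53964) x53316) x53496) x53472) x53478) x33796)
    (Nat.sub (Nat.add (Nat.add (Nat.add (Nat.add (Nat.add (Nat.add (Nat.add (Nat.add (Nat.add C x53488) x49114) x54946) x53002) x53974) x53326) x53542) x53470) x53490) x33806)
    (Nat.sub (Nat.sub (Nat.add (Nat.add (Nat.add (Nat.add (Nat.add (Nat.add (Nat.add (Nat.add (Nat.add C x49116) x54948) x53004) x53976) x53328) x53544) x53472) x53496) x53488) x53490) x33808)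
    (Nat.sub (Nat.add (Nat.add (Nat.add (Nat.add (Nat.add (Nat.add (Nat.add (Nat.add (Nat.add C x49122) x54954) x53010) x53982) x53334) x53550) x53478) x53514) x53490) x33814)
    (Nat.sub (Nat.sub (Nat.add (Nat.add (Nat.add (Nat.add (Nat.add (Nat.add (Nat.add C x49140) x54972) x53028) x54000) x53352) x53568) x53496) x53514) x33832)
    (Nat.sub (Nat.add (Nat.add (Nat.add (Nat.add (Nat.add (Nat.add (Nat.add (Nat.add (Nat.add C (Nat.mul x53542 (nat_lit 2))) x49168) x55000) x53056) x54028) x53380) x53704) x53488) x53544) x33860)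
    (Nat.sub (Nat.add (Nat.add (Nat.add (Nat.add (Nat.add (Nat.add (Nat.add (Nat.add (Nat.add C x49170) x55002) x53058) x54030) x53382) x53706) x53490) x53550) x53542) x33862)
    (Nat.sub (Nat.add (Nat.add (Nat.add (Nat.add (Nat.add (Nat.add (Nat.add (Nat.add (Nat.add C x49176) x55008) x53064) x54036) x53388) x53712) x53496) x53568) x53544) x33868)
    (Nat.sub (Nat.add (Nat.add (Nat.add (Nat.add (Nat.add (Nat.add (Nat.add (Nat.add (Nat.add (Nat.add C x53568) x49194) x55026) x53082) x54054) x53406) x53730) x53514) x53622) x53550) x33886)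
    (Nat.sub (Nat.add (Nat.add (Nat.add (Nat.add (Nat.add (Nat.add (Nat.add C x53622) x49248) x55080) x53136) x54108) x53784) x53568) x33940)
    (Nat.sub (Nat.add (Nat.add (Nat.add (Nat.add (Nat.add (Nat.add C (Nat.mul x53704 (nat_lit 2))) x49330) x55162) x54190) x53542) x53706) x34022)
    (Nat.sub (Nat.add (Nat.add (Nat.add (Nat.add (Nat.add (Nat.add C x49332) x55164) x54192) x53544) x53712) x53704) x34024)
    (Nat.sub (Nat.add (Nat.add (Nat.add (Nat.add (Nat.add (Nat.add C x49338) x55170) x54198) x53550) x53730) x53706) x34030)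
    (Nat.sub (Nat.add (Nat.add (Nat.add (Nat.add (Nat.add (Nat.add C x49356) x55188) x54216) x53568) x53784) x53712) x34048)
    (Nat.sub (Nat.add (Nat.add (Nat.add (Nat.add (Nat.add (Nat.add C (Nat.mul x53784 (nat_lit 2))) x49410) x55242) x54270) x53622) x53730) x34102)
    (Nat.add (Nat.add (Nat.add (Nat.add (Nat.add C (Nat.mul x53948 (nat_lit 2))) x49574) x55406) x53462) x53950)
    (Nat.sub (Nat.add (Nat.add (Nat.add (Nat.add (Nat.add (Nat.add (Nat.add C x53950) x49576) x55408) x53464) x53956) x53948) x53952) x34268)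
    (Nat.sub (Nat.sub (Nat.add (Nat.add (Nat.add (Nat.add (Nat.add C x49578) x55410) x53466) x53958) x53950) (Nat.mul x53952 (nat_lit 2))) x34270)
    (Nat.sub (Nat.add (Nat.add (Nat.add (Nat.add (Nat.add (Nat.add C x49582) x55414) x53470) x53974) x53950) x53958) x34274)
    (Nat.sub (Nat.sub (Nat.add (Nat.add (Nat.add (Nat.add (Nat.add (Nat.add (Nat.add C x49584) x55416) x53472) x53976) x53952) x53964) x53956) x53958) x34276)
    (Nat.sub (Nat.sub (Nat.add (Nat.add (Nat.add (Nat.add (Nat.add C x49590) x55422) x53478) x53982) x53958) (Nat.mul x53964 (nat_lit 2))) x34282)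
    (Nat.sub (Nat.add (Nat.add (Nat.add (Nat.add (Nat.add (Nat.add C x49600) x55432) x53488) x54028) x53956) x53976) x34292)
    (Nat.sub (Nat.sub (Nat.add (Nat.add (Nat.add (Nat.add (Nat.add (Nat.add (Nat.add C x49602) x55434) x53490) x54030) x53958) x53982) x53974) (Nat.mul x53976 (nat_lit 2))) x34294)
    (Nat.sub (Nat.sub (Nat.add (Nat.add (Nat.add (Nat.add (Nat.add (Nat.add (Nat.add C x49608) x55440) x53496) x54036) x53964) x54000) x53976) x53982) x34300)
    (Nat.sub (Nat.sub (Nat.add (Nat.add (Nat.add (Nat.add (Nat.add C x49626) x55458) x53514) x54054) x53982) (Nat.mul x54000 (nat_lit 2))) x34318)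
    (Nat.sub (Nat.add (Nat.add (Nat.add (Nat.add (Nat.add (Nat.add C x49654) x55486) x53542) x54190) x53974) x54030) x34346)
    (Nat.sub (Nat.sub (Nat.add (Nat.add (Nat.add (Nat.add (Nat.add (Nat.add (Nat.add C x49656) x55488) x53544) x54192) x53976) x54036) x54028) (Nat.mul x54030 (nat_lit 2))) x34348)
    (Nat.sub (Nat.sub (Nat.add (Nat.add (Nat.add (Nat.add (Nat.add (Nat.add (Nat.add C x49662) x55494) x53550) x54198) x53982) x54054) x54030) (Nat.mul x54036 (nat_lit 2))) x34354)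
    (Nat.sub (Nat.sub (Nat.add (Nat.add (Nat.add (Nat.add (Nat.add (Nat.add (Nat.add C x49680) x55512) x53568) x54216) x54000) x54108) x54036) x54054) x34372)
    (Nat.sub (Nat.sub (Nat.add (Nat.add (Nat.add (Nat.add (Nat.add C x49734) x55566) x53622) x54270) x54054) (Nat.mul x54108 (nat_lit 2))) x34426)
    (Nat.sub (Nat.add (Nat.add (Nat.add (Nat.add (Nat.add (Nat.add C (Nat.mul x54190 (nat_lit 2))) x49816) x55648) x53704) x54028) x54192) x34508)
    (Nat.sub (Nat.add (Nat.add (Nat.add (Nat.add (Nat.add (Nat.add C x49818) x55650) x53706) x54030) x54198) x54190) x34510)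
    (Nat.sub (Nat.add (Nat.add (Nat.add (Nat.add (Nat.add (Nat.add C x49824) x55656) x53712) x54036) x54216) x54192) x34516)
    (Nat.sub (Nat.add (Nat.add (Nat.add (Nat.add (Nat.add (Nat.add C x49842) x55674) x53730) x54054) x54270) x54198) x34534)
    (Nat.sub (Nat.add (Nat.add (Nat.add (Nat.add (Nat.add (Nat.add (Nat.add C x54270) x49896) x55728) x53784) x54108) x54432) x54216) x34588)
    (Nat.sub (Nat.add (Nat.add (Nat.add (Nat.add C (Nat.mul x54432 (nat_lit 2))) x50058) x55890) x54270) x34750)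
    (Nat.add (Nat.add (Nat.add (Nat.add (Nat.add C (Nat.mul x54680 (nat_lit 6))) x50306) x53222) x54686) x54682)
    (Nat.sub (Nat.add (Nat.add (Nat.add (Nat.add (Nat.add C (Nat.mul x54682 (nat_lit 4))) x50308) x53224) x54688) x54680) x35000)
    (Nat.add (Nat.add (Nat.add (Nat.add (Nat.add (Nat.add C (Nat.mul x54686 (nat_lit 4))) x50312) x53228) x54704) x54680) x54688)
    (Nat.sub (Nat.add (Nat.add (Nat.add (Nat.add (Nat.add (Nat.add (Nat.add (Nat.add C (Nat.mul x54688 (nat_lit 4))) x50314) x53230) x54706) x54682) x54694) x54686) x54690) x35006)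
    (Nat.sub (Nat.add (Nat.add (Nat.add (Nat.add (Nat.add (Nat.add C (Nat.mul x54690 (nat_lit 2))) x50316) x53232) x54708) x54696) x54688) x35008)
    (Nat.sub (Nat.add (Nat.add (Nat.add (Nat.add (Nat.add (Nat.add C (Nat.mul x54694 (nat_lit 2))) x50320) x53236) x54712) x54688) x54696) x35012)
    (Nat.sub (Nat.add (Nat.add (Nat.add (Nat.add (Nat.add (Nat.add C (Nat.mul x54696 (nat_lit 2))) x50322) x53238) x54714) x54690) x54694) x35014)
    (Nat.add (Nat.add (Nat.add (Nat.add (Nat.add (Nat.add C (Nat.mul x54704 (nat_lit 4))) x50330) x53246) x54758) x54686) x54706)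
    (Nat.sub (Nat.add (Nat.add (Nat.add (Nat.add (Nat.add (Nat.add (Nat.add (Nat.add C (Nat.mul x54706 (nat_lit 3))) x50332) x53248) x54760) x54688) x54712) x54704) x54708) x35024)
    (Nat.sub (Nat.add (Nat.add (Nat.add (Nat.add (Nat.add (Nat.add C x50334) x53250) x54762) x54690) x54714) x54706) x35026)
    (Nat.sub (Nat.add (Nat.add (Nat.add (Nat.add (Nat.add (Nat.add (Nat.add (Nat.add C (Nat.mul x54712 (nat_lit 3))) x50338) x53254) x54766) x54694) x54730) x54706) x54714) x35030)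
    (Nat.sub (Nat.add (Nat.add (Nat.add (Nat.add (Nat.add (Nat.add (Nat.add (Nat.add (Nat.add C (Nat.mul x54714 (nat_lit 2))) x50340) x53256) x54768) x54696) x54732) x54708) x54720) x54712) x35032)
    (Nat.sub (Nat.add (Nat.add (Nat.add (Nat.add (Nat.add (Nat.add C (Nat.mul x54720 (nat_lit 2))) x50346) x53262) x54774) x54738) x54714) x35038)
    (Nat.sub (Nat.add (Nat.add (Nat.add (Nat.add (Nat.add (Nat.add C (Nat.mul x54730 (nat_lit 2))) x50356) x53272) x54784) x54712) x54732) x35048)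
    (Nat.sub (Nat.add (Nat.add (Nat.add (Nat.add (Nat.add (Nat.add C x50358) x53274) x54786) x54714) x54738) x54730) x35050)
    (Nat.sub (Nat.add (Nat.add (Nat.add (Nat.add (Nat.add (Nat.add C (Nat.mul x54738 (nat_lit 2))) x50364) x53280) x54792) x54720) x54732) x35056)
    (Nat.add (Nat.add (Nat.add (Nat.add (Nat.add (Nat.add C (Nat.mul x54758 (nat_lit 4))) x50384) x53300) x54920) x54704) x54760)
    (Nat.sub (Nat.add (Nat.add (Nat.add (Nat.add (Nat.add (Nat.add (Nat.add (Nat.add C (Nat.mul x54760 (nat_lit 3))) x50386) x53302) x54922) x54706) x54766) x54758) x54762) x35078)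
    (Nat.sub (Nat.add (Nat.add (Nat.add (Nat.add (Nat.add (Nat.add C x50388) x53304) x54924) x54708) x54768) x54760) x35080)
    (Nat.sub (Nat.add (Nat.add (Nat.add (Nat.add (Nat.add (Nat.add (Nat.add (Nat.add C (Nat.mul x54766 (nat_lit 2))) x50392) x53308) x54928) x54712) x54784) x54760) x54768) x35084)
    (Nat.sub (Nat.add (Nat.add (Nat.add (Nat.add (Nat.add (Nat.add (Nat.add (Nat.add (Nat.add C x54768) x50394) x53310) x54930) x54714) x54786) x54762) x54774) x54766) x35086)
    (Nat.sub (Nat.add (Nat.add (Nat.add (Nat.add (Nat.add (Nat.add C x50400) x53316) x54936) x54720) x54792) x54768) x35092)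
    (Nat.sub (Nat.add (Nat.add (Nat.add (Nat.add (Nat.add (Nat.add (Nat.add (Nat.add C (Nat.mul x54784 (nat_lit 3))) x50410) x53326) x54946) x54730) x54838) x54766) x54786) x35102)
    (Nat.sub (Nat.add (Nat.add (Nat.add (Nat.add (Nat.add (Nat.add (Nat.add (Nat.add (Nat.add C x54786) x50412) x53328) x54948) x54732) x54840) x54768) x54792) x54784) x35104)
    (Nat.sub (Nat.add (Nat.add (Nat.add (Nat.add (Nat.add (Nat.add (Nat.add (Nat.add (Nat.add C (Nat.mul x54792 (nat_lit 2))) x50418) x53334) x54954) x54738) x54846) x54774) x54810) x54786) x35110)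
    (Nat.sub (Nat.add (Nat.add (Nat.add (Nat.add (Nat.add (Nat.add C (Nat.mul x54810 (nat_lit 2))) x50436) x53352) x54972) x54864) x54792) x35128)
    (Nat.sub (Nat.add (Nat.add (Nat.add (Nat.add (Nat.add (Nat.add C (Nat.mul x54838 (nat_lit 2))) x50464) x53380) x55000) x54784) x54840) x35156)
    (Nat.sub (Nat.add (Nat.add (Nat.add (Nat.add (Nat.add (Nat.add C x50466) x53382) x55002) x54786) x54846) x54838) x35158)
    (Nat.sub (Nat.add (Nat.add (Nat.add (Nat.add (Nat.add (Nat.add C x50472) x53388) x55008) x54792) x54864) x54840) x35164)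
    (Nat.sub (Nat.add (Nat.add (Nat.add (Nat.add (Nat.add (Nat.add C (Nat.mul x54864 (nat_lit 2))) x50490) x53406) x55026) x54810) x54846) x35182)
    (Nat.add (Nat.add (Nat.add (Nat.add (Nat.add (Nat.add C (Nat.mul x54920 (nat_lit 4))) x50546) x53462) x55406) x54758) x54922)
    (Nat.sub (Nat.add (Nat.add (Nat.add (Nat.add (Nat.add (Nat.add (Nat.add (Nat.add C (Nat.mul x54922 (nat_lit 3))) x50548) x53464) x55408) x54760) x54928) x54920) x54924) x35240)
    (Nat.sub (Nat.add (Nat.add (Nat.add (Nat.add (Nat.add (Nat.add C x50550) x53466) x55410) x54762) x54930) x54922) x35242)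
    (Nat.sub (Nat.add (Nat.add (Nat.add (Nat.add (Nat.add (Nat.add (Nat.add (Nat.add C (Nat.mul x54928 (nat_lit 2))) x50554) x53470) x55414) x54766) x54946) x54922) x54930) x35246)
    (Nat.sub (Nat.add (Nat.add (Nat.add (Nat.add (Nat.add (Nat.add (Nat.add (Nat.add (Nat.add C x54930) x50556) x53472) x55416) x54768) x54948) x54924) x54936) x54928) x35248)
    (Nat.sub (Nat.add (Nat.add (Nat.add (Nat.add (Nat.add (Nat.add C x50562) x53478) x55422) x54774) x54954) x54930) x35254)
    (Nat.sub (Nat.add (Nat.add (Nat.add (Nat.add (Nat.add (Nat.add (Nat.add (Nat.add C (Nat.mul x54946 (nat_lit 2))) x50572) x53488) x55432) x54784) x55000) x54928) x54948) x35264)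
    (Nat.sub (Nat.add (Nat.add (Nat.add (Nat.add (Nat.add (Nat.add (Nat.add (Nat.add C x50574) x53490) x55434) x54786) x55002) x54930) x54954) x54946) x35266)
    (Nat.sub (Nat.add (Nat.add (Nat.add (Nat.add (Nat.add (Nat.add (Nat.add (Nat.add (Nat.add C x54954) x50580) x53496) x55440) x54792) x55008) x54936) x54972) x54948) x35272)
    (Nat.sub (Nat.add (Nat.add (Nat.add (Nat.add (Nat.add (Nat.add C x50598) x53514) x55458) x54810) x55026) x54954) x35290)
    (Nat.sub (Nat.add (Nat.add (Nat.add (Nat.add (Nat.add (Nat.add (Nat.add (Nat.add C (Nat.mul x55000 (nat_lit 3))) x50626) x53542) x55486) x54838) x55162) x54946) x55002) x35318)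
    (Nat.sub (Nat.add (Nat.add (Nat.add (Nat.add (Nat.add (Nat.add (Nat.add (Nat.add (Nat.add C x55002) x50628) x53544) x55488) x54840) x55164) x54948) x55008) x55000) x35320)
    (Nat.sub (Nat.add (Nat.add (Nat.add (Nat.add (Nat.add (Nat.add (Nat.add (Nat.add (Nat.add C x55008) x50634) x53550) x55494) x54846) x55170) x54954) x55026) x55002) x35326)
    (Nat.sub (Nat.add (Nat.add (Nat.add (Nat.add (Nat.add (Nat.add (Nat.add (Nat.add (Nat.add C (Nat.mul x55026 (nat_lit 2))) x50652) x53568) x55512) x54864) x55188) x54972) x55080) x55008) x35344)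
    (Nat.sub (Nat.add (Nat.add (Nat.add (Nat.add (Nat.add (Nat.add C (Nat.mul x55080 (nat_lit 2))) x50706) x53622) x55566) x55242) x55026) x35398)
    (Nat.sub (Nat.add (Nat.add (Nat.add (Nat.add (Nat.add (Nat.add C (Nat.mul x55162 (nat_lit 2))) x50788) x53704) x55648) x55000) x55164) x35480)
    (Nat.sub (Nat.add (Nat.add (Nat.add (Nat.add (Nat.add (Nat.add C x50790) x53706) x55650) x55002) x55170) x55162) x35482)
    (Nat.sub (Nat.add (Nat.add (Nat.add (Nat.add (Nat.add (Nat.add C x50796) x53712) x55656) x55008) x55188) x55164) x35488)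
    (Nat.sub (Nat.add (Nat.add (Nat.add (Nat.add (Nat.add (Nat.add C x50814) x53730) x55674) x55026) x55242) x55170) x35506)
    (Nat.sub (Nat.add (Nat.add (Nat.add (Nat.add (Nat.add (Nat.add C (Nat.mul x55242 (nat_lit 2))) x50868) x53784) x55728) x55080) x55188) x35560)
    (Nat.add (Nat.add (Nat.add (Nat.add (Nat.add (Nat.add C (Nat.mul x55406 (nat_lit 5))) x51032) x53948) x56864) x54920) x55408)
    (Nat.sub (Nat.add (Nat.add (Nat.add (Nat.add (Nat.add (Nat.add (Nat.add (Nat.add C (Nat.mul x55408 (nat_lit 4))) x51034) x53950) x56866) x54922) x55414) x55406) x55410) x35726)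
    (Nat.sub (Nat.add (Nat.add (Nat.add (Nat.add (Nat.add (Nat.add (Nat.add C x55410) x51036) x53952) x56868) x54924) x55416) x55408) x35728)
    (Nat.sub (Nat.add (Nat.add (Nat.add (Nat.add (Nat.add (Nat.add (Nat.add (Nat.add C (Nat.mul x55414 (nat_lit 3))) x51040) x53956) x56872) x54928) x55432) x55408) x55416) x35732)
    (Nat.sub (Nat.add (Nat.add (Nat.add (Nat.add (Nat.add (Nat.add (Nat.add (Nat.add (Nat.add C (Nat.mul x55416 (nat_lit 2))) x51042) x53958) x56874) x54930) x55434) x55410) x55422) x55414) x35734)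
    (Nat.sub (Nat.add (Nat.add (Nat.add (Nat.add (Nat.add (Nat.add (Nat.add C x55422) x51048) x53964) x56880) x54936) x55440) x55416) x35740)
    (Nat.sub (Nat.add (Nat.add (Nat.add (Nat.add (Nat.add (Nat.add (Nat.add (Nat.add C (Nat.mul x55432 (nat_lit 3))) x51058) x53974) x56890) x54946) x55486) x55414) x55434) x35750)
    (Nat.sub (Nat.add (Nat.add (Nat.add (Nat.add (Nat.add (Nat.add (Nat.add (Nat.add (Nat.add C x55434) x51060) x53976) x56892) x54948) x55488) x55416) x55440) x55432) x35752)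
    (Nat.sub (Nat.add (Nat.add (Nat.add (Nat.add (Nat.add (Nat.add (Nat.add (Nat.add (Nat.add C (Nat.mul x55440 (nat_lit 2))) x51066) x53982) x56898) x54954) x55494) x55422) x55458) x55434) x35758)
    (Nat.sub (Nat.add (Nat.add (Nat.add (Nat.add (Nat.add (Nat.add (Nat.add C x55458) x51084) x54000) x56916) x54972) x55512) x55440) x35776)
    (Nat.sub (Nat.add (Nat.add (Nat.add (Nat.add (Nat.add (Nat.add (Nat.add (Nat.add C (Nat.mul x55486 (nat_lit 3))) x51112) x54028) x56944) x55000) x55648) x55432) x55488) x35804)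
    (Nat.sub (Nat.add (Nat.add (Nat.add (Nat.add (Nat.add (Nat.add (Nat.add (Nat.add (Nat.add C x55488) x51114) x54030) x56946) x55002) x55650) x55434) x55494) x55486) x35806)
    (Nat.sub (Nat.add (Nat.add (Nat.add (Nat.add (Nat.add (Nat.add (Nat.add (Nat.add (Nat.add C x55494) x51120) x54036) x56952) x55008) x55656) x55440) x55512) x55488) x35812)
    (Nat.sub (Nat.add (Nat.add (Nat.add (Nat.add (Nat.add (Nat.add (Nat.add (Nat.add (Nat.add C (Nat.mul x55512 (nat_lit 2))) x51138) x54054) x56970) x55026) x55674) x55458) x55566) x55494) x35830)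
    (Nat.sub (Nat.add (Nat.add (Nat.add (Nat.add (Nat.add (Nat.add (Nat.add C x55566) x51192) x54108) x57024) x55080) x55728) x55512) x35884)
    (Nat.sub (Nat.add (Nat.add (Nat.add (Nat.add (Nat.add (Nat.add (Nat.add (Nat.add C (Nat.mul x55648 (nat_lit 4))) x51274) x54190) x57106) x55162) x56134) x55486) x55650) x35966)
    (Nat.sub (Nat.add (Nat.add (Nat.add (Nat.add (Nat.add (Nat.add (Nat.add (Nat.add (Nat.add C (Nat.mul x55650 (nat_lit 2))) x51276) x54192) x57108) x55164) x56136) x55488) x55656) x55648) x35968)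
    (Nat.sub (Nat.add (Nat.add (Nat.add (Nat.add (Nat.add (Nat.add (Nat.add (Nat.add (Nat.add C (Nat.mul x55656 (nat_lit 2))) x51282) x54198) x57114) x55170) x56142) x55494) x55674) x55650) x35974)
    (Nat.sub (Nat.add (Nat.add (Nat.add (Nat.add (Nat.add (Nat.add (Nat.add (Nat.add (Nat.add C (Nat.mul x55674 (nat_lit 2))) x51300) x54216) x57132) x55188) x56160) x55512) x55728) x55656) x35992)
    (Nat.sub (Nat.add (Nat.add (Nat.add (Nat.add (Nat.add (Nat.add (Nat.add (Nat.add (Nat.add C (Nat.mul x55728 (nat_lit 3))) x51354) x54270) x57186) x55242) x56214) x55566) x55890) x55674) x36046)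
    (Nat.sub (Nat.add (Nat.add (Nat.add (Nat.add (Nat.add (Nat.add C (Nat.mul x55890 (nat_lit 3))) x51516) x54432) x57348) x56376) x55728) x36208)
    (Nat.sub (Nat.add (Nat.add (Nat.add (Nat.add (Nat.add C (Nat.mul x56134 (nat_lit 4))) x51760) x57592) x55648) x56136) x36452)
    (Nat.sub (Nat.add (Nat.add (Nat.add (Nat.add (Nat.add (Nat.add C (Nat.mul x56136 (nat_lit 2))) x51762) x57594) x55650) x56142) x56134) x36454)
    (Nat.sub (Nat.add (Nat.add (Nat.add (Nat.add (Nat.add (Nat.add C (Nat.mul x56142 (nat_lit 2))) x51768) x57600) x55656) x56160) x56136) x36460)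
    (Nat.sub (Nat.add (Nat.add (Nat.add (Nat.add (Nat.add (Nat.add C (Nat.mul x56160 (nat_lit 2))) x51786) x57618) x55674) x56214) x56142) x36478)
    (Nat.sub (Nat.add (Nat.add (Nat.add (Nat.add (Nat.add (Nat.add C (Nat.mul x56214 (nat_lit 2))) x51840) x57672) x55728) x56376) x56160) x36532)
    (Nat.sub (Nat.add (Nat.add (Nat.add (Nat.add (Nat.add C (Nat.mul x56376 (nat_lit 4))) x52002) x57834) x55890) x56214) x36694)
    (Nat.add (Nat.add (Nat.add C (Nat.mul x56864 (nat_lit 6))) x55406) x56866)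
    (Nat.sub (Nat.add (Nat.add (Nat.add (Nat.add (Nat.add C (Nat.mul x56866 (nat_lit 5))) x55408) x56872) x56864) x56868) x37184)
    (Nat.sub (Nat.add (Nat.add (Nat.add (Nat.add C (Nat.mul x56868 (nat_lit 2))) x55410) x56874) x56866) x37186)
    (Nat.sub (Nat.add (Nat.add (Nat.add (Nat.add (Nat.add C (Nat.mul x56872 (nat_lit 4))) x55414) x56890) x56866) x56874) x37190)
    (Nat.sub (Nat.add (Nat.add (Nat.add (Nat.add (Nat.add (Nat.add C (Nat.mul x56874 (nat_lit 3))) x55416) x56892) x56868) x56880) x56872) x37192)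
    (Nat.sub (Nat.add (Nat.add (Nat.add (Nat.add C (Nat.mul x56880 (nat_lit 2))) x55422) x56898) x56874) x37198)
    (Nat.sub (Nat.add (Nat.add (Nat.add (Nat.add (Nat.add C (Nat.mul x56890 (nat_lit 4))) x55432) x56944) x56872) x56892) x37208)
    (Nat.sub (Nat.add (Nat.add (Nat.add (Nat.add (Nat.add (Nat.add C (Nat.mul x56892 (nat_lit 2))) x55434) x56946) x56874) x56898) x56890) x37210)
    (Nat.sub (Nat.add (Nat.add (Nat.add (Nat.add (Nat.add (Nat.add C (Nat.mul x56898 (nat_lit 3))) x55440) x56952) x56880) x56916) x56892) x37216)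
    (Nat.sub (Nat.add (Nat.add (Nat.add (Nat.add C (Nat.mul x56916 (nat_lit 2))) x55458) x56970) x56898) x37234)
    (Nat.sub (Nat.add (Nat.add (Nat.add (Nat.add (Nat.add C (Nat.mul x56944 (nat_lit 4))) x55486) x57106) x56890) x56946) x37262)
    (Nat.sub (Nat.add (Nat.add (Nat.add (Nat.add (Nat.add (Nat.add C (Nat.mul x56946 (nat_lit 2))) x55488) x57108) x56892) x56952) x56944) x37264)
    (Nat.sub (Nat.add (Nat.add (Nat.add (Nat.add (Nat.add (Nat.add C (Nat.mul x56952 (nat_lit 2))) x55494) x57114) x56898) x56970) x56946) x37270)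
    (Nat.sub (Nat.add (Nat.add (Nat.add (Nat.add (Nat.add (Nat.add C (Nat.mul x56970 (nat_lit 3))) x55512) x57132) x56916) x57024) x56952) x37288)
    (Nat.sub (Nat.add (Nat.add (Nat.add (Nat.add C (Nat.mul x57024 (nat_lit 2))) x55566) x57186) x56970) x37342)
    (Nat.sub (Nat.add (Nat.add (Nat.add (Nat.add (Nat.add C (Nat.mul x57106 (nat_lit 4))) x55648) x57592) x56944) x57108) x37424)
    (Nat.sub (Nat.add (Nat.add (Nat.add (Nat.add (Nat.add (Nat.add C (Nat.mul x57108 (nat_lit 2))) x55650) x57594) x56946) x57114) x57106) x37426)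
    (Nat.sub (Nat.add (Nat.add (Nat.add (Nat.add (Nat.add (Nat.add C (Nat.mul x57114 (nat_lit 2))) x55656) x57600) x56952) x57132) x57108) x37432)
    (Nat.sub (Nat.add (Nat.add (Nat.add (Nat.add (Nat.add (Nat.add C (Nat.mul x57132 (nat_lit 2))) x55674) x57618) x56970) x57186) x57114) x37450)
    (Nat.sub (Nat.add (Nat.add (Nat.add (Nat.add (Nat.add (Nat.add C (Nat.mul x57186 (nat_lit 3))) x55728) x57672) x57024) x57348) x57132) x37504)
    (Nat.sub (Nat.add (Nat.add (Nat.add (Nat.add C (Nat.mul x57348 (nat_lit 2))) x55890) x57834) x57186) x37666)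
    (Nat.sub (Nat.add (Nat.add (Nat.add (Nat.add C (Nat.mul x57592 (nat_lit 6))) x56134) x57106) x57594) x37910)
    (Nat.sub (Nat.add (Nat.add (Nat.add (Nat.add (Nat.add C (Nat.mul x57594 (nat_lit 4))) x56136) x57108) x57600) x57592) x37912)
    (Nat.sub (Nat.add (Nat.add (Nat.add (Nat.add (Nat.add C (Nat.mul x57600 (nat_lit 4))) x56142) x57114) x57618) x57594) x37918)
    (Nat.sub (Nat.add (Nat.add (Nat.add (Nat.add (Nat.add C (Nat.mul x57618 (nat_lit 4))) x56160) x57132) x57672) x57600) x37936)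
    (Nat.sub (Nat.add (Nat.add (Nat.add (Nat.add (Nat.add C (Nat.mul x57672 (nat_lit 4))) x56214) x57186) x57834) x57618) x37990)
    (Nat.sub (Nat.add (Nat.add (Nat.add (Nat.add (Nat.add C (Nat.mul x57834 (nat_lit 5))) x56376) x57348) x58320) x57672) x38152)
    (Nat.sub (Nat.add (Nat.add C (Nat.mul x58320 (nat_lit 6))) x57834) x38638)

theorem ap_eq (x : Nat → Nat) (k : FnLL specs) : apLL (fun t => x t.cd) specs k = A10_8.ap x k :=
  Eq.refl (A10_8.ap x k)

theorem step_eq0 (e : Nat → Nat) (C p r : Nat) (k : FnLL specs) (x : Nat → Nat) :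
    A10_8.ap x (step e C p r k) = apLL (interp e C p r x) specs k :=
  Eq.refl (A10_8.ap x (step e C p r k))

theorem spec_ok : specOK 9 true A10_8.mask specs = true := by decide +kernel

theorem step_eq (e : Nat → Nat) (C p r : Nat) (k : A10_8.KK) (x : Nat → Nat) :
    A10_8.ap x (step e C p r k) = A10_8.ap (row 9 true A10_8.mask e C p r x) k :=
  ((step_eq0 e C p r k x).trans (apLL_row 9 true A10_8.mask specs spec_ok e C p r x k)).trans
    (ap_eq (row 9 true A10_8.mask e C p r x) k)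

end Vale.Agent.P348.G10_8_1
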