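import Vale.Agent.P348.G.A10_9

set_option maxRecDepth 1000000
set_option maxHeartbeats 0
set_option linter.all false

namespace Vale.Agent.P348.G10_9_0

noncomputable def sp0 : List Spec :=
  [Spec.mk (nat_lit 161) (nat_lit 6) [nat_lit 323, nat_lit 215, nat_lit 19843] (nat_lit 0) [] true,
   Spec.mk (nat_lit 215) (nat_lit 4) [nat_lit 377, nat_lit 161, nat_lit 233, nat_lit 19897] (nat_lit 0) [] true,
   Spec.mk (nat_lit 233) (nat_lit 4) [nat_lit 395, nat_lit 215, nat_lit 239, nat_lit 19915] (nat_lit 0) [] true,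
   Spec.mk (nat_lit 239) (nat_lit 4) [nat_lit 401, nat_lit 233, nat_lit 241, nat_lit 19921] (nat_lit 0) [] false,
   Spec.mk (nat_lit 241) (nat_lit 6) [nat_lit 403, nat_lit 239, nat_lit 19923] (nat_lit 0) [] false,
   Spec.mk (nat_lit 323) (nat_lit 4) [nat_lit 809, nat_lit 161, nat_lit 377, nat_lit 20005] (nat_lit 0) [] true,
   Spec.mk (nat_lit 377) (nat_lit 4) [nat_lit 863, nat_lit 215, nat_lit 539, nat_lit 323, nat_lit 431, nat_lit 395, nat_lit 20059] (nat_lit 0) [] true,
   Spec.mk (nat_lit 395) (nat_lit 3) [nat_lit 881, nat_lit 233, nat_lit 557, nat_lit 449, nat_lit 377, nat_lit 401, nat_lit 20077] (nat_lit 0) [] true,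
   Spec.mk (nat_lit 401) (nat_lit 3) [nat_lit 887, nat_lit 239, nat_lit 563, nat_lit 455, nat_lit 395, nat_lit 403, nat_lit 20083] (nat_lit 0) [] true,
   Spec.mk (nat_lit 403) (nat_lit 5) [nat_lit 889, nat_lit 241, nat_lit 565, nat_lit 457, nat_lit 401, nat_lit 20085] (nat_lit 0) [] true,
   Spec.mk (nat_lit 431) (nat_lit 2) [nat_lit 917, nat_lit 593, nat_lit 377, nat_lit 449, nat_lit 20113] (nat_lit 0) [] true,
   Spec.mk (nat_lit 449) (nat_lit 3) [nat_lit 935, nat_lit 611, nat_lit 395, nat_lit 431, nat_lit 467, nat_lit 455, nat_lit 20131] (nat_lit 0) [] true,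
   Spec.mk (nat_lit 455) (nat_lit 2) [nat_lit 941, nat_lit 617, nat_lit 401, nat_lit 473, nat_lit 449, nat_lit 457, nat_lit 20137] (nat_lit 0) [] true,
   Spec.mk (nat_lit 457) (nat_lit 4) [nat_lit 943, nat_lit 619, nat_lit 403, nat_lit 475, nat_lit 455, nat_lit 20139] (nat_lit 0) [] true,
   Spec.mk (nat_lit 467) (nat_lit 2) [nat_lit 953, nat_lit 629, nat_lit 449, nat_lit 473, nat_lit 20149] (nat_lit 0) [] true,
   Spec.mk (nat_lit 473) (nat_lit 3) [nat_lit 959, nat_lit 635, nat_lit 455, nat_lit 467, nat_lit 479, nat_lit 475, nat_lit 20155] (nat_lit 0) [] true,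
   Spec.mk (nat_lit 475) (nat_lit 4) [nat_lit 961, nat_lit 637, nat_lit 457, nat_lit 481, nat_lit 473, nat_lit 20157] (nat_lit 0) [] false,
   Spec.mk (nat_lit 479) (nat_lit 2) [nat_lit 965, nat_lit 641, nat_lit 473, nat_lit 481, nat_lit 20161] (nat_lit 0) [] true,
   Spec.mk (nat_lit 481) (nat_lit 5) [nat_lit 967, nat_lit 643, nat_lit 475, nat_lit 479, nat_lit 483, nat_lit 20163] (nat_lit 0) [] false,
   Spec.mk (nat_lit 483) (nat_lit 6) [nat_lit 969, nat_lit 645, nat_lit 481] (nat_lit 0) [] false,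
   Spec.mk (nat_lit 539) (nat_lit 2) [nat_lit 1025, nat_lit 377, nat_lit 593, nat_lit 557, nat_lit 20221] (nat_lit 0) [] true,
   Spec.mk (nat_lit 557) (nat_lit 0) [nat_lit 1043, nat_lit 395, nat_lit 611, nat_lit 539, nat_lit 563, nat_lit 20239] (nat_lit 0) [] true,
   Spec.mk (nat_lit 563) (nat_lit 0) [nat_lit 1049, nat_lit 401, nat_lit 617, nat_lit 557, nat_lit 565, nat_lit 20245] (nat_lit 0) [] true,
   Spec.mk (nat_lit 565) (nat_lit 2) [nat_lit 1051, nat_lit 403, nat_lit 619, nat_lit 563, nat_lit 20247] (nat_lit 0) [] false,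
   Spec.mk (nat_lit 593) (nat_lit 2) [nat_lit 1079, nat_lit 431, nat_lit 539, nat_lit 611, nat_lit 20275] (nat_lit 0) [] true,
   Spec.mk (nat_lit 611) (nat_lit 2) [nat_lit 1097, nat_lit 449, nat_lit 557, nat_lit 665, nat_lit 593, nat_lit 629, nat_lit 617, nat_lit 20293] (nat_lit 0) [] true,
   Spec.mk (nat_lit 617) (nat_lit 1) [nat_lit 1103, nat_lit 455, nat_lit 563, nat_lit 671, nat_lit 635, nat_lit 611, nat_lit 619, nat_lit 20299] (nat_lit 0) [] true,
   Spec.mk (nat_lit 619) (nat_lit 3) [nat_lit 1105, nat_lit 457, nat_lit 565, nat_lit 673, nat_lit 637, nat_lit 617, nat_lit 20301] (nat_lit 0) [] false,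
   Spec.mk (nat_lit 629) (nat_lit 0) [nat_lit 1115, nat_lit 467, nat_lit 683, nat_lit 611, nat_lit 635, nat_lit 20311] (nat_lit 0) [] true,
   Spec.mk (nat_lit 635) (nat_lit 1) [nat_lit 1121, nat_lit 473, nat_lit 689, nat_lit 617, nat_lit 629, nat_lit 641, nat_lit 637, nat_lit 20317] (nat_lit 0) [] false,
   Spec.mk (nat_lit 637) (nat_lit 2) [nat_lit 1123, nat_lit 475, nat_lit 691, nat_lit 619, nat_lit 643, nat_lit 635, nat_lit 20319] (nat_lit 0) [] false,
   Spec.mk (nat_lit 641) (nat_lit 0) [nat_lit 1127, nat_lit 479, nat_lit 695, nat_lit 635, nat_lit 643, nat_lit 20323] (nat_lit 0) [] false,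
   Spec.mk (nat_lit 643) (nat_lit 3) [nat_lit 1129, nat_lit 481, nat_lit 697, nat_lit 637, nat_lit 641, nat_lit 645, nat_lit 20325] (nat_lit 0) [] false,
   Spec.mk (nat_lit 645) (nat_lit 4) [nat_lit 1131, nat_lit 483, nat_lit 699, nat_lit 643] (nat_lit 0) [] false,
   Spec.mk (nat_lit 665) (nat_lit 2) [nat_lit 1151, nat_lit 611, nat_lit 683, nat_lit 671, nat_lit 20347] (nat_lit 0) [] true,
   Spec.mk (nat_lit 671) (nat_lit 0) [nat_lit 1157, nat_lit 617, nat_lit 689, nat_lit 665, nat_lit 673, nat_lit 20353] (nat_lit 0) [] false,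
   Spec.mk (nat_lit 673) (nat_lit 2) [nat_lit 1159, nat_lit 619, nat_lit 691, nat_lit 671, nat_lit 20355] (nat_lit 0) [] false,
   Spec.mk (nat_lit 683) (nat_lit 2) [nat_lit 1169, nat_lit 629, nat_lit 665, nat_lit 689, nat_lit 20365] (nat_lit 0) [] false,
   Spec.mk (nat_lit 689) (nat_lit 2) [nat_lit 1175, nat_lit 635, nat_lit 671, nat_lit 707, nat_lit 683, nat_lit 695, nat_lit 691, nat_lit 20371] (nat_lit 0) [] false,
   Spec.mk (nat_lit 691) (nat_lit 3) [nat_lit 1177, nat_lit 637, nat_lit 673, nat_lit 709, nat_lit 697, nat_lit 689, nat_lit 20373] (nat_lit 0) [] false,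
   Spec.mk (nat_lit 695) (nat_lit 0) [nat_lit 1181, nat_lit 641, nat_lit 713, nat_lit 689, nat_lit 697, nat_lit 20377] (nat_lit 0) [] false,
   Spec.mk (nat_lit 697) (nat_lit 3) [nat_lit 1183, nat_lit 643, nat_lit 715, nat_lit 691, nat_lit 695, nat_lit 699, nat_lit 20379] (nat_lit 0) [] false,
   Spec.mk (nat_lit 699) (nat_lit 4) [nat_lit 1185, nat_lit 645, nat_lit 717, nat_lit 697] (nat_lit 0) [] false,
   Spec.mk (nat_lit 707) (nat_lit 2) [nat_lit 1193, nat_lit 689, nat_lit 713, nat_lit 709, nat_lit 20389] (nat_lit 0) [] false,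
   Spec.mk (nat_lit 709) (nat_lit 2) [nat_lit 1195, nat_lit 691, nat_lit 715, nat_lit 707, nat_lit 20391] (nat_lit 0) [] false,
   Spec.mk (nat_lit 713) (nat_lit 2) [nat_lit 1199, nat_lit 695, nat_lit 707, nat_lit 715, nat_lit 20395] (nat_lit 0) [] false,
   Spec.mk (nat_lit 715) (nat_lit 4) [nat_lit 1201, nat_lit 697, nat_lit 709, nat_lit 721, nat_lit 713, nat_lit 717, nat_lit 20397] (nat_lit 0) [] false,
   Spec.mk (nat_lit 717) (nat_lit 4) [nat_lit 1203, nat_lit 699, nat_lit 723, nat_lit 715] (nat_lit 0) [] false,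
   Spec.mk (nat_lit 721) (nat_lit 4) [nat_lit 1207, nat_lit 715, nat_lit 723, nat_lit 20403] (nat_lit 0) [] false,
   Spec.mk (nat_lit 723) (nat_lit 6) [nat_lit 1209, nat_lit 717, nat_lit 721] (nat_lit 0) [] false,
   Spec.mk (nat_lit 809) (nat_lit 4) [nat_lit 2267, nat_lit 323, nat_lit 863, nat_lit 20491] (nat_lit 0) [] true,
   Spec.mk (nat_lit 863) (nat_lit 3) [nat_lit 2321, nat_lit 377, nat_lit 1025, nat_lit 809, nat_lit 917, nat_lit 881, nat_lit 20545] (nat_lit 0) [] true,
   Spec.mk (nat_lit 881) (nat_lit 2) [nat_lit 2339, nat_lit 395, nat_lit 1043, nat_lit 935, nat_lit 863, nat_lit 887, nat_lit 20563] (nat_lit 0) [] true,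
   Spec.mk (nat_lit 887) (nat_lit 2) [nat_lit 2345, nat_lit 401, nat_lit 1049, nat_lit 941, nat_lit 881, nat_lit 889, nat_lit 20569] (nat_lit 0) [] true,
   Spec.mk (nat_lit 889) (nat_lit 4) [nat_lit 2347, nat_lit 403, nat_lit 1051, nat_lit 943, nat_lit 887, nat_lit 20571] (nat_lit 0) [] true,
   Spec.mk (nat_lit 917) (nat_lit 0) [nat_lit 2375, nat_lit 431, nat_lit 1079, nat_lit 863, nat_lit 935, nat_lit 20599] (nat_lit 0) [] true,
   Spec.mk (nat_lit 935) (nat_lit 1) [nat_lit 2393, nat_lit 449, nat_lit 1097, nat_lit 881, nat_lit 917, nat_lit 953, nat_lit 941, nat_lit 20617] (nat_lit 0) [] true,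
   Spec.mk (nat_lit 941) (nat_lit 0) [nat_lit 2399, nat_lit 455, nat_lit 1103, nat_lit 887, nat_lit 959, nat_lit 935, nat_lit 943, nat_lit 20623] (nat_lit 0) [] true,
   Spec.mk (nat_lit 943) (nat_lit 2) [nat_lit 2401, nat_lit 457, nat_lit 1105, nat_lit 889, nat_lit 961, nat_lit 941, nat_lit 20625] (nat_lit 0) [] true,
   Spec.mk (nat_lit 953) (nat_lit 0) [nat_lit 2411, nat_lit 467, nat_lit 1115, nat_lit 935, nat_lit 959, nat_lit 20635] (nat_lit 0) [] true]

noncomputable def sp1 : List Spec :=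
  [Spec.mk (nat_lit 959) (nat_lit 1) [nat_lit 2417, nat_lit 473, nat_lit 1121, nat_lit 941, nat_lit 953, nat_lit 965, nat_lit 961, nat_lit 20641] (nat_lit 0) [] true,
   Spec.mk (nat_lit 961) (nat_lit 2) [nat_lit 2419, nat_lit 475, nat_lit 1123, nat_lit 943, nat_lit 967, nat_lit 959, nat_lit 20643] (nat_lit 0) [] true,
   Spec.mk (nat_lit 965) (nat_lit 0) [nat_lit 2423, nat_lit 479, nat_lit 1127, nat_lit 959, nat_lit 967, nat_lit 20647] (nat_lit 0) [] true,
   Spec.mk (nat_lit 967) (nat_lit 3) [nat_lit 2425, nat_lit 481, nat_lit 1129, nat_lit 961, nat_lit 965, nat_lit 969, nat_lit 20649] (nat_lit 0) [] true,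
   Spec.mk (nat_lit 969) (nat_lit 4) [nat_lit 2427, nat_lit 483, nat_lit 1131, nat_lit 967] (nat_lit 0) [] false,
   Spec.mk (nat_lit 1025) (nat_lit 3) [nat_lit 2483, nat_lit 539, nat_lit 1511, nat_lit 863, nat_lit 1079, nat_lit 1043, nat_lit 20707] (nat_lit 0) [] true,
   Spec.mk (nat_lit 1043) (nat_lit 1) [nat_lit 2501, nat_lit 557, nat_lit 1529, nat_lit 881, nat_lit 1097, nat_lit 1025, nat_lit 1049, nat_lit 20725] (nat_lit 0) [] true,
   Spec.mk (nat_lit 1049) (nat_lit 1) [nat_lit 2507, nat_lit 563, nat_lit 1535, nat_lit 887, nat_lit 1103, nat_lit 1043, nat_lit 1051, nat_lit 20731] (nat_lit 0) [] true,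
   Spec.mk (nat_lit 1051) (nat_lit 3) [nat_lit 2509, nat_lit 565, nat_lit 1537, nat_lit 889, nat_lit 1105, nat_lit 1049, nat_lit 20733] (nat_lit 0) [] true,
   Spec.mk (nat_lit 1079) (nat_lit 2) [nat_lit 2537, nat_lit 593, nat_lit 1565, nat_lit 917, nat_lit 1241, nat_lit 1025, nat_lit 1097, nat_lit 20761] (nat_lit 0) [] true,
   Spec.mk (nat_lit 1097) (nat_lit 2) [nat_lit 2555, nat_lit 611, nat_lit 1583, nat_lit 935, nat_lit 1259, nat_lit 1043, nat_lit 1151, nat_lit 1079, nat_lit 1115, nat_lit 1103, nat_lit 20779] (nat_lit 0) [] true,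
   Spec.mk (nat_lit 1103) (nat_lit 1) [nat_lit 2561, nat_lit 617, nat_lit 1589, nat_lit 941, nat_lit 1265, nat_lit 1049, nat_lit 1157, nat_lit 1121, nat_lit 1097, nat_lit 1105, nat_lit 20785] (nat_lit 0) [] true,
   Spec.mk (nat_lit 1105) (nat_lit 3) [nat_lit 2563, nat_lit 619, nat_lit 1591, nat_lit 943, nat_lit 1267, nat_lit 1051, nat_lit 1159, nat_lit 1123, nat_lit 1103, nat_lit 20787] (nat_lit 0) [] true,
   Spec.mk (nat_lit 1115) (nat_lit 0) [nat_lit 2573, nat_lit 629, nat_lit 1601, nat_lit 953, nat_lit 1277, nat_lit 1169, nat_lit 1097, nat_lit 1121, nat_lit 20797] (nat_lit 0) [] true,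
   Spec.mk (nat_lit 1121) (nat_lit 1) [nat_lit 2579, nat_lit 635, nat_lit 1607, nat_lit 959, nat_lit 1283, nat_lit 1175, nat_lit 1103, nat_lit 1115, nat_lit 1127, nat_lit 1123, nat_lit 20803] (nat_lit 0) [] true,
   Spec.mk (nat_lit 1123) (nat_lit 2) [nat_lit 2581, nat_lit 637, nat_lit 1609, nat_lit 961, nat_lit 1285, nat_lit 1177, nat_lit 1105, nat_lit 1129, nat_lit 1121, nat_lit 20805] (nat_lit 0) [] true,
   Spec.mk (nat_lit 1127) (nat_lit 0) [nat_lit 2585, nat_lit 641, nat_lit 1613, nat_lit 965, nat_lit 1289, nat_lit 1181, nat_lit 1121, nat_lit 1129, nat_lit 20809] (nat_lit 0) [] true,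
   Spec.mk (nat_lit 1129) (nat_lit 3) [nat_lit 2587, nat_lit 643, nat_lit 1615, nat_lit 967, nat_lit 1291, nat_lit 1183, nat_lit 1123, nat_lit 1127, nat_lit 1131, nat_lit 20811] (nat_lit 0) [] true,
   Spec.mk (nat_lit 1131) (nat_lit 4) [nat_lit 2589, nat_lit 645, nat_lit 1617, nat_lit 969, nat_lit 1293, nat_lit 1185, nat_lit 1129] (nat_lit 0) [] false,
   Spec.mk (nat_lit 1151) (nat_lit 1) [nat_lit 2609, nat_lit 665, nat_lit 1637, nat_lit 1313, nat_lit 1097, nat_lit 1169, nat_lit 1157, nat_lit 20833] (nat_lit 0) [] true,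
   Spec.mk (nat_lit 1157) (nat_lit 0) [nat_lit 2615, nat_lit 671, nat_lit 1643, nat_lit 1319, nat_lit 1103, nat_lit 1175, nat_lit 1151, nat_lit 1159, nat_lit 20839] (nat_lit 1) [] true,
   Spec.mk (nat_lit 1159) (nat_lit 1) [nat_lit 2617, nat_lit 673, nat_lit 1645, nat_lit 1321, nat_lit 1105, nat_lit 1177, nat_lit 1157, nat_lit 20841] (nat_lit 0) [] true,
   Spec.mk (nat_lit 1169) (nat_lit 1) [nat_lit 2627, nat_lit 683, nat_lit 1655, nat_lit 1331, nat_lit 1115, nat_lit 1151, nat_lit 1175, nat_lit 20851] (nat_lit 0) [] true,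
   Spec.mk (nat_lit 1175) (nat_lit 1) [nat_lit 2633, nat_lit 689, nat_lit 1661, nat_lit 1337, nat_lit 1121, nat_lit 1157, nat_lit 1193, nat_lit 1169, nat_lit 1181, nat_lit 1177, nat_lit 20857] (nat_lit 0) [] true,
   Spec.mk (nat_lit 1177) (nat_lit 2) [nat_lit 2635, nat_lit 691, nat_lit 1663, nat_lit 1339, nat_lit 1123, nat_lit 1159, nat_lit 1195, nat_lit 1183, nat_lit 1175, nat_lit 20859] (nat_lit 0) [] true,
   Spec.mk (nat_lit 1181) (nat_lit 0) [nat_lit 2639, nat_lit 695, nat_lit 1667, nat_lit 1343, nat_lit 1127, nat_lit 1199, nat_lit 1175, nat_lit 1183, nat_lit 20863] (nat_lit 1) [] true,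
   Spec.mk (nat_lit 1183) (nat_lit 2) [nat_lit 2641, nat_lit 697, nat_lit 1669, nat_lit 1345, nat_lit 1129, nat_lit 1201, nat_lit 1177, nat_lit 1181, nat_lit 1185, nat_lit 20865] (nat_lit 0) [] true,
   Spec.mk (nat_lit 1185) (nat_lit 3) [nat_lit 2643, nat_lit 699, nat_lit 1671, nat_lit 1347, nat_lit 1131, nat_lit 1203, nat_lit 1183] (nat_lit 0) [] false,
   Spec.mk (nat_lit 1193) (nat_lit 1) [nat_lit 2651, nat_lit 707, nat_lit 1679, nat_lit 1355, nat_lit 1175, nat_lit 1199, nat_lit 1195, nat_lit 20875] (nat_lit 0) [] true,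
   Spec.mk (nat_lit 1195) (nat_lit 1) [nat_lit 2653, nat_lit 709, nat_lit 1681, nat_lit 1357, nat_lit 1177, nat_lit 1201, nat_lit 1193, nat_lit 20877] (nat_lit 0) [] true,
   Spec.mk (nat_lit 1199) (nat_lit 1) [nat_lit 2657, nat_lit 713, nat_lit 1685, nat_lit 1361, nat_lit 1181, nat_lit 1193, nat_lit 1201, nat_lit 20881] (nat_lit 0) [] true,
   Spec.mk (nat_lit 1201) (nat_lit 3) [nat_lit 2659, nat_lit 715, nat_lit 1687, nat_lit 1363, nat_lit 1183, nat_lit 1195, nat_lit 1207, nat_lit 1199, nat_lit 1203, nat_lit 20883] (nat_lit 0) [] false,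
   Spec.mk (nat_lit 1203) (nat_lit 3) [nat_lit 2661, nat_lit 717, nat_lit 1689, nat_lit 1365, nat_lit 1185, nat_lit 1209, nat_lit 1201] (nat_lit 0) [] false,
   Spec.mk (nat_lit 1207) (nat_lit 3) [nat_lit 2665, nat_lit 721, nat_lit 1693, nat_lit 1369, nat_lit 1201, nat_lit 1209, nat_lit 20889] (nat_lit 0) [] false,
   Spec.mk (nat_lit 1209) (nat_lit 5) [nat_lit 2667, nat_lit 723, nat_lit 1695, nat_lit 1371, nat_lit 1203, nat_lit 1207] (nat_lit 0) [] false,
   Spec.mk (nat_lit 1241) (nat_lit 2) [nat_lit 2699, nat_lit 1727, nat_lit 1079, nat_lit 1259, nat_lit 20923] (nat_lit 0) [] true,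
   Spec.mk (nat_lit 1259) (nat_lit 1) [nat_lit 2717, nat_lit 1745, nat_lit 1097, nat_lit 1313, nat_lit 1241, nat_lit 1277, nat_lit 1265, nat_lit 20941] (nat_lit 0) [] true,
   Spec.mk (nat_lit 1265) (nat_lit 0) [nat_lit 2723, nat_lit 1751, nat_lit 1103, nat_lit 1319, nat_lit 1283, nat_lit 1259, nat_lit 1267, nat_lit 20947] (nat_lit 0) [] true,
   Spec.mk (nat_lit 1267) (nat_lit 2) [nat_lit 2725, nat_lit 1753, nat_lit 1105, nat_lit 1321, nat_lit 1285, nat_lit 1265, nat_lit 20949] (nat_lit 0) [] true,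
   Spec.mk (nat_lit 1277) (nat_lit 0) [nat_lit 2735, nat_lit 1763, nat_lit 1115, nat_lit 1331, nat_lit 1259, nat_lit 1283, nat_lit 20959] (nat_lit 2) [] true,
   Spec.mk (nat_lit 1283) (nat_lit 0) [nat_lit 2741, nat_lit 1769, nat_lit 1121, nat_lit 1337, nat_lit 1265, nat_lit 1277, nat_lit 1289, nat_lit 1285, nat_lit 20965] (nat_lit 1) [] true,
   Spec.mk (nat_lit 1285) (nat_lit 0) [nat_lit 2743, nat_lit 1771, nat_lit 1123, nat_lit 1339, nat_lit 1267, nat_lit 1291, nat_lit 1283, nat_lit 20967] (nat_lit 0) [] true,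
   Spec.mk (nat_lit 1289) (nat_lit 0) [nat_lit 2747, nat_lit 1775, nat_lit 1127, nat_lit 1343, nat_lit 1283, nat_lit 1291, nat_lit 20971] (nat_lit 2) [] true,
   Spec.mk (nat_lit 1291) (nat_lit 1) [nat_lit 2749, nat_lit 1777, nat_lit 1129, nat_lit 1345, nat_lit 1285, nat_lit 1289, nat_lit 1293, nat_lit 20973] (nat_lit 0) [] false,
   Spec.mk (nat_lit 1293) (nat_lit 2) [nat_lit 2751, nat_lit 1779, nat_lit 1131, nat_lit 1347, nat_lit 1291] (nat_lit 0) [] false,
   Spec.mk (nat_lit 1313) (nat_lit 2) [nat_lit 2771, nat_lit 1799, nat_lit 1151, nat_lit 1259, nat_lit 1331, nat_lit 1319, nat_lit 20995] (nat_lit 0) [] true,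
   Spec.mk (nat_lit 1319) (nat_lit 0) [nat_lit 2777, nat_lit 1805, nat_lit 1157, nat_lit 1265, nat_lit 1337, nat_lit 1313, nat_lit 1321, nat_lit 21001] (nat_lit 0) [] true,
   Spec.mk (nat_lit 1321) (nat_lit 2) [nat_lit 2779, nat_lit 1807, nat_lit 1159, nat_lit 1267, nat_lit 1339, nat_lit 1319, nat_lit 21003] (nat_lit 0) [] true,
   Spec.mk (nat_lit 1331) (nat_lit 1) [nat_lit 2789, nat_lit 1817, nat_lit 1169, nat_lit 1277, nat_lit 1385, nat_lit 1313, nat_lit 1337, nat_lit 21013] (nat_lit 0) [] true,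
   Spec.mk (nat_lit 1337) (nat_lit 1) [nat_lit 2795, nat_lit 1823, nat_lit 1175, nat_lit 1283, nat_lit 1391, nat_lit 1319, nat_lit 1355, nat_lit 1331, nat_lit 1343, nat_lit 1339, nat_lit 21019] (nat_lit 0) [] true,
   Spec.mk (nat_lit 1339) (nat_lit 2) [nat_lit 2797, nat_lit 1825, nat_lit 1177, nat_lit 1285, nat_lit 1393, nat_lit 1321, nat_lit 1357, nat_lit 1345, nat_lit 1337, nat_lit 21021] (nat_lit 0) [] true,
   Spec.mk (nat_lit 1343) (nat_lit 0) [nat_lit 2801, nat_lit 1829, nat_lit 1181, nat_lit 1289, nat_lit 1397, nat_lit 1361, nat_lit 1337, nat_lit 1345, nat_lit 21025] (nat_lit 1) [] true,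
   Spec.mk (nat_lit 1345) (nat_lit 2) [nat_lit 2803, nat_lit 1831, nat_lit 1183, nat_lit 1291, nat_lit 1399, nat_lit 1363, nat_lit 1339, nat_lit 1343, nat_lit 1347, nat_lit 21027] (nat_lit 0) [] false,
   Spec.mk (nat_lit 1347) (nat_lit 3) [nat_lit 2805, nat_lit 1833, nat_lit 1185, nat_lit 1293, nat_lit 1401, nat_lit 1365, nat_lit 1345] (nat_lit 0) [] false,
   Spec.mk (nat_lit 1355) (nat_lit 0) [nat_lit 2813, nat_lit 1841, nat_lit 1193, nat_lit 1409, nat_lit 1337, nat_lit 1361, nat_lit 1357, nat_lit 21037] (nat_lit 0) [] true,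
   Spec.mk (nat_lit 1357) (nat_lit 0) [nat_lit 2815, nat_lit 1843, nat_lit 1195, nat_lit 1411, nat_lit 1339, nat_lit 1363, nat_lit 1355, nat_lit 21039] (nat_lit 0) [] false,
   Spec.mk (nat_lit 1361) (nat_lit 0) [nat_lit 2819, nat_lit 1847, nat_lit 1199, nat_lit 1415, nat_lit 1343, nat_lit 1355, nat_lit 1363, nat_lit 21043] (nat_lit 0) [] true,
   Spec.mk (nat_lit 1363) (nat_lit 2) [nat_lit 2821, nat_lit 1849, nat_lit 1201, nat_lit 1417, nat_lit 1345, nat_lit 1357, nat_lit 1369, nat_lit 1361, nat_lit 1365, nat_lit 21045] (nat_lit 0) [] false,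
   Spec.mk (nat_lit 1365) (nat_lit 2) [nat_lit 2823, nat_lit 1851, nat_lit 1203, nat_lit 1419, nat_lit 1347, nat_lit 1371, nat_lit 1363] (nat_lit 0) [] false,
   Spec.mk (nat_lit 1369) (nat_lit 2) [nat_lit 2827, nat_lit 1855, nat_lit 1207, nat_lit 1423, nat_lit 1363, nat_lit 1371, nat_lit 21051] (nat_lit 0) [] false]

noncomputable def sp2 : List Spec :=
  [Spec.mk (nat_lit 1371) (nat_lit 4) [nat_lit 2829, nat_lit 1857, nat_lit 1209, nat_lit 1425, nat_lit 1365, nat_lit 1369] (nat_lit 0) [] false,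
   Spec.mk (nat_lit 1385) (nat_lit 2) [nat_lit 2843, nat_lit 1871, nat_lit 1331, nat_lit 1391, nat_lit 21067] (nat_lit 0) [] true,
   Spec.mk (nat_lit 1391) (nat_lit 1) [nat_lit 2849, nat_lit 1877, nat_lit 1337, nat_lit 1409, nat_lit 1385, nat_lit 1397, nat_lit 1393, nat_lit 21073] (nat_lit 0) [] true,
   Spec.mk (nat_lit 1393) (nat_lit 2) [nat_lit 2851, nat_lit 1879, nat_lit 1339, nat_lit 1411, nat_lit 1399, nat_lit 1391, nat_lit 21075] (nat_lit 0) [] false,
   Spec.mk (nat_lit 1397) (nat_lit 0) [nat_lit 2855, nat_lit 1883, nat_lit 1343, nat_lit 1415, nat_lit 1391, nat_lit 1399, nat_lit 21079] (nat_lit 2) [] true,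
   Spec.mk (nat_lit 1399) (nat_lit 1) [nat_lit 2857, nat_lit 1885, nat_lit 1345, nat_lit 1417, nat_lit 1393, nat_lit 1397, nat_lit 1401, nat_lit 21081] (nat_lit 0) [] false,
   Spec.mk (nat_lit 1401) (nat_lit 2) [nat_lit 2859, nat_lit 1887, nat_lit 1347, nat_lit 1419, nat_lit 1399] (nat_lit 0) [] false,
   Spec.mk (nat_lit 1409) (nat_lit 2) [nat_lit 2867, nat_lit 1895, nat_lit 1355, nat_lit 1391, nat_lit 1415, nat_lit 1411, nat_lit 21091] (nat_lit 0) [] true,
   Spec.mk (nat_lit 1411) (nat_lit 2) [nat_lit 2869, nat_lit 1897, nat_lit 1357, nat_lit 1393, nat_lit 1417, nat_lit 1409, nat_lit 21093] (nat_lit 0) [] false,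
   Spec.mk (nat_lit 1415) (nat_lit 1) [nat_lit 2873, nat_lit 1901, nat_lit 1361, nat_lit 1397, nat_lit 1433, nat_lit 1409, nat_lit 1417, nat_lit 21097] (nat_lit 0) [] true,
   Spec.mk (nat_lit 1417) (nat_lit 3) [nat_lit 2875, nat_lit 1903, nat_lit 1363, nat_lit 1399, nat_lit 1435, nat_lit 1411, nat_lit 1423, nat_lit 1415, nat_lit 1419, nat_lit 21099] (nat_lit 0) [] false,
   Spec.mk (nat_lit 1419) (nat_lit 3) [nat_lit 2877, nat_lit 1905, nat_lit 1365, nat_lit 1401, nat_lit 1437, nat_lit 1425, nat_lit 1417] (nat_lit 0) [] false,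
   Spec.mk (nat_lit 1423) (nat_lit 2) [nat_lit 2881, nat_lit 1909, nat_lit 1369, nat_lit 1441, nat_lit 1417, nat_lit 1425, nat_lit 21105] (nat_lit 0) [] false,
   Spec.mk (nat_lit 1425) (nat_lit 4) [nat_lit 2883, nat_lit 1911, nat_lit 1371, nat_lit 1443, nat_lit 1419, nat_lit 1423] (nat_lit 0) [] false,
   Spec.mk (nat_lit 1433) (nat_lit 2) [nat_lit 2891, nat_lit 1919, nat_lit 1415, nat_lit 1435, nat_lit 21115] (nat_lit 0) [] true,
   Spec.mk (nat_lit 1435) (nat_lit 3) [nat_lit 2893, nat_lit 1921, nat_lit 1417, nat_lit 1441, nat_lit 1433, nat_lit 1437, nat_lit 21117] (nat_lit 0) [] false,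
   Spec.mk (nat_lit 1437) (nat_lit 2) [nat_lit 2895, nat_lit 1923, nat_lit 1419, nat_lit 1443, nat_lit 1435] (nat_lit 0) [] false,
   Spec.mk (nat_lit 1441) (nat_lit 4) [nat_lit 2899, nat_lit 1927, nat_lit 1423, nat_lit 1435, nat_lit 1443, nat_lit 21123] (nat_lit 0) [] false,
   Spec.mk (nat_lit 1443) (nat_lit 5) [nat_lit 2901, nat_lit 1929, nat_lit 1425, nat_lit 1437, nat_lit 1449, nat_lit 1441] (nat_lit 0) [] false,
   Spec.mk (nat_lit 1449) (nat_lit 6) [nat_lit 2907, nat_lit 1935, nat_lit 1443] (nat_lit 0) [] false,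
   Spec.mk (nat_lit 1511) (nat_lit 2) [nat_lit 2969, nat_lit 1025, nat_lit 1565, nat_lit 1529, nat_lit 21193] (nat_lit 0) [] true,
   Spec.mk (nat_lit 1529) (nat_lit 0) [nat_lit 2987, nat_lit 1043, nat_lit 1583, nat_lit 1511, nat_lit 1535, nat_lit 21211] (nat_lit 0) [] true,
   Spec.mk (nat_lit 1535) (nat_lit 0) [nat_lit 2993, nat_lit 1049, nat_lit 1589, nat_lit 1529, nat_lit 1537, nat_lit 21217] (nat_lit 0) [] true,
   Spec.mk (nat_lit 1537) (nat_lit 2) [nat_lit 2995, nat_lit 1051, nat_lit 1591, nat_lit 1535, nat_lit 21219] (nat_lit 0) [] false,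
   Spec.mk (nat_lit 1565) (nat_lit 0) [nat_lit 3023, nat_lit 1079, nat_lit 1727, nat_lit 1511, nat_lit 1583, nat_lit 21247] (nat_lit 0) [] true,
   Spec.mk (nat_lit 1583) (nat_lit 0) [nat_lit 3041, nat_lit 1097, nat_lit 1745, nat_lit 1529, nat_lit 1637, nat_lit 1565, nat_lit 1601, nat_lit 1589, nat_lit 21265] (nat_lit 0) [] true,
   Spec.mk (nat_lit 1589) (nat_lit 0) [nat_lit 3047, nat_lit 1103, nat_lit 1751, nat_lit 1535, nat_lit 1643, nat_lit 1607, nat_lit 1583, nat_lit 1591, nat_lit 21271] (nat_lit 1) [] true,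
   Spec.mk (nat_lit 1591) (nat_lit 1) [nat_lit 3049, nat_lit 1105, nat_lit 1753, nat_lit 1537, nat_lit 1645, nat_lit 1609, nat_lit 1589, nat_lit 21273] (nat_lit 0) [] false,
   Spec.mk (nat_lit 1601) (nat_lit 0) [nat_lit 3059, nat_lit 1115, nat_lit 1763, nat_lit 1655, nat_lit 1583, nat_lit 1607, nat_lit 21283] (nat_lit 2) [] true,
   Spec.mk (nat_lit 1607) (nat_lit 0) [nat_lit 3065, nat_lit 1121, nat_lit 1769, nat_lit 1661, nat_lit 1589, nat_lit 1601, nat_lit 1613, nat_lit 1609, nat_lit 21289] (nat_lit 1) [] true,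
   Spec.mk (nat_lit 1609) (nat_lit 0) [nat_lit 3067, nat_lit 1123, nat_lit 1771, nat_lit 1663, nat_lit 1591, nat_lit 1615, nat_lit 1607, nat_lit 21291] (nat_lit 0) [] false,
   Spec.mk (nat_lit 1613) (nat_lit 0) [nat_lit 3071, nat_lit 1127, nat_lit 1775, nat_lit 1667, nat_lit 1607, nat_lit 1615, nat_lit 21295] (nat_lit 2) [] true,
   Spec.mk (nat_lit 1615) (nat_lit 1) [nat_lit 3073, nat_lit 1129, nat_lit 1777, nat_lit 1669, nat_lit 1609, nat_lit 1613, nat_lit 1617, nat_lit 21297] (nat_lit 0) [] false,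
   Spec.mk (nat_lit 1617) (nat_lit 2) [nat_lit 3075, nat_lit 1131, nat_lit 1779, nat_lit 1671, nat_lit 1615] (nat_lit 0) [] false,
   Spec.mk (nat_lit 1637) (nat_lit 0) [nat_lit 3095, nat_lit 1151, nat_lit 1799, nat_lit 1583, nat_lit 1655, nat_lit 1643, nat_lit 21319] (nat_lit 2) [] true,
   Spec.mk (nat_lit 1643) (nat_lit 0) [nat_lit 3101, nat_lit 1157, nat_lit 1805, nat_lit 1589, nat_lit 1661, nat_lit 1637, nat_lit 1645, nat_lit 21325] (nat_lit 4) [] true,
   Spec.mk (nat_lit 1645) (nat_lit 0) [nat_lit 3103, nat_lit 1159, nat_lit 1807, nat_lit 1591, nat_lit 1663, nat_lit 1643, nat_lit 21327] (nat_lit 2) [] false,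
   Spec.mk (nat_lit 1655) (nat_lit 0) [nat_lit 3113, nat_lit 1169, nat_lit 1817, nat_lit 1601, nat_lit 1637, nat_lit 1661, nat_lit 21337] (nat_lit 2) [] true,
   Spec.mk (nat_lit 1661) (nat_lit 0) [nat_lit 3119, nat_lit 1175, nat_lit 1823, nat_lit 1607, nat_lit 1643, nat_lit 1679, nat_lit 1655, nat_lit 1667, nat_lit 1663, nat_lit 21343] (nat_lit 2) [] true,
   Spec.mk (nat_lit 1663) (nat_lit 0) [nat_lit 3121, nat_lit 1177, nat_lit 1825, nat_lit 1609, nat_lit 1645, nat_lit 1681, nat_lit 1669, nat_lit 1661, nat_lit 21345] (nat_lit 1) [] false,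
   Spec.mk (nat_lit 1667) (nat_lit 0) [nat_lit 3125, nat_lit 1181, nat_lit 1829, nat_lit 1613, nat_lit 1685, nat_lit 1661, nat_lit 1669, nat_lit 21349] (nat_lit 4) [] true,
   Spec.mk (nat_lit 1669) (nat_lit 0) [nat_lit 3127, nat_lit 1183, nat_lit 1831, nat_lit 1615, nat_lit 1687, nat_lit 1663, nat_lit 1667, nat_lit 1671, nat_lit 21351] (nat_lit 1) [] false,
   Spec.mk (nat_lit 1671) (nat_lit 0) [nat_lit 3129, nat_lit 1185, nat_lit 1833, nat_lit 1617, nat_lit 1689, nat_lit 1669] (nat_lit 0) [] false,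
   Spec.mk (nat_lit 1679) (nat_lit 0) [nat_lit 3137, nat_lit 1193, nat_lit 1841, nat_lit 1661, nat_lit 1685, nat_lit 1681, nat_lit 21361] (nat_lit 2) [] true,
   Spec.mk (nat_lit 1681) (nat_lit 0) [nat_lit 3139, nat_lit 1195, nat_lit 1843, nat_lit 1663, nat_lit 1687, nat_lit 1679, nat_lit 21363] (nat_lit 2) [] false,
   Spec.mk (nat_lit 1685) (nat_lit 0) [nat_lit 3143, nat_lit 1199, nat_lit 1847, nat_lit 1667, nat_lit 1679, nat_lit 1687, nat_lit 21367] (nat_lit 2) [] false,
   Spec.mk (nat_lit 1687) (nat_lit 0) [nat_lit 3145, nat_lit 1201, nat_lit 1849, nat_lit 1669, nat_lit 1681, nat_lit 1693, nat_lit 1685, nat_lit 1689, nat_lit 21369] (nat_lit 0) [] false,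
   Spec.mk (nat_lit 1689) (nat_lit 0) [nat_lit 3147, nat_lit 1203, nat_lit 1851, nat_lit 1671, nat_lit 1695, nat_lit 1687] (nat_lit 0) [] false,
   Spec.mk (nat_lit 1693) (nat_lit 0) [nat_lit 3151, nat_lit 1207, nat_lit 1855, nat_lit 1687, nat_lit 1695, nat_lit 21375] (nat_lit 0) [] false,
   Spec.mk (nat_lit 1695) (nat_lit 2) [nat_lit 3153, nat_lit 1209, nat_lit 1857, nat_lit 1689, nat_lit 1693] (nat_lit 0) [] false,
   Spec.mk (nat_lit 1727) (nat_lit 2) [nat_lit 3185, nat_lit 1241, nat_lit 1565, nat_lit 1745, nat_lit 21409] (nat_lit 0) [] true,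
   Spec.mk (nat_lit 1745) (nat_lit 1) [nat_lit 3203, nat_lit 1259, nat_lit 1583, nat_lit 1799, nat_lit 1727, nat_lit 1763, nat_lit 1751, nat_lit 21427] (nat_lit 0) [] true,
   Spec.mk (nat_lit 1751) (nat_lit 0) [nat_lit 3209, nat_lit 1265, nat_lit 1589, nat_lit 1805, nat_lit 1769, nat_lit 1745, nat_lit 1753, nat_lit 21433] (nat_lit 0) [] true,
   Spec.mk (nat_lit 1753) (nat_lit 2) [nat_lit 3211, nat_lit 1267, nat_lit 1591, nat_lit 1807, nat_lit 1771, nat_lit 1751, nat_lit 21435] (nat_lit 0) [] false,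
   Spec.mk (nat_lit 1763) (nat_lit 0) [nat_lit 3221, nat_lit 1277, nat_lit 1601, nat_lit 1817, nat_lit 1745, nat_lit 1769, nat_lit 21445] (nat_lit 2) [] true,
   Spec.mk (nat_lit 1769) (nat_lit 0) [nat_lit 3227, nat_lit 1283, nat_lit 1607, nat_lit 1823, nat_lit 1751, nat_lit 1763, nat_lit 1775, nat_lit 1771, nat_lit 21451] (nat_lit 1) [] true,
   Spec.mk (nat_lit 1771) (nat_lit 0) [nat_lit 3229, nat_lit 1285, nat_lit 1609, nat_lit 1825, nat_lit 1753, nat_lit 1777, nat_lit 1769, nat_lit 21453] (nat_lit 0) [] false,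
   Spec.mk (nat_lit 1775) (nat_lit 0) [nat_lit 3233, nat_lit 1289, nat_lit 1613, nat_lit 1829, nat_lit 1769, nat_lit 1777, nat_lit 21457] (nat_lit 2) [] false,
   Spec.mk (nat_lit 1777) (nat_lit 1) [nat_lit 3235, nat_lit 1291, nat_lit 1615, nat_lit 1831, nat_lit 1771, nat_lit 1775, nat_lit 1779, nat_lit 21459] (nat_lit 0) [] false,
   Spec.mk (nat_lit 1779) (nat_lit 2) [nat_lit 3237, nat_lit 1293, nat_lit 1617, nat_lit 1833, nat_lit 1777] (nat_lit 0) [] false]

noncomputable def sp3 : List Spec :=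
  [Spec.mk (nat_lit 1799) (nat_lit 1) [nat_lit 3257, nat_lit 1313, nat_lit 1637, nat_lit 1961, nat_lit 1745, nat_lit 1817, nat_lit 1805, nat_lit 21481] (nat_lit 0) [] true,
   Spec.mk (nat_lit 1805) (nat_lit 0) [nat_lit 3263, nat_lit 1319, nat_lit 1643, nat_lit 1967, nat_lit 1751, nat_lit 1823, nat_lit 1799, nat_lit 1807, nat_lit 21487] (nat_lit 1) [] true,
   Spec.mk (nat_lit 1807) (nat_lit 1) [nat_lit 3265, nat_lit 1321, nat_lit 1645, nat_lit 1969, nat_lit 1753, nat_lit 1825, nat_lit 1805, nat_lit 21489] (nat_lit 0) [] false,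
   Spec.mk (nat_lit 1817) (nat_lit 0) [nat_lit 3275, nat_lit 1331, nat_lit 1655, nat_lit 1979, nat_lit 1763, nat_lit 1871, nat_lit 1799, nat_lit 1823, nat_lit 21499] (nat_lit 0) [] true,
   Spec.mk (nat_lit 1823) (nat_lit 0) [nat_lit 3281, nat_lit 1337, nat_lit 1661, nat_lit 1985, nat_lit 1769, nat_lit 1877, nat_lit 1805, nat_lit 1841, nat_lit 1817, nat_lit 1829, nat_lit 1825, nat_lit 21505] (nat_lit 0) [] true,
   Spec.mk (nat_lit 1825) (nat_lit 1) [nat_lit 3283, nat_lit 1339, nat_lit 1663, nat_lit 1987, nat_lit 1771, nat_lit 1879, nat_lit 1807, nat_lit 1843, nat_lit 1831, nat_lit 1823, nat_lit 21507] (nat_lit 0) [] false,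
   Spec.mk (nat_lit 1829) (nat_lit 0) [nat_lit 3287, nat_lit 1343, nat_lit 1667, nat_lit 1991, nat_lit 1775, nat_lit 1883, nat_lit 1847, nat_lit 1823, nat_lit 1831, nat_lit 21511] (nat_lit 2) [] false,
   Spec.mk (nat_lit 1831) (nat_lit 1) [nat_lit 3289, nat_lit 1345, nat_lit 1669, nat_lit 1993, nat_lit 1777, nat_lit 1885, nat_lit 1849, nat_lit 1825, nat_lit 1829, nat_lit 1833, nat_lit 21513] (nat_lit 0) [] false,
   Spec.mk (nat_lit 1833) (nat_lit 2) [nat_lit 3291, nat_lit 1347, nat_lit 1671, nat_lit 1995, nat_lit 1779, nat_lit 1887, nat_lit 1851, nat_lit 1831] (nat_lit 0) [] false,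
   Spec.mk (nat_lit 1841) (nat_lit 0) [nat_lit 3299, nat_lit 1355, nat_lit 1679, nat_lit 2003, nat_lit 1895, nat_lit 1823, nat_lit 1847, nat_lit 1843, nat_lit 21523] (nat_lit 1) [] false,
   Spec.mk (nat_lit 1843) (nat_lit 0) [nat_lit 3301, nat_lit 1357, nat_lit 1681, nat_lit 2005, nat_lit 1897, nat_lit 1825, nat_lit 1849, nat_lit 1841, nat_lit 21525] (nat_lit 1) [] false,
   Spec.mk (nat_lit 1847) (nat_lit 0) [nat_lit 3305, nat_lit 1361, nat_lit 1685, nat_lit 2009, nat_lit 1901, nat_lit 1829, nat_lit 1841, nat_lit 1849, nat_lit 21529] (nat_lit 1) [] false,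
   Spec.mk (nat_lit 1849) (nat_lit 1) [nat_lit 3307, nat_lit 1363, nat_lit 1687, nat_lit 2011, nat_lit 1903, nat_lit 1831, nat_lit 1843, nat_lit 1855, nat_lit 1847, nat_lit 1851, nat_lit 21531] (nat_lit 0) [] false,
   Spec.mk (nat_lit 1851) (nat_lit 1) [nat_lit 3309, nat_lit 1365, nat_lit 1689, nat_lit 2013, nat_lit 1905, nat_lit 1833, nat_lit 1857, nat_lit 1849] (nat_lit 0) [] false,
   Spec.mk (nat_lit 1855) (nat_lit 1) [nat_lit 3313, nat_lit 1369, nat_lit 1693, nat_lit 2017, nat_lit 1909, nat_lit 1849, nat_lit 1857, nat_lit 21537] (nat_lit 0) [] false,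
   Spec.mk (nat_lit 1857) (nat_lit 3) [nat_lit 3315, nat_lit 1371, nat_lit 1695, nat_lit 2019, nat_lit 1911, nat_lit 1851, nat_lit 1855] (nat_lit 0) [] false,
   Spec.mk (nat_lit 1871) (nat_lit 0) [nat_lit 3329, nat_lit 1385, nat_lit 2033, nat_lit 1817, nat_lit 1877, nat_lit 21553] (nat_lit 0) [] true,
   Spec.mk (nat_lit 1877) (nat_lit 0) [nat_lit 3335, nat_lit 1391, nat_lit 2039, nat_lit 1823, nat_lit 1895, nat_lit 1871, nat_lit 1883, nat_lit 1879, nat_lit 21559] (nat_lit 1) [] false,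
   Spec.mk (nat_lit 1879) (nat_lit 0) [nat_lit 3337, nat_lit 1393, nat_lit 2041, nat_lit 1825, nat_lit 1897, nat_lit 1885, nat_lit 1877, nat_lit 21561] (nat_lit 0) [] false,
   Spec.mk (nat_lit 1883) (nat_lit 0) [nat_lit 3341, nat_lit 1397, nat_lit 2045, nat_lit 1829, nat_lit 1901, nat_lit 1877, nat_lit 1885, nat_lit 21565] (nat_lit 4) [] false,
   Spec.mk (nat_lit 1885) (nat_lit 0) [nat_lit 3343, nat_lit 1399, nat_lit 2047, nat_lit 1831, nat_lit 1903, nat_lit 1879, nat_lit 1883, nat_lit 1887, nat_lit 21567] (nat_lit 1) [] false,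
   Spec.mk (nat_lit 1887) (nat_lit 0) [nat_lit 3345, nat_lit 1401, nat_lit 2049, nat_lit 1833, nat_lit 1905, nat_lit 1885] (nat_lit 0) [] false,
   Spec.mk (nat_lit 1895) (nat_lit 0) [nat_lit 3353, nat_lit 1409, nat_lit 2057, nat_lit 1841, nat_lit 1877, nat_lit 1901, nat_lit 1897, nat_lit 21577] (nat_lit 0) [] false,
   Spec.mk (nat_lit 1897) (nat_lit 0) [nat_lit 3355, nat_lit 1411, nat_lit 2059, nat_lit 1843, nat_lit 1879, nat_lit 1903, nat_lit 1895, nat_lit 21579] (nat_lit 0) [] false,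
   Spec.mk (nat_lit 1901) (nat_lit 0) [nat_lit 3359, nat_lit 1415, nat_lit 2063, nat_lit 1847, nat_lit 1883, nat_lit 1919, nat_lit 1895, nat_lit 1903, nat_lit 21583] (nat_lit 1) [] false,
   Spec.mk (nat_lit 1903) (nat_lit 1) [nat_lit 3361, nat_lit 1417, nat_lit 2065, nat_lit 1849, nat_lit 1885, nat_lit 1921, nat_lit 1897, nat_lit 1909, nat_lit 1901, nat_lit 1905, nat_lit 21585] (nat_lit 0) [] false,
   Spec.mk (nat_lit 1905) (nat_lit 1) [nat_lit 3363, nat_lit 1419, nat_lit 2067, nat_lit 1851, nat_lit 1887, nat_lit 1923, nat_lit 1911, nat_lit 1903] (nat_lit 0) [] false,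
   Spec.mk (nat_lit 1909) (nat_lit 0) [nat_lit 3367, nat_lit 1423, nat_lit 2071, nat_lit 1855, nat_lit 1927, nat_lit 1903, nat_lit 1911, nat_lit 21591] (nat_lit 0) [] false,
   Spec.mk (nat_lit 1911) (nat_lit 2) [nat_lit 3369, nat_lit 1425, nat_lit 2073, nat_lit 1857, nat_lit 1929, nat_lit 1905, nat_lit 1909] (nat_lit 0) [] false,
   Spec.mk (nat_lit 1919) (nat_lit 0) [nat_lit 3377, nat_lit 1433, nat_lit 2081, nat_lit 1901, nat_lit 1921, nat_lit 21601] (nat_lit 0) [] false,
   Spec.mk (nat_lit 1921) (nat_lit 1) [nat_lit 3379, nat_lit 1435, nat_lit 2083, nat_lit 1903, nat_lit 1927, nat_lit 1919, nat_lit 1923, nat_lit 21603] (nat_lit 0) [] false,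
   Spec.mk (nat_lit 1923) (nat_lit 0) [nat_lit 3381, nat_lit 1437, nat_lit 2085, nat_lit 1905, nat_lit 1929, nat_lit 1921] (nat_lit 0) [] false,
   Spec.mk (nat_lit 1927) (nat_lit 2) [nat_lit 3385, nat_lit 1441, nat_lit 2089, nat_lit 1909, nat_lit 1921, nat_lit 1929, nat_lit 21609] (nat_lit 0) [] false,
   Spec.mk (nat_lit 1929) (nat_lit 3) [nat_lit 3387, nat_lit 1443, nat_lit 2091, nat_lit 1911, nat_lit 1923, nat_lit 1935, nat_lit 1927] (nat_lit 0) [] false,
   Spec.mk (nat_lit 1935) (nat_lit 4) [nat_lit 3393, nat_lit 1449, nat_lit 2097, nat_lit 1929] (nat_lit 0) [] false,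
   Spec.mk (nat_lit 1961) (nat_lit 2) [nat_lit 3419, nat_lit 1799, nat_lit 1979, nat_lit 1967, nat_lit 21643] (nat_lit 0) [] true,
   Spec.mk (nat_lit 1967) (nat_lit 0) [nat_lit 3425, nat_lit 1805, nat_lit 1985, nat_lit 1961, nat_lit 1969, nat_lit 21649] (nat_lit 0) [] false,
   Spec.mk (nat_lit 1969) (nat_lit 2) [nat_lit 3427, nat_lit 1807, nat_lit 1987, nat_lit 1967, nat_lit 21651] (nat_lit 0) [] false,
   Spec.mk (nat_lit 1979) (nat_lit 0) [nat_lit 3437, nat_lit 1817, nat_lit 2033, nat_lit 1961, nat_lit 1985, nat_lit 21661] (nat_lit 0) [] true,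
   Spec.mk (nat_lit 1985) (nat_lit 0) [nat_lit 3443, nat_lit 1823, nat_lit 2039, nat_lit 1967, nat_lit 2003, nat_lit 1979, nat_lit 1991, nat_lit 1987, nat_lit 21667] (nat_lit 0) [] false,
   Spec.mk (nat_lit 1987) (nat_lit 1) [nat_lit 3445, nat_lit 1825, nat_lit 2041, nat_lit 1969, nat_lit 2005, nat_lit 1993, nat_lit 1985, nat_lit 21669] (nat_lit 0) [] false,
   Spec.mk (nat_lit 1991) (nat_lit 0) [nat_lit 3449, nat_lit 1829, nat_lit 2045, nat_lit 2009, nat_lit 1985, nat_lit 1993, nat_lit 21673] (nat_lit 2) [] false,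
   Spec.mk (nat_lit 1993) (nat_lit 1) [nat_lit 3451, nat_lit 1831, nat_lit 2047, nat_lit 2011, nat_lit 1987, nat_lit 1991, nat_lit 1995, nat_lit 21675] (nat_lit 0) [] false,
   Spec.mk (nat_lit 1995) (nat_lit 2) [nat_lit 3453, nat_lit 1833, nat_lit 2049, nat_lit 2013, nat_lit 1993] (nat_lit 0) [] false,
   Spec.mk (nat_lit 2003) (nat_lit 0) [nat_lit 3461, nat_lit 1841, nat_lit 2057, nat_lit 1985, nat_lit 2009, nat_lit 2005, nat_lit 21685] (nat_lit 2) [] false,
   Spec.mk (nat_lit 2005) (nat_lit 0) [nat_lit 3463, nat_lit 1843, nat_lit 2059, nat_lit 1987, nat_lit 2011, nat_lit 2003, nat_lit 21687] (nat_lit 2) [] false,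
   Spec.mk (nat_lit 2009) (nat_lit 0) [nat_lit 3467, nat_lit 1847, nat_lit 2063, nat_lit 1991, nat_lit 2003, nat_lit 2011, nat_lit 21691] (nat_lit 2) [] false,
   Spec.mk (nat_lit 2011) (nat_lit 0) [nat_lit 3469, nat_lit 1849, nat_lit 2065, nat_lit 1993, nat_lit 2005, nat_lit 2017, nat_lit 2009, nat_lit 2013, nat_lit 21693] (nat_lit 0) [] false,
   Spec.mk (nat_lit 2013) (nat_lit 0) [nat_lit 3471, nat_lit 1851, nat_lit 2067, nat_lit 1995, nat_lit 2019, nat_lit 2011] (nat_lit 0) [] false,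
   Spec.mk (nat_lit 2017) (nat_lit 0) [nat_lit 3475, nat_lit 1855, nat_lit 2071, nat_lit 2011, nat_lit 2019, nat_lit 21699] (nat_lit 0) [] false,
   Spec.mk (nat_lit 2019) (nat_lit 2) [nat_lit 3477, nat_lit 1857, nat_lit 2073, nat_lit 2013, nat_lit 2017] (nat_lit 0) [] false,
   Spec.mk (nat_lit 2033) (nat_lit 2) [nat_lit 3491, nat_lit 1871, nat_lit 1979, nat_lit 2039, nat_lit 21715] (nat_lit 0) [] false,
   Spec.mk (nat_lit 2039) (nat_lit 1) [nat_lit 3497, nat_lit 1877, nat_lit 1985, nat_lit 2057, nat_lit 2033, nat_lit 2045, nat_lit 2041, nat_lit 21721] (nat_lit 0) [] false,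
   Spec.mk (nat_lit 2041) (nat_lit 2) [nat_lit 3499, nat_lit 1879, nat_lit 1987, nat_lit 2059, nat_lit 2047, nat_lit 2039, nat_lit 21723] (nat_lit 0) [] false,
   Spec.mk (nat_lit 2045) (nat_lit 0) [nat_lit 3503, nat_lit 1883, nat_lit 1991, nat_lit 2063, nat_lit 2039, nat_lit 2047, nat_lit 21727] (nat_lit 2) [] false,
   Spec.mk (nat_lit 2047) (nat_lit 1) [nat_lit 3505, nat_lit 1885, nat_lit 1993, nat_lit 2065, nat_lit 2041, nat_lit 2045, nat_lit 2049, nat_lit 21729] (nat_lit 0) [] false,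
   Spec.mk (nat_lit 2049) (nat_lit 2) [nat_lit 3507, nat_lit 1887, nat_lit 1995, nat_lit 2067, nat_lit 2047] (nat_lit 0) [] false,
   Spec.mk (nat_lit 2057) (nat_lit 1) [nat_lit 3515, nat_lit 1895, nat_lit 2003, nat_lit 2111, nat_lit 2039, nat_lit 2063, nat_lit 2059, nat_lit 21739] (nat_lit 0) [] false,
   Spec.mk (nat_lit 2059) (nat_lit 1) [nat_lit 3517, nat_lit 1897, nat_lit 2005, nat_lit 2113, nat_lit 2041, nat_lit 2065, nat_lit 2057, nat_lit 21741] (nat_lit 0) [] false,
   Spec.mk (nat_lit 2063) (nat_lit 0) [nat_lit 3521, nat_lit 1901, nat_lit 2009, nat_lit 2117, nat_lit 2045, nat_lit 2081, nat_lit 2057, nat_lit 2065, nat_lit 21745] (nat_lit 0) [] false]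

noncomputable def sp4 : List Spec :=
  [Spec.mk (nat_lit 2065) (nat_lit 2) [nat_lit 3523, nat_lit 1903, nat_lit 2011, nat_lit 2119, nat_lit 2047, nat_lit 2083, nat_lit 2059, nat_lit 2071, nat_lit 2063, nat_lit 2067, nat_lit 21747] (nat_lit 0) [] false,
   Spec.mk (nat_lit 2067) (nat_lit 2) [nat_lit 3525, nat_lit 1905, nat_lit 2013, nat_lit 2121, nat_lit 2049, nat_lit 2085, nat_lit 2073, nat_lit 2065] (nat_lit 0) [] false,
   Spec.mk (nat_lit 2071) (nat_lit 1) [nat_lit 3529, nat_lit 1909, nat_lit 2017, nat_lit 2125, nat_lit 2089, nat_lit 2065, nat_lit 2073, nat_lit 21753] (nat_lit 0) [] false,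
   Spec.mk (nat_lit 2073) (nat_lit 3) [nat_lit 3531, nat_lit 1911, nat_lit 2019, nat_lit 2127, nat_lit 2091, nat_lit 2067, nat_lit 2071] (nat_lit 0) [] false,
   Spec.mk (nat_lit 2081) (nat_lit 0) [nat_lit 3539, nat_lit 1919, nat_lit 2135, nat_lit 2063, nat_lit 2083, nat_lit 21763] (nat_lit 0) [] false,
   Spec.mk (nat_lit 2083) (nat_lit 1) [nat_lit 3541, nat_lit 1921, nat_lit 2137, nat_lit 2065, nat_lit 2089, nat_lit 2081, nat_lit 2085, nat_lit 21765] (nat_lit 0) [] false,
   Spec.mk (nat_lit 2085) (nat_lit 0) [nat_lit 3543, nat_lit 1923, nat_lit 2139, nat_lit 2067, nat_lit 2091, nat_lit 2083] (nat_lit 0) [] false,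
   Spec.mk (nat_lit 2089) (nat_lit 2) [nat_lit 3547, nat_lit 1927, nat_lit 2143, nat_lit 2071, nat_lit 2083, nat_lit 2091, nat_lit 21771] (nat_lit 0) [] false,
   Spec.mk (nat_lit 2091) (nat_lit 3) [nat_lit 3549, nat_lit 1929, nat_lit 2145, nat_lit 2073, nat_lit 2085, nat_lit 2097, nat_lit 2089] (nat_lit 0) [] false,
   Spec.mk (nat_lit 2097) (nat_lit 4) [nat_lit 3555, nat_lit 1935, nat_lit 2151, nat_lit 2091] (nat_lit 0) [] false,
   Spec.mk (nat_lit 2111) (nat_lit 2) [nat_lit 3569, nat_lit 2057, nat_lit 2117, nat_lit 2113, nat_lit 21793] (nat_lit 0) [] false,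
   Spec.mk (nat_lit 2113) (nat_lit 2) [nat_lit 3571, nat_lit 2059, nat_lit 2119, nat_lit 2111, nat_lit 21795] (nat_lit 0) [] false,
   Spec.mk (nat_lit 2117) (nat_lit 0) [nat_lit 3575, nat_lit 2063, nat_lit 2135, nat_lit 2111, nat_lit 2119, nat_lit 21799] (nat_lit 0) [] false,
   Spec.mk (nat_lit 2119) (nat_lit 2) [nat_lit 3577, nat_lit 2065, nat_lit 2137, nat_lit 2113, nat_lit 2125, nat_lit 2117, nat_lit 2121, nat_lit 21801] (nat_lit 0) [] false,
   Spec.mk (nat_lit 2121) (nat_lit 2) [nat_lit 3579, nat_lit 2067, nat_lit 2139, nat_lit 2127, nat_lit 2119] (nat_lit 0) [] false,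
   Spec.mk (nat_lit 2125) (nat_lit 0) [nat_lit 3583, nat_lit 2071, nat_lit 2143, nat_lit 2119, nat_lit 2127, nat_lit 21807] (nat_lit 0) [] false,
   Spec.mk (nat_lit 2127) (nat_lit 2) [nat_lit 3585, nat_lit 2073, nat_lit 2145, nat_lit 2121, nat_lit 2125] (nat_lit 0) [] false,
   Spec.mk (nat_lit 2135) (nat_lit 2) [nat_lit 3593, nat_lit 2081, nat_lit 2117, nat_lit 2137, nat_lit 21817] (nat_lit 0) [] false,
   Spec.mk (nat_lit 2137) (nat_lit 3) [nat_lit 3595, nat_lit 2083, nat_lit 2119, nat_lit 2143, nat_lit 2135, nat_lit 2139, nat_lit 21819] (nat_lit 0) [] false,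
   Spec.mk (nat_lit 2139) (nat_lit 2) [nat_lit 3597, nat_lit 2085, nat_lit 2121, nat_lit 2145, nat_lit 2137] (nat_lit 0) [] false,
   Spec.mk (nat_lit 2143) (nat_lit 3) [nat_lit 3601, nat_lit 2089, nat_lit 2125, nat_lit 2161, nat_lit 2137, nat_lit 2145, nat_lit 21825] (nat_lit 0) [] false,
   Spec.mk (nat_lit 2145) (nat_lit 4) [nat_lit 3603, nat_lit 2091, nat_lit 2127, nat_lit 2163, nat_lit 2139, nat_lit 2151, nat_lit 2143] (nat_lit 0) [] false,
   Spec.mk (nat_lit 2151) (nat_lit 4) [nat_lit 3609, nat_lit 2097, nat_lit 2169, nat_lit 2145] (nat_lit 0) [] false,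
   Spec.mk (nat_lit 2161) (nat_lit 4) [nat_lit 3619, nat_lit 2143, nat_lit 2163, nat_lit 21843] (nat_lit 0) [] false,
   Spec.mk (nat_lit 2163) (nat_lit 4) [nat_lit 3621, nat_lit 2145, nat_lit 2169, nat_lit 2161] (nat_lit 0) [] false,
   Spec.mk (nat_lit 2169) (nat_lit 6) [nat_lit 3627, nat_lit 2151, nat_lit 2163] (nat_lit 0) [] false,
   Spec.mk (nat_lit 2267) (nat_lit 4) [nat_lit 6641, nat_lit 809, nat_lit 2321, nat_lit 21949] (nat_lit 0) [] false,
   Spec.mk (nat_lit 2321) (nat_lit 3) [nat_lit 6695, nat_lit 863, nat_lit 2483, nat_lit 2267, nat_lit 2375, nat_lit 2339, nat_lit 22003] (nat_lit 0) [] true,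
   Spec.mk (nat_lit 2339) (nat_lit 2) [nat_lit 6713, nat_lit 881, nat_lit 2501, nat_lit 2393, nat_lit 2321, nat_lit 2345, nat_lit 22021] (nat_lit 0) [] true,
   Spec.mk (nat_lit 2345) (nat_lit 2) [nat_lit 6719, nat_lit 887, nat_lit 2507, nat_lit 2399, nat_lit 2339, nat_lit 2347, nat_lit 22027] (nat_lit 0) [] true,
   Spec.mk (nat_lit 2347) (nat_lit 4) [nat_lit 6721, nat_lit 889, nat_lit 2509, nat_lit 2401, nat_lit 2345, nat_lit 22029] (nat_lit 0) [] true,
   Spec.mk (nat_lit 2375) (nat_lit 0) [nat_lit 6749, nat_lit 917, nat_lit 2537, nat_lit 2321, nat_lit 2393, nat_lit 22057] (nat_lit 0) [] true,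
   Spec.mk (nat_lit 2393) (nat_lit 1) [nat_lit 6767, nat_lit 935, nat_lit 2555, nat_lit 2339, nat_lit 2375, nat_lit 2411, nat_lit 2399, nat_lit 22075] (nat_lit 0) [] true,
   Spec.mk (nat_lit 2399) (nat_lit 0) [nat_lit 6773, nat_lit 941, nat_lit 2561, nat_lit 2345, nat_lit 2417, nat_lit 2393, nat_lit 2401, nat_lit 22081] (nat_lit 0) [] true,
   Spec.mk (nat_lit 2401) (nat_lit 2) [nat_lit 6775, nat_lit 943, nat_lit 2563, nat_lit 2347, nat_lit 2419, nat_lit 2399, nat_lit 22083] (nat_lit 0) [] false,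
   Spec.mk (nat_lit 2411) (nat_lit 0) [nat_lit 6785, nat_lit 953, nat_lit 2573, nat_lit 2393, nat_lit 2417, nat_lit 22093] (nat_lit 0) [] true,
   Spec.mk (nat_lit 2417) (nat_lit 1) [nat_lit 6791, nat_lit 959, nat_lit 2579, nat_lit 2399, nat_lit 2411, nat_lit 2423, nat_lit 2419, nat_lit 22099] (nat_lit 0) [] false,
   Spec.mk (nat_lit 2419) (nat_lit 2) [nat_lit 6793, nat_lit 961, nat_lit 2581, nat_lit 2401, nat_lit 2425, nat_lit 2417, nat_lit 22101] (nat_lit 0) [] false,
   Spec.mk (nat_lit 2423) (nat_lit 0) [nat_lit 6797, nat_lit 965, nat_lit 2585, nat_lit 2417, nat_lit 2425, nat_lit 22105] (nat_lit 0) [] false,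
   Spec.mk (nat_lit 2425) (nat_lit 3) [nat_lit 6799, nat_lit 967, nat_lit 2587, nat_lit 2419, nat_lit 2423, nat_lit 2427, nat_lit 22107] (nat_lit 0) [] false,
   Spec.mk (nat_lit 2427) (nat_lit 4) [nat_lit 6801, nat_lit 969, nat_lit 2589, nat_lit 2425] (nat_lit 0) [] false,
   Spec.mk (nat_lit 2483) (nat_lit 2) [nat_lit 6857, nat_lit 1025, nat_lit 2969, nat_lit 2321, nat_lit 2537, nat_lit 2501, nat_lit 22165] (nat_lit 0) [] true,
   Spec.mk (nat_lit 2501) (nat_lit 0) [nat_lit 6875, nat_lit 1043, nat_lit 2987, nat_lit 2339, nat_lit 2555, nat_lit 2483, nat_lit 2507, nat_lit 22183] (nat_lit 0) [] true,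
   Spec.mk (nat_lit 2507) (nat_lit 0) [nat_lit 6881, nat_lit 1049, nat_lit 2993, nat_lit 2345, nat_lit 2561, nat_lit 2501, nat_lit 2509, nat_lit 22189] (nat_lit 0) [] true,
   Spec.mk (nat_lit 2509) (nat_lit 2) [nat_lit 6883, nat_lit 1051, nat_lit 2995, nat_lit 2347, nat_lit 2563, nat_lit 2507, nat_lit 22191] (nat_lit 0) [] true,
   Spec.mk (nat_lit 2537) (nat_lit 1) [nat_lit 6911, nat_lit 1079, nat_lit 3023, nat_lit 2375, nat_lit 2699, nat_lit 2483, nat_lit 2555, nat_lit 22219] (nat_lit 0) [] true,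
   Spec.mk (nat_lit 2555) (nat_lit 1) [nat_lit 6929, nat_lit 1097, nat_lit 3041, nat_lit 2393, nat_lit 2717, nat_lit 2501, nat_lit 2609, nat_lit 2537, nat_lit 2573, nat_lit 2561, nat_lit 22237] (nat_lit 0) [] true,
   Spec.mk (nat_lit 2561) (nat_lit 0) [nat_lit 6935, nat_lit 1103, nat_lit 3047, nat_lit 2399, nat_lit 2723, nat_lit 2507, nat_lit 2615, nat_lit 2579, nat_lit 2555, nat_lit 2563, nat_lit 22243] (nat_lit 0) [] true,
   Spec.mk (nat_lit 2563) (nat_lit 2) [nat_lit 6937, nat_lit 1105, nat_lit 3049, nat_lit 2401, nat_lit 2725, nat_lit 2509, nat_lit 2617, nat_lit 2581, nat_lit 2561, nat_lit 22245] (nat_lit 0) [] true,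
   Spec.mk (nat_lit 2573) (nat_lit 0) [nat_lit 6947, nat_lit 1115, nat_lit 3059, nat_lit 2411, nat_lit 2735, nat_lit 2627, nat_lit 2555, nat_lit 2579, nat_lit 22255] (nat_lit 1) [] true,
   Spec.mk (nat_lit 2579) (nat_lit 0) [nat_lit 6953, nat_lit 1121, nat_lit 3065, nat_lit 2417, nat_lit 2741, nat_lit 2633, nat_lit 2561, nat_lit 2573, nat_lit 2585, nat_lit 2581, nat_lit 22261] (nat_lit 0) [] true,
   Spec.mk (nat_lit 2581) (nat_lit 1) [nat_lit 6955, nat_lit 1123, nat_lit 3067, nat_lit 2419, nat_lit 2743, nat_lit 2635, nat_lit 2563, nat_lit 2587, nat_lit 2579, nat_lit 22263] (nat_lit 0) [] true,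
   Spec.mk (nat_lit 2585) (nat_lit 0) [nat_lit 6959, nat_lit 1127, nat_lit 3071, nat_lit 2423, nat_lit 2747, nat_lit 2639, nat_lit 2579, nat_lit 2587, nat_lit 22267] (nat_lit 1) [] true,
   Spec.mk (nat_lit 2587) (nat_lit 2) [nat_lit 6961, nat_lit 1129, nat_lit 3073, nat_lit 2425, nat_lit 2749, nat_lit 2641, nat_lit 2581, nat_lit 2585, nat_lit 2589, nat_lit 22269] (nat_lit 0) [] true,
   Spec.mk (nat_lit 2589) (nat_lit 3) [nat_lit 6963, nat_lit 1131, nat_lit 3075, nat_lit 2427, nat_lit 2751, nat_lit 2643, nat_lit 2587] (nat_lit 0) [] false,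
   Spec.mk (nat_lit 2609) (nat_lit 0) [nat_lit 6983, nat_lit 1151, nat_lit 3095, nat_lit 2771, nat_lit 2555, nat_lit 2627, nat_lit 2615, nat_lit 22291] (nat_lit 0) [] true,
   Spec.mk (nat_lit 2615) (nat_lit 0) [nat_lit 6989, nat_lit 1157, nat_lit 3101, nat_lit 2777, nat_lit 2561, nat_lit 2633, nat_lit 2609, nat_lit 2617, nat_lit 22297] (nat_lit 2) [] true,
   Spec.mk (nat_lit 2617) (nat_lit 0) [nat_lit 6991, nat_lit 1159, nat_lit 3103, nat_lit 2779, nat_lit 2563, nat_lit 2635, nat_lit 2615, nat_lit 22299] (nat_lit 0) [] true,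
   Spec.mk (nat_lit 2627) (nat_lit 0) [nat_lit 7001, nat_lit 1169, nat_lit 3113, nat_lit 2789, nat_lit 2573, nat_lit 2609, nat_lit 2633, nat_lit 22309] (nat_lit 0) [] true,
   Spec.mk (nat_lit 2633) (nat_lit 0) [nat_lit 7007, nat_lit 1175, nat_lit 3119, nat_lit 2795, nat_lit 2579, nat_lit 2615, nat_lit 2651, nat_lit 2627, nat_lit 2639, nat_lit 2635, nat_lit 22315] (nat_lit 0) [] true]

noncomputable def sp5 : List Spec :=
  [Spec.mk (nat_lit 2635) (nat_lit 1) [nat_lit 7009, nat_lit 1177, nat_lit 3121, nat_lit 2797, nat_lit 2581, nat_lit 2617, nat_lit 2653, nat_lit 2641, nat_lit 2633, nat_lit 22317] (nat_lit 0) [] true,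
   Spec.mk (nat_lit 2639) (nat_lit 0) [nat_lit 7013, nat_lit 1181, nat_lit 3125, nat_lit 2801, nat_lit 2585, nat_lit 2657, nat_lit 2633, nat_lit 2641, nat_lit 22321] (nat_lit 2) [] true,
   Spec.mk (nat_lit 2641) (nat_lit 1) [nat_lit 7015, nat_lit 1183, nat_lit 3127, nat_lit 2803, nat_lit 2587, nat_lit 2659, nat_lit 2635, nat_lit 2639, nat_lit 2643, nat_lit 22323] (nat_lit 0) [] true,
   Spec.mk (nat_lit 2643) (nat_lit 2) [nat_lit 7017, nat_lit 1185, nat_lit 3129, nat_lit 2805, nat_lit 2589, nat_lit 2661, nat_lit 2641] (nat_lit 0) [] false,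
   Spec.mk (nat_lit 2651) (nat_lit 0) [nat_lit 7025, nat_lit 1193, nat_lit 3137, nat_lit 2813, nat_lit 2633, nat_lit 2657, nat_lit 2653, nat_lit 22333] (nat_lit 0) [] true,
   Spec.mk (nat_lit 2653) (nat_lit 0) [nat_lit 7027, nat_lit 1195, nat_lit 3139, nat_lit 2815, nat_lit 2635, nat_lit 2659, nat_lit 2651, nat_lit 22335] (nat_lit 0) [] true,
   Spec.mk (nat_lit 2657) (nat_lit 0) [nat_lit 7031, nat_lit 1199, nat_lit 3143, nat_lit 2819, nat_lit 2639, nat_lit 2651, nat_lit 2659, nat_lit 22339] (nat_lit 0) [] true,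
   Spec.mk (nat_lit 2659) (nat_lit 2) [nat_lit 7033, nat_lit 1201, nat_lit 3145, nat_lit 2821, nat_lit 2641, nat_lit 2653, nat_lit 2665, nat_lit 2657, nat_lit 2661, nat_lit 22341] (nat_lit 0) [] true,
   Spec.mk (nat_lit 2661) (nat_lit 2) [nat_lit 7035, nat_lit 1203, nat_lit 3147, nat_lit 2823, nat_lit 2643, nat_lit 2667, nat_lit 2659] (nat_lit 0) [] false,
   Spec.mk (nat_lit 2665) (nat_lit 2) [nat_lit 7039, nat_lit 1207, nat_lit 3151, nat_lit 2827, nat_lit 2659, nat_lit 2667, nat_lit 22347] (nat_lit 0) [] true,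
   Spec.mk (nat_lit 2667) (nat_lit 4) [nat_lit 7041, nat_lit 1209, nat_lit 3153, nat_lit 2829, nat_lit 2661, nat_lit 2665] (nat_lit 0) [] false,
   Spec.mk (nat_lit 2699) (nat_lit 0) [nat_lit 7073, nat_lit 1241, nat_lit 3185, nat_lit 2537, nat_lit 2717, nat_lit 22381] (nat_lit 0) [] true,
   Spec.mk (nat_lit 2717) (nat_lit 0) [nat_lit 7091, nat_lit 1259, nat_lit 3203, nat_lit 2555, nat_lit 2771, nat_lit 2699, nat_lit 2735, nat_lit 2723, nat_lit 22399] (nat_lit 1) [] true,
   Spec.mk (nat_lit 2723) (nat_lit 0) [nat_lit 7097, nat_lit 1265, nat_lit 3209, nat_lit 2561, nat_lit 2777, nat_lit 2741, nat_lit 2717, nat_lit 2725, nat_lit 22405] (nat_lit 2) [] true,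
   Spec.mk (nat_lit 2725) (nat_lit 0) [nat_lit 7099, nat_lit 1267, nat_lit 3211, nat_lit 2563, nat_lit 2779, nat_lit 2743, nat_lit 2723, nat_lit 22407] (nat_lit 0) [] true,
   Spec.mk (nat_lit 2735) (nat_lit 0) [nat_lit 7109, nat_lit 1277, nat_lit 3221, nat_lit 2573, nat_lit 2789, nat_lit 2717, nat_lit 2741, nat_lit 22417] (nat_lit 4) [] true,
   Spec.mk (nat_lit 2741) (nat_lit 0) [nat_lit 7115, nat_lit 1283, nat_lit 3227, nat_lit 2579, nat_lit 2795, nat_lit 2723, nat_lit 2735, nat_lit 2747, nat_lit 2743, nat_lit 22423] (nat_lit 3) [] true,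
   Spec.mk (nat_lit 2743) (nat_lit 0) [nat_lit 7117, nat_lit 1285, nat_lit 3229, nat_lit 2581, nat_lit 2797, nat_lit 2725, nat_lit 2749, nat_lit 2741, nat_lit 22425] (nat_lit 2) [] true,
   Spec.mk (nat_lit 2747) (nat_lit 0) [nat_lit 7121, nat_lit 1289, nat_lit 3233, nat_lit 2585, nat_lit 2801, nat_lit 2741, nat_lit 2749, nat_lit 22429] (nat_lit 4) [] true,
   Spec.mk (nat_lit 2749) (nat_lit 0) [nat_lit 7123, nat_lit 1291, nat_lit 3235, nat_lit 2587, nat_lit 2803, nat_lit 2743, nat_lit 2747, nat_lit 2751, nat_lit 22431] (nat_lit 1) [] true,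
   Spec.mk (nat_lit 2751) (nat_lit 0) [nat_lit 7125, nat_lit 1293, nat_lit 3237, nat_lit 2589, nat_lit 2805, nat_lit 2749] (nat_lit 0) [] false,
   Spec.mk (nat_lit 2771) (nat_lit 0) [nat_lit 7145, nat_lit 1313, nat_lit 3257, nat_lit 2609, nat_lit 2717, nat_lit 2789, nat_lit 2777, nat_lit 22453] (nat_lit 0) [] true,
   Spec.mk (nat_lit 2777) (nat_lit 0) [nat_lit 7151, nat_lit 1319, nat_lit 3263, nat_lit 2615, nat_lit 2723, nat_lit 2795, nat_lit 2771, nat_lit 2779, nat_lit 22459] (nat_lit 2) [] true,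
   Spec.mk (nat_lit 2779) (nat_lit 0) [nat_lit 7153, nat_lit 1321, nat_lit 3265, nat_lit 2617, nat_lit 2725, nat_lit 2797, nat_lit 2777, nat_lit 22461] (nat_lit 0) [] true,
   Spec.mk (nat_lit 2789) (nat_lit 0) [nat_lit 7163, nat_lit 1331, nat_lit 3275, nat_lit 2627, nat_lit 2735, nat_lit 2843, nat_lit 2771, nat_lit 2795, nat_lit 22471] (nat_lit 1) [] true,
   Spec.mk (nat_lit 2795) (nat_lit 0) [nat_lit 7169, nat_lit 1337, nat_lit 3281, nat_lit 2633, nat_lit 2741, nat_lit 2849, nat_lit 2777, nat_lit 2813, nat_lit 2789, nat_lit 2801, nat_lit 2797, nat_lit 22477] (nat_lit 1) [] true,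
   Spec.mk (nat_lit 2797) (nat_lit 0) [nat_lit 7171, nat_lit 1339, nat_lit 3283, nat_lit 2635, nat_lit 2743, nat_lit 2851, nat_lit 2779, nat_lit 2815, nat_lit 2803, nat_lit 2795, nat_lit 22479] (nat_lit 0) [] true,
   Spec.mk (nat_lit 2801) (nat_lit 0) [nat_lit 7175, nat_lit 1343, nat_lit 3287, nat_lit 2639, nat_lit 2747, nat_lit 2855, nat_lit 2819, nat_lit 2795, nat_lit 2803, nat_lit 22483] (nat_lit 3) [] true,
   Spec.mk (nat_lit 2803) (nat_lit 0) [nat_lit 7177, nat_lit 1345, nat_lit 3289, nat_lit 2641, nat_lit 2749, nat_lit 2857, nat_lit 2821, nat_lit 2797, nat_lit 2801, nat_lit 2805, nat_lit 22485] (nat_lit 0) [] true,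
   Spec.mk (nat_lit 2805) (nat_lit 1) [nat_lit 7179, nat_lit 1347, nat_lit 3291, nat_lit 2643, nat_lit 2751, nat_lit 2859, nat_lit 2823, nat_lit 2803] (nat_lit 0) [] false,
   Spec.mk (nat_lit 2813) (nat_lit 0) [nat_lit 7187, nat_lit 1355, nat_lit 3299, nat_lit 2651, nat_lit 2867, nat_lit 2795, nat_lit 2819, nat_lit 2815, nat_lit 22495] (nat_lit 2) [] true,
   Spec.mk (nat_lit 2815) (nat_lit 0) [nat_lit 7189, nat_lit 1357, nat_lit 3301, nat_lit 2653, nat_lit 2869, nat_lit 2797, nat_lit 2821, nat_lit 2813, nat_lit 22497] (nat_lit 2) [] true,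
   Spec.mk (nat_lit 2819) (nat_lit 0) [nat_lit 7193, nat_lit 1361, nat_lit 3305, nat_lit 2657, nat_lit 2873, nat_lit 2801, nat_lit 2813, nat_lit 2821, nat_lit 22501] (nat_lit 2) [] true,
   Spec.mk (nat_lit 2821) (nat_lit 0) [nat_lit 7195, nat_lit 1363, nat_lit 3307, nat_lit 2659, nat_lit 2875, nat_lit 2803, nat_lit 2815, nat_lit 2827, nat_lit 2819, nat_lit 2823, nat_lit 22503] (nat_lit 0) [] true,
   Spec.mk (nat_lit 2823) (nat_lit 0) [nat_lit 7197, nat_lit 1365, nat_lit 3309, nat_lit 2661, nat_lit 2877, nat_lit 2805, nat_lit 2829, nat_lit 2821] (nat_lit 0) [] false,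
   Spec.mk (nat_lit 2827) (nat_lit 0) [nat_lit 7201, nat_lit 1369, nat_lit 3313, nat_lit 2665, nat_lit 2881, nat_lit 2821, nat_lit 2829, nat_lit 22509] (nat_lit 0) [] true,
   Spec.mk (nat_lit 2829) (nat_lit 2) [nat_lit 7203, nat_lit 1371, nat_lit 3315, nat_lit 2667, nat_lit 2883, nat_lit 2823, nat_lit 2827] (nat_lit 0) [] false,
   Spec.mk (nat_lit 2843) (nat_lit 0) [nat_lit 7217, nat_lit 1385, nat_lit 3329, nat_lit 2789, nat_lit 2849, nat_lit 22525] (nat_lit 0) [] true,
   Spec.mk (nat_lit 2849) (nat_lit 0) [nat_lit 7223, nat_lit 1391, nat_lit 3335, nat_lit 2795, nat_lit 2867, nat_lit 2843, nat_lit 2855, nat_lit 2851, nat_lit 22531] (nat_lit 1) [] true,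
   Spec.mk (nat_lit 2851) (nat_lit 0) [nat_lit 7225, nat_lit 1393, nat_lit 3337, nat_lit 2797, nat_lit 2869, nat_lit 2857, nat_lit 2849, nat_lit 22533] (nat_lit 0) [] true,
   Spec.mk (nat_lit 2855) (nat_lit 0) [nat_lit 7229, nat_lit 1397, nat_lit 3341, nat_lit 2801, nat_lit 2873, nat_lit 2849, nat_lit 2857, nat_lit 22537] (nat_lit 4) [] true,
   Spec.mk (nat_lit 2857) (nat_lit 0) [nat_lit 7231, nat_lit 1399, nat_lit 3343, nat_lit 2803, nat_lit 2875, nat_lit 2851, nat_lit 2855, nat_lit 2859, nat_lit 22539] (nat_lit 1) [] true,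
   Spec.mk (nat_lit 2859) (nat_lit 0) [nat_lit 7233, nat_lit 1401, nat_lit 3345, nat_lit 2805, nat_lit 2877, nat_lit 2857] (nat_lit 0) [] false,
   Spec.mk (nat_lit 2867) (nat_lit 0) [nat_lit 7241, nat_lit 1409, nat_lit 3353, nat_lit 2813, nat_lit 2849, nat_lit 2873, nat_lit 2869, nat_lit 22549] (nat_lit 0) [] true,
   Spec.mk (nat_lit 2869) (nat_lit 0) [nat_lit 7243, nat_lit 1411, nat_lit 3355, nat_lit 2815, nat_lit 2851, nat_lit 2875, nat_lit 2867, nat_lit 22551] (nat_lit 0) [] true,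
   Spec.mk (nat_lit 2873) (nat_lit 0) [nat_lit 7247, nat_lit 1415, nat_lit 3359, nat_lit 2819, nat_lit 2855, nat_lit 2891, nat_lit 2867, nat_lit 2875, nat_lit 22555] (nat_lit 1) [] true,
   Spec.mk (nat_lit 2875) (nat_lit 1) [nat_lit 7249, nat_lit 1417, nat_lit 3361, nat_lit 2821, nat_lit 2857, nat_lit 2893, nat_lit 2869, nat_lit 2881, nat_lit 2873, nat_lit 2877, nat_lit 22557] (nat_lit 0) [] true,
   Spec.mk (nat_lit 2877) (nat_lit 1) [nat_lit 7251, nat_lit 1419, nat_lit 3363, nat_lit 2823, nat_lit 2859, nat_lit 2895, nat_lit 2883, nat_lit 2875] (nat_lit 0) [] false,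
   Spec.mk (nat_lit 2881) (nat_lit 0) [nat_lit 7255, nat_lit 1423, nat_lit 3367, nat_lit 2827, nat_lit 2899, nat_lit 2875, nat_lit 2883, nat_lit 22563] (nat_lit 0) [] false,
   Spec.mk (nat_lit 2883) (nat_lit 2) [nat_lit 7257, nat_lit 1425, nat_lit 3369, nat_lit 2829, nat_lit 2901, nat_lit 2877, nat_lit 2881] (nat_lit 0) [] false,
   Spec.mk (nat_lit 2891) (nat_lit 0) [nat_lit 7265, nat_lit 1433, nat_lit 3377, nat_lit 2873, nat_lit 2893, nat_lit 22573] (nat_lit 0) [] true,
   Spec.mk (nat_lit 2893) (nat_lit 1) [nat_lit 7267, nat_lit 1435, nat_lit 3379, nat_lit 2875, nat_lit 2899, nat_lit 2891, nat_lit 2895, nat_lit 22575] (nat_lit 0) [] true,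
   Spec.mk (nat_lit 2895) (nat_lit 0) [nat_lit 7269, nat_lit 1437, nat_lit 3381, nat_lit 2877, nat_lit 2901, nat_lit 2893] (nat_lit 0) [] false,
   Spec.mk (nat_lit 2899) (nat_lit 2) [nat_lit 7273, nat_lit 1441, nat_lit 3385, nat_lit 2881, nat_lit 2893, nat_lit 2901, nat_lit 22581] (nat_lit 0) [] false,
   Spec.mk (nat_lit 2901) (nat_lit 3) [nat_lit 7275, nat_lit 1443, nat_lit 3387, nat_lit 2883, nat_lit 2895, nat_lit 2907, nat_lit 2899] (nat_lit 0) [] false,
   Spec.mk (nat_lit 2907) (nat_lit 4) [nat_lit 7281, nat_lit 1449, nat_lit 3393, nat_lit 2901] (nat_lit 0) [] false,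
   Spec.mk (nat_lit 2969) (nat_lit 3) [nat_lit 7343, nat_lit 1511, nat_lit 4427, nat_lit 2483, nat_lit 3023, nat_lit 2987, nat_lit 22651] (nat_lit 0) [] true,
   Spec.mk (nat_lit 2987) (nat_lit 1) [nat_lit 7361, nat_lit 1529, nat_lit 4445, nat_lit 2501, nat_lit 3041, nat_lit 2969, nat_lit 2993, nat_lit 22669] (nat_lit 0) [] true,
   Spec.mk (nat_lit 2993) (nat_lit 1) [nat_lit 7367, nat_lit 1535, nat_lit 4451, nat_lit 2507, nat_lit 3047, nat_lit 2987, nat_lit 2995, nat_lit 22675] (nat_lit 0) [] false,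
   Spec.mk (nat_lit 2995) (nat_lit 3) [nat_lit 7369, nat_lit 1537, nat_lit 4453, nat_lit 2509, nat_lit 3049, nat_lit 2993, nat_lit 22677] (nat_lit 0) [] false]

noncomputable def sp6 : List Spec :=
  [Spec.mk (nat_lit 3023) (nat_lit 1) [nat_lit 7397, nat_lit 1565, nat_lit 4481, nat_lit 2537, nat_lit 3185, nat_lit 2969, nat_lit 3041, nat_lit 22705] (nat_lit 0) [] true,
   Spec.mk (nat_lit 3041) (nat_lit 1) [nat_lit 7415, nat_lit 1583, nat_lit 4499, nat_lit 2555, nat_lit 3203, nat_lit 2987, nat_lit 3095, nat_lit 3023, nat_lit 3059, nat_lit 3047, nat_lit 22723] (nat_lit 0) [] true,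
   Spec.mk (nat_lit 3047) (nat_lit 0) [nat_lit 7421, nat_lit 1589, nat_lit 4505, nat_lit 2561, nat_lit 3209, nat_lit 2993, nat_lit 3101, nat_lit 3065, nat_lit 3041, nat_lit 3049, nat_lit 22729] (nat_lit 0) [] true,
   Spec.mk (nat_lit 3049) (nat_lit 2) [nat_lit 7423, nat_lit 1591, nat_lit 4507, nat_lit 2563, nat_lit 3211, nat_lit 2995, nat_lit 3103, nat_lit 3067, nat_lit 3047, nat_lit 22731] (nat_lit 0) [] true,
   Spec.mk (nat_lit 3059) (nat_lit 0) [nat_lit 7433, nat_lit 1601, nat_lit 4517, nat_lit 2573, nat_lit 3221, nat_lit 3113, nat_lit 3041, nat_lit 3065, nat_lit 22741] (nat_lit 1) [] true,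
   Spec.mk (nat_lit 3065) (nat_lit 0) [nat_lit 7439, nat_lit 1607, nat_lit 4523, nat_lit 2579, nat_lit 3227, nat_lit 3119, nat_lit 3047, nat_lit 3059, nat_lit 3071, nat_lit 3067, nat_lit 22747] (nat_lit 0) [] true,
   Spec.mk (nat_lit 3067) (nat_lit 1) [nat_lit 7441, nat_lit 1609, nat_lit 4525, nat_lit 2581, nat_lit 3229, nat_lit 3121, nat_lit 3049, nat_lit 3073, nat_lit 3065, nat_lit 22749] (nat_lit 0) [] true,
   Spec.mk (nat_lit 3071) (nat_lit 0) [nat_lit 7445, nat_lit 1613, nat_lit 4529, nat_lit 2585, nat_lit 3233, nat_lit 3125, nat_lit 3065, nat_lit 3073, nat_lit 22753] (nat_lit 1) [] true,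
   Spec.mk (nat_lit 3073) (nat_lit 2) [nat_lit 7447, nat_lit 1615, nat_lit 4531, nat_lit 2587, nat_lit 3235, nat_lit 3127, nat_lit 3067, nat_lit 3071, nat_lit 3075, nat_lit 22755] (nat_lit 0) [] true,
   Spec.mk (nat_lit 3075) (nat_lit 3) [nat_lit 7449, nat_lit 1617, nat_lit 4533, nat_lit 2589, nat_lit 3237, nat_lit 3129, nat_lit 3073] (nat_lit 0) [] false,
   Spec.mk (nat_lit 3095) (nat_lit 0) [nat_lit 7469, nat_lit 1637, nat_lit 4553, nat_lit 2609, nat_lit 3257, nat_lit 3041, nat_lit 3113, nat_lit 3101, nat_lit 22777] (nat_lit 1) [] true,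
   Spec.mk (nat_lit 3101) (nat_lit 0) [nat_lit 7475, nat_lit 1643, nat_lit 4559, nat_lit 2615, nat_lit 3263, nat_lit 3047, nat_lit 3119, nat_lit 3095, nat_lit 3103, nat_lit 22783] (nat_lit 3) [] true,
   Spec.mk (nat_lit 3103) (nat_lit 0) [nat_lit 7477, nat_lit 1645, nat_lit 4561, nat_lit 2617, nat_lit 3265, nat_lit 3049, nat_lit 3121, nat_lit 3101, nat_lit 22785] (nat_lit 1) [] true,
   Spec.mk (nat_lit 3113) (nat_lit 0) [nat_lit 7487, nat_lit 1655, nat_lit 4571, nat_lit 2627, nat_lit 3275, nat_lit 3059, nat_lit 3095, nat_lit 3119, nat_lit 22795] (nat_lit 1) [] true,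
   Spec.mk (nat_lit 3119) (nat_lit 0) [nat_lit 7493, nat_lit 1661, nat_lit 4577, nat_lit 2633, nat_lit 3281, nat_lit 3065, nat_lit 3101, nat_lit 3137, nat_lit 3113, nat_lit 3125, nat_lit 3121, nat_lit 22801] (nat_lit 1) [] true,
   Spec.mk (nat_lit 3121) (nat_lit 0) [nat_lit 7495, nat_lit 1663, nat_lit 4579, nat_lit 2635, nat_lit 3283, nat_lit 3067, nat_lit 3103, nat_lit 3139, nat_lit 3127, nat_lit 3119, nat_lit 22803] (nat_lit 0) [] true,
   Spec.mk (nat_lit 3125) (nat_lit 0) [nat_lit 7499, nat_lit 1667, nat_lit 4583, nat_lit 2639, nat_lit 3287, nat_lit 3071, nat_lit 3143, nat_lit 3119, nat_lit 3127, nat_lit 22807] (nat_lit 3) [] true,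
   Spec.mk (nat_lit 3127) (nat_lit 0) [nat_lit 7501, nat_lit 1669, nat_lit 4585, nat_lit 2641, nat_lit 3289, nat_lit 3073, nat_lit 3145, nat_lit 3121, nat_lit 3125, nat_lit 3129, nat_lit 22809] (nat_lit 0) [] true,
   Spec.mk (nat_lit 3129) (nat_lit 1) [nat_lit 7503, nat_lit 1671, nat_lit 4587, nat_lit 2643, nat_lit 3291, nat_lit 3075, nat_lit 3147, nat_lit 3127] (nat_lit 0) [] false,
   Spec.mk (nat_lit 3137) (nat_lit 0) [nat_lit 7511, nat_lit 1679, nat_lit 4595, nat_lit 2651, nat_lit 3299, nat_lit 3119, nat_lit 3143, nat_lit 3139, nat_lit 22819] (nat_lit 1) [] true,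
   Spec.mk (nat_lit 3139) (nat_lit 0) [nat_lit 7513, nat_lit 1681, nat_lit 4597, nat_lit 2653, nat_lit 3301, nat_lit 3121, nat_lit 3145, nat_lit 3137, nat_lit 22821] (nat_lit 1) [] true,
   Spec.mk (nat_lit 3143) (nat_lit 0) [nat_lit 7517, nat_lit 1685, nat_lit 4601, nat_lit 2657, nat_lit 3305, nat_lit 3125, nat_lit 3137, nat_lit 3145, nat_lit 22825] (nat_lit 1) [] true,
   Spec.mk (nat_lit 3145) (nat_lit 1) [nat_lit 7519, nat_lit 1687, nat_lit 4603, nat_lit 2659, nat_lit 3307, nat_lit 3127, nat_lit 3139, nat_lit 3151, nat_lit 3143, nat_lit 3147, nat_lit 22827] (nat_lit 0) [] true,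
   Spec.mk (nat_lit 3147) (nat_lit 1) [nat_lit 7521, nat_lit 1689, nat_lit 4605, nat_lit 2661, nat_lit 3309, nat_lit 3129, nat_lit 3153, nat_lit 3145] (nat_lit 0) [] false,
   Spec.mk (nat_lit 3151) (nat_lit 1) [nat_lit 7525, nat_lit 1693, nat_lit 4609, nat_lit 2665, nat_lit 3313, nat_lit 3145, nat_lit 3153, nat_lit 22833] (nat_lit 0) [] false,
   Spec.mk (nat_lit 3153) (nat_lit 3) [nat_lit 7527, nat_lit 1695, nat_lit 4611, nat_lit 2667, nat_lit 3315, nat_lit 3147, nat_lit 3151] (nat_lit 0) [] false,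
   Spec.mk (nat_lit 3185) (nat_lit 2) [nat_lit 7559, nat_lit 1727, nat_lit 4643, nat_lit 2699, nat_lit 3671, nat_lit 3023, nat_lit 3203, nat_lit 22867] (nat_lit 0) [] true,
   Spec.mk (nat_lit 3203) (nat_lit 1) [nat_lit 7577, nat_lit 1745, nat_lit 4661, nat_lit 2717, nat_lit 3689, nat_lit 3041, nat_lit 3257, nat_lit 3185, nat_lit 3221, nat_lit 3209, nat_lit 22885] (nat_lit 0) [] true,
   Spec.mk (nat_lit 3209) (nat_lit 0) [nat_lit 7583, nat_lit 1751, nat_lit 4667, nat_lit 2723, nat_lit 3695, nat_lit 3047, nat_lit 3263, nat_lit 3227, nat_lit 3203, nat_lit 3211, nat_lit 22891] (nat_lit 0) [] true,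
   Spec.mk (nat_lit 3211) (nat_lit 2) [nat_lit 7585, nat_lit 1753, nat_lit 4669, nat_lit 2725, nat_lit 3697, nat_lit 3049, nat_lit 3265, nat_lit 3229, nat_lit 3209, nat_lit 22893] (nat_lit 0) [] true,
   Spec.mk (nat_lit 3221) (nat_lit 0) [nat_lit 7595, nat_lit 1763, nat_lit 4679, nat_lit 2735, nat_lit 3707, nat_lit 3059, nat_lit 3275, nat_lit 3203, nat_lit 3227, nat_lit 22903] (nat_lit 2) [] true,
   Spec.mk (nat_lit 3227) (nat_lit 0) [nat_lit 7601, nat_lit 1769, nat_lit 4685, nat_lit 2741, nat_lit 3713, nat_lit 3065, nat_lit 3281, nat_lit 3209, nat_lit 3221, nat_lit 3233, nat_lit 3229, nat_lit 22909] (nat_lit 1) [] true,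
   Spec.mk (nat_lit 3229) (nat_lit 0) [nat_lit 7603, nat_lit 1771, nat_lit 4687, nat_lit 2743, nat_lit 3715, nat_lit 3067, nat_lit 3283, nat_lit 3211, nat_lit 3235, nat_lit 3227, nat_lit 22911] (nat_lit 0) [] true,
   Spec.mk (nat_lit 3233) (nat_lit 0) [nat_lit 7607, nat_lit 1775, nat_lit 4691, nat_lit 2747, nat_lit 3719, nat_lit 3071, nat_lit 3287, nat_lit 3227, nat_lit 3235, nat_lit 22915] (nat_lit 2) [] true,
   Spec.mk (nat_lit 3235) (nat_lit 1) [nat_lit 7609, nat_lit 1777, nat_lit 4693, nat_lit 2749, nat_lit 3721, nat_lit 3073, nat_lit 3289, nat_lit 3229, nat_lit 3233, nat_lit 3237, nat_lit 22917] (nat_lit 0) [] true,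
   Spec.mk (nat_lit 3237) (nat_lit 2) [nat_lit 7611, nat_lit 1779, nat_lit 4695, nat_lit 2751, nat_lit 3723, nat_lit 3075, nat_lit 3291, nat_lit 3235] (nat_lit 0) [] false,
   Spec.mk (nat_lit 3257) (nat_lit 1) [nat_lit 7631, nat_lit 1799, nat_lit 4715, nat_lit 2771, nat_lit 3743, nat_lit 3095, nat_lit 3419, nat_lit 3203, nat_lit 3275, nat_lit 3263, nat_lit 22939] (nat_lit 0) [] true,
   Spec.mk (nat_lit 3263) (nat_lit 0) [nat_lit 7637, nat_lit 1805, nat_lit 4721, nat_lit 2777, nat_lit 3749, nat_lit 3101, nat_lit 3425, nat_lit 3209, nat_lit 3281, nat_lit 3257, nat_lit 3265, nat_lit 22945] (nat_lit 1) [] true,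
   Spec.mk (nat_lit 3265) (nat_lit 1) [nat_lit 7639, nat_lit 1807, nat_lit 4723, nat_lit 2779, nat_lit 3751, nat_lit 3103, nat_lit 3427, nat_lit 3211, nat_lit 3283, nat_lit 3263, nat_lit 22947] (nat_lit 0) [] true,
   Spec.mk (nat_lit 3275) (nat_lit 0) [nat_lit 7649, nat_lit 1817, nat_lit 4733, nat_lit 2789, nat_lit 3761, nat_lit 3113, nat_lit 3437, nat_lit 3221, nat_lit 3329, nat_lit 3257, nat_lit 3281, nat_lit 22957] (nat_lit 0) [] true,
   Spec.mk (nat_lit 3281) (nat_lit 0) [nat_lit 7655, nat_lit 1823, nat_lit 4739, nat_lit 2795, nat_lit 3767, nat_lit 3119, nat_lit 3443, nat_lit 3227, nat_lit 3335, nat_lit 3263, nat_lit 3299, nat_lit 3275, nat_lit 3287, nat_lit 3283, nat_lit 22963] (nat_lit 0) [] true,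
   Spec.mk (nat_lit 3283) (nat_lit 1) [nat_lit 7657, nat_lit 1825, nat_lit 4741, nat_lit 2797, nat_lit 3769, nat_lit 3121, nat_lit 3445, nat_lit 3229, nat_lit 3337, nat_lit 3265, nat_lit 3301, nat_lit 3289, nat_lit 3281, nat_lit 22965] (nat_lit 0) [] true,
   Spec.mk (nat_lit 3287) (nat_lit 0) [nat_lit 7661, nat_lit 1829, nat_lit 4745, nat_lit 2801, nat_lit 3773, nat_lit 3125, nat_lit 3449, nat_lit 3233, nat_lit 3341, nat_lit 3305, nat_lit 3281, nat_lit 3289, nat_lit 22969] (nat_lit 2) [] true,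
   Spec.mk (nat_lit 3289) (nat_lit 1) [nat_lit 7663, nat_lit 1831, nat_lit 4747, nat_lit 2803, nat_lit 3775, nat_lit 3127, nat_lit 3451, nat_lit 3235, nat_lit 3343, nat_lit 3307, nat_lit 3283, nat_lit 3287, nat_lit 3291, nat_lit 22971] (nat_lit 0) [] true,
   Spec.mk (nat_lit 3291) (nat_lit 2) [nat_lit 7665, nat_lit 1833, nat_lit 4749, nat_lit 2805, nat_lit 3777, nat_lit 3129, nat_lit 3453, nat_lit 3237, nat_lit 3345, nat_lit 3309, nat_lit 3289] (nat_lit 0) [] false,
   Spec.mk (nat_lit 3299) (nat_lit 0) [nat_lit 7673, nat_lit 1841, nat_lit 4757, nat_lit 2813, nat_lit 3785, nat_lit 3137, nat_lit 3461, nat_lit 3353, nat_lit 3281, nat_lit 3305, nat_lit 3301, nat_lit 22981] (nat_lit 1) [] true,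
   Spec.mk (nat_lit 3301) (nat_lit 0) [nat_lit 7675, nat_lit 1843, nat_lit 4759, nat_lit 2815, nat_lit 3787, nat_lit 3139, nat_lit 3463, nat_lit 3355, nat_lit 3283, nat_lit 3307, nat_lit 3299, nat_lit 22983] (nat_lit 1) [] true,
   Spec.mk (nat_lit 3305) (nat_lit 0) [nat_lit 7679, nat_lit 1847, nat_lit 4763, nat_lit 2819, nat_lit 3791, nat_lit 3143, nat_lit 3467, nat_lit 3359, nat_lit 3287, nat_lit 3299, nat_lit 3307, nat_lit 22987] (nat_lit 1) [] true,
   Spec.mk (nat_lit 3307) (nat_lit 1) [nat_lit 7681, nat_lit 1849, nat_lit 4765, nat_lit 2821, nat_lit 3793, nat_lit 3145, nat_lit 3469, nat_lit 3361, nat_lit 3289, nat_lit 3301, nat_lit 3313, nat_lit 3305, nat_lit 3309, nat_lit 22989] (nat_lit 0) [] true,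
   Spec.mk (nat_lit 3309) (nat_lit 1) [nat_lit 7683, nat_lit 1851, nat_lit 4767, nat_lit 2823, nat_lit 3795, nat_lit 3147, nat_lit 3471, nat_lit 3363, nat_lit 3291, nat_lit 3315, nat_lit 3307] (nat_lit 0) [] false,
   Spec.mk (nat_lit 3313) (nat_lit 1) [nat_lit 7687, nat_lit 1855, nat_lit 4771, nat_lit 2827, nat_lit 3799, nat_lit 3151, nat_lit 3475, nat_lit 3367, nat_lit 3307, nat_lit 3315, nat_lit 22995] (nat_lit 0) [] false,
   Spec.mk (nat_lit 3315) (nat_lit 3) [nat_lit 7689, nat_lit 1857, nat_lit 4773, nat_lit 2829, nat_lit 3801, nat_lit 3153, nat_lit 3477, nat_lit 3369, nat_lit 3309, nat_lit 3313] (nat_lit 0) [] false,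
   Spec.mk (nat_lit 3329) (nat_lit 0) [nat_lit 7703, nat_lit 1871, nat_lit 4787, nat_lit 2843, nat_lit 3815, nat_lit 3491, nat_lit 3275, nat_lit 3335, nat_lit 23011] (nat_lit 0) [] true,
   Spec.mk (nat_lit 3335) (nat_lit 0) [nat_lit 7709, nat_lit 1877, nat_lit 4793, nat_lit 2849, nat_lit 3821, nat_lit 3497, nat_lit 3281, nat_lit 3353, nat_lit 3329, nat_lit 3341, nat_lit 3337, nat_lit 23017] (nat_lit 1) [] true,
   Spec.mk (nat_lit 3337) (nat_lit 0) [nat_lit 7711, nat_lit 1879, nat_lit 4795, nat_lit 2851, nat_lit 3823, nat_lit 3499, nat_lit 3283, nat_lit 3355, nat_lit 3343, nat_lit 3335, nat_lit 23019] (nat_lit 0) [] true,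
   Spec.mk (nat_lit 3341) (nat_lit 0) [nat_lit 7715, nat_lit 1883, nat_lit 4799, nat_lit 2855, nat_lit 3827, nat_lit 3503, nat_lit 3287, nat_lit 3359, nat_lit 3335, nat_lit 3343, nat_lit 23023] (nat_lit 4) [] true,
   Spec.mk (nat_lit 3343) (nat_lit 0) [nat_lit 7717, nat_lit 1885, nat_lit 4801, nat_lit 2857, nat_lit 3829, nat_lit 3505, nat_lit 3289, nat_lit 3361, nat_lit 3337, nat_lit 3341, nat_lit 3345, nat_lit 23025] (nat_lit 1) [] true,
   Spec.mk (nat_lit 3345) (nat_lit 0) [nat_lit 7719, nat_lit 1887, nat_lit 4803, nat_lit 2859, nat_lit 3831, nat_lit 3507, nat_lit 3291, nat_lit 3363, nat_lit 3343] (nat_lit 0) [] false,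
   Spec.mk (nat_lit 3353) (nat_lit 0) [nat_lit 7727, nat_lit 1895, nat_lit 4811, nat_lit 2867, nat_lit 3839, nat_lit 3515, nat_lit 3299, nat_lit 3335, nat_lit 3359, nat_lit 3355, nat_lit 23035] (nat_lit 0) [] true,
   Spec.mk (nat_lit 3355) (nat_lit 0) [nat_lit 7729, nat_lit 1897, nat_lit 4813, nat_lit 2869, nat_lit 3841, nat_lit 3517, nat_lit 3301, nat_lit 3337, nat_lit 3361, nat_lit 3353, nat_lit 23037] (nat_lit 0) [] true]

noncomputable def sp7 : List Spec :=
  [Spec.mk (nat_lit 3359) (nat_lit 0) [nat_lit 7733, nat_lit 1901, nat_lit 4817, nat_lit 2873, nat_lit 3845, nat_lit 3521, nat_lit 3305, nat_lit 3341, nat_lit 3377, nat_lit 3353, nat_lit 3361, nat_lit 23041] (nat_lit 1) [] true,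
   Spec.mk (nat_lit 3361) (nat_lit 1) [nat_lit 7735, nat_lit 1903, nat_lit 4819, nat_lit 2875, nat_lit 3847, nat_lit 3523, nat_lit 3307, nat_lit 3343, nat_lit 3379, nat_lit 3355, nat_lit 3367, nat_lit 3359, nat_lit 3363, nat_lit 23043] (nat_lit 0) [] false,
   Spec.mk (nat_lit 3363) (nat_lit 1) [nat_lit 7737, nat_lit 1905, nat_lit 4821, nat_lit 2877, nat_lit 3849, nat_lit 3525, nat_lit 3309, nat_lit 3345, nat_lit 3381, nat_lit 3369, nat_lit 3361] (nat_lit 0) [] false,
   Spec.mk (nat_lit 3367) (nat_lit 0) [nat_lit 7741, nat_lit 1909, nat_lit 4825, nat_lit 2881, nat_lit 3853, nat_lit 3529, nat_lit 3313, nat_lit 3385, nat_lit 3361, nat_lit 3369, nat_lit 23049] (nat_lit 0) [] false,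
   Spec.mk (nat_lit 3369) (nat_lit 2) [nat_lit 7743, nat_lit 1911, nat_lit 4827, nat_lit 2883, nat_lit 3855, nat_lit 3531, nat_lit 3315, nat_lit 3387, nat_lit 3363, nat_lit 3367] (nat_lit 0) [] false,
   Spec.mk (nat_lit 3377) (nat_lit 0) [nat_lit 7751, nat_lit 1919, nat_lit 4835, nat_lit 2891, nat_lit 3863, nat_lit 3539, nat_lit 3359, nat_lit 3379, nat_lit 23059] (nat_lit 0) [] true,
   Spec.mk (nat_lit 3379) (nat_lit 1) [nat_lit 7753, nat_lit 1921, nat_lit 4837, nat_lit 2893, nat_lit 3865, nat_lit 3541, nat_lit 3361, nat_lit 3385, nat_lit 3377, nat_lit 3381, nat_lit 23061] (nat_lit 0) [] false,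
   Spec.mk (nat_lit 3381) (nat_lit 0) [nat_lit 7755, nat_lit 1923, nat_lit 4839, nat_lit 2895, nat_lit 3867, nat_lit 3543, nat_lit 3363, nat_lit 3387, nat_lit 3379] (nat_lit 0) [] false,
   Spec.mk (nat_lit 3385) (nat_lit 2) [nat_lit 7759, nat_lit 1927, nat_lit 4843, nat_lit 2899, nat_lit 3871, nat_lit 3547, nat_lit 3367, nat_lit 3379, nat_lit 3387, nat_lit 23067] (nat_lit 0) [] false,
   Spec.mk (nat_lit 3387) (nat_lit 3) [nat_lit 7761, nat_lit 1929, nat_lit 4845, nat_lit 2901, nat_lit 3873, nat_lit 3549, nat_lit 3369, nat_lit 3381, nat_lit 3393, nat_lit 3385] (nat_lit 0) [] false,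
   Spec.mk (nat_lit 3393) (nat_lit 4) [nat_lit 7767, nat_lit 1935, nat_lit 4851, nat_lit 2907, nat_lit 3879, nat_lit 3555, nat_lit 3387] (nat_lit 0) [] false,
   Spec.mk (nat_lit 3419) (nat_lit 1) [nat_lit 7793, nat_lit 1961, nat_lit 4877, nat_lit 3905, nat_lit 3257, nat_lit 3437, nat_lit 3425, nat_lit 23101] (nat_lit 0) [] true,
   Spec.mk (nat_lit 3425) (nat_lit 0) [nat_lit 7799, nat_lit 1967, nat_lit 4883, nat_lit 3911, nat_lit 3263, nat_lit 3443, nat_lit 3419, nat_lit 3427, nat_lit 23107] (nat_lit 1) [] true,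
   Spec.mk (nat_lit 3427) (nat_lit 1) [nat_lit 7801, nat_lit 1969, nat_lit 4885, nat_lit 3913, nat_lit 3265, nat_lit 3445, nat_lit 3425, nat_lit 23109] (nat_lit 0) [] true,
   Spec.mk (nat_lit 3437) (nat_lit 0) [nat_lit 7811, nat_lit 1979, nat_lit 4895, nat_lit 3923, nat_lit 3275, nat_lit 3491, nat_lit 3419, nat_lit 3443, nat_lit 23119] (nat_lit 1) [] true,
   Spec.mk (nat_lit 3443) (nat_lit 0) [nat_lit 7817, nat_lit 1985, nat_lit 4901, nat_lit 3929, nat_lit 3281, nat_lit 3497, nat_lit 3425, nat_lit 3461, nat_lit 3437, nat_lit 3449, nat_lit 3445, nat_lit 23125] (nat_lit 1) [] true,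
   Spec.mk (nat_lit 3445) (nat_lit 0) [nat_lit 7819, nat_lit 1987, nat_lit 4903, nat_lit 3931, nat_lit 3283, nat_lit 3499, nat_lit 3427, nat_lit 3463, nat_lit 3451, nat_lit 3443, nat_lit 23127] (nat_lit 0) [] true,
   Spec.mk (nat_lit 3449) (nat_lit 0) [nat_lit 7823, nat_lit 1991, nat_lit 4907, nat_lit 3935, nat_lit 3287, nat_lit 3503, nat_lit 3467, nat_lit 3443, nat_lit 3451, nat_lit 23131] (nat_lit 3) [] true,
   Spec.mk (nat_lit 3451) (nat_lit 0) [nat_lit 7825, nat_lit 1993, nat_lit 4909, nat_lit 3937, nat_lit 3289, nat_lit 3505, nat_lit 3469, nat_lit 3445, nat_lit 3449, nat_lit 3453, nat_lit 23133] (nat_lit 0) [] true,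
   Spec.mk (nat_lit 3453) (nat_lit 1) [nat_lit 7827, nat_lit 1995, nat_lit 4911, nat_lit 3939, nat_lit 3291, nat_lit 3507, nat_lit 3471, nat_lit 3451] (nat_lit 0) [] false,
   Spec.mk (nat_lit 3461) (nat_lit 0) [nat_lit 7835, nat_lit 2003, nat_lit 4919, nat_lit 3947, nat_lit 3299, nat_lit 3515, nat_lit 3443, nat_lit 3467, nat_lit 3463, nat_lit 23143] (nat_lit 3) [] true,
   Spec.mk (nat_lit 3463) (nat_lit 0) [nat_lit 7837, nat_lit 2005, nat_lit 4921, nat_lit 3949, nat_lit 3301, nat_lit 3517, nat_lit 3445, nat_lit 3469, nat_lit 3461, nat_lit 23145] (nat_lit 3) [] true,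
   Spec.mk (nat_lit 3467) (nat_lit 0) [nat_lit 7841, nat_lit 2009, nat_lit 4925, nat_lit 3953, nat_lit 3305, nat_lit 3521, nat_lit 3449, nat_lit 3461, nat_lit 3469, nat_lit 23149] (nat_lit 3) [] true,
   Spec.mk (nat_lit 3469) (nat_lit 0) [nat_lit 7843, nat_lit 2011, nat_lit 4927, nat_lit 3955, nat_lit 3307, nat_lit 3523, nat_lit 3451, nat_lit 3463, nat_lit 3475, nat_lit 3467, nat_lit 3471, nat_lit 23151] (nat_lit 1) [] false,
   Spec.mk (nat_lit 3471) (nat_lit 0) [nat_lit 7845, nat_lit 2013, nat_lit 4929, nat_lit 3957, nat_lit 3309, nat_lit 3525, nat_lit 3453, nat_lit 3477, nat_lit 3469] (nat_lit 1) [] false,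
   Spec.mk (nat_lit 3475) (nat_lit 0) [nat_lit 7849, nat_lit 2017, nat_lit 4933, nat_lit 3961, nat_lit 3313, nat_lit 3529, nat_lit 3469, nat_lit 3477, nat_lit 23157] (nat_lit 1) [] false,
   Spec.mk (nat_lit 3477) (nat_lit 1) [nat_lit 7851, nat_lit 2019, nat_lit 4935, nat_lit 3963, nat_lit 3315, nat_lit 3531, nat_lit 3471, nat_lit 3475] (nat_lit 0) [] false,
   Spec.mk (nat_lit 3491) (nat_lit 1) [nat_lit 7865, nat_lit 2033, nat_lit 4949, nat_lit 3977, nat_lit 3329, nat_lit 3437, nat_lit 3497, nat_lit 23173] (nat_lit 0) [] true,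
   Spec.mk (nat_lit 3497) (nat_lit 0) [nat_lit 7871, nat_lit 2039, nat_lit 4955, nat_lit 3983, nat_lit 3335, nat_lit 3443, nat_lit 3515, nat_lit 3491, nat_lit 3503, nat_lit 3499, nat_lit 23179] (nat_lit 0) [] true,
   Spec.mk (nat_lit 3499) (nat_lit 1) [nat_lit 7873, nat_lit 2041, nat_lit 4957, nat_lit 3985, nat_lit 3337, nat_lit 3445, nat_lit 3517, nat_lit 3505, nat_lit 3497, nat_lit 23181] (nat_lit 0) [] true,
   Spec.mk (nat_lit 3503) (nat_lit 0) [nat_lit 7877, nat_lit 2045, nat_lit 4961, nat_lit 3989, nat_lit 3341, nat_lit 3449, nat_lit 3521, nat_lit 3497, nat_lit 3505, nat_lit 23185] (nat_lit 3) [] true,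
   Spec.mk (nat_lit 3505) (nat_lit 0) [nat_lit 7879, nat_lit 2047, nat_lit 4963, nat_lit 3991, nat_lit 3343, nat_lit 3451, nat_lit 3523, nat_lit 3499, nat_lit 3503, nat_lit 3507, nat_lit 23187] (nat_lit 0) [] false,
   Spec.mk (nat_lit 3507) (nat_lit 1) [nat_lit 7881, nat_lit 2049, nat_lit 4965, nat_lit 3993, nat_lit 3345, nat_lit 3453, nat_lit 3525, nat_lit 3505] (nat_lit 0) [] false,
   Spec.mk (nat_lit 3515) (nat_lit 0) [nat_lit 7889, nat_lit 2057, nat_lit 4973, nat_lit 4001, nat_lit 3353, nat_lit 3461, nat_lit 3569, nat_lit 3497, nat_lit 3521, nat_lit 3517, nat_lit 23197] (nat_lit 0) [] true,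
   Spec.mk (nat_lit 3517) (nat_lit 0) [nat_lit 7891, nat_lit 2059, nat_lit 4975, nat_lit 4003, nat_lit 3355, nat_lit 3463, nat_lit 3571, nat_lit 3499, nat_lit 3523, nat_lit 3515, nat_lit 23199] (nat_lit 0) [] true,
   Spec.mk (nat_lit 3521) (nat_lit 0) [nat_lit 7895, nat_lit 2063, nat_lit 4979, nat_lit 4007, nat_lit 3359, nat_lit 3467, nat_lit 3575, nat_lit 3503, nat_lit 3539, nat_lit 3515, nat_lit 3523, nat_lit 23203] (nat_lit 1) [] true,
   Spec.mk (nat_lit 3523) (nat_lit 1) [nat_lit 7897, nat_lit 2065, nat_lit 4981, nat_lit 4009, nat_lit 3361, nat_lit 3469, nat_lit 3577, nat_lit 3505, nat_lit 3541, nat_lit 3517, nat_lit 3529, nat_lit 3521, nat_lit 3525, nat_lit 23205] (nat_lit 0) [] false,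
   Spec.mk (nat_lit 3525) (nat_lit 1) [nat_lit 7899, nat_lit 2067, nat_lit 4983, nat_lit 4011, nat_lit 3363, nat_lit 3471, nat_lit 3579, nat_lit 3507, nat_lit 3543, nat_lit 3531, nat_lit 3523] (nat_lit 0) [] false,
   Spec.mk (nat_lit 3529) (nat_lit 0) [nat_lit 7903, nat_lit 2071, nat_lit 4987, nat_lit 4015, nat_lit 3367, nat_lit 3475, nat_lit 3583, nat_lit 3547, nat_lit 3523, nat_lit 3531, nat_lit 23211] (nat_lit 0) [] false,
   Spec.mk (nat_lit 3531) (nat_lit 2) [nat_lit 7905, nat_lit 2073, nat_lit 4989, nat_lit 4017, nat_lit 3369, nat_lit 3477, nat_lit 3585, nat_lit 3549, nat_lit 3525, nat_lit 3529] (nat_lit 0) [] false,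
   Spec.mk (nat_lit 3539) (nat_lit 0) [nat_lit 7913, nat_lit 2081, nat_lit 4997, nat_lit 4025, nat_lit 3377, nat_lit 3593, nat_lit 3521, nat_lit 3541, nat_lit 23221] (nat_lit 1) [] true,
   Spec.mk (nat_lit 3541) (nat_lit 0) [nat_lit 7915, nat_lit 2083, nat_lit 4999, nat_lit 4027, nat_lit 3379, nat_lit 3595, nat_lit 3523, nat_lit 3547, nat_lit 3539, nat_lit 3543, nat_lit 23223] (nat_lit 0) [] false,
   Spec.mk (nat_lit 3543) (nat_lit 0) [nat_lit 7917, nat_lit 2085, nat_lit 5001, nat_lit 4029, nat_lit 3381, nat_lit 3597, nat_lit 3525, nat_lit 3549, nat_lit 3541] (nat_lit 1) [] false,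
   Spec.mk (nat_lit 3547) (nat_lit 1) [nat_lit 7921, nat_lit 2089, nat_lit 5005, nat_lit 4033, nat_lit 3385, nat_lit 3601, nat_lit 3529, nat_lit 3541, nat_lit 3549, nat_lit 23229] (nat_lit 0) [] false,
   Spec.mk (nat_lit 3549) (nat_lit 2) [nat_lit 7923, nat_lit 2091, nat_lit 5007, nat_lit 4035, nat_lit 3387, nat_lit 3603, nat_lit 3531, nat_lit 3543, nat_lit 3555, nat_lit 3547] (nat_lit 0) [] false,
   Spec.mk (nat_lit 3555) (nat_lit 3) [nat_lit 7929, nat_lit 2097, nat_lit 5013, nat_lit 4041, nat_lit 3393, nat_lit 3609, nat_lit 3549] (nat_lit 0) [] false,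
   Spec.mk (nat_lit 3569) (nat_lit 1) [nat_lit 7943, nat_lit 2111, nat_lit 5027, nat_lit 4055, nat_lit 3515, nat_lit 3575, nat_lit 3571, nat_lit 23251] (nat_lit 0) [] true,
   Spec.mk (nat_lit 3571) (nat_lit 1) [nat_lit 7945, nat_lit 2113, nat_lit 5029, nat_lit 4057, nat_lit 3517, nat_lit 3577, nat_lit 3569, nat_lit 23253] (nat_lit 0) [] true,
   Spec.mk (nat_lit 3575) (nat_lit 0) [nat_lit 7949, nat_lit 2117, nat_lit 5033, nat_lit 4061, nat_lit 3521, nat_lit 3593, nat_lit 3569, nat_lit 3577, nat_lit 23257] (nat_lit 1) [] true,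
   Spec.mk (nat_lit 3577) (nat_lit 1) [nat_lit 7951, nat_lit 2119, nat_lit 5035, nat_lit 4063, nat_lit 3523, nat_lit 3595, nat_lit 3571, nat_lit 3583, nat_lit 3575, nat_lit 3579, nat_lit 23259] (nat_lit 0) [] false,
   Spec.mk (nat_lit 3579) (nat_lit 1) [nat_lit 7953, nat_lit 2121, nat_lit 5037, nat_lit 4065, nat_lit 3525, nat_lit 3597, nat_lit 3585, nat_lit 3577] (nat_lit 0) [] false,
   Spec.mk (nat_lit 3583) (nat_lit 0) [nat_lit 7957, nat_lit 2125, nat_lit 5041, nat_lit 4069, nat_lit 3529, nat_lit 3601, nat_lit 3577, nat_lit 3585, nat_lit 23265] (nat_lit 1) [] false,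
   Spec.mk (nat_lit 3585) (nat_lit 1) [nat_lit 7959, nat_lit 2127, nat_lit 5043, nat_lit 4071, nat_lit 3531, nat_lit 3603, nat_lit 3579, nat_lit 3583] (nat_lit 0) [] false,
   Spec.mk (nat_lit 3593) (nat_lit 1) [nat_lit 7967, nat_lit 2135, nat_lit 5051, nat_lit 4079, nat_lit 3539, nat_lit 3575, nat_lit 3595, nat_lit 23275] (nat_lit 0) [] true,
   Spec.mk (nat_lit 3595) (nat_lit 2) [nat_lit 7969, nat_lit 2137, nat_lit 5053, nat_lit 4081, nat_lit 3541, nat_lit 3577, nat_lit 3601, nat_lit 3593, nat_lit 3597, nat_lit 23277] (nat_lit 0) [] false,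
   Spec.mk (nat_lit 3597) (nat_lit 1) [nat_lit 7971, nat_lit 2139, nat_lit 5055, nat_lit 4083, nat_lit 3543, nat_lit 3579, nat_lit 3603, nat_lit 3595] (nat_lit 0) [] false,
   Spec.mk (nat_lit 3601) (nat_lit 2) [nat_lit 7975, nat_lit 2143, nat_lit 5059, nat_lit 4087, nat_lit 3547, nat_lit 3583, nat_lit 3619, nat_lit 3595, nat_lit 3603, nat_lit 23283] (nat_lit 0) [] false,
   Spec.mk (nat_lit 3603) (nat_lit 3) [nat_lit 7977, nat_lit 2145, nat_lit 5061, nat_lit 4089, nat_lit 3549, nat_lit 3585, nat_lit 3621, nat_lit 3597, nat_lit 3609, nat_lit 3601] (nat_lit 0) [] false,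
   Spec.mk (nat_lit 3609) (nat_lit 3) [nat_lit 7983, nat_lit 2151, nat_lit 5067, nat_lit 4095, nat_lit 3555, nat_lit 3627, nat_lit 3603] (nat_lit 0) [] false,
   Spec.mk (nat_lit 3619) (nat_lit 3) [nat_lit 7993, nat_lit 2161, nat_lit 5077, nat_lit 4105, nat_lit 3601, nat_lit 3621, nat_lit 23301] (nat_lit 0) [] false]

noncomputable def sp8 : List Spec :=
  [Spec.mk (nat_lit 3621) (nat_lit 3) [nat_lit 7995, nat_lit 2163, nat_lit 5079, nat_lit 4107, nat_lit 3603, nat_lit 3627, nat_lit 3619] (nat_lit 0) [] false,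
   Spec.mk (nat_lit 3627) (nat_lit 5) [nat_lit 8001, nat_lit 2169, nat_lit 5085, nat_lit 4113, nat_lit 3609, nat_lit 3621] (nat_lit 0) [] false,
   Spec.mk (nat_lit 3671) (nat_lit 2) [nat_lit 8045, nat_lit 5129, nat_lit 3185, nat_lit 3689, nat_lit 23353] (nat_lit 0) [] false,
   Spec.mk (nat_lit 3689) (nat_lit 1) [nat_lit 8063, nat_lit 5147, nat_lit 3203, nat_lit 3743, nat_lit 3671, nat_lit 3707, nat_lit 3695, nat_lit 23371] (nat_lit 0) [] false,
   Spec.mk (nat_lit 3695) (nat_lit 0) [nat_lit 8069, nat_lit 5153, nat_lit 3209, nat_lit 3749, nat_lit 3713, nat_lit 3689, nat_lit 3697, nat_lit 23377] (nat_lit 0) [] true,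
   Spec.mk (nat_lit 3697) (nat_lit 2) [nat_lit 8071, nat_lit 5155, nat_lit 3211, nat_lit 3751, nat_lit 3715, nat_lit 3695, nat_lit 23379] (nat_lit 0) [] true,
   Spec.mk (nat_lit 3707) (nat_lit 0) [nat_lit 8081, nat_lit 5165, nat_lit 3221, nat_lit 3761, nat_lit 3689, nat_lit 3713, nat_lit 23389] (nat_lit 2) [] true,
   Spec.mk (nat_lit 3713) (nat_lit 0) [nat_lit 8087, nat_lit 5171, nat_lit 3227, nat_lit 3767, nat_lit 3695, nat_lit 3707, nat_lit 3719, nat_lit 3715, nat_lit 23395] (nat_lit 1) [] true,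
   Spec.mk (nat_lit 3715) (nat_lit 0) [nat_lit 8089, nat_lit 5173, nat_lit 3229, nat_lit 3769, nat_lit 3697, nat_lit 3721, nat_lit 3713, nat_lit 23397] (nat_lit 0) [] true,
   Spec.mk (nat_lit 3719) (nat_lit 0) [nat_lit 8093, nat_lit 5177, nat_lit 3233, nat_lit 3773, nat_lit 3713, nat_lit 3721, nat_lit 23401] (nat_lit 2) [] true,
   Spec.mk (nat_lit 3721) (nat_lit 1) [nat_lit 8095, nat_lit 5179, nat_lit 3235, nat_lit 3775, nat_lit 3715, nat_lit 3719, nat_lit 3723, nat_lit 23403] (nat_lit 0) [] false,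
   Spec.mk (nat_lit 3723) (nat_lit 2) [nat_lit 8097, nat_lit 5181, nat_lit 3237, nat_lit 3777, nat_lit 3721] (nat_lit 0) [] false,
   Spec.mk (nat_lit 3743) (nat_lit 0) [nat_lit 8117, nat_lit 5201, nat_lit 3257, nat_lit 3905, nat_lit 3689, nat_lit 3761, nat_lit 3749, nat_lit 23425] (nat_lit 0) [] true,
   Spec.mk (nat_lit 3749) (nat_lit 0) [nat_lit 8123, nat_lit 5207, nat_lit 3263, nat_lit 3911, nat_lit 3695, nat_lit 3767, nat_lit 3743, nat_lit 3751, nat_lit 23431] (nat_lit 2) [] true,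
   Spec.mk (nat_lit 3751) (nat_lit 0) [nat_lit 8125, nat_lit 5209, nat_lit 3265, nat_lit 3913, nat_lit 3697, nat_lit 3769, nat_lit 3749, nat_lit 23433] (nat_lit 0) [] true,
   Spec.mk (nat_lit 3761) (nat_lit 0) [nat_lit 8135, nat_lit 5219, nat_lit 3275, nat_lit 3923, nat_lit 3707, nat_lit 3815, nat_lit 3743, nat_lit 3767, nat_lit 23443] (nat_lit 1) [] true,
   Spec.mk (nat_lit 3767) (nat_lit 0) [nat_lit 8141, nat_lit 5225, nat_lit 3281, nat_lit 3929, nat_lit 3713, nat_lit 3821, nat_lit 3749, nat_lit 3785, nat_lit 3761, nat_lit 3773, nat_lit 3769, nat_lit 23449] (nat_lit 1) [] true,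
   Spec.mk (nat_lit 3769) (nat_lit 0) [nat_lit 8143, nat_lit 5227, nat_lit 3283, nat_lit 3931, nat_lit 3715, nat_lit 3823, nat_lit 3751, nat_lit 3787, nat_lit 3775, nat_lit 3767, nat_lit 23451] (nat_lit 0) [] true,
   Spec.mk (nat_lit 3773) (nat_lit 0) [nat_lit 8147, nat_lit 5231, nat_lit 3287, nat_lit 3935, nat_lit 3719, nat_lit 3827, nat_lit 3791, nat_lit 3767, nat_lit 3775, nat_lit 23455] (nat_lit 3) [] true,
   Spec.mk (nat_lit 3775) (nat_lit 0) [nat_lit 8149, nat_lit 5233, nat_lit 3289, nat_lit 3937, nat_lit 3721, nat_lit 3829, nat_lit 3793, nat_lit 3769, nat_lit 3773, nat_lit 3777, nat_lit 23457] (nat_lit 0) [] false,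
   Spec.mk (nat_lit 3777) (nat_lit 1) [nat_lit 8151, nat_lit 5235, nat_lit 3291, nat_lit 3939, nat_lit 3723, nat_lit 3831, nat_lit 3795, nat_lit 3775] (nat_lit 0) [] false,
   Spec.mk (nat_lit 3785) (nat_lit 0) [nat_lit 8159, nat_lit 5243, nat_lit 3299, nat_lit 3947, nat_lit 3839, nat_lit 3767, nat_lit 3791, nat_lit 3787, nat_lit 23467] (nat_lit 2) [] true,
   Spec.mk (nat_lit 3787) (nat_lit 0) [nat_lit 8161, nat_lit 5245, nat_lit 3301, nat_lit 3949, nat_lit 3841, nat_lit 3769, nat_lit 3793, nat_lit 3785, nat_lit 23469] (nat_lit 2) [] true,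
   Spec.mk (nat_lit 3791) (nat_lit 0) [nat_lit 8165, nat_lit 5249, nat_lit 3305, nat_lit 3953, nat_lit 3845, nat_lit 3773, nat_lit 3785, nat_lit 3793, nat_lit 23473] (nat_lit 2) [] true,
   Spec.mk (nat_lit 3793) (nat_lit 0) [nat_lit 8167, nat_lit 5251, nat_lit 3307, nat_lit 3955, nat_lit 3847, nat_lit 3775, nat_lit 3787, nat_lit 3799, nat_lit 3791, nat_lit 3795, nat_lit 23475] (nat_lit 0) [] false,
   Spec.mk (nat_lit 3795) (nat_lit 0) [nat_lit 8169, nat_lit 5253, nat_lit 3309, nat_lit 3957, nat_lit 3849, nat_lit 3777, nat_lit 3801, nat_lit 3793] (nat_lit 0) [] false,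
   Spec.mk (nat_lit 3799) (nat_lit 0) [nat_lit 8173, nat_lit 5257, nat_lit 3313, nat_lit 3961, nat_lit 3853, nat_lit 3793, nat_lit 3801, nat_lit 23481] (nat_lit 0) [] false,
   Spec.mk (nat_lit 3801) (nat_lit 2) [nat_lit 8175, nat_lit 5259, nat_lit 3315, nat_lit 3963, nat_lit 3855, nat_lit 3795, nat_lit 3799] (nat_lit 0) [] false,
   Spec.mk (nat_lit 3815) (nat_lit 0) [nat_lit 8189, nat_lit 5273, nat_lit 3329, nat_lit 3977, nat_lit 3761, nat_lit 3821, nat_lit 23497] (nat_lit 2) [] true,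
   Spec.mk (nat_lit 3821) (nat_lit 0) [nat_lit 8195, nat_lit 5279, nat_lit 3335, nat_lit 3983, nat_lit 3767, nat_lit 3839, nat_lit 3815, nat_lit 3827, nat_lit 3823, nat_lit 23503] (nat_lit 3) [] true,
   Spec.mk (nat_lit 3823) (nat_lit 0) [nat_lit 8197, nat_lit 5281, nat_lit 3337, nat_lit 3985, nat_lit 3769, nat_lit 3841, nat_lit 3829, nat_lit 3821, nat_lit 23505] (nat_lit 2) [] true,
   Spec.mk (nat_lit 3827) (nat_lit 0) [nat_lit 8201, nat_lit 5285, nat_lit 3341, nat_lit 3989, nat_lit 3773, nat_lit 3845, nat_lit 3821, nat_lit 3829, nat_lit 23509] (nat_lit 6) [] true,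
   Spec.mk (nat_lit 3829) (nat_lit 0) [nat_lit 8203, nat_lit 5287, nat_lit 3343, nat_lit 3991, nat_lit 3775, nat_lit 3847, nat_lit 3823, nat_lit 3827, nat_lit 3831, nat_lit 23511] (nat_lit 3) [] false,
   Spec.mk (nat_lit 3831) (nat_lit 0) [nat_lit 8205, nat_lit 5289, nat_lit 3345, nat_lit 3993, nat_lit 3777, nat_lit 3849, nat_lit 3829] (nat_lit 2) [] false,
   Spec.mk (nat_lit 3839) (nat_lit 0) [nat_lit 8213, nat_lit 5297, nat_lit 3353, nat_lit 4001, nat_lit 3785, nat_lit 3821, nat_lit 3845, nat_lit 3841, nat_lit 23521] (nat_lit 2) [] true,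
   Spec.mk (nat_lit 3841) (nat_lit 0) [nat_lit 8215, nat_lit 5299, nat_lit 3355, nat_lit 4003, nat_lit 3787, nat_lit 3823, nat_lit 3847, nat_lit 3839, nat_lit 23523] (nat_lit 2) [] false,
   Spec.mk (nat_lit 3845) (nat_lit 0) [nat_lit 8219, nat_lit 5303, nat_lit 3359, nat_lit 4007, nat_lit 3791, nat_lit 3827, nat_lit 3863, nat_lit 3839, nat_lit 3847, nat_lit 23527] (nat_lit 3) [] true,
   Spec.mk (nat_lit 3847) (nat_lit 0) [nat_lit 8221, nat_lit 5305, nat_lit 3361, nat_lit 4009, nat_lit 3793, nat_lit 3829, nat_lit 3865, nat_lit 3841, nat_lit 3853, nat_lit 3845, nat_lit 3849, nat_lit 23529] (nat_lit 1) [] false,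
   Spec.mk (nat_lit 3849) (nat_lit 0) [nat_lit 8223, nat_lit 5307, nat_lit 3363, nat_lit 4011, nat_lit 3795, nat_lit 3831, nat_lit 3867, nat_lit 3855, nat_lit 3847] (nat_lit 1) [] false,
   Spec.mk (nat_lit 3853) (nat_lit 0) [nat_lit 8227, nat_lit 5311, nat_lit 3367, nat_lit 4015, nat_lit 3799, nat_lit 3871, nat_lit 3847, nat_lit 3855, nat_lit 23535] (nat_lit 2) [] false,
   Spec.mk (nat_lit 3855) (nat_lit 0) [nat_lit 8229, nat_lit 5313, nat_lit 3369, nat_lit 4017, nat_lit 3801, nat_lit 3873, nat_lit 3849, nat_lit 3853] (nat_lit 0) [] false,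
   Spec.mk (nat_lit 3863) (nat_lit 0) [nat_lit 8237, nat_lit 5321, nat_lit 3377, nat_lit 4025, nat_lit 3845, nat_lit 3865, nat_lit 23545] (nat_lit 2) [] true,
   Spec.mk (nat_lit 3865) (nat_lit 0) [nat_lit 8239, nat_lit 5323, nat_lit 3379, nat_lit 4027, nat_lit 3847, nat_lit 3871, nat_lit 3863, nat_lit 3867, nat_lit 23547] (nat_lit 1) [] false,
   Spec.mk (nat_lit 3867) (nat_lit 0) [nat_lit 8241, nat_lit 5325, nat_lit 3381, nat_lit 4029, nat_lit 3849, nat_lit 3873, nat_lit 3865] (nat_lit 2) [] false,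
   Spec.mk (nat_lit 3871) (nat_lit 0) [nat_lit 8245, nat_lit 5329, nat_lit 3385, nat_lit 4033, nat_lit 3853, nat_lit 3865, nat_lit 3873, nat_lit 23553] (nat_lit 0) [] false,
   Spec.mk (nat_lit 3873) (nat_lit 1) [nat_lit 8247, nat_lit 5331, nat_lit 3387, nat_lit 4035, nat_lit 3855, nat_lit 3867, nat_lit 3879, nat_lit 3871] (nat_lit 0) [] false,
   Spec.mk (nat_lit 3879) (nat_lit 2) [nat_lit 8253, nat_lit 5337, nat_lit 3393, nat_lit 4041, nat_lit 3873] (nat_lit 0) [] false,
   Spec.mk (nat_lit 3905) (nat_lit 2) [nat_lit 8279, nat_lit 5363, nat_lit 3419, nat_lit 3743, nat_lit 3923, nat_lit 3911, nat_lit 23587] (nat_lit 0) [] true,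
   Spec.mk (nat_lit 3911) (nat_lit 0) [nat_lit 8285, nat_lit 5369, nat_lit 3425, nat_lit 3749, nat_lit 3929, nat_lit 3905, nat_lit 3913, nat_lit 23593] (nat_lit 0) [] true,
   Spec.mk (nat_lit 3913) (nat_lit 2) [nat_lit 8287, nat_lit 5371, nat_lit 3427, nat_lit 3751, nat_lit 3931, nat_lit 3911, nat_lit 23595] (nat_lit 0) [] false,
   Spec.mk (nat_lit 3923) (nat_lit 0) [nat_lit 8297, nat_lit 5381, nat_lit 3437, nat_lit 3761, nat_lit 3977, nat_lit 3905, nat_lit 3929, nat_lit 23605] (nat_lit 0) [] true,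
   Spec.mk (nat_lit 3929) (nat_lit 0) [nat_lit 8303, nat_lit 5387, nat_lit 3443, nat_lit 3767, nat_lit 3983, nat_lit 3911, nat_lit 3947, nat_lit 3923, nat_lit 3935, nat_lit 3931, nat_lit 23611] (nat_lit 0) [] true,
   Spec.mk (nat_lit 3931) (nat_lit 1) [nat_lit 8305, nat_lit 5389, nat_lit 3445, nat_lit 3769, nat_lit 3985, nat_lit 3913, nat_lit 3949, nat_lit 3937, nat_lit 3929, nat_lit 23613] (nat_lit 0) [] true,
   Spec.mk (nat_lit 3935) (nat_lit 0) [nat_lit 8309, nat_lit 5393, nat_lit 3449, nat_lit 3773, nat_lit 3989, nat_lit 3953, nat_lit 3929, nat_lit 3937, nat_lit 23617] (nat_lit 2) [] true,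
   Spec.mk (nat_lit 3937) (nat_lit 1) [nat_lit 8311, nat_lit 5395, nat_lit 3451, nat_lit 3775, nat_lit 3991, nat_lit 3955, nat_lit 3931, nat_lit 3935, nat_lit 3939, nat_lit 23619] (nat_lit 0) [] false,
   Spec.mk (nat_lit 3939) (nat_lit 2) [nat_lit 8313, nat_lit 5397, nat_lit 3453, nat_lit 3777, nat_lit 3993, nat_lit 3957, nat_lit 3937] (nat_lit 0) [] false,
   Spec.mk (nat_lit 3947) (nat_lit 0) [nat_lit 8321, nat_lit 5405, nat_lit 3461, nat_lit 3785, nat_lit 4001, nat_lit 3929, nat_lit 3953, nat_lit 3949, nat_lit 23629] (nat_lit 2) [] true,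
   Spec.mk (nat_lit 3949) (nat_lit 0) [nat_lit 8323, nat_lit 5407, nat_lit 3463, nat_lit 3787, nat_lit 4003, nat_lit 3931, nat_lit 3955, nat_lit 3947, nat_lit 23631] (nat_lit 2) [] false,
   Spec.mk (nat_lit 3953) (nat_lit 0) [nat_lit 8327, nat_lit 5411, nat_lit 3467, nat_lit 3791, nat_lit 4007, nat_lit 3935, nat_lit 3947, nat_lit 3955, nat_lit 23635] (nat_lit 2) [] true,
   Spec.mk (nat_lit 3955) (nat_lit 0) [nat_lit 8329, nat_lit 5413, nat_lit 3469, nat_lit 3793, nat_lit 4009, nat_lit 3937, nat_lit 3949, nat_lit 3961, nat_lit 3953, nat_lit 3957, nat_lit 23637] (nat_lit 0) [] false]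

noncomputable def sp9 : List Spec :=
  [Spec.mk (nat_lit 3957) (nat_lit 0) [nat_lit 8331, nat_lit 5415, nat_lit 3471, nat_lit 3795, nat_lit 4011, nat_lit 3939, nat_lit 3963, nat_lit 3955] (nat_lit 0) [] false,
   Spec.mk (nat_lit 3961) (nat_lit 0) [nat_lit 8335, nat_lit 5419, nat_lit 3475, nat_lit 3799, nat_lit 4015, nat_lit 3955, nat_lit 3963, nat_lit 23643] (nat_lit 0) [] false,
   Spec.mk (nat_lit 3963) (nat_lit 2) [nat_lit 8337, nat_lit 5421, nat_lit 3477, nat_lit 3801, nat_lit 4017, nat_lit 3957, nat_lit 3961] (nat_lit 0) [] false,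
   Spec.mk (nat_lit 3977) (nat_lit 1) [nat_lit 8351, nat_lit 5435, nat_lit 3491, nat_lit 3815, nat_lit 4139, nat_lit 3923, nat_lit 3983, nat_lit 23659] (nat_lit 0) [] false,
   Spec.mk (nat_lit 3983) (nat_lit 0) [nat_lit 8357, nat_lit 5441, nat_lit 3497, nat_lit 3821, nat_lit 4145, nat_lit 3929, nat_lit 4001, nat_lit 3977, nat_lit 3989, nat_lit 3985, nat_lit 23665] (nat_lit 0) [] true,
   Spec.mk (nat_lit 3985) (nat_lit 1) [nat_lit 8359, nat_lit 5443, nat_lit 3499, nat_lit 3823, nat_lit 4147, nat_lit 3931, nat_lit 4003, nat_lit 3991, nat_lit 3983, nat_lit 23667] (nat_lit 0) [] false,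
   Spec.mk (nat_lit 3989) (nat_lit 0) [nat_lit 8363, nat_lit 5447, nat_lit 3503, nat_lit 3827, nat_lit 4151, nat_lit 3935, nat_lit 4007, nat_lit 3983, nat_lit 3991, nat_lit 23671] (nat_lit 3) [] true,
   Spec.mk (nat_lit 3991) (nat_lit 0) [nat_lit 8365, nat_lit 5449, nat_lit 3505, nat_lit 3829, nat_lit 4153, nat_lit 3937, nat_lit 4009, nat_lit 3985, nat_lit 3989, nat_lit 3993, nat_lit 23673] (nat_lit 0) [] false,
   Spec.mk (nat_lit 3993) (nat_lit 1) [nat_lit 8367, nat_lit 5451, nat_lit 3507, nat_lit 3831, nat_lit 4155, nat_lit 3939, nat_lit 4011, nat_lit 3991] (nat_lit 0) [] false,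
   Spec.mk (nat_lit 4001) (nat_lit 0) [nat_lit 8375, nat_lit 5459, nat_lit 3515, nat_lit 3839, nat_lit 4163, nat_lit 3947, nat_lit 4055, nat_lit 3983, nat_lit 4007, nat_lit 4003, nat_lit 23683] (nat_lit 0) [] true,
   Spec.mk (nat_lit 4003) (nat_lit 0) [nat_lit 8377, nat_lit 5461, nat_lit 3517, nat_lit 3841, nat_lit 4165, nat_lit 3949, nat_lit 4057, nat_lit 3985, nat_lit 4009, nat_lit 4001, nat_lit 23685] (nat_lit 0) [] false,
   Spec.mk (nat_lit 4007) (nat_lit 0) [nat_lit 8381, nat_lit 5465, nat_lit 3521, nat_lit 3845, nat_lit 4169, nat_lit 3953, nat_lit 4061, nat_lit 3989, nat_lit 4025, nat_lit 4001, nat_lit 4009, nat_lit 23689] (nat_lit 1) [] true,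
   Spec.mk (nat_lit 4009) (nat_lit 1) [nat_lit 8383, nat_lit 5467, nat_lit 3523, nat_lit 3847, nat_lit 4171, nat_lit 3955, nat_lit 4063, nat_lit 3991, nat_lit 4027, nat_lit 4003, nat_lit 4015, nat_lit 4007, nat_lit 4011, nat_lit 23691] (nat_lit 0) [] false,
   Spec.mk (nat_lit 4011) (nat_lit 1) [nat_lit 8385, nat_lit 5469, nat_lit 3525, nat_lit 3849, nat_lit 4173, nat_lit 3957, nat_lit 4065, nat_lit 3993, nat_lit 4029, nat_lit 4017, nat_lit 4009] (nat_lit 0) [] false,
   Spec.mk (nat_lit 4015) (nat_lit 0) [nat_lit 8389, nat_lit 5473, nat_lit 3529, nat_lit 3853, nat_lit 4177, nat_lit 3961, nat_lit 4069, nat_lit 4033, nat_lit 4009, nat_lit 4017, nat_lit 23697] (nat_lit 0) [] false,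
   Spec.mk (nat_lit 4017) (nat_lit 2) [nat_lit 8391, nat_lit 5475, nat_lit 3531, nat_lit 3855, nat_lit 4179, nat_lit 3963, nat_lit 4071, nat_lit 4035, nat_lit 4011, nat_lit 4015] (nat_lit 0) [] false,
   Spec.mk (nat_lit 4025) (nat_lit 0) [nat_lit 8399, nat_lit 5483, nat_lit 3539, nat_lit 3863, nat_lit 4187, nat_lit 4079, nat_lit 4007, nat_lit 4027, nat_lit 23707] (nat_lit 1) [] true,
   Spec.mk (nat_lit 4027) (nat_lit 0) [nat_lit 8401, nat_lit 5485, nat_lit 3541, nat_lit 3865, nat_lit 4189, nat_lit 4081, nat_lit 4009, nat_lit 4033, nat_lit 4025, nat_lit 4029, nat_lit 23709] (nat_lit 0) [] false,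
   Spec.mk (nat_lit 4029) (nat_lit 0) [nat_lit 8403, nat_lit 5487, nat_lit 3543, nat_lit 3867, nat_lit 4191, nat_lit 4083, nat_lit 4011, nat_lit 4035, nat_lit 4027] (nat_lit 1) [] false,
   Spec.mk (nat_lit 4033) (nat_lit 1) [nat_lit 8407, nat_lit 5491, nat_lit 3547, nat_lit 3871, nat_lit 4195, nat_lit 4087, nat_lit 4015, nat_lit 4027, nat_lit 4035, nat_lit 23715] (nat_lit 0) [] false,
   Spec.mk (nat_lit 4035) (nat_lit 2) [nat_lit 8409, nat_lit 5493, nat_lit 3549, nat_lit 3873, nat_lit 4197, nat_lit 4089, nat_lit 4017, nat_lit 4029, nat_lit 4041, nat_lit 4033] (nat_lit 0) [] false,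
   Spec.mk (nat_lit 4041) (nat_lit 3) [nat_lit 8415, nat_lit 5499, nat_lit 3555, nat_lit 3879, nat_lit 4203, nat_lit 4095, nat_lit 4035] (nat_lit 0) [] false,
   Spec.mk (nat_lit 4055) (nat_lit 0) [nat_lit 8429, nat_lit 5513, nat_lit 3569, nat_lit 4217, nat_lit 4001, nat_lit 4061, nat_lit 4057, nat_lit 23737] (nat_lit 0) [] false,
   Spec.mk (nat_lit 4057) (nat_lit 0) [nat_lit 8431, nat_lit 5515, nat_lit 3571, nat_lit 4219, nat_lit 4003, nat_lit 4063, nat_lit 4055, nat_lit 23739] (nat_lit 0) [] false,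
   Spec.mk (nat_lit 4061) (nat_lit 0) [nat_lit 8435, nat_lit 5519, nat_lit 3575, nat_lit 4223, nat_lit 4007, nat_lit 4079, nat_lit 4055, nat_lit 4063, nat_lit 23743] (nat_lit 2) [] true,
   Spec.mk (nat_lit 4063) (nat_lit 0) [nat_lit 8437, nat_lit 5521, nat_lit 3577, nat_lit 4225, nat_lit 4009, nat_lit 4081, nat_lit 4057, nat_lit 4069, nat_lit 4061, nat_lit 4065, nat_lit 23745] (nat_lit 0) [] false,
   Spec.mk (nat_lit 4065) (nat_lit 0) [nat_lit 8439, nat_lit 5523, nat_lit 3579, nat_lit 4227, nat_lit 4011, nat_lit 4083, nat_lit 4071, nat_lit 4063] (nat_lit 0) [] false,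
   Spec.mk (nat_lit 4069) (nat_lit 0) [nat_lit 8443, nat_lit 5527, nat_lit 3583, nat_lit 4231, nat_lit 4015, nat_lit 4087, nat_lit 4063, nat_lit 4071, nat_lit 23751] (nat_lit 2) [] false,
   Spec.mk (nat_lit 4071) (nat_lit 0) [nat_lit 8445, nat_lit 5529, nat_lit 3585, nat_lit 4233, nat_lit 4017, nat_lit 4089, nat_lit 4065, nat_lit 4069] (nat_lit 0) [] false,
   Spec.mk (nat_lit 4079) (nat_lit 0) [nat_lit 8453, nat_lit 5537, nat_lit 3593, nat_lit 4241, nat_lit 4025, nat_lit 4061, nat_lit 4081, nat_lit 23761] (nat_lit 0) [] true,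
   Spec.mk (nat_lit 4081) (nat_lit 1) [nat_lit 8455, nat_lit 5539, nat_lit 3595, nat_lit 4243, nat_lit 4027, nat_lit 4063, nat_lit 4087, nat_lit 4079, nat_lit 4083, nat_lit 23763] (nat_lit 0) [] false,
   Spec.mk (nat_lit 4083) (nat_lit 0) [nat_lit 8457, nat_lit 5541, nat_lit 3597, nat_lit 4245, nat_lit 4029, nat_lit 4065, nat_lit 4089, nat_lit 4081] (nat_lit 0) [] false,
   Spec.mk (nat_lit 4087) (nat_lit 1) [nat_lit 8461, nat_lit 5545, nat_lit 3601, nat_lit 4249, nat_lit 4033, nat_lit 4069, nat_lit 4105, nat_lit 4081, nat_lit 4089, nat_lit 23769] (nat_lit 0) [] false,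
   Spec.mk (nat_lit 4089) (nat_lit 2) [nat_lit 8463, nat_lit 5547, nat_lit 3603, nat_lit 4251, nat_lit 4035, nat_lit 4071, nat_lit 4107, nat_lit 4083, nat_lit 4095, nat_lit 4087] (nat_lit 0) [] false,
   Spec.mk (nat_lit 4095) (nat_lit 2) [nat_lit 8469, nat_lit 5553, nat_lit 3609, nat_lit 4257, nat_lit 4041, nat_lit 4113, nat_lit 4089] (nat_lit 0) [] false,
   Spec.mk (nat_lit 4105) (nat_lit 2) [nat_lit 8479, nat_lit 5563, nat_lit 3619, nat_lit 4267, nat_lit 4087, nat_lit 4107, nat_lit 23787] (nat_lit 0) [] false,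
   Spec.mk (nat_lit 4107) (nat_lit 2) [nat_lit 8481, nat_lit 5565, nat_lit 3621, nat_lit 4269, nat_lit 4089, nat_lit 4113, nat_lit 4105] (nat_lit 0) [] false,
   Spec.mk (nat_lit 4113) (nat_lit 4) [nat_lit 8487, nat_lit 5571, nat_lit 3627, nat_lit 4275, nat_lit 4095, nat_lit 4107] (nat_lit 0) [] false,
   Spec.mk (nat_lit 4139) (nat_lit 2) [nat_lit 8513, nat_lit 5597, nat_lit 3977, nat_lit 4145, nat_lit 23821] (nat_lit 0) [] false,
   Spec.mk (nat_lit 4145) (nat_lit 1) [nat_lit 8519, nat_lit 5603, nat_lit 3983, nat_lit 4163, nat_lit 4139, nat_lit 4151, nat_lit 4147, nat_lit 23827] (nat_lit 0) [] false,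
   Spec.mk (nat_lit 4147) (nat_lit 2) [nat_lit 8521, nat_lit 5605, nat_lit 3985, nat_lit 4165, nat_lit 4153, nat_lit 4145, nat_lit 23829] (nat_lit 0) [] false,
   Spec.mk (nat_lit 4151) (nat_lit 0) [nat_lit 8525, nat_lit 5609, nat_lit 3989, nat_lit 4169, nat_lit 4145, nat_lit 4153, nat_lit 23833] (nat_lit 2) [] true,
   Spec.mk (nat_lit 4153) (nat_lit 1) [nat_lit 8527, nat_lit 5611, nat_lit 3991, nat_lit 4171, nat_lit 4147, nat_lit 4151, nat_lit 4155, nat_lit 23835] (nat_lit 0) [] false,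
   Spec.mk (nat_lit 4155) (nat_lit 2) [nat_lit 8529, nat_lit 5613, nat_lit 3993, nat_lit 4173, nat_lit 4153] (nat_lit 0) [] false,
   Spec.mk (nat_lit 4163) (nat_lit 0) [nat_lit 8537, nat_lit 5621, nat_lit 4001, nat_lit 4217, nat_lit 4145, nat_lit 4169, nat_lit 4165, nat_lit 23845] (nat_lit 0) [] true,
   Spec.mk (nat_lit 4165) (nat_lit 0) [nat_lit 8539, nat_lit 5623, nat_lit 4003, nat_lit 4219, nat_lit 4147, nat_lit 4171, nat_lit 4163, nat_lit 23847] (nat_lit 0) [] false,
   Spec.mk (nat_lit 4169) (nat_lit 0) [nat_lit 8543, nat_lit 5627, nat_lit 4007, nat_lit 4223, nat_lit 4151, nat_lit 4187, nat_lit 4163, nat_lit 4171, nat_lit 23851] (nat_lit 1) [] true,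
   Spec.mk (nat_lit 4171) (nat_lit 1) [nat_lit 8545, nat_lit 5629, nat_lit 4009, nat_lit 4225, nat_lit 4153, nat_lit 4189, nat_lit 4165, nat_lit 4177, nat_lit 4169, nat_lit 4173, nat_lit 23853] (nat_lit 0) [] false,
   Spec.mk (nat_lit 4173) (nat_lit 1) [nat_lit 8547, nat_lit 5631, nat_lit 4011, nat_lit 4227, nat_lit 4155, nat_lit 4191, nat_lit 4179, nat_lit 4171] (nat_lit 0) [] false,
   Spec.mk (nat_lit 4177) (nat_lit 0) [nat_lit 8551, nat_lit 5635, nat_lit 4015, nat_lit 4231, nat_lit 4195, nat_lit 4171, nat_lit 4179, nat_lit 23859] (nat_lit 0) [] false,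
   Spec.mk (nat_lit 4179) (nat_lit 2) [nat_lit 8553, nat_lit 5637, nat_lit 4017, nat_lit 4233, nat_lit 4197, nat_lit 4173, nat_lit 4177] (nat_lit 0) [] false,
   Spec.mk (nat_lit 4187) (nat_lit 0) [nat_lit 8561, nat_lit 5645, nat_lit 4025, nat_lit 4241, nat_lit 4169, nat_lit 4189, nat_lit 23869] (nat_lit 2) [] true,
   Spec.mk (nat_lit 4189) (nat_lit 0) [nat_lit 8563, nat_lit 5647, nat_lit 4027, nat_lit 4243, nat_lit 4171, nat_lit 4195, nat_lit 4187, nat_lit 4191, nat_lit 23871] (nat_lit 1) [] false,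
   Spec.mk (nat_lit 4191) (nat_lit 0) [nat_lit 8565, nat_lit 5649, nat_lit 4029, nat_lit 4245, nat_lit 4173, nat_lit 4197, nat_lit 4189] (nat_lit 2) [] false,
   Spec.mk (nat_lit 4195) (nat_lit 0) [nat_lit 8569, nat_lit 5653, nat_lit 4033, nat_lit 4249, nat_lit 4177, nat_lit 4189, nat_lit 4197, nat_lit 23877] (nat_lit 0) [] false,
   Spec.mk (nat_lit 4197) (nat_lit 1) [nat_lit 8571, nat_lit 5655, nat_lit 4035, nat_lit 4251, nat_lit 4179, nat_lit 4191, nat_lit 4203, nat_lit 4195] (nat_lit 0) [] false,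
   Spec.mk (nat_lit 4203) (nat_lit 2) [nat_lit 8577, nat_lit 5661, nat_lit 4041, nat_lit 4257, nat_lit 4197] (nat_lit 0) [] false,
   Spec.mk (nat_lit 4217) (nat_lit 2) [nat_lit 8591, nat_lit 5675, nat_lit 4055, nat_lit 4163, nat_lit 4223, nat_lit 4219, nat_lit 23899] (nat_lit 0) [] false,
   Spec.mk (nat_lit 4219) (nat_lit 2) [nat_lit 8593, nat_lit 5677, nat_lit 4057, nat_lit 4165, nat_lit 4225, nat_lit 4217, nat_lit 23901] (nat_lit 0) [] false,
   Spec.mk (nat_lit 4223) (nat_lit 0) [nat_lit 8597, nat_lit 5681, nat_lit 4061, nat_lit 4169, nat_lit 4241, nat_lit 4217, nat_lit 4225, nat_lit 23905] (nat_lit 0) [] true]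

noncomputable def sp10 : List Spec :=
  [Spec.mk (nat_lit 4225) (nat_lit 2) [nat_lit 8599, nat_lit 5683, nat_lit 4063, nat_lit 4171, nat_lit 4243, nat_lit 4219, nat_lit 4231, nat_lit 4223, nat_lit 4227, nat_lit 23907] (nat_lit 0) [] false,
   Spec.mk (nat_lit 4227) (nat_lit 2) [nat_lit 8601, nat_lit 5685, nat_lit 4065, nat_lit 4173, nat_lit 4245, nat_lit 4233, nat_lit 4225] (nat_lit 0) [] false,
   Spec.mk (nat_lit 4231) (nat_lit 0) [nat_lit 8605, nat_lit 5689, nat_lit 4069, nat_lit 4177, nat_lit 4249, nat_lit 4225, nat_lit 4233, nat_lit 23913] (nat_lit 0) [] false,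
   Spec.mk (nat_lit 4233) (nat_lit 2) [nat_lit 8607, nat_lit 5691, nat_lit 4071, nat_lit 4179, nat_lit 4251, nat_lit 4227, nat_lit 4231] (nat_lit 0) [] false,
   Spec.mk (nat_lit 4241) (nat_lit 1) [nat_lit 8615, nat_lit 5699, nat_lit 4079, nat_lit 4187, nat_lit 4295, nat_lit 4223, nat_lit 4243, nat_lit 23923] (nat_lit 0) [] false,
   Spec.mk (nat_lit 4243) (nat_lit 2) [nat_lit 8617, nat_lit 5701, nat_lit 4081, nat_lit 4189, nat_lit 4297, nat_lit 4225, nat_lit 4249, nat_lit 4241, nat_lit 4245, nat_lit 23925] (nat_lit 0) [] false,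
   Spec.mk (nat_lit 4245) (nat_lit 1) [nat_lit 8619, nat_lit 5703, nat_lit 4083, nat_lit 4191, nat_lit 4299, nat_lit 4227, nat_lit 4251, nat_lit 4243] (nat_lit 0) [] false,
   Spec.mk (nat_lit 4249) (nat_lit 2) [nat_lit 8623, nat_lit 5707, nat_lit 4087, nat_lit 4195, nat_lit 4303, nat_lit 4231, nat_lit 4267, nat_lit 4243, nat_lit 4251, nat_lit 23931] (nat_lit 0) [] false,
   Spec.mk (nat_lit 4251) (nat_lit 3) [nat_lit 8625, nat_lit 5709, nat_lit 4089, nat_lit 4197, nat_lit 4305, nat_lit 4233, nat_lit 4269, nat_lit 4245, nat_lit 4257, nat_lit 4249] (nat_lit 0) [] false,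
   Spec.mk (nat_lit 4257) (nat_lit 3) [nat_lit 8631, nat_lit 5715, nat_lit 4095, nat_lit 4203, nat_lit 4311, nat_lit 4275, nat_lit 4251] (nat_lit 0) [] false,
   Spec.mk (nat_lit 4267) (nat_lit 2) [nat_lit 8641, nat_lit 5725, nat_lit 4105, nat_lit 4321, nat_lit 4249, nat_lit 4269, nat_lit 23949] (nat_lit 0) [] false,
   Spec.mk (nat_lit 4269) (nat_lit 2) [nat_lit 8643, nat_lit 5727, nat_lit 4107, nat_lit 4323, nat_lit 4251, nat_lit 4275, nat_lit 4267] (nat_lit 0) [] false,
   Spec.mk (nat_lit 4275) (nat_lit 4) [nat_lit 8649, nat_lit 5733, nat_lit 4113, nat_lit 4329, nat_lit 4257, nat_lit 4269] (nat_lit 0) [] false,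
   Spec.mk (nat_lit 4295) (nat_lit 2) [nat_lit 8669, nat_lit 5753, nat_lit 4241, nat_lit 4297, nat_lit 23977] (nat_lit 0) [] false,
   Spec.mk (nat_lit 4297) (nat_lit 3) [nat_lit 8671, nat_lit 5755, nat_lit 4243, nat_lit 4303, nat_lit 4295, nat_lit 4299, nat_lit 23979] (nat_lit 0) [] false,
   Spec.mk (nat_lit 4299) (nat_lit 2) [nat_lit 8673, nat_lit 5757, nat_lit 4245, nat_lit 4305, nat_lit 4297] (nat_lit 0) [] false,
   Spec.mk (nat_lit 4303) (nat_lit 2) [nat_lit 8677, nat_lit 5761, nat_lit 4249, nat_lit 4321, nat_lit 4297, nat_lit 4305, nat_lit 23985] (nat_lit 0) [] false,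
   Spec.mk (nat_lit 4305) (nat_lit 3) [nat_lit 8679, nat_lit 5763, nat_lit 4251, nat_lit 4323, nat_lit 4299, nat_lit 4311, nat_lit 4303] (nat_lit 0) [] false,
   Spec.mk (nat_lit 4311) (nat_lit 2) [nat_lit 8685, nat_lit 5769, nat_lit 4257, nat_lit 4329, nat_lit 4305] (nat_lit 0) [] false,
   Spec.mk (nat_lit 4321) (nat_lit 4) [nat_lit 8695, nat_lit 5779, nat_lit 4267, nat_lit 4303, nat_lit 4323, nat_lit 24003] (nat_lit 0) [] false,
   Spec.mk (nat_lit 4323) (nat_lit 4) [nat_lit 8697, nat_lit 5781, nat_lit 4269, nat_lit 4305, nat_lit 4329, nat_lit 4321] (nat_lit 0) [] false,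
   Spec.mk (nat_lit 4329) (nat_lit 5) [nat_lit 8703, nat_lit 5787, nat_lit 4275, nat_lit 4311, nat_lit 4347, nat_lit 4323] (nat_lit 0) [] false,
   Spec.mk (nat_lit 4347) (nat_lit 6) [nat_lit 8721, nat_lit 5805, nat_lit 4329] (nat_lit 0) [] false,
   Spec.mk (nat_lit 4427) (nat_lit 2) [nat_lit 8801, nat_lit 2969, nat_lit 4481, nat_lit 4445, nat_lit 24109] (nat_lit 0) [] false,
   Spec.mk (nat_lit 4445) (nat_lit 0) [nat_lit 8819, nat_lit 2987, nat_lit 4499, nat_lit 4427, nat_lit 4451, nat_lit 24127] (nat_lit 0) [] false,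
   Spec.mk (nat_lit 4451) (nat_lit 0) [nat_lit 8825, nat_lit 2993, nat_lit 4505, nat_lit 4445, nat_lit 4453, nat_lit 24133] (nat_lit 0) [] false,
   Spec.mk (nat_lit 4453) (nat_lit 2) [nat_lit 8827, nat_lit 2995, nat_lit 4507, nat_lit 4451, nat_lit 24135] (nat_lit 0) [] false,
   Spec.mk (nat_lit 4481) (nat_lit 0) [nat_lit 8855, nat_lit 3023, nat_lit 4643, nat_lit 4427, nat_lit 4499, nat_lit 24163] (nat_lit 0) [] false,
   Spec.mk (nat_lit 4499) (nat_lit 0) [nat_lit 8873, nat_lit 3041, nat_lit 4661, nat_lit 4445, nat_lit 4553, nat_lit 4481, nat_lit 4517, nat_lit 4505, nat_lit 24181] (nat_lit 0) [] false,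
   Spec.mk (nat_lit 4505) (nat_lit 0) [nat_lit 8879, nat_lit 3047, nat_lit 4667, nat_lit 4451, nat_lit 4559, nat_lit 4523, nat_lit 4499, nat_lit 4507, nat_lit 24187] (nat_lit 1) [] false,
   Spec.mk (nat_lit 4507) (nat_lit 1) [nat_lit 8881, nat_lit 3049, nat_lit 4669, nat_lit 4453, nat_lit 4561, nat_lit 4525, nat_lit 4505, nat_lit 24189] (nat_lit 0) [] false,
   Spec.mk (nat_lit 4517) (nat_lit 0) [nat_lit 8891, nat_lit 3059, nat_lit 4679, nat_lit 4571, nat_lit 4499, nat_lit 4523, nat_lit 24199] (nat_lit 2) [] false,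
   Spec.mk (nat_lit 4523) (nat_lit 0) [nat_lit 8897, nat_lit 3065, nat_lit 4685, nat_lit 4577, nat_lit 4505, nat_lit 4517, nat_lit 4529, nat_lit 4525, nat_lit 24205] (nat_lit 1) [] false,
   Spec.mk (nat_lit 4525) (nat_lit 0) [nat_lit 8899, nat_lit 3067, nat_lit 4687, nat_lit 4579, nat_lit 4507, nat_lit 4531, nat_lit 4523, nat_lit 24207] (nat_lit 0) [] false,
   Spec.mk (nat_lit 4529) (nat_lit 0) [nat_lit 8903, nat_lit 3071, nat_lit 4691, nat_lit 4583, nat_lit 4523, nat_lit 4531, nat_lit 24211] (nat_lit 2) [] false,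
   Spec.mk (nat_lit 4531) (nat_lit 1) [nat_lit 8905, nat_lit 3073, nat_lit 4693, nat_lit 4585, nat_lit 4525, nat_lit 4529, nat_lit 4533, nat_lit 24213] (nat_lit 0) [] false,
   Spec.mk (nat_lit 4533) (nat_lit 2) [nat_lit 8907, nat_lit 3075, nat_lit 4695, nat_lit 4587, nat_lit 4531] (nat_lit 0) [] false,
   Spec.mk (nat_lit 4553) (nat_lit 0) [nat_lit 8927, nat_lit 3095, nat_lit 4715, nat_lit 4499, nat_lit 4571, nat_lit 4559, nat_lit 24235] (nat_lit 2) [] true,
   Spec.mk (nat_lit 4559) (nat_lit 0) [nat_lit 8933, nat_lit 3101, nat_lit 4721, nat_lit 4505, nat_lit 4577, nat_lit 4553, nat_lit 4561, nat_lit 24241] (nat_lit 4) [] true,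
   Spec.mk (nat_lit 4561) (nat_lit 0) [nat_lit 8935, nat_lit 3103, nat_lit 4723, nat_lit 4507, nat_lit 4579, nat_lit 4559, nat_lit 24243] (nat_lit 2) [] false,
   Spec.mk (nat_lit 4571) (nat_lit 0) [nat_lit 8945, nat_lit 3113, nat_lit 4733, nat_lit 4517, nat_lit 4553, nat_lit 4577, nat_lit 24253] (nat_lit 2) [] true,
   Spec.mk (nat_lit 4577) (nat_lit 0) [nat_lit 8951, nat_lit 3119, nat_lit 4739, nat_lit 4523, nat_lit 4559, nat_lit 4595, nat_lit 4571, nat_lit 4583, nat_lit 4579, nat_lit 24259] (nat_lit 2) [] true,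
   Spec.mk (nat_lit 4579) (nat_lit 0) [nat_lit 8953, nat_lit 3121, nat_lit 4741, nat_lit 4525, nat_lit 4561, nat_lit 4597, nat_lit 4585, nat_lit 4577, nat_lit 24261] (nat_lit 1) [] false,
   Spec.mk (nat_lit 4583) (nat_lit 0) [nat_lit 8957, nat_lit 3125, nat_lit 4745, nat_lit 4529, nat_lit 4601, nat_lit 4577, nat_lit 4585, nat_lit 24265] (nat_lit 4) [] false,
   Spec.mk (nat_lit 4585) (nat_lit 0) [nat_lit 8959, nat_lit 3127, nat_lit 4747, nat_lit 4531, nat_lit 4603, nat_lit 4579, nat_lit 4583, nat_lit 4587, nat_lit 24267] (nat_lit 1) [] false,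
   Spec.mk (nat_lit 4587) (nat_lit 0) [nat_lit 8961, nat_lit 3129, nat_lit 4749, nat_lit 4533, nat_lit 4605, nat_lit 4585] (nat_lit 0) [] false,
   Spec.mk (nat_lit 4595) (nat_lit 0) [nat_lit 8969, nat_lit 3137, nat_lit 4757, nat_lit 4577, nat_lit 4601, nat_lit 4597, nat_lit 24277] (nat_lit 2) [] false,
   Spec.mk (nat_lit 4597) (nat_lit 0) [nat_lit 8971, nat_lit 3139, nat_lit 4759, nat_lit 4579, nat_lit 4603, nat_lit 4595, nat_lit 24279] (nat_lit 2) [] false,
   Spec.mk (nat_lit 4601) (nat_lit 0) [nat_lit 8975, nat_lit 3143, nat_lit 4763, nat_lit 4583, nat_lit 4595, nat_lit 4603, nat_lit 24283] (nat_lit 2) [] false,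
   Spec.mk (nat_lit 4603) (nat_lit 0) [nat_lit 8977, nat_lit 3145, nat_lit 4765, nat_lit 4585, nat_lit 4597, nat_lit 4609, nat_lit 4601, nat_lit 4605, nat_lit 24285] (nat_lit 0) [] false,
   Spec.mk (nat_lit 4605) (nat_lit 0) [nat_lit 8979, nat_lit 3147, nat_lit 4767, nat_lit 4587, nat_lit 4611, nat_lit 4603] (nat_lit 0) [] false,
   Spec.mk (nat_lit 4609) (nat_lit 0) [nat_lit 8983, nat_lit 3151, nat_lit 4771, nat_lit 4603, nat_lit 4611, nat_lit 24291] (nat_lit 0) [] false,
   Spec.mk (nat_lit 4611) (nat_lit 2) [nat_lit 8985, nat_lit 3153, nat_lit 4773, nat_lit 4605, nat_lit 4609] (nat_lit 0) [] false,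
   Spec.mk (nat_lit 4643) (nat_lit 0) [nat_lit 9017, nat_lit 3185, nat_lit 5129, nat_lit 4481, nat_lit 4661, nat_lit 24325] (nat_lit 0) [] false,
   Spec.mk (nat_lit 4661) (nat_lit 0) [nat_lit 9035, nat_lit 3203, nat_lit 5147, nat_lit 4499, nat_lit 4715, nat_lit 4643, nat_lit 4679, nat_lit 4667, nat_lit 24343] (nat_lit 1) [] true,
   Spec.mk (nat_lit 4667) (nat_lit 0) [nat_lit 9041, nat_lit 3209, nat_lit 5153, nat_lit 4505, nat_lit 4721, nat_lit 4685, nat_lit 4661, nat_lit 4669, nat_lit 24349] (nat_lit 2) [] true,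
   Spec.mk (nat_lit 4669) (nat_lit 0) [nat_lit 9043, nat_lit 3211, nat_lit 5155, nat_lit 4507, nat_lit 4723, nat_lit 4687, nat_lit 4667, nat_lit 24351] (nat_lit 0) [] false,
   Spec.mk (nat_lit 4679) (nat_lit 0) [nat_lit 9053, nat_lit 3221, nat_lit 5165, nat_lit 4517, nat_lit 4733, nat_lit 4661, nat_lit 4685, nat_lit 24361] (nat_lit 4) [] true,
   Spec.mk (nat_lit 4685) (nat_lit 0) [nat_lit 9059, nat_lit 3227, nat_lit 5171, nat_lit 4523, nat_lit 4739, nat_lit 4667, nat_lit 4679, nat_lit 4691, nat_lit 4687, nat_lit 24367] (nat_lit 3) [] true,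
   Spec.mk (nat_lit 4687) (nat_lit 0) [nat_lit 9061, nat_lit 3229, nat_lit 5173, nat_lit 4525, nat_lit 4741, nat_lit 4669, nat_lit 4693, nat_lit 4685, nat_lit 24369] (nat_lit 2) [] false]

noncomputable def sp11 : List Spec :=
  [Spec.mk (nat_lit 4691) (nat_lit 0) [nat_lit 9065, nat_lit 3233, nat_lit 5177, nat_lit 4529, nat_lit 4745, nat_lit 4685, nat_lit 4693, nat_lit 24373] (nat_lit 4) [] true,
   Spec.mk (nat_lit 4693) (nat_lit 0) [nat_lit 9067, nat_lit 3235, nat_lit 5179, nat_lit 4531, nat_lit 4747, nat_lit 4687, nat_lit 4691, nat_lit 4695, nat_lit 24375] (nat_lit 1) [] false,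
   Spec.mk (nat_lit 4695) (nat_lit 0) [nat_lit 9069, nat_lit 3237, nat_lit 5181, nat_lit 4533, nat_lit 4749, nat_lit 4693] (nat_lit 0) [] false,
   Spec.mk (nat_lit 4715) (nat_lit 0) [nat_lit 9089, nat_lit 3257, nat_lit 5201, nat_lit 4553, nat_lit 4877, nat_lit 4661, nat_lit 4733, nat_lit 4721, nat_lit 24397] (nat_lit 1) [] true,
   Spec.mk (nat_lit 4721) (nat_lit 0) [nat_lit 9095, nat_lit 3263, nat_lit 5207, nat_lit 4559, nat_lit 4883, nat_lit 4667, nat_lit 4739, nat_lit 4715, nat_lit 4723, nat_lit 24403] (nat_lit 3) [] true,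
   Spec.mk (nat_lit 4723) (nat_lit 0) [nat_lit 9097, nat_lit 3265, nat_lit 5209, nat_lit 4561, nat_lit 4885, nat_lit 4669, nat_lit 4741, nat_lit 4721, nat_lit 24405] (nat_lit 1) [] false,
   Spec.mk (nat_lit 4733) (nat_lit 0) [nat_lit 9107, nat_lit 3275, nat_lit 5219, nat_lit 4571, nat_lit 4895, nat_lit 4679, nat_lit 4787, nat_lit 4715, nat_lit 4739, nat_lit 24415] (nat_lit 2) [] true,
   Spec.mk (nat_lit 4739) (nat_lit 0) [nat_lit 9113, nat_lit 3281, nat_lit 5225, nat_lit 4577, nat_lit 4901, nat_lit 4685, nat_lit 4793, nat_lit 4721, nat_lit 4757, nat_lit 4733, nat_lit 4745, nat_lit 4741, nat_lit 24421] (nat_lit 2) [] true,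
   Spec.mk (nat_lit 4741) (nat_lit 0) [nat_lit 9115, nat_lit 3283, nat_lit 5227, nat_lit 4579, nat_lit 4903, nat_lit 4687, nat_lit 4795, nat_lit 4723, nat_lit 4759, nat_lit 4747, nat_lit 4739, nat_lit 24423] (nat_lit 1) [] false,
   Spec.mk (nat_lit 4745) (nat_lit 0) [nat_lit 9119, nat_lit 3287, nat_lit 5231, nat_lit 4583, nat_lit 4907, nat_lit 4691, nat_lit 4799, nat_lit 4763, nat_lit 4739, nat_lit 4747, nat_lit 24427] (nat_lit 4) [] true,
   Spec.mk (nat_lit 4747) (nat_lit 0) [nat_lit 9121, nat_lit 3289, nat_lit 5233, nat_lit 4585, nat_lit 4909, nat_lit 4693, nat_lit 4801, nat_lit 4765, nat_lit 4741, nat_lit 4745, nat_lit 4749, nat_lit 24429] (nat_lit 1) [] false,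
   Spec.mk (nat_lit 4749) (nat_lit 0) [nat_lit 9123, nat_lit 3291, nat_lit 5235, nat_lit 4587, nat_lit 4911, nat_lit 4695, nat_lit 4803, nat_lit 4767, nat_lit 4747] (nat_lit 0) [] false,
   Spec.mk (nat_lit 4757) (nat_lit 0) [nat_lit 9131, nat_lit 3299, nat_lit 5243, nat_lit 4595, nat_lit 4919, nat_lit 4811, nat_lit 4739, nat_lit 4763, nat_lit 4759, nat_lit 24439] (nat_lit 3) [] true,
   Spec.mk (nat_lit 4759) (nat_lit 0) [nat_lit 9133, nat_lit 3301, nat_lit 5245, nat_lit 4597, nat_lit 4921, nat_lit 4813, nat_lit 4741, nat_lit 4765, nat_lit 4757, nat_lit 24441] (nat_lit 3) [] false,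
   Spec.mk (nat_lit 4763) (nat_lit 0) [nat_lit 9137, nat_lit 3305, nat_lit 5249, nat_lit 4601, nat_lit 4925, nat_lit 4817, nat_lit 4745, nat_lit 4757, nat_lit 4765, nat_lit 24445] (nat_lit 3) [] true,
   Spec.mk (nat_lit 4765) (nat_lit 0) [nat_lit 9139, nat_lit 3307, nat_lit 5251, nat_lit 4603, nat_lit 4927, nat_lit 4819, nat_lit 4747, nat_lit 4759, nat_lit 4771, nat_lit 4763, nat_lit 4767, nat_lit 24447] (nat_lit 1) [] false,
   Spec.mk (nat_lit 4767) (nat_lit 0) [nat_lit 9141, nat_lit 3309, nat_lit 5253, nat_lit 4605, nat_lit 4929, nat_lit 4821, nat_lit 4749, nat_lit 4773, nat_lit 4765] (nat_lit 1) [] false,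
   Spec.mk (nat_lit 4771) (nat_lit 0) [nat_lit 9145, nat_lit 3313, nat_lit 5257, nat_lit 4609, nat_lit 4933, nat_lit 4825, nat_lit 4765, nat_lit 4773, nat_lit 24453] (nat_lit 1) [] false,
   Spec.mk (nat_lit 4773) (nat_lit 1) [nat_lit 9147, nat_lit 3315, nat_lit 5259, nat_lit 4611, nat_lit 4935, nat_lit 4827, nat_lit 4767, nat_lit 4771] (nat_lit 0) [] false,
   Spec.mk (nat_lit 4787) (nat_lit 0) [nat_lit 9161, nat_lit 3329, nat_lit 5273, nat_lit 4949, nat_lit 4733, nat_lit 4793, nat_lit 24469] (nat_lit 2) [] true,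
   Spec.mk (nat_lit 4793) (nat_lit 0) [nat_lit 9167, nat_lit 3335, nat_lit 5279, nat_lit 4955, nat_lit 4739, nat_lit 4811, nat_lit 4787, nat_lit 4799, nat_lit 4795, nat_lit 24475] (nat_lit 3) [] true,
   Spec.mk (nat_lit 4795) (nat_lit 0) [nat_lit 9169, nat_lit 3337, nat_lit 5281, nat_lit 4957, nat_lit 4741, nat_lit 4813, nat_lit 4801, nat_lit 4793, nat_lit 24477] (nat_lit 2) [] false,
   Spec.mk (nat_lit 4799) (nat_lit 0) [nat_lit 9173, nat_lit 3341, nat_lit 5285, nat_lit 4961, nat_lit 4745, nat_lit 4817, nat_lit 4793, nat_lit 4801, nat_lit 24481] (nat_lit 6) [] true,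
   Spec.mk (nat_lit 4801) (nat_lit 0) [nat_lit 9175, nat_lit 3343, nat_lit 5287, nat_lit 4963, nat_lit 4747, nat_lit 4819, nat_lit 4795, nat_lit 4799, nat_lit 4803, nat_lit 24483] (nat_lit 3) [] false,
   Spec.mk (nat_lit 4803) (nat_lit 0) [nat_lit 9177, nat_lit 3345, nat_lit 5289, nat_lit 4965, nat_lit 4749, nat_lit 4821, nat_lit 4801] (nat_lit 2) [] false,
   Spec.mk (nat_lit 4811) (nat_lit 0) [nat_lit 9185, nat_lit 3353, nat_lit 5297, nat_lit 4973, nat_lit 4757, nat_lit 4793, nat_lit 4817, nat_lit 4813, nat_lit 24493] (nat_lit 2) [] true,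
   Spec.mk (nat_lit 4813) (nat_lit 0) [nat_lit 9187, nat_lit 3355, nat_lit 5299, nat_lit 4975, nat_lit 4759, nat_lit 4795, nat_lit 4819, nat_lit 4811, nat_lit 24495] (nat_lit 2) [] false,
   Spec.mk (nat_lit 4817) (nat_lit 0) [nat_lit 9191, nat_lit 3359, nat_lit 5303, nat_lit 4979, nat_lit 4763, nat_lit 4799, nat_lit 4835, nat_lit 4811, nat_lit 4819, nat_lit 24499] (nat_lit 3) [] false,
   Spec.mk (nat_lit 4819) (nat_lit 0) [nat_lit 9193, nat_lit 3361, nat_lit 5305, nat_lit 4981, nat_lit 4765, nat_lit 4801, nat_lit 4837, nat_lit 4813, nat_lit 4825, nat_lit 4817, nat_lit 4821, nat_lit 24501] (nat_lit 1) [] false,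
   Spec.mk (nat_lit 4821) (nat_lit 0) [nat_lit 9195, nat_lit 3363, nat_lit 5307, nat_lit 4983, nat_lit 4767, nat_lit 4803, nat_lit 4839, nat_lit 4827, nat_lit 4819] (nat_lit 1) [] false,
   Spec.mk (nat_lit 4825) (nat_lit 0) [nat_lit 9199, nat_lit 3367, nat_lit 5311, nat_lit 4987, nat_lit 4771, nat_lit 4843, nat_lit 4819, nat_lit 4827, nat_lit 24507] (nat_lit 2) [] false,
   Spec.mk (nat_lit 4827) (nat_lit 0) [nat_lit 9201, nat_lit 3369, nat_lit 5313, nat_lit 4989, nat_lit 4773, nat_lit 4845, nat_lit 4821, nat_lit 4825] (nat_lit 0) [] false,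
   Spec.mk (nat_lit 4835) (nat_lit 0) [nat_lit 9209, nat_lit 3377, nat_lit 5321, nat_lit 4997, nat_lit 4817, nat_lit 4837, nat_lit 24517] (nat_lit 2) [] false,
   Spec.mk (nat_lit 4837) (nat_lit 0) [nat_lit 9211, nat_lit 3379, nat_lit 5323, nat_lit 4999, nat_lit 4819, nat_lit 4843, nat_lit 4835, nat_lit 4839, nat_lit 24519] (nat_lit 1) [] false,
   Spec.mk (nat_lit 4839) (nat_lit 0) [nat_lit 9213, nat_lit 3381, nat_lit 5325, nat_lit 5001, nat_lit 4821, nat_lit 4845, nat_lit 4837] (nat_lit 2) [] false,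
   Spec.mk (nat_lit 4843) (nat_lit 0) [nat_lit 9217, nat_lit 3385, nat_lit 5329, nat_lit 5005, nat_lit 4825, nat_lit 4837, nat_lit 4845, nat_lit 24525] (nat_lit 0) [] false,
   Spec.mk (nat_lit 4845) (nat_lit 1) [nat_lit 9219, nat_lit 3387, nat_lit 5331, nat_lit 5007, nat_lit 4827, nat_lit 4839, nat_lit 4851, nat_lit 4843] (nat_lit 0) [] false,
   Spec.mk (nat_lit 4851) (nat_lit 2) [nat_lit 9225, nat_lit 3393, nat_lit 5337, nat_lit 5013, nat_lit 4845] (nat_lit 0) [] false,
   Spec.mk (nat_lit 4877) (nat_lit 0) [nat_lit 9251, nat_lit 3419, nat_lit 5363, nat_lit 4715, nat_lit 4895, nat_lit 4883, nat_lit 24559] (nat_lit 2) [] false,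
   Spec.mk (nat_lit 4883) (nat_lit 0) [nat_lit 9257, nat_lit 3425, nat_lit 5369, nat_lit 4721, nat_lit 4901, nat_lit 4877, nat_lit 4885, nat_lit 24565] (nat_lit 4) [] true,
   Spec.mk (nat_lit 4885) (nat_lit 0) [nat_lit 9259, nat_lit 3427, nat_lit 5371, nat_lit 4723, nat_lit 4903, nat_lit 4883, nat_lit 24567] (nat_lit 2) [] false,
   Spec.mk (nat_lit 4895) (nat_lit 0) [nat_lit 9269, nat_lit 3437, nat_lit 5381, nat_lit 4733, nat_lit 4949, nat_lit 4877, nat_lit 4901, nat_lit 24577] (nat_lit 4) [] true,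
   Spec.mk (nat_lit 4901) (nat_lit 0) [nat_lit 9275, nat_lit 3443, nat_lit 5387, nat_lit 4739, nat_lit 4955, nat_lit 4883, nat_lit 4919, nat_lit 4895, nat_lit 4907, nat_lit 4903, nat_lit 24583] (nat_lit 4) [] true,
   Spec.mk (nat_lit 4903) (nat_lit 0) [nat_lit 9277, nat_lit 3445, nat_lit 5389, nat_lit 4741, nat_lit 4957, nat_lit 4885, nat_lit 4921, nat_lit 4909, nat_lit 4901, nat_lit 24585] (nat_lit 3) [] false,
   Spec.mk (nat_lit 4907) (nat_lit 0) [nat_lit 9281, nat_lit 3449, nat_lit 5393, nat_lit 4745, nat_lit 4961, nat_lit 4925, nat_lit 4901, nat_lit 4909, nat_lit 24589] (nat_lit 6) [] true,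
   Spec.mk (nat_lit 4909) (nat_lit 0) [nat_lit 9283, nat_lit 3451, nat_lit 5395, nat_lit 4747, nat_lit 4963, nat_lit 4927, nat_lit 4903, nat_lit 4907, nat_lit 4911, nat_lit 24591] (nat_lit 3) [] false,
   Spec.mk (nat_lit 4911) (nat_lit 0) [nat_lit 9285, nat_lit 3453, nat_lit 5397, nat_lit 4749, nat_lit 4965, nat_lit 4929, nat_lit 4909] (nat_lit 2) [] false,
   Spec.mk (nat_lit 4919) (nat_lit 0) [nat_lit 9293, nat_lit 3461, nat_lit 5405, nat_lit 4757, nat_lit 4973, nat_lit 4901, nat_lit 4925, nat_lit 4921, nat_lit 24601] (nat_lit 6) [] true,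
   Spec.mk (nat_lit 4921) (nat_lit 0) [nat_lit 9295, nat_lit 3463, nat_lit 5407, nat_lit 4759, nat_lit 4975, nat_lit 4903, nat_lit 4927, nat_lit 4919, nat_lit 24603] (nat_lit 6) [] false,
   Spec.mk (nat_lit 4925) (nat_lit 0) [nat_lit 9299, nat_lit 3467, nat_lit 5411, nat_lit 4763, nat_lit 4979, nat_lit 4907, nat_lit 4919, nat_lit 4927, nat_lit 24607] (nat_lit 6) [] false,
   Spec.mk (nat_lit 4927) (nat_lit 0) [nat_lit 9301, nat_lit 3469, nat_lit 5413, nat_lit 4765, nat_lit 4981, nat_lit 4909, nat_lit 4921, nat_lit 4933, nat_lit 4925, nat_lit 4929, nat_lit 24609] (nat_lit 4) [] false,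
   Spec.mk (nat_lit 4929) (nat_lit 0) [nat_lit 9303, nat_lit 3471, nat_lit 5415, nat_lit 4767, nat_lit 4983, nat_lit 4911, nat_lit 4935, nat_lit 4927] (nat_lit 4) [] false,
   Spec.mk (nat_lit 4933) (nat_lit 0) [nat_lit 9307, nat_lit 3475, nat_lit 5419, nat_lit 4771, nat_lit 4987, nat_lit 4927, nat_lit 4935, nat_lit 24615] (nat_lit 4) [] false,
   Spec.mk (nat_lit 4935) (nat_lit 0) [nat_lit 9309, nat_lit 3477, nat_lit 5421, nat_lit 4773, nat_lit 4989, nat_lit 4929, nat_lit 4933] (nat_lit 2) [] false,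
   Spec.mk (nat_lit 4949) (nat_lit 0) [nat_lit 9323, nat_lit 3491, nat_lit 5435, nat_lit 4787, nat_lit 4895, nat_lit 4955, nat_lit 24631] (nat_lit 2) [] false,
   Spec.mk (nat_lit 4955) (nat_lit 0) [nat_lit 9329, nat_lit 3497, nat_lit 5441, nat_lit 4793, nat_lit 4901, nat_lit 4973, nat_lit 4949, nat_lit 4961, nat_lit 4957, nat_lit 24637] (nat_lit 3) [] true,
   Spec.mk (nat_lit 4957) (nat_lit 0) [nat_lit 9331, nat_lit 3499, nat_lit 5443, nat_lit 4795, nat_lit 4903, nat_lit 4975, nat_lit 4963, nat_lit 4955, nat_lit 24639] (nat_lit 2) [] false,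
   Spec.mk (nat_lit 4961) (nat_lit 0) [nat_lit 9335, nat_lit 3503, nat_lit 5447, nat_lit 4799, nat_lit 4907, nat_lit 4979, nat_lit 4955, nat_lit 4963, nat_lit 24643] (nat_lit 6) [] false,
   Spec.mk (nat_lit 4963) (nat_lit 0) [nat_lit 9337, nat_lit 3505, nat_lit 5449, nat_lit 4801, nat_lit 4909, nat_lit 4981, nat_lit 4957, nat_lit 4961, nat_lit 4965, nat_lit 24645] (nat_lit 3) [] false,
   Spec.mk (nat_lit 4965) (nat_lit 0) [nat_lit 9339, nat_lit 3507, nat_lit 5451, nat_lit 4803, nat_lit 4911, nat_lit 4983, nat_lit 4963] (nat_lit 2) [] false]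

noncomputable def sp12 : List Spec :=
  [Spec.mk (nat_lit 4973) (nat_lit 0) [nat_lit 9347, nat_lit 3515, nat_lit 5459, nat_lit 4811, nat_lit 4919, nat_lit 5027, nat_lit 4955, nat_lit 4979, nat_lit 4975, nat_lit 24655] (nat_lit 3) [] true,
   Spec.mk (nat_lit 4975) (nat_lit 0) [nat_lit 9349, nat_lit 3517, nat_lit 5461, nat_lit 4813, nat_lit 4921, nat_lit 5029, nat_lit 4957, nat_lit 4981, nat_lit 4973, nat_lit 24657] (nat_lit 3) [] false,
   Spec.mk (nat_lit 4979) (nat_lit 0) [nat_lit 9353, nat_lit 3521, nat_lit 5465, nat_lit 4817, nat_lit 4925, nat_lit 5033, nat_lit 4961, nat_lit 4997, nat_lit 4973, nat_lit 4981, nat_lit 24661] (nat_lit 4) [] false,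
   Spec.mk (nat_lit 4981) (nat_lit 0) [nat_lit 9355, nat_lit 3523, nat_lit 5467, nat_lit 4819, nat_lit 4927, nat_lit 5035, nat_lit 4963, nat_lit 4999, nat_lit 4975, nat_lit 4987, nat_lit 4979, nat_lit 4983, nat_lit 24663] (nat_lit 2) [] false,
   Spec.mk (nat_lit 4983) (nat_lit 0) [nat_lit 9357, nat_lit 3525, nat_lit 5469, nat_lit 4821, nat_lit 4929, nat_lit 5037, nat_lit 4965, nat_lit 5001, nat_lit 4989, nat_lit 4981] (nat_lit 2) [] false,
   Spec.mk (nat_lit 4987) (nat_lit 0) [nat_lit 9361, nat_lit 3529, nat_lit 5473, nat_lit 4825, nat_lit 4933, nat_lit 5041, nat_lit 5005, nat_lit 4981, nat_lit 4989, nat_lit 24669] (nat_lit 3) [] false,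
   Spec.mk (nat_lit 4989) (nat_lit 0) [nat_lit 9363, nat_lit 3531, nat_lit 5475, nat_lit 4827, nat_lit 4935, nat_lit 5043, nat_lit 5007, nat_lit 4983, nat_lit 4987] (nat_lit 1) [] false,
   Spec.mk (nat_lit 4997) (nat_lit 0) [nat_lit 9371, nat_lit 3539, nat_lit 5483, nat_lit 4835, nat_lit 5051, nat_lit 4979, nat_lit 4999, nat_lit 24679] (nat_lit 4) [] false,
   Spec.mk (nat_lit 4999) (nat_lit 0) [nat_lit 9373, nat_lit 3541, nat_lit 5485, nat_lit 4837, nat_lit 5053, nat_lit 4981, nat_lit 5005, nat_lit 4997, nat_lit 5001, nat_lit 24681] (nat_lit 3) [] false,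
   Spec.mk (nat_lit 5001) (nat_lit 0) [nat_lit 9375, nat_lit 3543, nat_lit 5487, nat_lit 4839, nat_lit 5055, nat_lit 4983, nat_lit 5007, nat_lit 4999] (nat_lit 4) [] false,
   Spec.mk (nat_lit 5005) (nat_lit 0) [nat_lit 9379, nat_lit 3547, nat_lit 5491, nat_lit 4843, nat_lit 5059, nat_lit 4987, nat_lit 4999, nat_lit 5007, nat_lit 24687] (nat_lit 2) [] false,
   Spec.mk (nat_lit 5007) (nat_lit 0) [nat_lit 9381, nat_lit 3549, nat_lit 5493, nat_lit 4845, nat_lit 5061, nat_lit 4989, nat_lit 5001, nat_lit 5013, nat_lit 5005] (nat_lit 1) [] false,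
   Spec.mk (nat_lit 5013) (nat_lit 0) [nat_lit 9387, nat_lit 3555, nat_lit 5499, nat_lit 4851, nat_lit 5067, nat_lit 5007] (nat_lit 0) [] false,
   Spec.mk (nat_lit 5027) (nat_lit 0) [nat_lit 9401, nat_lit 3569, nat_lit 5513, nat_lit 4973, nat_lit 5033, nat_lit 5029, nat_lit 24709] (nat_lit 2) [] false,
   Spec.mk (nat_lit 5029) (nat_lit 0) [nat_lit 9403, nat_lit 3571, nat_lit 5515, nat_lit 4975, nat_lit 5035, nat_lit 5027, nat_lit 24711] (nat_lit 2) [] false,
   Spec.mk (nat_lit 5033) (nat_lit 0) [nat_lit 9407, nat_lit 3575, nat_lit 5519, nat_lit 4979, nat_lit 5051, nat_lit 5027, nat_lit 5035, nat_lit 24715] (nat_lit 4) [] false,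
   Spec.mk (nat_lit 5035) (nat_lit 0) [nat_lit 9409, nat_lit 3577, nat_lit 5521, nat_lit 4981, nat_lit 5053, nat_lit 5029, nat_lit 5041, nat_lit 5033, nat_lit 5037, nat_lit 24717] (nat_lit 2) [] false,
   Spec.mk (nat_lit 5037) (nat_lit 0) [nat_lit 9411, nat_lit 3579, nat_lit 5523, nat_lit 4983, nat_lit 5055, nat_lit 5043, nat_lit 5035] (nat_lit 2) [] false,
   Spec.mk (nat_lit 5041) (nat_lit 0) [nat_lit 9415, nat_lit 3583, nat_lit 5527, nat_lit 4987, nat_lit 5059, nat_lit 5035, nat_lit 5043, nat_lit 24723] (nat_lit 4) [] false,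
   Spec.mk (nat_lit 5043) (nat_lit 0) [nat_lit 9417, nat_lit 3585, nat_lit 5529, nat_lit 4989, nat_lit 5061, nat_lit 5037, nat_lit 5041] (nat_lit 2) [] false,
   Spec.mk (nat_lit 5051) (nat_lit 0) [nat_lit 9425, nat_lit 3593, nat_lit 5537, nat_lit 4997, nat_lit 5033, nat_lit 5053, nat_lit 24733] (nat_lit 2) [] false,
   Spec.mk (nat_lit 5053) (nat_lit 0) [nat_lit 9427, nat_lit 3595, nat_lit 5539, nat_lit 4999, nat_lit 5035, nat_lit 5059, nat_lit 5051, nat_lit 5055, nat_lit 24735] (nat_lit 1) [] false,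
   Spec.mk (nat_lit 5055) (nat_lit 0) [nat_lit 9429, nat_lit 3597, nat_lit 5541, nat_lit 5001, nat_lit 5037, nat_lit 5061, nat_lit 5053] (nat_lit 2) [] false,
   Spec.mk (nat_lit 5059) (nat_lit 0) [nat_lit 9433, nat_lit 3601, nat_lit 5545, nat_lit 5005, nat_lit 5041, nat_lit 5077, nat_lit 5053, nat_lit 5061, nat_lit 24741] (nat_lit 1) [] false,
   Spec.mk (nat_lit 5061) (nat_lit 0) [nat_lit 9435, nat_lit 3603, nat_lit 5547, nat_lit 5007, nat_lit 5043, nat_lit 5079, nat_lit 5055, nat_lit 5067, nat_lit 5059] (nat_lit 0) [] false,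
   Spec.mk (nat_lit 5067) (nat_lit 0) [nat_lit 9441, nat_lit 3609, nat_lit 5553, nat_lit 5013, nat_lit 5085, nat_lit 5061] (nat_lit 0) [] false,
   Spec.mk (nat_lit 5077) (nat_lit 0) [nat_lit 9451, nat_lit 3619, nat_lit 5563, nat_lit 5059, nat_lit 5079, nat_lit 24759] (nat_lit 0) [] false,
   Spec.mk (nat_lit 5079) (nat_lit 0) [nat_lit 9453, nat_lit 3621, nat_lit 5565, nat_lit 5061, nat_lit 5085, nat_lit 5077] (nat_lit 0) [] false,
   Spec.mk (nat_lit 5085) (nat_lit 2) [nat_lit 9459, nat_lit 3627, nat_lit 5571, nat_lit 5067, nat_lit 5079] (nat_lit 0) [] false,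
   Spec.mk (nat_lit 5129) (nat_lit 2) [nat_lit 9503, nat_lit 3671, nat_lit 4643, nat_lit 5147, nat_lit 24811] (nat_lit 0) [] false,
   Spec.mk (nat_lit 5147) (nat_lit 1) [nat_lit 9521, nat_lit 3689, nat_lit 4661, nat_lit 5201, nat_lit 5129, nat_lit 5165, nat_lit 5153, nat_lit 24829] (nat_lit 0) [] false,
   Spec.mk (nat_lit 5153) (nat_lit 0) [nat_lit 9527, nat_lit 3695, nat_lit 4667, nat_lit 5207, nat_lit 5171, nat_lit 5147, nat_lit 5155, nat_lit 24835] (nat_lit 0) [] false,
   Spec.mk (nat_lit 5155) (nat_lit 2) [nat_lit 9529, nat_lit 3697, nat_lit 4669, nat_lit 5209, nat_lit 5173, nat_lit 5153, nat_lit 24837] (nat_lit 0) [] false,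
   Spec.mk (nat_lit 5165) (nat_lit 0) [nat_lit 9539, nat_lit 3707, nat_lit 4679, nat_lit 5219, nat_lit 5147, nat_lit 5171, nat_lit 24847] (nat_lit 2) [] false,
   Spec.mk (nat_lit 5171) (nat_lit 0) [nat_lit 9545, nat_lit 3713, nat_lit 4685, nat_lit 5225, nat_lit 5153, nat_lit 5165, nat_lit 5177, nat_lit 5173, nat_lit 24853] (nat_lit 1) [] false,
   Spec.mk (nat_lit 5173) (nat_lit 0) [nat_lit 9547, nat_lit 3715, nat_lit 4687, nat_lit 5227, nat_lit 5155, nat_lit 5179, nat_lit 5171, nat_lit 24855] (nat_lit 0) [] false,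
   Spec.mk (nat_lit 5177) (nat_lit 0) [nat_lit 9551, nat_lit 3719, nat_lit 4691, nat_lit 5231, nat_lit 5171, nat_lit 5179, nat_lit 24859] (nat_lit 2) [] false,
   Spec.mk (nat_lit 5179) (nat_lit 1) [nat_lit 9553, nat_lit 3721, nat_lit 4693, nat_lit 5233, nat_lit 5173, nat_lit 5177, nat_lit 5181, nat_lit 24861] (nat_lit 0) [] false,
   Spec.mk (nat_lit 5181) (nat_lit 2) [nat_lit 9555, nat_lit 3723, nat_lit 4695, nat_lit 5235, nat_lit 5179] (nat_lit 0) [] false,
   Spec.mk (nat_lit 5201) (nat_lit 0) [nat_lit 9575, nat_lit 3743, nat_lit 4715, nat_lit 5363, nat_lit 5147, nat_lit 5219, nat_lit 5207, nat_lit 24883] (nat_lit 0) [] true,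
   Spec.mk (nat_lit 5207) (nat_lit 0) [nat_lit 9581, nat_lit 3749, nat_lit 4721, nat_lit 5369, nat_lit 5153, nat_lit 5225, nat_lit 5201, nat_lit 5209, nat_lit 24889] (nat_lit 2) [] true,
   Spec.mk (nat_lit 5209) (nat_lit 0) [nat_lit 9583, nat_lit 3751, nat_lit 4723, nat_lit 5371, nat_lit 5155, nat_lit 5227, nat_lit 5207, nat_lit 24891] (nat_lit 0) [] false,
   Spec.mk (nat_lit 5219) (nat_lit 0) [nat_lit 9593, nat_lit 3761, nat_lit 4733, nat_lit 5381, nat_lit 5165, nat_lit 5273, nat_lit 5201, nat_lit 5225, nat_lit 24901] (nat_lit 1) [] true,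
   Spec.mk (nat_lit 5225) (nat_lit 0) [nat_lit 9599, nat_lit 3767, nat_lit 4739, nat_lit 5387, nat_lit 5171, nat_lit 5279, nat_lit 5207, nat_lit 5243, nat_lit 5219, nat_lit 5231, nat_lit 5227, nat_lit 24907] (nat_lit 1) [] true,
   Spec.mk (nat_lit 5227) (nat_lit 0) [nat_lit 9601, nat_lit 3769, nat_lit 4741, nat_lit 5389, nat_lit 5173, nat_lit 5281, nat_lit 5209, nat_lit 5245, nat_lit 5233, nat_lit 5225, nat_lit 24909] (nat_lit 0) [] false,
   Spec.mk (nat_lit 5231) (nat_lit 0) [nat_lit 9605, nat_lit 3773, nat_lit 4745, nat_lit 5393, nat_lit 5177, nat_lit 5285, nat_lit 5249, nat_lit 5225, nat_lit 5233, nat_lit 24913] (nat_lit 3) [] false,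
   Spec.mk (nat_lit 5233) (nat_lit 0) [nat_lit 9607, nat_lit 3775, nat_lit 4747, nat_lit 5395, nat_lit 5179, nat_lit 5287, nat_lit 5251, nat_lit 5227, nat_lit 5231, nat_lit 5235, nat_lit 24915] (nat_lit 0) [] false,
   Spec.mk (nat_lit 5235) (nat_lit 1) [nat_lit 9609, nat_lit 3777, nat_lit 4749, nat_lit 5397, nat_lit 5181, nat_lit 5289, nat_lit 5253, nat_lit 5233] (nat_lit 0) [] false,
   Spec.mk (nat_lit 5243) (nat_lit 0) [nat_lit 9617, nat_lit 3785, nat_lit 4757, nat_lit 5405, nat_lit 5297, nat_lit 5225, nat_lit 5249, nat_lit 5245, nat_lit 24925] (nat_lit 2) [] true,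
   Spec.mk (nat_lit 5245) (nat_lit 0) [nat_lit 9619, nat_lit 3787, nat_lit 4759, nat_lit 5407, nat_lit 5299, nat_lit 5227, nat_lit 5251, nat_lit 5243, nat_lit 24927] (nat_lit 2) [] false,
   Spec.mk (nat_lit 5249) (nat_lit 0) [nat_lit 9623, nat_lit 3791, nat_lit 4763, nat_lit 5411, nat_lit 5303, nat_lit 5231, nat_lit 5243, nat_lit 5251, nat_lit 24931] (nat_lit 2) [] false,
   Spec.mk (nat_lit 5251) (nat_lit 0) [nat_lit 9625, nat_lit 3793, nat_lit 4765, nat_lit 5413, nat_lit 5305, nat_lit 5233, nat_lit 5245, nat_lit 5257, nat_lit 5249, nat_lit 5253, nat_lit 24933] (nat_lit 0) [] false,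
   Spec.mk (nat_lit 5253) (nat_lit 0) [nat_lit 9627, nat_lit 3795, nat_lit 4767, nat_lit 5415, nat_lit 5307, nat_lit 5235, nat_lit 5259, nat_lit 5251] (nat_lit 0) [] false,
   Spec.mk (nat_lit 5257) (nat_lit 0) [nat_lit 9631, nat_lit 3799, nat_lit 4771, nat_lit 5419, nat_lit 5311, nat_lit 5251, nat_lit 5259, nat_lit 24939] (nat_lit 0) [] false,
   Spec.mk (nat_lit 5259) (nat_lit 2) [nat_lit 9633, nat_lit 3801, nat_lit 4773, nat_lit 5421, nat_lit 5313, nat_lit 5253, nat_lit 5257] (nat_lit 0) [] false,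
   Spec.mk (nat_lit 5273) (nat_lit 0) [nat_lit 9647, nat_lit 3815, nat_lit 4787, nat_lit 5435, nat_lit 5219, nat_lit 5279, nat_lit 24955] (nat_lit 2) [] false,
   Spec.mk (nat_lit 5279) (nat_lit 0) [nat_lit 9653, nat_lit 3821, nat_lit 4793, nat_lit 5441, nat_lit 5225, nat_lit 5297, nat_lit 5273, nat_lit 5285, nat_lit 5281, nat_lit 24961] (nat_lit 3) [] true,
   Spec.mk (nat_lit 5281) (nat_lit 0) [nat_lit 9655, nat_lit 3823, nat_lit 4795, nat_lit 5443, nat_lit 5227, nat_lit 5299, nat_lit 5287, nat_lit 5279, nat_lit 24963] (nat_lit 2) [] false,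
   Spec.mk (nat_lit 5285) (nat_lit 0) [nat_lit 9659, nat_lit 3827, nat_lit 4799, nat_lit 5447, nat_lit 5231, nat_lit 5303, nat_lit 5279, nat_lit 5287, nat_lit 24967] (nat_lit 6) [] false,
   Spec.mk (nat_lit 5287) (nat_lit 0) [nat_lit 9661, nat_lit 3829, nat_lit 4801, nat_lit 5449, nat_lit 5233, nat_lit 5305, nat_lit 5281, nat_lit 5285, nat_lit 5289, nat_lit 24969] (nat_lit 3) [] false]

noncomputable def sp13 : List Spec :=
  [Spec.mk (nat_lit 5289) (nat_lit 0) [nat_lit 9663, nat_lit 3831, nat_lit 4803, nat_lit 5451, nat_lit 5235, nat_lit 5307, nat_lit 5287] (nat_lit 2) [] false,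
   Spec.mk (nat_lit 5297) (nat_lit 0) [nat_lit 9671, nat_lit 3839, nat_lit 4811, nat_lit 5459, nat_lit 5243, nat_lit 5279, nat_lit 5303, nat_lit 5299, nat_lit 24979] (nat_lit 2) [] false,
   Spec.mk (nat_lit 5299) (nat_lit 0) [nat_lit 9673, nat_lit 3841, nat_lit 4813, nat_lit 5461, nat_lit 5245, nat_lit 5281, nat_lit 5305, nat_lit 5297, nat_lit 24981] (nat_lit 2) [] false,
   Spec.mk (nat_lit 5303) (nat_lit 0) [nat_lit 9677, nat_lit 3845, nat_lit 4817, nat_lit 5465, nat_lit 5249, nat_lit 5285, nat_lit 5321, nat_lit 5297, nat_lit 5305, nat_lit 24985] (nat_lit 3) [] false,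
   Spec.mk (nat_lit 5305) (nat_lit 0) [nat_lit 9679, nat_lit 3847, nat_lit 4819, nat_lit 5467, nat_lit 5251, nat_lit 5287, nat_lit 5323, nat_lit 5299, nat_lit 5311, nat_lit 5303, nat_lit 5307, nat_lit 24987] (nat_lit 1) [] false,
   Spec.mk (nat_lit 5307) (nat_lit 0) [nat_lit 9681, nat_lit 3849, nat_lit 4821, nat_lit 5469, nat_lit 5253, nat_lit 5289, nat_lit 5325, nat_lit 5313, nat_lit 5305] (nat_lit 1) [] false,
   Spec.mk (nat_lit 5311) (nat_lit 0) [nat_lit 9685, nat_lit 3853, nat_lit 4825, nat_lit 5473, nat_lit 5257, nat_lit 5329, nat_lit 5305, nat_lit 5313, nat_lit 24993] (nat_lit 2) [] false,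
   Spec.mk (nat_lit 5313) (nat_lit 0) [nat_lit 9687, nat_lit 3855, nat_lit 4827, nat_lit 5475, nat_lit 5259, nat_lit 5331, nat_lit 5307, nat_lit 5311] (nat_lit 0) [] false,
   Spec.mk (nat_lit 5321) (nat_lit 0) [nat_lit 9695, nat_lit 3863, nat_lit 4835, nat_lit 5483, nat_lit 5303, nat_lit 5323, nat_lit 25003] (nat_lit 2) [] false,
   Spec.mk (nat_lit 5323) (nat_lit 0) [nat_lit 9697, nat_lit 3865, nat_lit 4837, nat_lit 5485, nat_lit 5305, nat_lit 5329, nat_lit 5321, nat_lit 5325, nat_lit 25005] (nat_lit 1) [] false,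
   Spec.mk (nat_lit 5325) (nat_lit 0) [nat_lit 9699, nat_lit 3867, nat_lit 4839, nat_lit 5487, nat_lit 5307, nat_lit 5331, nat_lit 5323] (nat_lit 2) [] false,
   Spec.mk (nat_lit 5329) (nat_lit 0) [nat_lit 9703, nat_lit 3871, nat_lit 4843, nat_lit 5491, nat_lit 5311, nat_lit 5323, nat_lit 5331, nat_lit 25011] (nat_lit 0) [] false,
   Spec.mk (nat_lit 5331) (nat_lit 1) [nat_lit 9705, nat_lit 3873, nat_lit 4845, nat_lit 5493, nat_lit 5313, nat_lit 5325, nat_lit 5337, nat_lit 5329] (nat_lit 0) [] false,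
   Spec.mk (nat_lit 5337) (nat_lit 2) [nat_lit 9711, nat_lit 3879, nat_lit 4851, nat_lit 5499, nat_lit 5331] (nat_lit 0) [] false,
   Spec.mk (nat_lit 5363) (nat_lit 1) [nat_lit 9737, nat_lit 3905, nat_lit 4877, nat_lit 5849, nat_lit 5201, nat_lit 5381, nat_lit 5369, nat_lit 25045] (nat_lit 0) [] false,
   Spec.mk (nat_lit 5369) (nat_lit 0) [nat_lit 9743, nat_lit 3911, nat_lit 4883, nat_lit 5855, nat_lit 5207, nat_lit 5387, nat_lit 5363, nat_lit 5371, nat_lit 25051] (nat_lit 1) [] false,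
   Spec.mk (nat_lit 5371) (nat_lit 1) [nat_lit 9745, nat_lit 3913, nat_lit 4885, nat_lit 5857, nat_lit 5209, nat_lit 5389, nat_lit 5369, nat_lit 25053] (nat_lit 0) [] false,
   Spec.mk (nat_lit 5381) (nat_lit 0) [nat_lit 9755, nat_lit 3923, nat_lit 4895, nat_lit 5867, nat_lit 5219, nat_lit 5435, nat_lit 5363, nat_lit 5387, nat_lit 25063] (nat_lit 1) [] true,
   Spec.mk (nat_lit 5387) (nat_lit 0) [nat_lit 9761, nat_lit 3929, nat_lit 4901, nat_lit 5873, nat_lit 5225, nat_lit 5441, nat_lit 5369, nat_lit 5405, nat_lit 5381, nat_lit 5393, nat_lit 5389, nat_lit 25069] (nat_lit 1) [] true,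
   Spec.mk (nat_lit 5389) (nat_lit 0) [nat_lit 9763, nat_lit 3931, nat_lit 4903, nat_lit 5875, nat_lit 5227, nat_lit 5443, nat_lit 5371, nat_lit 5407, nat_lit 5395, nat_lit 5387, nat_lit 25071] (nat_lit 0) [] false,
   Spec.mk (nat_lit 5393) (nat_lit 0) [nat_lit 9767, nat_lit 3935, nat_lit 4907, nat_lit 5879, nat_lit 5231, nat_lit 5447, nat_lit 5411, nat_lit 5387, nat_lit 5395, nat_lit 25075] (nat_lit 3) [] false,
   Spec.mk (nat_lit 5395) (nat_lit 0) [nat_lit 9769, nat_lit 3937, nat_lit 4909, nat_lit 5881, nat_lit 5233, nat_lit 5449, nat_lit 5413, nat_lit 5389, nat_lit 5393, nat_lit 5397, nat_lit 25077] (nat_lit 0) [] false,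
   Spec.mk (nat_lit 5397) (nat_lit 1) [nat_lit 9771, nat_lit 3939, nat_lit 4911, nat_lit 5883, nat_lit 5235, nat_lit 5451, nat_lit 5415, nat_lit 5395] (nat_lit 0) [] false,
   Spec.mk (nat_lit 5405) (nat_lit 0) [nat_lit 9779, nat_lit 3947, nat_lit 4919, nat_lit 5891, nat_lit 5243, nat_lit 5459, nat_lit 5387, nat_lit 5411, nat_lit 5407, nat_lit 25087] (nat_lit 3) [] false,
   Spec.mk (nat_lit 5407) (nat_lit 0) [nat_lit 9781, nat_lit 3949, nat_lit 4921, nat_lit 5893, nat_lit 5245, nat_lit 5461, nat_lit 5389, nat_lit 5413, nat_lit 5405, nat_lit 25089] (nat_lit 3) [] false,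
   Spec.mk (nat_lit 5411) (nat_lit 0) [nat_lit 9785, nat_lit 3953, nat_lit 4925, nat_lit 5897, nat_lit 5249, nat_lit 5465, nat_lit 5393, nat_lit 5405, nat_lit 5413, nat_lit 25093] (nat_lit 3) [] false,
   Spec.mk (nat_lit 5413) (nat_lit 0) [nat_lit 9787, nat_lit 3955, nat_lit 4927, nat_lit 5899, nat_lit 5251, nat_lit 5467, nat_lit 5395, nat_lit 5407, nat_lit 5419, nat_lit 5411, nat_lit 5415, nat_lit 25095] (nat_lit 1) [] false,
   Spec.mk (nat_lit 5415) (nat_lit 0) [nat_lit 9789, nat_lit 3957, nat_lit 4929, nat_lit 5901, nat_lit 5253, nat_lit 5469, nat_lit 5397, nat_lit 5421, nat_lit 5413] (nat_lit 1) [] false,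
   Spec.mk (nat_lit 5419) (nat_lit 0) [nat_lit 9793, nat_lit 3961, nat_lit 4933, nat_lit 5905, nat_lit 5257, nat_lit 5473, nat_lit 5413, nat_lit 5421, nat_lit 25101] (nat_lit 1) [] false,
   Spec.mk (nat_lit 5421) (nat_lit 1) [nat_lit 9795, nat_lit 3963, nat_lit 4935, nat_lit 5907, nat_lit 5259, nat_lit 5475, nat_lit 5415, nat_lit 5419] (nat_lit 0) [] false,
   Spec.mk (nat_lit 5435) (nat_lit 0) [nat_lit 9809, nat_lit 3977, nat_lit 4949, nat_lit 5921, nat_lit 5273, nat_lit 5597, nat_lit 5381, nat_lit 5441, nat_lit 25117] (nat_lit 0) [] false,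
   Spec.mk (nat_lit 5441) (nat_lit 0) [nat_lit 9815, nat_lit 3983, nat_lit 4955, nat_lit 5927, nat_lit 5279, nat_lit 5603, nat_lit 5387, nat_lit 5459, nat_lit 5435, nat_lit 5447, nat_lit 5443, nat_lit 25123] (nat_lit 1) [] false,
   Spec.mk (nat_lit 5443) (nat_lit 0) [nat_lit 9817, nat_lit 3985, nat_lit 4957, nat_lit 5929, nat_lit 5281, nat_lit 5605, nat_lit 5389, nat_lit 5461, nat_lit 5449, nat_lit 5441, nat_lit 25125] (nat_lit 0) [] false,
   Spec.mk (nat_lit 5447) (nat_lit 0) [nat_lit 9821, nat_lit 3989, nat_lit 4961, nat_lit 5933, nat_lit 5285, nat_lit 5609, nat_lit 5393, nat_lit 5465, nat_lit 5441, nat_lit 5449, nat_lit 25129] (nat_lit 4) [] false,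
   Spec.mk (nat_lit 5449) (nat_lit 0) [nat_lit 9823, nat_lit 3991, nat_lit 4963, nat_lit 5935, nat_lit 5287, nat_lit 5611, nat_lit 5395, nat_lit 5467, nat_lit 5443, nat_lit 5447, nat_lit 5451, nat_lit 25131] (nat_lit 1) [] false,
   Spec.mk (nat_lit 5451) (nat_lit 0) [nat_lit 9825, nat_lit 3993, nat_lit 4965, nat_lit 5937, nat_lit 5289, nat_lit 5613, nat_lit 5397, nat_lit 5469, nat_lit 5449] (nat_lit 0) [] false,
   Spec.mk (nat_lit 5459) (nat_lit 0) [nat_lit 9833, nat_lit 4001, nat_lit 4973, nat_lit 5945, nat_lit 5297, nat_lit 5621, nat_lit 5405, nat_lit 5513, nat_lit 5441, nat_lit 5465, nat_lit 5461, nat_lit 25141] (nat_lit 1) [] false,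
   Spec.mk (nat_lit 5461) (nat_lit 0) [nat_lit 9835, nat_lit 4003, nat_lit 4975, nat_lit 5947, nat_lit 5299, nat_lit 5623, nat_lit 5407, nat_lit 5515, nat_lit 5443, nat_lit 5467, nat_lit 5459, nat_lit 25143] (nat_lit 1) [] false,
   Spec.mk (nat_lit 5465) (nat_lit 0) [nat_lit 9839, nat_lit 4007, nat_lit 4979, nat_lit 5951, nat_lit 5303, nat_lit 5627, nat_lit 5411, nat_lit 5519, nat_lit 5447, nat_lit 5483, nat_lit 5459, nat_lit 5467, nat_lit 25147] (nat_lit 2) [] false,
   Spec.mk (nat_lit 5467) (nat_lit 0) [nat_lit 9841, nat_lit 4009, nat_lit 4981, nat_lit 5953, nat_lit 5305, nat_lit 5629, nat_lit 5413, nat_lit 5521, nat_lit 5449, nat_lit 5485, nat_lit 5461, nat_lit 5473, nat_lit 5465, nat_lit 5469, nat_lit 25149] (nat_lit 0) [] false,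
   Spec.mk (nat_lit 5469) (nat_lit 0) [nat_lit 9843, nat_lit 4011, nat_lit 4983, nat_lit 5955, nat_lit 5307, nat_lit 5631, nat_lit 5415, nat_lit 5523, nat_lit 5451, nat_lit 5487, nat_lit 5475, nat_lit 5467] (nat_lit 0) [] false,
   Spec.mk (nat_lit 5473) (nat_lit 0) [nat_lit 9847, nat_lit 4015, nat_lit 4987, nat_lit 5959, nat_lit 5311, nat_lit 5635, nat_lit 5419, nat_lit 5527, nat_lit 5491, nat_lit 5467, nat_lit 5475, nat_lit 25155] (nat_lit 1) [] false,
   Spec.mk (nat_lit 5475) (nat_lit 1) [nat_lit 9849, nat_lit 4017, nat_lit 4989, nat_lit 5961, nat_lit 5313, nat_lit 5637, nat_lit 5421, nat_lit 5529, nat_lit 5493, nat_lit 5469, nat_lit 5473] (nat_lit 0) [] false,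
   Spec.mk (nat_lit 5483) (nat_lit 0) [nat_lit 9857, nat_lit 4025, nat_lit 4997, nat_lit 5969, nat_lit 5321, nat_lit 5645, nat_lit 5537, nat_lit 5465, nat_lit 5485, nat_lit 25165] (nat_lit 2) [] false,
   Spec.mk (nat_lit 5485) (nat_lit 0) [nat_lit 9859, nat_lit 4027, nat_lit 4999, nat_lit 5971, nat_lit 5323, nat_lit 5647, nat_lit 5539, nat_lit 5467, nat_lit 5491, nat_lit 5483, nat_lit 5487, nat_lit 25167] (nat_lit 1) [] false,
   Spec.mk (nat_lit 5487) (nat_lit 0) [nat_lit 9861, nat_lit 4029, nat_lit 5001, nat_lit 5973, nat_lit 5325, nat_lit 5649, nat_lit 5541, nat_lit 5469, nat_lit 5493, nat_lit 5485] (nat_lit 2) [] false,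
   Spec.mk (nat_lit 5491) (nat_lit 0) [nat_lit 9865, nat_lit 4033, nat_lit 5005, nat_lit 5977, nat_lit 5329, nat_lit 5653, nat_lit 5545, nat_lit 5473, nat_lit 5485, nat_lit 5493, nat_lit 25173] (nat_lit 0) [] false,
   Spec.mk (nat_lit 5493) (nat_lit 1) [nat_lit 9867, nat_lit 4035, nat_lit 5007, nat_lit 5979, nat_lit 5331, nat_lit 5655, nat_lit 5547, nat_lit 5475, nat_lit 5487, nat_lit 5499, nat_lit 5491] (nat_lit 0) [] false,
   Spec.mk (nat_lit 5499) (nat_lit 2) [nat_lit 9873, nat_lit 4041, nat_lit 5013, nat_lit 5985, nat_lit 5337, nat_lit 5661, nat_lit 5553, nat_lit 5493] (nat_lit 0) [] false,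
   Spec.mk (nat_lit 5513) (nat_lit 0) [nat_lit 9887, nat_lit 4055, nat_lit 5027, nat_lit 5999, nat_lit 5675, nat_lit 5459, nat_lit 5519, nat_lit 5515, nat_lit 25195] (nat_lit 1) [] false,
   Spec.mk (nat_lit 5515) (nat_lit 0) [nat_lit 9889, nat_lit 4057, nat_lit 5029, nat_lit 6001, nat_lit 5677, nat_lit 5461, nat_lit 5521, nat_lit 5513, nat_lit 25197] (nat_lit 1) [] false,
   Spec.mk (nat_lit 5519) (nat_lit 0) [nat_lit 9893, nat_lit 4061, nat_lit 5033, nat_lit 6005, nat_lit 5681, nat_lit 5465, nat_lit 5537, nat_lit 5513, nat_lit 5521, nat_lit 25201] (nat_lit 3) [] false,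
   Spec.mk (nat_lit 5521) (nat_lit 0) [nat_lit 9895, nat_lit 4063, nat_lit 5035, nat_lit 6007, nat_lit 5683, nat_lit 5467, nat_lit 5539, nat_lit 5515, nat_lit 5527, nat_lit 5519, nat_lit 5523, nat_lit 25203] (nat_lit 1) [] false,
   Spec.mk (nat_lit 5523) (nat_lit 0) [nat_lit 9897, nat_lit 4065, nat_lit 5037, nat_lit 6009, nat_lit 5685, nat_lit 5469, nat_lit 5541, nat_lit 5529, nat_lit 5521] (nat_lit 1) [] false,
   Spec.mk (nat_lit 5527) (nat_lit 0) [nat_lit 9901, nat_lit 4069, nat_lit 5041, nat_lit 6013, nat_lit 5689, nat_lit 5473, nat_lit 5545, nat_lit 5521, nat_lit 5529, nat_lit 25209] (nat_lit 3) [] false,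
   Spec.mk (nat_lit 5529) (nat_lit 0) [nat_lit 9903, nat_lit 4071, nat_lit 5043, nat_lit 6015, nat_lit 5691, nat_lit 5475, nat_lit 5547, nat_lit 5523, nat_lit 5527] (nat_lit 1) [] false,
   Spec.mk (nat_lit 5537) (nat_lit 0) [nat_lit 9911, nat_lit 4079, nat_lit 5051, nat_lit 6023, nat_lit 5699, nat_lit 5483, nat_lit 5519, nat_lit 5539, nat_lit 25219] (nat_lit 1) [] false,
   Spec.mk (nat_lit 5539) (nat_lit 0) [nat_lit 9913, nat_lit 4081, nat_lit 5053, nat_lit 6025, nat_lit 5701, nat_lit 5485, nat_lit 5521, nat_lit 5545, nat_lit 5537, nat_lit 5541, nat_lit 25221] (nat_lit 0) [] false,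
   Spec.mk (nat_lit 5541) (nat_lit 0) [nat_lit 9915, nat_lit 4083, nat_lit 5055, nat_lit 6027, nat_lit 5703, nat_lit 5487, nat_lit 5523, nat_lit 5547, nat_lit 5539] (nat_lit 1) [] false,
   Spec.mk (nat_lit 5545) (nat_lit 0) [nat_lit 9919, nat_lit 4087, nat_lit 5059, nat_lit 6031, nat_lit 5707, nat_lit 5491, nat_lit 5527, nat_lit 5563, nat_lit 5539, nat_lit 5547, nat_lit 25227] (nat_lit 0) [] false]

noncomputable def sp14 : List Spec :=
  [Spec.mk (nat_lit 5547) (nat_lit 1) [nat_lit 9921, nat_lit 4089, nat_lit 5061, nat_lit 6033, nat_lit 5709, nat_lit 5493, nat_lit 5529, nat_lit 5565, nat_lit 5541, nat_lit 5553, nat_lit 5545] (nat_lit 0) [] false,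
   Spec.mk (nat_lit 5553) (nat_lit 1) [nat_lit 9927, nat_lit 4095, nat_lit 5067, nat_lit 6039, nat_lit 5715, nat_lit 5499, nat_lit 5571, nat_lit 5547] (nat_lit 0) [] false,
   Spec.mk (nat_lit 5563) (nat_lit 1) [nat_lit 9937, nat_lit 4105, nat_lit 5077, nat_lit 6049, nat_lit 5725, nat_lit 5545, nat_lit 5565, nat_lit 25245] (nat_lit 0) [] false,
   Spec.mk (nat_lit 5565) (nat_lit 1) [nat_lit 9939, nat_lit 4107, nat_lit 5079, nat_lit 6051, nat_lit 5727, nat_lit 5547, nat_lit 5571, nat_lit 5563] (nat_lit 0) [] false,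
   Spec.mk (nat_lit 5571) (nat_lit 3) [nat_lit 9945, nat_lit 4113, nat_lit 5085, nat_lit 6057, nat_lit 5733, nat_lit 5553, nat_lit 5565] (nat_lit 0) [] false,
   Spec.mk (nat_lit 5597) (nat_lit 0) [nat_lit 9971, nat_lit 4139, nat_lit 6083, nat_lit 5435, nat_lit 5603, nat_lit 25279] (nat_lit 0) [] false,
   Spec.mk (nat_lit 5603) (nat_lit 0) [nat_lit 9977, nat_lit 4145, nat_lit 6089, nat_lit 5441, nat_lit 5621, nat_lit 5597, nat_lit 5609, nat_lit 5605, nat_lit 25285] (nat_lit 1) [] false,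
   Spec.mk (nat_lit 5605) (nat_lit 0) [nat_lit 9979, nat_lit 4147, nat_lit 6091, nat_lit 5443, nat_lit 5623, nat_lit 5611, nat_lit 5603, nat_lit 25287] (nat_lit 0) [] false,
   Spec.mk (nat_lit 5609) (nat_lit 0) [nat_lit 9983, nat_lit 4151, nat_lit 6095, nat_lit 5447, nat_lit 5627, nat_lit 5603, nat_lit 5611, nat_lit 25291] (nat_lit 4) [] false,
   Spec.mk (nat_lit 5611) (nat_lit 0) [nat_lit 9985, nat_lit 4153, nat_lit 6097, nat_lit 5449, nat_lit 5629, nat_lit 5605, nat_lit 5609, nat_lit 5613, nat_lit 25293] (nat_lit 1) [] false,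
   Spec.mk (nat_lit 5613) (nat_lit 0) [nat_lit 9987, nat_lit 4155, nat_lit 6099, nat_lit 5451, nat_lit 5631, nat_lit 5611] (nat_lit 0) [] false,
   Spec.mk (nat_lit 5621) (nat_lit 0) [nat_lit 9995, nat_lit 4163, nat_lit 6107, nat_lit 5459, nat_lit 5675, nat_lit 5603, nat_lit 5627, nat_lit 5623, nat_lit 25303] (nat_lit 2) [] false,
   Spec.mk (nat_lit 5623) (nat_lit 0) [nat_lit 9997, nat_lit 4165, nat_lit 6109, nat_lit 5461, nat_lit 5677, nat_lit 5605, nat_lit 5629, nat_lit 5621, nat_lit 25305] (nat_lit 2) [] false,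
   Spec.mk (nat_lit 5627) (nat_lit 0) [nat_lit 10001, nat_lit 4169, nat_lit 6113, nat_lit 5465, nat_lit 5681, nat_lit 5609, nat_lit 5645, nat_lit 5621, nat_lit 5629, nat_lit 25309] (nat_lit 3) [] false,
   Spec.mk (nat_lit 5629) (nat_lit 0) [nat_lit 10003, nat_lit 4171, nat_lit 6115, nat_lit 5467, nat_lit 5683, nat_lit 5611, nat_lit 5647, nat_lit 5623, nat_lit 5635, nat_lit 5627, nat_lit 5631, nat_lit 25311] (nat_lit 1) [] false,
   Spec.mk (nat_lit 5631) (nat_lit 0) [nat_lit 10005, nat_lit 4173, nat_lit 6117, nat_lit 5469, nat_lit 5685, nat_lit 5613, nat_lit 5649, nat_lit 5637, nat_lit 5629] (nat_lit 1) [] false,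
   Spec.mk (nat_lit 5635) (nat_lit 0) [nat_lit 10009, nat_lit 4177, nat_lit 6121, nat_lit 5473, nat_lit 5689, nat_lit 5653, nat_lit 5629, nat_lit 5637, nat_lit 25317] (nat_lit 2) [] false,
   Spec.mk (nat_lit 5637) (nat_lit 0) [nat_lit 10011, nat_lit 4179, nat_lit 6123, nat_lit 5475, nat_lit 5691, nat_lit 5655, nat_lit 5631, nat_lit 5635] (nat_lit 0) [] false,
   Spec.mk (nat_lit 5645) (nat_lit 0) [nat_lit 10019, nat_lit 4187, nat_lit 6131, nat_lit 5483, nat_lit 5699, nat_lit 5627, nat_lit 5647, nat_lit 25327] (nat_lit 4) [] false,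
   Spec.mk (nat_lit 5647) (nat_lit 0) [nat_lit 10021, nat_lit 4189, nat_lit 6133, nat_lit 5485, nat_lit 5701, nat_lit 5629, nat_lit 5653, nat_lit 5645, nat_lit 5649, nat_lit 25329] (nat_lit 3) [] false,
   Spec.mk (nat_lit 5649) (nat_lit 0) [nat_lit 10023, nat_lit 4191, nat_lit 6135, nat_lit 5487, nat_lit 5703, nat_lit 5631, nat_lit 5655, nat_lit 5647] (nat_lit 4) [] false,
   Spec.mk (nat_lit 5653) (nat_lit 0) [nat_lit 10027, nat_lit 4195, nat_lit 6139, nat_lit 5491, nat_lit 5707, nat_lit 5635, nat_lit 5647, nat_lit 5655, nat_lit 25335] (nat_lit 2) [] false,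
   Spec.mk (nat_lit 5655) (nat_lit 0) [nat_lit 10029, nat_lit 4197, nat_lit 6141, nat_lit 5493, nat_lit 5709, nat_lit 5637, nat_lit 5649, nat_lit 5661, nat_lit 5653] (nat_lit 1) [] false,
   Spec.mk (nat_lit 5661) (nat_lit 0) [nat_lit 10035, nat_lit 4203, nat_lit 6147, nat_lit 5499, nat_lit 5715, nat_lit 5655] (nat_lit 0) [] false,
   Spec.mk (nat_lit 5675) (nat_lit 0) [nat_lit 10049, nat_lit 4217, nat_lit 6161, nat_lit 5513, nat_lit 5621, nat_lit 5681, nat_lit 5677, nat_lit 25357] (nat_lit 0) [] false,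
   Spec.mk (nat_lit 5677) (nat_lit 0) [nat_lit 10051, nat_lit 4219, nat_lit 6163, nat_lit 5515, nat_lit 5623, nat_lit 5683, nat_lit 5675, nat_lit 25359] (nat_lit 0) [] false,
   Spec.mk (nat_lit 5681) (nat_lit 0) [nat_lit 10055, nat_lit 4223, nat_lit 6167, nat_lit 5519, nat_lit 5627, nat_lit 5699, nat_lit 5675, nat_lit 5683, nat_lit 25363] (nat_lit 2) [] false,
   Spec.mk (nat_lit 5683) (nat_lit 0) [nat_lit 10057, nat_lit 4225, nat_lit 6169, nat_lit 5521, nat_lit 5629, nat_lit 5701, nat_lit 5677, nat_lit 5689, nat_lit 5681, nat_lit 5685, nat_lit 25365] (nat_lit 0) [] false,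
   Spec.mk (nat_lit 5685) (nat_lit 0) [nat_lit 10059, nat_lit 4227, nat_lit 6171, nat_lit 5523, nat_lit 5631, nat_lit 5703, nat_lit 5691, nat_lit 5683] (nat_lit 0) [] false,
   Spec.mk (nat_lit 5689) (nat_lit 0) [nat_lit 10063, nat_lit 4231, nat_lit 6175, nat_lit 5527, nat_lit 5635, nat_lit 5707, nat_lit 5683, nat_lit 5691, nat_lit 25371] (nat_lit 2) [] false,
   Spec.mk (nat_lit 5691) (nat_lit 0) [nat_lit 10065, nat_lit 4233, nat_lit 6177, nat_lit 5529, nat_lit 5637, nat_lit 5709, nat_lit 5685, nat_lit 5689] (nat_lit 0) [] false,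
   Spec.mk (nat_lit 5699) (nat_lit 0) [nat_lit 10073, nat_lit 4241, nat_lit 6185, nat_lit 5537, nat_lit 5645, nat_lit 5753, nat_lit 5681, nat_lit 5701, nat_lit 25381] (nat_lit 1) [] false,
   Spec.mk (nat_lit 5701) (nat_lit 0) [nat_lit 10075, nat_lit 4243, nat_lit 6187, nat_lit 5539, nat_lit 5647, nat_lit 5755, nat_lit 5683, nat_lit 5707, nat_lit 5699, nat_lit 5703, nat_lit 25383] (nat_lit 0) [] false,
   Spec.mk (nat_lit 5703) (nat_lit 0) [nat_lit 10077, nat_lit 4245, nat_lit 6189, nat_lit 5541, nat_lit 5649, nat_lit 5757, nat_lit 5685, nat_lit 5709, nat_lit 5701] (nat_lit 1) [] false,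
   Spec.mk (nat_lit 5707) (nat_lit 0) [nat_lit 10081, nat_lit 4249, nat_lit 6193, nat_lit 5545, nat_lit 5653, nat_lit 5761, nat_lit 5689, nat_lit 5725, nat_lit 5701, nat_lit 5709, nat_lit 25389] (nat_lit 0) [] false,
   Spec.mk (nat_lit 5709) (nat_lit 1) [nat_lit 10083, nat_lit 4251, nat_lit 6195, nat_lit 5547, nat_lit 5655, nat_lit 5763, nat_lit 5691, nat_lit 5727, nat_lit 5703, nat_lit 5715, nat_lit 5707] (nat_lit 0) [] false,
   Spec.mk (nat_lit 5715) (nat_lit 1) [nat_lit 10089, nat_lit 4257, nat_lit 6201, nat_lit 5553, nat_lit 5661, nat_lit 5769, nat_lit 5733, nat_lit 5709] (nat_lit 0) [] false,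
   Spec.mk (nat_lit 5725) (nat_lit 0) [nat_lit 10099, nat_lit 4267, nat_lit 6211, nat_lit 5563, nat_lit 5779, nat_lit 5707, nat_lit 5727, nat_lit 25407] (nat_lit 0) [] false,
   Spec.mk (nat_lit 5727) (nat_lit 0) [nat_lit 10101, nat_lit 4269, nat_lit 6213, nat_lit 5565, nat_lit 5781, nat_lit 5709, nat_lit 5733, nat_lit 5725] (nat_lit 0) [] false,
   Spec.mk (nat_lit 5733) (nat_lit 2) [nat_lit 10107, nat_lit 4275, nat_lit 6219, nat_lit 5571, nat_lit 5787, nat_lit 5715, nat_lit 5727] (nat_lit 0) [] false,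
   Spec.mk (nat_lit 5753) (nat_lit 0) [nat_lit 10127, nat_lit 4295, nat_lit 6239, nat_lit 5699, nat_lit 5755, nat_lit 25435] (nat_lit 0) [] false,
   Spec.mk (nat_lit 5755) (nat_lit 1) [nat_lit 10129, nat_lit 4297, nat_lit 6241, nat_lit 5701, nat_lit 5761, nat_lit 5753, nat_lit 5757, nat_lit 25437] (nat_lit 0) [] false,
   Spec.mk (nat_lit 5757) (nat_lit 0) [nat_lit 10131, nat_lit 4299, nat_lit 6243, nat_lit 5703, nat_lit 5763, nat_lit 5755] (nat_lit 0) [] false,
   Spec.mk (nat_lit 5761) (nat_lit 0) [nat_lit 10135, nat_lit 4303, nat_lit 6247, nat_lit 5707, nat_lit 5779, nat_lit 5755, nat_lit 5763, nat_lit 25443] (nat_lit 0) [] false,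
   Spec.mk (nat_lit 5763) (nat_lit 1) [nat_lit 10137, nat_lit 4305, nat_lit 6249, nat_lit 5709, nat_lit 5781, nat_lit 5757, nat_lit 5769, nat_lit 5761] (nat_lit 0) [] false,
   Spec.mk (nat_lit 5769) (nat_lit 0) [nat_lit 10143, nat_lit 4311, nat_lit 6255, nat_lit 5715, nat_lit 5787, nat_lit 5763] (nat_lit 0) [] false,
   Spec.mk (nat_lit 5779) (nat_lit 2) [nat_lit 10153, nat_lit 4321, nat_lit 6265, nat_lit 5725, nat_lit 5761, nat_lit 5781, nat_lit 25461] (nat_lit 0) [] false,
   Spec.mk (nat_lit 5781) (nat_lit 2) [nat_lit 10155, nat_lit 4323, nat_lit 6267, nat_lit 5727, nat_lit 5763, nat_lit 5787, nat_lit 5779] (nat_lit 0) [] false,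
   Spec.mk (nat_lit 5787) (nat_lit 3) [nat_lit 10161, nat_lit 4329, nat_lit 6273, nat_lit 5733, nat_lit 5769, nat_lit 5805, nat_lit 5781] (nat_lit 0) [] false,
   Spec.mk (nat_lit 5805) (nat_lit 4) [nat_lit 10179, nat_lit 4347, nat_lit 6291, nat_lit 5787] (nat_lit 0) [] false,
   Spec.mk (nat_lit 5849) (nat_lit 2) [nat_lit 10223, nat_lit 5363, nat_lit 5867, nat_lit 5855, nat_lit 25531] (nat_lit 0) [] false,
   Spec.mk (nat_lit 5855) (nat_lit 0) [nat_lit 10229, nat_lit 5369, nat_lit 5873, nat_lit 5849, nat_lit 5857, nat_lit 25537] (nat_lit 0) [] false,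
   Spec.mk (nat_lit 5857) (nat_lit 2) [nat_lit 10231, nat_lit 5371, nat_lit 5875, nat_lit 5855, nat_lit 25539] (nat_lit 0) [] false,
   Spec.mk (nat_lit 5867) (nat_lit 0) [nat_lit 10241, nat_lit 5381, nat_lit 5921, nat_lit 5849, nat_lit 5873, nat_lit 25549] (nat_lit 0) [] false,
   Spec.mk (nat_lit 5873) (nat_lit 0) [nat_lit 10247, nat_lit 5387, nat_lit 5927, nat_lit 5855, nat_lit 5891, nat_lit 5867, nat_lit 5879, nat_lit 5875, nat_lit 25555] (nat_lit 0) [] false,
   Spec.mk (nat_lit 5875) (nat_lit 1) [nat_lit 10249, nat_lit 5389, nat_lit 5929, nat_lit 5857, nat_lit 5893, nat_lit 5881, nat_lit 5873, nat_lit 25557] (nat_lit 0) [] false,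
   Spec.mk (nat_lit 5879) (nat_lit 0) [nat_lit 10253, nat_lit 5393, nat_lit 5933, nat_lit 5897, nat_lit 5873, nat_lit 5881, nat_lit 25561] (nat_lit 2) [] false,
   Spec.mk (nat_lit 5881) (nat_lit 1) [nat_lit 10255, nat_lit 5395, nat_lit 5935, nat_lit 5899, nat_lit 5875, nat_lit 5879, nat_lit 5883, nat_lit 25563] (nat_lit 0) [] false,
   Spec.mk (nat_lit 5883) (nat_lit 2) [nat_lit 10257, nat_lit 5397, nat_lit 5937, nat_lit 5901, nat_lit 5881] (nat_lit 0) [] false,
   Spec.mk (nat_lit 5891) (nat_lit 0) [nat_lit 10265, nat_lit 5405, nat_lit 5945, nat_lit 5873, nat_lit 5897, nat_lit 5893, nat_lit 25573] (nat_lit 2) [] false]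

noncomputable def sp15 : List Spec :=
  [Spec.mk (nat_lit 5893) (nat_lit 0) [nat_lit 10267, nat_lit 5407, nat_lit 5947, nat_lit 5875, nat_lit 5899, nat_lit 5891, nat_lit 25575] (nat_lit 2) [] false,
   Spec.mk (nat_lit 5897) (nat_lit 0) [nat_lit 10271, nat_lit 5411, nat_lit 5951, nat_lit 5879, nat_lit 5891, nat_lit 5899, nat_lit 25579] (nat_lit 2) [] false,
   Spec.mk (nat_lit 5899) (nat_lit 0) [nat_lit 10273, nat_lit 5413, nat_lit 5953, nat_lit 5881, nat_lit 5893, nat_lit 5905, nat_lit 5897, nat_lit 5901, nat_lit 25581] (nat_lit 0) [] false,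
   Spec.mk (nat_lit 5901) (nat_lit 0) [nat_lit 10275, nat_lit 5415, nat_lit 5955, nat_lit 5883, nat_lit 5907, nat_lit 5899] (nat_lit 0) [] false,
   Spec.mk (nat_lit 5905) (nat_lit 0) [nat_lit 10279, nat_lit 5419, nat_lit 5959, nat_lit 5899, nat_lit 5907, nat_lit 25587] (nat_lit 0) [] false,
   Spec.mk (nat_lit 5907) (nat_lit 2) [nat_lit 10281, nat_lit 5421, nat_lit 5961, nat_lit 5901, nat_lit 5905] (nat_lit 0) [] false,
   Spec.mk (nat_lit 5921) (nat_lit 0) [nat_lit 10295, nat_lit 5435, nat_lit 6083, nat_lit 5867, nat_lit 5927, nat_lit 25603] (nat_lit 0) [] false,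
   Spec.mk (nat_lit 5927) (nat_lit 0) [nat_lit 10301, nat_lit 5441, nat_lit 6089, nat_lit 5873, nat_lit 5945, nat_lit 5921, nat_lit 5933, nat_lit 5929, nat_lit 25609] (nat_lit 1) [] false,
   Spec.mk (nat_lit 5929) (nat_lit 0) [nat_lit 10303, nat_lit 5443, nat_lit 6091, nat_lit 5875, nat_lit 5947, nat_lit 5935, nat_lit 5927, nat_lit 25611] (nat_lit 0) [] false,
   Spec.mk (nat_lit 5933) (nat_lit 0) [nat_lit 10307, nat_lit 5447, nat_lit 6095, nat_lit 5879, nat_lit 5951, nat_lit 5927, nat_lit 5935, nat_lit 25615] (nat_lit 4) [] false,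
   Spec.mk (nat_lit 5935) (nat_lit 0) [nat_lit 10309, nat_lit 5449, nat_lit 6097, nat_lit 5881, nat_lit 5953, nat_lit 5929, nat_lit 5933, nat_lit 5937, nat_lit 25617] (nat_lit 1) [] false,
   Spec.mk (nat_lit 5937) (nat_lit 0) [nat_lit 10311, nat_lit 5451, nat_lit 6099, nat_lit 5883, nat_lit 5955, nat_lit 5935] (nat_lit 0) [] false,
   Spec.mk (nat_lit 5945) (nat_lit 0) [nat_lit 10319, nat_lit 5459, nat_lit 6107, nat_lit 5891, nat_lit 5999, nat_lit 5927, nat_lit 5951, nat_lit 5947, nat_lit 25627] (nat_lit 1) [] false,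
   Spec.mk (nat_lit 5947) (nat_lit 0) [nat_lit 10321, nat_lit 5461, nat_lit 6109, nat_lit 5893, nat_lit 6001, nat_lit 5929, nat_lit 5953, nat_lit 5945, nat_lit 25629] (nat_lit 1) [] false,
   Spec.mk (nat_lit 5951) (nat_lit 0) [nat_lit 10325, nat_lit 5465, nat_lit 6113, nat_lit 5897, nat_lit 6005, nat_lit 5933, nat_lit 5969, nat_lit 5945, nat_lit 5953, nat_lit 25633] (nat_lit 2) [] false,
   Spec.mk (nat_lit 5953) (nat_lit 0) [nat_lit 10327, nat_lit 5467, nat_lit 6115, nat_lit 5899, nat_lit 6007, nat_lit 5935, nat_lit 5971, nat_lit 5947, nat_lit 5959, nat_lit 5951, nat_lit 5955, nat_lit 25635] (nat_lit 0) [] false,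
   Spec.mk (nat_lit 5955) (nat_lit 0) [nat_lit 10329, nat_lit 5469, nat_lit 6117, nat_lit 5901, nat_lit 6009, nat_lit 5937, nat_lit 5973, nat_lit 5961, nat_lit 5953] (nat_lit 0) [] false,
   Spec.mk (nat_lit 5959) (nat_lit 0) [nat_lit 10333, nat_lit 5473, nat_lit 6121, nat_lit 5905, nat_lit 6013, nat_lit 5977, nat_lit 5953, nat_lit 5961, nat_lit 25641] (nat_lit 1) [] false,
   Spec.mk (nat_lit 5961) (nat_lit 1) [nat_lit 10335, nat_lit 5475, nat_lit 6123, nat_lit 5907, nat_lit 6015, nat_lit 5979, nat_lit 5955, nat_lit 5959] (nat_lit 0) [] false,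
   Spec.mk (nat_lit 5969) (nat_lit 0) [nat_lit 10343, nat_lit 5483, nat_lit 6131, nat_lit 6023, nat_lit 5951, nat_lit 5971, nat_lit 25651] (nat_lit 2) [] false,
   Spec.mk (nat_lit 5971) (nat_lit 0) [nat_lit 10345, nat_lit 5485, nat_lit 6133, nat_lit 6025, nat_lit 5953, nat_lit 5977, nat_lit 5969, nat_lit 5973, nat_lit 25653] (nat_lit 1) [] false,
   Spec.mk (nat_lit 5973) (nat_lit 0) [nat_lit 10347, nat_lit 5487, nat_lit 6135, nat_lit 6027, nat_lit 5955, nat_lit 5979, nat_lit 5971] (nat_lit 2) [] false,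
   Spec.mk (nat_lit 5977) (nat_lit 0) [nat_lit 10351, nat_lit 5491, nat_lit 6139, nat_lit 6031, nat_lit 5959, nat_lit 5971, nat_lit 5979, nat_lit 25659] (nat_lit 0) [] false,
   Spec.mk (nat_lit 5979) (nat_lit 1) [nat_lit 10353, nat_lit 5493, nat_lit 6141, nat_lit 6033, nat_lit 5961, nat_lit 5973, nat_lit 5985, nat_lit 5977] (nat_lit 0) [] false,
   Spec.mk (nat_lit 5985) (nat_lit 2) [nat_lit 10359, nat_lit 5499, nat_lit 6147, nat_lit 6039, nat_lit 5979] (nat_lit 0) [] false,
   Spec.mk (nat_lit 5999) (nat_lit 0) [nat_lit 10373, nat_lit 5513, nat_lit 6161, nat_lit 5945, nat_lit 6005, nat_lit 6001, nat_lit 25681] (nat_lit 2) [] false,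
   Spec.mk (nat_lit 6001) (nat_lit 0) [nat_lit 10375, nat_lit 5515, nat_lit 6163, nat_lit 5947, nat_lit 6007, nat_lit 5999, nat_lit 25683] (nat_lit 2) [] false,
   Spec.mk (nat_lit 6005) (nat_lit 0) [nat_lit 10379, nat_lit 5519, nat_lit 6167, nat_lit 5951, nat_lit 6023, nat_lit 5999, nat_lit 6007, nat_lit 25687] (nat_lit 4) [] false,
   Spec.mk (nat_lit 6007) (nat_lit 0) [nat_lit 10381, nat_lit 5521, nat_lit 6169, nat_lit 5953, nat_lit 6025, nat_lit 6001, nat_lit 6013, nat_lit 6005, nat_lit 6009, nat_lit 25689] (nat_lit 2) [] false,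
   Spec.mk (nat_lit 6009) (nat_lit 0) [nat_lit 10383, nat_lit 5523, nat_lit 6171, nat_lit 5955, nat_lit 6027, nat_lit 6015, nat_lit 6007] (nat_lit 2) [] false,
   Spec.mk (nat_lit 6013) (nat_lit 0) [nat_lit 10387, nat_lit 5527, nat_lit 6175, nat_lit 5959, nat_lit 6031, nat_lit 6007, nat_lit 6015, nat_lit 25695] (nat_lit 4) [] false,
   Spec.mk (nat_lit 6015) (nat_lit 0) [nat_lit 10389, nat_lit 5529, nat_lit 6177, nat_lit 5961, nat_lit 6033, nat_lit 6009, nat_lit 6013] (nat_lit 2) [] false,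
   Spec.mk (nat_lit 6023) (nat_lit 0) [nat_lit 10397, nat_lit 5537, nat_lit 6185, nat_lit 5969, nat_lit 6005, nat_lit 6025, nat_lit 25705] (nat_lit 2) [] false,
   Spec.mk (nat_lit 6025) (nat_lit 0) [nat_lit 10399, nat_lit 5539, nat_lit 6187, nat_lit 5971, nat_lit 6007, nat_lit 6031, nat_lit 6023, nat_lit 6027, nat_lit 25707] (nat_lit 1) [] false,
   Spec.mk (nat_lit 6027) (nat_lit 0) [nat_lit 10401, nat_lit 5541, nat_lit 6189, nat_lit 5973, nat_lit 6009, nat_lit 6033, nat_lit 6025] (nat_lit 2) [] false,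
   Spec.mk (nat_lit 6031) (nat_lit 0) [nat_lit 10405, nat_lit 5545, nat_lit 6193, nat_lit 5977, nat_lit 6013, nat_lit 6049, nat_lit 6025, nat_lit 6033, nat_lit 25713] (nat_lit 1) [] false,
   Spec.mk (nat_lit 6033) (nat_lit 0) [nat_lit 10407, nat_lit 5547, nat_lit 6195, nat_lit 5979, nat_lit 6015, nat_lit 6051, nat_lit 6027, nat_lit 6039, nat_lit 6031] (nat_lit 0) [] false,
   Spec.mk (nat_lit 6039) (nat_lit 0) [nat_lit 10413, nat_lit 5553, nat_lit 6201, nat_lit 5985, nat_lit 6057, nat_lit 6033] (nat_lit 0) [] false,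
   Spec.mk (nat_lit 6049) (nat_lit 0) [nat_lit 10423, nat_lit 5563, nat_lit 6211, nat_lit 6031, nat_lit 6051, nat_lit 25731] (nat_lit 0) [] false,
   Spec.mk (nat_lit 6051) (nat_lit 0) [nat_lit 10425, nat_lit 5565, nat_lit 6213, nat_lit 6033, nat_lit 6057, nat_lit 6049] (nat_lit 0) [] false,
   Spec.mk (nat_lit 6057) (nat_lit 2) [nat_lit 10431, nat_lit 5571, nat_lit 6219, nat_lit 6039, nat_lit 6051] (nat_lit 0) [] false,
   Spec.mk (nat_lit 6083) (nat_lit 2) [nat_lit 10457, nat_lit 5597, nat_lit 5921, nat_lit 6089, nat_lit 25765] (nat_lit 0) [] false,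
   Spec.mk (nat_lit 6089) (nat_lit 1) [nat_lit 10463, nat_lit 5603, nat_lit 5927, nat_lit 6107, nat_lit 6083, nat_lit 6095, nat_lit 6091, nat_lit 25771] (nat_lit 0) [] false,
   Spec.mk (nat_lit 6091) (nat_lit 2) [nat_lit 10465, nat_lit 5605, nat_lit 5929, nat_lit 6109, nat_lit 6097, nat_lit 6089, nat_lit 25773] (nat_lit 0) [] false,
   Spec.mk (nat_lit 6095) (nat_lit 0) [nat_lit 10469, nat_lit 5609, nat_lit 5933, nat_lit 6113, nat_lit 6089, nat_lit 6097, nat_lit 25777] (nat_lit 2) [] false,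
   Spec.mk (nat_lit 6097) (nat_lit 1) [nat_lit 10471, nat_lit 5611, nat_lit 5935, nat_lit 6115, nat_lit 6091, nat_lit 6095, nat_lit 6099, nat_lit 25779] (nat_lit 0) [] false,
   Spec.mk (nat_lit 6099) (nat_lit 2) [nat_lit 10473, nat_lit 5613, nat_lit 5937, nat_lit 6117, nat_lit 6097] (nat_lit 0) [] false,
   Spec.mk (nat_lit 6107) (nat_lit 0) [nat_lit 10481, nat_lit 5621, nat_lit 5945, nat_lit 6161, nat_lit 6089, nat_lit 6113, nat_lit 6109, nat_lit 25789] (nat_lit 0) [] false,
   Spec.mk (nat_lit 6109) (nat_lit 0) [nat_lit 10483, nat_lit 5623, nat_lit 5947, nat_lit 6163, nat_lit 6091, nat_lit 6115, nat_lit 6107, nat_lit 25791] (nat_lit 0) [] false,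
   Spec.mk (nat_lit 6113) (nat_lit 0) [nat_lit 10487, nat_lit 5627, nat_lit 5951, nat_lit 6167, nat_lit 6095, nat_lit 6131, nat_lit 6107, nat_lit 6115, nat_lit 25795] (nat_lit 1) [] false,
   Spec.mk (nat_lit 6115) (nat_lit 1) [nat_lit 10489, nat_lit 5629, nat_lit 5953, nat_lit 6169, nat_lit 6097, nat_lit 6133, nat_lit 6109, nat_lit 6121, nat_lit 6113, nat_lit 6117, nat_lit 25797] (nat_lit 0) [] false,
   Spec.mk (nat_lit 6117) (nat_lit 1) [nat_lit 10491, nat_lit 5631, nat_lit 5955, nat_lit 6171, nat_lit 6099, nat_lit 6135, nat_lit 6123, nat_lit 6115] (nat_lit 0) [] false,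
   Spec.mk (nat_lit 6121) (nat_lit 0) [nat_lit 10495, nat_lit 5635, nat_lit 5959, nat_lit 6175, nat_lit 6139, nat_lit 6115, nat_lit 6123, nat_lit 25803] (nat_lit 0) [] false,
   Spec.mk (nat_lit 6123) (nat_lit 2) [nat_lit 10497, nat_lit 5637, nat_lit 5961, nat_lit 6177, nat_lit 6141, nat_lit 6117, nat_lit 6121] (nat_lit 0) [] false,
   Spec.mk (nat_lit 6131) (nat_lit 0) [nat_lit 10505, nat_lit 5645, nat_lit 5969, nat_lit 6185, nat_lit 6113, nat_lit 6133, nat_lit 25813] (nat_lit 2) [] false,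
   Spec.mk (nat_lit 6133) (nat_lit 0) [nat_lit 10507, nat_lit 5647, nat_lit 5971, nat_lit 6187, nat_lit 6115, nat_lit 6139, nat_lit 6131, nat_lit 6135, nat_lit 25815] (nat_lit 1) [] false,
   Spec.mk (nat_lit 6135) (nat_lit 0) [nat_lit 10509, nat_lit 5649, nat_lit 5973, nat_lit 6189, nat_lit 6117, nat_lit 6141, nat_lit 6133] (nat_lit 2) [] false,
   Spec.mk (nat_lit 6139) (nat_lit 0) [nat_lit 10513, nat_lit 5653, nat_lit 5977, nat_lit 6193, nat_lit 6121, nat_lit 6133, nat_lit 6141, nat_lit 25821] (nat_lit 0) [] false,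
   Spec.mk (nat_lit 6141) (nat_lit 1) [nat_lit 10515, nat_lit 5655, nat_lit 5979, nat_lit 6195, nat_lit 6123, nat_lit 6135, nat_lit 6147, nat_lit 6139] (nat_lit 0) [] false,
   Spec.mk (nat_lit 6147) (nat_lit 2) [nat_lit 10521, nat_lit 5661, nat_lit 5985, nat_lit 6201, nat_lit 6141] (nat_lit 0) [] false]

noncomputable def sp16 : List Spec :=
  [Spec.mk (nat_lit 6161) (nat_lit 1) [nat_lit 10535, nat_lit 5675, nat_lit 5999, nat_lit 6323, nat_lit 6107, nat_lit 6167, nat_lit 6163, nat_lit 25843] (nat_lit 0) [] false,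
   Spec.mk (nat_lit 6163) (nat_lit 1) [nat_lit 10537, nat_lit 5677, nat_lit 6001, nat_lit 6325, nat_lit 6109, nat_lit 6169, nat_lit 6161, nat_lit 25845] (nat_lit 0) [] false,
   Spec.mk (nat_lit 6167) (nat_lit 0) [nat_lit 10541, nat_lit 5681, nat_lit 6005, nat_lit 6329, nat_lit 6113, nat_lit 6185, nat_lit 6161, nat_lit 6169, nat_lit 25849] (nat_lit 1) [] false,
   Spec.mk (nat_lit 6169) (nat_lit 1) [nat_lit 10543, nat_lit 5683, nat_lit 6007, nat_lit 6331, nat_lit 6115, nat_lit 6187, nat_lit 6163, nat_lit 6175, nat_lit 6167, nat_lit 6171, nat_lit 25851] (nat_lit 0) [] false,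
   Spec.mk (nat_lit 6171) (nat_lit 1) [nat_lit 10545, nat_lit 5685, nat_lit 6009, nat_lit 6333, nat_lit 6117, nat_lit 6189, nat_lit 6177, nat_lit 6169] (nat_lit 0) [] false,
   Spec.mk (nat_lit 6175) (nat_lit 0) [nat_lit 10549, nat_lit 5689, nat_lit 6013, nat_lit 6337, nat_lit 6121, nat_lit 6193, nat_lit 6169, nat_lit 6177, nat_lit 25857] (nat_lit 1) [] false,
   Spec.mk (nat_lit 6177) (nat_lit 1) [nat_lit 10551, nat_lit 5691, nat_lit 6015, nat_lit 6339, nat_lit 6123, nat_lit 6195, nat_lit 6171, nat_lit 6175] (nat_lit 0) [] false,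
   Spec.mk (nat_lit 6185) (nat_lit 0) [nat_lit 10559, nat_lit 5699, nat_lit 6023, nat_lit 6347, nat_lit 6131, nat_lit 6239, nat_lit 6167, nat_lit 6187, nat_lit 25867] (nat_lit 0) [] false,
   Spec.mk (nat_lit 6187) (nat_lit 1) [nat_lit 10561, nat_lit 5701, nat_lit 6025, nat_lit 6349, nat_lit 6133, nat_lit 6241, nat_lit 6169, nat_lit 6193, nat_lit 6185, nat_lit 6189, nat_lit 25869] (nat_lit 0) [] false,
   Spec.mk (nat_lit 6189) (nat_lit 0) [nat_lit 10563, nat_lit 5703, nat_lit 6027, nat_lit 6351, nat_lit 6135, nat_lit 6243, nat_lit 6171, nat_lit 6195, nat_lit 6187] (nat_lit 0) [] false,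
   Spec.mk (nat_lit 6193) (nat_lit 1) [nat_lit 10567, nat_lit 5707, nat_lit 6031, nat_lit 6355, nat_lit 6139, nat_lit 6247, nat_lit 6175, nat_lit 6211, nat_lit 6187, nat_lit 6195, nat_lit 25875] (nat_lit 0) [] false,
   Spec.mk (nat_lit 6195) (nat_lit 2) [nat_lit 10569, nat_lit 5709, nat_lit 6033, nat_lit 6357, nat_lit 6141, nat_lit 6249, nat_lit 6177, nat_lit 6213, nat_lit 6189, nat_lit 6201, nat_lit 6193] (nat_lit 0) [] false,
   Spec.mk (nat_lit 6201) (nat_lit 2) [nat_lit 10575, nat_lit 5715, nat_lit 6039, nat_lit 6363, nat_lit 6147, nat_lit 6255, nat_lit 6219, nat_lit 6195] (nat_lit 0) [] false,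
   Spec.mk (nat_lit 6211) (nat_lit 1) [nat_lit 10585, nat_lit 5725, nat_lit 6049, nat_lit 6373, nat_lit 6265, nat_lit 6193, nat_lit 6213, nat_lit 25893] (nat_lit 0) [] false,
   Spec.mk (nat_lit 6213) (nat_lit 1) [nat_lit 10587, nat_lit 5727, nat_lit 6051, nat_lit 6375, nat_lit 6267, nat_lit 6195, nat_lit 6219, nat_lit 6211] (nat_lit 0) [] false,
   Spec.mk (nat_lit 6219) (nat_lit 3) [nat_lit 10593, nat_lit 5733, nat_lit 6057, nat_lit 6381, nat_lit 6273, nat_lit 6201, nat_lit 6213] (nat_lit 0) [] false,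
   Spec.mk (nat_lit 6239) (nat_lit 0) [nat_lit 10613, nat_lit 5753, nat_lit 6401, nat_lit 6185, nat_lit 6241, nat_lit 25921] (nat_lit 0) [] false,
   Spec.mk (nat_lit 6241) (nat_lit 1) [nat_lit 10615, nat_lit 5755, nat_lit 6403, nat_lit 6187, nat_lit 6247, nat_lit 6239, nat_lit 6243, nat_lit 25923] (nat_lit 0) [] false,
   Spec.mk (nat_lit 6243) (nat_lit 0) [nat_lit 10617, nat_lit 5757, nat_lit 6405, nat_lit 6189, nat_lit 6249, nat_lit 6241] (nat_lit 0) [] false,
   Spec.mk (nat_lit 6247) (nat_lit 0) [nat_lit 10621, nat_lit 5761, nat_lit 6409, nat_lit 6193, nat_lit 6265, nat_lit 6241, nat_lit 6249, nat_lit 25929] (nat_lit 0) [] false,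
   Spec.mk (nat_lit 6249) (nat_lit 1) [nat_lit 10623, nat_lit 5763, nat_lit 6411, nat_lit 6195, nat_lit 6267, nat_lit 6243, nat_lit 6255, nat_lit 6247] (nat_lit 0) [] false,
   Spec.mk (nat_lit 6255) (nat_lit 0) [nat_lit 10629, nat_lit 5769, nat_lit 6417, nat_lit 6201, nat_lit 6273, nat_lit 6249] (nat_lit 0) [] false,
   Spec.mk (nat_lit 6265) (nat_lit 2) [nat_lit 10639, nat_lit 5779, nat_lit 6427, nat_lit 6211, nat_lit 6247, nat_lit 6267, nat_lit 25947] (nat_lit 0) [] false,
   Spec.mk (nat_lit 6267) (nat_lit 2) [nat_lit 10641, nat_lit 5781, nat_lit 6429, nat_lit 6213, nat_lit 6249, nat_lit 6273, nat_lit 6265] (nat_lit 0) [] false,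
   Spec.mk (nat_lit 6273) (nat_lit 3) [nat_lit 10647, nat_lit 5787, nat_lit 6435, nat_lit 6219, nat_lit 6255, nat_lit 6291, nat_lit 6267] (nat_lit 0) [] false,
   Spec.mk (nat_lit 6291) (nat_lit 4) [nat_lit 10665, nat_lit 5805, nat_lit 6453, nat_lit 6273] (nat_lit 0) [] false,
   Spec.mk (nat_lit 6323) (nat_lit 2) [nat_lit 10697, nat_lit 6161, nat_lit 6329, nat_lit 6325, nat_lit 26005] (nat_lit 0) [] false,
   Spec.mk (nat_lit 6325) (nat_lit 2) [nat_lit 10699, nat_lit 6163, nat_lit 6331, nat_lit 6323, nat_lit 26007] (nat_lit 0) [] false,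
   Spec.mk (nat_lit 6329) (nat_lit 0) [nat_lit 10703, nat_lit 6167, nat_lit 6347, nat_lit 6323, nat_lit 6331, nat_lit 26011] (nat_lit 0) [] false,
   Spec.mk (nat_lit 6331) (nat_lit 2) [nat_lit 10705, nat_lit 6169, nat_lit 6349, nat_lit 6325, nat_lit 6337, nat_lit 6329, nat_lit 6333, nat_lit 26013] (nat_lit 0) [] false,
   Spec.mk (nat_lit 6333) (nat_lit 2) [nat_lit 10707, nat_lit 6171, nat_lit 6351, nat_lit 6339, nat_lit 6331] (nat_lit 0) [] false,
   Spec.mk (nat_lit 6337) (nat_lit 0) [nat_lit 10711, nat_lit 6175, nat_lit 6355, nat_lit 6331, nat_lit 6339, nat_lit 26019] (nat_lit 0) [] false,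
   Spec.mk (nat_lit 6339) (nat_lit 2) [nat_lit 10713, nat_lit 6177, nat_lit 6357, nat_lit 6333, nat_lit 6337] (nat_lit 0) [] false,
   Spec.mk (nat_lit 6347) (nat_lit 0) [nat_lit 10721, nat_lit 6185, nat_lit 6401, nat_lit 6329, nat_lit 6349, nat_lit 26029] (nat_lit 0) [] false,
   Spec.mk (nat_lit 6349) (nat_lit 1) [nat_lit 10723, nat_lit 6187, nat_lit 6403, nat_lit 6331, nat_lit 6355, nat_lit 6347, nat_lit 6351, nat_lit 26031] (nat_lit 0) [] false,
   Spec.mk (nat_lit 6351) (nat_lit 0) [nat_lit 10725, nat_lit 6189, nat_lit 6405, nat_lit 6333, nat_lit 6357, nat_lit 6349] (nat_lit 0) [] false,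
   Spec.mk (nat_lit 6355) (nat_lit 1) [nat_lit 10729, nat_lit 6193, nat_lit 6409, nat_lit 6337, nat_lit 6373, nat_lit 6349, nat_lit 6357, nat_lit 26037] (nat_lit 0) [] false,
   Spec.mk (nat_lit 6357) (nat_lit 2) [nat_lit 10731, nat_lit 6195, nat_lit 6411, nat_lit 6339, nat_lit 6375, nat_lit 6351, nat_lit 6363, nat_lit 6355] (nat_lit 0) [] false,
   Spec.mk (nat_lit 6363) (nat_lit 2) [nat_lit 10737, nat_lit 6201, nat_lit 6417, nat_lit 6381, nat_lit 6357] (nat_lit 0) [] false,
   Spec.mk (nat_lit 6373) (nat_lit 0) [nat_lit 10747, nat_lit 6211, nat_lit 6427, nat_lit 6355, nat_lit 6375, nat_lit 26055] (nat_lit 0) [] false,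
   Spec.mk (nat_lit 6375) (nat_lit 0) [nat_lit 10749, nat_lit 6213, nat_lit 6429, nat_lit 6357, nat_lit 6381, nat_lit 6373] (nat_lit 0) [] false,
   Spec.mk (nat_lit 6381) (nat_lit 2) [nat_lit 10755, nat_lit 6219, nat_lit 6435, nat_lit 6363, nat_lit 6375] (nat_lit 0) [] false,
   Spec.mk (nat_lit 6401) (nat_lit 2) [nat_lit 10775, nat_lit 6239, nat_lit 6347, nat_lit 6403, nat_lit 26083] (nat_lit 0) [] false,
   Spec.mk (nat_lit 6403) (nat_lit 3) [nat_lit 10777, nat_lit 6241, nat_lit 6349, nat_lit 6409, nat_lit 6401, nat_lit 6405, nat_lit 26085] (nat_lit 0) [] false,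
   Spec.mk (nat_lit 6405) (nat_lit 2) [nat_lit 10779, nat_lit 6243, nat_lit 6351, nat_lit 6411, nat_lit 6403] (nat_lit 0) [] false,
   Spec.mk (nat_lit 6409) (nat_lit 2) [nat_lit 10783, nat_lit 6247, nat_lit 6355, nat_lit 6427, nat_lit 6403, nat_lit 6411, nat_lit 26091] (nat_lit 0) [] false,
   Spec.mk (nat_lit 6411) (nat_lit 3) [nat_lit 10785, nat_lit 6249, nat_lit 6357, nat_lit 6429, nat_lit 6405, nat_lit 6417, nat_lit 6409] (nat_lit 0) [] false,
   Spec.mk (nat_lit 6417) (nat_lit 2) [nat_lit 10791, nat_lit 6255, nat_lit 6363, nat_lit 6435, nat_lit 6411] (nat_lit 0) [] false,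
   Spec.mk (nat_lit 6427) (nat_lit 3) [nat_lit 10801, nat_lit 6265, nat_lit 6373, nat_lit 6481, nat_lit 6409, nat_lit 6429, nat_lit 26109] (nat_lit 0) [] false,
   Spec.mk (nat_lit 6429) (nat_lit 3) [nat_lit 10803, nat_lit 6267, nat_lit 6375, nat_lit 6483, nat_lit 6411, nat_lit 6435, nat_lit 6427] (nat_lit 0) [] false,
   Spec.mk (nat_lit 6435) (nat_lit 4) [nat_lit 10809, nat_lit 6273, nat_lit 6381, nat_lit 6489, nat_lit 6417, nat_lit 6453, nat_lit 6429] (nat_lit 0) [] false,
   Spec.mk (nat_lit 6453) (nat_lit 4) [nat_lit 10827, nat_lit 6291, nat_lit 6507, nat_lit 6435] (nat_lit 0) [] false,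
   Spec.mk (nat_lit 6481) (nat_lit 4) [nat_lit 10855, nat_lit 6427, nat_lit 6483, nat_lit 26163] (nat_lit 0) [] false,
   Spec.mk (nat_lit 6483) (nat_lit 4) [nat_lit 10857, nat_lit 6429, nat_lit 6489, nat_lit 6481] (nat_lit 0) [] false,
   Spec.mk (nat_lit 6489) (nat_lit 4) [nat_lit 10863, nat_lit 6435, nat_lit 6507, nat_lit 6483] (nat_lit 0) [] false,
   Spec.mk (nat_lit 6507) (nat_lit 6) [nat_lit 10881, nat_lit 6453, nat_lit 6489] (nat_lit 0) [] false,
   Spec.mk (nat_lit 6641) (nat_lit 4) [nat_lit 19763, nat_lit 2267, nat_lit 6695, nat_lit 26323] (nat_lit 0) [] false,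
   Spec.mk (nat_lit 6695) (nat_lit 3) [nat_lit 19817, nat_lit 2321, nat_lit 6857, nat_lit 6641, nat_lit 6749, nat_lit 6713, nat_lit 26377] (nat_lit 0) [] false,
   Spec.mk (nat_lit 6713) (nat_lit 2) [nat_lit 19835, nat_lit 2339, nat_lit 6875, nat_lit 6767, nat_lit 6695, nat_lit 6719, nat_lit 26395] (nat_lit 0) [] false,
   Spec.mk (nat_lit 6719) (nat_lit 2) [nat_lit 19841, nat_lit 2345, nat_lit 6881, nat_lit 6773, nat_lit 6713, nat_lit 6721, nat_lit 26401] (nat_lit 0) [] false]

noncomputable def sp17 : List Spec :=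
  [Spec.mk (nat_lit 6721) (nat_lit 4) [nat_lit 19843, nat_lit 2347, nat_lit 6883, nat_lit 6775, nat_lit 6719, nat_lit 26403] (nat_lit 0) [] false,
   Spec.mk (nat_lit 6749) (nat_lit 0) [nat_lit 19871, nat_lit 2375, nat_lit 6911, nat_lit 6695, nat_lit 6767, nat_lit 26431] (nat_lit 0) [] false,
   Spec.mk (nat_lit 6767) (nat_lit 1) [nat_lit 19889, nat_lit 2393, nat_lit 6929, nat_lit 6713, nat_lit 6749, nat_lit 6785, nat_lit 6773, nat_lit 26449] (nat_lit 0) [] false,
   Spec.mk (nat_lit 6773) (nat_lit 0) [nat_lit 19895, nat_lit 2399, nat_lit 6935, nat_lit 6719, nat_lit 6791, nat_lit 6767, nat_lit 6775, nat_lit 26455] (nat_lit 0) [] false,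
   Spec.mk (nat_lit 6775) (nat_lit 2) [nat_lit 19897, nat_lit 2401, nat_lit 6937, nat_lit 6721, nat_lit 6793, nat_lit 6773, nat_lit 26457] (nat_lit 0) [] false,
   Spec.mk (nat_lit 6785) (nat_lit 0) [nat_lit 19907, nat_lit 2411, nat_lit 6947, nat_lit 6767, nat_lit 6791, nat_lit 26467] (nat_lit 0) [] false,
   Spec.mk (nat_lit 6791) (nat_lit 1) [nat_lit 19913, nat_lit 2417, nat_lit 6953, nat_lit 6773, nat_lit 6785, nat_lit 6797, nat_lit 6793, nat_lit 26473] (nat_lit 0) [] false,
   Spec.mk (nat_lit 6793) (nat_lit 2) [nat_lit 19915, nat_lit 2419, nat_lit 6955, nat_lit 6775, nat_lit 6799, nat_lit 6791, nat_lit 26475] (nat_lit 0) [] false,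
   Spec.mk (nat_lit 6797) (nat_lit 0) [nat_lit 19919, nat_lit 2423, nat_lit 6959, nat_lit 6791, nat_lit 6799, nat_lit 26479] (nat_lit 0) [] false,
   Spec.mk (nat_lit 6799) (nat_lit 3) [nat_lit 19921, nat_lit 2425, nat_lit 6961, nat_lit 6793, nat_lit 6797, nat_lit 6801, nat_lit 26481] (nat_lit 0) [] false,
   Spec.mk (nat_lit 6801) (nat_lit 4) [nat_lit 19923, nat_lit 2427, nat_lit 6963, nat_lit 6799] (nat_lit 0) [] false,
   Spec.mk (nat_lit 6857) (nat_lit 2) [nat_lit 19979, nat_lit 2483, nat_lit 7343, nat_lit 6695, nat_lit 6911, nat_lit 6875, nat_lit 26539] (nat_lit 0) [] false,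
   Spec.mk (nat_lit 6875) (nat_lit 0) [nat_lit 19997, nat_lit 2501, nat_lit 7361, nat_lit 6713, nat_lit 6929, nat_lit 6857, nat_lit 6881, nat_lit 26557] (nat_lit 0) [] false,
   Spec.mk (nat_lit 6881) (nat_lit 0) [nat_lit 20003, nat_lit 2507, nat_lit 7367, nat_lit 6719, nat_lit 6935, nat_lit 6875, nat_lit 6883, nat_lit 26563] (nat_lit 0) [] false,
   Spec.mk (nat_lit 6883) (nat_lit 2) [nat_lit 20005, nat_lit 2509, nat_lit 7369, nat_lit 6721, nat_lit 6937, nat_lit 6881, nat_lit 26565] (nat_lit 0) [] false,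
   Spec.mk (nat_lit 6911) (nat_lit 1) [nat_lit 20033, nat_lit 2537, nat_lit 7397, nat_lit 6749, nat_lit 7073, nat_lit 6857, nat_lit 6929, nat_lit 26593] (nat_lit 0) [] false,
   Spec.mk (nat_lit 6929) (nat_lit 1) [nat_lit 20051, nat_lit 2555, nat_lit 7415, nat_lit 6767, nat_lit 7091, nat_lit 6875, nat_lit 6983, nat_lit 6911, nat_lit 6947, nat_lit 6935, nat_lit 26611] (nat_lit 0) [] false,
   Spec.mk (nat_lit 6935) (nat_lit 0) [nat_lit 20057, nat_lit 2561, nat_lit 7421, nat_lit 6773, nat_lit 7097, nat_lit 6881, nat_lit 6989, nat_lit 6953, nat_lit 6929, nat_lit 6937, nat_lit 26617] (nat_lit 0) [] false,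
   Spec.mk (nat_lit 6937) (nat_lit 2) [nat_lit 20059, nat_lit 2563, nat_lit 7423, nat_lit 6775, nat_lit 7099, nat_lit 6883, nat_lit 6991, nat_lit 6955, nat_lit 6935, nat_lit 26619] (nat_lit 0) [] false,
   Spec.mk (nat_lit 6947) (nat_lit 0) [nat_lit 20069, nat_lit 2573, nat_lit 7433, nat_lit 6785, nat_lit 7109, nat_lit 7001, nat_lit 6929, nat_lit 6953, nat_lit 26629] (nat_lit 1) [] false,
   Spec.mk (nat_lit 6953) (nat_lit 0) [nat_lit 20075, nat_lit 2579, nat_lit 7439, nat_lit 6791, nat_lit 7115, nat_lit 7007, nat_lit 6935, nat_lit 6947, nat_lit 6959, nat_lit 6955, nat_lit 26635] (nat_lit 0) [] false,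
   Spec.mk (nat_lit 6955) (nat_lit 1) [nat_lit 20077, nat_lit 2581, nat_lit 7441, nat_lit 6793, nat_lit 7117, nat_lit 7009, nat_lit 6937, nat_lit 6961, nat_lit 6953, nat_lit 26637] (nat_lit 0) [] false,
   Spec.mk (nat_lit 6959) (nat_lit 0) [nat_lit 20081, nat_lit 2585, nat_lit 7445, nat_lit 6797, nat_lit 7121, nat_lit 7013, nat_lit 6953, nat_lit 6961, nat_lit 26641] (nat_lit 1) [] false,
   Spec.mk (nat_lit 6961) (nat_lit 2) [nat_lit 20083, nat_lit 2587, nat_lit 7447, nat_lit 6799, nat_lit 7123, nat_lit 7015, nat_lit 6955, nat_lit 6959, nat_lit 6963, nat_lit 26643] (nat_lit 0) [] false,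
   Spec.mk (nat_lit 6963) (nat_lit 3) [nat_lit 20085, nat_lit 2589, nat_lit 7449, nat_lit 6801, nat_lit 7125, nat_lit 7017, nat_lit 6961] (nat_lit 0) [] false,
   Spec.mk (nat_lit 6983) (nat_lit 0) [nat_lit 20105, nat_lit 2609, nat_lit 7469, nat_lit 7145, nat_lit 6929, nat_lit 7001, nat_lit 6989, nat_lit 26665] (nat_lit 0) [] false,
   Spec.mk (nat_lit 6989) (nat_lit 0) [nat_lit 20111, nat_lit 2615, nat_lit 7475, nat_lit 7151, nat_lit 6935, nat_lit 7007, nat_lit 6983, nat_lit 6991, nat_lit 26671] (nat_lit 2) [] false,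
   Spec.mk (nat_lit 6991) (nat_lit 0) [nat_lit 20113, nat_lit 2617, nat_lit 7477, nat_lit 7153, nat_lit 6937, nat_lit 7009, nat_lit 6989, nat_lit 26673] (nat_lit 0) [] false,
   Spec.mk (nat_lit 7001) (nat_lit 0) [nat_lit 20123, nat_lit 2627, nat_lit 7487, nat_lit 7163, nat_lit 6947, nat_lit 6983, nat_lit 7007, nat_lit 26683] (nat_lit 0) [] false,
   Spec.mk (nat_lit 7007) (nat_lit 0) [nat_lit 20129, nat_lit 2633, nat_lit 7493, nat_lit 7169, nat_lit 6953, nat_lit 6989, nat_lit 7025, nat_lit 7001, nat_lit 7013, nat_lit 7009, nat_lit 26689] (nat_lit 0) [] false,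
   Spec.mk (nat_lit 7009) (nat_lit 1) [nat_lit 20131, nat_lit 2635, nat_lit 7495, nat_lit 7171, nat_lit 6955, nat_lit 6991, nat_lit 7027, nat_lit 7015, nat_lit 7007, nat_lit 26691] (nat_lit 0) [] false,
   Spec.mk (nat_lit 7013) (nat_lit 0) [nat_lit 20135, nat_lit 2639, nat_lit 7499, nat_lit 7175, nat_lit 6959, nat_lit 7031, nat_lit 7007, nat_lit 7015, nat_lit 26695] (nat_lit 2) [] false,
   Spec.mk (nat_lit 7015) (nat_lit 1) [nat_lit 20137, nat_lit 2641, nat_lit 7501, nat_lit 7177, nat_lit 6961, nat_lit 7033, nat_lit 7009, nat_lit 7013, nat_lit 7017, nat_lit 26697] (nat_lit 0) [] false,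
   Spec.mk (nat_lit 7017) (nat_lit 2) [nat_lit 20139, nat_lit 2643, nat_lit 7503, nat_lit 7179, nat_lit 6963, nat_lit 7035, nat_lit 7015] (nat_lit 0) [] false,
   Spec.mk (nat_lit 7025) (nat_lit 0) [nat_lit 20147, nat_lit 2651, nat_lit 7511, nat_lit 7187, nat_lit 7007, nat_lit 7031, nat_lit 7027, nat_lit 26707] (nat_lit 0) [] false,
   Spec.mk (nat_lit 7027) (nat_lit 0) [nat_lit 20149, nat_lit 2653, nat_lit 7513, nat_lit 7189, nat_lit 7009, nat_lit 7033, nat_lit 7025, nat_lit 26709] (nat_lit 0) [] false,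
   Spec.mk (nat_lit 7031) (nat_lit 0) [nat_lit 20153, nat_lit 2657, nat_lit 7517, nat_lit 7193, nat_lit 7013, nat_lit 7025, nat_lit 7033, nat_lit 26713] (nat_lit 0) [] false,
   Spec.mk (nat_lit 7033) (nat_lit 2) [nat_lit 20155, nat_lit 2659, nat_lit 7519, nat_lit 7195, nat_lit 7015, nat_lit 7027, nat_lit 7039, nat_lit 7031, nat_lit 7035, nat_lit 26715] (nat_lit 0) [] false,
   Spec.mk (nat_lit 7035) (nat_lit 2) [nat_lit 20157, nat_lit 2661, nat_lit 7521, nat_lit 7197, nat_lit 7017, nat_lit 7041, nat_lit 7033] (nat_lit 0) [] false,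
   Spec.mk (nat_lit 7039) (nat_lit 2) [nat_lit 20161, nat_lit 2665, nat_lit 7525, nat_lit 7201, nat_lit 7033, nat_lit 7041, nat_lit 26721] (nat_lit 0) [] false,
   Spec.mk (nat_lit 7041) (nat_lit 4) [nat_lit 20163, nat_lit 2667, nat_lit 7527, nat_lit 7203, nat_lit 7035, nat_lit 7039] (nat_lit 0) [] false,
   Spec.mk (nat_lit 7073) (nat_lit 0) [nat_lit 20195, nat_lit 2699, nat_lit 7559, nat_lit 6911, nat_lit 7091, nat_lit 26755] (nat_lit 0) [] false,
   Spec.mk (nat_lit 7091) (nat_lit 0) [nat_lit 20213, nat_lit 2717, nat_lit 7577, nat_lit 6929, nat_lit 7145, nat_lit 7073, nat_lit 7109, nat_lit 7097, nat_lit 26773] (nat_lit 1) [] false,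
   Spec.mk (nat_lit 7097) (nat_lit 0) [nat_lit 20219, nat_lit 2723, nat_lit 7583, nat_lit 6935, nat_lit 7151, nat_lit 7115, nat_lit 7091, nat_lit 7099, nat_lit 26779] (nat_lit 2) [] false,
   Spec.mk (nat_lit 7099) (nat_lit 0) [nat_lit 20221, nat_lit 2725, nat_lit 7585, nat_lit 6937, nat_lit 7153, nat_lit 7117, nat_lit 7097, nat_lit 26781] (nat_lit 0) [] false,
   Spec.mk (nat_lit 7109) (nat_lit 0) [nat_lit 20231, nat_lit 2735, nat_lit 7595, nat_lit 6947, nat_lit 7163, nat_lit 7091, nat_lit 7115, nat_lit 26791] (nat_lit 4) [] false,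
   Spec.mk (nat_lit 7115) (nat_lit 0) [nat_lit 20237, nat_lit 2741, nat_lit 7601, nat_lit 6953, nat_lit 7169, nat_lit 7097, nat_lit 7109, nat_lit 7121, nat_lit 7117, nat_lit 26797] (nat_lit 3) [] false,
   Spec.mk (nat_lit 7117) (nat_lit 0) [nat_lit 20239, nat_lit 2743, nat_lit 7603, nat_lit 6955, nat_lit 7171, nat_lit 7099, nat_lit 7123, nat_lit 7115, nat_lit 26799] (nat_lit 2) [] false,
   Spec.mk (nat_lit 7121) (nat_lit 0) [nat_lit 20243, nat_lit 2747, nat_lit 7607, nat_lit 6959, nat_lit 7175, nat_lit 7115, nat_lit 7123, nat_lit 26803] (nat_lit 4) [] false,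
   Spec.mk (nat_lit 7123) (nat_lit 0) [nat_lit 20245, nat_lit 2749, nat_lit 7609, nat_lit 6961, nat_lit 7177, nat_lit 7117, nat_lit 7121, nat_lit 7125, nat_lit 26805] (nat_lit 1) [] false,
   Spec.mk (nat_lit 7125) (nat_lit 0) [nat_lit 20247, nat_lit 2751, nat_lit 7611, nat_lit 6963, nat_lit 7179, nat_lit 7123] (nat_lit 0) [] false,
   Spec.mk (nat_lit 7145) (nat_lit 0) [nat_lit 20267, nat_lit 2771, nat_lit 7631, nat_lit 6983, nat_lit 7091, nat_lit 7163, nat_lit 7151, nat_lit 26827] (nat_lit 0) [] false,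
   Spec.mk (nat_lit 7151) (nat_lit 0) [nat_lit 20273, nat_lit 2777, nat_lit 7637, nat_lit 6989, nat_lit 7097, nat_lit 7169, nat_lit 7145, nat_lit 7153, nat_lit 26833] (nat_lit 2) [] false,
   Spec.mk (nat_lit 7153) (nat_lit 0) [nat_lit 20275, nat_lit 2779, nat_lit 7639, nat_lit 6991, nat_lit 7099, nat_lit 7171, nat_lit 7151, nat_lit 26835] (nat_lit 0) [] false,
   Spec.mk (nat_lit 7163) (nat_lit 0) [nat_lit 20285, nat_lit 2789, nat_lit 7649, nat_lit 7001, nat_lit 7109, nat_lit 7217, nat_lit 7145, nat_lit 7169, nat_lit 26845] (nat_lit 1) [] false,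
   Spec.mk (nat_lit 7169) (nat_lit 0) [nat_lit 20291, nat_lit 2795, nat_lit 7655, nat_lit 7007, nat_lit 7115, nat_lit 7223, nat_lit 7151, nat_lit 7187, nat_lit 7163, nat_lit 7175, nat_lit 7171, nat_lit 26851] (nat_lit 1) [] false,
   Spec.mk (nat_lit 7171) (nat_lit 0) [nat_lit 20293, nat_lit 2797, nat_lit 7657, nat_lit 7009, nat_lit 7117, nat_lit 7225, nat_lit 7153, nat_lit 7189, nat_lit 7177, nat_lit 7169, nat_lit 26853] (nat_lit 0) [] false,
   Spec.mk (nat_lit 7175) (nat_lit 0) [nat_lit 20297, nat_lit 2801, nat_lit 7661, nat_lit 7013, nat_lit 7121, nat_lit 7229, nat_lit 7193, nat_lit 7169, nat_lit 7177, nat_lit 26857] (nat_lit 3) [] false,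
   Spec.mk (nat_lit 7177) (nat_lit 0) [nat_lit 20299, nat_lit 2803, nat_lit 7663, nat_lit 7015, nat_lit 7123, nat_lit 7231, nat_lit 7195, nat_lit 7171, nat_lit 7175, nat_lit 7179, nat_lit 26859] (nat_lit 0) [] false,
   Spec.mk (nat_lit 7179) (nat_lit 1) [nat_lit 20301, nat_lit 2805, nat_lit 7665, nat_lit 7017, nat_lit 7125, nat_lit 7233, nat_lit 7197, nat_lit 7177] (nat_lit 0) [] false]

noncomputable def sp18 : List Spec :=
  [Spec.mk (nat_lit 7187) (nat_lit 0) [nat_lit 20309, nat_lit 2813, nat_lit 7673, nat_lit 7025, nat_lit 7241, nat_lit 7169, nat_lit 7193, nat_lit 7189, nat_lit 26869] (nat_lit 2) [] false,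
   Spec.mk (nat_lit 7189) (nat_lit 0) [nat_lit 20311, nat_lit 2815, nat_lit 7675, nat_lit 7027, nat_lit 7243, nat_lit 7171, nat_lit 7195, nat_lit 7187, nat_lit 26871] (nat_lit 2) [] false,
   Spec.mk (nat_lit 7193) (nat_lit 0) [nat_lit 20315, nat_lit 2819, nat_lit 7679, nat_lit 7031, nat_lit 7247, nat_lit 7175, nat_lit 7187, nat_lit 7195, nat_lit 26875] (nat_lit 2) [] false,
   Spec.mk (nat_lit 7195) (nat_lit 0) [nat_lit 20317, nat_lit 2821, nat_lit 7681, nat_lit 7033, nat_lit 7249, nat_lit 7177, nat_lit 7189, nat_lit 7201, nat_lit 7193, nat_lit 7197, nat_lit 26877] (nat_lit 0) [] false,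
   Spec.mk (nat_lit 7197) (nat_lit 0) [nat_lit 20319, nat_lit 2823, nat_lit 7683, nat_lit 7035, nat_lit 7251, nat_lit 7179, nat_lit 7203, nat_lit 7195] (nat_lit 0) [] false,
   Spec.mk (nat_lit 7201) (nat_lit 0) [nat_lit 20323, nat_lit 2827, nat_lit 7687, nat_lit 7039, nat_lit 7255, nat_lit 7195, nat_lit 7203, nat_lit 26883] (nat_lit 0) [] false,
   Spec.mk (nat_lit 7203) (nat_lit 2) [nat_lit 20325, nat_lit 2829, nat_lit 7689, nat_lit 7041, nat_lit 7257, nat_lit 7197, nat_lit 7201] (nat_lit 0) [] false,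
   Spec.mk (nat_lit 7217) (nat_lit 0) [nat_lit 20339, nat_lit 2843, nat_lit 7703, nat_lit 7163, nat_lit 7223, nat_lit 26899] (nat_lit 0) [] false,
   Spec.mk (nat_lit 7223) (nat_lit 0) [nat_lit 20345, nat_lit 2849, nat_lit 7709, nat_lit 7169, nat_lit 7241, nat_lit 7217, nat_lit 7229, nat_lit 7225, nat_lit 26905] (nat_lit 1) [] false,
   Spec.mk (nat_lit 7225) (nat_lit 0) [nat_lit 20347, nat_lit 2851, nat_lit 7711, nat_lit 7171, nat_lit 7243, nat_lit 7231, nat_lit 7223, nat_lit 26907] (nat_lit 0) [] false,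
   Spec.mk (nat_lit 7229) (nat_lit 0) [nat_lit 20351, nat_lit 2855, nat_lit 7715, nat_lit 7175, nat_lit 7247, nat_lit 7223, nat_lit 7231, nat_lit 26911] (nat_lit 4) [] false,
   Spec.mk (nat_lit 7231) (nat_lit 0) [nat_lit 20353, nat_lit 2857, nat_lit 7717, nat_lit 7177, nat_lit 7249, nat_lit 7225, nat_lit 7229, nat_lit 7233, nat_lit 26913] (nat_lit 1) [] false,
   Spec.mk (nat_lit 7233) (nat_lit 0) [nat_lit 20355, nat_lit 2859, nat_lit 7719, nat_lit 7179, nat_lit 7251, nat_lit 7231] (nat_lit 0) [] false,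
   Spec.mk (nat_lit 7241) (nat_lit 0) [nat_lit 20363, nat_lit 2867, nat_lit 7727, nat_lit 7187, nat_lit 7223, nat_lit 7247, nat_lit 7243, nat_lit 26923] (nat_lit 0) [] false,
   Spec.mk (nat_lit 7243) (nat_lit 0) [nat_lit 20365, nat_lit 2869, nat_lit 7729, nat_lit 7189, nat_lit 7225, nat_lit 7249, nat_lit 7241, nat_lit 26925] (nat_lit 0) [] false,
   Spec.mk (nat_lit 7247) (nat_lit 0) [nat_lit 20369, nat_lit 2873, nat_lit 7733, nat_lit 7193, nat_lit 7229, nat_lit 7265, nat_lit 7241, nat_lit 7249, nat_lit 26929] (nat_lit 1) [] false,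
   Spec.mk (nat_lit 7249) (nat_lit 1) [nat_lit 20371, nat_lit 2875, nat_lit 7735, nat_lit 7195, nat_lit 7231, nat_lit 7267, nat_lit 7243, nat_lit 7255, nat_lit 7247, nat_lit 7251, nat_lit 26931] (nat_lit 0) [] false,
   Spec.mk (nat_lit 7251) (nat_lit 1) [nat_lit 20373, nat_lit 2877, nat_lit 7737, nat_lit 7197, nat_lit 7233, nat_lit 7269, nat_lit 7257, nat_lit 7249] (nat_lit 0) [] false,
   Spec.mk (nat_lit 7255) (nat_lit 0) [nat_lit 20377, nat_lit 2881, nat_lit 7741, nat_lit 7201, nat_lit 7273, nat_lit 7249, nat_lit 7257, nat_lit 26937] (nat_lit 0) [] false,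
   Spec.mk (nat_lit 7257) (nat_lit 2) [nat_lit 20379, nat_lit 2883, nat_lit 7743, nat_lit 7203, nat_lit 7275, nat_lit 7251, nat_lit 7255] (nat_lit 0) [] false,
   Spec.mk (nat_lit 7265) (nat_lit 0) [nat_lit 20387, nat_lit 2891, nat_lit 7751, nat_lit 7247, nat_lit 7267, nat_lit 26947] (nat_lit 0) [] false,
   Spec.mk (nat_lit 7267) (nat_lit 1) [nat_lit 20389, nat_lit 2893, nat_lit 7753, nat_lit 7249, nat_lit 7273, nat_lit 7265, nat_lit 7269, nat_lit 26949] (nat_lit 0) [] false,
   Spec.mk (nat_lit 7269) (nat_lit 0) [nat_lit 20391, nat_lit 2895, nat_lit 7755, nat_lit 7251, nat_lit 7275, nat_lit 7267] (nat_lit 0) [] false,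
   Spec.mk (nat_lit 7273) (nat_lit 2) [nat_lit 20395, nat_lit 2899, nat_lit 7759, nat_lit 7255, nat_lit 7267, nat_lit 7275, nat_lit 26955] (nat_lit 0) [] false,
   Spec.mk (nat_lit 7275) (nat_lit 3) [nat_lit 20397, nat_lit 2901, nat_lit 7761, nat_lit 7257, nat_lit 7269, nat_lit 7281, nat_lit 7273] (nat_lit 0) [] false,
   Spec.mk (nat_lit 7281) (nat_lit 4) [nat_lit 20403, nat_lit 2907, nat_lit 7767, nat_lit 7275] (nat_lit 0) [] false,
   Spec.mk (nat_lit 7343) (nat_lit 2) [nat_lit 20465, nat_lit 2969, nat_lit 8801, nat_lit 6857, nat_lit 7397, nat_lit 7361, nat_lit 27025] (nat_lit 0) [] false,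
   Spec.mk (nat_lit 7361) (nat_lit 0) [nat_lit 20483, nat_lit 2987, nat_lit 8819, nat_lit 6875, nat_lit 7415, nat_lit 7343, nat_lit 7367, nat_lit 27043] (nat_lit 0) [] false,
   Spec.mk (nat_lit 7367) (nat_lit 0) [nat_lit 20489, nat_lit 2993, nat_lit 8825, nat_lit 6881, nat_lit 7421, nat_lit 7361, nat_lit 7369, nat_lit 27049] (nat_lit 0) [] false,
   Spec.mk (nat_lit 7369) (nat_lit 2) [nat_lit 20491, nat_lit 2995, nat_lit 8827, nat_lit 6883, nat_lit 7423, nat_lit 7367, nat_lit 27051] (nat_lit 0) [] false,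
   Spec.mk (nat_lit 7397) (nat_lit 0) [nat_lit 20519, nat_lit 3023, nat_lit 8855, nat_lit 6911, nat_lit 7559, nat_lit 7343, nat_lit 7415, nat_lit 27079] (nat_lit 0) [] true,
   Spec.mk (nat_lit 7415) (nat_lit 0) [nat_lit 20537, nat_lit 3041, nat_lit 8873, nat_lit 6929, nat_lit 7577, nat_lit 7361, nat_lit 7469, nat_lit 7397, nat_lit 7433, nat_lit 7421, nat_lit 27097] (nat_lit 0) [] true,
   Spec.mk (nat_lit 7421) (nat_lit 0) [nat_lit 20543, nat_lit 3047, nat_lit 8879, nat_lit 6935, nat_lit 7583, nat_lit 7367, nat_lit 7475, nat_lit 7439, nat_lit 7415, nat_lit 7423, nat_lit 27103] (nat_lit 1) [] true,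
   Spec.mk (nat_lit 7423) (nat_lit 1) [nat_lit 20545, nat_lit 3049, nat_lit 8881, nat_lit 6937, nat_lit 7585, nat_lit 7369, nat_lit 7477, nat_lit 7441, nat_lit 7421, nat_lit 27105] (nat_lit 0) [] true,
   Spec.mk (nat_lit 7433) (nat_lit 0) [nat_lit 20555, nat_lit 3059, nat_lit 8891, nat_lit 6947, nat_lit 7595, nat_lit 7487, nat_lit 7415, nat_lit 7439, nat_lit 27115] (nat_lit 2) [] true,
   Spec.mk (nat_lit 7439) (nat_lit 0) [nat_lit 20561, nat_lit 3065, nat_lit 8897, nat_lit 6953, nat_lit 7601, nat_lit 7493, nat_lit 7421, nat_lit 7433, nat_lit 7445, nat_lit 7441, nat_lit 27121] (nat_lit 1) [] true,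
   Spec.mk (nat_lit 7441) (nat_lit 0) [nat_lit 20563, nat_lit 3067, nat_lit 8899, nat_lit 6955, nat_lit 7603, nat_lit 7495, nat_lit 7423, nat_lit 7447, nat_lit 7439, nat_lit 27123] (nat_lit 0) [] true,
   Spec.mk (nat_lit 7445) (nat_lit 0) [nat_lit 20567, nat_lit 3071, nat_lit 8903, nat_lit 6959, nat_lit 7607, nat_lit 7499, nat_lit 7439, nat_lit 7447, nat_lit 27127] (nat_lit 2) [] true,
   Spec.mk (nat_lit 7447) (nat_lit 1) [nat_lit 20569, nat_lit 3073, nat_lit 8905, nat_lit 6961, nat_lit 7609, nat_lit 7501, nat_lit 7441, nat_lit 7445, nat_lit 7449, nat_lit 27129] (nat_lit 0) [] false,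
   Spec.mk (nat_lit 7449) (nat_lit 2) [nat_lit 20571, nat_lit 3075, nat_lit 8907, nat_lit 6963, nat_lit 7611, nat_lit 7503, nat_lit 7447] (nat_lit 0) [] false,
   Spec.mk (nat_lit 7469) (nat_lit 0) [nat_lit 20591, nat_lit 3095, nat_lit 8927, nat_lit 6983, nat_lit 7631, nat_lit 7415, nat_lit 7487, nat_lit 7475, nat_lit 27151] (nat_lit 2) [] true,
   Spec.mk (nat_lit 7475) (nat_lit 0) [nat_lit 20597, nat_lit 3101, nat_lit 8933, nat_lit 6989, nat_lit 7637, nat_lit 7421, nat_lit 7493, nat_lit 7469, nat_lit 7477, nat_lit 27157] (nat_lit 4) [] true,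
   Spec.mk (nat_lit 7477) (nat_lit 0) [nat_lit 20599, nat_lit 3103, nat_lit 8935, nat_lit 6991, nat_lit 7639, nat_lit 7423, nat_lit 7495, nat_lit 7475, nat_lit 27159] (nat_lit 2) [] false,
   Spec.mk (nat_lit 7487) (nat_lit 0) [nat_lit 20609, nat_lit 3113, nat_lit 8945, nat_lit 7001, nat_lit 7649, nat_lit 7433, nat_lit 7469, nat_lit 7493, nat_lit 27169] (nat_lit 2) [] true,
   Spec.mk (nat_lit 7493) (nat_lit 0) [nat_lit 20615, nat_lit 3119, nat_lit 8951, nat_lit 7007, nat_lit 7655, nat_lit 7439, nat_lit 7475, nat_lit 7511, nat_lit 7487, nat_lit 7499, nat_lit 7495, nat_lit 27175] (nat_lit 2) [] true,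
   Spec.mk (nat_lit 7495) (nat_lit 0) [nat_lit 20617, nat_lit 3121, nat_lit 8953, nat_lit 7009, nat_lit 7657, nat_lit 7441, nat_lit 7477, nat_lit 7513, nat_lit 7501, nat_lit 7493, nat_lit 27177] (nat_lit 1) [] false,
   Spec.mk (nat_lit 7499) (nat_lit 0) [nat_lit 20621, nat_lit 3125, nat_lit 8957, nat_lit 7013, nat_lit 7661, nat_lit 7445, nat_lit 7517, nat_lit 7493, nat_lit 7501, nat_lit 27181] (nat_lit 4) [] false,
   Spec.mk (nat_lit 7501) (nat_lit 0) [nat_lit 20623, nat_lit 3127, nat_lit 8959, nat_lit 7015, nat_lit 7663, nat_lit 7447, nat_lit 7519, nat_lit 7495, nat_lit 7499, nat_lit 7503, nat_lit 27183] (nat_lit 1) [] false,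
   Spec.mk (nat_lit 7503) (nat_lit 0) [nat_lit 20625, nat_lit 3129, nat_lit 8961, nat_lit 7017, nat_lit 7665, nat_lit 7449, nat_lit 7521, nat_lit 7501] (nat_lit 0) [] false,
   Spec.mk (nat_lit 7511) (nat_lit 0) [nat_lit 20633, nat_lit 3137, nat_lit 8969, nat_lit 7025, nat_lit 7673, nat_lit 7493, nat_lit 7517, nat_lit 7513, nat_lit 27193] (nat_lit 2) [] false,
   Spec.mk (nat_lit 7513) (nat_lit 0) [nat_lit 20635, nat_lit 3139, nat_lit 8971, nat_lit 7027, nat_lit 7675, nat_lit 7495, nat_lit 7519, nat_lit 7511, nat_lit 27195] (nat_lit 2) [] false,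
   Spec.mk (nat_lit 7517) (nat_lit 0) [nat_lit 20639, nat_lit 3143, nat_lit 8975, nat_lit 7031, nat_lit 7679, nat_lit 7499, nat_lit 7511, nat_lit 7519, nat_lit 27199] (nat_lit 2) [] false,
   Spec.mk (nat_lit 7519) (nat_lit 0) [nat_lit 20641, nat_lit 3145, nat_lit 8977, nat_lit 7033, nat_lit 7681, nat_lit 7501, nat_lit 7513, nat_lit 7525, nat_lit 7517, nat_lit 7521, nat_lit 27201] (nat_lit 0) [] false,
   Spec.mk (nat_lit 7521) (nat_lit 0) [nat_lit 20643, nat_lit 3147, nat_lit 8979, nat_lit 7035, nat_lit 7683, nat_lit 7503, nat_lit 7527, nat_lit 7519] (nat_lit 0) [] false,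
   Spec.mk (nat_lit 7525) (nat_lit 0) [nat_lit 20647, nat_lit 3151, nat_lit 8983, nat_lit 7039, nat_lit 7687, nat_lit 7519, nat_lit 7527, nat_lit 27207] (nat_lit 0) [] false,
   Spec.mk (nat_lit 7527) (nat_lit 2) [nat_lit 20649, nat_lit 3153, nat_lit 8985, nat_lit 7041, nat_lit 7689, nat_lit 7521, nat_lit 7525] (nat_lit 0) [] false,
   Spec.mk (nat_lit 7559) (nat_lit 1) [nat_lit 20681, nat_lit 3185, nat_lit 9017, nat_lit 7073, nat_lit 8045, nat_lit 7397, nat_lit 7577, nat_lit 27241] (nat_lit 0) [] false,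
   Spec.mk (nat_lit 7577) (nat_lit 0) [nat_lit 20699, nat_lit 3203, nat_lit 9035, nat_lit 7091, nat_lit 8063, nat_lit 7415, nat_lit 7631, nat_lit 7559, nat_lit 7595, nat_lit 7583, nat_lit 27259] (nat_lit 0) [] true,
   Spec.mk (nat_lit 7583) (nat_lit 0) [nat_lit 20705, nat_lit 3209, nat_lit 9041, nat_lit 7097, nat_lit 8069, nat_lit 7421, nat_lit 7637, nat_lit 7601, nat_lit 7577, nat_lit 7585, nat_lit 27265] (nat_lit 1) [] true,
   Spec.mk (nat_lit 7585) (nat_lit 1) [nat_lit 20707, nat_lit 3211, nat_lit 9043, nat_lit 7099, nat_lit 8071, nat_lit 7423, nat_lit 7639, nat_lit 7603, nat_lit 7583, nat_lit 27267] (nat_lit 0) [] true]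

noncomputable def sp19 : List Spec :=
  [Spec.mk (nat_lit 7595) (nat_lit 0) [nat_lit 20717, nat_lit 3221, nat_lit 9053, nat_lit 7109, nat_lit 8081, nat_lit 7433, nat_lit 7649, nat_lit 7577, nat_lit 7601, nat_lit 27277] (nat_lit 3) [] true,
   Spec.mk (nat_lit 7601) (nat_lit 0) [nat_lit 20723, nat_lit 3227, nat_lit 9059, nat_lit 7115, nat_lit 8087, nat_lit 7439, nat_lit 7655, nat_lit 7583, nat_lit 7595, nat_lit 7607, nat_lit 7603, nat_lit 27283] (nat_lit 2) [] true,
   Spec.mk (nat_lit 7603) (nat_lit 0) [nat_lit 20725, nat_lit 3229, nat_lit 9061, nat_lit 7117, nat_lit 8089, nat_lit 7441, nat_lit 7657, nat_lit 7585, nat_lit 7609, nat_lit 7601, nat_lit 27285] (nat_lit 1) [] true,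
   Spec.mk (nat_lit 7607) (nat_lit 0) [nat_lit 20729, nat_lit 3233, nat_lit 9065, nat_lit 7121, nat_lit 8093, nat_lit 7445, nat_lit 7661, nat_lit 7601, nat_lit 7609, nat_lit 27289] (nat_lit 3) [] true,
   Spec.mk (nat_lit 7609) (nat_lit 0) [nat_lit 20731, nat_lit 3235, nat_lit 9067, nat_lit 7123, nat_lit 8095, nat_lit 7447, nat_lit 7663, nat_lit 7603, nat_lit 7607, nat_lit 7611, nat_lit 27291] (nat_lit 0) [] true,
   Spec.mk (nat_lit 7611) (nat_lit 1) [nat_lit 20733, nat_lit 3237, nat_lit 9069, nat_lit 7125, nat_lit 8097, nat_lit 7449, nat_lit 7665, nat_lit 7609] (nat_lit 0) [] false,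
   Spec.mk (nat_lit 7631) (nat_lit 0) [nat_lit 20753, nat_lit 3257, nat_lit 9089, nat_lit 7145, nat_lit 8117, nat_lit 7469, nat_lit 7793, nat_lit 7577, nat_lit 7649, nat_lit 7637, nat_lit 27313] (nat_lit 0) [] true,
   Spec.mk (nat_lit 7637) (nat_lit 0) [nat_lit 20759, nat_lit 3263, nat_lit 9095, nat_lit 7151, nat_lit 8123, nat_lit 7475, nat_lit 7799, nat_lit 7583, nat_lit 7655, nat_lit 7631, nat_lit 7639, nat_lit 27319] (nat_lit 2) [] true,
   Spec.mk (nat_lit 7639) (nat_lit 0) [nat_lit 20761, nat_lit 3265, nat_lit 9097, nat_lit 7153, nat_lit 8125, nat_lit 7477, nat_lit 7801, nat_lit 7585, nat_lit 7657, nat_lit 7637, nat_lit 27321] (nat_lit 0) [] true,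
   Spec.mk (nat_lit 7649) (nat_lit 0) [nat_lit 20771, nat_lit 3275, nat_lit 9107, nat_lit 7163, nat_lit 8135, nat_lit 7487, nat_lit 7811, nat_lit 7595, nat_lit 7703, nat_lit 7631, nat_lit 7655, nat_lit 27331] (nat_lit 1) [] true,
   Spec.mk (nat_lit 7655) (nat_lit 0) [nat_lit 20777, nat_lit 3281, nat_lit 9113, nat_lit 7169, nat_lit 8141, nat_lit 7493, nat_lit 7817, nat_lit 7601, nat_lit 7709, nat_lit 7637, nat_lit 7673, nat_lit 7649, nat_lit 7661, nat_lit 7657, nat_lit 27337] (nat_lit 1) [] true,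
   Spec.mk (nat_lit 7657) (nat_lit 0) [nat_lit 20779, nat_lit 3283, nat_lit 9115, nat_lit 7171, nat_lit 8143, nat_lit 7495, nat_lit 7819, nat_lit 7603, nat_lit 7711, nat_lit 7639, nat_lit 7675, nat_lit 7663, nat_lit 7655, nat_lit 27339] (nat_lit 0) [] true,
   Spec.mk (nat_lit 7661) (nat_lit 0) [nat_lit 20783, nat_lit 3287, nat_lit 9119, nat_lit 7175, nat_lit 8147, nat_lit 7499, nat_lit 7823, nat_lit 7607, nat_lit 7715, nat_lit 7679, nat_lit 7655, nat_lit 7663, nat_lit 27343] (nat_lit 3) [] true,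
   Spec.mk (nat_lit 7663) (nat_lit 0) [nat_lit 20785, nat_lit 3289, nat_lit 9121, nat_lit 7177, nat_lit 8149, nat_lit 7501, nat_lit 7825, nat_lit 7609, nat_lit 7717, nat_lit 7681, nat_lit 7657, nat_lit 7661, nat_lit 7665, nat_lit 27345] (nat_lit 0) [] true,
   Spec.mk (nat_lit 7665) (nat_lit 1) [nat_lit 20787, nat_lit 3291, nat_lit 9123, nat_lit 7179, nat_lit 8151, nat_lit 7503, nat_lit 7827, nat_lit 7611, nat_lit 7719, nat_lit 7683, nat_lit 7663] (nat_lit 0) [] false,
   Spec.mk (nat_lit 7673) (nat_lit 0) [nat_lit 20795, nat_lit 3299, nat_lit 9131, nat_lit 7187, nat_lit 8159, nat_lit 7511, nat_lit 7835, nat_lit 7727, nat_lit 7655, nat_lit 7679, nat_lit 7675, nat_lit 27355] (nat_lit 2) [] true,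
   Spec.mk (nat_lit 7675) (nat_lit 0) [nat_lit 20797, nat_lit 3301, nat_lit 9133, nat_lit 7189, nat_lit 8161, nat_lit 7513, nat_lit 7837, nat_lit 7729, nat_lit 7657, nat_lit 7681, nat_lit 7673, nat_lit 27357] (nat_lit 2) [] true,
   Spec.mk (nat_lit 7679) (nat_lit 0) [nat_lit 20801, nat_lit 3305, nat_lit 9137, nat_lit 7193, nat_lit 8165, nat_lit 7517, nat_lit 7841, nat_lit 7733, nat_lit 7661, nat_lit 7673, nat_lit 7681, nat_lit 27361] (nat_lit 2) [] true,
   Spec.mk (nat_lit 7681) (nat_lit 0) [nat_lit 20803, nat_lit 3307, nat_lit 9139, nat_lit 7195, nat_lit 8167, nat_lit 7519, nat_lit 7843, nat_lit 7735, nat_lit 7663, nat_lit 7675, nat_lit 7687, nat_lit 7679, nat_lit 7683, nat_lit 27363] (nat_lit 0) [] true,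
   Spec.mk (nat_lit 7683) (nat_lit 0) [nat_lit 20805, nat_lit 3309, nat_lit 9141, nat_lit 7197, nat_lit 8169, nat_lit 7521, nat_lit 7845, nat_lit 7737, nat_lit 7665, nat_lit 7689, nat_lit 7681] (nat_lit 0) [] false,
   Spec.mk (nat_lit 7687) (nat_lit 0) [nat_lit 20809, nat_lit 3313, nat_lit 9145, nat_lit 7201, nat_lit 8173, nat_lit 7525, nat_lit 7849, nat_lit 7741, nat_lit 7681, nat_lit 7689, nat_lit 27369] (nat_lit 0) [] false,
   Spec.mk (nat_lit 7689) (nat_lit 2) [nat_lit 20811, nat_lit 3315, nat_lit 9147, nat_lit 7203, nat_lit 8175, nat_lit 7527, nat_lit 7851, nat_lit 7743, nat_lit 7683, nat_lit 7687] (nat_lit 0) [] false,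
   Spec.mk (nat_lit 7703) (nat_lit 0) [nat_lit 20825, nat_lit 3329, nat_lit 9161, nat_lit 7217, nat_lit 8189, nat_lit 7865, nat_lit 7649, nat_lit 7709, nat_lit 27385] (nat_lit 1) [] false,
   Spec.mk (nat_lit 7709) (nat_lit 0) [nat_lit 20831, nat_lit 3335, nat_lit 9167, nat_lit 7223, nat_lit 8195, nat_lit 7871, nat_lit 7655, nat_lit 7727, nat_lit 7703, nat_lit 7715, nat_lit 7711, nat_lit 27391] (nat_lit 2) [] true,
   Spec.mk (nat_lit 7711) (nat_lit 0) [nat_lit 20833, nat_lit 3337, nat_lit 9169, nat_lit 7225, nat_lit 8197, nat_lit 7873, nat_lit 7657, nat_lit 7729, nat_lit 7717, nat_lit 7709, nat_lit 27393] (nat_lit 1) [] true,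
   Spec.mk (nat_lit 7715) (nat_lit 0) [nat_lit 20837, nat_lit 3341, nat_lit 9173, nat_lit 7229, nat_lit 8201, nat_lit 7877, nat_lit 7661, nat_lit 7733, nat_lit 7709, nat_lit 7717, nat_lit 27397] (nat_lit 5) [] true,
   Spec.mk (nat_lit 7717) (nat_lit 0) [nat_lit 20839, nat_lit 3343, nat_lit 9175, nat_lit 7231, nat_lit 8203, nat_lit 7879, nat_lit 7663, nat_lit 7735, nat_lit 7711, nat_lit 7715, nat_lit 7719, nat_lit 27399] (nat_lit 2) [] true,
   Spec.mk (nat_lit 7719) (nat_lit 0) [nat_lit 20841, nat_lit 3345, nat_lit 9177, nat_lit 7233, nat_lit 8205, nat_lit 7881, nat_lit 7665, nat_lit 7737, nat_lit 7717] (nat_lit 1) [] false,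
   Spec.mk (nat_lit 7727) (nat_lit 0) [nat_lit 20849, nat_lit 3353, nat_lit 9185, nat_lit 7241, nat_lit 8213, nat_lit 7889, nat_lit 7673, nat_lit 7709, nat_lit 7733, nat_lit 7729, nat_lit 27409] (nat_lit 1) [] true,
   Spec.mk (nat_lit 7729) (nat_lit 0) [nat_lit 20851, nat_lit 3355, nat_lit 9187, nat_lit 7243, nat_lit 8215, nat_lit 7891, nat_lit 7675, nat_lit 7711, nat_lit 7735, nat_lit 7727, nat_lit 27411] (nat_lit 1) [] true,
   Spec.mk (nat_lit 7733) (nat_lit 0) [nat_lit 20855, nat_lit 3359, nat_lit 9191, nat_lit 7247, nat_lit 8219, nat_lit 7895, nat_lit 7679, nat_lit 7715, nat_lit 7751, nat_lit 7727, nat_lit 7735, nat_lit 27415] (nat_lit 2) [] true,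
   Spec.mk (nat_lit 7735) (nat_lit 0) [nat_lit 20857, nat_lit 3361, nat_lit 9193, nat_lit 7249, nat_lit 8221, nat_lit 7897, nat_lit 7681, nat_lit 7717, nat_lit 7753, nat_lit 7729, nat_lit 7741, nat_lit 7733, nat_lit 7737, nat_lit 27417] (nat_lit 0) [] false,
   Spec.mk (nat_lit 7737) (nat_lit 0) [nat_lit 20859, nat_lit 3363, nat_lit 9195, nat_lit 7251, nat_lit 8223, nat_lit 7899, nat_lit 7683, nat_lit 7719, nat_lit 7755, nat_lit 7743, nat_lit 7735] (nat_lit 0) [] false,
   Spec.mk (nat_lit 7741) (nat_lit 0) [nat_lit 20863, nat_lit 3367, nat_lit 9199, nat_lit 7255, nat_lit 8227, nat_lit 7903, nat_lit 7687, nat_lit 7759, nat_lit 7735, nat_lit 7743, nat_lit 27423] (nat_lit 1) [] false,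
   Spec.mk (nat_lit 7743) (nat_lit 1) [nat_lit 20865, nat_lit 3369, nat_lit 9201, nat_lit 7257, nat_lit 8229, nat_lit 7905, nat_lit 7689, nat_lit 7761, nat_lit 7737, nat_lit 7741] (nat_lit 0) [] false,
   Spec.mk (nat_lit 7751) (nat_lit 0) [nat_lit 20873, nat_lit 3377, nat_lit 9209, nat_lit 7265, nat_lit 8237, nat_lit 7913, nat_lit 7733, nat_lit 7753, nat_lit 27433] (nat_lit 1) [] false,
   Spec.mk (nat_lit 7753) (nat_lit 0) [nat_lit 20875, nat_lit 3379, nat_lit 9211, nat_lit 7267, nat_lit 8239, nat_lit 7915, nat_lit 7735, nat_lit 7759, nat_lit 7751, nat_lit 7755, nat_lit 27435] (nat_lit 0) [] false,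
   Spec.mk (nat_lit 7755) (nat_lit 0) [nat_lit 20877, nat_lit 3381, nat_lit 9213, nat_lit 7269, nat_lit 8241, nat_lit 7917, nat_lit 7737, nat_lit 7761, nat_lit 7753] (nat_lit 1) [] false,
   Spec.mk (nat_lit 7759) (nat_lit 1) [nat_lit 20881, nat_lit 3385, nat_lit 9217, nat_lit 7273, nat_lit 8245, nat_lit 7921, nat_lit 7741, nat_lit 7753, nat_lit 7761, nat_lit 27441] (nat_lit 0) [] false,
   Spec.mk (nat_lit 7761) (nat_lit 2) [nat_lit 20883, nat_lit 3387, nat_lit 9219, nat_lit 7275, nat_lit 8247, nat_lit 7923, nat_lit 7743, nat_lit 7755, nat_lit 7767, nat_lit 7759] (nat_lit 0) [] false,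
   Spec.mk (nat_lit 7767) (nat_lit 3) [nat_lit 20889, nat_lit 3393, nat_lit 9225, nat_lit 7281, nat_lit 8253, nat_lit 7929, nat_lit 7761] (nat_lit 0) [] false,
   Spec.mk (nat_lit 7793) (nat_lit 0) [nat_lit 20915, nat_lit 3419, nat_lit 9251, nat_lit 8279, nat_lit 7631, nat_lit 7811, nat_lit 7799, nat_lit 27475] (nat_lit 0) [] false,
   Spec.mk (nat_lit 7799) (nat_lit 0) [nat_lit 20921, nat_lit 3425, nat_lit 9257, nat_lit 8285, nat_lit 7637, nat_lit 7817, nat_lit 7793, nat_lit 7801, nat_lit 27481] (nat_lit 2) [] false,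
   Spec.mk (nat_lit 7801) (nat_lit 0) [nat_lit 20923, nat_lit 3427, nat_lit 9259, nat_lit 8287, nat_lit 7639, nat_lit 7819, nat_lit 7799, nat_lit 27483] (nat_lit 0) [] false,
   Spec.mk (nat_lit 7811) (nat_lit 0) [nat_lit 20933, nat_lit 3437, nat_lit 9269, nat_lit 8297, nat_lit 7649, nat_lit 7865, nat_lit 7793, nat_lit 7817, nat_lit 27493] (nat_lit 2) [] true,
   Spec.mk (nat_lit 7817) (nat_lit 0) [nat_lit 20939, nat_lit 3443, nat_lit 9275, nat_lit 8303, nat_lit 7655, nat_lit 7871, nat_lit 7799, nat_lit 7835, nat_lit 7811, nat_lit 7823, nat_lit 7819, nat_lit 27499] (nat_lit 2) [] true,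
   Spec.mk (nat_lit 7819) (nat_lit 0) [nat_lit 20941, nat_lit 3445, nat_lit 9277, nat_lit 8305, nat_lit 7657, nat_lit 7873, nat_lit 7801, nat_lit 7837, nat_lit 7825, nat_lit 7817, nat_lit 27501] (nat_lit 1) [] true,
   Spec.mk (nat_lit 7823) (nat_lit 0) [nat_lit 20945, nat_lit 3449, nat_lit 9281, nat_lit 8309, nat_lit 7661, nat_lit 7877, nat_lit 7841, nat_lit 7817, nat_lit 7825, nat_lit 27505] (nat_lit 4) [] true,
   Spec.mk (nat_lit 7825) (nat_lit 0) [nat_lit 20947, nat_lit 3451, nat_lit 9283, nat_lit 8311, nat_lit 7663, nat_lit 7879, nat_lit 7843, nat_lit 7819, nat_lit 7823, nat_lit 7827, nat_lit 27507] (nat_lit 1) [] false,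
   Spec.mk (nat_lit 7827) (nat_lit 0) [nat_lit 20949, nat_lit 3453, nat_lit 9285, nat_lit 8313, nat_lit 7665, nat_lit 7881, nat_lit 7845, nat_lit 7825] (nat_lit 0) [] false,
   Spec.mk (nat_lit 7835) (nat_lit 0) [nat_lit 20957, nat_lit 3461, nat_lit 9293, nat_lit 8321, nat_lit 7673, nat_lit 7889, nat_lit 7817, nat_lit 7841, nat_lit 7837, nat_lit 27517] (nat_lit 4) [] true,
   Spec.mk (nat_lit 7837) (nat_lit 0) [nat_lit 20959, nat_lit 3463, nat_lit 9295, nat_lit 8323, nat_lit 7675, nat_lit 7891, nat_lit 7819, nat_lit 7843, nat_lit 7835, nat_lit 27519] (nat_lit 4) [] true,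
   Spec.mk (nat_lit 7841) (nat_lit 0) [nat_lit 20963, nat_lit 3467, nat_lit 9299, nat_lit 8327, nat_lit 7679, nat_lit 7895, nat_lit 7823, nat_lit 7835, nat_lit 7843, nat_lit 27523] (nat_lit 4) [] true,
   Spec.mk (nat_lit 7843) (nat_lit 0) [nat_lit 20965, nat_lit 3469, nat_lit 9301, nat_lit 8329, nat_lit 7681, nat_lit 7897, nat_lit 7825, nat_lit 7837, nat_lit 7849, nat_lit 7841, nat_lit 7845, nat_lit 27525] (nat_lit 2) [] false,
   Spec.mk (nat_lit 7845) (nat_lit 0) [nat_lit 20967, nat_lit 3471, nat_lit 9303, nat_lit 8331, nat_lit 7683, nat_lit 7899, nat_lit 7827, nat_lit 7851, nat_lit 7843] (nat_lit 2) [] false,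
   Spec.mk (nat_lit 7849) (nat_lit 0) [nat_lit 20971, nat_lit 3475, nat_lit 9307, nat_lit 8335, nat_lit 7687, nat_lit 7903, nat_lit 7843, nat_lit 7851, nat_lit 27531] (nat_lit 2) [] false,
   Spec.mk (nat_lit 7851) (nat_lit 0) [nat_lit 20973, nat_lit 3477, nat_lit 9309, nat_lit 8337, nat_lit 7689, nat_lit 7905, nat_lit 7845, nat_lit 7849] (nat_lit 0) [] false,
   Spec.mk (nat_lit 7865) (nat_lit 0) [nat_lit 20987, nat_lit 3491, nat_lit 9323, nat_lit 8351, nat_lit 7703, nat_lit 7811, nat_lit 7871, nat_lit 27547] (nat_lit 0) [] false,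
   Spec.mk (nat_lit 7871) (nat_lit 0) [nat_lit 20993, nat_lit 3497, nat_lit 9329, nat_lit 8357, nat_lit 7709, nat_lit 7817, nat_lit 7889, nat_lit 7865, nat_lit 7877, nat_lit 7873, nat_lit 27553] (nat_lit 1) [] true,
   Spec.mk (nat_lit 7873) (nat_lit 0) [nat_lit 20995, nat_lit 3499, nat_lit 9331, nat_lit 8359, nat_lit 7711, nat_lit 7819, nat_lit 7891, nat_lit 7879, nat_lit 7871, nat_lit 27555] (nat_lit 0) [] true]

noncomputable def sp20 : List Spec :=
  [Spec.mk (nat_lit 7877) (nat_lit 0) [nat_lit 20999, nat_lit 3503, nat_lit 9335, nat_lit 8363, nat_lit 7715, nat_lit 7823, nat_lit 7895, nat_lit 7871, nat_lit 7879, nat_lit 27559] (nat_lit 4) [] true,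
   Spec.mk (nat_lit 7879) (nat_lit 0) [nat_lit 21001, nat_lit 3505, nat_lit 9337, nat_lit 8365, nat_lit 7717, nat_lit 7825, nat_lit 7897, nat_lit 7873, nat_lit 7877, nat_lit 7881, nat_lit 27561] (nat_lit 1) [] false,
   Spec.mk (nat_lit 7881) (nat_lit 0) [nat_lit 21003, nat_lit 3507, nat_lit 9339, nat_lit 8367, nat_lit 7719, nat_lit 7827, nat_lit 7899, nat_lit 7879] (nat_lit 0) [] false,
   Spec.mk (nat_lit 7889) (nat_lit 0) [nat_lit 21011, nat_lit 3515, nat_lit 9347, nat_lit 8375, nat_lit 7727, nat_lit 7835, nat_lit 7943, nat_lit 7871, nat_lit 7895, nat_lit 7891, nat_lit 27571] (nat_lit 1) [] true,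
   Spec.mk (nat_lit 7891) (nat_lit 0) [nat_lit 21013, nat_lit 3517, nat_lit 9349, nat_lit 8377, nat_lit 7729, nat_lit 7837, nat_lit 7945, nat_lit 7873, nat_lit 7897, nat_lit 7889, nat_lit 27573] (nat_lit 1) [] false,
   Spec.mk (nat_lit 7895) (nat_lit 0) [nat_lit 21017, nat_lit 3521, nat_lit 9353, nat_lit 8381, nat_lit 7733, nat_lit 7841, nat_lit 7949, nat_lit 7877, nat_lit 7913, nat_lit 7889, nat_lit 7897, nat_lit 27577] (nat_lit 2) [] true,
   Spec.mk (nat_lit 7897) (nat_lit 0) [nat_lit 21019, nat_lit 3523, nat_lit 9355, nat_lit 8383, nat_lit 7735, nat_lit 7843, nat_lit 7951, nat_lit 7879, nat_lit 7915, nat_lit 7891, nat_lit 7903, nat_lit 7895, nat_lit 7899, nat_lit 27579] (nat_lit 0) [] false,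
   Spec.mk (nat_lit 7899) (nat_lit 0) [nat_lit 21021, nat_lit 3525, nat_lit 9357, nat_lit 8385, nat_lit 7737, nat_lit 7845, nat_lit 7953, nat_lit 7881, nat_lit 7917, nat_lit 7905, nat_lit 7897] (nat_lit 0) [] false,
   Spec.mk (nat_lit 7903) (nat_lit 0) [nat_lit 21025, nat_lit 3529, nat_lit 9361, nat_lit 8389, nat_lit 7741, nat_lit 7849, nat_lit 7957, nat_lit 7921, nat_lit 7897, nat_lit 7905, nat_lit 27585] (nat_lit 1) [] false,
   Spec.mk (nat_lit 7905) (nat_lit 1) [nat_lit 21027, nat_lit 3531, nat_lit 9363, nat_lit 8391, nat_lit 7743, nat_lit 7851, nat_lit 7959, nat_lit 7923, nat_lit 7899, nat_lit 7903] (nat_lit 0) [] false,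
   Spec.mk (nat_lit 7913) (nat_lit 0) [nat_lit 21035, nat_lit 3539, nat_lit 9371, nat_lit 8399, nat_lit 7751, nat_lit 7967, nat_lit 7895, nat_lit 7915, nat_lit 27595] (nat_lit 2) [] false,
   Spec.mk (nat_lit 7915) (nat_lit 0) [nat_lit 21037, nat_lit 3541, nat_lit 9373, nat_lit 8401, nat_lit 7753, nat_lit 7969, nat_lit 7897, nat_lit 7921, nat_lit 7913, nat_lit 7917, nat_lit 27597] (nat_lit 1) [] false,
   Spec.mk (nat_lit 7917) (nat_lit 0) [nat_lit 21039, nat_lit 3543, nat_lit 9375, nat_lit 8403, nat_lit 7755, nat_lit 7971, nat_lit 7899, nat_lit 7923, nat_lit 7915] (nat_lit 2) [] false,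
   Spec.mk (nat_lit 7921) (nat_lit 0) [nat_lit 21043, nat_lit 3547, nat_lit 9379, nat_lit 8407, nat_lit 7759, nat_lit 7975, nat_lit 7903, nat_lit 7915, nat_lit 7923, nat_lit 27603] (nat_lit 0) [] false,
   Spec.mk (nat_lit 7923) (nat_lit 1) [nat_lit 21045, nat_lit 3549, nat_lit 9381, nat_lit 8409, nat_lit 7761, nat_lit 7977, nat_lit 7905, nat_lit 7917, nat_lit 7929, nat_lit 7921] (nat_lit 0) [] false,
   Spec.mk (nat_lit 7929) (nat_lit 2) [nat_lit 21051, nat_lit 3555, nat_lit 9387, nat_lit 8415, nat_lit 7767, nat_lit 7983, nat_lit 7923] (nat_lit 0) [] false,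
   Spec.mk (nat_lit 7943) (nat_lit 0) [nat_lit 21065, nat_lit 3569, nat_lit 9401, nat_lit 8429, nat_lit 7889, nat_lit 7949, nat_lit 7945, nat_lit 27625] (nat_lit 0) [] false,
   Spec.mk (nat_lit 7945) (nat_lit 0) [nat_lit 21067, nat_lit 3571, nat_lit 9403, nat_lit 8431, nat_lit 7891, nat_lit 7951, nat_lit 7943, nat_lit 27627] (nat_lit 0) [] false,
   Spec.mk (nat_lit 7949) (nat_lit 0) [nat_lit 21071, nat_lit 3575, nat_lit 9407, nat_lit 8435, nat_lit 7895, nat_lit 7967, nat_lit 7943, nat_lit 7951, nat_lit 27631] (nat_lit 2) [] true,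
   Spec.mk (nat_lit 7951) (nat_lit 0) [nat_lit 21073, nat_lit 3577, nat_lit 9409, nat_lit 8437, nat_lit 7897, nat_lit 7969, nat_lit 7945, nat_lit 7957, nat_lit 7949, nat_lit 7953, nat_lit 27633] (nat_lit 0) [] false,
   Spec.mk (nat_lit 7953) (nat_lit 0) [nat_lit 21075, nat_lit 3579, nat_lit 9411, nat_lit 8439, nat_lit 7899, nat_lit 7971, nat_lit 7959, nat_lit 7951] (nat_lit 0) [] false,
   Spec.mk (nat_lit 7957) (nat_lit 0) [nat_lit 21079, nat_lit 3583, nat_lit 9415, nat_lit 8443, nat_lit 7903, nat_lit 7975, nat_lit 7951, nat_lit 7959, nat_lit 27639] (nat_lit 2) [] false,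
   Spec.mk (nat_lit 7959) (nat_lit 0) [nat_lit 21081, nat_lit 3585, nat_lit 9417, nat_lit 8445, nat_lit 7905, nat_lit 7977, nat_lit 7953, nat_lit 7957] (nat_lit 0) [] false,
   Spec.mk (nat_lit 7967) (nat_lit 0) [nat_lit 21089, nat_lit 3593, nat_lit 9425, nat_lit 8453, nat_lit 7913, nat_lit 7949, nat_lit 7969, nat_lit 27649] (nat_lit 0) [] false,
   Spec.mk (nat_lit 7969) (nat_lit 1) [nat_lit 21091, nat_lit 3595, nat_lit 9427, nat_lit 8455, nat_lit 7915, nat_lit 7951, nat_lit 7975, nat_lit 7967, nat_lit 7971, nat_lit 27651] (nat_lit 0) [] false,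
   Spec.mk (nat_lit 7971) (nat_lit 0) [nat_lit 21093, nat_lit 3597, nat_lit 9429, nat_lit 8457, nat_lit 7917, nat_lit 7953, nat_lit 7977, nat_lit 7969] (nat_lit 0) [] false,
   Spec.mk (nat_lit 7975) (nat_lit 1) [nat_lit 21097, nat_lit 3601, nat_lit 9433, nat_lit 8461, nat_lit 7921, nat_lit 7957, nat_lit 7993, nat_lit 7969, nat_lit 7977, nat_lit 27657] (nat_lit 0) [] false,
   Spec.mk (nat_lit 7977) (nat_lit 2) [nat_lit 21099, nat_lit 3603, nat_lit 9435, nat_lit 8463, nat_lit 7923, nat_lit 7959, nat_lit 7995, nat_lit 7971, nat_lit 7983, nat_lit 7975] (nat_lit 0) [] false,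
   Spec.mk (nat_lit 7983) (nat_lit 2) [nat_lit 21105, nat_lit 3609, nat_lit 9441, nat_lit 8469, nat_lit 7929, nat_lit 8001, nat_lit 7977] (nat_lit 0) [] false,
   Spec.mk (nat_lit 7993) (nat_lit 2) [nat_lit 21115, nat_lit 3619, nat_lit 9451, nat_lit 8479, nat_lit 7975, nat_lit 7995, nat_lit 27675] (nat_lit 0) [] false,
   Spec.mk (nat_lit 7995) (nat_lit 2) [nat_lit 21117, nat_lit 3621, nat_lit 9453, nat_lit 8481, nat_lit 7977, nat_lit 8001, nat_lit 7993] (nat_lit 0) [] false,
   Spec.mk (nat_lit 8001) (nat_lit 4) [nat_lit 21123, nat_lit 3627, nat_lit 9459, nat_lit 8487, nat_lit 7983, nat_lit 7995] (nat_lit 0) [] false,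
   Spec.mk (nat_lit 8045) (nat_lit 0) [nat_lit 21167, nat_lit 3671, nat_lit 9503, nat_lit 7559, nat_lit 8063, nat_lit 27727] (nat_lit 0) [] false,
   Spec.mk (nat_lit 8063) (nat_lit 0) [nat_lit 21185, nat_lit 3689, nat_lit 9521, nat_lit 7577, nat_lit 8117, nat_lit 8045, nat_lit 8081, nat_lit 8069, nat_lit 27745] (nat_lit 1) [] false,
   Spec.mk (nat_lit 8069) (nat_lit 0) [nat_lit 21191, nat_lit 3695, nat_lit 9527, nat_lit 7583, nat_lit 8123, nat_lit 8087, nat_lit 8063, nat_lit 8071, nat_lit 27751] (nat_lit 2) [] false,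
   Spec.mk (nat_lit 8071) (nat_lit 0) [nat_lit 21193, nat_lit 3697, nat_lit 9529, nat_lit 7585, nat_lit 8125, nat_lit 8089, nat_lit 8069, nat_lit 27753] (nat_lit 0) [] false,
   Spec.mk (nat_lit 8081) (nat_lit 0) [nat_lit 21203, nat_lit 3707, nat_lit 9539, nat_lit 7595, nat_lit 8135, nat_lit 8063, nat_lit 8087, nat_lit 27763] (nat_lit 4) [] false,
   Spec.mk (nat_lit 8087) (nat_lit 0) [nat_lit 21209, nat_lit 3713, nat_lit 9545, nat_lit 7601, nat_lit 8141, nat_lit 8069, nat_lit 8081, nat_lit 8093, nat_lit 8089, nat_lit 27769] (nat_lit 3) [] false,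
   Spec.mk (nat_lit 8089) (nat_lit 0) [nat_lit 21211, nat_lit 3715, nat_lit 9547, nat_lit 7603, nat_lit 8143, nat_lit 8071, nat_lit 8095, nat_lit 8087, nat_lit 27771] (nat_lit 2) [] false,
   Spec.mk (nat_lit 8093) (nat_lit 0) [nat_lit 21215, nat_lit 3719, nat_lit 9551, nat_lit 7607, nat_lit 8147, nat_lit 8087, nat_lit 8095, nat_lit 27775] (nat_lit 4) [] false,
   Spec.mk (nat_lit 8095) (nat_lit 0) [nat_lit 21217, nat_lit 3721, nat_lit 9553, nat_lit 7609, nat_lit 8149, nat_lit 8089, nat_lit 8093, nat_lit 8097, nat_lit 27777] (nat_lit 1) [] false,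
   Spec.mk (nat_lit 8097) (nat_lit 0) [nat_lit 21219, nat_lit 3723, nat_lit 9555, nat_lit 7611, nat_lit 8151, nat_lit 8095] (nat_lit 0) [] false,
   Spec.mk (nat_lit 8117) (nat_lit 0) [nat_lit 21239, nat_lit 3743, nat_lit 9575, nat_lit 7631, nat_lit 8279, nat_lit 8063, nat_lit 8135, nat_lit 8123, nat_lit 27799] (nat_lit 2) [] false,
   Spec.mk (nat_lit 8123) (nat_lit 0) [nat_lit 21245, nat_lit 3749, nat_lit 9581, nat_lit 7637, nat_lit 8285, nat_lit 8069, nat_lit 8141, nat_lit 8117, nat_lit 8125, nat_lit 27805] (nat_lit 4) [] true,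
   Spec.mk (nat_lit 8125) (nat_lit 0) [nat_lit 21247, nat_lit 3751, nat_lit 9583, nat_lit 7639, nat_lit 8287, nat_lit 8071, nat_lit 8143, nat_lit 8123, nat_lit 27807] (nat_lit 2) [] false,
   Spec.mk (nat_lit 8135) (nat_lit 0) [nat_lit 21257, nat_lit 3761, nat_lit 9593, nat_lit 7649, nat_lit 8297, nat_lit 8081, nat_lit 8189, nat_lit 8117, nat_lit 8141, nat_lit 27817] (nat_lit 3) [] true,
   Spec.mk (nat_lit 8141) (nat_lit 0) [nat_lit 21263, nat_lit 3767, nat_lit 9599, nat_lit 7655, nat_lit 8303, nat_lit 8087, nat_lit 8195, nat_lit 8123, nat_lit 8159, nat_lit 8135, nat_lit 8147, nat_lit 8143, nat_lit 27823] (nat_lit 3) [] true,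
   Spec.mk (nat_lit 8143) (nat_lit 0) [nat_lit 21265, nat_lit 3769, nat_lit 9601, nat_lit 7657, nat_lit 8305, nat_lit 8089, nat_lit 8197, nat_lit 8125, nat_lit 8161, nat_lit 8149, nat_lit 8141, nat_lit 27825] (nat_lit 2) [] false,
   Spec.mk (nat_lit 8147) (nat_lit 0) [nat_lit 21269, nat_lit 3773, nat_lit 9605, nat_lit 7661, nat_lit 8309, nat_lit 8093, nat_lit 8201, nat_lit 8165, nat_lit 8141, nat_lit 8149, nat_lit 27829] (nat_lit 5) [] true,
   Spec.mk (nat_lit 8149) (nat_lit 0) [nat_lit 21271, nat_lit 3775, nat_lit 9607, nat_lit 7663, nat_lit 8311, nat_lit 8095, nat_lit 8203, nat_lit 8167, nat_lit 8143, nat_lit 8147, nat_lit 8151, nat_lit 27831] (nat_lit 2) [] false,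
   Spec.mk (nat_lit 8151) (nat_lit 0) [nat_lit 21273, nat_lit 3777, nat_lit 9609, nat_lit 7665, nat_lit 8313, nat_lit 8097, nat_lit 8205, nat_lit 8169, nat_lit 8149] (nat_lit 1) [] false,
   Spec.mk (nat_lit 8159) (nat_lit 0) [nat_lit 21281, nat_lit 3785, nat_lit 9617, nat_lit 7673, nat_lit 8321, nat_lit 8213, nat_lit 8141, nat_lit 8165, nat_lit 8161, nat_lit 27841] (nat_lit 4) [] true,
   Spec.mk (nat_lit 8161) (nat_lit 0) [nat_lit 21283, nat_lit 3787, nat_lit 9619, nat_lit 7675, nat_lit 8323, nat_lit 8215, nat_lit 8143, nat_lit 8167, nat_lit 8159, nat_lit 27843] (nat_lit 4) [] false,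
   Spec.mk (nat_lit 8165) (nat_lit 0) [nat_lit 21287, nat_lit 3791, nat_lit 9623, nat_lit 7679, nat_lit 8327, nat_lit 8219, nat_lit 8147, nat_lit 8159, nat_lit 8167, nat_lit 27847] (nat_lit 4) [] true,
   Spec.mk (nat_lit 8167) (nat_lit 0) [nat_lit 21289, nat_lit 3793, nat_lit 9625, nat_lit 7681, nat_lit 8329, nat_lit 8221, nat_lit 8149, nat_lit 8161, nat_lit 8173, nat_lit 8165, nat_lit 8169, nat_lit 27849] (nat_lit 2) [] false,
   Spec.mk (nat_lit 8169) (nat_lit 0) [nat_lit 21291, nat_lit 3795, nat_lit 9627, nat_lit 7683, nat_lit 8331, nat_lit 8223, nat_lit 8151, nat_lit 8175, nat_lit 8167] (nat_lit 2) [] false,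
   Spec.mk (nat_lit 8173) (nat_lit 0) [nat_lit 21295, nat_lit 3799, nat_lit 9631, nat_lit 7687, nat_lit 8335, nat_lit 8227, nat_lit 8167, nat_lit 8175, nat_lit 27855] (nat_lit 2) [] false,
   Spec.mk (nat_lit 8175) (nat_lit 0) [nat_lit 21297, nat_lit 3801, nat_lit 9633, nat_lit 7689, nat_lit 8337, nat_lit 8229, nat_lit 8169, nat_lit 8173] (nat_lit 0) [] false,
   Spec.mk (nat_lit 8189) (nat_lit 0) [nat_lit 21311, nat_lit 3815, nat_lit 9647, nat_lit 7703, nat_lit 8351, nat_lit 8135, nat_lit 8195, nat_lit 27871] (nat_lit 4) [] false,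
   Spec.mk (nat_lit 8195) (nat_lit 0) [nat_lit 21317, nat_lit 3821, nat_lit 9653, nat_lit 7709, nat_lit 8357, nat_lit 8141, nat_lit 8213, nat_lit 8189, nat_lit 8201, nat_lit 8197, nat_lit 27877] (nat_lit 5) [] true]

noncomputable def sp21 : List Spec :=
  [Spec.mk (nat_lit 8197) (nat_lit 0) [nat_lit 21319, nat_lit 3823, nat_lit 9655, nat_lit 7711, nat_lit 8359, nat_lit 8143, nat_lit 8215, nat_lit 8203, nat_lit 8195, nat_lit 27879] (nat_lit 4) [] false,
   Spec.mk (nat_lit 8201) (nat_lit 0) [nat_lit 21323, nat_lit 3827, nat_lit 9659, nat_lit 7715, nat_lit 8363, nat_lit 8147, nat_lit 8219, nat_lit 8195, nat_lit 8203, nat_lit 27883] (nat_lit 8) [] true,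
   Spec.mk (nat_lit 8203) (nat_lit 0) [nat_lit 21325, nat_lit 3829, nat_lit 9661, nat_lit 7717, nat_lit 8365, nat_lit 8149, nat_lit 8221, nat_lit 8197, nat_lit 8201, nat_lit 8205, nat_lit 27885] (nat_lit 5) [] false,
   Spec.mk (nat_lit 8205) (nat_lit 0) [nat_lit 21327, nat_lit 3831, nat_lit 9663, nat_lit 7719, nat_lit 8367, nat_lit 8151, nat_lit 8223, nat_lit 8203] (nat_lit 4) [] false,
   Spec.mk (nat_lit 8213) (nat_lit 0) [nat_lit 21335, nat_lit 3839, nat_lit 9671, nat_lit 7727, nat_lit 8375, nat_lit 8159, nat_lit 8195, nat_lit 8219, nat_lit 8215, nat_lit 27895] (nat_lit 4) [] true,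
   Spec.mk (nat_lit 8215) (nat_lit 0) [nat_lit 21337, nat_lit 3841, nat_lit 9673, nat_lit 7729, nat_lit 8377, nat_lit 8161, nat_lit 8197, nat_lit 8221, nat_lit 8213, nat_lit 27897] (nat_lit 4) [] false,
   Spec.mk (nat_lit 8219) (nat_lit 0) [nat_lit 21341, nat_lit 3845, nat_lit 9677, nat_lit 7733, nat_lit 8381, nat_lit 8165, nat_lit 8201, nat_lit 8237, nat_lit 8213, nat_lit 8221, nat_lit 27901] (nat_lit 5) [] false,
   Spec.mk (nat_lit 8221) (nat_lit 0) [nat_lit 21343, nat_lit 3847, nat_lit 9679, nat_lit 7735, nat_lit 8383, nat_lit 8167, nat_lit 8203, nat_lit 8239, nat_lit 8215, nat_lit 8227, nat_lit 8219, nat_lit 8223, nat_lit 27903] (nat_lit 3) [] false,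
   Spec.mk (nat_lit 8223) (nat_lit 0) [nat_lit 21345, nat_lit 3849, nat_lit 9681, nat_lit 7737, nat_lit 8385, nat_lit 8169, nat_lit 8205, nat_lit 8241, nat_lit 8229, nat_lit 8221] (nat_lit 3) [] false,
   Spec.mk (nat_lit 8227) (nat_lit 0) [nat_lit 21349, nat_lit 3853, nat_lit 9685, nat_lit 7741, nat_lit 8389, nat_lit 8173, nat_lit 8245, nat_lit 8221, nat_lit 8229, nat_lit 27909] (nat_lit 4) [] false,
   Spec.mk (nat_lit 8229) (nat_lit 0) [nat_lit 21351, nat_lit 3855, nat_lit 9687, nat_lit 7743, nat_lit 8391, nat_lit 8175, nat_lit 8247, nat_lit 8223, nat_lit 8227] (nat_lit 2) [] false,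
   Spec.mk (nat_lit 8237) (nat_lit 0) [nat_lit 21359, nat_lit 3863, nat_lit 9695, nat_lit 7751, nat_lit 8399, nat_lit 8219, nat_lit 8239, nat_lit 27919] (nat_lit 4) [] false,
   Spec.mk (nat_lit 8239) (nat_lit 0) [nat_lit 21361, nat_lit 3865, nat_lit 9697, nat_lit 7753, nat_lit 8401, nat_lit 8221, nat_lit 8245, nat_lit 8237, nat_lit 8241, nat_lit 27921] (nat_lit 3) [] false,
   Spec.mk (nat_lit 8241) (nat_lit 0) [nat_lit 21363, nat_lit 3867, nat_lit 9699, nat_lit 7755, nat_lit 8403, nat_lit 8223, nat_lit 8247, nat_lit 8239] (nat_lit 4) [] false,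
   Spec.mk (nat_lit 8245) (nat_lit 0) [nat_lit 21367, nat_lit 3871, nat_lit 9703, nat_lit 7759, nat_lit 8407, nat_lit 8227, nat_lit 8239, nat_lit 8247, nat_lit 27927] (nat_lit 2) [] false,
   Spec.mk (nat_lit 8247) (nat_lit 0) [nat_lit 21369, nat_lit 3873, nat_lit 9705, nat_lit 7761, nat_lit 8409, nat_lit 8229, nat_lit 8241, nat_lit 8253, nat_lit 8245] (nat_lit 1) [] false,
   Spec.mk (nat_lit 8253) (nat_lit 0) [nat_lit 21375, nat_lit 3879, nat_lit 9711, nat_lit 7767, nat_lit 8415, nat_lit 8247] (nat_lit 0) [] false,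
   Spec.mk (nat_lit 8279) (nat_lit 0) [nat_lit 21401, nat_lit 3905, nat_lit 9737, nat_lit 7793, nat_lit 8117, nat_lit 8297, nat_lit 8285, nat_lit 27961] (nat_lit 0) [] false,
   Spec.mk (nat_lit 8285) (nat_lit 0) [nat_lit 21407, nat_lit 3911, nat_lit 9743, nat_lit 7799, nat_lit 8123, nat_lit 8303, nat_lit 8279, nat_lit 8287, nat_lit 27967] (nat_lit 2) [] false,
   Spec.mk (nat_lit 8287) (nat_lit 0) [nat_lit 21409, nat_lit 3913, nat_lit 9745, nat_lit 7801, nat_lit 8125, nat_lit 8305, nat_lit 8285, nat_lit 27969] (nat_lit 0) [] false,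
   Spec.mk (nat_lit 8297) (nat_lit 0) [nat_lit 21419, nat_lit 3923, nat_lit 9755, nat_lit 7811, nat_lit 8135, nat_lit 8351, nat_lit 8279, nat_lit 8303, nat_lit 27979] (nat_lit 2) [] false,
   Spec.mk (nat_lit 8303) (nat_lit 0) [nat_lit 21425, nat_lit 3929, nat_lit 9761, nat_lit 7817, nat_lit 8141, nat_lit 8357, nat_lit 8285, nat_lit 8321, nat_lit 8297, nat_lit 8309, nat_lit 8305, nat_lit 27985] (nat_lit 2) [] true,
   Spec.mk (nat_lit 8305) (nat_lit 0) [nat_lit 21427, nat_lit 3931, nat_lit 9763, nat_lit 7819, nat_lit 8143, nat_lit 8359, nat_lit 8287, nat_lit 8323, nat_lit 8311, nat_lit 8303, nat_lit 27987] (nat_lit 1) [] false,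
   Spec.mk (nat_lit 8309) (nat_lit 0) [nat_lit 21431, nat_lit 3935, nat_lit 9767, nat_lit 7823, nat_lit 8147, nat_lit 8363, nat_lit 8327, nat_lit 8303, nat_lit 8311, nat_lit 27991] (nat_lit 4) [] false,
   Spec.mk (nat_lit 8311) (nat_lit 0) [nat_lit 21433, nat_lit 3937, nat_lit 9769, nat_lit 7825, nat_lit 8149, nat_lit 8365, nat_lit 8329, nat_lit 8305, nat_lit 8309, nat_lit 8313, nat_lit 27993] (nat_lit 1) [] false,
   Spec.mk (nat_lit 8313) (nat_lit 0) [nat_lit 21435, nat_lit 3939, nat_lit 9771, nat_lit 7827, nat_lit 8151, nat_lit 8367, nat_lit 8331, nat_lit 8311] (nat_lit 0) [] false,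
   Spec.mk (nat_lit 8321) (nat_lit 0) [nat_lit 21443, nat_lit 3947, nat_lit 9779, nat_lit 7835, nat_lit 8159, nat_lit 8375, nat_lit 8303, nat_lit 8327, nat_lit 8323, nat_lit 28003] (nat_lit 4) [] true,
   Spec.mk (nat_lit 8323) (nat_lit 0) [nat_lit 21445, nat_lit 3949, nat_lit 9781, nat_lit 7837, nat_lit 8161, nat_lit 8377, nat_lit 8305, nat_lit 8329, nat_lit 8321, nat_lit 28005] (nat_lit 4) [] false,
   Spec.mk (nat_lit 8327) (nat_lit 0) [nat_lit 21449, nat_lit 3953, nat_lit 9785, nat_lit 7841, nat_lit 8165, nat_lit 8381, nat_lit 8309, nat_lit 8321, nat_lit 8329, nat_lit 28009] (nat_lit 4) [] false,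
   Spec.mk (nat_lit 8329) (nat_lit 0) [nat_lit 21451, nat_lit 3955, nat_lit 9787, nat_lit 7843, nat_lit 8167, nat_lit 8383, nat_lit 8311, nat_lit 8323, nat_lit 8335, nat_lit 8327, nat_lit 8331, nat_lit 28011] (nat_lit 2) [] false,
   Spec.mk (nat_lit 8331) (nat_lit 0) [nat_lit 21453, nat_lit 3957, nat_lit 9789, nat_lit 7845, nat_lit 8169, nat_lit 8385, nat_lit 8313, nat_lit 8337, nat_lit 8329] (nat_lit 2) [] false,
   Spec.mk (nat_lit 8335) (nat_lit 0) [nat_lit 21457, nat_lit 3961, nat_lit 9793, nat_lit 7849, nat_lit 8173, nat_lit 8389, nat_lit 8329, nat_lit 8337, nat_lit 28017] (nat_lit 2) [] false,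
   Spec.mk (nat_lit 8337) (nat_lit 0) [nat_lit 21459, nat_lit 3963, nat_lit 9795, nat_lit 7851, nat_lit 8175, nat_lit 8391, nat_lit 8331, nat_lit 8335] (nat_lit 0) [] false,
   Spec.mk (nat_lit 8351) (nat_lit 0) [nat_lit 21473, nat_lit 3977, nat_lit 9809, nat_lit 7865, nat_lit 8189, nat_lit 8513, nat_lit 8297, nat_lit 8357, nat_lit 28033] (nat_lit 1) [] false,
   Spec.mk (nat_lit 8357) (nat_lit 0) [nat_lit 21479, nat_lit 3983, nat_lit 9815, nat_lit 7871, nat_lit 8195, nat_lit 8519, nat_lit 8303, nat_lit 8375, nat_lit 8351, nat_lit 8363, nat_lit 8359, nat_lit 28039] (nat_lit 2) [] true,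
   Spec.mk (nat_lit 8359) (nat_lit 0) [nat_lit 21481, nat_lit 3985, nat_lit 9817, nat_lit 7873, nat_lit 8197, nat_lit 8521, nat_lit 8305, nat_lit 8377, nat_lit 8365, nat_lit 8357, nat_lit 28041] (nat_lit 1) [] false,
   Spec.mk (nat_lit 8363) (nat_lit 0) [nat_lit 21485, nat_lit 3989, nat_lit 9821, nat_lit 7877, nat_lit 8201, nat_lit 8525, nat_lit 8309, nat_lit 8381, nat_lit 8357, nat_lit 8365, nat_lit 28045] (nat_lit 5) [] false,
   Spec.mk (nat_lit 8365) (nat_lit 0) [nat_lit 21487, nat_lit 3991, nat_lit 9823, nat_lit 7879, nat_lit 8203, nat_lit 8527, nat_lit 8311, nat_lit 8383, nat_lit 8359, nat_lit 8363, nat_lit 8367, nat_lit 28047] (nat_lit 2) [] false,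
   Spec.mk (nat_lit 8367) (nat_lit 0) [nat_lit 21489, nat_lit 3993, nat_lit 9825, nat_lit 7881, nat_lit 8205, nat_lit 8529, nat_lit 8313, nat_lit 8385, nat_lit 8365] (nat_lit 1) [] false,
   Spec.mk (nat_lit 8375) (nat_lit 0) [nat_lit 21497, nat_lit 4001, nat_lit 9833, nat_lit 7889, nat_lit 8213, nat_lit 8537, nat_lit 8321, nat_lit 8429, nat_lit 8357, nat_lit 8381, nat_lit 8377, nat_lit 28057] (nat_lit 2) [] false,
   Spec.mk (nat_lit 8377) (nat_lit 0) [nat_lit 21499, nat_lit 4003, nat_lit 9835, nat_lit 7891, nat_lit 8215, nat_lit 8539, nat_lit 8323, nat_lit 8431, nat_lit 8359, nat_lit 8383, nat_lit 8375, nat_lit 28059] (nat_lit 2) [] false,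
   Spec.mk (nat_lit 8381) (nat_lit 0) [nat_lit 21503, nat_lit 4007, nat_lit 9839, nat_lit 7895, nat_lit 8219, nat_lit 8543, nat_lit 8327, nat_lit 8435, nat_lit 8363, nat_lit 8399, nat_lit 8375, nat_lit 8383, nat_lit 28063] (nat_lit 3) [] false,
   Spec.mk (nat_lit 8383) (nat_lit 0) [nat_lit 21505, nat_lit 4009, nat_lit 9841, nat_lit 7897, nat_lit 8221, nat_lit 8545, nat_lit 8329, nat_lit 8437, nat_lit 8365, nat_lit 8401, nat_lit 8377, nat_lit 8389, nat_lit 8381, nat_lit 8385, nat_lit 28065] (nat_lit 1) [] false,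
   Spec.mk (nat_lit 8385) (nat_lit 0) [nat_lit 21507, nat_lit 4011, nat_lit 9843, nat_lit 7899, nat_lit 8223, nat_lit 8547, nat_lit 8331, nat_lit 8439, nat_lit 8367, nat_lit 8403, nat_lit 8391, nat_lit 8383] (nat_lit 1) [] false,
   Spec.mk (nat_lit 8389) (nat_lit 0) [nat_lit 21511, nat_lit 4015, nat_lit 9847, nat_lit 7903, nat_lit 8227, nat_lit 8551, nat_lit 8335, nat_lit 8443, nat_lit 8407, nat_lit 8383, nat_lit 8391, nat_lit 28071] (nat_lit 2) [] false,
   Spec.mk (nat_lit 8391) (nat_lit 0) [nat_lit 21513, nat_lit 4017, nat_lit 9849, nat_lit 7905, nat_lit 8229, nat_lit 8553, nat_lit 8337, nat_lit 8445, nat_lit 8409, nat_lit 8385, nat_lit 8389] (nat_lit 0) [] false,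
   Spec.mk (nat_lit 8399) (nat_lit 0) [nat_lit 21521, nat_lit 4025, nat_lit 9857, nat_lit 7913, nat_lit 8237, nat_lit 8561, nat_lit 8453, nat_lit 8381, nat_lit 8401, nat_lit 28081] (nat_lit 3) [] false,
   Spec.mk (nat_lit 8401) (nat_lit 0) [nat_lit 21523, nat_lit 4027, nat_lit 9859, nat_lit 7915, nat_lit 8239, nat_lit 8563, nat_lit 8455, nat_lit 8383, nat_lit 8407, nat_lit 8399, nat_lit 8403, nat_lit 28083] (nat_lit 2) [] false,
   Spec.mk (nat_lit 8403) (nat_lit 0) [nat_lit 21525, nat_lit 4029, nat_lit 9861, nat_lit 7917, nat_lit 8241, nat_lit 8565, nat_lit 8457, nat_lit 8385, nat_lit 8409, nat_lit 8401] (nat_lit 3) [] false,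
   Spec.mk (nat_lit 8407) (nat_lit 0) [nat_lit 21529, nat_lit 4033, nat_lit 9865, nat_lit 7921, nat_lit 8245, nat_lit 8569, nat_lit 8461, nat_lit 8389, nat_lit 8401, nat_lit 8409, nat_lit 28089] (nat_lit 1) [] false,
   Spec.mk (nat_lit 8409) (nat_lit 0) [nat_lit 21531, nat_lit 4035, nat_lit 9867, nat_lit 7923, nat_lit 8247, nat_lit 8571, nat_lit 8463, nat_lit 8391, nat_lit 8403, nat_lit 8415, nat_lit 8407] (nat_lit 0) [] false,
   Spec.mk (nat_lit 8415) (nat_lit 1) [nat_lit 21537, nat_lit 4041, nat_lit 9873, nat_lit 7929, nat_lit 8253, nat_lit 8577, nat_lit 8469, nat_lit 8409] (nat_lit 0) [] false,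
   Spec.mk (nat_lit 8429) (nat_lit 0) [nat_lit 21551, nat_lit 4055, nat_lit 9887, nat_lit 7943, nat_lit 8591, nat_lit 8375, nat_lit 8435, nat_lit 8431, nat_lit 28111] (nat_lit 2) [] false,
   Spec.mk (nat_lit 8431) (nat_lit 0) [nat_lit 21553, nat_lit 4057, nat_lit 9889, nat_lit 7945, nat_lit 8593, nat_lit 8377, nat_lit 8437, nat_lit 8429, nat_lit 28113] (nat_lit 2) [] false,
   Spec.mk (nat_lit 8435) (nat_lit 0) [nat_lit 21557, nat_lit 4061, nat_lit 9893, nat_lit 7949, nat_lit 8597, nat_lit 8381, nat_lit 8453, nat_lit 8429, nat_lit 8437, nat_lit 28117] (nat_lit 4) [] false,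
   Spec.mk (nat_lit 8437) (nat_lit 0) [nat_lit 21559, nat_lit 4063, nat_lit 9895, nat_lit 7951, nat_lit 8599, nat_lit 8383, nat_lit 8455, nat_lit 8431, nat_lit 8443, nat_lit 8435, nat_lit 8439, nat_lit 28119] (nat_lit 2) [] false,
   Spec.mk (nat_lit 8439) (nat_lit 0) [nat_lit 21561, nat_lit 4065, nat_lit 9897, nat_lit 7953, nat_lit 8601, nat_lit 8385, nat_lit 8457, nat_lit 8445, nat_lit 8437] (nat_lit 2) [] false,
   Spec.mk (nat_lit 8443) (nat_lit 0) [nat_lit 21565, nat_lit 4069, nat_lit 9901, nat_lit 7957, nat_lit 8605, nat_lit 8389, nat_lit 8461, nat_lit 8437, nat_lit 8445, nat_lit 28125] (nat_lit 4) [] false,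
   Spec.mk (nat_lit 8445) (nat_lit 0) [nat_lit 21567, nat_lit 4071, nat_lit 9903, nat_lit 7959, nat_lit 8607, nat_lit 8391, nat_lit 8463, nat_lit 8439, nat_lit 8443] (nat_lit 2) [] false,
   Spec.mk (nat_lit 8453) (nat_lit 0) [nat_lit 21575, nat_lit 4079, nat_lit 9911, nat_lit 7967, nat_lit 8615, nat_lit 8399, nat_lit 8435, nat_lit 8455, nat_lit 28135] (nat_lit 2) [] false]

noncomputable def sp22 : List Spec :=
  [Spec.mk (nat_lit 8455) (nat_lit 0) [nat_lit 21577, nat_lit 4081, nat_lit 9913, nat_lit 7969, nat_lit 8617, nat_lit 8401, nat_lit 8437, nat_lit 8461, nat_lit 8453, nat_lit 8457, nat_lit 28137] (nat_lit 1) [] false,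
   Spec.mk (nat_lit 8457) (nat_lit 0) [nat_lit 21579, nat_lit 4083, nat_lit 9915, nat_lit 7971, nat_lit 8619, nat_lit 8403, nat_lit 8439, nat_lit 8463, nat_lit 8455] (nat_lit 2) [] false,
   Spec.mk (nat_lit 8461) (nat_lit 0) [nat_lit 21583, nat_lit 4087, nat_lit 9919, nat_lit 7975, nat_lit 8623, nat_lit 8407, nat_lit 8443, nat_lit 8479, nat_lit 8455, nat_lit 8463, nat_lit 28143] (nat_lit 1) [] false,
   Spec.mk (nat_lit 8463) (nat_lit 0) [nat_lit 21585, nat_lit 4089, nat_lit 9921, nat_lit 7977, nat_lit 8625, nat_lit 8409, nat_lit 8445, nat_lit 8481, nat_lit 8457, nat_lit 8469, nat_lit 8461] (nat_lit 0) [] false,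
   Spec.mk (nat_lit 8469) (nat_lit 0) [nat_lit 21591, nat_lit 4095, nat_lit 9927, nat_lit 7983, nat_lit 8631, nat_lit 8415, nat_lit 8487, nat_lit 8463] (nat_lit 0) [] false,
   Spec.mk (nat_lit 8479) (nat_lit 0) [nat_lit 21601, nat_lit 4105, nat_lit 9937, nat_lit 7993, nat_lit 8641, nat_lit 8461, nat_lit 8481, nat_lit 28161] (nat_lit 0) [] false,
   Spec.mk (nat_lit 8481) (nat_lit 0) [nat_lit 21603, nat_lit 4107, nat_lit 9939, nat_lit 7995, nat_lit 8643, nat_lit 8463, nat_lit 8487, nat_lit 8479] (nat_lit 0) [] false,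
   Spec.mk (nat_lit 8487) (nat_lit 2) [nat_lit 21609, nat_lit 4113, nat_lit 9945, nat_lit 8001, nat_lit 8649, nat_lit 8469, nat_lit 8481] (nat_lit 0) [] false,
   Spec.mk (nat_lit 8513) (nat_lit 0) [nat_lit 21635, nat_lit 4139, nat_lit 9971, nat_lit 8351, nat_lit 8519, nat_lit 28195] (nat_lit 0) [] false,
   Spec.mk (nat_lit 8519) (nat_lit 0) [nat_lit 21641, nat_lit 4145, nat_lit 9977, nat_lit 8357, nat_lit 8537, nat_lit 8513, nat_lit 8525, nat_lit 8521, nat_lit 28201] (nat_lit 1) [] false,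
   Spec.mk (nat_lit 8521) (nat_lit 0) [nat_lit 21643, nat_lit 4147, nat_lit 9979, nat_lit 8359, nat_lit 8539, nat_lit 8527, nat_lit 8519, nat_lit 28203] (nat_lit 0) [] false,
   Spec.mk (nat_lit 8525) (nat_lit 0) [nat_lit 21647, nat_lit 4151, nat_lit 9983, nat_lit 8363, nat_lit 8543, nat_lit 8519, nat_lit 8527, nat_lit 28207] (nat_lit 4) [] false,
   Spec.mk (nat_lit 8527) (nat_lit 0) [nat_lit 21649, nat_lit 4153, nat_lit 9985, nat_lit 8365, nat_lit 8545, nat_lit 8521, nat_lit 8525, nat_lit 8529, nat_lit 28209] (nat_lit 1) [] false,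
   Spec.mk (nat_lit 8529) (nat_lit 0) [nat_lit 21651, nat_lit 4155, nat_lit 9987, nat_lit 8367, nat_lit 8547, nat_lit 8527] (nat_lit 0) [] false,
   Spec.mk (nat_lit 8537) (nat_lit 0) [nat_lit 21659, nat_lit 4163, nat_lit 9995, nat_lit 8375, nat_lit 8591, nat_lit 8519, nat_lit 8543, nat_lit 8539, nat_lit 28219] (nat_lit 2) [] false,
   Spec.mk (nat_lit 8539) (nat_lit 0) [nat_lit 21661, nat_lit 4165, nat_lit 9997, nat_lit 8377, nat_lit 8593, nat_lit 8521, nat_lit 8545, nat_lit 8537, nat_lit 28221] (nat_lit 2) [] false,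
   Spec.mk (nat_lit 8543) (nat_lit 0) [nat_lit 21665, nat_lit 4169, nat_lit 10001, nat_lit 8381, nat_lit 8597, nat_lit 8525, nat_lit 8561, nat_lit 8537, nat_lit 8545, nat_lit 28225] (nat_lit 3) [] false,
   Spec.mk (nat_lit 8545) (nat_lit 0) [nat_lit 21667, nat_lit 4171, nat_lit 10003, nat_lit 8383, nat_lit 8599, nat_lit 8527, nat_lit 8563, nat_lit 8539, nat_lit 8551, nat_lit 8543, nat_lit 8547, nat_lit 28227] (nat_lit 1) [] false,
   Spec.mk (nat_lit 8547) (nat_lit 0) [nat_lit 21669, nat_lit 4173, nat_lit 10005, nat_lit 8385, nat_lit 8601, nat_lit 8529, nat_lit 8565, nat_lit 8553, nat_lit 8545] (nat_lit 1) [] false,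
   Spec.mk (nat_lit 8551) (nat_lit 0) [nat_lit 21673, nat_lit 4177, nat_lit 10009, nat_lit 8389, nat_lit 8605, nat_lit 8569, nat_lit 8545, nat_lit 8553, nat_lit 28233] (nat_lit 2) [] false,
   Spec.mk (nat_lit 8553) (nat_lit 0) [nat_lit 21675, nat_lit 4179, nat_lit 10011, nat_lit 8391, nat_lit 8607, nat_lit 8571, nat_lit 8547, nat_lit 8551] (nat_lit 0) [] false,
   Spec.mk (nat_lit 8561) (nat_lit 0) [nat_lit 21683, nat_lit 4187, nat_lit 10019, nat_lit 8399, nat_lit 8615, nat_lit 8543, nat_lit 8563, nat_lit 28243] (nat_lit 4) [] false,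
   Spec.mk (nat_lit 8563) (nat_lit 0) [nat_lit 21685, nat_lit 4189, nat_lit 10021, nat_lit 8401, nat_lit 8617, nat_lit 8545, nat_lit 8569, nat_lit 8561, nat_lit 8565, nat_lit 28245] (nat_lit 3) [] false,
   Spec.mk (nat_lit 8565) (nat_lit 0) [nat_lit 21687, nat_lit 4191, nat_lit 10023, nat_lit 8403, nat_lit 8619, nat_lit 8547, nat_lit 8571, nat_lit 8563] (nat_lit 4) [] false,
   Spec.mk (nat_lit 8569) (nat_lit 0) [nat_lit 21691, nat_lit 4195, nat_lit 10027, nat_lit 8407, nat_lit 8623, nat_lit 8551, nat_lit 8563, nat_lit 8571, nat_lit 28251] (nat_lit 2) [] false,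
   Spec.mk (nat_lit 8571) (nat_lit 0) [nat_lit 21693, nat_lit 4197, nat_lit 10029, nat_lit 8409, nat_lit 8625, nat_lit 8553, nat_lit 8565, nat_lit 8577, nat_lit 8569] (nat_lit 1) [] false,
   Spec.mk (nat_lit 8577) (nat_lit 0) [nat_lit 21699, nat_lit 4203, nat_lit 10035, nat_lit 8415, nat_lit 8631, nat_lit 8571] (nat_lit 0) [] false,
   Spec.mk (nat_lit 8591) (nat_lit 0) [nat_lit 21713, nat_lit 4217, nat_lit 10049, nat_lit 8429, nat_lit 8537, nat_lit 8597, nat_lit 8593, nat_lit 28273] (nat_lit 0) [] false,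
   Spec.mk (nat_lit 8593) (nat_lit 0) [nat_lit 21715, nat_lit 4219, nat_lit 10051, nat_lit 8431, nat_lit 8539, nat_lit 8599, nat_lit 8591, nat_lit 28275] (nat_lit 0) [] false,
   Spec.mk (nat_lit 8597) (nat_lit 0) [nat_lit 21719, nat_lit 4223, nat_lit 10055, nat_lit 8435, nat_lit 8543, nat_lit 8615, nat_lit 8591, nat_lit 8599, nat_lit 28279] (nat_lit 2) [] false,
   Spec.mk (nat_lit 8599) (nat_lit 0) [nat_lit 21721, nat_lit 4225, nat_lit 10057, nat_lit 8437, nat_lit 8545, nat_lit 8617, nat_lit 8593, nat_lit 8605, nat_lit 8597, nat_lit 8601, nat_lit 28281] (nat_lit 0) [] false,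
   Spec.mk (nat_lit 8601) (nat_lit 0) [nat_lit 21723, nat_lit 4227, nat_lit 10059, nat_lit 8439, nat_lit 8547, nat_lit 8619, nat_lit 8607, nat_lit 8599] (nat_lit 0) [] false,
   Spec.mk (nat_lit 8605) (nat_lit 0) [nat_lit 21727, nat_lit 4231, nat_lit 10063, nat_lit 8443, nat_lit 8551, nat_lit 8623, nat_lit 8599, nat_lit 8607, nat_lit 28287] (nat_lit 2) [] false,
   Spec.mk (nat_lit 8607) (nat_lit 0) [nat_lit 21729, nat_lit 4233, nat_lit 10065, nat_lit 8445, nat_lit 8553, nat_lit 8625, nat_lit 8601, nat_lit 8605] (nat_lit 0) [] false,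
   Spec.mk (nat_lit 8615) (nat_lit 0) [nat_lit 21737, nat_lit 4241, nat_lit 10073, nat_lit 8453, nat_lit 8561, nat_lit 8669, nat_lit 8597, nat_lit 8617, nat_lit 28297] (nat_lit 1) [] false,
   Spec.mk (nat_lit 8617) (nat_lit 0) [nat_lit 21739, nat_lit 4243, nat_lit 10075, nat_lit 8455, nat_lit 8563, nat_lit 8671, nat_lit 8599, nat_lit 8623, nat_lit 8615, nat_lit 8619, nat_lit 28299] (nat_lit 0) [] false,
   Spec.mk (nat_lit 8619) (nat_lit 0) [nat_lit 21741, nat_lit 4245, nat_lit 10077, nat_lit 8457, nat_lit 8565, nat_lit 8673, nat_lit 8601, nat_lit 8625, nat_lit 8617] (nat_lit 1) [] false,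
   Spec.mk (nat_lit 8623) (nat_lit 0) [nat_lit 21745, nat_lit 4249, nat_lit 10081, nat_lit 8461, nat_lit 8569, nat_lit 8677, nat_lit 8605, nat_lit 8641, nat_lit 8617, nat_lit 8625, nat_lit 28305] (nat_lit 0) [] false,
   Spec.mk (nat_lit 8625) (nat_lit 1) [nat_lit 21747, nat_lit 4251, nat_lit 10083, nat_lit 8463, nat_lit 8571, nat_lit 8679, nat_lit 8607, nat_lit 8643, nat_lit 8619, nat_lit 8631, nat_lit 8623] (nat_lit 0) [] false,
   Spec.mk (nat_lit 8631) (nat_lit 1) [nat_lit 21753, nat_lit 4257, nat_lit 10089, nat_lit 8469, nat_lit 8577, nat_lit 8685, nat_lit 8649, nat_lit 8625] (nat_lit 0) [] false,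
   Spec.mk (nat_lit 8641) (nat_lit 0) [nat_lit 21763, nat_lit 4267, nat_lit 10099, nat_lit 8479, nat_lit 8695, nat_lit 8623, nat_lit 8643, nat_lit 28323] (nat_lit 0) [] false,
   Spec.mk (nat_lit 8643) (nat_lit 0) [nat_lit 21765, nat_lit 4269, nat_lit 10101, nat_lit 8481, nat_lit 8697, nat_lit 8625, nat_lit 8649, nat_lit 8641] (nat_lit 0) [] false,
   Spec.mk (nat_lit 8649) (nat_lit 2) [nat_lit 21771, nat_lit 4275, nat_lit 10107, nat_lit 8487, nat_lit 8703, nat_lit 8631, nat_lit 8643] (nat_lit 0) [] false,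
   Spec.mk (nat_lit 8669) (nat_lit 0) [nat_lit 21791, nat_lit 4295, nat_lit 10127, nat_lit 8615, nat_lit 8671, nat_lit 28351] (nat_lit 0) [] false,
   Spec.mk (nat_lit 8671) (nat_lit 1) [nat_lit 21793, nat_lit 4297, nat_lit 10129, nat_lit 8617, nat_lit 8677, nat_lit 8669, nat_lit 8673, nat_lit 28353] (nat_lit 0) [] false,
   Spec.mk (nat_lit 8673) (nat_lit 0) [nat_lit 21795, nat_lit 4299, nat_lit 10131, nat_lit 8619, nat_lit 8679, nat_lit 8671] (nat_lit 0) [] false,
   Spec.mk (nat_lit 8677) (nat_lit 0) [nat_lit 21799, nat_lit 4303, nat_lit 10135, nat_lit 8623, nat_lit 8695, nat_lit 8671, nat_lit 8679, nat_lit 28359] (nat_lit 0) [] false,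
   Spec.mk (nat_lit 8679) (nat_lit 1) [nat_lit 21801, nat_lit 4305, nat_lit 10137, nat_lit 8625, nat_lit 8697, nat_lit 8673, nat_lit 8685, nat_lit 8677] (nat_lit 0) [] false,
   Spec.mk (nat_lit 8685) (nat_lit 0) [nat_lit 21807, nat_lit 4311, nat_lit 10143, nat_lit 8631, nat_lit 8703, nat_lit 8679] (nat_lit 0) [] false,
   Spec.mk (nat_lit 8695) (nat_lit 2) [nat_lit 21817, nat_lit 4321, nat_lit 10153, nat_lit 8641, nat_lit 8677, nat_lit 8697, nat_lit 28377] (nat_lit 0) [] false,
   Spec.mk (nat_lit 8697) (nat_lit 2) [nat_lit 21819, nat_lit 4323, nat_lit 10155, nat_lit 8643, nat_lit 8679, nat_lit 8703, nat_lit 8695] (nat_lit 0) [] false,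
   Spec.mk (nat_lit 8703) (nat_lit 3) [nat_lit 21825, nat_lit 4329, nat_lit 10161, nat_lit 8649, nat_lit 8685, nat_lit 8721, nat_lit 8697] (nat_lit 0) [] false,
   Spec.mk (nat_lit 8721) (nat_lit 4) [nat_lit 21843, nat_lit 4347, nat_lit 10179, nat_lit 8703] (nat_lit 0) [] false,
   Spec.mk (nat_lit 8801) (nat_lit 3) [nat_lit 21923, nat_lit 4427, nat_lit 13175, nat_lit 7343, nat_lit 8855, nat_lit 8819, nat_lit 28483] (nat_lit 0) [] false,
   Spec.mk (nat_lit 8819) (nat_lit 1) [nat_lit 21941, nat_lit 4445, nat_lit 13193, nat_lit 7361, nat_lit 8873, nat_lit 8801, nat_lit 8825, nat_lit 28501] (nat_lit 0) [] false,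
   Spec.mk (nat_lit 8825) (nat_lit 1) [nat_lit 21947, nat_lit 4451, nat_lit 13199, nat_lit 7367, nat_lit 8879, nat_lit 8819, nat_lit 8827, nat_lit 28507] (nat_lit 0) [] false,
   Spec.mk (nat_lit 8827) (nat_lit 3) [nat_lit 21949, nat_lit 4453, nat_lit 13201, nat_lit 7369, nat_lit 8881, nat_lit 8825, nat_lit 28509] (nat_lit 0) [] false,
   Spec.mk (nat_lit 8855) (nat_lit 1) [nat_lit 21977, nat_lit 4481, nat_lit 13229, nat_lit 7397, nat_lit 9017, nat_lit 8801, nat_lit 8873, nat_lit 28537] (nat_lit 0) [] false,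
   Spec.mk (nat_lit 8873) (nat_lit 1) [nat_lit 21995, nat_lit 4499, nat_lit 13247, nat_lit 7415, nat_lit 9035, nat_lit 8819, nat_lit 8927, nat_lit 8855, nat_lit 8891, nat_lit 8879, nat_lit 28555] (nat_lit 0) [] false,
   Spec.mk (nat_lit 8879) (nat_lit 0) [nat_lit 22001, nat_lit 4505, nat_lit 13253, nat_lit 7421, nat_lit 9041, nat_lit 8825, nat_lit 8933, nat_lit 8897, nat_lit 8873, nat_lit 8881, nat_lit 28561] (nat_lit 0) [] false]

noncomputable def sp23 : List Spec :=
  [Spec.mk (nat_lit 8881) (nat_lit 2) [nat_lit 22003, nat_lit 4507, nat_lit 13255, nat_lit 7423, nat_lit 9043, nat_lit 8827, nat_lit 8935, nat_lit 8899, nat_lit 8879, nat_lit 28563] (nat_lit 0) [] false,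
   Spec.mk (nat_lit 8891) (nat_lit 0) [nat_lit 22013, nat_lit 4517, nat_lit 13265, nat_lit 7433, nat_lit 9053, nat_lit 8945, nat_lit 8873, nat_lit 8897, nat_lit 28573] (nat_lit 1) [] false,
   Spec.mk (nat_lit 8897) (nat_lit 0) [nat_lit 22019, nat_lit 4523, nat_lit 13271, nat_lit 7439, nat_lit 9059, nat_lit 8951, nat_lit 8879, nat_lit 8891, nat_lit 8903, nat_lit 8899, nat_lit 28579] (nat_lit 0) [] false,
   Spec.mk (nat_lit 8899) (nat_lit 1) [nat_lit 22021, nat_lit 4525, nat_lit 13273, nat_lit 7441, nat_lit 9061, nat_lit 8953, nat_lit 8881, nat_lit 8905, nat_lit 8897, nat_lit 28581] (nat_lit 0) [] false,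
   Spec.mk (nat_lit 8903) (nat_lit 0) [nat_lit 22025, nat_lit 4529, nat_lit 13277, nat_lit 7445, nat_lit 9065, nat_lit 8957, nat_lit 8897, nat_lit 8905, nat_lit 28585] (nat_lit 1) [] false,
   Spec.mk (nat_lit 8905) (nat_lit 2) [nat_lit 22027, nat_lit 4531, nat_lit 13279, nat_lit 7447, nat_lit 9067, nat_lit 8959, nat_lit 8899, nat_lit 8903, nat_lit 8907, nat_lit 28587] (nat_lit 0) [] false,
   Spec.mk (nat_lit 8907) (nat_lit 3) [nat_lit 22029, nat_lit 4533, nat_lit 13281, nat_lit 7449, nat_lit 9069, nat_lit 8961, nat_lit 8905] (nat_lit 0) [] false,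
   Spec.mk (nat_lit 8927) (nat_lit 0) [nat_lit 22049, nat_lit 4553, nat_lit 13301, nat_lit 7469, nat_lit 9089, nat_lit 8873, nat_lit 8945, nat_lit 8933, nat_lit 28609] (nat_lit 1) [] false,
   Spec.mk (nat_lit 8933) (nat_lit 0) [nat_lit 22055, nat_lit 4559, nat_lit 13307, nat_lit 7475, nat_lit 9095, nat_lit 8879, nat_lit 8951, nat_lit 8927, nat_lit 8935, nat_lit 28615] (nat_lit 3) [] false,
   Spec.mk (nat_lit 8935) (nat_lit 0) [nat_lit 22057, nat_lit 4561, nat_lit 13309, nat_lit 7477, nat_lit 9097, nat_lit 8881, nat_lit 8953, nat_lit 8933, nat_lit 28617] (nat_lit 1) [] false,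
   Spec.mk (nat_lit 8945) (nat_lit 0) [nat_lit 22067, nat_lit 4571, nat_lit 13319, nat_lit 7487, nat_lit 9107, nat_lit 8891, nat_lit 8927, nat_lit 8951, nat_lit 28627] (nat_lit 1) [] false,
   Spec.mk (nat_lit 8951) (nat_lit 0) [nat_lit 22073, nat_lit 4577, nat_lit 13325, nat_lit 7493, nat_lit 9113, nat_lit 8897, nat_lit 8933, nat_lit 8969, nat_lit 8945, nat_lit 8957, nat_lit 8953, nat_lit 28633] (nat_lit 1) [] false,
   Spec.mk (nat_lit 8953) (nat_lit 0) [nat_lit 22075, nat_lit 4579, nat_lit 13327, nat_lit 7495, nat_lit 9115, nat_lit 8899, nat_lit 8935, nat_lit 8971, nat_lit 8959, nat_lit 8951, nat_lit 28635] (nat_lit 0) [] false,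
   Spec.mk (nat_lit 8957) (nat_lit 0) [nat_lit 22079, nat_lit 4583, nat_lit 13331, nat_lit 7499, nat_lit 9119, nat_lit 8903, nat_lit 8975, nat_lit 8951, nat_lit 8959, nat_lit 28639] (nat_lit 3) [] false,
   Spec.mk (nat_lit 8959) (nat_lit 0) [nat_lit 22081, nat_lit 4585, nat_lit 13333, nat_lit 7501, nat_lit 9121, nat_lit 8905, nat_lit 8977, nat_lit 8953, nat_lit 8957, nat_lit 8961, nat_lit 28641] (nat_lit 0) [] false,
   Spec.mk (nat_lit 8961) (nat_lit 1) [nat_lit 22083, nat_lit 4587, nat_lit 13335, nat_lit 7503, nat_lit 9123, nat_lit 8907, nat_lit 8979, nat_lit 8959] (nat_lit 0) [] false,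
   Spec.mk (nat_lit 8969) (nat_lit 0) [nat_lit 22091, nat_lit 4595, nat_lit 13343, nat_lit 7511, nat_lit 9131, nat_lit 8951, nat_lit 8975, nat_lit 8971, nat_lit 28651] (nat_lit 1) [] false,
   Spec.mk (nat_lit 8971) (nat_lit 0) [nat_lit 22093, nat_lit 4597, nat_lit 13345, nat_lit 7513, nat_lit 9133, nat_lit 8953, nat_lit 8977, nat_lit 8969, nat_lit 28653] (nat_lit 1) [] false,
   Spec.mk (nat_lit 8975) (nat_lit 0) [nat_lit 22097, nat_lit 4601, nat_lit 13349, nat_lit 7517, nat_lit 9137, nat_lit 8957, nat_lit 8969, nat_lit 8977, nat_lit 28657] (nat_lit 1) [] false,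
   Spec.mk (nat_lit 8977) (nat_lit 1) [nat_lit 22099, nat_lit 4603, nat_lit 13351, nat_lit 7519, nat_lit 9139, nat_lit 8959, nat_lit 8971, nat_lit 8983, nat_lit 8975, nat_lit 8979, nat_lit 28659] (nat_lit 0) [] false,
   Spec.mk (nat_lit 8979) (nat_lit 1) [nat_lit 22101, nat_lit 4605, nat_lit 13353, nat_lit 7521, nat_lit 9141, nat_lit 8961, nat_lit 8985, nat_lit 8977] (nat_lit 0) [] false,
   Spec.mk (nat_lit 8983) (nat_lit 1) [nat_lit 22105, nat_lit 4609, nat_lit 13357, nat_lit 7525, nat_lit 9145, nat_lit 8977, nat_lit 8985, nat_lit 28665] (nat_lit 0) [] false,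
   Spec.mk (nat_lit 8985) (nat_lit 3) [nat_lit 22107, nat_lit 4611, nat_lit 13359, nat_lit 7527, nat_lit 9147, nat_lit 8979, nat_lit 8983] (nat_lit 0) [] false,
   Spec.mk (nat_lit 9017) (nat_lit 1) [nat_lit 22139, nat_lit 4643, nat_lit 13391, nat_lit 7559, nat_lit 9503, nat_lit 8855, nat_lit 9035, nat_lit 28699] (nat_lit 0) [] false,
   Spec.mk (nat_lit 9035) (nat_lit 0) [nat_lit 22157, nat_lit 4661, nat_lit 13409, nat_lit 7577, nat_lit 9521, nat_lit 8873, nat_lit 9089, nat_lit 9017, nat_lit 9053, nat_lit 9041, nat_lit 28717] (nat_lit 0) [] false,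
   Spec.mk (nat_lit 9041) (nat_lit 0) [nat_lit 22163, nat_lit 4667, nat_lit 13415, nat_lit 7583, nat_lit 9527, nat_lit 8879, nat_lit 9095, nat_lit 9059, nat_lit 9035, nat_lit 9043, nat_lit 28723] (nat_lit 1) [] false,
   Spec.mk (nat_lit 9043) (nat_lit 1) [nat_lit 22165, nat_lit 4669, nat_lit 13417, nat_lit 7585, nat_lit 9529, nat_lit 8881, nat_lit 9097, nat_lit 9061, nat_lit 9041, nat_lit 28725] (nat_lit 0) [] false,
   Spec.mk (nat_lit 9053) (nat_lit 0) [nat_lit 22175, nat_lit 4679, nat_lit 13427, nat_lit 7595, nat_lit 9539, nat_lit 8891, nat_lit 9107, nat_lit 9035, nat_lit 9059, nat_lit 28735] (nat_lit 3) [] false,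
   Spec.mk (nat_lit 9059) (nat_lit 0) [nat_lit 22181, nat_lit 4685, nat_lit 13433, nat_lit 7601, nat_lit 9545, nat_lit 8897, nat_lit 9113, nat_lit 9041, nat_lit 9053, nat_lit 9065, nat_lit 9061, nat_lit 28741] (nat_lit 2) [] false,
   Spec.mk (nat_lit 9061) (nat_lit 0) [nat_lit 22183, nat_lit 4687, nat_lit 13435, nat_lit 7603, nat_lit 9547, nat_lit 8899, nat_lit 9115, nat_lit 9043, nat_lit 9067, nat_lit 9059, nat_lit 28743] (nat_lit 1) [] false,
   Spec.mk (nat_lit 9065) (nat_lit 0) [nat_lit 22187, nat_lit 4691, nat_lit 13439, nat_lit 7607, nat_lit 9551, nat_lit 8903, nat_lit 9119, nat_lit 9059, nat_lit 9067, nat_lit 28747] (nat_lit 3) [] false,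
   Spec.mk (nat_lit 9067) (nat_lit 0) [nat_lit 22189, nat_lit 4693, nat_lit 13441, nat_lit 7609, nat_lit 9553, nat_lit 8905, nat_lit 9121, nat_lit 9061, nat_lit 9065, nat_lit 9069, nat_lit 28749] (nat_lit 0) [] false,
   Spec.mk (nat_lit 9069) (nat_lit 1) [nat_lit 22191, nat_lit 4695, nat_lit 13443, nat_lit 7611, nat_lit 9555, nat_lit 8907, nat_lit 9123, nat_lit 9067] (nat_lit 0) [] false,
   Spec.mk (nat_lit 9089) (nat_lit 0) [nat_lit 22211, nat_lit 4715, nat_lit 13463, nat_lit 7631, nat_lit 9575, nat_lit 8927, nat_lit 9251, nat_lit 9035, nat_lit 9107, nat_lit 9095, nat_lit 28771] (nat_lit 0) [] true,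
   Spec.mk (nat_lit 9095) (nat_lit 0) [nat_lit 22217, nat_lit 4721, nat_lit 13469, nat_lit 7637, nat_lit 9581, nat_lit 8933, nat_lit 9257, nat_lit 9041, nat_lit 9113, nat_lit 9089, nat_lit 9097, nat_lit 28777] (nat_lit 2) [] true,
   Spec.mk (nat_lit 9097) (nat_lit 0) [nat_lit 22219, nat_lit 4723, nat_lit 13471, nat_lit 7639, nat_lit 9583, nat_lit 8935, nat_lit 9259, nat_lit 9043, nat_lit 9115, nat_lit 9095, nat_lit 28779] (nat_lit 0) [] false,
   Spec.mk (nat_lit 9107) (nat_lit 0) [nat_lit 22229, nat_lit 4733, nat_lit 13481, nat_lit 7649, nat_lit 9593, nat_lit 8945, nat_lit 9269, nat_lit 9053, nat_lit 9161, nat_lit 9089, nat_lit 9113, nat_lit 28789] (nat_lit 1) [] true,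
   Spec.mk (nat_lit 9113) (nat_lit 0) [nat_lit 22235, nat_lit 4739, nat_lit 13487, nat_lit 7655, nat_lit 9599, nat_lit 8951, nat_lit 9275, nat_lit 9059, nat_lit 9167, nat_lit 9095, nat_lit 9131, nat_lit 9107, nat_lit 9119, nat_lit 9115, nat_lit 28795] (nat_lit 1) [] true,
   Spec.mk (nat_lit 9115) (nat_lit 0) [nat_lit 22237, nat_lit 4741, nat_lit 13489, nat_lit 7657, nat_lit 9601, nat_lit 8953, nat_lit 9277, nat_lit 9061, nat_lit 9169, nat_lit 9097, nat_lit 9133, nat_lit 9121, nat_lit 9113, nat_lit 28797] (nat_lit 0) [] true,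
   Spec.mk (nat_lit 9119) (nat_lit 0) [nat_lit 22241, nat_lit 4745, nat_lit 13493, nat_lit 7661, nat_lit 9605, nat_lit 8957, nat_lit 9281, nat_lit 9065, nat_lit 9173, nat_lit 9137, nat_lit 9113, nat_lit 9121, nat_lit 28801] (nat_lit 3) [] true,
   Spec.mk (nat_lit 9121) (nat_lit 0) [nat_lit 22243, nat_lit 4747, nat_lit 13495, nat_lit 7663, nat_lit 9607, nat_lit 8959, nat_lit 9283, nat_lit 9067, nat_lit 9175, nat_lit 9139, nat_lit 9115, nat_lit 9119, nat_lit 9123, nat_lit 28803] (nat_lit 0) [] true,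
   Spec.mk (nat_lit 9123) (nat_lit 1) [nat_lit 22245, nat_lit 4749, nat_lit 13497, nat_lit 7665, nat_lit 9609, nat_lit 8961, nat_lit 9285, nat_lit 9069, nat_lit 9177, nat_lit 9141, nat_lit 9121] (nat_lit 0) [] false,
   Spec.mk (nat_lit 9131) (nat_lit 0) [nat_lit 22253, nat_lit 4757, nat_lit 13505, nat_lit 7673, nat_lit 9617, nat_lit 8969, nat_lit 9293, nat_lit 9185, nat_lit 9113, nat_lit 9137, nat_lit 9133, nat_lit 28813] (nat_lit 2) [] true,
   Spec.mk (nat_lit 9133) (nat_lit 0) [nat_lit 22255, nat_lit 4759, nat_lit 13507, nat_lit 7675, nat_lit 9619, nat_lit 8971, nat_lit 9295, nat_lit 9187, nat_lit 9115, nat_lit 9139, nat_lit 9131, nat_lit 28815] (nat_lit 2) [] true,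
   Spec.mk (nat_lit 9137) (nat_lit 0) [nat_lit 22259, nat_lit 4763, nat_lit 13511, nat_lit 7679, nat_lit 9623, nat_lit 8975, nat_lit 9299, nat_lit 9191, nat_lit 9119, nat_lit 9131, nat_lit 9139, nat_lit 28819] (nat_lit 2) [] true,
   Spec.mk (nat_lit 9139) (nat_lit 0) [nat_lit 22261, nat_lit 4765, nat_lit 13513, nat_lit 7681, nat_lit 9625, nat_lit 8977, nat_lit 9301, nat_lit 9193, nat_lit 9121, nat_lit 9133, nat_lit 9145, nat_lit 9137, nat_lit 9141, nat_lit 28821] (nat_lit 0) [] false,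
   Spec.mk (nat_lit 9141) (nat_lit 0) [nat_lit 22263, nat_lit 4767, nat_lit 13515, nat_lit 7683, nat_lit 9627, nat_lit 8979, nat_lit 9303, nat_lit 9195, nat_lit 9123, nat_lit 9147, nat_lit 9139] (nat_lit 0) [] false,
   Spec.mk (nat_lit 9145) (nat_lit 0) [nat_lit 22267, nat_lit 4771, nat_lit 13519, nat_lit 7687, nat_lit 9631, nat_lit 8983, nat_lit 9307, nat_lit 9199, nat_lit 9139, nat_lit 9147, nat_lit 28827] (nat_lit 0) [] false,
   Spec.mk (nat_lit 9147) (nat_lit 2) [nat_lit 22269, nat_lit 4773, nat_lit 13521, nat_lit 7689, nat_lit 9633, nat_lit 8985, nat_lit 9309, nat_lit 9201, nat_lit 9141, nat_lit 9145] (nat_lit 0) [] false,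
   Spec.mk (nat_lit 9161) (nat_lit 0) [nat_lit 22283, nat_lit 4787, nat_lit 13535, nat_lit 7703, nat_lit 9647, nat_lit 9323, nat_lit 9107, nat_lit 9167, nat_lit 28843] (nat_lit 1) [] false,
   Spec.mk (nat_lit 9167) (nat_lit 0) [nat_lit 22289, nat_lit 4793, nat_lit 13541, nat_lit 7709, nat_lit 9653, nat_lit 9329, nat_lit 9113, nat_lit 9185, nat_lit 9161, nat_lit 9173, nat_lit 9169, nat_lit 28849] (nat_lit 2) [] true,
   Spec.mk (nat_lit 9169) (nat_lit 0) [nat_lit 22291, nat_lit 4795, nat_lit 13543, nat_lit 7711, nat_lit 9655, nat_lit 9331, nat_lit 9115, nat_lit 9187, nat_lit 9175, nat_lit 9167, nat_lit 28851] (nat_lit 1) [] true,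
   Spec.mk (nat_lit 9173) (nat_lit 0) [nat_lit 22295, nat_lit 4799, nat_lit 13547, nat_lit 7715, nat_lit 9659, nat_lit 9335, nat_lit 9119, nat_lit 9191, nat_lit 9167, nat_lit 9175, nat_lit 28855] (nat_lit 5) [] true,
   Spec.mk (nat_lit 9175) (nat_lit 0) [nat_lit 22297, nat_lit 4801, nat_lit 13549, nat_lit 7717, nat_lit 9661, nat_lit 9337, nat_lit 9121, nat_lit 9193, nat_lit 9169, nat_lit 9173, nat_lit 9177, nat_lit 28857] (nat_lit 2) [] false,
   Spec.mk (nat_lit 9177) (nat_lit 0) [nat_lit 22299, nat_lit 4803, nat_lit 13551, nat_lit 7719, nat_lit 9663, nat_lit 9339, nat_lit 9123, nat_lit 9195, nat_lit 9175] (nat_lit 1) [] false,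
   Spec.mk (nat_lit 9185) (nat_lit 0) [nat_lit 22307, nat_lit 4811, nat_lit 13559, nat_lit 7727, nat_lit 9671, nat_lit 9347, nat_lit 9131, nat_lit 9167, nat_lit 9191, nat_lit 9187, nat_lit 28867] (nat_lit 1) [] true,
   Spec.mk (nat_lit 9187) (nat_lit 0) [nat_lit 22309, nat_lit 4813, nat_lit 13561, nat_lit 7729, nat_lit 9673, nat_lit 9349, nat_lit 9133, nat_lit 9169, nat_lit 9193, nat_lit 9185, nat_lit 28869] (nat_lit 1) [] false,
   Spec.mk (nat_lit 9191) (nat_lit 0) [nat_lit 22313, nat_lit 4817, nat_lit 13565, nat_lit 7733, nat_lit 9677, nat_lit 9353, nat_lit 9137, nat_lit 9173, nat_lit 9209, nat_lit 9185, nat_lit 9193, nat_lit 28873] (nat_lit 2) [] true,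
   Spec.mk (nat_lit 9193) (nat_lit 0) [nat_lit 22315, nat_lit 4819, nat_lit 13567, nat_lit 7735, nat_lit 9679, nat_lit 9355, nat_lit 9139, nat_lit 9175, nat_lit 9211, nat_lit 9187, nat_lit 9199, nat_lit 9191, nat_lit 9195, nat_lit 28875] (nat_lit 0) [] false,
   Spec.mk (nat_lit 9195) (nat_lit 0) [nat_lit 22317, nat_lit 4821, nat_lit 13569, nat_lit 7737, nat_lit 9681, nat_lit 9357, nat_lit 9141, nat_lit 9177, nat_lit 9213, nat_lit 9201, nat_lit 9193] (nat_lit 0) [] false]

noncomputable def sp24 : List Spec :=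
  [Spec.mk (nat_lit 9199) (nat_lit 0) [nat_lit 22321, nat_lit 4825, nat_lit 13573, nat_lit 7741, nat_lit 9685, nat_lit 9361, nat_lit 9145, nat_lit 9217, nat_lit 9193, nat_lit 9201, nat_lit 28881] (nat_lit 1) [] false,
   Spec.mk (nat_lit 9201) (nat_lit 1) [nat_lit 22323, nat_lit 4827, nat_lit 13575, nat_lit 7743, nat_lit 9687, nat_lit 9363, nat_lit 9147, nat_lit 9219, nat_lit 9195, nat_lit 9199] (nat_lit 0) [] false,
   Spec.mk (nat_lit 9209) (nat_lit 0) [nat_lit 22331, nat_lit 4835, nat_lit 13583, nat_lit 7751, nat_lit 9695, nat_lit 9371, nat_lit 9191, nat_lit 9211, nat_lit 28891] (nat_lit 1) [] false,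
   Spec.mk (nat_lit 9211) (nat_lit 0) [nat_lit 22333, nat_lit 4837, nat_lit 13585, nat_lit 7753, nat_lit 9697, nat_lit 9373, nat_lit 9193, nat_lit 9217, nat_lit 9209, nat_lit 9213, nat_lit 28893] (nat_lit 0) [] false,
   Spec.mk (nat_lit 9213) (nat_lit 0) [nat_lit 22335, nat_lit 4839, nat_lit 13587, nat_lit 7755, nat_lit 9699, nat_lit 9375, nat_lit 9195, nat_lit 9219, nat_lit 9211] (nat_lit 1) [] false,
   Spec.mk (nat_lit 9217) (nat_lit 1) [nat_lit 22339, nat_lit 4843, nat_lit 13591, nat_lit 7759, nat_lit 9703, nat_lit 9379, nat_lit 9199, nat_lit 9211, nat_lit 9219, nat_lit 28899] (nat_lit 0) [] false,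
   Spec.mk (nat_lit 9219) (nat_lit 2) [nat_lit 22341, nat_lit 4845, nat_lit 13593, nat_lit 7761, nat_lit 9705, nat_lit 9381, nat_lit 9201, nat_lit 9213, nat_lit 9225, nat_lit 9217] (nat_lit 0) [] false,
   Spec.mk (nat_lit 9225) (nat_lit 3) [nat_lit 22347, nat_lit 4851, nat_lit 13599, nat_lit 7767, nat_lit 9711, nat_lit 9387, nat_lit 9219] (nat_lit 0) [] false,
   Spec.mk (nat_lit 9251) (nat_lit 0) [nat_lit 22373, nat_lit 4877, nat_lit 13625, nat_lit 7793, nat_lit 9737, nat_lit 9089, nat_lit 9269, nat_lit 9257, nat_lit 28933] (nat_lit 1) [] false,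
   Spec.mk (nat_lit 9257) (nat_lit 0) [nat_lit 22379, nat_lit 4883, nat_lit 13631, nat_lit 7799, nat_lit 9743, nat_lit 9095, nat_lit 9275, nat_lit 9251, nat_lit 9259, nat_lit 28939] (nat_lit 3) [] false,
   Spec.mk (nat_lit 9259) (nat_lit 0) [nat_lit 22381, nat_lit 4885, nat_lit 13633, nat_lit 7801, nat_lit 9745, nat_lit 9097, nat_lit 9277, nat_lit 9257, nat_lit 28941] (nat_lit 1) [] false,
   Spec.mk (nat_lit 9269) (nat_lit 0) [nat_lit 22391, nat_lit 4895, nat_lit 13643, nat_lit 7811, nat_lit 9755, nat_lit 9107, nat_lit 9323, nat_lit 9251, nat_lit 9275, nat_lit 28951] (nat_lit 3) [] false,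
   Spec.mk (nat_lit 9275) (nat_lit 0) [nat_lit 22397, nat_lit 4901, nat_lit 13649, nat_lit 7817, nat_lit 9761, nat_lit 9113, nat_lit 9329, nat_lit 9257, nat_lit 9293, nat_lit 9269, nat_lit 9281, nat_lit 9277, nat_lit 28957] (nat_lit 3) [] true,
   Spec.mk (nat_lit 9277) (nat_lit 0) [nat_lit 22399, nat_lit 4903, nat_lit 13651, nat_lit 7819, nat_lit 9763, nat_lit 9115, nat_lit 9331, nat_lit 9259, nat_lit 9295, nat_lit 9283, nat_lit 9275, nat_lit 28959] (nat_lit 2) [] false,
   Spec.mk (nat_lit 9281) (nat_lit 0) [nat_lit 22403, nat_lit 4907, nat_lit 13655, nat_lit 7823, nat_lit 9767, nat_lit 9119, nat_lit 9335, nat_lit 9299, nat_lit 9275, nat_lit 9283, nat_lit 28963] (nat_lit 5) [] true,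
   Spec.mk (nat_lit 9283) (nat_lit 0) [nat_lit 22405, nat_lit 4909, nat_lit 13657, nat_lit 7825, nat_lit 9769, nat_lit 9121, nat_lit 9337, nat_lit 9301, nat_lit 9277, nat_lit 9281, nat_lit 9285, nat_lit 28965] (nat_lit 2) [] false,
   Spec.mk (nat_lit 9285) (nat_lit 0) [nat_lit 22407, nat_lit 4911, nat_lit 13659, nat_lit 7827, nat_lit 9771, nat_lit 9123, nat_lit 9339, nat_lit 9303, nat_lit 9283] (nat_lit 1) [] false,
   Spec.mk (nat_lit 9293) (nat_lit 0) [nat_lit 22415, nat_lit 4919, nat_lit 13667, nat_lit 7835, nat_lit 9779, nat_lit 9131, nat_lit 9347, nat_lit 9275, nat_lit 9299, nat_lit 9295, nat_lit 28975] (nat_lit 5) [] true,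
   Spec.mk (nat_lit 9295) (nat_lit 0) [nat_lit 22417, nat_lit 4921, nat_lit 13669, nat_lit 7837, nat_lit 9781, nat_lit 9133, nat_lit 9349, nat_lit 9277, nat_lit 9301, nat_lit 9293, nat_lit 28977] (nat_lit 5) [] false,
   Spec.mk (nat_lit 9299) (nat_lit 0) [nat_lit 22421, nat_lit 4925, nat_lit 13673, nat_lit 7841, nat_lit 9785, nat_lit 9137, nat_lit 9353, nat_lit 9281, nat_lit 9293, nat_lit 9301, nat_lit 28981] (nat_lit 5) [] false,
   Spec.mk (nat_lit 9301) (nat_lit 0) [nat_lit 22423, nat_lit 4927, nat_lit 13675, nat_lit 7843, nat_lit 9787, nat_lit 9139, nat_lit 9355, nat_lit 9283, nat_lit 9295, nat_lit 9307, nat_lit 9299, nat_lit 9303, nat_lit 28983] (nat_lit 3) [] false,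
   Spec.mk (nat_lit 9303) (nat_lit 0) [nat_lit 22425, nat_lit 4929, nat_lit 13677, nat_lit 7845, nat_lit 9789, nat_lit 9141, nat_lit 9357, nat_lit 9285, nat_lit 9309, nat_lit 9301] (nat_lit 3) [] false,
   Spec.mk (nat_lit 9307) (nat_lit 0) [nat_lit 22429, nat_lit 4933, nat_lit 13681, nat_lit 7849, nat_lit 9793, nat_lit 9145, nat_lit 9361, nat_lit 9301, nat_lit 9309, nat_lit 28989] (nat_lit 3) [] false,
   Spec.mk (nat_lit 9309) (nat_lit 0) [nat_lit 22431, nat_lit 4935, nat_lit 13683, nat_lit 7851, nat_lit 9795, nat_lit 9147, nat_lit 9363, nat_lit 9303, nat_lit 9307] (nat_lit 1) [] false,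
   Spec.mk (nat_lit 9323) (nat_lit 0) [nat_lit 22445, nat_lit 4949, nat_lit 13697, nat_lit 7865, nat_lit 9809, nat_lit 9161, nat_lit 9269, nat_lit 9329, nat_lit 29005] (nat_lit 1) [] false,
   Spec.mk (nat_lit 9329) (nat_lit 0) [nat_lit 22451, nat_lit 4955, nat_lit 13703, nat_lit 7871, nat_lit 9815, nat_lit 9167, nat_lit 9275, nat_lit 9347, nat_lit 9323, nat_lit 9335, nat_lit 9331, nat_lit 29011] (nat_lit 2) [] true,
   Spec.mk (nat_lit 9331) (nat_lit 0) [nat_lit 22453, nat_lit 4957, nat_lit 13705, nat_lit 7873, nat_lit 9817, nat_lit 9169, nat_lit 9277, nat_lit 9349, nat_lit 9337, nat_lit 9329, nat_lit 29013] (nat_lit 1) [] false,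
   Spec.mk (nat_lit 9335) (nat_lit 0) [nat_lit 22457, nat_lit 4961, nat_lit 13709, nat_lit 7877, nat_lit 9821, nat_lit 9173, nat_lit 9281, nat_lit 9353, nat_lit 9329, nat_lit 9337, nat_lit 29017] (nat_lit 5) [] false,
   Spec.mk (nat_lit 9337) (nat_lit 0) [nat_lit 22459, nat_lit 4963, nat_lit 13711, nat_lit 7879, nat_lit 9823, nat_lit 9175, nat_lit 9283, nat_lit 9355, nat_lit 9331, nat_lit 9335, nat_lit 9339, nat_lit 29019] (nat_lit 2) [] false,
   Spec.mk (nat_lit 9339) (nat_lit 0) [nat_lit 22461, nat_lit 4965, nat_lit 13713, nat_lit 7881, nat_lit 9825, nat_lit 9177, nat_lit 9285, nat_lit 9357, nat_lit 9337] (nat_lit 1) [] false,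
   Spec.mk (nat_lit 9347) (nat_lit 0) [nat_lit 22469, nat_lit 4973, nat_lit 13721, nat_lit 7889, nat_lit 9833, nat_lit 9185, nat_lit 9293, nat_lit 9401, nat_lit 9329, nat_lit 9353, nat_lit 9349, nat_lit 29029] (nat_lit 2) [] false,
   Spec.mk (nat_lit 9349) (nat_lit 0) [nat_lit 22471, nat_lit 4975, nat_lit 13723, nat_lit 7891, nat_lit 9835, nat_lit 9187, nat_lit 9295, nat_lit 9403, nat_lit 9331, nat_lit 9355, nat_lit 9347, nat_lit 29031] (nat_lit 2) [] false,
   Spec.mk (nat_lit 9353) (nat_lit 0) [nat_lit 22475, nat_lit 4979, nat_lit 13727, nat_lit 7895, nat_lit 9839, nat_lit 9191, nat_lit 9299, nat_lit 9407, nat_lit 9335, nat_lit 9371, nat_lit 9347, nat_lit 9355, nat_lit 29035] (nat_lit 3) [] false,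
   Spec.mk (nat_lit 9355) (nat_lit 0) [nat_lit 22477, nat_lit 4981, nat_lit 13729, nat_lit 7897, nat_lit 9841, nat_lit 9193, nat_lit 9301, nat_lit 9409, nat_lit 9337, nat_lit 9373, nat_lit 9349, nat_lit 9361, nat_lit 9353, nat_lit 9357, nat_lit 29037] (nat_lit 1) [] false,
   Spec.mk (nat_lit 9357) (nat_lit 0) [nat_lit 22479, nat_lit 4983, nat_lit 13731, nat_lit 7899, nat_lit 9843, nat_lit 9195, nat_lit 9303, nat_lit 9411, nat_lit 9339, nat_lit 9375, nat_lit 9363, nat_lit 9355] (nat_lit 1) [] false,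
   Spec.mk (nat_lit 9361) (nat_lit 0) [nat_lit 22483, nat_lit 4987, nat_lit 13735, nat_lit 7903, nat_lit 9847, nat_lit 9199, nat_lit 9307, nat_lit 9415, nat_lit 9379, nat_lit 9355, nat_lit 9363, nat_lit 29043] (nat_lit 2) [] false,
   Spec.mk (nat_lit 9363) (nat_lit 0) [nat_lit 22485, nat_lit 4989, nat_lit 13737, nat_lit 7905, nat_lit 9849, nat_lit 9201, nat_lit 9309, nat_lit 9417, nat_lit 9381, nat_lit 9357, nat_lit 9361] (nat_lit 0) [] false,
   Spec.mk (nat_lit 9371) (nat_lit 0) [nat_lit 22493, nat_lit 4997, nat_lit 13745, nat_lit 7913, nat_lit 9857, nat_lit 9209, nat_lit 9425, nat_lit 9353, nat_lit 9373, nat_lit 29053] (nat_lit 3) [] false,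
   Spec.mk (nat_lit 9373) (nat_lit 0) [nat_lit 22495, nat_lit 4999, nat_lit 13747, nat_lit 7915, nat_lit 9859, nat_lit 9211, nat_lit 9427, nat_lit 9355, nat_lit 9379, nat_lit 9371, nat_lit 9375, nat_lit 29055] (nat_lit 2) [] false,
   Spec.mk (nat_lit 9375) (nat_lit 0) [nat_lit 22497, nat_lit 5001, nat_lit 13749, nat_lit 7917, nat_lit 9861, nat_lit 9213, nat_lit 9429, nat_lit 9357, nat_lit 9381, nat_lit 9373] (nat_lit 3) [] false,
   Spec.mk (nat_lit 9379) (nat_lit 0) [nat_lit 22501, nat_lit 5005, nat_lit 13753, nat_lit 7921, nat_lit 9865, nat_lit 9217, nat_lit 9433, nat_lit 9361, nat_lit 9373, nat_lit 9381, nat_lit 29061] (nat_lit 1) [] false,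
   Spec.mk (nat_lit 9381) (nat_lit 0) [nat_lit 22503, nat_lit 5007, nat_lit 13755, nat_lit 7923, nat_lit 9867, nat_lit 9219, nat_lit 9435, nat_lit 9363, nat_lit 9375, nat_lit 9387, nat_lit 9379] (nat_lit 0) [] false,
   Spec.mk (nat_lit 9387) (nat_lit 1) [nat_lit 22509, nat_lit 5013, nat_lit 13761, nat_lit 7929, nat_lit 9873, nat_lit 9225, nat_lit 9441, nat_lit 9381] (nat_lit 0) [] false,
   Spec.mk (nat_lit 9401) (nat_lit 0) [nat_lit 22523, nat_lit 5027, nat_lit 13775, nat_lit 7943, nat_lit 9887, nat_lit 9347, nat_lit 9407, nat_lit 9403, nat_lit 29083] (nat_lit 1) [] false,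
   Spec.mk (nat_lit 9403) (nat_lit 0) [nat_lit 22525, nat_lit 5029, nat_lit 13777, nat_lit 7945, nat_lit 9889, nat_lit 9349, nat_lit 9409, nat_lit 9401, nat_lit 29085] (nat_lit 1) [] false,
   Spec.mk (nat_lit 9407) (nat_lit 0) [nat_lit 22529, nat_lit 5033, nat_lit 13781, nat_lit 7949, nat_lit 9893, nat_lit 9353, nat_lit 9425, nat_lit 9401, nat_lit 9409, nat_lit 29089] (nat_lit 3) [] false,
   Spec.mk (nat_lit 9409) (nat_lit 0) [nat_lit 22531, nat_lit 5035, nat_lit 13783, nat_lit 7951, nat_lit 9895, nat_lit 9355, nat_lit 9427, nat_lit 9403, nat_lit 9415, nat_lit 9407, nat_lit 9411, nat_lit 29091] (nat_lit 1) [] false,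
   Spec.mk (nat_lit 9411) (nat_lit 0) [nat_lit 22533, nat_lit 5037, nat_lit 13785, nat_lit 7953, nat_lit 9897, nat_lit 9357, nat_lit 9429, nat_lit 9417, nat_lit 9409] (nat_lit 1) [] false,
   Spec.mk (nat_lit 9415) (nat_lit 0) [nat_lit 22537, nat_lit 5041, nat_lit 13789, nat_lit 7957, nat_lit 9901, nat_lit 9361, nat_lit 9433, nat_lit 9409, nat_lit 9417, nat_lit 29097] (nat_lit 3) [] false,
   Spec.mk (nat_lit 9417) (nat_lit 0) [nat_lit 22539, nat_lit 5043, nat_lit 13791, nat_lit 7959, nat_lit 9903, nat_lit 9363, nat_lit 9435, nat_lit 9411, nat_lit 9415] (nat_lit 1) [] false,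
   Spec.mk (nat_lit 9425) (nat_lit 0) [nat_lit 22547, nat_lit 5051, nat_lit 13799, nat_lit 7967, nat_lit 9911, nat_lit 9371, nat_lit 9407, nat_lit 9427, nat_lit 29107] (nat_lit 1) [] false,
   Spec.mk (nat_lit 9427) (nat_lit 0) [nat_lit 22549, nat_lit 5053, nat_lit 13801, nat_lit 7969, nat_lit 9913, nat_lit 9373, nat_lit 9409, nat_lit 9433, nat_lit 9425, nat_lit 9429, nat_lit 29109] (nat_lit 0) [] false,
   Spec.mk (nat_lit 9429) (nat_lit 0) [nat_lit 22551, nat_lit 5055, nat_lit 13803, nat_lit 7971, nat_lit 9915, nat_lit 9375, nat_lit 9411, nat_lit 9435, nat_lit 9427] (nat_lit 1) [] false,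
   Spec.mk (nat_lit 9433) (nat_lit 0) [nat_lit 22555, nat_lit 5059, nat_lit 13807, nat_lit 7975, nat_lit 9919, nat_lit 9379, nat_lit 9415, nat_lit 9451, nat_lit 9427, nat_lit 9435, nat_lit 29115] (nat_lit 0) [] false,
   Spec.mk (nat_lit 9435) (nat_lit 1) [nat_lit 22557, nat_lit 5061, nat_lit 13809, nat_lit 7977, nat_lit 9921, nat_lit 9381, nat_lit 9417, nat_lit 9453, nat_lit 9429, nat_lit 9441, nat_lit 9433] (nat_lit 0) [] false,
   Spec.mk (nat_lit 9441) (nat_lit 1) [nat_lit 22563, nat_lit 5067, nat_lit 13815, nat_lit 7983, nat_lit 9927, nat_lit 9387, nat_lit 9459, nat_lit 9435] (nat_lit 0) [] false,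
   Spec.mk (nat_lit 9451) (nat_lit 1) [nat_lit 22573, nat_lit 5077, nat_lit 13825, nat_lit 7993, nat_lit 9937, nat_lit 9433, nat_lit 9453, nat_lit 29133] (nat_lit 0) [] false,
   Spec.mk (nat_lit 9453) (nat_lit 1) [nat_lit 22575, nat_lit 5079, nat_lit 13827, nat_lit 7995, nat_lit 9939, nat_lit 9435, nat_lit 9459, nat_lit 9451] (nat_lit 0) [] false,
   Spec.mk (nat_lit 9459) (nat_lit 3) [nat_lit 22581, nat_lit 5085, nat_lit 13833, nat_lit 8001, nat_lit 9945, nat_lit 9441, nat_lit 9453] (nat_lit 0) [] false,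
   Spec.mk (nat_lit 9503) (nat_lit 2) [nat_lit 22625, nat_lit 5129, nat_lit 13877, nat_lit 8045, nat_lit 10961, nat_lit 9017, nat_lit 9521, nat_lit 29185] (nat_lit 0) [] false]

noncomputable def sp25 : List Spec :=
  [Spec.mk (nat_lit 9521) (nat_lit 1) [nat_lit 22643, nat_lit 5147, nat_lit 13895, nat_lit 8063, nat_lit 10979, nat_lit 9035, nat_lit 9575, nat_lit 9503, nat_lit 9539, nat_lit 9527, nat_lit 29203] (nat_lit 0) [] false,
   Spec.mk (nat_lit 9527) (nat_lit 0) [nat_lit 22649, nat_lit 5153, nat_lit 13901, nat_lit 8069, nat_lit 10985, nat_lit 9041, nat_lit 9581, nat_lit 9545, nat_lit 9521, nat_lit 9529, nat_lit 29209] (nat_lit 0) [] false,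
   Spec.mk (nat_lit 9529) (nat_lit 2) [nat_lit 22651, nat_lit 5155, nat_lit 13903, nat_lit 8071, nat_lit 10987, nat_lit 9043, nat_lit 9583, nat_lit 9547, nat_lit 9527, nat_lit 29211] (nat_lit 0) [] false,
   Spec.mk (nat_lit 9539) (nat_lit 0) [nat_lit 22661, nat_lit 5165, nat_lit 13913, nat_lit 8081, nat_lit 10997, nat_lit 9053, nat_lit 9593, nat_lit 9521, nat_lit 9545, nat_lit 29221] (nat_lit 2) [] false,
   Spec.mk (nat_lit 9545) (nat_lit 0) [nat_lit 22667, nat_lit 5171, nat_lit 13919, nat_lit 8087, nat_lit 11003, nat_lit 9059, nat_lit 9599, nat_lit 9527, nat_lit 9539, nat_lit 9551, nat_lit 9547, nat_lit 29227] (nat_lit 1) [] false,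
   Spec.mk (nat_lit 9547) (nat_lit 0) [nat_lit 22669, nat_lit 5173, nat_lit 13921, nat_lit 8089, nat_lit 11005, nat_lit 9061, nat_lit 9601, nat_lit 9529, nat_lit 9553, nat_lit 9545, nat_lit 29229] (nat_lit 0) [] false,
   Spec.mk (nat_lit 9551) (nat_lit 0) [nat_lit 22673, nat_lit 5177, nat_lit 13925, nat_lit 8093, nat_lit 11009, nat_lit 9065, nat_lit 9605, nat_lit 9545, nat_lit 9553, nat_lit 29233] (nat_lit 2) [] false,
   Spec.mk (nat_lit 9553) (nat_lit 1) [nat_lit 22675, nat_lit 5179, nat_lit 13927, nat_lit 8095, nat_lit 11011, nat_lit 9067, nat_lit 9607, nat_lit 9547, nat_lit 9551, nat_lit 9555, nat_lit 29235] (nat_lit 0) [] false,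
   Spec.mk (nat_lit 9555) (nat_lit 2) [nat_lit 22677, nat_lit 5181, nat_lit 13929, nat_lit 8097, nat_lit 11013, nat_lit 9069, nat_lit 9609, nat_lit 9553] (nat_lit 0) [] false,
   Spec.mk (nat_lit 9575) (nat_lit 0) [nat_lit 22697, nat_lit 5201, nat_lit 13949, nat_lit 8117, nat_lit 11033, nat_lit 9089, nat_lit 9737, nat_lit 9521, nat_lit 9593, nat_lit 9581, nat_lit 29257] (nat_lit 0) [] false,
   Spec.mk (nat_lit 9581) (nat_lit 0) [nat_lit 22703, nat_lit 5207, nat_lit 13955, nat_lit 8123, nat_lit 11039, nat_lit 9095, nat_lit 9743, nat_lit 9527, nat_lit 9599, nat_lit 9575, nat_lit 9583, nat_lit 29263] (nat_lit 2) [] false,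
   Spec.mk (nat_lit 9583) (nat_lit 0) [nat_lit 22705, nat_lit 5209, nat_lit 13957, nat_lit 8125, nat_lit 11041, nat_lit 9097, nat_lit 9745, nat_lit 9529, nat_lit 9601, nat_lit 9581, nat_lit 29265] (nat_lit 0) [] false,
   Spec.mk (nat_lit 9593) (nat_lit 0) [nat_lit 22715, nat_lit 5219, nat_lit 13967, nat_lit 8135, nat_lit 11051, nat_lit 9107, nat_lit 9755, nat_lit 9539, nat_lit 9647, nat_lit 9575, nat_lit 9599, nat_lit 29275] (nat_lit 1) [] false,
   Spec.mk (nat_lit 9599) (nat_lit 0) [nat_lit 22721, nat_lit 5225, nat_lit 13973, nat_lit 8141, nat_lit 11057, nat_lit 9113, nat_lit 9761, nat_lit 9545, nat_lit 9653, nat_lit 9581, nat_lit 9617, nat_lit 9593, nat_lit 9605, nat_lit 9601, nat_lit 29281] (nat_lit 1) [] true,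
   Spec.mk (nat_lit 9601) (nat_lit 0) [nat_lit 22723, nat_lit 5227, nat_lit 13975, nat_lit 8143, nat_lit 11059, nat_lit 9115, nat_lit 9763, nat_lit 9547, nat_lit 9655, nat_lit 9583, nat_lit 9619, nat_lit 9607, nat_lit 9599, nat_lit 29283] (nat_lit 0) [] true,
   Spec.mk (nat_lit 9605) (nat_lit 0) [nat_lit 22727, nat_lit 5231, nat_lit 13979, nat_lit 8147, nat_lit 11063, nat_lit 9119, nat_lit 9767, nat_lit 9551, nat_lit 9659, nat_lit 9623, nat_lit 9599, nat_lit 9607, nat_lit 29287] (nat_lit 3) [] true,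
   Spec.mk (nat_lit 9607) (nat_lit 0) [nat_lit 22729, nat_lit 5233, nat_lit 13981, nat_lit 8149, nat_lit 11065, nat_lit 9121, nat_lit 9769, nat_lit 9553, nat_lit 9661, nat_lit 9625, nat_lit 9601, nat_lit 9605, nat_lit 9609, nat_lit 29289] (nat_lit 0) [] true,
   Spec.mk (nat_lit 9609) (nat_lit 1) [nat_lit 22731, nat_lit 5235, nat_lit 13983, nat_lit 8151, nat_lit 11067, nat_lit 9123, nat_lit 9771, nat_lit 9555, nat_lit 9663, nat_lit 9627, nat_lit 9607] (nat_lit 0) [] false,
   Spec.mk (nat_lit 9617) (nat_lit 0) [nat_lit 22739, nat_lit 5243, nat_lit 13991, nat_lit 8159, nat_lit 11075, nat_lit 9131, nat_lit 9779, nat_lit 9671, nat_lit 9599, nat_lit 9623, nat_lit 9619, nat_lit 29299] (nat_lit 2) [] true,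
   Spec.mk (nat_lit 9619) (nat_lit 0) [nat_lit 22741, nat_lit 5245, nat_lit 13993, nat_lit 8161, nat_lit 11077, nat_lit 9133, nat_lit 9781, nat_lit 9673, nat_lit 9601, nat_lit 9625, nat_lit 9617, nat_lit 29301] (nat_lit 2) [] true,
   Spec.mk (nat_lit 9623) (nat_lit 0) [nat_lit 22745, nat_lit 5249, nat_lit 13997, nat_lit 8165, nat_lit 11081, nat_lit 9137, nat_lit 9785, nat_lit 9677, nat_lit 9605, nat_lit 9617, nat_lit 9625, nat_lit 29305] (nat_lit 2) [] true,
   Spec.mk (nat_lit 9625) (nat_lit 0) [nat_lit 22747, nat_lit 5251, nat_lit 13999, nat_lit 8167, nat_lit 11083, nat_lit 9139, nat_lit 9787, nat_lit 9679, nat_lit 9607, nat_lit 9619, nat_lit 9631, nat_lit 9623, nat_lit 9627, nat_lit 29307] (nat_lit 0) [] false,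
   Spec.mk (nat_lit 9627) (nat_lit 0) [nat_lit 22749, nat_lit 5253, nat_lit 14001, nat_lit 8169, nat_lit 11085, nat_lit 9141, nat_lit 9789, nat_lit 9681, nat_lit 9609, nat_lit 9633, nat_lit 9625] (nat_lit 0) [] false,
   Spec.mk (nat_lit 9631) (nat_lit 0) [nat_lit 22753, nat_lit 5257, nat_lit 14005, nat_lit 8173, nat_lit 11089, nat_lit 9145, nat_lit 9793, nat_lit 9685, nat_lit 9625, nat_lit 9633, nat_lit 29313] (nat_lit 0) [] false,
   Spec.mk (nat_lit 9633) (nat_lit 2) [nat_lit 22755, nat_lit 5259, nat_lit 14007, nat_lit 8175, nat_lit 11091, nat_lit 9147, nat_lit 9795, nat_lit 9687, nat_lit 9627, nat_lit 9631] (nat_lit 0) [] false,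
   Spec.mk (nat_lit 9647) (nat_lit 0) [nat_lit 22769, nat_lit 5273, nat_lit 14021, nat_lit 8189, nat_lit 11105, nat_lit 9161, nat_lit 9809, nat_lit 9593, nat_lit 9653, nat_lit 29329] (nat_lit 2) [] false,
   Spec.mk (nat_lit 9653) (nat_lit 0) [nat_lit 22775, nat_lit 5279, nat_lit 14027, nat_lit 8195, nat_lit 11111, nat_lit 9167, nat_lit 9815, nat_lit 9599, nat_lit 9671, nat_lit 9647, nat_lit 9659, nat_lit 9655, nat_lit 29335] (nat_lit 3) [] true,
   Spec.mk (nat_lit 9655) (nat_lit 0) [nat_lit 22777, nat_lit 5281, nat_lit 14029, nat_lit 8197, nat_lit 11113, nat_lit 9169, nat_lit 9817, nat_lit 9601, nat_lit 9673, nat_lit 9661, nat_lit 9653, nat_lit 29337] (nat_lit 2) [] false,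
   Spec.mk (nat_lit 9659) (nat_lit 0) [nat_lit 22781, nat_lit 5285, nat_lit 14033, nat_lit 8201, nat_lit 11117, nat_lit 9173, nat_lit 9821, nat_lit 9605, nat_lit 9677, nat_lit 9653, nat_lit 9661, nat_lit 29341] (nat_lit 6) [] true,
   Spec.mk (nat_lit 9661) (nat_lit 0) [nat_lit 22783, nat_lit 5287, nat_lit 14035, nat_lit 8203, nat_lit 11119, nat_lit 9175, nat_lit 9823, nat_lit 9607, nat_lit 9679, nat_lit 9655, nat_lit 9659, nat_lit 9663, nat_lit 29343] (nat_lit 3) [] false,
   Spec.mk (nat_lit 9663) (nat_lit 0) [nat_lit 22785, nat_lit 5289, nat_lit 14037, nat_lit 8205, nat_lit 11121, nat_lit 9177, nat_lit 9825, nat_lit 9609, nat_lit 9681, nat_lit 9661] (nat_lit 2) [] false,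
   Spec.mk (nat_lit 9671) (nat_lit 0) [nat_lit 22793, nat_lit 5297, nat_lit 14045, nat_lit 8213, nat_lit 11129, nat_lit 9185, nat_lit 9833, nat_lit 9617, nat_lit 9653, nat_lit 9677, nat_lit 9673, nat_lit 29353] (nat_lit 2) [] true,
   Spec.mk (nat_lit 9673) (nat_lit 0) [nat_lit 22795, nat_lit 5299, nat_lit 14047, nat_lit 8215, nat_lit 11131, nat_lit 9187, nat_lit 9835, nat_lit 9619, nat_lit 9655, nat_lit 9679, nat_lit 9671, nat_lit 29355] (nat_lit 2) [] false,
   Spec.mk (nat_lit 9677) (nat_lit 0) [nat_lit 22799, nat_lit 5303, nat_lit 14051, nat_lit 8219, nat_lit 11135, nat_lit 9191, nat_lit 9839, nat_lit 9623, nat_lit 9659, nat_lit 9695, nat_lit 9671, nat_lit 9679, nat_lit 29359] (nat_lit 3) [] false,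
   Spec.mk (nat_lit 9679) (nat_lit 0) [nat_lit 22801, nat_lit 5305, nat_lit 14053, nat_lit 8221, nat_lit 11137, nat_lit 9193, nat_lit 9841, nat_lit 9625, nat_lit 9661, nat_lit 9697, nat_lit 9673, nat_lit 9685, nat_lit 9677, nat_lit 9681, nat_lit 29361] (nat_lit 1) [] false,
   Spec.mk (nat_lit 9681) (nat_lit 0) [nat_lit 22803, nat_lit 5307, nat_lit 14055, nat_lit 8223, nat_lit 11139, nat_lit 9195, nat_lit 9843, nat_lit 9627, nat_lit 9663, nat_lit 9699, nat_lit 9687, nat_lit 9679] (nat_lit 1) [] false,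
   Spec.mk (nat_lit 9685) (nat_lit 0) [nat_lit 22807, nat_lit 5311, nat_lit 14059, nat_lit 8227, nat_lit 11143, nat_lit 9199, nat_lit 9847, nat_lit 9631, nat_lit 9703, nat_lit 9679, nat_lit 9687, nat_lit 29367] (nat_lit 2) [] false,
   Spec.mk (nat_lit 9687) (nat_lit 0) [nat_lit 22809, nat_lit 5313, nat_lit 14061, nat_lit 8229, nat_lit 11145, nat_lit 9201, nat_lit 9849, nat_lit 9633, nat_lit 9705, nat_lit 9681, nat_lit 9685] (nat_lit 0) [] false,
   Spec.mk (nat_lit 9695) (nat_lit 0) [nat_lit 22817, nat_lit 5321, nat_lit 14069, nat_lit 8237, nat_lit 11153, nat_lit 9209, nat_lit 9857, nat_lit 9677, nat_lit 9697, nat_lit 29377] (nat_lit 2) [] false,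
   Spec.mk (nat_lit 9697) (nat_lit 0) [nat_lit 22819, nat_lit 5323, nat_lit 14071, nat_lit 8239, nat_lit 11155, nat_lit 9211, nat_lit 9859, nat_lit 9679, nat_lit 9703, nat_lit 9695, nat_lit 9699, nat_lit 29379] (nat_lit 1) [] false,
   Spec.mk (nat_lit 9699) (nat_lit 0) [nat_lit 22821, nat_lit 5325, nat_lit 14073, nat_lit 8241, nat_lit 11157, nat_lit 9213, nat_lit 9861, nat_lit 9681, nat_lit 9705, nat_lit 9697] (nat_lit 2) [] false,
   Spec.mk (nat_lit 9703) (nat_lit 0) [nat_lit 22825, nat_lit 5329, nat_lit 14077, nat_lit 8245, nat_lit 11161, nat_lit 9217, nat_lit 9865, nat_lit 9685, nat_lit 9697, nat_lit 9705, nat_lit 29385] (nat_lit 0) [] false,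
   Spec.mk (nat_lit 9705) (nat_lit 1) [nat_lit 22827, nat_lit 5331, nat_lit 14079, nat_lit 8247, nat_lit 11163, nat_lit 9219, nat_lit 9867, nat_lit 9687, nat_lit 9699, nat_lit 9711, nat_lit 9703] (nat_lit 0) [] false,
   Spec.mk (nat_lit 9711) (nat_lit 2) [nat_lit 22833, nat_lit 5337, nat_lit 14085, nat_lit 8253, nat_lit 11169, nat_lit 9225, nat_lit 9873, nat_lit 9705] (nat_lit 0) [] false,
   Spec.mk (nat_lit 9737) (nat_lit 1) [nat_lit 22859, nat_lit 5363, nat_lit 14111, nat_lit 8279, nat_lit 11195, nat_lit 9251, nat_lit 10223, nat_lit 9575, nat_lit 9755, nat_lit 9743, nat_lit 29419] (nat_lit 0) [] false,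
   Spec.mk (nat_lit 9743) (nat_lit 0) [nat_lit 22865, nat_lit 5369, nat_lit 14117, nat_lit 8285, nat_lit 11201, nat_lit 9257, nat_lit 10229, nat_lit 9581, nat_lit 9761, nat_lit 9737, nat_lit 9745, nat_lit 29425] (nat_lit 1) [] false,
   Spec.mk (nat_lit 9745) (nat_lit 1) [nat_lit 22867, nat_lit 5371, nat_lit 14119, nat_lit 8287, nat_lit 11203, nat_lit 9259, nat_lit 10231, nat_lit 9583, nat_lit 9763, nat_lit 9743, nat_lit 29427] (nat_lit 0) [] false,
   Spec.mk (nat_lit 9755) (nat_lit 0) [nat_lit 22877, nat_lit 5381, nat_lit 14129, nat_lit 8297, nat_lit 11213, nat_lit 9269, nat_lit 10241, nat_lit 9593, nat_lit 9809, nat_lit 9737, nat_lit 9761, nat_lit 29437] (nat_lit 1) [] false,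
   Spec.mk (nat_lit 9761) (nat_lit 0) [nat_lit 22883, nat_lit 5387, nat_lit 14135, nat_lit 8303, nat_lit 11219, nat_lit 9275, nat_lit 10247, nat_lit 9599, nat_lit 9815, nat_lit 9743, nat_lit 9779, nat_lit 9755, nat_lit 9767, nat_lit 9763, nat_lit 29443] (nat_lit 1) [] true,
   Spec.mk (nat_lit 9763) (nat_lit 0) [nat_lit 22885, nat_lit 5389, nat_lit 14137, nat_lit 8305, nat_lit 11221, nat_lit 9277, nat_lit 10249, nat_lit 9601, nat_lit 9817, nat_lit 9745, nat_lit 9781, nat_lit 9769, nat_lit 9761, nat_lit 29445] (nat_lit 0) [] true,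
   Spec.mk (nat_lit 9767) (nat_lit 0) [nat_lit 22889, nat_lit 5393, nat_lit 14141, nat_lit 8309, nat_lit 11225, nat_lit 9281, nat_lit 10253, nat_lit 9605, nat_lit 9821, nat_lit 9785, nat_lit 9761, nat_lit 9769, nat_lit 29449] (nat_lit 3) [] true,
   Spec.mk (nat_lit 9769) (nat_lit 0) [nat_lit 22891, nat_lit 5395, nat_lit 14143, nat_lit 8311, nat_lit 11227, nat_lit 9283, nat_lit 10255, nat_lit 9607, nat_lit 9823, nat_lit 9787, nat_lit 9763, nat_lit 9767, nat_lit 9771, nat_lit 29451] (nat_lit 0) [] false,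
   Spec.mk (nat_lit 9771) (nat_lit 1) [nat_lit 22893, nat_lit 5397, nat_lit 14145, nat_lit 8313, nat_lit 11229, nat_lit 9285, nat_lit 10257, nat_lit 9609, nat_lit 9825, nat_lit 9789, nat_lit 9769] (nat_lit 0) [] false,
   Spec.mk (nat_lit 9779) (nat_lit 0) [nat_lit 22901, nat_lit 5405, nat_lit 14153, nat_lit 8321, nat_lit 11237, nat_lit 9293, nat_lit 10265, nat_lit 9617, nat_lit 9833, nat_lit 9761, nat_lit 9785, nat_lit 9781, nat_lit 29461] (nat_lit 3) [] true,
   Spec.mk (nat_lit 9781) (nat_lit 0) [nat_lit 22903, nat_lit 5407, nat_lit 14155, nat_lit 8323, nat_lit 11239, nat_lit 9295, nat_lit 10267, nat_lit 9619, nat_lit 9835, nat_lit 9763, nat_lit 9787, nat_lit 9779, nat_lit 29463] (nat_lit 3) [] false,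
   Spec.mk (nat_lit 9785) (nat_lit 0) [nat_lit 22907, nat_lit 5411, nat_lit 14159, nat_lit 8327, nat_lit 11243, nat_lit 9299, nat_lit 10271, nat_lit 9623, nat_lit 9839, nat_lit 9767, nat_lit 9779, nat_lit 9787, nat_lit 29467] (nat_lit 3) [] false,
   Spec.mk (nat_lit 9787) (nat_lit 0) [nat_lit 22909, nat_lit 5413, nat_lit 14161, nat_lit 8329, nat_lit 11245, nat_lit 9301, nat_lit 10273, nat_lit 9625, nat_lit 9841, nat_lit 9769, nat_lit 9781, nat_lit 9793, nat_lit 9785, nat_lit 9789, nat_lit 29469] (nat_lit 1) [] false,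
   Spec.mk (nat_lit 9789) (nat_lit 0) [nat_lit 22911, nat_lit 5415, nat_lit 14163, nat_lit 8331, nat_lit 11247, nat_lit 9303, nat_lit 10275, nat_lit 9627, nat_lit 9843, nat_lit 9771, nat_lit 9795, nat_lit 9787] (nat_lit 1) [] false,
   Spec.mk (nat_lit 9793) (nat_lit 0) [nat_lit 22915, nat_lit 5419, nat_lit 14167, nat_lit 8335, nat_lit 11251, nat_lit 9307, nat_lit 10279, nat_lit 9631, nat_lit 9847, nat_lit 9787, nat_lit 9795, nat_lit 29475] (nat_lit 1) [] false,
   Spec.mk (nat_lit 9795) (nat_lit 1) [nat_lit 22917, nat_lit 5421, nat_lit 14169, nat_lit 8337, nat_lit 11253, nat_lit 9309, nat_lit 10281, nat_lit 9633, nat_lit 9849, nat_lit 9789, nat_lit 9793] (nat_lit 0) [] false]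

noncomputable def sp26 : List Spec :=
  [Spec.mk (nat_lit 9809) (nat_lit 0) [nat_lit 22931, nat_lit 5435, nat_lit 14183, nat_lit 8351, nat_lit 11267, nat_lit 9323, nat_lit 10295, nat_lit 9647, nat_lit 9971, nat_lit 9755, nat_lit 9815, nat_lit 29491] (nat_lit 0) [] false,
   Spec.mk (nat_lit 9815) (nat_lit 0) [nat_lit 22937, nat_lit 5441, nat_lit 14189, nat_lit 8357, nat_lit 11273, nat_lit 9329, nat_lit 10301, nat_lit 9653, nat_lit 9977, nat_lit 9761, nat_lit 9833, nat_lit 9809, nat_lit 9821, nat_lit 9817, nat_lit 29497] (nat_lit 1) [] true,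
   Spec.mk (nat_lit 9817) (nat_lit 0) [nat_lit 22939, nat_lit 5443, nat_lit 14191, nat_lit 8359, nat_lit 11275, nat_lit 9331, nat_lit 10303, nat_lit 9655, nat_lit 9979, nat_lit 9763, nat_lit 9835, nat_lit 9823, nat_lit 9815, nat_lit 29499] (nat_lit 0) [] true,
   Spec.mk (nat_lit 9821) (nat_lit 0) [nat_lit 22943, nat_lit 5447, nat_lit 14195, nat_lit 8363, nat_lit 11279, nat_lit 9335, nat_lit 10307, nat_lit 9659, nat_lit 9983, nat_lit 9767, nat_lit 9839, nat_lit 9815, nat_lit 9823, nat_lit 29503] (nat_lit 4) [] true,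
   Spec.mk (nat_lit 9823) (nat_lit 0) [nat_lit 22945, nat_lit 5449, nat_lit 14197, nat_lit 8365, nat_lit 11281, nat_lit 9337, nat_lit 10309, nat_lit 9661, nat_lit 9985, nat_lit 9769, nat_lit 9841, nat_lit 9817, nat_lit 9821, nat_lit 9825, nat_lit 29505] (nat_lit 1) [] false,
   Spec.mk (nat_lit 9825) (nat_lit 0) [nat_lit 22947, nat_lit 5451, nat_lit 14199, nat_lit 8367, nat_lit 11283, nat_lit 9339, nat_lit 10311, nat_lit 9663, nat_lit 9987, nat_lit 9771, nat_lit 9843, nat_lit 9823] (nat_lit 0) [] false,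
   Spec.mk (nat_lit 9833) (nat_lit 0) [nat_lit 22955, nat_lit 5459, nat_lit 14207, nat_lit 8375, nat_lit 11291, nat_lit 9347, nat_lit 10319, nat_lit 9671, nat_lit 9995, nat_lit 9779, nat_lit 9887, nat_lit 9815, nat_lit 9839, nat_lit 9835, nat_lit 29515] (nat_lit 1) [] true,
   Spec.mk (nat_lit 9835) (nat_lit 0) [nat_lit 22957, nat_lit 5461, nat_lit 14209, nat_lit 8377, nat_lit 11293, nat_lit 9349, nat_lit 10321, nat_lit 9673, nat_lit 9997, nat_lit 9781, nat_lit 9889, nat_lit 9817, nat_lit 9841, nat_lit 9833, nat_lit 29517] (nat_lit 1) [] false,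
   Spec.mk (nat_lit 9839) (nat_lit 0) [nat_lit 22961, nat_lit 5465, nat_lit 14213, nat_lit 8381, nat_lit 11297, nat_lit 9353, nat_lit 10325, nat_lit 9677, nat_lit 10001, nat_lit 9785, nat_lit 9893, nat_lit 9821, nat_lit 9857, nat_lit 9833, nat_lit 9841, nat_lit 29521] (nat_lit 2) [] true,
   Spec.mk (nat_lit 9841) (nat_lit 0) [nat_lit 22963, nat_lit 5467, nat_lit 14215, nat_lit 8383, nat_lit 11299, nat_lit 9355, nat_lit 10327, nat_lit 9679, nat_lit 10003, nat_lit 9787, nat_lit 9895, nat_lit 9823, nat_lit 9859, nat_lit 9835, nat_lit 9847, nat_lit 9839, nat_lit 9843, nat_lit 29523] (nat_lit 0) [] true,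
   Spec.mk (nat_lit 9843) (nat_lit 0) [nat_lit 22965, nat_lit 5469, nat_lit 14217, nat_lit 8385, nat_lit 11301, nat_lit 9357, nat_lit 10329, nat_lit 9681, nat_lit 10005, nat_lit 9789, nat_lit 9897, nat_lit 9825, nat_lit 9861, nat_lit 9849, nat_lit 9841] (nat_lit 0) [] false,
   Spec.mk (nat_lit 9847) (nat_lit 0) [nat_lit 22969, nat_lit 5473, nat_lit 14221, nat_lit 8389, nat_lit 11305, nat_lit 9361, nat_lit 10333, nat_lit 9685, nat_lit 10009, nat_lit 9793, nat_lit 9901, nat_lit 9865, nat_lit 9841, nat_lit 9849, nat_lit 29529] (nat_lit 1) [] false,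
   Spec.mk (nat_lit 9849) (nat_lit 1) [nat_lit 22971, nat_lit 5475, nat_lit 14223, nat_lit 8391, nat_lit 11307, nat_lit 9363, nat_lit 10335, nat_lit 9687, nat_lit 10011, nat_lit 9795, nat_lit 9903, nat_lit 9867, nat_lit 9843, nat_lit 9847] (nat_lit 0) [] false,
   Spec.mk (nat_lit 9857) (nat_lit 0) [nat_lit 22979, nat_lit 5483, nat_lit 14231, nat_lit 8399, nat_lit 11315, nat_lit 9371, nat_lit 10343, nat_lit 9695, nat_lit 10019, nat_lit 9911, nat_lit 9839, nat_lit 9859, nat_lit 29539] (nat_lit 2) [] false,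
   Spec.mk (nat_lit 9859) (nat_lit 0) [nat_lit 22981, nat_lit 5485, nat_lit 14233, nat_lit 8401, nat_lit 11317, nat_lit 9373, nat_lit 10345, nat_lit 9697, nat_lit 10021, nat_lit 9913, nat_lit 9841, nat_lit 9865, nat_lit 9857, nat_lit 9861, nat_lit 29541] (nat_lit 1) [] false,
   Spec.mk (nat_lit 9861) (nat_lit 0) [nat_lit 22983, nat_lit 5487, nat_lit 14235, nat_lit 8403, nat_lit 11319, nat_lit 9375, nat_lit 10347, nat_lit 9699, nat_lit 10023, nat_lit 9915, nat_lit 9843, nat_lit 9867, nat_lit 9859] (nat_lit 2) [] false,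
   Spec.mk (nat_lit 9865) (nat_lit 0) [nat_lit 22987, nat_lit 5491, nat_lit 14239, nat_lit 8407, nat_lit 11323, nat_lit 9379, nat_lit 10351, nat_lit 9703, nat_lit 10027, nat_lit 9919, nat_lit 9847, nat_lit 9859, nat_lit 9867, nat_lit 29547] (nat_lit 0) [] false,
   Spec.mk (nat_lit 9867) (nat_lit 1) [nat_lit 22989, nat_lit 5493, nat_lit 14241, nat_lit 8409, nat_lit 11325, nat_lit 9381, nat_lit 10353, nat_lit 9705, nat_lit 10029, nat_lit 9921, nat_lit 9849, nat_lit 9861, nat_lit 9873, nat_lit 9865] (nat_lit 0) [] false,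
   Spec.mk (nat_lit 9873) (nat_lit 2) [nat_lit 22995, nat_lit 5499, nat_lit 14247, nat_lit 8415, nat_lit 11331, nat_lit 9387, nat_lit 10359, nat_lit 9711, nat_lit 10035, nat_lit 9927, nat_lit 9867] (nat_lit 0) [] false,
   Spec.mk (nat_lit 9887) (nat_lit 0) [nat_lit 23009, nat_lit 5513, nat_lit 14261, nat_lit 8429, nat_lit 11345, nat_lit 9401, nat_lit 10373, nat_lit 10049, nat_lit 9833, nat_lit 9893, nat_lit 9889, nat_lit 29569] (nat_lit 1) [] false,
   Spec.mk (nat_lit 9889) (nat_lit 0) [nat_lit 23011, nat_lit 5515, nat_lit 14263, nat_lit 8431, nat_lit 11347, nat_lit 9403, nat_lit 10375, nat_lit 10051, nat_lit 9835, nat_lit 9895, nat_lit 9887, nat_lit 29571] (nat_lit 1) [] false,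
   Spec.mk (nat_lit 9893) (nat_lit 0) [nat_lit 23015, nat_lit 5519, nat_lit 14267, nat_lit 8435, nat_lit 11351, nat_lit 9407, nat_lit 10379, nat_lit 10055, nat_lit 9839, nat_lit 9911, nat_lit 9887, nat_lit 9895, nat_lit 29575] (nat_lit 3) [] false,
   Spec.mk (nat_lit 9895) (nat_lit 0) [nat_lit 23017, nat_lit 5521, nat_lit 14269, nat_lit 8437, nat_lit 11353, nat_lit 9409, nat_lit 10381, nat_lit 10057, nat_lit 9841, nat_lit 9913, nat_lit 9889, nat_lit 9901, nat_lit 9893, nat_lit 9897, nat_lit 29577] (nat_lit 1) [] false,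
   Spec.mk (nat_lit 9897) (nat_lit 0) [nat_lit 23019, nat_lit 5523, nat_lit 14271, nat_lit 8439, nat_lit 11355, nat_lit 9411, nat_lit 10383, nat_lit 10059, nat_lit 9843, nat_lit 9915, nat_lit 9903, nat_lit 9895] (nat_lit 1) [] false,
   Spec.mk (nat_lit 9901) (nat_lit 0) [nat_lit 23023, nat_lit 5527, nat_lit 14275, nat_lit 8443, nat_lit 11359, nat_lit 9415, nat_lit 10387, nat_lit 10063, nat_lit 9847, nat_lit 9919, nat_lit 9895, nat_lit 9903, nat_lit 29583] (nat_lit 3) [] false,
   Spec.mk (nat_lit 9903) (nat_lit 0) [nat_lit 23025, nat_lit 5529, nat_lit 14277, nat_lit 8445, nat_lit 11361, nat_lit 9417, nat_lit 10389, nat_lit 10065, nat_lit 9849, nat_lit 9921, nat_lit 9897, nat_lit 9901] (nat_lit 1) [] false,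
   Spec.mk (nat_lit 9911) (nat_lit 0) [nat_lit 23033, nat_lit 5537, nat_lit 14285, nat_lit 8453, nat_lit 11369, nat_lit 9425, nat_lit 10397, nat_lit 10073, nat_lit 9857, nat_lit 9893, nat_lit 9913, nat_lit 29593] (nat_lit 1) [] false,
   Spec.mk (nat_lit 9913) (nat_lit 0) [nat_lit 23035, nat_lit 5539, nat_lit 14287, nat_lit 8455, nat_lit 11371, nat_lit 9427, nat_lit 10399, nat_lit 10075, nat_lit 9859, nat_lit 9895, nat_lit 9919, nat_lit 9911, nat_lit 9915, nat_lit 29595] (nat_lit 0) [] false,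
   Spec.mk (nat_lit 9915) (nat_lit 0) [nat_lit 23037, nat_lit 5541, nat_lit 14289, nat_lit 8457, nat_lit 11373, nat_lit 9429, nat_lit 10401, nat_lit 10077, nat_lit 9861, nat_lit 9897, nat_lit 9921, nat_lit 9913] (nat_lit 1) [] false,
   Spec.mk (nat_lit 9919) (nat_lit 0) [nat_lit 23041, nat_lit 5545, nat_lit 14293, nat_lit 8461, nat_lit 11377, nat_lit 9433, nat_lit 10405, nat_lit 10081, nat_lit 9865, nat_lit 9901, nat_lit 9937, nat_lit 9913, nat_lit 9921, nat_lit 29601] (nat_lit 0) [] false,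
   Spec.mk (nat_lit 9921) (nat_lit 1) [nat_lit 23043, nat_lit 5547, nat_lit 14295, nat_lit 8463, nat_lit 11379, nat_lit 9435, nat_lit 10407, nat_lit 10083, nat_lit 9867, nat_lit 9903, nat_lit 9939, nat_lit 9915, nat_lit 9927, nat_lit 9919] (nat_lit 0) [] false,
   Spec.mk (nat_lit 9927) (nat_lit 1) [nat_lit 23049, nat_lit 5553, nat_lit 14301, nat_lit 8469, nat_lit 11385, nat_lit 9441, nat_lit 10413, nat_lit 10089, nat_lit 9873, nat_lit 9945, nat_lit 9921] (nat_lit 0) [] false,
   Spec.mk (nat_lit 9937) (nat_lit 1) [nat_lit 23059, nat_lit 5563, nat_lit 14311, nat_lit 8479, nat_lit 11395, nat_lit 9451, nat_lit 10423, nat_lit 10099, nat_lit 9919, nat_lit 9939, nat_lit 29619] (nat_lit 0) [] false,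
   Spec.mk (nat_lit 9939) (nat_lit 1) [nat_lit 23061, nat_lit 5565, nat_lit 14313, nat_lit 8481, nat_lit 11397, nat_lit 9453, nat_lit 10425, nat_lit 10101, nat_lit 9921, nat_lit 9945, nat_lit 9937] (nat_lit 0) [] false,
   Spec.mk (nat_lit 9945) (nat_lit 3) [nat_lit 23067, nat_lit 5571, nat_lit 14319, nat_lit 8487, nat_lit 11403, nat_lit 9459, nat_lit 10431, nat_lit 10107, nat_lit 9927, nat_lit 9939] (nat_lit 0) [] false,
   Spec.mk (nat_lit 9971) (nat_lit 0) [nat_lit 23093, nat_lit 5597, nat_lit 14345, nat_lit 8513, nat_lit 11429, nat_lit 10457, nat_lit 9809, nat_lit 9977, nat_lit 29653] (nat_lit 0) [] false,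
   Spec.mk (nat_lit 9977) (nat_lit 0) [nat_lit 23099, nat_lit 5603, nat_lit 14351, nat_lit 8519, nat_lit 11435, nat_lit 10463, nat_lit 9815, nat_lit 9995, nat_lit 9971, nat_lit 9983, nat_lit 9979, nat_lit 29659] (nat_lit 1) [] false,
   Spec.mk (nat_lit 9979) (nat_lit 0) [nat_lit 23101, nat_lit 5605, nat_lit 14353, nat_lit 8521, nat_lit 11437, nat_lit 10465, nat_lit 9817, nat_lit 9997, nat_lit 9985, nat_lit 9977, nat_lit 29661] (nat_lit 0) [] false,
   Spec.mk (nat_lit 9983) (nat_lit 0) [nat_lit 23105, nat_lit 5609, nat_lit 14357, nat_lit 8525, nat_lit 11441, nat_lit 10469, nat_lit 9821, nat_lit 10001, nat_lit 9977, nat_lit 9985, nat_lit 29665] (nat_lit 4) [] false,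
   Spec.mk (nat_lit 9985) (nat_lit 0) [nat_lit 23107, nat_lit 5611, nat_lit 14359, nat_lit 8527, nat_lit 11443, nat_lit 10471, nat_lit 9823, nat_lit 10003, nat_lit 9979, nat_lit 9983, nat_lit 9987, nat_lit 29667] (nat_lit 1) [] false,
   Spec.mk (nat_lit 9987) (nat_lit 0) [nat_lit 23109, nat_lit 5613, nat_lit 14361, nat_lit 8529, nat_lit 11445, nat_lit 10473, nat_lit 9825, nat_lit 10005, nat_lit 9985] (nat_lit 0) [] false,
   Spec.mk (nat_lit 9995) (nat_lit 0) [nat_lit 23117, nat_lit 5621, nat_lit 14369, nat_lit 8537, nat_lit 11453, nat_lit 10481, nat_lit 9833, nat_lit 10049, nat_lit 9977, nat_lit 10001, nat_lit 9997, nat_lit 29677] (nat_lit 2) [] false,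
   Spec.mk (nat_lit 9997) (nat_lit 0) [nat_lit 23119, nat_lit 5623, nat_lit 14371, nat_lit 8539, nat_lit 11455, nat_lit 10483, nat_lit 9835, nat_lit 10051, nat_lit 9979, nat_lit 10003, nat_lit 9995, nat_lit 29679] (nat_lit 2) [] false,
   Spec.mk (nat_lit 10001) (nat_lit 0) [nat_lit 23123, nat_lit 5627, nat_lit 14375, nat_lit 8543, nat_lit 11459, nat_lit 10487, nat_lit 9839, nat_lit 10055, nat_lit 9983, nat_lit 10019, nat_lit 9995, nat_lit 10003, nat_lit 29683] (nat_lit 3) [] false,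
   Spec.mk (nat_lit 10003) (nat_lit 0) [nat_lit 23125, nat_lit 5629, nat_lit 14377, nat_lit 8545, nat_lit 11461, nat_lit 10489, nat_lit 9841, nat_lit 10057, nat_lit 9985, nat_lit 10021, nat_lit 9997, nat_lit 10009, nat_lit 10001, nat_lit 10005, nat_lit 29685] (nat_lit 1) [] false,
   Spec.mk (nat_lit 10005) (nat_lit 0) [nat_lit 23127, nat_lit 5631, nat_lit 14379, nat_lit 8547, nat_lit 11463, nat_lit 10491, nat_lit 9843, nat_lit 10059, nat_lit 9987, nat_lit 10023, nat_lit 10011, nat_lit 10003] (nat_lit 1) [] false,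
   Spec.mk (nat_lit 10009) (nat_lit 0) [nat_lit 23131, nat_lit 5635, nat_lit 14383, nat_lit 8551, nat_lit 11467, nat_lit 10495, nat_lit 9847, nat_lit 10063, nat_lit 10027, nat_lit 10003, nat_lit 10011, nat_lit 29691] (nat_lit 2) [] false,
   Spec.mk (nat_lit 10011) (nat_lit 0) [nat_lit 23133, nat_lit 5637, nat_lit 14385, nat_lit 8553, nat_lit 11469, nat_lit 10497, nat_lit 9849, nat_lit 10065, nat_lit 10029, nat_lit 10005, nat_lit 10009] (nat_lit 0) [] false,
   Spec.mk (nat_lit 10019) (nat_lit 0) [nat_lit 23141, nat_lit 5645, nat_lit 14393, nat_lit 8561, nat_lit 11477, nat_lit 10505, nat_lit 9857, nat_lit 10073, nat_lit 10001, nat_lit 10021, nat_lit 29701] (nat_lit 4) [] false,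
   Spec.mk (nat_lit 10021) (nat_lit 0) [nat_lit 23143, nat_lit 5647, nat_lit 14395, nat_lit 8563, nat_lit 11479, nat_lit 10507, nat_lit 9859, nat_lit 10075, nat_lit 10003, nat_lit 10027, nat_lit 10019, nat_lit 10023, nat_lit 29703] (nat_lit 3) [] false,
   Spec.mk (nat_lit 10023) (nat_lit 0) [nat_lit 23145, nat_lit 5649, nat_lit 14397, nat_lit 8565, nat_lit 11481, nat_lit 10509, nat_lit 9861, nat_lit 10077, nat_lit 10005, nat_lit 10029, nat_lit 10021] (nat_lit 4) [] false,
   Spec.mk (nat_lit 10027) (nat_lit 0) [nat_lit 23149, nat_lit 5653, nat_lit 14401, nat_lit 8569, nat_lit 11485, nat_lit 10513, nat_lit 9865, nat_lit 10081, nat_lit 10009, nat_lit 10021, nat_lit 10029, nat_lit 29709] (nat_lit 2) [] false,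
   Spec.mk (nat_lit 10029) (nat_lit 0) [nat_lit 23151, nat_lit 5655, nat_lit 14403, nat_lit 8571, nat_lit 11487, nat_lit 10515, nat_lit 9867, nat_lit 10083, nat_lit 10011, nat_lit 10023, nat_lit 10035, nat_lit 10027] (nat_lit 1) [] false,
   Spec.mk (nat_lit 10035) (nat_lit 0) [nat_lit 23157, nat_lit 5661, nat_lit 14409, nat_lit 8577, nat_lit 11493, nat_lit 10521, nat_lit 9873, nat_lit 10089, nat_lit 10029] (nat_lit 0) [] false,
   Spec.mk (nat_lit 10049) (nat_lit 0) [nat_lit 23171, nat_lit 5675, nat_lit 14423, nat_lit 8591, nat_lit 11507, nat_lit 10535, nat_lit 9887, nat_lit 9995, nat_lit 10055, nat_lit 10051, nat_lit 29731] (nat_lit 0) [] false,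
   Spec.mk (nat_lit 10051) (nat_lit 0) [nat_lit 23173, nat_lit 5677, nat_lit 14425, nat_lit 8593, nat_lit 11509, nat_lit 10537, nat_lit 9889, nat_lit 9997, nat_lit 10057, nat_lit 10049, nat_lit 29733] (nat_lit 0) [] false,
   Spec.mk (nat_lit 10055) (nat_lit 0) [nat_lit 23177, nat_lit 5681, nat_lit 14429, nat_lit 8597, nat_lit 11513, nat_lit 10541, nat_lit 9893, nat_lit 10001, nat_lit 10073, nat_lit 10049, nat_lit 10057, nat_lit 29737] (nat_lit 2) [] false,
   Spec.mk (nat_lit 10057) (nat_lit 0) [nat_lit 23179, nat_lit 5683, nat_lit 14431, nat_lit 8599, nat_lit 11515, nat_lit 10543, nat_lit 9895, nat_lit 10003, nat_lit 10075, nat_lit 10051, nat_lit 10063, nat_lit 10055, nat_lit 10059, nat_lit 29739] (nat_lit 0) [] false,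
   Spec.mk (nat_lit 10059) (nat_lit 0) [nat_lit 23181, nat_lit 5685, nat_lit 14433, nat_lit 8601, nat_lit 11517, nat_lit 10545, nat_lit 9897, nat_lit 10005, nat_lit 10077, nat_lit 10065, nat_lit 10057] (nat_lit 0) [] false,
   Spec.mk (nat_lit 10063) (nat_lit 0) [nat_lit 23185, nat_lit 5689, nat_lit 14437, nat_lit 8605, nat_lit 11521, nat_lit 10549, nat_lit 9901, nat_lit 10009, nat_lit 10081, nat_lit 10057, nat_lit 10065, nat_lit 29745] (nat_lit 2) [] false]

noncomputable def sp27 : List Spec :=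
  [Spec.mk (nat_lit 10065) (nat_lit 0) [nat_lit 23187, nat_lit 5691, nat_lit 14439, nat_lit 8607, nat_lit 11523, nat_lit 10551, nat_lit 9903, nat_lit 10011, nat_lit 10083, nat_lit 10059, nat_lit 10063] (nat_lit 0) [] false,
   Spec.mk (nat_lit 10073) (nat_lit 0) [nat_lit 23195, nat_lit 5699, nat_lit 14447, nat_lit 8615, nat_lit 11531, nat_lit 10559, nat_lit 9911, nat_lit 10019, nat_lit 10127, nat_lit 10055, nat_lit 10075, nat_lit 29755] (nat_lit 1) [] false,
   Spec.mk (nat_lit 10075) (nat_lit 0) [nat_lit 23197, nat_lit 5701, nat_lit 14449, nat_lit 8617, nat_lit 11533, nat_lit 10561, nat_lit 9913, nat_lit 10021, nat_lit 10129, nat_lit 10057, nat_lit 10081, nat_lit 10073, nat_lit 10077, nat_lit 29757] (nat_lit 0) [] false,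
   Spec.mk (nat_lit 10077) (nat_lit 0) [nat_lit 23199, nat_lit 5703, nat_lit 14451, nat_lit 8619, nat_lit 11535, nat_lit 10563, nat_lit 9915, nat_lit 10023, nat_lit 10131, nat_lit 10059, nat_lit 10083, nat_lit 10075] (nat_lit 1) [] false,
   Spec.mk (nat_lit 10081) (nat_lit 0) [nat_lit 23203, nat_lit 5707, nat_lit 14455, nat_lit 8623, nat_lit 11539, nat_lit 10567, nat_lit 9919, nat_lit 10027, nat_lit 10135, nat_lit 10063, nat_lit 10099, nat_lit 10075, nat_lit 10083, nat_lit 29763] (nat_lit 0) [] false,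
   Spec.mk (nat_lit 10083) (nat_lit 1) [nat_lit 23205, nat_lit 5709, nat_lit 14457, nat_lit 8625, nat_lit 11541, nat_lit 10569, nat_lit 9921, nat_lit 10029, nat_lit 10137, nat_lit 10065, nat_lit 10101, nat_lit 10077, nat_lit 10089, nat_lit 10081] (nat_lit 0) [] false,
   Spec.mk (nat_lit 10089) (nat_lit 1) [nat_lit 23211, nat_lit 5715, nat_lit 14463, nat_lit 8631, nat_lit 11547, nat_lit 10575, nat_lit 9927, nat_lit 10035, nat_lit 10143, nat_lit 10107, nat_lit 10083] (nat_lit 0) [] false,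
   Spec.mk (nat_lit 10099) (nat_lit 0) [nat_lit 23221, nat_lit 5725, nat_lit 14473, nat_lit 8641, nat_lit 11557, nat_lit 10585, nat_lit 9937, nat_lit 10153, nat_lit 10081, nat_lit 10101, nat_lit 29781] (nat_lit 0) [] false,
   Spec.mk (nat_lit 10101) (nat_lit 0) [nat_lit 23223, nat_lit 5727, nat_lit 14475, nat_lit 8643, nat_lit 11559, nat_lit 10587, nat_lit 9939, nat_lit 10155, nat_lit 10083, nat_lit 10107, nat_lit 10099] (nat_lit 0) [] false,
   Spec.mk (nat_lit 10107) (nat_lit 2) [nat_lit 23229, nat_lit 5733, nat_lit 14481, nat_lit 8649, nat_lit 11565, nat_lit 10593, nat_lit 9945, nat_lit 10161, nat_lit 10089, nat_lit 10101] (nat_lit 0) [] false,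
   Spec.mk (nat_lit 10127) (nat_lit 0) [nat_lit 23249, nat_lit 5753, nat_lit 14501, nat_lit 8669, nat_lit 11585, nat_lit 10613, nat_lit 10073, nat_lit 10129, nat_lit 29809] (nat_lit 0) [] false,
   Spec.mk (nat_lit 10129) (nat_lit 1) [nat_lit 23251, nat_lit 5755, nat_lit 14503, nat_lit 8671, nat_lit 11587, nat_lit 10615, nat_lit 10075, nat_lit 10135, nat_lit 10127, nat_lit 10131, nat_lit 29811] (nat_lit 0) [] false,
   Spec.mk (nat_lit 10131) (nat_lit 0) [nat_lit 23253, nat_lit 5757, nat_lit 14505, nat_lit 8673, nat_lit 11589, nat_lit 10617, nat_lit 10077, nat_lit 10137, nat_lit 10129] (nat_lit 0) [] false,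
   Spec.mk (nat_lit 10135) (nat_lit 0) [nat_lit 23257, nat_lit 5761, nat_lit 14509, nat_lit 8677, nat_lit 11593, nat_lit 10621, nat_lit 10081, nat_lit 10153, nat_lit 10129, nat_lit 10137, nat_lit 29817] (nat_lit 0) [] false,
   Spec.mk (nat_lit 10137) (nat_lit 1) [nat_lit 23259, nat_lit 5763, nat_lit 14511, nat_lit 8679, nat_lit 11595, nat_lit 10623, nat_lit 10083, nat_lit 10155, nat_lit 10131, nat_lit 10143, nat_lit 10135] (nat_lit 0) [] false,
   Spec.mk (nat_lit 10143) (nat_lit 0) [nat_lit 23265, nat_lit 5769, nat_lit 14517, nat_lit 8685, nat_lit 11601, nat_lit 10629, nat_lit 10089, nat_lit 10161, nat_lit 10137] (nat_lit 0) [] false,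
   Spec.mk (nat_lit 10153) (nat_lit 2) [nat_lit 23275, nat_lit 5779, nat_lit 14527, nat_lit 8695, nat_lit 11611, nat_lit 10639, nat_lit 10099, nat_lit 10135, nat_lit 10155, nat_lit 29835] (nat_lit 0) [] false,
   Spec.mk (nat_lit 10155) (nat_lit 2) [nat_lit 23277, nat_lit 5781, nat_lit 14529, nat_lit 8697, nat_lit 11613, nat_lit 10641, nat_lit 10101, nat_lit 10137, nat_lit 10161, nat_lit 10153] (nat_lit 0) [] false,
   Spec.mk (nat_lit 10161) (nat_lit 3) [nat_lit 23283, nat_lit 5787, nat_lit 14535, nat_lit 8703, nat_lit 11619, nat_lit 10647, nat_lit 10107, nat_lit 10143, nat_lit 10179, nat_lit 10155] (nat_lit 0) [] false,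
   Spec.mk (nat_lit 10179) (nat_lit 4) [nat_lit 23301, nat_lit 5805, nat_lit 14553, nat_lit 8721, nat_lit 11637, nat_lit 10665, nat_lit 10161] (nat_lit 0) [] false,
   Spec.mk (nat_lit 10223) (nat_lit 1) [nat_lit 23345, nat_lit 5849, nat_lit 14597, nat_lit 11681, nat_lit 9737, nat_lit 10241, nat_lit 10229, nat_lit 29905] (nat_lit 0) [] false,
   Spec.mk (nat_lit 10229) (nat_lit 0) [nat_lit 23351, nat_lit 5855, nat_lit 14603, nat_lit 11687, nat_lit 9743, nat_lit 10247, nat_lit 10223, nat_lit 10231, nat_lit 29911] (nat_lit 1) [] false,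
   Spec.mk (nat_lit 10231) (nat_lit 1) [nat_lit 23353, nat_lit 5857, nat_lit 14605, nat_lit 11689, nat_lit 9745, nat_lit 10249, nat_lit 10229, nat_lit 29913] (nat_lit 0) [] false,
   Spec.mk (nat_lit 10241) (nat_lit 0) [nat_lit 23363, nat_lit 5867, nat_lit 14615, nat_lit 11699, nat_lit 9755, nat_lit 10295, nat_lit 10223, nat_lit 10247, nat_lit 29923] (nat_lit 1) [] false,
   Spec.mk (nat_lit 10247) (nat_lit 0) [nat_lit 23369, nat_lit 5873, nat_lit 14621, nat_lit 11705, nat_lit 9761, nat_lit 10301, nat_lit 10229, nat_lit 10265, nat_lit 10241, nat_lit 10253, nat_lit 10249, nat_lit 29929] (nat_lit 1) [] false,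
   Spec.mk (nat_lit 10249) (nat_lit 0) [nat_lit 23371, nat_lit 5875, nat_lit 14623, nat_lit 11707, nat_lit 9763, nat_lit 10303, nat_lit 10231, nat_lit 10267, nat_lit 10255, nat_lit 10247, nat_lit 29931] (nat_lit 0) [] false,
   Spec.mk (nat_lit 10253) (nat_lit 0) [nat_lit 23375, nat_lit 5879, nat_lit 14627, nat_lit 11711, nat_lit 9767, nat_lit 10307, nat_lit 10271, nat_lit 10247, nat_lit 10255, nat_lit 29935] (nat_lit 3) [] false,
   Spec.mk (nat_lit 10255) (nat_lit 0) [nat_lit 23377, nat_lit 5881, nat_lit 14629, nat_lit 11713, nat_lit 9769, nat_lit 10309, nat_lit 10273, nat_lit 10249, nat_lit 10253, nat_lit 10257, nat_lit 29937] (nat_lit 0) [] false,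
   Spec.mk (nat_lit 10257) (nat_lit 1) [nat_lit 23379, nat_lit 5883, nat_lit 14631, nat_lit 11715, nat_lit 9771, nat_lit 10311, nat_lit 10275, nat_lit 10255] (nat_lit 0) [] false,
   Spec.mk (nat_lit 10265) (nat_lit 0) [nat_lit 23387, nat_lit 5891, nat_lit 14639, nat_lit 11723, nat_lit 9779, nat_lit 10319, nat_lit 10247, nat_lit 10271, nat_lit 10267, nat_lit 29947] (nat_lit 3) [] false,
   Spec.mk (nat_lit 10267) (nat_lit 0) [nat_lit 23389, nat_lit 5893, nat_lit 14641, nat_lit 11725, nat_lit 9781, nat_lit 10321, nat_lit 10249, nat_lit 10273, nat_lit 10265, nat_lit 29949] (nat_lit 3) [] false,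
   Spec.mk (nat_lit 10271) (nat_lit 0) [nat_lit 23393, nat_lit 5897, nat_lit 14645, nat_lit 11729, nat_lit 9785, nat_lit 10325, nat_lit 10253, nat_lit 10265, nat_lit 10273, nat_lit 29953] (nat_lit 3) [] false,
   Spec.mk (nat_lit 10273) (nat_lit 0) [nat_lit 23395, nat_lit 5899, nat_lit 14647, nat_lit 11731, nat_lit 9787, nat_lit 10327, nat_lit 10255, nat_lit 10267, nat_lit 10279, nat_lit 10271, nat_lit 10275, nat_lit 29955] (nat_lit 1) [] false,
   Spec.mk (nat_lit 10275) (nat_lit 0) [nat_lit 23397, nat_lit 5901, nat_lit 14649, nat_lit 11733, nat_lit 9789, nat_lit 10329, nat_lit 10257, nat_lit 10281, nat_lit 10273] (nat_lit 1) [] false,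
   Spec.mk (nat_lit 10279) (nat_lit 0) [nat_lit 23401, nat_lit 5905, nat_lit 14653, nat_lit 11737, nat_lit 9793, nat_lit 10333, nat_lit 10273, nat_lit 10281, nat_lit 29961] (nat_lit 1) [] false,
   Spec.mk (nat_lit 10281) (nat_lit 1) [nat_lit 23403, nat_lit 5907, nat_lit 14655, nat_lit 11739, nat_lit 9795, nat_lit 10335, nat_lit 10275, nat_lit 10279] (nat_lit 0) [] false,
   Spec.mk (nat_lit 10295) (nat_lit 0) [nat_lit 23417, nat_lit 5921, nat_lit 14669, nat_lit 11753, nat_lit 9809, nat_lit 10457, nat_lit 10241, nat_lit 10301, nat_lit 29977] (nat_lit 1) [] false,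
   Spec.mk (nat_lit 10301) (nat_lit 0) [nat_lit 23423, nat_lit 5927, nat_lit 14675, nat_lit 11759, nat_lit 9815, nat_lit 10463, nat_lit 10247, nat_lit 10319, nat_lit 10295, nat_lit 10307, nat_lit 10303, nat_lit 29983] (nat_lit 2) [] false,
   Spec.mk (nat_lit 10303) (nat_lit 0) [nat_lit 23425, nat_lit 5929, nat_lit 14677, nat_lit 11761, nat_lit 9817, nat_lit 10465, nat_lit 10249, nat_lit 10321, nat_lit 10309, nat_lit 10301, nat_lit 29985] (nat_lit 1) [] false,
   Spec.mk (nat_lit 10307) (nat_lit 0) [nat_lit 23429, nat_lit 5933, nat_lit 14681, nat_lit 11765, nat_lit 9821, nat_lit 10469, nat_lit 10253, nat_lit 10325, nat_lit 10301, nat_lit 10309, nat_lit 29989] (nat_lit 5) [] false,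
   Spec.mk (nat_lit 10309) (nat_lit 0) [nat_lit 23431, nat_lit 5935, nat_lit 14683, nat_lit 11767, nat_lit 9823, nat_lit 10471, nat_lit 10255, nat_lit 10327, nat_lit 10303, nat_lit 10307, nat_lit 10311, nat_lit 29991] (nat_lit 2) [] false,
   Spec.mk (nat_lit 10311) (nat_lit 0) [nat_lit 23433, nat_lit 5937, nat_lit 14685, nat_lit 11769, nat_lit 9825, nat_lit 10473, nat_lit 10257, nat_lit 10329, nat_lit 10309] (nat_lit 1) [] false,
   Spec.mk (nat_lit 10319) (nat_lit 0) [nat_lit 23441, nat_lit 5945, nat_lit 14693, nat_lit 11777, nat_lit 9833, nat_lit 10481, nat_lit 10265, nat_lit 10373, nat_lit 10301, nat_lit 10325, nat_lit 10321, nat_lit 30001] (nat_lit 2) [] false,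
   Spec.mk (nat_lit 10321) (nat_lit 0) [nat_lit 23443, nat_lit 5947, nat_lit 14695, nat_lit 11779, nat_lit 9835, nat_lit 10483, nat_lit 10267, nat_lit 10375, nat_lit 10303, nat_lit 10327, nat_lit 10319, nat_lit 30003] (nat_lit 2) [] false,
   Spec.mk (nat_lit 10325) (nat_lit 0) [nat_lit 23447, nat_lit 5951, nat_lit 14699, nat_lit 11783, nat_lit 9839, nat_lit 10487, nat_lit 10271, nat_lit 10379, nat_lit 10307, nat_lit 10343, nat_lit 10319, nat_lit 10327, nat_lit 30007] (nat_lit 3) [] false,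
   Spec.mk (nat_lit 10327) (nat_lit 0) [nat_lit 23449, nat_lit 5953, nat_lit 14701, nat_lit 11785, nat_lit 9841, nat_lit 10489, nat_lit 10273, nat_lit 10381, nat_lit 10309, nat_lit 10345, nat_lit 10321, nat_lit 10333, nat_lit 10325, nat_lit 10329, nat_lit 30009] (nat_lit 1) [] false,
   Spec.mk (nat_lit 10329) (nat_lit 0) [nat_lit 23451, nat_lit 5955, nat_lit 14703, nat_lit 11787, nat_lit 9843, nat_lit 10491, nat_lit 10275, nat_lit 10383, nat_lit 10311, nat_lit 10347, nat_lit 10335, nat_lit 10327] (nat_lit 1) [] false,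
   Spec.mk (nat_lit 10333) (nat_lit 0) [nat_lit 23455, nat_lit 5959, nat_lit 14707, nat_lit 11791, nat_lit 9847, nat_lit 10495, nat_lit 10279, nat_lit 10387, nat_lit 10351, nat_lit 10327, nat_lit 10335, nat_lit 30015] (nat_lit 2) [] false,
   Spec.mk (nat_lit 10335) (nat_lit 0) [nat_lit 23457, nat_lit 5961, nat_lit 14709, nat_lit 11793, nat_lit 9849, nat_lit 10497, nat_lit 10281, nat_lit 10389, nat_lit 10353, nat_lit 10329, nat_lit 10333] (nat_lit 0) [] false,
   Spec.mk (nat_lit 10343) (nat_lit 0) [nat_lit 23465, nat_lit 5969, nat_lit 14717, nat_lit 11801, nat_lit 9857, nat_lit 10505, nat_lit 10397, nat_lit 10325, nat_lit 10345, nat_lit 30025] (nat_lit 3) [] false,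
   Spec.mk (nat_lit 10345) (nat_lit 0) [nat_lit 23467, nat_lit 5971, nat_lit 14719, nat_lit 11803, nat_lit 9859, nat_lit 10507, nat_lit 10399, nat_lit 10327, nat_lit 10351, nat_lit 10343, nat_lit 10347, nat_lit 30027] (nat_lit 2) [] false,
   Spec.mk (nat_lit 10347) (nat_lit 0) [nat_lit 23469, nat_lit 5973, nat_lit 14721, nat_lit 11805, nat_lit 9861, nat_lit 10509, nat_lit 10401, nat_lit 10329, nat_lit 10353, nat_lit 10345] (nat_lit 3) [] false,
   Spec.mk (nat_lit 10351) (nat_lit 0) [nat_lit 23473, nat_lit 5977, nat_lit 14725, nat_lit 11809, nat_lit 9865, nat_lit 10513, nat_lit 10405, nat_lit 10333, nat_lit 10345, nat_lit 10353, nat_lit 30033] (nat_lit 1) [] false,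
   Spec.mk (nat_lit 10353) (nat_lit 0) [nat_lit 23475, nat_lit 5979, nat_lit 14727, nat_lit 11811, nat_lit 9867, nat_lit 10515, nat_lit 10407, nat_lit 10335, nat_lit 10347, nat_lit 10359, nat_lit 10351] (nat_lit 0) [] false,
   Spec.mk (nat_lit 10359) (nat_lit 1) [nat_lit 23481, nat_lit 5985, nat_lit 14733, nat_lit 11817, nat_lit 9873, nat_lit 10521, nat_lit 10413, nat_lit 10353] (nat_lit 0) [] false,
   Spec.mk (nat_lit 10373) (nat_lit 0) [nat_lit 23495, nat_lit 5999, nat_lit 14747, nat_lit 11831, nat_lit 9887, nat_lit 10535, nat_lit 10319, nat_lit 10379, nat_lit 10375, nat_lit 30055] (nat_lit 3) [] false,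
   Spec.mk (nat_lit 10375) (nat_lit 0) [nat_lit 23497, nat_lit 6001, nat_lit 14749, nat_lit 11833, nat_lit 9889, nat_lit 10537, nat_lit 10321, nat_lit 10381, nat_lit 10373, nat_lit 30057] (nat_lit 3) [] false,
   Spec.mk (nat_lit 10379) (nat_lit 0) [nat_lit 23501, nat_lit 6005, nat_lit 14753, nat_lit 11837, nat_lit 9893, nat_lit 10541, nat_lit 10325, nat_lit 10397, nat_lit 10373, nat_lit 10381, nat_lit 30061] (nat_lit 5) [] false,
   Spec.mk (nat_lit 10381) (nat_lit 0) [nat_lit 23503, nat_lit 6007, nat_lit 14755, nat_lit 11839, nat_lit 9895, nat_lit 10543, nat_lit 10327, nat_lit 10399, nat_lit 10375, nat_lit 10387, nat_lit 10379, nat_lit 10383, nat_lit 30063] (nat_lit 3) [] false,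
   Spec.mk (nat_lit 10383) (nat_lit 0) [nat_lit 23505, nat_lit 6009, nat_lit 14757, nat_lit 11841, nat_lit 9897, nat_lit 10545, nat_lit 10329, nat_lit 10401, nat_lit 10389, nat_lit 10381] (nat_lit 3) [] false]

noncomputable def sp28 : List Spec :=
  [Spec.mk (nat_lit 10387) (nat_lit 0) [nat_lit 23509, nat_lit 6013, nat_lit 14761, nat_lit 11845, nat_lit 9901, nat_lit 10549, nat_lit 10333, nat_lit 10405, nat_lit 10381, nat_lit 10389, nat_lit 30069] (nat_lit 5) [] false,
   Spec.mk (nat_lit 10389) (nat_lit 0) [nat_lit 23511, nat_lit 6015, nat_lit 14763, nat_lit 11847, nat_lit 9903, nat_lit 10551, nat_lit 10335, nat_lit 10407, nat_lit 10383, nat_lit 10387] (nat_lit 3) [] false,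
   Spec.mk (nat_lit 10397) (nat_lit 0) [nat_lit 23519, nat_lit 6023, nat_lit 14771, nat_lit 11855, nat_lit 9911, nat_lit 10559, nat_lit 10343, nat_lit 10379, nat_lit 10399, nat_lit 30079] (nat_lit 3) [] false,
   Spec.mk (nat_lit 10399) (nat_lit 0) [nat_lit 23521, nat_lit 6025, nat_lit 14773, nat_lit 11857, nat_lit 9913, nat_lit 10561, nat_lit 10345, nat_lit 10381, nat_lit 10405, nat_lit 10397, nat_lit 10401, nat_lit 30081] (nat_lit 2) [] false,
   Spec.mk (nat_lit 10401) (nat_lit 0) [nat_lit 23523, nat_lit 6027, nat_lit 14775, nat_lit 11859, nat_lit 9915, nat_lit 10563, nat_lit 10347, nat_lit 10383, nat_lit 10407, nat_lit 10399] (nat_lit 3) [] false,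
   Spec.mk (nat_lit 10405) (nat_lit 0) [nat_lit 23527, nat_lit 6031, nat_lit 14779, nat_lit 11863, nat_lit 9919, nat_lit 10567, nat_lit 10351, nat_lit 10387, nat_lit 10423, nat_lit 10399, nat_lit 10407, nat_lit 30087] (nat_lit 2) [] false,
   Spec.mk (nat_lit 10407) (nat_lit 0) [nat_lit 23529, nat_lit 6033, nat_lit 14781, nat_lit 11865, nat_lit 9921, nat_lit 10569, nat_lit 10353, nat_lit 10389, nat_lit 10425, nat_lit 10401, nat_lit 10413, nat_lit 10405] (nat_lit 1) [] false,
   Spec.mk (nat_lit 10413) (nat_lit 0) [nat_lit 23535, nat_lit 6039, nat_lit 14787, nat_lit 11871, nat_lit 9927, nat_lit 10575, nat_lit 10359, nat_lit 10431, nat_lit 10407] (nat_lit 1) [] false,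
   Spec.mk (nat_lit 10423) (nat_lit 0) [nat_lit 23545, nat_lit 6049, nat_lit 14797, nat_lit 11881, nat_lit 9937, nat_lit 10585, nat_lit 10405, nat_lit 10425, nat_lit 30105] (nat_lit 1) [] false,
   Spec.mk (nat_lit 10425) (nat_lit 0) [nat_lit 23547, nat_lit 6051, nat_lit 14799, nat_lit 11883, nat_lit 9939, nat_lit 10587, nat_lit 10407, nat_lit 10431, nat_lit 10423] (nat_lit 1) [] false,
   Spec.mk (nat_lit 10431) (nat_lit 1) [nat_lit 23553, nat_lit 6057, nat_lit 14805, nat_lit 11889, nat_lit 9945, nat_lit 10593, nat_lit 10413, nat_lit 10425] (nat_lit 0) [] false,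
   Spec.mk (nat_lit 10457) (nat_lit 1) [nat_lit 23579, nat_lit 6083, nat_lit 14831, nat_lit 11915, nat_lit 9971, nat_lit 10295, nat_lit 10463, nat_lit 30139] (nat_lit 0) [] false,
   Spec.mk (nat_lit 10463) (nat_lit 0) [nat_lit 23585, nat_lit 6089, nat_lit 14837, nat_lit 11921, nat_lit 9977, nat_lit 10301, nat_lit 10481, nat_lit 10457, nat_lit 10469, nat_lit 10465, nat_lit 30145] (nat_lit 0) [] false,
   Spec.mk (nat_lit 10465) (nat_lit 1) [nat_lit 23587, nat_lit 6091, nat_lit 14839, nat_lit 11923, nat_lit 9979, nat_lit 10303, nat_lit 10483, nat_lit 10471, nat_lit 10463, nat_lit 30147] (nat_lit 0) [] false,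
   Spec.mk (nat_lit 10469) (nat_lit 0) [nat_lit 23591, nat_lit 6095, nat_lit 14843, nat_lit 11927, nat_lit 9983, nat_lit 10307, nat_lit 10487, nat_lit 10463, nat_lit 10471, nat_lit 30151] (nat_lit 3) [] false,
   Spec.mk (nat_lit 10471) (nat_lit 0) [nat_lit 23593, nat_lit 6097, nat_lit 14845, nat_lit 11929, nat_lit 9985, nat_lit 10309, nat_lit 10489, nat_lit 10465, nat_lit 10469, nat_lit 10473, nat_lit 30153] (nat_lit 0) [] false,
   Spec.mk (nat_lit 10473) (nat_lit 1) [nat_lit 23595, nat_lit 6099, nat_lit 14847, nat_lit 11931, nat_lit 9987, nat_lit 10311, nat_lit 10491, nat_lit 10471] (nat_lit 0) [] false,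
   Spec.mk (nat_lit 10481) (nat_lit 0) [nat_lit 23603, nat_lit 6107, nat_lit 14855, nat_lit 11939, nat_lit 9995, nat_lit 10319, nat_lit 10535, nat_lit 10463, nat_lit 10487, nat_lit 10483, nat_lit 30163] (nat_lit 1) [] false,
   Spec.mk (nat_lit 10483) (nat_lit 0) [nat_lit 23605, nat_lit 6109, nat_lit 14857, nat_lit 11941, nat_lit 9997, nat_lit 10321, nat_lit 10537, nat_lit 10465, nat_lit 10489, nat_lit 10481, nat_lit 30165] (nat_lit 1) [] false,
   Spec.mk (nat_lit 10487) (nat_lit 0) [nat_lit 23609, nat_lit 6113, nat_lit 14861, nat_lit 11945, nat_lit 10001, nat_lit 10325, nat_lit 10541, nat_lit 10469, nat_lit 10505, nat_lit 10481, nat_lit 10489, nat_lit 30169] (nat_lit 2) [] false,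
   Spec.mk (nat_lit 10489) (nat_lit 0) [nat_lit 23611, nat_lit 6115, nat_lit 14863, nat_lit 11947, nat_lit 10003, nat_lit 10327, nat_lit 10543, nat_lit 10471, nat_lit 10507, nat_lit 10483, nat_lit 10495, nat_lit 10487, nat_lit 10491, nat_lit 30171] (nat_lit 0) [] false,
   Spec.mk (nat_lit 10491) (nat_lit 0) [nat_lit 23613, nat_lit 6117, nat_lit 14865, nat_lit 11949, nat_lit 10005, nat_lit 10329, nat_lit 10545, nat_lit 10473, nat_lit 10509, nat_lit 10497, nat_lit 10489] (nat_lit 0) [] false,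
   Spec.mk (nat_lit 10495) (nat_lit 0) [nat_lit 23617, nat_lit 6121, nat_lit 14869, nat_lit 11953, nat_lit 10009, nat_lit 10333, nat_lit 10549, nat_lit 10513, nat_lit 10489, nat_lit 10497, nat_lit 30177] (nat_lit 1) [] false,
   Spec.mk (nat_lit 10497) (nat_lit 1) [nat_lit 23619, nat_lit 6123, nat_lit 14871, nat_lit 11955, nat_lit 10011, nat_lit 10335, nat_lit 10551, nat_lit 10515, nat_lit 10491, nat_lit 10495] (nat_lit 0) [] false,
   Spec.mk (nat_lit 10505) (nat_lit 0) [nat_lit 23627, nat_lit 6131, nat_lit 14879, nat_lit 11963, nat_lit 10019, nat_lit 10343, nat_lit 10559, nat_lit 10487, nat_lit 10507, nat_lit 30187] (nat_lit 3) [] false,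
   Spec.mk (nat_lit 10507) (nat_lit 0) [nat_lit 23629, nat_lit 6133, nat_lit 14881, nat_lit 11965, nat_lit 10021, nat_lit 10345, nat_lit 10561, nat_lit 10489, nat_lit 10513, nat_lit 10505, nat_lit 10509, nat_lit 30189] (nat_lit 2) [] false,
   Spec.mk (nat_lit 10509) (nat_lit 0) [nat_lit 23631, nat_lit 6135, nat_lit 14883, nat_lit 11967, nat_lit 10023, nat_lit 10347, nat_lit 10563, nat_lit 10491, nat_lit 10515, nat_lit 10507] (nat_lit 3) [] false,
   Spec.mk (nat_lit 10513) (nat_lit 0) [nat_lit 23635, nat_lit 6139, nat_lit 14887, nat_lit 11971, nat_lit 10027, nat_lit 10351, nat_lit 10567, nat_lit 10495, nat_lit 10507, nat_lit 10515, nat_lit 30195] (nat_lit 1) [] false,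
   Spec.mk (nat_lit 10515) (nat_lit 0) [nat_lit 23637, nat_lit 6141, nat_lit 14889, nat_lit 11973, nat_lit 10029, nat_lit 10353, nat_lit 10569, nat_lit 10497, nat_lit 10509, nat_lit 10521, nat_lit 10513] (nat_lit 0) [] false,
   Spec.mk (nat_lit 10521) (nat_lit 1) [nat_lit 23643, nat_lit 6147, nat_lit 14895, nat_lit 11979, nat_lit 10035, nat_lit 10359, nat_lit 10575, nat_lit 10515] (nat_lit 0) [] false,
   Spec.mk (nat_lit 10535) (nat_lit 0) [nat_lit 23657, nat_lit 6161, nat_lit 14909, nat_lit 11993, nat_lit 10049, nat_lit 10373, nat_lit 10697, nat_lit 10481, nat_lit 10541, nat_lit 10537, nat_lit 30217] (nat_lit 0) [] false,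
   Spec.mk (nat_lit 10537) (nat_lit 0) [nat_lit 23659, nat_lit 6163, nat_lit 14911, nat_lit 11995, nat_lit 10051, nat_lit 10375, nat_lit 10699, nat_lit 10483, nat_lit 10543, nat_lit 10535, nat_lit 30219] (nat_lit 0) [] false,
   Spec.mk (nat_lit 10541) (nat_lit 0) [nat_lit 23663, nat_lit 6167, nat_lit 14915, nat_lit 11999, nat_lit 10055, nat_lit 10379, nat_lit 10703, nat_lit 10487, nat_lit 10559, nat_lit 10535, nat_lit 10543, nat_lit 30223] (nat_lit 2) [] false,
   Spec.mk (nat_lit 10543) (nat_lit 0) [nat_lit 23665, nat_lit 6169, nat_lit 14917, nat_lit 12001, nat_lit 10057, nat_lit 10381, nat_lit 10705, nat_lit 10489, nat_lit 10561, nat_lit 10537, nat_lit 10549, nat_lit 10541, nat_lit 10545, nat_lit 30225] (nat_lit 0) [] false,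
   Spec.mk (nat_lit 10545) (nat_lit 0) [nat_lit 23667, nat_lit 6171, nat_lit 14919, nat_lit 12003, nat_lit 10059, nat_lit 10383, nat_lit 10707, nat_lit 10491, nat_lit 10563, nat_lit 10551, nat_lit 10543] (nat_lit 0) [] false,
   Spec.mk (nat_lit 10549) (nat_lit 0) [nat_lit 23671, nat_lit 6175, nat_lit 14923, nat_lit 12007, nat_lit 10063, nat_lit 10387, nat_lit 10711, nat_lit 10495, nat_lit 10567, nat_lit 10543, nat_lit 10551, nat_lit 30231] (nat_lit 2) [] false,
   Spec.mk (nat_lit 10551) (nat_lit 0) [nat_lit 23673, nat_lit 6177, nat_lit 14925, nat_lit 12009, nat_lit 10065, nat_lit 10389, nat_lit 10713, nat_lit 10497, nat_lit 10569, nat_lit 10545, nat_lit 10549] (nat_lit 0) [] false,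
   Spec.mk (nat_lit 10559) (nat_lit 0) [nat_lit 23681, nat_lit 6185, nat_lit 14933, nat_lit 12017, nat_lit 10073, nat_lit 10397, nat_lit 10721, nat_lit 10505, nat_lit 10613, nat_lit 10541, nat_lit 10561, nat_lit 30241] (nat_lit 1) [] false,
   Spec.mk (nat_lit 10561) (nat_lit 0) [nat_lit 23683, nat_lit 6187, nat_lit 14935, nat_lit 12019, nat_lit 10075, nat_lit 10399, nat_lit 10723, nat_lit 10507, nat_lit 10615, nat_lit 10543, nat_lit 10567, nat_lit 10559, nat_lit 10563, nat_lit 30243] (nat_lit 0) [] false,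
   Spec.mk (nat_lit 10563) (nat_lit 0) [nat_lit 23685, nat_lit 6189, nat_lit 14937, nat_lit 12021, nat_lit 10077, nat_lit 10401, nat_lit 10725, nat_lit 10509, nat_lit 10617, nat_lit 10545, nat_lit 10569, nat_lit 10561] (nat_lit 1) [] false,
   Spec.mk (nat_lit 10567) (nat_lit 0) [nat_lit 23689, nat_lit 6193, nat_lit 14941, nat_lit 12025, nat_lit 10081, nat_lit 10405, nat_lit 10729, nat_lit 10513, nat_lit 10621, nat_lit 10549, nat_lit 10585, nat_lit 10561, nat_lit 10569, nat_lit 30249] (nat_lit 0) [] false,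
   Spec.mk (nat_lit 10569) (nat_lit 1) [nat_lit 23691, nat_lit 6195, nat_lit 14943, nat_lit 12027, nat_lit 10083, nat_lit 10407, nat_lit 10731, nat_lit 10515, nat_lit 10623, nat_lit 10551, nat_lit 10587, nat_lit 10563, nat_lit 10575, nat_lit 10567] (nat_lit 0) [] false,
   Spec.mk (nat_lit 10575) (nat_lit 1) [nat_lit 23697, nat_lit 6201, nat_lit 14949, nat_lit 12033, nat_lit 10089, nat_lit 10413, nat_lit 10737, nat_lit 10521, nat_lit 10629, nat_lit 10593, nat_lit 10569] (nat_lit 0) [] false,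
   Spec.mk (nat_lit 10585) (nat_lit 0) [nat_lit 23707, nat_lit 6211, nat_lit 14959, nat_lit 12043, nat_lit 10099, nat_lit 10423, nat_lit 10747, nat_lit 10639, nat_lit 10567, nat_lit 10587, nat_lit 30267] (nat_lit 0) [] false,
   Spec.mk (nat_lit 10587) (nat_lit 0) [nat_lit 23709, nat_lit 6213, nat_lit 14961, nat_lit 12045, nat_lit 10101, nat_lit 10425, nat_lit 10749, nat_lit 10641, nat_lit 10569, nat_lit 10593, nat_lit 10585] (nat_lit 0) [] false,
   Spec.mk (nat_lit 10593) (nat_lit 2) [nat_lit 23715, nat_lit 6219, nat_lit 14967, nat_lit 12051, nat_lit 10107, nat_lit 10431, nat_lit 10755, nat_lit 10647, nat_lit 10575, nat_lit 10587] (nat_lit 0) [] false,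
   Spec.mk (nat_lit 10613) (nat_lit 0) [nat_lit 23735, nat_lit 6239, nat_lit 14987, nat_lit 12071, nat_lit 10127, nat_lit 10775, nat_lit 10559, nat_lit 10615, nat_lit 30295] (nat_lit 1) [] false,
   Spec.mk (nat_lit 10615) (nat_lit 0) [nat_lit 23737, nat_lit 6241, nat_lit 14989, nat_lit 12073, nat_lit 10129, nat_lit 10777, nat_lit 10561, nat_lit 10621, nat_lit 10613, nat_lit 10617, nat_lit 30297] (nat_lit 0) [] false,
   Spec.mk (nat_lit 10617) (nat_lit 0) [nat_lit 23739, nat_lit 6243, nat_lit 14991, nat_lit 12075, nat_lit 10131, nat_lit 10779, nat_lit 10563, nat_lit 10623, nat_lit 10615] (nat_lit 1) [] false,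
   Spec.mk (nat_lit 10621) (nat_lit 0) [nat_lit 23743, nat_lit 6247, nat_lit 14995, nat_lit 12079, nat_lit 10135, nat_lit 10783, nat_lit 10567, nat_lit 10639, nat_lit 10615, nat_lit 10623, nat_lit 30303] (nat_lit 1) [] false,
   Spec.mk (nat_lit 10623) (nat_lit 0) [nat_lit 23745, nat_lit 6249, nat_lit 14997, nat_lit 12081, nat_lit 10137, nat_lit 10785, nat_lit 10569, nat_lit 10641, nat_lit 10617, nat_lit 10629, nat_lit 10621] (nat_lit 0) [] false,
   Spec.mk (nat_lit 10629) (nat_lit 0) [nat_lit 23751, nat_lit 6255, nat_lit 15003, nat_lit 12087, nat_lit 10143, nat_lit 10791, nat_lit 10575, nat_lit 10647, nat_lit 10623] (nat_lit 1) [] false,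
   Spec.mk (nat_lit 10639) (nat_lit 1) [nat_lit 23761, nat_lit 6265, nat_lit 15013, nat_lit 12097, nat_lit 10153, nat_lit 10801, nat_lit 10585, nat_lit 10621, nat_lit 10641, nat_lit 30321] (nat_lit 0) [] false,
   Spec.mk (nat_lit 10641) (nat_lit 1) [nat_lit 23763, nat_lit 6267, nat_lit 15015, nat_lit 12099, nat_lit 10155, nat_lit 10803, nat_lit 10587, nat_lit 10623, nat_lit 10647, nat_lit 10639] (nat_lit 0) [] false,
   Spec.mk (nat_lit 10647) (nat_lit 2) [nat_lit 23769, nat_lit 6273, nat_lit 15021, nat_lit 12105, nat_lit 10161, nat_lit 10809, nat_lit 10593, nat_lit 10629, nat_lit 10665, nat_lit 10641] (nat_lit 0) [] false,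
   Spec.mk (nat_lit 10665) (nat_lit 3) [nat_lit 23787, nat_lit 6291, nat_lit 15039, nat_lit 12123, nat_lit 10179, nat_lit 10827, nat_lit 10647] (nat_lit 0) [] false,
   Spec.mk (nat_lit 10697) (nat_lit 1) [nat_lit 23819, nat_lit 6323, nat_lit 15071, nat_lit 12155, nat_lit 10535, nat_lit 10703, nat_lit 10699, nat_lit 30379] (nat_lit 0) [] false,
   Spec.mk (nat_lit 10699) (nat_lit 1) [nat_lit 23821, nat_lit 6325, nat_lit 15073, nat_lit 12157, nat_lit 10537, nat_lit 10705, nat_lit 10697, nat_lit 30381] (nat_lit 0) [] false,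
   Spec.mk (nat_lit 10703) (nat_lit 0) [nat_lit 23825, nat_lit 6329, nat_lit 15077, nat_lit 12161, nat_lit 10541, nat_lit 10721, nat_lit 10697, nat_lit 10705, nat_lit 30385] (nat_lit 1) [] false,
   Spec.mk (nat_lit 10705) (nat_lit 1) [nat_lit 23827, nat_lit 6331, nat_lit 15079, nat_lit 12163, nat_lit 10543, nat_lit 10723, nat_lit 10699, nat_lit 10711, nat_lit 10703, nat_lit 10707, nat_lit 30387] (nat_lit 0) [] false]

noncomputable def sp29 : List Spec :=
  [Spec.mk (nat_lit 10707) (nat_lit 1) [nat_lit 23829, nat_lit 6333, nat_lit 15081, nat_lit 12165, nat_lit 10545, nat_lit 10725, nat_lit 10713, nat_lit 10705] (nat_lit 0) [] false,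
   Spec.mk (nat_lit 10711) (nat_lit 0) [nat_lit 23833, nat_lit 6337, nat_lit 15085, nat_lit 12169, nat_lit 10549, nat_lit 10729, nat_lit 10705, nat_lit 10713, nat_lit 30393] (nat_lit 1) [] false,
   Spec.mk (nat_lit 10713) (nat_lit 1) [nat_lit 23835, nat_lit 6339, nat_lit 15087, nat_lit 12171, nat_lit 10551, nat_lit 10731, nat_lit 10707, nat_lit 10711] (nat_lit 0) [] false,
   Spec.mk (nat_lit 10721) (nat_lit 0) [nat_lit 23843, nat_lit 6347, nat_lit 15095, nat_lit 12179, nat_lit 10559, nat_lit 10775, nat_lit 10703, nat_lit 10723, nat_lit 30403] (nat_lit 1) [] false,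
   Spec.mk (nat_lit 10723) (nat_lit 0) [nat_lit 23845, nat_lit 6349, nat_lit 15097, nat_lit 12181, nat_lit 10561, nat_lit 10777, nat_lit 10705, nat_lit 10729, nat_lit 10721, nat_lit 10725, nat_lit 30405] (nat_lit 0) [] false,
   Spec.mk (nat_lit 10725) (nat_lit 0) [nat_lit 23847, nat_lit 6351, nat_lit 15099, nat_lit 12183, nat_lit 10563, nat_lit 10779, nat_lit 10707, nat_lit 10731, nat_lit 10723] (nat_lit 1) [] false,
   Spec.mk (nat_lit 10729) (nat_lit 0) [nat_lit 23851, nat_lit 6355, nat_lit 15103, nat_lit 12187, nat_lit 10567, nat_lit 10783, nat_lit 10711, nat_lit 10747, nat_lit 10723, nat_lit 10731, nat_lit 30411] (nat_lit 0) [] false,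
   Spec.mk (nat_lit 10731) (nat_lit 1) [nat_lit 23853, nat_lit 6357, nat_lit 15105, nat_lit 12189, nat_lit 10569, nat_lit 10785, nat_lit 10713, nat_lit 10749, nat_lit 10725, nat_lit 10737, nat_lit 10729] (nat_lit 0) [] false,
   Spec.mk (nat_lit 10737) (nat_lit 1) [nat_lit 23859, nat_lit 6363, nat_lit 15111, nat_lit 12195, nat_lit 10575, nat_lit 10791, nat_lit 10755, nat_lit 10731] (nat_lit 0) [] false,
   Spec.mk (nat_lit 10747) (nat_lit 0) [nat_lit 23869, nat_lit 6373, nat_lit 15121, nat_lit 12205, nat_lit 10585, nat_lit 10801, nat_lit 10729, nat_lit 10749, nat_lit 30429] (nat_lit 1) [] false,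
   Spec.mk (nat_lit 10749) (nat_lit 0) [nat_lit 23871, nat_lit 6375, nat_lit 15123, nat_lit 12207, nat_lit 10587, nat_lit 10803, nat_lit 10731, nat_lit 10755, nat_lit 10747] (nat_lit 1) [] false,
   Spec.mk (nat_lit 10755) (nat_lit 1) [nat_lit 23877, nat_lit 6381, nat_lit 15129, nat_lit 12213, nat_lit 10593, nat_lit 10809, nat_lit 10737, nat_lit 10749] (nat_lit 0) [] false,
   Spec.mk (nat_lit 10775) (nat_lit 1) [nat_lit 23897, nat_lit 6401, nat_lit 15149, nat_lit 12233, nat_lit 10613, nat_lit 10721, nat_lit 10777, nat_lit 30457] (nat_lit 0) [] false,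
   Spec.mk (nat_lit 10777) (nat_lit 2) [nat_lit 23899, nat_lit 6403, nat_lit 15151, nat_lit 12235, nat_lit 10615, nat_lit 10723, nat_lit 10783, nat_lit 10775, nat_lit 10779, nat_lit 30459] (nat_lit 0) [] false,
   Spec.mk (nat_lit 10779) (nat_lit 1) [nat_lit 23901, nat_lit 6405, nat_lit 15153, nat_lit 12237, nat_lit 10617, nat_lit 10725, nat_lit 10785, nat_lit 10777] (nat_lit 0) [] false,
   Spec.mk (nat_lit 10783) (nat_lit 1) [nat_lit 23905, nat_lit 6409, nat_lit 15157, nat_lit 12241, nat_lit 10621, nat_lit 10729, nat_lit 10801, nat_lit 10777, nat_lit 10785, nat_lit 30465] (nat_lit 0) [] false,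
   Spec.mk (nat_lit 10785) (nat_lit 2) [nat_lit 23907, nat_lit 6411, nat_lit 15159, nat_lit 12243, nat_lit 10623, nat_lit 10731, nat_lit 10803, nat_lit 10779, nat_lit 10791, nat_lit 10783] (nat_lit 0) [] false,
   Spec.mk (nat_lit 10791) (nat_lit 1) [nat_lit 23913, nat_lit 6417, nat_lit 15165, nat_lit 12249, nat_lit 10629, nat_lit 10737, nat_lit 10809, nat_lit 10785] (nat_lit 0) [] false,
   Spec.mk (nat_lit 10801) (nat_lit 2) [nat_lit 23923, nat_lit 6427, nat_lit 15175, nat_lit 12259, nat_lit 10639, nat_lit 10747, nat_lit 10855, nat_lit 10783, nat_lit 10803, nat_lit 30483] (nat_lit 0) [] false,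
   Spec.mk (nat_lit 10803) (nat_lit 2) [nat_lit 23925, nat_lit 6429, nat_lit 15177, nat_lit 12261, nat_lit 10641, nat_lit 10749, nat_lit 10857, nat_lit 10785, nat_lit 10809, nat_lit 10801] (nat_lit 0) [] false,
   Spec.mk (nat_lit 10809) (nat_lit 3) [nat_lit 23931, nat_lit 6435, nat_lit 15183, nat_lit 12267, nat_lit 10647, nat_lit 10755, nat_lit 10863, nat_lit 10791, nat_lit 10827, nat_lit 10803] (nat_lit 0) [] false,
   Spec.mk (nat_lit 10827) (nat_lit 3) [nat_lit 23949, nat_lit 6453, nat_lit 15201, nat_lit 12285, nat_lit 10665, nat_lit 10881, nat_lit 10809] (nat_lit 0) [] false,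
   Spec.mk (nat_lit 10855) (nat_lit 3) [nat_lit 23977, nat_lit 6481, nat_lit 15229, nat_lit 12313, nat_lit 10801, nat_lit 10857, nat_lit 30537] (nat_lit 0) [] false,
   Spec.mk (nat_lit 10857) (nat_lit 3) [nat_lit 23979, nat_lit 6483, nat_lit 15231, nat_lit 12315, nat_lit 10803, nat_lit 10863, nat_lit 10855] (nat_lit 0) [] false,
   Spec.mk (nat_lit 10863) (nat_lit 3) [nat_lit 23985, nat_lit 6489, nat_lit 15237, nat_lit 12321, nat_lit 10809, nat_lit 10881, nat_lit 10857] (nat_lit 0) [] false,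
   Spec.mk (nat_lit 10881) (nat_lit 5) [nat_lit 24003, nat_lit 6507, nat_lit 15255, nat_lit 12339, nat_lit 10827, nat_lit 10863] (nat_lit 0) [] false,
   Spec.mk (nat_lit 10961) (nat_lit 2) [nat_lit 24083, nat_lit 15335, nat_lit 9503, nat_lit 10979, nat_lit 30643] (nat_lit 0) [] false,
   Spec.mk (nat_lit 10979) (nat_lit 1) [nat_lit 24101, nat_lit 15353, nat_lit 9521, nat_lit 11033, nat_lit 10961, nat_lit 10997, nat_lit 10985, nat_lit 30661] (nat_lit 0) [] false,
   Spec.mk (nat_lit 10985) (nat_lit 0) [nat_lit 24107, nat_lit 15359, nat_lit 9527, nat_lit 11039, nat_lit 11003, nat_lit 10979, nat_lit 10987, nat_lit 30667] (nat_lit 0) [] false,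
   Spec.mk (nat_lit 10987) (nat_lit 2) [nat_lit 24109, nat_lit 15361, nat_lit 9529, nat_lit 11041, nat_lit 11005, nat_lit 10985, nat_lit 30669] (nat_lit 0) [] false,
   Spec.mk (nat_lit 10997) (nat_lit 0) [nat_lit 24119, nat_lit 15371, nat_lit 9539, nat_lit 11051, nat_lit 10979, nat_lit 11003, nat_lit 30679] (nat_lit 2) [] false,
   Spec.mk (nat_lit 11003) (nat_lit 0) [nat_lit 24125, nat_lit 15377, nat_lit 9545, nat_lit 11057, nat_lit 10985, nat_lit 10997, nat_lit 11009, nat_lit 11005, nat_lit 30685] (nat_lit 1) [] false,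
   Spec.mk (nat_lit 11005) (nat_lit 0) [nat_lit 24127, nat_lit 15379, nat_lit 9547, nat_lit 11059, nat_lit 10987, nat_lit 11011, nat_lit 11003, nat_lit 30687] (nat_lit 0) [] false,
   Spec.mk (nat_lit 11009) (nat_lit 0) [nat_lit 24131, nat_lit 15383, nat_lit 9551, nat_lit 11063, nat_lit 11003, nat_lit 11011, nat_lit 30691] (nat_lit 2) [] false,
   Spec.mk (nat_lit 11011) (nat_lit 1) [nat_lit 24133, nat_lit 15385, nat_lit 9553, nat_lit 11065, nat_lit 11005, nat_lit 11009, nat_lit 11013, nat_lit 30693] (nat_lit 0) [] false,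
   Spec.mk (nat_lit 11013) (nat_lit 2) [nat_lit 24135, nat_lit 15387, nat_lit 9555, nat_lit 11067, nat_lit 11011] (nat_lit 0) [] false,
   Spec.mk (nat_lit 11033) (nat_lit 0) [nat_lit 24155, nat_lit 15407, nat_lit 9575, nat_lit 11195, nat_lit 10979, nat_lit 11051, nat_lit 11039, nat_lit 30715] (nat_lit 0) [] false,
   Spec.mk (nat_lit 11039) (nat_lit 0) [nat_lit 24161, nat_lit 15413, nat_lit 9581, nat_lit 11201, nat_lit 10985, nat_lit 11057, nat_lit 11033, nat_lit 11041, nat_lit 30721] (nat_lit 2) [] false,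
   Spec.mk (nat_lit 11041) (nat_lit 0) [nat_lit 24163, nat_lit 15415, nat_lit 9583, nat_lit 11203, nat_lit 10987, nat_lit 11059, nat_lit 11039, nat_lit 30723] (nat_lit 0) [] false,
   Spec.mk (nat_lit 11051) (nat_lit 0) [nat_lit 24173, nat_lit 15425, nat_lit 9593, nat_lit 11213, nat_lit 10997, nat_lit 11105, nat_lit 11033, nat_lit 11057, nat_lit 30733] (nat_lit 1) [] false,
   Spec.mk (nat_lit 11057) (nat_lit 0) [nat_lit 24179, nat_lit 15431, nat_lit 9599, nat_lit 11219, nat_lit 11003, nat_lit 11111, nat_lit 11039, nat_lit 11075, nat_lit 11051, nat_lit 11063, nat_lit 11059, nat_lit 30739] (nat_lit 1) [] false,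
   Spec.mk (nat_lit 11059) (nat_lit 0) [nat_lit 24181, nat_lit 15433, nat_lit 9601, nat_lit 11221, nat_lit 11005, nat_lit 11113, nat_lit 11041, nat_lit 11077, nat_lit 11065, nat_lit 11057, nat_lit 30741] (nat_lit 0) [] false,
   Spec.mk (nat_lit 11063) (nat_lit 0) [nat_lit 24185, nat_lit 15437, nat_lit 9605, nat_lit 11225, nat_lit 11009, nat_lit 11117, nat_lit 11081, nat_lit 11057, nat_lit 11065, nat_lit 30745] (nat_lit 3) [] false,
   Spec.mk (nat_lit 11065) (nat_lit 0) [nat_lit 24187, nat_lit 15439, nat_lit 9607, nat_lit 11227, nat_lit 11011, nat_lit 11119, nat_lit 11083, nat_lit 11059, nat_lit 11063, nat_lit 11067, nat_lit 30747] (nat_lit 0) [] false,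
   Spec.mk (nat_lit 11067) (nat_lit 1) [nat_lit 24189, nat_lit 15441, nat_lit 9609, nat_lit 11229, nat_lit 11013, nat_lit 11121, nat_lit 11085, nat_lit 11065] (nat_lit 0) [] false,
   Spec.mk (nat_lit 11075) (nat_lit 0) [nat_lit 24197, nat_lit 15449, nat_lit 9617, nat_lit 11237, nat_lit 11129, nat_lit 11057, nat_lit 11081, nat_lit 11077, nat_lit 30757] (nat_lit 2) [] false,
   Spec.mk (nat_lit 11077) (nat_lit 0) [nat_lit 24199, nat_lit 15451, nat_lit 9619, nat_lit 11239, nat_lit 11131, nat_lit 11059, nat_lit 11083, nat_lit 11075, nat_lit 30759] (nat_lit 2) [] false,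
   Spec.mk (nat_lit 11081) (nat_lit 0) [nat_lit 24203, nat_lit 15455, nat_lit 9623, nat_lit 11243, nat_lit 11135, nat_lit 11063, nat_lit 11075, nat_lit 11083, nat_lit 30763] (nat_lit 2) [] false,
   Spec.mk (nat_lit 11083) (nat_lit 0) [nat_lit 24205, nat_lit 15457, nat_lit 9625, nat_lit 11245, nat_lit 11137, nat_lit 11065, nat_lit 11077, nat_lit 11089, nat_lit 11081, nat_lit 11085, nat_lit 30765] (nat_lit 0) [] false,
   Spec.mk (nat_lit 11085) (nat_lit 0) [nat_lit 24207, nat_lit 15459, nat_lit 9627, nat_lit 11247, nat_lit 11139, nat_lit 11067, nat_lit 11091, nat_lit 11083] (nat_lit 0) [] false,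
   Spec.mk (nat_lit 11089) (nat_lit 0) [nat_lit 24211, nat_lit 15463, nat_lit 9631, nat_lit 11251, nat_lit 11143, nat_lit 11083, nat_lit 11091, nat_lit 30771] (nat_lit 0) [] false,
   Spec.mk (nat_lit 11091) (nat_lit 2) [nat_lit 24213, nat_lit 15465, nat_lit 9633, nat_lit 11253, nat_lit 11145, nat_lit 11085, nat_lit 11089] (nat_lit 0) [] false,
   Spec.mk (nat_lit 11105) (nat_lit 0) [nat_lit 24227, nat_lit 15479, nat_lit 9647, nat_lit 11267, nat_lit 11051, nat_lit 11111, nat_lit 30787] (nat_lit 2) [] false,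
   Spec.mk (nat_lit 11111) (nat_lit 0) [nat_lit 24233, nat_lit 15485, nat_lit 9653, nat_lit 11273, nat_lit 11057, nat_lit 11129, nat_lit 11105, nat_lit 11117, nat_lit 11113, nat_lit 30793] (nat_lit 3) [] false,
   Spec.mk (nat_lit 11113) (nat_lit 0) [nat_lit 24235, nat_lit 15487, nat_lit 9655, nat_lit 11275, nat_lit 11059, nat_lit 11131, nat_lit 11119, nat_lit 11111, nat_lit 30795] (nat_lit 2) [] false,
   Spec.mk (nat_lit 11117) (nat_lit 0) [nat_lit 24239, nat_lit 15491, nat_lit 9659, nat_lit 11279, nat_lit 11063, nat_lit 11135, nat_lit 11111, nat_lit 11119, nat_lit 30799] (nat_lit 6) [] false,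
   Spec.mk (nat_lit 11119) (nat_lit 0) [nat_lit 24241, nat_lit 15493, nat_lit 9661, nat_lit 11281, nat_lit 11065, nat_lit 11137, nat_lit 11113, nat_lit 11117, nat_lit 11121, nat_lit 30801] (nat_lit 3) [] false,
   Spec.mk (nat_lit 11121) (nat_lit 0) [nat_lit 24243, nat_lit 15495, nat_lit 9663, nat_lit 11283, nat_lit 11067, nat_lit 11139, nat_lit 11119] (nat_lit 2) [] false,
   Spec.mk (nat_lit 11129) (nat_lit 0) [nat_lit 24251, nat_lit 15503, nat_lit 9671, nat_lit 11291, nat_lit 11075, nat_lit 11111, nat_lit 11135, nat_lit 11131, nat_lit 30811] (nat_lit 2) [] false,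
   Spec.mk (nat_lit 11131) (nat_lit 0) [nat_lit 24253, nat_lit 15505, nat_lit 9673, nat_lit 11293, nat_lit 11077, nat_lit 11113, nat_lit 11137, nat_lit 11129, nat_lit 30813] (nat_lit 2) [] false]

noncomputable def sp30 : List Spec :=
  [Spec.mk (nat_lit 11135) (nat_lit 0) [nat_lit 24257, nat_lit 15509, nat_lit 9677, nat_lit 11297, nat_lit 11081, nat_lit 11117, nat_lit 11153, nat_lit 11129, nat_lit 11137, nat_lit 30817] (nat_lit 3) [] false,
   Spec.mk (nat_lit 11137) (nat_lit 0) [nat_lit 24259, nat_lit 15511, nat_lit 9679, nat_lit 11299, nat_lit 11083, nat_lit 11119, nat_lit 11155, nat_lit 11131, nat_lit 11143, nat_lit 11135, nat_lit 11139, nat_lit 30819] (nat_lit 1) [] false,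
   Spec.mk (nat_lit 11139) (nat_lit 0) [nat_lit 24261, nat_lit 15513, nat_lit 9681, nat_lit 11301, nat_lit 11085, nat_lit 11121, nat_lit 11157, nat_lit 11145, nat_lit 11137] (nat_lit 1) [] false,
   Spec.mk (nat_lit 11143) (nat_lit 0) [nat_lit 24265, nat_lit 15517, nat_lit 9685, nat_lit 11305, nat_lit 11089, nat_lit 11161, nat_lit 11137, nat_lit 11145, nat_lit 30825] (nat_lit 2) [] false,
   Spec.mk (nat_lit 11145) (nat_lit 0) [nat_lit 24267, nat_lit 15519, nat_lit 9687, nat_lit 11307, nat_lit 11091, nat_lit 11163, nat_lit 11139, nat_lit 11143] (nat_lit 0) [] false,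
   Spec.mk (nat_lit 11153) (nat_lit 0) [nat_lit 24275, nat_lit 15527, nat_lit 9695, nat_lit 11315, nat_lit 11135, nat_lit 11155, nat_lit 30835] (nat_lit 2) [] false,
   Spec.mk (nat_lit 11155) (nat_lit 0) [nat_lit 24277, nat_lit 15529, nat_lit 9697, nat_lit 11317, nat_lit 11137, nat_lit 11161, nat_lit 11153, nat_lit 11157, nat_lit 30837] (nat_lit 1) [] false,
   Spec.mk (nat_lit 11157) (nat_lit 0) [nat_lit 24279, nat_lit 15531, nat_lit 9699, nat_lit 11319, nat_lit 11139, nat_lit 11163, nat_lit 11155] (nat_lit 2) [] false,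
   Spec.mk (nat_lit 11161) (nat_lit 0) [nat_lit 24283, nat_lit 15535, nat_lit 9703, nat_lit 11323, nat_lit 11143, nat_lit 11155, nat_lit 11163, nat_lit 30843] (nat_lit 0) [] false,
   Spec.mk (nat_lit 11163) (nat_lit 1) [nat_lit 24285, nat_lit 15537, nat_lit 9705, nat_lit 11325, nat_lit 11145, nat_lit 11157, nat_lit 11169, nat_lit 11161] (nat_lit 0) [] false,
   Spec.mk (nat_lit 11169) (nat_lit 2) [nat_lit 24291, nat_lit 15543, nat_lit 9711, nat_lit 11331, nat_lit 11163] (nat_lit 0) [] false,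
   Spec.mk (nat_lit 11195) (nat_lit 0) [nat_lit 24317, nat_lit 15569, nat_lit 9737, nat_lit 11681, nat_lit 11033, nat_lit 11213, nat_lit 11201, nat_lit 30877] (nat_lit 0) [] false,
   Spec.mk (nat_lit 11201) (nat_lit 0) [nat_lit 24323, nat_lit 15575, nat_lit 9743, nat_lit 11687, nat_lit 11039, nat_lit 11219, nat_lit 11195, nat_lit 11203, nat_lit 30883] (nat_lit 2) [] false,
   Spec.mk (nat_lit 11203) (nat_lit 0) [nat_lit 24325, nat_lit 15577, nat_lit 9745, nat_lit 11689, nat_lit 11041, nat_lit 11221, nat_lit 11201, nat_lit 30885] (nat_lit 0) [] false,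
   Spec.mk (nat_lit 11213) (nat_lit 0) [nat_lit 24335, nat_lit 15587, nat_lit 9755, nat_lit 11699, nat_lit 11051, nat_lit 11267, nat_lit 11195, nat_lit 11219, nat_lit 30895] (nat_lit 2) [] false,
   Spec.mk (nat_lit 11219) (nat_lit 0) [nat_lit 24341, nat_lit 15593, nat_lit 9761, nat_lit 11705, nat_lit 11057, nat_lit 11273, nat_lit 11201, nat_lit 11237, nat_lit 11213, nat_lit 11225, nat_lit 11221, nat_lit 30901] (nat_lit 2) [] false,
   Spec.mk (nat_lit 11221) (nat_lit 0) [nat_lit 24343, nat_lit 15595, nat_lit 9763, nat_lit 11707, nat_lit 11059, nat_lit 11275, nat_lit 11203, nat_lit 11239, nat_lit 11227, nat_lit 11219, nat_lit 30903] (nat_lit 1) [] false,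
   Spec.mk (nat_lit 11225) (nat_lit 0) [nat_lit 24347, nat_lit 15599, nat_lit 9767, nat_lit 11711, nat_lit 11063, nat_lit 11279, nat_lit 11243, nat_lit 11219, nat_lit 11227, nat_lit 30907] (nat_lit 4) [] false,
   Spec.mk (nat_lit 11227) (nat_lit 0) [nat_lit 24349, nat_lit 15601, nat_lit 9769, nat_lit 11713, nat_lit 11065, nat_lit 11281, nat_lit 11245, nat_lit 11221, nat_lit 11225, nat_lit 11229, nat_lit 30909] (nat_lit 1) [] false,
   Spec.mk (nat_lit 11229) (nat_lit 0) [nat_lit 24351, nat_lit 15603, nat_lit 9771, nat_lit 11715, nat_lit 11067, nat_lit 11283, nat_lit 11247, nat_lit 11227] (nat_lit 0) [] false,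
   Spec.mk (nat_lit 11237) (nat_lit 0) [nat_lit 24359, nat_lit 15611, nat_lit 9779, nat_lit 11723, nat_lit 11075, nat_lit 11291, nat_lit 11219, nat_lit 11243, nat_lit 11239, nat_lit 30919] (nat_lit 4) [] false,
   Spec.mk (nat_lit 11239) (nat_lit 0) [nat_lit 24361, nat_lit 15613, nat_lit 9781, nat_lit 11725, nat_lit 11077, nat_lit 11293, nat_lit 11221, nat_lit 11245, nat_lit 11237, nat_lit 30921] (nat_lit 4) [] false,
   Spec.mk (nat_lit 11243) (nat_lit 0) [nat_lit 24365, nat_lit 15617, nat_lit 9785, nat_lit 11729, nat_lit 11081, nat_lit 11297, nat_lit 11225, nat_lit 11237, nat_lit 11245, nat_lit 30925] (nat_lit 4) [] false,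
   Spec.mk (nat_lit 11245) (nat_lit 0) [nat_lit 24367, nat_lit 15619, nat_lit 9787, nat_lit 11731, nat_lit 11083, nat_lit 11299, nat_lit 11227, nat_lit 11239, nat_lit 11251, nat_lit 11243, nat_lit 11247, nat_lit 30927] (nat_lit 2) [] false,
   Spec.mk (nat_lit 11247) (nat_lit 0) [nat_lit 24369, nat_lit 15621, nat_lit 9789, nat_lit 11733, nat_lit 11085, nat_lit 11301, nat_lit 11229, nat_lit 11253, nat_lit 11245] (nat_lit 2) [] false,
   Spec.mk (nat_lit 11251) (nat_lit 0) [nat_lit 24373, nat_lit 15625, nat_lit 9793, nat_lit 11737, nat_lit 11089, nat_lit 11305, nat_lit 11245, nat_lit 11253, nat_lit 30933] (nat_lit 2) [] false,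
   Spec.mk (nat_lit 11253) (nat_lit 0) [nat_lit 24375, nat_lit 15627, nat_lit 9795, nat_lit 11739, nat_lit 11091, nat_lit 11307, nat_lit 11247, nat_lit 11251] (nat_lit 0) [] false,
   Spec.mk (nat_lit 11267) (nat_lit 0) [nat_lit 24389, nat_lit 15641, nat_lit 9809, nat_lit 11753, nat_lit 11105, nat_lit 11429, nat_lit 11213, nat_lit 11273, nat_lit 30949] (nat_lit 1) [] false,
   Spec.mk (nat_lit 11273) (nat_lit 0) [nat_lit 24395, nat_lit 15647, nat_lit 9815, nat_lit 11759, nat_lit 11111, nat_lit 11435, nat_lit 11219, nat_lit 11291, nat_lit 11267, nat_lit 11279, nat_lit 11275, nat_lit 30955] (nat_lit 2) [] false,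
   Spec.mk (nat_lit 11275) (nat_lit 0) [nat_lit 24397, nat_lit 15649, nat_lit 9817, nat_lit 11761, nat_lit 11113, nat_lit 11437, nat_lit 11221, nat_lit 11293, nat_lit 11281, nat_lit 11273, nat_lit 30957] (nat_lit 1) [] false,
   Spec.mk (nat_lit 11279) (nat_lit 0) [nat_lit 24401, nat_lit 15653, nat_lit 9821, nat_lit 11765, nat_lit 11117, nat_lit 11441, nat_lit 11225, nat_lit 11297, nat_lit 11273, nat_lit 11281, nat_lit 30961] (nat_lit 5) [] false,
   Spec.mk (nat_lit 11281) (nat_lit 0) [nat_lit 24403, nat_lit 15655, nat_lit 9823, nat_lit 11767, nat_lit 11119, nat_lit 11443, nat_lit 11227, nat_lit 11299, nat_lit 11275, nat_lit 11279, nat_lit 11283, nat_lit 30963] (nat_lit 2) [] false,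
   Spec.mk (nat_lit 11283) (nat_lit 0) [nat_lit 24405, nat_lit 15657, nat_lit 9825, nat_lit 11769, nat_lit 11121, nat_lit 11445, nat_lit 11229, nat_lit 11301, nat_lit 11281] (nat_lit 1) [] false,
   Spec.mk (nat_lit 11291) (nat_lit 0) [nat_lit 24413, nat_lit 15665, nat_lit 9833, nat_lit 11777, nat_lit 11129, nat_lit 11453, nat_lit 11237, nat_lit 11345, nat_lit 11273, nat_lit 11297, nat_lit 11293, nat_lit 30973] (nat_lit 2) [] false,
   Spec.mk (nat_lit 11293) (nat_lit 0) [nat_lit 24415, nat_lit 15667, nat_lit 9835, nat_lit 11779, nat_lit 11131, nat_lit 11455, nat_lit 11239, nat_lit 11347, nat_lit 11275, nat_lit 11299, nat_lit 11291, nat_lit 30975] (nat_lit 2) [] false,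
   Spec.mk (nat_lit 11297) (nat_lit 0) [nat_lit 24419, nat_lit 15671, nat_lit 9839, nat_lit 11783, nat_lit 11135, nat_lit 11459, nat_lit 11243, nat_lit 11351, nat_lit 11279, nat_lit 11315, nat_lit 11291, nat_lit 11299, nat_lit 30979] (nat_lit 3) [] false,
   Spec.mk (nat_lit 11299) (nat_lit 0) [nat_lit 24421, nat_lit 15673, nat_lit 9841, nat_lit 11785, nat_lit 11137, nat_lit 11461, nat_lit 11245, nat_lit 11353, nat_lit 11281, nat_lit 11317, nat_lit 11293, nat_lit 11305, nat_lit 11297, nat_lit 11301, nat_lit 30981] (nat_lit 1) [] false,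
   Spec.mk (nat_lit 11301) (nat_lit 0) [nat_lit 24423, nat_lit 15675, nat_lit 9843, nat_lit 11787, nat_lit 11139, nat_lit 11463, nat_lit 11247, nat_lit 11355, nat_lit 11283, nat_lit 11319, nat_lit 11307, nat_lit 11299] (nat_lit 1) [] false,
   Spec.mk (nat_lit 11305) (nat_lit 0) [nat_lit 24427, nat_lit 15679, nat_lit 9847, nat_lit 11791, nat_lit 11143, nat_lit 11467, nat_lit 11251, nat_lit 11359, nat_lit 11323, nat_lit 11299, nat_lit 11307, nat_lit 30987] (nat_lit 2) [] false,
   Spec.mk (nat_lit 11307) (nat_lit 0) [nat_lit 24429, nat_lit 15681, nat_lit 9849, nat_lit 11793, nat_lit 11145, nat_lit 11469, nat_lit 11253, nat_lit 11361, nat_lit 11325, nat_lit 11301, nat_lit 11305] (nat_lit 0) [] false,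
   Spec.mk (nat_lit 11315) (nat_lit 0) [nat_lit 24437, nat_lit 15689, nat_lit 9857, nat_lit 11801, nat_lit 11153, nat_lit 11477, nat_lit 11369, nat_lit 11297, nat_lit 11317, nat_lit 30997] (nat_lit 3) [] false,
   Spec.mk (nat_lit 11317) (nat_lit 0) [nat_lit 24439, nat_lit 15691, nat_lit 9859, nat_lit 11803, nat_lit 11155, nat_lit 11479, nat_lit 11371, nat_lit 11299, nat_lit 11323, nat_lit 11315, nat_lit 11319, nat_lit 30999] (nat_lit 2) [] false,
   Spec.mk (nat_lit 11319) (nat_lit 0) [nat_lit 24441, nat_lit 15693, nat_lit 9861, nat_lit 11805, nat_lit 11157, nat_lit 11481, nat_lit 11373, nat_lit 11301, nat_lit 11325, nat_lit 11317] (nat_lit 3) [] false,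
   Spec.mk (nat_lit 11323) (nat_lit 0) [nat_lit 24445, nat_lit 15697, nat_lit 9865, nat_lit 11809, nat_lit 11161, nat_lit 11485, nat_lit 11377, nat_lit 11305, nat_lit 11317, nat_lit 11325, nat_lit 31005] (nat_lit 1) [] false,
   Spec.mk (nat_lit 11325) (nat_lit 0) [nat_lit 24447, nat_lit 15699, nat_lit 9867, nat_lit 11811, nat_lit 11163, nat_lit 11487, nat_lit 11379, nat_lit 11307, nat_lit 11319, nat_lit 11331, nat_lit 11323] (nat_lit 0) [] false,
   Spec.mk (nat_lit 11331) (nat_lit 1) [nat_lit 24453, nat_lit 15705, nat_lit 9873, nat_lit 11817, nat_lit 11169, nat_lit 11493, nat_lit 11385, nat_lit 11325] (nat_lit 0) [] false,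
   Spec.mk (nat_lit 11345) (nat_lit 0) [nat_lit 24467, nat_lit 15719, nat_lit 9887, nat_lit 11831, nat_lit 11507, nat_lit 11291, nat_lit 11351, nat_lit 11347, nat_lit 31027] (nat_lit 2) [] false,
   Spec.mk (nat_lit 11347) (nat_lit 0) [nat_lit 24469, nat_lit 15721, nat_lit 9889, nat_lit 11833, nat_lit 11509, nat_lit 11293, nat_lit 11353, nat_lit 11345, nat_lit 31029] (nat_lit 2) [] false,
   Spec.mk (nat_lit 11351) (nat_lit 0) [nat_lit 24473, nat_lit 15725, nat_lit 9893, nat_lit 11837, nat_lit 11513, nat_lit 11297, nat_lit 11369, nat_lit 11345, nat_lit 11353, nat_lit 31033] (nat_lit 4) [] false,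
   Spec.mk (nat_lit 11353) (nat_lit 0) [nat_lit 24475, nat_lit 15727, nat_lit 9895, nat_lit 11839, nat_lit 11515, nat_lit 11299, nat_lit 11371, nat_lit 11347, nat_lit 11359, nat_lit 11351, nat_lit 11355, nat_lit 31035] (nat_lit 2) [] false,
   Spec.mk (nat_lit 11355) (nat_lit 0) [nat_lit 24477, nat_lit 15729, nat_lit 9897, nat_lit 11841, nat_lit 11517, nat_lit 11301, nat_lit 11373, nat_lit 11361, nat_lit 11353] (nat_lit 2) [] false,
   Spec.mk (nat_lit 11359) (nat_lit 0) [nat_lit 24481, nat_lit 15733, nat_lit 9901, nat_lit 11845, nat_lit 11521, nat_lit 11305, nat_lit 11377, nat_lit 11353, nat_lit 11361, nat_lit 31041] (nat_lit 4) [] false,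
   Spec.mk (nat_lit 11361) (nat_lit 0) [nat_lit 24483, nat_lit 15735, nat_lit 9903, nat_lit 11847, nat_lit 11523, nat_lit 11307, nat_lit 11379, nat_lit 11355, nat_lit 11359] (nat_lit 2) [] false,
   Spec.mk (nat_lit 11369) (nat_lit 0) [nat_lit 24491, nat_lit 15743, nat_lit 9911, nat_lit 11855, nat_lit 11531, nat_lit 11315, nat_lit 11351, nat_lit 11371, nat_lit 31051] (nat_lit 2) [] false,
   Spec.mk (nat_lit 11371) (nat_lit 0) [nat_lit 24493, nat_lit 15745, nat_lit 9913, nat_lit 11857, nat_lit 11533, nat_lit 11317, nat_lit 11353, nat_lit 11377, nat_lit 11369, nat_lit 11373, nat_lit 31053] (nat_lit 1) [] false,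
   Spec.mk (nat_lit 11373) (nat_lit 0) [nat_lit 24495, nat_lit 15747, nat_lit 9915, nat_lit 11859, nat_lit 11535, nat_lit 11319, nat_lit 11355, nat_lit 11379, nat_lit 11371] (nat_lit 2) [] false,
   Spec.mk (nat_lit 11377) (nat_lit 0) [nat_lit 24499, nat_lit 15751, nat_lit 9919, nat_lit 11863, nat_lit 11539, nat_lit 11323, nat_lit 11359, nat_lit 11395, nat_lit 11371, nat_lit 11379, nat_lit 31059] (nat_lit 1) [] false,
   Spec.mk (nat_lit 11379) (nat_lit 0) [nat_lit 24501, nat_lit 15753, nat_lit 9921, nat_lit 11865, nat_lit 11541, nat_lit 11325, nat_lit 11361, nat_lit 11397, nat_lit 11373, nat_lit 11385, nat_lit 11377] (nat_lit 0) [] false,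
   Spec.mk (nat_lit 11385) (nat_lit 0) [nat_lit 24507, nat_lit 15759, nat_lit 9927, nat_lit 11871, nat_lit 11547, nat_lit 11331, nat_lit 11403, nat_lit 11379] (nat_lit 0) [] false,
   Spec.mk (nat_lit 11395) (nat_lit 0) [nat_lit 24517, nat_lit 15769, nat_lit 9937, nat_lit 11881, nat_lit 11557, nat_lit 11377, nat_lit 11397, nat_lit 31077] (nat_lit 0) [] false]

noncomputable def sp31 : List Spec :=
  [Spec.mk (nat_lit 11397) (nat_lit 0) [nat_lit 24519, nat_lit 15771, nat_lit 9939, nat_lit 11883, nat_lit 11559, nat_lit 11379, nat_lit 11403, nat_lit 11395] (nat_lit 0) [] false,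
   Spec.mk (nat_lit 11403) (nat_lit 2) [nat_lit 24525, nat_lit 15777, nat_lit 9945, nat_lit 11889, nat_lit 11565, nat_lit 11385, nat_lit 11397] (nat_lit 0) [] false,
   Spec.mk (nat_lit 11429) (nat_lit 0) [nat_lit 24551, nat_lit 15803, nat_lit 9971, nat_lit 11915, nat_lit 11267, nat_lit 11435, nat_lit 31111] (nat_lit 2) [] false,
   Spec.mk (nat_lit 11435) (nat_lit 0) [nat_lit 24557, nat_lit 15809, nat_lit 9977, nat_lit 11921, nat_lit 11273, nat_lit 11453, nat_lit 11429, nat_lit 11441, nat_lit 11437, nat_lit 31117] (nat_lit 3) [] false,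
   Spec.mk (nat_lit 11437) (nat_lit 0) [nat_lit 24559, nat_lit 15811, nat_lit 9979, nat_lit 11923, nat_lit 11275, nat_lit 11455, nat_lit 11443, nat_lit 11435, nat_lit 31119] (nat_lit 2) [] false,
   Spec.mk (nat_lit 11441) (nat_lit 0) [nat_lit 24563, nat_lit 15815, nat_lit 9983, nat_lit 11927, nat_lit 11279, nat_lit 11459, nat_lit 11435, nat_lit 11443, nat_lit 31123] (nat_lit 6) [] false,
   Spec.mk (nat_lit 11443) (nat_lit 0) [nat_lit 24565, nat_lit 15817, nat_lit 9985, nat_lit 11929, nat_lit 11281, nat_lit 11461, nat_lit 11437, nat_lit 11441, nat_lit 11445, nat_lit 31125] (nat_lit 3) [] false,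
   Spec.mk (nat_lit 11445) (nat_lit 0) [nat_lit 24567, nat_lit 15819, nat_lit 9987, nat_lit 11931, nat_lit 11283, nat_lit 11463, nat_lit 11443] (nat_lit 2) [] false,
   Spec.mk (nat_lit 11453) (nat_lit 0) [nat_lit 24575, nat_lit 15827, nat_lit 9995, nat_lit 11939, nat_lit 11291, nat_lit 11507, nat_lit 11435, nat_lit 11459, nat_lit 11455, nat_lit 31135] (nat_lit 4) [] false,
   Spec.mk (nat_lit 11455) (nat_lit 0) [nat_lit 24577, nat_lit 15829, nat_lit 9997, nat_lit 11941, nat_lit 11293, nat_lit 11509, nat_lit 11437, nat_lit 11461, nat_lit 11453, nat_lit 31137] (nat_lit 4) [] false,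
   Spec.mk (nat_lit 11459) (nat_lit 0) [nat_lit 24581, nat_lit 15833, nat_lit 10001, nat_lit 11945, nat_lit 11297, nat_lit 11513, nat_lit 11441, nat_lit 11477, nat_lit 11453, nat_lit 11461, nat_lit 31141] (nat_lit 5) [] false,
   Spec.mk (nat_lit 11461) (nat_lit 0) [nat_lit 24583, nat_lit 15835, nat_lit 10003, nat_lit 11947, nat_lit 11299, nat_lit 11515, nat_lit 11443, nat_lit 11479, nat_lit 11455, nat_lit 11467, nat_lit 11459, nat_lit 11463, nat_lit 31143] (nat_lit 3) [] false,
   Spec.mk (nat_lit 11463) (nat_lit 0) [nat_lit 24585, nat_lit 15837, nat_lit 10005, nat_lit 11949, nat_lit 11301, nat_lit 11517, nat_lit 11445, nat_lit 11481, nat_lit 11469, nat_lit 11461] (nat_lit 3) [] false,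
   Spec.mk (nat_lit 11467) (nat_lit 0) [nat_lit 24589, nat_lit 15841, nat_lit 10009, nat_lit 11953, nat_lit 11305, nat_lit 11521, nat_lit 11485, nat_lit 11461, nat_lit 11469, nat_lit 31149] (nat_lit 4) [] false,
   Spec.mk (nat_lit 11469) (nat_lit 0) [nat_lit 24591, nat_lit 15843, nat_lit 10011, nat_lit 11955, nat_lit 11307, nat_lit 11523, nat_lit 11487, nat_lit 11463, nat_lit 11467] (nat_lit 2) [] false,
   Spec.mk (nat_lit 11477) (nat_lit 0) [nat_lit 24599, nat_lit 15851, nat_lit 10019, nat_lit 11963, nat_lit 11315, nat_lit 11531, nat_lit 11459, nat_lit 11479, nat_lit 31159] (nat_lit 6) [] false,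
   Spec.mk (nat_lit 11479) (nat_lit 0) [nat_lit 24601, nat_lit 15853, nat_lit 10021, nat_lit 11965, nat_lit 11317, nat_lit 11533, nat_lit 11461, nat_lit 11485, nat_lit 11477, nat_lit 11481, nat_lit 31161] (nat_lit 5) [] false,
   Spec.mk (nat_lit 11481) (nat_lit 0) [nat_lit 24603, nat_lit 15855, nat_lit 10023, nat_lit 11967, nat_lit 11319, nat_lit 11535, nat_lit 11463, nat_lit 11487, nat_lit 11479] (nat_lit 6) [] false,
   Spec.mk (nat_lit 11485) (nat_lit 0) [nat_lit 24607, nat_lit 15859, nat_lit 10027, nat_lit 11971, nat_lit 11323, nat_lit 11539, nat_lit 11467, nat_lit 11479, nat_lit 11487, nat_lit 31167] (nat_lit 4) [] false,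
   Spec.mk (nat_lit 11487) (nat_lit 0) [nat_lit 24609, nat_lit 15861, nat_lit 10029, nat_lit 11973, nat_lit 11325, nat_lit 11541, nat_lit 11469, nat_lit 11481, nat_lit 11493, nat_lit 11485] (nat_lit 3) [] false,
   Spec.mk (nat_lit 11493) (nat_lit 0) [nat_lit 24615, nat_lit 15867, nat_lit 10035, nat_lit 11979, nat_lit 11331, nat_lit 11547, nat_lit 11487] (nat_lit 2) [] false,
   Spec.mk (nat_lit 11507) (nat_lit 0) [nat_lit 24629, nat_lit 15881, nat_lit 10049, nat_lit 11993, nat_lit 11345, nat_lit 11453, nat_lit 11513, nat_lit 11509, nat_lit 31189] (nat_lit 2) [] false,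
   Spec.mk (nat_lit 11509) (nat_lit 0) [nat_lit 24631, nat_lit 15883, nat_lit 10051, nat_lit 11995, nat_lit 11347, nat_lit 11455, nat_lit 11515, nat_lit 11507, nat_lit 31191] (nat_lit 2) [] false,
   Spec.mk (nat_lit 11513) (nat_lit 0) [nat_lit 24635, nat_lit 15887, nat_lit 10055, nat_lit 11999, nat_lit 11351, nat_lit 11459, nat_lit 11531, nat_lit 11507, nat_lit 11515, nat_lit 31195] (nat_lit 4) [] false,
   Spec.mk (nat_lit 11515) (nat_lit 0) [nat_lit 24637, nat_lit 15889, nat_lit 10057, nat_lit 12001, nat_lit 11353, nat_lit 11461, nat_lit 11533, nat_lit 11509, nat_lit 11521, nat_lit 11513, nat_lit 11517, nat_lit 31197] (nat_lit 2) [] false,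
   Spec.mk (nat_lit 11517) (nat_lit 0) [nat_lit 24639, nat_lit 15891, nat_lit 10059, nat_lit 12003, nat_lit 11355, nat_lit 11463, nat_lit 11535, nat_lit 11523, nat_lit 11515] (nat_lit 2) [] false,
   Spec.mk (nat_lit 11521) (nat_lit 0) [nat_lit 24643, nat_lit 15895, nat_lit 10063, nat_lit 12007, nat_lit 11359, nat_lit 11467, nat_lit 11539, nat_lit 11515, nat_lit 11523, nat_lit 31203] (nat_lit 4) [] false,
   Spec.mk (nat_lit 11523) (nat_lit 0) [nat_lit 24645, nat_lit 15897, nat_lit 10065, nat_lit 12009, nat_lit 11361, nat_lit 11469, nat_lit 11541, nat_lit 11517, nat_lit 11521] (nat_lit 2) [] false,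
   Spec.mk (nat_lit 11531) (nat_lit 0) [nat_lit 24653, nat_lit 15905, nat_lit 10073, nat_lit 12017, nat_lit 11369, nat_lit 11477, nat_lit 11585, nat_lit 11513, nat_lit 11533, nat_lit 31213] (nat_lit 3) [] false,
   Spec.mk (nat_lit 11533) (nat_lit 0) [nat_lit 24655, nat_lit 15907, nat_lit 10075, nat_lit 12019, nat_lit 11371, nat_lit 11479, nat_lit 11587, nat_lit 11515, nat_lit 11539, nat_lit 11531, nat_lit 11535, nat_lit 31215] (nat_lit 2) [] false,
   Spec.mk (nat_lit 11535) (nat_lit 0) [nat_lit 24657, nat_lit 15909, nat_lit 10077, nat_lit 12021, nat_lit 11373, nat_lit 11481, nat_lit 11589, nat_lit 11517, nat_lit 11541, nat_lit 11533] (nat_lit 3) [] false,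
   Spec.mk (nat_lit 11539) (nat_lit 0) [nat_lit 24661, nat_lit 15913, nat_lit 10081, nat_lit 12025, nat_lit 11377, nat_lit 11485, nat_lit 11593, nat_lit 11521, nat_lit 11557, nat_lit 11533, nat_lit 11541, nat_lit 31221] (nat_lit 2) [] false,
   Spec.mk (nat_lit 11541) (nat_lit 0) [nat_lit 24663, nat_lit 15915, nat_lit 10083, nat_lit 12027, nat_lit 11379, nat_lit 11487, nat_lit 11595, nat_lit 11523, nat_lit 11559, nat_lit 11535, nat_lit 11547, nat_lit 11539] (nat_lit 1) [] false,
   Spec.mk (nat_lit 11547) (nat_lit 0) [nat_lit 24669, nat_lit 15921, nat_lit 10089, nat_lit 12033, nat_lit 11385, nat_lit 11493, nat_lit 11601, nat_lit 11565, nat_lit 11541] (nat_lit 1) [] false,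
   Spec.mk (nat_lit 11557) (nat_lit 0) [nat_lit 24679, nat_lit 15931, nat_lit 10099, nat_lit 12043, nat_lit 11395, nat_lit 11611, nat_lit 11539, nat_lit 11559, nat_lit 31239] (nat_lit 2) [] false,
   Spec.mk (nat_lit 11559) (nat_lit 0) [nat_lit 24681, nat_lit 15933, nat_lit 10101, nat_lit 12045, nat_lit 11397, nat_lit 11613, nat_lit 11541, nat_lit 11565, nat_lit 11557] (nat_lit 2) [] false,
   Spec.mk (nat_lit 11565) (nat_lit 0) [nat_lit 24687, nat_lit 15939, nat_lit 10107, nat_lit 12051, nat_lit 11403, nat_lit 11619, nat_lit 11547, nat_lit 11559] (nat_lit 0) [] false,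
   Spec.mk (nat_lit 11585) (nat_lit 0) [nat_lit 24707, nat_lit 15959, nat_lit 10127, nat_lit 12071, nat_lit 11531, nat_lit 11587, nat_lit 31267] (nat_lit 2) [] false,
   Spec.mk (nat_lit 11587) (nat_lit 0) [nat_lit 24709, nat_lit 15961, nat_lit 10129, nat_lit 12073, nat_lit 11533, nat_lit 11593, nat_lit 11585, nat_lit 11589, nat_lit 31269] (nat_lit 1) [] false,
   Spec.mk (nat_lit 11589) (nat_lit 0) [nat_lit 24711, nat_lit 15963, nat_lit 10131, nat_lit 12075, nat_lit 11535, nat_lit 11595, nat_lit 11587] (nat_lit 2) [] false,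
   Spec.mk (nat_lit 11593) (nat_lit 0) [nat_lit 24715, nat_lit 15967, nat_lit 10135, nat_lit 12079, nat_lit 11539, nat_lit 11611, nat_lit 11587, nat_lit 11595, nat_lit 31275] (nat_lit 2) [] false,
   Spec.mk (nat_lit 11595) (nat_lit 0) [nat_lit 24717, nat_lit 15969, nat_lit 10137, nat_lit 12081, nat_lit 11541, nat_lit 11613, nat_lit 11589, nat_lit 11601, nat_lit 11593] (nat_lit 1) [] false,
   Spec.mk (nat_lit 11601) (nat_lit 0) [nat_lit 24723, nat_lit 15975, nat_lit 10143, nat_lit 12087, nat_lit 11547, nat_lit 11619, nat_lit 11595] (nat_lit 2) [] false,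
   Spec.mk (nat_lit 11611) (nat_lit 0) [nat_lit 24733, nat_lit 15985, nat_lit 10153, nat_lit 12097, nat_lit 11557, nat_lit 11593, nat_lit 11613, nat_lit 31293] (nat_lit 0) [] false,
   Spec.mk (nat_lit 11613) (nat_lit 0) [nat_lit 24735, nat_lit 15987, nat_lit 10155, nat_lit 12099, nat_lit 11559, nat_lit 11595, nat_lit 11619, nat_lit 11611] (nat_lit 0) [] false,
   Spec.mk (nat_lit 11619) (nat_lit 1) [nat_lit 24741, nat_lit 15993, nat_lit 10161, nat_lit 12105, nat_lit 11565, nat_lit 11601, nat_lit 11637, nat_lit 11613] (nat_lit 0) [] false,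
   Spec.mk (nat_lit 11637) (nat_lit 2) [nat_lit 24759, nat_lit 16011, nat_lit 10179, nat_lit 12123, nat_lit 11619] (nat_lit 0) [] false,
   Spec.mk (nat_lit 11681) (nat_lit 2) [nat_lit 24803, nat_lit 16055, nat_lit 10223, nat_lit 11195, nat_lit 11699, nat_lit 11687, nat_lit 31363] (nat_lit 0) [] false,
   Spec.mk (nat_lit 11687) (nat_lit 0) [nat_lit 24809, nat_lit 16061, nat_lit 10229, nat_lit 11201, nat_lit 11705, nat_lit 11681, nat_lit 11689, nat_lit 31369] (nat_lit 0) [] false,
   Spec.mk (nat_lit 11689) (nat_lit 2) [nat_lit 24811, nat_lit 16063, nat_lit 10231, nat_lit 11203, nat_lit 11707, nat_lit 11687, nat_lit 31371] (nat_lit 0) [] false,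
   Spec.mk (nat_lit 11699) (nat_lit 0) [nat_lit 24821, nat_lit 16073, nat_lit 10241, nat_lit 11213, nat_lit 11753, nat_lit 11681, nat_lit 11705, nat_lit 31381] (nat_lit 0) [] false,
   Spec.mk (nat_lit 11705) (nat_lit 0) [nat_lit 24827, nat_lit 16079, nat_lit 10247, nat_lit 11219, nat_lit 11759, nat_lit 11687, nat_lit 11723, nat_lit 11699, nat_lit 11711, nat_lit 11707, nat_lit 31387] (nat_lit 0) [] false,
   Spec.mk (nat_lit 11707) (nat_lit 1) [nat_lit 24829, nat_lit 16081, nat_lit 10249, nat_lit 11221, nat_lit 11761, nat_lit 11689, nat_lit 11725, nat_lit 11713, nat_lit 11705, nat_lit 31389] (nat_lit 0) [] false,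
   Spec.mk (nat_lit 11711) (nat_lit 0) [nat_lit 24833, nat_lit 16085, nat_lit 10253, nat_lit 11225, nat_lit 11765, nat_lit 11729, nat_lit 11705, nat_lit 11713, nat_lit 31393] (nat_lit 2) [] false,
   Spec.mk (nat_lit 11713) (nat_lit 1) [nat_lit 24835, nat_lit 16087, nat_lit 10255, nat_lit 11227, nat_lit 11767, nat_lit 11731, nat_lit 11707, nat_lit 11711, nat_lit 11715, nat_lit 31395] (nat_lit 0) [] false,
   Spec.mk (nat_lit 11715) (nat_lit 2) [nat_lit 24837, nat_lit 16089, nat_lit 10257, nat_lit 11229, nat_lit 11769, nat_lit 11733, nat_lit 11713] (nat_lit 0) [] false,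
   Spec.mk (nat_lit 11723) (nat_lit 0) [nat_lit 24845, nat_lit 16097, nat_lit 10265, nat_lit 11237, nat_lit 11777, nat_lit 11705, nat_lit 11729, nat_lit 11725, nat_lit 31405] (nat_lit 2) [] false,
   Spec.mk (nat_lit 11725) (nat_lit 0) [nat_lit 24847, nat_lit 16099, nat_lit 10267, nat_lit 11239, nat_lit 11779, nat_lit 11707, nat_lit 11731, nat_lit 11723, nat_lit 31407] (nat_lit 2) [] false,
   Spec.mk (nat_lit 11729) (nat_lit 0) [nat_lit 24851, nat_lit 16103, nat_lit 10271, nat_lit 11243, nat_lit 11783, nat_lit 11711, nat_lit 11723, nat_lit 11731, nat_lit 31411] (nat_lit 2) [] false,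
   Spec.mk (nat_lit 11731) (nat_lit 0) [nat_lit 24853, nat_lit 16105, nat_lit 10273, nat_lit 11245, nat_lit 11785, nat_lit 11713, nat_lit 11725, nat_lit 11737, nat_lit 11729, nat_lit 11733, nat_lit 31413] (nat_lit 0) [] false]

noncomputable def sp32 : List Spec :=
  [Spec.mk (nat_lit 11733) (nat_lit 0) [nat_lit 24855, nat_lit 16107, nat_lit 10275, nat_lit 11247, nat_lit 11787, nat_lit 11715, nat_lit 11739, nat_lit 11731] (nat_lit 0) [] false,
   Spec.mk (nat_lit 11737) (nat_lit 0) [nat_lit 24859, nat_lit 16111, nat_lit 10279, nat_lit 11251, nat_lit 11791, nat_lit 11731, nat_lit 11739, nat_lit 31419] (nat_lit 0) [] false,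
   Spec.mk (nat_lit 11739) (nat_lit 2) [nat_lit 24861, nat_lit 16113, nat_lit 10281, nat_lit 11253, nat_lit 11793, nat_lit 11733, nat_lit 11737] (nat_lit 0) [] false,
   Spec.mk (nat_lit 11753) (nat_lit 0) [nat_lit 24875, nat_lit 16127, nat_lit 10295, nat_lit 11267, nat_lit 11915, nat_lit 11699, nat_lit 11759, nat_lit 31435] (nat_lit 0) [] false,
   Spec.mk (nat_lit 11759) (nat_lit 0) [nat_lit 24881, nat_lit 16133, nat_lit 10301, nat_lit 11273, nat_lit 11921, nat_lit 11705, nat_lit 11777, nat_lit 11753, nat_lit 11765, nat_lit 11761, nat_lit 31441] (nat_lit 1) [] false,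
   Spec.mk (nat_lit 11761) (nat_lit 0) [nat_lit 24883, nat_lit 16135, nat_lit 10303, nat_lit 11275, nat_lit 11923, nat_lit 11707, nat_lit 11779, nat_lit 11767, nat_lit 11759, nat_lit 31443] (nat_lit 0) [] false,
   Spec.mk (nat_lit 11765) (nat_lit 0) [nat_lit 24887, nat_lit 16139, nat_lit 10307, nat_lit 11279, nat_lit 11927, nat_lit 11711, nat_lit 11783, nat_lit 11759, nat_lit 11767, nat_lit 31447] (nat_lit 4) [] false,
   Spec.mk (nat_lit 11767) (nat_lit 0) [nat_lit 24889, nat_lit 16141, nat_lit 10309, nat_lit 11281, nat_lit 11929, nat_lit 11713, nat_lit 11785, nat_lit 11761, nat_lit 11765, nat_lit 11769, nat_lit 31449] (nat_lit 1) [] false,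
   Spec.mk (nat_lit 11769) (nat_lit 0) [nat_lit 24891, nat_lit 16143, nat_lit 10311, nat_lit 11283, nat_lit 11931, nat_lit 11715, nat_lit 11787, nat_lit 11767] (nat_lit 0) [] false,
   Spec.mk (nat_lit 11777) (nat_lit 0) [nat_lit 24899, nat_lit 16151, nat_lit 10319, nat_lit 11291, nat_lit 11939, nat_lit 11723, nat_lit 11831, nat_lit 11759, nat_lit 11783, nat_lit 11779, nat_lit 31459] (nat_lit 1) [] false,
   Spec.mk (nat_lit 11779) (nat_lit 0) [nat_lit 24901, nat_lit 16153, nat_lit 10321, nat_lit 11293, nat_lit 11941, nat_lit 11725, nat_lit 11833, nat_lit 11761, nat_lit 11785, nat_lit 11777, nat_lit 31461] (nat_lit 1) [] false,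
   Spec.mk (nat_lit 11783) (nat_lit 0) [nat_lit 24905, nat_lit 16157, nat_lit 10325, nat_lit 11297, nat_lit 11945, nat_lit 11729, nat_lit 11837, nat_lit 11765, nat_lit 11801, nat_lit 11777, nat_lit 11785, nat_lit 31465] (nat_lit 2) [] false,
   Spec.mk (nat_lit 11785) (nat_lit 0) [nat_lit 24907, nat_lit 16159, nat_lit 10327, nat_lit 11299, nat_lit 11947, nat_lit 11731, nat_lit 11839, nat_lit 11767, nat_lit 11803, nat_lit 11779, nat_lit 11791, nat_lit 11783, nat_lit 11787, nat_lit 31467] (nat_lit 0) [] false,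
   Spec.mk (nat_lit 11787) (nat_lit 0) [nat_lit 24909, nat_lit 16161, nat_lit 10329, nat_lit 11301, nat_lit 11949, nat_lit 11733, nat_lit 11841, nat_lit 11769, nat_lit 11805, nat_lit 11793, nat_lit 11785] (nat_lit 0) [] false,
   Spec.mk (nat_lit 11791) (nat_lit 0) [nat_lit 24913, nat_lit 16165, nat_lit 10333, nat_lit 11305, nat_lit 11953, nat_lit 11737, nat_lit 11845, nat_lit 11809, nat_lit 11785, nat_lit 11793, nat_lit 31473] (nat_lit 1) [] false,
   Spec.mk (nat_lit 11793) (nat_lit 1) [nat_lit 24915, nat_lit 16167, nat_lit 10335, nat_lit 11307, nat_lit 11955, nat_lit 11739, nat_lit 11847, nat_lit 11811, nat_lit 11787, nat_lit 11791] (nat_lit 0) [] false,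
   Spec.mk (nat_lit 11801) (nat_lit 0) [nat_lit 24923, nat_lit 16175, nat_lit 10343, nat_lit 11315, nat_lit 11963, nat_lit 11855, nat_lit 11783, nat_lit 11803, nat_lit 31483] (nat_lit 2) [] false,
   Spec.mk (nat_lit 11803) (nat_lit 0) [nat_lit 24925, nat_lit 16177, nat_lit 10345, nat_lit 11317, nat_lit 11965, nat_lit 11857, nat_lit 11785, nat_lit 11809, nat_lit 11801, nat_lit 11805, nat_lit 31485] (nat_lit 1) [] false,
   Spec.mk (nat_lit 11805) (nat_lit 0) [nat_lit 24927, nat_lit 16179, nat_lit 10347, nat_lit 11319, nat_lit 11967, nat_lit 11859, nat_lit 11787, nat_lit 11811, nat_lit 11803] (nat_lit 2) [] false,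
   Spec.mk (nat_lit 11809) (nat_lit 0) [nat_lit 24931, nat_lit 16183, nat_lit 10351, nat_lit 11323, nat_lit 11971, nat_lit 11863, nat_lit 11791, nat_lit 11803, nat_lit 11811, nat_lit 31491] (nat_lit 0) [] false,
   Spec.mk (nat_lit 11811) (nat_lit 1) [nat_lit 24933, nat_lit 16185, nat_lit 10353, nat_lit 11325, nat_lit 11973, nat_lit 11865, nat_lit 11793, nat_lit 11805, nat_lit 11817, nat_lit 11809] (nat_lit 0) [] false,
   Spec.mk (nat_lit 11817) (nat_lit 2) [nat_lit 24939, nat_lit 16191, nat_lit 10359, nat_lit 11331, nat_lit 11979, nat_lit 11871, nat_lit 11811] (nat_lit 0) [] false,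
   Spec.mk (nat_lit 11831) (nat_lit 0) [nat_lit 24953, nat_lit 16205, nat_lit 10373, nat_lit 11345, nat_lit 11993, nat_lit 11777, nat_lit 11837, nat_lit 11833, nat_lit 31513] (nat_lit 2) [] false,
   Spec.mk (nat_lit 11833) (nat_lit 0) [nat_lit 24955, nat_lit 16207, nat_lit 10375, nat_lit 11347, nat_lit 11995, nat_lit 11779, nat_lit 11839, nat_lit 11831, nat_lit 31515] (nat_lit 2) [] false,
   Spec.mk (nat_lit 11837) (nat_lit 0) [nat_lit 24959, nat_lit 16211, nat_lit 10379, nat_lit 11351, nat_lit 11999, nat_lit 11783, nat_lit 11855, nat_lit 11831, nat_lit 11839, nat_lit 31519] (nat_lit 4) [] false,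
   Spec.mk (nat_lit 11839) (nat_lit 0) [nat_lit 24961, nat_lit 16213, nat_lit 10381, nat_lit 11353, nat_lit 12001, nat_lit 11785, nat_lit 11857, nat_lit 11833, nat_lit 11845, nat_lit 11837, nat_lit 11841, nat_lit 31521] (nat_lit 2) [] false,
   Spec.mk (nat_lit 11841) (nat_lit 0) [nat_lit 24963, nat_lit 16215, nat_lit 10383, nat_lit 11355, nat_lit 12003, nat_lit 11787, nat_lit 11859, nat_lit 11847, nat_lit 11839] (nat_lit 2) [] false,
   Spec.mk (nat_lit 11845) (nat_lit 0) [nat_lit 24967, nat_lit 16219, nat_lit 10387, nat_lit 11359, nat_lit 12007, nat_lit 11791, nat_lit 11863, nat_lit 11839, nat_lit 11847, nat_lit 31527] (nat_lit 4) [] false,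
   Spec.mk (nat_lit 11847) (nat_lit 0) [nat_lit 24969, nat_lit 16221, nat_lit 10389, nat_lit 11361, nat_lit 12009, nat_lit 11793, nat_lit 11865, nat_lit 11841, nat_lit 11845] (nat_lit 2) [] false,
   Spec.mk (nat_lit 11855) (nat_lit 0) [nat_lit 24977, nat_lit 16229, nat_lit 10397, nat_lit 11369, nat_lit 12017, nat_lit 11801, nat_lit 11837, nat_lit 11857, nat_lit 31537] (nat_lit 2) [] false,
   Spec.mk (nat_lit 11857) (nat_lit 0) [nat_lit 24979, nat_lit 16231, nat_lit 10399, nat_lit 11371, nat_lit 12019, nat_lit 11803, nat_lit 11839, nat_lit 11863, nat_lit 11855, nat_lit 11859, nat_lit 31539] (nat_lit 1) [] false,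
   Spec.mk (nat_lit 11859) (nat_lit 0) [nat_lit 24981, nat_lit 16233, nat_lit 10401, nat_lit 11373, nat_lit 12021, nat_lit 11805, nat_lit 11841, nat_lit 11865, nat_lit 11857] (nat_lit 2) [] false,
   Spec.mk (nat_lit 11863) (nat_lit 0) [nat_lit 24985, nat_lit 16237, nat_lit 10405, nat_lit 11377, nat_lit 12025, nat_lit 11809, nat_lit 11845, nat_lit 11881, nat_lit 11857, nat_lit 11865, nat_lit 31545] (nat_lit 1) [] false,
   Spec.mk (nat_lit 11865) (nat_lit 0) [nat_lit 24987, nat_lit 16239, nat_lit 10407, nat_lit 11379, nat_lit 12027, nat_lit 11811, nat_lit 11847, nat_lit 11883, nat_lit 11859, nat_lit 11871, nat_lit 11863] (nat_lit 0) [] false,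
   Spec.mk (nat_lit 11871) (nat_lit 0) [nat_lit 24993, nat_lit 16245, nat_lit 10413, nat_lit 11385, nat_lit 12033, nat_lit 11817, nat_lit 11889, nat_lit 11865] (nat_lit 0) [] false,
   Spec.mk (nat_lit 11881) (nat_lit 0) [nat_lit 25003, nat_lit 16255, nat_lit 10423, nat_lit 11395, nat_lit 12043, nat_lit 11863, nat_lit 11883, nat_lit 31563] (nat_lit 0) [] false,
   Spec.mk (nat_lit 11883) (nat_lit 0) [nat_lit 25005, nat_lit 16257, nat_lit 10425, nat_lit 11397, nat_lit 12045, nat_lit 11865, nat_lit 11889, nat_lit 11881] (nat_lit 0) [] false,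
   Spec.mk (nat_lit 11889) (nat_lit 2) [nat_lit 25011, nat_lit 16263, nat_lit 10431, nat_lit 11403, nat_lit 12051, nat_lit 11871, nat_lit 11883] (nat_lit 0) [] false,
   Spec.mk (nat_lit 11915) (nat_lit 1) [nat_lit 25037, nat_lit 16289, nat_lit 10457, nat_lit 11429, nat_lit 12401, nat_lit 11753, nat_lit 11921, nat_lit 31597] (nat_lit 0) [] false,
   Spec.mk (nat_lit 11921) (nat_lit 0) [nat_lit 25043, nat_lit 16295, nat_lit 10463, nat_lit 11435, nat_lit 12407, nat_lit 11759, nat_lit 11939, nat_lit 11915, nat_lit 11927, nat_lit 11923, nat_lit 31603] (nat_lit 0) [] false,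
   Spec.mk (nat_lit 11923) (nat_lit 1) [nat_lit 25045, nat_lit 16297, nat_lit 10465, nat_lit 11437, nat_lit 12409, nat_lit 11761, nat_lit 11941, nat_lit 11929, nat_lit 11921, nat_lit 31605] (nat_lit 0) [] false,
   Spec.mk (nat_lit 11927) (nat_lit 0) [nat_lit 25049, nat_lit 16301, nat_lit 10469, nat_lit 11441, nat_lit 12413, nat_lit 11765, nat_lit 11945, nat_lit 11921, nat_lit 11929, nat_lit 31609] (nat_lit 3) [] false,
   Spec.mk (nat_lit 11929) (nat_lit 0) [nat_lit 25051, nat_lit 16303, nat_lit 10471, nat_lit 11443, nat_lit 12415, nat_lit 11767, nat_lit 11947, nat_lit 11923, nat_lit 11927, nat_lit 11931, nat_lit 31611] (nat_lit 0) [] false,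
   Spec.mk (nat_lit 11931) (nat_lit 1) [nat_lit 25053, nat_lit 16305, nat_lit 10473, nat_lit 11445, nat_lit 12417, nat_lit 11769, nat_lit 11949, nat_lit 11929] (nat_lit 0) [] false,
   Spec.mk (nat_lit 11939) (nat_lit 0) [nat_lit 25061, nat_lit 16313, nat_lit 10481, nat_lit 11453, nat_lit 12425, nat_lit 11777, nat_lit 11993, nat_lit 11921, nat_lit 11945, nat_lit 11941, nat_lit 31621] (nat_lit 1) [] false,
   Spec.mk (nat_lit 11941) (nat_lit 0) [nat_lit 25063, nat_lit 16315, nat_lit 10483, nat_lit 11455, nat_lit 12427, nat_lit 11779, nat_lit 11995, nat_lit 11923, nat_lit 11947, nat_lit 11939, nat_lit 31623] (nat_lit 1) [] false,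
   Spec.mk (nat_lit 11945) (nat_lit 0) [nat_lit 25067, nat_lit 16319, nat_lit 10487, nat_lit 11459, nat_lit 12431, nat_lit 11783, nat_lit 11999, nat_lit 11927, nat_lit 11963, nat_lit 11939, nat_lit 11947, nat_lit 31627] (nat_lit 2) [] false,
   Spec.mk (nat_lit 11947) (nat_lit 0) [nat_lit 25069, nat_lit 16321, nat_lit 10489, nat_lit 11461, nat_lit 12433, nat_lit 11785, nat_lit 12001, nat_lit 11929, nat_lit 11965, nat_lit 11941, nat_lit 11953, nat_lit 11945, nat_lit 11949, nat_lit 31629] (nat_lit 0) [] false,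
   Spec.mk (nat_lit 11949) (nat_lit 0) [nat_lit 25071, nat_lit 16323, nat_lit 10491, nat_lit 11463, nat_lit 12435, nat_lit 11787, nat_lit 12003, nat_lit 11931, nat_lit 11967, nat_lit 11955, nat_lit 11947] (nat_lit 0) [] false,
   Spec.mk (nat_lit 11953) (nat_lit 0) [nat_lit 25075, nat_lit 16327, nat_lit 10495, nat_lit 11467, nat_lit 12439, nat_lit 11791, nat_lit 12007, nat_lit 11971, nat_lit 11947, nat_lit 11955, nat_lit 31635] (nat_lit 1) [] false,
   Spec.mk (nat_lit 11955) (nat_lit 1) [nat_lit 25077, nat_lit 16329, nat_lit 10497, nat_lit 11469, nat_lit 12441, nat_lit 11793, nat_lit 12009, nat_lit 11973, nat_lit 11949, nat_lit 11953] (nat_lit 0) [] false,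
   Spec.mk (nat_lit 11963) (nat_lit 0) [nat_lit 25085, nat_lit 16337, nat_lit 10505, nat_lit 11477, nat_lit 12449, nat_lit 11801, nat_lit 12017, nat_lit 11945, nat_lit 11965, nat_lit 31645] (nat_lit 3) [] false,
   Spec.mk (nat_lit 11965) (nat_lit 0) [nat_lit 25087, nat_lit 16339, nat_lit 10507, nat_lit 11479, nat_lit 12451, nat_lit 11803, nat_lit 12019, nat_lit 11947, nat_lit 11971, nat_lit 11963, nat_lit 11967, nat_lit 31647] (nat_lit 2) [] false,
   Spec.mk (nat_lit 11967) (nat_lit 0) [nat_lit 25089, nat_lit 16341, nat_lit 10509, nat_lit 11481, nat_lit 12453, nat_lit 11805, nat_lit 12021, nat_lit 11949, nat_lit 11973, nat_lit 11965] (nat_lit 3) [] false,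
   Spec.mk (nat_lit 11971) (nat_lit 0) [nat_lit 25093, nat_lit 16345, nat_lit 10513, nat_lit 11485, nat_lit 12457, nat_lit 11809, nat_lit 12025, nat_lit 11953, nat_lit 11965, nat_lit 11973, nat_lit 31653] (nat_lit 1) [] false,
   Spec.mk (nat_lit 11973) (nat_lit 0) [nat_lit 25095, nat_lit 16347, nat_lit 10515, nat_lit 11487, nat_lit 12459, nat_lit 11811, nat_lit 12027, nat_lit 11955, nat_lit 11967, nat_lit 11979, nat_lit 11971] (nat_lit 0) [] false,
   Spec.mk (nat_lit 11979) (nat_lit 1) [nat_lit 25101, nat_lit 16353, nat_lit 10521, nat_lit 11493, nat_lit 12465, nat_lit 11817, nat_lit 12033, nat_lit 11973] (nat_lit 0) [] false,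
   Spec.mk (nat_lit 11993) (nat_lit 0) [nat_lit 25115, nat_lit 16367, nat_lit 10535, nat_lit 11507, nat_lit 12479, nat_lit 11831, nat_lit 12155, nat_lit 11939, nat_lit 11999, nat_lit 11995, nat_lit 31675] (nat_lit 0) [] false,
   Spec.mk (nat_lit 11995) (nat_lit 0) [nat_lit 25117, nat_lit 16369, nat_lit 10537, nat_lit 11509, nat_lit 12481, nat_lit 11833, nat_lit 12157, nat_lit 11941, nat_lit 12001, nat_lit 11993, nat_lit 31677] (nat_lit 0) [] false,
   Spec.mk (nat_lit 11999) (nat_lit 0) [nat_lit 25121, nat_lit 16373, nat_lit 10541, nat_lit 11513, nat_lit 12485, nat_lit 11837, nat_lit 12161, nat_lit 11945, nat_lit 12017, nat_lit 11993, nat_lit 12001, nat_lit 31681] (nat_lit 2) [] false]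

noncomputable def sp33 : List Spec :=
  [Spec.mk (nat_lit 12001) (nat_lit 0) [nat_lit 25123, nat_lit 16375, nat_lit 10543, nat_lit 11515, nat_lit 12487, nat_lit 11839, nat_lit 12163, nat_lit 11947, nat_lit 12019, nat_lit 11995, nat_lit 12007, nat_lit 11999, nat_lit 12003, nat_lit 31683] (nat_lit 0) [] false,
   Spec.mk (nat_lit 12003) (nat_lit 0) [nat_lit 25125, nat_lit 16377, nat_lit 10545, nat_lit 11517, nat_lit 12489, nat_lit 11841, nat_lit 12165, nat_lit 11949, nat_lit 12021, nat_lit 12009, nat_lit 12001] (nat_lit 0) [] false,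
   Spec.mk (nat_lit 12007) (nat_lit 0) [nat_lit 25129, nat_lit 16381, nat_lit 10549, nat_lit 11521, nat_lit 12493, nat_lit 11845, nat_lit 12169, nat_lit 11953, nat_lit 12025, nat_lit 12001, nat_lit 12009, nat_lit 31689] (nat_lit 2) [] false,
   Spec.mk (nat_lit 12009) (nat_lit 0) [nat_lit 25131, nat_lit 16383, nat_lit 10551, nat_lit 11523, nat_lit 12495, nat_lit 11847, nat_lit 12171, nat_lit 11955, nat_lit 12027, nat_lit 12003, nat_lit 12007] (nat_lit 0) [] false,
   Spec.mk (nat_lit 12017) (nat_lit 0) [nat_lit 25139, nat_lit 16391, nat_lit 10559, nat_lit 11531, nat_lit 12503, nat_lit 11855, nat_lit 12179, nat_lit 11963, nat_lit 12071, nat_lit 11999, nat_lit 12019, nat_lit 31699] (nat_lit 1) [] false,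
   Spec.mk (nat_lit 12019) (nat_lit 0) [nat_lit 25141, nat_lit 16393, nat_lit 10561, nat_lit 11533, nat_lit 12505, nat_lit 11857, nat_lit 12181, nat_lit 11965, nat_lit 12073, nat_lit 12001, nat_lit 12025, nat_lit 12017, nat_lit 12021, nat_lit 31701] (nat_lit 0) [] false,
   Spec.mk (nat_lit 12021) (nat_lit 0) [nat_lit 25143, nat_lit 16395, nat_lit 10563, nat_lit 11535, nat_lit 12507, nat_lit 11859, nat_lit 12183, nat_lit 11967, nat_lit 12075, nat_lit 12003, nat_lit 12027, nat_lit 12019] (nat_lit 1) [] false,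
   Spec.mk (nat_lit 12025) (nat_lit 0) [nat_lit 25147, nat_lit 16399, nat_lit 10567, nat_lit 11539, nat_lit 12511, nat_lit 11863, nat_lit 12187, nat_lit 11971, nat_lit 12079, nat_lit 12007, nat_lit 12043, nat_lit 12019, nat_lit 12027, nat_lit 31707] (nat_lit 0) [] false,
   Spec.mk (nat_lit 12027) (nat_lit 1) [nat_lit 25149, nat_lit 16401, nat_lit 10569, nat_lit 11541, nat_lit 12513, nat_lit 11865, nat_lit 12189, nat_lit 11973, nat_lit 12081, nat_lit 12009, nat_lit 12045, nat_lit 12021, nat_lit 12033, nat_lit 12025] (nat_lit 0) [] false,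
   Spec.mk (nat_lit 12033) (nat_lit 1) [nat_lit 25155, nat_lit 16407, nat_lit 10575, nat_lit 11547, nat_lit 12519, nat_lit 11871, nat_lit 12195, nat_lit 11979, nat_lit 12087, nat_lit 12051, nat_lit 12027] (nat_lit 0) [] false,
   Spec.mk (nat_lit 12043) (nat_lit 0) [nat_lit 25165, nat_lit 16417, nat_lit 10585, nat_lit 11557, nat_lit 12529, nat_lit 11881, nat_lit 12205, nat_lit 12097, nat_lit 12025, nat_lit 12045, nat_lit 31725] (nat_lit 0) [] false,
   Spec.mk (nat_lit 12045) (nat_lit 0) [nat_lit 25167, nat_lit 16419, nat_lit 10587, nat_lit 11559, nat_lit 12531, nat_lit 11883, nat_lit 12207, nat_lit 12099, nat_lit 12027, nat_lit 12051, nat_lit 12043] (nat_lit 0) [] false,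
   Spec.mk (nat_lit 12051) (nat_lit 2) [nat_lit 25173, nat_lit 16425, nat_lit 10593, nat_lit 11565, nat_lit 12537, nat_lit 11889, nat_lit 12213, nat_lit 12105, nat_lit 12033, nat_lit 12045] (nat_lit 0) [] false,
   Spec.mk (nat_lit 12071) (nat_lit 0) [nat_lit 25193, nat_lit 16445, nat_lit 10613, nat_lit 11585, nat_lit 12557, nat_lit 12233, nat_lit 12017, nat_lit 12073, nat_lit 31753] (nat_lit 1) [] false,
   Spec.mk (nat_lit 12073) (nat_lit 0) [nat_lit 25195, nat_lit 16447, nat_lit 10615, nat_lit 11587, nat_lit 12559, nat_lit 12235, nat_lit 12019, nat_lit 12079, nat_lit 12071, nat_lit 12075, nat_lit 31755] (nat_lit 0) [] false,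
   Spec.mk (nat_lit 12075) (nat_lit 0) [nat_lit 25197, nat_lit 16449, nat_lit 10617, nat_lit 11589, nat_lit 12561, nat_lit 12237, nat_lit 12021, nat_lit 12081, nat_lit 12073] (nat_lit 1) [] false,
   Spec.mk (nat_lit 12079) (nat_lit 0) [nat_lit 25201, nat_lit 16453, nat_lit 10621, nat_lit 11593, nat_lit 12565, nat_lit 12241, nat_lit 12025, nat_lit 12097, nat_lit 12073, nat_lit 12081, nat_lit 31761] (nat_lit 1) [] false,
   Spec.mk (nat_lit 12081) (nat_lit 0) [nat_lit 25203, nat_lit 16455, nat_lit 10623, nat_lit 11595, nat_lit 12567, nat_lit 12243, nat_lit 12027, nat_lit 12099, nat_lit 12075, nat_lit 12087, nat_lit 12079] (nat_lit 0) [] false,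
   Spec.mk (nat_lit 12087) (nat_lit 0) [nat_lit 25209, nat_lit 16461, nat_lit 10629, nat_lit 11601, nat_lit 12573, nat_lit 12249, nat_lit 12033, nat_lit 12105, nat_lit 12081] (nat_lit 1) [] false,
   Spec.mk (nat_lit 12097) (nat_lit 1) [nat_lit 25219, nat_lit 16471, nat_lit 10639, nat_lit 11611, nat_lit 12583, nat_lit 12259, nat_lit 12043, nat_lit 12079, nat_lit 12099, nat_lit 31779] (nat_lit 0) [] false,
   Spec.mk (nat_lit 12099) (nat_lit 1) [nat_lit 25221, nat_lit 16473, nat_lit 10641, nat_lit 11613, nat_lit 12585, nat_lit 12261, nat_lit 12045, nat_lit 12081, nat_lit 12105, nat_lit 12097] (nat_lit 0) [] false,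
   Spec.mk (nat_lit 12105) (nat_lit 2) [nat_lit 25227, nat_lit 16479, nat_lit 10647, nat_lit 11619, nat_lit 12591, nat_lit 12267, nat_lit 12051, nat_lit 12087, nat_lit 12123, nat_lit 12099] (nat_lit 0) [] false,
   Spec.mk (nat_lit 12123) (nat_lit 3) [nat_lit 25245, nat_lit 16497, nat_lit 10665, nat_lit 11637, nat_lit 12609, nat_lit 12285, nat_lit 12105] (nat_lit 0) [] false,
   Spec.mk (nat_lit 12155) (nat_lit 0) [nat_lit 25277, nat_lit 16529, nat_lit 10697, nat_lit 12641, nat_lit 11993, nat_lit 12161, nat_lit 12157, nat_lit 31837] (nat_lit 0) [] false,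
   Spec.mk (nat_lit 12157) (nat_lit 0) [nat_lit 25279, nat_lit 16531, nat_lit 10699, nat_lit 12643, nat_lit 11995, nat_lit 12163, nat_lit 12155, nat_lit 31839] (nat_lit 0) [] false,
   Spec.mk (nat_lit 12161) (nat_lit 0) [nat_lit 25283, nat_lit 16535, nat_lit 10703, nat_lit 12647, nat_lit 11999, nat_lit 12179, nat_lit 12155, nat_lit 12163, nat_lit 31843] (nat_lit 2) [] false,
   Spec.mk (nat_lit 12163) (nat_lit 0) [nat_lit 25285, nat_lit 16537, nat_lit 10705, nat_lit 12649, nat_lit 12001, nat_lit 12181, nat_lit 12157, nat_lit 12169, nat_lit 12161, nat_lit 12165, nat_lit 31845] (nat_lit 0) [] false,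
   Spec.mk (nat_lit 12165) (nat_lit 0) [nat_lit 25287, nat_lit 16539, nat_lit 10707, nat_lit 12651, nat_lit 12003, nat_lit 12183, nat_lit 12171, nat_lit 12163] (nat_lit 0) [] false,
   Spec.mk (nat_lit 12169) (nat_lit 0) [nat_lit 25291, nat_lit 16543, nat_lit 10711, nat_lit 12655, nat_lit 12007, nat_lit 12187, nat_lit 12163, nat_lit 12171, nat_lit 31851] (nat_lit 2) [] false,
   Spec.mk (nat_lit 12171) (nat_lit 0) [nat_lit 25293, nat_lit 16545, nat_lit 10713, nat_lit 12657, nat_lit 12009, nat_lit 12189, nat_lit 12165, nat_lit 12169] (nat_lit 0) [] false,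
   Spec.mk (nat_lit 12179) (nat_lit 0) [nat_lit 25301, nat_lit 16553, nat_lit 10721, nat_lit 12665, nat_lit 12017, nat_lit 12233, nat_lit 12161, nat_lit 12181, nat_lit 31861] (nat_lit 2) [] false,
   Spec.mk (nat_lit 12181) (nat_lit 0) [nat_lit 25303, nat_lit 16555, nat_lit 10723, nat_lit 12667, nat_lit 12019, nat_lit 12235, nat_lit 12163, nat_lit 12187, nat_lit 12179, nat_lit 12183, nat_lit 31863] (nat_lit 1) [] false,
   Spec.mk (nat_lit 12183) (nat_lit 0) [nat_lit 25305, nat_lit 16557, nat_lit 10725, nat_lit 12669, nat_lit 12021, nat_lit 12237, nat_lit 12165, nat_lit 12189, nat_lit 12181] (nat_lit 2) [] false,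
   Spec.mk (nat_lit 12187) (nat_lit 0) [nat_lit 25309, nat_lit 16561, nat_lit 10729, nat_lit 12673, nat_lit 12025, nat_lit 12241, nat_lit 12169, nat_lit 12205, nat_lit 12181, nat_lit 12189, nat_lit 31869] (nat_lit 1) [] false,
   Spec.mk (nat_lit 12189) (nat_lit 0) [nat_lit 25311, nat_lit 16563, nat_lit 10731, nat_lit 12675, nat_lit 12027, nat_lit 12243, nat_lit 12171, nat_lit 12207, nat_lit 12183, nat_lit 12195, nat_lit 12187] (nat_lit 0) [] false,
   Spec.mk (nat_lit 12195) (nat_lit 0) [nat_lit 25317, nat_lit 16569, nat_lit 10737, nat_lit 12681, nat_lit 12033, nat_lit 12249, nat_lit 12213, nat_lit 12189] (nat_lit 0) [] false,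
   Spec.mk (nat_lit 12205) (nat_lit 0) [nat_lit 25327, nat_lit 16579, nat_lit 10747, nat_lit 12691, nat_lit 12043, nat_lit 12259, nat_lit 12187, nat_lit 12207, nat_lit 31887] (nat_lit 2) [] false,
   Spec.mk (nat_lit 12207) (nat_lit 0) [nat_lit 25329, nat_lit 16581, nat_lit 10749, nat_lit 12693, nat_lit 12045, nat_lit 12261, nat_lit 12189, nat_lit 12213, nat_lit 12205] (nat_lit 2) [] false,
   Spec.mk (nat_lit 12213) (nat_lit 0) [nat_lit 25335, nat_lit 16587, nat_lit 10755, nat_lit 12699, nat_lit 12051, nat_lit 12267, nat_lit 12195, nat_lit 12207] (nat_lit 0) [] false,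
   Spec.mk (nat_lit 12233) (nat_lit 0) [nat_lit 25355, nat_lit 16607, nat_lit 10775, nat_lit 12719, nat_lit 12071, nat_lit 12179, nat_lit 12235, nat_lit 31915] (nat_lit 0) [] false,
   Spec.mk (nat_lit 12235) (nat_lit 1) [nat_lit 25357, nat_lit 16609, nat_lit 10777, nat_lit 12721, nat_lit 12073, nat_lit 12181, nat_lit 12241, nat_lit 12233, nat_lit 12237, nat_lit 31917] (nat_lit 0) [] false,
   Spec.mk (nat_lit 12237) (nat_lit 0) [nat_lit 25359, nat_lit 16611, nat_lit 10779, nat_lit 12723, nat_lit 12075, nat_lit 12183, nat_lit 12243, nat_lit 12235] (nat_lit 0) [] false,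
   Spec.mk (nat_lit 12241) (nat_lit 0) [nat_lit 25363, nat_lit 16615, nat_lit 10783, nat_lit 12727, nat_lit 12079, nat_lit 12187, nat_lit 12259, nat_lit 12235, nat_lit 12243, nat_lit 31923] (nat_lit 0) [] false,
   Spec.mk (nat_lit 12243) (nat_lit 1) [nat_lit 25365, nat_lit 16617, nat_lit 10785, nat_lit 12729, nat_lit 12081, nat_lit 12189, nat_lit 12261, nat_lit 12237, nat_lit 12249, nat_lit 12241] (nat_lit 0) [] false,
   Spec.mk (nat_lit 12249) (nat_lit 0) [nat_lit 25371, nat_lit 16623, nat_lit 10791, nat_lit 12735, nat_lit 12087, nat_lit 12195, nat_lit 12267, nat_lit 12243] (nat_lit 0) [] false,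
   Spec.mk (nat_lit 12259) (nat_lit 1) [nat_lit 25381, nat_lit 16633, nat_lit 10801, nat_lit 12745, nat_lit 12097, nat_lit 12205, nat_lit 12313, nat_lit 12241, nat_lit 12261, nat_lit 31941] (nat_lit 0) [] false,
   Spec.mk (nat_lit 12261) (nat_lit 1) [nat_lit 25383, nat_lit 16635, nat_lit 10803, nat_lit 12747, nat_lit 12099, nat_lit 12207, nat_lit 12315, nat_lit 12243, nat_lit 12267, nat_lit 12259] (nat_lit 0) [] false,
   Spec.mk (nat_lit 12267) (nat_lit 2) [nat_lit 25389, nat_lit 16641, nat_lit 10809, nat_lit 12753, nat_lit 12105, nat_lit 12213, nat_lit 12321, nat_lit 12249, nat_lit 12285, nat_lit 12261] (nat_lit 0) [] false,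
   Spec.mk (nat_lit 12285) (nat_lit 2) [nat_lit 25407, nat_lit 16659, nat_lit 10827, nat_lit 12771, nat_lit 12123, nat_lit 12339, nat_lit 12267] (nat_lit 0) [] false,
   Spec.mk (nat_lit 12313) (nat_lit 2) [nat_lit 25435, nat_lit 16687, nat_lit 10855, nat_lit 12799, nat_lit 12259, nat_lit 12315, nat_lit 31995] (nat_lit 0) [] false,
   Spec.mk (nat_lit 12315) (nat_lit 2) [nat_lit 25437, nat_lit 16689, nat_lit 10857, nat_lit 12801, nat_lit 12261, nat_lit 12321, nat_lit 12313] (nat_lit 0) [] false,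
   Spec.mk (nat_lit 12321) (nat_lit 2) [nat_lit 25443, nat_lit 16695, nat_lit 10863, nat_lit 12807, nat_lit 12267, nat_lit 12339, nat_lit 12315] (nat_lit 0) [] false,
   Spec.mk (nat_lit 12339) (nat_lit 4) [nat_lit 25461, nat_lit 16713, nat_lit 10881, nat_lit 12825, nat_lit 12285, nat_lit 12321] (nat_lit 0) [] false,
   Spec.mk (nat_lit 12401) (nat_lit 2) [nat_lit 25523, nat_lit 16775, nat_lit 11915, nat_lit 12407, nat_lit 32083] (nat_lit 0) [] false,
   Spec.mk (nat_lit 12407) (nat_lit 1) [nat_lit 25529, nat_lit 16781, nat_lit 11921, nat_lit 12425, nat_lit 12401, nat_lit 12413, nat_lit 12409, nat_lit 32089] (nat_lit 0) [] false,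
   Spec.mk (nat_lit 12409) (nat_lit 2) [nat_lit 25531, nat_lit 16783, nat_lit 11923, nat_lit 12427, nat_lit 12415, nat_lit 12407, nat_lit 32091] (nat_lit 0) [] false,
   Spec.mk (nat_lit 12413) (nat_lit 0) [nat_lit 25535, nat_lit 16787, nat_lit 11927, nat_lit 12431, nat_lit 12407, nat_lit 12415, nat_lit 32095] (nat_lit 2) [] false,
   Spec.mk (nat_lit 12415) (nat_lit 1) [nat_lit 25537, nat_lit 16789, nat_lit 11929, nat_lit 12433, nat_lit 12409, nat_lit 12413, nat_lit 12417, nat_lit 32097] (nat_lit 0) [] false,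
   Spec.mk (nat_lit 12417) (nat_lit 2) [nat_lit 25539, nat_lit 16791, nat_lit 11931, nat_lit 12435, nat_lit 12415] (nat_lit 0) [] false,
   Spec.mk (nat_lit 12425) (nat_lit 0) [nat_lit 25547, nat_lit 16799, nat_lit 11939, nat_lit 12479, nat_lit 12407, nat_lit 12431, nat_lit 12427, nat_lit 32107] (nat_lit 0) [] false]

noncomputable def sp34 : List Spec :=
  [Spec.mk (nat_lit 12427) (nat_lit 0) [nat_lit 25549, nat_lit 16801, nat_lit 11941, nat_lit 12481, nat_lit 12409, nat_lit 12433, nat_lit 12425, nat_lit 32109] (nat_lit 0) [] false,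
   Spec.mk (nat_lit 12431) (nat_lit 0) [nat_lit 25553, nat_lit 16805, nat_lit 11945, nat_lit 12485, nat_lit 12413, nat_lit 12449, nat_lit 12425, nat_lit 12433, nat_lit 32113] (nat_lit 1) [] false,
   Spec.mk (nat_lit 12433) (nat_lit 1) [nat_lit 25555, nat_lit 16807, nat_lit 11947, nat_lit 12487, nat_lit 12415, nat_lit 12451, nat_lit 12427, nat_lit 12439, nat_lit 12431, nat_lit 12435, nat_lit 32115] (nat_lit 0) [] false,
   Spec.mk (nat_lit 12435) (nat_lit 1) [nat_lit 25557, nat_lit 16809, nat_lit 11949, nat_lit 12489, nat_lit 12417, nat_lit 12453, nat_lit 12441, nat_lit 12433] (nat_lit 0) [] false,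
   Spec.mk (nat_lit 12439) (nat_lit 0) [nat_lit 25561, nat_lit 16813, nat_lit 11953, nat_lit 12493, nat_lit 12457, nat_lit 12433, nat_lit 12441, nat_lit 32121] (nat_lit 0) [] false,
   Spec.mk (nat_lit 12441) (nat_lit 2) [nat_lit 25563, nat_lit 16815, nat_lit 11955, nat_lit 12495, nat_lit 12459, nat_lit 12435, nat_lit 12439] (nat_lit 0) [] false,
   Spec.mk (nat_lit 12449) (nat_lit 0) [nat_lit 25571, nat_lit 16823, nat_lit 11963, nat_lit 12503, nat_lit 12431, nat_lit 12451, nat_lit 32131] (nat_lit 2) [] false,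
   Spec.mk (nat_lit 12451) (nat_lit 0) [nat_lit 25573, nat_lit 16825, nat_lit 11965, nat_lit 12505, nat_lit 12433, nat_lit 12457, nat_lit 12449, nat_lit 12453, nat_lit 32133] (nat_lit 1) [] false,
   Spec.mk (nat_lit 12453) (nat_lit 0) [nat_lit 25575, nat_lit 16827, nat_lit 11967, nat_lit 12507, nat_lit 12435, nat_lit 12459, nat_lit 12451] (nat_lit 2) [] false,
   Spec.mk (nat_lit 12457) (nat_lit 0) [nat_lit 25579, nat_lit 16831, nat_lit 11971, nat_lit 12511, nat_lit 12439, nat_lit 12451, nat_lit 12459, nat_lit 32139] (nat_lit 0) [] false,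
   Spec.mk (nat_lit 12459) (nat_lit 1) [nat_lit 25581, nat_lit 16833, nat_lit 11973, nat_lit 12513, nat_lit 12441, nat_lit 12453, nat_lit 12465, nat_lit 12457] (nat_lit 0) [] false,
   Spec.mk (nat_lit 12465) (nat_lit 2) [nat_lit 25587, nat_lit 16839, nat_lit 11979, nat_lit 12519, nat_lit 12459] (nat_lit 0) [] false,
   Spec.mk (nat_lit 12479) (nat_lit 0) [nat_lit 25601, nat_lit 16853, nat_lit 11993, nat_lit 12641, nat_lit 12425, nat_lit 12485, nat_lit 12481, nat_lit 32161] (nat_lit 0) [] false,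
   Spec.mk (nat_lit 12481) (nat_lit 0) [nat_lit 25603, nat_lit 16855, nat_lit 11995, nat_lit 12643, nat_lit 12427, nat_lit 12487, nat_lit 12479, nat_lit 32163] (nat_lit 0) [] false,
   Spec.mk (nat_lit 12485) (nat_lit 0) [nat_lit 25607, nat_lit 16859, nat_lit 11999, nat_lit 12647, nat_lit 12431, nat_lit 12503, nat_lit 12479, nat_lit 12487, nat_lit 32167] (nat_lit 2) [] false,
   Spec.mk (nat_lit 12487) (nat_lit 0) [nat_lit 25609, nat_lit 16861, nat_lit 12001, nat_lit 12649, nat_lit 12433, nat_lit 12505, nat_lit 12481, nat_lit 12493, nat_lit 12485, nat_lit 12489, nat_lit 32169] (nat_lit 0) [] false,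
   Spec.mk (nat_lit 12489) (nat_lit 0) [nat_lit 25611, nat_lit 16863, nat_lit 12003, nat_lit 12651, nat_lit 12435, nat_lit 12507, nat_lit 12495, nat_lit 12487] (nat_lit 0) [] false,
   Spec.mk (nat_lit 12493) (nat_lit 0) [nat_lit 25615, nat_lit 16867, nat_lit 12007, nat_lit 12655, nat_lit 12439, nat_lit 12511, nat_lit 12487, nat_lit 12495, nat_lit 32175] (nat_lit 2) [] false,
   Spec.mk (nat_lit 12495) (nat_lit 0) [nat_lit 25617, nat_lit 16869, nat_lit 12009, nat_lit 12657, nat_lit 12441, nat_lit 12513, nat_lit 12489, nat_lit 12493] (nat_lit 0) [] false,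
   Spec.mk (nat_lit 12503) (nat_lit 0) [nat_lit 25625, nat_lit 16877, nat_lit 12017, nat_lit 12665, nat_lit 12449, nat_lit 12557, nat_lit 12485, nat_lit 12505, nat_lit 32185] (nat_lit 1) [] false,
   Spec.mk (nat_lit 12505) (nat_lit 0) [nat_lit 25627, nat_lit 16879, nat_lit 12019, nat_lit 12667, nat_lit 12451, nat_lit 12559, nat_lit 12487, nat_lit 12511, nat_lit 12503, nat_lit 12507, nat_lit 32187] (nat_lit 0) [] false,
   Spec.mk (nat_lit 12507) (nat_lit 0) [nat_lit 25629, nat_lit 16881, nat_lit 12021, nat_lit 12669, nat_lit 12453, nat_lit 12561, nat_lit 12489, nat_lit 12513, nat_lit 12505] (nat_lit 1) [] false,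
   Spec.mk (nat_lit 12511) (nat_lit 0) [nat_lit 25633, nat_lit 16885, nat_lit 12025, nat_lit 12673, nat_lit 12457, nat_lit 12565, nat_lit 12493, nat_lit 12529, nat_lit 12505, nat_lit 12513, nat_lit 32193] (nat_lit 0) [] false,
   Spec.mk (nat_lit 12513) (nat_lit 1) [nat_lit 25635, nat_lit 16887, nat_lit 12027, nat_lit 12675, nat_lit 12459, nat_lit 12567, nat_lit 12495, nat_lit 12531, nat_lit 12507, nat_lit 12519, nat_lit 12511] (nat_lit 0) [] false,
   Spec.mk (nat_lit 12519) (nat_lit 1) [nat_lit 25641, nat_lit 16893, nat_lit 12033, nat_lit 12681, nat_lit 12465, nat_lit 12573, nat_lit 12537, nat_lit 12513] (nat_lit 0) [] false,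
   Spec.mk (nat_lit 12529) (nat_lit 0) [nat_lit 25651, nat_lit 16903, nat_lit 12043, nat_lit 12691, nat_lit 12583, nat_lit 12511, nat_lit 12531, nat_lit 32211] (nat_lit 0) [] false,
   Spec.mk (nat_lit 12531) (nat_lit 0) [nat_lit 25653, nat_lit 16905, nat_lit 12045, nat_lit 12693, nat_lit 12585, nat_lit 12513, nat_lit 12537, nat_lit 12529] (nat_lit 0) [] false,
   Spec.mk (nat_lit 12537) (nat_lit 2) [nat_lit 25659, nat_lit 16911, nat_lit 12051, nat_lit 12699, nat_lit 12591, nat_lit 12519, nat_lit 12531] (nat_lit 0) [] false,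
   Spec.mk (nat_lit 12557) (nat_lit 0) [nat_lit 25679, nat_lit 16931, nat_lit 12071, nat_lit 12719, nat_lit 12503, nat_lit 12559, nat_lit 32239] (nat_lit 2) [] false,
   Spec.mk (nat_lit 12559) (nat_lit 0) [nat_lit 25681, nat_lit 16933, nat_lit 12073, nat_lit 12721, nat_lit 12505, nat_lit 12565, nat_lit 12557, nat_lit 12561, nat_lit 32241] (nat_lit 1) [] false,
   Spec.mk (nat_lit 12561) (nat_lit 0) [nat_lit 25683, nat_lit 16935, nat_lit 12075, nat_lit 12723, nat_lit 12507, nat_lit 12567, nat_lit 12559] (nat_lit 2) [] false,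
   Spec.mk (nat_lit 12565) (nat_lit 0) [nat_lit 25687, nat_lit 16939, nat_lit 12079, nat_lit 12727, nat_lit 12511, nat_lit 12583, nat_lit 12559, nat_lit 12567, nat_lit 32247] (nat_lit 2) [] false,
   Spec.mk (nat_lit 12567) (nat_lit 0) [nat_lit 25689, nat_lit 16941, nat_lit 12081, nat_lit 12729, nat_lit 12513, nat_lit 12585, nat_lit 12561, nat_lit 12573, nat_lit 12565] (nat_lit 1) [] false,
   Spec.mk (nat_lit 12573) (nat_lit 0) [nat_lit 25695, nat_lit 16947, nat_lit 12087, nat_lit 12735, nat_lit 12519, nat_lit 12591, nat_lit 12567] (nat_lit 2) [] false,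
   Spec.mk (nat_lit 12583) (nat_lit 0) [nat_lit 25705, nat_lit 16957, nat_lit 12097, nat_lit 12745, nat_lit 12529, nat_lit 12565, nat_lit 12585, nat_lit 32265] (nat_lit 0) [] false,
   Spec.mk (nat_lit 12585) (nat_lit 0) [nat_lit 25707, nat_lit 16959, nat_lit 12099, nat_lit 12747, nat_lit 12531, nat_lit 12567, nat_lit 12591, nat_lit 12583] (nat_lit 0) [] false,
   Spec.mk (nat_lit 12591) (nat_lit 1) [nat_lit 25713, nat_lit 16965, nat_lit 12105, nat_lit 12753, nat_lit 12537, nat_lit 12573, nat_lit 12609, nat_lit 12585] (nat_lit 0) [] false,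
   Spec.mk (nat_lit 12609) (nat_lit 2) [nat_lit 25731, nat_lit 16983, nat_lit 12123, nat_lit 12771, nat_lit 12591] (nat_lit 0) [] false,
   Spec.mk (nat_lit 12641) (nat_lit 2) [nat_lit 25763, nat_lit 17015, nat_lit 12155, nat_lit 12479, nat_lit 12647, nat_lit 12643, nat_lit 32323] (nat_lit 0) [] false,
   Spec.mk (nat_lit 12643) (nat_lit 2) [nat_lit 25765, nat_lit 17017, nat_lit 12157, nat_lit 12481, nat_lit 12649, nat_lit 12641, nat_lit 32325] (nat_lit 0) [] false,
   Spec.mk (nat_lit 12647) (nat_lit 0) [nat_lit 25769, nat_lit 17021, nat_lit 12161, nat_lit 12485, nat_lit 12665, nat_lit 12641, nat_lit 12649, nat_lit 32329] (nat_lit 0) [] false,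
   Spec.mk (nat_lit 12649) (nat_lit 2) [nat_lit 25771, nat_lit 17023, nat_lit 12163, nat_lit 12487, nat_lit 12667, nat_lit 12643, nat_lit 12655, nat_lit 12647, nat_lit 12651, nat_lit 32331] (nat_lit 0) [] false,
   Spec.mk (nat_lit 12651) (nat_lit 2) [nat_lit 25773, nat_lit 17025, nat_lit 12165, nat_lit 12489, nat_lit 12669, nat_lit 12657, nat_lit 12649] (nat_lit 0) [] false,
   Spec.mk (nat_lit 12655) (nat_lit 0) [nat_lit 25777, nat_lit 17029, nat_lit 12169, nat_lit 12493, nat_lit 12673, nat_lit 12649, nat_lit 12657, nat_lit 32337] (nat_lit 0) [] false,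
   Spec.mk (nat_lit 12657) (nat_lit 2) [nat_lit 25779, nat_lit 17031, nat_lit 12171, nat_lit 12495, nat_lit 12675, nat_lit 12651, nat_lit 12655] (nat_lit 0) [] false,
   Spec.mk (nat_lit 12665) (nat_lit 0) [nat_lit 25787, nat_lit 17039, nat_lit 12179, nat_lit 12503, nat_lit 12719, nat_lit 12647, nat_lit 12667, nat_lit 32347] (nat_lit 0) [] false,
   Spec.mk (nat_lit 12667) (nat_lit 1) [nat_lit 25789, nat_lit 17041, nat_lit 12181, nat_lit 12505, nat_lit 12721, nat_lit 12649, nat_lit 12673, nat_lit 12665, nat_lit 12669, nat_lit 32349] (nat_lit 0) [] false,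
   Spec.mk (nat_lit 12669) (nat_lit 0) [nat_lit 25791, nat_lit 17043, nat_lit 12183, nat_lit 12507, nat_lit 12723, nat_lit 12651, nat_lit 12675, nat_lit 12667] (nat_lit 0) [] false,
   Spec.mk (nat_lit 12673) (nat_lit 1) [nat_lit 25795, nat_lit 17047, nat_lit 12187, nat_lit 12511, nat_lit 12727, nat_lit 12655, nat_lit 12691, nat_lit 12667, nat_lit 12675, nat_lit 32355] (nat_lit 0) [] false,
   Spec.mk (nat_lit 12675) (nat_lit 2) [nat_lit 25797, nat_lit 17049, nat_lit 12189, nat_lit 12513, nat_lit 12729, nat_lit 12657, nat_lit 12693, nat_lit 12669, nat_lit 12681, nat_lit 12673] (nat_lit 0) [] false,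
   Spec.mk (nat_lit 12681) (nat_lit 2) [nat_lit 25803, nat_lit 17055, nat_lit 12195, nat_lit 12519, nat_lit 12735, nat_lit 12699, nat_lit 12675] (nat_lit 0) [] false,
   Spec.mk (nat_lit 12691) (nat_lit 0) [nat_lit 25813, nat_lit 17065, nat_lit 12205, nat_lit 12529, nat_lit 12745, nat_lit 12673, nat_lit 12693, nat_lit 32373] (nat_lit 0) [] false,
   Spec.mk (nat_lit 12693) (nat_lit 0) [nat_lit 25815, nat_lit 17067, nat_lit 12207, nat_lit 12531, nat_lit 12747, nat_lit 12675, nat_lit 12699, nat_lit 12691] (nat_lit 0) [] false,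
   Spec.mk (nat_lit 12699) (nat_lit 2) [nat_lit 25821, nat_lit 17073, nat_lit 12213, nat_lit 12537, nat_lit 12753, nat_lit 12681, nat_lit 12693] (nat_lit 0) [] false,
   Spec.mk (nat_lit 12719) (nat_lit 1) [nat_lit 25841, nat_lit 17093, nat_lit 12233, nat_lit 12557, nat_lit 12881, nat_lit 12665, nat_lit 12721, nat_lit 32401] (nat_lit 0) [] false,
   Spec.mk (nat_lit 12721) (nat_lit 2) [nat_lit 25843, nat_lit 17095, nat_lit 12235, nat_lit 12559, nat_lit 12883, nat_lit 12667, nat_lit 12727, nat_lit 12719, nat_lit 12723, nat_lit 32403] (nat_lit 0) [] false,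
   Spec.mk (nat_lit 12723) (nat_lit 1) [nat_lit 25845, nat_lit 17097, nat_lit 12237, nat_lit 12561, nat_lit 12885, nat_lit 12669, nat_lit 12729, nat_lit 12721] (nat_lit 0) [] false,
   Spec.mk (nat_lit 12727) (nat_lit 1) [nat_lit 25849, nat_lit 17101, nat_lit 12241, nat_lit 12565, nat_lit 12889, nat_lit 12673, nat_lit 12745, nat_lit 12721, nat_lit 12729, nat_lit 32409] (nat_lit 0) [] false,
   Spec.mk (nat_lit 12729) (nat_lit 2) [nat_lit 25851, nat_lit 17103, nat_lit 12243, nat_lit 12567, nat_lit 12891, nat_lit 12675, nat_lit 12747, nat_lit 12723, nat_lit 12735, nat_lit 12727] (nat_lit 0) [] false,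
   Spec.mk (nat_lit 12735) (nat_lit 1) [nat_lit 25857, nat_lit 17109, nat_lit 12249, nat_lit 12573, nat_lit 12897, nat_lit 12681, nat_lit 12753, nat_lit 12729] (nat_lit 0) [] false]

noncomputable def sp35 : List Spec :=
  [Spec.mk (nat_lit 12745) (nat_lit 2) [nat_lit 25867, nat_lit 17119, nat_lit 12259, nat_lit 12583, nat_lit 12907, nat_lit 12691, nat_lit 12799, nat_lit 12727, nat_lit 12747, nat_lit 32427] (nat_lit 0) [] false,
   Spec.mk (nat_lit 12747) (nat_lit 2) [nat_lit 25869, nat_lit 17121, nat_lit 12261, nat_lit 12585, nat_lit 12909, nat_lit 12693, nat_lit 12801, nat_lit 12729, nat_lit 12753, nat_lit 12745] (nat_lit 0) [] false,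
   Spec.mk (nat_lit 12753) (nat_lit 3) [nat_lit 25875, nat_lit 17127, nat_lit 12267, nat_lit 12591, nat_lit 12915, nat_lit 12699, nat_lit 12807, nat_lit 12735, nat_lit 12771, nat_lit 12747] (nat_lit 0) [] false,
   Spec.mk (nat_lit 12771) (nat_lit 3) [nat_lit 25893, nat_lit 17145, nat_lit 12285, nat_lit 12609, nat_lit 12933, nat_lit 12825, nat_lit 12753] (nat_lit 0) [] false,
   Spec.mk (nat_lit 12799) (nat_lit 2) [nat_lit 25921, nat_lit 17173, nat_lit 12313, nat_lit 12961, nat_lit 12745, nat_lit 12801, nat_lit 32481] (nat_lit 0) [] false,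
   Spec.mk (nat_lit 12801) (nat_lit 2) [nat_lit 25923, nat_lit 17175, nat_lit 12315, nat_lit 12963, nat_lit 12747, nat_lit 12807, nat_lit 12799] (nat_lit 0) [] false,
   Spec.mk (nat_lit 12807) (nat_lit 2) [nat_lit 25929, nat_lit 17181, nat_lit 12321, nat_lit 12969, nat_lit 12753, nat_lit 12825, nat_lit 12801] (nat_lit 0) [] false,
   Spec.mk (nat_lit 12825) (nat_lit 4) [nat_lit 25947, nat_lit 17199, nat_lit 12339, nat_lit 12987, nat_lit 12771, nat_lit 12807] (nat_lit 0) [] false,
   Spec.mk (nat_lit 12881) (nat_lit 2) [nat_lit 26003, nat_lit 17255, nat_lit 12719, nat_lit 12883, nat_lit 32563] (nat_lit 0) [] false,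
   Spec.mk (nat_lit 12883) (nat_lit 3) [nat_lit 26005, nat_lit 17257, nat_lit 12721, nat_lit 12889, nat_lit 12881, nat_lit 12885, nat_lit 32565] (nat_lit 0) [] false,
   Spec.mk (nat_lit 12885) (nat_lit 2) [nat_lit 26007, nat_lit 17259, nat_lit 12723, nat_lit 12891, nat_lit 12883] (nat_lit 0) [] false,
   Spec.mk (nat_lit 12889) (nat_lit 2) [nat_lit 26011, nat_lit 17263, nat_lit 12727, nat_lit 12907, nat_lit 12883, nat_lit 12891, nat_lit 32571] (nat_lit 0) [] false,
   Spec.mk (nat_lit 12891) (nat_lit 3) [nat_lit 26013, nat_lit 17265, nat_lit 12729, nat_lit 12909, nat_lit 12885, nat_lit 12897, nat_lit 12889] (nat_lit 0) [] false,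
   Spec.mk (nat_lit 12897) (nat_lit 2) [nat_lit 26019, nat_lit 17271, nat_lit 12735, nat_lit 12915, nat_lit 12891] (nat_lit 0) [] false,
   Spec.mk (nat_lit 12907) (nat_lit 2) [nat_lit 26029, nat_lit 17281, nat_lit 12745, nat_lit 12961, nat_lit 12889, nat_lit 12909, nat_lit 32589] (nat_lit 0) [] false,
   Spec.mk (nat_lit 12909) (nat_lit 2) [nat_lit 26031, nat_lit 17283, nat_lit 12747, nat_lit 12963, nat_lit 12891, nat_lit 12915, nat_lit 12907] (nat_lit 0) [] false,
   Spec.mk (nat_lit 12915) (nat_lit 3) [nat_lit 26037, nat_lit 17289, nat_lit 12753, nat_lit 12969, nat_lit 12897, nat_lit 12933, nat_lit 12909] (nat_lit 0) [] false,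
   Spec.mk (nat_lit 12933) (nat_lit 2) [nat_lit 26055, nat_lit 17307, nat_lit 12771, nat_lit 12987, nat_lit 12915] (nat_lit 0) [] false,
   Spec.mk (nat_lit 12961) (nat_lit 4) [nat_lit 26083, nat_lit 17335, nat_lit 12799, nat_lit 12907, nat_lit 12963, nat_lit 32643] (nat_lit 0) [] false,
   Spec.mk (nat_lit 12963) (nat_lit 4) [nat_lit 26085, nat_lit 17337, nat_lit 12801, nat_lit 12909, nat_lit 12969, nat_lit 12961] (nat_lit 0) [] false,
   Spec.mk (nat_lit 12969) (nat_lit 4) [nat_lit 26091, nat_lit 17343, nat_lit 12807, nat_lit 12915, nat_lit 12987, nat_lit 12963] (nat_lit 0) [] false,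
   Spec.mk (nat_lit 12987) (nat_lit 5) [nat_lit 26109, nat_lit 17361, nat_lit 12825, nat_lit 12933, nat_lit 13041, nat_lit 12969] (nat_lit 0) [] false,
   Spec.mk (nat_lit 13041) (nat_lit 6) [nat_lit 26163, nat_lit 17415, nat_lit 12987] (nat_lit 0) [] false,
   Spec.mk (nat_lit 13175) (nat_lit 2) [nat_lit 26297, nat_lit 8801, nat_lit 13229, nat_lit 13193, nat_lit 32857] (nat_lit 0) [] false,
   Spec.mk (nat_lit 13193) (nat_lit 0) [nat_lit 26315, nat_lit 8819, nat_lit 13247, nat_lit 13175, nat_lit 13199, nat_lit 32875] (nat_lit 0) [] false,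
   Spec.mk (nat_lit 13199) (nat_lit 0) [nat_lit 26321, nat_lit 8825, nat_lit 13253, nat_lit 13193, nat_lit 13201, nat_lit 32881] (nat_lit 0) [] false,
   Spec.mk (nat_lit 13201) (nat_lit 2) [nat_lit 26323, nat_lit 8827, nat_lit 13255, nat_lit 13199, nat_lit 32883] (nat_lit 0) [] false,
   Spec.mk (nat_lit 13229) (nat_lit 0) [nat_lit 26351, nat_lit 8855, nat_lit 13391, nat_lit 13175, nat_lit 13247, nat_lit 32911] (nat_lit 0) [] false,
   Spec.mk (nat_lit 13247) (nat_lit 0) [nat_lit 26369, nat_lit 8873, nat_lit 13409, nat_lit 13193, nat_lit 13301, nat_lit 13229, nat_lit 13265, nat_lit 13253, nat_lit 32929] (nat_lit 0) [] false,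
   Spec.mk (nat_lit 13253) (nat_lit 0) [nat_lit 26375, nat_lit 8879, nat_lit 13415, nat_lit 13199, nat_lit 13307, nat_lit 13271, nat_lit 13247, nat_lit 13255, nat_lit 32935] (nat_lit 1) [] false,
   Spec.mk (nat_lit 13255) (nat_lit 1) [nat_lit 26377, nat_lit 8881, nat_lit 13417, nat_lit 13201, nat_lit 13309, nat_lit 13273, nat_lit 13253, nat_lit 32937] (nat_lit 0) [] false,
   Spec.mk (nat_lit 13265) (nat_lit 0) [nat_lit 26387, nat_lit 8891, nat_lit 13427, nat_lit 13319, nat_lit 13247, nat_lit 13271, nat_lit 32947] (nat_lit 2) [] false,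
   Spec.mk (nat_lit 13271) (nat_lit 0) [nat_lit 26393, nat_lit 8897, nat_lit 13433, nat_lit 13325, nat_lit 13253, nat_lit 13265, nat_lit 13277, nat_lit 13273, nat_lit 32953] (nat_lit 1) [] false,
   Spec.mk (nat_lit 13273) (nat_lit 0) [nat_lit 26395, nat_lit 8899, nat_lit 13435, nat_lit 13327, nat_lit 13255, nat_lit 13279, nat_lit 13271, nat_lit 32955] (nat_lit 0) [] false,
   Spec.mk (nat_lit 13277) (nat_lit 0) [nat_lit 26399, nat_lit 8903, nat_lit 13439, nat_lit 13331, nat_lit 13271, nat_lit 13279, nat_lit 32959] (nat_lit 2) [] false,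
   Spec.mk (nat_lit 13279) (nat_lit 1) [nat_lit 26401, nat_lit 8905, nat_lit 13441, nat_lit 13333, nat_lit 13273, nat_lit 13277, nat_lit 13281, nat_lit 32961] (nat_lit 0) [] false,
   Spec.mk (nat_lit 13281) (nat_lit 2) [nat_lit 26403, nat_lit 8907, nat_lit 13443, nat_lit 13335, nat_lit 13279] (nat_lit 0) [] false,
   Spec.mk (nat_lit 13301) (nat_lit 0) [nat_lit 26423, nat_lit 8927, nat_lit 13463, nat_lit 13247, nat_lit 13319, nat_lit 13307, nat_lit 32983] (nat_lit 2) [] false,
   Spec.mk (nat_lit 13307) (nat_lit 0) [nat_lit 26429, nat_lit 8933, nat_lit 13469, nat_lit 13253, nat_lit 13325, nat_lit 13301, nat_lit 13309, nat_lit 32989] (nat_lit 4) [] false,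
   Spec.mk (nat_lit 13309) (nat_lit 0) [nat_lit 26431, nat_lit 8935, nat_lit 13471, nat_lit 13255, nat_lit 13327, nat_lit 13307, nat_lit 32991] (nat_lit 2) [] false,
   Spec.mk (nat_lit 13319) (nat_lit 0) [nat_lit 26441, nat_lit 8945, nat_lit 13481, nat_lit 13265, nat_lit 13301, nat_lit 13325, nat_lit 33001] (nat_lit 2) [] false,
   Spec.mk (nat_lit 13325) (nat_lit 0) [nat_lit 26447, nat_lit 8951, nat_lit 13487, nat_lit 13271, nat_lit 13307, nat_lit 13343, nat_lit 13319, nat_lit 13331, nat_lit 13327, nat_lit 33007] (nat_lit 2) [] false,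
   Spec.mk (nat_lit 13327) (nat_lit 0) [nat_lit 26449, nat_lit 8953, nat_lit 13489, nat_lit 13273, nat_lit 13309, nat_lit 13345, nat_lit 13333, nat_lit 13325, nat_lit 33009] (nat_lit 1) [] false,
   Spec.mk (nat_lit 13331) (nat_lit 0) [nat_lit 26453, nat_lit 8957, nat_lit 13493, nat_lit 13277, nat_lit 13349, nat_lit 13325, nat_lit 13333, nat_lit 33013] (nat_lit 4) [] false,
   Spec.mk (nat_lit 13333) (nat_lit 0) [nat_lit 26455, nat_lit 8959, nat_lit 13495, nat_lit 13279, nat_lit 13351, nat_lit 13327, nat_lit 13331, nat_lit 13335, nat_lit 33015] (nat_lit 1) [] false,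
   Spec.mk (nat_lit 13335) (nat_lit 0) [nat_lit 26457, nat_lit 8961, nat_lit 13497, nat_lit 13281, nat_lit 13353, nat_lit 13333] (nat_lit 0) [] false,
   Spec.mk (nat_lit 13343) (nat_lit 0) [nat_lit 26465, nat_lit 8969, nat_lit 13505, nat_lit 13325, nat_lit 13349, nat_lit 13345, nat_lit 33025] (nat_lit 2) [] false,
   Spec.mk (nat_lit 13345) (nat_lit 0) [nat_lit 26467, nat_lit 8971, nat_lit 13507, nat_lit 13327, nat_lit 13351, nat_lit 13343, nat_lit 33027] (nat_lit 2) [] false,
   Spec.mk (nat_lit 13349) (nat_lit 0) [nat_lit 26471, nat_lit 8975, nat_lit 13511, nat_lit 13331, nat_lit 13343, nat_lit 13351, nat_lit 33031] (nat_lit 2) [] false,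
   Spec.mk (nat_lit 13351) (nat_lit 0) [nat_lit 26473, nat_lit 8977, nat_lit 13513, nat_lit 13333, nat_lit 13345, nat_lit 13357, nat_lit 13349, nat_lit 13353, nat_lit 33033] (nat_lit 0) [] false,
   Spec.mk (nat_lit 13353) (nat_lit 0) [nat_lit 26475, nat_lit 8979, nat_lit 13515, nat_lit 13335, nat_lit 13359, nat_lit 13351] (nat_lit 0) [] false,
   Spec.mk (nat_lit 13357) (nat_lit 0) [nat_lit 26479, nat_lit 8983, nat_lit 13519, nat_lit 13351, nat_lit 13359, nat_lit 33039] (nat_lit 0) [] false,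
   Spec.mk (nat_lit 13359) (nat_lit 2) [nat_lit 26481, nat_lit 8985, nat_lit 13521, nat_lit 13353, nat_lit 13357] (nat_lit 0) [] false,
   Spec.mk (nat_lit 13391) (nat_lit 0) [nat_lit 26513, nat_lit 9017, nat_lit 13877, nat_lit 13229, nat_lit 13409, nat_lit 33073] (nat_lit 0) [] false,
   Spec.mk (nat_lit 13409) (nat_lit 0) [nat_lit 26531, nat_lit 9035, nat_lit 13895, nat_lit 13247, nat_lit 13463, nat_lit 13391, nat_lit 13427, nat_lit 13415, nat_lit 33091] (nat_lit 1) [] false,
   Spec.mk (nat_lit 13415) (nat_lit 0) [nat_lit 26537, nat_lit 9041, nat_lit 13901, nat_lit 13253, nat_lit 13469, nat_lit 13433, nat_lit 13409, nat_lit 13417, nat_lit 33097] (nat_lit 2) [] false,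
   Spec.mk (nat_lit 13417) (nat_lit 0) [nat_lit 26539, nat_lit 9043, nat_lit 13903, nat_lit 13255, nat_lit 13471, nat_lit 13435, nat_lit 13415, nat_lit 33099] (nat_lit 0) [] false,
   Spec.mk (nat_lit 13427) (nat_lit 0) [nat_lit 26549, nat_lit 9053, nat_lit 13913, nat_lit 13265, nat_lit 13481, nat_lit 13409, nat_lit 13433, nat_lit 33109] (nat_lit 4) [] false,
   Spec.mk (nat_lit 13433) (nat_lit 0) [nat_lit 26555, nat_lit 9059, nat_lit 13919, nat_lit 13271, nat_lit 13487, nat_lit 13415, nat_lit 13427, nat_lit 13439, nat_lit 13435, nat_lit 33115] (nat_lit 3) [] false,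
   Spec.mk (nat_lit 13435) (nat_lit 0) [nat_lit 26557, nat_lit 9061, nat_lit 13921, nat_lit 13273, nat_lit 13489, nat_lit 13417, nat_lit 13441, nat_lit 13433, nat_lit 33117] (nat_lit 2) [] false]

noncomputable def sp36 : List Spec :=
  [Spec.mk (nat_lit 13439) (nat_lit 0) [nat_lit 26561, nat_lit 9065, nat_lit 13925, nat_lit 13277, nat_lit 13493, nat_lit 13433, nat_lit 13441, nat_lit 33121] (nat_lit 4) [] false,
   Spec.mk (nat_lit 13441) (nat_lit 0) [nat_lit 26563, nat_lit 9067, nat_lit 13927, nat_lit 13279, nat_lit 13495, nat_lit 13435, nat_lit 13439, nat_lit 13443, nat_lit 33123] (nat_lit 1) [] false,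
   Spec.mk (nat_lit 13443) (nat_lit 0) [nat_lit 26565, nat_lit 9069, nat_lit 13929, nat_lit 13281, nat_lit 13497, nat_lit 13441] (nat_lit 0) [] false,
   Spec.mk (nat_lit 13463) (nat_lit 0) [nat_lit 26585, nat_lit 9089, nat_lit 13949, nat_lit 13301, nat_lit 13625, nat_lit 13409, nat_lit 13481, nat_lit 13469, nat_lit 33145] (nat_lit 1) [] false,
   Spec.mk (nat_lit 13469) (nat_lit 0) [nat_lit 26591, nat_lit 9095, nat_lit 13955, nat_lit 13307, nat_lit 13631, nat_lit 13415, nat_lit 13487, nat_lit 13463, nat_lit 13471, nat_lit 33151] (nat_lit 3) [] false,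
   Spec.mk (nat_lit 13471) (nat_lit 0) [nat_lit 26593, nat_lit 9097, nat_lit 13957, nat_lit 13309, nat_lit 13633, nat_lit 13417, nat_lit 13489, nat_lit 13469, nat_lit 33153] (nat_lit 1) [] false,
   Spec.mk (nat_lit 13481) (nat_lit 0) [nat_lit 26603, nat_lit 9107, nat_lit 13967, nat_lit 13319, nat_lit 13643, nat_lit 13427, nat_lit 13535, nat_lit 13463, nat_lit 13487, nat_lit 33163] (nat_lit 2) [] false,
   Spec.mk (nat_lit 13487) (nat_lit 0) [nat_lit 26609, nat_lit 9113, nat_lit 13973, nat_lit 13325, nat_lit 13649, nat_lit 13433, nat_lit 13541, nat_lit 13469, nat_lit 13505, nat_lit 13481, nat_lit 13493, nat_lit 13489, nat_lit 33169] (nat_lit 2) [] false,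
   Spec.mk (nat_lit 13489) (nat_lit 0) [nat_lit 26611, nat_lit 9115, nat_lit 13975, nat_lit 13327, nat_lit 13651, nat_lit 13435, nat_lit 13543, nat_lit 13471, nat_lit 13507, nat_lit 13495, nat_lit 13487, nat_lit 33171] (nat_lit 1) [] false,
   Spec.mk (nat_lit 13493) (nat_lit 0) [nat_lit 26615, nat_lit 9119, nat_lit 13979, nat_lit 13331, nat_lit 13655, nat_lit 13439, nat_lit 13547, nat_lit 13511, nat_lit 13487, nat_lit 13495, nat_lit 33175] (nat_lit 4) [] false,
   Spec.mk (nat_lit 13495) (nat_lit 0) [nat_lit 26617, nat_lit 9121, nat_lit 13981, nat_lit 13333, nat_lit 13657, nat_lit 13441, nat_lit 13549, nat_lit 13513, nat_lit 13489, nat_lit 13493, nat_lit 13497, nat_lit 33177] (nat_lit 1) [] false,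
   Spec.mk (nat_lit 13497) (nat_lit 0) [nat_lit 26619, nat_lit 9123, nat_lit 13983, nat_lit 13335, nat_lit 13659, nat_lit 13443, nat_lit 13551, nat_lit 13515, nat_lit 13495] (nat_lit 0) [] false,
   Spec.mk (nat_lit 13505) (nat_lit 0) [nat_lit 26627, nat_lit 9131, nat_lit 13991, nat_lit 13343, nat_lit 13667, nat_lit 13559, nat_lit 13487, nat_lit 13511, nat_lit 13507, nat_lit 33187] (nat_lit 3) [] false,
   Spec.mk (nat_lit 13507) (nat_lit 0) [nat_lit 26629, nat_lit 9133, nat_lit 13993, nat_lit 13345, nat_lit 13669, nat_lit 13561, nat_lit 13489, nat_lit 13513, nat_lit 13505, nat_lit 33189] (nat_lit 3) [] false,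
   Spec.mk (nat_lit 13511) (nat_lit 0) [nat_lit 26633, nat_lit 9137, nat_lit 13997, nat_lit 13349, nat_lit 13673, nat_lit 13565, nat_lit 13493, nat_lit 13505, nat_lit 13513, nat_lit 33193] (nat_lit 3) [] false,
   Spec.mk (nat_lit 13513) (nat_lit 0) [nat_lit 26635, nat_lit 9139, nat_lit 13999, nat_lit 13351, nat_lit 13675, nat_lit 13567, nat_lit 13495, nat_lit 13507, nat_lit 13519, nat_lit 13511, nat_lit 13515, nat_lit 33195] (nat_lit 1) [] false,
   Spec.mk (nat_lit 13515) (nat_lit 0) [nat_lit 26637, nat_lit 9141, nat_lit 14001, nat_lit 13353, nat_lit 13677, nat_lit 13569, nat_lit 13497, nat_lit 13521, nat_lit 13513] (nat_lit 1) [] false,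
   Spec.mk (nat_lit 13519) (nat_lit 0) [nat_lit 26641, nat_lit 9145, nat_lit 14005, nat_lit 13357, nat_lit 13681, nat_lit 13573, nat_lit 13513, nat_lit 13521, nat_lit 33201] (nat_lit 1) [] false,
   Spec.mk (nat_lit 13521) (nat_lit 1) [nat_lit 26643, nat_lit 9147, nat_lit 14007, nat_lit 13359, nat_lit 13683, nat_lit 13575, nat_lit 13515, nat_lit 13519] (nat_lit 0) [] false,
   Spec.mk (nat_lit 13535) (nat_lit 0) [nat_lit 26657, nat_lit 9161, nat_lit 14021, nat_lit 13697, nat_lit 13481, nat_lit 13541, nat_lit 33217] (nat_lit 2) [] false,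
   Spec.mk (nat_lit 13541) (nat_lit 0) [nat_lit 26663, nat_lit 9167, nat_lit 14027, nat_lit 13703, nat_lit 13487, nat_lit 13559, nat_lit 13535, nat_lit 13547, nat_lit 13543, nat_lit 33223] (nat_lit 3) [] false,
   Spec.mk (nat_lit 13543) (nat_lit 0) [nat_lit 26665, nat_lit 9169, nat_lit 14029, nat_lit 13705, nat_lit 13489, nat_lit 13561, nat_lit 13549, nat_lit 13541, nat_lit 33225] (nat_lit 2) [] false,
   Spec.mk (nat_lit 13547) (nat_lit 0) [nat_lit 26669, nat_lit 9173, nat_lit 14033, nat_lit 13709, nat_lit 13493, nat_lit 13565, nat_lit 13541, nat_lit 13549, nat_lit 33229] (nat_lit 6) [] false,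
   Spec.mk (nat_lit 13549) (nat_lit 0) [nat_lit 26671, nat_lit 9175, nat_lit 14035, nat_lit 13711, nat_lit 13495, nat_lit 13567, nat_lit 13543, nat_lit 13547, nat_lit 13551, nat_lit 33231] (nat_lit 3) [] false,
   Spec.mk (nat_lit 13551) (nat_lit 0) [nat_lit 26673, nat_lit 9177, nat_lit 14037, nat_lit 13713, nat_lit 13497, nat_lit 13569, nat_lit 13549] (nat_lit 2) [] false,
   Spec.mk (nat_lit 13559) (nat_lit 0) [nat_lit 26681, nat_lit 9185, nat_lit 14045, nat_lit 13721, nat_lit 13505, nat_lit 13541, nat_lit 13565, nat_lit 13561, nat_lit 33241] (nat_lit 2) [] false,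
   Spec.mk (nat_lit 13561) (nat_lit 0) [nat_lit 26683, nat_lit 9187, nat_lit 14047, nat_lit 13723, nat_lit 13507, nat_lit 13543, nat_lit 13567, nat_lit 13559, nat_lit 33243] (nat_lit 2) [] false,
   Spec.mk (nat_lit 13565) (nat_lit 0) [nat_lit 26687, nat_lit 9191, nat_lit 14051, nat_lit 13727, nat_lit 13511, nat_lit 13547, nat_lit 13583, nat_lit 13559, nat_lit 13567, nat_lit 33247] (nat_lit 3) [] false,
   Spec.mk (nat_lit 13567) (nat_lit 0) [nat_lit 26689, nat_lit 9193, nat_lit 14053, nat_lit 13729, nat_lit 13513, nat_lit 13549, nat_lit 13585, nat_lit 13561, nat_lit 13573, nat_lit 13565, nat_lit 13569, nat_lit 33249] (nat_lit 1) [] false,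
   Spec.mk (nat_lit 13569) (nat_lit 0) [nat_lit 26691, nat_lit 9195, nat_lit 14055, nat_lit 13731, nat_lit 13515, nat_lit 13551, nat_lit 13587, nat_lit 13575, nat_lit 13567] (nat_lit 1) [] false,
   Spec.mk (nat_lit 13573) (nat_lit 0) [nat_lit 26695, nat_lit 9199, nat_lit 14059, nat_lit 13735, nat_lit 13519, nat_lit 13591, nat_lit 13567, nat_lit 13575, nat_lit 33255] (nat_lit 2) [] false,
   Spec.mk (nat_lit 13575) (nat_lit 0) [nat_lit 26697, nat_lit 9201, nat_lit 14061, nat_lit 13737, nat_lit 13521, nat_lit 13593, nat_lit 13569, nat_lit 13573] (nat_lit 0) [] false,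
   Spec.mk (nat_lit 13583) (nat_lit 0) [nat_lit 26705, nat_lit 9209, nat_lit 14069, nat_lit 13745, nat_lit 13565, nat_lit 13585, nat_lit 33265] (nat_lit 2) [] false,
   Spec.mk (nat_lit 13585) (nat_lit 0) [nat_lit 26707, nat_lit 9211, nat_lit 14071, nat_lit 13747, nat_lit 13567, nat_lit 13591, nat_lit 13583, nat_lit 13587, nat_lit 33267] (nat_lit 1) [] false,
   Spec.mk (nat_lit 13587) (nat_lit 0) [nat_lit 26709, nat_lit 9213, nat_lit 14073, nat_lit 13749, nat_lit 13569, nat_lit 13593, nat_lit 13585] (nat_lit 2) [] false,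
   Spec.mk (nat_lit 13591) (nat_lit 0) [nat_lit 26713, nat_lit 9217, nat_lit 14077, nat_lit 13753, nat_lit 13573, nat_lit 13585, nat_lit 13593, nat_lit 33273] (nat_lit 0) [] false,
   Spec.mk (nat_lit 13593) (nat_lit 1) [nat_lit 26715, nat_lit 9219, nat_lit 14079, nat_lit 13755, nat_lit 13575, nat_lit 13587, nat_lit 13599, nat_lit 13591] (nat_lit 0) [] false,
   Spec.mk (nat_lit 13599) (nat_lit 2) [nat_lit 26721, nat_lit 9225, nat_lit 14085, nat_lit 13761, nat_lit 13593] (nat_lit 0) [] false,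
   Spec.mk (nat_lit 13625) (nat_lit 0) [nat_lit 26747, nat_lit 9251, nat_lit 14111, nat_lit 13463, nat_lit 13643, nat_lit 13631, nat_lit 33307] (nat_lit 2) [] false,
   Spec.mk (nat_lit 13631) (nat_lit 0) [nat_lit 26753, nat_lit 9257, nat_lit 14117, nat_lit 13469, nat_lit 13649, nat_lit 13625, nat_lit 13633, nat_lit 33313] (nat_lit 4) [] false,
   Spec.mk (nat_lit 13633) (nat_lit 0) [nat_lit 26755, nat_lit 9259, nat_lit 14119, nat_lit 13471, nat_lit 13651, nat_lit 13631, nat_lit 33315] (nat_lit 2) [] false,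
   Spec.mk (nat_lit 13643) (nat_lit 0) [nat_lit 26765, nat_lit 9269, nat_lit 14129, nat_lit 13481, nat_lit 13697, nat_lit 13625, nat_lit 13649, nat_lit 33325] (nat_lit 4) [] false,
   Spec.mk (nat_lit 13649) (nat_lit 0) [nat_lit 26771, nat_lit 9275, nat_lit 14135, nat_lit 13487, nat_lit 13703, nat_lit 13631, nat_lit 13667, nat_lit 13643, nat_lit 13655, nat_lit 13651, nat_lit 33331] (nat_lit 4) [] false,
   Spec.mk (nat_lit 13651) (nat_lit 0) [nat_lit 26773, nat_lit 9277, nat_lit 14137, nat_lit 13489, nat_lit 13705, nat_lit 13633, nat_lit 13669, nat_lit 13657, nat_lit 13649, nat_lit 33333] (nat_lit 3) [] false,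
   Spec.mk (nat_lit 13655) (nat_lit 0) [nat_lit 26777, nat_lit 9281, nat_lit 14141, nat_lit 13493, nat_lit 13709, nat_lit 13673, nat_lit 13649, nat_lit 13657, nat_lit 33337] (nat_lit 6) [] false,
   Spec.mk (nat_lit 13657) (nat_lit 0) [nat_lit 26779, nat_lit 9283, nat_lit 14143, nat_lit 13495, nat_lit 13711, nat_lit 13675, nat_lit 13651, nat_lit 13655, nat_lit 13659, nat_lit 33339] (nat_lit 3) [] false,
   Spec.mk (nat_lit 13659) (nat_lit 0) [nat_lit 26781, nat_lit 9285, nat_lit 14145, nat_lit 13497, nat_lit 13713, nat_lit 13677, nat_lit 13657] (nat_lit 2) [] false,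
   Spec.mk (nat_lit 13667) (nat_lit 0) [nat_lit 26789, nat_lit 9293, nat_lit 14153, nat_lit 13505, nat_lit 13721, nat_lit 13649, nat_lit 13673, nat_lit 13669, nat_lit 33349] (nat_lit 6) [] false,
   Spec.mk (nat_lit 13669) (nat_lit 0) [nat_lit 26791, nat_lit 9295, nat_lit 14155, nat_lit 13507, nat_lit 13723, nat_lit 13651, nat_lit 13675, nat_lit 13667, nat_lit 33351] (nat_lit 6) [] false,
   Spec.mk (nat_lit 13673) (nat_lit 0) [nat_lit 26795, nat_lit 9299, nat_lit 14159, nat_lit 13511, nat_lit 13727, nat_lit 13655, nat_lit 13667, nat_lit 13675, nat_lit 33355] (nat_lit 6) [] false,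
   Spec.mk (nat_lit 13675) (nat_lit 0) [nat_lit 26797, nat_lit 9301, nat_lit 14161, nat_lit 13513, nat_lit 13729, nat_lit 13657, nat_lit 13669, nat_lit 13681, nat_lit 13673, nat_lit 13677, nat_lit 33357] (nat_lit 4) [] false,
   Spec.mk (nat_lit 13677) (nat_lit 0) [nat_lit 26799, nat_lit 9303, nat_lit 14163, nat_lit 13515, nat_lit 13731, nat_lit 13659, nat_lit 13683, nat_lit 13675] (nat_lit 4) [] false,
   Spec.mk (nat_lit 13681) (nat_lit 0) [nat_lit 26803, nat_lit 9307, nat_lit 14167, nat_lit 13519, nat_lit 13735, nat_lit 13675, nat_lit 13683, nat_lit 33363] (nat_lit 4) [] false,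
   Spec.mk (nat_lit 13683) (nat_lit 0) [nat_lit 26805, nat_lit 9309, nat_lit 14169, nat_lit 13521, nat_lit 13737, nat_lit 13677, nat_lit 13681] (nat_lit 2) [] false,
   Spec.mk (nat_lit 13697) (nat_lit 0) [nat_lit 26819, nat_lit 9323, nat_lit 14183, nat_lit 13535, nat_lit 13643, nat_lit 13703, nat_lit 33379] (nat_lit 2) [] false,
   Spec.mk (nat_lit 13703) (nat_lit 0) [nat_lit 26825, nat_lit 9329, nat_lit 14189, nat_lit 13541, nat_lit 13649, nat_lit 13721, nat_lit 13697, nat_lit 13709, nat_lit 13705, nat_lit 33385] (nat_lit 3) [] false,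
   Spec.mk (nat_lit 13705) (nat_lit 0) [nat_lit 26827, nat_lit 9331, nat_lit 14191, nat_lit 13543, nat_lit 13651, nat_lit 13723, nat_lit 13711, nat_lit 13703, nat_lit 33387] (nat_lit 2) [] false,
   Spec.mk (nat_lit 13709) (nat_lit 0) [nat_lit 26831, nat_lit 9335, nat_lit 14195, nat_lit 13547, nat_lit 13655, nat_lit 13727, nat_lit 13703, nat_lit 13711, nat_lit 33391] (nat_lit 6) [] false,
   Spec.mk (nat_lit 13711) (nat_lit 0) [nat_lit 26833, nat_lit 9337, nat_lit 14197, nat_lit 13549, nat_lit 13657, nat_lit 13729, nat_lit 13705, nat_lit 13709, nat_lit 13713, nat_lit 33393] (nat_lit 3) [] false,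
   Spec.mk (nat_lit 13713) (nat_lit 0) [nat_lit 26835, nat_lit 9339, nat_lit 14199, nat_lit 13551, nat_lit 13659, nat_lit 13731, nat_lit 13711] (nat_lit 2) [] false]

noncomputable def sp37 : List Spec :=
  [Spec.mk (nat_lit 13721) (nat_lit 0) [nat_lit 26843, nat_lit 9347, nat_lit 14207, nat_lit 13559, nat_lit 13667, nat_lit 13775, nat_lit 13703, nat_lit 13727, nat_lit 13723, nat_lit 33403] (nat_lit 3) [] false,
   Spec.mk (nat_lit 13723) (nat_lit 0) [nat_lit 26845, nat_lit 9349, nat_lit 14209, nat_lit 13561, nat_lit 13669, nat_lit 13777, nat_lit 13705, nat_lit 13729, nat_lit 13721, nat_lit 33405] (nat_lit 3) [] false,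
   Spec.mk (nat_lit 13727) (nat_lit 0) [nat_lit 26849, nat_lit 9353, nat_lit 14213, nat_lit 13565, nat_lit 13673, nat_lit 13781, nat_lit 13709, nat_lit 13745, nat_lit 13721, nat_lit 13729, nat_lit 33409] (nat_lit 4) [] false,
   Spec.mk (nat_lit 13729) (nat_lit 0) [nat_lit 26851, nat_lit 9355, nat_lit 14215, nat_lit 13567, nat_lit 13675, nat_lit 13783, nat_lit 13711, nat_lit 13747, nat_lit 13723, nat_lit 13735, nat_lit 13727, nat_lit 13731, nat_lit 33411] (nat_lit 2) [] false,
   Spec.mk (nat_lit 13731) (nat_lit 0) [nat_lit 26853, nat_lit 9357, nat_lit 14217, nat_lit 13569, nat_lit 13677, nat_lit 13785, nat_lit 13713, nat_lit 13749, nat_lit 13737, nat_lit 13729] (nat_lit 2) [] false,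
   Spec.mk (nat_lit 13735) (nat_lit 0) [nat_lit 26857, nat_lit 9361, nat_lit 14221, nat_lit 13573, nat_lit 13681, nat_lit 13789, nat_lit 13753, nat_lit 13729, nat_lit 13737, nat_lit 33417] (nat_lit 3) [] false,
   Spec.mk (nat_lit 13737) (nat_lit 0) [nat_lit 26859, nat_lit 9363, nat_lit 14223, nat_lit 13575, nat_lit 13683, nat_lit 13791, nat_lit 13755, nat_lit 13731, nat_lit 13735] (nat_lit 1) [] false,
   Spec.mk (nat_lit 13745) (nat_lit 0) [nat_lit 26867, nat_lit 9371, nat_lit 14231, nat_lit 13583, nat_lit 13799, nat_lit 13727, nat_lit 13747, nat_lit 33427] (nat_lit 4) [] false,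
   Spec.mk (nat_lit 13747) (nat_lit 0) [nat_lit 26869, nat_lit 9373, nat_lit 14233, nat_lit 13585, nat_lit 13801, nat_lit 13729, nat_lit 13753, nat_lit 13745, nat_lit 13749, nat_lit 33429] (nat_lit 3) [] false,
   Spec.mk (nat_lit 13749) (nat_lit 0) [nat_lit 26871, nat_lit 9375, nat_lit 14235, nat_lit 13587, nat_lit 13803, nat_lit 13731, nat_lit 13755, nat_lit 13747] (nat_lit 4) [] false,
   Spec.mk (nat_lit 13753) (nat_lit 0) [nat_lit 26875, nat_lit 9379, nat_lit 14239, nat_lit 13591, nat_lit 13807, nat_lit 13735, nat_lit 13747, nat_lit 13755, nat_lit 33435] (nat_lit 2) [] false,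
   Spec.mk (nat_lit 13755) (nat_lit 0) [nat_lit 26877, nat_lit 9381, nat_lit 14241, nat_lit 13593, nat_lit 13809, nat_lit 13737, nat_lit 13749, nat_lit 13761, nat_lit 13753] (nat_lit 1) [] false,
   Spec.mk (nat_lit 13761) (nat_lit 0) [nat_lit 26883, nat_lit 9387, nat_lit 14247, nat_lit 13599, nat_lit 13815, nat_lit 13755] (nat_lit 0) [] false,
   Spec.mk (nat_lit 13775) (nat_lit 0) [nat_lit 26897, nat_lit 9401, nat_lit 14261, nat_lit 13721, nat_lit 13781, nat_lit 13777, nat_lit 33457] (nat_lit 2) [] false,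
   Spec.mk (nat_lit 13777) (nat_lit 0) [nat_lit 26899, nat_lit 9403, nat_lit 14263, nat_lit 13723, nat_lit 13783, nat_lit 13775, nat_lit 33459] (nat_lit 2) [] false,
   Spec.mk (nat_lit 13781) (nat_lit 0) [nat_lit 26903, nat_lit 9407, nat_lit 14267, nat_lit 13727, nat_lit 13799, nat_lit 13775, nat_lit 13783, nat_lit 33463] (nat_lit 4) [] false,
   Spec.mk (nat_lit 13783) (nat_lit 0) [nat_lit 26905, nat_lit 9409, nat_lit 14269, nat_lit 13729, nat_lit 13801, nat_lit 13777, nat_lit 13789, nat_lit 13781, nat_lit 13785, nat_lit 33465] (nat_lit 2) [] false,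
   Spec.mk (nat_lit 13785) (nat_lit 0) [nat_lit 26907, nat_lit 9411, nat_lit 14271, nat_lit 13731, nat_lit 13803, nat_lit 13791, nat_lit 13783] (nat_lit 2) [] false,
   Spec.mk (nat_lit 13789) (nat_lit 0) [nat_lit 26911, nat_lit 9415, nat_lit 14275, nat_lit 13735, nat_lit 13807, nat_lit 13783, nat_lit 13791, nat_lit 33471] (nat_lit 4) [] false,
   Spec.mk (nat_lit 13791) (nat_lit 0) [nat_lit 26913, nat_lit 9417, nat_lit 14277, nat_lit 13737, nat_lit 13809, nat_lit 13785, nat_lit 13789] (nat_lit 2) [] false,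
   Spec.mk (nat_lit 13799) (nat_lit 0) [nat_lit 26921, nat_lit 9425, nat_lit 14285, nat_lit 13745, nat_lit 13781, nat_lit 13801, nat_lit 33481] (nat_lit 2) [] false,
   Spec.mk (nat_lit 13801) (nat_lit 0) [nat_lit 26923, nat_lit 9427, nat_lit 14287, nat_lit 13747, nat_lit 13783, nat_lit 13807, nat_lit 13799, nat_lit 13803, nat_lit 33483] (nat_lit 1) [] false,
   Spec.mk (nat_lit 13803) (nat_lit 0) [nat_lit 26925, nat_lit 9429, nat_lit 14289, nat_lit 13749, nat_lit 13785, nat_lit 13809, nat_lit 13801] (nat_lit 2) [] false,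
   Spec.mk (nat_lit 13807) (nat_lit 0) [nat_lit 26929, nat_lit 9433, nat_lit 14293, nat_lit 13753, nat_lit 13789, nat_lit 13825, nat_lit 13801, nat_lit 13809, nat_lit 33489] (nat_lit 1) [] false,
   Spec.mk (nat_lit 13809) (nat_lit 0) [nat_lit 26931, nat_lit 9435, nat_lit 14295, nat_lit 13755, nat_lit 13791, nat_lit 13827, nat_lit 13803, nat_lit 13815, nat_lit 13807] (nat_lit 0) [] false,
   Spec.mk (nat_lit 13815) (nat_lit 0) [nat_lit 26937, nat_lit 9441, nat_lit 14301, nat_lit 13761, nat_lit 13833, nat_lit 13809] (nat_lit 0) [] false,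
   Spec.mk (nat_lit 13825) (nat_lit 0) [nat_lit 26947, nat_lit 9451, nat_lit 14311, nat_lit 13807, nat_lit 13827, nat_lit 33507] (nat_lit 0) [] false,
   Spec.mk (nat_lit 13827) (nat_lit 0) [nat_lit 26949, nat_lit 9453, nat_lit 14313, nat_lit 13809, nat_lit 13833, nat_lit 13825] (nat_lit 0) [] false,
   Spec.mk (nat_lit 13833) (nat_lit 2) [nat_lit 26955, nat_lit 9459, nat_lit 14319, nat_lit 13815, nat_lit 13827] (nat_lit 0) [] false,
   Spec.mk (nat_lit 13877) (nat_lit 0) [nat_lit 26999, nat_lit 9503, nat_lit 15335, nat_lit 13391, nat_lit 13895, nat_lit 33559] (nat_lit 0) [] false,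
   Spec.mk (nat_lit 13895) (nat_lit 0) [nat_lit 27017, nat_lit 9521, nat_lit 15353, nat_lit 13409, nat_lit 13949, nat_lit 13877, nat_lit 13913, nat_lit 13901, nat_lit 33577] (nat_lit 1) [] false,
   Spec.mk (nat_lit 13901) (nat_lit 0) [nat_lit 27023, nat_lit 9527, nat_lit 15359, nat_lit 13415, nat_lit 13955, nat_lit 13919, nat_lit 13895, nat_lit 13903, nat_lit 33583] (nat_lit 2) [] false,
   Spec.mk (nat_lit 13903) (nat_lit 0) [nat_lit 27025, nat_lit 9529, nat_lit 15361, nat_lit 13417, nat_lit 13957, nat_lit 13921, nat_lit 13901, nat_lit 33585] (nat_lit 0) [] false,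
   Spec.mk (nat_lit 13913) (nat_lit 0) [nat_lit 27035, nat_lit 9539, nat_lit 15371, nat_lit 13427, nat_lit 13967, nat_lit 13895, nat_lit 13919, nat_lit 33595] (nat_lit 4) [] false,
   Spec.mk (nat_lit 13919) (nat_lit 0) [nat_lit 27041, nat_lit 9545, nat_lit 15377, nat_lit 13433, nat_lit 13973, nat_lit 13901, nat_lit 13913, nat_lit 13925, nat_lit 13921, nat_lit 33601] (nat_lit 3) [] false,
   Spec.mk (nat_lit 13921) (nat_lit 0) [nat_lit 27043, nat_lit 9547, nat_lit 15379, nat_lit 13435, nat_lit 13975, nat_lit 13903, nat_lit 13927, nat_lit 13919, nat_lit 33603] (nat_lit 2) [] false,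
   Spec.mk (nat_lit 13925) (nat_lit 0) [nat_lit 27047, nat_lit 9551, nat_lit 15383, nat_lit 13439, nat_lit 13979, nat_lit 13919, nat_lit 13927, nat_lit 33607] (nat_lit 4) [] false,
   Spec.mk (nat_lit 13927) (nat_lit 0) [nat_lit 27049, nat_lit 9553, nat_lit 15385, nat_lit 13441, nat_lit 13981, nat_lit 13921, nat_lit 13925, nat_lit 13929, nat_lit 33609] (nat_lit 1) [] false,
   Spec.mk (nat_lit 13929) (nat_lit 0) [nat_lit 27051, nat_lit 9555, nat_lit 15387, nat_lit 13443, nat_lit 13983, nat_lit 13927] (nat_lit 0) [] false,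
   Spec.mk (nat_lit 13949) (nat_lit 0) [nat_lit 27071, nat_lit 9575, nat_lit 15407, nat_lit 13463, nat_lit 14111, nat_lit 13895, nat_lit 13967, nat_lit 13955, nat_lit 33631] (nat_lit 2) [] false,
   Spec.mk (nat_lit 13955) (nat_lit 0) [nat_lit 27077, nat_lit 9581, nat_lit 15413, nat_lit 13469, nat_lit 14117, nat_lit 13901, nat_lit 13973, nat_lit 13949, nat_lit 13957, nat_lit 33637] (nat_lit 4) [] false,
   Spec.mk (nat_lit 13957) (nat_lit 0) [nat_lit 27079, nat_lit 9583, nat_lit 15415, nat_lit 13471, nat_lit 14119, nat_lit 13903, nat_lit 13975, nat_lit 13955, nat_lit 33639] (nat_lit 2) [] false,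
   Spec.mk (nat_lit 13967) (nat_lit 0) [nat_lit 27089, nat_lit 9593, nat_lit 15425, nat_lit 13481, nat_lit 14129, nat_lit 13913, nat_lit 14021, nat_lit 13949, nat_lit 13973, nat_lit 33649] (nat_lit 3) [] false,
   Spec.mk (nat_lit 13973) (nat_lit 0) [nat_lit 27095, nat_lit 9599, nat_lit 15431, nat_lit 13487, nat_lit 14135, nat_lit 13919, nat_lit 14027, nat_lit 13955, nat_lit 13991, nat_lit 13967, nat_lit 13979, nat_lit 13975, nat_lit 33655] (nat_lit 3) [] false,
   Spec.mk (nat_lit 13975) (nat_lit 0) [nat_lit 27097, nat_lit 9601, nat_lit 15433, nat_lit 13489, nat_lit 14137, nat_lit 13921, nat_lit 14029, nat_lit 13957, nat_lit 13993, nat_lit 13981, nat_lit 13973, nat_lit 33657] (nat_lit 2) [] false,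
   Spec.mk (nat_lit 13979) (nat_lit 0) [nat_lit 27101, nat_lit 9605, nat_lit 15437, nat_lit 13493, nat_lit 14141, nat_lit 13925, nat_lit 14033, nat_lit 13997, nat_lit 13973, nat_lit 13981, nat_lit 33661] (nat_lit 5) [] false,
   Spec.mk (nat_lit 13981) (nat_lit 0) [nat_lit 27103, nat_lit 9607, nat_lit 15439, nat_lit 13495, nat_lit 14143, nat_lit 13927, nat_lit 14035, nat_lit 13999, nat_lit 13975, nat_lit 13979, nat_lit 13983, nat_lit 33663] (nat_lit 2) [] false,
   Spec.mk (nat_lit 13983) (nat_lit 0) [nat_lit 27105, nat_lit 9609, nat_lit 15441, nat_lit 13497, nat_lit 14145, nat_lit 13929, nat_lit 14037, nat_lit 14001, nat_lit 13981] (nat_lit 1) [] false,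
   Spec.mk (nat_lit 13991) (nat_lit 0) [nat_lit 27113, nat_lit 9617, nat_lit 15449, nat_lit 13505, nat_lit 14153, nat_lit 14045, nat_lit 13973, nat_lit 13997, nat_lit 13993, nat_lit 33673] (nat_lit 4) [] false,
   Spec.mk (nat_lit 13993) (nat_lit 0) [nat_lit 27115, nat_lit 9619, nat_lit 15451, nat_lit 13507, nat_lit 14155, nat_lit 14047, nat_lit 13975, nat_lit 13999, nat_lit 13991, nat_lit 33675] (nat_lit 4) [] false,
   Spec.mk (nat_lit 13997) (nat_lit 0) [nat_lit 27119, nat_lit 9623, nat_lit 15455, nat_lit 13511, nat_lit 14159, nat_lit 14051, nat_lit 13979, nat_lit 13991, nat_lit 13999, nat_lit 33679] (nat_lit 4) [] false,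
   Spec.mk (nat_lit 13999) (nat_lit 0) [nat_lit 27121, nat_lit 9625, nat_lit 15457, nat_lit 13513, nat_lit 14161, nat_lit 14053, nat_lit 13981, nat_lit 13993, nat_lit 14005, nat_lit 13997, nat_lit 14001, nat_lit 33681] (nat_lit 2) [] false,
   Spec.mk (nat_lit 14001) (nat_lit 0) [nat_lit 27123, nat_lit 9627, nat_lit 15459, nat_lit 13515, nat_lit 14163, nat_lit 14055, nat_lit 13983, nat_lit 14007, nat_lit 13999] (nat_lit 2) [] false,
   Spec.mk (nat_lit 14005) (nat_lit 0) [nat_lit 27127, nat_lit 9631, nat_lit 15463, nat_lit 13519, nat_lit 14167, nat_lit 14059, nat_lit 13999, nat_lit 14007, nat_lit 33687] (nat_lit 2) [] false,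
   Spec.mk (nat_lit 14007) (nat_lit 0) [nat_lit 27129, nat_lit 9633, nat_lit 15465, nat_lit 13521, nat_lit 14169, nat_lit 14061, nat_lit 14001, nat_lit 14005] (nat_lit 0) [] false,
   Spec.mk (nat_lit 14021) (nat_lit 0) [nat_lit 27143, nat_lit 9647, nat_lit 15479, nat_lit 13535, nat_lit 14183, nat_lit 13967, nat_lit 14027, nat_lit 33703] (nat_lit 4) [] false,
   Spec.mk (nat_lit 14027) (nat_lit 0) [nat_lit 27149, nat_lit 9653, nat_lit 15485, nat_lit 13541, nat_lit 14189, nat_lit 13973, nat_lit 14045, nat_lit 14021, nat_lit 14033, nat_lit 14029, nat_lit 33709] (nat_lit 5) [] false,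
   Spec.mk (nat_lit 14029) (nat_lit 0) [nat_lit 27151, nat_lit 9655, nat_lit 15487, nat_lit 13543, nat_lit 14191, nat_lit 13975, nat_lit 14047, nat_lit 14035, nat_lit 14027, nat_lit 33711] (nat_lit 4) [] false,
   Spec.mk (nat_lit 14033) (nat_lit 0) [nat_lit 27155, nat_lit 9659, nat_lit 15491, nat_lit 13547, nat_lit 14195, nat_lit 13979, nat_lit 14051, nat_lit 14027, nat_lit 14035, nat_lit 33715] (nat_lit 8) [] false,
   Spec.mk (nat_lit 14035) (nat_lit 0) [nat_lit 27157, nat_lit 9661, nat_lit 15493, nat_lit 13549, nat_lit 14197, nat_lit 13981, nat_lit 14053, nat_lit 14029, nat_lit 14033, nat_lit 14037, nat_lit 33717] (nat_lit 5) [] false]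

noncomputable def sp38 : List Spec :=
  [Spec.mk (nat_lit 14037) (nat_lit 0) [nat_lit 27159, nat_lit 9663, nat_lit 15495, nat_lit 13551, nat_lit 14199, nat_lit 13983, nat_lit 14055, nat_lit 14035] (nat_lit 4) [] false,
   Spec.mk (nat_lit 14045) (nat_lit 0) [nat_lit 27167, nat_lit 9671, nat_lit 15503, nat_lit 13559, nat_lit 14207, nat_lit 13991, nat_lit 14027, nat_lit 14051, nat_lit 14047, nat_lit 33727] (nat_lit 4) [] false,
   Spec.mk (nat_lit 14047) (nat_lit 0) [nat_lit 27169, nat_lit 9673, nat_lit 15505, nat_lit 13561, nat_lit 14209, nat_lit 13993, nat_lit 14029, nat_lit 14053, nat_lit 14045, nat_lit 33729] (nat_lit 4) [] false,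
   Spec.mk (nat_lit 14051) (nat_lit 0) [nat_lit 27173, nat_lit 9677, nat_lit 15509, nat_lit 13565, nat_lit 14213, nat_lit 13997, nat_lit 14033, nat_lit 14069, nat_lit 14045, nat_lit 14053, nat_lit 33733] (nat_lit 5) [] false,
   Spec.mk (nat_lit 14053) (nat_lit 0) [nat_lit 27175, nat_lit 9679, nat_lit 15511, nat_lit 13567, nat_lit 14215, nat_lit 13999, nat_lit 14035, nat_lit 14071, nat_lit 14047, nat_lit 14059, nat_lit 14051, nat_lit 14055, nat_lit 33735] (nat_lit 3) [] false,
   Spec.mk (nat_lit 14055) (nat_lit 0) [nat_lit 27177, nat_lit 9681, nat_lit 15513, nat_lit 13569, nat_lit 14217, nat_lit 14001, nat_lit 14037, nat_lit 14073, nat_lit 14061, nat_lit 14053] (nat_lit 3) [] false,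
   Spec.mk (nat_lit 14059) (nat_lit 0) [nat_lit 27181, nat_lit 9685, nat_lit 15517, nat_lit 13573, nat_lit 14221, nat_lit 14005, nat_lit 14077, nat_lit 14053, nat_lit 14061, nat_lit 33741] (nat_lit 4) [] false,
   Spec.mk (nat_lit 14061) (nat_lit 0) [nat_lit 27183, nat_lit 9687, nat_lit 15519, nat_lit 13575, nat_lit 14223, nat_lit 14007, nat_lit 14079, nat_lit 14055, nat_lit 14059] (nat_lit 2) [] false,
   Spec.mk (nat_lit 14069) (nat_lit 0) [nat_lit 27191, nat_lit 9695, nat_lit 15527, nat_lit 13583, nat_lit 14231, nat_lit 14051, nat_lit 14071, nat_lit 33751] (nat_lit 4) [] false,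
   Spec.mk (nat_lit 14071) (nat_lit 0) [nat_lit 27193, nat_lit 9697, nat_lit 15529, nat_lit 13585, nat_lit 14233, nat_lit 14053, nat_lit 14077, nat_lit 14069, nat_lit 14073, nat_lit 33753] (nat_lit 3) [] false,
   Spec.mk (nat_lit 14073) (nat_lit 0) [nat_lit 27195, nat_lit 9699, nat_lit 15531, nat_lit 13587, nat_lit 14235, nat_lit 14055, nat_lit 14079, nat_lit 14071] (nat_lit 4) [] false,
   Spec.mk (nat_lit 14077) (nat_lit 0) [nat_lit 27199, nat_lit 9703, nat_lit 15535, nat_lit 13591, nat_lit 14239, nat_lit 14059, nat_lit 14071, nat_lit 14079, nat_lit 33759] (nat_lit 2) [] false,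
   Spec.mk (nat_lit 14079) (nat_lit 0) [nat_lit 27201, nat_lit 9705, nat_lit 15537, nat_lit 13593, nat_lit 14241, nat_lit 14061, nat_lit 14073, nat_lit 14085, nat_lit 14077] (nat_lit 1) [] false,
   Spec.mk (nat_lit 14085) (nat_lit 0) [nat_lit 27207, nat_lit 9711, nat_lit 15543, nat_lit 13599, nat_lit 14247, nat_lit 14079] (nat_lit 0) [] false,
   Spec.mk (nat_lit 14111) (nat_lit 0) [nat_lit 27233, nat_lit 9737, nat_lit 15569, nat_lit 13625, nat_lit 14597, nat_lit 13949, nat_lit 14129, nat_lit 14117, nat_lit 33793] (nat_lit 1) [] false,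
   Spec.mk (nat_lit 14117) (nat_lit 0) [nat_lit 27239, nat_lit 9743, nat_lit 15575, nat_lit 13631, nat_lit 14603, nat_lit 13955, nat_lit 14135, nat_lit 14111, nat_lit 14119, nat_lit 33799] (nat_lit 3) [] false,
   Spec.mk (nat_lit 14119) (nat_lit 0) [nat_lit 27241, nat_lit 9745, nat_lit 15577, nat_lit 13633, nat_lit 14605, nat_lit 13957, nat_lit 14137, nat_lit 14117, nat_lit 33801] (nat_lit 1) [] false,
   Spec.mk (nat_lit 14129) (nat_lit 0) [nat_lit 27251, nat_lit 9755, nat_lit 15587, nat_lit 13643, nat_lit 14615, nat_lit 13967, nat_lit 14183, nat_lit 14111, nat_lit 14135, nat_lit 33811] (nat_lit 3) [] false,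
   Spec.mk (nat_lit 14135) (nat_lit 0) [nat_lit 27257, nat_lit 9761, nat_lit 15593, nat_lit 13649, nat_lit 14621, nat_lit 13973, nat_lit 14189, nat_lit 14117, nat_lit 14153, nat_lit 14129, nat_lit 14141, nat_lit 14137, nat_lit 33817] (nat_lit 3) [] false,
   Spec.mk (nat_lit 14137) (nat_lit 0) [nat_lit 27259, nat_lit 9763, nat_lit 15595, nat_lit 13651, nat_lit 14623, nat_lit 13975, nat_lit 14191, nat_lit 14119, nat_lit 14155, nat_lit 14143, nat_lit 14135, nat_lit 33819] (nat_lit 2) [] false,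
   Spec.mk (nat_lit 14141) (nat_lit 0) [nat_lit 27263, nat_lit 9767, nat_lit 15599, nat_lit 13655, nat_lit 14627, nat_lit 13979, nat_lit 14195, nat_lit 14159, nat_lit 14135, nat_lit 14143, nat_lit 33823] (nat_lit 5) [] false,
   Spec.mk (nat_lit 14143) (nat_lit 0) [nat_lit 27265, nat_lit 9769, nat_lit 15601, nat_lit 13657, nat_lit 14629, nat_lit 13981, nat_lit 14197, nat_lit 14161, nat_lit 14137, nat_lit 14141, nat_lit 14145, nat_lit 33825] (nat_lit 2) [] false,
   Spec.mk (nat_lit 14145) (nat_lit 0) [nat_lit 27267, nat_lit 9771, nat_lit 15603, nat_lit 13659, nat_lit 14631, nat_lit 13983, nat_lit 14199, nat_lit 14163, nat_lit 14143] (nat_lit 1) [] false,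
   Spec.mk (nat_lit 14153) (nat_lit 0) [nat_lit 27275, nat_lit 9779, nat_lit 15611, nat_lit 13667, nat_lit 14639, nat_lit 13991, nat_lit 14207, nat_lit 14135, nat_lit 14159, nat_lit 14155, nat_lit 33835] (nat_lit 5) [] false,
   Spec.mk (nat_lit 14155) (nat_lit 0) [nat_lit 27277, nat_lit 9781, nat_lit 15613, nat_lit 13669, nat_lit 14641, nat_lit 13993, nat_lit 14209, nat_lit 14137, nat_lit 14161, nat_lit 14153, nat_lit 33837] (nat_lit 5) [] false,
   Spec.mk (nat_lit 14159) (nat_lit 0) [nat_lit 27281, nat_lit 9785, nat_lit 15617, nat_lit 13673, nat_lit 14645, nat_lit 13997, nat_lit 14213, nat_lit 14141, nat_lit 14153, nat_lit 14161, nat_lit 33841] (nat_lit 5) [] false,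
   Spec.mk (nat_lit 14161) (nat_lit 0) [nat_lit 27283, nat_lit 9787, nat_lit 15619, nat_lit 13675, nat_lit 14647, nat_lit 13999, nat_lit 14215, nat_lit 14143, nat_lit 14155, nat_lit 14167, nat_lit 14159, nat_lit 14163, nat_lit 33843] (nat_lit 3) [] false,
   Spec.mk (nat_lit 14163) (nat_lit 0) [nat_lit 27285, nat_lit 9789, nat_lit 15621, nat_lit 13677, nat_lit 14649, nat_lit 14001, nat_lit 14217, nat_lit 14145, nat_lit 14169, nat_lit 14161] (nat_lit 3) [] false,
   Spec.mk (nat_lit 14167) (nat_lit 0) [nat_lit 27289, nat_lit 9793, nat_lit 15625, nat_lit 13681, nat_lit 14653, nat_lit 14005, nat_lit 14221, nat_lit 14161, nat_lit 14169, nat_lit 33849] (nat_lit 3) [] false,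
   Spec.mk (nat_lit 14169) (nat_lit 0) [nat_lit 27291, nat_lit 9795, nat_lit 15627, nat_lit 13683, nat_lit 14655, nat_lit 14007, nat_lit 14223, nat_lit 14163, nat_lit 14167] (nat_lit 1) [] false,
   Spec.mk (nat_lit 14183) (nat_lit 0) [nat_lit 27305, nat_lit 9809, nat_lit 15641, nat_lit 13697, nat_lit 14669, nat_lit 14021, nat_lit 14345, nat_lit 14129, nat_lit 14189, nat_lit 33865] (nat_lit 2) [] false,
   Spec.mk (nat_lit 14189) (nat_lit 0) [nat_lit 27311, nat_lit 9815, nat_lit 15647, nat_lit 13703, nat_lit 14675, nat_lit 14027, nat_lit 14351, nat_lit 14135, nat_lit 14207, nat_lit 14183, nat_lit 14195, nat_lit 14191, nat_lit 33871] (nat_lit 3) [] false,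
   Spec.mk (nat_lit 14191) (nat_lit 0) [nat_lit 27313, nat_lit 9817, nat_lit 15649, nat_lit 13705, nat_lit 14677, nat_lit 14029, nat_lit 14353, nat_lit 14137, nat_lit 14209, nat_lit 14197, nat_lit 14189, nat_lit 33873] (nat_lit 2) [] false,
   Spec.mk (nat_lit 14195) (nat_lit 0) [nat_lit 27317, nat_lit 9821, nat_lit 15653, nat_lit 13709, nat_lit 14681, nat_lit 14033, nat_lit 14357, nat_lit 14141, nat_lit 14213, nat_lit 14189, nat_lit 14197, nat_lit 33877] (nat_lit 6) [] false,
   Spec.mk (nat_lit 14197) (nat_lit 0) [nat_lit 27319, nat_lit 9823, nat_lit 15655, nat_lit 13711, nat_lit 14683, nat_lit 14035, nat_lit 14359, nat_lit 14143, nat_lit 14215, nat_lit 14191, nat_lit 14195, nat_lit 14199, nat_lit 33879] (nat_lit 3) [] false,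
   Spec.mk (nat_lit 14199) (nat_lit 0) [nat_lit 27321, nat_lit 9825, nat_lit 15657, nat_lit 13713, nat_lit 14685, nat_lit 14037, nat_lit 14361, nat_lit 14145, nat_lit 14217, nat_lit 14197] (nat_lit 2) [] false,
   Spec.mk (nat_lit 14207) (nat_lit 0) [nat_lit 27329, nat_lit 9833, nat_lit 15665, nat_lit 13721, nat_lit 14693, nat_lit 14045, nat_lit 14369, nat_lit 14153, nat_lit 14261, nat_lit 14189, nat_lit 14213, nat_lit 14209, nat_lit 33889] (nat_lit 3) [] false,
   Spec.mk (nat_lit 14209) (nat_lit 0) [nat_lit 27331, nat_lit 9835, nat_lit 15667, nat_lit 13723, nat_lit 14695, nat_lit 14047, nat_lit 14371, nat_lit 14155, nat_lit 14263, nat_lit 14191, nat_lit 14215, nat_lit 14207, nat_lit 33891] (nat_lit 3) [] false,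
   Spec.mk (nat_lit 14213) (nat_lit 0) [nat_lit 27335, nat_lit 9839, nat_lit 15671, nat_lit 13727, nat_lit 14699, nat_lit 14051, nat_lit 14375, nat_lit 14159, nat_lit 14267, nat_lit 14195, nat_lit 14231, nat_lit 14207, nat_lit 14215, nat_lit 33895] (nat_lit 4) [] false,
   Spec.mk (nat_lit 14215) (nat_lit 0) [nat_lit 27337, nat_lit 9841, nat_lit 15673, nat_lit 13729, nat_lit 14701, nat_lit 14053, nat_lit 14377, nat_lit 14161, nat_lit 14269, nat_lit 14197, nat_lit 14233, nat_lit 14209, nat_lit 14221, nat_lit 14213, nat_lit 14217, nat_lit 33897] (nat_lit 2) [] false,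
   Spec.mk (nat_lit 14217) (nat_lit 0) [nat_lit 27339, nat_lit 9843, nat_lit 15675, nat_lit 13731, nat_lit 14703, nat_lit 14055, nat_lit 14379, nat_lit 14163, nat_lit 14271, nat_lit 14199, nat_lit 14235, nat_lit 14223, nat_lit 14215] (nat_lit 2) [] false,
   Spec.mk (nat_lit 14221) (nat_lit 0) [nat_lit 27343, nat_lit 9847, nat_lit 15679, nat_lit 13735, nat_lit 14707, nat_lit 14059, nat_lit 14383, nat_lit 14167, nat_lit 14275, nat_lit 14239, nat_lit 14215, nat_lit 14223, nat_lit 33903] (nat_lit 3) [] false,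
   Spec.mk (nat_lit 14223) (nat_lit 0) [nat_lit 27345, nat_lit 9849, nat_lit 15681, nat_lit 13737, nat_lit 14709, nat_lit 14061, nat_lit 14385, nat_lit 14169, nat_lit 14277, nat_lit 14241, nat_lit 14217, nat_lit 14221] (nat_lit 1) [] false,
   Spec.mk (nat_lit 14231) (nat_lit 0) [nat_lit 27353, nat_lit 9857, nat_lit 15689, nat_lit 13745, nat_lit 14717, nat_lit 14069, nat_lit 14393, nat_lit 14285, nat_lit 14213, nat_lit 14233, nat_lit 33913] (nat_lit 4) [] false,
   Spec.mk (nat_lit 14233) (nat_lit 0) [nat_lit 27355, nat_lit 9859, nat_lit 15691, nat_lit 13747, nat_lit 14719, nat_lit 14071, nat_lit 14395, nat_lit 14287, nat_lit 14215, nat_lit 14239, nat_lit 14231, nat_lit 14235, nat_lit 33915] (nat_lit 3) [] false,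
   Spec.mk (nat_lit 14235) (nat_lit 0) [nat_lit 27357, nat_lit 9861, nat_lit 15693, nat_lit 13749, nat_lit 14721, nat_lit 14073, nat_lit 14397, nat_lit 14289, nat_lit 14217, nat_lit 14241, nat_lit 14233] (nat_lit 4) [] false,
   Spec.mk (nat_lit 14239) (nat_lit 0) [nat_lit 27361, nat_lit 9865, nat_lit 15697, nat_lit 13753, nat_lit 14725, nat_lit 14077, nat_lit 14401, nat_lit 14293, nat_lit 14221, nat_lit 14233, nat_lit 14241, nat_lit 33921] (nat_lit 2) [] false,
   Spec.mk (nat_lit 14241) (nat_lit 0) [nat_lit 27363, nat_lit 9867, nat_lit 15699, nat_lit 13755, nat_lit 14727, nat_lit 14079, nat_lit 14403, nat_lit 14295, nat_lit 14223, nat_lit 14235, nat_lit 14247, nat_lit 14239] (nat_lit 1) [] false,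
   Spec.mk (nat_lit 14247) (nat_lit 0) [nat_lit 27369, nat_lit 9873, nat_lit 15705, nat_lit 13761, nat_lit 14733, nat_lit 14085, nat_lit 14409, nat_lit 14301, nat_lit 14241] (nat_lit 0) [] false,
   Spec.mk (nat_lit 14261) (nat_lit 0) [nat_lit 27383, nat_lit 9887, nat_lit 15719, nat_lit 13775, nat_lit 14747, nat_lit 14423, nat_lit 14207, nat_lit 14267, nat_lit 14263, nat_lit 33943] (nat_lit 3) [] false,
   Spec.mk (nat_lit 14263) (nat_lit 0) [nat_lit 27385, nat_lit 9889, nat_lit 15721, nat_lit 13777, nat_lit 14749, nat_lit 14425, nat_lit 14209, nat_lit 14269, nat_lit 14261, nat_lit 33945] (nat_lit 3) [] false,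
   Spec.mk (nat_lit 14267) (nat_lit 0) [nat_lit 27389, nat_lit 9893, nat_lit 15725, nat_lit 13781, nat_lit 14753, nat_lit 14429, nat_lit 14213, nat_lit 14285, nat_lit 14261, nat_lit 14269, nat_lit 33949] (nat_lit 5) [] false,
   Spec.mk (nat_lit 14269) (nat_lit 0) [nat_lit 27391, nat_lit 9895, nat_lit 15727, nat_lit 13783, nat_lit 14755, nat_lit 14431, nat_lit 14215, nat_lit 14287, nat_lit 14263, nat_lit 14275, nat_lit 14267, nat_lit 14271, nat_lit 33951] (nat_lit 3) [] false,
   Spec.mk (nat_lit 14271) (nat_lit 0) [nat_lit 27393, nat_lit 9897, nat_lit 15729, nat_lit 13785, nat_lit 14757, nat_lit 14433, nat_lit 14217, nat_lit 14289, nat_lit 14277, nat_lit 14269] (nat_lit 3) [] false,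
   Spec.mk (nat_lit 14275) (nat_lit 0) [nat_lit 27397, nat_lit 9901, nat_lit 15733, nat_lit 13789, nat_lit 14761, nat_lit 14437, nat_lit 14221, nat_lit 14293, nat_lit 14269, nat_lit 14277, nat_lit 33957] (nat_lit 5) [] false,
   Spec.mk (nat_lit 14277) (nat_lit 0) [nat_lit 27399, nat_lit 9903, nat_lit 15735, nat_lit 13791, nat_lit 14763, nat_lit 14439, nat_lit 14223, nat_lit 14295, nat_lit 14271, nat_lit 14275] (nat_lit 3) [] false,
   Spec.mk (nat_lit 14285) (nat_lit 0) [nat_lit 27407, nat_lit 9911, nat_lit 15743, nat_lit 13799, nat_lit 14771, nat_lit 14447, nat_lit 14231, nat_lit 14267, nat_lit 14287, nat_lit 33967] (nat_lit 3) [] false,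
   Spec.mk (nat_lit 14287) (nat_lit 0) [nat_lit 27409, nat_lit 9913, nat_lit 15745, nat_lit 13801, nat_lit 14773, nat_lit 14449, nat_lit 14233, nat_lit 14269, nat_lit 14293, nat_lit 14285, nat_lit 14289, nat_lit 33969] (nat_lit 2) [] false,
   Spec.mk (nat_lit 14289) (nat_lit 0) [nat_lit 27411, nat_lit 9915, nat_lit 15747, nat_lit 13803, nat_lit 14775, nat_lit 14451, nat_lit 14235, nat_lit 14271, nat_lit 14295, nat_lit 14287] (nat_lit 3) [] false,
   Spec.mk (nat_lit 14293) (nat_lit 0) [nat_lit 27415, nat_lit 9919, nat_lit 15751, nat_lit 13807, nat_lit 14779, nat_lit 14455, nat_lit 14239, nat_lit 14275, nat_lit 14311, nat_lit 14287, nat_lit 14295, nat_lit 33975] (nat_lit 2) [] false]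

noncomputable def sp39 : List Spec :=
  [Spec.mk (nat_lit 14295) (nat_lit 0) [nat_lit 27417, nat_lit 9921, nat_lit 15753, nat_lit 13809, nat_lit 14781, nat_lit 14457, nat_lit 14241, nat_lit 14277, nat_lit 14313, nat_lit 14289, nat_lit 14301, nat_lit 14293] (nat_lit 1) [] false,
   Spec.mk (nat_lit 14301) (nat_lit 0) [nat_lit 27423, nat_lit 9927, nat_lit 15759, nat_lit 13815, nat_lit 14787, nat_lit 14463, nat_lit 14247, nat_lit 14319, nat_lit 14295] (nat_lit 1) [] false,
   Spec.mk (nat_lit 14311) (nat_lit 0) [nat_lit 27433, nat_lit 9937, nat_lit 15769, nat_lit 13825, nat_lit 14797, nat_lit 14473, nat_lit 14293, nat_lit 14313, nat_lit 33993] (nat_lit 1) [] false,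
   Spec.mk (nat_lit 14313) (nat_lit 0) [nat_lit 27435, nat_lit 9939, nat_lit 15771, nat_lit 13827, nat_lit 14799, nat_lit 14475, nat_lit 14295, nat_lit 14319, nat_lit 14311] (nat_lit 1) [] false,
   Spec.mk (nat_lit 14319) (nat_lit 1) [nat_lit 27441, nat_lit 9945, nat_lit 15777, nat_lit 13833, nat_lit 14805, nat_lit 14481, nat_lit 14301, nat_lit 14313] (nat_lit 0) [] false,
   Spec.mk (nat_lit 14345) (nat_lit 0) [nat_lit 27467, nat_lit 9971, nat_lit 15803, nat_lit 14831, nat_lit 14183, nat_lit 14351, nat_lit 34027] (nat_lit 2) [] false,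
   Spec.mk (nat_lit 14351) (nat_lit 0) [nat_lit 27473, nat_lit 9977, nat_lit 15809, nat_lit 14837, nat_lit 14189, nat_lit 14369, nat_lit 14345, nat_lit 14357, nat_lit 14353, nat_lit 34033] (nat_lit 3) [] false,
   Spec.mk (nat_lit 14353) (nat_lit 0) [nat_lit 27475, nat_lit 9979, nat_lit 15811, nat_lit 14839, nat_lit 14191, nat_lit 14371, nat_lit 14359, nat_lit 14351, nat_lit 34035] (nat_lit 2) [] false,
   Spec.mk (nat_lit 14357) (nat_lit 0) [nat_lit 27479, nat_lit 9983, nat_lit 15815, nat_lit 14843, nat_lit 14195, nat_lit 14375, nat_lit 14351, nat_lit 14359, nat_lit 34039] (nat_lit 6) [] false,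
   Spec.mk (nat_lit 14359) (nat_lit 0) [nat_lit 27481, nat_lit 9985, nat_lit 15817, nat_lit 14845, nat_lit 14197, nat_lit 14377, nat_lit 14353, nat_lit 14357, nat_lit 14361, nat_lit 34041] (nat_lit 3) [] false,
   Spec.mk (nat_lit 14361) (nat_lit 0) [nat_lit 27483, nat_lit 9987, nat_lit 15819, nat_lit 14847, nat_lit 14199, nat_lit 14379, nat_lit 14359] (nat_lit 2) [] false,
   Spec.mk (nat_lit 14369) (nat_lit 0) [nat_lit 27491, nat_lit 9995, nat_lit 15827, nat_lit 14855, nat_lit 14207, nat_lit 14423, nat_lit 14351, nat_lit 14375, nat_lit 14371, nat_lit 34051] (nat_lit 4) [] false,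
   Spec.mk (nat_lit 14371) (nat_lit 0) [nat_lit 27493, nat_lit 9997, nat_lit 15829, nat_lit 14857, nat_lit 14209, nat_lit 14425, nat_lit 14353, nat_lit 14377, nat_lit 14369, nat_lit 34053] (nat_lit 4) [] false,
   Spec.mk (nat_lit 14375) (nat_lit 0) [nat_lit 27497, nat_lit 10001, nat_lit 15833, nat_lit 14861, nat_lit 14213, nat_lit 14429, nat_lit 14357, nat_lit 14393, nat_lit 14369, nat_lit 14377, nat_lit 34057] (nat_lit 5) [] false,
   Spec.mk (nat_lit 14377) (nat_lit 0) [nat_lit 27499, nat_lit 10003, nat_lit 15835, nat_lit 14863, nat_lit 14215, nat_lit 14431, nat_lit 14359, nat_lit 14395, nat_lit 14371, nat_lit 14383, nat_lit 14375, nat_lit 14379, nat_lit 34059] (nat_lit 3) [] false,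
   Spec.mk (nat_lit 14379) (nat_lit 0) [nat_lit 27501, nat_lit 10005, nat_lit 15837, nat_lit 14865, nat_lit 14217, nat_lit 14433, nat_lit 14361, nat_lit 14397, nat_lit 14385, nat_lit 14377] (nat_lit 3) [] false,
   Spec.mk (nat_lit 14383) (nat_lit 0) [nat_lit 27505, nat_lit 10009, nat_lit 15841, nat_lit 14869, nat_lit 14221, nat_lit 14437, nat_lit 14401, nat_lit 14377, nat_lit 14385, nat_lit 34065] (nat_lit 4) [] false,
   Spec.mk (nat_lit 14385) (nat_lit 0) [nat_lit 27507, nat_lit 10011, nat_lit 15843, nat_lit 14871, nat_lit 14223, nat_lit 14439, nat_lit 14403, nat_lit 14379, nat_lit 14383] (nat_lit 2) [] false,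
   Spec.mk (nat_lit 14393) (nat_lit 0) [nat_lit 27515, nat_lit 10019, nat_lit 15851, nat_lit 14879, nat_lit 14231, nat_lit 14447, nat_lit 14375, nat_lit 14395, nat_lit 34075] (nat_lit 6) [] false,
   Spec.mk (nat_lit 14395) (nat_lit 0) [nat_lit 27517, nat_lit 10021, nat_lit 15853, nat_lit 14881, nat_lit 14233, nat_lit 14449, nat_lit 14377, nat_lit 14401, nat_lit 14393, nat_lit 14397, nat_lit 34077] (nat_lit 5) [] false,
   Spec.mk (nat_lit 14397) (nat_lit 0) [nat_lit 27519, nat_lit 10023, nat_lit 15855, nat_lit 14883, nat_lit 14235, nat_lit 14451, nat_lit 14379, nat_lit 14403, nat_lit 14395] (nat_lit 6) [] false,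
   Spec.mk (nat_lit 14401) (nat_lit 0) [nat_lit 27523, nat_lit 10027, nat_lit 15859, nat_lit 14887, nat_lit 14239, nat_lit 14455, nat_lit 14383, nat_lit 14395, nat_lit 14403, nat_lit 34083] (nat_lit 4) [] false,
   Spec.mk (nat_lit 14403) (nat_lit 0) [nat_lit 27525, nat_lit 10029, nat_lit 15861, nat_lit 14889, nat_lit 14241, nat_lit 14457, nat_lit 14385, nat_lit 14397, nat_lit 14409, nat_lit 14401] (nat_lit 3) [] false,
   Spec.mk (nat_lit 14409) (nat_lit 0) [nat_lit 27531, nat_lit 10035, nat_lit 15867, nat_lit 14895, nat_lit 14247, nat_lit 14463, nat_lit 14403] (nat_lit 2) [] false,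
   Spec.mk (nat_lit 14423) (nat_lit 0) [nat_lit 27545, nat_lit 10049, nat_lit 15881, nat_lit 14909, nat_lit 14261, nat_lit 14369, nat_lit 14429, nat_lit 14425, nat_lit 34105] (nat_lit 2) [] false,
   Spec.mk (nat_lit 14425) (nat_lit 0) [nat_lit 27547, nat_lit 10051, nat_lit 15883, nat_lit 14911, nat_lit 14263, nat_lit 14371, nat_lit 14431, nat_lit 14423, nat_lit 34107] (nat_lit 2) [] false,
   Spec.mk (nat_lit 14429) (nat_lit 0) [nat_lit 27551, nat_lit 10055, nat_lit 15887, nat_lit 14915, nat_lit 14267, nat_lit 14375, nat_lit 14447, nat_lit 14423, nat_lit 14431, nat_lit 34111] (nat_lit 4) [] false,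
   Spec.mk (nat_lit 14431) (nat_lit 0) [nat_lit 27553, nat_lit 10057, nat_lit 15889, nat_lit 14917, nat_lit 14269, nat_lit 14377, nat_lit 14449, nat_lit 14425, nat_lit 14437, nat_lit 14429, nat_lit 14433, nat_lit 34113] (nat_lit 2) [] false,
   Spec.mk (nat_lit 14433) (nat_lit 0) [nat_lit 27555, nat_lit 10059, nat_lit 15891, nat_lit 14919, nat_lit 14271, nat_lit 14379, nat_lit 14451, nat_lit 14439, nat_lit 14431] (nat_lit 2) [] false,
   Spec.mk (nat_lit 14437) (nat_lit 0) [nat_lit 27559, nat_lit 10063, nat_lit 15895, nat_lit 14923, nat_lit 14275, nat_lit 14383, nat_lit 14455, nat_lit 14431, nat_lit 14439, nat_lit 34119] (nat_lit 4) [] false,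
   Spec.mk (nat_lit 14439) (nat_lit 0) [nat_lit 27561, nat_lit 10065, nat_lit 15897, nat_lit 14925, nat_lit 14277, nat_lit 14385, nat_lit 14457, nat_lit 14433, nat_lit 14437] (nat_lit 2) [] false,
   Spec.mk (nat_lit 14447) (nat_lit 0) [nat_lit 27569, nat_lit 10073, nat_lit 15905, nat_lit 14933, nat_lit 14285, nat_lit 14393, nat_lit 14501, nat_lit 14429, nat_lit 14449, nat_lit 34129] (nat_lit 3) [] false,
   Spec.mk (nat_lit 14449) (nat_lit 0) [nat_lit 27571, nat_lit 10075, nat_lit 15907, nat_lit 14935, nat_lit 14287, nat_lit 14395, nat_lit 14503, nat_lit 14431, nat_lit 14455, nat_lit 14447, nat_lit 14451, nat_lit 34131] (nat_lit 2) [] false,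
   Spec.mk (nat_lit 14451) (nat_lit 0) [nat_lit 27573, nat_lit 10077, nat_lit 15909, nat_lit 14937, nat_lit 14289, nat_lit 14397, nat_lit 14505, nat_lit 14433, nat_lit 14457, nat_lit 14449] (nat_lit 3) [] false,
   Spec.mk (nat_lit 14455) (nat_lit 0) [nat_lit 27577, nat_lit 10081, nat_lit 15913, nat_lit 14941, nat_lit 14293, nat_lit 14401, nat_lit 14509, nat_lit 14437, nat_lit 14473, nat_lit 14449, nat_lit 14457, nat_lit 34137] (nat_lit 2) [] false,
   Spec.mk (nat_lit 14457) (nat_lit 0) [nat_lit 27579, nat_lit 10083, nat_lit 15915, nat_lit 14943, nat_lit 14295, nat_lit 14403, nat_lit 14511, nat_lit 14439, nat_lit 14475, nat_lit 14451, nat_lit 14463, nat_lit 14455] (nat_lit 1) [] false,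
   Spec.mk (nat_lit 14463) (nat_lit 0) [nat_lit 27585, nat_lit 10089, nat_lit 15921, nat_lit 14949, nat_lit 14301, nat_lit 14409, nat_lit 14517, nat_lit 14481, nat_lit 14457] (nat_lit 1) [] false,
   Spec.mk (nat_lit 14473) (nat_lit 0) [nat_lit 27595, nat_lit 10099, nat_lit 15931, nat_lit 14959, nat_lit 14311, nat_lit 14527, nat_lit 14455, nat_lit 14475, nat_lit 34155] (nat_lit 2) [] false,
   Spec.mk (nat_lit 14475) (nat_lit 0) [nat_lit 27597, nat_lit 10101, nat_lit 15933, nat_lit 14961, nat_lit 14313, nat_lit 14529, nat_lit 14457, nat_lit 14481, nat_lit 14473] (nat_lit 2) [] false,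
   Spec.mk (nat_lit 14481) (nat_lit 0) [nat_lit 27603, nat_lit 10107, nat_lit 15939, nat_lit 14967, nat_lit 14319, nat_lit 14535, nat_lit 14463, nat_lit 14475] (nat_lit 0) [] false,
   Spec.mk (nat_lit 14501) (nat_lit 0) [nat_lit 27623, nat_lit 10127, nat_lit 15959, nat_lit 14987, nat_lit 14447, nat_lit 14503, nat_lit 34183] (nat_lit 2) [] false,
   Spec.mk (nat_lit 14503) (nat_lit 0) [nat_lit 27625, nat_lit 10129, nat_lit 15961, nat_lit 14989, nat_lit 14449, nat_lit 14509, nat_lit 14501, nat_lit 14505, nat_lit 34185] (nat_lit 1) [] false,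
   Spec.mk (nat_lit 14505) (nat_lit 0) [nat_lit 27627, nat_lit 10131, nat_lit 15963, nat_lit 14991, nat_lit 14451, nat_lit 14511, nat_lit 14503] (nat_lit 2) [] false,
   Spec.mk (nat_lit 14509) (nat_lit 0) [nat_lit 27631, nat_lit 10135, nat_lit 15967, nat_lit 14995, nat_lit 14455, nat_lit 14527, nat_lit 14503, nat_lit 14511, nat_lit 34191] (nat_lit 2) [] false,
   Spec.mk (nat_lit 14511) (nat_lit 0) [nat_lit 27633, nat_lit 10137, nat_lit 15969, nat_lit 14997, nat_lit 14457, nat_lit 14529, nat_lit 14505, nat_lit 14517, nat_lit 14509] (nat_lit 1) [] false,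
   Spec.mk (nat_lit 14517) (nat_lit 0) [nat_lit 27639, nat_lit 10143, nat_lit 15975, nat_lit 15003, nat_lit 14463, nat_lit 14535, nat_lit 14511] (nat_lit 2) [] false,
   Spec.mk (nat_lit 14527) (nat_lit 0) [nat_lit 27649, nat_lit 10153, nat_lit 15985, nat_lit 15013, nat_lit 14473, nat_lit 14509, nat_lit 14529, nat_lit 34209] (nat_lit 0) [] false,
   Spec.mk (nat_lit 14529) (nat_lit 0) [nat_lit 27651, nat_lit 10155, nat_lit 15987, nat_lit 15015, nat_lit 14475, nat_lit 14511, nat_lit 14535, nat_lit 14527] (nat_lit 0) [] false,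
   Spec.mk (nat_lit 14535) (nat_lit 1) [nat_lit 27657, nat_lit 10161, nat_lit 15993, nat_lit 15021, nat_lit 14481, nat_lit 14517, nat_lit 14553, nat_lit 14529] (nat_lit 0) [] false,
   Spec.mk (nat_lit 14553) (nat_lit 2) [nat_lit 27675, nat_lit 10179, nat_lit 16011, nat_lit 15039, nat_lit 14535] (nat_lit 0) [] false,
   Spec.mk (nat_lit 14597) (nat_lit 0) [nat_lit 27719, nat_lit 10223, nat_lit 16055, nat_lit 14111, nat_lit 14615, nat_lit 14603, nat_lit 34279] (nat_lit 2) [] false,
   Spec.mk (nat_lit 14603) (nat_lit 0) [nat_lit 27725, nat_lit 10229, nat_lit 16061, nat_lit 14117, nat_lit 14621, nat_lit 14597, nat_lit 14605, nat_lit 34285] (nat_lit 4) [] false,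
   Spec.mk (nat_lit 14605) (nat_lit 0) [nat_lit 27727, nat_lit 10231, nat_lit 16063, nat_lit 14119, nat_lit 14623, nat_lit 14603, nat_lit 34287] (nat_lit 2) [] false,
   Spec.mk (nat_lit 14615) (nat_lit 0) [nat_lit 27737, nat_lit 10241, nat_lit 16073, nat_lit 14129, nat_lit 14669, nat_lit 14597, nat_lit 14621, nat_lit 34297] (nat_lit 4) [] false,
   Spec.mk (nat_lit 14621) (nat_lit 0) [nat_lit 27743, nat_lit 10247, nat_lit 16079, nat_lit 14135, nat_lit 14675, nat_lit 14603, nat_lit 14639, nat_lit 14615, nat_lit 14627, nat_lit 14623, nat_lit 34303] (nat_lit 4) [] false,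
   Spec.mk (nat_lit 14623) (nat_lit 0) [nat_lit 27745, nat_lit 10249, nat_lit 16081, nat_lit 14137, nat_lit 14677, nat_lit 14605, nat_lit 14641, nat_lit 14629, nat_lit 14621, nat_lit 34305] (nat_lit 3) [] false,
   Spec.mk (nat_lit 14627) (nat_lit 0) [nat_lit 27749, nat_lit 10253, nat_lit 16085, nat_lit 14141, nat_lit 14681, nat_lit 14645, nat_lit 14621, nat_lit 14629, nat_lit 34309] (nat_lit 6) [] false,
   Spec.mk (nat_lit 14629) (nat_lit 0) [nat_lit 27751, nat_lit 10255, nat_lit 16087, nat_lit 14143, nat_lit 14683, nat_lit 14647, nat_lit 14623, nat_lit 14627, nat_lit 14631, nat_lit 34311] (nat_lit 3) [] false,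
   Spec.mk (nat_lit 14631) (nat_lit 0) [nat_lit 27753, nat_lit 10257, nat_lit 16089, nat_lit 14145, nat_lit 14685, nat_lit 14649, nat_lit 14629] (nat_lit 2) [] false,
   Spec.mk (nat_lit 14639) (nat_lit 0) [nat_lit 27761, nat_lit 10265, nat_lit 16097, nat_lit 14153, nat_lit 14693, nat_lit 14621, nat_lit 14645, nat_lit 14641, nat_lit 34321] (nat_lit 6) [] false]

noncomputable def sp40 : List Spec :=
  [Spec.mk (nat_lit 14641) (nat_lit 0) [nat_lit 27763, nat_lit 10267, nat_lit 16099, nat_lit 14155, nat_lit 14695, nat_lit 14623, nat_lit 14647, nat_lit 14639, nat_lit 34323] (nat_lit 6) [] false,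
   Spec.mk (nat_lit 14645) (nat_lit 0) [nat_lit 27767, nat_lit 10271, nat_lit 16103, nat_lit 14159, nat_lit 14699, nat_lit 14627, nat_lit 14639, nat_lit 14647, nat_lit 34327] (nat_lit 6) [] false,
   Spec.mk (nat_lit 14647) (nat_lit 0) [nat_lit 27769, nat_lit 10273, nat_lit 16105, nat_lit 14161, nat_lit 14701, nat_lit 14629, nat_lit 14641, nat_lit 14653, nat_lit 14645, nat_lit 14649, nat_lit 34329] (nat_lit 4) [] false,
   Spec.mk (nat_lit 14649) (nat_lit 0) [nat_lit 27771, nat_lit 10275, nat_lit 16107, nat_lit 14163, nat_lit 14703, nat_lit 14631, nat_lit 14655, nat_lit 14647] (nat_lit 4) [] false,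
   Spec.mk (nat_lit 14653) (nat_lit 0) [nat_lit 27775, nat_lit 10279, nat_lit 16111, nat_lit 14167, nat_lit 14707, nat_lit 14647, nat_lit 14655, nat_lit 34335] (nat_lit 4) [] false,
   Spec.mk (nat_lit 14655) (nat_lit 0) [nat_lit 27777, nat_lit 10281, nat_lit 16113, nat_lit 14169, nat_lit 14709, nat_lit 14649, nat_lit 14653] (nat_lit 2) [] false,
   Spec.mk (nat_lit 14669) (nat_lit 0) [nat_lit 27791, nat_lit 10295, nat_lit 16127, nat_lit 14183, nat_lit 14831, nat_lit 14615, nat_lit 14675, nat_lit 34351] (nat_lit 4) [] false,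
   Spec.mk (nat_lit 14675) (nat_lit 0) [nat_lit 27797, nat_lit 10301, nat_lit 16133, nat_lit 14189, nat_lit 14837, nat_lit 14621, nat_lit 14693, nat_lit 14669, nat_lit 14681, nat_lit 14677, nat_lit 34357] (nat_lit 5) [] false,
   Spec.mk (nat_lit 14677) (nat_lit 0) [nat_lit 27799, nat_lit 10303, nat_lit 16135, nat_lit 14191, nat_lit 14839, nat_lit 14623, nat_lit 14695, nat_lit 14683, nat_lit 14675, nat_lit 34359] (nat_lit 4) [] false,
   Spec.mk (nat_lit 14681) (nat_lit 0) [nat_lit 27803, nat_lit 10307, nat_lit 16139, nat_lit 14195, nat_lit 14843, nat_lit 14627, nat_lit 14699, nat_lit 14675, nat_lit 14683, nat_lit 34363] (nat_lit 8) [] false,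
   Spec.mk (nat_lit 14683) (nat_lit 0) [nat_lit 27805, nat_lit 10309, nat_lit 16141, nat_lit 14197, nat_lit 14845, nat_lit 14629, nat_lit 14701, nat_lit 14677, nat_lit 14681, nat_lit 14685, nat_lit 34365] (nat_lit 5) [] false,
   Spec.mk (nat_lit 14685) (nat_lit 0) [nat_lit 27807, nat_lit 10311, nat_lit 16143, nat_lit 14199, nat_lit 14847, nat_lit 14631, nat_lit 14703, nat_lit 14683] (nat_lit 4) [] false,
   Spec.mk (nat_lit 14693) (nat_lit 0) [nat_lit 27815, nat_lit 10319, nat_lit 16151, nat_lit 14207, nat_lit 14855, nat_lit 14639, nat_lit 14747, nat_lit 14675, nat_lit 14699, nat_lit 14695, nat_lit 34375] (nat_lit 5) [] false,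
   Spec.mk (nat_lit 14695) (nat_lit 0) [nat_lit 27817, nat_lit 10321, nat_lit 16153, nat_lit 14209, nat_lit 14857, nat_lit 14641, nat_lit 14749, nat_lit 14677, nat_lit 14701, nat_lit 14693, nat_lit 34377] (nat_lit 5) [] false,
   Spec.mk (nat_lit 14699) (nat_lit 0) [nat_lit 27821, nat_lit 10325, nat_lit 16157, nat_lit 14213, nat_lit 14861, nat_lit 14645, nat_lit 14753, nat_lit 14681, nat_lit 14717, nat_lit 14693, nat_lit 14701, nat_lit 34381] (nat_lit 6) [] false,
   Spec.mk (nat_lit 14701) (nat_lit 0) [nat_lit 27823, nat_lit 10327, nat_lit 16159, nat_lit 14215, nat_lit 14863, nat_lit 14647, nat_lit 14755, nat_lit 14683, nat_lit 14719, nat_lit 14695, nat_lit 14707, nat_lit 14699, nat_lit 14703, nat_lit 34383] (nat_lit 4) [] false,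
   Spec.mk (nat_lit 14703) (nat_lit 0) [nat_lit 27825, nat_lit 10329, nat_lit 16161, nat_lit 14217, nat_lit 14865, nat_lit 14649, nat_lit 14757, nat_lit 14685, nat_lit 14721, nat_lit 14709, nat_lit 14701] (nat_lit 4) [] false,
   Spec.mk (nat_lit 14707) (nat_lit 0) [nat_lit 27829, nat_lit 10333, nat_lit 16165, nat_lit 14221, nat_lit 14869, nat_lit 14653, nat_lit 14761, nat_lit 14725, nat_lit 14701, nat_lit 14709, nat_lit 34389] (nat_lit 5) [] false,
   Spec.mk (nat_lit 14709) (nat_lit 0) [nat_lit 27831, nat_lit 10335, nat_lit 16167, nat_lit 14223, nat_lit 14871, nat_lit 14655, nat_lit 14763, nat_lit 14727, nat_lit 14703, nat_lit 14707] (nat_lit 3) [] false,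
   Spec.mk (nat_lit 14717) (nat_lit 0) [nat_lit 27839, nat_lit 10343, nat_lit 16175, nat_lit 14231, nat_lit 14879, nat_lit 14771, nat_lit 14699, nat_lit 14719, nat_lit 34399] (nat_lit 6) [] false,
   Spec.mk (nat_lit 14719) (nat_lit 0) [nat_lit 27841, nat_lit 10345, nat_lit 16177, nat_lit 14233, nat_lit 14881, nat_lit 14773, nat_lit 14701, nat_lit 14725, nat_lit 14717, nat_lit 14721, nat_lit 34401] (nat_lit 5) [] false,
   Spec.mk (nat_lit 14721) (nat_lit 0) [nat_lit 27843, nat_lit 10347, nat_lit 16179, nat_lit 14235, nat_lit 14883, nat_lit 14775, nat_lit 14703, nat_lit 14727, nat_lit 14719] (nat_lit 6) [] false,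
   Spec.mk (nat_lit 14725) (nat_lit 0) [nat_lit 27847, nat_lit 10351, nat_lit 16183, nat_lit 14239, nat_lit 14887, nat_lit 14779, nat_lit 14707, nat_lit 14719, nat_lit 14727, nat_lit 34407] (nat_lit 4) [] false,
   Spec.mk (nat_lit 14727) (nat_lit 0) [nat_lit 27849, nat_lit 10353, nat_lit 16185, nat_lit 14241, nat_lit 14889, nat_lit 14781, nat_lit 14709, nat_lit 14721, nat_lit 14733, nat_lit 14725] (nat_lit 3) [] false,
   Spec.mk (nat_lit 14733) (nat_lit 0) [nat_lit 27855, nat_lit 10359, nat_lit 16191, nat_lit 14247, nat_lit 14895, nat_lit 14787, nat_lit 14727] (nat_lit 2) [] false,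
   Spec.mk (nat_lit 14747) (nat_lit 0) [nat_lit 27869, nat_lit 10373, nat_lit 16205, nat_lit 14261, nat_lit 14909, nat_lit 14693, nat_lit 14753, nat_lit 14749, nat_lit 34429] (nat_lit 6) [] false,
   Spec.mk (nat_lit 14749) (nat_lit 0) [nat_lit 27871, nat_lit 10375, nat_lit 16207, nat_lit 14263, nat_lit 14911, nat_lit 14695, nat_lit 14755, nat_lit 14747, nat_lit 34431] (nat_lit 6) [] false,
   Spec.mk (nat_lit 14753) (nat_lit 0) [nat_lit 27875, nat_lit 10379, nat_lit 16211, nat_lit 14267, nat_lit 14915, nat_lit 14699, nat_lit 14771, nat_lit 14747, nat_lit 14755, nat_lit 34435] (nat_lit 8) [] false,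
   Spec.mk (nat_lit 14755) (nat_lit 0) [nat_lit 27877, nat_lit 10381, nat_lit 16213, nat_lit 14269, nat_lit 14917, nat_lit 14701, nat_lit 14773, nat_lit 14749, nat_lit 14761, nat_lit 14753, nat_lit 14757, nat_lit 34437] (nat_lit 6) [] false,
   Spec.mk (nat_lit 14757) (nat_lit 0) [nat_lit 27879, nat_lit 10383, nat_lit 16215, nat_lit 14271, nat_lit 14919, nat_lit 14703, nat_lit 14775, nat_lit 14763, nat_lit 14755] (nat_lit 6) [] false,
   Spec.mk (nat_lit 14761) (nat_lit 0) [nat_lit 27883, nat_lit 10387, nat_lit 16219, nat_lit 14275, nat_lit 14923, nat_lit 14707, nat_lit 14779, nat_lit 14755, nat_lit 14763, nat_lit 34443] (nat_lit 8) [] false,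
   Spec.mk (nat_lit 14763) (nat_lit 0) [nat_lit 27885, nat_lit 10389, nat_lit 16221, nat_lit 14277, nat_lit 14925, nat_lit 14709, nat_lit 14781, nat_lit 14757, nat_lit 14761] (nat_lit 6) [] false,
   Spec.mk (nat_lit 14771) (nat_lit 0) [nat_lit 27893, nat_lit 10397, nat_lit 16229, nat_lit 14285, nat_lit 14933, nat_lit 14717, nat_lit 14753, nat_lit 14773, nat_lit 34453] (nat_lit 6) [] false,
   Spec.mk (nat_lit 14773) (nat_lit 0) [nat_lit 27895, nat_lit 10399, nat_lit 16231, nat_lit 14287, nat_lit 14935, nat_lit 14719, nat_lit 14755, nat_lit 14779, nat_lit 14771, nat_lit 14775, nat_lit 34455] (nat_lit 5) [] false,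
   Spec.mk (nat_lit 14775) (nat_lit 0) [nat_lit 27897, nat_lit 10401, nat_lit 16233, nat_lit 14289, nat_lit 14937, nat_lit 14721, nat_lit 14757, nat_lit 14781, nat_lit 14773] (nat_lit 6) [] false,
   Spec.mk (nat_lit 14779) (nat_lit 0) [nat_lit 27901, nat_lit 10405, nat_lit 16237, nat_lit 14293, nat_lit 14941, nat_lit 14725, nat_lit 14761, nat_lit 14797, nat_lit 14773, nat_lit 14781, nat_lit 34461] (nat_lit 5) [] false,
   Spec.mk (nat_lit 14781) (nat_lit 0) [nat_lit 27903, nat_lit 10407, nat_lit 16239, nat_lit 14295, nat_lit 14943, nat_lit 14727, nat_lit 14763, nat_lit 14799, nat_lit 14775, nat_lit 14787, nat_lit 14779] (nat_lit 4) [] false,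
   Spec.mk (nat_lit 14787) (nat_lit 0) [nat_lit 27909, nat_lit 10413, nat_lit 16245, nat_lit 14301, nat_lit 14949, nat_lit 14733, nat_lit 14805, nat_lit 14781] (nat_lit 4) [] false,
   Spec.mk (nat_lit 14797) (nat_lit 0) [nat_lit 27919, nat_lit 10423, nat_lit 16255, nat_lit 14311, nat_lit 14959, nat_lit 14779, nat_lit 14799, nat_lit 34479] (nat_lit 4) [] false,
   Spec.mk (nat_lit 14799) (nat_lit 0) [nat_lit 27921, nat_lit 10425, nat_lit 16257, nat_lit 14313, nat_lit 14961, nat_lit 14781, nat_lit 14805, nat_lit 14797] (nat_lit 4) [] false,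
   Spec.mk (nat_lit 14805) (nat_lit 0) [nat_lit 27927, nat_lit 10431, nat_lit 16263, nat_lit 14319, nat_lit 14967, nat_lit 14787, nat_lit 14799] (nat_lit 2) [] false,
   Spec.mk (nat_lit 14831) (nat_lit 0) [nat_lit 27953, nat_lit 10457, nat_lit 16289, nat_lit 14345, nat_lit 14669, nat_lit 14837, nat_lit 34513] (nat_lit 2) [] false,
   Spec.mk (nat_lit 14837) (nat_lit 0) [nat_lit 27959, nat_lit 10463, nat_lit 16295, nat_lit 14351, nat_lit 14675, nat_lit 14855, nat_lit 14831, nat_lit 14843, nat_lit 14839, nat_lit 34519] (nat_lit 3) [] false,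
   Spec.mk (nat_lit 14839) (nat_lit 0) [nat_lit 27961, nat_lit 10465, nat_lit 16297, nat_lit 14353, nat_lit 14677, nat_lit 14857, nat_lit 14845, nat_lit 14837, nat_lit 34521] (nat_lit 2) [] false,
   Spec.mk (nat_lit 14843) (nat_lit 0) [nat_lit 27965, nat_lit 10469, nat_lit 16301, nat_lit 14357, nat_lit 14681, nat_lit 14861, nat_lit 14837, nat_lit 14845, nat_lit 34525] (nat_lit 6) [] false,
   Spec.mk (nat_lit 14845) (nat_lit 0) [nat_lit 27967, nat_lit 10471, nat_lit 16303, nat_lit 14359, nat_lit 14683, nat_lit 14863, nat_lit 14839, nat_lit 14843, nat_lit 14847, nat_lit 34527] (nat_lit 3) [] false,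
   Spec.mk (nat_lit 14847) (nat_lit 0) [nat_lit 27969, nat_lit 10473, nat_lit 16305, nat_lit 14361, nat_lit 14685, nat_lit 14865, nat_lit 14845] (nat_lit 2) [] false,
   Spec.mk (nat_lit 14855) (nat_lit 0) [nat_lit 27977, nat_lit 10481, nat_lit 16313, nat_lit 14369, nat_lit 14693, nat_lit 14909, nat_lit 14837, nat_lit 14861, nat_lit 14857, nat_lit 34537] (nat_lit 4) [] false,
   Spec.mk (nat_lit 14857) (nat_lit 0) [nat_lit 27979, nat_lit 10483, nat_lit 16315, nat_lit 14371, nat_lit 14695, nat_lit 14911, nat_lit 14839, nat_lit 14863, nat_lit 14855, nat_lit 34539] (nat_lit 4) [] false,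
   Spec.mk (nat_lit 14861) (nat_lit 0) [nat_lit 27983, nat_lit 10487, nat_lit 16319, nat_lit 14375, nat_lit 14699, nat_lit 14915, nat_lit 14843, nat_lit 14879, nat_lit 14855, nat_lit 14863, nat_lit 34543] (nat_lit 5) [] false,
   Spec.mk (nat_lit 14863) (nat_lit 0) [nat_lit 27985, nat_lit 10489, nat_lit 16321, nat_lit 14377, nat_lit 14701, nat_lit 14917, nat_lit 14845, nat_lit 14881, nat_lit 14857, nat_lit 14869, nat_lit 14861, nat_lit 14865, nat_lit 34545] (nat_lit 3) [] false,
   Spec.mk (nat_lit 14865) (nat_lit 0) [nat_lit 27987, nat_lit 10491, nat_lit 16323, nat_lit 14379, nat_lit 14703, nat_lit 14919, nat_lit 14847, nat_lit 14883, nat_lit 14871, nat_lit 14863] (nat_lit 3) [] false,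
   Spec.mk (nat_lit 14869) (nat_lit 0) [nat_lit 27991, nat_lit 10495, nat_lit 16327, nat_lit 14383, nat_lit 14707, nat_lit 14923, nat_lit 14887, nat_lit 14863, nat_lit 14871, nat_lit 34551] (nat_lit 4) [] false,
   Spec.mk (nat_lit 14871) (nat_lit 0) [nat_lit 27993, nat_lit 10497, nat_lit 16329, nat_lit 14385, nat_lit 14709, nat_lit 14925, nat_lit 14889, nat_lit 14865, nat_lit 14869] (nat_lit 2) [] false,
   Spec.mk (nat_lit 14879) (nat_lit 0) [nat_lit 28001, nat_lit 10505, nat_lit 16337, nat_lit 14393, nat_lit 14717, nat_lit 14933, nat_lit 14861, nat_lit 14881, nat_lit 34561] (nat_lit 6) [] false,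
   Spec.mk (nat_lit 14881) (nat_lit 0) [nat_lit 28003, nat_lit 10507, nat_lit 16339, nat_lit 14395, nat_lit 14719, nat_lit 14935, nat_lit 14863, nat_lit 14887, nat_lit 14879, nat_lit 14883, nat_lit 34563] (nat_lit 5) [] false,
   Spec.mk (nat_lit 14883) (nat_lit 0) [nat_lit 28005, nat_lit 10509, nat_lit 16341, nat_lit 14397, nat_lit 14721, nat_lit 14937, nat_lit 14865, nat_lit 14889, nat_lit 14881] (nat_lit 6) [] false,
   Spec.mk (nat_lit 14887) (nat_lit 0) [nat_lit 28009, nat_lit 10513, nat_lit 16345, nat_lit 14401, nat_lit 14725, nat_lit 14941, nat_lit 14869, nat_lit 14881, nat_lit 14889, nat_lit 34569] (nat_lit 4) [] false,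
   Spec.mk (nat_lit 14889) (nat_lit 0) [nat_lit 28011, nat_lit 10515, nat_lit 16347, nat_lit 14403, nat_lit 14727, nat_lit 14943, nat_lit 14871, nat_lit 14883, nat_lit 14895, nat_lit 14887] (nat_lit 3) [] false,
   Spec.mk (nat_lit 14895) (nat_lit 0) [nat_lit 28017, nat_lit 10521, nat_lit 16353, nat_lit 14409, nat_lit 14733, nat_lit 14949, nat_lit 14889] (nat_lit 2) [] false]

noncomputable def sp41 : List Spec :=
  [Spec.mk (nat_lit 14909) (nat_lit 0) [nat_lit 28031, nat_lit 10535, nat_lit 16367, nat_lit 14423, nat_lit 14747, nat_lit 15071, nat_lit 14855, nat_lit 14915, nat_lit 14911, nat_lit 34591] (nat_lit 3) [] false,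
   Spec.mk (nat_lit 14911) (nat_lit 0) [nat_lit 28033, nat_lit 10537, nat_lit 16369, nat_lit 14425, nat_lit 14749, nat_lit 15073, nat_lit 14857, nat_lit 14917, nat_lit 14909, nat_lit 34593] (nat_lit 3) [] false,
   Spec.mk (nat_lit 14915) (nat_lit 0) [nat_lit 28037, nat_lit 10541, nat_lit 16373, nat_lit 14429, nat_lit 14753, nat_lit 15077, nat_lit 14861, nat_lit 14933, nat_lit 14909, nat_lit 14917, nat_lit 34597] (nat_lit 5) [] false,
   Spec.mk (nat_lit 14917) (nat_lit 0) [nat_lit 28039, nat_lit 10543, nat_lit 16375, nat_lit 14431, nat_lit 14755, nat_lit 15079, nat_lit 14863, nat_lit 14935, nat_lit 14911, nat_lit 14923, nat_lit 14915, nat_lit 14919, nat_lit 34599] (nat_lit 3) [] false,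
   Spec.mk (nat_lit 14919) (nat_lit 0) [nat_lit 28041, nat_lit 10545, nat_lit 16377, nat_lit 14433, nat_lit 14757, nat_lit 15081, nat_lit 14865, nat_lit 14937, nat_lit 14925, nat_lit 14917] (nat_lit 3) [] false,
   Spec.mk (nat_lit 14923) (nat_lit 0) [nat_lit 28045, nat_lit 10549, nat_lit 16381, nat_lit 14437, nat_lit 14761, nat_lit 15085, nat_lit 14869, nat_lit 14941, nat_lit 14917, nat_lit 14925, nat_lit 34605] (nat_lit 5) [] false,
   Spec.mk (nat_lit 14925) (nat_lit 0) [nat_lit 28047, nat_lit 10551, nat_lit 16383, nat_lit 14439, nat_lit 14763, nat_lit 15087, nat_lit 14871, nat_lit 14943, nat_lit 14919, nat_lit 14923] (nat_lit 3) [] false,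
   Spec.mk (nat_lit 14933) (nat_lit 0) [nat_lit 28055, nat_lit 10559, nat_lit 16391, nat_lit 14447, nat_lit 14771, nat_lit 15095, nat_lit 14879, nat_lit 14987, nat_lit 14915, nat_lit 14935, nat_lit 34615] (nat_lit 4) [] false,
   Spec.mk (nat_lit 14935) (nat_lit 0) [nat_lit 28057, nat_lit 10561, nat_lit 16393, nat_lit 14449, nat_lit 14773, nat_lit 15097, nat_lit 14881, nat_lit 14989, nat_lit 14917, nat_lit 14941, nat_lit 14933, nat_lit 14937, nat_lit 34617] (nat_lit 3) [] false,
   Spec.mk (nat_lit 14937) (nat_lit 0) [nat_lit 28059, nat_lit 10563, nat_lit 16395, nat_lit 14451, nat_lit 14775, nat_lit 15099, nat_lit 14883, nat_lit 14991, nat_lit 14919, nat_lit 14943, nat_lit 14935] (nat_lit 4) [] false,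
   Spec.mk (nat_lit 14941) (nat_lit 0) [nat_lit 28063, nat_lit 10567, nat_lit 16399, nat_lit 14455, nat_lit 14779, nat_lit 15103, nat_lit 14887, nat_lit 14995, nat_lit 14923, nat_lit 14959, nat_lit 14935, nat_lit 14943, nat_lit 34623] (nat_lit 3) [] false,
   Spec.mk (nat_lit 14943) (nat_lit 0) [nat_lit 28065, nat_lit 10569, nat_lit 16401, nat_lit 14457, nat_lit 14781, nat_lit 15105, nat_lit 14889, nat_lit 14997, nat_lit 14925, nat_lit 14961, nat_lit 14937, nat_lit 14949, nat_lit 14941] (nat_lit 2) [] false,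
   Spec.mk (nat_lit 14949) (nat_lit 0) [nat_lit 28071, nat_lit 10575, nat_lit 16407, nat_lit 14463, nat_lit 14787, nat_lit 15111, nat_lit 14895, nat_lit 15003, nat_lit 14967, nat_lit 14943] (nat_lit 2) [] false,
   Spec.mk (nat_lit 14959) (nat_lit 0) [nat_lit 28081, nat_lit 10585, nat_lit 16417, nat_lit 14473, nat_lit 14797, nat_lit 15121, nat_lit 15013, nat_lit 14941, nat_lit 14961, nat_lit 34641] (nat_lit 3) [] false,
   Spec.mk (nat_lit 14961) (nat_lit 0) [nat_lit 28083, nat_lit 10587, nat_lit 16419, nat_lit 14475, nat_lit 14799, nat_lit 15123, nat_lit 15015, nat_lit 14943, nat_lit 14967, nat_lit 14959] (nat_lit 3) [] false,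
   Spec.mk (nat_lit 14967) (nat_lit 0) [nat_lit 28089, nat_lit 10593, nat_lit 16425, nat_lit 14481, nat_lit 14805, nat_lit 15129, nat_lit 15021, nat_lit 14949, nat_lit 14961] (nat_lit 1) [] false,
   Spec.mk (nat_lit 14987) (nat_lit 0) [nat_lit 28109, nat_lit 10613, nat_lit 16445, nat_lit 14501, nat_lit 15149, nat_lit 14933, nat_lit 14989, nat_lit 34669] (nat_lit 4) [] false,
   Spec.mk (nat_lit 14989) (nat_lit 0) [nat_lit 28111, nat_lit 10615, nat_lit 16447, nat_lit 14503, nat_lit 15151, nat_lit 14935, nat_lit 14995, nat_lit 14987, nat_lit 14991, nat_lit 34671] (nat_lit 3) [] false,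
   Spec.mk (nat_lit 14991) (nat_lit 0) [nat_lit 28113, nat_lit 10617, nat_lit 16449, nat_lit 14505, nat_lit 15153, nat_lit 14937, nat_lit 14997, nat_lit 14989] (nat_lit 4) [] false,
   Spec.mk (nat_lit 14995) (nat_lit 0) [nat_lit 28117, nat_lit 10621, nat_lit 16453, nat_lit 14509, nat_lit 15157, nat_lit 14941, nat_lit 15013, nat_lit 14989, nat_lit 14997, nat_lit 34677] (nat_lit 4) [] false,
   Spec.mk (nat_lit 14997) (nat_lit 0) [nat_lit 28119, nat_lit 10623, nat_lit 16455, nat_lit 14511, nat_lit 15159, nat_lit 14943, nat_lit 15015, nat_lit 14991, nat_lit 15003, nat_lit 14995] (nat_lit 3) [] false,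
   Spec.mk (nat_lit 15003) (nat_lit 0) [nat_lit 28125, nat_lit 10629, nat_lit 16461, nat_lit 14517, nat_lit 15165, nat_lit 14949, nat_lit 15021, nat_lit 14997] (nat_lit 4) [] false,
   Spec.mk (nat_lit 15013) (nat_lit 0) [nat_lit 28135, nat_lit 10639, nat_lit 16471, nat_lit 14527, nat_lit 15175, nat_lit 14959, nat_lit 14995, nat_lit 15015, nat_lit 34695] (nat_lit 2) [] false,
   Spec.mk (nat_lit 15015) (nat_lit 0) [nat_lit 28137, nat_lit 10641, nat_lit 16473, nat_lit 14529, nat_lit 15177, nat_lit 14961, nat_lit 14997, nat_lit 15021, nat_lit 15013] (nat_lit 2) [] false,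
   Spec.mk (nat_lit 15021) (nat_lit 0) [nat_lit 28143, nat_lit 10647, nat_lit 16479, nat_lit 14535, nat_lit 15183, nat_lit 14967, nat_lit 15003, nat_lit 15039, nat_lit 15015] (nat_lit 1) [] false,
   Spec.mk (nat_lit 15039) (nat_lit 0) [nat_lit 28161, nat_lit 10665, nat_lit 16497, nat_lit 14553, nat_lit 15201, nat_lit 15021] (nat_lit 0) [] false,
   Spec.mk (nat_lit 15071) (nat_lit 0) [nat_lit 28193, nat_lit 10697, nat_lit 16529, nat_lit 14909, nat_lit 15077, nat_lit 15073, nat_lit 34753] (nat_lit 2) [] false,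
   Spec.mk (nat_lit 15073) (nat_lit 0) [nat_lit 28195, nat_lit 10699, nat_lit 16531, nat_lit 14911, nat_lit 15079, nat_lit 15071, nat_lit 34755] (nat_lit 2) [] false,
   Spec.mk (nat_lit 15077) (nat_lit 0) [nat_lit 28199, nat_lit 10703, nat_lit 16535, nat_lit 14915, nat_lit 15095, nat_lit 15071, nat_lit 15079, nat_lit 34759] (nat_lit 4) [] false,
   Spec.mk (nat_lit 15079) (nat_lit 0) [nat_lit 28201, nat_lit 10705, nat_lit 16537, nat_lit 14917, nat_lit 15097, nat_lit 15073, nat_lit 15085, nat_lit 15077, nat_lit 15081, nat_lit 34761] (nat_lit 2) [] false,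
   Spec.mk (nat_lit 15081) (nat_lit 0) [nat_lit 28203, nat_lit 10707, nat_lit 16539, nat_lit 14919, nat_lit 15099, nat_lit 15087, nat_lit 15079] (nat_lit 2) [] false,
   Spec.mk (nat_lit 15085) (nat_lit 0) [nat_lit 28207, nat_lit 10711, nat_lit 16543, nat_lit 14923, nat_lit 15103, nat_lit 15079, nat_lit 15087, nat_lit 34767] (nat_lit 4) [] false,
   Spec.mk (nat_lit 15087) (nat_lit 0) [nat_lit 28209, nat_lit 10713, nat_lit 16545, nat_lit 14925, nat_lit 15105, nat_lit 15081, nat_lit 15085] (nat_lit 2) [] false,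
   Spec.mk (nat_lit 15095) (nat_lit 0) [nat_lit 28217, nat_lit 10721, nat_lit 16553, nat_lit 14933, nat_lit 15149, nat_lit 15077, nat_lit 15097, nat_lit 34777] (nat_lit 4) [] false,
   Spec.mk (nat_lit 15097) (nat_lit 0) [nat_lit 28219, nat_lit 10723, nat_lit 16555, nat_lit 14935, nat_lit 15151, nat_lit 15079, nat_lit 15103, nat_lit 15095, nat_lit 15099, nat_lit 34779] (nat_lit 3) [] false,
   Spec.mk (nat_lit 15099) (nat_lit 0) [nat_lit 28221, nat_lit 10725, nat_lit 16557, nat_lit 14937, nat_lit 15153, nat_lit 15081, nat_lit 15105, nat_lit 15097] (nat_lit 4) [] false,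
   Spec.mk (nat_lit 15103) (nat_lit 0) [nat_lit 28225, nat_lit 10729, nat_lit 16561, nat_lit 14941, nat_lit 15157, nat_lit 15085, nat_lit 15121, nat_lit 15097, nat_lit 15105, nat_lit 34785] (nat_lit 3) [] false,
   Spec.mk (nat_lit 15105) (nat_lit 0) [nat_lit 28227, nat_lit 10731, nat_lit 16563, nat_lit 14943, nat_lit 15159, nat_lit 15087, nat_lit 15123, nat_lit 15099, nat_lit 15111, nat_lit 15103] (nat_lit 2) [] false,
   Spec.mk (nat_lit 15111) (nat_lit 0) [nat_lit 28233, nat_lit 10737, nat_lit 16569, nat_lit 14949, nat_lit 15165, nat_lit 15129, nat_lit 15105] (nat_lit 2) [] false,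
   Spec.mk (nat_lit 15121) (nat_lit 0) [nat_lit 28243, nat_lit 10747, nat_lit 16579, nat_lit 14959, nat_lit 15175, nat_lit 15103, nat_lit 15123, nat_lit 34803] (nat_lit 4) [] false,
   Spec.mk (nat_lit 15123) (nat_lit 0) [nat_lit 28245, nat_lit 10749, nat_lit 16581, nat_lit 14961, nat_lit 15177, nat_lit 15105, nat_lit 15129, nat_lit 15121] (nat_lit 4) [] false,
   Spec.mk (nat_lit 15129) (nat_lit 0) [nat_lit 28251, nat_lit 10755, nat_lit 16587, nat_lit 14967, nat_lit 15183, nat_lit 15111, nat_lit 15123] (nat_lit 2) [] false,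
   Spec.mk (nat_lit 15149) (nat_lit 0) [nat_lit 28271, nat_lit 10775, nat_lit 16607, nat_lit 14987, nat_lit 15095, nat_lit 15151, nat_lit 34831] (nat_lit 2) [] false,
   Spec.mk (nat_lit 15151) (nat_lit 0) [nat_lit 28273, nat_lit 10777, nat_lit 16609, nat_lit 14989, nat_lit 15097, nat_lit 15157, nat_lit 15149, nat_lit 15153, nat_lit 34833] (nat_lit 1) [] false,
   Spec.mk (nat_lit 15153) (nat_lit 0) [nat_lit 28275, nat_lit 10779, nat_lit 16611, nat_lit 14991, nat_lit 15099, nat_lit 15159, nat_lit 15151] (nat_lit 2) [] false,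
   Spec.mk (nat_lit 15157) (nat_lit 0) [nat_lit 28279, nat_lit 10783, nat_lit 16615, nat_lit 14995, nat_lit 15103, nat_lit 15175, nat_lit 15151, nat_lit 15159, nat_lit 34839] (nat_lit 2) [] false,
   Spec.mk (nat_lit 15159) (nat_lit 0) [nat_lit 28281, nat_lit 10785, nat_lit 16617, nat_lit 14997, nat_lit 15105, nat_lit 15177, nat_lit 15153, nat_lit 15165, nat_lit 15157] (nat_lit 1) [] false,
   Spec.mk (nat_lit 15165) (nat_lit 0) [nat_lit 28287, nat_lit 10791, nat_lit 16623, nat_lit 15003, nat_lit 15111, nat_lit 15183, nat_lit 15159] (nat_lit 2) [] false,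
   Spec.mk (nat_lit 15175) (nat_lit 0) [nat_lit 28297, nat_lit 10801, nat_lit 16633, nat_lit 15013, nat_lit 15121, nat_lit 15229, nat_lit 15157, nat_lit 15177, nat_lit 34857] (nat_lit 1) [] false,
   Spec.mk (nat_lit 15177) (nat_lit 0) [nat_lit 28299, nat_lit 10803, nat_lit 16635, nat_lit 15015, nat_lit 15123, nat_lit 15231, nat_lit 15159, nat_lit 15183, nat_lit 15175] (nat_lit 1) [] false,
   Spec.mk (nat_lit 15183) (nat_lit 0) [nat_lit 28305, nat_lit 10809, nat_lit 16641, nat_lit 15021, nat_lit 15129, nat_lit 15237, nat_lit 15165, nat_lit 15201, nat_lit 15177] (nat_lit 0) [] false,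
   Spec.mk (nat_lit 15201) (nat_lit 0) [nat_lit 28323, nat_lit 10827, nat_lit 16659, nat_lit 15039, nat_lit 15255, nat_lit 15183] (nat_lit 0) [] false,
   Spec.mk (nat_lit 15229) (nat_lit 0) [nat_lit 28351, nat_lit 10855, nat_lit 16687, nat_lit 15175, nat_lit 15231, nat_lit 34911] (nat_lit 0) [] false,
   Spec.mk (nat_lit 15231) (nat_lit 0) [nat_lit 28353, nat_lit 10857, nat_lit 16689, nat_lit 15177, nat_lit 15237, nat_lit 15229] (nat_lit 0) [] false,
   Spec.mk (nat_lit 15237) (nat_lit 0) [nat_lit 28359, nat_lit 10863, nat_lit 16695, nat_lit 15183, nat_lit 15255, nat_lit 15231] (nat_lit 0) [] false,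
   Spec.mk (nat_lit 15255) (nat_lit 2) [nat_lit 28377, nat_lit 10881, nat_lit 16713, nat_lit 15201, nat_lit 15237] (nat_lit 0) [] false,
   Spec.mk (nat_lit 15335) (nat_lit 2) [nat_lit 28457, nat_lit 10961, nat_lit 13877, nat_lit 15353, nat_lit 35017] (nat_lit 0) [] false,
   Spec.mk (nat_lit 15353) (nat_lit 1) [nat_lit 28475, nat_lit 10979, nat_lit 13895, nat_lit 15407, nat_lit 15335, nat_lit 15371, nat_lit 15359, nat_lit 35035] (nat_lit 0) [] false,
   Spec.mk (nat_lit 15359) (nat_lit 0) [nat_lit 28481, nat_lit 10985, nat_lit 13901, nat_lit 15413, nat_lit 15377, nat_lit 15353, nat_lit 15361, nat_lit 35041] (nat_lit 0) [] false,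
   Spec.mk (nat_lit 15361) (nat_lit 2) [nat_lit 28483, nat_lit 10987, nat_lit 13903, nat_lit 15415, nat_lit 15379, nat_lit 15359, nat_lit 35043] (nat_lit 0) [] false]

noncomputable def sp42 : List Spec :=
  [Spec.mk (nat_lit 15371) (nat_lit 0) [nat_lit 28493, nat_lit 10997, nat_lit 13913, nat_lit 15425, nat_lit 15353, nat_lit 15377, nat_lit 35053] (nat_lit 2) [] false,
   Spec.mk (nat_lit 15377) (nat_lit 0) [nat_lit 28499, nat_lit 11003, nat_lit 13919, nat_lit 15431, nat_lit 15359, nat_lit 15371, nat_lit 15383, nat_lit 15379, nat_lit 35059] (nat_lit 1) [] false,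
   Spec.mk (nat_lit 15379) (nat_lit 0) [nat_lit 28501, nat_lit 11005, nat_lit 13921, nat_lit 15433, nat_lit 15361, nat_lit 15385, nat_lit 15377, nat_lit 35061] (nat_lit 0) [] false,
   Spec.mk (nat_lit 15383) (nat_lit 0) [nat_lit 28505, nat_lit 11009, nat_lit 13925, nat_lit 15437, nat_lit 15377, nat_lit 15385, nat_lit 35065] (nat_lit 2) [] false,
   Spec.mk (nat_lit 15385) (nat_lit 1) [nat_lit 28507, nat_lit 11011, nat_lit 13927, nat_lit 15439, nat_lit 15379, nat_lit 15383, nat_lit 15387, nat_lit 35067] (nat_lit 0) [] false,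
   Spec.mk (nat_lit 15387) (nat_lit 2) [nat_lit 28509, nat_lit 11013, nat_lit 13929, nat_lit 15441, nat_lit 15385] (nat_lit 0) [] false,
   Spec.mk (nat_lit 15407) (nat_lit 0) [nat_lit 28529, nat_lit 11033, nat_lit 13949, nat_lit 15569, nat_lit 15353, nat_lit 15425, nat_lit 15413, nat_lit 35089] (nat_lit 0) [] false,
   Spec.mk (nat_lit 15413) (nat_lit 0) [nat_lit 28535, nat_lit 11039, nat_lit 13955, nat_lit 15575, nat_lit 15359, nat_lit 15431, nat_lit 15407, nat_lit 15415, nat_lit 35095] (nat_lit 2) [] false,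
   Spec.mk (nat_lit 15415) (nat_lit 0) [nat_lit 28537, nat_lit 11041, nat_lit 13957, nat_lit 15577, nat_lit 15361, nat_lit 15433, nat_lit 15413, nat_lit 35097] (nat_lit 0) [] false,
   Spec.mk (nat_lit 15425) (nat_lit 0) [nat_lit 28547, nat_lit 11051, nat_lit 13967, nat_lit 15587, nat_lit 15371, nat_lit 15479, nat_lit 15407, nat_lit 15431, nat_lit 35107] (nat_lit 1) [] false,
   Spec.mk (nat_lit 15431) (nat_lit 0) [nat_lit 28553, nat_lit 11057, nat_lit 13973, nat_lit 15593, nat_lit 15377, nat_lit 15485, nat_lit 15413, nat_lit 15449, nat_lit 15425, nat_lit 15437, nat_lit 15433, nat_lit 35113] (nat_lit 1) [] false,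
   Spec.mk (nat_lit 15433) (nat_lit 0) [nat_lit 28555, nat_lit 11059, nat_lit 13975, nat_lit 15595, nat_lit 15379, nat_lit 15487, nat_lit 15415, nat_lit 15451, nat_lit 15439, nat_lit 15431, nat_lit 35115] (nat_lit 0) [] false,
   Spec.mk (nat_lit 15437) (nat_lit 0) [nat_lit 28559, nat_lit 11063, nat_lit 13979, nat_lit 15599, nat_lit 15383, nat_lit 15491, nat_lit 15455, nat_lit 15431, nat_lit 15439, nat_lit 35119] (nat_lit 3) [] false,
   Spec.mk (nat_lit 15439) (nat_lit 0) [nat_lit 28561, nat_lit 11065, nat_lit 13981, nat_lit 15601, nat_lit 15385, nat_lit 15493, nat_lit 15457, nat_lit 15433, nat_lit 15437, nat_lit 15441, nat_lit 35121] (nat_lit 0) [] false,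
   Spec.mk (nat_lit 15441) (nat_lit 1) [nat_lit 28563, nat_lit 11067, nat_lit 13983, nat_lit 15603, nat_lit 15387, nat_lit 15495, nat_lit 15459, nat_lit 15439] (nat_lit 0) [] false,
   Spec.mk (nat_lit 15449) (nat_lit 0) [nat_lit 28571, nat_lit 11075, nat_lit 13991, nat_lit 15611, nat_lit 15503, nat_lit 15431, nat_lit 15455, nat_lit 15451, nat_lit 35131] (nat_lit 2) [] false,
   Spec.mk (nat_lit 15451) (nat_lit 0) [nat_lit 28573, nat_lit 11077, nat_lit 13993, nat_lit 15613, nat_lit 15505, nat_lit 15433, nat_lit 15457, nat_lit 15449, nat_lit 35133] (nat_lit 2) [] false,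
   Spec.mk (nat_lit 15455) (nat_lit 0) [nat_lit 28577, nat_lit 11081, nat_lit 13997, nat_lit 15617, nat_lit 15509, nat_lit 15437, nat_lit 15449, nat_lit 15457, nat_lit 35137] (nat_lit 2) [] false,
   Spec.mk (nat_lit 15457) (nat_lit 0) [nat_lit 28579, nat_lit 11083, nat_lit 13999, nat_lit 15619, nat_lit 15511, nat_lit 15439, nat_lit 15451, nat_lit 15463, nat_lit 15455, nat_lit 15459, nat_lit 35139] (nat_lit 0) [] false,
   Spec.mk (nat_lit 15459) (nat_lit 0) [nat_lit 28581, nat_lit 11085, nat_lit 14001, nat_lit 15621, nat_lit 15513, nat_lit 15441, nat_lit 15465, nat_lit 15457] (nat_lit 0) [] false,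
   Spec.mk (nat_lit 15463) (nat_lit 0) [nat_lit 28585, nat_lit 11089, nat_lit 14005, nat_lit 15625, nat_lit 15517, nat_lit 15457, nat_lit 15465, nat_lit 35145] (nat_lit 0) [] false,
   Spec.mk (nat_lit 15465) (nat_lit 2) [nat_lit 28587, nat_lit 11091, nat_lit 14007, nat_lit 15627, nat_lit 15519, nat_lit 15459, nat_lit 15463] (nat_lit 0) [] false,
   Spec.mk (nat_lit 15479) (nat_lit 0) [nat_lit 28601, nat_lit 11105, nat_lit 14021, nat_lit 15641, nat_lit 15425, nat_lit 15485, nat_lit 35161] (nat_lit 2) [] false,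
   Spec.mk (nat_lit 15485) (nat_lit 0) [nat_lit 28607, nat_lit 11111, nat_lit 14027, nat_lit 15647, nat_lit 15431, nat_lit 15503, nat_lit 15479, nat_lit 15491, nat_lit 15487, nat_lit 35167] (nat_lit 3) [] false,
   Spec.mk (nat_lit 15487) (nat_lit 0) [nat_lit 28609, nat_lit 11113, nat_lit 14029, nat_lit 15649, nat_lit 15433, nat_lit 15505, nat_lit 15493, nat_lit 15485, nat_lit 35169] (nat_lit 2) [] false,
   Spec.mk (nat_lit 15491) (nat_lit 0) [nat_lit 28613, nat_lit 11117, nat_lit 14033, nat_lit 15653, nat_lit 15437, nat_lit 15509, nat_lit 15485, nat_lit 15493, nat_lit 35173] (nat_lit 6) [] false,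
   Spec.mk (nat_lit 15493) (nat_lit 0) [nat_lit 28615, nat_lit 11119, nat_lit 14035, nat_lit 15655, nat_lit 15439, nat_lit 15511, nat_lit 15487, nat_lit 15491, nat_lit 15495, nat_lit 35175] (nat_lit 3) [] false,
   Spec.mk (nat_lit 15495) (nat_lit 0) [nat_lit 28617, nat_lit 11121, nat_lit 14037, nat_lit 15657, nat_lit 15441, nat_lit 15513, nat_lit 15493] (nat_lit 2) [] false,
   Spec.mk (nat_lit 15503) (nat_lit 0) [nat_lit 28625, nat_lit 11129, nat_lit 14045, nat_lit 15665, nat_lit 15449, nat_lit 15485, nat_lit 15509, nat_lit 15505, nat_lit 35185] (nat_lit 2) [] false,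
   Spec.mk (nat_lit 15505) (nat_lit 0) [nat_lit 28627, nat_lit 11131, nat_lit 14047, nat_lit 15667, nat_lit 15451, nat_lit 15487, nat_lit 15511, nat_lit 15503, nat_lit 35187] (nat_lit 2) [] false,
   Spec.mk (nat_lit 15509) (nat_lit 0) [nat_lit 28631, nat_lit 11135, nat_lit 14051, nat_lit 15671, nat_lit 15455, nat_lit 15491, nat_lit 15527, nat_lit 15503, nat_lit 15511, nat_lit 35191] (nat_lit 3) [] false,
   Spec.mk (nat_lit 15511) (nat_lit 0) [nat_lit 28633, nat_lit 11137, nat_lit 14053, nat_lit 15673, nat_lit 15457, nat_lit 15493, nat_lit 15529, nat_lit 15505, nat_lit 15517, nat_lit 15509, nat_lit 15513, nat_lit 35193] (nat_lit 1) [] false,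
   Spec.mk (nat_lit 15513) (nat_lit 0) [nat_lit 28635, nat_lit 11139, nat_lit 14055, nat_lit 15675, nat_lit 15459, nat_lit 15495, nat_lit 15531, nat_lit 15519, nat_lit 15511] (nat_lit 1) [] false,
   Spec.mk (nat_lit 15517) (nat_lit 0) [nat_lit 28639, nat_lit 11143, nat_lit 14059, nat_lit 15679, nat_lit 15463, nat_lit 15535, nat_lit 15511, nat_lit 15519, nat_lit 35199] (nat_lit 2) [] false,
   Spec.mk (nat_lit 15519) (nat_lit 0) [nat_lit 28641, nat_lit 11145, nat_lit 14061, nat_lit 15681, nat_lit 15465, nat_lit 15537, nat_lit 15513, nat_lit 15517] (nat_lit 0) [] false,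
   Spec.mk (nat_lit 15527) (nat_lit 0) [nat_lit 28649, nat_lit 11153, nat_lit 14069, nat_lit 15689, nat_lit 15509, nat_lit 15529, nat_lit 35209] (nat_lit 2) [] false,
   Spec.mk (nat_lit 15529) (nat_lit 0) [nat_lit 28651, nat_lit 11155, nat_lit 14071, nat_lit 15691, nat_lit 15511, nat_lit 15535, nat_lit 15527, nat_lit 15531, nat_lit 35211] (nat_lit 1) [] false,
   Spec.mk (nat_lit 15531) (nat_lit 0) [nat_lit 28653, nat_lit 11157, nat_lit 14073, nat_lit 15693, nat_lit 15513, nat_lit 15537, nat_lit 15529] (nat_lit 2) [] false,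
   Spec.mk (nat_lit 15535) (nat_lit 0) [nat_lit 28657, nat_lit 11161, nat_lit 14077, nat_lit 15697, nat_lit 15517, nat_lit 15529, nat_lit 15537, nat_lit 35217] (nat_lit 0) [] false,
   Spec.mk (nat_lit 15537) (nat_lit 1) [nat_lit 28659, nat_lit 11163, nat_lit 14079, nat_lit 15699, nat_lit 15519, nat_lit 15531, nat_lit 15543, nat_lit 15535] (nat_lit 0) [] false,
   Spec.mk (nat_lit 15543) (nat_lit 2) [nat_lit 28665, nat_lit 11169, nat_lit 14085, nat_lit 15705, nat_lit 15537] (nat_lit 0) [] false,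
   Spec.mk (nat_lit 15569) (nat_lit 0) [nat_lit 28691, nat_lit 11195, nat_lit 14111, nat_lit 16055, nat_lit 15407, nat_lit 15587, nat_lit 15575, nat_lit 35251] (nat_lit 0) [] false,
   Spec.mk (nat_lit 15575) (nat_lit 0) [nat_lit 28697, nat_lit 11201, nat_lit 14117, nat_lit 16061, nat_lit 15413, nat_lit 15593, nat_lit 15569, nat_lit 15577, nat_lit 35257] (nat_lit 2) [] false,
   Spec.mk (nat_lit 15577) (nat_lit 0) [nat_lit 28699, nat_lit 11203, nat_lit 14119, nat_lit 16063, nat_lit 15415, nat_lit 15595, nat_lit 15575, nat_lit 35259] (nat_lit 0) [] false,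
   Spec.mk (nat_lit 15587) (nat_lit 0) [nat_lit 28709, nat_lit 11213, nat_lit 14129, nat_lit 16073, nat_lit 15425, nat_lit 15641, nat_lit 15569, nat_lit 15593, nat_lit 35269] (nat_lit 2) [] false,
   Spec.mk (nat_lit 15593) (nat_lit 0) [nat_lit 28715, nat_lit 11219, nat_lit 14135, nat_lit 16079, nat_lit 15431, nat_lit 15647, nat_lit 15575, nat_lit 15611, nat_lit 15587, nat_lit 15599, nat_lit 15595, nat_lit 35275] (nat_lit 2) [] false,
   Spec.mk (nat_lit 15595) (nat_lit 0) [nat_lit 28717, nat_lit 11221, nat_lit 14137, nat_lit 16081, nat_lit 15433, nat_lit 15649, nat_lit 15577, nat_lit 15613, nat_lit 15601, nat_lit 15593, nat_lit 35277] (nat_lit 1) [] false,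
   Spec.mk (nat_lit 15599) (nat_lit 0) [nat_lit 28721, nat_lit 11225, nat_lit 14141, nat_lit 16085, nat_lit 15437, nat_lit 15653, nat_lit 15617, nat_lit 15593, nat_lit 15601, nat_lit 35281] (nat_lit 4) [] false,
   Spec.mk (nat_lit 15601) (nat_lit 0) [nat_lit 28723, nat_lit 11227, nat_lit 14143, nat_lit 16087, nat_lit 15439, nat_lit 15655, nat_lit 15619, nat_lit 15595, nat_lit 15599, nat_lit 15603, nat_lit 35283] (nat_lit 1) [] false,
   Spec.mk (nat_lit 15603) (nat_lit 0) [nat_lit 28725, nat_lit 11229, nat_lit 14145, nat_lit 16089, nat_lit 15441, nat_lit 15657, nat_lit 15621, nat_lit 15601] (nat_lit 0) [] false,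
   Spec.mk (nat_lit 15611) (nat_lit 0) [nat_lit 28733, nat_lit 11237, nat_lit 14153, nat_lit 16097, nat_lit 15449, nat_lit 15665, nat_lit 15593, nat_lit 15617, nat_lit 15613, nat_lit 35293] (nat_lit 4) [] false,
   Spec.mk (nat_lit 15613) (nat_lit 0) [nat_lit 28735, nat_lit 11239, nat_lit 14155, nat_lit 16099, nat_lit 15451, nat_lit 15667, nat_lit 15595, nat_lit 15619, nat_lit 15611, nat_lit 35295] (nat_lit 4) [] false,
   Spec.mk (nat_lit 15617) (nat_lit 0) [nat_lit 28739, nat_lit 11243, nat_lit 14159, nat_lit 16103, nat_lit 15455, nat_lit 15671, nat_lit 15599, nat_lit 15611, nat_lit 15619, nat_lit 35299] (nat_lit 4) [] false,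
   Spec.mk (nat_lit 15619) (nat_lit 0) [nat_lit 28741, nat_lit 11245, nat_lit 14161, nat_lit 16105, nat_lit 15457, nat_lit 15673, nat_lit 15601, nat_lit 15613, nat_lit 15625, nat_lit 15617, nat_lit 15621, nat_lit 35301] (nat_lit 2) [] false,
   Spec.mk (nat_lit 15621) (nat_lit 0) [nat_lit 28743, nat_lit 11247, nat_lit 14163, nat_lit 16107, nat_lit 15459, nat_lit 15675, nat_lit 15603, nat_lit 15627, nat_lit 15619] (nat_lit 2) [] false,
   Spec.mk (nat_lit 15625) (nat_lit 0) [nat_lit 28747, nat_lit 11251, nat_lit 14167, nat_lit 16111, nat_lit 15463, nat_lit 15679, nat_lit 15619, nat_lit 15627, nat_lit 35307] (nat_lit 2) [] false,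
   Spec.mk (nat_lit 15627) (nat_lit 0) [nat_lit 28749, nat_lit 11253, nat_lit 14169, nat_lit 16113, nat_lit 15465, nat_lit 15681, nat_lit 15621, nat_lit 15625] (nat_lit 0) [] false,
   Spec.mk (nat_lit 15641) (nat_lit 0) [nat_lit 28763, nat_lit 11267, nat_lit 14183, nat_lit 16127, nat_lit 15479, nat_lit 15803, nat_lit 15587, nat_lit 15647, nat_lit 35323] (nat_lit 1) [] false,
   Spec.mk (nat_lit 15647) (nat_lit 0) [nat_lit 28769, nat_lit 11273, nat_lit 14189, nat_lit 16133, nat_lit 15485, nat_lit 15809, nat_lit 15593, nat_lit 15665, nat_lit 15641, nat_lit 15653, nat_lit 15649, nat_lit 35329] (nat_lit 2) [] false,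
   Spec.mk (nat_lit 15649) (nat_lit 0) [nat_lit 28771, nat_lit 11275, nat_lit 14191, nat_lit 16135, nat_lit 15487, nat_lit 15811, nat_lit 15595, nat_lit 15667, nat_lit 15655, nat_lit 15647, nat_lit 35331] (nat_lit 1) [] false]

noncomputable def sp43 : List Spec :=
  [Spec.mk (nat_lit 15653) (nat_lit 0) [nat_lit 28775, nat_lit 11279, nat_lit 14195, nat_lit 16139, nat_lit 15491, nat_lit 15815, nat_lit 15599, nat_lit 15671, nat_lit 15647, nat_lit 15655, nat_lit 35335] (nat_lit 5) [] false,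
   Spec.mk (nat_lit 15655) (nat_lit 0) [nat_lit 28777, nat_lit 11281, nat_lit 14197, nat_lit 16141, nat_lit 15493, nat_lit 15817, nat_lit 15601, nat_lit 15673, nat_lit 15649, nat_lit 15653, nat_lit 15657, nat_lit 35337] (nat_lit 2) [] false,
   Spec.mk (nat_lit 15657) (nat_lit 0) [nat_lit 28779, nat_lit 11283, nat_lit 14199, nat_lit 16143, nat_lit 15495, nat_lit 15819, nat_lit 15603, nat_lit 15675, nat_lit 15655] (nat_lit 1) [] false,
   Spec.mk (nat_lit 15665) (nat_lit 0) [nat_lit 28787, nat_lit 11291, nat_lit 14207, nat_lit 16151, nat_lit 15503, nat_lit 15827, nat_lit 15611, nat_lit 15719, nat_lit 15647, nat_lit 15671, nat_lit 15667, nat_lit 35347] (nat_lit 2) [] false,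
   Spec.mk (nat_lit 15667) (nat_lit 0) [nat_lit 28789, nat_lit 11293, nat_lit 14209, nat_lit 16153, nat_lit 15505, nat_lit 15829, nat_lit 15613, nat_lit 15721, nat_lit 15649, nat_lit 15673, nat_lit 15665, nat_lit 35349] (nat_lit 2) [] false,
   Spec.mk (nat_lit 15671) (nat_lit 0) [nat_lit 28793, nat_lit 11297, nat_lit 14213, nat_lit 16157, nat_lit 15509, nat_lit 15833, nat_lit 15617, nat_lit 15725, nat_lit 15653, nat_lit 15689, nat_lit 15665, nat_lit 15673, nat_lit 35353] (nat_lit 3) [] false,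
   Spec.mk (nat_lit 15673) (nat_lit 0) [nat_lit 28795, nat_lit 11299, nat_lit 14215, nat_lit 16159, nat_lit 15511, nat_lit 15835, nat_lit 15619, nat_lit 15727, nat_lit 15655, nat_lit 15691, nat_lit 15667, nat_lit 15679, nat_lit 15671, nat_lit 15675, nat_lit 35355] (nat_lit 1) [] false,
   Spec.mk (nat_lit 15675) (nat_lit 0) [nat_lit 28797, nat_lit 11301, nat_lit 14217, nat_lit 16161, nat_lit 15513, nat_lit 15837, nat_lit 15621, nat_lit 15729, nat_lit 15657, nat_lit 15693, nat_lit 15681, nat_lit 15673] (nat_lit 1) [] false,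
   Spec.mk (nat_lit 15679) (nat_lit 0) [nat_lit 28801, nat_lit 11305, nat_lit 14221, nat_lit 16165, nat_lit 15517, nat_lit 15841, nat_lit 15625, nat_lit 15733, nat_lit 15697, nat_lit 15673, nat_lit 15681, nat_lit 35361] (nat_lit 2) [] false,
   Spec.mk (nat_lit 15681) (nat_lit 0) [nat_lit 28803, nat_lit 11307, nat_lit 14223, nat_lit 16167, nat_lit 15519, nat_lit 15843, nat_lit 15627, nat_lit 15735, nat_lit 15699, nat_lit 15675, nat_lit 15679] (nat_lit 0) [] false,
   Spec.mk (nat_lit 15689) (nat_lit 0) [nat_lit 28811, nat_lit 11315, nat_lit 14231, nat_lit 16175, nat_lit 15527, nat_lit 15851, nat_lit 15743, nat_lit 15671, nat_lit 15691, nat_lit 35371] (nat_lit 3) [] false,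
   Spec.mk (nat_lit 15691) (nat_lit 0) [nat_lit 28813, nat_lit 11317, nat_lit 14233, nat_lit 16177, nat_lit 15529, nat_lit 15853, nat_lit 15745, nat_lit 15673, nat_lit 15697, nat_lit 15689, nat_lit 15693, nat_lit 35373] (nat_lit 2) [] false,
   Spec.mk (nat_lit 15693) (nat_lit 0) [nat_lit 28815, nat_lit 11319, nat_lit 14235, nat_lit 16179, nat_lit 15531, nat_lit 15855, nat_lit 15747, nat_lit 15675, nat_lit 15699, nat_lit 15691] (nat_lit 3) [] false,
   Spec.mk (nat_lit 15697) (nat_lit 0) [nat_lit 28819, nat_lit 11323, nat_lit 14239, nat_lit 16183, nat_lit 15535, nat_lit 15859, nat_lit 15751, nat_lit 15679, nat_lit 15691, nat_lit 15699, nat_lit 35379] (nat_lit 1) [] false,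
   Spec.mk (nat_lit 15699) (nat_lit 0) [nat_lit 28821, nat_lit 11325, nat_lit 14241, nat_lit 16185, nat_lit 15537, nat_lit 15861, nat_lit 15753, nat_lit 15681, nat_lit 15693, nat_lit 15705, nat_lit 15697] (nat_lit 0) [] false,
   Spec.mk (nat_lit 15705) (nat_lit 1) [nat_lit 28827, nat_lit 11331, nat_lit 14247, nat_lit 16191, nat_lit 15543, nat_lit 15867, nat_lit 15759, nat_lit 15699] (nat_lit 0) [] false,
   Spec.mk (nat_lit 15719) (nat_lit 0) [nat_lit 28841, nat_lit 11345, nat_lit 14261, nat_lit 16205, nat_lit 15881, nat_lit 15665, nat_lit 15725, nat_lit 15721, nat_lit 35401] (nat_lit 2) [] false,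
   Spec.mk (nat_lit 15721) (nat_lit 0) [nat_lit 28843, nat_lit 11347, nat_lit 14263, nat_lit 16207, nat_lit 15883, nat_lit 15667, nat_lit 15727, nat_lit 15719, nat_lit 35403] (nat_lit 2) [] false,
   Spec.mk (nat_lit 15725) (nat_lit 0) [nat_lit 28847, nat_lit 11351, nat_lit 14267, nat_lit 16211, nat_lit 15887, nat_lit 15671, nat_lit 15743, nat_lit 15719, nat_lit 15727, nat_lit 35407] (nat_lit 4) [] false,
   Spec.mk (nat_lit 15727) (nat_lit 0) [nat_lit 28849, nat_lit 11353, nat_lit 14269, nat_lit 16213, nat_lit 15889, nat_lit 15673, nat_lit 15745, nat_lit 15721, nat_lit 15733, nat_lit 15725, nat_lit 15729, nat_lit 35409] (nat_lit 2) [] false,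
   Spec.mk (nat_lit 15729) (nat_lit 0) [nat_lit 28851, nat_lit 11355, nat_lit 14271, nat_lit 16215, nat_lit 15891, nat_lit 15675, nat_lit 15747, nat_lit 15735, nat_lit 15727] (nat_lit 2) [] false,
   Spec.mk (nat_lit 15733) (nat_lit 0) [nat_lit 28855, nat_lit 11359, nat_lit 14275, nat_lit 16219, nat_lit 15895, nat_lit 15679, nat_lit 15751, nat_lit 15727, nat_lit 15735, nat_lit 35415] (nat_lit 4) [] false,
   Spec.mk (nat_lit 15735) (nat_lit 0) [nat_lit 28857, nat_lit 11361, nat_lit 14277, nat_lit 16221, nat_lit 15897, nat_lit 15681, nat_lit 15753, nat_lit 15729, nat_lit 15733] (nat_lit 2) [] false,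
   Spec.mk (nat_lit 15743) (nat_lit 0) [nat_lit 28865, nat_lit 11369, nat_lit 14285, nat_lit 16229, nat_lit 15905, nat_lit 15689, nat_lit 15725, nat_lit 15745, nat_lit 35425] (nat_lit 2) [] false,
   Spec.mk (nat_lit 15745) (nat_lit 0) [nat_lit 28867, nat_lit 11371, nat_lit 14287, nat_lit 16231, nat_lit 15907, nat_lit 15691, nat_lit 15727, nat_lit 15751, nat_lit 15743, nat_lit 15747, nat_lit 35427] (nat_lit 1) [] false,
   Spec.mk (nat_lit 15747) (nat_lit 0) [nat_lit 28869, nat_lit 11373, nat_lit 14289, nat_lit 16233, nat_lit 15909, nat_lit 15693, nat_lit 15729, nat_lit 15753, nat_lit 15745] (nat_lit 2) [] false,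
   Spec.mk (nat_lit 15751) (nat_lit 0) [nat_lit 28873, nat_lit 11377, nat_lit 14293, nat_lit 16237, nat_lit 15913, nat_lit 15697, nat_lit 15733, nat_lit 15769, nat_lit 15745, nat_lit 15753, nat_lit 35433] (nat_lit 1) [] false,
   Spec.mk (nat_lit 15753) (nat_lit 0) [nat_lit 28875, nat_lit 11379, nat_lit 14295, nat_lit 16239, nat_lit 15915, nat_lit 15699, nat_lit 15735, nat_lit 15771, nat_lit 15747, nat_lit 15759, nat_lit 15751] (nat_lit 0) [] false,
   Spec.mk (nat_lit 15759) (nat_lit 0) [nat_lit 28881, nat_lit 11385, nat_lit 14301, nat_lit 16245, nat_lit 15921, nat_lit 15705, nat_lit 15777, nat_lit 15753] (nat_lit 0) [] false,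
   Spec.mk (nat_lit 15769) (nat_lit 0) [nat_lit 28891, nat_lit 11395, nat_lit 14311, nat_lit 16255, nat_lit 15931, nat_lit 15751, nat_lit 15771, nat_lit 35451] (nat_lit 0) [] false,
   Spec.mk (nat_lit 15771) (nat_lit 0) [nat_lit 28893, nat_lit 11397, nat_lit 14313, nat_lit 16257, nat_lit 15933, nat_lit 15753, nat_lit 15777, nat_lit 15769] (nat_lit 0) [] false,
   Spec.mk (nat_lit 15777) (nat_lit 2) [nat_lit 28899, nat_lit 11403, nat_lit 14319, nat_lit 16263, nat_lit 15939, nat_lit 15759, nat_lit 15771] (nat_lit 0) [] false,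
   Spec.mk (nat_lit 15803) (nat_lit 0) [nat_lit 28925, nat_lit 11429, nat_lit 14345, nat_lit 16289, nat_lit 15641, nat_lit 15809, nat_lit 35485] (nat_lit 2) [] false,
   Spec.mk (nat_lit 15809) (nat_lit 0) [nat_lit 28931, nat_lit 11435, nat_lit 14351, nat_lit 16295, nat_lit 15647, nat_lit 15827, nat_lit 15803, nat_lit 15815, nat_lit 15811, nat_lit 35491] (nat_lit 3) [] false,
   Spec.mk (nat_lit 15811) (nat_lit 0) [nat_lit 28933, nat_lit 11437, nat_lit 14353, nat_lit 16297, nat_lit 15649, nat_lit 15829, nat_lit 15817, nat_lit 15809, nat_lit 35493] (nat_lit 2) [] false,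
   Spec.mk (nat_lit 15815) (nat_lit 0) [nat_lit 28937, nat_lit 11441, nat_lit 14357, nat_lit 16301, nat_lit 15653, nat_lit 15833, nat_lit 15809, nat_lit 15817, nat_lit 35497] (nat_lit 6) [] false,
   Spec.mk (nat_lit 15817) (nat_lit 0) [nat_lit 28939, nat_lit 11443, nat_lit 14359, nat_lit 16303, nat_lit 15655, nat_lit 15835, nat_lit 15811, nat_lit 15815, nat_lit 15819, nat_lit 35499] (nat_lit 3) [] false,
   Spec.mk (nat_lit 15819) (nat_lit 0) [nat_lit 28941, nat_lit 11445, nat_lit 14361, nat_lit 16305, nat_lit 15657, nat_lit 15837, nat_lit 15817] (nat_lit 2) [] false,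
   Spec.mk (nat_lit 15827) (nat_lit 0) [nat_lit 28949, nat_lit 11453, nat_lit 14369, nat_lit 16313, nat_lit 15665, nat_lit 15881, nat_lit 15809, nat_lit 15833, nat_lit 15829, nat_lit 35509] (nat_lit 4) [] false,
   Spec.mk (nat_lit 15829) (nat_lit 0) [nat_lit 28951, nat_lit 11455, nat_lit 14371, nat_lit 16315, nat_lit 15667, nat_lit 15883, nat_lit 15811, nat_lit 15835, nat_lit 15827, nat_lit 35511] (nat_lit 4) [] false,
   Spec.mk (nat_lit 15833) (nat_lit 0) [nat_lit 28955, nat_lit 11459, nat_lit 14375, nat_lit 16319, nat_lit 15671, nat_lit 15887, nat_lit 15815, nat_lit 15851, nat_lit 15827, nat_lit 15835, nat_lit 35515] (nat_lit 5) [] false,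
   Spec.mk (nat_lit 15835) (nat_lit 0) [nat_lit 28957, nat_lit 11461, nat_lit 14377, nat_lit 16321, nat_lit 15673, nat_lit 15889, nat_lit 15817, nat_lit 15853, nat_lit 15829, nat_lit 15841, nat_lit 15833, nat_lit 15837, nat_lit 35517] (nat_lit 3) [] false,
   Spec.mk (nat_lit 15837) (nat_lit 0) [nat_lit 28959, nat_lit 11463, nat_lit 14379, nat_lit 16323, nat_lit 15675, nat_lit 15891, nat_lit 15819, nat_lit 15855, nat_lit 15843, nat_lit 15835] (nat_lit 3) [] false,
   Spec.mk (nat_lit 15841) (nat_lit 0) [nat_lit 28963, nat_lit 11467, nat_lit 14383, nat_lit 16327, nat_lit 15679, nat_lit 15895, nat_lit 15859, nat_lit 15835, nat_lit 15843, nat_lit 35523] (nat_lit 4) [] false,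
   Spec.mk (nat_lit 15843) (nat_lit 0) [nat_lit 28965, nat_lit 11469, nat_lit 14385, nat_lit 16329, nat_lit 15681, nat_lit 15897, nat_lit 15861, nat_lit 15837, nat_lit 15841] (nat_lit 2) [] false,
   Spec.mk (nat_lit 15851) (nat_lit 0) [nat_lit 28973, nat_lit 11477, nat_lit 14393, nat_lit 16337, nat_lit 15689, nat_lit 15905, nat_lit 15833, nat_lit 15853, nat_lit 35533] (nat_lit 6) [] false,
   Spec.mk (nat_lit 15853) (nat_lit 0) [nat_lit 28975, nat_lit 11479, nat_lit 14395, nat_lit 16339, nat_lit 15691, nat_lit 15907, nat_lit 15835, nat_lit 15859, nat_lit 15851, nat_lit 15855, nat_lit 35535] (nat_lit 5) [] false,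
   Spec.mk (nat_lit 15855) (nat_lit 0) [nat_lit 28977, nat_lit 11481, nat_lit 14397, nat_lit 16341, nat_lit 15693, nat_lit 15909, nat_lit 15837, nat_lit 15861, nat_lit 15853] (nat_lit 6) [] false,
   Spec.mk (nat_lit 15859) (nat_lit 0) [nat_lit 28981, nat_lit 11485, nat_lit 14401, nat_lit 16345, nat_lit 15697, nat_lit 15913, nat_lit 15841, nat_lit 15853, nat_lit 15861, nat_lit 35541] (nat_lit 4) [] false,
   Spec.mk (nat_lit 15861) (nat_lit 0) [nat_lit 28983, nat_lit 11487, nat_lit 14403, nat_lit 16347, nat_lit 15699, nat_lit 15915, nat_lit 15843, nat_lit 15855, nat_lit 15867, nat_lit 15859] (nat_lit 3) [] false,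
   Spec.mk (nat_lit 15867) (nat_lit 0) [nat_lit 28989, nat_lit 11493, nat_lit 14409, nat_lit 16353, nat_lit 15705, nat_lit 15921, nat_lit 15861] (nat_lit 2) [] false,
   Spec.mk (nat_lit 15881) (nat_lit 0) [nat_lit 29003, nat_lit 11507, nat_lit 14423, nat_lit 16367, nat_lit 15719, nat_lit 15827, nat_lit 15887, nat_lit 15883, nat_lit 35563] (nat_lit 2) [] false,
   Spec.mk (nat_lit 15883) (nat_lit 0) [nat_lit 29005, nat_lit 11509, nat_lit 14425, nat_lit 16369, nat_lit 15721, nat_lit 15829, nat_lit 15889, nat_lit 15881, nat_lit 35565] (nat_lit 2) [] false,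
   Spec.mk (nat_lit 15887) (nat_lit 0) [nat_lit 29009, nat_lit 11513, nat_lit 14429, nat_lit 16373, nat_lit 15725, nat_lit 15833, nat_lit 15905, nat_lit 15881, nat_lit 15889, nat_lit 35569] (nat_lit 4) [] false,
   Spec.mk (nat_lit 15889) (nat_lit 0) [nat_lit 29011, nat_lit 11515, nat_lit 14431, nat_lit 16375, nat_lit 15727, nat_lit 15835, nat_lit 15907, nat_lit 15883, nat_lit 15895, nat_lit 15887, nat_lit 15891, nat_lit 35571] (nat_lit 2) [] false,
   Spec.mk (nat_lit 15891) (nat_lit 0) [nat_lit 29013, nat_lit 11517, nat_lit 14433, nat_lit 16377, nat_lit 15729, nat_lit 15837, nat_lit 15909, nat_lit 15897, nat_lit 15889] (nat_lit 2) [] false,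
   Spec.mk (nat_lit 15895) (nat_lit 0) [nat_lit 29017, nat_lit 11521, nat_lit 14437, nat_lit 16381, nat_lit 15733, nat_lit 15841, nat_lit 15913, nat_lit 15889, nat_lit 15897, nat_lit 35577] (nat_lit 4) [] false,
   Spec.mk (nat_lit 15897) (nat_lit 0) [nat_lit 29019, nat_lit 11523, nat_lit 14439, nat_lit 16383, nat_lit 15735, nat_lit 15843, nat_lit 15915, nat_lit 15891, nat_lit 15895] (nat_lit 2) [] false,
   Spec.mk (nat_lit 15905) (nat_lit 0) [nat_lit 29027, nat_lit 11531, nat_lit 14447, nat_lit 16391, nat_lit 15743, nat_lit 15851, nat_lit 15959, nat_lit 15887, nat_lit 15907, nat_lit 35587] (nat_lit 3) [] false,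
   Spec.mk (nat_lit 15907) (nat_lit 0) [nat_lit 29029, nat_lit 11533, nat_lit 14449, nat_lit 16393, nat_lit 15745, nat_lit 15853, nat_lit 15961, nat_lit 15889, nat_lit 15913, nat_lit 15905, nat_lit 15909, nat_lit 35589] (nat_lit 2) [] false]

noncomputable def sp44 : List Spec :=
  [Spec.mk (nat_lit 15909) (nat_lit 0) [nat_lit 29031, nat_lit 11535, nat_lit 14451, nat_lit 16395, nat_lit 15747, nat_lit 15855, nat_lit 15963, nat_lit 15891, nat_lit 15915, nat_lit 15907] (nat_lit 3) [] false,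
   Spec.mk (nat_lit 15913) (nat_lit 0) [nat_lit 29035, nat_lit 11539, nat_lit 14455, nat_lit 16399, nat_lit 15751, nat_lit 15859, nat_lit 15967, nat_lit 15895, nat_lit 15931, nat_lit 15907, nat_lit 15915, nat_lit 35595] (nat_lit 2) [] false,
   Spec.mk (nat_lit 15915) (nat_lit 0) [nat_lit 29037, nat_lit 11541, nat_lit 14457, nat_lit 16401, nat_lit 15753, nat_lit 15861, nat_lit 15969, nat_lit 15897, nat_lit 15933, nat_lit 15909, nat_lit 15921, nat_lit 15913] (nat_lit 1) [] false,
   Spec.mk (nat_lit 15921) (nat_lit 0) [nat_lit 29043, nat_lit 11547, nat_lit 14463, nat_lit 16407, nat_lit 15759, nat_lit 15867, nat_lit 15975, nat_lit 15939, nat_lit 15915] (nat_lit 1) [] false,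
   Spec.mk (nat_lit 15931) (nat_lit 0) [nat_lit 29053, nat_lit 11557, nat_lit 14473, nat_lit 16417, nat_lit 15769, nat_lit 15985, nat_lit 15913, nat_lit 15933, nat_lit 35613] (nat_lit 2) [] false,
   Spec.mk (nat_lit 15933) (nat_lit 0) [nat_lit 29055, nat_lit 11559, nat_lit 14475, nat_lit 16419, nat_lit 15771, nat_lit 15987, nat_lit 15915, nat_lit 15939, nat_lit 15931] (nat_lit 2) [] false,
   Spec.mk (nat_lit 15939) (nat_lit 0) [nat_lit 29061, nat_lit 11565, nat_lit 14481, nat_lit 16425, nat_lit 15777, nat_lit 15993, nat_lit 15921, nat_lit 15933] (nat_lit 0) [] false,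
   Spec.mk (nat_lit 15959) (nat_lit 0) [nat_lit 29081, nat_lit 11585, nat_lit 14501, nat_lit 16445, nat_lit 15905, nat_lit 15961, nat_lit 35641] (nat_lit 2) [] false,
   Spec.mk (nat_lit 15961) (nat_lit 0) [nat_lit 29083, nat_lit 11587, nat_lit 14503, nat_lit 16447, nat_lit 15907, nat_lit 15967, nat_lit 15959, nat_lit 15963, nat_lit 35643] (nat_lit 1) [] false,
   Spec.mk (nat_lit 15963) (nat_lit 0) [nat_lit 29085, nat_lit 11589, nat_lit 14505, nat_lit 16449, nat_lit 15909, nat_lit 15969, nat_lit 15961] (nat_lit 2) [] false,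
   Spec.mk (nat_lit 15967) (nat_lit 0) [nat_lit 29089, nat_lit 11593, nat_lit 14509, nat_lit 16453, nat_lit 15913, nat_lit 15985, nat_lit 15961, nat_lit 15969, nat_lit 35649] (nat_lit 2) [] false,
   Spec.mk (nat_lit 15969) (nat_lit 0) [nat_lit 29091, nat_lit 11595, nat_lit 14511, nat_lit 16455, nat_lit 15915, nat_lit 15987, nat_lit 15963, nat_lit 15975, nat_lit 15967] (nat_lit 1) [] false,
   Spec.mk (nat_lit 15975) (nat_lit 0) [nat_lit 29097, nat_lit 11601, nat_lit 14517, nat_lit 16461, nat_lit 15921, nat_lit 15993, nat_lit 15969] (nat_lit 2) [] false,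
   Spec.mk (nat_lit 15985) (nat_lit 0) [nat_lit 29107, nat_lit 11611, nat_lit 14527, nat_lit 16471, nat_lit 15931, nat_lit 15967, nat_lit 15987, nat_lit 35667] (nat_lit 0) [] false,
   Spec.mk (nat_lit 15987) (nat_lit 0) [nat_lit 29109, nat_lit 11613, nat_lit 14529, nat_lit 16473, nat_lit 15933, nat_lit 15969, nat_lit 15993, nat_lit 15985] (nat_lit 0) [] false,
   Spec.mk (nat_lit 15993) (nat_lit 1) [nat_lit 29115, nat_lit 11619, nat_lit 14535, nat_lit 16479, nat_lit 15939, nat_lit 15975, nat_lit 16011, nat_lit 15987] (nat_lit 0) [] false,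
   Spec.mk (nat_lit 16011) (nat_lit 2) [nat_lit 29133, nat_lit 11637, nat_lit 14553, nat_lit 16497, nat_lit 15993] (nat_lit 0) [] false,
   Spec.mk (nat_lit 16055) (nat_lit 1) [nat_lit 29177, nat_lit 11681, nat_lit 14597, nat_lit 17513, nat_lit 15569, nat_lit 16073, nat_lit 16061, nat_lit 35737] (nat_lit 0) [] false,
   Spec.mk (nat_lit 16061) (nat_lit 0) [nat_lit 29183, nat_lit 11687, nat_lit 14603, nat_lit 17519, nat_lit 15575, nat_lit 16079, nat_lit 16055, nat_lit 16063, nat_lit 35743] (nat_lit 1) [] false,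
   Spec.mk (nat_lit 16063) (nat_lit 1) [nat_lit 29185, nat_lit 11689, nat_lit 14605, nat_lit 17521, nat_lit 15577, nat_lit 16081, nat_lit 16061, nat_lit 35745] (nat_lit 0) [] false,
   Spec.mk (nat_lit 16073) (nat_lit 0) [nat_lit 29195, nat_lit 11699, nat_lit 14615, nat_lit 17531, nat_lit 15587, nat_lit 16127, nat_lit 16055, nat_lit 16079, nat_lit 35755] (nat_lit 1) [] false,
   Spec.mk (nat_lit 16079) (nat_lit 0) [nat_lit 29201, nat_lit 11705, nat_lit 14621, nat_lit 17537, nat_lit 15593, nat_lit 16133, nat_lit 16061, nat_lit 16097, nat_lit 16073, nat_lit 16085, nat_lit 16081, nat_lit 35761] (nat_lit 1) [] false,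
   Spec.mk (nat_lit 16081) (nat_lit 0) [nat_lit 29203, nat_lit 11707, nat_lit 14623, nat_lit 17539, nat_lit 15595, nat_lit 16135, nat_lit 16063, nat_lit 16099, nat_lit 16087, nat_lit 16079, nat_lit 35763] (nat_lit 0) [] false,
   Spec.mk (nat_lit 16085) (nat_lit 0) [nat_lit 29207, nat_lit 11711, nat_lit 14627, nat_lit 17543, nat_lit 15599, nat_lit 16139, nat_lit 16103, nat_lit 16079, nat_lit 16087, nat_lit 35767] (nat_lit 3) [] false,
   Spec.mk (nat_lit 16087) (nat_lit 0) [nat_lit 29209, nat_lit 11713, nat_lit 14629, nat_lit 17545, nat_lit 15601, nat_lit 16141, nat_lit 16105, nat_lit 16081, nat_lit 16085, nat_lit 16089, nat_lit 35769] (nat_lit 0) [] false,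
   Spec.mk (nat_lit 16089) (nat_lit 1) [nat_lit 29211, nat_lit 11715, nat_lit 14631, nat_lit 17547, nat_lit 15603, nat_lit 16143, nat_lit 16107, nat_lit 16087] (nat_lit 0) [] false,
   Spec.mk (nat_lit 16097) (nat_lit 0) [nat_lit 29219, nat_lit 11723, nat_lit 14639, nat_lit 17555, nat_lit 15611, nat_lit 16151, nat_lit 16079, nat_lit 16103, nat_lit 16099, nat_lit 35779] (nat_lit 3) [] false,
   Spec.mk (nat_lit 16099) (nat_lit 0) [nat_lit 29221, nat_lit 11725, nat_lit 14641, nat_lit 17557, nat_lit 15613, nat_lit 16153, nat_lit 16081, nat_lit 16105, nat_lit 16097, nat_lit 35781] (nat_lit 3) [] false,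
   Spec.mk (nat_lit 16103) (nat_lit 0) [nat_lit 29225, nat_lit 11729, nat_lit 14645, nat_lit 17561, nat_lit 15617, nat_lit 16157, nat_lit 16085, nat_lit 16097, nat_lit 16105, nat_lit 35785] (nat_lit 3) [] false,
   Spec.mk (nat_lit 16105) (nat_lit 0) [nat_lit 29227, nat_lit 11731, nat_lit 14647, nat_lit 17563, nat_lit 15619, nat_lit 16159, nat_lit 16087, nat_lit 16099, nat_lit 16111, nat_lit 16103, nat_lit 16107, nat_lit 35787] (nat_lit 1) [] false,
   Spec.mk (nat_lit 16107) (nat_lit 0) [nat_lit 29229, nat_lit 11733, nat_lit 14649, nat_lit 17565, nat_lit 15621, nat_lit 16161, nat_lit 16089, nat_lit 16113, nat_lit 16105] (nat_lit 1) [] false,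
   Spec.mk (nat_lit 16111) (nat_lit 0) [nat_lit 29233, nat_lit 11737, nat_lit 14653, nat_lit 17569, nat_lit 15625, nat_lit 16165, nat_lit 16105, nat_lit 16113, nat_lit 35793] (nat_lit 1) [] false,
   Spec.mk (nat_lit 16113) (nat_lit 1) [nat_lit 29235, nat_lit 11739, nat_lit 14655, nat_lit 17571, nat_lit 15627, nat_lit 16167, nat_lit 16107, nat_lit 16111] (nat_lit 0) [] false,
   Spec.mk (nat_lit 16127) (nat_lit 0) [nat_lit 29249, nat_lit 11753, nat_lit 14669, nat_lit 17585, nat_lit 15641, nat_lit 16289, nat_lit 16073, nat_lit 16133, nat_lit 35809] (nat_lit 1) [] false,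
   Spec.mk (nat_lit 16133) (nat_lit 0) [nat_lit 29255, nat_lit 11759, nat_lit 14675, nat_lit 17591, nat_lit 15647, nat_lit 16295, nat_lit 16079, nat_lit 16151, nat_lit 16127, nat_lit 16139, nat_lit 16135, nat_lit 35815] (nat_lit 2) [] false,
   Spec.mk (nat_lit 16135) (nat_lit 0) [nat_lit 29257, nat_lit 11761, nat_lit 14677, nat_lit 17593, nat_lit 15649, nat_lit 16297, nat_lit 16081, nat_lit 16153, nat_lit 16141, nat_lit 16133, nat_lit 35817] (nat_lit 1) [] false,
   Spec.mk (nat_lit 16139) (nat_lit 0) [nat_lit 29261, nat_lit 11765, nat_lit 14681, nat_lit 17597, nat_lit 15653, nat_lit 16301, nat_lit 16085, nat_lit 16157, nat_lit 16133, nat_lit 16141, nat_lit 35821] (nat_lit 5) [] false,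
   Spec.mk (nat_lit 16141) (nat_lit 0) [nat_lit 29263, nat_lit 11767, nat_lit 14683, nat_lit 17599, nat_lit 15655, nat_lit 16303, nat_lit 16087, nat_lit 16159, nat_lit 16135, nat_lit 16139, nat_lit 16143, nat_lit 35823] (nat_lit 2) [] false,
   Spec.mk (nat_lit 16143) (nat_lit 0) [nat_lit 29265, nat_lit 11769, nat_lit 14685, nat_lit 17601, nat_lit 15657, nat_lit 16305, nat_lit 16089, nat_lit 16161, nat_lit 16141] (nat_lit 1) [] false,
   Spec.mk (nat_lit 16151) (nat_lit 0) [nat_lit 29273, nat_lit 11777, nat_lit 14693, nat_lit 17609, nat_lit 15665, nat_lit 16313, nat_lit 16097, nat_lit 16205, nat_lit 16133, nat_lit 16157, nat_lit 16153, nat_lit 35833] (nat_lit 2) [] false,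
   Spec.mk (nat_lit 16153) (nat_lit 0) [nat_lit 29275, nat_lit 11779, nat_lit 14695, nat_lit 17611, nat_lit 15667, nat_lit 16315, nat_lit 16099, nat_lit 16207, nat_lit 16135, nat_lit 16159, nat_lit 16151, nat_lit 35835] (nat_lit 2) [] false,
   Spec.mk (nat_lit 16157) (nat_lit 0) [nat_lit 29279, nat_lit 11783, nat_lit 14699, nat_lit 17615, nat_lit 15671, nat_lit 16319, nat_lit 16103, nat_lit 16211, nat_lit 16139, nat_lit 16175, nat_lit 16151, nat_lit 16159, nat_lit 35839] (nat_lit 3) [] false,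
   Spec.mk (nat_lit 16159) (nat_lit 0) [nat_lit 29281, nat_lit 11785, nat_lit 14701, nat_lit 17617, nat_lit 15673, nat_lit 16321, nat_lit 16105, nat_lit 16213, nat_lit 16141, nat_lit 16177, nat_lit 16153, nat_lit 16165, nat_lit 16157, nat_lit 16161, nat_lit 35841] (nat_lit 1) [] false,
   Spec.mk (nat_lit 16161) (nat_lit 0) [nat_lit 29283, nat_lit 11787, nat_lit 14703, nat_lit 17619, nat_lit 15675, nat_lit 16323, nat_lit 16107, nat_lit 16215, nat_lit 16143, nat_lit 16179, nat_lit 16167, nat_lit 16159] (nat_lit 1) [] false,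
   Spec.mk (nat_lit 16165) (nat_lit 0) [nat_lit 29287, nat_lit 11791, nat_lit 14707, nat_lit 17623, nat_lit 15679, nat_lit 16327, nat_lit 16111, nat_lit 16219, nat_lit 16183, nat_lit 16159, nat_lit 16167, nat_lit 35847] (nat_lit 2) [] false,
   Spec.mk (nat_lit 16167) (nat_lit 0) [nat_lit 29289, nat_lit 11793, nat_lit 14709, nat_lit 17625, nat_lit 15681, nat_lit 16329, nat_lit 16113, nat_lit 16221, nat_lit 16185, nat_lit 16161, nat_lit 16165] (nat_lit 0) [] false,
   Spec.mk (nat_lit 16175) (nat_lit 0) [nat_lit 29297, nat_lit 11801, nat_lit 14717, nat_lit 17633, nat_lit 15689, nat_lit 16337, nat_lit 16229, nat_lit 16157, nat_lit 16177, nat_lit 35857] (nat_lit 3) [] false,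
   Spec.mk (nat_lit 16177) (nat_lit 0) [nat_lit 29299, nat_lit 11803, nat_lit 14719, nat_lit 17635, nat_lit 15691, nat_lit 16339, nat_lit 16231, nat_lit 16159, nat_lit 16183, nat_lit 16175, nat_lit 16179, nat_lit 35859] (nat_lit 2) [] false,
   Spec.mk (nat_lit 16179) (nat_lit 0) [nat_lit 29301, nat_lit 11805, nat_lit 14721, nat_lit 17637, nat_lit 15693, nat_lit 16341, nat_lit 16233, nat_lit 16161, nat_lit 16185, nat_lit 16177] (nat_lit 3) [] false,
   Spec.mk (nat_lit 16183) (nat_lit 0) [nat_lit 29305, nat_lit 11809, nat_lit 14725, nat_lit 17641, nat_lit 15697, nat_lit 16345, nat_lit 16237, nat_lit 16165, nat_lit 16177, nat_lit 16185, nat_lit 35865] (nat_lit 1) [] false,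
   Spec.mk (nat_lit 16185) (nat_lit 0) [nat_lit 29307, nat_lit 11811, nat_lit 14727, nat_lit 17643, nat_lit 15699, nat_lit 16347, nat_lit 16239, nat_lit 16167, nat_lit 16179, nat_lit 16191, nat_lit 16183] (nat_lit 0) [] false,
   Spec.mk (nat_lit 16191) (nat_lit 1) [nat_lit 29313, nat_lit 11817, nat_lit 14733, nat_lit 17649, nat_lit 15705, nat_lit 16353, nat_lit 16245, nat_lit 16185] (nat_lit 0) [] false,
   Spec.mk (nat_lit 16205) (nat_lit 0) [nat_lit 29327, nat_lit 11831, nat_lit 14747, nat_lit 17663, nat_lit 15719, nat_lit 16367, nat_lit 16151, nat_lit 16211, nat_lit 16207, nat_lit 35887] (nat_lit 3) [] false,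
   Spec.mk (nat_lit 16207) (nat_lit 0) [nat_lit 29329, nat_lit 11833, nat_lit 14749, nat_lit 17665, nat_lit 15721, nat_lit 16369, nat_lit 16153, nat_lit 16213, nat_lit 16205, nat_lit 35889] (nat_lit 3) [] false,
   Spec.mk (nat_lit 16211) (nat_lit 0) [nat_lit 29333, nat_lit 11837, nat_lit 14753, nat_lit 17669, nat_lit 15725, nat_lit 16373, nat_lit 16157, nat_lit 16229, nat_lit 16205, nat_lit 16213, nat_lit 35893] (nat_lit 5) [] false,
   Spec.mk (nat_lit 16213) (nat_lit 0) [nat_lit 29335, nat_lit 11839, nat_lit 14755, nat_lit 17671, nat_lit 15727, nat_lit 16375, nat_lit 16159, nat_lit 16231, nat_lit 16207, nat_lit 16219, nat_lit 16211, nat_lit 16215, nat_lit 35895] (nat_lit 3) [] false,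
   Spec.mk (nat_lit 16215) (nat_lit 0) [nat_lit 29337, nat_lit 11841, nat_lit 14757, nat_lit 17673, nat_lit 15729, nat_lit 16377, nat_lit 16161, nat_lit 16233, nat_lit 16221, nat_lit 16213] (nat_lit 3) [] false,
   Spec.mk (nat_lit 16219) (nat_lit 0) [nat_lit 29341, nat_lit 11845, nat_lit 14761, nat_lit 17677, nat_lit 15733, nat_lit 16381, nat_lit 16165, nat_lit 16237, nat_lit 16213, nat_lit 16221, nat_lit 35901] (nat_lit 5) [] false,
   Spec.mk (nat_lit 16221) (nat_lit 0) [nat_lit 29343, nat_lit 11847, nat_lit 14763, nat_lit 17679, nat_lit 15735, nat_lit 16383, nat_lit 16167, nat_lit 16239, nat_lit 16215, nat_lit 16219] (nat_lit 3) [] false,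
   Spec.mk (nat_lit 16229) (nat_lit 0) [nat_lit 29351, nat_lit 11855, nat_lit 14771, nat_lit 17687, nat_lit 15743, nat_lit 16391, nat_lit 16175, nat_lit 16211, nat_lit 16231, nat_lit 35911] (nat_lit 3) [] false]

noncomputable def sp45 : List Spec :=
  [Spec.mk (nat_lit 16231) (nat_lit 0) [nat_lit 29353, nat_lit 11857, nat_lit 14773, nat_lit 17689, nat_lit 15745, nat_lit 16393, nat_lit 16177, nat_lit 16213, nat_lit 16237, nat_lit 16229, nat_lit 16233, nat_lit 35913] (nat_lit 2) [] false,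
   Spec.mk (nat_lit 16233) (nat_lit 0) [nat_lit 29355, nat_lit 11859, nat_lit 14775, nat_lit 17691, nat_lit 15747, nat_lit 16395, nat_lit 16179, nat_lit 16215, nat_lit 16239, nat_lit 16231] (nat_lit 3) [] false,
   Spec.mk (nat_lit 16237) (nat_lit 0) [nat_lit 29359, nat_lit 11863, nat_lit 14779, nat_lit 17695, nat_lit 15751, nat_lit 16399, nat_lit 16183, nat_lit 16219, nat_lit 16255, nat_lit 16231, nat_lit 16239, nat_lit 35919] (nat_lit 2) [] false,
   Spec.mk (nat_lit 16239) (nat_lit 0) [nat_lit 29361, nat_lit 11865, nat_lit 14781, nat_lit 17697, nat_lit 15753, nat_lit 16401, nat_lit 16185, nat_lit 16221, nat_lit 16257, nat_lit 16233, nat_lit 16245, nat_lit 16237] (nat_lit 1) [] false,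
   Spec.mk (nat_lit 16245) (nat_lit 0) [nat_lit 29367, nat_lit 11871, nat_lit 14787, nat_lit 17703, nat_lit 15759, nat_lit 16407, nat_lit 16191, nat_lit 16263, nat_lit 16239] (nat_lit 1) [] false,
   Spec.mk (nat_lit 16255) (nat_lit 0) [nat_lit 29377, nat_lit 11881, nat_lit 14797, nat_lit 17713, nat_lit 15769, nat_lit 16417, nat_lit 16237, nat_lit 16257, nat_lit 35937] (nat_lit 1) [] false,
   Spec.mk (nat_lit 16257) (nat_lit 0) [nat_lit 29379, nat_lit 11883, nat_lit 14799, nat_lit 17715, nat_lit 15771, nat_lit 16419, nat_lit 16239, nat_lit 16263, nat_lit 16255] (nat_lit 1) [] false,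
   Spec.mk (nat_lit 16263) (nat_lit 1) [nat_lit 29385, nat_lit 11889, nat_lit 14805, nat_lit 17721, nat_lit 15777, nat_lit 16425, nat_lit 16245, nat_lit 16257] (nat_lit 0) [] false,
   Spec.mk (nat_lit 16289) (nat_lit 0) [nat_lit 29411, nat_lit 11915, nat_lit 14831, nat_lit 17747, nat_lit 15803, nat_lit 16775, nat_lit 16127, nat_lit 16295, nat_lit 35971] (nat_lit 0) [] false,
   Spec.mk (nat_lit 16295) (nat_lit 0) [nat_lit 29417, nat_lit 11921, nat_lit 14837, nat_lit 17753, nat_lit 15809, nat_lit 16781, nat_lit 16133, nat_lit 16313, nat_lit 16289, nat_lit 16301, nat_lit 16297, nat_lit 35977] (nat_lit 1) [] false,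
   Spec.mk (nat_lit 16297) (nat_lit 0) [nat_lit 29419, nat_lit 11923, nat_lit 14839, nat_lit 17755, nat_lit 15811, nat_lit 16783, nat_lit 16135, nat_lit 16315, nat_lit 16303, nat_lit 16295, nat_lit 35979] (nat_lit 0) [] false,
   Spec.mk (nat_lit 16301) (nat_lit 0) [nat_lit 29423, nat_lit 11927, nat_lit 14843, nat_lit 17759, nat_lit 15815, nat_lit 16787, nat_lit 16139, nat_lit 16319, nat_lit 16295, nat_lit 16303, nat_lit 35983] (nat_lit 4) [] false,
   Spec.mk (nat_lit 16303) (nat_lit 0) [nat_lit 29425, nat_lit 11929, nat_lit 14845, nat_lit 17761, nat_lit 15817, nat_lit 16789, nat_lit 16141, nat_lit 16321, nat_lit 16297, nat_lit 16301, nat_lit 16305, nat_lit 35985] (nat_lit 1) [] false,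
   Spec.mk (nat_lit 16305) (nat_lit 0) [nat_lit 29427, nat_lit 11931, nat_lit 14847, nat_lit 17763, nat_lit 15819, nat_lit 16791, nat_lit 16143, nat_lit 16323, nat_lit 16303] (nat_lit 0) [] false,
   Spec.mk (nat_lit 16313) (nat_lit 0) [nat_lit 29435, nat_lit 11939, nat_lit 14855, nat_lit 17771, nat_lit 15827, nat_lit 16799, nat_lit 16151, nat_lit 16367, nat_lit 16295, nat_lit 16319, nat_lit 16315, nat_lit 35995] (nat_lit 2) [] false,
   Spec.mk (nat_lit 16315) (nat_lit 0) [nat_lit 29437, nat_lit 11941, nat_lit 14857, nat_lit 17773, nat_lit 15829, nat_lit 16801, nat_lit 16153, nat_lit 16369, nat_lit 16297, nat_lit 16321, nat_lit 16313, nat_lit 35997] (nat_lit 2) [] false,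
   Spec.mk (nat_lit 16319) (nat_lit 0) [nat_lit 29441, nat_lit 11945, nat_lit 14861, nat_lit 17777, nat_lit 15833, nat_lit 16805, nat_lit 16157, nat_lit 16373, nat_lit 16301, nat_lit 16337, nat_lit 16313, nat_lit 16321, nat_lit 36001] (nat_lit 3) [] false,
   Spec.mk (nat_lit 16321) (nat_lit 0) [nat_lit 29443, nat_lit 11947, nat_lit 14863, nat_lit 17779, nat_lit 15835, nat_lit 16807, nat_lit 16159, nat_lit 16375, nat_lit 16303, nat_lit 16339, nat_lit 16315, nat_lit 16327, nat_lit 16319, nat_lit 16323, nat_lit 36003] (nat_lit 1) [] false,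
   Spec.mk (nat_lit 16323) (nat_lit 0) [nat_lit 29445, nat_lit 11949, nat_lit 14865, nat_lit 17781, nat_lit 15837, nat_lit 16809, nat_lit 16161, nat_lit 16377, nat_lit 16305, nat_lit 16341, nat_lit 16329, nat_lit 16321] (nat_lit 1) [] false,
   Spec.mk (nat_lit 16327) (nat_lit 0) [nat_lit 29449, nat_lit 11953, nat_lit 14869, nat_lit 17785, nat_lit 15841, nat_lit 16813, nat_lit 16165, nat_lit 16381, nat_lit 16345, nat_lit 16321, nat_lit 16329, nat_lit 36009] (nat_lit 2) [] false,
   Spec.mk (nat_lit 16329) (nat_lit 0) [nat_lit 29451, nat_lit 11955, nat_lit 14871, nat_lit 17787, nat_lit 15843, nat_lit 16815, nat_lit 16167, nat_lit 16383, nat_lit 16347, nat_lit 16323, nat_lit 16327] (nat_lit 0) [] false,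
   Spec.mk (nat_lit 16337) (nat_lit 0) [nat_lit 29459, nat_lit 11963, nat_lit 14879, nat_lit 17795, nat_lit 15851, nat_lit 16823, nat_lit 16175, nat_lit 16391, nat_lit 16319, nat_lit 16339, nat_lit 36019] (nat_lit 4) [] false,
   Spec.mk (nat_lit 16339) (nat_lit 0) [nat_lit 29461, nat_lit 11965, nat_lit 14881, nat_lit 17797, nat_lit 15853, nat_lit 16825, nat_lit 16177, nat_lit 16393, nat_lit 16321, nat_lit 16345, nat_lit 16337, nat_lit 16341, nat_lit 36021] (nat_lit 3) [] false,
   Spec.mk (nat_lit 16341) (nat_lit 0) [nat_lit 29463, nat_lit 11967, nat_lit 14883, nat_lit 17799, nat_lit 15855, nat_lit 16827, nat_lit 16179, nat_lit 16395, nat_lit 16323, nat_lit 16347, nat_lit 16339] (nat_lit 4) [] false,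
   Spec.mk (nat_lit 16345) (nat_lit 0) [nat_lit 29467, nat_lit 11971, nat_lit 14887, nat_lit 17803, nat_lit 15859, nat_lit 16831, nat_lit 16183, nat_lit 16399, nat_lit 16327, nat_lit 16339, nat_lit 16347, nat_lit 36027] (nat_lit 2) [] false,
   Spec.mk (nat_lit 16347) (nat_lit 0) [nat_lit 29469, nat_lit 11973, nat_lit 14889, nat_lit 17805, nat_lit 15861, nat_lit 16833, nat_lit 16185, nat_lit 16401, nat_lit 16329, nat_lit 16341, nat_lit 16353, nat_lit 16345] (nat_lit 1) [] false,
   Spec.mk (nat_lit 16353) (nat_lit 0) [nat_lit 29475, nat_lit 11979, nat_lit 14895, nat_lit 17811, nat_lit 15867, nat_lit 16839, nat_lit 16191, nat_lit 16407, nat_lit 16347] (nat_lit 0) [] false,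
   Spec.mk (nat_lit 16367) (nat_lit 0) [nat_lit 29489, nat_lit 11993, nat_lit 14909, nat_lit 17825, nat_lit 15881, nat_lit 16853, nat_lit 16205, nat_lit 16529, nat_lit 16313, nat_lit 16373, nat_lit 16369, nat_lit 36049] (nat_lit 1) [] false,
   Spec.mk (nat_lit 16369) (nat_lit 0) [nat_lit 29491, nat_lit 11995, nat_lit 14911, nat_lit 17827, nat_lit 15883, nat_lit 16855, nat_lit 16207, nat_lit 16531, nat_lit 16315, nat_lit 16375, nat_lit 16367, nat_lit 36051] (nat_lit 1) [] false,
   Spec.mk (nat_lit 16373) (nat_lit 0) [nat_lit 29495, nat_lit 11999, nat_lit 14915, nat_lit 17831, nat_lit 15887, nat_lit 16859, nat_lit 16211, nat_lit 16535, nat_lit 16319, nat_lit 16391, nat_lit 16367, nat_lit 16375, nat_lit 36055] (nat_lit 3) [] false,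
   Spec.mk (nat_lit 16375) (nat_lit 0) [nat_lit 29497, nat_lit 12001, nat_lit 14917, nat_lit 17833, nat_lit 15889, nat_lit 16861, nat_lit 16213, nat_lit 16537, nat_lit 16321, nat_lit 16393, nat_lit 16369, nat_lit 16381, nat_lit 16373, nat_lit 16377, nat_lit 36057] (nat_lit 1) [] false,
   Spec.mk (nat_lit 16377) (nat_lit 0) [nat_lit 29499, nat_lit 12003, nat_lit 14919, nat_lit 17835, nat_lit 15891, nat_lit 16863, nat_lit 16215, nat_lit 16539, nat_lit 16323, nat_lit 16395, nat_lit 16383, nat_lit 16375] (nat_lit 1) [] false,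
   Spec.mk (nat_lit 16381) (nat_lit 0) [nat_lit 29503, nat_lit 12007, nat_lit 14923, nat_lit 17839, nat_lit 15895, nat_lit 16867, nat_lit 16219, nat_lit 16543, nat_lit 16327, nat_lit 16399, nat_lit 16375, nat_lit 16383, nat_lit 36063] (nat_lit 3) [] false,
   Spec.mk (nat_lit 16383) (nat_lit 0) [nat_lit 29505, nat_lit 12009, nat_lit 14925, nat_lit 17841, nat_lit 15897, nat_lit 16869, nat_lit 16221, nat_lit 16545, nat_lit 16329, nat_lit 16401, nat_lit 16377, nat_lit 16381] (nat_lit 1) [] false,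
   Spec.mk (nat_lit 16391) (nat_lit 0) [nat_lit 29513, nat_lit 12017, nat_lit 14933, nat_lit 17849, nat_lit 15905, nat_lit 16877, nat_lit 16229, nat_lit 16553, nat_lit 16337, nat_lit 16445, nat_lit 16373, nat_lit 16393, nat_lit 36073] (nat_lit 2) [] false,
   Spec.mk (nat_lit 16393) (nat_lit 0) [nat_lit 29515, nat_lit 12019, nat_lit 14935, nat_lit 17851, nat_lit 15907, nat_lit 16879, nat_lit 16231, nat_lit 16555, nat_lit 16339, nat_lit 16447, nat_lit 16375, nat_lit 16399, nat_lit 16391, nat_lit 16395, nat_lit 36075] (nat_lit 1) [] false,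
   Spec.mk (nat_lit 16395) (nat_lit 0) [nat_lit 29517, nat_lit 12021, nat_lit 14937, nat_lit 17853, nat_lit 15909, nat_lit 16881, nat_lit 16233, nat_lit 16557, nat_lit 16341, nat_lit 16449, nat_lit 16377, nat_lit 16401, nat_lit 16393] (nat_lit 2) [] false,
   Spec.mk (nat_lit 16399) (nat_lit 0) [nat_lit 29521, nat_lit 12025, nat_lit 14941, nat_lit 17857, nat_lit 15913, nat_lit 16885, nat_lit 16237, nat_lit 16561, nat_lit 16345, nat_lit 16453, nat_lit 16381, nat_lit 16417, nat_lit 16393, nat_lit 16401, nat_lit 36081] (nat_lit 1) [] false,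
   Spec.mk (nat_lit 16401) (nat_lit 0) [nat_lit 29523, nat_lit 12027, nat_lit 14943, nat_lit 17859, nat_lit 15915, nat_lit 16887, nat_lit 16239, nat_lit 16563, nat_lit 16347, nat_lit 16455, nat_lit 16383, nat_lit 16419, nat_lit 16395, nat_lit 16407, nat_lit 16399] (nat_lit 0) [] false,
   Spec.mk (nat_lit 16407) (nat_lit 0) [nat_lit 29529, nat_lit 12033, nat_lit 14949, nat_lit 17865, nat_lit 15921, nat_lit 16893, nat_lit 16245, nat_lit 16569, nat_lit 16353, nat_lit 16461, nat_lit 16425, nat_lit 16401] (nat_lit 0) [] false,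
   Spec.mk (nat_lit 16417) (nat_lit 0) [nat_lit 29539, nat_lit 12043, nat_lit 14959, nat_lit 17875, nat_lit 15931, nat_lit 16903, nat_lit 16255, nat_lit 16579, nat_lit 16471, nat_lit 16399, nat_lit 16419, nat_lit 36099] (nat_lit 1) [] false,
   Spec.mk (nat_lit 16419) (nat_lit 0) [nat_lit 29541, nat_lit 12045, nat_lit 14961, nat_lit 17877, nat_lit 15933, nat_lit 16905, nat_lit 16257, nat_lit 16581, nat_lit 16473, nat_lit 16401, nat_lit 16425, nat_lit 16417] (nat_lit 1) [] false,
   Spec.mk (nat_lit 16425) (nat_lit 1) [nat_lit 29547, nat_lit 12051, nat_lit 14967, nat_lit 17883, nat_lit 15939, nat_lit 16911, nat_lit 16263, nat_lit 16587, nat_lit 16479, nat_lit 16407, nat_lit 16419] (nat_lit 0) [] false,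
   Spec.mk (nat_lit 16445) (nat_lit 0) [nat_lit 29567, nat_lit 12071, nat_lit 14987, nat_lit 17903, nat_lit 15959, nat_lit 16931, nat_lit 16607, nat_lit 16391, nat_lit 16447, nat_lit 36127] (nat_lit 2) [] false,
   Spec.mk (nat_lit 16447) (nat_lit 0) [nat_lit 29569, nat_lit 12073, nat_lit 14989, nat_lit 17905, nat_lit 15961, nat_lit 16933, nat_lit 16609, nat_lit 16393, nat_lit 16453, nat_lit 16445, nat_lit 16449, nat_lit 36129] (nat_lit 1) [] false,
   Spec.mk (nat_lit 16449) (nat_lit 0) [nat_lit 29571, nat_lit 12075, nat_lit 14991, nat_lit 17907, nat_lit 15963, nat_lit 16935, nat_lit 16611, nat_lit 16395, nat_lit 16455, nat_lit 16447] (nat_lit 2) [] false,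
   Spec.mk (nat_lit 16453) (nat_lit 0) [nat_lit 29575, nat_lit 12079, nat_lit 14995, nat_lit 17911, nat_lit 15967, nat_lit 16939, nat_lit 16615, nat_lit 16399, nat_lit 16471, nat_lit 16447, nat_lit 16455, nat_lit 36135] (nat_lit 2) [] false,
   Spec.mk (nat_lit 16455) (nat_lit 0) [nat_lit 29577, nat_lit 12081, nat_lit 14997, nat_lit 17913, nat_lit 15969, nat_lit 16941, nat_lit 16617, nat_lit 16401, nat_lit 16473, nat_lit 16449, nat_lit 16461, nat_lit 16453] (nat_lit 1) [] false,
   Spec.mk (nat_lit 16461) (nat_lit 0) [nat_lit 29583, nat_lit 12087, nat_lit 15003, nat_lit 17919, nat_lit 15975, nat_lit 16947, nat_lit 16623, nat_lit 16407, nat_lit 16479, nat_lit 16455] (nat_lit 2) [] false,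
   Spec.mk (nat_lit 16471) (nat_lit 0) [nat_lit 29593, nat_lit 12097, nat_lit 15013, nat_lit 17929, nat_lit 15985, nat_lit 16957, nat_lit 16633, nat_lit 16417, nat_lit 16453, nat_lit 16473, nat_lit 36153] (nat_lit 0) [] false,
   Spec.mk (nat_lit 16473) (nat_lit 0) [nat_lit 29595, nat_lit 12099, nat_lit 15015, nat_lit 17931, nat_lit 15987, nat_lit 16959, nat_lit 16635, nat_lit 16419, nat_lit 16455, nat_lit 16479, nat_lit 16471] (nat_lit 0) [] false,
   Spec.mk (nat_lit 16479) (nat_lit 1) [nat_lit 29601, nat_lit 12105, nat_lit 15021, nat_lit 17937, nat_lit 15993, nat_lit 16965, nat_lit 16641, nat_lit 16425, nat_lit 16461, nat_lit 16497, nat_lit 16473] (nat_lit 0) [] false,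
   Spec.mk (nat_lit 16497) (nat_lit 2) [nat_lit 29619, nat_lit 12123, nat_lit 15039, nat_lit 17955, nat_lit 16011, nat_lit 16983, nat_lit 16659, nat_lit 16479] (nat_lit 0) [] false,
   Spec.mk (nat_lit 16529) (nat_lit 0) [nat_lit 29651, nat_lit 12155, nat_lit 15071, nat_lit 17987, nat_lit 17015, nat_lit 16367, nat_lit 16535, nat_lit 16531, nat_lit 36211] (nat_lit 1) [] false,
   Spec.mk (nat_lit 16531) (nat_lit 0) [nat_lit 29653, nat_lit 12157, nat_lit 15073, nat_lit 17989, nat_lit 17017, nat_lit 16369, nat_lit 16537, nat_lit 16529, nat_lit 36213] (nat_lit 1) [] false,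
   Spec.mk (nat_lit 16535) (nat_lit 0) [nat_lit 29657, nat_lit 12161, nat_lit 15077, nat_lit 17993, nat_lit 17021, nat_lit 16373, nat_lit 16553, nat_lit 16529, nat_lit 16537, nat_lit 36217] (nat_lit 3) [] false,
   Spec.mk (nat_lit 16537) (nat_lit 0) [nat_lit 29659, nat_lit 12163, nat_lit 15079, nat_lit 17995, nat_lit 17023, nat_lit 16375, nat_lit 16555, nat_lit 16531, nat_lit 16543, nat_lit 16535, nat_lit 16539, nat_lit 36219] (nat_lit 1) [] false,
   Spec.mk (nat_lit 16539) (nat_lit 0) [nat_lit 29661, nat_lit 12165, nat_lit 15081, nat_lit 17997, nat_lit 17025, nat_lit 16377, nat_lit 16557, nat_lit 16545, nat_lit 16537] (nat_lit 1) [] false,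
   Spec.mk (nat_lit 16543) (nat_lit 0) [nat_lit 29665, nat_lit 12169, nat_lit 15085, nat_lit 18001, nat_lit 17029, nat_lit 16381, nat_lit 16561, nat_lit 16537, nat_lit 16545, nat_lit 36225] (nat_lit 3) [] false,
   Spec.mk (nat_lit 16545) (nat_lit 0) [nat_lit 29667, nat_lit 12171, nat_lit 15087, nat_lit 18003, nat_lit 17031, nat_lit 16383, nat_lit 16563, nat_lit 16539, nat_lit 16543] (nat_lit 1) [] false]

noncomputable def sp46 : List Spec :=
  [Spec.mk (nat_lit 16553) (nat_lit 0) [nat_lit 29675, nat_lit 12179, nat_lit 15095, nat_lit 18011, nat_lit 17039, nat_lit 16391, nat_lit 16607, nat_lit 16535, nat_lit 16555, nat_lit 36235] (nat_lit 3) [] false,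
   Spec.mk (nat_lit 16555) (nat_lit 0) [nat_lit 29677, nat_lit 12181, nat_lit 15097, nat_lit 18013, nat_lit 17041, nat_lit 16393, nat_lit 16609, nat_lit 16537, nat_lit 16561, nat_lit 16553, nat_lit 16557, nat_lit 36237] (nat_lit 2) [] false,
   Spec.mk (nat_lit 16557) (nat_lit 0) [nat_lit 29679, nat_lit 12183, nat_lit 15099, nat_lit 18015, nat_lit 17043, nat_lit 16395, nat_lit 16611, nat_lit 16539, nat_lit 16563, nat_lit 16555] (nat_lit 3) [] false,
   Spec.mk (nat_lit 16561) (nat_lit 0) [nat_lit 29683, nat_lit 12187, nat_lit 15103, nat_lit 18019, nat_lit 17047, nat_lit 16399, nat_lit 16615, nat_lit 16543, nat_lit 16579, nat_lit 16555, nat_lit 16563, nat_lit 36243] (nat_lit 2) [] false,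
   Spec.mk (nat_lit 16563) (nat_lit 0) [nat_lit 29685, nat_lit 12189, nat_lit 15105, nat_lit 18021, nat_lit 17049, nat_lit 16401, nat_lit 16617, nat_lit 16545, nat_lit 16581, nat_lit 16557, nat_lit 16569, nat_lit 16561] (nat_lit 1) [] false,
   Spec.mk (nat_lit 16569) (nat_lit 0) [nat_lit 29691, nat_lit 12195, nat_lit 15111, nat_lit 18027, nat_lit 17055, nat_lit 16407, nat_lit 16623, nat_lit 16587, nat_lit 16563] (nat_lit 1) [] false,
   Spec.mk (nat_lit 16579) (nat_lit 0) [nat_lit 29701, nat_lit 12205, nat_lit 15121, nat_lit 18037, nat_lit 17065, nat_lit 16417, nat_lit 16633, nat_lit 16561, nat_lit 16581, nat_lit 36261] (nat_lit 3) [] false,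
   Spec.mk (nat_lit 16581) (nat_lit 0) [nat_lit 29703, nat_lit 12207, nat_lit 15123, nat_lit 18039, nat_lit 17067, nat_lit 16419, nat_lit 16635, nat_lit 16563, nat_lit 16587, nat_lit 16579] (nat_lit 3) [] false,
   Spec.mk (nat_lit 16587) (nat_lit 0) [nat_lit 29709, nat_lit 12213, nat_lit 15129, nat_lit 18045, nat_lit 17073, nat_lit 16425, nat_lit 16641, nat_lit 16569, nat_lit 16581] (nat_lit 1) [] false,
   Spec.mk (nat_lit 16607) (nat_lit 0) [nat_lit 29729, nat_lit 12233, nat_lit 15149, nat_lit 18065, nat_lit 17093, nat_lit 16445, nat_lit 16553, nat_lit 16609, nat_lit 36289] (nat_lit 1) [] false,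
   Spec.mk (nat_lit 16609) (nat_lit 0) [nat_lit 29731, nat_lit 12235, nat_lit 15151, nat_lit 18067, nat_lit 17095, nat_lit 16447, nat_lit 16555, nat_lit 16615, nat_lit 16607, nat_lit 16611, nat_lit 36291] (nat_lit 0) [] false,
   Spec.mk (nat_lit 16611) (nat_lit 0) [nat_lit 29733, nat_lit 12237, nat_lit 15153, nat_lit 18069, nat_lit 17097, nat_lit 16449, nat_lit 16557, nat_lit 16617, nat_lit 16609] (nat_lit 1) [] false,
   Spec.mk (nat_lit 16615) (nat_lit 0) [nat_lit 29737, nat_lit 12241, nat_lit 15157, nat_lit 18073, nat_lit 17101, nat_lit 16453, nat_lit 16561, nat_lit 16633, nat_lit 16609, nat_lit 16617, nat_lit 36297] (nat_lit 1) [] false,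
   Spec.mk (nat_lit 16617) (nat_lit 0) [nat_lit 29739, nat_lit 12243, nat_lit 15159, nat_lit 18075, nat_lit 17103, nat_lit 16455, nat_lit 16563, nat_lit 16635, nat_lit 16611, nat_lit 16623, nat_lit 16615] (nat_lit 0) [] false,
   Spec.mk (nat_lit 16623) (nat_lit 0) [nat_lit 29745, nat_lit 12249, nat_lit 15165, nat_lit 18081, nat_lit 17109, nat_lit 16461, nat_lit 16569, nat_lit 16641, nat_lit 16617] (nat_lit 1) [] false,
   Spec.mk (nat_lit 16633) (nat_lit 0) [nat_lit 29755, nat_lit 12259, nat_lit 15175, nat_lit 18091, nat_lit 17119, nat_lit 16471, nat_lit 16579, nat_lit 16687, nat_lit 16615, nat_lit 16635, nat_lit 36315] (nat_lit 0) [] false,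
   Spec.mk (nat_lit 16635) (nat_lit 0) [nat_lit 29757, nat_lit 12261, nat_lit 15177, nat_lit 18093, nat_lit 17121, nat_lit 16473, nat_lit 16581, nat_lit 16689, nat_lit 16617, nat_lit 16641, nat_lit 16633] (nat_lit 0) [] false,
   Spec.mk (nat_lit 16641) (nat_lit 1) [nat_lit 29763, nat_lit 12267, nat_lit 15183, nat_lit 18099, nat_lit 17127, nat_lit 16479, nat_lit 16587, nat_lit 16695, nat_lit 16623, nat_lit 16659, nat_lit 16635] (nat_lit 0) [] false,
   Spec.mk (nat_lit 16659) (nat_lit 1) [nat_lit 29781, nat_lit 12285, nat_lit 15201, nat_lit 18117, nat_lit 17145, nat_lit 16497, nat_lit 16713, nat_lit 16641] (nat_lit 0) [] false,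
   Spec.mk (nat_lit 16687) (nat_lit 1) [nat_lit 29809, nat_lit 12313, nat_lit 15229, nat_lit 18145, nat_lit 17173, nat_lit 16633, nat_lit 16689, nat_lit 36369] (nat_lit 0) [] false,
   Spec.mk (nat_lit 16689) (nat_lit 1) [nat_lit 29811, nat_lit 12315, nat_lit 15231, nat_lit 18147, nat_lit 17175, nat_lit 16635, nat_lit 16695, nat_lit 16687] (nat_lit 0) [] false,
   Spec.mk (nat_lit 16695) (nat_lit 1) [nat_lit 29817, nat_lit 12321, nat_lit 15237, nat_lit 18153, nat_lit 17181, nat_lit 16641, nat_lit 16713, nat_lit 16689] (nat_lit 0) [] false,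
   Spec.mk (nat_lit 16713) (nat_lit 3) [nat_lit 29835, nat_lit 12339, nat_lit 15255, nat_lit 18171, nat_lit 17199, nat_lit 16659, nat_lit 16695] (nat_lit 0) [] false,
   Spec.mk (nat_lit 16775) (nat_lit 0) [nat_lit 29897, nat_lit 12401, nat_lit 18233, nat_lit 16289, nat_lit 16781, nat_lit 36457] (nat_lit 0) [] false,
   Spec.mk (nat_lit 16781) (nat_lit 0) [nat_lit 29903, nat_lit 12407, nat_lit 18239, nat_lit 16295, nat_lit 16799, nat_lit 16775, nat_lit 16787, nat_lit 16783, nat_lit 36463] (nat_lit 1) [] false,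
   Spec.mk (nat_lit 16783) (nat_lit 0) [nat_lit 29905, nat_lit 12409, nat_lit 18241, nat_lit 16297, nat_lit 16801, nat_lit 16789, nat_lit 16781, nat_lit 36465] (nat_lit 0) [] false,
   Spec.mk (nat_lit 16787) (nat_lit 0) [nat_lit 29909, nat_lit 12413, nat_lit 18245, nat_lit 16301, nat_lit 16805, nat_lit 16781, nat_lit 16789, nat_lit 36469] (nat_lit 4) [] false,
   Spec.mk (nat_lit 16789) (nat_lit 0) [nat_lit 29911, nat_lit 12415, nat_lit 18247, nat_lit 16303, nat_lit 16807, nat_lit 16783, nat_lit 16787, nat_lit 16791, nat_lit 36471] (nat_lit 1) [] false,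
   Spec.mk (nat_lit 16791) (nat_lit 0) [nat_lit 29913, nat_lit 12417, nat_lit 18249, nat_lit 16305, nat_lit 16809, nat_lit 16789] (nat_lit 0) [] false,
   Spec.mk (nat_lit 16799) (nat_lit 0) [nat_lit 29921, nat_lit 12425, nat_lit 18257, nat_lit 16313, nat_lit 16853, nat_lit 16781, nat_lit 16805, nat_lit 16801, nat_lit 36481] (nat_lit 2) [] false,
   Spec.mk (nat_lit 16801) (nat_lit 0) [nat_lit 29923, nat_lit 12427, nat_lit 18259, nat_lit 16315, nat_lit 16855, nat_lit 16783, nat_lit 16807, nat_lit 16799, nat_lit 36483] (nat_lit 2) [] false,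
   Spec.mk (nat_lit 16805) (nat_lit 0) [nat_lit 29927, nat_lit 12431, nat_lit 18263, nat_lit 16319, nat_lit 16859, nat_lit 16787, nat_lit 16823, nat_lit 16799, nat_lit 16807, nat_lit 36487] (nat_lit 3) [] false,
   Spec.mk (nat_lit 16807) (nat_lit 0) [nat_lit 29929, nat_lit 12433, nat_lit 18265, nat_lit 16321, nat_lit 16861, nat_lit 16789, nat_lit 16825, nat_lit 16801, nat_lit 16813, nat_lit 16805, nat_lit 16809, nat_lit 36489] (nat_lit 1) [] false,
   Spec.mk (nat_lit 16809) (nat_lit 0) [nat_lit 29931, nat_lit 12435, nat_lit 18267, nat_lit 16323, nat_lit 16863, nat_lit 16791, nat_lit 16827, nat_lit 16815, nat_lit 16807] (nat_lit 1) [] false,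
   Spec.mk (nat_lit 16813) (nat_lit 0) [nat_lit 29935, nat_lit 12439, nat_lit 18271, nat_lit 16327, nat_lit 16867, nat_lit 16831, nat_lit 16807, nat_lit 16815, nat_lit 36495] (nat_lit 2) [] false,
   Spec.mk (nat_lit 16815) (nat_lit 0) [nat_lit 29937, nat_lit 12441, nat_lit 18273, nat_lit 16329, nat_lit 16869, nat_lit 16833, nat_lit 16809, nat_lit 16813] (nat_lit 0) [] false,
   Spec.mk (nat_lit 16823) (nat_lit 0) [nat_lit 29945, nat_lit 12449, nat_lit 18281, nat_lit 16337, nat_lit 16877, nat_lit 16805, nat_lit 16825, nat_lit 36505] (nat_lit 4) [] false,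
   Spec.mk (nat_lit 16825) (nat_lit 0) [nat_lit 29947, nat_lit 12451, nat_lit 18283, nat_lit 16339, nat_lit 16879, nat_lit 16807, nat_lit 16831, nat_lit 16823, nat_lit 16827, nat_lit 36507] (nat_lit 3) [] false,
   Spec.mk (nat_lit 16827) (nat_lit 0) [nat_lit 29949, nat_lit 12453, nat_lit 18285, nat_lit 16341, nat_lit 16881, nat_lit 16809, nat_lit 16833, nat_lit 16825] (nat_lit 4) [] false,
   Spec.mk (nat_lit 16831) (nat_lit 0) [nat_lit 29953, nat_lit 12457, nat_lit 18289, nat_lit 16345, nat_lit 16885, nat_lit 16813, nat_lit 16825, nat_lit 16833, nat_lit 36513] (nat_lit 2) [] false,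
   Spec.mk (nat_lit 16833) (nat_lit 0) [nat_lit 29955, nat_lit 12459, nat_lit 18291, nat_lit 16347, nat_lit 16887, nat_lit 16815, nat_lit 16827, nat_lit 16839, nat_lit 16831] (nat_lit 1) [] false,
   Spec.mk (nat_lit 16839) (nat_lit 0) [nat_lit 29961, nat_lit 12465, nat_lit 18297, nat_lit 16353, nat_lit 16893, nat_lit 16833] (nat_lit 0) [] false,
   Spec.mk (nat_lit 16853) (nat_lit 0) [nat_lit 29975, nat_lit 12479, nat_lit 18311, nat_lit 16367, nat_lit 17015, nat_lit 16799, nat_lit 16859, nat_lit 16855, nat_lit 36535] (nat_lit 2) [] false,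
   Spec.mk (nat_lit 16855) (nat_lit 0) [nat_lit 29977, nat_lit 12481, nat_lit 18313, nat_lit 16369, nat_lit 17017, nat_lit 16801, nat_lit 16861, nat_lit 16853, nat_lit 36537] (nat_lit 2) [] false,
   Spec.mk (nat_lit 16859) (nat_lit 0) [nat_lit 29981, nat_lit 12485, nat_lit 18317, nat_lit 16373, nat_lit 17021, nat_lit 16805, nat_lit 16877, nat_lit 16853, nat_lit 16861, nat_lit 36541] (nat_lit 4) [] false,
   Spec.mk (nat_lit 16861) (nat_lit 0) [nat_lit 29983, nat_lit 12487, nat_lit 18319, nat_lit 16375, nat_lit 17023, nat_lit 16807, nat_lit 16879, nat_lit 16855, nat_lit 16867, nat_lit 16859, nat_lit 16863, nat_lit 36543] (nat_lit 2) [] false,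
   Spec.mk (nat_lit 16863) (nat_lit 0) [nat_lit 29985, nat_lit 12489, nat_lit 18321, nat_lit 16377, nat_lit 17025, nat_lit 16809, nat_lit 16881, nat_lit 16869, nat_lit 16861] (nat_lit 2) [] false,
   Spec.mk (nat_lit 16867) (nat_lit 0) [nat_lit 29989, nat_lit 12493, nat_lit 18325, nat_lit 16381, nat_lit 17029, nat_lit 16813, nat_lit 16885, nat_lit 16861, nat_lit 16869, nat_lit 36549] (nat_lit 4) [] false,
   Spec.mk (nat_lit 16869) (nat_lit 0) [nat_lit 29991, nat_lit 12495, nat_lit 18327, nat_lit 16383, nat_lit 17031, nat_lit 16815, nat_lit 16887, nat_lit 16863, nat_lit 16867] (nat_lit 2) [] false,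
   Spec.mk (nat_lit 16877) (nat_lit 0) [nat_lit 29999, nat_lit 12503, nat_lit 18335, nat_lit 16391, nat_lit 17039, nat_lit 16823, nat_lit 16931, nat_lit 16859, nat_lit 16879, nat_lit 36559] (nat_lit 3) [] false,
   Spec.mk (nat_lit 16879) (nat_lit 0) [nat_lit 30001, nat_lit 12505, nat_lit 18337, nat_lit 16393, nat_lit 17041, nat_lit 16825, nat_lit 16933, nat_lit 16861, nat_lit 16885, nat_lit 16877, nat_lit 16881, nat_lit 36561] (nat_lit 2) [] false,
   Spec.mk (nat_lit 16881) (nat_lit 0) [nat_lit 30003, nat_lit 12507, nat_lit 18339, nat_lit 16395, nat_lit 17043, nat_lit 16827, nat_lit 16935, nat_lit 16863, nat_lit 16887, nat_lit 16879] (nat_lit 3) [] false,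
   Spec.mk (nat_lit 16885) (nat_lit 0) [nat_lit 30007, nat_lit 12511, nat_lit 18343, nat_lit 16399, nat_lit 17047, nat_lit 16831, nat_lit 16939, nat_lit 16867, nat_lit 16903, nat_lit 16879, nat_lit 16887, nat_lit 36567] (nat_lit 2) [] false,
   Spec.mk (nat_lit 16887) (nat_lit 0) [nat_lit 30009, nat_lit 12513, nat_lit 18345, nat_lit 16401, nat_lit 17049, nat_lit 16833, nat_lit 16941, nat_lit 16869, nat_lit 16905, nat_lit 16881, nat_lit 16893, nat_lit 16885] (nat_lit 1) [] false,
   Spec.mk (nat_lit 16893) (nat_lit 0) [nat_lit 30015, nat_lit 12519, nat_lit 18351, nat_lit 16407, nat_lit 17055, nat_lit 16839, nat_lit 16947, nat_lit 16911, nat_lit 16887] (nat_lit 1) [] false,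
   Spec.mk (nat_lit 16903) (nat_lit 0) [nat_lit 30025, nat_lit 12529, nat_lit 18361, nat_lit 16417, nat_lit 17065, nat_lit 16957, nat_lit 16885, nat_lit 16905, nat_lit 36585] (nat_lit 2) [] false,
   Spec.mk (nat_lit 16905) (nat_lit 0) [nat_lit 30027, nat_lit 12531, nat_lit 18363, nat_lit 16419, nat_lit 17067, nat_lit 16959, nat_lit 16887, nat_lit 16911, nat_lit 16903] (nat_lit 2) [] false,
   Spec.mk (nat_lit 16911) (nat_lit 0) [nat_lit 30033, nat_lit 12537, nat_lit 18369, nat_lit 16425, nat_lit 17073, nat_lit 16965, nat_lit 16893, nat_lit 16905] (nat_lit 0) [] false,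
   Spec.mk (nat_lit 16931) (nat_lit 0) [nat_lit 30053, nat_lit 12557, nat_lit 18389, nat_lit 16445, nat_lit 17093, nat_lit 16877, nat_lit 16933, nat_lit 36613] (nat_lit 4) [] false,
   Spec.mk (nat_lit 16933) (nat_lit 0) [nat_lit 30055, nat_lit 12559, nat_lit 18391, nat_lit 16447, nat_lit 17095, nat_lit 16879, nat_lit 16939, nat_lit 16931, nat_lit 16935, nat_lit 36615] (nat_lit 3) [] false]

noncomputable def sp47 : List Spec :=
  [Spec.mk (nat_lit 16935) (nat_lit 0) [nat_lit 30057, nat_lit 12561, nat_lit 18393, nat_lit 16449, nat_lit 17097, nat_lit 16881, nat_lit 16941, nat_lit 16933] (nat_lit 4) [] false,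
   Spec.mk (nat_lit 16939) (nat_lit 0) [nat_lit 30061, nat_lit 12565, nat_lit 18397, nat_lit 16453, nat_lit 17101, nat_lit 16885, nat_lit 16957, nat_lit 16933, nat_lit 16941, nat_lit 36621] (nat_lit 4) [] false,
   Spec.mk (nat_lit 16941) (nat_lit 0) [nat_lit 30063, nat_lit 12567, nat_lit 18399, nat_lit 16455, nat_lit 17103, nat_lit 16887, nat_lit 16959, nat_lit 16935, nat_lit 16947, nat_lit 16939] (nat_lit 3) [] false,
   Spec.mk (nat_lit 16947) (nat_lit 0) [nat_lit 30069, nat_lit 12573, nat_lit 18405, nat_lit 16461, nat_lit 17109, nat_lit 16893, nat_lit 16965, nat_lit 16941] (nat_lit 4) [] false,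
   Spec.mk (nat_lit 16957) (nat_lit 0) [nat_lit 30079, nat_lit 12583, nat_lit 18415, nat_lit 16471, nat_lit 17119, nat_lit 16903, nat_lit 16939, nat_lit 16959, nat_lit 36639] (nat_lit 2) [] false,
   Spec.mk (nat_lit 16959) (nat_lit 0) [nat_lit 30081, nat_lit 12585, nat_lit 18417, nat_lit 16473, nat_lit 17121, nat_lit 16905, nat_lit 16941, nat_lit 16965, nat_lit 16957] (nat_lit 2) [] false,
   Spec.mk (nat_lit 16965) (nat_lit 0) [nat_lit 30087, nat_lit 12591, nat_lit 18423, nat_lit 16479, nat_lit 17127, nat_lit 16911, nat_lit 16947, nat_lit 16983, nat_lit 16959] (nat_lit 1) [] false,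
   Spec.mk (nat_lit 16983) (nat_lit 0) [nat_lit 30105, nat_lit 12609, nat_lit 18441, nat_lit 16497, nat_lit 17145, nat_lit 16965] (nat_lit 0) [] false,
   Spec.mk (nat_lit 17015) (nat_lit 0) [nat_lit 30137, nat_lit 12641, nat_lit 18473, nat_lit 16529, nat_lit 16853, nat_lit 17021, nat_lit 17017, nat_lit 36697] (nat_lit 0) [] false,
   Spec.mk (nat_lit 17017) (nat_lit 0) [nat_lit 30139, nat_lit 12643, nat_lit 18475, nat_lit 16531, nat_lit 16855, nat_lit 17023, nat_lit 17015, nat_lit 36699] (nat_lit 0) [] false,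
   Spec.mk (nat_lit 17021) (nat_lit 0) [nat_lit 30143, nat_lit 12647, nat_lit 18479, nat_lit 16535, nat_lit 16859, nat_lit 17039, nat_lit 17015, nat_lit 17023, nat_lit 36703] (nat_lit 2) [] false,
   Spec.mk (nat_lit 17023) (nat_lit 0) [nat_lit 30145, nat_lit 12649, nat_lit 18481, nat_lit 16537, nat_lit 16861, nat_lit 17041, nat_lit 17017, nat_lit 17029, nat_lit 17021, nat_lit 17025, nat_lit 36705] (nat_lit 0) [] false,
   Spec.mk (nat_lit 17025) (nat_lit 0) [nat_lit 30147, nat_lit 12651, nat_lit 18483, nat_lit 16539, nat_lit 16863, nat_lit 17043, nat_lit 17031, nat_lit 17023] (nat_lit 0) [] false,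
   Spec.mk (nat_lit 17029) (nat_lit 0) [nat_lit 30151, nat_lit 12655, nat_lit 18487, nat_lit 16543, nat_lit 16867, nat_lit 17047, nat_lit 17023, nat_lit 17031, nat_lit 36711] (nat_lit 2) [] false,
   Spec.mk (nat_lit 17031) (nat_lit 0) [nat_lit 30153, nat_lit 12657, nat_lit 18489, nat_lit 16545, nat_lit 16869, nat_lit 17049, nat_lit 17025, nat_lit 17029] (nat_lit 0) [] false,
   Spec.mk (nat_lit 17039) (nat_lit 0) [nat_lit 30161, nat_lit 12665, nat_lit 18497, nat_lit 16553, nat_lit 16877, nat_lit 17093, nat_lit 17021, nat_lit 17041, nat_lit 36721] (nat_lit 2) [] false,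
   Spec.mk (nat_lit 17041) (nat_lit 0) [nat_lit 30163, nat_lit 12667, nat_lit 18499, nat_lit 16555, nat_lit 16879, nat_lit 17095, nat_lit 17023, nat_lit 17047, nat_lit 17039, nat_lit 17043, nat_lit 36723] (nat_lit 1) [] false,
   Spec.mk (nat_lit 17043) (nat_lit 0) [nat_lit 30165, nat_lit 12669, nat_lit 18501, nat_lit 16557, nat_lit 16881, nat_lit 17097, nat_lit 17025, nat_lit 17049, nat_lit 17041] (nat_lit 2) [] false,
   Spec.mk (nat_lit 17047) (nat_lit 0) [nat_lit 30169, nat_lit 12673, nat_lit 18505, nat_lit 16561, nat_lit 16885, nat_lit 17101, nat_lit 17029, nat_lit 17065, nat_lit 17041, nat_lit 17049, nat_lit 36729] (nat_lit 1) [] false,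
   Spec.mk (nat_lit 17049) (nat_lit 0) [nat_lit 30171, nat_lit 12675, nat_lit 18507, nat_lit 16563, nat_lit 16887, nat_lit 17103, nat_lit 17031, nat_lit 17067, nat_lit 17043, nat_lit 17055, nat_lit 17047] (nat_lit 0) [] false,
   Spec.mk (nat_lit 17055) (nat_lit 0) [nat_lit 30177, nat_lit 12681, nat_lit 18513, nat_lit 16569, nat_lit 16893, nat_lit 17109, nat_lit 17073, nat_lit 17049] (nat_lit 0) [] false,
   Spec.mk (nat_lit 17065) (nat_lit 0) [nat_lit 30187, nat_lit 12691, nat_lit 18523, nat_lit 16579, nat_lit 16903, nat_lit 17119, nat_lit 17047, nat_lit 17067, nat_lit 36747] (nat_lit 2) [] false,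
   Spec.mk (nat_lit 17067) (nat_lit 0) [nat_lit 30189, nat_lit 12693, nat_lit 18525, nat_lit 16581, nat_lit 16905, nat_lit 17121, nat_lit 17049, nat_lit 17073, nat_lit 17065] (nat_lit 2) [] false,
   Spec.mk (nat_lit 17073) (nat_lit 0) [nat_lit 30195, nat_lit 12699, nat_lit 18531, nat_lit 16587, nat_lit 16911, nat_lit 17127, nat_lit 17055, nat_lit 17067] (nat_lit 0) [] false,
   Spec.mk (nat_lit 17093) (nat_lit 0) [nat_lit 30215, nat_lit 12719, nat_lit 18551, nat_lit 16607, nat_lit 16931, nat_lit 17255, nat_lit 17039, nat_lit 17095, nat_lit 36775] (nat_lit 1) [] false,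
   Spec.mk (nat_lit 17095) (nat_lit 0) [nat_lit 30217, nat_lit 12721, nat_lit 18553, nat_lit 16609, nat_lit 16933, nat_lit 17257, nat_lit 17041, nat_lit 17101, nat_lit 17093, nat_lit 17097, nat_lit 36777] (nat_lit 0) [] false,
   Spec.mk (nat_lit 17097) (nat_lit 0) [nat_lit 30219, nat_lit 12723, nat_lit 18555, nat_lit 16611, nat_lit 16935, nat_lit 17259, nat_lit 17043, nat_lit 17103, nat_lit 17095] (nat_lit 1) [] false,
   Spec.mk (nat_lit 17101) (nat_lit 0) [nat_lit 30223, nat_lit 12727, nat_lit 18559, nat_lit 16615, nat_lit 16939, nat_lit 17263, nat_lit 17047, nat_lit 17119, nat_lit 17095, nat_lit 17103, nat_lit 36783] (nat_lit 1) [] false,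
   Spec.mk (nat_lit 17103) (nat_lit 0) [nat_lit 30225, nat_lit 12729, nat_lit 18561, nat_lit 16617, nat_lit 16941, nat_lit 17265, nat_lit 17049, nat_lit 17121, nat_lit 17097, nat_lit 17109, nat_lit 17101] (nat_lit 0) [] false,
   Spec.mk (nat_lit 17109) (nat_lit 0) [nat_lit 30231, nat_lit 12735, nat_lit 18567, nat_lit 16623, nat_lit 16947, nat_lit 17271, nat_lit 17055, nat_lit 17127, nat_lit 17103] (nat_lit 1) [] false,
   Spec.mk (nat_lit 17119) (nat_lit 0) [nat_lit 30241, nat_lit 12745, nat_lit 18577, nat_lit 16633, nat_lit 16957, nat_lit 17281, nat_lit 17065, nat_lit 17173, nat_lit 17101, nat_lit 17121, nat_lit 36801] (nat_lit 0) [] false,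
   Spec.mk (nat_lit 17121) (nat_lit 0) [nat_lit 30243, nat_lit 12747, nat_lit 18579, nat_lit 16635, nat_lit 16959, nat_lit 17283, nat_lit 17067, nat_lit 17175, nat_lit 17103, nat_lit 17127, nat_lit 17119] (nat_lit 0) [] false,
   Spec.mk (nat_lit 17127) (nat_lit 1) [nat_lit 30249, nat_lit 12753, nat_lit 18585, nat_lit 16641, nat_lit 16965, nat_lit 17289, nat_lit 17073, nat_lit 17181, nat_lit 17109, nat_lit 17145, nat_lit 17121] (nat_lit 0) [] false,
   Spec.mk (nat_lit 17145) (nat_lit 1) [nat_lit 30267, nat_lit 12771, nat_lit 18603, nat_lit 16659, nat_lit 16983, nat_lit 17307, nat_lit 17199, nat_lit 17127] (nat_lit 0) [] false,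
   Spec.mk (nat_lit 17173) (nat_lit 0) [nat_lit 30295, nat_lit 12799, nat_lit 18631, nat_lit 16687, nat_lit 17335, nat_lit 17119, nat_lit 17175, nat_lit 36855] (nat_lit 0) [] false,
   Spec.mk (nat_lit 17175) (nat_lit 0) [nat_lit 30297, nat_lit 12801, nat_lit 18633, nat_lit 16689, nat_lit 17337, nat_lit 17121, nat_lit 17181, nat_lit 17173] (nat_lit 0) [] false,
   Spec.mk (nat_lit 17181) (nat_lit 0) [nat_lit 30303, nat_lit 12807, nat_lit 18639, nat_lit 16695, nat_lit 17343, nat_lit 17127, nat_lit 17199, nat_lit 17175] (nat_lit 0) [] false,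
   Spec.mk (nat_lit 17199) (nat_lit 2) [nat_lit 30321, nat_lit 12825, nat_lit 18657, nat_lit 16713, nat_lit 17361, nat_lit 17145, nat_lit 17181] (nat_lit 0) [] false,
   Spec.mk (nat_lit 17255) (nat_lit 0) [nat_lit 30377, nat_lit 12881, nat_lit 18713, nat_lit 17093, nat_lit 17257, nat_lit 36937] (nat_lit 0) [] false,
   Spec.mk (nat_lit 17257) (nat_lit 1) [nat_lit 30379, nat_lit 12883, nat_lit 18715, nat_lit 17095, nat_lit 17263, nat_lit 17255, nat_lit 17259, nat_lit 36939] (nat_lit 0) [] false,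
   Spec.mk (nat_lit 17259) (nat_lit 0) [nat_lit 30381, nat_lit 12885, nat_lit 18717, nat_lit 17097, nat_lit 17265, nat_lit 17257] (nat_lit 0) [] false,
   Spec.mk (nat_lit 17263) (nat_lit 0) [nat_lit 30385, nat_lit 12889, nat_lit 18721, nat_lit 17101, nat_lit 17281, nat_lit 17257, nat_lit 17265, nat_lit 36945] (nat_lit 0) [] false,
   Spec.mk (nat_lit 17265) (nat_lit 1) [nat_lit 30387, nat_lit 12891, nat_lit 18723, nat_lit 17103, nat_lit 17283, nat_lit 17259, nat_lit 17271, nat_lit 17263] (nat_lit 0) [] false,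
   Spec.mk (nat_lit 17271) (nat_lit 0) [nat_lit 30393, nat_lit 12897, nat_lit 18729, nat_lit 17109, nat_lit 17289, nat_lit 17265] (nat_lit 0) [] false,
   Spec.mk (nat_lit 17281) (nat_lit 0) [nat_lit 30403, nat_lit 12907, nat_lit 18739, nat_lit 17119, nat_lit 17335, nat_lit 17263, nat_lit 17283, nat_lit 36963] (nat_lit 0) [] false,
   Spec.mk (nat_lit 17283) (nat_lit 0) [nat_lit 30405, nat_lit 12909, nat_lit 18741, nat_lit 17121, nat_lit 17337, nat_lit 17265, nat_lit 17289, nat_lit 17281] (nat_lit 0) [] false,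
   Spec.mk (nat_lit 17289) (nat_lit 1) [nat_lit 30411, nat_lit 12915, nat_lit 18747, nat_lit 17127, nat_lit 17343, nat_lit 17271, nat_lit 17307, nat_lit 17283] (nat_lit 0) [] false,
   Spec.mk (nat_lit 17307) (nat_lit 0) [nat_lit 30429, nat_lit 12933, nat_lit 18765, nat_lit 17145, nat_lit 17361, nat_lit 17289] (nat_lit 0) [] false,
   Spec.mk (nat_lit 17335) (nat_lit 2) [nat_lit 30457, nat_lit 12961, nat_lit 18793, nat_lit 17173, nat_lit 17281, nat_lit 17337, nat_lit 37017] (nat_lit 0) [] false,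
   Spec.mk (nat_lit 17337) (nat_lit 2) [nat_lit 30459, nat_lit 12963, nat_lit 18795, nat_lit 17175, nat_lit 17283, nat_lit 17343, nat_lit 17335] (nat_lit 0) [] false,
   Spec.mk (nat_lit 17343) (nat_lit 2) [nat_lit 30465, nat_lit 12969, nat_lit 18801, nat_lit 17181, nat_lit 17289, nat_lit 17361, nat_lit 17337] (nat_lit 0) [] false,
   Spec.mk (nat_lit 17361) (nat_lit 3) [nat_lit 30483, nat_lit 12987, nat_lit 18819, nat_lit 17199, nat_lit 17307, nat_lit 17415, nat_lit 17343] (nat_lit 0) [] false,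
   Spec.mk (nat_lit 17415) (nat_lit 4) [nat_lit 30537, nat_lit 13041, nat_lit 18873, nat_lit 17361] (nat_lit 0) [] false,
   Spec.mk (nat_lit 17513) (nat_lit 2) [nat_lit 30635, nat_lit 16055, nat_lit 17531, nat_lit 17519, nat_lit 37195] (nat_lit 0) [] false,
   Spec.mk (nat_lit 17519) (nat_lit 0) [nat_lit 30641, nat_lit 16061, nat_lit 17537, nat_lit 17513, nat_lit 17521, nat_lit 37201] (nat_lit 0) [] false,
   Spec.mk (nat_lit 17521) (nat_lit 2) [nat_lit 30643, nat_lit 16063, nat_lit 17539, nat_lit 17519, nat_lit 37203] (nat_lit 0) [] false,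
   Spec.mk (nat_lit 17531) (nat_lit 0) [nat_lit 30653, nat_lit 16073, nat_lit 17585, nat_lit 17513, nat_lit 17537, nat_lit 37213] (nat_lit 0) [] false,
   Spec.mk (nat_lit 17537) (nat_lit 0) [nat_lit 30659, nat_lit 16079, nat_lit 17591, nat_lit 17519, nat_lit 17555, nat_lit 17531, nat_lit 17543, nat_lit 17539, nat_lit 37219] (nat_lit 0) [] false,
   Spec.mk (nat_lit 17539) (nat_lit 1) [nat_lit 30661, nat_lit 16081, nat_lit 17593, nat_lit 17521, nat_lit 17557, nat_lit 17545, nat_lit 17537, nat_lit 37221] (nat_lit 0) [] false,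
   Spec.mk (nat_lit 17543) (nat_lit 0) [nat_lit 30665, nat_lit 16085, nat_lit 17597, nat_lit 17561, nat_lit 17537, nat_lit 17545, nat_lit 37225] (nat_lit 2) [] false]

noncomputable def sp48 : List Spec :=
  [Spec.mk (nat_lit 17545) (nat_lit 1) [nat_lit 30667, nat_lit 16087, nat_lit 17599, nat_lit 17563, nat_lit 17539, nat_lit 17543, nat_lit 17547, nat_lit 37227] (nat_lit 0) [] false,
   Spec.mk (nat_lit 17547) (nat_lit 2) [nat_lit 30669, nat_lit 16089, nat_lit 17601, nat_lit 17565, nat_lit 17545] (nat_lit 0) [] false,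
   Spec.mk (nat_lit 17555) (nat_lit 0) [nat_lit 30677, nat_lit 16097, nat_lit 17609, nat_lit 17537, nat_lit 17561, nat_lit 17557, nat_lit 37237] (nat_lit 2) [] false,
   Spec.mk (nat_lit 17557) (nat_lit 0) [nat_lit 30679, nat_lit 16099, nat_lit 17611, nat_lit 17539, nat_lit 17563, nat_lit 17555, nat_lit 37239] (nat_lit 2) [] false,
   Spec.mk (nat_lit 17561) (nat_lit 0) [nat_lit 30683, nat_lit 16103, nat_lit 17615, nat_lit 17543, nat_lit 17555, nat_lit 17563, nat_lit 37243] (nat_lit 2) [] false,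
   Spec.mk (nat_lit 17563) (nat_lit 0) [nat_lit 30685, nat_lit 16105, nat_lit 17617, nat_lit 17545, nat_lit 17557, nat_lit 17569, nat_lit 17561, nat_lit 17565, nat_lit 37245] (nat_lit 0) [] false,
   Spec.mk (nat_lit 17565) (nat_lit 0) [nat_lit 30687, nat_lit 16107, nat_lit 17619, nat_lit 17547, nat_lit 17571, nat_lit 17563] (nat_lit 0) [] false,
   Spec.mk (nat_lit 17569) (nat_lit 0) [nat_lit 30691, nat_lit 16111, nat_lit 17623, nat_lit 17563, nat_lit 17571, nat_lit 37251] (nat_lit 0) [] false,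
   Spec.mk (nat_lit 17571) (nat_lit 2) [nat_lit 30693, nat_lit 16113, nat_lit 17625, nat_lit 17565, nat_lit 17569] (nat_lit 0) [] false,
   Spec.mk (nat_lit 17585) (nat_lit 0) [nat_lit 30707, nat_lit 16127, nat_lit 17747, nat_lit 17531, nat_lit 17591, nat_lit 37267] (nat_lit 0) [] false,
   Spec.mk (nat_lit 17591) (nat_lit 0) [nat_lit 30713, nat_lit 16133, nat_lit 17753, nat_lit 17537, nat_lit 17609, nat_lit 17585, nat_lit 17597, nat_lit 17593, nat_lit 37273] (nat_lit 1) [] false,
   Spec.mk (nat_lit 17593) (nat_lit 0) [nat_lit 30715, nat_lit 16135, nat_lit 17755, nat_lit 17539, nat_lit 17611, nat_lit 17599, nat_lit 17591, nat_lit 37275] (nat_lit 0) [] false,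
   Spec.mk (nat_lit 17597) (nat_lit 0) [nat_lit 30719, nat_lit 16139, nat_lit 17759, nat_lit 17543, nat_lit 17615, nat_lit 17591, nat_lit 17599, nat_lit 37279] (nat_lit 4) [] false,
   Spec.mk (nat_lit 17599) (nat_lit 0) [nat_lit 30721, nat_lit 16141, nat_lit 17761, nat_lit 17545, nat_lit 17617, nat_lit 17593, nat_lit 17597, nat_lit 17601, nat_lit 37281] (nat_lit 1) [] false,
   Spec.mk (nat_lit 17601) (nat_lit 0) [nat_lit 30723, nat_lit 16143, nat_lit 17763, nat_lit 17547, nat_lit 17619, nat_lit 17599] (nat_lit 0) [] false,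
   Spec.mk (nat_lit 17609) (nat_lit 0) [nat_lit 30731, nat_lit 16151, nat_lit 17771, nat_lit 17555, nat_lit 17663, nat_lit 17591, nat_lit 17615, nat_lit 17611, nat_lit 37291] (nat_lit 1) [] false,
   Spec.mk (nat_lit 17611) (nat_lit 0) [nat_lit 30733, nat_lit 16153, nat_lit 17773, nat_lit 17557, nat_lit 17665, nat_lit 17593, nat_lit 17617, nat_lit 17609, nat_lit 37293] (nat_lit 1) [] false,
   Spec.mk (nat_lit 17615) (nat_lit 0) [nat_lit 30737, nat_lit 16157, nat_lit 17777, nat_lit 17561, nat_lit 17669, nat_lit 17597, nat_lit 17633, nat_lit 17609, nat_lit 17617, nat_lit 37297] (nat_lit 2) [] false,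
   Spec.mk (nat_lit 17617) (nat_lit 0) [nat_lit 30739, nat_lit 16159, nat_lit 17779, nat_lit 17563, nat_lit 17671, nat_lit 17599, nat_lit 17635, nat_lit 17611, nat_lit 17623, nat_lit 17615, nat_lit 17619, nat_lit 37299] (nat_lit 0) [] false,
   Spec.mk (nat_lit 17619) (nat_lit 0) [nat_lit 30741, nat_lit 16161, nat_lit 17781, nat_lit 17565, nat_lit 17673, nat_lit 17601, nat_lit 17637, nat_lit 17625, nat_lit 17617] (nat_lit 0) [] false,
   Spec.mk (nat_lit 17623) (nat_lit 0) [nat_lit 30745, nat_lit 16165, nat_lit 17785, nat_lit 17569, nat_lit 17677, nat_lit 17641, nat_lit 17617, nat_lit 17625, nat_lit 37305] (nat_lit 1) [] false,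
   Spec.mk (nat_lit 17625) (nat_lit 1) [nat_lit 30747, nat_lit 16167, nat_lit 17787, nat_lit 17571, nat_lit 17679, nat_lit 17643, nat_lit 17619, nat_lit 17623] (nat_lit 0) [] false,
   Spec.mk (nat_lit 17633) (nat_lit 0) [nat_lit 30755, nat_lit 16175, nat_lit 17795, nat_lit 17687, nat_lit 17615, nat_lit 17635, nat_lit 37315] (nat_lit 2) [] false,
   Spec.mk (nat_lit 17635) (nat_lit 0) [nat_lit 30757, nat_lit 16177, nat_lit 17797, nat_lit 17689, nat_lit 17617, nat_lit 17641, nat_lit 17633, nat_lit 17637, nat_lit 37317] (nat_lit 1) [] false,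
   Spec.mk (nat_lit 17637) (nat_lit 0) [nat_lit 30759, nat_lit 16179, nat_lit 17799, nat_lit 17691, nat_lit 17619, nat_lit 17643, nat_lit 17635] (nat_lit 2) [] false,
   Spec.mk (nat_lit 17641) (nat_lit 0) [nat_lit 30763, nat_lit 16183, nat_lit 17803, nat_lit 17695, nat_lit 17623, nat_lit 17635, nat_lit 17643, nat_lit 37323] (nat_lit 0) [] false,
   Spec.mk (nat_lit 17643) (nat_lit 1) [nat_lit 30765, nat_lit 16185, nat_lit 17805, nat_lit 17697, nat_lit 17625, nat_lit 17637, nat_lit 17649, nat_lit 17641] (nat_lit 0) [] false,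
   Spec.mk (nat_lit 17649) (nat_lit 2) [nat_lit 30771, nat_lit 16191, nat_lit 17811, nat_lit 17703, nat_lit 17643] (nat_lit 0) [] false,
   Spec.mk (nat_lit 17663) (nat_lit 0) [nat_lit 30785, nat_lit 16205, nat_lit 17825, nat_lit 17609, nat_lit 17669, nat_lit 17665, nat_lit 37345] (nat_lit 2) [] false,
   Spec.mk (nat_lit 17665) (nat_lit 0) [nat_lit 30787, nat_lit 16207, nat_lit 17827, nat_lit 17611, nat_lit 17671, nat_lit 17663, nat_lit 37347] (nat_lit 2) [] false,
   Spec.mk (nat_lit 17669) (nat_lit 0) [nat_lit 30791, nat_lit 16211, nat_lit 17831, nat_lit 17615, nat_lit 17687, nat_lit 17663, nat_lit 17671, nat_lit 37351] (nat_lit 4) [] false,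
   Spec.mk (nat_lit 17671) (nat_lit 0) [nat_lit 30793, nat_lit 16213, nat_lit 17833, nat_lit 17617, nat_lit 17689, nat_lit 17665, nat_lit 17677, nat_lit 17669, nat_lit 17673, nat_lit 37353] (nat_lit 2) [] false,
   Spec.mk (nat_lit 17673) (nat_lit 0) [nat_lit 30795, nat_lit 16215, nat_lit 17835, nat_lit 17619, nat_lit 17691, nat_lit 17679, nat_lit 17671] (nat_lit 2) [] false,
   Spec.mk (nat_lit 17677) (nat_lit 0) [nat_lit 30799, nat_lit 16219, nat_lit 17839, nat_lit 17623, nat_lit 17695, nat_lit 17671, nat_lit 17679, nat_lit 37359] (nat_lit 4) [] false,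
   Spec.mk (nat_lit 17679) (nat_lit 0) [nat_lit 30801, nat_lit 16221, nat_lit 17841, nat_lit 17625, nat_lit 17697, nat_lit 17673, nat_lit 17677] (nat_lit 2) [] false,
   Spec.mk (nat_lit 17687) (nat_lit 0) [nat_lit 30809, nat_lit 16229, nat_lit 17849, nat_lit 17633, nat_lit 17669, nat_lit 17689, nat_lit 37369] (nat_lit 2) [] false,
   Spec.mk (nat_lit 17689) (nat_lit 0) [nat_lit 30811, nat_lit 16231, nat_lit 17851, nat_lit 17635, nat_lit 17671, nat_lit 17695, nat_lit 17687, nat_lit 17691, nat_lit 37371] (nat_lit 1) [] false,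
   Spec.mk (nat_lit 17691) (nat_lit 0) [nat_lit 30813, nat_lit 16233, nat_lit 17853, nat_lit 17637, nat_lit 17673, nat_lit 17697, nat_lit 17689] (nat_lit 2) [] false,
   Spec.mk (nat_lit 17695) (nat_lit 0) [nat_lit 30817, nat_lit 16237, nat_lit 17857, nat_lit 17641, nat_lit 17677, nat_lit 17713, nat_lit 17689, nat_lit 17697, nat_lit 37377] (nat_lit 1) [] false,
   Spec.mk (nat_lit 17697) (nat_lit 0) [nat_lit 30819, nat_lit 16239, nat_lit 17859, nat_lit 17643, nat_lit 17679, nat_lit 17715, nat_lit 17691, nat_lit 17703, nat_lit 17695] (nat_lit 0) [] false,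
   Spec.mk (nat_lit 17703) (nat_lit 0) [nat_lit 30825, nat_lit 16245, nat_lit 17865, nat_lit 17649, nat_lit 17721, nat_lit 17697] (nat_lit 0) [] false,
   Spec.mk (nat_lit 17713) (nat_lit 0) [nat_lit 30835, nat_lit 16255, nat_lit 17875, nat_lit 17695, nat_lit 17715, nat_lit 37395] (nat_lit 0) [] false,
   Spec.mk (nat_lit 17715) (nat_lit 0) [nat_lit 30837, nat_lit 16257, nat_lit 17877, nat_lit 17697, nat_lit 17721, nat_lit 17713] (nat_lit 0) [] false,
   Spec.mk (nat_lit 17721) (nat_lit 2) [nat_lit 30843, nat_lit 16263, nat_lit 17883, nat_lit 17703, nat_lit 17715] (nat_lit 0) [] false,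
   Spec.mk (nat_lit 17747) (nat_lit 0) [nat_lit 30869, nat_lit 16289, nat_lit 18233, nat_lit 17585, nat_lit 17753, nat_lit 37429] (nat_lit 0) [] false,
   Spec.mk (nat_lit 17753) (nat_lit 0) [nat_lit 30875, nat_lit 16295, nat_lit 18239, nat_lit 17591, nat_lit 17771, nat_lit 17747, nat_lit 17759, nat_lit 17755, nat_lit 37435] (nat_lit 1) [] false,
   Spec.mk (nat_lit 17755) (nat_lit 0) [nat_lit 30877, nat_lit 16297, nat_lit 18241, nat_lit 17593, nat_lit 17773, nat_lit 17761, nat_lit 17753, nat_lit 37437] (nat_lit 0) [] false,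
   Spec.mk (nat_lit 17759) (nat_lit 0) [nat_lit 30881, nat_lit 16301, nat_lit 18245, nat_lit 17597, nat_lit 17777, nat_lit 17753, nat_lit 17761, nat_lit 37441] (nat_lit 4) [] false,
   Spec.mk (nat_lit 17761) (nat_lit 0) [nat_lit 30883, nat_lit 16303, nat_lit 18247, nat_lit 17599, nat_lit 17779, nat_lit 17755, nat_lit 17759, nat_lit 17763, nat_lit 37443] (nat_lit 1) [] false,
   Spec.mk (nat_lit 17763) (nat_lit 0) [nat_lit 30885, nat_lit 16305, nat_lit 18249, nat_lit 17601, nat_lit 17781, nat_lit 17761] (nat_lit 0) [] false,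
   Spec.mk (nat_lit 17771) (nat_lit 0) [nat_lit 30893, nat_lit 16313, nat_lit 18257, nat_lit 17609, nat_lit 17825, nat_lit 17753, nat_lit 17777, nat_lit 17773, nat_lit 37453] (nat_lit 2) [] false,
   Spec.mk (nat_lit 17773) (nat_lit 0) [nat_lit 30895, nat_lit 16315, nat_lit 18259, nat_lit 17611, nat_lit 17827, nat_lit 17755, nat_lit 17779, nat_lit 17771, nat_lit 37455] (nat_lit 2) [] false,
   Spec.mk (nat_lit 17777) (nat_lit 0) [nat_lit 30899, nat_lit 16319, nat_lit 18263, nat_lit 17615, nat_lit 17831, nat_lit 17759, nat_lit 17795, nat_lit 17771, nat_lit 17779, nat_lit 37459] (nat_lit 3) [] false,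
   Spec.mk (nat_lit 17779) (nat_lit 0) [nat_lit 30901, nat_lit 16321, nat_lit 18265, nat_lit 17617, nat_lit 17833, nat_lit 17761, nat_lit 17797, nat_lit 17773, nat_lit 17785, nat_lit 17777, nat_lit 17781, nat_lit 37461] (nat_lit 1) [] false,
   Spec.mk (nat_lit 17781) (nat_lit 0) [nat_lit 30903, nat_lit 16323, nat_lit 18267, nat_lit 17619, nat_lit 17835, nat_lit 17763, nat_lit 17799, nat_lit 17787, nat_lit 17779] (nat_lit 1) [] false,
   Spec.mk (nat_lit 17785) (nat_lit 0) [nat_lit 30907, nat_lit 16327, nat_lit 18271, nat_lit 17623, nat_lit 17839, nat_lit 17803, nat_lit 17779, nat_lit 17787, nat_lit 37467] (nat_lit 2) [] false,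
   Spec.mk (nat_lit 17787) (nat_lit 0) [nat_lit 30909, nat_lit 16329, nat_lit 18273, nat_lit 17625, nat_lit 17841, nat_lit 17805, nat_lit 17781, nat_lit 17785] (nat_lit 0) [] false,
   Spec.mk (nat_lit 17795) (nat_lit 0) [nat_lit 30917, nat_lit 16337, nat_lit 18281, nat_lit 17633, nat_lit 17849, nat_lit 17777, nat_lit 17797, nat_lit 37477] (nat_lit 4) [] false,
   Spec.mk (nat_lit 17797) (nat_lit 0) [nat_lit 30919, nat_lit 16339, nat_lit 18283, nat_lit 17635, nat_lit 17851, nat_lit 17779, nat_lit 17803, nat_lit 17795, nat_lit 17799, nat_lit 37479] (nat_lit 3) [] false,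
   Spec.mk (nat_lit 17799) (nat_lit 0) [nat_lit 30921, nat_lit 16341, nat_lit 18285, nat_lit 17637, nat_lit 17853, nat_lit 17781, nat_lit 17805, nat_lit 17797] (nat_lit 4) [] false]

noncomputable def sp49 : List Spec :=
  [Spec.mk (nat_lit 17803) (nat_lit 0) [nat_lit 30925, nat_lit 16345, nat_lit 18289, nat_lit 17641, nat_lit 17857, nat_lit 17785, nat_lit 17797, nat_lit 17805, nat_lit 37485] (nat_lit 2) [] false,
   Spec.mk (nat_lit 17805) (nat_lit 0) [nat_lit 30927, nat_lit 16347, nat_lit 18291, nat_lit 17643, nat_lit 17859, nat_lit 17787, nat_lit 17799, nat_lit 17811, nat_lit 17803] (nat_lit 1) [] false,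
   Spec.mk (nat_lit 17811) (nat_lit 0) [nat_lit 30933, nat_lit 16353, nat_lit 18297, nat_lit 17649, nat_lit 17865, nat_lit 17805] (nat_lit 0) [] false,
   Spec.mk (nat_lit 17825) (nat_lit 0) [nat_lit 30947, nat_lit 16367, nat_lit 18311, nat_lit 17663, nat_lit 17987, nat_lit 17771, nat_lit 17831, nat_lit 17827, nat_lit 37507] (nat_lit 1) [] false,
   Spec.mk (nat_lit 17827) (nat_lit 0) [nat_lit 30949, nat_lit 16369, nat_lit 18313, nat_lit 17665, nat_lit 17989, nat_lit 17773, nat_lit 17833, nat_lit 17825, nat_lit 37509] (nat_lit 1) [] false,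
   Spec.mk (nat_lit 17831) (nat_lit 0) [nat_lit 30953, nat_lit 16373, nat_lit 18317, nat_lit 17669, nat_lit 17993, nat_lit 17777, nat_lit 17849, nat_lit 17825, nat_lit 17833, nat_lit 37513] (nat_lit 3) [] false,
   Spec.mk (nat_lit 17833) (nat_lit 0) [nat_lit 30955, nat_lit 16375, nat_lit 18319, nat_lit 17671, nat_lit 17995, nat_lit 17779, nat_lit 17851, nat_lit 17827, nat_lit 17839, nat_lit 17831, nat_lit 17835, nat_lit 37515] (nat_lit 1) [] false,
   Spec.mk (nat_lit 17835) (nat_lit 0) [nat_lit 30957, nat_lit 16377, nat_lit 18321, nat_lit 17673, nat_lit 17997, nat_lit 17781, nat_lit 17853, nat_lit 17841, nat_lit 17833] (nat_lit 1) [] false,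
   Spec.mk (nat_lit 17839) (nat_lit 0) [nat_lit 30961, nat_lit 16381, nat_lit 18325, nat_lit 17677, nat_lit 18001, nat_lit 17785, nat_lit 17857, nat_lit 17833, nat_lit 17841, nat_lit 37521] (nat_lit 3) [] false,
   Spec.mk (nat_lit 17841) (nat_lit 0) [nat_lit 30963, nat_lit 16383, nat_lit 18327, nat_lit 17679, nat_lit 18003, nat_lit 17787, nat_lit 17859, nat_lit 17835, nat_lit 17839] (nat_lit 1) [] false,
   Spec.mk (nat_lit 17849) (nat_lit 0) [nat_lit 30971, nat_lit 16391, nat_lit 18335, nat_lit 17687, nat_lit 18011, nat_lit 17795, nat_lit 17903, nat_lit 17831, nat_lit 17851, nat_lit 37531] (nat_lit 2) [] false,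
   Spec.mk (nat_lit 17851) (nat_lit 0) [nat_lit 30973, nat_lit 16393, nat_lit 18337, nat_lit 17689, nat_lit 18013, nat_lit 17797, nat_lit 17905, nat_lit 17833, nat_lit 17857, nat_lit 17849, nat_lit 17853, nat_lit 37533] (nat_lit 1) [] false,
   Spec.mk (nat_lit 17853) (nat_lit 0) [nat_lit 30975, nat_lit 16395, nat_lit 18339, nat_lit 17691, nat_lit 18015, nat_lit 17799, nat_lit 17907, nat_lit 17835, nat_lit 17859, nat_lit 17851] (nat_lit 2) [] false,
   Spec.mk (nat_lit 17857) (nat_lit 0) [nat_lit 30979, nat_lit 16399, nat_lit 18343, nat_lit 17695, nat_lit 18019, nat_lit 17803, nat_lit 17911, nat_lit 17839, nat_lit 17875, nat_lit 17851, nat_lit 17859, nat_lit 37539] (nat_lit 1) [] false,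
   Spec.mk (nat_lit 17859) (nat_lit 0) [nat_lit 30981, nat_lit 16401, nat_lit 18345, nat_lit 17697, nat_lit 18021, nat_lit 17805, nat_lit 17913, nat_lit 17841, nat_lit 17877, nat_lit 17853, nat_lit 17865, nat_lit 17857] (nat_lit 0) [] false,
   Spec.mk (nat_lit 17865) (nat_lit 0) [nat_lit 30987, nat_lit 16407, nat_lit 18351, nat_lit 17703, nat_lit 18027, nat_lit 17811, nat_lit 17919, nat_lit 17883, nat_lit 17859] (nat_lit 0) [] false,
   Spec.mk (nat_lit 17875) (nat_lit 0) [nat_lit 30997, nat_lit 16417, nat_lit 18361, nat_lit 17713, nat_lit 18037, nat_lit 17929, nat_lit 17857, nat_lit 17877, nat_lit 37557] (nat_lit 1) [] false,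
   Spec.mk (nat_lit 17877) (nat_lit 0) [nat_lit 30999, nat_lit 16419, nat_lit 18363, nat_lit 17715, nat_lit 18039, nat_lit 17931, nat_lit 17859, nat_lit 17883, nat_lit 17875] (nat_lit 1) [] false,
   Spec.mk (nat_lit 17883) (nat_lit 1) [nat_lit 31005, nat_lit 16425, nat_lit 18369, nat_lit 17721, nat_lit 18045, nat_lit 17937, nat_lit 17865, nat_lit 17877] (nat_lit 0) [] false,
   Spec.mk (nat_lit 17903) (nat_lit 0) [nat_lit 31025, nat_lit 16445, nat_lit 18389, nat_lit 18065, nat_lit 17849, nat_lit 17905, nat_lit 37585] (nat_lit 2) [] false,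
   Spec.mk (nat_lit 17905) (nat_lit 0) [nat_lit 31027, nat_lit 16447, nat_lit 18391, nat_lit 18067, nat_lit 17851, nat_lit 17911, nat_lit 17903, nat_lit 17907, nat_lit 37587] (nat_lit 1) [] false,
   Spec.mk (nat_lit 17907) (nat_lit 0) [nat_lit 31029, nat_lit 16449, nat_lit 18393, nat_lit 18069, nat_lit 17853, nat_lit 17913, nat_lit 17905] (nat_lit 2) [] false,
   Spec.mk (nat_lit 17911) (nat_lit 0) [nat_lit 31033, nat_lit 16453, nat_lit 18397, nat_lit 18073, nat_lit 17857, nat_lit 17929, nat_lit 17905, nat_lit 17913, nat_lit 37593] (nat_lit 2) [] false,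
   Spec.mk (nat_lit 17913) (nat_lit 0) [nat_lit 31035, nat_lit 16455, nat_lit 18399, nat_lit 18075, nat_lit 17859, nat_lit 17931, nat_lit 17907, nat_lit 17919, nat_lit 17911] (nat_lit 1) [] false,
   Spec.mk (nat_lit 17919) (nat_lit 0) [nat_lit 31041, nat_lit 16461, nat_lit 18405, nat_lit 18081, nat_lit 17865, nat_lit 17937, nat_lit 17913] (nat_lit 2) [] false,
   Spec.mk (nat_lit 17929) (nat_lit 0) [nat_lit 31051, nat_lit 16471, nat_lit 18415, nat_lit 18091, nat_lit 17875, nat_lit 17911, nat_lit 17931, nat_lit 37611] (nat_lit 0) [] false,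
   Spec.mk (nat_lit 17931) (nat_lit 0) [nat_lit 31053, nat_lit 16473, nat_lit 18417, nat_lit 18093, nat_lit 17877, nat_lit 17913, nat_lit 17937, nat_lit 17929] (nat_lit 0) [] false,
   Spec.mk (nat_lit 17937) (nat_lit 1) [nat_lit 31059, nat_lit 16479, nat_lit 18423, nat_lit 18099, nat_lit 17883, nat_lit 17919, nat_lit 17955, nat_lit 17931] (nat_lit 0) [] false,
   Spec.mk (nat_lit 17955) (nat_lit 2) [nat_lit 31077, nat_lit 16497, nat_lit 18441, nat_lit 18117, nat_lit 17937] (nat_lit 0) [] false,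
   Spec.mk (nat_lit 17987) (nat_lit 0) [nat_lit 31109, nat_lit 16529, nat_lit 18473, nat_lit 17825, nat_lit 17993, nat_lit 17989, nat_lit 37669] (nat_lit 2) [] false,
   Spec.mk (nat_lit 17989) (nat_lit 0) [nat_lit 31111, nat_lit 16531, nat_lit 18475, nat_lit 17827, nat_lit 17995, nat_lit 17987, nat_lit 37671] (nat_lit 2) [] false,
   Spec.mk (nat_lit 17993) (nat_lit 0) [nat_lit 31115, nat_lit 16535, nat_lit 18479, nat_lit 17831, nat_lit 18011, nat_lit 17987, nat_lit 17995, nat_lit 37675] (nat_lit 4) [] false,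
   Spec.mk (nat_lit 17995) (nat_lit 0) [nat_lit 31117, nat_lit 16537, nat_lit 18481, nat_lit 17833, nat_lit 18013, nat_lit 17989, nat_lit 18001, nat_lit 17993, nat_lit 17997, nat_lit 37677] (nat_lit 2) [] false,
   Spec.mk (nat_lit 17997) (nat_lit 0) [nat_lit 31119, nat_lit 16539, nat_lit 18483, nat_lit 17835, nat_lit 18015, nat_lit 18003, nat_lit 17995] (nat_lit 2) [] false,
   Spec.mk (nat_lit 18001) (nat_lit 0) [nat_lit 31123, nat_lit 16543, nat_lit 18487, nat_lit 17839, nat_lit 18019, nat_lit 17995, nat_lit 18003, nat_lit 37683] (nat_lit 4) [] false,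
   Spec.mk (nat_lit 18003) (nat_lit 0) [nat_lit 31125, nat_lit 16545, nat_lit 18489, nat_lit 17841, nat_lit 18021, nat_lit 17997, nat_lit 18001] (nat_lit 2) [] false,
   Spec.mk (nat_lit 18011) (nat_lit 0) [nat_lit 31133, nat_lit 16553, nat_lit 18497, nat_lit 17849, nat_lit 18065, nat_lit 17993, nat_lit 18013, nat_lit 37693] (nat_lit 4) [] false,
   Spec.mk (nat_lit 18013) (nat_lit 0) [nat_lit 31135, nat_lit 16555, nat_lit 18499, nat_lit 17851, nat_lit 18067, nat_lit 17995, nat_lit 18019, nat_lit 18011, nat_lit 18015, nat_lit 37695] (nat_lit 3) [] false,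
   Spec.mk (nat_lit 18015) (nat_lit 0) [nat_lit 31137, nat_lit 16557, nat_lit 18501, nat_lit 17853, nat_lit 18069, nat_lit 17997, nat_lit 18021, nat_lit 18013] (nat_lit 4) [] false,
   Spec.mk (nat_lit 18019) (nat_lit 0) [nat_lit 31141, nat_lit 16561, nat_lit 18505, nat_lit 17857, nat_lit 18073, nat_lit 18001, nat_lit 18037, nat_lit 18013, nat_lit 18021, nat_lit 37701] (nat_lit 3) [] false,
   Spec.mk (nat_lit 18021) (nat_lit 0) [nat_lit 31143, nat_lit 16563, nat_lit 18507, nat_lit 17859, nat_lit 18075, nat_lit 18003, nat_lit 18039, nat_lit 18015, nat_lit 18027, nat_lit 18019] (nat_lit 2) [] false,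
   Spec.mk (nat_lit 18027) (nat_lit 0) [nat_lit 31149, nat_lit 16569, nat_lit 18513, nat_lit 17865, nat_lit 18081, nat_lit 18045, nat_lit 18021] (nat_lit 2) [] false,
   Spec.mk (nat_lit 18037) (nat_lit 0) [nat_lit 31159, nat_lit 16579, nat_lit 18523, nat_lit 17875, nat_lit 18091, nat_lit 18019, nat_lit 18039, nat_lit 37719] (nat_lit 4) [] false,
   Spec.mk (nat_lit 18039) (nat_lit 0) [nat_lit 31161, nat_lit 16581, nat_lit 18525, nat_lit 17877, nat_lit 18093, nat_lit 18021, nat_lit 18045, nat_lit 18037] (nat_lit 4) [] false,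
   Spec.mk (nat_lit 18045) (nat_lit 0) [nat_lit 31167, nat_lit 16587, nat_lit 18531, nat_lit 17883, nat_lit 18099, nat_lit 18027, nat_lit 18039] (nat_lit 2) [] false,
   Spec.mk (nat_lit 18065) (nat_lit 0) [nat_lit 31187, nat_lit 16607, nat_lit 18551, nat_lit 17903, nat_lit 18011, nat_lit 18067, nat_lit 37747] (nat_lit 2) [] false,
   Spec.mk (nat_lit 18067) (nat_lit 0) [nat_lit 31189, nat_lit 16609, nat_lit 18553, nat_lit 17905, nat_lit 18013, nat_lit 18073, nat_lit 18065, nat_lit 18069, nat_lit 37749] (nat_lit 1) [] false,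
   Spec.mk (nat_lit 18069) (nat_lit 0) [nat_lit 31191, nat_lit 16611, nat_lit 18555, nat_lit 17907, nat_lit 18015, nat_lit 18075, nat_lit 18067] (nat_lit 2) [] false,
   Spec.mk (nat_lit 18073) (nat_lit 0) [nat_lit 31195, nat_lit 16615, nat_lit 18559, nat_lit 17911, nat_lit 18019, nat_lit 18091, nat_lit 18067, nat_lit 18075, nat_lit 37755] (nat_lit 2) [] false,
   Spec.mk (nat_lit 18075) (nat_lit 0) [nat_lit 31197, nat_lit 16617, nat_lit 18561, nat_lit 17913, nat_lit 18021, nat_lit 18093, nat_lit 18069, nat_lit 18081, nat_lit 18073] (nat_lit 1) [] false,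
   Spec.mk (nat_lit 18081) (nat_lit 0) [nat_lit 31203, nat_lit 16623, nat_lit 18567, nat_lit 17919, nat_lit 18027, nat_lit 18099, nat_lit 18075] (nat_lit 2) [] false,
   Spec.mk (nat_lit 18091) (nat_lit 0) [nat_lit 31213, nat_lit 16633, nat_lit 18577, nat_lit 17929, nat_lit 18037, nat_lit 18145, nat_lit 18073, nat_lit 18093, nat_lit 37773] (nat_lit 1) [] false,
   Spec.mk (nat_lit 18093) (nat_lit 0) [nat_lit 31215, nat_lit 16635, nat_lit 18579, nat_lit 17931, nat_lit 18039, nat_lit 18147, nat_lit 18075, nat_lit 18099, nat_lit 18091] (nat_lit 1) [] false,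
   Spec.mk (nat_lit 18099) (nat_lit 0) [nat_lit 31221, nat_lit 16641, nat_lit 18585, nat_lit 17937, nat_lit 18045, nat_lit 18153, nat_lit 18081, nat_lit 18117, nat_lit 18093] (nat_lit 0) [] false,
   Spec.mk (nat_lit 18117) (nat_lit 0) [nat_lit 31239, nat_lit 16659, nat_lit 18603, nat_lit 17955, nat_lit 18171, nat_lit 18099] (nat_lit 0) [] false,
   Spec.mk (nat_lit 18145) (nat_lit 0) [nat_lit 31267, nat_lit 16687, nat_lit 18631, nat_lit 18091, nat_lit 18147, nat_lit 37827] (nat_lit 0) [] false,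
   Spec.mk (nat_lit 18147) (nat_lit 0) [nat_lit 31269, nat_lit 16689, nat_lit 18633, nat_lit 18093, nat_lit 18153, nat_lit 18145] (nat_lit 0) [] false,
   Spec.mk (nat_lit 18153) (nat_lit 0) [nat_lit 31275, nat_lit 16695, nat_lit 18639, nat_lit 18099, nat_lit 18171, nat_lit 18147] (nat_lit 0) [] false,
   Spec.mk (nat_lit 18171) (nat_lit 2) [nat_lit 31293, nat_lit 16713, nat_lit 18657, nat_lit 18117, nat_lit 18153] (nat_lit 0) [] false,
   Spec.mk (nat_lit 18233) (nat_lit 2) [nat_lit 31355, nat_lit 16775, nat_lit 17747, nat_lit 18239, nat_lit 37915] (nat_lit 0) [] false]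

noncomputable def sp50 : List Spec :=
  [Spec.mk (nat_lit 18239) (nat_lit 1) [nat_lit 31361, nat_lit 16781, nat_lit 17753, nat_lit 18257, nat_lit 18233, nat_lit 18245, nat_lit 18241, nat_lit 37921] (nat_lit 0) [] false,
   Spec.mk (nat_lit 18241) (nat_lit 2) [nat_lit 31363, nat_lit 16783, nat_lit 17755, nat_lit 18259, nat_lit 18247, nat_lit 18239, nat_lit 37923] (nat_lit 0) [] false,
   Spec.mk (nat_lit 18245) (nat_lit 0) [nat_lit 31367, nat_lit 16787, nat_lit 17759, nat_lit 18263, nat_lit 18239, nat_lit 18247, nat_lit 37927] (nat_lit 2) [] false,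
   Spec.mk (nat_lit 18247) (nat_lit 1) [nat_lit 31369, nat_lit 16789, nat_lit 17761, nat_lit 18265, nat_lit 18241, nat_lit 18245, nat_lit 18249, nat_lit 37929] (nat_lit 0) [] false,
   Spec.mk (nat_lit 18249) (nat_lit 2) [nat_lit 31371, nat_lit 16791, nat_lit 17763, nat_lit 18267, nat_lit 18247] (nat_lit 0) [] false,
   Spec.mk (nat_lit 18257) (nat_lit 0) [nat_lit 31379, nat_lit 16799, nat_lit 17771, nat_lit 18311, nat_lit 18239, nat_lit 18263, nat_lit 18259, nat_lit 37939] (nat_lit 0) [] false,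
   Spec.mk (nat_lit 18259) (nat_lit 0) [nat_lit 31381, nat_lit 16801, nat_lit 17773, nat_lit 18313, nat_lit 18241, nat_lit 18265, nat_lit 18257, nat_lit 37941] (nat_lit 0) [] false,
   Spec.mk (nat_lit 18263) (nat_lit 0) [nat_lit 31385, nat_lit 16805, nat_lit 17777, nat_lit 18317, nat_lit 18245, nat_lit 18281, nat_lit 18257, nat_lit 18265, nat_lit 37945] (nat_lit 1) [] false,
   Spec.mk (nat_lit 18265) (nat_lit 1) [nat_lit 31387, nat_lit 16807, nat_lit 17779, nat_lit 18319, nat_lit 18247, nat_lit 18283, nat_lit 18259, nat_lit 18271, nat_lit 18263, nat_lit 18267, nat_lit 37947] (nat_lit 0) [] false,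
   Spec.mk (nat_lit 18267) (nat_lit 1) [nat_lit 31389, nat_lit 16809, nat_lit 17781, nat_lit 18321, nat_lit 18249, nat_lit 18285, nat_lit 18273, nat_lit 18265] (nat_lit 0) [] false,
   Spec.mk (nat_lit 18271) (nat_lit 0) [nat_lit 31393, nat_lit 16813, nat_lit 17785, nat_lit 18325, nat_lit 18289, nat_lit 18265, nat_lit 18273, nat_lit 37953] (nat_lit 0) [] false,
   Spec.mk (nat_lit 18273) (nat_lit 2) [nat_lit 31395, nat_lit 16815, nat_lit 17787, nat_lit 18327, nat_lit 18291, nat_lit 18267, nat_lit 18271] (nat_lit 0) [] false,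
   Spec.mk (nat_lit 18281) (nat_lit 0) [nat_lit 31403, nat_lit 16823, nat_lit 17795, nat_lit 18335, nat_lit 18263, nat_lit 18283, nat_lit 37963] (nat_lit 2) [] false,
   Spec.mk (nat_lit 18283) (nat_lit 0) [nat_lit 31405, nat_lit 16825, nat_lit 17797, nat_lit 18337, nat_lit 18265, nat_lit 18289, nat_lit 18281, nat_lit 18285, nat_lit 37965] (nat_lit 1) [] false,
   Spec.mk (nat_lit 18285) (nat_lit 0) [nat_lit 31407, nat_lit 16827, nat_lit 17799, nat_lit 18339, nat_lit 18267, nat_lit 18291, nat_lit 18283] (nat_lit 2) [] false,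
   Spec.mk (nat_lit 18289) (nat_lit 0) [nat_lit 31411, nat_lit 16831, nat_lit 17803, nat_lit 18343, nat_lit 18271, nat_lit 18283, nat_lit 18291, nat_lit 37971] (nat_lit 0) [] false,
   Spec.mk (nat_lit 18291) (nat_lit 1) [nat_lit 31413, nat_lit 16833, nat_lit 17805, nat_lit 18345, nat_lit 18273, nat_lit 18285, nat_lit 18297, nat_lit 18289] (nat_lit 0) [] false,
   Spec.mk (nat_lit 18297) (nat_lit 2) [nat_lit 31419, nat_lit 16839, nat_lit 17811, nat_lit 18351, nat_lit 18291] (nat_lit 0) [] false,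
   Spec.mk (nat_lit 18311) (nat_lit 0) [nat_lit 31433, nat_lit 16853, nat_lit 17825, nat_lit 18473, nat_lit 18257, nat_lit 18317, nat_lit 18313, nat_lit 37993] (nat_lit 0) [] false,
   Spec.mk (nat_lit 18313) (nat_lit 0) [nat_lit 31435, nat_lit 16855, nat_lit 17827, nat_lit 18475, nat_lit 18259, nat_lit 18319, nat_lit 18311, nat_lit 37995] (nat_lit 0) [] false,
   Spec.mk (nat_lit 18317) (nat_lit 0) [nat_lit 31439, nat_lit 16859, nat_lit 17831, nat_lit 18479, nat_lit 18263, nat_lit 18335, nat_lit 18311, nat_lit 18319, nat_lit 37999] (nat_lit 2) [] false,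
   Spec.mk (nat_lit 18319) (nat_lit 0) [nat_lit 31441, nat_lit 16861, nat_lit 17833, nat_lit 18481, nat_lit 18265, nat_lit 18337, nat_lit 18313, nat_lit 18325, nat_lit 18317, nat_lit 18321, nat_lit 38001] (nat_lit 0) [] false,
   Spec.mk (nat_lit 18321) (nat_lit 0) [nat_lit 31443, nat_lit 16863, nat_lit 17835, nat_lit 18483, nat_lit 18267, nat_lit 18339, nat_lit 18327, nat_lit 18319] (nat_lit 0) [] false,
   Spec.mk (nat_lit 18325) (nat_lit 0) [nat_lit 31447, nat_lit 16867, nat_lit 17839, nat_lit 18487, nat_lit 18271, nat_lit 18343, nat_lit 18319, nat_lit 18327, nat_lit 38007] (nat_lit 2) [] false,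
   Spec.mk (nat_lit 18327) (nat_lit 0) [nat_lit 31449, nat_lit 16869, nat_lit 17841, nat_lit 18489, nat_lit 18273, nat_lit 18345, nat_lit 18321, nat_lit 18325] (nat_lit 0) [] false,
   Spec.mk (nat_lit 18335) (nat_lit 0) [nat_lit 31457, nat_lit 16877, nat_lit 17849, nat_lit 18497, nat_lit 18281, nat_lit 18389, nat_lit 18317, nat_lit 18337, nat_lit 38017] (nat_lit 1) [] false,
   Spec.mk (nat_lit 18337) (nat_lit 0) [nat_lit 31459, nat_lit 16879, nat_lit 17851, nat_lit 18499, nat_lit 18283, nat_lit 18391, nat_lit 18319, nat_lit 18343, nat_lit 18335, nat_lit 18339, nat_lit 38019] (nat_lit 0) [] false,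
   Spec.mk (nat_lit 18339) (nat_lit 0) [nat_lit 31461, nat_lit 16881, nat_lit 17853, nat_lit 18501, nat_lit 18285, nat_lit 18393, nat_lit 18321, nat_lit 18345, nat_lit 18337] (nat_lit 1) [] false,
   Spec.mk (nat_lit 18343) (nat_lit 0) [nat_lit 31465, nat_lit 16885, nat_lit 17857, nat_lit 18505, nat_lit 18289, nat_lit 18397, nat_lit 18325, nat_lit 18361, nat_lit 18337, nat_lit 18345, nat_lit 38025] (nat_lit 0) [] false,
   Spec.mk (nat_lit 18345) (nat_lit 1) [nat_lit 31467, nat_lit 16887, nat_lit 17859, nat_lit 18507, nat_lit 18291, nat_lit 18399, nat_lit 18327, nat_lit 18363, nat_lit 18339, nat_lit 18351, nat_lit 18343] (nat_lit 0) [] false,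
   Spec.mk (nat_lit 18351) (nat_lit 1) [nat_lit 31473, nat_lit 16893, nat_lit 17865, nat_lit 18513, nat_lit 18297, nat_lit 18405, nat_lit 18369, nat_lit 18345] (nat_lit 0) [] false,
   Spec.mk (nat_lit 18361) (nat_lit 0) [nat_lit 31483, nat_lit 16903, nat_lit 17875, nat_lit 18523, nat_lit 18415, nat_lit 18343, nat_lit 18363, nat_lit 38043] (nat_lit 0) [] false,
   Spec.mk (nat_lit 18363) (nat_lit 0) [nat_lit 31485, nat_lit 16905, nat_lit 17877, nat_lit 18525, nat_lit 18417, nat_lit 18345, nat_lit 18369, nat_lit 18361] (nat_lit 0) [] false,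
   Spec.mk (nat_lit 18369) (nat_lit 2) [nat_lit 31491, nat_lit 16911, nat_lit 17883, nat_lit 18531, nat_lit 18423, nat_lit 18351, nat_lit 18363] (nat_lit 0) [] false,
   Spec.mk (nat_lit 18389) (nat_lit 0) [nat_lit 31511, nat_lit 16931, nat_lit 17903, nat_lit 18551, nat_lit 18335, nat_lit 18391, nat_lit 38071] (nat_lit 2) [] false,
   Spec.mk (nat_lit 18391) (nat_lit 0) [nat_lit 31513, nat_lit 16933, nat_lit 17905, nat_lit 18553, nat_lit 18337, nat_lit 18397, nat_lit 18389, nat_lit 18393, nat_lit 38073] (nat_lit 1) [] false,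
   Spec.mk (nat_lit 18393) (nat_lit 0) [nat_lit 31515, nat_lit 16935, nat_lit 17907, nat_lit 18555, nat_lit 18339, nat_lit 18399, nat_lit 18391] (nat_lit 2) [] false,
   Spec.mk (nat_lit 18397) (nat_lit 0) [nat_lit 31519, nat_lit 16939, nat_lit 17911, nat_lit 18559, nat_lit 18343, nat_lit 18415, nat_lit 18391, nat_lit 18399, nat_lit 38079] (nat_lit 2) [] false,
   Spec.mk (nat_lit 18399) (nat_lit 0) [nat_lit 31521, nat_lit 16941, nat_lit 17913, nat_lit 18561, nat_lit 18345, nat_lit 18417, nat_lit 18393, nat_lit 18405, nat_lit 18397] (nat_lit 1) [] false,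
   Spec.mk (nat_lit 18405) (nat_lit 0) [nat_lit 31527, nat_lit 16947, nat_lit 17919, nat_lit 18567, nat_lit 18351, nat_lit 18423, nat_lit 18399] (nat_lit 2) [] false,
   Spec.mk (nat_lit 18415) (nat_lit 0) [nat_lit 31537, nat_lit 16957, nat_lit 17929, nat_lit 18577, nat_lit 18361, nat_lit 18397, nat_lit 18417, nat_lit 38097] (nat_lit 0) [] false,
   Spec.mk (nat_lit 18417) (nat_lit 0) [nat_lit 31539, nat_lit 16959, nat_lit 17931, nat_lit 18579, nat_lit 18363, nat_lit 18399, nat_lit 18423, nat_lit 18415] (nat_lit 0) [] false,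
   Spec.mk (nat_lit 18423) (nat_lit 1) [nat_lit 31545, nat_lit 16965, nat_lit 17937, nat_lit 18585, nat_lit 18369, nat_lit 18405, nat_lit 18441, nat_lit 18417] (nat_lit 0) [] false,
   Spec.mk (nat_lit 18441) (nat_lit 2) [nat_lit 31563, nat_lit 16983, nat_lit 17955, nat_lit 18603, nat_lit 18423] (nat_lit 0) [] false,
   Spec.mk (nat_lit 18473) (nat_lit 1) [nat_lit 31595, nat_lit 17015, nat_lit 17987, nat_lit 18959, nat_lit 18311, nat_lit 18479, nat_lit 18475, nat_lit 38155] (nat_lit 0) [] false,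
   Spec.mk (nat_lit 18475) (nat_lit 1) [nat_lit 31597, nat_lit 17017, nat_lit 17989, nat_lit 18961, nat_lit 18313, nat_lit 18481, nat_lit 18473, nat_lit 38157] (nat_lit 0) [] false,
   Spec.mk (nat_lit 18479) (nat_lit 0) [nat_lit 31601, nat_lit 17021, nat_lit 17993, nat_lit 18965, nat_lit 18317, nat_lit 18497, nat_lit 18473, nat_lit 18481, nat_lit 38161] (nat_lit 1) [] false,
   Spec.mk (nat_lit 18481) (nat_lit 1) [nat_lit 31603, nat_lit 17023, nat_lit 17995, nat_lit 18967, nat_lit 18319, nat_lit 18499, nat_lit 18475, nat_lit 18487, nat_lit 18479, nat_lit 18483, nat_lit 38163] (nat_lit 0) [] false,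
   Spec.mk (nat_lit 18483) (nat_lit 1) [nat_lit 31605, nat_lit 17025, nat_lit 17997, nat_lit 18969, nat_lit 18321, nat_lit 18501, nat_lit 18489, nat_lit 18481] (nat_lit 0) [] false,
   Spec.mk (nat_lit 18487) (nat_lit 0) [nat_lit 31609, nat_lit 17029, nat_lit 18001, nat_lit 18973, nat_lit 18325, nat_lit 18505, nat_lit 18481, nat_lit 18489, nat_lit 38169] (nat_lit 1) [] false,
   Spec.mk (nat_lit 18489) (nat_lit 1) [nat_lit 31611, nat_lit 17031, nat_lit 18003, nat_lit 18975, nat_lit 18327, nat_lit 18507, nat_lit 18483, nat_lit 18487] (nat_lit 0) [] false,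
   Spec.mk (nat_lit 18497) (nat_lit 0) [nat_lit 31619, nat_lit 17039, nat_lit 18011, nat_lit 18983, nat_lit 18335, nat_lit 18551, nat_lit 18479, nat_lit 18499, nat_lit 38179] (nat_lit 1) [] false,
   Spec.mk (nat_lit 18499) (nat_lit 0) [nat_lit 31621, nat_lit 17041, nat_lit 18013, nat_lit 18985, nat_lit 18337, nat_lit 18553, nat_lit 18481, nat_lit 18505, nat_lit 18497, nat_lit 18501, nat_lit 38181] (nat_lit 0) [] false,
   Spec.mk (nat_lit 18501) (nat_lit 0) [nat_lit 31623, nat_lit 17043, nat_lit 18015, nat_lit 18987, nat_lit 18339, nat_lit 18555, nat_lit 18483, nat_lit 18507, nat_lit 18499] (nat_lit 1) [] false,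
   Spec.mk (nat_lit 18505) (nat_lit 0) [nat_lit 31627, nat_lit 17047, nat_lit 18019, nat_lit 18991, nat_lit 18343, nat_lit 18559, nat_lit 18487, nat_lit 18523, nat_lit 18499, nat_lit 18507, nat_lit 38187] (nat_lit 0) [] false,
   Spec.mk (nat_lit 18507) (nat_lit 1) [nat_lit 31629, nat_lit 17049, nat_lit 18021, nat_lit 18993, nat_lit 18345, nat_lit 18561, nat_lit 18489, nat_lit 18525, nat_lit 18501, nat_lit 18513, nat_lit 18505] (nat_lit 0) [] false,
   Spec.mk (nat_lit 18513) (nat_lit 1) [nat_lit 31635, nat_lit 17055, nat_lit 18027, nat_lit 18999, nat_lit 18351, nat_lit 18567, nat_lit 18531, nat_lit 18507] (nat_lit 0) [] false,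
   Spec.mk (nat_lit 18523) (nat_lit 0) [nat_lit 31645, nat_lit 17065, nat_lit 18037, nat_lit 19009, nat_lit 18361, nat_lit 18577, nat_lit 18505, nat_lit 18525, nat_lit 38205] (nat_lit 1) [] false,
   Spec.mk (nat_lit 18525) (nat_lit 0) [nat_lit 31647, nat_lit 17067, nat_lit 18039, nat_lit 19011, nat_lit 18363, nat_lit 18579, nat_lit 18507, nat_lit 18531, nat_lit 18523] (nat_lit 1) [] false,
   Spec.mk (nat_lit 18531) (nat_lit 1) [nat_lit 31653, nat_lit 17073, nat_lit 18045, nat_lit 19017, nat_lit 18369, nat_lit 18585, nat_lit 18513, nat_lit 18525] (nat_lit 0) [] false]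

noncomputable def sp51 : List Spec :=
  [Spec.mk (nat_lit 18551) (nat_lit 0) [nat_lit 31673, nat_lit 17093, nat_lit 18065, nat_lit 19037, nat_lit 18389, nat_lit 18713, nat_lit 18497, nat_lit 18553, nat_lit 38233] (nat_lit 0) [] false,
   Spec.mk (nat_lit 18553) (nat_lit 1) [nat_lit 31675, nat_lit 17095, nat_lit 18067, nat_lit 19039, nat_lit 18391, nat_lit 18715, nat_lit 18499, nat_lit 18559, nat_lit 18551, nat_lit 18555, nat_lit 38235] (nat_lit 0) [] false,
   Spec.mk (nat_lit 18555) (nat_lit 0) [nat_lit 31677, nat_lit 17097, nat_lit 18069, nat_lit 19041, nat_lit 18393, nat_lit 18717, nat_lit 18501, nat_lit 18561, nat_lit 18553] (nat_lit 0) [] false,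
   Spec.mk (nat_lit 18559) (nat_lit 0) [nat_lit 31681, nat_lit 17101, nat_lit 18073, nat_lit 19045, nat_lit 18397, nat_lit 18721, nat_lit 18505, nat_lit 18577, nat_lit 18553, nat_lit 18561, nat_lit 38241] (nat_lit 0) [] false,
   Spec.mk (nat_lit 18561) (nat_lit 1) [nat_lit 31683, nat_lit 17103, nat_lit 18075, nat_lit 19047, nat_lit 18399, nat_lit 18723, nat_lit 18507, nat_lit 18579, nat_lit 18555, nat_lit 18567, nat_lit 18559] (nat_lit 0) [] false,
   Spec.mk (nat_lit 18567) (nat_lit 0) [nat_lit 31689, nat_lit 17109, nat_lit 18081, nat_lit 19053, nat_lit 18405, nat_lit 18729, nat_lit 18513, nat_lit 18585, nat_lit 18561] (nat_lit 0) [] false,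
   Spec.mk (nat_lit 18577) (nat_lit 1) [nat_lit 31699, nat_lit 17119, nat_lit 18091, nat_lit 19063, nat_lit 18415, nat_lit 18739, nat_lit 18523, nat_lit 18631, nat_lit 18559, nat_lit 18579, nat_lit 38259] (nat_lit 0) [] false,
   Spec.mk (nat_lit 18579) (nat_lit 1) [nat_lit 31701, nat_lit 17121, nat_lit 18093, nat_lit 19065, nat_lit 18417, nat_lit 18741, nat_lit 18525, nat_lit 18633, nat_lit 18561, nat_lit 18585, nat_lit 18577] (nat_lit 0) [] false,
   Spec.mk (nat_lit 18585) (nat_lit 2) [nat_lit 31707, nat_lit 17127, nat_lit 18099, nat_lit 19071, nat_lit 18423, nat_lit 18747, nat_lit 18531, nat_lit 18639, nat_lit 18567, nat_lit 18603, nat_lit 18579] (nat_lit 0) [] false,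
   Spec.mk (nat_lit 18603) (nat_lit 2) [nat_lit 31725, nat_lit 17145, nat_lit 18117, nat_lit 19089, nat_lit 18441, nat_lit 18765, nat_lit 18657, nat_lit 18585] (nat_lit 0) [] false,
   Spec.mk (nat_lit 18631) (nat_lit 1) [nat_lit 31753, nat_lit 17173, nat_lit 18145, nat_lit 19117, nat_lit 18793, nat_lit 18577, nat_lit 18633, nat_lit 38313] (nat_lit 0) [] false,
   Spec.mk (nat_lit 18633) (nat_lit 1) [nat_lit 31755, nat_lit 17175, nat_lit 18147, nat_lit 19119, nat_lit 18795, nat_lit 18579, nat_lit 18639, nat_lit 18631] (nat_lit 0) [] false,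
   Spec.mk (nat_lit 18639) (nat_lit 1) [nat_lit 31761, nat_lit 17181, nat_lit 18153, nat_lit 19125, nat_lit 18801, nat_lit 18585, nat_lit 18657, nat_lit 18633] (nat_lit 0) [] false,
   Spec.mk (nat_lit 18657) (nat_lit 3) [nat_lit 31779, nat_lit 17199, nat_lit 18171, nat_lit 19143, nat_lit 18819, nat_lit 18603, nat_lit 18639] (nat_lit 0) [] false,
   Spec.mk (nat_lit 18713) (nat_lit 0) [nat_lit 31835, nat_lit 17255, nat_lit 19199, nat_lit 18551, nat_lit 18715, nat_lit 38395] (nat_lit 0) [] false,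
   Spec.mk (nat_lit 18715) (nat_lit 1) [nat_lit 31837, nat_lit 17257, nat_lit 19201, nat_lit 18553, nat_lit 18721, nat_lit 18713, nat_lit 18717, nat_lit 38397] (nat_lit 0) [] false,
   Spec.mk (nat_lit 18717) (nat_lit 0) [nat_lit 31839, nat_lit 17259, nat_lit 19203, nat_lit 18555, nat_lit 18723, nat_lit 18715] (nat_lit 0) [] false,
   Spec.mk (nat_lit 18721) (nat_lit 0) [nat_lit 31843, nat_lit 17263, nat_lit 19207, nat_lit 18559, nat_lit 18739, nat_lit 18715, nat_lit 18723, nat_lit 38403] (nat_lit 0) [] false,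
   Spec.mk (nat_lit 18723) (nat_lit 1) [nat_lit 31845, nat_lit 17265, nat_lit 19209, nat_lit 18561, nat_lit 18741, nat_lit 18717, nat_lit 18729, nat_lit 18721] (nat_lit 0) [] false,
   Spec.mk (nat_lit 18729) (nat_lit 0) [nat_lit 31851, nat_lit 17271, nat_lit 19215, nat_lit 18567, nat_lit 18747, nat_lit 18723] (nat_lit 0) [] false,
   Spec.mk (nat_lit 18739) (nat_lit 0) [nat_lit 31861, nat_lit 17281, nat_lit 19225, nat_lit 18577, nat_lit 18793, nat_lit 18721, nat_lit 18741, nat_lit 38421] (nat_lit 0) [] false,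
   Spec.mk (nat_lit 18741) (nat_lit 0) [nat_lit 31863, nat_lit 17283, nat_lit 19227, nat_lit 18579, nat_lit 18795, nat_lit 18723, nat_lit 18747, nat_lit 18739] (nat_lit 0) [] false,
   Spec.mk (nat_lit 18747) (nat_lit 1) [nat_lit 31869, nat_lit 17289, nat_lit 19233, nat_lit 18585, nat_lit 18801, nat_lit 18729, nat_lit 18765, nat_lit 18741] (nat_lit 0) [] false,
   Spec.mk (nat_lit 18765) (nat_lit 0) [nat_lit 31887, nat_lit 17307, nat_lit 19251, nat_lit 18603, nat_lit 18819, nat_lit 18747] (nat_lit 0) [] false,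
   Spec.mk (nat_lit 18793) (nat_lit 2) [nat_lit 31915, nat_lit 17335, nat_lit 19279, nat_lit 18631, nat_lit 18739, nat_lit 18795, nat_lit 38475] (nat_lit 0) [] false,
   Spec.mk (nat_lit 18795) (nat_lit 2) [nat_lit 31917, nat_lit 17337, nat_lit 19281, nat_lit 18633, nat_lit 18741, nat_lit 18801, nat_lit 18793] (nat_lit 0) [] false,
   Spec.mk (nat_lit 18801) (nat_lit 2) [nat_lit 31923, nat_lit 17343, nat_lit 19287, nat_lit 18639, nat_lit 18747, nat_lit 18819, nat_lit 18795] (nat_lit 0) [] false,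
   Spec.mk (nat_lit 18819) (nat_lit 3) [nat_lit 31941, nat_lit 17361, nat_lit 19305, nat_lit 18657, nat_lit 18765, nat_lit 18873, nat_lit 18801] (nat_lit 0) [] false,
   Spec.mk (nat_lit 18873) (nat_lit 4) [nat_lit 31995, nat_lit 17415, nat_lit 19359, nat_lit 18819] (nat_lit 0) [] false,
   Spec.mk (nat_lit 18959) (nat_lit 2) [nat_lit 32081, nat_lit 18473, nat_lit 18965, nat_lit 18961, nat_lit 38641] (nat_lit 0) [] false,
   Spec.mk (nat_lit 18961) (nat_lit 2) [nat_lit 32083, nat_lit 18475, nat_lit 18967, nat_lit 18959, nat_lit 38643] (nat_lit 0) [] false,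
   Spec.mk (nat_lit 18965) (nat_lit 0) [nat_lit 32087, nat_lit 18479, nat_lit 18983, nat_lit 18959, nat_lit 18967, nat_lit 38647] (nat_lit 0) [] false,
   Spec.mk (nat_lit 18967) (nat_lit 2) [nat_lit 32089, nat_lit 18481, nat_lit 18985, nat_lit 18961, nat_lit 18973, nat_lit 18965, nat_lit 18969, nat_lit 38649] (nat_lit 0) [] false,
   Spec.mk (nat_lit 18969) (nat_lit 2) [nat_lit 32091, nat_lit 18483, nat_lit 18987, nat_lit 18975, nat_lit 18967] (nat_lit 0) [] false,
   Spec.mk (nat_lit 18973) (nat_lit 0) [nat_lit 32095, nat_lit 18487, nat_lit 18991, nat_lit 18967, nat_lit 18975, nat_lit 38655] (nat_lit 0) [] false,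
   Spec.mk (nat_lit 18975) (nat_lit 2) [nat_lit 32097, nat_lit 18489, nat_lit 18993, nat_lit 18969, nat_lit 18973] (nat_lit 0) [] false,
   Spec.mk (nat_lit 18983) (nat_lit 0) [nat_lit 32105, nat_lit 18497, nat_lit 19037, nat_lit 18965, nat_lit 18985, nat_lit 38665] (nat_lit 0) [] false,
   Spec.mk (nat_lit 18985) (nat_lit 1) [nat_lit 32107, nat_lit 18499, nat_lit 19039, nat_lit 18967, nat_lit 18991, nat_lit 18983, nat_lit 18987, nat_lit 38667] (nat_lit 0) [] false,
   Spec.mk (nat_lit 18987) (nat_lit 0) [nat_lit 32109, nat_lit 18501, nat_lit 19041, nat_lit 18969, nat_lit 18993, nat_lit 18985] (nat_lit 0) [] false,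
   Spec.mk (nat_lit 18991) (nat_lit 1) [nat_lit 32113, nat_lit 18505, nat_lit 19045, nat_lit 18973, nat_lit 19009, nat_lit 18985, nat_lit 18993, nat_lit 38673] (nat_lit 0) [] false,
   Spec.mk (nat_lit 18993) (nat_lit 2) [nat_lit 32115, nat_lit 18507, nat_lit 19047, nat_lit 18975, nat_lit 19011, nat_lit 18987, nat_lit 18999, nat_lit 18991] (nat_lit 0) [] false,
   Spec.mk (nat_lit 18999) (nat_lit 2) [nat_lit 32121, nat_lit 18513, nat_lit 19053, nat_lit 19017, nat_lit 18993] (nat_lit 0) [] false,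
   Spec.mk (nat_lit 19009) (nat_lit 0) [nat_lit 32131, nat_lit 18523, nat_lit 19063, nat_lit 18991, nat_lit 19011, nat_lit 38691] (nat_lit 0) [] false,
   Spec.mk (nat_lit 19011) (nat_lit 0) [nat_lit 32133, nat_lit 18525, nat_lit 19065, nat_lit 18993, nat_lit 19017, nat_lit 19009] (nat_lit 0) [] false,
   Spec.mk (nat_lit 19017) (nat_lit 2) [nat_lit 32139, nat_lit 18531, nat_lit 19071, nat_lit 18999, nat_lit 19011] (nat_lit 0) [] false,
   Spec.mk (nat_lit 19037) (nat_lit 0) [nat_lit 32159, nat_lit 18551, nat_lit 19199, nat_lit 18983, nat_lit 19039, nat_lit 38719] (nat_lit 0) [] false,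
   Spec.mk (nat_lit 19039) (nat_lit 1) [nat_lit 32161, nat_lit 18553, nat_lit 19201, nat_lit 18985, nat_lit 19045, nat_lit 19037, nat_lit 19041, nat_lit 38721] (nat_lit 0) [] false,
   Spec.mk (nat_lit 19041) (nat_lit 0) [nat_lit 32163, nat_lit 18555, nat_lit 19203, nat_lit 18987, nat_lit 19047, nat_lit 19039] (nat_lit 0) [] false,
   Spec.mk (nat_lit 19045) (nat_lit 0) [nat_lit 32167, nat_lit 18559, nat_lit 19207, nat_lit 18991, nat_lit 19063, nat_lit 19039, nat_lit 19047, nat_lit 38727] (nat_lit 0) [] false,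
   Spec.mk (nat_lit 19047) (nat_lit 1) [nat_lit 32169, nat_lit 18561, nat_lit 19209, nat_lit 18993, nat_lit 19065, nat_lit 19041, nat_lit 19053, nat_lit 19045] (nat_lit 0) [] false,
   Spec.mk (nat_lit 19053) (nat_lit 0) [nat_lit 32175, nat_lit 18567, nat_lit 19215, nat_lit 18999, nat_lit 19071, nat_lit 19047] (nat_lit 0) [] false,
   Spec.mk (nat_lit 19063) (nat_lit 1) [nat_lit 32185, nat_lit 18577, nat_lit 19225, nat_lit 19009, nat_lit 19117, nat_lit 19045, nat_lit 19065, nat_lit 38745] (nat_lit 0) [] false,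
   Spec.mk (nat_lit 19065) (nat_lit 1) [nat_lit 32187, nat_lit 18579, nat_lit 19227, nat_lit 19011, nat_lit 19119, nat_lit 19047, nat_lit 19071, nat_lit 19063] (nat_lit 0) [] false,
   Spec.mk (nat_lit 19071) (nat_lit 2) [nat_lit 32193, nat_lit 18585, nat_lit 19233, nat_lit 19017, nat_lit 19125, nat_lit 19053, nat_lit 19089, nat_lit 19065] (nat_lit 0) [] false,
   Spec.mk (nat_lit 19089) (nat_lit 2) [nat_lit 32211, nat_lit 18603, nat_lit 19251, nat_lit 19143, nat_lit 19071] (nat_lit 0) [] false,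
   Spec.mk (nat_lit 19117) (nat_lit 0) [nat_lit 32239, nat_lit 18631, nat_lit 19279, nat_lit 19063, nat_lit 19119, nat_lit 38799] (nat_lit 0) [] false,
   Spec.mk (nat_lit 19119) (nat_lit 0) [nat_lit 32241, nat_lit 18633, nat_lit 19281, nat_lit 19065, nat_lit 19125, nat_lit 19117] (nat_lit 0) [] false,
   Spec.mk (nat_lit 19125) (nat_lit 0) [nat_lit 32247, nat_lit 18639, nat_lit 19287, nat_lit 19071, nat_lit 19143, nat_lit 19119] (nat_lit 0) [] false,
   Spec.mk (nat_lit 19143) (nat_lit 2) [nat_lit 32265, nat_lit 18657, nat_lit 19305, nat_lit 19089, nat_lit 19125] (nat_lit 0) [] false,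
   Spec.mk (nat_lit 19199) (nat_lit 2) [nat_lit 32321, nat_lit 18713, nat_lit 19037, nat_lit 19201, nat_lit 38881] (nat_lit 0) [] false]

noncomputable def sp52 : List Spec :=
  [Spec.mk (nat_lit 19201) (nat_lit 3) [nat_lit 32323, nat_lit 18715, nat_lit 19039, nat_lit 19207, nat_lit 19199, nat_lit 19203, nat_lit 38883] (nat_lit 0) [] false,
   Spec.mk (nat_lit 19203) (nat_lit 2) [nat_lit 32325, nat_lit 18717, nat_lit 19041, nat_lit 19209, nat_lit 19201] (nat_lit 0) [] false,
   Spec.mk (nat_lit 19207) (nat_lit 2) [nat_lit 32329, nat_lit 18721, nat_lit 19045, nat_lit 19225, nat_lit 19201, nat_lit 19209, nat_lit 38889] (nat_lit 0) [] false,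
   Spec.mk (nat_lit 19209) (nat_lit 3) [nat_lit 32331, nat_lit 18723, nat_lit 19047, nat_lit 19227, nat_lit 19203, nat_lit 19215, nat_lit 19207] (nat_lit 0) [] false,
   Spec.mk (nat_lit 19215) (nat_lit 2) [nat_lit 32337, nat_lit 18729, nat_lit 19053, nat_lit 19233, nat_lit 19209] (nat_lit 0) [] false,
   Spec.mk (nat_lit 19225) (nat_lit 2) [nat_lit 32347, nat_lit 18739, nat_lit 19063, nat_lit 19279, nat_lit 19207, nat_lit 19227, nat_lit 38907] (nat_lit 0) [] false,
   Spec.mk (nat_lit 19227) (nat_lit 2) [nat_lit 32349, nat_lit 18741, nat_lit 19065, nat_lit 19281, nat_lit 19209, nat_lit 19233, nat_lit 19225] (nat_lit 0) [] false,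
   Spec.mk (nat_lit 19233) (nat_lit 3) [nat_lit 32355, nat_lit 18747, nat_lit 19071, nat_lit 19287, nat_lit 19215, nat_lit 19251, nat_lit 19227] (nat_lit 0) [] false,
   Spec.mk (nat_lit 19251) (nat_lit 2) [nat_lit 32373, nat_lit 18765, nat_lit 19089, nat_lit 19305, nat_lit 19233] (nat_lit 0) [] false,
   Spec.mk (nat_lit 19279) (nat_lit 3) [nat_lit 32401, nat_lit 18793, nat_lit 19117, nat_lit 19441, nat_lit 19225, nat_lit 19281, nat_lit 38961] (nat_lit 0) [] false,
   Spec.mk (nat_lit 19281) (nat_lit 3) [nat_lit 32403, nat_lit 18795, nat_lit 19119, nat_lit 19443, nat_lit 19227, nat_lit 19287, nat_lit 19279] (nat_lit 0) [] false,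
   Spec.mk (nat_lit 19287) (nat_lit 3) [nat_lit 32409, nat_lit 18801, nat_lit 19125, nat_lit 19449, nat_lit 19233, nat_lit 19305, nat_lit 19281] (nat_lit 0) [] false,
   Spec.mk (nat_lit 19305) (nat_lit 4) [nat_lit 32427, nat_lit 18819, nat_lit 19143, nat_lit 19467, nat_lit 19251, nat_lit 19359, nat_lit 19287] (nat_lit 0) [] false,
   Spec.mk (nat_lit 19359) (nat_lit 4) [nat_lit 32481, nat_lit 18873, nat_lit 19521, nat_lit 19305] (nat_lit 0) [] false,
   Spec.mk (nat_lit 19441) (nat_lit 4) [nat_lit 32563, nat_lit 19279, nat_lit 19443, nat_lit 39123] (nat_lit 0) [] false,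
   Spec.mk (nat_lit 19443) (nat_lit 4) [nat_lit 32565, nat_lit 19281, nat_lit 19449, nat_lit 19441] (nat_lit 0) [] false,
   Spec.mk (nat_lit 19449) (nat_lit 4) [nat_lit 32571, nat_lit 19287, nat_lit 19467, nat_lit 19443] (nat_lit 0) [] false,
   Spec.mk (nat_lit 19467) (nat_lit 4) [nat_lit 32589, nat_lit 19305, nat_lit 19521, nat_lit 19449] (nat_lit 0) [] false,
   Spec.mk (nat_lit 19521) (nat_lit 6) [nat_lit 32643, nat_lit 19359, nat_lit 19467] (nat_lit 0) [] false,
   Spec.mk (nat_lit 19763) (nat_lit 6) [nat_lit 6641, nat_lit 19817, nat_lit 39445] (nat_lit 0) [] false,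
   Spec.mk (nat_lit 19817) (nat_lit 5) [nat_lit 6695, nat_lit 19979, nat_lit 19763, nat_lit 19871, nat_lit 19835, nat_lit 39499] (nat_lit 0) [] false,
   Spec.mk (nat_lit 19835) (nat_lit 4) [nat_lit 6713, nat_lit 19997, nat_lit 19889, nat_lit 19817, nat_lit 19841, nat_lit 39517] (nat_lit 0) [] false,
   Spec.mk (nat_lit 19841) (nat_lit 4) [nat_lit 6719, nat_lit 20003, nat_lit 19895, nat_lit 19835, nat_lit 19843, nat_lit 39523] (nat_lit 0) [] false,
   Spec.mk (nat_lit 19843) (nat_lit 5) [nat_lit 6721, nat_lit 20005, nat_lit 19897, nat_lit 19841, nat_lit 39525, nat_lit 161] (nat_lit 0) [] false,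
   Spec.mk (nat_lit 19871) (nat_lit 2) [nat_lit 6749, nat_lit 20033, nat_lit 19817, nat_lit 19889, nat_lit 39553] (nat_lit 0) [] false,
   Spec.mk (nat_lit 19889) (nat_lit 3) [nat_lit 6767, nat_lit 20051, nat_lit 19835, nat_lit 19871, nat_lit 19907, nat_lit 19895, nat_lit 39571] (nat_lit 0) [] false,
   Spec.mk (nat_lit 19895) (nat_lit 2) [nat_lit 6773, nat_lit 20057, nat_lit 19841, nat_lit 19913, nat_lit 19889, nat_lit 19897, nat_lit 39577] (nat_lit 0) [] false,
   Spec.mk (nat_lit 19897) (nat_lit 3) [nat_lit 6775, nat_lit 20059, nat_lit 19843, nat_lit 19915, nat_lit 19895, nat_lit 39579, nat_lit 215] (nat_lit 0) [] false,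
   Spec.mk (nat_lit 19907) (nat_lit 2) [nat_lit 6785, nat_lit 20069, nat_lit 19889, nat_lit 19913, nat_lit 39589] (nat_lit 0) [] false,
   Spec.mk (nat_lit 19913) (nat_lit 3) [nat_lit 6791, nat_lit 20075, nat_lit 19895, nat_lit 19907, nat_lit 19919, nat_lit 19915, nat_lit 39595] (nat_lit 0) [] false,
   Spec.mk (nat_lit 19915) (nat_lit 3) [nat_lit 6793, nat_lit 20077, nat_lit 19897, nat_lit 19921, nat_lit 19913, nat_lit 39597, nat_lit 233] (nat_lit 0) [] false,
   Spec.mk (nat_lit 19919) (nat_lit 2) [nat_lit 6797, nat_lit 20081, nat_lit 19913, nat_lit 19921, nat_lit 39601] (nat_lit 0) [] false,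
   Spec.mk (nat_lit 19921) (nat_lit 4) [nat_lit 6799, nat_lit 20083, nat_lit 19915, nat_lit 19919, nat_lit 19923, nat_lit 39603, nat_lit 239] (nat_lit 0) [] false,
   Spec.mk (nat_lit 19923) (nat_lit 4) [nat_lit 6801, nat_lit 20085, nat_lit 19921, nat_lit 241] (nat_lit 0) [] false,
   Spec.mk (nat_lit 19979) (nat_lit 4) [nat_lit 6857, nat_lit 20465, nat_lit 19817, nat_lit 20033, nat_lit 19997, nat_lit 39661] (nat_lit 0) [] false,
   Spec.mk (nat_lit 19997) (nat_lit 2) [nat_lit 6875, nat_lit 20483, nat_lit 19835, nat_lit 20051, nat_lit 19979, nat_lit 20003, nat_lit 39679] (nat_lit 0) [] false,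
   Spec.mk (nat_lit 20003) (nat_lit 2) [nat_lit 6881, nat_lit 20489, nat_lit 19841, nat_lit 20057, nat_lit 19997, nat_lit 20005, nat_lit 39685] (nat_lit 0) [] false,
   Spec.mk (nat_lit 20005) (nat_lit 3) [nat_lit 6883, nat_lit 20491, nat_lit 19843, nat_lit 20059, nat_lit 20003, nat_lit 39687, nat_lit 323] (nat_lit 0) [] false,
   Spec.mk (nat_lit 20033) (nat_lit 3) [nat_lit 6911, nat_lit 20519, nat_lit 19871, nat_lit 20195, nat_lit 19979, nat_lit 20051, nat_lit 39715] (nat_lit 0) [] false,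
   Spec.mk (nat_lit 20051) (nat_lit 3) [nat_lit 6929, nat_lit 20537, nat_lit 19889, nat_lit 20213, nat_lit 19997, nat_lit 20105, nat_lit 20033, nat_lit 20069, nat_lit 20057, nat_lit 39733] (nat_lit 0) [] false,
   Spec.mk (nat_lit 20057) (nat_lit 2) [nat_lit 6935, nat_lit 20543, nat_lit 19895, nat_lit 20219, nat_lit 20003, nat_lit 20111, nat_lit 20075, nat_lit 20051, nat_lit 20059, nat_lit 39739] (nat_lit 0) [] false,
   Spec.mk (nat_lit 20059) (nat_lit 3) [nat_lit 6937, nat_lit 20545, nat_lit 19897, nat_lit 20221, nat_lit 20005, nat_lit 20113, nat_lit 20077, nat_lit 20057, nat_lit 39741, nat_lit 377] (nat_lit 0) [] false,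
   Spec.mk (nat_lit 20069) (nat_lit 1) [nat_lit 6947, nat_lit 20555, nat_lit 19907, nat_lit 20231, nat_lit 20123, nat_lit 20051, nat_lit 20075, nat_lit 39751] (nat_lit 0) [] false,
   Spec.mk (nat_lit 20075) (nat_lit 2) [nat_lit 6953, nat_lit 20561, nat_lit 19913, nat_lit 20237, nat_lit 20129, nat_lit 20057, nat_lit 20069, nat_lit 20081, nat_lit 20077, nat_lit 39757] (nat_lit 0) [] false,
   Spec.mk (nat_lit 20077) (nat_lit 2) [nat_lit 6955, nat_lit 20563, nat_lit 19915, nat_lit 20239, nat_lit 20131, nat_lit 20059, nat_lit 20083, nat_lit 20075, nat_lit 39759, nat_lit 395] (nat_lit 0) [] false,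
   Spec.mk (nat_lit 20081) (nat_lit 1) [nat_lit 6959, nat_lit 20567, nat_lit 19919, nat_lit 20243, nat_lit 20135, nat_lit 20075, nat_lit 20083, nat_lit 39763] (nat_lit 0) [] false,
   Spec.mk (nat_lit 20083) (nat_lit 3) [nat_lit 6961, nat_lit 20569, nat_lit 19921, nat_lit 20245, nat_lit 20137, nat_lit 20077, nat_lit 20081, nat_lit 20085, nat_lit 39765, nat_lit 401] (nat_lit 0) [] false,
   Spec.mk (nat_lit 20085) (nat_lit 3) [nat_lit 6963, nat_lit 20571, nat_lit 19923, nat_lit 20247, nat_lit 20139, nat_lit 20083, nat_lit 403] (nat_lit 0) [] false,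
   Spec.mk (nat_lit 20105) (nat_lit 2) [nat_lit 6983, nat_lit 20591, nat_lit 20267, nat_lit 20051, nat_lit 20123, nat_lit 20111, nat_lit 39787] (nat_lit 0) [] false,
   Spec.mk (nat_lit 20111) (nat_lit 0) [nat_lit 6989, nat_lit 20597, nat_lit 20273, nat_lit 20057, nat_lit 20129, nat_lit 20105, nat_lit 20113, nat_lit 39793] (nat_lit 0) [] false,
   Spec.mk (nat_lit 20113) (nat_lit 1) [nat_lit 6991, nat_lit 20599, nat_lit 20275, nat_lit 20059, nat_lit 20131, nat_lit 20111, nat_lit 39795, nat_lit 431] (nat_lit 0) [] false,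
   Spec.mk (nat_lit 20123) (nat_lit 2) [nat_lit 7001, nat_lit 20609, nat_lit 20285, nat_lit 20069, nat_lit 20105, nat_lit 20129, nat_lit 39805] (nat_lit 0) [] false,
   Spec.mk (nat_lit 20129) (nat_lit 2) [nat_lit 7007, nat_lit 20615, nat_lit 20291, nat_lit 20075, nat_lit 20111, nat_lit 20147, nat_lit 20123, nat_lit 20135, nat_lit 20131, nat_lit 39811] (nat_lit 0) [] false,
   Spec.mk (nat_lit 20131) (nat_lit 2) [nat_lit 7009, nat_lit 20617, nat_lit 20293, nat_lit 20077, nat_lit 20113, nat_lit 20149, nat_lit 20137, nat_lit 20129, nat_lit 39813, nat_lit 449] (nat_lit 0) [] false,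
   Spec.mk (nat_lit 20135) (nat_lit 0) [nat_lit 7013, nat_lit 20621, nat_lit 20297, nat_lit 20081, nat_lit 20153, nat_lit 20129, nat_lit 20137, nat_lit 39817] (nat_lit 0) [] false,
   Spec.mk (nat_lit 20137) (nat_lit 2) [nat_lit 7015, nat_lit 20623, nat_lit 20299, nat_lit 20083, nat_lit 20155, nat_lit 20131, nat_lit 20135, nat_lit 20139, nat_lit 39819, nat_lit 455] (nat_lit 0) [] false,
   Spec.mk (nat_lit 20139) (nat_lit 2) [nat_lit 7017, nat_lit 20625, nat_lit 20301, nat_lit 20085, nat_lit 20157, nat_lit 20137, nat_lit 457] (nat_lit 0) [] false,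
   Spec.mk (nat_lit 20147) (nat_lit 2) [nat_lit 7025, nat_lit 20633, nat_lit 20309, nat_lit 20129, nat_lit 20153, nat_lit 20149, nat_lit 39829] (nat_lit 0) [] false,
   Spec.mk (nat_lit 20149) (nat_lit 1) [nat_lit 7027, nat_lit 20635, nat_lit 20311, nat_lit 20131, nat_lit 20155, nat_lit 20147, nat_lit 39831, nat_lit 467] (nat_lit 0) [] false,
   Spec.mk (nat_lit 20153) (nat_lit 2) [nat_lit 7031, nat_lit 20639, nat_lit 20315, nat_lit 20135, nat_lit 20147, nat_lit 20155, nat_lit 39835] (nat_lit 0) [] false]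

noncomputable def sp53 : List Spec :=
  [Spec.mk (nat_lit 20155) (nat_lit 3) [nat_lit 7033, nat_lit 20641, nat_lit 20317, nat_lit 20137, nat_lit 20149, nat_lit 20161, nat_lit 20153, nat_lit 20157, nat_lit 39837, nat_lit 473] (nat_lit 0) [] false,
   Spec.mk (nat_lit 20157) (nat_lit 2) [nat_lit 7035, nat_lit 20643, nat_lit 20319, nat_lit 20139, nat_lit 20163, nat_lit 20155, nat_lit 475] (nat_lit 0) [] false,
   Spec.mk (nat_lit 20161) (nat_lit 3) [nat_lit 7039, nat_lit 20647, nat_lit 20323, nat_lit 20155, nat_lit 20163, nat_lit 39843, nat_lit 479] (nat_lit 0) [] false,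
   Spec.mk (nat_lit 20163) (nat_lit 4) [nat_lit 7041, nat_lit 20649, nat_lit 20325, nat_lit 20157, nat_lit 20161, nat_lit 481] (nat_lit 0) [] false,
   Spec.mk (nat_lit 20195) (nat_lit 2) [nat_lit 7073, nat_lit 20681, nat_lit 20033, nat_lit 20213, nat_lit 39877] (nat_lit 0) [] false,
   Spec.mk (nat_lit 20213) (nat_lit 1) [nat_lit 7091, nat_lit 20699, nat_lit 20051, nat_lit 20267, nat_lit 20195, nat_lit 20231, nat_lit 20219, nat_lit 39895] (nat_lit 0) [] false,
   Spec.mk (nat_lit 20219) (nat_lit 0) [nat_lit 7097, nat_lit 20705, nat_lit 20057, nat_lit 20273, nat_lit 20237, nat_lit 20213, nat_lit 20221, nat_lit 39901] (nat_lit 0) [] false,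
   Spec.mk (nat_lit 20221) (nat_lit 1) [nat_lit 7099, nat_lit 20707, nat_lit 20059, nat_lit 20275, nat_lit 20239, nat_lit 20219, nat_lit 39903, nat_lit 539] (nat_lit 0) [] false,
   Spec.mk (nat_lit 20231) (nat_lit 0) [nat_lit 7109, nat_lit 20717, nat_lit 20069, nat_lit 20285, nat_lit 20213, nat_lit 20237, nat_lit 39913] (nat_lit 2) [] false,
   Spec.mk (nat_lit 20237) (nat_lit 0) [nat_lit 7115, nat_lit 20723, nat_lit 20075, nat_lit 20291, nat_lit 20219, nat_lit 20231, nat_lit 20243, nat_lit 20239, nat_lit 39919] (nat_lit 1) [] false,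
   Spec.mk (nat_lit 20239) (nat_lit 0) [nat_lit 7117, nat_lit 20725, nat_lit 20077, nat_lit 20293, nat_lit 20221, nat_lit 20245, nat_lit 20237, nat_lit 39921, nat_lit 557] (nat_lit 1) [] false,
   Spec.mk (nat_lit 20243) (nat_lit 0) [nat_lit 7121, nat_lit 20729, nat_lit 20081, nat_lit 20297, nat_lit 20237, nat_lit 20245, nat_lit 39925] (nat_lit 2) [] false,
   Spec.mk (nat_lit 20245) (nat_lit 0) [nat_lit 7123, nat_lit 20731, nat_lit 20083, nat_lit 20299, nat_lit 20239, nat_lit 20243, nat_lit 20247, nat_lit 39927, nat_lit 563] (nat_lit 0) [] false,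
   Spec.mk (nat_lit 20247) (nat_lit 0) [nat_lit 7125, nat_lit 20733, nat_lit 20085, nat_lit 20301, nat_lit 20245, nat_lit 565] (nat_lit 0) [] false,
   Spec.mk (nat_lit 20267) (nat_lit 2) [nat_lit 7145, nat_lit 20753, nat_lit 20105, nat_lit 20213, nat_lit 20285, nat_lit 20273, nat_lit 39949] (nat_lit 0) [] false,
   Spec.mk (nat_lit 20273) (nat_lit 0) [nat_lit 7151, nat_lit 20759, nat_lit 20111, nat_lit 20219, nat_lit 20291, nat_lit 20267, nat_lit 20275, nat_lit 39955] (nat_lit 0) [] false,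
   Spec.mk (nat_lit 20275) (nat_lit 1) [nat_lit 7153, nat_lit 20761, nat_lit 20113, nat_lit 20221, nat_lit 20293, nat_lit 20273, nat_lit 39957, nat_lit 593] (nat_lit 0) [] false,
   Spec.mk (nat_lit 20285) (nat_lit 1) [nat_lit 7163, nat_lit 20771, nat_lit 20123, nat_lit 20231, nat_lit 20339, nat_lit 20267, nat_lit 20291, nat_lit 39967] (nat_lit 0) [] false,
   Spec.mk (nat_lit 20291) (nat_lit 1) [nat_lit 7169, nat_lit 20777, nat_lit 20129, nat_lit 20237, nat_lit 20345, nat_lit 20273, nat_lit 20309, nat_lit 20285, nat_lit 20297, nat_lit 20293, nat_lit 39973] (nat_lit 0) [] false,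
   Spec.mk (nat_lit 20293) (nat_lit 1) [nat_lit 7171, nat_lit 20779, nat_lit 20131, nat_lit 20239, nat_lit 20347, nat_lit 20275, nat_lit 20311, nat_lit 20299, nat_lit 20291, nat_lit 39975, nat_lit 611] (nat_lit 0) [] false,
   Spec.mk (nat_lit 20297) (nat_lit 0) [nat_lit 7175, nat_lit 20783, nat_lit 20135, nat_lit 20243, nat_lit 20351, nat_lit 20315, nat_lit 20291, nat_lit 20299, nat_lit 39979] (nat_lit 1) [] false,
   Spec.mk (nat_lit 20299) (nat_lit 1) [nat_lit 7177, nat_lit 20785, nat_lit 20137, nat_lit 20245, nat_lit 20353, nat_lit 20317, nat_lit 20293, nat_lit 20297, nat_lit 20301, nat_lit 39981, nat_lit 617] (nat_lit 0) [] false,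
   Spec.mk (nat_lit 20301) (nat_lit 1) [nat_lit 7179, nat_lit 20787, nat_lit 20139, nat_lit 20247, nat_lit 20355, nat_lit 20319, nat_lit 20299, nat_lit 619] (nat_lit 0) [] false,
   Spec.mk (nat_lit 20309) (nat_lit 0) [nat_lit 7187, nat_lit 20795, nat_lit 20147, nat_lit 20363, nat_lit 20291, nat_lit 20315, nat_lit 20311, nat_lit 39991] (nat_lit 0) [] false,
   Spec.mk (nat_lit 20311) (nat_lit 0) [nat_lit 7189, nat_lit 20797, nat_lit 20149, nat_lit 20365, nat_lit 20293, nat_lit 20317, nat_lit 20309, nat_lit 39993, nat_lit 629] (nat_lit 1) [] false,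
   Spec.mk (nat_lit 20315) (nat_lit 0) [nat_lit 7193, nat_lit 20801, nat_lit 20153, nat_lit 20369, nat_lit 20297, nat_lit 20309, nat_lit 20317, nat_lit 39997] (nat_lit 0) [] false,
   Spec.mk (nat_lit 20317) (nat_lit 1) [nat_lit 7195, nat_lit 20803, nat_lit 20155, nat_lit 20371, nat_lit 20299, nat_lit 20311, nat_lit 20323, nat_lit 20315, nat_lit 20319, nat_lit 39999, nat_lit 635] (nat_lit 0) [] false,
   Spec.mk (nat_lit 20319) (nat_lit 0) [nat_lit 7197, nat_lit 20805, nat_lit 20157, nat_lit 20373, nat_lit 20301, nat_lit 20325, nat_lit 20317, nat_lit 637] (nat_lit 0) [] false,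
   Spec.mk (nat_lit 20323) (nat_lit 1) [nat_lit 7201, nat_lit 20809, nat_lit 20161, nat_lit 20377, nat_lit 20317, nat_lit 20325, nat_lit 40005, nat_lit 641] (nat_lit 0) [] false,
   Spec.mk (nat_lit 20325) (nat_lit 2) [nat_lit 7203, nat_lit 20811, nat_lit 20163, nat_lit 20379, nat_lit 20319, nat_lit 20323, nat_lit 643] (nat_lit 0) [] false,
   Spec.mk (nat_lit 20339) (nat_lit 2) [nat_lit 7217, nat_lit 20825, nat_lit 20285, nat_lit 20345, nat_lit 40021] (nat_lit 0) [] false,
   Spec.mk (nat_lit 20345) (nat_lit 1) [nat_lit 7223, nat_lit 20831, nat_lit 20291, nat_lit 20363, nat_lit 20339, nat_lit 20351, nat_lit 20347, nat_lit 40027] (nat_lit 0) [] false,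
   Spec.mk (nat_lit 20347) (nat_lit 1) [nat_lit 7225, nat_lit 20833, nat_lit 20293, nat_lit 20365, nat_lit 20353, nat_lit 20345, nat_lit 40029, nat_lit 665] (nat_lit 0) [] false,
   Spec.mk (nat_lit 20351) (nat_lit 0) [nat_lit 7229, nat_lit 20837, nat_lit 20297, nat_lit 20369, nat_lit 20345, nat_lit 20353, nat_lit 40033] (nat_lit 2) [] false,
   Spec.mk (nat_lit 20353) (nat_lit 0) [nat_lit 7231, nat_lit 20839, nat_lit 20299, nat_lit 20371, nat_lit 20347, nat_lit 20351, nat_lit 20355, nat_lit 40035, nat_lit 671] (nat_lit 0) [] false,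
   Spec.mk (nat_lit 20355) (nat_lit 0) [nat_lit 7233, nat_lit 20841, nat_lit 20301, nat_lit 20373, nat_lit 20353, nat_lit 673] (nat_lit 0) [] false,
   Spec.mk (nat_lit 20363) (nat_lit 2) [nat_lit 7241, nat_lit 20849, nat_lit 20309, nat_lit 20345, nat_lit 20369, nat_lit 20365, nat_lit 40045] (nat_lit 0) [] false,
   Spec.mk (nat_lit 20365) (nat_lit 1) [nat_lit 7243, nat_lit 20851, nat_lit 20311, nat_lit 20347, nat_lit 20371, nat_lit 20363, nat_lit 40047, nat_lit 683] (nat_lit 0) [] false,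
   Spec.mk (nat_lit 20369) (nat_lit 1) [nat_lit 7247, nat_lit 20855, nat_lit 20315, nat_lit 20351, nat_lit 20387, nat_lit 20363, nat_lit 20371, nat_lit 40051] (nat_lit 0) [] false,
   Spec.mk (nat_lit 20371) (nat_lit 2) [nat_lit 7249, nat_lit 20857, nat_lit 20317, nat_lit 20353, nat_lit 20389, nat_lit 20365, nat_lit 20377, nat_lit 20369, nat_lit 20373, nat_lit 40053, nat_lit 689] (nat_lit 0) [] false,
   Spec.mk (nat_lit 20373) (nat_lit 1) [nat_lit 7251, nat_lit 20859, nat_lit 20319, nat_lit 20355, nat_lit 20391, nat_lit 20379, nat_lit 20371, nat_lit 691] (nat_lit 0) [] false,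
   Spec.mk (nat_lit 20377) (nat_lit 1) [nat_lit 7255, nat_lit 20863, nat_lit 20323, nat_lit 20395, nat_lit 20371, nat_lit 20379, nat_lit 40059, nat_lit 695] (nat_lit 0) [] false,
   Spec.mk (nat_lit 20379) (nat_lit 2) [nat_lit 7257, nat_lit 20865, nat_lit 20325, nat_lit 20397, nat_lit 20373, nat_lit 20377, nat_lit 697] (nat_lit 0) [] false,
   Spec.mk (nat_lit 20387) (nat_lit 2) [nat_lit 7265, nat_lit 20873, nat_lit 20369, nat_lit 20389, nat_lit 40069] (nat_lit 0) [] false,
   Spec.mk (nat_lit 20389) (nat_lit 2) [nat_lit 7267, nat_lit 20875, nat_lit 20371, nat_lit 20395, nat_lit 20387, nat_lit 20391, nat_lit 40071, nat_lit 707] (nat_lit 0) [] false,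
   Spec.mk (nat_lit 20391) (nat_lit 0) [nat_lit 7269, nat_lit 20877, nat_lit 20373, nat_lit 20397, nat_lit 20389, nat_lit 709] (nat_lit 0) [] false,
   Spec.mk (nat_lit 20395) (nat_lit 3) [nat_lit 7273, nat_lit 20881, nat_lit 20377, nat_lit 20389, nat_lit 20397, nat_lit 40077, nat_lit 713] (nat_lit 0) [] false,
   Spec.mk (nat_lit 20397) (nat_lit 3) [nat_lit 7275, nat_lit 20883, nat_lit 20379, nat_lit 20391, nat_lit 20403, nat_lit 20395, nat_lit 715] (nat_lit 0) [] false,
   Spec.mk (nat_lit 20403) (nat_lit 4) [nat_lit 7281, nat_lit 20889, nat_lit 20397, nat_lit 721] (nat_lit 0) [] false,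
   Spec.mk (nat_lit 20465) (nat_lit 4) [nat_lit 7343, nat_lit 21923, nat_lit 19979, nat_lit 20519, nat_lit 20483, nat_lit 40147] (nat_lit 0) [] false,
   Spec.mk (nat_lit 20483) (nat_lit 2) [nat_lit 7361, nat_lit 21941, nat_lit 19997, nat_lit 20537, nat_lit 20465, nat_lit 20489, nat_lit 40165] (nat_lit 0) [] false,
   Spec.mk (nat_lit 20489) (nat_lit 2) [nat_lit 7367, nat_lit 21947, nat_lit 20003, nat_lit 20543, nat_lit 20483, nat_lit 20491, nat_lit 40171] (nat_lit 0) [] false,
   Spec.mk (nat_lit 20491) (nat_lit 3) [nat_lit 7369, nat_lit 21949, nat_lit 20005, nat_lit 20545, nat_lit 20489, nat_lit 40173, nat_lit 809] (nat_lit 0) [] false,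
   Spec.mk (nat_lit 20519) (nat_lit 2) [nat_lit 7397, nat_lit 21977, nat_lit 20033, nat_lit 20681, nat_lit 20465, nat_lit 20537, nat_lit 40201] (nat_lit 0) [] false,
   Spec.mk (nat_lit 20537) (nat_lit 2) [nat_lit 7415, nat_lit 21995, nat_lit 20051, nat_lit 20699, nat_lit 20483, nat_lit 20591, nat_lit 20519, nat_lit 20555, nat_lit 20543, nat_lit 40219] (nat_lit 0) [] false,
   Spec.mk (nat_lit 20543) (nat_lit 1) [nat_lit 7421, nat_lit 22001, nat_lit 20057, nat_lit 20705, nat_lit 20489, nat_lit 20597, nat_lit 20561, nat_lit 20537, nat_lit 20545, nat_lit 40225] (nat_lit 0) [] false,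
   Spec.mk (nat_lit 20545) (nat_lit 2) [nat_lit 7423, nat_lit 22003, nat_lit 20059, nat_lit 20707, nat_lit 20491, nat_lit 20599, nat_lit 20563, nat_lit 20543, nat_lit 40227, nat_lit 863] (nat_lit 0) [] false,
   Spec.mk (nat_lit 20555) (nat_lit 0) [nat_lit 7433, nat_lit 22013, nat_lit 20069, nat_lit 20717, nat_lit 20609, nat_lit 20537, nat_lit 20561, nat_lit 40237] (nat_lit 0) [] false,
   Spec.mk (nat_lit 20561) (nat_lit 1) [nat_lit 7439, nat_lit 22019, nat_lit 20075, nat_lit 20723, nat_lit 20615, nat_lit 20543, nat_lit 20555, nat_lit 20567, nat_lit 20563, nat_lit 40243] (nat_lit 0) [] false,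
   Spec.mk (nat_lit 20563) (nat_lit 1) [nat_lit 7441, nat_lit 22021, nat_lit 20077, nat_lit 20725, nat_lit 20617, nat_lit 20545, nat_lit 20569, nat_lit 20561, nat_lit 40245, nat_lit 881] (nat_lit 0) [] false]

noncomputable def sp54 : List Spec :=
  [Spec.mk (nat_lit 20567) (nat_lit 0) [nat_lit 7445, nat_lit 22025, nat_lit 20081, nat_lit 20729, nat_lit 20621, nat_lit 20561, nat_lit 20569, nat_lit 40249] (nat_lit 0) [] false,
   Spec.mk (nat_lit 20569) (nat_lit 2) [nat_lit 7447, nat_lit 22027, nat_lit 20083, nat_lit 20731, nat_lit 20623, nat_lit 20563, nat_lit 20567, nat_lit 20571, nat_lit 40251, nat_lit 887] (nat_lit 0) [] false,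
   Spec.mk (nat_lit 20571) (nat_lit 2) [nat_lit 7449, nat_lit 22029, nat_lit 20085, nat_lit 20733, nat_lit 20625, nat_lit 20569, nat_lit 889] (nat_lit 0) [] false,
   Spec.mk (nat_lit 20591) (nat_lit 0) [nat_lit 7469, nat_lit 22049, nat_lit 20105, nat_lit 20753, nat_lit 20537, nat_lit 20609, nat_lit 20597, nat_lit 40273] (nat_lit 0) [] false,
   Spec.mk (nat_lit 20597) (nat_lit 0) [nat_lit 7475, nat_lit 22055, nat_lit 20111, nat_lit 20759, nat_lit 20543, nat_lit 20615, nat_lit 20591, nat_lit 20599, nat_lit 40279] (nat_lit 2) [] false,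
   Spec.mk (nat_lit 20599) (nat_lit 0) [nat_lit 7477, nat_lit 22057, nat_lit 20113, nat_lit 20761, nat_lit 20545, nat_lit 20617, nat_lit 20597, nat_lit 40281, nat_lit 917] (nat_lit 1) [] false,
   Spec.mk (nat_lit 20609) (nat_lit 0) [nat_lit 7487, nat_lit 22067, nat_lit 20123, nat_lit 20771, nat_lit 20555, nat_lit 20591, nat_lit 20615, nat_lit 40291] (nat_lit 0) [] false,
   Spec.mk (nat_lit 20615) (nat_lit 0) [nat_lit 7493, nat_lit 22073, nat_lit 20129, nat_lit 20777, nat_lit 20561, nat_lit 20597, nat_lit 20633, nat_lit 20609, nat_lit 20621, nat_lit 20617, nat_lit 40297] (nat_lit 0) [] false,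
   Spec.mk (nat_lit 20617) (nat_lit 0) [nat_lit 7495, nat_lit 22075, nat_lit 20131, nat_lit 20779, nat_lit 20563, nat_lit 20599, nat_lit 20635, nat_lit 20623, nat_lit 20615, nat_lit 40299, nat_lit 935] (nat_lit 0) [] false,
   Spec.mk (nat_lit 20621) (nat_lit 0) [nat_lit 7499, nat_lit 22079, nat_lit 20135, nat_lit 20783, nat_lit 20567, nat_lit 20639, nat_lit 20615, nat_lit 20623, nat_lit 40303] (nat_lit 2) [] false,
   Spec.mk (nat_lit 20623) (nat_lit 0) [nat_lit 7501, nat_lit 22081, nat_lit 20137, nat_lit 20785, nat_lit 20569, nat_lit 20641, nat_lit 20617, nat_lit 20621, nat_lit 20625, nat_lit 40305, nat_lit 941] (nat_lit 0) [] false,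
   Spec.mk (nat_lit 20625) (nat_lit 0) [nat_lit 7503, nat_lit 22083, nat_lit 20139, nat_lit 20787, nat_lit 20571, nat_lit 20643, nat_lit 20623, nat_lit 943] (nat_lit 0) [] false,
   Spec.mk (nat_lit 20633) (nat_lit 0) [nat_lit 7511, nat_lit 22091, nat_lit 20147, nat_lit 20795, nat_lit 20615, nat_lit 20639, nat_lit 20635, nat_lit 40315] (nat_lit 0) [] false,
   Spec.mk (nat_lit 20635) (nat_lit 0) [nat_lit 7513, nat_lit 22093, nat_lit 20149, nat_lit 20797, nat_lit 20617, nat_lit 20641, nat_lit 20633, nat_lit 40317, nat_lit 953] (nat_lit 1) [] false,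
   Spec.mk (nat_lit 20639) (nat_lit 0) [nat_lit 7517, nat_lit 22097, nat_lit 20153, nat_lit 20801, nat_lit 20621, nat_lit 20633, nat_lit 20641, nat_lit 40321] (nat_lit 0) [] false,
   Spec.mk (nat_lit 20641) (nat_lit 1) [nat_lit 7519, nat_lit 22099, nat_lit 20155, nat_lit 20803, nat_lit 20623, nat_lit 20635, nat_lit 20647, nat_lit 20639, nat_lit 20643, nat_lit 40323, nat_lit 959] (nat_lit 0) [] false,
   Spec.mk (nat_lit 20643) (nat_lit 0) [nat_lit 7521, nat_lit 22101, nat_lit 20157, nat_lit 20805, nat_lit 20625, nat_lit 20649, nat_lit 20641, nat_lit 961] (nat_lit 0) [] false,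
   Spec.mk (nat_lit 20647) (nat_lit 1) [nat_lit 7525, nat_lit 22105, nat_lit 20161, nat_lit 20809, nat_lit 20641, nat_lit 20649, nat_lit 40329, nat_lit 965] (nat_lit 0) [] false,
   Spec.mk (nat_lit 20649) (nat_lit 2) [nat_lit 7527, nat_lit 22107, nat_lit 20163, nat_lit 20811, nat_lit 20643, nat_lit 20647, nat_lit 967] (nat_lit 0) [] false,
   Spec.mk (nat_lit 20681) (nat_lit 3) [nat_lit 7559, nat_lit 22139, nat_lit 20195, nat_lit 21167, nat_lit 20519, nat_lit 20699, nat_lit 40363] (nat_lit 0) [] false,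
   Spec.mk (nat_lit 20699) (nat_lit 2) [nat_lit 7577, nat_lit 22157, nat_lit 20213, nat_lit 21185, nat_lit 20537, nat_lit 20753, nat_lit 20681, nat_lit 20717, nat_lit 20705, nat_lit 40381] (nat_lit 0) [] false,
   Spec.mk (nat_lit 20705) (nat_lit 1) [nat_lit 7583, nat_lit 22163, nat_lit 20219, nat_lit 21191, nat_lit 20543, nat_lit 20759, nat_lit 20723, nat_lit 20699, nat_lit 20707, nat_lit 40387] (nat_lit 0) [] false,
   Spec.mk (nat_lit 20707) (nat_lit 2) [nat_lit 7585, nat_lit 22165, nat_lit 20221, nat_lit 21193, nat_lit 20545, nat_lit 20761, nat_lit 20725, nat_lit 20705, nat_lit 40389, nat_lit 1025] (nat_lit 0) [] false,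
   Spec.mk (nat_lit 20717) (nat_lit 0) [nat_lit 7595, nat_lit 22175, nat_lit 20231, nat_lit 21203, nat_lit 20555, nat_lit 20771, nat_lit 20699, nat_lit 20723, nat_lit 40399] (nat_lit 1) [] false,
   Spec.mk (nat_lit 20723) (nat_lit 0) [nat_lit 7601, nat_lit 22181, nat_lit 20237, nat_lit 21209, nat_lit 20561, nat_lit 20777, nat_lit 20705, nat_lit 20717, nat_lit 20729, nat_lit 20725, nat_lit 40405] (nat_lit 0) [] false,
   Spec.mk (nat_lit 20725) (nat_lit 0) [nat_lit 7603, nat_lit 22183, nat_lit 20239, nat_lit 21211, nat_lit 20563, nat_lit 20779, nat_lit 20707, nat_lit 20731, nat_lit 20723, nat_lit 40407, nat_lit 1043] (nat_lit 0) [] false,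
   Spec.mk (nat_lit 20729) (nat_lit 0) [nat_lit 7607, nat_lit 22187, nat_lit 20243, nat_lit 21215, nat_lit 20567, nat_lit 20783, nat_lit 20723, nat_lit 20731, nat_lit 40411] (nat_lit 1) [] false,
   Spec.mk (nat_lit 20731) (nat_lit 1) [nat_lit 7609, nat_lit 22189, nat_lit 20245, nat_lit 21217, nat_lit 20569, nat_lit 20785, nat_lit 20725, nat_lit 20729, nat_lit 20733, nat_lit 40413, nat_lit 1049] (nat_lit 0) [] false,
   Spec.mk (nat_lit 20733) (nat_lit 1) [nat_lit 7611, nat_lit 22191, nat_lit 20247, nat_lit 21219, nat_lit 20571, nat_lit 20787, nat_lit 20731, nat_lit 1051] (nat_lit 0) [] false,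
   Spec.mk (nat_lit 20753) (nat_lit 2) [nat_lit 7631, nat_lit 22211, nat_lit 20267, nat_lit 21239, nat_lit 20591, nat_lit 20915, nat_lit 20699, nat_lit 20771, nat_lit 20759, nat_lit 40435] (nat_lit 0) [] false,
   Spec.mk (nat_lit 20759) (nat_lit 0) [nat_lit 7637, nat_lit 22217, nat_lit 20273, nat_lit 21245, nat_lit 20597, nat_lit 20921, nat_lit 20705, nat_lit 20777, nat_lit 20753, nat_lit 20761, nat_lit 40441] (nat_lit 0) [] false,
   Spec.mk (nat_lit 20761) (nat_lit 1) [nat_lit 7639, nat_lit 22219, nat_lit 20275, nat_lit 21247, nat_lit 20599, nat_lit 20923, nat_lit 20707, nat_lit 20779, nat_lit 20759, nat_lit 40443, nat_lit 1079] (nat_lit 0) [] false,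
   Spec.mk (nat_lit 20771) (nat_lit 1) [nat_lit 7649, nat_lit 22229, nat_lit 20285, nat_lit 21257, nat_lit 20609, nat_lit 20933, nat_lit 20717, nat_lit 20825, nat_lit 20753, nat_lit 20777, nat_lit 40453] (nat_lit 0) [] false,
   Spec.mk (nat_lit 20777) (nat_lit 1) [nat_lit 7655, nat_lit 22235, nat_lit 20291, nat_lit 21263, nat_lit 20615, nat_lit 20939, nat_lit 20723, nat_lit 20831, nat_lit 20759, nat_lit 20795, nat_lit 20771, nat_lit 20783, nat_lit 20779, nat_lit 40459] (nat_lit 0) [] false,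
   Spec.mk (nat_lit 20779) (nat_lit 1) [nat_lit 7657, nat_lit 22237, nat_lit 20293, nat_lit 21265, nat_lit 20617, nat_lit 20941, nat_lit 20725, nat_lit 20833, nat_lit 20761, nat_lit 20797, nat_lit 20785, nat_lit 20777, nat_lit 40461, nat_lit 1097] (nat_lit 0) [] false,
   Spec.mk (nat_lit 20783) (nat_lit 0) [nat_lit 7661, nat_lit 22241, nat_lit 20297, nat_lit 21269, nat_lit 20621, nat_lit 20945, nat_lit 20729, nat_lit 20837, nat_lit 20801, nat_lit 20777, nat_lit 20785, nat_lit 40465] (nat_lit 1) [] false,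
   Spec.mk (nat_lit 20785) (nat_lit 1) [nat_lit 7663, nat_lit 22243, nat_lit 20299, nat_lit 21271, nat_lit 20623, nat_lit 20947, nat_lit 20731, nat_lit 20839, nat_lit 20803, nat_lit 20779, nat_lit 20783, nat_lit 20787, nat_lit 40467, nat_lit 1103] (nat_lit 0) [] false,
   Spec.mk (nat_lit 20787) (nat_lit 1) [nat_lit 7665, nat_lit 22245, nat_lit 20301, nat_lit 21273, nat_lit 20625, nat_lit 20949, nat_lit 20733, nat_lit 20841, nat_lit 20805, nat_lit 20785, nat_lit 1105] (nat_lit 0) [] false,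
   Spec.mk (nat_lit 20795) (nat_lit 0) [nat_lit 7673, nat_lit 22253, nat_lit 20309, nat_lit 21281, nat_lit 20633, nat_lit 20957, nat_lit 20849, nat_lit 20777, nat_lit 20801, nat_lit 20797, nat_lit 40477] (nat_lit 0) [] false,
   Spec.mk (nat_lit 20797) (nat_lit 0) [nat_lit 7675, nat_lit 22255, nat_lit 20311, nat_lit 21283, nat_lit 20635, nat_lit 20959, nat_lit 20851, nat_lit 20779, nat_lit 20803, nat_lit 20795, nat_lit 40479, nat_lit 1115] (nat_lit 1) [] false,
   Spec.mk (nat_lit 20801) (nat_lit 0) [nat_lit 7679, nat_lit 22259, nat_lit 20315, nat_lit 21287, nat_lit 20639, nat_lit 20963, nat_lit 20855, nat_lit 20783, nat_lit 20795, nat_lit 20803, nat_lit 40483] (nat_lit 0) [] false,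
   Spec.mk (nat_lit 20803) (nat_lit 1) [nat_lit 7681, nat_lit 22261, nat_lit 20317, nat_lit 21289, nat_lit 20641, nat_lit 20965, nat_lit 20857, nat_lit 20785, nat_lit 20797, nat_lit 20809, nat_lit 20801, nat_lit 20805, nat_lit 40485, nat_lit 1121] (nat_lit 0) [] false,
   Spec.mk (nat_lit 20805) (nat_lit 0) [nat_lit 7683, nat_lit 22263, nat_lit 20319, nat_lit 21291, nat_lit 20643, nat_lit 20967, nat_lit 20859, nat_lit 20787, nat_lit 20811, nat_lit 20803, nat_lit 1123] (nat_lit 0) [] false,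
   Spec.mk (nat_lit 20809) (nat_lit 1) [nat_lit 7687, nat_lit 22267, nat_lit 20323, nat_lit 21295, nat_lit 20647, nat_lit 20971, nat_lit 20863, nat_lit 20803, nat_lit 20811, nat_lit 40491, nat_lit 1127] (nat_lit 0) [] false,
   Spec.mk (nat_lit 20811) (nat_lit 2) [nat_lit 7689, nat_lit 22269, nat_lit 20325, nat_lit 21297, nat_lit 20649, nat_lit 20973, nat_lit 20865, nat_lit 20805, nat_lit 20809, nat_lit 1129] (nat_lit 0) [] false,
   Spec.mk (nat_lit 20825) (nat_lit 1) [nat_lit 7703, nat_lit 22283, nat_lit 20339, nat_lit 21311, nat_lit 20987, nat_lit 20771, nat_lit 20831, nat_lit 40507] (nat_lit 0) [] false,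
   Spec.mk (nat_lit 20831) (nat_lit 0) [nat_lit 7709, nat_lit 22289, nat_lit 20345, nat_lit 21317, nat_lit 20993, nat_lit 20777, nat_lit 20849, nat_lit 20825, nat_lit 20837, nat_lit 20833, nat_lit 40513] (nat_lit 0) [] false,
   Spec.mk (nat_lit 20833) (nat_lit 0) [nat_lit 7711, nat_lit 22291, nat_lit 20347, nat_lit 21319, nat_lit 20995, nat_lit 20779, nat_lit 20851, nat_lit 20839, nat_lit 20831, nat_lit 40515, nat_lit 1151] (nat_lit 0) [] false,
   Spec.mk (nat_lit 20837) (nat_lit 0) [nat_lit 7715, nat_lit 22295, nat_lit 20351, nat_lit 21323, nat_lit 20999, nat_lit 20783, nat_lit 20855, nat_lit 20831, nat_lit 20839, nat_lit 40519] (nat_lit 3) [] false,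
   Spec.mk (nat_lit 20839) (nat_lit 0) [nat_lit 7717, nat_lit 22297, nat_lit 20353, nat_lit 21325, nat_lit 21001, nat_lit 20785, nat_lit 20857, nat_lit 20833, nat_lit 20837, nat_lit 20841, nat_lit 40521, nat_lit 1157] (nat_lit 1) [] false,
   Spec.mk (nat_lit 20841) (nat_lit 0) [nat_lit 7719, nat_lit 22299, nat_lit 20355, nat_lit 21327, nat_lit 21003, nat_lit 20787, nat_lit 20859, nat_lit 20839, nat_lit 1159] (nat_lit 1) [] false,
   Spec.mk (nat_lit 20849) (nat_lit 1) [nat_lit 7727, nat_lit 22307, nat_lit 20363, nat_lit 21335, nat_lit 21011, nat_lit 20795, nat_lit 20831, nat_lit 20855, nat_lit 20851, nat_lit 40531] (nat_lit 0) [] false,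
   Spec.mk (nat_lit 20851) (nat_lit 0) [nat_lit 7729, nat_lit 22309, nat_lit 20365, nat_lit 21337, nat_lit 21013, nat_lit 20797, nat_lit 20833, nat_lit 20857, nat_lit 20849, nat_lit 40533, nat_lit 1169] (nat_lit 0) [] false,
   Spec.mk (nat_lit 20855) (nat_lit 0) [nat_lit 7733, nat_lit 22313, nat_lit 20369, nat_lit 21341, nat_lit 21017, nat_lit 20801, nat_lit 20837, nat_lit 20873, nat_lit 20849, nat_lit 20857, nat_lit 40537] (nat_lit 0) [] false,
   Spec.mk (nat_lit 20857) (nat_lit 1) [nat_lit 7735, nat_lit 22315, nat_lit 20371, nat_lit 21343, nat_lit 21019, nat_lit 20803, nat_lit 20839, nat_lit 20875, nat_lit 20851, nat_lit 20863, nat_lit 20855, nat_lit 20859, nat_lit 40539, nat_lit 1175] (nat_lit 0) [] false,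
   Spec.mk (nat_lit 20859) (nat_lit 0) [nat_lit 7737, nat_lit 22317, nat_lit 20373, nat_lit 21345, nat_lit 21021, nat_lit 20805, nat_lit 20841, nat_lit 20877, nat_lit 20865, nat_lit 20857, nat_lit 1177] (nat_lit 0) [] false,
   Spec.mk (nat_lit 20863) (nat_lit 0) [nat_lit 7741, nat_lit 22321, nat_lit 20377, nat_lit 21349, nat_lit 21025, nat_lit 20809, nat_lit 20881, nat_lit 20857, nat_lit 20865, nat_lit 40545, nat_lit 1181] (nat_lit 0) [] false,
   Spec.mk (nat_lit 20865) (nat_lit 1) [nat_lit 7743, nat_lit 22323, nat_lit 20379, nat_lit 21351, nat_lit 21027, nat_lit 20811, nat_lit 20883, nat_lit 20859, nat_lit 20863, nat_lit 1183] (nat_lit 0) [] false,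
   Spec.mk (nat_lit 20873) (nat_lit 1) [nat_lit 7751, nat_lit 22331, nat_lit 20387, nat_lit 21359, nat_lit 21035, nat_lit 20855, nat_lit 20875, nat_lit 40555] (nat_lit 0) [] false,
   Spec.mk (nat_lit 20875) (nat_lit 1) [nat_lit 7753, nat_lit 22333, nat_lit 20389, nat_lit 21361, nat_lit 21037, nat_lit 20857, nat_lit 20881, nat_lit 20873, nat_lit 20877, nat_lit 40557, nat_lit 1193] (nat_lit 0) [] false]

noncomputable def sp55 : List Spec :=
  [Spec.mk (nat_lit 20877) (nat_lit 0) [nat_lit 7755, nat_lit 22335, nat_lit 20391, nat_lit 21363, nat_lit 21039, nat_lit 20859, nat_lit 20883, nat_lit 20875, nat_lit 1195] (nat_lit 1) [] false,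
   Spec.mk (nat_lit 20881) (nat_lit 2) [nat_lit 7759, nat_lit 22339, nat_lit 20395, nat_lit 21367, nat_lit 21043, nat_lit 20863, nat_lit 20875, nat_lit 20883, nat_lit 40563, nat_lit 1199] (nat_lit 0) [] false,
   Spec.mk (nat_lit 20883) (nat_lit 2) [nat_lit 7761, nat_lit 22341, nat_lit 20397, nat_lit 21369, nat_lit 21045, nat_lit 20865, nat_lit 20877, nat_lit 20889, nat_lit 20881, nat_lit 1201] (nat_lit 0) [] false,
   Spec.mk (nat_lit 20889) (nat_lit 3) [nat_lit 7767, nat_lit 22347, nat_lit 20403, nat_lit 21375, nat_lit 21051, nat_lit 20883, nat_lit 1207] (nat_lit 0) [] false,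
   Spec.mk (nat_lit 20915) (nat_lit 2) [nat_lit 7793, nat_lit 22373, nat_lit 21401, nat_lit 20753, nat_lit 20933, nat_lit 20921, nat_lit 40597] (nat_lit 0) [] false,
   Spec.mk (nat_lit 20921) (nat_lit 0) [nat_lit 7799, nat_lit 22379, nat_lit 21407, nat_lit 20759, nat_lit 20939, nat_lit 20915, nat_lit 20923, nat_lit 40603] (nat_lit 0) [] false,
   Spec.mk (nat_lit 20923) (nat_lit 1) [nat_lit 7801, nat_lit 22381, nat_lit 21409, nat_lit 20761, nat_lit 20941, nat_lit 20921, nat_lit 40605, nat_lit 1241] (nat_lit 0) [] false,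
   Spec.mk (nat_lit 20933) (nat_lit 0) [nat_lit 7811, nat_lit 22391, nat_lit 21419, nat_lit 20771, nat_lit 20987, nat_lit 20915, nat_lit 20939, nat_lit 40615] (nat_lit 0) [] false,
   Spec.mk (nat_lit 20939) (nat_lit 0) [nat_lit 7817, nat_lit 22397, nat_lit 21425, nat_lit 20777, nat_lit 20993, nat_lit 20921, nat_lit 20957, nat_lit 20933, nat_lit 20945, nat_lit 20941, nat_lit 40621] (nat_lit 0) [] false,
   Spec.mk (nat_lit 20941) (nat_lit 0) [nat_lit 7819, nat_lit 22399, nat_lit 21427, nat_lit 20779, nat_lit 20995, nat_lit 20923, nat_lit 20959, nat_lit 20947, nat_lit 20939, nat_lit 40623, nat_lit 1259] (nat_lit 0) [] false,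
   Spec.mk (nat_lit 20945) (nat_lit 0) [nat_lit 7823, nat_lit 22403, nat_lit 21431, nat_lit 20783, nat_lit 20999, nat_lit 20963, nat_lit 20939, nat_lit 20947, nat_lit 40627] (nat_lit 2) [] false,
   Spec.mk (nat_lit 20947) (nat_lit 0) [nat_lit 7825, nat_lit 22405, nat_lit 21433, nat_lit 20785, nat_lit 21001, nat_lit 20965, nat_lit 20941, nat_lit 20945, nat_lit 20949, nat_lit 40629, nat_lit 1265] (nat_lit 0) [] false,
   Spec.mk (nat_lit 20949) (nat_lit 0) [nat_lit 7827, nat_lit 22407, nat_lit 21435, nat_lit 20787, nat_lit 21003, nat_lit 20967, nat_lit 20947, nat_lit 1267] (nat_lit 0) [] false,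
   Spec.mk (nat_lit 20957) (nat_lit 0) [nat_lit 7835, nat_lit 22415, nat_lit 21443, nat_lit 20795, nat_lit 21011, nat_lit 20939, nat_lit 20963, nat_lit 20959, nat_lit 40639] (nat_lit 2) [] false,
   Spec.mk (nat_lit 20959) (nat_lit 0) [nat_lit 7837, nat_lit 22417, nat_lit 21445, nat_lit 20797, nat_lit 21013, nat_lit 20941, nat_lit 20965, nat_lit 20957, nat_lit 40641, nat_lit 1277] (nat_lit 3) [] false,
   Spec.mk (nat_lit 20963) (nat_lit 0) [nat_lit 7841, nat_lit 22421, nat_lit 21449, nat_lit 20801, nat_lit 21017, nat_lit 20945, nat_lit 20957, nat_lit 20965, nat_lit 40645] (nat_lit 2) [] false,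
   Spec.mk (nat_lit 20965) (nat_lit 0) [nat_lit 7843, nat_lit 22423, nat_lit 21451, nat_lit 20803, nat_lit 21019, nat_lit 20947, nat_lit 20959, nat_lit 20971, nat_lit 20963, nat_lit 20967, nat_lit 40647, nat_lit 1283] (nat_lit 1) [] false,
   Spec.mk (nat_lit 20967) (nat_lit 0) [nat_lit 7845, nat_lit 22425, nat_lit 21453, nat_lit 20805, nat_lit 21021, nat_lit 20949, nat_lit 20973, nat_lit 20965, nat_lit 1285] (nat_lit 2) [] false,
   Spec.mk (nat_lit 20971) (nat_lit 0) [nat_lit 7849, nat_lit 22429, nat_lit 21457, nat_lit 20809, nat_lit 21025, nat_lit 20965, nat_lit 20973, nat_lit 40653, nat_lit 1289] (nat_lit 1) [] false,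
   Spec.mk (nat_lit 20973) (nat_lit 0) [nat_lit 7851, nat_lit 22431, nat_lit 21459, nat_lit 20811, nat_lit 21027, nat_lit 20967, nat_lit 20971, nat_lit 1291] (nat_lit 0) [] false,
   Spec.mk (nat_lit 20987) (nat_lit 2) [nat_lit 7865, nat_lit 22445, nat_lit 21473, nat_lit 20825, nat_lit 20933, nat_lit 20993, nat_lit 40669] (nat_lit 0) [] false,
   Spec.mk (nat_lit 20993) (nat_lit 1) [nat_lit 7871, nat_lit 22451, nat_lit 21479, nat_lit 20831, nat_lit 20939, nat_lit 21011, nat_lit 20987, nat_lit 20999, nat_lit 20995, nat_lit 40675] (nat_lit 0) [] false,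
   Spec.mk (nat_lit 20995) (nat_lit 1) [nat_lit 7873, nat_lit 22453, nat_lit 21481, nat_lit 20833, nat_lit 20941, nat_lit 21013, nat_lit 21001, nat_lit 20993, nat_lit 40677, nat_lit 1313] (nat_lit 0) [] false,
   Spec.mk (nat_lit 20999) (nat_lit 0) [nat_lit 7877, nat_lit 22457, nat_lit 21485, nat_lit 20837, nat_lit 20945, nat_lit 21017, nat_lit 20993, nat_lit 21001, nat_lit 40681] (nat_lit 2) [] false,
   Spec.mk (nat_lit 21001) (nat_lit 0) [nat_lit 7879, nat_lit 22459, nat_lit 21487, nat_lit 20839, nat_lit 20947, nat_lit 21019, nat_lit 20995, nat_lit 20999, nat_lit 21003, nat_lit 40683, nat_lit 1319] (nat_lit 0) [] false,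
   Spec.mk (nat_lit 21003) (nat_lit 0) [nat_lit 7881, nat_lit 22461, nat_lit 21489, nat_lit 20841, nat_lit 20949, nat_lit 21021, nat_lit 21001, nat_lit 1321] (nat_lit 0) [] false,
   Spec.mk (nat_lit 21011) (nat_lit 1) [nat_lit 7889, nat_lit 22469, nat_lit 21497, nat_lit 20849, nat_lit 20957, nat_lit 21065, nat_lit 20993, nat_lit 21017, nat_lit 21013, nat_lit 40693] (nat_lit 0) [] false,
   Spec.mk (nat_lit 21013) (nat_lit 0) [nat_lit 7891, nat_lit 22471, nat_lit 21499, nat_lit 20851, nat_lit 20959, nat_lit 21067, nat_lit 20995, nat_lit 21019, nat_lit 21011, nat_lit 40695, nat_lit 1331] (nat_lit 0) [] false,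
   Spec.mk (nat_lit 21017) (nat_lit 0) [nat_lit 7895, nat_lit 22475, nat_lit 21503, nat_lit 20855, nat_lit 20963, nat_lit 21071, nat_lit 20999, nat_lit 21035, nat_lit 21011, nat_lit 21019, nat_lit 40699] (nat_lit 0) [] false,
   Spec.mk (nat_lit 21019) (nat_lit 1) [nat_lit 7897, nat_lit 22477, nat_lit 21505, nat_lit 20857, nat_lit 20965, nat_lit 21073, nat_lit 21001, nat_lit 21037, nat_lit 21013, nat_lit 21025, nat_lit 21017, nat_lit 21021, nat_lit 40701, nat_lit 1337] (nat_lit 0) [] false,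
   Spec.mk (nat_lit 21021) (nat_lit 0) [nat_lit 7899, nat_lit 22479, nat_lit 21507, nat_lit 20859, nat_lit 20967, nat_lit 21075, nat_lit 21003, nat_lit 21039, nat_lit 21027, nat_lit 21019, nat_lit 1339] (nat_lit 0) [] false,
   Spec.mk (nat_lit 21025) (nat_lit 0) [nat_lit 7903, nat_lit 22483, nat_lit 21511, nat_lit 20863, nat_lit 20971, nat_lit 21079, nat_lit 21043, nat_lit 21019, nat_lit 21027, nat_lit 40707, nat_lit 1343] (nat_lit 0) [] false,
   Spec.mk (nat_lit 21027) (nat_lit 1) [nat_lit 7905, nat_lit 22485, nat_lit 21513, nat_lit 20865, nat_lit 20973, nat_lit 21081, nat_lit 21045, nat_lit 21021, nat_lit 21025, nat_lit 1345] (nat_lit 0) [] false,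
   Spec.mk (nat_lit 21035) (nat_lit 0) [nat_lit 7913, nat_lit 22493, nat_lit 21521, nat_lit 20873, nat_lit 21089, nat_lit 21017, nat_lit 21037, nat_lit 40717] (nat_lit 0) [] false,
   Spec.mk (nat_lit 21037) (nat_lit 0) [nat_lit 7915, nat_lit 22495, nat_lit 21523, nat_lit 20875, nat_lit 21091, nat_lit 21019, nat_lit 21043, nat_lit 21035, nat_lit 21039, nat_lit 40719, nat_lit 1355] (nat_lit 0) [] false,
   Spec.mk (nat_lit 21039) (nat_lit 0) [nat_lit 7917, nat_lit 22497, nat_lit 21525, nat_lit 20877, nat_lit 21093, nat_lit 21021, nat_lit 21045, nat_lit 21037, nat_lit 1357] (nat_lit 2) [] false,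
   Spec.mk (nat_lit 21043) (nat_lit 1) [nat_lit 7921, nat_lit 22501, nat_lit 21529, nat_lit 20881, nat_lit 21097, nat_lit 21025, nat_lit 21037, nat_lit 21045, nat_lit 40725, nat_lit 1361] (nat_lit 0) [] false,
   Spec.mk (nat_lit 21045) (nat_lit 1) [nat_lit 7923, nat_lit 22503, nat_lit 21531, nat_lit 20883, nat_lit 21099, nat_lit 21027, nat_lit 21039, nat_lit 21051, nat_lit 21043, nat_lit 1363] (nat_lit 0) [] false,
   Spec.mk (nat_lit 21051) (nat_lit 2) [nat_lit 7929, nat_lit 22509, nat_lit 21537, nat_lit 20889, nat_lit 21105, nat_lit 21045, nat_lit 1369] (nat_lit 0) [] false,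
   Spec.mk (nat_lit 21065) (nat_lit 2) [nat_lit 7943, nat_lit 22523, nat_lit 21551, nat_lit 21011, nat_lit 21071, nat_lit 21067, nat_lit 40747] (nat_lit 0) [] false,
   Spec.mk (nat_lit 21067) (nat_lit 1) [nat_lit 7945, nat_lit 22525, nat_lit 21553, nat_lit 21013, nat_lit 21073, nat_lit 21065, nat_lit 40749, nat_lit 1385] (nat_lit 0) [] false,
   Spec.mk (nat_lit 21071) (nat_lit 0) [nat_lit 7949, nat_lit 22529, nat_lit 21557, nat_lit 21017, nat_lit 21089, nat_lit 21065, nat_lit 21073, nat_lit 40753] (nat_lit 0) [] false,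
   Spec.mk (nat_lit 21073) (nat_lit 1) [nat_lit 7951, nat_lit 22531, nat_lit 21559, nat_lit 21019, nat_lit 21091, nat_lit 21067, nat_lit 21079, nat_lit 21071, nat_lit 21075, nat_lit 40755, nat_lit 1391] (nat_lit 0) [] false,
   Spec.mk (nat_lit 21075) (nat_lit 0) [nat_lit 7953, nat_lit 22533, nat_lit 21561, nat_lit 21021, nat_lit 21093, nat_lit 21081, nat_lit 21073, nat_lit 1393] (nat_lit 0) [] false,
   Spec.mk (nat_lit 21079) (nat_lit 0) [nat_lit 7957, nat_lit 22537, nat_lit 21565, nat_lit 21025, nat_lit 21097, nat_lit 21073, nat_lit 21081, nat_lit 40761, nat_lit 1397] (nat_lit 1) [] false,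
   Spec.mk (nat_lit 21081) (nat_lit 0) [nat_lit 7959, nat_lit 22539, nat_lit 21567, nat_lit 21027, nat_lit 21099, nat_lit 21075, nat_lit 21079, nat_lit 1399] (nat_lit 0) [] false,
   Spec.mk (nat_lit 21089) (nat_lit 2) [nat_lit 7967, nat_lit 22547, nat_lit 21575, nat_lit 21035, nat_lit 21071, nat_lit 21091, nat_lit 40771] (nat_lit 0) [] false,
   Spec.mk (nat_lit 21091) (nat_lit 2) [nat_lit 7969, nat_lit 22549, nat_lit 21577, nat_lit 21037, nat_lit 21073, nat_lit 21097, nat_lit 21089, nat_lit 21093, nat_lit 40773, nat_lit 1409] (nat_lit 0) [] false,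
   Spec.mk (nat_lit 21093) (nat_lit 0) [nat_lit 7971, nat_lit 22551, nat_lit 21579, nat_lit 21039, nat_lit 21075, nat_lit 21099, nat_lit 21091, nat_lit 1411] (nat_lit 0) [] false,
   Spec.mk (nat_lit 21097) (nat_lit 2) [nat_lit 7975, nat_lit 22555, nat_lit 21583, nat_lit 21043, nat_lit 21079, nat_lit 21115, nat_lit 21091, nat_lit 21099, nat_lit 40779, nat_lit 1415] (nat_lit 0) [] false,
   Spec.mk (nat_lit 21099) (nat_lit 2) [nat_lit 7977, nat_lit 22557, nat_lit 21585, nat_lit 21045, nat_lit 21081, nat_lit 21117, nat_lit 21093, nat_lit 21105, nat_lit 21097, nat_lit 1417] (nat_lit 0) [] false,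
   Spec.mk (nat_lit 21105) (nat_lit 2) [nat_lit 7983, nat_lit 22563, nat_lit 21591, nat_lit 21051, nat_lit 21123, nat_lit 21099, nat_lit 1423] (nat_lit 0) [] false,
   Spec.mk (nat_lit 21115) (nat_lit 3) [nat_lit 7993, nat_lit 22573, nat_lit 21601, nat_lit 21097, nat_lit 21117, nat_lit 40797, nat_lit 1433] (nat_lit 0) [] false,
   Spec.mk (nat_lit 21117) (nat_lit 2) [nat_lit 7995, nat_lit 22575, nat_lit 21603, nat_lit 21099, nat_lit 21123, nat_lit 21115, nat_lit 1435] (nat_lit 0) [] false,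
   Spec.mk (nat_lit 21123) (nat_lit 4) [nat_lit 8001, nat_lit 22581, nat_lit 21609, nat_lit 21105, nat_lit 21117, nat_lit 1441] (nat_lit 0) [] false,
   Spec.mk (nat_lit 21167) (nat_lit 2) [nat_lit 8045, nat_lit 22625, nat_lit 20681, nat_lit 21185, nat_lit 40849] (nat_lit 0) [] false,
   Spec.mk (nat_lit 21185) (nat_lit 1) [nat_lit 8063, nat_lit 22643, nat_lit 20699, nat_lit 21239, nat_lit 21167, nat_lit 21203, nat_lit 21191, nat_lit 40867] (nat_lit 0) [] false,
   Spec.mk (nat_lit 21191) (nat_lit 0) [nat_lit 8069, nat_lit 22649, nat_lit 20705, nat_lit 21245, nat_lit 21209, nat_lit 21185, nat_lit 21193, nat_lit 40873] (nat_lit 0) [] false,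
   Spec.mk (nat_lit 21193) (nat_lit 1) [nat_lit 8071, nat_lit 22651, nat_lit 20707, nat_lit 21247, nat_lit 21211, nat_lit 21191, nat_lit 40875, nat_lit 1511] (nat_lit 0) [] false,
   Spec.mk (nat_lit 21203) (nat_lit 0) [nat_lit 8081, nat_lit 22661, nat_lit 20717, nat_lit 21257, nat_lit 21185, nat_lit 21209, nat_lit 40885] (nat_lit 2) [] false]

noncomputable def sp56 : List Spec :=
  [Spec.mk (nat_lit 21209) (nat_lit 0) [nat_lit 8087, nat_lit 22667, nat_lit 20723, nat_lit 21263, nat_lit 21191, nat_lit 21203, nat_lit 21215, nat_lit 21211, nat_lit 40891] (nat_lit 1) [] false,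
   Spec.mk (nat_lit 21211) (nat_lit 0) [nat_lit 8089, nat_lit 22669, nat_lit 20725, nat_lit 21265, nat_lit 21193, nat_lit 21217, nat_lit 21209, nat_lit 40893, nat_lit 1529] (nat_lit 1) [] false,
   Spec.mk (nat_lit 21215) (nat_lit 0) [nat_lit 8093, nat_lit 22673, nat_lit 20729, nat_lit 21269, nat_lit 21209, nat_lit 21217, nat_lit 40897] (nat_lit 2) [] false,
   Spec.mk (nat_lit 21217) (nat_lit 0) [nat_lit 8095, nat_lit 22675, nat_lit 20731, nat_lit 21271, nat_lit 21211, nat_lit 21215, nat_lit 21219, nat_lit 40899, nat_lit 1535] (nat_lit 0) [] false,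
   Spec.mk (nat_lit 21219) (nat_lit 0) [nat_lit 8097, nat_lit 22677, nat_lit 20733, nat_lit 21273, nat_lit 21217, nat_lit 1537] (nat_lit 0) [] false,
   Spec.mk (nat_lit 21239) (nat_lit 0) [nat_lit 8117, nat_lit 22697, nat_lit 20753, nat_lit 21401, nat_lit 21185, nat_lit 21257, nat_lit 21245, nat_lit 40921] (nat_lit 0) [] false,
   Spec.mk (nat_lit 21245) (nat_lit 0) [nat_lit 8123, nat_lit 22703, nat_lit 20759, nat_lit 21407, nat_lit 21191, nat_lit 21263, nat_lit 21239, nat_lit 21247, nat_lit 40927] (nat_lit 2) [] false,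
   Spec.mk (nat_lit 21247) (nat_lit 0) [nat_lit 8125, nat_lit 22705, nat_lit 20761, nat_lit 21409, nat_lit 21193, nat_lit 21265, nat_lit 21245, nat_lit 40929, nat_lit 1565] (nat_lit 1) [] false,
   Spec.mk (nat_lit 21257) (nat_lit 0) [nat_lit 8135, nat_lit 22715, nat_lit 20771, nat_lit 21419, nat_lit 21203, nat_lit 21311, nat_lit 21239, nat_lit 21263, nat_lit 40939] (nat_lit 1) [] false,
   Spec.mk (nat_lit 21263) (nat_lit 0) [nat_lit 8141, nat_lit 22721, nat_lit 20777, nat_lit 21425, nat_lit 21209, nat_lit 21317, nat_lit 21245, nat_lit 21281, nat_lit 21257, nat_lit 21269, nat_lit 21265, nat_lit 40945] (nat_lit 1) [] false,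
   Spec.mk (nat_lit 21265) (nat_lit 0) [nat_lit 8143, nat_lit 22723, nat_lit 20779, nat_lit 21427, nat_lit 21211, nat_lit 21319, nat_lit 21247, nat_lit 21283, nat_lit 21271, nat_lit 21263, nat_lit 40947, nat_lit 1583] (nat_lit 1) [] false,
   Spec.mk (nat_lit 21269) (nat_lit 0) [nat_lit 8147, nat_lit 22727, nat_lit 20783, nat_lit 21431, nat_lit 21215, nat_lit 21323, nat_lit 21287, nat_lit 21263, nat_lit 21271, nat_lit 40951] (nat_lit 3) [] false,
   Spec.mk (nat_lit 21271) (nat_lit 0) [nat_lit 8149, nat_lit 22729, nat_lit 20785, nat_lit 21433, nat_lit 21217, nat_lit 21325, nat_lit 21289, nat_lit 21265, nat_lit 21269, nat_lit 21273, nat_lit 40953, nat_lit 1589] (nat_lit 1) [] false,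
   Spec.mk (nat_lit 21273) (nat_lit 0) [nat_lit 8151, nat_lit 22731, nat_lit 20787, nat_lit 21435, nat_lit 21219, nat_lit 21327, nat_lit 21291, nat_lit 21271, nat_lit 1591] (nat_lit 1) [] false,
   Spec.mk (nat_lit 21281) (nat_lit 0) [nat_lit 8159, nat_lit 22739, nat_lit 20795, nat_lit 21443, nat_lit 21335, nat_lit 21263, nat_lit 21287, nat_lit 21283, nat_lit 40963] (nat_lit 2) [] false,
   Spec.mk (nat_lit 21283) (nat_lit 0) [nat_lit 8161, nat_lit 22741, nat_lit 20797, nat_lit 21445, nat_lit 21337, nat_lit 21265, nat_lit 21289, nat_lit 21281, nat_lit 40965, nat_lit 1601] (nat_lit 3) [] false,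
   Spec.mk (nat_lit 21287) (nat_lit 0) [nat_lit 8165, nat_lit 22745, nat_lit 20801, nat_lit 21449, nat_lit 21341, nat_lit 21269, nat_lit 21281, nat_lit 21289, nat_lit 40969] (nat_lit 2) [] false,
   Spec.mk (nat_lit 21289) (nat_lit 0) [nat_lit 8167, nat_lit 22747, nat_lit 20803, nat_lit 21451, nat_lit 21343, nat_lit 21271, nat_lit 21283, nat_lit 21295, nat_lit 21287, nat_lit 21291, nat_lit 40971, nat_lit 1607] (nat_lit 1) [] false,
   Spec.mk (nat_lit 21291) (nat_lit 0) [nat_lit 8169, nat_lit 22749, nat_lit 20805, nat_lit 21453, nat_lit 21345, nat_lit 21273, nat_lit 21297, nat_lit 21289, nat_lit 1609] (nat_lit 2) [] false,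
   Spec.mk (nat_lit 21295) (nat_lit 0) [nat_lit 8173, nat_lit 22753, nat_lit 20809, nat_lit 21457, nat_lit 21349, nat_lit 21289, nat_lit 21297, nat_lit 40977, nat_lit 1613] (nat_lit 1) [] false,
   Spec.mk (nat_lit 21297) (nat_lit 0) [nat_lit 8175, nat_lit 22755, nat_lit 20811, nat_lit 21459, nat_lit 21351, nat_lit 21291, nat_lit 21295, nat_lit 1615] (nat_lit 0) [] false,
   Spec.mk (nat_lit 21311) (nat_lit 0) [nat_lit 8189, nat_lit 22769, nat_lit 20825, nat_lit 21473, nat_lit 21257, nat_lit 21317, nat_lit 40993] (nat_lit 2) [] false,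
   Spec.mk (nat_lit 21317) (nat_lit 0) [nat_lit 8195, nat_lit 22775, nat_lit 20831, nat_lit 21479, nat_lit 21263, nat_lit 21335, nat_lit 21311, nat_lit 21323, nat_lit 21319, nat_lit 40999] (nat_lit 3) [] false,
   Spec.mk (nat_lit 21319) (nat_lit 0) [nat_lit 8197, nat_lit 22777, nat_lit 20833, nat_lit 21481, nat_lit 21265, nat_lit 21337, nat_lit 21325, nat_lit 21317, nat_lit 41001, nat_lit 1637] (nat_lit 3) [] false,
   Spec.mk (nat_lit 21323) (nat_lit 0) [nat_lit 8201, nat_lit 22781, nat_lit 20837, nat_lit 21485, nat_lit 21269, nat_lit 21341, nat_lit 21317, nat_lit 21325, nat_lit 41005] (nat_lit 6) [] false,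
   Spec.mk (nat_lit 21325) (nat_lit 0) [nat_lit 8203, nat_lit 22783, nat_lit 20839, nat_lit 21487, nat_lit 21271, nat_lit 21343, nat_lit 21319, nat_lit 21323, nat_lit 21327, nat_lit 41007, nat_lit 1643] (nat_lit 4) [] false,
   Spec.mk (nat_lit 21327) (nat_lit 0) [nat_lit 8205, nat_lit 22785, nat_lit 20841, nat_lit 21489, nat_lit 21273, nat_lit 21345, nat_lit 21325, nat_lit 1645] (nat_lit 4) [] false,
   Spec.mk (nat_lit 21335) (nat_lit 0) [nat_lit 8213, nat_lit 22793, nat_lit 20849, nat_lit 21497, nat_lit 21281, nat_lit 21317, nat_lit 21341, nat_lit 21337, nat_lit 41017] (nat_lit 2) [] false,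
   Spec.mk (nat_lit 21337) (nat_lit 0) [nat_lit 8215, nat_lit 22795, nat_lit 20851, nat_lit 21499, nat_lit 21283, nat_lit 21319, nat_lit 21343, nat_lit 21335, nat_lit 41019, nat_lit 1655] (nat_lit 3) [] false,
   Spec.mk (nat_lit 21341) (nat_lit 0) [nat_lit 8219, nat_lit 22799, nat_lit 20855, nat_lit 21503, nat_lit 21287, nat_lit 21323, nat_lit 21359, nat_lit 21335, nat_lit 21343, nat_lit 41023] (nat_lit 3) [] false,
   Spec.mk (nat_lit 21343) (nat_lit 0) [nat_lit 8221, nat_lit 22801, nat_lit 20857, nat_lit 21505, nat_lit 21289, nat_lit 21325, nat_lit 21361, nat_lit 21337, nat_lit 21349, nat_lit 21341, nat_lit 21345, nat_lit 41025, nat_lit 1661] (nat_lit 2) [] false,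
   Spec.mk (nat_lit 21345) (nat_lit 0) [nat_lit 8223, nat_lit 22803, nat_lit 20859, nat_lit 21507, nat_lit 21291, nat_lit 21327, nat_lit 21363, nat_lit 21351, nat_lit 21343, nat_lit 1663] (nat_lit 3) [] false,
   Spec.mk (nat_lit 21349) (nat_lit 0) [nat_lit 8227, nat_lit 22807, nat_lit 20863, nat_lit 21511, nat_lit 21295, nat_lit 21367, nat_lit 21343, nat_lit 21351, nat_lit 41031, nat_lit 1667] (nat_lit 3) [] false,
   Spec.mk (nat_lit 21351) (nat_lit 0) [nat_lit 8229, nat_lit 22809, nat_lit 20865, nat_lit 21513, nat_lit 21297, nat_lit 21369, nat_lit 21345, nat_lit 21349, nat_lit 1669] (nat_lit 2) [] false,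
   Spec.mk (nat_lit 21359) (nat_lit 0) [nat_lit 8237, nat_lit 22817, nat_lit 20873, nat_lit 21521, nat_lit 21341, nat_lit 21361, nat_lit 41041] (nat_lit 2) [] false,
   Spec.mk (nat_lit 21361) (nat_lit 0) [nat_lit 8239, nat_lit 22819, nat_lit 20875, nat_lit 21523, nat_lit 21343, nat_lit 21367, nat_lit 21359, nat_lit 21363, nat_lit 41043, nat_lit 1679] (nat_lit 2) [] false,
   Spec.mk (nat_lit 21363) (nat_lit 0) [nat_lit 8241, nat_lit 22821, nat_lit 20877, nat_lit 21525, nat_lit 21345, nat_lit 21369, nat_lit 21361, nat_lit 1681] (nat_lit 4) [] false,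
   Spec.mk (nat_lit 21367) (nat_lit 0) [nat_lit 8245, nat_lit 22825, nat_lit 20881, nat_lit 21529, nat_lit 21349, nat_lit 21361, nat_lit 21369, nat_lit 41049, nat_lit 1685] (nat_lit 1) [] false,
   Spec.mk (nat_lit 21369) (nat_lit 0) [nat_lit 8247, nat_lit 22827, nat_lit 20883, nat_lit 21531, nat_lit 21351, nat_lit 21363, nat_lit 21375, nat_lit 21367, nat_lit 1687] (nat_lit 1) [] false,
   Spec.mk (nat_lit 21375) (nat_lit 0) [nat_lit 8253, nat_lit 22833, nat_lit 20889, nat_lit 21537, nat_lit 21369, nat_lit 1693] (nat_lit 0) [] false,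
   Spec.mk (nat_lit 21401) (nat_lit 2) [nat_lit 8279, nat_lit 22859, nat_lit 20915, nat_lit 21239, nat_lit 21419, nat_lit 21407, nat_lit 41083] (nat_lit 0) [] false,
   Spec.mk (nat_lit 21407) (nat_lit 0) [nat_lit 8285, nat_lit 22865, nat_lit 20921, nat_lit 21245, nat_lit 21425, nat_lit 21401, nat_lit 21409, nat_lit 41089] (nat_lit 0) [] false,
   Spec.mk (nat_lit 21409) (nat_lit 1) [nat_lit 8287, nat_lit 22867, nat_lit 20923, nat_lit 21247, nat_lit 21427, nat_lit 21407, nat_lit 41091, nat_lit 1727] (nat_lit 0) [] false,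
   Spec.mk (nat_lit 21419) (nat_lit 0) [nat_lit 8297, nat_lit 22877, nat_lit 20933, nat_lit 21257, nat_lit 21473, nat_lit 21401, nat_lit 21425, nat_lit 41101] (nat_lit 0) [] false,
   Spec.mk (nat_lit 21425) (nat_lit 0) [nat_lit 8303, nat_lit 22883, nat_lit 20939, nat_lit 21263, nat_lit 21479, nat_lit 21407, nat_lit 21443, nat_lit 21419, nat_lit 21431, nat_lit 21427, nat_lit 41107] (nat_lit 0) [] false,
   Spec.mk (nat_lit 21427) (nat_lit 0) [nat_lit 8305, nat_lit 22885, nat_lit 20941, nat_lit 21265, nat_lit 21481, nat_lit 21409, nat_lit 21445, nat_lit 21433, nat_lit 21425, nat_lit 41109, nat_lit 1745] (nat_lit 0) [] false,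
   Spec.mk (nat_lit 21431) (nat_lit 0) [nat_lit 8309, nat_lit 22889, nat_lit 20945, nat_lit 21269, nat_lit 21485, nat_lit 21449, nat_lit 21425, nat_lit 21433, nat_lit 41113] (nat_lit 2) [] false,
   Spec.mk (nat_lit 21433) (nat_lit 0) [nat_lit 8311, nat_lit 22891, nat_lit 20947, nat_lit 21271, nat_lit 21487, nat_lit 21451, nat_lit 21427, nat_lit 21431, nat_lit 21435, nat_lit 41115, nat_lit 1751] (nat_lit 0) [] false,
   Spec.mk (nat_lit 21435) (nat_lit 0) [nat_lit 8313, nat_lit 22893, nat_lit 20949, nat_lit 21273, nat_lit 21489, nat_lit 21453, nat_lit 21433, nat_lit 1753] (nat_lit 0) [] false,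
   Spec.mk (nat_lit 21443) (nat_lit 0) [nat_lit 8321, nat_lit 22901, nat_lit 20957, nat_lit 21281, nat_lit 21497, nat_lit 21425, nat_lit 21449, nat_lit 21445, nat_lit 41125] (nat_lit 2) [] false,
   Spec.mk (nat_lit 21445) (nat_lit 0) [nat_lit 8323, nat_lit 22903, nat_lit 20959, nat_lit 21283, nat_lit 21499, nat_lit 21427, nat_lit 21451, nat_lit 21443, nat_lit 41127, nat_lit 1763] (nat_lit 3) [] false,
   Spec.mk (nat_lit 21449) (nat_lit 0) [nat_lit 8327, nat_lit 22907, nat_lit 20963, nat_lit 21287, nat_lit 21503, nat_lit 21431, nat_lit 21443, nat_lit 21451, nat_lit 41131] (nat_lit 2) [] false,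
   Spec.mk (nat_lit 21451) (nat_lit 0) [nat_lit 8329, nat_lit 22909, nat_lit 20965, nat_lit 21289, nat_lit 21505, nat_lit 21433, nat_lit 21445, nat_lit 21457, nat_lit 21449, nat_lit 21453, nat_lit 41133, nat_lit 1769] (nat_lit 1) [] false,
   Spec.mk (nat_lit 21453) (nat_lit 0) [nat_lit 8331, nat_lit 22911, nat_lit 20967, nat_lit 21291, nat_lit 21507, nat_lit 21435, nat_lit 21459, nat_lit 21451, nat_lit 1771] (nat_lit 2) [] false,
   Spec.mk (nat_lit 21457) (nat_lit 0) [nat_lit 8335, nat_lit 22915, nat_lit 20971, nat_lit 21295, nat_lit 21511, nat_lit 21451, nat_lit 21459, nat_lit 41139, nat_lit 1775] (nat_lit 1) [] false,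
   Spec.mk (nat_lit 21459) (nat_lit 0) [nat_lit 8337, nat_lit 22917, nat_lit 20973, nat_lit 21297, nat_lit 21513, nat_lit 21453, nat_lit 21457, nat_lit 1777] (nat_lit 0) [] false,
   Spec.mk (nat_lit 21473) (nat_lit 1) [nat_lit 8351, nat_lit 22931, nat_lit 20987, nat_lit 21311, nat_lit 21635, nat_lit 21419, nat_lit 21479, nat_lit 41155] (nat_lit 0) [] false,
   Spec.mk (nat_lit 21479) (nat_lit 0) [nat_lit 8357, nat_lit 22937, nat_lit 20993, nat_lit 21317, nat_lit 21641, nat_lit 21425, nat_lit 21497, nat_lit 21473, nat_lit 21485, nat_lit 21481, nat_lit 41161] (nat_lit 0) [] false,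
   Spec.mk (nat_lit 21481) (nat_lit 0) [nat_lit 8359, nat_lit 22939, nat_lit 20995, nat_lit 21319, nat_lit 21643, nat_lit 21427, nat_lit 21499, nat_lit 21487, nat_lit 21479, nat_lit 41163, nat_lit 1799] (nat_lit 0) [] false,
   Spec.mk (nat_lit 21485) (nat_lit 0) [nat_lit 8363, nat_lit 22943, nat_lit 20999, nat_lit 21323, nat_lit 21647, nat_lit 21431, nat_lit 21503, nat_lit 21479, nat_lit 21487, nat_lit 41167] (nat_lit 3) [] false]

noncomputable def sp57 : List Spec :=
  [Spec.mk (nat_lit 21487) (nat_lit 0) [nat_lit 8365, nat_lit 22945, nat_lit 21001, nat_lit 21325, nat_lit 21649, nat_lit 21433, nat_lit 21505, nat_lit 21481, nat_lit 21485, nat_lit 21489, nat_lit 41169, nat_lit 1805] (nat_lit 1) [] false,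
   Spec.mk (nat_lit 21489) (nat_lit 0) [nat_lit 8367, nat_lit 22947, nat_lit 21003, nat_lit 21327, nat_lit 21651, nat_lit 21435, nat_lit 21507, nat_lit 21487, nat_lit 1807] (nat_lit 1) [] false,
   Spec.mk (nat_lit 21497) (nat_lit 0) [nat_lit 8375, nat_lit 22955, nat_lit 21011, nat_lit 21335, nat_lit 21659, nat_lit 21443, nat_lit 21551, nat_lit 21479, nat_lit 21503, nat_lit 21499, nat_lit 41179] (nat_lit 0) [] false,
   Spec.mk (nat_lit 21499) (nat_lit 0) [nat_lit 8377, nat_lit 22957, nat_lit 21013, nat_lit 21337, nat_lit 21661, nat_lit 21445, nat_lit 21553, nat_lit 21481, nat_lit 21505, nat_lit 21497, nat_lit 41181, nat_lit 1817] (nat_lit 1) [] false,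
   Spec.mk (nat_lit 21503) (nat_lit 0) [nat_lit 8381, nat_lit 22961, nat_lit 21017, nat_lit 21341, nat_lit 21665, nat_lit 21449, nat_lit 21557, nat_lit 21485, nat_lit 21521, nat_lit 21497, nat_lit 21505, nat_lit 41185] (nat_lit 1) [] false,
   Spec.mk (nat_lit 21505) (nat_lit 0) [nat_lit 8383, nat_lit 22963, nat_lit 21019, nat_lit 21343, nat_lit 21667, nat_lit 21451, nat_lit 21559, nat_lit 21487, nat_lit 21523, nat_lit 21499, nat_lit 21511, nat_lit 21503, nat_lit 21507, nat_lit 41187, nat_lit 1823] (nat_lit 0) [] false,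
   Spec.mk (nat_lit 21507) (nat_lit 0) [nat_lit 8385, nat_lit 22965, nat_lit 21021, nat_lit 21345, nat_lit 21669, nat_lit 21453, nat_lit 21561, nat_lit 21489, nat_lit 21525, nat_lit 21513, nat_lit 21505, nat_lit 1825] (nat_lit 1) [] false,
   Spec.mk (nat_lit 21511) (nat_lit 0) [nat_lit 8389, nat_lit 22969, nat_lit 21025, nat_lit 21349, nat_lit 21673, nat_lit 21457, nat_lit 21565, nat_lit 21529, nat_lit 21505, nat_lit 21513, nat_lit 41193, nat_lit 1829] (nat_lit 1) [] false,
   Spec.mk (nat_lit 21513) (nat_lit 0) [nat_lit 8391, nat_lit 22971, nat_lit 21027, nat_lit 21351, nat_lit 21675, nat_lit 21459, nat_lit 21567, nat_lit 21531, nat_lit 21507, nat_lit 21511, nat_lit 1831] (nat_lit 0) [] false,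
   Spec.mk (nat_lit 21521) (nat_lit 0) [nat_lit 8399, nat_lit 22979, nat_lit 21035, nat_lit 21359, nat_lit 21683, nat_lit 21575, nat_lit 21503, nat_lit 21523, nat_lit 41203] (nat_lit 1) [] false,
   Spec.mk (nat_lit 21523) (nat_lit 0) [nat_lit 8401, nat_lit 22981, nat_lit 21037, nat_lit 21361, nat_lit 21685, nat_lit 21577, nat_lit 21505, nat_lit 21529, nat_lit 21521, nat_lit 21525, nat_lit 41205, nat_lit 1841] (nat_lit 1) [] false,
   Spec.mk (nat_lit 21525) (nat_lit 0) [nat_lit 8403, nat_lit 22983, nat_lit 21039, nat_lit 21363, nat_lit 21687, nat_lit 21579, nat_lit 21507, nat_lit 21531, nat_lit 21523, nat_lit 1843] (nat_lit 3) [] false,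
   Spec.mk (nat_lit 21529) (nat_lit 0) [nat_lit 8407, nat_lit 22987, nat_lit 21043, nat_lit 21367, nat_lit 21691, nat_lit 21583, nat_lit 21511, nat_lit 21523, nat_lit 21531, nat_lit 41211, nat_lit 1847] (nat_lit 0) [] false,
   Spec.mk (nat_lit 21531) (nat_lit 0) [nat_lit 8409, nat_lit 22989, nat_lit 21045, nat_lit 21369, nat_lit 21693, nat_lit 21585, nat_lit 21513, nat_lit 21525, nat_lit 21537, nat_lit 21529, nat_lit 1849] (nat_lit 0) [] false,
   Spec.mk (nat_lit 21537) (nat_lit 1) [nat_lit 8415, nat_lit 22995, nat_lit 21051, nat_lit 21375, nat_lit 21699, nat_lit 21591, nat_lit 21531, nat_lit 1855] (nat_lit 0) [] false,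
   Spec.mk (nat_lit 21551) (nat_lit 0) [nat_lit 8429, nat_lit 23009, nat_lit 21065, nat_lit 21713, nat_lit 21497, nat_lit 21557, nat_lit 21553, nat_lit 41233] (nat_lit 0) [] false,
   Spec.mk (nat_lit 21553) (nat_lit 0) [nat_lit 8431, nat_lit 23011, nat_lit 21067, nat_lit 21715, nat_lit 21499, nat_lit 21559, nat_lit 21551, nat_lit 41235, nat_lit 1871] (nat_lit 1) [] false,
   Spec.mk (nat_lit 21557) (nat_lit 0) [nat_lit 8435, nat_lit 23015, nat_lit 21071, nat_lit 21719, nat_lit 21503, nat_lit 21575, nat_lit 21551, nat_lit 21559, nat_lit 41239] (nat_lit 2) [] false,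
   Spec.mk (nat_lit 21559) (nat_lit 0) [nat_lit 8437, nat_lit 23017, nat_lit 21073, nat_lit 21721, nat_lit 21505, nat_lit 21577, nat_lit 21553, nat_lit 21565, nat_lit 21557, nat_lit 21561, nat_lit 41241, nat_lit 1877] (nat_lit 1) [] false,
   Spec.mk (nat_lit 21561) (nat_lit 0) [nat_lit 8439, nat_lit 23019, nat_lit 21075, nat_lit 21723, nat_lit 21507, nat_lit 21579, nat_lit 21567, nat_lit 21559, nat_lit 1879] (nat_lit 2) [] false,
   Spec.mk (nat_lit 21565) (nat_lit 0) [nat_lit 8443, nat_lit 23023, nat_lit 21079, nat_lit 21727, nat_lit 21511, nat_lit 21583, nat_lit 21559, nat_lit 21567, nat_lit 41247, nat_lit 1883] (nat_lit 3) [] false,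
   Spec.mk (nat_lit 21567) (nat_lit 0) [nat_lit 8445, nat_lit 23025, nat_lit 21081, nat_lit 21729, nat_lit 21513, nat_lit 21585, nat_lit 21561, nat_lit 21565, nat_lit 1885] (nat_lit 2) [] false,
   Spec.mk (nat_lit 21575) (nat_lit 0) [nat_lit 8453, nat_lit 23033, nat_lit 21089, nat_lit 21737, nat_lit 21521, nat_lit 21557, nat_lit 21577, nat_lit 41257] (nat_lit 0) [] false,
   Spec.mk (nat_lit 21577) (nat_lit 0) [nat_lit 8455, nat_lit 23035, nat_lit 21091, nat_lit 21739, nat_lit 21523, nat_lit 21559, nat_lit 21583, nat_lit 21575, nat_lit 21579, nat_lit 41259, nat_lit 1895] (nat_lit 0) [] false,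
   Spec.mk (nat_lit 21579) (nat_lit 0) [nat_lit 8457, nat_lit 23037, nat_lit 21093, nat_lit 21741, nat_lit 21525, nat_lit 21561, nat_lit 21585, nat_lit 21577, nat_lit 1897] (nat_lit 2) [] false,
   Spec.mk (nat_lit 21583) (nat_lit 0) [nat_lit 8461, nat_lit 23041, nat_lit 21097, nat_lit 21745, nat_lit 21529, nat_lit 21565, nat_lit 21601, nat_lit 21577, nat_lit 21585, nat_lit 41265, nat_lit 1901] (nat_lit 0) [] false,
   Spec.mk (nat_lit 21585) (nat_lit 0) [nat_lit 8463, nat_lit 23043, nat_lit 21099, nat_lit 21747, nat_lit 21531, nat_lit 21567, nat_lit 21603, nat_lit 21579, nat_lit 21591, nat_lit 21583, nat_lit 1903] (nat_lit 0) [] false,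
   Spec.mk (nat_lit 21591) (nat_lit 0) [nat_lit 8469, nat_lit 23049, nat_lit 21105, nat_lit 21753, nat_lit 21537, nat_lit 21609, nat_lit 21585, nat_lit 1909] (nat_lit 0) [] false,
   Spec.mk (nat_lit 21601) (nat_lit 1) [nat_lit 8479, nat_lit 23059, nat_lit 21115, nat_lit 21763, nat_lit 21583, nat_lit 21603, nat_lit 41283, nat_lit 1919] (nat_lit 0) [] false,
   Spec.mk (nat_lit 21603) (nat_lit 0) [nat_lit 8481, nat_lit 23061, nat_lit 21117, nat_lit 21765, nat_lit 21585, nat_lit 21609, nat_lit 21601, nat_lit 1921] (nat_lit 0) [] false,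
   Spec.mk (nat_lit 21609) (nat_lit 2) [nat_lit 8487, nat_lit 23067, nat_lit 21123, nat_lit 21771, nat_lit 21591, nat_lit 21603, nat_lit 1927] (nat_lit 0) [] false,
   Spec.mk (nat_lit 21635) (nat_lit 2) [nat_lit 8513, nat_lit 23093, nat_lit 21473, nat_lit 21641, nat_lit 41317] (nat_lit 0) [] false,
   Spec.mk (nat_lit 21641) (nat_lit 1) [nat_lit 8519, nat_lit 23099, nat_lit 21479, nat_lit 21659, nat_lit 21635, nat_lit 21647, nat_lit 21643, nat_lit 41323] (nat_lit 0) [] false,
   Spec.mk (nat_lit 21643) (nat_lit 1) [nat_lit 8521, nat_lit 23101, nat_lit 21481, nat_lit 21661, nat_lit 21649, nat_lit 21641, nat_lit 41325, nat_lit 1961] (nat_lit 0) [] false,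
   Spec.mk (nat_lit 21647) (nat_lit 0) [nat_lit 8525, nat_lit 23105, nat_lit 21485, nat_lit 21665, nat_lit 21641, nat_lit 21649, nat_lit 41329] (nat_lit 2) [] false,
   Spec.mk (nat_lit 21649) (nat_lit 0) [nat_lit 8527, nat_lit 23107, nat_lit 21487, nat_lit 21667, nat_lit 21643, nat_lit 21647, nat_lit 21651, nat_lit 41331, nat_lit 1967] (nat_lit 0) [] false,
   Spec.mk (nat_lit 21651) (nat_lit 0) [nat_lit 8529, nat_lit 23109, nat_lit 21489, nat_lit 21669, nat_lit 21649, nat_lit 1969] (nat_lit 0) [] false,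
   Spec.mk (nat_lit 21659) (nat_lit 0) [nat_lit 8537, nat_lit 23117, nat_lit 21497, nat_lit 21713, nat_lit 21641, nat_lit 21665, nat_lit 21661, nat_lit 41341] (nat_lit 0) [] false,
   Spec.mk (nat_lit 21661) (nat_lit 0) [nat_lit 8539, nat_lit 23119, nat_lit 21499, nat_lit 21715, nat_lit 21643, nat_lit 21667, nat_lit 21659, nat_lit 41343, nat_lit 1979] (nat_lit 1) [] false,
   Spec.mk (nat_lit 21665) (nat_lit 0) [nat_lit 8543, nat_lit 23123, nat_lit 21503, nat_lit 21719, nat_lit 21647, nat_lit 21683, nat_lit 21659, nat_lit 21667, nat_lit 41347] (nat_lit 1) [] false,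
   Spec.mk (nat_lit 21667) (nat_lit 0) [nat_lit 8545, nat_lit 23125, nat_lit 21505, nat_lit 21721, nat_lit 21649, nat_lit 21685, nat_lit 21661, nat_lit 21673, nat_lit 21665, nat_lit 21669, nat_lit 41349, nat_lit 1985] (nat_lit 0) [] false,
   Spec.mk (nat_lit 21669) (nat_lit 0) [nat_lit 8547, nat_lit 23127, nat_lit 21507, nat_lit 21723, nat_lit 21651, nat_lit 21687, nat_lit 21675, nat_lit 21667, nat_lit 1987] (nat_lit 1) [] false,
   Spec.mk (nat_lit 21673) (nat_lit 0) [nat_lit 8551, nat_lit 23131, nat_lit 21511, nat_lit 21727, nat_lit 21691, nat_lit 21667, nat_lit 21675, nat_lit 41355, nat_lit 1991] (nat_lit 1) [] false,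
   Spec.mk (nat_lit 21675) (nat_lit 0) [nat_lit 8553, nat_lit 23133, nat_lit 21513, nat_lit 21729, nat_lit 21693, nat_lit 21669, nat_lit 21673, nat_lit 1993] (nat_lit 0) [] false,
   Spec.mk (nat_lit 21683) (nat_lit 0) [nat_lit 8561, nat_lit 23141, nat_lit 21521, nat_lit 21737, nat_lit 21665, nat_lit 21685, nat_lit 41365] (nat_lit 2) [] false,
   Spec.mk (nat_lit 21685) (nat_lit 0) [nat_lit 8563, nat_lit 23143, nat_lit 21523, nat_lit 21739, nat_lit 21667, nat_lit 21691, nat_lit 21683, nat_lit 21687, nat_lit 41367, nat_lit 2003] (nat_lit 2) [] false,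
   Spec.mk (nat_lit 21687) (nat_lit 0) [nat_lit 8565, nat_lit 23145, nat_lit 21525, nat_lit 21741, nat_lit 21669, nat_lit 21693, nat_lit 21685, nat_lit 2005] (nat_lit 4) [] false,
   Spec.mk (nat_lit 21691) (nat_lit 0) [nat_lit 8569, nat_lit 23149, nat_lit 21529, nat_lit 21745, nat_lit 21673, nat_lit 21685, nat_lit 21693, nat_lit 41373, nat_lit 2009] (nat_lit 1) [] false,
   Spec.mk (nat_lit 21693) (nat_lit 0) [nat_lit 8571, nat_lit 23151, nat_lit 21531, nat_lit 21747, nat_lit 21675, nat_lit 21687, nat_lit 21699, nat_lit 21691, nat_lit 2011] (nat_lit 1) [] false,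
   Spec.mk (nat_lit 21699) (nat_lit 0) [nat_lit 8577, nat_lit 23157, nat_lit 21537, nat_lit 21753, nat_lit 21693, nat_lit 2017] (nat_lit 0) [] false,
   Spec.mk (nat_lit 21713) (nat_lit 2) [nat_lit 8591, nat_lit 23171, nat_lit 21551, nat_lit 21659, nat_lit 21719, nat_lit 21715, nat_lit 41395] (nat_lit 0) [] false,
   Spec.mk (nat_lit 21715) (nat_lit 1) [nat_lit 8593, nat_lit 23173, nat_lit 21553, nat_lit 21661, nat_lit 21721, nat_lit 21713, nat_lit 41397, nat_lit 2033] (nat_lit 0) [] false,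
   Spec.mk (nat_lit 21719) (nat_lit 0) [nat_lit 8597, nat_lit 23177, nat_lit 21557, nat_lit 21665, nat_lit 21737, nat_lit 21713, nat_lit 21721, nat_lit 41401] (nat_lit 0) [] false,
   Spec.mk (nat_lit 21721) (nat_lit 1) [nat_lit 8599, nat_lit 23179, nat_lit 21559, nat_lit 21667, nat_lit 21739, nat_lit 21715, nat_lit 21727, nat_lit 21719, nat_lit 21723, nat_lit 41403, nat_lit 2039] (nat_lit 0) [] false,
   Spec.mk (nat_lit 21723) (nat_lit 0) [nat_lit 8601, nat_lit 23181, nat_lit 21561, nat_lit 21669, nat_lit 21741, nat_lit 21729, nat_lit 21721, nat_lit 2041] (nat_lit 0) [] false,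
   Spec.mk (nat_lit 21727) (nat_lit 0) [nat_lit 8605, nat_lit 23185, nat_lit 21565, nat_lit 21673, nat_lit 21745, nat_lit 21721, nat_lit 21729, nat_lit 41409, nat_lit 2045] (nat_lit 1) [] false,
   Spec.mk (nat_lit 21729) (nat_lit 0) [nat_lit 8607, nat_lit 23187, nat_lit 21567, nat_lit 21675, nat_lit 21747, nat_lit 21723, nat_lit 21727, nat_lit 2047] (nat_lit 0) [] false,
   Spec.mk (nat_lit 21737) (nat_lit 1) [nat_lit 8615, nat_lit 23195, nat_lit 21575, nat_lit 21683, nat_lit 21791, nat_lit 21719, nat_lit 21739, nat_lit 41419] (nat_lit 0) [] false,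
   Spec.mk (nat_lit 21739) (nat_lit 1) [nat_lit 8617, nat_lit 23197, nat_lit 21577, nat_lit 21685, nat_lit 21793, nat_lit 21721, nat_lit 21745, nat_lit 21737, nat_lit 21741, nat_lit 41421, nat_lit 2057] (nat_lit 0) [] false,
   Spec.mk (nat_lit 21741) (nat_lit 0) [nat_lit 8619, nat_lit 23199, nat_lit 21579, nat_lit 21687, nat_lit 21795, nat_lit 21723, nat_lit 21747, nat_lit 21739, nat_lit 2059] (nat_lit 1) [] false]

noncomputable def sp58 : List Spec :=
  [Spec.mk (nat_lit 21745) (nat_lit 1) [nat_lit 8623, nat_lit 23203, nat_lit 21583, nat_lit 21691, nat_lit 21799, nat_lit 21727, nat_lit 21763, nat_lit 21739, nat_lit 21747, nat_lit 41427, nat_lit 2063] (nat_lit 0) [] false,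
   Spec.mk (nat_lit 21747) (nat_lit 1) [nat_lit 8625, nat_lit 23205, nat_lit 21585, nat_lit 21693, nat_lit 21801, nat_lit 21729, nat_lit 21765, nat_lit 21741, nat_lit 21753, nat_lit 21745, nat_lit 2065] (nat_lit 0) [] false,
   Spec.mk (nat_lit 21753) (nat_lit 1) [nat_lit 8631, nat_lit 23211, nat_lit 21591, nat_lit 21699, nat_lit 21807, nat_lit 21771, nat_lit 21747, nat_lit 2071] (nat_lit 0) [] false,
   Spec.mk (nat_lit 21763) (nat_lit 1) [nat_lit 8641, nat_lit 23221, nat_lit 21601, nat_lit 21817, nat_lit 21745, nat_lit 21765, nat_lit 41445, nat_lit 2081] (nat_lit 0) [] false,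
   Spec.mk (nat_lit 21765) (nat_lit 0) [nat_lit 8643, nat_lit 23223, nat_lit 21603, nat_lit 21819, nat_lit 21747, nat_lit 21771, nat_lit 21763, nat_lit 2083] (nat_lit 0) [] false,
   Spec.mk (nat_lit 21771) (nat_lit 2) [nat_lit 8649, nat_lit 23229, nat_lit 21609, nat_lit 21825, nat_lit 21753, nat_lit 21765, nat_lit 2089] (nat_lit 0) [] false,
   Spec.mk (nat_lit 21791) (nat_lit 2) [nat_lit 8669, nat_lit 23249, nat_lit 21737, nat_lit 21793, nat_lit 41473] (nat_lit 0) [] false,
   Spec.mk (nat_lit 21793) (nat_lit 2) [nat_lit 8671, nat_lit 23251, nat_lit 21739, nat_lit 21799, nat_lit 21791, nat_lit 21795, nat_lit 41475, nat_lit 2111] (nat_lit 0) [] false,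
   Spec.mk (nat_lit 21795) (nat_lit 0) [nat_lit 8673, nat_lit 23253, nat_lit 21741, nat_lit 21801, nat_lit 21793, nat_lit 2113] (nat_lit 0) [] false,
   Spec.mk (nat_lit 21799) (nat_lit 1) [nat_lit 8677, nat_lit 23257, nat_lit 21745, nat_lit 21817, nat_lit 21793, nat_lit 21801, nat_lit 41481, nat_lit 2117] (nat_lit 0) [] false,
   Spec.mk (nat_lit 21801) (nat_lit 1) [nat_lit 8679, nat_lit 23259, nat_lit 21747, nat_lit 21819, nat_lit 21795, nat_lit 21807, nat_lit 21799, nat_lit 2119] (nat_lit 0) [] false,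
   Spec.mk (nat_lit 21807) (nat_lit 0) [nat_lit 8685, nat_lit 23265, nat_lit 21753, nat_lit 21825, nat_lit 21801, nat_lit 2125] (nat_lit 0) [] false,
   Spec.mk (nat_lit 21817) (nat_lit 3) [nat_lit 8695, nat_lit 23275, nat_lit 21763, nat_lit 21799, nat_lit 21819, nat_lit 41499, nat_lit 2135] (nat_lit 0) [] false,
   Spec.mk (nat_lit 21819) (nat_lit 2) [nat_lit 8697, nat_lit 23277, nat_lit 21765, nat_lit 21801, nat_lit 21825, nat_lit 21817, nat_lit 2137] (nat_lit 0) [] false,
   Spec.mk (nat_lit 21825) (nat_lit 3) [nat_lit 8703, nat_lit 23283, nat_lit 21771, nat_lit 21807, nat_lit 21843, nat_lit 21819, nat_lit 2143] (nat_lit 0) [] false,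
   Spec.mk (nat_lit 21843) (nat_lit 4) [nat_lit 8721, nat_lit 23301, nat_lit 21825, nat_lit 2161] (nat_lit 0) [] false,
   Spec.mk (nat_lit 21923) (nat_lit 4) [nat_lit 8801, nat_lit 26297, nat_lit 20465, nat_lit 21977, nat_lit 21941, nat_lit 41605] (nat_lit 0) [] false,
   Spec.mk (nat_lit 21941) (nat_lit 2) [nat_lit 8819, nat_lit 26315, nat_lit 20483, nat_lit 21995, nat_lit 21923, nat_lit 21947, nat_lit 41623] (nat_lit 0) [] false,
   Spec.mk (nat_lit 21947) (nat_lit 2) [nat_lit 8825, nat_lit 26321, nat_lit 20489, nat_lit 22001, nat_lit 21941, nat_lit 21949, nat_lit 41629] (nat_lit 0) [] false,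
   Spec.mk (nat_lit 21949) (nat_lit 3) [nat_lit 8827, nat_lit 26323, nat_lit 20491, nat_lit 22003, nat_lit 21947, nat_lit 41631, nat_lit 2267] (nat_lit 0) [] false,
   Spec.mk (nat_lit 21977) (nat_lit 2) [nat_lit 8855, nat_lit 26351, nat_lit 20519, nat_lit 22139, nat_lit 21923, nat_lit 21995, nat_lit 41659] (nat_lit 0) [] false,
   Spec.mk (nat_lit 21995) (nat_lit 2) [nat_lit 8873, nat_lit 26369, nat_lit 20537, nat_lit 22157, nat_lit 21941, nat_lit 22049, nat_lit 21977, nat_lit 22013, nat_lit 22001, nat_lit 41677] (nat_lit 0) [] false,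
   Spec.mk (nat_lit 22001) (nat_lit 1) [nat_lit 8879, nat_lit 26375, nat_lit 20543, nat_lit 22163, nat_lit 21947, nat_lit 22055, nat_lit 22019, nat_lit 21995, nat_lit 22003, nat_lit 41683] (nat_lit 0) [] false,
   Spec.mk (nat_lit 22003) (nat_lit 2) [nat_lit 8881, nat_lit 26377, nat_lit 20545, nat_lit 22165, nat_lit 21949, nat_lit 22057, nat_lit 22021, nat_lit 22001, nat_lit 41685, nat_lit 2321] (nat_lit 0) [] false,
   Spec.mk (nat_lit 22013) (nat_lit 0) [nat_lit 8891, nat_lit 26387, nat_lit 20555, nat_lit 22175, nat_lit 22067, nat_lit 21995, nat_lit 22019, nat_lit 41695] (nat_lit 0) [] false,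
   Spec.mk (nat_lit 22019) (nat_lit 1) [nat_lit 8897, nat_lit 26393, nat_lit 20561, nat_lit 22181, nat_lit 22073, nat_lit 22001, nat_lit 22013, nat_lit 22025, nat_lit 22021, nat_lit 41701] (nat_lit 0) [] false,
   Spec.mk (nat_lit 22021) (nat_lit 1) [nat_lit 8899, nat_lit 26395, nat_lit 20563, nat_lit 22183, nat_lit 22075, nat_lit 22003, nat_lit 22027, nat_lit 22019, nat_lit 41703, nat_lit 2339] (nat_lit 0) [] false,
   Spec.mk (nat_lit 22025) (nat_lit 0) [nat_lit 8903, nat_lit 26399, nat_lit 20567, nat_lit 22187, nat_lit 22079, nat_lit 22019, nat_lit 22027, nat_lit 41707] (nat_lit 0) [] false,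
   Spec.mk (nat_lit 22027) (nat_lit 2) [nat_lit 8905, nat_lit 26401, nat_lit 20569, nat_lit 22189, nat_lit 22081, nat_lit 22021, nat_lit 22025, nat_lit 22029, nat_lit 41709, nat_lit 2345] (nat_lit 0) [] false,
   Spec.mk (nat_lit 22029) (nat_lit 2) [nat_lit 8907, nat_lit 26403, nat_lit 20571, nat_lit 22191, nat_lit 22083, nat_lit 22027, nat_lit 2347] (nat_lit 0) [] false,
   Spec.mk (nat_lit 22049) (nat_lit 0) [nat_lit 8927, nat_lit 26423, nat_lit 20591, nat_lit 22211, nat_lit 21995, nat_lit 22067, nat_lit 22055, nat_lit 41731] (nat_lit 0) [] false,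
   Spec.mk (nat_lit 22055) (nat_lit 0) [nat_lit 8933, nat_lit 26429, nat_lit 20597, nat_lit 22217, nat_lit 22001, nat_lit 22073, nat_lit 22049, nat_lit 22057, nat_lit 41737] (nat_lit 2) [] false,
   Spec.mk (nat_lit 22057) (nat_lit 0) [nat_lit 8935, nat_lit 26431, nat_lit 20599, nat_lit 22219, nat_lit 22003, nat_lit 22075, nat_lit 22055, nat_lit 41739, nat_lit 2375] (nat_lit 1) [] false,
   Spec.mk (nat_lit 22067) (nat_lit 0) [nat_lit 8945, nat_lit 26441, nat_lit 20609, nat_lit 22229, nat_lit 22013, nat_lit 22049, nat_lit 22073, nat_lit 41749] (nat_lit 0) [] false,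
   Spec.mk (nat_lit 22073) (nat_lit 0) [nat_lit 8951, nat_lit 26447, nat_lit 20615, nat_lit 22235, nat_lit 22019, nat_lit 22055, nat_lit 22091, nat_lit 22067, nat_lit 22079, nat_lit 22075, nat_lit 41755] (nat_lit 0) [] false,
   Spec.mk (nat_lit 22075) (nat_lit 0) [nat_lit 8953, nat_lit 26449, nat_lit 20617, nat_lit 22237, nat_lit 22021, nat_lit 22057, nat_lit 22093, nat_lit 22081, nat_lit 22073, nat_lit 41757, nat_lit 2393] (nat_lit 0) [] false,
   Spec.mk (nat_lit 22079) (nat_lit 0) [nat_lit 8957, nat_lit 26453, nat_lit 20621, nat_lit 22241, nat_lit 22025, nat_lit 22097, nat_lit 22073, nat_lit 22081, nat_lit 41761] (nat_lit 2) [] false,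
   Spec.mk (nat_lit 22081) (nat_lit 0) [nat_lit 8959, nat_lit 26455, nat_lit 20623, nat_lit 22243, nat_lit 22027, nat_lit 22099, nat_lit 22075, nat_lit 22079, nat_lit 22083, nat_lit 41763, nat_lit 2399] (nat_lit 0) [] false,
   Spec.mk (nat_lit 22083) (nat_lit 0) [nat_lit 8961, nat_lit 26457, nat_lit 20625, nat_lit 22245, nat_lit 22029, nat_lit 22101, nat_lit 22081, nat_lit 2401] (nat_lit 0) [] false,
   Spec.mk (nat_lit 22091) (nat_lit 0) [nat_lit 8969, nat_lit 26465, nat_lit 20633, nat_lit 22253, nat_lit 22073, nat_lit 22097, nat_lit 22093, nat_lit 41773] (nat_lit 0) [] false,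
   Spec.mk (nat_lit 22093) (nat_lit 0) [nat_lit 8971, nat_lit 26467, nat_lit 20635, nat_lit 22255, nat_lit 22075, nat_lit 22099, nat_lit 22091, nat_lit 41775, nat_lit 2411] (nat_lit 1) [] false,
   Spec.mk (nat_lit 22097) (nat_lit 0) [nat_lit 8975, nat_lit 26471, nat_lit 20639, nat_lit 22259, nat_lit 22079, nat_lit 22091, nat_lit 22099, nat_lit 41779] (nat_lit 0) [] false,
   Spec.mk (nat_lit 22099) (nat_lit 1) [nat_lit 8977, nat_lit 26473, nat_lit 20641, nat_lit 22261, nat_lit 22081, nat_lit 22093, nat_lit 22105, nat_lit 22097, nat_lit 22101, nat_lit 41781, nat_lit 2417] (nat_lit 0) [] false,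
   Spec.mk (nat_lit 22101) (nat_lit 0) [nat_lit 8979, nat_lit 26475, nat_lit 20643, nat_lit 22263, nat_lit 22083, nat_lit 22107, nat_lit 22099, nat_lit 2419] (nat_lit 0) [] false,
   Spec.mk (nat_lit 22105) (nat_lit 1) [nat_lit 8983, nat_lit 26479, nat_lit 20647, nat_lit 22267, nat_lit 22099, nat_lit 22107, nat_lit 41787, nat_lit 2423] (nat_lit 0) [] false,
   Spec.mk (nat_lit 22107) (nat_lit 2) [nat_lit 8985, nat_lit 26481, nat_lit 20649, nat_lit 22269, nat_lit 22101, nat_lit 22105, nat_lit 2425] (nat_lit 0) [] false,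
   Spec.mk (nat_lit 22139) (nat_lit 2) [nat_lit 9017, nat_lit 26513, nat_lit 20681, nat_lit 22625, nat_lit 21977, nat_lit 22157, nat_lit 41821] (nat_lit 0) [] false,
   Spec.mk (nat_lit 22157) (nat_lit 1) [nat_lit 9035, nat_lit 26531, nat_lit 20699, nat_lit 22643, nat_lit 21995, nat_lit 22211, nat_lit 22139, nat_lit 22175, nat_lit 22163, nat_lit 41839] (nat_lit 0) [] false,
   Spec.mk (nat_lit 22163) (nat_lit 0) [nat_lit 9041, nat_lit 26537, nat_lit 20705, nat_lit 22649, nat_lit 22001, nat_lit 22217, nat_lit 22181, nat_lit 22157, nat_lit 22165, nat_lit 41845] (nat_lit 0) [] false,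
   Spec.mk (nat_lit 22165) (nat_lit 1) [nat_lit 9043, nat_lit 26539, nat_lit 20707, nat_lit 22651, nat_lit 22003, nat_lit 22219, nat_lit 22183, nat_lit 22163, nat_lit 41847, nat_lit 2483] (nat_lit 0) [] false,
   Spec.mk (nat_lit 22175) (nat_lit 0) [nat_lit 9053, nat_lit 26549, nat_lit 20717, nat_lit 22661, nat_lit 22013, nat_lit 22229, nat_lit 22157, nat_lit 22181, nat_lit 41857] (nat_lit 2) [] false,
   Spec.mk (nat_lit 22181) (nat_lit 0) [nat_lit 9059, nat_lit 26555, nat_lit 20723, nat_lit 22667, nat_lit 22019, nat_lit 22235, nat_lit 22163, nat_lit 22175, nat_lit 22187, nat_lit 22183, nat_lit 41863] (nat_lit 1) [] false,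
   Spec.mk (nat_lit 22183) (nat_lit 0) [nat_lit 9061, nat_lit 26557, nat_lit 20725, nat_lit 22669, nat_lit 22021, nat_lit 22237, nat_lit 22165, nat_lit 22189, nat_lit 22181, nat_lit 41865, nat_lit 2501] (nat_lit 1) [] false,
   Spec.mk (nat_lit 22187) (nat_lit 0) [nat_lit 9065, nat_lit 26561, nat_lit 20729, nat_lit 22673, nat_lit 22025, nat_lit 22241, nat_lit 22181, nat_lit 22189, nat_lit 41869] (nat_lit 2) [] false,
   Spec.mk (nat_lit 22189) (nat_lit 0) [nat_lit 9067, nat_lit 26563, nat_lit 20731, nat_lit 22675, nat_lit 22027, nat_lit 22243, nat_lit 22183, nat_lit 22187, nat_lit 22191, nat_lit 41871, nat_lit 2507] (nat_lit 0) [] false,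
   Spec.mk (nat_lit 22191) (nat_lit 0) [nat_lit 9069, nat_lit 26565, nat_lit 20733, nat_lit 22677, nat_lit 22029, nat_lit 22245, nat_lit 22189, nat_lit 2509] (nat_lit 0) [] false,
   Spec.mk (nat_lit 22211) (nat_lit 1) [nat_lit 9089, nat_lit 26585, nat_lit 20753, nat_lit 22697, nat_lit 22049, nat_lit 22373, nat_lit 22157, nat_lit 22229, nat_lit 22217, nat_lit 41893] (nat_lit 0) [] false,
   Spec.mk (nat_lit 22217) (nat_lit 0) [nat_lit 9095, nat_lit 26591, nat_lit 20759, nat_lit 22703, nat_lit 22055, nat_lit 22379, nat_lit 22163, nat_lit 22235, nat_lit 22211, nat_lit 22219, nat_lit 41899] (nat_lit 1) [] false,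
   Spec.mk (nat_lit 22219) (nat_lit 0) [nat_lit 9097, nat_lit 26593, nat_lit 20761, nat_lit 22705, nat_lit 22057, nat_lit 22381, nat_lit 22165, nat_lit 22237, nat_lit 22217, nat_lit 41901, nat_lit 2537] (nat_lit 0) [] false,
   Spec.mk (nat_lit 22229) (nat_lit 0) [nat_lit 9107, nat_lit 26603, nat_lit 20771, nat_lit 22715, nat_lit 22067, nat_lit 22391, nat_lit 22175, nat_lit 22283, nat_lit 22211, nat_lit 22235, nat_lit 41911] (nat_lit 0) [] false]

noncomputable def sp59 : List Spec :=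
  [Spec.mk (nat_lit 22235) (nat_lit 0) [nat_lit 9113, nat_lit 26609, nat_lit 20777, nat_lit 22721, nat_lit 22073, nat_lit 22397, nat_lit 22181, nat_lit 22289, nat_lit 22217, nat_lit 22253, nat_lit 22229, nat_lit 22241, nat_lit 22237, nat_lit 41917] (nat_lit 0) [] false,
   Spec.mk (nat_lit 22237) (nat_lit 0) [nat_lit 9115, nat_lit 26611, nat_lit 20779, nat_lit 22723, nat_lit 22075, nat_lit 22399, nat_lit 22183, nat_lit 22291, nat_lit 22219, nat_lit 22255, nat_lit 22243, nat_lit 22235, nat_lit 41919, nat_lit 2555] (nat_lit 0) [] false,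
   Spec.mk (nat_lit 22241) (nat_lit 0) [nat_lit 9119, nat_lit 26615, nat_lit 20783, nat_lit 22727, nat_lit 22079, nat_lit 22403, nat_lit 22187, nat_lit 22295, nat_lit 22259, nat_lit 22235, nat_lit 22243, nat_lit 41923] (nat_lit 2) [] false,
   Spec.mk (nat_lit 22243) (nat_lit 0) [nat_lit 9121, nat_lit 26617, nat_lit 20785, nat_lit 22729, nat_lit 22081, nat_lit 22405, nat_lit 22189, nat_lit 22297, nat_lit 22261, nat_lit 22237, nat_lit 22241, nat_lit 22245, nat_lit 41925, nat_lit 2561] (nat_lit 0) [] false,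
   Spec.mk (nat_lit 22245) (nat_lit 0) [nat_lit 9123, nat_lit 26619, nat_lit 20787, nat_lit 22731, nat_lit 22083, nat_lit 22407, nat_lit 22191, nat_lit 22299, nat_lit 22263, nat_lit 22243, nat_lit 2563] (nat_lit 0) [] false,
   Spec.mk (nat_lit 22253) (nat_lit 0) [nat_lit 9131, nat_lit 26627, nat_lit 20795, nat_lit 22739, nat_lit 22091, nat_lit 22415, nat_lit 22307, nat_lit 22235, nat_lit 22259, nat_lit 22255, nat_lit 41935] (nat_lit 1) [] false,
   Spec.mk (nat_lit 22255) (nat_lit 0) [nat_lit 9133, nat_lit 26629, nat_lit 20797, nat_lit 22741, nat_lit 22093, nat_lit 22417, nat_lit 22309, nat_lit 22237, nat_lit 22261, nat_lit 22253, nat_lit 41937, nat_lit 2573] (nat_lit 2) [] false,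
   Spec.mk (nat_lit 22259) (nat_lit 0) [nat_lit 9137, nat_lit 26633, nat_lit 20801, nat_lit 22745, nat_lit 22097, nat_lit 22421, nat_lit 22313, nat_lit 22241, nat_lit 22253, nat_lit 22261, nat_lit 41941] (nat_lit 1) [] false,
   Spec.mk (nat_lit 22261) (nat_lit 0) [nat_lit 9139, nat_lit 26635, nat_lit 20803, nat_lit 22747, nat_lit 22099, nat_lit 22423, nat_lit 22315, nat_lit 22243, nat_lit 22255, nat_lit 22267, nat_lit 22259, nat_lit 22263, nat_lit 41943, nat_lit 2579] (nat_lit 0) [] false,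
   Spec.mk (nat_lit 22263) (nat_lit 0) [nat_lit 9141, nat_lit 26637, nat_lit 20805, nat_lit 22749, nat_lit 22101, nat_lit 22425, nat_lit 22317, nat_lit 22245, nat_lit 22269, nat_lit 22261, nat_lit 2581] (nat_lit 1) [] false,
   Spec.mk (nat_lit 22267) (nat_lit 0) [nat_lit 9145, nat_lit 26641, nat_lit 20809, nat_lit 22753, nat_lit 22105, nat_lit 22429, nat_lit 22321, nat_lit 22261, nat_lit 22269, nat_lit 41949, nat_lit 2585] (nat_lit 0) [] false,
   Spec.mk (nat_lit 22269) (nat_lit 1) [nat_lit 9147, nat_lit 26643, nat_lit 20811, nat_lit 22755, nat_lit 22107, nat_lit 22431, nat_lit 22323, nat_lit 22263, nat_lit 22267, nat_lit 2587] (nat_lit 0) [] false,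
   Spec.mk (nat_lit 22283) (nat_lit 0) [nat_lit 9161, nat_lit 26657, nat_lit 20825, nat_lit 22769, nat_lit 22445, nat_lit 22229, nat_lit 22289, nat_lit 41965] (nat_lit 0) [] false,
   Spec.mk (nat_lit 22289) (nat_lit 0) [nat_lit 9167, nat_lit 26663, nat_lit 20831, nat_lit 22775, nat_lit 22451, nat_lit 22235, nat_lit 22307, nat_lit 22283, nat_lit 22295, nat_lit 22291, nat_lit 41971] (nat_lit 1) [] false,
   Spec.mk (nat_lit 22291) (nat_lit 0) [nat_lit 9169, nat_lit 26665, nat_lit 20833, nat_lit 22777, nat_lit 22453, nat_lit 22237, nat_lit 22309, nat_lit 22297, nat_lit 22289, nat_lit 41973, nat_lit 2609] (nat_lit 1) [] false,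
   Spec.mk (nat_lit 22295) (nat_lit 0) [nat_lit 9173, nat_lit 26669, nat_lit 20837, nat_lit 22781, nat_lit 22457, nat_lit 22241, nat_lit 22313, nat_lit 22289, nat_lit 22297, nat_lit 41977] (nat_lit 4) [] false,
   Spec.mk (nat_lit 22297) (nat_lit 0) [nat_lit 9175, nat_lit 26671, nat_lit 20839, nat_lit 22783, nat_lit 22459, nat_lit 22243, nat_lit 22315, nat_lit 22291, nat_lit 22295, nat_lit 22299, nat_lit 41979, nat_lit 2615] (nat_lit 2) [] false,
   Spec.mk (nat_lit 22299) (nat_lit 0) [nat_lit 9177, nat_lit 26673, nat_lit 20841, nat_lit 22785, nat_lit 22461, nat_lit 22245, nat_lit 22317, nat_lit 22297, nat_lit 2617] (nat_lit 2) [] false,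
   Spec.mk (nat_lit 22307) (nat_lit 0) [nat_lit 9185, nat_lit 26681, nat_lit 20849, nat_lit 22793, nat_lit 22469, nat_lit 22253, nat_lit 22289, nat_lit 22313, nat_lit 22309, nat_lit 41989] (nat_lit 0) [] false,
   Spec.mk (nat_lit 22309) (nat_lit 0) [nat_lit 9187, nat_lit 26683, nat_lit 20851, nat_lit 22795, nat_lit 22471, nat_lit 22255, nat_lit 22291, nat_lit 22315, nat_lit 22307, nat_lit 41991, nat_lit 2627] (nat_lit 1) [] false,
   Spec.mk (nat_lit 22313) (nat_lit 0) [nat_lit 9191, nat_lit 26687, nat_lit 20855, nat_lit 22799, nat_lit 22475, nat_lit 22259, nat_lit 22295, nat_lit 22331, nat_lit 22307, nat_lit 22315, nat_lit 41995] (nat_lit 1) [] false,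
   Spec.mk (nat_lit 22315) (nat_lit 0) [nat_lit 9193, nat_lit 26689, nat_lit 20857, nat_lit 22801, nat_lit 22477, nat_lit 22261, nat_lit 22297, nat_lit 22333, nat_lit 22309, nat_lit 22321, nat_lit 22313, nat_lit 22317, nat_lit 41997, nat_lit 2633] (nat_lit 0) [] false,
   Spec.mk (nat_lit 22317) (nat_lit 0) [nat_lit 9195, nat_lit 26691, nat_lit 20859, nat_lit 22803, nat_lit 22479, nat_lit 22263, nat_lit 22299, nat_lit 22335, nat_lit 22323, nat_lit 22315, nat_lit 2635] (nat_lit 1) [] false,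
   Spec.mk (nat_lit 22321) (nat_lit 0) [nat_lit 9199, nat_lit 26695, nat_lit 20863, nat_lit 22807, nat_lit 22483, nat_lit 22267, nat_lit 22339, nat_lit 22315, nat_lit 22323, nat_lit 42003, nat_lit 2639] (nat_lit 1) [] false,
   Spec.mk (nat_lit 22323) (nat_lit 0) [nat_lit 9201, nat_lit 26697, nat_lit 20865, nat_lit 22809, nat_lit 22485, nat_lit 22269, nat_lit 22341, nat_lit 22317, nat_lit 22321, nat_lit 2641] (nat_lit 0) [] false,
   Spec.mk (nat_lit 22331) (nat_lit 0) [nat_lit 9209, nat_lit 26705, nat_lit 20873, nat_lit 22817, nat_lit 22493, nat_lit 22313, nat_lit 22333, nat_lit 42013] (nat_lit 0) [] false,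
   Spec.mk (nat_lit 22333) (nat_lit 0) [nat_lit 9211, nat_lit 26707, nat_lit 20875, nat_lit 22819, nat_lit 22495, nat_lit 22315, nat_lit 22339, nat_lit 22331, nat_lit 22335, nat_lit 42015, nat_lit 2651] (nat_lit 0) [] false,
   Spec.mk (nat_lit 22335) (nat_lit 0) [nat_lit 9213, nat_lit 26709, nat_lit 20877, nat_lit 22821, nat_lit 22497, nat_lit 22317, nat_lit 22341, nat_lit 22333, nat_lit 2653] (nat_lit 2) [] false,
   Spec.mk (nat_lit 22339) (nat_lit 1) [nat_lit 9217, nat_lit 26713, nat_lit 20881, nat_lit 22825, nat_lit 22501, nat_lit 22321, nat_lit 22333, nat_lit 22341, nat_lit 42021, nat_lit 2657] (nat_lit 0) [] false,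
   Spec.mk (nat_lit 22341) (nat_lit 1) [nat_lit 9219, nat_lit 26715, nat_lit 20883, nat_lit 22827, nat_lit 22503, nat_lit 22323, nat_lit 22335, nat_lit 22347, nat_lit 22339, nat_lit 2659] (nat_lit 0) [] false,
   Spec.mk (nat_lit 22347) (nat_lit 2) [nat_lit 9225, nat_lit 26721, nat_lit 20889, nat_lit 22833, nat_lit 22509, nat_lit 22341, nat_lit 2665] (nat_lit 0) [] false,
   Spec.mk (nat_lit 22373) (nat_lit 0) [nat_lit 9251, nat_lit 26747, nat_lit 20915, nat_lit 22859, nat_lit 22211, nat_lit 22391, nat_lit 22379, nat_lit 42055] (nat_lit 0) [] false,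
   Spec.mk (nat_lit 22379) (nat_lit 0) [nat_lit 9257, nat_lit 26753, nat_lit 20921, nat_lit 22865, nat_lit 22217, nat_lit 22397, nat_lit 22373, nat_lit 22381, nat_lit 42061] (nat_lit 2) [] false,
   Spec.mk (nat_lit 22381) (nat_lit 0) [nat_lit 9259, nat_lit 26755, nat_lit 20923, nat_lit 22867, nat_lit 22219, nat_lit 22399, nat_lit 22379, nat_lit 42063, nat_lit 2699] (nat_lit 1) [] false,
   Spec.mk (nat_lit 22391) (nat_lit 0) [nat_lit 9269, nat_lit 26765, nat_lit 20933, nat_lit 22877, nat_lit 22229, nat_lit 22445, nat_lit 22373, nat_lit 22397, nat_lit 42073] (nat_lit 2) [] false,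
   Spec.mk (nat_lit 22397) (nat_lit 0) [nat_lit 9275, nat_lit 26771, nat_lit 20939, nat_lit 22883, nat_lit 22235, nat_lit 22451, nat_lit 22379, nat_lit 22415, nat_lit 22391, nat_lit 22403, nat_lit 22399, nat_lit 42079] (nat_lit 2) [] false,
   Spec.mk (nat_lit 22399) (nat_lit 0) [nat_lit 9277, nat_lit 26773, nat_lit 20941, nat_lit 22885, nat_lit 22237, nat_lit 22453, nat_lit 22381, nat_lit 22417, nat_lit 22405, nat_lit 22397, nat_lit 42081, nat_lit 2717] (nat_lit 2) [] false,
   Spec.mk (nat_lit 22403) (nat_lit 0) [nat_lit 9281, nat_lit 26777, nat_lit 20945, nat_lit 22889, nat_lit 22241, nat_lit 22457, nat_lit 22421, nat_lit 22397, nat_lit 22405, nat_lit 42085] (nat_lit 4) [] false,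
   Spec.mk (nat_lit 22405) (nat_lit 0) [nat_lit 9283, nat_lit 26779, nat_lit 20947, nat_lit 22891, nat_lit 22243, nat_lit 22459, nat_lit 22423, nat_lit 22399, nat_lit 22403, nat_lit 22407, nat_lit 42087, nat_lit 2723] (nat_lit 2) [] false,
   Spec.mk (nat_lit 22407) (nat_lit 0) [nat_lit 9285, nat_lit 26781, nat_lit 20949, nat_lit 22893, nat_lit 22245, nat_lit 22461, nat_lit 22425, nat_lit 22405, nat_lit 2725] (nat_lit 2) [] false,
   Spec.mk (nat_lit 22415) (nat_lit 0) [nat_lit 9293, nat_lit 26789, nat_lit 20957, nat_lit 22901, nat_lit 22253, nat_lit 22469, nat_lit 22397, nat_lit 22421, nat_lit 22417, nat_lit 42097] (nat_lit 4) [] false,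
   Spec.mk (nat_lit 22417) (nat_lit 0) [nat_lit 9295, nat_lit 26791, nat_lit 20959, nat_lit 22903, nat_lit 22255, nat_lit 22471, nat_lit 22399, nat_lit 22423, nat_lit 22415, nat_lit 42099, nat_lit 2735] (nat_lit 5) [] false,
   Spec.mk (nat_lit 22421) (nat_lit 0) [nat_lit 9299, nat_lit 26795, nat_lit 20963, nat_lit 22907, nat_lit 22259, nat_lit 22475, nat_lit 22403, nat_lit 22415, nat_lit 22423, nat_lit 42103] (nat_lit 4) [] false,
   Spec.mk (nat_lit 22423) (nat_lit 0) [nat_lit 9301, nat_lit 26797, nat_lit 20965, nat_lit 22909, nat_lit 22261, nat_lit 22477, nat_lit 22405, nat_lit 22417, nat_lit 22429, nat_lit 22421, nat_lit 22425, nat_lit 42105, nat_lit 2741] (nat_lit 3) [] false,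
   Spec.mk (nat_lit 22425) (nat_lit 0) [nat_lit 9303, nat_lit 26799, nat_lit 20967, nat_lit 22911, nat_lit 22263, nat_lit 22479, nat_lit 22407, nat_lit 22431, nat_lit 22423, nat_lit 2743] (nat_lit 4) [] false,
   Spec.mk (nat_lit 22429) (nat_lit 0) [nat_lit 9307, nat_lit 26803, nat_lit 20971, nat_lit 22915, nat_lit 22267, nat_lit 22483, nat_lit 22423, nat_lit 22431, nat_lit 42111, nat_lit 2747] (nat_lit 3) [] false,
   Spec.mk (nat_lit 22431) (nat_lit 0) [nat_lit 9309, nat_lit 26805, nat_lit 20973, nat_lit 22917, nat_lit 22269, nat_lit 22485, nat_lit 22425, nat_lit 22429, nat_lit 2749] (nat_lit 2) [] false,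
   Spec.mk (nat_lit 22445) (nat_lit 0) [nat_lit 9323, nat_lit 26819, nat_lit 20987, nat_lit 22931, nat_lit 22283, nat_lit 22391, nat_lit 22451, nat_lit 42127] (nat_lit 0) [] false,
   Spec.mk (nat_lit 22451) (nat_lit 0) [nat_lit 9329, nat_lit 26825, nat_lit 20993, nat_lit 22937, nat_lit 22289, nat_lit 22397, nat_lit 22469, nat_lit 22445, nat_lit 22457, nat_lit 22453, nat_lit 42133] (nat_lit 1) [] false,
   Spec.mk (nat_lit 22453) (nat_lit 0) [nat_lit 9331, nat_lit 26827, nat_lit 20995, nat_lit 22939, nat_lit 22291, nat_lit 22399, nat_lit 22471, nat_lit 22459, nat_lit 22451, nat_lit 42135, nat_lit 2771] (nat_lit 1) [] false,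
   Spec.mk (nat_lit 22457) (nat_lit 0) [nat_lit 9335, nat_lit 26831, nat_lit 20999, nat_lit 22943, nat_lit 22295, nat_lit 22403, nat_lit 22475, nat_lit 22451, nat_lit 22459, nat_lit 42139] (nat_lit 4) [] false,
   Spec.mk (nat_lit 22459) (nat_lit 0) [nat_lit 9337, nat_lit 26833, nat_lit 21001, nat_lit 22945, nat_lit 22297, nat_lit 22405, nat_lit 22477, nat_lit 22453, nat_lit 22457, nat_lit 22461, nat_lit 42141, nat_lit 2777] (nat_lit 2) [] false,
   Spec.mk (nat_lit 22461) (nat_lit 0) [nat_lit 9339, nat_lit 26835, nat_lit 21003, nat_lit 22947, nat_lit 22299, nat_lit 22407, nat_lit 22479, nat_lit 22459, nat_lit 2779] (nat_lit 2) [] false,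
   Spec.mk (nat_lit 22469) (nat_lit 0) [nat_lit 9347, nat_lit 26843, nat_lit 21011, nat_lit 22955, nat_lit 22307, nat_lit 22415, nat_lit 22523, nat_lit 22451, nat_lit 22475, nat_lit 22471, nat_lit 42151] (nat_lit 1) [] false,
   Spec.mk (nat_lit 22471) (nat_lit 0) [nat_lit 9349, nat_lit 26845, nat_lit 21013, nat_lit 22957, nat_lit 22309, nat_lit 22417, nat_lit 22525, nat_lit 22453, nat_lit 22477, nat_lit 22469, nat_lit 42153, nat_lit 2789] (nat_lit 2) [] false,
   Spec.mk (nat_lit 22475) (nat_lit 0) [nat_lit 9353, nat_lit 26849, nat_lit 21017, nat_lit 22961, nat_lit 22313, nat_lit 22421, nat_lit 22529, nat_lit 22457, nat_lit 22493, nat_lit 22469, nat_lit 22477, nat_lit 42157] (nat_lit 2) [] false,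
   Spec.mk (nat_lit 22477) (nat_lit 0) [nat_lit 9355, nat_lit 26851, nat_lit 21019, nat_lit 22963, nat_lit 22315, nat_lit 22423, nat_lit 22531, nat_lit 22459, nat_lit 22495, nat_lit 22471, nat_lit 22483, nat_lit 22475, nat_lit 22479, nat_lit 42159, nat_lit 2795] (nat_lit 1) [] false,
   Spec.mk (nat_lit 22479) (nat_lit 0) [nat_lit 9357, nat_lit 26853, nat_lit 21021, nat_lit 22965, nat_lit 22317, nat_lit 22425, nat_lit 22533, nat_lit 22461, nat_lit 22497, nat_lit 22485, nat_lit 22477, nat_lit 2797] (nat_lit 2) [] false,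
   Spec.mk (nat_lit 22483) (nat_lit 0) [nat_lit 9361, nat_lit 26857, nat_lit 21025, nat_lit 22969, nat_lit 22321, nat_lit 22429, nat_lit 22537, nat_lit 22501, nat_lit 22477, nat_lit 22485, nat_lit 42165, nat_lit 2801] (nat_lit 2) [] false,
   Spec.mk (nat_lit 22485) (nat_lit 0) [nat_lit 9363, nat_lit 26859, nat_lit 21027, nat_lit 22971, nat_lit 22323, nat_lit 22431, nat_lit 22539, nat_lit 22503, nat_lit 22479, nat_lit 22483, nat_lit 2803] (nat_lit 1) [] false]

noncomputable def sp60 : List Spec :=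
  [Spec.mk (nat_lit 22493) (nat_lit 0) [nat_lit 9371, nat_lit 26867, nat_lit 21035, nat_lit 22979, nat_lit 22331, nat_lit 22547, nat_lit 22475, nat_lit 22495, nat_lit 42175] (nat_lit 2) [] false,
   Spec.mk (nat_lit 22495) (nat_lit 0) [nat_lit 9373, nat_lit 26869, nat_lit 21037, nat_lit 22981, nat_lit 22333, nat_lit 22549, nat_lit 22477, nat_lit 22501, nat_lit 22493, nat_lit 22497, nat_lit 42177, nat_lit 2813] (nat_lit 2) [] false,
   Spec.mk (nat_lit 22497) (nat_lit 0) [nat_lit 9375, nat_lit 26871, nat_lit 21039, nat_lit 22983, nat_lit 22335, nat_lit 22551, nat_lit 22479, nat_lit 22503, nat_lit 22495, nat_lit 2815] (nat_lit 4) [] false,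
   Spec.mk (nat_lit 22501) (nat_lit 0) [nat_lit 9379, nat_lit 26875, nat_lit 21043, nat_lit 22987, nat_lit 22339, nat_lit 22555, nat_lit 22483, nat_lit 22495, nat_lit 22503, nat_lit 42183, nat_lit 2819] (nat_lit 1) [] false,
   Spec.mk (nat_lit 22503) (nat_lit 0) [nat_lit 9381, nat_lit 26877, nat_lit 21045, nat_lit 22989, nat_lit 22341, nat_lit 22557, nat_lit 22485, nat_lit 22497, nat_lit 22509, nat_lit 22501, nat_lit 2821] (nat_lit 1) [] false,
   Spec.mk (nat_lit 22509) (nat_lit 0) [nat_lit 9387, nat_lit 26883, nat_lit 21051, nat_lit 22995, nat_lit 22347, nat_lit 22563, nat_lit 22503, nat_lit 2827] (nat_lit 0) [] false,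
   Spec.mk (nat_lit 22523) (nat_lit 0) [nat_lit 9401, nat_lit 26897, nat_lit 21065, nat_lit 23009, nat_lit 22469, nat_lit 22529, nat_lit 22525, nat_lit 42205] (nat_lit 0) [] false,
   Spec.mk (nat_lit 22525) (nat_lit 0) [nat_lit 9403, nat_lit 26899, nat_lit 21067, nat_lit 23011, nat_lit 22471, nat_lit 22531, nat_lit 22523, nat_lit 42207, nat_lit 2843] (nat_lit 1) [] false,
   Spec.mk (nat_lit 22529) (nat_lit 0) [nat_lit 9407, nat_lit 26903, nat_lit 21071, nat_lit 23015, nat_lit 22475, nat_lit 22547, nat_lit 22523, nat_lit 22531, nat_lit 42211] (nat_lit 2) [] false,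
   Spec.mk (nat_lit 22531) (nat_lit 0) [nat_lit 9409, nat_lit 26905, nat_lit 21073, nat_lit 23017, nat_lit 22477, nat_lit 22549, nat_lit 22525, nat_lit 22537, nat_lit 22529, nat_lit 22533, nat_lit 42213, nat_lit 2849] (nat_lit 1) [] false,
   Spec.mk (nat_lit 22533) (nat_lit 0) [nat_lit 9411, nat_lit 26907, nat_lit 21075, nat_lit 23019, nat_lit 22479, nat_lit 22551, nat_lit 22539, nat_lit 22531, nat_lit 2851] (nat_lit 2) [] false,
   Spec.mk (nat_lit 22537) (nat_lit 0) [nat_lit 9415, nat_lit 26911, nat_lit 21079, nat_lit 23023, nat_lit 22483, nat_lit 22555, nat_lit 22531, nat_lit 22539, nat_lit 42219, nat_lit 2855] (nat_lit 3) [] false,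
   Spec.mk (nat_lit 22539) (nat_lit 0) [nat_lit 9417, nat_lit 26913, nat_lit 21081, nat_lit 23025, nat_lit 22485, nat_lit 22557, nat_lit 22533, nat_lit 22537, nat_lit 2857] (nat_lit 2) [] false,
   Spec.mk (nat_lit 22547) (nat_lit 0) [nat_lit 9425, nat_lit 26921, nat_lit 21089, nat_lit 23033, nat_lit 22493, nat_lit 22529, nat_lit 22549, nat_lit 42229] (nat_lit 0) [] false,
   Spec.mk (nat_lit 22549) (nat_lit 0) [nat_lit 9427, nat_lit 26923, nat_lit 21091, nat_lit 23035, nat_lit 22495, nat_lit 22531, nat_lit 22555, nat_lit 22547, nat_lit 22551, nat_lit 42231, nat_lit 2867] (nat_lit 0) [] false,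
   Spec.mk (nat_lit 22551) (nat_lit 0) [nat_lit 9429, nat_lit 26925, nat_lit 21093, nat_lit 23037, nat_lit 22497, nat_lit 22533, nat_lit 22557, nat_lit 22549, nat_lit 2869] (nat_lit 2) [] false,
   Spec.mk (nat_lit 22555) (nat_lit 0) [nat_lit 9433, nat_lit 26929, nat_lit 21097, nat_lit 23041, nat_lit 22501, nat_lit 22537, nat_lit 22573, nat_lit 22549, nat_lit 22557, nat_lit 42237, nat_lit 2873] (nat_lit 0) [] false,
   Spec.mk (nat_lit 22557) (nat_lit 0) [nat_lit 9435, nat_lit 26931, nat_lit 21099, nat_lit 23043, nat_lit 22503, nat_lit 22539, nat_lit 22575, nat_lit 22551, nat_lit 22563, nat_lit 22555, nat_lit 2875] (nat_lit 0) [] false,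
   Spec.mk (nat_lit 22563) (nat_lit 0) [nat_lit 9441, nat_lit 26937, nat_lit 21105, nat_lit 23049, nat_lit 22509, nat_lit 22581, nat_lit 22557, nat_lit 2881] (nat_lit 0) [] false,
   Spec.mk (nat_lit 22573) (nat_lit 1) [nat_lit 9451, nat_lit 26947, nat_lit 21115, nat_lit 23059, nat_lit 22555, nat_lit 22575, nat_lit 42255, nat_lit 2891] (nat_lit 0) [] false,
   Spec.mk (nat_lit 22575) (nat_lit 0) [nat_lit 9453, nat_lit 26949, nat_lit 21117, nat_lit 23061, nat_lit 22557, nat_lit 22581, nat_lit 22573, nat_lit 2893] (nat_lit 0) [] false,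
   Spec.mk (nat_lit 22581) (nat_lit 2) [nat_lit 9459, nat_lit 26955, nat_lit 21123, nat_lit 23067, nat_lit 22563, nat_lit 22575, nat_lit 2899] (nat_lit 0) [] false,
   Spec.mk (nat_lit 22625) (nat_lit 3) [nat_lit 9503, nat_lit 26999, nat_lit 21167, nat_lit 24083, nat_lit 22139, nat_lit 22643, nat_lit 42307] (nat_lit 0) [] false,
   Spec.mk (nat_lit 22643) (nat_lit 2) [nat_lit 9521, nat_lit 27017, nat_lit 21185, nat_lit 24101, nat_lit 22157, nat_lit 22697, nat_lit 22625, nat_lit 22661, nat_lit 22649, nat_lit 42325] (nat_lit 0) [] false,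
   Spec.mk (nat_lit 22649) (nat_lit 1) [nat_lit 9527, nat_lit 27023, nat_lit 21191, nat_lit 24107, nat_lit 22163, nat_lit 22703, nat_lit 22667, nat_lit 22643, nat_lit 22651, nat_lit 42331] (nat_lit 0) [] false,
   Spec.mk (nat_lit 22651) (nat_lit 2) [nat_lit 9529, nat_lit 27025, nat_lit 21193, nat_lit 24109, nat_lit 22165, nat_lit 22705, nat_lit 22669, nat_lit 22649, nat_lit 42333, nat_lit 2969] (nat_lit 0) [] false,
   Spec.mk (nat_lit 22661) (nat_lit 0) [nat_lit 9539, nat_lit 27035, nat_lit 21203, nat_lit 24119, nat_lit 22175, nat_lit 22715, nat_lit 22643, nat_lit 22667, nat_lit 42343] (nat_lit 1) [] false,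
   Spec.mk (nat_lit 22667) (nat_lit 0) [nat_lit 9545, nat_lit 27041, nat_lit 21209, nat_lit 24125, nat_lit 22181, nat_lit 22721, nat_lit 22649, nat_lit 22661, nat_lit 22673, nat_lit 22669, nat_lit 42349] (nat_lit 0) [] false,
   Spec.mk (nat_lit 22669) (nat_lit 0) [nat_lit 9547, nat_lit 27043, nat_lit 21211, nat_lit 24127, nat_lit 22183, nat_lit 22723, nat_lit 22651, nat_lit 22675, nat_lit 22667, nat_lit 42351, nat_lit 2987] (nat_lit 0) [] false,
   Spec.mk (nat_lit 22673) (nat_lit 0) [nat_lit 9551, nat_lit 27047, nat_lit 21215, nat_lit 24131, nat_lit 22187, nat_lit 22727, nat_lit 22667, nat_lit 22675, nat_lit 42355] (nat_lit 1) [] false,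
   Spec.mk (nat_lit 22675) (nat_lit 1) [nat_lit 9553, nat_lit 27049, nat_lit 21217, nat_lit 24133, nat_lit 22189, nat_lit 22729, nat_lit 22669, nat_lit 22673, nat_lit 22677, nat_lit 42357, nat_lit 2993] (nat_lit 0) [] false,
   Spec.mk (nat_lit 22677) (nat_lit 1) [nat_lit 9555, nat_lit 27051, nat_lit 21219, nat_lit 24135, nat_lit 22191, nat_lit 22731, nat_lit 22675, nat_lit 2995] (nat_lit 0) [] false,
   Spec.mk (nat_lit 22697) (nat_lit 1) [nat_lit 9575, nat_lit 27071, nat_lit 21239, nat_lit 24155, nat_lit 22211, nat_lit 22859, nat_lit 22643, nat_lit 22715, nat_lit 22703, nat_lit 42379] (nat_lit 0) [] false,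
   Spec.mk (nat_lit 22703) (nat_lit 0) [nat_lit 9581, nat_lit 27077, nat_lit 21245, nat_lit 24161, nat_lit 22217, nat_lit 22865, nat_lit 22649, nat_lit 22721, nat_lit 22697, nat_lit 22705, nat_lit 42385] (nat_lit 1) [] false,
   Spec.mk (nat_lit 22705) (nat_lit 0) [nat_lit 9583, nat_lit 27079, nat_lit 21247, nat_lit 24163, nat_lit 22219, nat_lit 22867, nat_lit 22651, nat_lit 22723, nat_lit 22703, nat_lit 42387, nat_lit 3023] (nat_lit 0) [] false,
   Spec.mk (nat_lit 22715) (nat_lit 0) [nat_lit 9593, nat_lit 27089, nat_lit 21257, nat_lit 24173, nat_lit 22229, nat_lit 22877, nat_lit 22661, nat_lit 22769, nat_lit 22697, nat_lit 22721, nat_lit 42397] (nat_lit 0) [] false,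
   Spec.mk (nat_lit 22721) (nat_lit 0) [nat_lit 9599, nat_lit 27095, nat_lit 21263, nat_lit 24179, nat_lit 22235, nat_lit 22883, nat_lit 22667, nat_lit 22775, nat_lit 22703, nat_lit 22739, nat_lit 22715, nat_lit 22727, nat_lit 22723, nat_lit 42403] (nat_lit 0) [] false,
   Spec.mk (nat_lit 22723) (nat_lit 0) [nat_lit 9601, nat_lit 27097, nat_lit 21265, nat_lit 24181, nat_lit 22237, nat_lit 22885, nat_lit 22669, nat_lit 22777, nat_lit 22705, nat_lit 22741, nat_lit 22729, nat_lit 22721, nat_lit 42405, nat_lit 3041] (nat_lit 0) [] false,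
   Spec.mk (nat_lit 22727) (nat_lit 0) [nat_lit 9605, nat_lit 27101, nat_lit 21269, nat_lit 24185, nat_lit 22241, nat_lit 22889, nat_lit 22673, nat_lit 22781, nat_lit 22745, nat_lit 22721, nat_lit 22729, nat_lit 42409] (nat_lit 2) [] false,
   Spec.mk (nat_lit 22729) (nat_lit 0) [nat_lit 9607, nat_lit 27103, nat_lit 21271, nat_lit 24187, nat_lit 22243, nat_lit 22891, nat_lit 22675, nat_lit 22783, nat_lit 22747, nat_lit 22723, nat_lit 22727, nat_lit 22731, nat_lit 42411, nat_lit 3047] (nat_lit 0) [] false,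
   Spec.mk (nat_lit 22731) (nat_lit 0) [nat_lit 9609, nat_lit 27105, nat_lit 21273, nat_lit 24189, nat_lit 22245, nat_lit 22893, nat_lit 22677, nat_lit 22785, nat_lit 22749, nat_lit 22729, nat_lit 3049] (nat_lit 0) [] false,
   Spec.mk (nat_lit 22739) (nat_lit 0) [nat_lit 9617, nat_lit 27113, nat_lit 21281, nat_lit 24197, nat_lit 22253, nat_lit 22901, nat_lit 22793, nat_lit 22721, nat_lit 22745, nat_lit 22741, nat_lit 42421] (nat_lit 1) [] false,
   Spec.mk (nat_lit 22741) (nat_lit 0) [nat_lit 9619, nat_lit 27115, nat_lit 21283, nat_lit 24199, nat_lit 22255, nat_lit 22903, nat_lit 22795, nat_lit 22723, nat_lit 22747, nat_lit 22739, nat_lit 42423, nat_lit 3059] (nat_lit 2) [] false,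
   Spec.mk (nat_lit 22745) (nat_lit 0) [nat_lit 9623, nat_lit 27119, nat_lit 21287, nat_lit 24203, nat_lit 22259, nat_lit 22907, nat_lit 22799, nat_lit 22727, nat_lit 22739, nat_lit 22747, nat_lit 42427] (nat_lit 1) [] false,
   Spec.mk (nat_lit 22747) (nat_lit 0) [nat_lit 9625, nat_lit 27121, nat_lit 21289, nat_lit 24205, nat_lit 22261, nat_lit 22909, nat_lit 22801, nat_lit 22729, nat_lit 22741, nat_lit 22753, nat_lit 22745, nat_lit 22749, nat_lit 42429, nat_lit 3065] (nat_lit 0) [] false,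
   Spec.mk (nat_lit 22749) (nat_lit 0) [nat_lit 9627, nat_lit 27123, nat_lit 21291, nat_lit 24207, nat_lit 22263, nat_lit 22911, nat_lit 22803, nat_lit 22731, nat_lit 22755, nat_lit 22747, nat_lit 3067] (nat_lit 1) [] false,
   Spec.mk (nat_lit 22753) (nat_lit 0) [nat_lit 9631, nat_lit 27127, nat_lit 21295, nat_lit 24211, nat_lit 22267, nat_lit 22915, nat_lit 22807, nat_lit 22747, nat_lit 22755, nat_lit 42435, nat_lit 3071] (nat_lit 0) [] false,
   Spec.mk (nat_lit 22755) (nat_lit 1) [nat_lit 9633, nat_lit 27129, nat_lit 21297, nat_lit 24213, nat_lit 22269, nat_lit 22917, nat_lit 22809, nat_lit 22749, nat_lit 22753, nat_lit 3073] (nat_lit 0) [] false,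
   Spec.mk (nat_lit 22769) (nat_lit 0) [nat_lit 9647, nat_lit 27143, nat_lit 21311, nat_lit 24227, nat_lit 22283, nat_lit 22931, nat_lit 22715, nat_lit 22775, nat_lit 42451] (nat_lit 1) [] false,
   Spec.mk (nat_lit 22775) (nat_lit 0) [nat_lit 9653, nat_lit 27149, nat_lit 21317, nat_lit 24233, nat_lit 22289, nat_lit 22937, nat_lit 22721, nat_lit 22793, nat_lit 22769, nat_lit 22781, nat_lit 22777, nat_lit 42457] (nat_lit 2) [] false,
   Spec.mk (nat_lit 22777) (nat_lit 0) [nat_lit 9655, nat_lit 27151, nat_lit 21319, nat_lit 24235, nat_lit 22291, nat_lit 22939, nat_lit 22723, nat_lit 22795, nat_lit 22783, nat_lit 22775, nat_lit 42459, nat_lit 3095] (nat_lit 2) [] false,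
   Spec.mk (nat_lit 22781) (nat_lit 0) [nat_lit 9659, nat_lit 27155, nat_lit 21323, nat_lit 24239, nat_lit 22295, nat_lit 22943, nat_lit 22727, nat_lit 22799, nat_lit 22775, nat_lit 22783, nat_lit 42463] (nat_lit 5) [] false,
   Spec.mk (nat_lit 22783) (nat_lit 0) [nat_lit 9661, nat_lit 27157, nat_lit 21325, nat_lit 24241, nat_lit 22297, nat_lit 22945, nat_lit 22729, nat_lit 22801, nat_lit 22777, nat_lit 22781, nat_lit 22785, nat_lit 42465, nat_lit 3101] (nat_lit 3) [] false,
   Spec.mk (nat_lit 22785) (nat_lit 0) [nat_lit 9663, nat_lit 27159, nat_lit 21327, nat_lit 24243, nat_lit 22299, nat_lit 22947, nat_lit 22731, nat_lit 22803, nat_lit 22783, nat_lit 3103] (nat_lit 3) [] false,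
   Spec.mk (nat_lit 22793) (nat_lit 0) [nat_lit 9671, nat_lit 27167, nat_lit 21335, nat_lit 24251, nat_lit 22307, nat_lit 22955, nat_lit 22739, nat_lit 22775, nat_lit 22799, nat_lit 22795, nat_lit 42475] (nat_lit 1) [] false,
   Spec.mk (nat_lit 22795) (nat_lit 0) [nat_lit 9673, nat_lit 27169, nat_lit 21337, nat_lit 24253, nat_lit 22309, nat_lit 22957, nat_lit 22741, nat_lit 22777, nat_lit 22801, nat_lit 22793, nat_lit 42477, nat_lit 3113] (nat_lit 2) [] false,
   Spec.mk (nat_lit 22799) (nat_lit 0) [nat_lit 9677, nat_lit 27173, nat_lit 21341, nat_lit 24257, nat_lit 22313, nat_lit 22961, nat_lit 22745, nat_lit 22781, nat_lit 22817, nat_lit 22793, nat_lit 22801, nat_lit 42481] (nat_lit 2) [] false,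
   Spec.mk (nat_lit 22801) (nat_lit 0) [nat_lit 9679, nat_lit 27175, nat_lit 21343, nat_lit 24259, nat_lit 22315, nat_lit 22963, nat_lit 22747, nat_lit 22783, nat_lit 22819, nat_lit 22795, nat_lit 22807, nat_lit 22799, nat_lit 22803, nat_lit 42483, nat_lit 3119] (nat_lit 1) [] false,
   Spec.mk (nat_lit 22803) (nat_lit 0) [nat_lit 9681, nat_lit 27177, nat_lit 21345, nat_lit 24261, nat_lit 22317, nat_lit 22965, nat_lit 22749, nat_lit 22785, nat_lit 22821, nat_lit 22809, nat_lit 22801, nat_lit 3121] (nat_lit 2) [] false,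
   Spec.mk (nat_lit 22807) (nat_lit 0) [nat_lit 9685, nat_lit 27181, nat_lit 21349, nat_lit 24265, nat_lit 22321, nat_lit 22969, nat_lit 22753, nat_lit 22825, nat_lit 22801, nat_lit 22809, nat_lit 42489, nat_lit 3125] (nat_lit 2) [] false]

noncomputable def sp61 : List Spec :=
  [Spec.mk (nat_lit 22809) (nat_lit 0) [nat_lit 9687, nat_lit 27183, nat_lit 21351, nat_lit 24267, nat_lit 22323, nat_lit 22971, nat_lit 22755, nat_lit 22827, nat_lit 22803, nat_lit 22807, nat_lit 3127] (nat_lit 1) [] false,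
   Spec.mk (nat_lit 22817) (nat_lit 0) [nat_lit 9695, nat_lit 27191, nat_lit 21359, nat_lit 24275, nat_lit 22331, nat_lit 22979, nat_lit 22799, nat_lit 22819, nat_lit 42499] (nat_lit 1) [] false,
   Spec.mk (nat_lit 22819) (nat_lit 0) [nat_lit 9697, nat_lit 27193, nat_lit 21361, nat_lit 24277, nat_lit 22333, nat_lit 22981, nat_lit 22801, nat_lit 22825, nat_lit 22817, nat_lit 22821, nat_lit 42501, nat_lit 3137] (nat_lit 1) [] false,
   Spec.mk (nat_lit 22821) (nat_lit 0) [nat_lit 9699, nat_lit 27195, nat_lit 21363, nat_lit 24279, nat_lit 22335, nat_lit 22983, nat_lit 22803, nat_lit 22827, nat_lit 22819, nat_lit 3139] (nat_lit 3) [] false,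
   Spec.mk (nat_lit 22825) (nat_lit 0) [nat_lit 9703, nat_lit 27199, nat_lit 21367, nat_lit 24283, nat_lit 22339, nat_lit 22987, nat_lit 22807, nat_lit 22819, nat_lit 22827, nat_lit 42507, nat_lit 3143] (nat_lit 0) [] false,
   Spec.mk (nat_lit 22827) (nat_lit 0) [nat_lit 9705, nat_lit 27201, nat_lit 21369, nat_lit 24285, nat_lit 22341, nat_lit 22989, nat_lit 22809, nat_lit 22821, nat_lit 22833, nat_lit 22825, nat_lit 3145] (nat_lit 0) [] false,
   Spec.mk (nat_lit 22833) (nat_lit 1) [nat_lit 9711, nat_lit 27207, nat_lit 21375, nat_lit 24291, nat_lit 22347, nat_lit 22995, nat_lit 22827, nat_lit 3151] (nat_lit 0) [] false,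
   Spec.mk (nat_lit 22859) (nat_lit 2) [nat_lit 9737, nat_lit 27233, nat_lit 21401, nat_lit 24317, nat_lit 22373, nat_lit 23345, nat_lit 22697, nat_lit 22877, nat_lit 22865, nat_lit 42541] (nat_lit 0) [] false,
   Spec.mk (nat_lit 22865) (nat_lit 0) [nat_lit 9743, nat_lit 27239, nat_lit 21407, nat_lit 24323, nat_lit 22379, nat_lit 23351, nat_lit 22703, nat_lit 22883, nat_lit 22859, nat_lit 22867, nat_lit 42547] (nat_lit 0) [] false,
   Spec.mk (nat_lit 22867) (nat_lit 1) [nat_lit 9745, nat_lit 27241, nat_lit 21409, nat_lit 24325, nat_lit 22381, nat_lit 23353, nat_lit 22705, nat_lit 22885, nat_lit 22865, nat_lit 42549, nat_lit 3185] (nat_lit 0) [] false,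
   Spec.mk (nat_lit 22877) (nat_lit 0) [nat_lit 9755, nat_lit 27251, nat_lit 21419, nat_lit 24335, nat_lit 22391, nat_lit 23363, nat_lit 22715, nat_lit 22931, nat_lit 22859, nat_lit 22883, nat_lit 42559] (nat_lit 0) [] false,
   Spec.mk (nat_lit 22883) (nat_lit 0) [nat_lit 9761, nat_lit 27257, nat_lit 21425, nat_lit 24341, nat_lit 22397, nat_lit 23369, nat_lit 22721, nat_lit 22937, nat_lit 22865, nat_lit 22901, nat_lit 22877, nat_lit 22889, nat_lit 22885, nat_lit 42565] (nat_lit 0) [] false,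
   Spec.mk (nat_lit 22885) (nat_lit 0) [nat_lit 9763, nat_lit 27259, nat_lit 21427, nat_lit 24343, nat_lit 22399, nat_lit 23371, nat_lit 22723, nat_lit 22939, nat_lit 22867, nat_lit 22903, nat_lit 22891, nat_lit 22883, nat_lit 42567, nat_lit 3203] (nat_lit 0) [] false,
   Spec.mk (nat_lit 22889) (nat_lit 0) [nat_lit 9767, nat_lit 27263, nat_lit 21431, nat_lit 24347, nat_lit 22403, nat_lit 23375, nat_lit 22727, nat_lit 22943, nat_lit 22907, nat_lit 22883, nat_lit 22891, nat_lit 42571] (nat_lit 2) [] false,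
   Spec.mk (nat_lit 22891) (nat_lit 0) [nat_lit 9769, nat_lit 27265, nat_lit 21433, nat_lit 24349, nat_lit 22405, nat_lit 23377, nat_lit 22729, nat_lit 22945, nat_lit 22909, nat_lit 22885, nat_lit 22889, nat_lit 22893, nat_lit 42573, nat_lit 3209] (nat_lit 0) [] false,
   Spec.mk (nat_lit 22893) (nat_lit 0) [nat_lit 9771, nat_lit 27267, nat_lit 21435, nat_lit 24351, nat_lit 22407, nat_lit 23379, nat_lit 22731, nat_lit 22947, nat_lit 22911, nat_lit 22891, nat_lit 3211] (nat_lit 0) [] false,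
   Spec.mk (nat_lit 22901) (nat_lit 0) [nat_lit 9779, nat_lit 27275, nat_lit 21443, nat_lit 24359, nat_lit 22415, nat_lit 23387, nat_lit 22739, nat_lit 22955, nat_lit 22883, nat_lit 22907, nat_lit 22903, nat_lit 42583] (nat_lit 2) [] false,
   Spec.mk (nat_lit 22903) (nat_lit 0) [nat_lit 9781, nat_lit 27277, nat_lit 21445, nat_lit 24361, nat_lit 22417, nat_lit 23389, nat_lit 22741, nat_lit 22957, nat_lit 22885, nat_lit 22909, nat_lit 22901, nat_lit 42585, nat_lit 3221] (nat_lit 3) [] false,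
   Spec.mk (nat_lit 22907) (nat_lit 0) [nat_lit 9785, nat_lit 27281, nat_lit 21449, nat_lit 24365, nat_lit 22421, nat_lit 23393, nat_lit 22745, nat_lit 22961, nat_lit 22889, nat_lit 22901, nat_lit 22909, nat_lit 42589] (nat_lit 2) [] false,
   Spec.mk (nat_lit 22909) (nat_lit 0) [nat_lit 9787, nat_lit 27283, nat_lit 21451, nat_lit 24367, nat_lit 22423, nat_lit 23395, nat_lit 22747, nat_lit 22963, nat_lit 22891, nat_lit 22903, nat_lit 22915, nat_lit 22907, nat_lit 22911, nat_lit 42591, nat_lit 3227] (nat_lit 1) [] false,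
   Spec.mk (nat_lit 22911) (nat_lit 0) [nat_lit 9789, nat_lit 27285, nat_lit 21453, nat_lit 24369, nat_lit 22425, nat_lit 23397, nat_lit 22749, nat_lit 22965, nat_lit 22893, nat_lit 22917, nat_lit 22909, nat_lit 3229] (nat_lit 2) [] false,
   Spec.mk (nat_lit 22915) (nat_lit 0) [nat_lit 9793, nat_lit 27289, nat_lit 21457, nat_lit 24373, nat_lit 22429, nat_lit 23401, nat_lit 22753, nat_lit 22969, nat_lit 22909, nat_lit 22917, nat_lit 42597, nat_lit 3233] (nat_lit 1) [] false,
   Spec.mk (nat_lit 22917) (nat_lit 0) [nat_lit 9795, nat_lit 27291, nat_lit 21459, nat_lit 24375, nat_lit 22431, nat_lit 23403, nat_lit 22755, nat_lit 22971, nat_lit 22911, nat_lit 22915, nat_lit 3235] (nat_lit 0) [] false,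
   Spec.mk (nat_lit 22931) (nat_lit 1) [nat_lit 9809, nat_lit 27305, nat_lit 21473, nat_lit 24389, nat_lit 22445, nat_lit 23417, nat_lit 22769, nat_lit 23093, nat_lit 22877, nat_lit 22937, nat_lit 42613] (nat_lit 0) [] false,
   Spec.mk (nat_lit 22937) (nat_lit 0) [nat_lit 9815, nat_lit 27311, nat_lit 21479, nat_lit 24395, nat_lit 22451, nat_lit 23423, nat_lit 22775, nat_lit 23099, nat_lit 22883, nat_lit 22955, nat_lit 22931, nat_lit 22943, nat_lit 22939, nat_lit 42619] (nat_lit 0) [] false,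
   Spec.mk (nat_lit 22939) (nat_lit 0) [nat_lit 9817, nat_lit 27313, nat_lit 21481, nat_lit 24397, nat_lit 22453, nat_lit 23425, nat_lit 22777, nat_lit 23101, nat_lit 22885, nat_lit 22957, nat_lit 22945, nat_lit 22937, nat_lit 42621, nat_lit 3257] (nat_lit 0) [] false,
   Spec.mk (nat_lit 22943) (nat_lit 0) [nat_lit 9821, nat_lit 27317, nat_lit 21485, nat_lit 24401, nat_lit 22457, nat_lit 23429, nat_lit 22781, nat_lit 23105, nat_lit 22889, nat_lit 22961, nat_lit 22937, nat_lit 22945, nat_lit 42625] (nat_lit 3) [] false,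
   Spec.mk (nat_lit 22945) (nat_lit 0) [nat_lit 9823, nat_lit 27319, nat_lit 21487, nat_lit 24403, nat_lit 22459, nat_lit 23431, nat_lit 22783, nat_lit 23107, nat_lit 22891, nat_lit 22963, nat_lit 22939, nat_lit 22943, nat_lit 22947, nat_lit 42627, nat_lit 3263] (nat_lit 1) [] false,
   Spec.mk (nat_lit 22947) (nat_lit 0) [nat_lit 9825, nat_lit 27321, nat_lit 21489, nat_lit 24405, nat_lit 22461, nat_lit 23433, nat_lit 22785, nat_lit 23109, nat_lit 22893, nat_lit 22965, nat_lit 22945, nat_lit 3265] (nat_lit 1) [] false,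
   Spec.mk (nat_lit 22955) (nat_lit 0) [nat_lit 9833, nat_lit 27329, nat_lit 21497, nat_lit 24413, nat_lit 22469, nat_lit 23441, nat_lit 22793, nat_lit 23117, nat_lit 22901, nat_lit 23009, nat_lit 22937, nat_lit 22961, nat_lit 22957, nat_lit 42637] (nat_lit 0) [] false,
   Spec.mk (nat_lit 22957) (nat_lit 0) [nat_lit 9835, nat_lit 27331, nat_lit 21499, nat_lit 24415, nat_lit 22471, nat_lit 23443, nat_lit 22795, nat_lit 23119, nat_lit 22903, nat_lit 23011, nat_lit 22939, nat_lit 22963, nat_lit 22955, nat_lit 42639, nat_lit 3275] (nat_lit 1) [] false,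
   Spec.mk (nat_lit 22961) (nat_lit 0) [nat_lit 9839, nat_lit 27335, nat_lit 21503, nat_lit 24419, nat_lit 22475, nat_lit 23447, nat_lit 22799, nat_lit 23123, nat_lit 22907, nat_lit 23015, nat_lit 22943, nat_lit 22979, nat_lit 22955, nat_lit 22963, nat_lit 42643] (nat_lit 1) [] false,
   Spec.mk (nat_lit 22963) (nat_lit 0) [nat_lit 9841, nat_lit 27337, nat_lit 21505, nat_lit 24421, nat_lit 22477, nat_lit 23449, nat_lit 22801, nat_lit 23125, nat_lit 22909, nat_lit 23017, nat_lit 22945, nat_lit 22981, nat_lit 22957, nat_lit 22969, nat_lit 22961, nat_lit 22965, nat_lit 42645, nat_lit 3281] (nat_lit 0) [] false,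
   Spec.mk (nat_lit 22965) (nat_lit 0) [nat_lit 9843, nat_lit 27339, nat_lit 21507, nat_lit 24423, nat_lit 22479, nat_lit 23451, nat_lit 22803, nat_lit 23127, nat_lit 22911, nat_lit 23019, nat_lit 22947, nat_lit 22983, nat_lit 22971, nat_lit 22963, nat_lit 3283] (nat_lit 1) [] false,
   Spec.mk (nat_lit 22969) (nat_lit 0) [nat_lit 9847, nat_lit 27343, nat_lit 21511, nat_lit 24427, nat_lit 22483, nat_lit 23455, nat_lit 22807, nat_lit 23131, nat_lit 22915, nat_lit 23023, nat_lit 22987, nat_lit 22963, nat_lit 22971, nat_lit 42651, nat_lit 3287] (nat_lit 1) [] false,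
   Spec.mk (nat_lit 22971) (nat_lit 0) [nat_lit 9849, nat_lit 27345, nat_lit 21513, nat_lit 24429, nat_lit 22485, nat_lit 23457, nat_lit 22809, nat_lit 23133, nat_lit 22917, nat_lit 23025, nat_lit 22989, nat_lit 22965, nat_lit 22969, nat_lit 3289] (nat_lit 0) [] false,
   Spec.mk (nat_lit 22979) (nat_lit 0) [nat_lit 9857, nat_lit 27353, nat_lit 21521, nat_lit 24437, nat_lit 22493, nat_lit 23465, nat_lit 22817, nat_lit 23141, nat_lit 23033, nat_lit 22961, nat_lit 22981, nat_lit 42661] (nat_lit 1) [] false,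
   Spec.mk (nat_lit 22981) (nat_lit 0) [nat_lit 9859, nat_lit 27355, nat_lit 21523, nat_lit 24439, nat_lit 22495, nat_lit 23467, nat_lit 22819, nat_lit 23143, nat_lit 23035, nat_lit 22963, nat_lit 22987, nat_lit 22979, nat_lit 22983, nat_lit 42663, nat_lit 3299] (nat_lit 1) [] false,
   Spec.mk (nat_lit 22983) (nat_lit 0) [nat_lit 9861, nat_lit 27357, nat_lit 21525, nat_lit 24441, nat_lit 22497, nat_lit 23469, nat_lit 22821, nat_lit 23145, nat_lit 23037, nat_lit 22965, nat_lit 22989, nat_lit 22981, nat_lit 3301] (nat_lit 3) [] false,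
   Spec.mk (nat_lit 22987) (nat_lit 0) [nat_lit 9865, nat_lit 27361, nat_lit 21529, nat_lit 24445, nat_lit 22501, nat_lit 23473, nat_lit 22825, nat_lit 23149, nat_lit 23041, nat_lit 22969, nat_lit 22981, nat_lit 22989, nat_lit 42669, nat_lit 3305] (nat_lit 0) [] false,
   Spec.mk (nat_lit 22989) (nat_lit 0) [nat_lit 9867, nat_lit 27363, nat_lit 21531, nat_lit 24447, nat_lit 22503, nat_lit 23475, nat_lit 22827, nat_lit 23151, nat_lit 23043, nat_lit 22971, nat_lit 22983, nat_lit 22995, nat_lit 22987, nat_lit 3307] (nat_lit 0) [] false,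
   Spec.mk (nat_lit 22995) (nat_lit 1) [nat_lit 9873, nat_lit 27369, nat_lit 21537, nat_lit 24453, nat_lit 22509, nat_lit 23481, nat_lit 22833, nat_lit 23157, nat_lit 23049, nat_lit 22989, nat_lit 3313] (nat_lit 0) [] false,
   Spec.mk (nat_lit 23009) (nat_lit 0) [nat_lit 9887, nat_lit 27383, nat_lit 21551, nat_lit 24467, nat_lit 22523, nat_lit 23495, nat_lit 23171, nat_lit 22955, nat_lit 23015, nat_lit 23011, nat_lit 42691] (nat_lit 0) [] false,
   Spec.mk (nat_lit 23011) (nat_lit 0) [nat_lit 9889, nat_lit 27385, nat_lit 21553, nat_lit 24469, nat_lit 22525, nat_lit 23497, nat_lit 23173, nat_lit 22957, nat_lit 23017, nat_lit 23009, nat_lit 42693, nat_lit 3329] (nat_lit 1) [] false,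
   Spec.mk (nat_lit 23015) (nat_lit 0) [nat_lit 9893, nat_lit 27389, nat_lit 21557, nat_lit 24473, nat_lit 22529, nat_lit 23501, nat_lit 23177, nat_lit 22961, nat_lit 23033, nat_lit 23009, nat_lit 23017, nat_lit 42697] (nat_lit 2) [] false,
   Spec.mk (nat_lit 23017) (nat_lit 0) [nat_lit 9895, nat_lit 27391, nat_lit 21559, nat_lit 24475, nat_lit 22531, nat_lit 23503, nat_lit 23179, nat_lit 22963, nat_lit 23035, nat_lit 23011, nat_lit 23023, nat_lit 23015, nat_lit 23019, nat_lit 42699, nat_lit 3335] (nat_lit 1) [] false,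
   Spec.mk (nat_lit 23019) (nat_lit 0) [nat_lit 9897, nat_lit 27393, nat_lit 21561, nat_lit 24477, nat_lit 22533, nat_lit 23505, nat_lit 23181, nat_lit 22965, nat_lit 23037, nat_lit 23025, nat_lit 23017, nat_lit 3337] (nat_lit 2) [] false,
   Spec.mk (nat_lit 23023) (nat_lit 0) [nat_lit 9901, nat_lit 27397, nat_lit 21565, nat_lit 24481, nat_lit 22537, nat_lit 23509, nat_lit 23185, nat_lit 22969, nat_lit 23041, nat_lit 23017, nat_lit 23025, nat_lit 42705, nat_lit 3341] (nat_lit 3) [] false,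
   Spec.mk (nat_lit 23025) (nat_lit 0) [nat_lit 9903, nat_lit 27399, nat_lit 21567, nat_lit 24483, nat_lit 22539, nat_lit 23511, nat_lit 23187, nat_lit 22971, nat_lit 23043, nat_lit 23019, nat_lit 23023, nat_lit 3343] (nat_lit 2) [] false,
   Spec.mk (nat_lit 23033) (nat_lit 0) [nat_lit 9911, nat_lit 27407, nat_lit 21575, nat_lit 24491, nat_lit 22547, nat_lit 23519, nat_lit 23195, nat_lit 22979, nat_lit 23015, nat_lit 23035, nat_lit 42715] (nat_lit 0) [] false,
   Spec.mk (nat_lit 23035) (nat_lit 0) [nat_lit 9913, nat_lit 27409, nat_lit 21577, nat_lit 24493, nat_lit 22549, nat_lit 23521, nat_lit 23197, nat_lit 22981, nat_lit 23017, nat_lit 23041, nat_lit 23033, nat_lit 23037, nat_lit 42717, nat_lit 3353] (nat_lit 0) [] false,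
   Spec.mk (nat_lit 23037) (nat_lit 0) [nat_lit 9915, nat_lit 27411, nat_lit 21579, nat_lit 24495, nat_lit 22551, nat_lit 23523, nat_lit 23199, nat_lit 22983, nat_lit 23019, nat_lit 23043, nat_lit 23035, nat_lit 3355] (nat_lit 2) [] false,
   Spec.mk (nat_lit 23041) (nat_lit 0) [nat_lit 9919, nat_lit 27415, nat_lit 21583, nat_lit 24499, nat_lit 22555, nat_lit 23527, nat_lit 23203, nat_lit 22987, nat_lit 23023, nat_lit 23059, nat_lit 23035, nat_lit 23043, nat_lit 42723, nat_lit 3359] (nat_lit 0) [] false,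
   Spec.mk (nat_lit 23043) (nat_lit 0) [nat_lit 9921, nat_lit 27417, nat_lit 21585, nat_lit 24501, nat_lit 22557, nat_lit 23529, nat_lit 23205, nat_lit 22989, nat_lit 23025, nat_lit 23061, nat_lit 23037, nat_lit 23049, nat_lit 23041, nat_lit 3361] (nat_lit 0) [] false,
   Spec.mk (nat_lit 23049) (nat_lit 0) [nat_lit 9927, nat_lit 27423, nat_lit 21591, nat_lit 24507, nat_lit 22563, nat_lit 23535, nat_lit 23211, nat_lit 22995, nat_lit 23067, nat_lit 23043, nat_lit 3367] (nat_lit 0) [] false,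
   Spec.mk (nat_lit 23059) (nat_lit 1) [nat_lit 9937, nat_lit 27433, nat_lit 21601, nat_lit 24517, nat_lit 22573, nat_lit 23545, nat_lit 23221, nat_lit 23041, nat_lit 23061, nat_lit 42741, nat_lit 3377] (nat_lit 0) [] false,
   Spec.mk (nat_lit 23061) (nat_lit 0) [nat_lit 9939, nat_lit 27435, nat_lit 21603, nat_lit 24519, nat_lit 22575, nat_lit 23547, nat_lit 23223, nat_lit 23043, nat_lit 23067, nat_lit 23059, nat_lit 3379] (nat_lit 0) [] false,
   Spec.mk (nat_lit 23067) (nat_lit 2) [nat_lit 9945, nat_lit 27441, nat_lit 21609, nat_lit 24525, nat_lit 22581, nat_lit 23553, nat_lit 23229, nat_lit 23049, nat_lit 23061, nat_lit 3385] (nat_lit 0) [] false,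
   Spec.mk (nat_lit 23093) (nat_lit 1) [nat_lit 9971, nat_lit 27467, nat_lit 21635, nat_lit 24551, nat_lit 23579, nat_lit 22931, nat_lit 23099, nat_lit 42775] (nat_lit 0) [] false,
   Spec.mk (nat_lit 23099) (nat_lit 0) [nat_lit 9977, nat_lit 27473, nat_lit 21641, nat_lit 24557, nat_lit 23585, nat_lit 22937, nat_lit 23117, nat_lit 23093, nat_lit 23105, nat_lit 23101, nat_lit 42781] (nat_lit 0) [] false]

noncomputable def sp62 : List Spec :=
  [Spec.mk (nat_lit 23101) (nat_lit 0) [nat_lit 9979, nat_lit 27475, nat_lit 21643, nat_lit 24559, nat_lit 23587, nat_lit 22939, nat_lit 23119, nat_lit 23107, nat_lit 23099, nat_lit 42783, nat_lit 3419] (nat_lit 0) [] false,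
   Spec.mk (nat_lit 23105) (nat_lit 0) [nat_lit 9983, nat_lit 27479, nat_lit 21647, nat_lit 24563, nat_lit 23591, nat_lit 22943, nat_lit 23123, nat_lit 23099, nat_lit 23107, nat_lit 42787] (nat_lit 3) [] false,
   Spec.mk (nat_lit 23107) (nat_lit 0) [nat_lit 9985, nat_lit 27481, nat_lit 21649, nat_lit 24565, nat_lit 23593, nat_lit 22945, nat_lit 23125, nat_lit 23101, nat_lit 23105, nat_lit 23109, nat_lit 42789, nat_lit 3425] (nat_lit 1) [] false,
   Spec.mk (nat_lit 23109) (nat_lit 0) [nat_lit 9987, nat_lit 27483, nat_lit 21651, nat_lit 24567, nat_lit 23595, nat_lit 22947, nat_lit 23127, nat_lit 23107, nat_lit 3427] (nat_lit 1) [] false,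
   Spec.mk (nat_lit 23117) (nat_lit 0) [nat_lit 9995, nat_lit 27491, nat_lit 21659, nat_lit 24575, nat_lit 23603, nat_lit 22955, nat_lit 23171, nat_lit 23099, nat_lit 23123, nat_lit 23119, nat_lit 42799] (nat_lit 1) [] false,
   Spec.mk (nat_lit 23119) (nat_lit 0) [nat_lit 9997, nat_lit 27493, nat_lit 21661, nat_lit 24577, nat_lit 23605, nat_lit 22957, nat_lit 23173, nat_lit 23101, nat_lit 23125, nat_lit 23117, nat_lit 42801, nat_lit 3437] (nat_lit 2) [] false,
   Spec.mk (nat_lit 23123) (nat_lit 0) [nat_lit 10001, nat_lit 27497, nat_lit 21665, nat_lit 24581, nat_lit 23609, nat_lit 22961, nat_lit 23177, nat_lit 23105, nat_lit 23141, nat_lit 23117, nat_lit 23125, nat_lit 42805] (nat_lit 2) [] false,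
   Spec.mk (nat_lit 23125) (nat_lit 0) [nat_lit 10003, nat_lit 27499, nat_lit 21667, nat_lit 24583, nat_lit 23611, nat_lit 22963, nat_lit 23179, nat_lit 23107, nat_lit 23143, nat_lit 23119, nat_lit 23131, nat_lit 23123, nat_lit 23127, nat_lit 42807, nat_lit 3443] (nat_lit 1) [] false,
   Spec.mk (nat_lit 23127) (nat_lit 0) [nat_lit 10005, nat_lit 27501, nat_lit 21669, nat_lit 24585, nat_lit 23613, nat_lit 22965, nat_lit 23181, nat_lit 23109, nat_lit 23145, nat_lit 23133, nat_lit 23125, nat_lit 3445] (nat_lit 2) [] false,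
   Spec.mk (nat_lit 23131) (nat_lit 0) [nat_lit 10009, nat_lit 27505, nat_lit 21673, nat_lit 24589, nat_lit 23617, nat_lit 22969, nat_lit 23185, nat_lit 23149, nat_lit 23125, nat_lit 23133, nat_lit 42813, nat_lit 3449] (nat_lit 2) [] false,
   Spec.mk (nat_lit 23133) (nat_lit 0) [nat_lit 10011, nat_lit 27507, nat_lit 21675, nat_lit 24591, nat_lit 23619, nat_lit 22971, nat_lit 23187, nat_lit 23151, nat_lit 23127, nat_lit 23131, nat_lit 3451] (nat_lit 1) [] false,
   Spec.mk (nat_lit 23141) (nat_lit 0) [nat_lit 10019, nat_lit 27515, nat_lit 21683, nat_lit 24599, nat_lit 23627, nat_lit 22979, nat_lit 23195, nat_lit 23123, nat_lit 23143, nat_lit 42823] (nat_lit 3) [] false,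
   Spec.mk (nat_lit 23143) (nat_lit 0) [nat_lit 10021, nat_lit 27517, nat_lit 21685, nat_lit 24601, nat_lit 23629, nat_lit 22981, nat_lit 23197, nat_lit 23125, nat_lit 23149, nat_lit 23141, nat_lit 23145, nat_lit 42825, nat_lit 3461] (nat_lit 3) [] false,
   Spec.mk (nat_lit 23145) (nat_lit 0) [nat_lit 10023, nat_lit 27519, nat_lit 21687, nat_lit 24603, nat_lit 23631, nat_lit 22983, nat_lit 23199, nat_lit 23127, nat_lit 23151, nat_lit 23143, nat_lit 3463] (nat_lit 5) [] false,
   Spec.mk (nat_lit 23149) (nat_lit 0) [nat_lit 10027, nat_lit 27523, nat_lit 21691, nat_lit 24607, nat_lit 23635, nat_lit 22987, nat_lit 23203, nat_lit 23131, nat_lit 23143, nat_lit 23151, nat_lit 42831, nat_lit 3467] (nat_lit 2) [] false,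
   Spec.mk (nat_lit 23151) (nat_lit 0) [nat_lit 10029, nat_lit 27525, nat_lit 21693, nat_lit 24609, nat_lit 23637, nat_lit 22989, nat_lit 23205, nat_lit 23133, nat_lit 23145, nat_lit 23157, nat_lit 23149, nat_lit 3469] (nat_lit 2) [] false,
   Spec.mk (nat_lit 23157) (nat_lit 0) [nat_lit 10035, nat_lit 27531, nat_lit 21699, nat_lit 24615, nat_lit 23643, nat_lit 22995, nat_lit 23211, nat_lit 23151, nat_lit 3475] (nat_lit 1) [] false,
   Spec.mk (nat_lit 23171) (nat_lit 1) [nat_lit 10049, nat_lit 27545, nat_lit 21713, nat_lit 24629, nat_lit 23657, nat_lit 23009, nat_lit 23117, nat_lit 23177, nat_lit 23173, nat_lit 42853] (nat_lit 0) [] false,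
   Spec.mk (nat_lit 23173) (nat_lit 0) [nat_lit 10051, nat_lit 27547, nat_lit 21715, nat_lit 24631, nat_lit 23659, nat_lit 23011, nat_lit 23119, nat_lit 23179, nat_lit 23171, nat_lit 42855, nat_lit 3491] (nat_lit 0) [] false,
   Spec.mk (nat_lit 23177) (nat_lit 0) [nat_lit 10055, nat_lit 27551, nat_lit 21719, nat_lit 24635, nat_lit 23663, nat_lit 23015, nat_lit 23123, nat_lit 23195, nat_lit 23171, nat_lit 23179, nat_lit 42859] (nat_lit 1) [] false,
   Spec.mk (nat_lit 23179) (nat_lit 0) [nat_lit 10057, nat_lit 27553, nat_lit 21721, nat_lit 24637, nat_lit 23665, nat_lit 23017, nat_lit 23125, nat_lit 23197, nat_lit 23173, nat_lit 23185, nat_lit 23177, nat_lit 23181, nat_lit 42861, nat_lit 3497] (nat_lit 0) [] false,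
   Spec.mk (nat_lit 23181) (nat_lit 0) [nat_lit 10059, nat_lit 27555, nat_lit 21723, nat_lit 24639, nat_lit 23667, nat_lit 23019, nat_lit 23127, nat_lit 23199, nat_lit 23187, nat_lit 23179, nat_lit 3499] (nat_lit 1) [] false,
   Spec.mk (nat_lit 23185) (nat_lit 0) [nat_lit 10063, nat_lit 27559, nat_lit 21727, nat_lit 24643, nat_lit 23671, nat_lit 23023, nat_lit 23131, nat_lit 23203, nat_lit 23179, nat_lit 23187, nat_lit 42867, nat_lit 3503] (nat_lit 2) [] false,
   Spec.mk (nat_lit 23187) (nat_lit 0) [nat_lit 10065, nat_lit 27561, nat_lit 21729, nat_lit 24645, nat_lit 23673, nat_lit 23025, nat_lit 23133, nat_lit 23205, nat_lit 23181, nat_lit 23185, nat_lit 3505] (nat_lit 1) [] false,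
   Spec.mk (nat_lit 23195) (nat_lit 0) [nat_lit 10073, nat_lit 27569, nat_lit 21737, nat_lit 24653, nat_lit 23681, nat_lit 23033, nat_lit 23141, nat_lit 23249, nat_lit 23177, nat_lit 23197, nat_lit 42877] (nat_lit 0) [] false,
   Spec.mk (nat_lit 23197) (nat_lit 0) [nat_lit 10075, nat_lit 27571, nat_lit 21739, nat_lit 24655, nat_lit 23683, nat_lit 23035, nat_lit 23143, nat_lit 23251, nat_lit 23179, nat_lit 23203, nat_lit 23195, nat_lit 23199, nat_lit 42879, nat_lit 3515] (nat_lit 0) [] false,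
   Spec.mk (nat_lit 23199) (nat_lit 0) [nat_lit 10077, nat_lit 27573, nat_lit 21741, nat_lit 24657, nat_lit 23685, nat_lit 23037, nat_lit 23145, nat_lit 23253, nat_lit 23181, nat_lit 23205, nat_lit 23197, nat_lit 3517] (nat_lit 2) [] false,
   Spec.mk (nat_lit 23203) (nat_lit 0) [nat_lit 10081, nat_lit 27577, nat_lit 21745, nat_lit 24661, nat_lit 23689, nat_lit 23041, nat_lit 23149, nat_lit 23257, nat_lit 23185, nat_lit 23221, nat_lit 23197, nat_lit 23205, nat_lit 42885, nat_lit 3521] (nat_lit 0) [] false,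
   Spec.mk (nat_lit 23205) (nat_lit 0) [nat_lit 10083, nat_lit 27579, nat_lit 21747, nat_lit 24663, nat_lit 23691, nat_lit 23043, nat_lit 23151, nat_lit 23259, nat_lit 23187, nat_lit 23223, nat_lit 23199, nat_lit 23211, nat_lit 23203, nat_lit 3523] (nat_lit 0) [] false,
   Spec.mk (nat_lit 23211) (nat_lit 0) [nat_lit 10089, nat_lit 27585, nat_lit 21753, nat_lit 24669, nat_lit 23697, nat_lit 23049, nat_lit 23157, nat_lit 23265, nat_lit 23229, nat_lit 23205, nat_lit 3529] (nat_lit 0) [] false,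
   Spec.mk (nat_lit 23221) (nat_lit 0) [nat_lit 10099, nat_lit 27595, nat_lit 21763, nat_lit 24679, nat_lit 23707, nat_lit 23059, nat_lit 23275, nat_lit 23203, nat_lit 23223, nat_lit 42903, nat_lit 3539] (nat_lit 0) [] false,
   Spec.mk (nat_lit 23223) (nat_lit 0) [nat_lit 10101, nat_lit 27597, nat_lit 21765, nat_lit 24681, nat_lit 23709, nat_lit 23061, nat_lit 23277, nat_lit 23205, nat_lit 23229, nat_lit 23221, nat_lit 3541] (nat_lit 1) [] false,
   Spec.mk (nat_lit 23229) (nat_lit 1) [nat_lit 10107, nat_lit 27603, nat_lit 21771, nat_lit 24687, nat_lit 23715, nat_lit 23067, nat_lit 23283, nat_lit 23211, nat_lit 23223, nat_lit 3547] (nat_lit 0) [] false,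
   Spec.mk (nat_lit 23249) (nat_lit 1) [nat_lit 10127, nat_lit 27623, nat_lit 21791, nat_lit 24707, nat_lit 23735, nat_lit 23195, nat_lit 23251, nat_lit 42931] (nat_lit 0) [] false,
   Spec.mk (nat_lit 23251) (nat_lit 1) [nat_lit 10129, nat_lit 27625, nat_lit 21793, nat_lit 24709, nat_lit 23737, nat_lit 23197, nat_lit 23257, nat_lit 23249, nat_lit 23253, nat_lit 42933, nat_lit 3569] (nat_lit 0) [] false,
   Spec.mk (nat_lit 23253) (nat_lit 0) [nat_lit 10131, nat_lit 27627, nat_lit 21795, nat_lit 24711, nat_lit 23739, nat_lit 23199, nat_lit 23259, nat_lit 23251, nat_lit 3571] (nat_lit 1) [] false,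
   Spec.mk (nat_lit 23257) (nat_lit 0) [nat_lit 10135, nat_lit 27631, nat_lit 21799, nat_lit 24715, nat_lit 23743, nat_lit 23203, nat_lit 23275, nat_lit 23251, nat_lit 23259, nat_lit 42939, nat_lit 3575] (nat_lit 0) [] false,
   Spec.mk (nat_lit 23259) (nat_lit 0) [nat_lit 10137, nat_lit 27633, nat_lit 21801, nat_lit 24717, nat_lit 23745, nat_lit 23205, nat_lit 23277, nat_lit 23253, nat_lit 23265, nat_lit 23257, nat_lit 3577] (nat_lit 0) [] false,
   Spec.mk (nat_lit 23265) (nat_lit 0) [nat_lit 10143, nat_lit 27639, nat_lit 21807, nat_lit 24723, nat_lit 23751, nat_lit 23211, nat_lit 23283, nat_lit 23259, nat_lit 3583] (nat_lit 1) [] false,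
   Spec.mk (nat_lit 23275) (nat_lit 2) [nat_lit 10153, nat_lit 27649, nat_lit 21817, nat_lit 24733, nat_lit 23761, nat_lit 23221, nat_lit 23257, nat_lit 23277, nat_lit 42957, nat_lit 3593] (nat_lit 0) [] false,
   Spec.mk (nat_lit 23277) (nat_lit 1) [nat_lit 10155, nat_lit 27651, nat_lit 21819, nat_lit 24735, nat_lit 23763, nat_lit 23223, nat_lit 23259, nat_lit 23283, nat_lit 23275, nat_lit 3595] (nat_lit 0) [] false,
   Spec.mk (nat_lit 23283) (nat_lit 2) [nat_lit 10161, nat_lit 27657, nat_lit 21825, nat_lit 24741, nat_lit 23769, nat_lit 23229, nat_lit 23265, nat_lit 23301, nat_lit 23277, nat_lit 3601] (nat_lit 0) [] false,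
   Spec.mk (nat_lit 23301) (nat_lit 3) [nat_lit 10179, nat_lit 27675, nat_lit 21843, nat_lit 24759, nat_lit 23787, nat_lit 23283, nat_lit 3619] (nat_lit 0) [] false,
   Spec.mk (nat_lit 23345) (nat_lit 2) [nat_lit 10223, nat_lit 27719, nat_lit 24803, nat_lit 22859, nat_lit 23363, nat_lit 23351, nat_lit 43027] (nat_lit 0) [] false,
   Spec.mk (nat_lit 23351) (nat_lit 0) [nat_lit 10229, nat_lit 27725, nat_lit 24809, nat_lit 22865, nat_lit 23369, nat_lit 23345, nat_lit 23353, nat_lit 43033] (nat_lit 0) [] false,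
   Spec.mk (nat_lit 23353) (nat_lit 1) [nat_lit 10231, nat_lit 27727, nat_lit 24811, nat_lit 22867, nat_lit 23371, nat_lit 23351, nat_lit 43035, nat_lit 3671] (nat_lit 0) [] false,
   Spec.mk (nat_lit 23363) (nat_lit 0) [nat_lit 10241, nat_lit 27737, nat_lit 24821, nat_lit 22877, nat_lit 23417, nat_lit 23345, nat_lit 23369, nat_lit 43045] (nat_lit 0) [] false,
   Spec.mk (nat_lit 23369) (nat_lit 0) [nat_lit 10247, nat_lit 27743, nat_lit 24827, nat_lit 22883, nat_lit 23423, nat_lit 23351, nat_lit 23387, nat_lit 23363, nat_lit 23375, nat_lit 23371, nat_lit 43051] (nat_lit 0) [] false,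
   Spec.mk (nat_lit 23371) (nat_lit 0) [nat_lit 10249, nat_lit 27745, nat_lit 24829, nat_lit 22885, nat_lit 23425, nat_lit 23353, nat_lit 23389, nat_lit 23377, nat_lit 23369, nat_lit 43053, nat_lit 3689] (nat_lit 0) [] false,
   Spec.mk (nat_lit 23375) (nat_lit 0) [nat_lit 10253, nat_lit 27749, nat_lit 24833, nat_lit 22889, nat_lit 23429, nat_lit 23393, nat_lit 23369, nat_lit 23377, nat_lit 43057] (nat_lit 2) [] false,
   Spec.mk (nat_lit 23377) (nat_lit 0) [nat_lit 10255, nat_lit 27751, nat_lit 24835, nat_lit 22891, nat_lit 23431, nat_lit 23395, nat_lit 23371, nat_lit 23375, nat_lit 23379, nat_lit 43059, nat_lit 3695] (nat_lit 0) [] false,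
   Spec.mk (nat_lit 23379) (nat_lit 0) [nat_lit 10257, nat_lit 27753, nat_lit 24837, nat_lit 22893, nat_lit 23433, nat_lit 23397, nat_lit 23377, nat_lit 3697] (nat_lit 0) [] false,
   Spec.mk (nat_lit 23387) (nat_lit 0) [nat_lit 10265, nat_lit 27761, nat_lit 24845, nat_lit 22901, nat_lit 23441, nat_lit 23369, nat_lit 23393, nat_lit 23389, nat_lit 43069] (nat_lit 2) [] false,
   Spec.mk (nat_lit 23389) (nat_lit 0) [nat_lit 10267, nat_lit 27763, nat_lit 24847, nat_lit 22903, nat_lit 23443, nat_lit 23371, nat_lit 23395, nat_lit 23387, nat_lit 43071, nat_lit 3707] (nat_lit 3) [] false,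
   Spec.mk (nat_lit 23393) (nat_lit 0) [nat_lit 10271, nat_lit 27767, nat_lit 24851, nat_lit 22907, nat_lit 23447, nat_lit 23375, nat_lit 23387, nat_lit 23395, nat_lit 43075] (nat_lit 2) [] false,
   Spec.mk (nat_lit 23395) (nat_lit 0) [nat_lit 10273, nat_lit 27769, nat_lit 24853, nat_lit 22909, nat_lit 23449, nat_lit 23377, nat_lit 23389, nat_lit 23401, nat_lit 23393, nat_lit 23397, nat_lit 43077, nat_lit 3713] (nat_lit 1) [] false,
   Spec.mk (nat_lit 23397) (nat_lit 0) [nat_lit 10275, nat_lit 27771, nat_lit 24855, nat_lit 22911, nat_lit 23451, nat_lit 23379, nat_lit 23403, nat_lit 23395, nat_lit 3715] (nat_lit 2) [] false,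
   Spec.mk (nat_lit 23401) (nat_lit 0) [nat_lit 10279, nat_lit 27775, nat_lit 24859, nat_lit 22915, nat_lit 23455, nat_lit 23395, nat_lit 23403, nat_lit 43083, nat_lit 3719] (nat_lit 1) [] false,
   Spec.mk (nat_lit 23403) (nat_lit 0) [nat_lit 10281, nat_lit 27777, nat_lit 24861, nat_lit 22917, nat_lit 23457, nat_lit 23397, nat_lit 23401, nat_lit 3721] (nat_lit 0) [] false,
   Spec.mk (nat_lit 23417) (nat_lit 0) [nat_lit 10295, nat_lit 27791, nat_lit 24875, nat_lit 22931, nat_lit 23579, nat_lit 23363, nat_lit 23423, nat_lit 43099] (nat_lit 0) [] false]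

noncomputable def sp63 : List Spec :=
  [Spec.mk (nat_lit 23423) (nat_lit 0) [nat_lit 10301, nat_lit 27797, nat_lit 24881, nat_lit 22937, nat_lit 23585, nat_lit 23369, nat_lit 23441, nat_lit 23417, nat_lit 23429, nat_lit 23425, nat_lit 43105] (nat_lit 1) [] false,
   Spec.mk (nat_lit 23425) (nat_lit 0) [nat_lit 10303, nat_lit 27799, nat_lit 24883, nat_lit 22939, nat_lit 23587, nat_lit 23371, nat_lit 23443, nat_lit 23431, nat_lit 23423, nat_lit 43107, nat_lit 3743] (nat_lit 1) [] false,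
   Spec.mk (nat_lit 23429) (nat_lit 0) [nat_lit 10307, nat_lit 27803, nat_lit 24887, nat_lit 22943, nat_lit 23591, nat_lit 23375, nat_lit 23447, nat_lit 23423, nat_lit 23431, nat_lit 43111] (nat_lit 4) [] false,
   Spec.mk (nat_lit 23431) (nat_lit 0) [nat_lit 10309, nat_lit 27805, nat_lit 24889, nat_lit 22945, nat_lit 23593, nat_lit 23377, nat_lit 23449, nat_lit 23425, nat_lit 23429, nat_lit 23433, nat_lit 43113, nat_lit 3749] (nat_lit 2) [] false,
   Spec.mk (nat_lit 23433) (nat_lit 0) [nat_lit 10311, nat_lit 27807, nat_lit 24891, nat_lit 22947, nat_lit 23595, nat_lit 23379, nat_lit 23451, nat_lit 23431, nat_lit 3751] (nat_lit 2) [] false,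
   Spec.mk (nat_lit 23441) (nat_lit 0) [nat_lit 10319, nat_lit 27815, nat_lit 24899, nat_lit 22955, nat_lit 23603, nat_lit 23387, nat_lit 23495, nat_lit 23423, nat_lit 23447, nat_lit 23443, nat_lit 43123] (nat_lit 1) [] false,
   Spec.mk (nat_lit 23443) (nat_lit 0) [nat_lit 10321, nat_lit 27817, nat_lit 24901, nat_lit 22957, nat_lit 23605, nat_lit 23389, nat_lit 23497, nat_lit 23425, nat_lit 23449, nat_lit 23441, nat_lit 43125, nat_lit 3761] (nat_lit 2) [] false,
   Spec.mk (nat_lit 23447) (nat_lit 0) [nat_lit 10325, nat_lit 27821, nat_lit 24905, nat_lit 22961, nat_lit 23609, nat_lit 23393, nat_lit 23501, nat_lit 23429, nat_lit 23465, nat_lit 23441, nat_lit 23449, nat_lit 43129] (nat_lit 2) [] false,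
   Spec.mk (nat_lit 23449) (nat_lit 0) [nat_lit 10327, nat_lit 27823, nat_lit 24907, nat_lit 22963, nat_lit 23611, nat_lit 23395, nat_lit 23503, nat_lit 23431, nat_lit 23467, nat_lit 23443, nat_lit 23455, nat_lit 23447, nat_lit 23451, nat_lit 43131, nat_lit 3767] (nat_lit 1) [] false,
   Spec.mk (nat_lit 23451) (nat_lit 0) [nat_lit 10329, nat_lit 27825, nat_lit 24909, nat_lit 22965, nat_lit 23613, nat_lit 23397, nat_lit 23505, nat_lit 23433, nat_lit 23469, nat_lit 23457, nat_lit 23449, nat_lit 3769] (nat_lit 2) [] false,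
   Spec.mk (nat_lit 23455) (nat_lit 0) [nat_lit 10333, nat_lit 27829, nat_lit 24913, nat_lit 22969, nat_lit 23617, nat_lit 23401, nat_lit 23509, nat_lit 23473, nat_lit 23449, nat_lit 23457, nat_lit 43137, nat_lit 3773] (nat_lit 2) [] false,
   Spec.mk (nat_lit 23457) (nat_lit 0) [nat_lit 10335, nat_lit 27831, nat_lit 24915, nat_lit 22971, nat_lit 23619, nat_lit 23403, nat_lit 23511, nat_lit 23475, nat_lit 23451, nat_lit 23455, nat_lit 3775] (nat_lit 1) [] false,
   Spec.mk (nat_lit 23465) (nat_lit 0) [nat_lit 10343, nat_lit 27839, nat_lit 24923, nat_lit 22979, nat_lit 23627, nat_lit 23519, nat_lit 23447, nat_lit 23467, nat_lit 43147] (nat_lit 2) [] false,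
   Spec.mk (nat_lit 23467) (nat_lit 0) [nat_lit 10345, nat_lit 27841, nat_lit 24925, nat_lit 22981, nat_lit 23629, nat_lit 23521, nat_lit 23449, nat_lit 23473, nat_lit 23465, nat_lit 23469, nat_lit 43149, nat_lit 3785] (nat_lit 2) [] false,
   Spec.mk (nat_lit 23469) (nat_lit 0) [nat_lit 10347, nat_lit 27843, nat_lit 24927, nat_lit 22983, nat_lit 23631, nat_lit 23523, nat_lit 23451, nat_lit 23475, nat_lit 23467, nat_lit 3787] (nat_lit 4) [] false,
   Spec.mk (nat_lit 23473) (nat_lit 0) [nat_lit 10351, nat_lit 27847, nat_lit 24931, nat_lit 22987, nat_lit 23635, nat_lit 23527, nat_lit 23455, nat_lit 23467, nat_lit 23475, nat_lit 43155, nat_lit 3791] (nat_lit 1) [] false,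
   Spec.mk (nat_lit 23475) (nat_lit 0) [nat_lit 10353, nat_lit 27849, nat_lit 24933, nat_lit 22989, nat_lit 23637, nat_lit 23529, nat_lit 23457, nat_lit 23469, nat_lit 23481, nat_lit 23473, nat_lit 3793] (nat_lit 1) [] false,
   Spec.mk (nat_lit 23481) (nat_lit 0) [nat_lit 10359, nat_lit 27855, nat_lit 24939, nat_lit 22995, nat_lit 23643, nat_lit 23535, nat_lit 23475, nat_lit 3799] (nat_lit 0) [] false,
   Spec.mk (nat_lit 23495) (nat_lit 0) [nat_lit 10373, nat_lit 27869, nat_lit 24953, nat_lit 23009, nat_lit 23657, nat_lit 23441, nat_lit 23501, nat_lit 23497, nat_lit 43177] (nat_lit 2) [] false,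
   Spec.mk (nat_lit 23497) (nat_lit 0) [nat_lit 10375, nat_lit 27871, nat_lit 24955, nat_lit 23011, nat_lit 23659, nat_lit 23443, nat_lit 23503, nat_lit 23495, nat_lit 43179, nat_lit 3815] (nat_lit 3) [] false,
   Spec.mk (nat_lit 23501) (nat_lit 0) [nat_lit 10379, nat_lit 27875, nat_lit 24959, nat_lit 23015, nat_lit 23663, nat_lit 23447, nat_lit 23519, nat_lit 23495, nat_lit 23503, nat_lit 43183] (nat_lit 4) [] false,
   Spec.mk (nat_lit 23503) (nat_lit 0) [nat_lit 10381, nat_lit 27877, nat_lit 24961, nat_lit 23017, nat_lit 23665, nat_lit 23449, nat_lit 23521, nat_lit 23497, nat_lit 23509, nat_lit 23501, nat_lit 23505, nat_lit 43185, nat_lit 3821] (nat_lit 3) [] false,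
   Spec.mk (nat_lit 23505) (nat_lit 0) [nat_lit 10383, nat_lit 27879, nat_lit 24963, nat_lit 23019, nat_lit 23667, nat_lit 23451, nat_lit 23523, nat_lit 23511, nat_lit 23503, nat_lit 3823] (nat_lit 4) [] false,
   Spec.mk (nat_lit 23509) (nat_lit 0) [nat_lit 10387, nat_lit 27883, nat_lit 24967, nat_lit 23023, nat_lit 23671, nat_lit 23455, nat_lit 23527, nat_lit 23503, nat_lit 23511, nat_lit 43191, nat_lit 3827] (nat_lit 5) [] false,
   Spec.mk (nat_lit 23511) (nat_lit 0) [nat_lit 10389, nat_lit 27885, nat_lit 24969, nat_lit 23025, nat_lit 23673, nat_lit 23457, nat_lit 23529, nat_lit 23505, nat_lit 23509, nat_lit 3829] (nat_lit 4) [] false,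
   Spec.mk (nat_lit 23519) (nat_lit 0) [nat_lit 10397, nat_lit 27893, nat_lit 24977, nat_lit 23033, nat_lit 23681, nat_lit 23465, nat_lit 23501, nat_lit 23521, nat_lit 43201] (nat_lit 2) [] false,
   Spec.mk (nat_lit 23521) (nat_lit 0) [nat_lit 10399, nat_lit 27895, nat_lit 24979, nat_lit 23035, nat_lit 23683, nat_lit 23467, nat_lit 23503, nat_lit 23527, nat_lit 23519, nat_lit 23523, nat_lit 43203, nat_lit 3839] (nat_lit 2) [] false,
   Spec.mk (nat_lit 23523) (nat_lit 0) [nat_lit 10401, nat_lit 27897, nat_lit 24981, nat_lit 23037, nat_lit 23685, nat_lit 23469, nat_lit 23505, nat_lit 23529, nat_lit 23521, nat_lit 3841] (nat_lit 4) [] false,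
   Spec.mk (nat_lit 23527) (nat_lit 0) [nat_lit 10405, nat_lit 27901, nat_lit 24985, nat_lit 23041, nat_lit 23689, nat_lit 23473, nat_lit 23509, nat_lit 23545, nat_lit 23521, nat_lit 23529, nat_lit 43209, nat_lit 3845] (nat_lit 2) [] false,
   Spec.mk (nat_lit 23529) (nat_lit 0) [nat_lit 10407, nat_lit 27903, nat_lit 24987, nat_lit 23043, nat_lit 23691, nat_lit 23475, nat_lit 23511, nat_lit 23547, nat_lit 23523, nat_lit 23535, nat_lit 23527, nat_lit 3847] (nat_lit 2) [] false,
   Spec.mk (nat_lit 23535) (nat_lit 0) [nat_lit 10413, nat_lit 27909, nat_lit 24993, nat_lit 23049, nat_lit 23697, nat_lit 23481, nat_lit 23553, nat_lit 23529, nat_lit 3853] (nat_lit 2) [] false,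
   Spec.mk (nat_lit 23545) (nat_lit 0) [nat_lit 10423, nat_lit 27919, nat_lit 25003, nat_lit 23059, nat_lit 23707, nat_lit 23527, nat_lit 23547, nat_lit 43227, nat_lit 3863] (nat_lit 1) [] false,
   Spec.mk (nat_lit 23547) (nat_lit 0) [nat_lit 10425, nat_lit 27921, nat_lit 25005, nat_lit 23061, nat_lit 23709, nat_lit 23529, nat_lit 23553, nat_lit 23545, nat_lit 3865] (nat_lit 2) [] false,
   Spec.mk (nat_lit 23553) (nat_lit 0) [nat_lit 10431, nat_lit 27927, nat_lit 25011, nat_lit 23067, nat_lit 23715, nat_lit 23535, nat_lit 23547, nat_lit 3871] (nat_lit 0) [] false,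
   Spec.mk (nat_lit 23579) (nat_lit 2) [nat_lit 10457, nat_lit 27953, nat_lit 25037, nat_lit 23093, nat_lit 23417, nat_lit 23585, nat_lit 43261] (nat_lit 0) [] false,
   Spec.mk (nat_lit 23585) (nat_lit 1) [nat_lit 10463, nat_lit 27959, nat_lit 25043, nat_lit 23099, nat_lit 23423, nat_lit 23603, nat_lit 23579, nat_lit 23591, nat_lit 23587, nat_lit 43267] (nat_lit 0) [] false,
   Spec.mk (nat_lit 23587) (nat_lit 1) [nat_lit 10465, nat_lit 27961, nat_lit 25045, nat_lit 23101, nat_lit 23425, nat_lit 23605, nat_lit 23593, nat_lit 23585, nat_lit 43269, nat_lit 3905] (nat_lit 0) [] false,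
   Spec.mk (nat_lit 23591) (nat_lit 0) [nat_lit 10469, nat_lit 27965, nat_lit 25049, nat_lit 23105, nat_lit 23429, nat_lit 23609, nat_lit 23585, nat_lit 23593, nat_lit 43273] (nat_lit 2) [] false,
   Spec.mk (nat_lit 23593) (nat_lit 0) [nat_lit 10471, nat_lit 27967, nat_lit 25051, nat_lit 23107, nat_lit 23431, nat_lit 23611, nat_lit 23587, nat_lit 23591, nat_lit 23595, nat_lit 43275, nat_lit 3911] (nat_lit 0) [] false,
   Spec.mk (nat_lit 23595) (nat_lit 0) [nat_lit 10473, nat_lit 27969, nat_lit 25053, nat_lit 23109, nat_lit 23433, nat_lit 23613, nat_lit 23593, nat_lit 3913] (nat_lit 0) [] false,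
   Spec.mk (nat_lit 23603) (nat_lit 0) [nat_lit 10481, nat_lit 27977, nat_lit 25061, nat_lit 23117, nat_lit 23441, nat_lit 23657, nat_lit 23585, nat_lit 23609, nat_lit 23605, nat_lit 43285] (nat_lit 0) [] false,
   Spec.mk (nat_lit 23605) (nat_lit 0) [nat_lit 10483, nat_lit 27979, nat_lit 25063, nat_lit 23119, nat_lit 23443, nat_lit 23659, nat_lit 23587, nat_lit 23611, nat_lit 23603, nat_lit 43287, nat_lit 3923] (nat_lit 1) [] false,
   Spec.mk (nat_lit 23609) (nat_lit 0) [nat_lit 10487, nat_lit 27983, nat_lit 25067, nat_lit 23123, nat_lit 23447, nat_lit 23663, nat_lit 23591, nat_lit 23627, nat_lit 23603, nat_lit 23611, nat_lit 43291] (nat_lit 1) [] false,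
   Spec.mk (nat_lit 23611) (nat_lit 0) [nat_lit 10489, nat_lit 27985, nat_lit 25069, nat_lit 23125, nat_lit 23449, nat_lit 23665, nat_lit 23593, nat_lit 23629, nat_lit 23605, nat_lit 23617, nat_lit 23609, nat_lit 23613, nat_lit 43293, nat_lit 3929] (nat_lit 0) [] false,
   Spec.mk (nat_lit 23613) (nat_lit 0) [nat_lit 10491, nat_lit 27987, nat_lit 25071, nat_lit 23127, nat_lit 23451, nat_lit 23667, nat_lit 23595, nat_lit 23631, nat_lit 23619, nat_lit 23611, nat_lit 3931] (nat_lit 1) [] false,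
   Spec.mk (nat_lit 23617) (nat_lit 0) [nat_lit 10495, nat_lit 27991, nat_lit 25075, nat_lit 23131, nat_lit 23455, nat_lit 23671, nat_lit 23635, nat_lit 23611, nat_lit 23619, nat_lit 43299, nat_lit 3935] (nat_lit 1) [] false,
   Spec.mk (nat_lit 23619) (nat_lit 0) [nat_lit 10497, nat_lit 27993, nat_lit 25077, nat_lit 23133, nat_lit 23457, nat_lit 23673, nat_lit 23637, nat_lit 23613, nat_lit 23617, nat_lit 3937] (nat_lit 0) [] false,
   Spec.mk (nat_lit 23627) (nat_lit 0) [nat_lit 10505, nat_lit 28001, nat_lit 25085, nat_lit 23141, nat_lit 23465, nat_lit 23681, nat_lit 23609, nat_lit 23629, nat_lit 43309] (nat_lit 2) [] false,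
   Spec.mk (nat_lit 23629) (nat_lit 0) [nat_lit 10507, nat_lit 28003, nat_lit 25087, nat_lit 23143, nat_lit 23467, nat_lit 23683, nat_lit 23611, nat_lit 23635, nat_lit 23627, nat_lit 23631, nat_lit 43311, nat_lit 3947] (nat_lit 2) [] false,
   Spec.mk (nat_lit 23631) (nat_lit 0) [nat_lit 10509, nat_lit 28005, nat_lit 25089, nat_lit 23145, nat_lit 23469, nat_lit 23685, nat_lit 23613, nat_lit 23637, nat_lit 23629, nat_lit 3949] (nat_lit 4) [] false,
   Spec.mk (nat_lit 23635) (nat_lit 0) [nat_lit 10513, nat_lit 28009, nat_lit 25093, nat_lit 23149, nat_lit 23473, nat_lit 23689, nat_lit 23617, nat_lit 23629, nat_lit 23637, nat_lit 43317, nat_lit 3953] (nat_lit 1) [] false,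
   Spec.mk (nat_lit 23637) (nat_lit 0) [nat_lit 10515, nat_lit 28011, nat_lit 25095, nat_lit 23151, nat_lit 23475, nat_lit 23691, nat_lit 23619, nat_lit 23631, nat_lit 23643, nat_lit 23635, nat_lit 3955] (nat_lit 1) [] false,
   Spec.mk (nat_lit 23643) (nat_lit 0) [nat_lit 10521, nat_lit 28017, nat_lit 25101, nat_lit 23157, nat_lit 23481, nat_lit 23697, nat_lit 23637, nat_lit 3961] (nat_lit 0) [] false,
   Spec.mk (nat_lit 23657) (nat_lit 1) [nat_lit 10535, nat_lit 28031, nat_lit 25115, nat_lit 23171, nat_lit 23495, nat_lit 23819, nat_lit 23603, nat_lit 23663, nat_lit 23659, nat_lit 43339] (nat_lit 0) [] false,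
   Spec.mk (nat_lit 23659) (nat_lit 0) [nat_lit 10537, nat_lit 28033, nat_lit 25117, nat_lit 23173, nat_lit 23497, nat_lit 23821, nat_lit 23605, nat_lit 23665, nat_lit 23657, nat_lit 43341, nat_lit 3977] (nat_lit 0) [] false,
   Spec.mk (nat_lit 23663) (nat_lit 0) [nat_lit 10541, nat_lit 28037, nat_lit 25121, nat_lit 23177, nat_lit 23501, nat_lit 23825, nat_lit 23609, nat_lit 23681, nat_lit 23657, nat_lit 23665, nat_lit 43345] (nat_lit 1) [] false,
   Spec.mk (nat_lit 23665) (nat_lit 0) [nat_lit 10543, nat_lit 28039, nat_lit 25123, nat_lit 23179, nat_lit 23503, nat_lit 23827, nat_lit 23611, nat_lit 23683, nat_lit 23659, nat_lit 23671, nat_lit 23663, nat_lit 23667, nat_lit 43347, nat_lit 3983] (nat_lit 0) [] false,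
   Spec.mk (nat_lit 23667) (nat_lit 0) [nat_lit 10545, nat_lit 28041, nat_lit 25125, nat_lit 23181, nat_lit 23505, nat_lit 23829, nat_lit 23613, nat_lit 23685, nat_lit 23673, nat_lit 23665, nat_lit 3985] (nat_lit 1) [] false,
   Spec.mk (nat_lit 23671) (nat_lit 0) [nat_lit 10549, nat_lit 28045, nat_lit 25129, nat_lit 23185, nat_lit 23509, nat_lit 23833, nat_lit 23617, nat_lit 23689, nat_lit 23665, nat_lit 23673, nat_lit 43353, nat_lit 3989] (nat_lit 2) [] false,
   Spec.mk (nat_lit 23673) (nat_lit 0) [nat_lit 10551, nat_lit 28047, nat_lit 25131, nat_lit 23187, nat_lit 23511, nat_lit 23835, nat_lit 23619, nat_lit 23691, nat_lit 23667, nat_lit 23671, nat_lit 3991] (nat_lit 1) [] false]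

noncomputable def sp64 : List Spec :=
  [Spec.mk (nat_lit 23681) (nat_lit 0) [nat_lit 10559, nat_lit 28055, nat_lit 25139, nat_lit 23195, nat_lit 23519, nat_lit 23843, nat_lit 23627, nat_lit 23735, nat_lit 23663, nat_lit 23683, nat_lit 43363] (nat_lit 0) [] false,
   Spec.mk (nat_lit 23683) (nat_lit 0) [nat_lit 10561, nat_lit 28057, nat_lit 25141, nat_lit 23197, nat_lit 23521, nat_lit 23845, nat_lit 23629, nat_lit 23737, nat_lit 23665, nat_lit 23689, nat_lit 23681, nat_lit 23685, nat_lit 43365, nat_lit 4001] (nat_lit 0) [] false,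
   Spec.mk (nat_lit 23685) (nat_lit 0) [nat_lit 10563, nat_lit 28059, nat_lit 25143, nat_lit 23199, nat_lit 23523, nat_lit 23847, nat_lit 23631, nat_lit 23739, nat_lit 23667, nat_lit 23691, nat_lit 23683, nat_lit 4003] (nat_lit 2) [] false,
   Spec.mk (nat_lit 23689) (nat_lit 0) [nat_lit 10567, nat_lit 28063, nat_lit 25147, nat_lit 23203, nat_lit 23527, nat_lit 23851, nat_lit 23635, nat_lit 23743, nat_lit 23671, nat_lit 23707, nat_lit 23683, nat_lit 23691, nat_lit 43371, nat_lit 4007] (nat_lit 0) [] false,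
   Spec.mk (nat_lit 23691) (nat_lit 0) [nat_lit 10569, nat_lit 28065, nat_lit 25149, nat_lit 23205, nat_lit 23529, nat_lit 23853, nat_lit 23637, nat_lit 23745, nat_lit 23673, nat_lit 23709, nat_lit 23685, nat_lit 23697, nat_lit 23689, nat_lit 4009] (nat_lit 0) [] false,
   Spec.mk (nat_lit 23697) (nat_lit 0) [nat_lit 10575, nat_lit 28071, nat_lit 25155, nat_lit 23211, nat_lit 23535, nat_lit 23859, nat_lit 23643, nat_lit 23751, nat_lit 23715, nat_lit 23691, nat_lit 4015] (nat_lit 0) [] false,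
   Spec.mk (nat_lit 23707) (nat_lit 0) [nat_lit 10585, nat_lit 28081, nat_lit 25165, nat_lit 23221, nat_lit 23545, nat_lit 23869, nat_lit 23761, nat_lit 23689, nat_lit 23709, nat_lit 43389, nat_lit 4025] (nat_lit 0) [] false,
   Spec.mk (nat_lit 23709) (nat_lit 0) [nat_lit 10587, nat_lit 28083, nat_lit 25167, nat_lit 23223, nat_lit 23547, nat_lit 23871, nat_lit 23763, nat_lit 23691, nat_lit 23715, nat_lit 23707, nat_lit 4027] (nat_lit 1) [] false,
   Spec.mk (nat_lit 23715) (nat_lit 1) [nat_lit 10593, nat_lit 28089, nat_lit 25173, nat_lit 23229, nat_lit 23553, nat_lit 23877, nat_lit 23769, nat_lit 23697, nat_lit 23709, nat_lit 4033] (nat_lit 0) [] false,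
   Spec.mk (nat_lit 23735) (nat_lit 0) [nat_lit 10613, nat_lit 28109, nat_lit 25193, nat_lit 23249, nat_lit 23897, nat_lit 23681, nat_lit 23737, nat_lit 43417] (nat_lit 0) [] false,
   Spec.mk (nat_lit 23737) (nat_lit 0) [nat_lit 10615, nat_lit 28111, nat_lit 25195, nat_lit 23251, nat_lit 23899, nat_lit 23683, nat_lit 23743, nat_lit 23735, nat_lit 23739, nat_lit 43419, nat_lit 4055] (nat_lit 0) [] false,
   Spec.mk (nat_lit 23739) (nat_lit 0) [nat_lit 10617, nat_lit 28113, nat_lit 25197, nat_lit 23253, nat_lit 23901, nat_lit 23685, nat_lit 23745, nat_lit 23737, nat_lit 4057] (nat_lit 2) [] false,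
   Spec.mk (nat_lit 23743) (nat_lit 0) [nat_lit 10621, nat_lit 28117, nat_lit 25201, nat_lit 23257, nat_lit 23905, nat_lit 23689, nat_lit 23761, nat_lit 23737, nat_lit 23745, nat_lit 43425, nat_lit 4061] (nat_lit 1) [] false,
   Spec.mk (nat_lit 23745) (nat_lit 0) [nat_lit 10623, nat_lit 28119, nat_lit 25203, nat_lit 23259, nat_lit 23907, nat_lit 23691, nat_lit 23763, nat_lit 23739, nat_lit 23751, nat_lit 23743, nat_lit 4063] (nat_lit 1) [] false,
   Spec.mk (nat_lit 23751) (nat_lit 0) [nat_lit 10629, nat_lit 28125, nat_lit 25209, nat_lit 23265, nat_lit 23913, nat_lit 23697, nat_lit 23769, nat_lit 23745, nat_lit 4069] (nat_lit 2) [] false,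
   Spec.mk (nat_lit 23761) (nat_lit 1) [nat_lit 10639, nat_lit 28135, nat_lit 25219, nat_lit 23275, nat_lit 23923, nat_lit 23707, nat_lit 23743, nat_lit 23763, nat_lit 43443, nat_lit 4079] (nat_lit 0) [] false,
   Spec.mk (nat_lit 23763) (nat_lit 0) [nat_lit 10641, nat_lit 28137, nat_lit 25221, nat_lit 23277, nat_lit 23925, nat_lit 23709, nat_lit 23745, nat_lit 23769, nat_lit 23761, nat_lit 4081] (nat_lit 0) [] false,
   Spec.mk (nat_lit 23769) (nat_lit 1) [nat_lit 10647, nat_lit 28143, nat_lit 25227, nat_lit 23283, nat_lit 23931, nat_lit 23715, nat_lit 23751, nat_lit 23787, nat_lit 23763, nat_lit 4087] (nat_lit 0) [] false,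
   Spec.mk (nat_lit 23787) (nat_lit 2) [nat_lit 10665, nat_lit 28161, nat_lit 25245, nat_lit 23301, nat_lit 23949, nat_lit 23769, nat_lit 4105] (nat_lit 0) [] false,
   Spec.mk (nat_lit 23819) (nat_lit 2) [nat_lit 10697, nat_lit 28193, nat_lit 25277, nat_lit 23657, nat_lit 23825, nat_lit 23821, nat_lit 43501] (nat_lit 0) [] false,
   Spec.mk (nat_lit 23821) (nat_lit 1) [nat_lit 10699, nat_lit 28195, nat_lit 25279, nat_lit 23659, nat_lit 23827, nat_lit 23819, nat_lit 43503, nat_lit 4139] (nat_lit 0) [] false,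
   Spec.mk (nat_lit 23825) (nat_lit 0) [nat_lit 10703, nat_lit 28199, nat_lit 25283, nat_lit 23663, nat_lit 23843, nat_lit 23819, nat_lit 23827, nat_lit 43507] (nat_lit 0) [] false,
   Spec.mk (nat_lit 23827) (nat_lit 1) [nat_lit 10705, nat_lit 28201, nat_lit 25285, nat_lit 23665, nat_lit 23845, nat_lit 23821, nat_lit 23833, nat_lit 23825, nat_lit 23829, nat_lit 43509, nat_lit 4145] (nat_lit 0) [] false,
   Spec.mk (nat_lit 23829) (nat_lit 0) [nat_lit 10707, nat_lit 28203, nat_lit 25287, nat_lit 23667, nat_lit 23847, nat_lit 23835, nat_lit 23827, nat_lit 4147] (nat_lit 0) [] false,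
   Spec.mk (nat_lit 23833) (nat_lit 0) [nat_lit 10711, nat_lit 28207, nat_lit 25291, nat_lit 23671, nat_lit 23851, nat_lit 23827, nat_lit 23835, nat_lit 43515, nat_lit 4151] (nat_lit 1) [] false,
   Spec.mk (nat_lit 23835) (nat_lit 0) [nat_lit 10713, nat_lit 28209, nat_lit 25293, nat_lit 23673, nat_lit 23853, nat_lit 23829, nat_lit 23833, nat_lit 4153] (nat_lit 0) [] false,
   Spec.mk (nat_lit 23843) (nat_lit 0) [nat_lit 10721, nat_lit 28217, nat_lit 25301, nat_lit 23681, nat_lit 23897, nat_lit 23825, nat_lit 23845, nat_lit 43525] (nat_lit 0) [] false,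
   Spec.mk (nat_lit 23845) (nat_lit 0) [nat_lit 10723, nat_lit 28219, nat_lit 25303, nat_lit 23683, nat_lit 23899, nat_lit 23827, nat_lit 23851, nat_lit 23843, nat_lit 23847, nat_lit 43527, nat_lit 4163] (nat_lit 0) [] false,
   Spec.mk (nat_lit 23847) (nat_lit 0) [nat_lit 10725, nat_lit 28221, nat_lit 25305, nat_lit 23685, nat_lit 23901, nat_lit 23829, nat_lit 23853, nat_lit 23845, nat_lit 4165] (nat_lit 2) [] false,
   Spec.mk (nat_lit 23851) (nat_lit 0) [nat_lit 10729, nat_lit 28225, nat_lit 25309, nat_lit 23689, nat_lit 23905, nat_lit 23833, nat_lit 23869, nat_lit 23845, nat_lit 23853, nat_lit 43533, nat_lit 4169] (nat_lit 0) [] false,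
   Spec.mk (nat_lit 23853) (nat_lit 0) [nat_lit 10731, nat_lit 28227, nat_lit 25311, nat_lit 23691, nat_lit 23907, nat_lit 23835, nat_lit 23871, nat_lit 23847, nat_lit 23859, nat_lit 23851, nat_lit 4171] (nat_lit 0) [] false,
   Spec.mk (nat_lit 23859) (nat_lit 0) [nat_lit 10737, nat_lit 28233, nat_lit 25317, nat_lit 23697, nat_lit 23913, nat_lit 23877, nat_lit 23853, nat_lit 4177] (nat_lit 0) [] false,
   Spec.mk (nat_lit 23869) (nat_lit 0) [nat_lit 10747, nat_lit 28243, nat_lit 25327, nat_lit 23707, nat_lit 23923, nat_lit 23851, nat_lit 23871, nat_lit 43551, nat_lit 4187] (nat_lit 1) [] false,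
   Spec.mk (nat_lit 23871) (nat_lit 0) [nat_lit 10749, nat_lit 28245, nat_lit 25329, nat_lit 23709, nat_lit 23925, nat_lit 23853, nat_lit 23877, nat_lit 23869, nat_lit 4189] (nat_lit 2) [] false,
   Spec.mk (nat_lit 23877) (nat_lit 0) [nat_lit 10755, nat_lit 28251, nat_lit 25335, nat_lit 23715, nat_lit 23931, nat_lit 23859, nat_lit 23871, nat_lit 4195] (nat_lit 0) [] false,
   Spec.mk (nat_lit 23897) (nat_lit 2) [nat_lit 10775, nat_lit 28271, nat_lit 25355, nat_lit 23735, nat_lit 23843, nat_lit 23899, nat_lit 43579] (nat_lit 0) [] false,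
   Spec.mk (nat_lit 23899) (nat_lit 2) [nat_lit 10777, nat_lit 28273, nat_lit 25357, nat_lit 23737, nat_lit 23845, nat_lit 23905, nat_lit 23897, nat_lit 23901, nat_lit 43581, nat_lit 4217] (nat_lit 0) [] false,
   Spec.mk (nat_lit 23901) (nat_lit 0) [nat_lit 10779, nat_lit 28275, nat_lit 25359, nat_lit 23739, nat_lit 23847, nat_lit 23907, nat_lit 23899, nat_lit 4219] (nat_lit 0) [] false,
   Spec.mk (nat_lit 23905) (nat_lit 1) [nat_lit 10783, nat_lit 28279, nat_lit 25363, nat_lit 23743, nat_lit 23851, nat_lit 23923, nat_lit 23899, nat_lit 23907, nat_lit 43587, nat_lit 4223] (nat_lit 0) [] false,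
   Spec.mk (nat_lit 23907) (nat_lit 1) [nat_lit 10785, nat_lit 28281, nat_lit 25365, nat_lit 23745, nat_lit 23853, nat_lit 23925, nat_lit 23901, nat_lit 23913, nat_lit 23905, nat_lit 4225] (nat_lit 0) [] false,
   Spec.mk (nat_lit 23913) (nat_lit 0) [nat_lit 10791, nat_lit 28287, nat_lit 25371, nat_lit 23751, nat_lit 23859, nat_lit 23931, nat_lit 23907, nat_lit 4231] (nat_lit 0) [] false,
   Spec.mk (nat_lit 23923) (nat_lit 2) [nat_lit 10801, nat_lit 28297, nat_lit 25381, nat_lit 23761, nat_lit 23869, nat_lit 23977, nat_lit 23905, nat_lit 23925, nat_lit 43605, nat_lit 4241] (nat_lit 0) [] false,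
   Spec.mk (nat_lit 23925) (nat_lit 1) [nat_lit 10803, nat_lit 28299, nat_lit 25383, nat_lit 23763, nat_lit 23871, nat_lit 23979, nat_lit 23907, nat_lit 23931, nat_lit 23923, nat_lit 4243] (nat_lit 0) [] false,
   Spec.mk (nat_lit 23931) (nat_lit 2) [nat_lit 10809, nat_lit 28305, nat_lit 25389, nat_lit 23769, nat_lit 23877, nat_lit 23985, nat_lit 23913, nat_lit 23949, nat_lit 23925, nat_lit 4249] (nat_lit 0) [] false,
   Spec.mk (nat_lit 23949) (nat_lit 2) [nat_lit 10827, nat_lit 28323, nat_lit 25407, nat_lit 23787, nat_lit 24003, nat_lit 23931, nat_lit 4267] (nat_lit 0) [] false,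
   Spec.mk (nat_lit 23977) (nat_lit 3) [nat_lit 10855, nat_lit 28351, nat_lit 25435, nat_lit 23923, nat_lit 23979, nat_lit 43659, nat_lit 4295] (nat_lit 0) [] false,
   Spec.mk (nat_lit 23979) (nat_lit 2) [nat_lit 10857, nat_lit 28353, nat_lit 25437, nat_lit 23925, nat_lit 23985, nat_lit 23977, nat_lit 4297] (nat_lit 0) [] false,
   Spec.mk (nat_lit 23985) (nat_lit 2) [nat_lit 10863, nat_lit 28359, nat_lit 25443, nat_lit 23931, nat_lit 24003, nat_lit 23979, nat_lit 4303] (nat_lit 0) [] false,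
   Spec.mk (nat_lit 24003) (nat_lit 4) [nat_lit 10881, nat_lit 28377, nat_lit 25461, nat_lit 23949, nat_lit 23985, nat_lit 4321] (nat_lit 0) [] false,
   Spec.mk (nat_lit 24083) (nat_lit 2) [nat_lit 10961, nat_lit 28457, nat_lit 22625, nat_lit 24101, nat_lit 43765] (nat_lit 0) [] false,
   Spec.mk (nat_lit 24101) (nat_lit 1) [nat_lit 10979, nat_lit 28475, nat_lit 22643, nat_lit 24155, nat_lit 24083, nat_lit 24119, nat_lit 24107, nat_lit 43783] (nat_lit 0) [] false,
   Spec.mk (nat_lit 24107) (nat_lit 0) [nat_lit 10985, nat_lit 28481, nat_lit 22649, nat_lit 24161, nat_lit 24125, nat_lit 24101, nat_lit 24109, nat_lit 43789] (nat_lit 0) [] false,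
   Spec.mk (nat_lit 24109) (nat_lit 1) [nat_lit 10987, nat_lit 28483, nat_lit 22651, nat_lit 24163, nat_lit 24127, nat_lit 24107, nat_lit 43791, nat_lit 4427] (nat_lit 0) [] false,
   Spec.mk (nat_lit 24119) (nat_lit 0) [nat_lit 10997, nat_lit 28493, nat_lit 22661, nat_lit 24173, nat_lit 24101, nat_lit 24125, nat_lit 43801] (nat_lit 2) [] false,
   Spec.mk (nat_lit 24125) (nat_lit 0) [nat_lit 11003, nat_lit 28499, nat_lit 22667, nat_lit 24179, nat_lit 24107, nat_lit 24119, nat_lit 24131, nat_lit 24127, nat_lit 43807] (nat_lit 1) [] false,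
   Spec.mk (nat_lit 24127) (nat_lit 0) [nat_lit 11005, nat_lit 28501, nat_lit 22669, nat_lit 24181, nat_lit 24109, nat_lit 24133, nat_lit 24125, nat_lit 43809, nat_lit 4445] (nat_lit 1) [] false,
   Spec.mk (nat_lit 24131) (nat_lit 0) [nat_lit 11009, nat_lit 28505, nat_lit 22673, nat_lit 24185, nat_lit 24125, nat_lit 24133, nat_lit 43813] (nat_lit 2) [] false,
   Spec.mk (nat_lit 24133) (nat_lit 0) [nat_lit 11011, nat_lit 28507, nat_lit 22675, nat_lit 24187, nat_lit 24127, nat_lit 24131, nat_lit 24135, nat_lit 43815, nat_lit 4451] (nat_lit 0) [] false,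
   Spec.mk (nat_lit 24135) (nat_lit 0) [nat_lit 11013, nat_lit 28509, nat_lit 22677, nat_lit 24189, nat_lit 24133, nat_lit 4453] (nat_lit 0) [] false,
   Spec.mk (nat_lit 24155) (nat_lit 0) [nat_lit 11033, nat_lit 28529, nat_lit 22697, nat_lit 24317, nat_lit 24101, nat_lit 24173, nat_lit 24161, nat_lit 43837] (nat_lit 0) [] false]

noncomputable def sp65 : List Spec :=
  [Spec.mk (nat_lit 24161) (nat_lit 0) [nat_lit 11039, nat_lit 28535, nat_lit 22703, nat_lit 24323, nat_lit 24107, nat_lit 24179, nat_lit 24155, nat_lit 24163, nat_lit 43843] (nat_lit 2) [] false,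
   Spec.mk (nat_lit 24163) (nat_lit 0) [nat_lit 11041, nat_lit 28537, nat_lit 22705, nat_lit 24325, nat_lit 24109, nat_lit 24181, nat_lit 24161, nat_lit 43845, nat_lit 4481] (nat_lit 1) [] false,
   Spec.mk (nat_lit 24173) (nat_lit 0) [nat_lit 11051, nat_lit 28547, nat_lit 22715, nat_lit 24335, nat_lit 24119, nat_lit 24227, nat_lit 24155, nat_lit 24179, nat_lit 43855] (nat_lit 1) [] false,
   Spec.mk (nat_lit 24179) (nat_lit 0) [nat_lit 11057, nat_lit 28553, nat_lit 22721, nat_lit 24341, nat_lit 24125, nat_lit 24233, nat_lit 24161, nat_lit 24197, nat_lit 24173, nat_lit 24185, nat_lit 24181, nat_lit 43861] (nat_lit 1) [] false,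
   Spec.mk (nat_lit 24181) (nat_lit 0) [nat_lit 11059, nat_lit 28555, nat_lit 22723, nat_lit 24343, nat_lit 24127, nat_lit 24235, nat_lit 24163, nat_lit 24199, nat_lit 24187, nat_lit 24179, nat_lit 43863, nat_lit 4499] (nat_lit 1) [] false,
   Spec.mk (nat_lit 24185) (nat_lit 0) [nat_lit 11063, nat_lit 28559, nat_lit 22727, nat_lit 24347, nat_lit 24131, nat_lit 24239, nat_lit 24203, nat_lit 24179, nat_lit 24187, nat_lit 43867] (nat_lit 3) [] false,
   Spec.mk (nat_lit 24187) (nat_lit 0) [nat_lit 11065, nat_lit 28561, nat_lit 22729, nat_lit 24349, nat_lit 24133, nat_lit 24241, nat_lit 24205, nat_lit 24181, nat_lit 24185, nat_lit 24189, nat_lit 43869, nat_lit 4505] (nat_lit 1) [] false,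
   Spec.mk (nat_lit 24189) (nat_lit 0) [nat_lit 11067, nat_lit 28563, nat_lit 22731, nat_lit 24351, nat_lit 24135, nat_lit 24243, nat_lit 24207, nat_lit 24187, nat_lit 4507] (nat_lit 1) [] false,
   Spec.mk (nat_lit 24197) (nat_lit 0) [nat_lit 11075, nat_lit 28571, nat_lit 22739, nat_lit 24359, nat_lit 24251, nat_lit 24179, nat_lit 24203, nat_lit 24199, nat_lit 43879] (nat_lit 2) [] false,
   Spec.mk (nat_lit 24199) (nat_lit 0) [nat_lit 11077, nat_lit 28573, nat_lit 22741, nat_lit 24361, nat_lit 24253, nat_lit 24181, nat_lit 24205, nat_lit 24197, nat_lit 43881, nat_lit 4517] (nat_lit 3) [] false,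
   Spec.mk (nat_lit 24203) (nat_lit 0) [nat_lit 11081, nat_lit 28577, nat_lit 22745, nat_lit 24365, nat_lit 24257, nat_lit 24185, nat_lit 24197, nat_lit 24205, nat_lit 43885] (nat_lit 2) [] false,
   Spec.mk (nat_lit 24205) (nat_lit 0) [nat_lit 11083, nat_lit 28579, nat_lit 22747, nat_lit 24367, nat_lit 24259, nat_lit 24187, nat_lit 24199, nat_lit 24211, nat_lit 24203, nat_lit 24207, nat_lit 43887, nat_lit 4523] (nat_lit 1) [] false,
   Spec.mk (nat_lit 24207) (nat_lit 0) [nat_lit 11085, nat_lit 28581, nat_lit 22749, nat_lit 24369, nat_lit 24261, nat_lit 24189, nat_lit 24213, nat_lit 24205, nat_lit 4525] (nat_lit 2) [] false,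
   Spec.mk (nat_lit 24211) (nat_lit 0) [nat_lit 11089, nat_lit 28585, nat_lit 22753, nat_lit 24373, nat_lit 24265, nat_lit 24205, nat_lit 24213, nat_lit 43893, nat_lit 4529] (nat_lit 1) [] false,
   Spec.mk (nat_lit 24213) (nat_lit 0) [nat_lit 11091, nat_lit 28587, nat_lit 22755, nat_lit 24375, nat_lit 24267, nat_lit 24207, nat_lit 24211, nat_lit 4531] (nat_lit 0) [] false,
   Spec.mk (nat_lit 24227) (nat_lit 0) [nat_lit 11105, nat_lit 28601, nat_lit 22769, nat_lit 24389, nat_lit 24173, nat_lit 24233, nat_lit 43909] (nat_lit 2) [] false,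
   Spec.mk (nat_lit 24233) (nat_lit 0) [nat_lit 11111, nat_lit 28607, nat_lit 22775, nat_lit 24395, nat_lit 24179, nat_lit 24251, nat_lit 24227, nat_lit 24239, nat_lit 24235, nat_lit 43915] (nat_lit 3) [] false,
   Spec.mk (nat_lit 24235) (nat_lit 0) [nat_lit 11113, nat_lit 28609, nat_lit 22777, nat_lit 24397, nat_lit 24181, nat_lit 24253, nat_lit 24241, nat_lit 24233, nat_lit 43917, nat_lit 4553] (nat_lit 3) [] false,
   Spec.mk (nat_lit 24239) (nat_lit 0) [nat_lit 11117, nat_lit 28613, nat_lit 22781, nat_lit 24401, nat_lit 24185, nat_lit 24257, nat_lit 24233, nat_lit 24241, nat_lit 43921] (nat_lit 6) [] false,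
   Spec.mk (nat_lit 24241) (nat_lit 0) [nat_lit 11119, nat_lit 28615, nat_lit 22783, nat_lit 24403, nat_lit 24187, nat_lit 24259, nat_lit 24235, nat_lit 24239, nat_lit 24243, nat_lit 43923, nat_lit 4559] (nat_lit 4) [] false,
   Spec.mk (nat_lit 24243) (nat_lit 0) [nat_lit 11121, nat_lit 28617, nat_lit 22785, nat_lit 24405, nat_lit 24189, nat_lit 24261, nat_lit 24241, nat_lit 4561] (nat_lit 4) [] false,
   Spec.mk (nat_lit 24251) (nat_lit 0) [nat_lit 11129, nat_lit 28625, nat_lit 22793, nat_lit 24413, nat_lit 24197, nat_lit 24233, nat_lit 24257, nat_lit 24253, nat_lit 43933] (nat_lit 2) [] false,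
   Spec.mk (nat_lit 24253) (nat_lit 0) [nat_lit 11131, nat_lit 28627, nat_lit 22795, nat_lit 24415, nat_lit 24199, nat_lit 24235, nat_lit 24259, nat_lit 24251, nat_lit 43935, nat_lit 4571] (nat_lit 3) [] false,
   Spec.mk (nat_lit 24257) (nat_lit 0) [nat_lit 11135, nat_lit 28631, nat_lit 22799, nat_lit 24419, nat_lit 24203, nat_lit 24239, nat_lit 24275, nat_lit 24251, nat_lit 24259, nat_lit 43939] (nat_lit 3) [] false,
   Spec.mk (nat_lit 24259) (nat_lit 0) [nat_lit 11137, nat_lit 28633, nat_lit 22801, nat_lit 24421, nat_lit 24205, nat_lit 24241, nat_lit 24277, nat_lit 24253, nat_lit 24265, nat_lit 24257, nat_lit 24261, nat_lit 43941, nat_lit 4577] (nat_lit 2) [] false,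
   Spec.mk (nat_lit 24261) (nat_lit 0) [nat_lit 11139, nat_lit 28635, nat_lit 22803, nat_lit 24423, nat_lit 24207, nat_lit 24243, nat_lit 24279, nat_lit 24267, nat_lit 24259, nat_lit 4579] (nat_lit 3) [] false,
   Spec.mk (nat_lit 24265) (nat_lit 0) [nat_lit 11143, nat_lit 28639, nat_lit 22807, nat_lit 24427, nat_lit 24211, nat_lit 24283, nat_lit 24259, nat_lit 24267, nat_lit 43947, nat_lit 4583] (nat_lit 3) [] false,
   Spec.mk (nat_lit 24267) (nat_lit 0) [nat_lit 11145, nat_lit 28641, nat_lit 22809, nat_lit 24429, nat_lit 24213, nat_lit 24285, nat_lit 24261, nat_lit 24265, nat_lit 4585] (nat_lit 2) [] false,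
   Spec.mk (nat_lit 24275) (nat_lit 0) [nat_lit 11153, nat_lit 28649, nat_lit 22817, nat_lit 24437, nat_lit 24257, nat_lit 24277, nat_lit 43957] (nat_lit 2) [] false,
   Spec.mk (nat_lit 24277) (nat_lit 0) [nat_lit 11155, nat_lit 28651, nat_lit 22819, nat_lit 24439, nat_lit 24259, nat_lit 24283, nat_lit 24275, nat_lit 24279, nat_lit 43959, nat_lit 4595] (nat_lit 2) [] false,
   Spec.mk (nat_lit 24279) (nat_lit 0) [nat_lit 11157, nat_lit 28653, nat_lit 22821, nat_lit 24441, nat_lit 24261, nat_lit 24285, nat_lit 24277, nat_lit 4597] (nat_lit 4) [] false,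
   Spec.mk (nat_lit 24283) (nat_lit 0) [nat_lit 11161, nat_lit 28657, nat_lit 22825, nat_lit 24445, nat_lit 24265, nat_lit 24277, nat_lit 24285, nat_lit 43965, nat_lit 4601] (nat_lit 1) [] false,
   Spec.mk (nat_lit 24285) (nat_lit 0) [nat_lit 11163, nat_lit 28659, nat_lit 22827, nat_lit 24447, nat_lit 24267, nat_lit 24279, nat_lit 24291, nat_lit 24283, nat_lit 4603] (nat_lit 1) [] false,
   Spec.mk (nat_lit 24291) (nat_lit 0) [nat_lit 11169, nat_lit 28665, nat_lit 22833, nat_lit 24453, nat_lit 24285, nat_lit 4609] (nat_lit 0) [] false,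
   Spec.mk (nat_lit 24317) (nat_lit 0) [nat_lit 11195, nat_lit 28691, nat_lit 22859, nat_lit 24803, nat_lit 24155, nat_lit 24335, nat_lit 24323, nat_lit 43999] (nat_lit 0) [] false,
   Spec.mk (nat_lit 24323) (nat_lit 0) [nat_lit 11201, nat_lit 28697, nat_lit 22865, nat_lit 24809, nat_lit 24161, nat_lit 24341, nat_lit 24317, nat_lit 24325, nat_lit 44005] (nat_lit 2) [] false,
   Spec.mk (nat_lit 24325) (nat_lit 0) [nat_lit 11203, nat_lit 28699, nat_lit 22867, nat_lit 24811, nat_lit 24163, nat_lit 24343, nat_lit 24323, nat_lit 44007, nat_lit 4643] (nat_lit 1) [] false,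
   Spec.mk (nat_lit 24335) (nat_lit 0) [nat_lit 11213, nat_lit 28709, nat_lit 22877, nat_lit 24821, nat_lit 24173, nat_lit 24389, nat_lit 24317, nat_lit 24341, nat_lit 44017] (nat_lit 2) [] false,
   Spec.mk (nat_lit 24341) (nat_lit 0) [nat_lit 11219, nat_lit 28715, nat_lit 22883, nat_lit 24827, nat_lit 24179, nat_lit 24395, nat_lit 24323, nat_lit 24359, nat_lit 24335, nat_lit 24347, nat_lit 24343, nat_lit 44023] (nat_lit 2) [] false,
   Spec.mk (nat_lit 24343) (nat_lit 0) [nat_lit 11221, nat_lit 28717, nat_lit 22885, nat_lit 24829, nat_lit 24181, nat_lit 24397, nat_lit 24325, nat_lit 24361, nat_lit 24349, nat_lit 24341, nat_lit 44025, nat_lit 4661] (nat_lit 2) [] false,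
   Spec.mk (nat_lit 24347) (nat_lit 0) [nat_lit 11225, nat_lit 28721, nat_lit 22889, nat_lit 24833, nat_lit 24185, nat_lit 24401, nat_lit 24365, nat_lit 24341, nat_lit 24349, nat_lit 44029] (nat_lit 4) [] false,
   Spec.mk (nat_lit 24349) (nat_lit 0) [nat_lit 11227, nat_lit 28723, nat_lit 22891, nat_lit 24835, nat_lit 24187, nat_lit 24403, nat_lit 24367, nat_lit 24343, nat_lit 24347, nat_lit 24351, nat_lit 44031, nat_lit 4667] (nat_lit 2) [] false,
   Spec.mk (nat_lit 24351) (nat_lit 0) [nat_lit 11229, nat_lit 28725, nat_lit 22893, nat_lit 24837, nat_lit 24189, nat_lit 24405, nat_lit 24369, nat_lit 24349, nat_lit 4669] (nat_lit 2) [] false,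
   Spec.mk (nat_lit 24359) (nat_lit 0) [nat_lit 11237, nat_lit 28733, nat_lit 22901, nat_lit 24845, nat_lit 24197, nat_lit 24413, nat_lit 24341, nat_lit 24365, nat_lit 24361, nat_lit 44041] (nat_lit 4) [] false,
   Spec.mk (nat_lit 24361) (nat_lit 0) [nat_lit 11239, nat_lit 28735, nat_lit 22903, nat_lit 24847, nat_lit 24199, nat_lit 24415, nat_lit 24343, nat_lit 24367, nat_lit 24359, nat_lit 44043, nat_lit 4679] (nat_lit 5) [] false,
   Spec.mk (nat_lit 24365) (nat_lit 0) [nat_lit 11243, nat_lit 28739, nat_lit 22907, nat_lit 24851, nat_lit 24203, nat_lit 24419, nat_lit 24347, nat_lit 24359, nat_lit 24367, nat_lit 44047] (nat_lit 4) [] false,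
   Spec.mk (nat_lit 24367) (nat_lit 0) [nat_lit 11245, nat_lit 28741, nat_lit 22909, nat_lit 24853, nat_lit 24205, nat_lit 24421, nat_lit 24349, nat_lit 24361, nat_lit 24373, nat_lit 24365, nat_lit 24369, nat_lit 44049, nat_lit 4685] (nat_lit 3) [] false,
   Spec.mk (nat_lit 24369) (nat_lit 0) [nat_lit 11247, nat_lit 28743, nat_lit 22911, nat_lit 24855, nat_lit 24207, nat_lit 24423, nat_lit 24351, nat_lit 24375, nat_lit 24367, nat_lit 4687] (nat_lit 4) [] false,
   Spec.mk (nat_lit 24373) (nat_lit 0) [nat_lit 11251, nat_lit 28747, nat_lit 22915, nat_lit 24859, nat_lit 24211, nat_lit 24427, nat_lit 24367, nat_lit 24375, nat_lit 44055, nat_lit 4691] (nat_lit 3) [] false,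
   Spec.mk (nat_lit 24375) (nat_lit 0) [nat_lit 11253, nat_lit 28749, nat_lit 22917, nat_lit 24861, nat_lit 24213, nat_lit 24429, nat_lit 24369, nat_lit 24373, nat_lit 4693] (nat_lit 2) [] false,
   Spec.mk (nat_lit 24389) (nat_lit 0) [nat_lit 11267, nat_lit 28763, nat_lit 22931, nat_lit 24875, nat_lit 24227, nat_lit 24551, nat_lit 24335, nat_lit 24395, nat_lit 44071] (nat_lit 1) [] false,
   Spec.mk (nat_lit 24395) (nat_lit 0) [nat_lit 11273, nat_lit 28769, nat_lit 22937, nat_lit 24881, nat_lit 24233, nat_lit 24557, nat_lit 24341, nat_lit 24413, nat_lit 24389, nat_lit 24401, nat_lit 24397, nat_lit 44077] (nat_lit 2) [] false,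
   Spec.mk (nat_lit 24397) (nat_lit 0) [nat_lit 11275, nat_lit 28771, nat_lit 22939, nat_lit 24883, nat_lit 24235, nat_lit 24559, nat_lit 24343, nat_lit 24415, nat_lit 24403, nat_lit 24395, nat_lit 44079, nat_lit 4715] (nat_lit 2) [] false,
   Spec.mk (nat_lit 24401) (nat_lit 0) [nat_lit 11279, nat_lit 28775, nat_lit 22943, nat_lit 24887, nat_lit 24239, nat_lit 24563, nat_lit 24347, nat_lit 24419, nat_lit 24395, nat_lit 24403, nat_lit 44083] (nat_lit 5) [] false,
   Spec.mk (nat_lit 24403) (nat_lit 0) [nat_lit 11281, nat_lit 28777, nat_lit 22945, nat_lit 24889, nat_lit 24241, nat_lit 24565, nat_lit 24349, nat_lit 24421, nat_lit 24397, nat_lit 24401, nat_lit 24405, nat_lit 44085, nat_lit 4721] (nat_lit 3) [] false,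
   Spec.mk (nat_lit 24405) (nat_lit 0) [nat_lit 11283, nat_lit 28779, nat_lit 22947, nat_lit 24891, nat_lit 24243, nat_lit 24567, nat_lit 24351, nat_lit 24423, nat_lit 24403, nat_lit 4723] (nat_lit 3) [] false,
   Spec.mk (nat_lit 24413) (nat_lit 0) [nat_lit 11291, nat_lit 28787, nat_lit 22955, nat_lit 24899, nat_lit 24251, nat_lit 24575, nat_lit 24359, nat_lit 24467, nat_lit 24395, nat_lit 24419, nat_lit 24415, nat_lit 44095] (nat_lit 2) [] false,
   Spec.mk (nat_lit 24415) (nat_lit 0) [nat_lit 11293, nat_lit 28789, nat_lit 22957, nat_lit 24901, nat_lit 24253, nat_lit 24577, nat_lit 24361, nat_lit 24469, nat_lit 24397, nat_lit 24421, nat_lit 24413, nat_lit 44097, nat_lit 4733] (nat_lit 3) [] false,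
   Spec.mk (nat_lit 24419) (nat_lit 0) [nat_lit 11297, nat_lit 28793, nat_lit 22961, nat_lit 24905, nat_lit 24257, nat_lit 24581, nat_lit 24365, nat_lit 24473, nat_lit 24401, nat_lit 24437, nat_lit 24413, nat_lit 24421, nat_lit 44101] (nat_lit 3) [] false,
   Spec.mk (nat_lit 24421) (nat_lit 0) [nat_lit 11299, nat_lit 28795, nat_lit 22963, nat_lit 24907, nat_lit 24259, nat_lit 24583, nat_lit 24367, nat_lit 24475, nat_lit 24403, nat_lit 24439, nat_lit 24415, nat_lit 24427, nat_lit 24419, nat_lit 24423, nat_lit 44103, nat_lit 4739] (nat_lit 2) [] false]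

noncomputable def sp66 : List Spec :=
  [Spec.mk (nat_lit 24423) (nat_lit 0) [nat_lit 11301, nat_lit 28797, nat_lit 22965, nat_lit 24909, nat_lit 24261, nat_lit 24585, nat_lit 24369, nat_lit 24477, nat_lit 24405, nat_lit 24441, nat_lit 24429, nat_lit 24421, nat_lit 4741] (nat_lit 3) [] false,
   Spec.mk (nat_lit 24427) (nat_lit 0) [nat_lit 11305, nat_lit 28801, nat_lit 22969, nat_lit 24913, nat_lit 24265, nat_lit 24589, nat_lit 24373, nat_lit 24481, nat_lit 24445, nat_lit 24421, nat_lit 24429, nat_lit 44109, nat_lit 4745] (nat_lit 3) [] false,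
   Spec.mk (nat_lit 24429) (nat_lit 0) [nat_lit 11307, nat_lit 28803, nat_lit 22971, nat_lit 24915, nat_lit 24267, nat_lit 24591, nat_lit 24375, nat_lit 24483, nat_lit 24447, nat_lit 24423, nat_lit 24427, nat_lit 4747] (nat_lit 2) [] false,
   Spec.mk (nat_lit 24437) (nat_lit 0) [nat_lit 11315, nat_lit 28811, nat_lit 22979, nat_lit 24923, nat_lit 24275, nat_lit 24599, nat_lit 24491, nat_lit 24419, nat_lit 24439, nat_lit 44119] (nat_lit 3) [] false,
   Spec.mk (nat_lit 24439) (nat_lit 0) [nat_lit 11317, nat_lit 28813, nat_lit 22981, nat_lit 24925, nat_lit 24277, nat_lit 24601, nat_lit 24493, nat_lit 24421, nat_lit 24445, nat_lit 24437, nat_lit 24441, nat_lit 44121, nat_lit 4757] (nat_lit 3) [] false,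
   Spec.mk (nat_lit 24441) (nat_lit 0) [nat_lit 11319, nat_lit 28815, nat_lit 22983, nat_lit 24927, nat_lit 24279, nat_lit 24603, nat_lit 24495, nat_lit 24423, nat_lit 24447, nat_lit 24439, nat_lit 4759] (nat_lit 5) [] false,
   Spec.mk (nat_lit 24445) (nat_lit 0) [nat_lit 11323, nat_lit 28819, nat_lit 22987, nat_lit 24931, nat_lit 24283, nat_lit 24607, nat_lit 24499, nat_lit 24427, nat_lit 24439, nat_lit 24447, nat_lit 44127, nat_lit 4763] (nat_lit 2) [] false,
   Spec.mk (nat_lit 24447) (nat_lit 0) [nat_lit 11325, nat_lit 28821, nat_lit 22989, nat_lit 24933, nat_lit 24285, nat_lit 24609, nat_lit 24501, nat_lit 24429, nat_lit 24441, nat_lit 24453, nat_lit 24445, nat_lit 4765] (nat_lit 2) [] false,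
   Spec.mk (nat_lit 24453) (nat_lit 0) [nat_lit 11331, nat_lit 28827, nat_lit 22995, nat_lit 24939, nat_lit 24291, nat_lit 24615, nat_lit 24507, nat_lit 24447, nat_lit 4771] (nat_lit 1) [] false,
   Spec.mk (nat_lit 24467) (nat_lit 0) [nat_lit 11345, nat_lit 28841, nat_lit 23009, nat_lit 24953, nat_lit 24629, nat_lit 24413, nat_lit 24473, nat_lit 24469, nat_lit 44149] (nat_lit 2) [] false,
   Spec.mk (nat_lit 24469) (nat_lit 0) [nat_lit 11347, nat_lit 28843, nat_lit 23011, nat_lit 24955, nat_lit 24631, nat_lit 24415, nat_lit 24475, nat_lit 24467, nat_lit 44151, nat_lit 4787] (nat_lit 3) [] false,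
   Spec.mk (nat_lit 24473) (nat_lit 0) [nat_lit 11351, nat_lit 28847, nat_lit 23015, nat_lit 24959, nat_lit 24635, nat_lit 24419, nat_lit 24491, nat_lit 24467, nat_lit 24475, nat_lit 44155] (nat_lit 4) [] false,
   Spec.mk (nat_lit 24475) (nat_lit 0) [nat_lit 11353, nat_lit 28849, nat_lit 23017, nat_lit 24961, nat_lit 24637, nat_lit 24421, nat_lit 24493, nat_lit 24469, nat_lit 24481, nat_lit 24473, nat_lit 24477, nat_lit 44157, nat_lit 4793] (nat_lit 3) [] false,
   Spec.mk (nat_lit 24477) (nat_lit 0) [nat_lit 11355, nat_lit 28851, nat_lit 23019, nat_lit 24963, nat_lit 24639, nat_lit 24423, nat_lit 24495, nat_lit 24483, nat_lit 24475, nat_lit 4795] (nat_lit 4) [] false,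
   Spec.mk (nat_lit 24481) (nat_lit 0) [nat_lit 11359, nat_lit 28855, nat_lit 23023, nat_lit 24967, nat_lit 24643, nat_lit 24427, nat_lit 24499, nat_lit 24475, nat_lit 24483, nat_lit 44163, nat_lit 4799] (nat_lit 5) [] false,
   Spec.mk (nat_lit 24483) (nat_lit 0) [nat_lit 11361, nat_lit 28857, nat_lit 23025, nat_lit 24969, nat_lit 24645, nat_lit 24429, nat_lit 24501, nat_lit 24477, nat_lit 24481, nat_lit 4801] (nat_lit 4) [] false,
   Spec.mk (nat_lit 24491) (nat_lit 0) [nat_lit 11369, nat_lit 28865, nat_lit 23033, nat_lit 24977, nat_lit 24653, nat_lit 24437, nat_lit 24473, nat_lit 24493, nat_lit 44173] (nat_lit 2) [] false,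
   Spec.mk (nat_lit 24493) (nat_lit 0) [nat_lit 11371, nat_lit 28867, nat_lit 23035, nat_lit 24979, nat_lit 24655, nat_lit 24439, nat_lit 24475, nat_lit 24499, nat_lit 24491, nat_lit 24495, nat_lit 44175, nat_lit 4811] (nat_lit 2) [] false,
   Spec.mk (nat_lit 24495) (nat_lit 0) [nat_lit 11373, nat_lit 28869, nat_lit 23037, nat_lit 24981, nat_lit 24657, nat_lit 24441, nat_lit 24477, nat_lit 24501, nat_lit 24493, nat_lit 4813] (nat_lit 4) [] false,
   Spec.mk (nat_lit 24499) (nat_lit 0) [nat_lit 11377, nat_lit 28873, nat_lit 23041, nat_lit 24985, nat_lit 24661, nat_lit 24445, nat_lit 24481, nat_lit 24517, nat_lit 24493, nat_lit 24501, nat_lit 44181, nat_lit 4817] (nat_lit 2) [] false,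
   Spec.mk (nat_lit 24501) (nat_lit 0) [nat_lit 11379, nat_lit 28875, nat_lit 23043, nat_lit 24987, nat_lit 24663, nat_lit 24447, nat_lit 24483, nat_lit 24519, nat_lit 24495, nat_lit 24507, nat_lit 24499, nat_lit 4819] (nat_lit 2) [] false,
   Spec.mk (nat_lit 24507) (nat_lit 0) [nat_lit 11385, nat_lit 28881, nat_lit 23049, nat_lit 24993, nat_lit 24669, nat_lit 24453, nat_lit 24525, nat_lit 24501, nat_lit 4825] (nat_lit 2) [] false,
   Spec.mk (nat_lit 24517) (nat_lit 0) [nat_lit 11395, nat_lit 28891, nat_lit 23059, nat_lit 25003, nat_lit 24679, nat_lit 24499, nat_lit 24519, nat_lit 44199, nat_lit 4835] (nat_lit 1) [] false,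
   Spec.mk (nat_lit 24519) (nat_lit 0) [nat_lit 11397, nat_lit 28893, nat_lit 23061, nat_lit 25005, nat_lit 24681, nat_lit 24501, nat_lit 24525, nat_lit 24517, nat_lit 4837] (nat_lit 2) [] false,
   Spec.mk (nat_lit 24525) (nat_lit 0) [nat_lit 11403, nat_lit 28899, nat_lit 23067, nat_lit 25011, nat_lit 24687, nat_lit 24507, nat_lit 24519, nat_lit 4843] (nat_lit 0) [] false,
   Spec.mk (nat_lit 24551) (nat_lit 0) [nat_lit 11429, nat_lit 28925, nat_lit 23093, nat_lit 25037, nat_lit 24389, nat_lit 24557, nat_lit 44233] (nat_lit 2) [] false,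
   Spec.mk (nat_lit 24557) (nat_lit 0) [nat_lit 11435, nat_lit 28931, nat_lit 23099, nat_lit 25043, nat_lit 24395, nat_lit 24575, nat_lit 24551, nat_lit 24563, nat_lit 24559, nat_lit 44239] (nat_lit 3) [] false,
   Spec.mk (nat_lit 24559) (nat_lit 0) [nat_lit 11437, nat_lit 28933, nat_lit 23101, nat_lit 25045, nat_lit 24397, nat_lit 24577, nat_lit 24565, nat_lit 24557, nat_lit 44241, nat_lit 4877] (nat_lit 3) [] false,
   Spec.mk (nat_lit 24563) (nat_lit 0) [nat_lit 11441, nat_lit 28937, nat_lit 23105, nat_lit 25049, nat_lit 24401, nat_lit 24581, nat_lit 24557, nat_lit 24565, nat_lit 44245] (nat_lit 6) [] false,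
   Spec.mk (nat_lit 24565) (nat_lit 0) [nat_lit 11443, nat_lit 28939, nat_lit 23107, nat_lit 25051, nat_lit 24403, nat_lit 24583, nat_lit 24559, nat_lit 24563, nat_lit 24567, nat_lit 44247, nat_lit 4883] (nat_lit 4) [] false,
   Spec.mk (nat_lit 24567) (nat_lit 0) [nat_lit 11445, nat_lit 28941, nat_lit 23109, nat_lit 25053, nat_lit 24405, nat_lit 24585, nat_lit 24565, nat_lit 4885] (nat_lit 4) [] false,
   Spec.mk (nat_lit 24575) (nat_lit 0) [nat_lit 11453, nat_lit 28949, nat_lit 23117, nat_lit 25061, nat_lit 24413, nat_lit 24629, nat_lit 24557, nat_lit 24581, nat_lit 24577, nat_lit 44257] (nat_lit 4) [] false,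
   Spec.mk (nat_lit 24577) (nat_lit 0) [nat_lit 11455, nat_lit 28951, nat_lit 23119, nat_lit 25063, nat_lit 24415, nat_lit 24631, nat_lit 24559, nat_lit 24583, nat_lit 24575, nat_lit 44259, nat_lit 4895] (nat_lit 5) [] false,
   Spec.mk (nat_lit 24581) (nat_lit 0) [nat_lit 11459, nat_lit 28955, nat_lit 23123, nat_lit 25067, nat_lit 24419, nat_lit 24635, nat_lit 24563, nat_lit 24599, nat_lit 24575, nat_lit 24583, nat_lit 44263] (nat_lit 5) [] false,
   Spec.mk (nat_lit 24583) (nat_lit 0) [nat_lit 11461, nat_lit 28957, nat_lit 23125, nat_lit 25069, nat_lit 24421, nat_lit 24637, nat_lit 24565, nat_lit 24601, nat_lit 24577, nat_lit 24589, nat_lit 24581, nat_lit 24585, nat_lit 44265, nat_lit 4901] (nat_lit 4) [] false,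
   Spec.mk (nat_lit 24585) (nat_lit 0) [nat_lit 11463, nat_lit 28959, nat_lit 23127, nat_lit 25071, nat_lit 24423, nat_lit 24639, nat_lit 24567, nat_lit 24603, nat_lit 24591, nat_lit 24583, nat_lit 4903] (nat_lit 5) [] false,
   Spec.mk (nat_lit 24589) (nat_lit 0) [nat_lit 11467, nat_lit 28963, nat_lit 23131, nat_lit 25075, nat_lit 24427, nat_lit 24643, nat_lit 24607, nat_lit 24583, nat_lit 24591, nat_lit 44271, nat_lit 4907] (nat_lit 5) [] false,
   Spec.mk (nat_lit 24591) (nat_lit 0) [nat_lit 11469, nat_lit 28965, nat_lit 23133, nat_lit 25077, nat_lit 24429, nat_lit 24645, nat_lit 24609, nat_lit 24585, nat_lit 24589, nat_lit 4909] (nat_lit 4) [] false,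
   Spec.mk (nat_lit 24599) (nat_lit 0) [nat_lit 11477, nat_lit 28973, nat_lit 23141, nat_lit 25085, nat_lit 24437, nat_lit 24653, nat_lit 24581, nat_lit 24601, nat_lit 44281] (nat_lit 6) [] false,
   Spec.mk (nat_lit 24601) (nat_lit 0) [nat_lit 11479, nat_lit 28975, nat_lit 23143, nat_lit 25087, nat_lit 24439, nat_lit 24655, nat_lit 24583, nat_lit 24607, nat_lit 24599, nat_lit 24603, nat_lit 44283, nat_lit 4919] (nat_lit 6) [] false,
   Spec.mk (nat_lit 24603) (nat_lit 0) [nat_lit 11481, nat_lit 28977, nat_lit 23145, nat_lit 25089, nat_lit 24441, nat_lit 24657, nat_lit 24585, nat_lit 24609, nat_lit 24601, nat_lit 4921] (nat_lit 8) [] false,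
   Spec.mk (nat_lit 24607) (nat_lit 0) [nat_lit 11485, nat_lit 28981, nat_lit 23149, nat_lit 25093, nat_lit 24445, nat_lit 24661, nat_lit 24589, nat_lit 24601, nat_lit 24609, nat_lit 44289, nat_lit 4925] (nat_lit 5) [] false,
   Spec.mk (nat_lit 24609) (nat_lit 0) [nat_lit 11487, nat_lit 28983, nat_lit 23151, nat_lit 25095, nat_lit 24447, nat_lit 24663, nat_lit 24591, nat_lit 24603, nat_lit 24615, nat_lit 24607, nat_lit 4927] (nat_lit 5) [] false,
   Spec.mk (nat_lit 24615) (nat_lit 0) [nat_lit 11493, nat_lit 28989, nat_lit 23157, nat_lit 25101, nat_lit 24453, nat_lit 24669, nat_lit 24609, nat_lit 4933] (nat_lit 4) [] false,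
   Spec.mk (nat_lit 24629) (nat_lit 0) [nat_lit 11507, nat_lit 29003, nat_lit 23171, nat_lit 25115, nat_lit 24467, nat_lit 24575, nat_lit 24635, nat_lit 24631, nat_lit 44311] (nat_lit 2) [] false,
   Spec.mk (nat_lit 24631) (nat_lit 0) [nat_lit 11509, nat_lit 29005, nat_lit 23173, nat_lit 25117, nat_lit 24469, nat_lit 24577, nat_lit 24637, nat_lit 24629, nat_lit 44313, nat_lit 4949] (nat_lit 3) [] false,
   Spec.mk (nat_lit 24635) (nat_lit 0) [nat_lit 11513, nat_lit 29009, nat_lit 23177, nat_lit 25121, nat_lit 24473, nat_lit 24581, nat_lit 24653, nat_lit 24629, nat_lit 24637, nat_lit 44317] (nat_lit 4) [] false,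
   Spec.mk (nat_lit 24637) (nat_lit 0) [nat_lit 11515, nat_lit 29011, nat_lit 23179, nat_lit 25123, nat_lit 24475, nat_lit 24583, nat_lit 24655, nat_lit 24631, nat_lit 24643, nat_lit 24635, nat_lit 24639, nat_lit 44319, nat_lit 4955] (nat_lit 3) [] false,
   Spec.mk (nat_lit 24639) (nat_lit 0) [nat_lit 11517, nat_lit 29013, nat_lit 23181, nat_lit 25125, nat_lit 24477, nat_lit 24585, nat_lit 24657, nat_lit 24645, nat_lit 24637, nat_lit 4957] (nat_lit 4) [] false,
   Spec.mk (nat_lit 24643) (nat_lit 0) [nat_lit 11521, nat_lit 29017, nat_lit 23185, nat_lit 25129, nat_lit 24481, nat_lit 24589, nat_lit 24661, nat_lit 24637, nat_lit 24645, nat_lit 44325, nat_lit 4961] (nat_lit 5) [] false,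
   Spec.mk (nat_lit 24645) (nat_lit 0) [nat_lit 11523, nat_lit 29019, nat_lit 23187, nat_lit 25131, nat_lit 24483, nat_lit 24591, nat_lit 24663, nat_lit 24639, nat_lit 24643, nat_lit 4963] (nat_lit 4) [] false,
   Spec.mk (nat_lit 24653) (nat_lit 0) [nat_lit 11531, nat_lit 29027, nat_lit 23195, nat_lit 25139, nat_lit 24491, nat_lit 24599, nat_lit 24707, nat_lit 24635, nat_lit 24655, nat_lit 44335] (nat_lit 3) [] false,
   Spec.mk (nat_lit 24655) (nat_lit 0) [nat_lit 11533, nat_lit 29029, nat_lit 23197, nat_lit 25141, nat_lit 24493, nat_lit 24601, nat_lit 24709, nat_lit 24637, nat_lit 24661, nat_lit 24653, nat_lit 24657, nat_lit 44337, nat_lit 4973] (nat_lit 3) [] false,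
   Spec.mk (nat_lit 24657) (nat_lit 0) [nat_lit 11535, nat_lit 29031, nat_lit 23199, nat_lit 25143, nat_lit 24495, nat_lit 24603, nat_lit 24711, nat_lit 24639, nat_lit 24663, nat_lit 24655, nat_lit 4975] (nat_lit 5) [] false,
   Spec.mk (nat_lit 24661) (nat_lit 0) [nat_lit 11539, nat_lit 29035, nat_lit 23203, nat_lit 25147, nat_lit 24499, nat_lit 24607, nat_lit 24715, nat_lit 24643, nat_lit 24679, nat_lit 24655, nat_lit 24663, nat_lit 44343, nat_lit 4979] (nat_lit 3) [] false,
   Spec.mk (nat_lit 24663) (nat_lit 0) [nat_lit 11541, nat_lit 29037, nat_lit 23205, nat_lit 25149, nat_lit 24501, nat_lit 24609, nat_lit 24717, nat_lit 24645, nat_lit 24681, nat_lit 24657, nat_lit 24669, nat_lit 24661, nat_lit 4981] (nat_lit 3) [] false,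
   Spec.mk (nat_lit 24669) (nat_lit 0) [nat_lit 11547, nat_lit 29043, nat_lit 23211, nat_lit 25155, nat_lit 24507, nat_lit 24615, nat_lit 24723, nat_lit 24687, nat_lit 24663, nat_lit 4987] (nat_lit 3) [] false,
   Spec.mk (nat_lit 24679) (nat_lit 0) [nat_lit 11557, nat_lit 29053, nat_lit 23221, nat_lit 25165, nat_lit 24517, nat_lit 24733, nat_lit 24661, nat_lit 24681, nat_lit 44361, nat_lit 4997] (nat_lit 3) [] false,
   Spec.mk (nat_lit 24681) (nat_lit 0) [nat_lit 11559, nat_lit 29055, nat_lit 23223, nat_lit 25167, nat_lit 24519, nat_lit 24735, nat_lit 24663, nat_lit 24687, nat_lit 24679, nat_lit 4999] (nat_lit 4) [] false,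
   Spec.mk (nat_lit 24687) (nat_lit 0) [nat_lit 11565, nat_lit 29061, nat_lit 23229, nat_lit 25173, nat_lit 24525, nat_lit 24741, nat_lit 24669, nat_lit 24681, nat_lit 5005] (nat_lit 2) [] false]

noncomputable def sp67 : List Spec :=
  [Spec.mk (nat_lit 24707) (nat_lit 0) [nat_lit 11585, nat_lit 29081, nat_lit 23249, nat_lit 25193, nat_lit 24653, nat_lit 24709, nat_lit 44389] (nat_lit 2) [] false,
   Spec.mk (nat_lit 24709) (nat_lit 0) [nat_lit 11587, nat_lit 29083, nat_lit 23251, nat_lit 25195, nat_lit 24655, nat_lit 24715, nat_lit 24707, nat_lit 24711, nat_lit 44391, nat_lit 5027] (nat_lit 2) [] false,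
   Spec.mk (nat_lit 24711) (nat_lit 0) [nat_lit 11589, nat_lit 29085, nat_lit 23253, nat_lit 25197, nat_lit 24657, nat_lit 24717, nat_lit 24709, nat_lit 5029] (nat_lit 4) [] false,
   Spec.mk (nat_lit 24715) (nat_lit 0) [nat_lit 11593, nat_lit 29089, nat_lit 23257, nat_lit 25201, nat_lit 24661, nat_lit 24733, nat_lit 24709, nat_lit 24717, nat_lit 44397, nat_lit 5033] (nat_lit 3) [] false,
   Spec.mk (nat_lit 24717) (nat_lit 0) [nat_lit 11595, nat_lit 29091, nat_lit 23259, nat_lit 25203, nat_lit 24663, nat_lit 24735, nat_lit 24711, nat_lit 24723, nat_lit 24715, nat_lit 5035] (nat_lit 3) [] false,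
   Spec.mk (nat_lit 24723) (nat_lit 0) [nat_lit 11601, nat_lit 29097, nat_lit 23265, nat_lit 25209, nat_lit 24669, nat_lit 24741, nat_lit 24717, nat_lit 5041] (nat_lit 4) [] false,
   Spec.mk (nat_lit 24733) (nat_lit 0) [nat_lit 11611, nat_lit 29107, nat_lit 23275, nat_lit 25219, nat_lit 24679, nat_lit 24715, nat_lit 24735, nat_lit 44415, nat_lit 5051] (nat_lit 1) [] false,
   Spec.mk (nat_lit 24735) (nat_lit 0) [nat_lit 11613, nat_lit 29109, nat_lit 23277, nat_lit 25221, nat_lit 24681, nat_lit 24717, nat_lit 24741, nat_lit 24733, nat_lit 5053] (nat_lit 2) [] false,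
   Spec.mk (nat_lit 24741) (nat_lit 0) [nat_lit 11619, nat_lit 29115, nat_lit 23283, nat_lit 25227, nat_lit 24687, nat_lit 24723, nat_lit 24759, nat_lit 24735, nat_lit 5059] (nat_lit 1) [] false,
   Spec.mk (nat_lit 24759) (nat_lit 0) [nat_lit 11637, nat_lit 29133, nat_lit 23301, nat_lit 25245, nat_lit 24741, nat_lit 5077] (nat_lit 0) [] false,
   Spec.mk (nat_lit 24803) (nat_lit 2) [nat_lit 11681, nat_lit 29177, nat_lit 23345, nat_lit 24317, nat_lit 24821, nat_lit 24809, nat_lit 44485] (nat_lit 0) [] false,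
   Spec.mk (nat_lit 24809) (nat_lit 0) [nat_lit 11687, nat_lit 29183, nat_lit 23351, nat_lit 24323, nat_lit 24827, nat_lit 24803, nat_lit 24811, nat_lit 44491] (nat_lit 0) [] false,
   Spec.mk (nat_lit 24811) (nat_lit 1) [nat_lit 11689, nat_lit 29185, nat_lit 23353, nat_lit 24325, nat_lit 24829, nat_lit 24809, nat_lit 44493, nat_lit 5129] (nat_lit 0) [] false,
   Spec.mk (nat_lit 24821) (nat_lit 0) [nat_lit 11699, nat_lit 29195, nat_lit 23363, nat_lit 24335, nat_lit 24875, nat_lit 24803, nat_lit 24827, nat_lit 44503] (nat_lit 0) [] false,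
   Spec.mk (nat_lit 24827) (nat_lit 0) [nat_lit 11705, nat_lit 29201, nat_lit 23369, nat_lit 24341, nat_lit 24881, nat_lit 24809, nat_lit 24845, nat_lit 24821, nat_lit 24833, nat_lit 24829, nat_lit 44509] (nat_lit 0) [] false,
   Spec.mk (nat_lit 24829) (nat_lit 0) [nat_lit 11707, nat_lit 29203, nat_lit 23371, nat_lit 24343, nat_lit 24883, nat_lit 24811, nat_lit 24847, nat_lit 24835, nat_lit 24827, nat_lit 44511, nat_lit 5147] (nat_lit 0) [] false,
   Spec.mk (nat_lit 24833) (nat_lit 0) [nat_lit 11711, nat_lit 29207, nat_lit 23375, nat_lit 24347, nat_lit 24887, nat_lit 24851, nat_lit 24827, nat_lit 24835, nat_lit 44515] (nat_lit 2) [] false,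
   Spec.mk (nat_lit 24835) (nat_lit 0) [nat_lit 11713, nat_lit 29209, nat_lit 23377, nat_lit 24349, nat_lit 24889, nat_lit 24853, nat_lit 24829, nat_lit 24833, nat_lit 24837, nat_lit 44517, nat_lit 5153] (nat_lit 0) [] false,
   Spec.mk (nat_lit 24837) (nat_lit 0) [nat_lit 11715, nat_lit 29211, nat_lit 23379, nat_lit 24351, nat_lit 24891, nat_lit 24855, nat_lit 24835, nat_lit 5155] (nat_lit 0) [] false,
   Spec.mk (nat_lit 24845) (nat_lit 0) [nat_lit 11723, nat_lit 29219, nat_lit 23387, nat_lit 24359, nat_lit 24899, nat_lit 24827, nat_lit 24851, nat_lit 24847, nat_lit 44527] (nat_lit 2) [] false,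
   Spec.mk (nat_lit 24847) (nat_lit 0) [nat_lit 11725, nat_lit 29221, nat_lit 23389, nat_lit 24361, nat_lit 24901, nat_lit 24829, nat_lit 24853, nat_lit 24845, nat_lit 44529, nat_lit 5165] (nat_lit 3) [] false,
   Spec.mk (nat_lit 24851) (nat_lit 0) [nat_lit 11729, nat_lit 29225, nat_lit 23393, nat_lit 24365, nat_lit 24905, nat_lit 24833, nat_lit 24845, nat_lit 24853, nat_lit 44533] (nat_lit 2) [] false,
   Spec.mk (nat_lit 24853) (nat_lit 0) [nat_lit 11731, nat_lit 29227, nat_lit 23395, nat_lit 24367, nat_lit 24907, nat_lit 24835, nat_lit 24847, nat_lit 24859, nat_lit 24851, nat_lit 24855, nat_lit 44535, nat_lit 5171] (nat_lit 1) [] false,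
   Spec.mk (nat_lit 24855) (nat_lit 0) [nat_lit 11733, nat_lit 29229, nat_lit 23397, nat_lit 24369, nat_lit 24909, nat_lit 24837, nat_lit 24861, nat_lit 24853, nat_lit 5173] (nat_lit 2) [] false,
   Spec.mk (nat_lit 24859) (nat_lit 0) [nat_lit 11737, nat_lit 29233, nat_lit 23401, nat_lit 24373, nat_lit 24913, nat_lit 24853, nat_lit 24861, nat_lit 44541, nat_lit 5177] (nat_lit 1) [] false,
   Spec.mk (nat_lit 24861) (nat_lit 0) [nat_lit 11739, nat_lit 29235, nat_lit 23403, nat_lit 24375, nat_lit 24915, nat_lit 24855, nat_lit 24859, nat_lit 5179] (nat_lit 0) [] false,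
   Spec.mk (nat_lit 24875) (nat_lit 0) [nat_lit 11753, nat_lit 29249, nat_lit 23417, nat_lit 24389, nat_lit 25037, nat_lit 24821, nat_lit 24881, nat_lit 44557] (nat_lit 0) [] false,
   Spec.mk (nat_lit 24881) (nat_lit 0) [nat_lit 11759, nat_lit 29255, nat_lit 23423, nat_lit 24395, nat_lit 25043, nat_lit 24827, nat_lit 24899, nat_lit 24875, nat_lit 24887, nat_lit 24883, nat_lit 44563] (nat_lit 1) [] false,
   Spec.mk (nat_lit 24883) (nat_lit 0) [nat_lit 11761, nat_lit 29257, nat_lit 23425, nat_lit 24397, nat_lit 25045, nat_lit 24829, nat_lit 24901, nat_lit 24889, nat_lit 24881, nat_lit 44565, nat_lit 5201] (nat_lit 1) [] false,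
   Spec.mk (nat_lit 24887) (nat_lit 0) [nat_lit 11765, nat_lit 29261, nat_lit 23429, nat_lit 24401, nat_lit 25049, nat_lit 24833, nat_lit 24905, nat_lit 24881, nat_lit 24889, nat_lit 44569] (nat_lit 4) [] false,
   Spec.mk (nat_lit 24889) (nat_lit 0) [nat_lit 11767, nat_lit 29263, nat_lit 23431, nat_lit 24403, nat_lit 25051, nat_lit 24835, nat_lit 24907, nat_lit 24883, nat_lit 24887, nat_lit 24891, nat_lit 44571, nat_lit 5207] (nat_lit 2) [] false,
   Spec.mk (nat_lit 24891) (nat_lit 0) [nat_lit 11769, nat_lit 29265, nat_lit 23433, nat_lit 24405, nat_lit 25053, nat_lit 24837, nat_lit 24909, nat_lit 24889, nat_lit 5209] (nat_lit 2) [] false,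
   Spec.mk (nat_lit 24899) (nat_lit 0) [nat_lit 11777, nat_lit 29273, nat_lit 23441, nat_lit 24413, nat_lit 25061, nat_lit 24845, nat_lit 24953, nat_lit 24881, nat_lit 24905, nat_lit 24901, nat_lit 44581] (nat_lit 1) [] false,
   Spec.mk (nat_lit 24901) (nat_lit 0) [nat_lit 11779, nat_lit 29275, nat_lit 23443, nat_lit 24415, nat_lit 25063, nat_lit 24847, nat_lit 24955, nat_lit 24883, nat_lit 24907, nat_lit 24899, nat_lit 44583, nat_lit 5219] (nat_lit 2) [] false,
   Spec.mk (nat_lit 24905) (nat_lit 0) [nat_lit 11783, nat_lit 29279, nat_lit 23447, nat_lit 24419, nat_lit 25067, nat_lit 24851, nat_lit 24959, nat_lit 24887, nat_lit 24923, nat_lit 24899, nat_lit 24907, nat_lit 44587] (nat_lit 2) [] false,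
   Spec.mk (nat_lit 24907) (nat_lit 0) [nat_lit 11785, nat_lit 29281, nat_lit 23449, nat_lit 24421, nat_lit 25069, nat_lit 24853, nat_lit 24961, nat_lit 24889, nat_lit 24925, nat_lit 24901, nat_lit 24913, nat_lit 24905, nat_lit 24909, nat_lit 44589, nat_lit 5225] (nat_lit 1) [] false,
   Spec.mk (nat_lit 24909) (nat_lit 0) [nat_lit 11787, nat_lit 29283, nat_lit 23451, nat_lit 24423, nat_lit 25071, nat_lit 24855, nat_lit 24963, nat_lit 24891, nat_lit 24927, nat_lit 24915, nat_lit 24907, nat_lit 5227] (nat_lit 2) [] false,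
   Spec.mk (nat_lit 24913) (nat_lit 0) [nat_lit 11791, nat_lit 29287, nat_lit 23455, nat_lit 24427, nat_lit 25075, nat_lit 24859, nat_lit 24967, nat_lit 24931, nat_lit 24907, nat_lit 24915, nat_lit 44595, nat_lit 5231] (nat_lit 2) [] false,
   Spec.mk (nat_lit 24915) (nat_lit 0) [nat_lit 11793, nat_lit 29289, nat_lit 23457, nat_lit 24429, nat_lit 25077, nat_lit 24861, nat_lit 24969, nat_lit 24933, nat_lit 24909, nat_lit 24913, nat_lit 5233] (nat_lit 1) [] false,
   Spec.mk (nat_lit 24923) (nat_lit 0) [nat_lit 11801, nat_lit 29297, nat_lit 23465, nat_lit 24437, nat_lit 25085, nat_lit 24977, nat_lit 24905, nat_lit 24925, nat_lit 44605] (nat_lit 2) [] false,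
   Spec.mk (nat_lit 24925) (nat_lit 0) [nat_lit 11803, nat_lit 29299, nat_lit 23467, nat_lit 24439, nat_lit 25087, nat_lit 24979, nat_lit 24907, nat_lit 24931, nat_lit 24923, nat_lit 24927, nat_lit 44607, nat_lit 5243] (nat_lit 2) [] false,
   Spec.mk (nat_lit 24927) (nat_lit 0) [nat_lit 11805, nat_lit 29301, nat_lit 23469, nat_lit 24441, nat_lit 25089, nat_lit 24981, nat_lit 24909, nat_lit 24933, nat_lit 24925, nat_lit 5245] (nat_lit 4) [] false,
   Spec.mk (nat_lit 24931) (nat_lit 0) [nat_lit 11809, nat_lit 29305, nat_lit 23473, nat_lit 24445, nat_lit 25093, nat_lit 24985, nat_lit 24913, nat_lit 24925, nat_lit 24933, nat_lit 44613, nat_lit 5249] (nat_lit 1) [] false,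
   Spec.mk (nat_lit 24933) (nat_lit 0) [nat_lit 11811, nat_lit 29307, nat_lit 23475, nat_lit 24447, nat_lit 25095, nat_lit 24987, nat_lit 24915, nat_lit 24927, nat_lit 24939, nat_lit 24931, nat_lit 5251] (nat_lit 1) [] false,
   Spec.mk (nat_lit 24939) (nat_lit 0) [nat_lit 11817, nat_lit 29313, nat_lit 23481, nat_lit 24453, nat_lit 25101, nat_lit 24993, nat_lit 24933, nat_lit 5257] (nat_lit 0) [] false,
   Spec.mk (nat_lit 24953) (nat_lit 0) [nat_lit 11831, nat_lit 29327, nat_lit 23495, nat_lit 24467, nat_lit 25115, nat_lit 24899, nat_lit 24959, nat_lit 24955, nat_lit 44635] (nat_lit 2) [] false,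
   Spec.mk (nat_lit 24955) (nat_lit 0) [nat_lit 11833, nat_lit 29329, nat_lit 23497, nat_lit 24469, nat_lit 25117, nat_lit 24901, nat_lit 24961, nat_lit 24953, nat_lit 44637, nat_lit 5273] (nat_lit 3) [] false,
   Spec.mk (nat_lit 24959) (nat_lit 0) [nat_lit 11837, nat_lit 29333, nat_lit 23501, nat_lit 24473, nat_lit 25121, nat_lit 24905, nat_lit 24977, nat_lit 24953, nat_lit 24961, nat_lit 44641] (nat_lit 4) [] false,
   Spec.mk (nat_lit 24961) (nat_lit 0) [nat_lit 11839, nat_lit 29335, nat_lit 23503, nat_lit 24475, nat_lit 25123, nat_lit 24907, nat_lit 24979, nat_lit 24955, nat_lit 24967, nat_lit 24959, nat_lit 24963, nat_lit 44643, nat_lit 5279] (nat_lit 3) [] false,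
   Spec.mk (nat_lit 24963) (nat_lit 0) [nat_lit 11841, nat_lit 29337, nat_lit 23505, nat_lit 24477, nat_lit 25125, nat_lit 24909, nat_lit 24981, nat_lit 24969, nat_lit 24961, nat_lit 5281] (nat_lit 4) [] false,
   Spec.mk (nat_lit 24967) (nat_lit 0) [nat_lit 11845, nat_lit 29341, nat_lit 23509, nat_lit 24481, nat_lit 25129, nat_lit 24913, nat_lit 24985, nat_lit 24961, nat_lit 24969, nat_lit 44649, nat_lit 5285] (nat_lit 5) [] false,
   Spec.mk (nat_lit 24969) (nat_lit 0) [nat_lit 11847, nat_lit 29343, nat_lit 23511, nat_lit 24483, nat_lit 25131, nat_lit 24915, nat_lit 24987, nat_lit 24963, nat_lit 24967, nat_lit 5287] (nat_lit 4) [] false,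
   Spec.mk (nat_lit 24977) (nat_lit 0) [nat_lit 11855, nat_lit 29351, nat_lit 23519, nat_lit 24491, nat_lit 25139, nat_lit 24923, nat_lit 24959, nat_lit 24979, nat_lit 44659] (nat_lit 2) [] false,
   Spec.mk (nat_lit 24979) (nat_lit 0) [nat_lit 11857, nat_lit 29353, nat_lit 23521, nat_lit 24493, nat_lit 25141, nat_lit 24925, nat_lit 24961, nat_lit 24985, nat_lit 24977, nat_lit 24981, nat_lit 44661, nat_lit 5297] (nat_lit 2) [] false,
   Spec.mk (nat_lit 24981) (nat_lit 0) [nat_lit 11859, nat_lit 29355, nat_lit 23523, nat_lit 24495, nat_lit 25143, nat_lit 24927, nat_lit 24963, nat_lit 24987, nat_lit 24979, nat_lit 5299] (nat_lit 4) [] false,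
   Spec.mk (nat_lit 24985) (nat_lit 0) [nat_lit 11863, nat_lit 29359, nat_lit 23527, nat_lit 24499, nat_lit 25147, nat_lit 24931, nat_lit 24967, nat_lit 25003, nat_lit 24979, nat_lit 24987, nat_lit 44667, nat_lit 5303] (nat_lit 2) [] false,
   Spec.mk (nat_lit 24987) (nat_lit 0) [nat_lit 11865, nat_lit 29361, nat_lit 23529, nat_lit 24501, nat_lit 25149, nat_lit 24933, nat_lit 24969, nat_lit 25005, nat_lit 24981, nat_lit 24993, nat_lit 24985, nat_lit 5305] (nat_lit 2) [] false,
   Spec.mk (nat_lit 24993) (nat_lit 0) [nat_lit 11871, nat_lit 29367, nat_lit 23535, nat_lit 24507, nat_lit 25155, nat_lit 24939, nat_lit 25011, nat_lit 24987, nat_lit 5311] (nat_lit 2) [] false,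
   Spec.mk (nat_lit 25003) (nat_lit 0) [nat_lit 11881, nat_lit 29377, nat_lit 23545, nat_lit 24517, nat_lit 25165, nat_lit 24985, nat_lit 25005, nat_lit 44685, nat_lit 5321] (nat_lit 1) [] false,
   Spec.mk (nat_lit 25005) (nat_lit 0) [nat_lit 11883, nat_lit 29379, nat_lit 23547, nat_lit 24519, nat_lit 25167, nat_lit 24987, nat_lit 25011, nat_lit 25003, nat_lit 5323] (nat_lit 2) [] false]

noncomputable def sp68 : List Spec :=
  [Spec.mk (nat_lit 25011) (nat_lit 0) [nat_lit 11889, nat_lit 29385, nat_lit 23553, nat_lit 24525, nat_lit 25173, nat_lit 24993, nat_lit 25005, nat_lit 5329] (nat_lit 0) [] false,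
   Spec.mk (nat_lit 25037) (nat_lit 1) [nat_lit 11915, nat_lit 29411, nat_lit 23579, nat_lit 24551, nat_lit 25523, nat_lit 24875, nat_lit 25043, nat_lit 44719] (nat_lit 0) [] false,
   Spec.mk (nat_lit 25043) (nat_lit 0) [nat_lit 11921, nat_lit 29417, nat_lit 23585, nat_lit 24557, nat_lit 25529, nat_lit 24881, nat_lit 25061, nat_lit 25037, nat_lit 25049, nat_lit 25045, nat_lit 44725] (nat_lit 0) [] false,
   Spec.mk (nat_lit 25045) (nat_lit 0) [nat_lit 11923, nat_lit 29419, nat_lit 23587, nat_lit 24559, nat_lit 25531, nat_lit 24883, nat_lit 25063, nat_lit 25051, nat_lit 25043, nat_lit 44727, nat_lit 5363] (nat_lit 0) [] false,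
   Spec.mk (nat_lit 25049) (nat_lit 0) [nat_lit 11927, nat_lit 29423, nat_lit 23591, nat_lit 24563, nat_lit 25535, nat_lit 24887, nat_lit 25067, nat_lit 25043, nat_lit 25051, nat_lit 44731] (nat_lit 3) [] false,
   Spec.mk (nat_lit 25051) (nat_lit 0) [nat_lit 11929, nat_lit 29425, nat_lit 23593, nat_lit 24565, nat_lit 25537, nat_lit 24889, nat_lit 25069, nat_lit 25045, nat_lit 25049, nat_lit 25053, nat_lit 44733, nat_lit 5369] (nat_lit 1) [] false,
   Spec.mk (nat_lit 25053) (nat_lit 0) [nat_lit 11931, nat_lit 29427, nat_lit 23595, nat_lit 24567, nat_lit 25539, nat_lit 24891, nat_lit 25071, nat_lit 25051, nat_lit 5371] (nat_lit 1) [] false,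
   Spec.mk (nat_lit 25061) (nat_lit 0) [nat_lit 11939, nat_lit 29435, nat_lit 23603, nat_lit 24575, nat_lit 25547, nat_lit 24899, nat_lit 25115, nat_lit 25043, nat_lit 25067, nat_lit 25063, nat_lit 44743] (nat_lit 1) [] false,
   Spec.mk (nat_lit 25063) (nat_lit 0) [nat_lit 11941, nat_lit 29437, nat_lit 23605, nat_lit 24577, nat_lit 25549, nat_lit 24901, nat_lit 25117, nat_lit 25045, nat_lit 25069, nat_lit 25061, nat_lit 44745, nat_lit 5381] (nat_lit 2) [] false,
   Spec.mk (nat_lit 25067) (nat_lit 0) [nat_lit 11945, nat_lit 29441, nat_lit 23609, nat_lit 24581, nat_lit 25553, nat_lit 24905, nat_lit 25121, nat_lit 25049, nat_lit 25085, nat_lit 25061, nat_lit 25069, nat_lit 44749] (nat_lit 2) [] false,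
   Spec.mk (nat_lit 25069) (nat_lit 0) [nat_lit 11947, nat_lit 29443, nat_lit 23611, nat_lit 24583, nat_lit 25555, nat_lit 24907, nat_lit 25123, nat_lit 25051, nat_lit 25087, nat_lit 25063, nat_lit 25075, nat_lit 25067, nat_lit 25071, nat_lit 44751, nat_lit 5387] (nat_lit 1) [] false,
   Spec.mk (nat_lit 25071) (nat_lit 0) [nat_lit 11949, nat_lit 29445, nat_lit 23613, nat_lit 24585, nat_lit 25557, nat_lit 24909, nat_lit 25125, nat_lit 25053, nat_lit 25089, nat_lit 25077, nat_lit 25069, nat_lit 5389] (nat_lit 2) [] false,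
   Spec.mk (nat_lit 25075) (nat_lit 0) [nat_lit 11953, nat_lit 29449, nat_lit 23617, nat_lit 24589, nat_lit 25561, nat_lit 24913, nat_lit 25129, nat_lit 25093, nat_lit 25069, nat_lit 25077, nat_lit 44757, nat_lit 5393] (nat_lit 2) [] false,
   Spec.mk (nat_lit 25077) (nat_lit 0) [nat_lit 11955, nat_lit 29451, nat_lit 23619, nat_lit 24591, nat_lit 25563, nat_lit 24915, nat_lit 25131, nat_lit 25095, nat_lit 25071, nat_lit 25075, nat_lit 5395] (nat_lit 1) [] false,
   Spec.mk (nat_lit 25085) (nat_lit 0) [nat_lit 11963, nat_lit 29459, nat_lit 23627, nat_lit 24599, nat_lit 25571, nat_lit 24923, nat_lit 25139, nat_lit 25067, nat_lit 25087, nat_lit 44767] (nat_lit 3) [] false,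
   Spec.mk (nat_lit 25087) (nat_lit 0) [nat_lit 11965, nat_lit 29461, nat_lit 23629, nat_lit 24601, nat_lit 25573, nat_lit 24925, nat_lit 25141, nat_lit 25069, nat_lit 25093, nat_lit 25085, nat_lit 25089, nat_lit 44769, nat_lit 5405] (nat_lit 3) [] false,
   Spec.mk (nat_lit 25089) (nat_lit 0) [nat_lit 11967, nat_lit 29463, nat_lit 23631, nat_lit 24603, nat_lit 25575, nat_lit 24927, nat_lit 25143, nat_lit 25071, nat_lit 25095, nat_lit 25087, nat_lit 5407] (nat_lit 5) [] false,
   Spec.mk (nat_lit 25093) (nat_lit 0) [nat_lit 11971, nat_lit 29467, nat_lit 23635, nat_lit 24607, nat_lit 25579, nat_lit 24931, nat_lit 25147, nat_lit 25075, nat_lit 25087, nat_lit 25095, nat_lit 44775, nat_lit 5411] (nat_lit 2) [] false,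
   Spec.mk (nat_lit 25095) (nat_lit 0) [nat_lit 11973, nat_lit 29469, nat_lit 23637, nat_lit 24609, nat_lit 25581, nat_lit 24933, nat_lit 25149, nat_lit 25077, nat_lit 25089, nat_lit 25101, nat_lit 25093, nat_lit 5413] (nat_lit 2) [] false,
   Spec.mk (nat_lit 25101) (nat_lit 0) [nat_lit 11979, nat_lit 29475, nat_lit 23643, nat_lit 24615, nat_lit 25587, nat_lit 24939, nat_lit 25155, nat_lit 25095, nat_lit 5419] (nat_lit 1) [] false,
   Spec.mk (nat_lit 25115) (nat_lit 0) [nat_lit 11993, nat_lit 29489, nat_lit 23657, nat_lit 24629, nat_lit 25601, nat_lit 24953, nat_lit 25277, nat_lit 25061, nat_lit 25121, nat_lit 25117, nat_lit 44797] (nat_lit 0) [] false,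
   Spec.mk (nat_lit 25117) (nat_lit 0) [nat_lit 11995, nat_lit 29491, nat_lit 23659, nat_lit 24631, nat_lit 25603, nat_lit 24955, nat_lit 25279, nat_lit 25063, nat_lit 25123, nat_lit 25115, nat_lit 44799, nat_lit 5435] (nat_lit 1) [] false,
   Spec.mk (nat_lit 25121) (nat_lit 0) [nat_lit 11999, nat_lit 29495, nat_lit 23663, nat_lit 24635, nat_lit 25607, nat_lit 24959, nat_lit 25283, nat_lit 25067, nat_lit 25139, nat_lit 25115, nat_lit 25123, nat_lit 44803] (nat_lit 2) [] false,
   Spec.mk (nat_lit 25123) (nat_lit 0) [nat_lit 12001, nat_lit 29497, nat_lit 23665, nat_lit 24637, nat_lit 25609, nat_lit 24961, nat_lit 25285, nat_lit 25069, nat_lit 25141, nat_lit 25117, nat_lit 25129, nat_lit 25121, nat_lit 25125, nat_lit 44805, nat_lit 5441] (nat_lit 1) [] false,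
   Spec.mk (nat_lit 25125) (nat_lit 0) [nat_lit 12003, nat_lit 29499, nat_lit 23667, nat_lit 24639, nat_lit 25611, nat_lit 24963, nat_lit 25287, nat_lit 25071, nat_lit 25143, nat_lit 25131, nat_lit 25123, nat_lit 5443] (nat_lit 2) [] false,
   Spec.mk (nat_lit 25129) (nat_lit 0) [nat_lit 12007, nat_lit 29503, nat_lit 23671, nat_lit 24643, nat_lit 25615, nat_lit 24967, nat_lit 25291, nat_lit 25075, nat_lit 25147, nat_lit 25123, nat_lit 25131, nat_lit 44811, nat_lit 5447] (nat_lit 3) [] false,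
   Spec.mk (nat_lit 25131) (nat_lit 0) [nat_lit 12009, nat_lit 29505, nat_lit 23673, nat_lit 24645, nat_lit 25617, nat_lit 24969, nat_lit 25293, nat_lit 25077, nat_lit 25149, nat_lit 25125, nat_lit 25129, nat_lit 5449] (nat_lit 2) [] false,
   Spec.mk (nat_lit 25139) (nat_lit 0) [nat_lit 12017, nat_lit 29513, nat_lit 23681, nat_lit 24653, nat_lit 25625, nat_lit 24977, nat_lit 25301, nat_lit 25085, nat_lit 25193, nat_lit 25121, nat_lit 25141, nat_lit 44821] (nat_lit 1) [] false,
   Spec.mk (nat_lit 25141) (nat_lit 0) [nat_lit 12019, nat_lit 29515, nat_lit 23683, nat_lit 24655, nat_lit 25627, nat_lit 24979, nat_lit 25303, nat_lit 25087, nat_lit 25195, nat_lit 25123, nat_lit 25147, nat_lit 25139, nat_lit 25143, nat_lit 44823, nat_lit 5459] (nat_lit 1) [] false,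
   Spec.mk (nat_lit 25143) (nat_lit 0) [nat_lit 12021, nat_lit 29517, nat_lit 23685, nat_lit 24657, nat_lit 25629, nat_lit 24981, nat_lit 25305, nat_lit 25089, nat_lit 25197, nat_lit 25125, nat_lit 25149, nat_lit 25141, nat_lit 5461] (nat_lit 3) [] false,
   Spec.mk (nat_lit 25147) (nat_lit 0) [nat_lit 12025, nat_lit 29521, nat_lit 23689, nat_lit 24661, nat_lit 25633, nat_lit 24985, nat_lit 25309, nat_lit 25093, nat_lit 25201, nat_lit 25129, nat_lit 25165, nat_lit 25141, nat_lit 25149, nat_lit 44829, nat_lit 5465] (nat_lit 1) [] false,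
   Spec.mk (nat_lit 25149) (nat_lit 0) [nat_lit 12027, nat_lit 29523, nat_lit 23691, nat_lit 24663, nat_lit 25635, nat_lit 24987, nat_lit 25311, nat_lit 25095, nat_lit 25203, nat_lit 25131, nat_lit 25167, nat_lit 25143, nat_lit 25155, nat_lit 25147, nat_lit 5467] (nat_lit 1) [] false,
   Spec.mk (nat_lit 25155) (nat_lit 0) [nat_lit 12033, nat_lit 29529, nat_lit 23697, nat_lit 24669, nat_lit 25641, nat_lit 24993, nat_lit 25317, nat_lit 25101, nat_lit 25209, nat_lit 25173, nat_lit 25149, nat_lit 5473] (nat_lit 1) [] false,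
   Spec.mk (nat_lit 25165) (nat_lit 0) [nat_lit 12043, nat_lit 29539, nat_lit 23707, nat_lit 24679, nat_lit 25651, nat_lit 25003, nat_lit 25327, nat_lit 25219, nat_lit 25147, nat_lit 25167, nat_lit 44847, nat_lit 5483] (nat_lit 1) [] false,
   Spec.mk (nat_lit 25167) (nat_lit 0) [nat_lit 12045, nat_lit 29541, nat_lit 23709, nat_lit 24681, nat_lit 25653, nat_lit 25005, nat_lit 25329, nat_lit 25221, nat_lit 25149, nat_lit 25173, nat_lit 25165, nat_lit 5485] (nat_lit 2) [] false,
   Spec.mk (nat_lit 25173) (nat_lit 0) [nat_lit 12051, nat_lit 29547, nat_lit 23715, nat_lit 24687, nat_lit 25659, nat_lit 25011, nat_lit 25335, nat_lit 25227, nat_lit 25155, nat_lit 25167, nat_lit 5491] (nat_lit 0) [] false,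
   Spec.mk (nat_lit 25193) (nat_lit 0) [nat_lit 12071, nat_lit 29567, nat_lit 23735, nat_lit 24707, nat_lit 25679, nat_lit 25355, nat_lit 25139, nat_lit 25195, nat_lit 44875] (nat_lit 1) [] false,
   Spec.mk (nat_lit 25195) (nat_lit 0) [nat_lit 12073, nat_lit 29569, nat_lit 23737, nat_lit 24709, nat_lit 25681, nat_lit 25357, nat_lit 25141, nat_lit 25201, nat_lit 25193, nat_lit 25197, nat_lit 44877, nat_lit 5513] (nat_lit 1) [] false,
   Spec.mk (nat_lit 25197) (nat_lit 0) [nat_lit 12075, nat_lit 29571, nat_lit 23739, nat_lit 24711, nat_lit 25683, nat_lit 25359, nat_lit 25143, nat_lit 25203, nat_lit 25195, nat_lit 5515] (nat_lit 3) [] false,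
   Spec.mk (nat_lit 25201) (nat_lit 0) [nat_lit 12079, nat_lit 29575, nat_lit 23743, nat_lit 24715, nat_lit 25687, nat_lit 25363, nat_lit 25147, nat_lit 25219, nat_lit 25195, nat_lit 25203, nat_lit 44883, nat_lit 5519] (nat_lit 2) [] false,
   Spec.mk (nat_lit 25203) (nat_lit 0) [nat_lit 12081, nat_lit 29577, nat_lit 23745, nat_lit 24717, nat_lit 25689, nat_lit 25365, nat_lit 25149, nat_lit 25221, nat_lit 25197, nat_lit 25209, nat_lit 25201, nat_lit 5521] (nat_lit 2) [] false,
   Spec.mk (nat_lit 25209) (nat_lit 0) [nat_lit 12087, nat_lit 29583, nat_lit 23751, nat_lit 24723, nat_lit 25695, nat_lit 25371, nat_lit 25155, nat_lit 25227, nat_lit 25203, nat_lit 5527] (nat_lit 3) [] false,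
   Spec.mk (nat_lit 25219) (nat_lit 0) [nat_lit 12097, nat_lit 29593, nat_lit 23761, nat_lit 24733, nat_lit 25705, nat_lit 25381, nat_lit 25165, nat_lit 25201, nat_lit 25221, nat_lit 44901, nat_lit 5537] (nat_lit 0) [] false,
   Spec.mk (nat_lit 25221) (nat_lit 0) [nat_lit 12099, nat_lit 29595, nat_lit 23763, nat_lit 24735, nat_lit 25707, nat_lit 25383, nat_lit 25167, nat_lit 25203, nat_lit 25227, nat_lit 25219, nat_lit 5539] (nat_lit 1) [] false,
   Spec.mk (nat_lit 25227) (nat_lit 0) [nat_lit 12105, nat_lit 29601, nat_lit 23769, nat_lit 24741, nat_lit 25713, nat_lit 25389, nat_lit 25173, nat_lit 25209, nat_lit 25245, nat_lit 25221, nat_lit 5545] (nat_lit 0) [] false,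
   Spec.mk (nat_lit 25245) (nat_lit 1) [nat_lit 12123, nat_lit 29619, nat_lit 23787, nat_lit 24759, nat_lit 25731, nat_lit 25407, nat_lit 25227, nat_lit 5563] (nat_lit 0) [] false,
   Spec.mk (nat_lit 25277) (nat_lit 0) [nat_lit 12155, nat_lit 29651, nat_lit 23819, nat_lit 25763, nat_lit 25115, nat_lit 25283, nat_lit 25279, nat_lit 44959] (nat_lit 0) [] false,
   Spec.mk (nat_lit 25279) (nat_lit 0) [nat_lit 12157, nat_lit 29653, nat_lit 23821, nat_lit 25765, nat_lit 25117, nat_lit 25285, nat_lit 25277, nat_lit 44961, nat_lit 5597] (nat_lit 1) [] false,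
   Spec.mk (nat_lit 25283) (nat_lit 0) [nat_lit 12161, nat_lit 29657, nat_lit 23825, nat_lit 25769, nat_lit 25121, nat_lit 25301, nat_lit 25277, nat_lit 25285, nat_lit 44965] (nat_lit 2) [] false,
   Spec.mk (nat_lit 25285) (nat_lit 0) [nat_lit 12163, nat_lit 29659, nat_lit 23827, nat_lit 25771, nat_lit 25123, nat_lit 25303, nat_lit 25279, nat_lit 25291, nat_lit 25283, nat_lit 25287, nat_lit 44967, nat_lit 5603] (nat_lit 1) [] false,
   Spec.mk (nat_lit 25287) (nat_lit 0) [nat_lit 12165, nat_lit 29661, nat_lit 23829, nat_lit 25773, nat_lit 25125, nat_lit 25305, nat_lit 25293, nat_lit 25285, nat_lit 5605] (nat_lit 2) [] false,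
   Spec.mk (nat_lit 25291) (nat_lit 0) [nat_lit 12169, nat_lit 29665, nat_lit 23833, nat_lit 25777, nat_lit 25129, nat_lit 25309, nat_lit 25285, nat_lit 25293, nat_lit 44973, nat_lit 5609] (nat_lit 3) [] false,
   Spec.mk (nat_lit 25293) (nat_lit 0) [nat_lit 12171, nat_lit 29667, nat_lit 23835, nat_lit 25779, nat_lit 25131, nat_lit 25311, nat_lit 25287, nat_lit 25291, nat_lit 5611] (nat_lit 2) [] false,
   Spec.mk (nat_lit 25301) (nat_lit 0) [nat_lit 12179, nat_lit 29675, nat_lit 23843, nat_lit 25787, nat_lit 25139, nat_lit 25355, nat_lit 25283, nat_lit 25303, nat_lit 44983] (nat_lit 2) [] false,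
   Spec.mk (nat_lit 25303) (nat_lit 0) [nat_lit 12181, nat_lit 29677, nat_lit 23845, nat_lit 25789, nat_lit 25141, nat_lit 25357, nat_lit 25285, nat_lit 25309, nat_lit 25301, nat_lit 25305, nat_lit 44985, nat_lit 5621] (nat_lit 2) [] false,
   Spec.mk (nat_lit 25305) (nat_lit 0) [nat_lit 12183, nat_lit 29679, nat_lit 23847, nat_lit 25791, nat_lit 25143, nat_lit 25359, nat_lit 25287, nat_lit 25311, nat_lit 25303, nat_lit 5623] (nat_lit 4) [] false,
   Spec.mk (nat_lit 25309) (nat_lit 0) [nat_lit 12187, nat_lit 29683, nat_lit 23851, nat_lit 25795, nat_lit 25147, nat_lit 25363, nat_lit 25291, nat_lit 25327, nat_lit 25303, nat_lit 25311, nat_lit 44991, nat_lit 5627] (nat_lit 2) [] false,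
   Spec.mk (nat_lit 25311) (nat_lit 0) [nat_lit 12189, nat_lit 29685, nat_lit 23853, nat_lit 25797, nat_lit 25149, nat_lit 25365, nat_lit 25293, nat_lit 25329, nat_lit 25305, nat_lit 25317, nat_lit 25309, nat_lit 5629] (nat_lit 2) [] false,
   Spec.mk (nat_lit 25317) (nat_lit 0) [nat_lit 12195, nat_lit 29691, nat_lit 23859, nat_lit 25803, nat_lit 25155, nat_lit 25371, nat_lit 25335, nat_lit 25311, nat_lit 5635] (nat_lit 2) [] false,
   Spec.mk (nat_lit 25327) (nat_lit 0) [nat_lit 12205, nat_lit 29701, nat_lit 23869, nat_lit 25813, nat_lit 25165, nat_lit 25381, nat_lit 25309, nat_lit 25329, nat_lit 45009, nat_lit 5645] (nat_lit 3) [] false]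

noncomputable def sp69 : List Spec :=
  [Spec.mk (nat_lit 25329) (nat_lit 0) [nat_lit 12207, nat_lit 29703, nat_lit 23871, nat_lit 25815, nat_lit 25167, nat_lit 25383, nat_lit 25311, nat_lit 25335, nat_lit 25327, nat_lit 5647] (nat_lit 4) [] false,
   Spec.mk (nat_lit 25335) (nat_lit 0) [nat_lit 12213, nat_lit 29709, nat_lit 23877, nat_lit 25821, nat_lit 25173, nat_lit 25389, nat_lit 25317, nat_lit 25329, nat_lit 5653] (nat_lit 2) [] false,
   Spec.mk (nat_lit 25355) (nat_lit 0) [nat_lit 12233, nat_lit 29729, nat_lit 23897, nat_lit 25841, nat_lit 25193, nat_lit 25301, nat_lit 25357, nat_lit 45037] (nat_lit 0) [] false,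
   Spec.mk (nat_lit 25357) (nat_lit 0) [nat_lit 12235, nat_lit 29731, nat_lit 23899, nat_lit 25843, nat_lit 25195, nat_lit 25303, nat_lit 25363, nat_lit 25355, nat_lit 25359, nat_lit 45039, nat_lit 5675] (nat_lit 0) [] false,
   Spec.mk (nat_lit 25359) (nat_lit 0) [nat_lit 12237, nat_lit 29733, nat_lit 23901, nat_lit 25845, nat_lit 25197, nat_lit 25305, nat_lit 25365, nat_lit 25357, nat_lit 5677] (nat_lit 2) [] false,
   Spec.mk (nat_lit 25363) (nat_lit 0) [nat_lit 12241, nat_lit 29737, nat_lit 23905, nat_lit 25849, nat_lit 25201, nat_lit 25309, nat_lit 25381, nat_lit 25357, nat_lit 25365, nat_lit 45045, nat_lit 5681] (nat_lit 1) [] false,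
   Spec.mk (nat_lit 25365) (nat_lit 0) [nat_lit 12243, nat_lit 29739, nat_lit 23907, nat_lit 25851, nat_lit 25203, nat_lit 25311, nat_lit 25383, nat_lit 25359, nat_lit 25371, nat_lit 25363, nat_lit 5683] (nat_lit 1) [] false,
   Spec.mk (nat_lit 25371) (nat_lit 0) [nat_lit 12249, nat_lit 29745, nat_lit 23913, nat_lit 25857, nat_lit 25209, nat_lit 25317, nat_lit 25389, nat_lit 25365, nat_lit 5689] (nat_lit 2) [] false,
   Spec.mk (nat_lit 25381) (nat_lit 0) [nat_lit 12259, nat_lit 29755, nat_lit 23923, nat_lit 25867, nat_lit 25219, nat_lit 25327, nat_lit 25435, nat_lit 25363, nat_lit 25383, nat_lit 45063, nat_lit 5699] (nat_lit 0) [] false,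
   Spec.mk (nat_lit 25383) (nat_lit 0) [nat_lit 12261, nat_lit 29757, nat_lit 23925, nat_lit 25869, nat_lit 25221, nat_lit 25329, nat_lit 25437, nat_lit 25365, nat_lit 25389, nat_lit 25381, nat_lit 5701] (nat_lit 1) [] false,
   Spec.mk (nat_lit 25389) (nat_lit 0) [nat_lit 12267, nat_lit 29763, nat_lit 23931, nat_lit 25875, nat_lit 25227, nat_lit 25335, nat_lit 25443, nat_lit 25371, nat_lit 25407, nat_lit 25383, nat_lit 5707] (nat_lit 0) [] false,
   Spec.mk (nat_lit 25407) (nat_lit 0) [nat_lit 12285, nat_lit 29781, nat_lit 23949, nat_lit 25893, nat_lit 25245, nat_lit 25461, nat_lit 25389, nat_lit 5725] (nat_lit 0) [] false,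
   Spec.mk (nat_lit 25435) (nat_lit 1) [nat_lit 12313, nat_lit 29809, nat_lit 23977, nat_lit 25921, nat_lit 25381, nat_lit 25437, nat_lit 45117, nat_lit 5753] (nat_lit 0) [] false,
   Spec.mk (nat_lit 25437) (nat_lit 0) [nat_lit 12315, nat_lit 29811, nat_lit 23979, nat_lit 25923, nat_lit 25383, nat_lit 25443, nat_lit 25435, nat_lit 5755] (nat_lit 0) [] false,
   Spec.mk (nat_lit 25443) (nat_lit 0) [nat_lit 12321, nat_lit 29817, nat_lit 23985, nat_lit 25929, nat_lit 25389, nat_lit 25461, nat_lit 25437, nat_lit 5761] (nat_lit 0) [] false,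
   Spec.mk (nat_lit 25461) (nat_lit 2) [nat_lit 12339, nat_lit 29835, nat_lit 24003, nat_lit 25947, nat_lit 25407, nat_lit 25443, nat_lit 5779] (nat_lit 0) [] false,
   Spec.mk (nat_lit 25523) (nat_lit 2) [nat_lit 12401, nat_lit 29897, nat_lit 25037, nat_lit 25529, nat_lit 45205] (nat_lit 0) [] false,
   Spec.mk (nat_lit 25529) (nat_lit 1) [nat_lit 12407, nat_lit 29903, nat_lit 25043, nat_lit 25547, nat_lit 25523, nat_lit 25535, nat_lit 25531, nat_lit 45211] (nat_lit 0) [] false,
   Spec.mk (nat_lit 25531) (nat_lit 1) [nat_lit 12409, nat_lit 29905, nat_lit 25045, nat_lit 25549, nat_lit 25537, nat_lit 25529, nat_lit 45213, nat_lit 5849] (nat_lit 0) [] false,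
   Spec.mk (nat_lit 25535) (nat_lit 0) [nat_lit 12413, nat_lit 29909, nat_lit 25049, nat_lit 25553, nat_lit 25529, nat_lit 25537, nat_lit 45217] (nat_lit 2) [] false,
   Spec.mk (nat_lit 25537) (nat_lit 0) [nat_lit 12415, nat_lit 29911, nat_lit 25051, nat_lit 25555, nat_lit 25531, nat_lit 25535, nat_lit 25539, nat_lit 45219, nat_lit 5855] (nat_lit 0) [] false,
   Spec.mk (nat_lit 25539) (nat_lit 0) [nat_lit 12417, nat_lit 29913, nat_lit 25053, nat_lit 25557, nat_lit 25537, nat_lit 5857] (nat_lit 0) [] false,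
   Spec.mk (nat_lit 25547) (nat_lit 0) [nat_lit 12425, nat_lit 29921, nat_lit 25061, nat_lit 25601, nat_lit 25529, nat_lit 25553, nat_lit 25549, nat_lit 45229] (nat_lit 0) [] false,
   Spec.mk (nat_lit 25549) (nat_lit 0) [nat_lit 12427, nat_lit 29923, nat_lit 25063, nat_lit 25603, nat_lit 25531, nat_lit 25555, nat_lit 25547, nat_lit 45231, nat_lit 5867] (nat_lit 1) [] false,
   Spec.mk (nat_lit 25553) (nat_lit 0) [nat_lit 12431, nat_lit 29927, nat_lit 25067, nat_lit 25607, nat_lit 25535, nat_lit 25571, nat_lit 25547, nat_lit 25555, nat_lit 45235] (nat_lit 1) [] false,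
   Spec.mk (nat_lit 25555) (nat_lit 0) [nat_lit 12433, nat_lit 29929, nat_lit 25069, nat_lit 25609, nat_lit 25537, nat_lit 25573, nat_lit 25549, nat_lit 25561, nat_lit 25553, nat_lit 25557, nat_lit 45237, nat_lit 5873] (nat_lit 0) [] false,
   Spec.mk (nat_lit 25557) (nat_lit 0) [nat_lit 12435, nat_lit 29931, nat_lit 25071, nat_lit 25611, nat_lit 25539, nat_lit 25575, nat_lit 25563, nat_lit 25555, nat_lit 5875] (nat_lit 1) [] false,
   Spec.mk (nat_lit 25561) (nat_lit 0) [nat_lit 12439, nat_lit 29935, nat_lit 25075, nat_lit 25615, nat_lit 25579, nat_lit 25555, nat_lit 25563, nat_lit 45243, nat_lit 5879] (nat_lit 1) [] false,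
   Spec.mk (nat_lit 25563) (nat_lit 0) [nat_lit 12441, nat_lit 29937, nat_lit 25077, nat_lit 25617, nat_lit 25581, nat_lit 25557, nat_lit 25561, nat_lit 5881] (nat_lit 0) [] false,
   Spec.mk (nat_lit 25571) (nat_lit 0) [nat_lit 12449, nat_lit 29945, nat_lit 25085, nat_lit 25625, nat_lit 25553, nat_lit 25573, nat_lit 45253] (nat_lit 2) [] false,
   Spec.mk (nat_lit 25573) (nat_lit 0) [nat_lit 12451, nat_lit 29947, nat_lit 25087, nat_lit 25627, nat_lit 25555, nat_lit 25579, nat_lit 25571, nat_lit 25575, nat_lit 45255, nat_lit 5891] (nat_lit 2) [] false,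
   Spec.mk (nat_lit 25575) (nat_lit 0) [nat_lit 12453, nat_lit 29949, nat_lit 25089, nat_lit 25629, nat_lit 25557, nat_lit 25581, nat_lit 25573, nat_lit 5893] (nat_lit 4) [] false,
   Spec.mk (nat_lit 25579) (nat_lit 0) [nat_lit 12457, nat_lit 29953, nat_lit 25093, nat_lit 25633, nat_lit 25561, nat_lit 25573, nat_lit 25581, nat_lit 45261, nat_lit 5897] (nat_lit 1) [] false,
   Spec.mk (nat_lit 25581) (nat_lit 0) [nat_lit 12459, nat_lit 29955, nat_lit 25095, nat_lit 25635, nat_lit 25563, nat_lit 25575, nat_lit 25587, nat_lit 25579, nat_lit 5899] (nat_lit 1) [] false,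
   Spec.mk (nat_lit 25587) (nat_lit 0) [nat_lit 12465, nat_lit 29961, nat_lit 25101, nat_lit 25641, nat_lit 25581, nat_lit 5905] (nat_lit 0) [] false,
   Spec.mk (nat_lit 25601) (nat_lit 0) [nat_lit 12479, nat_lit 29975, nat_lit 25115, nat_lit 25763, nat_lit 25547, nat_lit 25607, nat_lit 25603, nat_lit 45283] (nat_lit 0) [] false,
   Spec.mk (nat_lit 25603) (nat_lit 0) [nat_lit 12481, nat_lit 29977, nat_lit 25117, nat_lit 25765, nat_lit 25549, nat_lit 25609, nat_lit 25601, nat_lit 45285, nat_lit 5921] (nat_lit 1) [] false,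
   Spec.mk (nat_lit 25607) (nat_lit 0) [nat_lit 12485, nat_lit 29981, nat_lit 25121, nat_lit 25769, nat_lit 25553, nat_lit 25625, nat_lit 25601, nat_lit 25609, nat_lit 45289] (nat_lit 2) [] false,
   Spec.mk (nat_lit 25609) (nat_lit 0) [nat_lit 12487, nat_lit 29983, nat_lit 25123, nat_lit 25771, nat_lit 25555, nat_lit 25627, nat_lit 25603, nat_lit 25615, nat_lit 25607, nat_lit 25611, nat_lit 45291, nat_lit 5927] (nat_lit 1) [] false,
   Spec.mk (nat_lit 25611) (nat_lit 0) [nat_lit 12489, nat_lit 29985, nat_lit 25125, nat_lit 25773, nat_lit 25557, nat_lit 25629, nat_lit 25617, nat_lit 25609, nat_lit 5929] (nat_lit 2) [] false,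
   Spec.mk (nat_lit 25615) (nat_lit 0) [nat_lit 12493, nat_lit 29989, nat_lit 25129, nat_lit 25777, nat_lit 25561, nat_lit 25633, nat_lit 25609, nat_lit 25617, nat_lit 45297, nat_lit 5933] (nat_lit 3) [] false,
   Spec.mk (nat_lit 25617) (nat_lit 0) [nat_lit 12495, nat_lit 29991, nat_lit 25131, nat_lit 25779, nat_lit 25563, nat_lit 25635, nat_lit 25611, nat_lit 25615, nat_lit 5935] (nat_lit 2) [] false,
   Spec.mk (nat_lit 25625) (nat_lit 0) [nat_lit 12503, nat_lit 29999, nat_lit 25139, nat_lit 25787, nat_lit 25571, nat_lit 25679, nat_lit 25607, nat_lit 25627, nat_lit 45307] (nat_lit 1) [] false,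
   Spec.mk (nat_lit 25627) (nat_lit 0) [nat_lit 12505, nat_lit 30001, nat_lit 25141, nat_lit 25789, nat_lit 25573, nat_lit 25681, nat_lit 25609, nat_lit 25633, nat_lit 25625, nat_lit 25629, nat_lit 45309, nat_lit 5945] (nat_lit 1) [] false,
   Spec.mk (nat_lit 25629) (nat_lit 0) [nat_lit 12507, nat_lit 30003, nat_lit 25143, nat_lit 25791, nat_lit 25575, nat_lit 25683, nat_lit 25611, nat_lit 25635, nat_lit 25627, nat_lit 5947] (nat_lit 3) [] false,
   Spec.mk (nat_lit 25633) (nat_lit 0) [nat_lit 12511, nat_lit 30007, nat_lit 25147, nat_lit 25795, nat_lit 25579, nat_lit 25687, nat_lit 25615, nat_lit 25651, nat_lit 25627, nat_lit 25635, nat_lit 45315, nat_lit 5951] (nat_lit 1) [] false,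
   Spec.mk (nat_lit 25635) (nat_lit 0) [nat_lit 12513, nat_lit 30009, nat_lit 25149, nat_lit 25797, nat_lit 25581, nat_lit 25689, nat_lit 25617, nat_lit 25653, nat_lit 25629, nat_lit 25641, nat_lit 25633, nat_lit 5953] (nat_lit 1) [] false,
   Spec.mk (nat_lit 25641) (nat_lit 0) [nat_lit 12519, nat_lit 30015, nat_lit 25155, nat_lit 25803, nat_lit 25587, nat_lit 25695, nat_lit 25659, nat_lit 25635, nat_lit 5959] (nat_lit 1) [] false,
   Spec.mk (nat_lit 25651) (nat_lit 0) [nat_lit 12529, nat_lit 30025, nat_lit 25165, nat_lit 25813, nat_lit 25705, nat_lit 25633, nat_lit 25653, nat_lit 45333, nat_lit 5969] (nat_lit 1) [] false,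
   Spec.mk (nat_lit 25653) (nat_lit 0) [nat_lit 12531, nat_lit 30027, nat_lit 25167, nat_lit 25815, nat_lit 25707, nat_lit 25635, nat_lit 25659, nat_lit 25651, nat_lit 5971] (nat_lit 2) [] false,
   Spec.mk (nat_lit 25659) (nat_lit 0) [nat_lit 12537, nat_lit 30033, nat_lit 25173, nat_lit 25821, nat_lit 25713, nat_lit 25641, nat_lit 25653, nat_lit 5977] (nat_lit 0) [] false,
   Spec.mk (nat_lit 25679) (nat_lit 0) [nat_lit 12557, nat_lit 30053, nat_lit 25193, nat_lit 25841, nat_lit 25625, nat_lit 25681, nat_lit 45361] (nat_lit 2) [] false,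
   Spec.mk (nat_lit 25681) (nat_lit 0) [nat_lit 12559, nat_lit 30055, nat_lit 25195, nat_lit 25843, nat_lit 25627, nat_lit 25687, nat_lit 25679, nat_lit 25683, nat_lit 45363, nat_lit 5999] (nat_lit 2) [] false,
   Spec.mk (nat_lit 25683) (nat_lit 0) [nat_lit 12561, nat_lit 30057, nat_lit 25197, nat_lit 25845, nat_lit 25629, nat_lit 25689, nat_lit 25681, nat_lit 6001] (nat_lit 4) [] false,
   Spec.mk (nat_lit 25687) (nat_lit 0) [nat_lit 12565, nat_lit 30061, nat_lit 25201, nat_lit 25849, nat_lit 25633, nat_lit 25705, nat_lit 25681, nat_lit 25689, nat_lit 45369, nat_lit 6005] (nat_lit 3) [] false,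
   Spec.mk (nat_lit 25689) (nat_lit 0) [nat_lit 12567, nat_lit 30063, nat_lit 25203, nat_lit 25851, nat_lit 25635, nat_lit 25707, nat_lit 25683, nat_lit 25695, nat_lit 25687, nat_lit 6007] (nat_lit 3) [] false,
   Spec.mk (nat_lit 25695) (nat_lit 0) [nat_lit 12573, nat_lit 30069, nat_lit 25209, nat_lit 25857, nat_lit 25641, nat_lit 25713, nat_lit 25689, nat_lit 6013] (nat_lit 4) [] false,
   Spec.mk (nat_lit 25705) (nat_lit 0) [nat_lit 12583, nat_lit 30079, nat_lit 25219, nat_lit 25867, nat_lit 25651, nat_lit 25687, nat_lit 25707, nat_lit 45387, nat_lit 6023] (nat_lit 1) [] false,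
   Spec.mk (nat_lit 25707) (nat_lit 0) [nat_lit 12585, nat_lit 30081, nat_lit 25221, nat_lit 25869, nat_lit 25653, nat_lit 25689, nat_lit 25713, nat_lit 25705, nat_lit 6025] (nat_lit 2) [] false,
   Spec.mk (nat_lit 25713) (nat_lit 0) [nat_lit 12591, nat_lit 30087, nat_lit 25227, nat_lit 25875, nat_lit 25659, nat_lit 25695, nat_lit 25731, nat_lit 25707, nat_lit 6031] (nat_lit 1) [] false]

noncomputable def sp70 : List Spec :=
  [Spec.mk (nat_lit 25731) (nat_lit 0) [nat_lit 12609, nat_lit 30105, nat_lit 25245, nat_lit 25893, nat_lit 25713, nat_lit 6049] (nat_lit 0) [] false,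
   Spec.mk (nat_lit 25763) (nat_lit 2) [nat_lit 12641, nat_lit 30137, nat_lit 25277, nat_lit 25601, nat_lit 25769, nat_lit 25765, nat_lit 45445] (nat_lit 0) [] false,
   Spec.mk (nat_lit 25765) (nat_lit 1) [nat_lit 12643, nat_lit 30139, nat_lit 25279, nat_lit 25603, nat_lit 25771, nat_lit 25763, nat_lit 45447, nat_lit 6083] (nat_lit 0) [] false,
   Spec.mk (nat_lit 25769) (nat_lit 0) [nat_lit 12647, nat_lit 30143, nat_lit 25283, nat_lit 25607, nat_lit 25787, nat_lit 25763, nat_lit 25771, nat_lit 45451] (nat_lit 0) [] false,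
   Spec.mk (nat_lit 25771) (nat_lit 1) [nat_lit 12649, nat_lit 30145, nat_lit 25285, nat_lit 25609, nat_lit 25789, nat_lit 25765, nat_lit 25777, nat_lit 25769, nat_lit 25773, nat_lit 45453, nat_lit 6089] (nat_lit 0) [] false,
   Spec.mk (nat_lit 25773) (nat_lit 0) [nat_lit 12651, nat_lit 30147, nat_lit 25287, nat_lit 25611, nat_lit 25791, nat_lit 25779, nat_lit 25771, nat_lit 6091] (nat_lit 0) [] false,
   Spec.mk (nat_lit 25777) (nat_lit 0) [nat_lit 12655, nat_lit 30151, nat_lit 25291, nat_lit 25615, nat_lit 25795, nat_lit 25771, nat_lit 25779, nat_lit 45459, nat_lit 6095] (nat_lit 1) [] false,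
   Spec.mk (nat_lit 25779) (nat_lit 0) [nat_lit 12657, nat_lit 30153, nat_lit 25293, nat_lit 25617, nat_lit 25797, nat_lit 25773, nat_lit 25777, nat_lit 6097] (nat_lit 0) [] false,
   Spec.mk (nat_lit 25787) (nat_lit 0) [nat_lit 12665, nat_lit 30161, nat_lit 25301, nat_lit 25625, nat_lit 25841, nat_lit 25769, nat_lit 25789, nat_lit 45469] (nat_lit 0) [] false,
   Spec.mk (nat_lit 25789) (nat_lit 0) [nat_lit 12667, nat_lit 30163, nat_lit 25303, nat_lit 25627, nat_lit 25843, nat_lit 25771, nat_lit 25795, nat_lit 25787, nat_lit 25791, nat_lit 45471, nat_lit 6107] (nat_lit 0) [] false,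
   Spec.mk (nat_lit 25791) (nat_lit 0) [nat_lit 12669, nat_lit 30165, nat_lit 25305, nat_lit 25629, nat_lit 25845, nat_lit 25773, nat_lit 25797, nat_lit 25789, nat_lit 6109] (nat_lit 2) [] false,
   Spec.mk (nat_lit 25795) (nat_lit 0) [nat_lit 12673, nat_lit 30169, nat_lit 25309, nat_lit 25633, nat_lit 25849, nat_lit 25777, nat_lit 25813, nat_lit 25789, nat_lit 25797, nat_lit 45477, nat_lit 6113] (nat_lit 0) [] false,
   Spec.mk (nat_lit 25797) (nat_lit 0) [nat_lit 12675, nat_lit 30171, nat_lit 25311, nat_lit 25635, nat_lit 25851, nat_lit 25779, nat_lit 25815, nat_lit 25791, nat_lit 25803, nat_lit 25795, nat_lit 6115] (nat_lit 0) [] false,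
   Spec.mk (nat_lit 25803) (nat_lit 0) [nat_lit 12681, nat_lit 30177, nat_lit 25317, nat_lit 25641, nat_lit 25857, nat_lit 25821, nat_lit 25797, nat_lit 6121] (nat_lit 0) [] false,
   Spec.mk (nat_lit 25813) (nat_lit 0) [nat_lit 12691, nat_lit 30187, nat_lit 25327, nat_lit 25651, nat_lit 25867, nat_lit 25795, nat_lit 25815, nat_lit 45495, nat_lit 6131] (nat_lit 1) [] false,
   Spec.mk (nat_lit 25815) (nat_lit 0) [nat_lit 12693, nat_lit 30189, nat_lit 25329, nat_lit 25653, nat_lit 25869, nat_lit 25797, nat_lit 25821, nat_lit 25813, nat_lit 6133] (nat_lit 2) [] false,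
   Spec.mk (nat_lit 25821) (nat_lit 0) [nat_lit 12699, nat_lit 30195, nat_lit 25335, nat_lit 25659, nat_lit 25875, nat_lit 25803, nat_lit 25815, nat_lit 6139] (nat_lit 0) [] false,
   Spec.mk (nat_lit 25841) (nat_lit 1) [nat_lit 12719, nat_lit 30215, nat_lit 25355, nat_lit 25679, nat_lit 26003, nat_lit 25787, nat_lit 25843, nat_lit 45523] (nat_lit 0) [] false,
   Spec.mk (nat_lit 25843) (nat_lit 1) [nat_lit 12721, nat_lit 30217, nat_lit 25357, nat_lit 25681, nat_lit 26005, nat_lit 25789, nat_lit 25849, nat_lit 25841, nat_lit 25845, nat_lit 45525, nat_lit 6161] (nat_lit 0) [] false,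
   Spec.mk (nat_lit 25845) (nat_lit 0) [nat_lit 12723, nat_lit 30219, nat_lit 25359, nat_lit 25683, nat_lit 26007, nat_lit 25791, nat_lit 25851, nat_lit 25843, nat_lit 6163] (nat_lit 1) [] false,
   Spec.mk (nat_lit 25849) (nat_lit 0) [nat_lit 12727, nat_lit 30223, nat_lit 25363, nat_lit 25687, nat_lit 26011, nat_lit 25795, nat_lit 25867, nat_lit 25843, nat_lit 25851, nat_lit 45531, nat_lit 6167] (nat_lit 0) [] false,
   Spec.mk (nat_lit 25851) (nat_lit 0) [nat_lit 12729, nat_lit 30225, nat_lit 25365, nat_lit 25689, nat_lit 26013, nat_lit 25797, nat_lit 25869, nat_lit 25845, nat_lit 25857, nat_lit 25849, nat_lit 6169] (nat_lit 0) [] false,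
   Spec.mk (nat_lit 25857) (nat_lit 0) [nat_lit 12735, nat_lit 30231, nat_lit 25371, nat_lit 25695, nat_lit 26019, nat_lit 25803, nat_lit 25875, nat_lit 25851, nat_lit 6175] (nat_lit 1) [] false,
   Spec.mk (nat_lit 25867) (nat_lit 1) [nat_lit 12745, nat_lit 30241, nat_lit 25381, nat_lit 25705, nat_lit 26029, nat_lit 25813, nat_lit 25921, nat_lit 25849, nat_lit 25869, nat_lit 45549, nat_lit 6185] (nat_lit 0) [] false,
   Spec.mk (nat_lit 25869) (nat_lit 0) [nat_lit 12747, nat_lit 30243, nat_lit 25383, nat_lit 25707, nat_lit 26031, nat_lit 25815, nat_lit 25923, nat_lit 25851, nat_lit 25875, nat_lit 25867, nat_lit 6187] (nat_lit 0) [] false,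
   Spec.mk (nat_lit 25875) (nat_lit 1) [nat_lit 12753, nat_lit 30249, nat_lit 25389, nat_lit 25713, nat_lit 26037, nat_lit 25821, nat_lit 25929, nat_lit 25857, nat_lit 25893, nat_lit 25869, nat_lit 6193] (nat_lit 0) [] false,
   Spec.mk (nat_lit 25893) (nat_lit 1) [nat_lit 12771, nat_lit 30267, nat_lit 25407, nat_lit 25731, nat_lit 26055, nat_lit 25947, nat_lit 25875, nat_lit 6211] (nat_lit 0) [] false,
   Spec.mk (nat_lit 25921) (nat_lit 1) [nat_lit 12799, nat_lit 30295, nat_lit 25435, nat_lit 26083, nat_lit 25867, nat_lit 25923, nat_lit 45603, nat_lit 6239] (nat_lit 0) [] false,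
   Spec.mk (nat_lit 25923) (nat_lit 0) [nat_lit 12801, nat_lit 30297, nat_lit 25437, nat_lit 26085, nat_lit 25869, nat_lit 25929, nat_lit 25921, nat_lit 6241] (nat_lit 0) [] false,
   Spec.mk (nat_lit 25929) (nat_lit 0) [nat_lit 12807, nat_lit 30303, nat_lit 25443, nat_lit 26091, nat_lit 25875, nat_lit 25947, nat_lit 25923, nat_lit 6247] (nat_lit 0) [] false,
   Spec.mk (nat_lit 25947) (nat_lit 2) [nat_lit 12825, nat_lit 30321, nat_lit 25461, nat_lit 26109, nat_lit 25893, nat_lit 25929, nat_lit 6265] (nat_lit 0) [] false,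
   Spec.mk (nat_lit 26003) (nat_lit 2) [nat_lit 12881, nat_lit 30377, nat_lit 25841, nat_lit 26005, nat_lit 45685] (nat_lit 0) [] false,
   Spec.mk (nat_lit 26005) (nat_lit 2) [nat_lit 12883, nat_lit 30379, nat_lit 25843, nat_lit 26011, nat_lit 26003, nat_lit 26007, nat_lit 45687, nat_lit 6323] (nat_lit 0) [] false,
   Spec.mk (nat_lit 26007) (nat_lit 0) [nat_lit 12885, nat_lit 30381, nat_lit 25845, nat_lit 26013, nat_lit 26005, nat_lit 6325] (nat_lit 0) [] false,
   Spec.mk (nat_lit 26011) (nat_lit 1) [nat_lit 12889, nat_lit 30385, nat_lit 25849, nat_lit 26029, nat_lit 26005, nat_lit 26013, nat_lit 45693, nat_lit 6329] (nat_lit 0) [] false,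
   Spec.mk (nat_lit 26013) (nat_lit 1) [nat_lit 12891, nat_lit 30387, nat_lit 25851, nat_lit 26031, nat_lit 26007, nat_lit 26019, nat_lit 26011, nat_lit 6331] (nat_lit 0) [] false,
   Spec.mk (nat_lit 26019) (nat_lit 0) [nat_lit 12897, nat_lit 30393, nat_lit 25857, nat_lit 26037, nat_lit 26013, nat_lit 6337] (nat_lit 0) [] false,
   Spec.mk (nat_lit 26029) (nat_lit 1) [nat_lit 12907, nat_lit 30403, nat_lit 25867, nat_lit 26083, nat_lit 26011, nat_lit 26031, nat_lit 45711, nat_lit 6347] (nat_lit 0) [] false,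
   Spec.mk (nat_lit 26031) (nat_lit 0) [nat_lit 12909, nat_lit 30405, nat_lit 25869, nat_lit 26085, nat_lit 26013, nat_lit 26037, nat_lit 26029, nat_lit 6349] (nat_lit 0) [] false,
   Spec.mk (nat_lit 26037) (nat_lit 1) [nat_lit 12915, nat_lit 30411, nat_lit 25875, nat_lit 26091, nat_lit 26019, nat_lit 26055, nat_lit 26031, nat_lit 6355] (nat_lit 0) [] false,
   Spec.mk (nat_lit 26055) (nat_lit 0) [nat_lit 12933, nat_lit 30429, nat_lit 25893, nat_lit 26109, nat_lit 26037, nat_lit 6373] (nat_lit 0) [] false,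
   Spec.mk (nat_lit 26083) (nat_lit 3) [nat_lit 12961, nat_lit 30457, nat_lit 25921, nat_lit 26029, nat_lit 26085, nat_lit 45765, nat_lit 6401] (nat_lit 0) [] false,
   Spec.mk (nat_lit 26085) (nat_lit 2) [nat_lit 12963, nat_lit 30459, nat_lit 25923, nat_lit 26031, nat_lit 26091, nat_lit 26083, nat_lit 6403] (nat_lit 0) [] false,
   Spec.mk (nat_lit 26091) (nat_lit 2) [nat_lit 12969, nat_lit 30465, nat_lit 25929, nat_lit 26037, nat_lit 26109, nat_lit 26085, nat_lit 6409] (nat_lit 0) [] false,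
   Spec.mk (nat_lit 26109) (nat_lit 3) [nat_lit 12987, nat_lit 30483, nat_lit 25947, nat_lit 26055, nat_lit 26163, nat_lit 26091, nat_lit 6427] (nat_lit 0) [] false,
   Spec.mk (nat_lit 26163) (nat_lit 4) [nat_lit 13041, nat_lit 30537, nat_lit 26109, nat_lit 6481] (nat_lit 0) [] false,
   Spec.mk (nat_lit 26297) (nat_lit 5) [nat_lit 13175, nat_lit 39419, nat_lit 21923, nat_lit 26351, nat_lit 26315, nat_lit 45979] (nat_lit 0) [] false,
   Spec.mk (nat_lit 26315) (nat_lit 3) [nat_lit 13193, nat_lit 39437, nat_lit 21941, nat_lit 26369, nat_lit 26297, nat_lit 26321, nat_lit 45997] (nat_lit 0) [] false,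
   Spec.mk (nat_lit 26321) (nat_lit 3) [nat_lit 13199, nat_lit 39443, nat_lit 21947, nat_lit 26375, nat_lit 26315, nat_lit 26323, nat_lit 46003] (nat_lit 0) [] false,
   Spec.mk (nat_lit 26323) (nat_lit 4) [nat_lit 13201, nat_lit 39445, nat_lit 21949, nat_lit 26377, nat_lit 26321, nat_lit 46005, nat_lit 6641] (nat_lit 0) [] false,
   Spec.mk (nat_lit 26351) (nat_lit 3) [nat_lit 13229, nat_lit 39473, nat_lit 21977, nat_lit 26513, nat_lit 26297, nat_lit 26369, nat_lit 46033] (nat_lit 0) [] false,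
   Spec.mk (nat_lit 26369) (nat_lit 3) [nat_lit 13247, nat_lit 39491, nat_lit 21995, nat_lit 26531, nat_lit 26315, nat_lit 26423, nat_lit 26351, nat_lit 26387, nat_lit 26375, nat_lit 46051] (nat_lit 0) [] false,
   Spec.mk (nat_lit 26375) (nat_lit 2) [nat_lit 13253, nat_lit 39497, nat_lit 22001, nat_lit 26537, nat_lit 26321, nat_lit 26429, nat_lit 26393, nat_lit 26369, nat_lit 26377, nat_lit 46057] (nat_lit 0) [] false,
   Spec.mk (nat_lit 26377) (nat_lit 3) [nat_lit 13255, nat_lit 39499, nat_lit 22003, nat_lit 26539, nat_lit 26323, nat_lit 26431, nat_lit 26395, nat_lit 26375, nat_lit 46059, nat_lit 6695] (nat_lit 0) [] false,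
   Spec.mk (nat_lit 26387) (nat_lit 1) [nat_lit 13265, nat_lit 39509, nat_lit 22013, nat_lit 26549, nat_lit 26441, nat_lit 26369, nat_lit 26393, nat_lit 46069] (nat_lit 0) [] false,
   Spec.mk (nat_lit 26393) (nat_lit 2) [nat_lit 13271, nat_lit 39515, nat_lit 22019, nat_lit 26555, nat_lit 26447, nat_lit 26375, nat_lit 26387, nat_lit 26399, nat_lit 26395, nat_lit 46075] (nat_lit 0) [] false,
   Spec.mk (nat_lit 26395) (nat_lit 2) [nat_lit 13273, nat_lit 39517, nat_lit 22021, nat_lit 26557, nat_lit 26449, nat_lit 26377, nat_lit 26401, nat_lit 26393, nat_lit 46077, nat_lit 6713] (nat_lit 0) [] false,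
   Spec.mk (nat_lit 26399) (nat_lit 1) [nat_lit 13277, nat_lit 39521, nat_lit 22025, nat_lit 26561, nat_lit 26453, nat_lit 26393, nat_lit 26401, nat_lit 46081] (nat_lit 0) [] false,
   Spec.mk (nat_lit 26401) (nat_lit 3) [nat_lit 13279, nat_lit 39523, nat_lit 22027, nat_lit 26563, nat_lit 26455, nat_lit 26395, nat_lit 26399, nat_lit 26403, nat_lit 46083, nat_lit 6719] (nat_lit 0) [] false,
   Spec.mk (nat_lit 26403) (nat_lit 3) [nat_lit 13281, nat_lit 39525, nat_lit 22029, nat_lit 26565, nat_lit 26457, nat_lit 26401, nat_lit 6721] (nat_lit 0) [] false]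

noncomputable def sp71 : List Spec :=
  [Spec.mk (nat_lit 26423) (nat_lit 1) [nat_lit 13301, nat_lit 39545, nat_lit 22049, nat_lit 26585, nat_lit 26369, nat_lit 26441, nat_lit 26429, nat_lit 46105] (nat_lit 0) [] false,
   Spec.mk (nat_lit 26429) (nat_lit 0) [nat_lit 13307, nat_lit 39551, nat_lit 22055, nat_lit 26591, nat_lit 26375, nat_lit 26447, nat_lit 26423, nat_lit 26431, nat_lit 46111] (nat_lit 1) [] false,
   Spec.mk (nat_lit 26431) (nat_lit 0) [nat_lit 13309, nat_lit 39553, nat_lit 22057, nat_lit 26593, nat_lit 26377, nat_lit 26449, nat_lit 26429, nat_lit 46113, nat_lit 6749] (nat_lit 0) [] false,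
   Spec.mk (nat_lit 26441) (nat_lit 1) [nat_lit 13319, nat_lit 39563, nat_lit 22067, nat_lit 26603, nat_lit 26387, nat_lit 26423, nat_lit 26447, nat_lit 46123] (nat_lit 0) [] false,
   Spec.mk (nat_lit 26447) (nat_lit 1) [nat_lit 13325, nat_lit 39569, nat_lit 22073, nat_lit 26609, nat_lit 26393, nat_lit 26429, nat_lit 26465, nat_lit 26441, nat_lit 26453, nat_lit 26449, nat_lit 46129] (nat_lit 0) [] false,
   Spec.mk (nat_lit 26449) (nat_lit 1) [nat_lit 13327, nat_lit 39571, nat_lit 22075, nat_lit 26611, nat_lit 26395, nat_lit 26431, nat_lit 26467, nat_lit 26455, nat_lit 26447, nat_lit 46131, nat_lit 6767] (nat_lit 0) [] false,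
   Spec.mk (nat_lit 26453) (nat_lit 0) [nat_lit 13331, nat_lit 39575, nat_lit 22079, nat_lit 26615, nat_lit 26399, nat_lit 26471, nat_lit 26447, nat_lit 26455, nat_lit 46135] (nat_lit 1) [] false,
   Spec.mk (nat_lit 26455) (nat_lit 1) [nat_lit 13333, nat_lit 39577, nat_lit 22081, nat_lit 26617, nat_lit 26401, nat_lit 26473, nat_lit 26449, nat_lit 26453, nat_lit 26457, nat_lit 46137, nat_lit 6773] (nat_lit 0) [] false,
   Spec.mk (nat_lit 26457) (nat_lit 1) [nat_lit 13335, nat_lit 39579, nat_lit 22083, nat_lit 26619, nat_lit 26403, nat_lit 26475, nat_lit 26455, nat_lit 6775] (nat_lit 0) [] false,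
   Spec.mk (nat_lit 26465) (nat_lit 1) [nat_lit 13343, nat_lit 39587, nat_lit 22091, nat_lit 26627, nat_lit 26447, nat_lit 26471, nat_lit 26467, nat_lit 46147] (nat_lit 0) [] false,
   Spec.mk (nat_lit 26467) (nat_lit 0) [nat_lit 13345, nat_lit 39589, nat_lit 22093, nat_lit 26629, nat_lit 26449, nat_lit 26473, nat_lit 26465, nat_lit 46149, nat_lit 6785] (nat_lit 0) [] false,
   Spec.mk (nat_lit 26471) (nat_lit 1) [nat_lit 13349, nat_lit 39593, nat_lit 22097, nat_lit 26633, nat_lit 26453, nat_lit 26465, nat_lit 26473, nat_lit 46153] (nat_lit 0) [] false,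
   Spec.mk (nat_lit 26473) (nat_lit 2) [nat_lit 13351, nat_lit 39595, nat_lit 22099, nat_lit 26635, nat_lit 26455, nat_lit 26467, nat_lit 26479, nat_lit 26471, nat_lit 26475, nat_lit 46155, nat_lit 6791] (nat_lit 0) [] false,
   Spec.mk (nat_lit 26475) (nat_lit 1) [nat_lit 13353, nat_lit 39597, nat_lit 22101, nat_lit 26637, nat_lit 26457, nat_lit 26481, nat_lit 26473, nat_lit 6793] (nat_lit 0) [] false,
   Spec.mk (nat_lit 26479) (nat_lit 2) [nat_lit 13357, nat_lit 39601, nat_lit 22105, nat_lit 26641, nat_lit 26473, nat_lit 26481, nat_lit 46161, nat_lit 6797] (nat_lit 0) [] false,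
   Spec.mk (nat_lit 26481) (nat_lit 3) [nat_lit 13359, nat_lit 39603, nat_lit 22107, nat_lit 26643, nat_lit 26475, nat_lit 26479, nat_lit 6799] (nat_lit 0) [] false,
   Spec.mk (nat_lit 26513) (nat_lit 3) [nat_lit 13391, nat_lit 39635, nat_lit 22139, nat_lit 26999, nat_lit 26351, nat_lit 26531, nat_lit 46195] (nat_lit 0) [] false,
   Spec.mk (nat_lit 26531) (nat_lit 2) [nat_lit 13409, nat_lit 39653, nat_lit 22157, nat_lit 27017, nat_lit 26369, nat_lit 26585, nat_lit 26513, nat_lit 26549, nat_lit 26537, nat_lit 46213] (nat_lit 0) [] false,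
   Spec.mk (nat_lit 26537) (nat_lit 1) [nat_lit 13415, nat_lit 39659, nat_lit 22163, nat_lit 27023, nat_lit 26375, nat_lit 26591, nat_lit 26555, nat_lit 26531, nat_lit 26539, nat_lit 46219] (nat_lit 0) [] false,
   Spec.mk (nat_lit 26539) (nat_lit 2) [nat_lit 13417, nat_lit 39661, nat_lit 22165, nat_lit 27025, nat_lit 26377, nat_lit 26593, nat_lit 26557, nat_lit 26537, nat_lit 46221, nat_lit 6857] (nat_lit 0) [] false,
   Spec.mk (nat_lit 26549) (nat_lit 0) [nat_lit 13427, nat_lit 39671, nat_lit 22175, nat_lit 27035, nat_lit 26387, nat_lit 26603, nat_lit 26531, nat_lit 26555, nat_lit 46231] (nat_lit 1) [] false,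
   Spec.mk (nat_lit 26555) (nat_lit 0) [nat_lit 13433, nat_lit 39677, nat_lit 22181, nat_lit 27041, nat_lit 26393, nat_lit 26609, nat_lit 26537, nat_lit 26549, nat_lit 26561, nat_lit 26557, nat_lit 46237] (nat_lit 0) [] false,
   Spec.mk (nat_lit 26557) (nat_lit 0) [nat_lit 13435, nat_lit 39679, nat_lit 22183, nat_lit 27043, nat_lit 26395, nat_lit 26611, nat_lit 26539, nat_lit 26563, nat_lit 26555, nat_lit 46239, nat_lit 6875] (nat_lit 0) [] false,
   Spec.mk (nat_lit 26561) (nat_lit 0) [nat_lit 13439, nat_lit 39683, nat_lit 22187, nat_lit 27047, nat_lit 26399, nat_lit 26615, nat_lit 26555, nat_lit 26563, nat_lit 46243] (nat_lit 1) [] false,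
   Spec.mk (nat_lit 26563) (nat_lit 1) [nat_lit 13441, nat_lit 39685, nat_lit 22189, nat_lit 27049, nat_lit 26401, nat_lit 26617, nat_lit 26557, nat_lit 26561, nat_lit 26565, nat_lit 46245, nat_lit 6881] (nat_lit 0) [] false,
   Spec.mk (nat_lit 26565) (nat_lit 1) [nat_lit 13443, nat_lit 39687, nat_lit 22191, nat_lit 27051, nat_lit 26403, nat_lit 26619, nat_lit 26563, nat_lit 6883] (nat_lit 0) [] false,
   Spec.mk (nat_lit 26585) (nat_lit 2) [nat_lit 13463, nat_lit 39707, nat_lit 22211, nat_lit 27071, nat_lit 26423, nat_lit 26747, nat_lit 26531, nat_lit 26603, nat_lit 26591, nat_lit 46267] (nat_lit 0) [] false,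
   Spec.mk (nat_lit 26591) (nat_lit 0) [nat_lit 13469, nat_lit 39713, nat_lit 22217, nat_lit 27077, nat_lit 26429, nat_lit 26753, nat_lit 26537, nat_lit 26609, nat_lit 26585, nat_lit 26593, nat_lit 46273] (nat_lit 0) [] false,
   Spec.mk (nat_lit 26593) (nat_lit 1) [nat_lit 13471, nat_lit 39715, nat_lit 22219, nat_lit 27079, nat_lit 26431, nat_lit 26755, nat_lit 26539, nat_lit 26611, nat_lit 26591, nat_lit 46275, nat_lit 6911] (nat_lit 0) [] false,
   Spec.mk (nat_lit 26603) (nat_lit 1) [nat_lit 13481, nat_lit 39725, nat_lit 22229, nat_lit 27089, nat_lit 26441, nat_lit 26765, nat_lit 26549, nat_lit 26657, nat_lit 26585, nat_lit 26609, nat_lit 46285] (nat_lit 0) [] false,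
   Spec.mk (nat_lit 26609) (nat_lit 1) [nat_lit 13487, nat_lit 39731, nat_lit 22235, nat_lit 27095, nat_lit 26447, nat_lit 26771, nat_lit 26555, nat_lit 26663, nat_lit 26591, nat_lit 26627, nat_lit 26603, nat_lit 26615, nat_lit 26611, nat_lit 46291] (nat_lit 0) [] false,
   Spec.mk (nat_lit 26611) (nat_lit 1) [nat_lit 13489, nat_lit 39733, nat_lit 22237, nat_lit 27097, nat_lit 26449, nat_lit 26773, nat_lit 26557, nat_lit 26665, nat_lit 26593, nat_lit 26629, nat_lit 26617, nat_lit 26609, nat_lit 46293, nat_lit 6929] (nat_lit 0) [] false,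
   Spec.mk (nat_lit 26615) (nat_lit 0) [nat_lit 13493, nat_lit 39737, nat_lit 22241, nat_lit 27101, nat_lit 26453, nat_lit 26777, nat_lit 26561, nat_lit 26669, nat_lit 26633, nat_lit 26609, nat_lit 26617, nat_lit 46297] (nat_lit 1) [] false,
   Spec.mk (nat_lit 26617) (nat_lit 1) [nat_lit 13495, nat_lit 39739, nat_lit 22243, nat_lit 27103, nat_lit 26455, nat_lit 26779, nat_lit 26563, nat_lit 26671, nat_lit 26635, nat_lit 26611, nat_lit 26615, nat_lit 26619, nat_lit 46299, nat_lit 6935] (nat_lit 0) [] false,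
   Spec.mk (nat_lit 26619) (nat_lit 1) [nat_lit 13497, nat_lit 39741, nat_lit 22245, nat_lit 27105, nat_lit 26457, nat_lit 26781, nat_lit 26565, nat_lit 26673, nat_lit 26637, nat_lit 26617, nat_lit 6937] (nat_lit 0) [] false,
   Spec.mk (nat_lit 26627) (nat_lit 0) [nat_lit 13505, nat_lit 39749, nat_lit 22253, nat_lit 27113, nat_lit 26465, nat_lit 26789, nat_lit 26681, nat_lit 26609, nat_lit 26633, nat_lit 26629, nat_lit 46309] (nat_lit 0) [] false,
   Spec.mk (nat_lit 26629) (nat_lit 0) [nat_lit 13507, nat_lit 39751, nat_lit 22255, nat_lit 27115, nat_lit 26467, nat_lit 26791, nat_lit 26683, nat_lit 26611, nat_lit 26635, nat_lit 26627, nat_lit 46311, nat_lit 6947] (nat_lit 1) [] false,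
   Spec.mk (nat_lit 26633) (nat_lit 0) [nat_lit 13511, nat_lit 39755, nat_lit 22259, nat_lit 27119, nat_lit 26471, nat_lit 26795, nat_lit 26687, nat_lit 26615, nat_lit 26627, nat_lit 26635, nat_lit 46315] (nat_lit 0) [] false,
   Spec.mk (nat_lit 26635) (nat_lit 1) [nat_lit 13513, nat_lit 39757, nat_lit 22261, nat_lit 27121, nat_lit 26473, nat_lit 26797, nat_lit 26689, nat_lit 26617, nat_lit 26629, nat_lit 26641, nat_lit 26633, nat_lit 26637, nat_lit 46317, nat_lit 6953] (nat_lit 0) [] false,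
   Spec.mk (nat_lit 26637) (nat_lit 0) [nat_lit 13515, nat_lit 39759, nat_lit 22263, nat_lit 27123, nat_lit 26475, nat_lit 26799, nat_lit 26691, nat_lit 26619, nat_lit 26643, nat_lit 26635, nat_lit 6955] (nat_lit 0) [] false,
   Spec.mk (nat_lit 26641) (nat_lit 1) [nat_lit 13519, nat_lit 39763, nat_lit 22267, nat_lit 27127, nat_lit 26479, nat_lit 26803, nat_lit 26695, nat_lit 26635, nat_lit 26643, nat_lit 46323, nat_lit 6959] (nat_lit 0) [] false,
   Spec.mk (nat_lit 26643) (nat_lit 2) [nat_lit 13521, nat_lit 39765, nat_lit 22269, nat_lit 27129, nat_lit 26481, nat_lit 26805, nat_lit 26697, nat_lit 26637, nat_lit 26641, nat_lit 6961] (nat_lit 0) [] false,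
   Spec.mk (nat_lit 26657) (nat_lit 1) [nat_lit 13535, nat_lit 39779, nat_lit 22283, nat_lit 27143, nat_lit 26819, nat_lit 26603, nat_lit 26663, nat_lit 46339] (nat_lit 0) [] false,
   Spec.mk (nat_lit 26663) (nat_lit 0) [nat_lit 13541, nat_lit 39785, nat_lit 22289, nat_lit 27149, nat_lit 26825, nat_lit 26609, nat_lit 26681, nat_lit 26657, nat_lit 26669, nat_lit 26665, nat_lit 46345] (nat_lit 0) [] false,
   Spec.mk (nat_lit 26665) (nat_lit 0) [nat_lit 13543, nat_lit 39787, nat_lit 22291, nat_lit 27151, nat_lit 26827, nat_lit 26611, nat_lit 26683, nat_lit 26671, nat_lit 26663, nat_lit 46347, nat_lit 6983] (nat_lit 0) [] false,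
   Spec.mk (nat_lit 26669) (nat_lit 0) [nat_lit 13547, nat_lit 39791, nat_lit 22295, nat_lit 27155, nat_lit 26831, nat_lit 26615, nat_lit 26687, nat_lit 26663, nat_lit 26671, nat_lit 46351] (nat_lit 3) [] false,
   Spec.mk (nat_lit 26671) (nat_lit 0) [nat_lit 13549, nat_lit 39793, nat_lit 22297, nat_lit 27157, nat_lit 26833, nat_lit 26617, nat_lit 26689, nat_lit 26665, nat_lit 26669, nat_lit 26673, nat_lit 46353, nat_lit 6989] (nat_lit 1) [] false,
   Spec.mk (nat_lit 26673) (nat_lit 0) [nat_lit 13551, nat_lit 39795, nat_lit 22299, nat_lit 27159, nat_lit 26835, nat_lit 26619, nat_lit 26691, nat_lit 26671, nat_lit 6991] (nat_lit 1) [] false,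
   Spec.mk (nat_lit 26681) (nat_lit 1) [nat_lit 13559, nat_lit 39803, nat_lit 22307, nat_lit 27167, nat_lit 26843, nat_lit 26627, nat_lit 26663, nat_lit 26687, nat_lit 26683, nat_lit 46363] (nat_lit 0) [] false,
   Spec.mk (nat_lit 26683) (nat_lit 0) [nat_lit 13561, nat_lit 39805, nat_lit 22309, nat_lit 27169, nat_lit 26845, nat_lit 26629, nat_lit 26665, nat_lit 26689, nat_lit 26681, nat_lit 46365, nat_lit 7001] (nat_lit 0) [] false,
   Spec.mk (nat_lit 26687) (nat_lit 0) [nat_lit 13565, nat_lit 39809, nat_lit 22313, nat_lit 27173, nat_lit 26849, nat_lit 26633, nat_lit 26669, nat_lit 26705, nat_lit 26681, nat_lit 26689, nat_lit 46369] (nat_lit 0) [] false,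
   Spec.mk (nat_lit 26689) (nat_lit 1) [nat_lit 13567, nat_lit 39811, nat_lit 22315, nat_lit 27175, nat_lit 26851, nat_lit 26635, nat_lit 26671, nat_lit 26707, nat_lit 26683, nat_lit 26695, nat_lit 26687, nat_lit 26691, nat_lit 46371, nat_lit 7007] (nat_lit 0) [] false,
   Spec.mk (nat_lit 26691) (nat_lit 0) [nat_lit 13569, nat_lit 39813, nat_lit 22317, nat_lit 27177, nat_lit 26853, nat_lit 26637, nat_lit 26673, nat_lit 26709, nat_lit 26697, nat_lit 26689, nat_lit 7009] (nat_lit 0) [] false,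
   Spec.mk (nat_lit 26695) (nat_lit 0) [nat_lit 13573, nat_lit 39817, nat_lit 22321, nat_lit 27181, nat_lit 26857, nat_lit 26641, nat_lit 26713, nat_lit 26689, nat_lit 26697, nat_lit 46377, nat_lit 7013] (nat_lit 0) [] false,
   Spec.mk (nat_lit 26697) (nat_lit 1) [nat_lit 13575, nat_lit 39819, nat_lit 22323, nat_lit 27183, nat_lit 26859, nat_lit 26643, nat_lit 26715, nat_lit 26691, nat_lit 26695, nat_lit 7015] (nat_lit 0) [] false,
   Spec.mk (nat_lit 26705) (nat_lit 1) [nat_lit 13583, nat_lit 39827, nat_lit 22331, nat_lit 27191, nat_lit 26867, nat_lit 26687, nat_lit 26707, nat_lit 46387] (nat_lit 0) [] false,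
   Spec.mk (nat_lit 26707) (nat_lit 1) [nat_lit 13585, nat_lit 39829, nat_lit 22333, nat_lit 27193, nat_lit 26869, nat_lit 26689, nat_lit 26713, nat_lit 26705, nat_lit 26709, nat_lit 46389, nat_lit 7025] (nat_lit 0) [] false,
   Spec.mk (nat_lit 26709) (nat_lit 0) [nat_lit 13587, nat_lit 39831, nat_lit 22335, nat_lit 27195, nat_lit 26871, nat_lit 26691, nat_lit 26715, nat_lit 26707, nat_lit 7027] (nat_lit 1) [] false,
   Spec.mk (nat_lit 26713) (nat_lit 2) [nat_lit 13591, nat_lit 39835, nat_lit 22339, nat_lit 27199, nat_lit 26875, nat_lit 26695, nat_lit 26707, nat_lit 26715, nat_lit 46395, nat_lit 7031] (nat_lit 0) [] false,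
   Spec.mk (nat_lit 26715) (nat_lit 2) [nat_lit 13593, nat_lit 39837, nat_lit 22341, nat_lit 27201, nat_lit 26877, nat_lit 26697, nat_lit 26709, nat_lit 26721, nat_lit 26713, nat_lit 7033] (nat_lit 0) [] false]

noncomputable def sp72 : List Spec :=
  [Spec.mk (nat_lit 26721) (nat_lit 3) [nat_lit 13599, nat_lit 39843, nat_lit 22347, nat_lit 27207, nat_lit 26883, nat_lit 26715, nat_lit 7039] (nat_lit 0) [] false,
   Spec.mk (nat_lit 26747) (nat_lit 1) [nat_lit 13625, nat_lit 39869, nat_lit 22373, nat_lit 27233, nat_lit 26585, nat_lit 26765, nat_lit 26753, nat_lit 46429] (nat_lit 0) [] false,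
   Spec.mk (nat_lit 26753) (nat_lit 0) [nat_lit 13631, nat_lit 39875, nat_lit 22379, nat_lit 27239, nat_lit 26591, nat_lit 26771, nat_lit 26747, nat_lit 26755, nat_lit 46435] (nat_lit 1) [] false,
   Spec.mk (nat_lit 26755) (nat_lit 0) [nat_lit 13633, nat_lit 39877, nat_lit 22381, nat_lit 27241, nat_lit 26593, nat_lit 26773, nat_lit 26753, nat_lit 46437, nat_lit 7073] (nat_lit 0) [] false,
   Spec.mk (nat_lit 26765) (nat_lit 0) [nat_lit 13643, nat_lit 39887, nat_lit 22391, nat_lit 27251, nat_lit 26603, nat_lit 26819, nat_lit 26747, nat_lit 26771, nat_lit 46447] (nat_lit 1) [] false,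
   Spec.mk (nat_lit 26771) (nat_lit 0) [nat_lit 13649, nat_lit 39893, nat_lit 22397, nat_lit 27257, nat_lit 26609, nat_lit 26825, nat_lit 26753, nat_lit 26789, nat_lit 26765, nat_lit 26777, nat_lit 26773, nat_lit 46453] (nat_lit 1) [] false,
   Spec.mk (nat_lit 26773) (nat_lit 0) [nat_lit 13651, nat_lit 39895, nat_lit 22399, nat_lit 27259, nat_lit 26611, nat_lit 26827, nat_lit 26755, nat_lit 26791, nat_lit 26779, nat_lit 26771, nat_lit 46455, nat_lit 7091] (nat_lit 1) [] false,
   Spec.mk (nat_lit 26777) (nat_lit 0) [nat_lit 13655, nat_lit 39899, nat_lit 22403, nat_lit 27263, nat_lit 26615, nat_lit 26831, nat_lit 26795, nat_lit 26771, nat_lit 26779, nat_lit 46459] (nat_lit 3) [] false,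
   Spec.mk (nat_lit 26779) (nat_lit 0) [nat_lit 13657, nat_lit 39901, nat_lit 22405, nat_lit 27265, nat_lit 26617, nat_lit 26833, nat_lit 26797, nat_lit 26773, nat_lit 26777, nat_lit 26781, nat_lit 46461, nat_lit 7097] (nat_lit 1) [] false,
   Spec.mk (nat_lit 26781) (nat_lit 0) [nat_lit 13659, nat_lit 39903, nat_lit 22407, nat_lit 27267, nat_lit 26619, nat_lit 26835, nat_lit 26799, nat_lit 26779, nat_lit 7099] (nat_lit 1) [] false,
   Spec.mk (nat_lit 26789) (nat_lit 0) [nat_lit 13667, nat_lit 39911, nat_lit 22415, nat_lit 27275, nat_lit 26627, nat_lit 26843, nat_lit 26771, nat_lit 26795, nat_lit 26791, nat_lit 46471] (nat_lit 3) [] false,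
   Spec.mk (nat_lit 26791) (nat_lit 0) [nat_lit 13669, nat_lit 39913, nat_lit 22417, nat_lit 27277, nat_lit 26629, nat_lit 26845, nat_lit 26773, nat_lit 26797, nat_lit 26789, nat_lit 46473, nat_lit 7109] (nat_lit 4) [] false,
   Spec.mk (nat_lit 26795) (nat_lit 0) [nat_lit 13673, nat_lit 39917, nat_lit 22421, nat_lit 27281, nat_lit 26633, nat_lit 26849, nat_lit 26777, nat_lit 26789, nat_lit 26797, nat_lit 46477] (nat_lit 3) [] false,
   Spec.mk (nat_lit 26797) (nat_lit 0) [nat_lit 13675, nat_lit 39919, nat_lit 22423, nat_lit 27283, nat_lit 26635, nat_lit 26851, nat_lit 26779, nat_lit 26791, nat_lit 26803, nat_lit 26795, nat_lit 26799, nat_lit 46479, nat_lit 7115] (nat_lit 2) [] false,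
   Spec.mk (nat_lit 26799) (nat_lit 0) [nat_lit 13677, nat_lit 39921, nat_lit 22425, nat_lit 27285, nat_lit 26637, nat_lit 26853, nat_lit 26781, nat_lit 26805, nat_lit 26797, nat_lit 7117] (nat_lit 3) [] false,
   Spec.mk (nat_lit 26803) (nat_lit 0) [nat_lit 13681, nat_lit 39925, nat_lit 22429, nat_lit 27289, nat_lit 26641, nat_lit 26857, nat_lit 26797, nat_lit 26805, nat_lit 46485, nat_lit 7121] (nat_lit 2) [] false,
   Spec.mk (nat_lit 26805) (nat_lit 0) [nat_lit 13683, nat_lit 39927, nat_lit 22431, nat_lit 27291, nat_lit 26643, nat_lit 26859, nat_lit 26799, nat_lit 26803, nat_lit 7123] (nat_lit 1) [] false,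
   Spec.mk (nat_lit 26819) (nat_lit 1) [nat_lit 13697, nat_lit 39941, nat_lit 22445, nat_lit 27305, nat_lit 26657, nat_lit 26765, nat_lit 26825, nat_lit 46501] (nat_lit 0) [] false,
   Spec.mk (nat_lit 26825) (nat_lit 0) [nat_lit 13703, nat_lit 39947, nat_lit 22451, nat_lit 27311, nat_lit 26663, nat_lit 26771, nat_lit 26843, nat_lit 26819, nat_lit 26831, nat_lit 26827, nat_lit 46507] (nat_lit 0) [] false,
   Spec.mk (nat_lit 26827) (nat_lit 0) [nat_lit 13705, nat_lit 39949, nat_lit 22453, nat_lit 27313, nat_lit 26665, nat_lit 26773, nat_lit 26845, nat_lit 26833, nat_lit 26825, nat_lit 46509, nat_lit 7145] (nat_lit 0) [] false,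
   Spec.mk (nat_lit 26831) (nat_lit 0) [nat_lit 13709, nat_lit 39953, nat_lit 22457, nat_lit 27317, nat_lit 26669, nat_lit 26777, nat_lit 26849, nat_lit 26825, nat_lit 26833, nat_lit 46513] (nat_lit 3) [] false,
   Spec.mk (nat_lit 26833) (nat_lit 0) [nat_lit 13711, nat_lit 39955, nat_lit 22459, nat_lit 27319, nat_lit 26671, nat_lit 26779, nat_lit 26851, nat_lit 26827, nat_lit 26831, nat_lit 26835, nat_lit 46515, nat_lit 7151] (nat_lit 1) [] false,
   Spec.mk (nat_lit 26835) (nat_lit 0) [nat_lit 13713, nat_lit 39957, nat_lit 22461, nat_lit 27321, nat_lit 26673, nat_lit 26781, nat_lit 26853, nat_lit 26833, nat_lit 7153] (nat_lit 1) [] false,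
   Spec.mk (nat_lit 26843) (nat_lit 0) [nat_lit 13721, nat_lit 39965, nat_lit 22469, nat_lit 27329, nat_lit 26681, nat_lit 26789, nat_lit 26897, nat_lit 26825, nat_lit 26849, nat_lit 26845, nat_lit 46525] (nat_lit 0) [] false,
   Spec.mk (nat_lit 26845) (nat_lit 0) [nat_lit 13723, nat_lit 39967, nat_lit 22471, nat_lit 27331, nat_lit 26683, nat_lit 26791, nat_lit 26899, nat_lit 26827, nat_lit 26851, nat_lit 26843, nat_lit 46527, nat_lit 7163] (nat_lit 1) [] false,
   Spec.mk (nat_lit 26849) (nat_lit 0) [nat_lit 13727, nat_lit 39971, nat_lit 22475, nat_lit 27335, nat_lit 26687, nat_lit 26795, nat_lit 26903, nat_lit 26831, nat_lit 26867, nat_lit 26843, nat_lit 26851, nat_lit 46531] (nat_lit 1) [] false,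
   Spec.mk (nat_lit 26851) (nat_lit 0) [nat_lit 13729, nat_lit 39973, nat_lit 22477, nat_lit 27337, nat_lit 26689, nat_lit 26797, nat_lit 26905, nat_lit 26833, nat_lit 26869, nat_lit 26845, nat_lit 26857, nat_lit 26849, nat_lit 26853, nat_lit 46533, nat_lit 7169] (nat_lit 0) [] false,
   Spec.mk (nat_lit 26853) (nat_lit 0) [nat_lit 13731, nat_lit 39975, nat_lit 22479, nat_lit 27339, nat_lit 26691, nat_lit 26799, nat_lit 26907, nat_lit 26835, nat_lit 26871, nat_lit 26859, nat_lit 26851, nat_lit 7171] (nat_lit 1) [] false,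
   Spec.mk (nat_lit 26857) (nat_lit 0) [nat_lit 13735, nat_lit 39979, nat_lit 22483, nat_lit 27343, nat_lit 26695, nat_lit 26803, nat_lit 26911, nat_lit 26875, nat_lit 26851, nat_lit 26859, nat_lit 46539, nat_lit 7175] (nat_lit 1) [] false,
   Spec.mk (nat_lit 26859) (nat_lit 0) [nat_lit 13737, nat_lit 39981, nat_lit 22485, nat_lit 27345, nat_lit 26697, nat_lit 26805, nat_lit 26913, nat_lit 26877, nat_lit 26853, nat_lit 26857, nat_lit 7177] (nat_lit 0) [] false,
   Spec.mk (nat_lit 26867) (nat_lit 0) [nat_lit 13745, nat_lit 39989, nat_lit 22493, nat_lit 27353, nat_lit 26705, nat_lit 26921, nat_lit 26849, nat_lit 26869, nat_lit 46549] (nat_lit 1) [] false,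
   Spec.mk (nat_lit 26869) (nat_lit 0) [nat_lit 13747, nat_lit 39991, nat_lit 22495, nat_lit 27355, nat_lit 26707, nat_lit 26923, nat_lit 26851, nat_lit 26875, nat_lit 26867, nat_lit 26871, nat_lit 46551, nat_lit 7187] (nat_lit 1) [] false,
   Spec.mk (nat_lit 26871) (nat_lit 0) [nat_lit 13749, nat_lit 39993, nat_lit 22497, nat_lit 27357, nat_lit 26709, nat_lit 26925, nat_lit 26853, nat_lit 26877, nat_lit 26869, nat_lit 7189] (nat_lit 3) [] false,
   Spec.mk (nat_lit 26875) (nat_lit 0) [nat_lit 13753, nat_lit 39997, nat_lit 22501, nat_lit 27361, nat_lit 26713, nat_lit 26929, nat_lit 26857, nat_lit 26869, nat_lit 26877, nat_lit 46557, nat_lit 7193] (nat_lit 0) [] false,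
   Spec.mk (nat_lit 26877) (nat_lit 0) [nat_lit 13755, nat_lit 39999, nat_lit 22503, nat_lit 27363, nat_lit 26715, nat_lit 26931, nat_lit 26859, nat_lit 26871, nat_lit 26883, nat_lit 26875, nat_lit 7195] (nat_lit 0) [] false,
   Spec.mk (nat_lit 26883) (nat_lit 1) [nat_lit 13761, nat_lit 40005, nat_lit 22509, nat_lit 27369, nat_lit 26721, nat_lit 26937, nat_lit 26877, nat_lit 7201] (nat_lit 0) [] false,
   Spec.mk (nat_lit 26897) (nat_lit 1) [nat_lit 13775, nat_lit 40019, nat_lit 22523, nat_lit 27383, nat_lit 26843, nat_lit 26903, nat_lit 26899, nat_lit 46579] (nat_lit 0) [] false,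
   Spec.mk (nat_lit 26899) (nat_lit 0) [nat_lit 13777, nat_lit 40021, nat_lit 22525, nat_lit 27385, nat_lit 26845, nat_lit 26905, nat_lit 26897, nat_lit 46581, nat_lit 7217] (nat_lit 0) [] false,
   Spec.mk (nat_lit 26903) (nat_lit 0) [nat_lit 13781, nat_lit 40025, nat_lit 22529, nat_lit 27389, nat_lit 26849, nat_lit 26921, nat_lit 26897, nat_lit 26905, nat_lit 46585] (nat_lit 1) [] false,
   Spec.mk (nat_lit 26905) (nat_lit 0) [nat_lit 13783, nat_lit 40027, nat_lit 22531, nat_lit 27391, nat_lit 26851, nat_lit 26923, nat_lit 26899, nat_lit 26911, nat_lit 26903, nat_lit 26907, nat_lit 46587, nat_lit 7223] (nat_lit 0) [] false,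
   Spec.mk (nat_lit 26907) (nat_lit 0) [nat_lit 13785, nat_lit 40029, nat_lit 22533, nat_lit 27393, nat_lit 26853, nat_lit 26925, nat_lit 26913, nat_lit 26905, nat_lit 7225] (nat_lit 1) [] false,
   Spec.mk (nat_lit 26911) (nat_lit 0) [nat_lit 13789, nat_lit 40033, nat_lit 22537, nat_lit 27397, nat_lit 26857, nat_lit 26929, nat_lit 26905, nat_lit 26913, nat_lit 46593, nat_lit 7229] (nat_lit 2) [] false,
   Spec.mk (nat_lit 26913) (nat_lit 0) [nat_lit 13791, nat_lit 40035, nat_lit 22539, nat_lit 27399, nat_lit 26859, nat_lit 26931, nat_lit 26907, nat_lit 26911, nat_lit 7231] (nat_lit 1) [] false,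
   Spec.mk (nat_lit 26921) (nat_lit 1) [nat_lit 13799, nat_lit 40043, nat_lit 22547, nat_lit 27407, nat_lit 26867, nat_lit 26903, nat_lit 26923, nat_lit 46603] (nat_lit 0) [] false,
   Spec.mk (nat_lit 26923) (nat_lit 1) [nat_lit 13801, nat_lit 40045, nat_lit 22549, nat_lit 27409, nat_lit 26869, nat_lit 26905, nat_lit 26929, nat_lit 26921, nat_lit 26925, nat_lit 46605, nat_lit 7241] (nat_lit 0) [] false,
   Spec.mk (nat_lit 26925) (nat_lit 0) [nat_lit 13803, nat_lit 40047, nat_lit 22551, nat_lit 27411, nat_lit 26871, nat_lit 26907, nat_lit 26931, nat_lit 26923, nat_lit 7243] (nat_lit 1) [] false,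
   Spec.mk (nat_lit 26929) (nat_lit 1) [nat_lit 13807, nat_lit 40051, nat_lit 22555, nat_lit 27415, nat_lit 26875, nat_lit 26911, nat_lit 26947, nat_lit 26923, nat_lit 26931, nat_lit 46611, nat_lit 7247] (nat_lit 0) [] false,
   Spec.mk (nat_lit 26931) (nat_lit 1) [nat_lit 13809, nat_lit 40053, nat_lit 22557, nat_lit 27417, nat_lit 26877, nat_lit 26913, nat_lit 26949, nat_lit 26925, nat_lit 26937, nat_lit 26929, nat_lit 7249] (nat_lit 0) [] false,
   Spec.mk (nat_lit 26937) (nat_lit 1) [nat_lit 13815, nat_lit 40059, nat_lit 22563, nat_lit 27423, nat_lit 26883, nat_lit 26955, nat_lit 26931, nat_lit 7255] (nat_lit 0) [] false,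
   Spec.mk (nat_lit 26947) (nat_lit 2) [nat_lit 13825, nat_lit 40069, nat_lit 22573, nat_lit 27433, nat_lit 26929, nat_lit 26949, nat_lit 46629, nat_lit 7265] (nat_lit 0) [] false,
   Spec.mk (nat_lit 26949) (nat_lit 1) [nat_lit 13827, nat_lit 40071, nat_lit 22575, nat_lit 27435, nat_lit 26931, nat_lit 26955, nat_lit 26947, nat_lit 7267] (nat_lit 0) [] false,
   Spec.mk (nat_lit 26955) (nat_lit 3) [nat_lit 13833, nat_lit 40077, nat_lit 22581, nat_lit 27441, nat_lit 26937, nat_lit 26949, nat_lit 7273] (nat_lit 0) [] false,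
   Spec.mk (nat_lit 26999) (nat_lit 3) [nat_lit 13877, nat_lit 40121, nat_lit 22625, nat_lit 28457, nat_lit 26513, nat_lit 27017, nat_lit 46681] (nat_lit 0) [] false,
   Spec.mk (nat_lit 27017) (nat_lit 2) [nat_lit 13895, nat_lit 40139, nat_lit 22643, nat_lit 28475, nat_lit 26531, nat_lit 27071, nat_lit 26999, nat_lit 27035, nat_lit 27023, nat_lit 46699] (nat_lit 0) [] false,
   Spec.mk (nat_lit 27023) (nat_lit 1) [nat_lit 13901, nat_lit 40145, nat_lit 22649, nat_lit 28481, nat_lit 26537, nat_lit 27077, nat_lit 27041, nat_lit 27017, nat_lit 27025, nat_lit 46705] (nat_lit 0) [] false,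
   Spec.mk (nat_lit 27025) (nat_lit 2) [nat_lit 13903, nat_lit 40147, nat_lit 22651, nat_lit 28483, nat_lit 26539, nat_lit 27079, nat_lit 27043, nat_lit 27023, nat_lit 46707, nat_lit 7343] (nat_lit 0) [] false,
   Spec.mk (nat_lit 27035) (nat_lit 0) [nat_lit 13913, nat_lit 40157, nat_lit 22661, nat_lit 28493, nat_lit 26549, nat_lit 27089, nat_lit 27017, nat_lit 27041, nat_lit 46717] (nat_lit 1) [] false,
   Spec.mk (nat_lit 27041) (nat_lit 0) [nat_lit 13919, nat_lit 40163, nat_lit 22667, nat_lit 28499, nat_lit 26555, nat_lit 27095, nat_lit 27023, nat_lit 27035, nat_lit 27047, nat_lit 27043, nat_lit 46723] (nat_lit 0) [] false,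
   Spec.mk (nat_lit 27043) (nat_lit 0) [nat_lit 13921, nat_lit 40165, nat_lit 22669, nat_lit 28501, nat_lit 26557, nat_lit 27097, nat_lit 27025, nat_lit 27049, nat_lit 27041, nat_lit 46725, nat_lit 7361] (nat_lit 0) [] false,
   Spec.mk (nat_lit 27047) (nat_lit 0) [nat_lit 13925, nat_lit 40169, nat_lit 22673, nat_lit 28505, nat_lit 26561, nat_lit 27101, nat_lit 27041, nat_lit 27049, nat_lit 46729] (nat_lit 1) [] false]

noncomputable def sp73 : List Spec :=
  [Spec.mk (nat_lit 27049) (nat_lit 1) [nat_lit 13927, nat_lit 40171, nat_lit 22675, nat_lit 28507, nat_lit 26563, nat_lit 27103, nat_lit 27043, nat_lit 27047, nat_lit 27051, nat_lit 46731, nat_lit 7367] (nat_lit 0) [] false,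
   Spec.mk (nat_lit 27051) (nat_lit 1) [nat_lit 13929, nat_lit 40173, nat_lit 22677, nat_lit 28509, nat_lit 26565, nat_lit 27105, nat_lit 27049, nat_lit 7369] (nat_lit 0) [] false,
   Spec.mk (nat_lit 27071) (nat_lit 1) [nat_lit 13949, nat_lit 40193, nat_lit 22697, nat_lit 28529, nat_lit 26585, nat_lit 27233, nat_lit 27017, nat_lit 27089, nat_lit 27077, nat_lit 46753] (nat_lit 0) [] false,
   Spec.mk (nat_lit 27077) (nat_lit 0) [nat_lit 13955, nat_lit 40199, nat_lit 22703, nat_lit 28535, nat_lit 26591, nat_lit 27239, nat_lit 27023, nat_lit 27095, nat_lit 27071, nat_lit 27079, nat_lit 46759] (nat_lit 1) [] false,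
   Spec.mk (nat_lit 27079) (nat_lit 0) [nat_lit 13957, nat_lit 40201, nat_lit 22705, nat_lit 28537, nat_lit 26593, nat_lit 27241, nat_lit 27025, nat_lit 27097, nat_lit 27077, nat_lit 46761, nat_lit 7397] (nat_lit 0) [] false,
   Spec.mk (nat_lit 27089) (nat_lit 0) [nat_lit 13967, nat_lit 40211, nat_lit 22715, nat_lit 28547, nat_lit 26603, nat_lit 27251, nat_lit 27035, nat_lit 27143, nat_lit 27071, nat_lit 27095, nat_lit 46771] (nat_lit 0) [] false,
   Spec.mk (nat_lit 27095) (nat_lit 0) [nat_lit 13973, nat_lit 40217, nat_lit 22721, nat_lit 28553, nat_lit 26609, nat_lit 27257, nat_lit 27041, nat_lit 27149, nat_lit 27077, nat_lit 27113, nat_lit 27089, nat_lit 27101, nat_lit 27097, nat_lit 46777] (nat_lit 0) [] false,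
   Spec.mk (nat_lit 27097) (nat_lit 0) [nat_lit 13975, nat_lit 40219, nat_lit 22723, nat_lit 28555, nat_lit 26611, nat_lit 27259, nat_lit 27043, nat_lit 27151, nat_lit 27079, nat_lit 27115, nat_lit 27103, nat_lit 27095, nat_lit 46779, nat_lit 7415] (nat_lit 0) [] false,
   Spec.mk (nat_lit 27101) (nat_lit 0) [nat_lit 13979, nat_lit 40223, nat_lit 22727, nat_lit 28559, nat_lit 26615, nat_lit 27263, nat_lit 27047, nat_lit 27155, nat_lit 27119, nat_lit 27095, nat_lit 27103, nat_lit 46783] (nat_lit 2) [] false,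
   Spec.mk (nat_lit 27103) (nat_lit 0) [nat_lit 13981, nat_lit 40225, nat_lit 22729, nat_lit 28561, nat_lit 26617, nat_lit 27265, nat_lit 27049, nat_lit 27157, nat_lit 27121, nat_lit 27097, nat_lit 27101, nat_lit 27105, nat_lit 46785, nat_lit 7421] (nat_lit 0) [] false,
   Spec.mk (nat_lit 27105) (nat_lit 0) [nat_lit 13983, nat_lit 40227, nat_lit 22731, nat_lit 28563, nat_lit 26619, nat_lit 27267, nat_lit 27051, nat_lit 27159, nat_lit 27123, nat_lit 27103, nat_lit 7423] (nat_lit 0) [] false,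
   Spec.mk (nat_lit 27113) (nat_lit 0) [nat_lit 13991, nat_lit 40235, nat_lit 22739, nat_lit 28571, nat_lit 26627, nat_lit 27275, nat_lit 27167, nat_lit 27095, nat_lit 27119, nat_lit 27115, nat_lit 46795] (nat_lit 1) [] false,
   Spec.mk (nat_lit 27115) (nat_lit 0) [nat_lit 13993, nat_lit 40237, nat_lit 22741, nat_lit 28573, nat_lit 26629, nat_lit 27277, nat_lit 27169, nat_lit 27097, nat_lit 27121, nat_lit 27113, nat_lit 46797, nat_lit 7433] (nat_lit 2) [] false,
   Spec.mk (nat_lit 27119) (nat_lit 0) [nat_lit 13997, nat_lit 40241, nat_lit 22745, nat_lit 28577, nat_lit 26633, nat_lit 27281, nat_lit 27173, nat_lit 27101, nat_lit 27113, nat_lit 27121, nat_lit 46801] (nat_lit 1) [] false,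
   Spec.mk (nat_lit 27121) (nat_lit 0) [nat_lit 13999, nat_lit 40243, nat_lit 22747, nat_lit 28579, nat_lit 26635, nat_lit 27283, nat_lit 27175, nat_lit 27103, nat_lit 27115, nat_lit 27127, nat_lit 27119, nat_lit 27123, nat_lit 46803, nat_lit 7439] (nat_lit 0) [] false,
   Spec.mk (nat_lit 27123) (nat_lit 0) [nat_lit 14001, nat_lit 40245, nat_lit 22749, nat_lit 28581, nat_lit 26637, nat_lit 27285, nat_lit 27177, nat_lit 27105, nat_lit 27129, nat_lit 27121, nat_lit 7441] (nat_lit 1) [] false,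
   Spec.mk (nat_lit 27127) (nat_lit 0) [nat_lit 14005, nat_lit 40249, nat_lit 22753, nat_lit 28585, nat_lit 26641, nat_lit 27289, nat_lit 27181, nat_lit 27121, nat_lit 27129, nat_lit 46809, nat_lit 7445] (nat_lit 0) [] false,
   Spec.mk (nat_lit 27129) (nat_lit 1) [nat_lit 14007, nat_lit 40251, nat_lit 22755, nat_lit 28587, nat_lit 26643, nat_lit 27291, nat_lit 27183, nat_lit 27123, nat_lit 27127, nat_lit 7447] (nat_lit 0) [] false,
   Spec.mk (nat_lit 27143) (nat_lit 0) [nat_lit 14021, nat_lit 40265, nat_lit 22769, nat_lit 28601, nat_lit 26657, nat_lit 27305, nat_lit 27089, nat_lit 27149, nat_lit 46825] (nat_lit 1) [] false,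
   Spec.mk (nat_lit 27149) (nat_lit 0) [nat_lit 14027, nat_lit 40271, nat_lit 22775, nat_lit 28607, nat_lit 26663, nat_lit 27311, nat_lit 27095, nat_lit 27167, nat_lit 27143, nat_lit 27155, nat_lit 27151, nat_lit 46831] (nat_lit 2) [] false,
   Spec.mk (nat_lit 27151) (nat_lit 0) [nat_lit 14029, nat_lit 40273, nat_lit 22777, nat_lit 28609, nat_lit 26665, nat_lit 27313, nat_lit 27097, nat_lit 27169, nat_lit 27157, nat_lit 27149, nat_lit 46833, nat_lit 7469] (nat_lit 2) [] false,
   Spec.mk (nat_lit 27155) (nat_lit 0) [nat_lit 14033, nat_lit 40277, nat_lit 22781, nat_lit 28613, nat_lit 26669, nat_lit 27317, nat_lit 27101, nat_lit 27173, nat_lit 27149, nat_lit 27157, nat_lit 46837] (nat_lit 5) [] false,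
   Spec.mk (nat_lit 27157) (nat_lit 0) [nat_lit 14035, nat_lit 40279, nat_lit 22783, nat_lit 28615, nat_lit 26671, nat_lit 27319, nat_lit 27103, nat_lit 27175, nat_lit 27151, nat_lit 27155, nat_lit 27159, nat_lit 46839, nat_lit 7475] (nat_lit 3) [] false,
   Spec.mk (nat_lit 27159) (nat_lit 0) [nat_lit 14037, nat_lit 40281, nat_lit 22785, nat_lit 28617, nat_lit 26673, nat_lit 27321, nat_lit 27105, nat_lit 27177, nat_lit 27157, nat_lit 7477] (nat_lit 3) [] false,
   Spec.mk (nat_lit 27167) (nat_lit 0) [nat_lit 14045, nat_lit 40289, nat_lit 22793, nat_lit 28625, nat_lit 26681, nat_lit 27329, nat_lit 27113, nat_lit 27149, nat_lit 27173, nat_lit 27169, nat_lit 46849] (nat_lit 1) [] false,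
   Spec.mk (nat_lit 27169) (nat_lit 0) [nat_lit 14047, nat_lit 40291, nat_lit 22795, nat_lit 28627, nat_lit 26683, nat_lit 27331, nat_lit 27115, nat_lit 27151, nat_lit 27175, nat_lit 27167, nat_lit 46851, nat_lit 7487] (nat_lit 2) [] false,
   Spec.mk (nat_lit 27173) (nat_lit 0) [nat_lit 14051, nat_lit 40295, nat_lit 22799, nat_lit 28631, nat_lit 26687, nat_lit 27335, nat_lit 27119, nat_lit 27155, nat_lit 27191, nat_lit 27167, nat_lit 27175, nat_lit 46855] (nat_lit 2) [] false,
   Spec.mk (nat_lit 27175) (nat_lit 0) [nat_lit 14053, nat_lit 40297, nat_lit 22801, nat_lit 28633, nat_lit 26689, nat_lit 27337, nat_lit 27121, nat_lit 27157, nat_lit 27193, nat_lit 27169, nat_lit 27181, nat_lit 27173, nat_lit 27177, nat_lit 46857, nat_lit 7493] (nat_lit 1) [] false,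
   Spec.mk (nat_lit 27177) (nat_lit 0) [nat_lit 14055, nat_lit 40299, nat_lit 22803, nat_lit 28635, nat_lit 26691, nat_lit 27339, nat_lit 27123, nat_lit 27159, nat_lit 27195, nat_lit 27183, nat_lit 27175, nat_lit 7495] (nat_lit 2) [] false,
   Spec.mk (nat_lit 27181) (nat_lit 0) [nat_lit 14059, nat_lit 40303, nat_lit 22807, nat_lit 28639, nat_lit 26695, nat_lit 27343, nat_lit 27127, nat_lit 27199, nat_lit 27175, nat_lit 27183, nat_lit 46863, nat_lit 7499] (nat_lit 2) [] false,
   Spec.mk (nat_lit 27183) (nat_lit 0) [nat_lit 14061, nat_lit 40305, nat_lit 22809, nat_lit 28641, nat_lit 26697, nat_lit 27345, nat_lit 27129, nat_lit 27201, nat_lit 27177, nat_lit 27181, nat_lit 7501] (nat_lit 1) [] false,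
   Spec.mk (nat_lit 27191) (nat_lit 0) [nat_lit 14069, nat_lit 40313, nat_lit 22817, nat_lit 28649, nat_lit 26705, nat_lit 27353, nat_lit 27173, nat_lit 27193, nat_lit 46873] (nat_lit 1) [] false,
   Spec.mk (nat_lit 27193) (nat_lit 0) [nat_lit 14071, nat_lit 40315, nat_lit 22819, nat_lit 28651, nat_lit 26707, nat_lit 27355, nat_lit 27175, nat_lit 27199, nat_lit 27191, nat_lit 27195, nat_lit 46875, nat_lit 7511] (nat_lit 1) [] false,
   Spec.mk (nat_lit 27195) (nat_lit 0) [nat_lit 14073, nat_lit 40317, nat_lit 22821, nat_lit 28653, nat_lit 26709, nat_lit 27357, nat_lit 27177, nat_lit 27201, nat_lit 27193, nat_lit 7513] (nat_lit 3) [] false,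
   Spec.mk (nat_lit 27199) (nat_lit 0) [nat_lit 14077, nat_lit 40321, nat_lit 22825, nat_lit 28657, nat_lit 26713, nat_lit 27361, nat_lit 27181, nat_lit 27193, nat_lit 27201, nat_lit 46881, nat_lit 7517] (nat_lit 0) [] false,
   Spec.mk (nat_lit 27201) (nat_lit 0) [nat_lit 14079, nat_lit 40323, nat_lit 22827, nat_lit 28659, nat_lit 26715, nat_lit 27363, nat_lit 27183, nat_lit 27195, nat_lit 27207, nat_lit 27199, nat_lit 7519] (nat_lit 0) [] false,
   Spec.mk (nat_lit 27207) (nat_lit 1) [nat_lit 14085, nat_lit 40329, nat_lit 22833, nat_lit 28665, nat_lit 26721, nat_lit 27369, nat_lit 27201, nat_lit 7525] (nat_lit 0) [] false,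
   Spec.mk (nat_lit 27233) (nat_lit 2) [nat_lit 14111, nat_lit 40355, nat_lit 22859, nat_lit 28691, nat_lit 26747, nat_lit 27719, nat_lit 27071, nat_lit 27251, nat_lit 27239, nat_lit 46915] (nat_lit 0) [] false,
   Spec.mk (nat_lit 27239) (nat_lit 0) [nat_lit 14117, nat_lit 40361, nat_lit 22865, nat_lit 28697, nat_lit 26753, nat_lit 27725, nat_lit 27077, nat_lit 27257, nat_lit 27233, nat_lit 27241, nat_lit 46921] (nat_lit 0) [] false,
   Spec.mk (nat_lit 27241) (nat_lit 1) [nat_lit 14119, nat_lit 40363, nat_lit 22867, nat_lit 28699, nat_lit 26755, nat_lit 27727, nat_lit 27079, nat_lit 27259, nat_lit 27239, nat_lit 46923, nat_lit 7559] (nat_lit 0) [] false,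
   Spec.mk (nat_lit 27251) (nat_lit 0) [nat_lit 14129, nat_lit 40373, nat_lit 22877, nat_lit 28709, nat_lit 26765, nat_lit 27737, nat_lit 27089, nat_lit 27305, nat_lit 27233, nat_lit 27257, nat_lit 46933] (nat_lit 0) [] false,
   Spec.mk (nat_lit 27257) (nat_lit 0) [nat_lit 14135, nat_lit 40379, nat_lit 22883, nat_lit 28715, nat_lit 26771, nat_lit 27743, nat_lit 27095, nat_lit 27311, nat_lit 27239, nat_lit 27275, nat_lit 27251, nat_lit 27263, nat_lit 27259, nat_lit 46939] (nat_lit 0) [] false,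
   Spec.mk (nat_lit 27259) (nat_lit 0) [nat_lit 14137, nat_lit 40381, nat_lit 22885, nat_lit 28717, nat_lit 26773, nat_lit 27745, nat_lit 27097, nat_lit 27313, nat_lit 27241, nat_lit 27277, nat_lit 27265, nat_lit 27257, nat_lit 46941, nat_lit 7577] (nat_lit 0) [] false,
   Spec.mk (nat_lit 27263) (nat_lit 0) [nat_lit 14141, nat_lit 40385, nat_lit 22889, nat_lit 28721, nat_lit 26777, nat_lit 27749, nat_lit 27101, nat_lit 27317, nat_lit 27281, nat_lit 27257, nat_lit 27265, nat_lit 46945] (nat_lit 2) [] false,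
   Spec.mk (nat_lit 27265) (nat_lit 0) [nat_lit 14143, nat_lit 40387, nat_lit 22891, nat_lit 28723, nat_lit 26779, nat_lit 27751, nat_lit 27103, nat_lit 27319, nat_lit 27283, nat_lit 27259, nat_lit 27263, nat_lit 27267, nat_lit 46947, nat_lit 7583] (nat_lit 0) [] false,
   Spec.mk (nat_lit 27267) (nat_lit 0) [nat_lit 14145, nat_lit 40389, nat_lit 22893, nat_lit 28725, nat_lit 26781, nat_lit 27753, nat_lit 27105, nat_lit 27321, nat_lit 27285, nat_lit 27265, nat_lit 7585] (nat_lit 0) [] false,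
   Spec.mk (nat_lit 27275) (nat_lit 0) [nat_lit 14153, nat_lit 40397, nat_lit 22901, nat_lit 28733, nat_lit 26789, nat_lit 27761, nat_lit 27113, nat_lit 27329, nat_lit 27257, nat_lit 27281, nat_lit 27277, nat_lit 46957] (nat_lit 2) [] false,
   Spec.mk (nat_lit 27277) (nat_lit 0) [nat_lit 14155, nat_lit 40399, nat_lit 22903, nat_lit 28735, nat_lit 26791, nat_lit 27763, nat_lit 27115, nat_lit 27331, nat_lit 27259, nat_lit 27283, nat_lit 27275, nat_lit 46959, nat_lit 7595] (nat_lit 3) [] false,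
   Spec.mk (nat_lit 27281) (nat_lit 0) [nat_lit 14159, nat_lit 40403, nat_lit 22907, nat_lit 28739, nat_lit 26795, nat_lit 27767, nat_lit 27119, nat_lit 27335, nat_lit 27263, nat_lit 27275, nat_lit 27283, nat_lit 46963] (nat_lit 2) [] false,
   Spec.mk (nat_lit 27283) (nat_lit 0) [nat_lit 14161, nat_lit 40405, nat_lit 22909, nat_lit 28741, nat_lit 26797, nat_lit 27769, nat_lit 27121, nat_lit 27337, nat_lit 27265, nat_lit 27277, nat_lit 27289, nat_lit 27281, nat_lit 27285, nat_lit 46965, nat_lit 7601] (nat_lit 1) [] false,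
   Spec.mk (nat_lit 27285) (nat_lit 0) [nat_lit 14163, nat_lit 40407, nat_lit 22911, nat_lit 28743, nat_lit 26799, nat_lit 27771, nat_lit 27123, nat_lit 27339, nat_lit 27267, nat_lit 27291, nat_lit 27283, nat_lit 7603] (nat_lit 2) [] false,
   Spec.mk (nat_lit 27289) (nat_lit 0) [nat_lit 14167, nat_lit 40411, nat_lit 22915, nat_lit 28747, nat_lit 26803, nat_lit 27775, nat_lit 27127, nat_lit 27343, nat_lit 27283, nat_lit 27291, nat_lit 46971, nat_lit 7607] (nat_lit 1) [] false,
   Spec.mk (nat_lit 27291) (nat_lit 0) [nat_lit 14169, nat_lit 40413, nat_lit 22917, nat_lit 28749, nat_lit 26805, nat_lit 27777, nat_lit 27129, nat_lit 27345, nat_lit 27285, nat_lit 27289, nat_lit 7609] (nat_lit 0) [] false,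
   Spec.mk (nat_lit 27305) (nat_lit 1) [nat_lit 14183, nat_lit 40427, nat_lit 22931, nat_lit 28763, nat_lit 26819, nat_lit 27791, nat_lit 27143, nat_lit 27467, nat_lit 27251, nat_lit 27311, nat_lit 46987] (nat_lit 0) [] false,
   Spec.mk (nat_lit 27311) (nat_lit 0) [nat_lit 14189, nat_lit 40433, nat_lit 22937, nat_lit 28769, nat_lit 26825, nat_lit 27797, nat_lit 27149, nat_lit 27473, nat_lit 27257, nat_lit 27329, nat_lit 27305, nat_lit 27317, nat_lit 27313, nat_lit 46993] (nat_lit 0) [] false,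
   Spec.mk (nat_lit 27313) (nat_lit 0) [nat_lit 14191, nat_lit 40435, nat_lit 22939, nat_lit 28771, nat_lit 26827, nat_lit 27799, nat_lit 27151, nat_lit 27475, nat_lit 27259, nat_lit 27331, nat_lit 27319, nat_lit 27311, nat_lit 46995, nat_lit 7631] (nat_lit 0) [] false,
   Spec.mk (nat_lit 27317) (nat_lit 0) [nat_lit 14195, nat_lit 40439, nat_lit 22943, nat_lit 28775, nat_lit 26831, nat_lit 27803, nat_lit 27155, nat_lit 27479, nat_lit 27263, nat_lit 27335, nat_lit 27311, nat_lit 27319, nat_lit 46999] (nat_lit 3) [] false,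
   Spec.mk (nat_lit 27319) (nat_lit 0) [nat_lit 14197, nat_lit 40441, nat_lit 22945, nat_lit 28777, nat_lit 26833, nat_lit 27805, nat_lit 27157, nat_lit 27481, nat_lit 27265, nat_lit 27337, nat_lit 27313, nat_lit 27317, nat_lit 27321, nat_lit 47001, nat_lit 7637] (nat_lit 1) [] false,
   Spec.mk (nat_lit 27321) (nat_lit 0) [nat_lit 14199, nat_lit 40443, nat_lit 22947, nat_lit 28779, nat_lit 26835, nat_lit 27807, nat_lit 27159, nat_lit 27483, nat_lit 27267, nat_lit 27339, nat_lit 27319, nat_lit 7639] (nat_lit 1) [] false,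
   Spec.mk (nat_lit 27329) (nat_lit 0) [nat_lit 14207, nat_lit 40451, nat_lit 22955, nat_lit 28787, nat_lit 26843, nat_lit 27815, nat_lit 27167, nat_lit 27491, nat_lit 27275, nat_lit 27383, nat_lit 27311, nat_lit 27335, nat_lit 27331, nat_lit 47011] (nat_lit 0) [] false]

noncomputable def sp74 : List Spec :=
  [Spec.mk (nat_lit 27331) (nat_lit 0) [nat_lit 14209, nat_lit 40453, nat_lit 22957, nat_lit 28789, nat_lit 26845, nat_lit 27817, nat_lit 27169, nat_lit 27493, nat_lit 27277, nat_lit 27385, nat_lit 27313, nat_lit 27337, nat_lit 27329, nat_lit 47013, nat_lit 7649] (nat_lit 1) [] false,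
   Spec.mk (nat_lit 27335) (nat_lit 0) [nat_lit 14213, nat_lit 40457, nat_lit 22961, nat_lit 28793, nat_lit 26849, nat_lit 27821, nat_lit 27173, nat_lit 27497, nat_lit 27281, nat_lit 27389, nat_lit 27317, nat_lit 27353, nat_lit 27329, nat_lit 27337, nat_lit 47017] (nat_lit 1) [] false,
   Spec.mk (nat_lit 27337) (nat_lit 0) [nat_lit 14215, nat_lit 40459, nat_lit 22963, nat_lit 28795, nat_lit 26851, nat_lit 27823, nat_lit 27175, nat_lit 27499, nat_lit 27283, nat_lit 27391, nat_lit 27319, nat_lit 27355, nat_lit 27331, nat_lit 27343, nat_lit 27335, nat_lit 27339, nat_lit 47019, nat_lit 7655] (nat_lit 0) [] false,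
   Spec.mk (nat_lit 27339) (nat_lit 0) [nat_lit 14217, nat_lit 40461, nat_lit 22965, nat_lit 28797, nat_lit 26853, nat_lit 27825, nat_lit 27177, nat_lit 27501, nat_lit 27285, nat_lit 27393, nat_lit 27321, nat_lit 27357, nat_lit 27345, nat_lit 27337, nat_lit 7657] (nat_lit 1) [] false,
   Spec.mk (nat_lit 27343) (nat_lit 0) [nat_lit 14221, nat_lit 40465, nat_lit 22969, nat_lit 28801, nat_lit 26857, nat_lit 27829, nat_lit 27181, nat_lit 27505, nat_lit 27289, nat_lit 27397, nat_lit 27361, nat_lit 27337, nat_lit 27345, nat_lit 47025, nat_lit 7661] (nat_lit 1) [] false,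
   Spec.mk (nat_lit 27345) (nat_lit 0) [nat_lit 14223, nat_lit 40467, nat_lit 22971, nat_lit 28803, nat_lit 26859, nat_lit 27831, nat_lit 27183, nat_lit 27507, nat_lit 27291, nat_lit 27399, nat_lit 27363, nat_lit 27339, nat_lit 27343, nat_lit 7663] (nat_lit 0) [] false,
   Spec.mk (nat_lit 27353) (nat_lit 0) [nat_lit 14231, nat_lit 40475, nat_lit 22979, nat_lit 28811, nat_lit 26867, nat_lit 27839, nat_lit 27191, nat_lit 27515, nat_lit 27407, nat_lit 27335, nat_lit 27355, nat_lit 47035] (nat_lit 1) [] false,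
   Spec.mk (nat_lit 27355) (nat_lit 0) [nat_lit 14233, nat_lit 40477, nat_lit 22981, nat_lit 28813, nat_lit 26869, nat_lit 27841, nat_lit 27193, nat_lit 27517, nat_lit 27409, nat_lit 27337, nat_lit 27361, nat_lit 27353, nat_lit 27357, nat_lit 47037, nat_lit 7673] (nat_lit 1) [] false,
   Spec.mk (nat_lit 27357) (nat_lit 0) [nat_lit 14235, nat_lit 40479, nat_lit 22983, nat_lit 28815, nat_lit 26871, nat_lit 27843, nat_lit 27195, nat_lit 27519, nat_lit 27411, nat_lit 27339, nat_lit 27363, nat_lit 27355, nat_lit 7675] (nat_lit 3) [] false,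
   Spec.mk (nat_lit 27361) (nat_lit 0) [nat_lit 14239, nat_lit 40483, nat_lit 22987, nat_lit 28819, nat_lit 26875, nat_lit 27847, nat_lit 27199, nat_lit 27523, nat_lit 27415, nat_lit 27343, nat_lit 27355, nat_lit 27363, nat_lit 47043, nat_lit 7679] (nat_lit 0) [] false,
   Spec.mk (nat_lit 27363) (nat_lit 0) [nat_lit 14241, nat_lit 40485, nat_lit 22989, nat_lit 28821, nat_lit 26877, nat_lit 27849, nat_lit 27201, nat_lit 27525, nat_lit 27417, nat_lit 27345, nat_lit 27357, nat_lit 27369, nat_lit 27361, nat_lit 7681] (nat_lit 0) [] false,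
   Spec.mk (nat_lit 27369) (nat_lit 1) [nat_lit 14247, nat_lit 40491, nat_lit 22995, nat_lit 28827, nat_lit 26883, nat_lit 27855, nat_lit 27207, nat_lit 27531, nat_lit 27423, nat_lit 27363, nat_lit 7687] (nat_lit 0) [] false,
   Spec.mk (nat_lit 27383) (nat_lit 0) [nat_lit 14261, nat_lit 40505, nat_lit 23009, nat_lit 28841, nat_lit 26897, nat_lit 27869, nat_lit 27545, nat_lit 27329, nat_lit 27389, nat_lit 27385, nat_lit 47065] (nat_lit 0) [] false,
   Spec.mk (nat_lit 27385) (nat_lit 0) [nat_lit 14263, nat_lit 40507, nat_lit 23011, nat_lit 28843, nat_lit 26899, nat_lit 27871, nat_lit 27547, nat_lit 27331, nat_lit 27391, nat_lit 27383, nat_lit 47067, nat_lit 7703] (nat_lit 1) [] false,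
   Spec.mk (nat_lit 27389) (nat_lit 0) [nat_lit 14267, nat_lit 40511, nat_lit 23015, nat_lit 28847, nat_lit 26903, nat_lit 27875, nat_lit 27551, nat_lit 27335, nat_lit 27407, nat_lit 27383, nat_lit 27391, nat_lit 47071] (nat_lit 2) [] false,
   Spec.mk (nat_lit 27391) (nat_lit 0) [nat_lit 14269, nat_lit 40513, nat_lit 23017, nat_lit 28849, nat_lit 26905, nat_lit 27877, nat_lit 27553, nat_lit 27337, nat_lit 27409, nat_lit 27385, nat_lit 27397, nat_lit 27389, nat_lit 27393, nat_lit 47073, nat_lit 7709] (nat_lit 1) [] false,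
   Spec.mk (nat_lit 27393) (nat_lit 0) [nat_lit 14271, nat_lit 40515, nat_lit 23019, nat_lit 28851, nat_lit 26907, nat_lit 27879, nat_lit 27555, nat_lit 27339, nat_lit 27411, nat_lit 27399, nat_lit 27391, nat_lit 7711] (nat_lit 2) [] false,
   Spec.mk (nat_lit 27397) (nat_lit 0) [nat_lit 14275, nat_lit 40519, nat_lit 23023, nat_lit 28855, nat_lit 26911, nat_lit 27883, nat_lit 27559, nat_lit 27343, nat_lit 27415, nat_lit 27391, nat_lit 27399, nat_lit 47079, nat_lit 7715] (nat_lit 3) [] false,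
   Spec.mk (nat_lit 27399) (nat_lit 0) [nat_lit 14277, nat_lit 40521, nat_lit 23025, nat_lit 28857, nat_lit 26913, nat_lit 27885, nat_lit 27561, nat_lit 27345, nat_lit 27417, nat_lit 27393, nat_lit 27397, nat_lit 7717] (nat_lit 2) [] false,
   Spec.mk (nat_lit 27407) (nat_lit 0) [nat_lit 14285, nat_lit 40529, nat_lit 23033, nat_lit 28865, nat_lit 26921, nat_lit 27893, nat_lit 27569, nat_lit 27353, nat_lit 27389, nat_lit 27409, nat_lit 47089] (nat_lit 0) [] false,
   Spec.mk (nat_lit 27409) (nat_lit 0) [nat_lit 14287, nat_lit 40531, nat_lit 23035, nat_lit 28867, nat_lit 26923, nat_lit 27895, nat_lit 27571, nat_lit 27355, nat_lit 27391, nat_lit 27415, nat_lit 27407, nat_lit 27411, nat_lit 47091, nat_lit 7727] (nat_lit 0) [] false,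
   Spec.mk (nat_lit 27411) (nat_lit 0) [nat_lit 14289, nat_lit 40533, nat_lit 23037, nat_lit 28869, nat_lit 26925, nat_lit 27897, nat_lit 27573, nat_lit 27357, nat_lit 27393, nat_lit 27417, nat_lit 27409, nat_lit 7729] (nat_lit 2) [] false,
   Spec.mk (nat_lit 27415) (nat_lit 0) [nat_lit 14293, nat_lit 40537, nat_lit 23041, nat_lit 28873, nat_lit 26929, nat_lit 27901, nat_lit 27577, nat_lit 27361, nat_lit 27397, nat_lit 27433, nat_lit 27409, nat_lit 27417, nat_lit 47097, nat_lit 7733] (nat_lit 0) [] false,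
   Spec.mk (nat_lit 27417) (nat_lit 0) [nat_lit 14295, nat_lit 40539, nat_lit 23043, nat_lit 28875, nat_lit 26931, nat_lit 27903, nat_lit 27579, nat_lit 27363, nat_lit 27399, nat_lit 27435, nat_lit 27411, nat_lit 27423, nat_lit 27415, nat_lit 7735] (nat_lit 0) [] false,
   Spec.mk (nat_lit 27423) (nat_lit 0) [nat_lit 14301, nat_lit 40545, nat_lit 23049, nat_lit 28881, nat_lit 26937, nat_lit 27909, nat_lit 27585, nat_lit 27369, nat_lit 27441, nat_lit 27417, nat_lit 7741] (nat_lit 0) [] false,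
   Spec.mk (nat_lit 27433) (nat_lit 1) [nat_lit 14311, nat_lit 40555, nat_lit 23059, nat_lit 28891, nat_lit 26947, nat_lit 27919, nat_lit 27595, nat_lit 27415, nat_lit 27435, nat_lit 47115, nat_lit 7751] (nat_lit 0) [] false,
   Spec.mk (nat_lit 27435) (nat_lit 0) [nat_lit 14313, nat_lit 40557, nat_lit 23061, nat_lit 28893, nat_lit 26949, nat_lit 27921, nat_lit 27597, nat_lit 27417, nat_lit 27441, nat_lit 27433, nat_lit 7753] (nat_lit 0) [] false,
   Spec.mk (nat_lit 27441) (nat_lit 2) [nat_lit 14319, nat_lit 40563, nat_lit 23067, nat_lit 28899, nat_lit 26955, nat_lit 27927, nat_lit 27603, nat_lit 27423, nat_lit 27435, nat_lit 7759] (nat_lit 0) [] false,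
   Spec.mk (nat_lit 27467) (nat_lit 1) [nat_lit 14345, nat_lit 40589, nat_lit 23093, nat_lit 28925, nat_lit 27953, nat_lit 27305, nat_lit 27473, nat_lit 47149] (nat_lit 0) [] false,
   Spec.mk (nat_lit 27473) (nat_lit 0) [nat_lit 14351, nat_lit 40595, nat_lit 23099, nat_lit 28931, nat_lit 27959, nat_lit 27311, nat_lit 27491, nat_lit 27467, nat_lit 27479, nat_lit 27475, nat_lit 47155] (nat_lit 0) [] false,
   Spec.mk (nat_lit 27475) (nat_lit 0) [nat_lit 14353, nat_lit 40597, nat_lit 23101, nat_lit 28933, nat_lit 27961, nat_lit 27313, nat_lit 27493, nat_lit 27481, nat_lit 27473, nat_lit 47157, nat_lit 7793] (nat_lit 0) [] false,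
   Spec.mk (nat_lit 27479) (nat_lit 0) [nat_lit 14357, nat_lit 40601, nat_lit 23105, nat_lit 28937, nat_lit 27965, nat_lit 27317, nat_lit 27497, nat_lit 27473, nat_lit 27481, nat_lit 47161] (nat_lit 3) [] false,
   Spec.mk (nat_lit 27481) (nat_lit 0) [nat_lit 14359, nat_lit 40603, nat_lit 23107, nat_lit 28939, nat_lit 27967, nat_lit 27319, nat_lit 27499, nat_lit 27475, nat_lit 27479, nat_lit 27483, nat_lit 47163, nat_lit 7799] (nat_lit 1) [] false,
   Spec.mk (nat_lit 27483) (nat_lit 0) [nat_lit 14361, nat_lit 40605, nat_lit 23109, nat_lit 28941, nat_lit 27969, nat_lit 27321, nat_lit 27501, nat_lit 27481, nat_lit 7801] (nat_lit 1) [] false,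
   Spec.mk (nat_lit 27491) (nat_lit 0) [nat_lit 14369, nat_lit 40613, nat_lit 23117, nat_lit 28949, nat_lit 27977, nat_lit 27329, nat_lit 27545, nat_lit 27473, nat_lit 27497, nat_lit 27493, nat_lit 47173] (nat_lit 1) [] false,
   Spec.mk (nat_lit 27493) (nat_lit 0) [nat_lit 14371, nat_lit 40615, nat_lit 23119, nat_lit 28951, nat_lit 27979, nat_lit 27331, nat_lit 27547, nat_lit 27475, nat_lit 27499, nat_lit 27491, nat_lit 47175, nat_lit 7811] (nat_lit 2) [] false,
   Spec.mk (nat_lit 27497) (nat_lit 0) [nat_lit 14375, nat_lit 40619, nat_lit 23123, nat_lit 28955, nat_lit 27983, nat_lit 27335, nat_lit 27551, nat_lit 27479, nat_lit 27515, nat_lit 27491, nat_lit 27499, nat_lit 47179] (nat_lit 2) [] false,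
   Spec.mk (nat_lit 27499) (nat_lit 0) [nat_lit 14377, nat_lit 40621, nat_lit 23125, nat_lit 28957, nat_lit 27985, nat_lit 27337, nat_lit 27553, nat_lit 27481, nat_lit 27517, nat_lit 27493, nat_lit 27505, nat_lit 27497, nat_lit 27501, nat_lit 47181, nat_lit 7817] (nat_lit 1) [] false,
   Spec.mk (nat_lit 27501) (nat_lit 0) [nat_lit 14379, nat_lit 40623, nat_lit 23127, nat_lit 28959, nat_lit 27987, nat_lit 27339, nat_lit 27555, nat_lit 27483, nat_lit 27519, nat_lit 27507, nat_lit 27499, nat_lit 7819] (nat_lit 2) [] false,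
   Spec.mk (nat_lit 27505) (nat_lit 0) [nat_lit 14383, nat_lit 40627, nat_lit 23131, nat_lit 28963, nat_lit 27991, nat_lit 27343, nat_lit 27559, nat_lit 27523, nat_lit 27499, nat_lit 27507, nat_lit 47187, nat_lit 7823] (nat_lit 2) [] false,
   Spec.mk (nat_lit 27507) (nat_lit 0) [nat_lit 14385, nat_lit 40629, nat_lit 23133, nat_lit 28965, nat_lit 27993, nat_lit 27345, nat_lit 27561, nat_lit 27525, nat_lit 27501, nat_lit 27505, nat_lit 7825] (nat_lit 1) [] false,
   Spec.mk (nat_lit 27515) (nat_lit 0) [nat_lit 14393, nat_lit 40637, nat_lit 23141, nat_lit 28973, nat_lit 28001, nat_lit 27353, nat_lit 27569, nat_lit 27497, nat_lit 27517, nat_lit 47197] (nat_lit 3) [] false,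
   Spec.mk (nat_lit 27517) (nat_lit 0) [nat_lit 14395, nat_lit 40639, nat_lit 23143, nat_lit 28975, nat_lit 28003, nat_lit 27355, nat_lit 27571, nat_lit 27499, nat_lit 27523, nat_lit 27515, nat_lit 27519, nat_lit 47199, nat_lit 7835] (nat_lit 3) [] false,
   Spec.mk (nat_lit 27519) (nat_lit 0) [nat_lit 14397, nat_lit 40641, nat_lit 23145, nat_lit 28977, nat_lit 28005, nat_lit 27357, nat_lit 27573, nat_lit 27501, nat_lit 27525, nat_lit 27517, nat_lit 7837] (nat_lit 5) [] false,
   Spec.mk (nat_lit 27523) (nat_lit 0) [nat_lit 14401, nat_lit 40645, nat_lit 23149, nat_lit 28981, nat_lit 28009, nat_lit 27361, nat_lit 27577, nat_lit 27505, nat_lit 27517, nat_lit 27525, nat_lit 47205, nat_lit 7841] (nat_lit 2) [] false,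
   Spec.mk (nat_lit 27525) (nat_lit 0) [nat_lit 14403, nat_lit 40647, nat_lit 23151, nat_lit 28983, nat_lit 28011, nat_lit 27363, nat_lit 27579, nat_lit 27507, nat_lit 27519, nat_lit 27531, nat_lit 27523, nat_lit 7843] (nat_lit 2) [] false,
   Spec.mk (nat_lit 27531) (nat_lit 0) [nat_lit 14409, nat_lit 40653, nat_lit 23157, nat_lit 28989, nat_lit 28017, nat_lit 27369, nat_lit 27585, nat_lit 27525, nat_lit 7849] (nat_lit 1) [] false,
   Spec.mk (nat_lit 27545) (nat_lit 1) [nat_lit 14423, nat_lit 40667, nat_lit 23171, nat_lit 29003, nat_lit 28031, nat_lit 27383, nat_lit 27491, nat_lit 27551, nat_lit 27547, nat_lit 47227] (nat_lit 0) [] false,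
   Spec.mk (nat_lit 27547) (nat_lit 0) [nat_lit 14425, nat_lit 40669, nat_lit 23173, nat_lit 29005, nat_lit 28033, nat_lit 27385, nat_lit 27493, nat_lit 27553, nat_lit 27545, nat_lit 47229, nat_lit 7865] (nat_lit 0) [] false,
   Spec.mk (nat_lit 27551) (nat_lit 0) [nat_lit 14429, nat_lit 40673, nat_lit 23177, nat_lit 29009, nat_lit 28037, nat_lit 27389, nat_lit 27497, nat_lit 27569, nat_lit 27545, nat_lit 27553, nat_lit 47233] (nat_lit 1) [] false,
   Spec.mk (nat_lit 27553) (nat_lit 0) [nat_lit 14431, nat_lit 40675, nat_lit 23179, nat_lit 29011, nat_lit 28039, nat_lit 27391, nat_lit 27499, nat_lit 27571, nat_lit 27547, nat_lit 27559, nat_lit 27551, nat_lit 27555, nat_lit 47235, nat_lit 7871] (nat_lit 0) [] false,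
   Spec.mk (nat_lit 27555) (nat_lit 0) [nat_lit 14433, nat_lit 40677, nat_lit 23181, nat_lit 29013, nat_lit 28041, nat_lit 27393, nat_lit 27501, nat_lit 27573, nat_lit 27561, nat_lit 27553, nat_lit 7873] (nat_lit 1) [] false,
   Spec.mk (nat_lit 27559) (nat_lit 0) [nat_lit 14437, nat_lit 40681, nat_lit 23185, nat_lit 29017, nat_lit 28045, nat_lit 27397, nat_lit 27505, nat_lit 27577, nat_lit 27553, nat_lit 27561, nat_lit 47241, nat_lit 7877] (nat_lit 2) [] false,
   Spec.mk (nat_lit 27561) (nat_lit 0) [nat_lit 14439, nat_lit 40683, nat_lit 23187, nat_lit 29019, nat_lit 28047, nat_lit 27399, nat_lit 27507, nat_lit 27579, nat_lit 27555, nat_lit 27559, nat_lit 7879] (nat_lit 1) [] false,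
   Spec.mk (nat_lit 27569) (nat_lit 0) [nat_lit 14447, nat_lit 40691, nat_lit 23195, nat_lit 29027, nat_lit 28055, nat_lit 27407, nat_lit 27515, nat_lit 27623, nat_lit 27551, nat_lit 27571, nat_lit 47251] (nat_lit 0) [] false,
   Spec.mk (nat_lit 27571) (nat_lit 0) [nat_lit 14449, nat_lit 40693, nat_lit 23197, nat_lit 29029, nat_lit 28057, nat_lit 27409, nat_lit 27517, nat_lit 27625, nat_lit 27553, nat_lit 27577, nat_lit 27569, nat_lit 27573, nat_lit 47253, nat_lit 7889] (nat_lit 0) [] false,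
   Spec.mk (nat_lit 27573) (nat_lit 0) [nat_lit 14451, nat_lit 40695, nat_lit 23199, nat_lit 29031, nat_lit 28059, nat_lit 27411, nat_lit 27519, nat_lit 27627, nat_lit 27555, nat_lit 27579, nat_lit 27571, nat_lit 7891] (nat_lit 2) [] false,
   Spec.mk (nat_lit 27577) (nat_lit 0) [nat_lit 14455, nat_lit 40699, nat_lit 23203, nat_lit 29035, nat_lit 28063, nat_lit 27415, nat_lit 27523, nat_lit 27631, nat_lit 27559, nat_lit 27595, nat_lit 27571, nat_lit 27579, nat_lit 47259, nat_lit 7895] (nat_lit 0) [] false,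
   Spec.mk (nat_lit 27579) (nat_lit 0) [nat_lit 14457, nat_lit 40701, nat_lit 23205, nat_lit 29037, nat_lit 28065, nat_lit 27417, nat_lit 27525, nat_lit 27633, nat_lit 27561, nat_lit 27597, nat_lit 27573, nat_lit 27585, nat_lit 27577, nat_lit 7897] (nat_lit 0) [] false,
   Spec.mk (nat_lit 27585) (nat_lit 0) [nat_lit 14463, nat_lit 40707, nat_lit 23211, nat_lit 29043, nat_lit 28071, nat_lit 27423, nat_lit 27531, nat_lit 27639, nat_lit 27603, nat_lit 27579, nat_lit 7903] (nat_lit 0) [] false]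

noncomputable def sp75 : List Spec :=
  [Spec.mk (nat_lit 27595) (nat_lit 0) [nat_lit 14473, nat_lit 40717, nat_lit 23221, nat_lit 29053, nat_lit 28081, nat_lit 27433, nat_lit 27649, nat_lit 27577, nat_lit 27597, nat_lit 47277, nat_lit 7913] (nat_lit 0) [] false,
   Spec.mk (nat_lit 27597) (nat_lit 0) [nat_lit 14475, nat_lit 40719, nat_lit 23223, nat_lit 29055, nat_lit 28083, nat_lit 27435, nat_lit 27651, nat_lit 27579, nat_lit 27603, nat_lit 27595, nat_lit 7915] (nat_lit 1) [] false,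
   Spec.mk (nat_lit 27603) (nat_lit 1) [nat_lit 14481, nat_lit 40725, nat_lit 23229, nat_lit 29061, nat_lit 28089, nat_lit 27441, nat_lit 27657, nat_lit 27585, nat_lit 27597, nat_lit 7921] (nat_lit 0) [] false,
   Spec.mk (nat_lit 27623) (nat_lit 1) [nat_lit 14501, nat_lit 40745, nat_lit 23249, nat_lit 29081, nat_lit 28109, nat_lit 27569, nat_lit 27625, nat_lit 47305] (nat_lit 0) [] false,
   Spec.mk (nat_lit 27625) (nat_lit 1) [nat_lit 14503, nat_lit 40747, nat_lit 23251, nat_lit 29083, nat_lit 28111, nat_lit 27571, nat_lit 27631, nat_lit 27623, nat_lit 27627, nat_lit 47307, nat_lit 7943] (nat_lit 0) [] false,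
   Spec.mk (nat_lit 27627) (nat_lit 0) [nat_lit 14505, nat_lit 40749, nat_lit 23253, nat_lit 29085, nat_lit 28113, nat_lit 27573, nat_lit 27633, nat_lit 27625, nat_lit 7945] (nat_lit 1) [] false,
   Spec.mk (nat_lit 27631) (nat_lit 0) [nat_lit 14509, nat_lit 40753, nat_lit 23257, nat_lit 29089, nat_lit 28117, nat_lit 27577, nat_lit 27649, nat_lit 27625, nat_lit 27633, nat_lit 47313, nat_lit 7949] (nat_lit 0) [] false,
   Spec.mk (nat_lit 27633) (nat_lit 0) [nat_lit 14511, nat_lit 40755, nat_lit 23259, nat_lit 29091, nat_lit 28119, nat_lit 27579, nat_lit 27651, nat_lit 27627, nat_lit 27639, nat_lit 27631, nat_lit 7951] (nat_lit 0) [] false,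
   Spec.mk (nat_lit 27639) (nat_lit 0) [nat_lit 14517, nat_lit 40761, nat_lit 23265, nat_lit 29097, nat_lit 28125, nat_lit 27585, nat_lit 27657, nat_lit 27633, nat_lit 7957] (nat_lit 1) [] false,
   Spec.mk (nat_lit 27649) (nat_lit 2) [nat_lit 14527, nat_lit 40771, nat_lit 23275, nat_lit 29107, nat_lit 28135, nat_lit 27595, nat_lit 27631, nat_lit 27651, nat_lit 47331, nat_lit 7967] (nat_lit 0) [] false,
   Spec.mk (nat_lit 27651) (nat_lit 1) [nat_lit 14529, nat_lit 40773, nat_lit 23277, nat_lit 29109, nat_lit 28137, nat_lit 27597, nat_lit 27633, nat_lit 27657, nat_lit 27649, nat_lit 7969] (nat_lit 0) [] false,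
   Spec.mk (nat_lit 27657) (nat_lit 2) [nat_lit 14535, nat_lit 40779, nat_lit 23283, nat_lit 29115, nat_lit 28143, nat_lit 27603, nat_lit 27639, nat_lit 27675, nat_lit 27651, nat_lit 7975] (nat_lit 0) [] false,
   Spec.mk (nat_lit 27675) (nat_lit 3) [nat_lit 14553, nat_lit 40797, nat_lit 23301, nat_lit 29133, nat_lit 28161, nat_lit 27657, nat_lit 7993] (nat_lit 0) [] false,
   Spec.mk (nat_lit 27719) (nat_lit 1) [nat_lit 14597, nat_lit 40841, nat_lit 23345, nat_lit 29177, nat_lit 27233, nat_lit 27737, nat_lit 27725, nat_lit 47401] (nat_lit 0) [] false,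
   Spec.mk (nat_lit 27725) (nat_lit 0) [nat_lit 14603, nat_lit 40847, nat_lit 23351, nat_lit 29183, nat_lit 27239, nat_lit 27743, nat_lit 27719, nat_lit 27727, nat_lit 47407] (nat_lit 1) [] false,
   Spec.mk (nat_lit 27727) (nat_lit 0) [nat_lit 14605, nat_lit 40849, nat_lit 23353, nat_lit 29185, nat_lit 27241, nat_lit 27745, nat_lit 27725, nat_lit 47409, nat_lit 8045] (nat_lit 0) [] false,
   Spec.mk (nat_lit 27737) (nat_lit 0) [nat_lit 14615, nat_lit 40859, nat_lit 23363, nat_lit 29195, nat_lit 27251, nat_lit 27791, nat_lit 27719, nat_lit 27743, nat_lit 47419] (nat_lit 1) [] false,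
   Spec.mk (nat_lit 27743) (nat_lit 0) [nat_lit 14621, nat_lit 40865, nat_lit 23369, nat_lit 29201, nat_lit 27257, nat_lit 27797, nat_lit 27725, nat_lit 27761, nat_lit 27737, nat_lit 27749, nat_lit 27745, nat_lit 47425] (nat_lit 1) [] false,
   Spec.mk (nat_lit 27745) (nat_lit 0) [nat_lit 14623, nat_lit 40867, nat_lit 23371, nat_lit 29203, nat_lit 27259, nat_lit 27799, nat_lit 27727, nat_lit 27763, nat_lit 27751, nat_lit 27743, nat_lit 47427, nat_lit 8063] (nat_lit 1) [] false,
   Spec.mk (nat_lit 27749) (nat_lit 0) [nat_lit 14627, nat_lit 40871, nat_lit 23375, nat_lit 29207, nat_lit 27263, nat_lit 27803, nat_lit 27767, nat_lit 27743, nat_lit 27751, nat_lit 47431] (nat_lit 3) [] false,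
   Spec.mk (nat_lit 27751) (nat_lit 0) [nat_lit 14629, nat_lit 40873, nat_lit 23377, nat_lit 29209, nat_lit 27265, nat_lit 27805, nat_lit 27769, nat_lit 27745, nat_lit 27749, nat_lit 27753, nat_lit 47433, nat_lit 8069] (nat_lit 1) [] false,
   Spec.mk (nat_lit 27753) (nat_lit 0) [nat_lit 14631, nat_lit 40875, nat_lit 23379, nat_lit 29211, nat_lit 27267, nat_lit 27807, nat_lit 27771, nat_lit 27751, nat_lit 8071] (nat_lit 1) [] false,
   Spec.mk (nat_lit 27761) (nat_lit 0) [nat_lit 14639, nat_lit 40883, nat_lit 23387, nat_lit 29219, nat_lit 27275, nat_lit 27815, nat_lit 27743, nat_lit 27767, nat_lit 27763, nat_lit 47443] (nat_lit 3) [] false,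
   Spec.mk (nat_lit 27763) (nat_lit 0) [nat_lit 14641, nat_lit 40885, nat_lit 23389, nat_lit 29221, nat_lit 27277, nat_lit 27817, nat_lit 27745, nat_lit 27769, nat_lit 27761, nat_lit 47445, nat_lit 8081] (nat_lit 4) [] false,
   Spec.mk (nat_lit 27767) (nat_lit 0) [nat_lit 14645, nat_lit 40889, nat_lit 23393, nat_lit 29225, nat_lit 27281, nat_lit 27821, nat_lit 27749, nat_lit 27761, nat_lit 27769, nat_lit 47449] (nat_lit 3) [] false,
   Spec.mk (nat_lit 27769) (nat_lit 0) [nat_lit 14647, nat_lit 40891, nat_lit 23395, nat_lit 29227, nat_lit 27283, nat_lit 27823, nat_lit 27751, nat_lit 27763, nat_lit 27775, nat_lit 27767, nat_lit 27771, nat_lit 47451, nat_lit 8087] (nat_lit 2) [] false,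
   Spec.mk (nat_lit 27771) (nat_lit 0) [nat_lit 14649, nat_lit 40893, nat_lit 23397, nat_lit 29229, nat_lit 27285, nat_lit 27825, nat_lit 27753, nat_lit 27777, nat_lit 27769, nat_lit 8089] (nat_lit 3) [] false,
   Spec.mk (nat_lit 27775) (nat_lit 0) [nat_lit 14653, nat_lit 40897, nat_lit 23401, nat_lit 29233, nat_lit 27289, nat_lit 27829, nat_lit 27769, nat_lit 27777, nat_lit 47457, nat_lit 8093] (nat_lit 2) [] false,
   Spec.mk (nat_lit 27777) (nat_lit 0) [nat_lit 14655, nat_lit 40899, nat_lit 23403, nat_lit 29235, nat_lit 27291, nat_lit 27831, nat_lit 27771, nat_lit 27775, nat_lit 8095] (nat_lit 1) [] false,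
   Spec.mk (nat_lit 27791) (nat_lit 0) [nat_lit 14669, nat_lit 40913, nat_lit 23417, nat_lit 29249, nat_lit 27305, nat_lit 27953, nat_lit 27737, nat_lit 27797, nat_lit 47473] (nat_lit 1) [] false,
   Spec.mk (nat_lit 27797) (nat_lit 0) [nat_lit 14675, nat_lit 40919, nat_lit 23423, nat_lit 29255, nat_lit 27311, nat_lit 27959, nat_lit 27743, nat_lit 27815, nat_lit 27791, nat_lit 27803, nat_lit 27799, nat_lit 47479] (nat_lit 2) [] false,
   Spec.mk (nat_lit 27799) (nat_lit 0) [nat_lit 14677, nat_lit 40921, nat_lit 23425, nat_lit 29257, nat_lit 27313, nat_lit 27961, nat_lit 27745, nat_lit 27817, nat_lit 27805, nat_lit 27797, nat_lit 47481, nat_lit 8117] (nat_lit 2) [] false,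
   Spec.mk (nat_lit 27803) (nat_lit 0) [nat_lit 14681, nat_lit 40925, nat_lit 23429, nat_lit 29261, nat_lit 27317, nat_lit 27965, nat_lit 27749, nat_lit 27821, nat_lit 27797, nat_lit 27805, nat_lit 47485] (nat_lit 5) [] false,
   Spec.mk (nat_lit 27805) (nat_lit 0) [nat_lit 14683, nat_lit 40927, nat_lit 23431, nat_lit 29263, nat_lit 27319, nat_lit 27967, nat_lit 27751, nat_lit 27823, nat_lit 27799, nat_lit 27803, nat_lit 27807, nat_lit 47487, nat_lit 8123] (nat_lit 3) [] false,
   Spec.mk (nat_lit 27807) (nat_lit 0) [nat_lit 14685, nat_lit 40929, nat_lit 23433, nat_lit 29265, nat_lit 27321, nat_lit 27969, nat_lit 27753, nat_lit 27825, nat_lit 27805, nat_lit 8125] (nat_lit 3) [] false,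
   Spec.mk (nat_lit 27815) (nat_lit 0) [nat_lit 14693, nat_lit 40937, nat_lit 23441, nat_lit 29273, nat_lit 27329, nat_lit 27977, nat_lit 27761, nat_lit 27869, nat_lit 27797, nat_lit 27821, nat_lit 27817, nat_lit 47497] (nat_lit 2) [] false,
   Spec.mk (nat_lit 27817) (nat_lit 0) [nat_lit 14695, nat_lit 40939, nat_lit 23443, nat_lit 29275, nat_lit 27331, nat_lit 27979, nat_lit 27763, nat_lit 27871, nat_lit 27799, nat_lit 27823, nat_lit 27815, nat_lit 47499, nat_lit 8135] (nat_lit 3) [] false,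
   Spec.mk (nat_lit 27821) (nat_lit 0) [nat_lit 14699, nat_lit 40943, nat_lit 23447, nat_lit 29279, nat_lit 27335, nat_lit 27983, nat_lit 27767, nat_lit 27875, nat_lit 27803, nat_lit 27839, nat_lit 27815, nat_lit 27823, nat_lit 47503] (nat_lit 3) [] false,
   Spec.mk (nat_lit 27823) (nat_lit 0) [nat_lit 14701, nat_lit 40945, nat_lit 23449, nat_lit 29281, nat_lit 27337, nat_lit 27985, nat_lit 27769, nat_lit 27877, nat_lit 27805, nat_lit 27841, nat_lit 27817, nat_lit 27829, nat_lit 27821, nat_lit 27825, nat_lit 47505, nat_lit 8141] (nat_lit 2) [] false,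
   Spec.mk (nat_lit 27825) (nat_lit 0) [nat_lit 14703, nat_lit 40947, nat_lit 23451, nat_lit 29283, nat_lit 27339, nat_lit 27987, nat_lit 27771, nat_lit 27879, nat_lit 27807, nat_lit 27843, nat_lit 27831, nat_lit 27823, nat_lit 8143] (nat_lit 3) [] false,
   Spec.mk (nat_lit 27829) (nat_lit 0) [nat_lit 14707, nat_lit 40951, nat_lit 23455, nat_lit 29287, nat_lit 27343, nat_lit 27991, nat_lit 27775, nat_lit 27883, nat_lit 27847, nat_lit 27823, nat_lit 27831, nat_lit 47511, nat_lit 8147] (nat_lit 3) [] false,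
   Spec.mk (nat_lit 27831) (nat_lit 0) [nat_lit 14709, nat_lit 40953, nat_lit 23457, nat_lit 29289, nat_lit 27345, nat_lit 27993, nat_lit 27777, nat_lit 27885, nat_lit 27849, nat_lit 27825, nat_lit 27829, nat_lit 8149] (nat_lit 2) [] false,
   Spec.mk (nat_lit 27839) (nat_lit 0) [nat_lit 14717, nat_lit 40961, nat_lit 23465, nat_lit 29297, nat_lit 27353, nat_lit 28001, nat_lit 27893, nat_lit 27821, nat_lit 27841, nat_lit 47521] (nat_lit 3) [] false,
   Spec.mk (nat_lit 27841) (nat_lit 0) [nat_lit 14719, nat_lit 40963, nat_lit 23467, nat_lit 29299, nat_lit 27355, nat_lit 28003, nat_lit 27895, nat_lit 27823, nat_lit 27847, nat_lit 27839, nat_lit 27843, nat_lit 47523, nat_lit 8159] (nat_lit 3) [] false,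
   Spec.mk (nat_lit 27843) (nat_lit 0) [nat_lit 14721, nat_lit 40965, nat_lit 23469, nat_lit 29301, nat_lit 27357, nat_lit 28005, nat_lit 27897, nat_lit 27825, nat_lit 27849, nat_lit 27841, nat_lit 8161] (nat_lit 5) [] false,
   Spec.mk (nat_lit 27847) (nat_lit 0) [nat_lit 14725, nat_lit 40969, nat_lit 23473, nat_lit 29305, nat_lit 27361, nat_lit 28009, nat_lit 27901, nat_lit 27829, nat_lit 27841, nat_lit 27849, nat_lit 47529, nat_lit 8165] (nat_lit 2) [] false,
   Spec.mk (nat_lit 27849) (nat_lit 0) [nat_lit 14727, nat_lit 40971, nat_lit 23475, nat_lit 29307, nat_lit 27363, nat_lit 28011, nat_lit 27903, nat_lit 27831, nat_lit 27843, nat_lit 27855, nat_lit 27847, nat_lit 8167] (nat_lit 2) [] false,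
   Spec.mk (nat_lit 27855) (nat_lit 0) [nat_lit 14733, nat_lit 40977, nat_lit 23481, nat_lit 29313, nat_lit 27369, nat_lit 28017, nat_lit 27909, nat_lit 27849, nat_lit 8173] (nat_lit 1) [] false,
   Spec.mk (nat_lit 27869) (nat_lit 0) [nat_lit 14747, nat_lit 40991, nat_lit 23495, nat_lit 29327, nat_lit 27383, nat_lit 28031, nat_lit 27815, nat_lit 27875, nat_lit 27871, nat_lit 47551] (nat_lit 3) [] false,
   Spec.mk (nat_lit 27871) (nat_lit 0) [nat_lit 14749, nat_lit 40993, nat_lit 23497, nat_lit 29329, nat_lit 27385, nat_lit 28033, nat_lit 27817, nat_lit 27877, nat_lit 27869, nat_lit 47553, nat_lit 8189] (nat_lit 4) [] false,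
   Spec.mk (nat_lit 27875) (nat_lit 0) [nat_lit 14753, nat_lit 40997, nat_lit 23501, nat_lit 29333, nat_lit 27389, nat_lit 28037, nat_lit 27821, nat_lit 27893, nat_lit 27869, nat_lit 27877, nat_lit 47557] (nat_lit 5) [] false,
   Spec.mk (nat_lit 27877) (nat_lit 0) [nat_lit 14755, nat_lit 40999, nat_lit 23503, nat_lit 29335, nat_lit 27391, nat_lit 28039, nat_lit 27823, nat_lit 27895, nat_lit 27871, nat_lit 27883, nat_lit 27875, nat_lit 27879, nat_lit 47559, nat_lit 8195] (nat_lit 4) [] false,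
   Spec.mk (nat_lit 27879) (nat_lit 0) [nat_lit 14757, nat_lit 41001, nat_lit 23505, nat_lit 29337, nat_lit 27393, nat_lit 28041, nat_lit 27825, nat_lit 27897, nat_lit 27885, nat_lit 27877, nat_lit 8197] (nat_lit 5) [] false,
   Spec.mk (nat_lit 27883) (nat_lit 0) [nat_lit 14761, nat_lit 41005, nat_lit 23509, nat_lit 29341, nat_lit 27397, nat_lit 28045, nat_lit 27829, nat_lit 27901, nat_lit 27877, nat_lit 27885, nat_lit 47565, nat_lit 8201] (nat_lit 6) [] false,
   Spec.mk (nat_lit 27885) (nat_lit 0) [nat_lit 14763, nat_lit 41007, nat_lit 23511, nat_lit 29343, nat_lit 27399, nat_lit 28047, nat_lit 27831, nat_lit 27903, nat_lit 27879, nat_lit 27883, nat_lit 8203] (nat_lit 5) [] false,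
   Spec.mk (nat_lit 27893) (nat_lit 0) [nat_lit 14771, nat_lit 41015, nat_lit 23519, nat_lit 29351, nat_lit 27407, nat_lit 28055, nat_lit 27839, nat_lit 27875, nat_lit 27895, nat_lit 47575] (nat_lit 3) [] false,
   Spec.mk (nat_lit 27895) (nat_lit 0) [nat_lit 14773, nat_lit 41017, nat_lit 23521, nat_lit 29353, nat_lit 27409, nat_lit 28057, nat_lit 27841, nat_lit 27877, nat_lit 27901, nat_lit 27893, nat_lit 27897, nat_lit 47577, nat_lit 8213] (nat_lit 3) [] false,
   Spec.mk (nat_lit 27897) (nat_lit 0) [nat_lit 14775, nat_lit 41019, nat_lit 23523, nat_lit 29355, nat_lit 27411, nat_lit 28059, nat_lit 27843, nat_lit 27879, nat_lit 27903, nat_lit 27895, nat_lit 8215] (nat_lit 5) [] false,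
   Spec.mk (nat_lit 27901) (nat_lit 0) [nat_lit 14779, nat_lit 41023, nat_lit 23527, nat_lit 29359, nat_lit 27415, nat_lit 28063, nat_lit 27847, nat_lit 27883, nat_lit 27919, nat_lit 27895, nat_lit 27903, nat_lit 47583, nat_lit 8219] (nat_lit 3) [] false,
   Spec.mk (nat_lit 27903) (nat_lit 0) [nat_lit 14781, nat_lit 41025, nat_lit 23529, nat_lit 29361, nat_lit 27417, nat_lit 28065, nat_lit 27849, nat_lit 27885, nat_lit 27921, nat_lit 27897, nat_lit 27909, nat_lit 27901, nat_lit 8221] (nat_lit 3) [] false]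

noncomputable def sp76 : List Spec :=
  [Spec.mk (nat_lit 27909) (nat_lit 0) [nat_lit 14787, nat_lit 41031, nat_lit 23535, nat_lit 29367, nat_lit 27423, nat_lit 28071, nat_lit 27855, nat_lit 27927, nat_lit 27903, nat_lit 8227] (nat_lit 3) [] false,
   Spec.mk (nat_lit 27919) (nat_lit 0) [nat_lit 14797, nat_lit 41041, nat_lit 23545, nat_lit 29377, nat_lit 27433, nat_lit 28081, nat_lit 27901, nat_lit 27921, nat_lit 47601, nat_lit 8237] (nat_lit 2) [] false,
   Spec.mk (nat_lit 27921) (nat_lit 0) [nat_lit 14799, nat_lit 41043, nat_lit 23547, nat_lit 29379, nat_lit 27435, nat_lit 28083, nat_lit 27903, nat_lit 27927, nat_lit 27919, nat_lit 8239] (nat_lit 3) [] false,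
   Spec.mk (nat_lit 27927) (nat_lit 0) [nat_lit 14805, nat_lit 41049, nat_lit 23553, nat_lit 29385, nat_lit 27441, nat_lit 28089, nat_lit 27909, nat_lit 27921, nat_lit 8245] (nat_lit 1) [] false,
   Spec.mk (nat_lit 27953) (nat_lit 1) [nat_lit 14831, nat_lit 41075, nat_lit 23579, nat_lit 29411, nat_lit 27467, nat_lit 27791, nat_lit 27959, nat_lit 47635] (nat_lit 0) [] false,
   Spec.mk (nat_lit 27959) (nat_lit 0) [nat_lit 14837, nat_lit 41081, nat_lit 23585, nat_lit 29417, nat_lit 27473, nat_lit 27797, nat_lit 27977, nat_lit 27953, nat_lit 27965, nat_lit 27961, nat_lit 47641] (nat_lit 0) [] false,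
   Spec.mk (nat_lit 27961) (nat_lit 0) [nat_lit 14839, nat_lit 41083, nat_lit 23587, nat_lit 29419, nat_lit 27475, nat_lit 27799, nat_lit 27979, nat_lit 27967, nat_lit 27959, nat_lit 47643, nat_lit 8279] (nat_lit 0) [] false,
   Spec.mk (nat_lit 27965) (nat_lit 0) [nat_lit 14843, nat_lit 41087, nat_lit 23591, nat_lit 29423, nat_lit 27479, nat_lit 27803, nat_lit 27983, nat_lit 27959, nat_lit 27967, nat_lit 47647] (nat_lit 3) [] false,
   Spec.mk (nat_lit 27967) (nat_lit 0) [nat_lit 14845, nat_lit 41089, nat_lit 23593, nat_lit 29425, nat_lit 27481, nat_lit 27805, nat_lit 27985, nat_lit 27961, nat_lit 27965, nat_lit 27969, nat_lit 47649, nat_lit 8285] (nat_lit 1) [] false,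
   Spec.mk (nat_lit 27969) (nat_lit 0) [nat_lit 14847, nat_lit 41091, nat_lit 23595, nat_lit 29427, nat_lit 27483, nat_lit 27807, nat_lit 27987, nat_lit 27967, nat_lit 8287] (nat_lit 1) [] false,
   Spec.mk (nat_lit 27977) (nat_lit 0) [nat_lit 14855, nat_lit 41099, nat_lit 23603, nat_lit 29435, nat_lit 27491, nat_lit 27815, nat_lit 28031, nat_lit 27959, nat_lit 27983, nat_lit 27979, nat_lit 47659] (nat_lit 1) [] false,
   Spec.mk (nat_lit 27979) (nat_lit 0) [nat_lit 14857, nat_lit 41101, nat_lit 23605, nat_lit 29437, nat_lit 27493, nat_lit 27817, nat_lit 28033, nat_lit 27961, nat_lit 27985, nat_lit 27977, nat_lit 47661, nat_lit 8297] (nat_lit 2) [] false,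
   Spec.mk (nat_lit 27983) (nat_lit 0) [nat_lit 14861, nat_lit 41105, nat_lit 23609, nat_lit 29441, nat_lit 27497, nat_lit 27821, nat_lit 28037, nat_lit 27965, nat_lit 28001, nat_lit 27977, nat_lit 27985, nat_lit 47665] (nat_lit 2) [] false,
   Spec.mk (nat_lit 27985) (nat_lit 0) [nat_lit 14863, nat_lit 41107, nat_lit 23611, nat_lit 29443, nat_lit 27499, nat_lit 27823, nat_lit 28039, nat_lit 27967, nat_lit 28003, nat_lit 27979, nat_lit 27991, nat_lit 27983, nat_lit 27987, nat_lit 47667, nat_lit 8303] (nat_lit 1) [] false,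
   Spec.mk (nat_lit 27987) (nat_lit 0) [nat_lit 14865, nat_lit 41109, nat_lit 23613, nat_lit 29445, nat_lit 27501, nat_lit 27825, nat_lit 28041, nat_lit 27969, nat_lit 28005, nat_lit 27993, nat_lit 27985, nat_lit 8305] (nat_lit 2) [] false,
   Spec.mk (nat_lit 27991) (nat_lit 0) [nat_lit 14869, nat_lit 41113, nat_lit 23617, nat_lit 29449, nat_lit 27505, nat_lit 27829, nat_lit 28045, nat_lit 28009, nat_lit 27985, nat_lit 27993, nat_lit 47673, nat_lit 8309] (nat_lit 2) [] false,
   Spec.mk (nat_lit 27993) (nat_lit 0) [nat_lit 14871, nat_lit 41115, nat_lit 23619, nat_lit 29451, nat_lit 27507, nat_lit 27831, nat_lit 28047, nat_lit 28011, nat_lit 27987, nat_lit 27991, nat_lit 8311] (nat_lit 1) [] false,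
   Spec.mk (nat_lit 28001) (nat_lit 0) [nat_lit 14879, nat_lit 41123, nat_lit 23627, nat_lit 29459, nat_lit 27515, nat_lit 27839, nat_lit 28055, nat_lit 27983, nat_lit 28003, nat_lit 47683] (nat_lit 3) [] false,
   Spec.mk (nat_lit 28003) (nat_lit 0) [nat_lit 14881, nat_lit 41125, nat_lit 23629, nat_lit 29461, nat_lit 27517, nat_lit 27841, nat_lit 28057, nat_lit 27985, nat_lit 28009, nat_lit 28001, nat_lit 28005, nat_lit 47685, nat_lit 8321] (nat_lit 3) [] false,
   Spec.mk (nat_lit 28005) (nat_lit 0) [nat_lit 14883, nat_lit 41127, nat_lit 23631, nat_lit 29463, nat_lit 27519, nat_lit 27843, nat_lit 28059, nat_lit 27987, nat_lit 28011, nat_lit 28003, nat_lit 8323] (nat_lit 5) [] false,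
   Spec.mk (nat_lit 28009) (nat_lit 0) [nat_lit 14887, nat_lit 41131, nat_lit 23635, nat_lit 29467, nat_lit 27523, nat_lit 27847, nat_lit 28063, nat_lit 27991, nat_lit 28003, nat_lit 28011, nat_lit 47691, nat_lit 8327] (nat_lit 2) [] false,
   Spec.mk (nat_lit 28011) (nat_lit 0) [nat_lit 14889, nat_lit 41133, nat_lit 23637, nat_lit 29469, nat_lit 27525, nat_lit 27849, nat_lit 28065, nat_lit 27993, nat_lit 28005, nat_lit 28017, nat_lit 28009, nat_lit 8329] (nat_lit 2) [] false,
   Spec.mk (nat_lit 28017) (nat_lit 0) [nat_lit 14895, nat_lit 41139, nat_lit 23643, nat_lit 29475, nat_lit 27531, nat_lit 27855, nat_lit 28071, nat_lit 28011, nat_lit 8335] (nat_lit 1) [] false,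
   Spec.mk (nat_lit 28031) (nat_lit 0) [nat_lit 14909, nat_lit 41153, nat_lit 23657, nat_lit 29489, nat_lit 27545, nat_lit 27869, nat_lit 28193, nat_lit 27977, nat_lit 28037, nat_lit 28033, nat_lit 47713] (nat_lit 0) [] false,
   Spec.mk (nat_lit 28033) (nat_lit 0) [nat_lit 14911, nat_lit 41155, nat_lit 23659, nat_lit 29491, nat_lit 27547, nat_lit 27871, nat_lit 28195, nat_lit 27979, nat_lit 28039, nat_lit 28031, nat_lit 47715, nat_lit 8351] (nat_lit 1) [] false,
   Spec.mk (nat_lit 28037) (nat_lit 0) [nat_lit 14915, nat_lit 41159, nat_lit 23663, nat_lit 29495, nat_lit 27551, nat_lit 27875, nat_lit 28199, nat_lit 27983, nat_lit 28055, nat_lit 28031, nat_lit 28039, nat_lit 47719] (nat_lit 2) [] false,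
   Spec.mk (nat_lit 28039) (nat_lit 0) [nat_lit 14917, nat_lit 41161, nat_lit 23665, nat_lit 29497, nat_lit 27553, nat_lit 27877, nat_lit 28201, nat_lit 27985, nat_lit 28057, nat_lit 28033, nat_lit 28045, nat_lit 28037, nat_lit 28041, nat_lit 47721, nat_lit 8357] (nat_lit 1) [] false,
   Spec.mk (nat_lit 28041) (nat_lit 0) [nat_lit 14919, nat_lit 41163, nat_lit 23667, nat_lit 29499, nat_lit 27555, nat_lit 27879, nat_lit 28203, nat_lit 27987, nat_lit 28059, nat_lit 28047, nat_lit 28039, nat_lit 8359] (nat_lit 2) [] false,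
   Spec.mk (nat_lit 28045) (nat_lit 0) [nat_lit 14923, nat_lit 41167, nat_lit 23671, nat_lit 29503, nat_lit 27559, nat_lit 27883, nat_lit 28207, nat_lit 27991, nat_lit 28063, nat_lit 28039, nat_lit 28047, nat_lit 47727, nat_lit 8363] (nat_lit 3) [] false,
   Spec.mk (nat_lit 28047) (nat_lit 0) [nat_lit 14925, nat_lit 41169, nat_lit 23673, nat_lit 29505, nat_lit 27561, nat_lit 27885, nat_lit 28209, nat_lit 27993, nat_lit 28065, nat_lit 28041, nat_lit 28045, nat_lit 8365] (nat_lit 2) [] false,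
   Spec.mk (nat_lit 28055) (nat_lit 0) [nat_lit 14933, nat_lit 41177, nat_lit 23681, nat_lit 29513, nat_lit 27569, nat_lit 27893, nat_lit 28217, nat_lit 28001, nat_lit 28109, nat_lit 28037, nat_lit 28057, nat_lit 47737] (nat_lit 1) [] false,
   Spec.mk (nat_lit 28057) (nat_lit 0) [nat_lit 14935, nat_lit 41179, nat_lit 23683, nat_lit 29515, nat_lit 27571, nat_lit 27895, nat_lit 28219, nat_lit 28003, nat_lit 28111, nat_lit 28039, nat_lit 28063, nat_lit 28055, nat_lit 28059, nat_lit 47739, nat_lit 8375] (nat_lit 1) [] false,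
   Spec.mk (nat_lit 28059) (nat_lit 0) [nat_lit 14937, nat_lit 41181, nat_lit 23685, nat_lit 29517, nat_lit 27573, nat_lit 27897, nat_lit 28221, nat_lit 28005, nat_lit 28113, nat_lit 28041, nat_lit 28065, nat_lit 28057, nat_lit 8377] (nat_lit 3) [] false,
   Spec.mk (nat_lit 28063) (nat_lit 0) [nat_lit 14941, nat_lit 41185, nat_lit 23689, nat_lit 29521, nat_lit 27577, nat_lit 27901, nat_lit 28225, nat_lit 28009, nat_lit 28117, nat_lit 28045, nat_lit 28081, nat_lit 28057, nat_lit 28065, nat_lit 47745, nat_lit 8381] (nat_lit 1) [] false,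
   Spec.mk (nat_lit 28065) (nat_lit 0) [nat_lit 14943, nat_lit 41187, nat_lit 23691, nat_lit 29523, nat_lit 27579, nat_lit 27903, nat_lit 28227, nat_lit 28011, nat_lit 28119, nat_lit 28047, nat_lit 28083, nat_lit 28059, nat_lit 28071, nat_lit 28063, nat_lit 8383] (nat_lit 1) [] false,
   Spec.mk (nat_lit 28071) (nat_lit 0) [nat_lit 14949, nat_lit 41193, nat_lit 23697, nat_lit 29529, nat_lit 27585, nat_lit 27909, nat_lit 28233, nat_lit 28017, nat_lit 28125, nat_lit 28089, nat_lit 28065, nat_lit 8389] (nat_lit 1) [] false,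
   Spec.mk (nat_lit 28081) (nat_lit 0) [nat_lit 14959, nat_lit 41203, nat_lit 23707, nat_lit 29539, nat_lit 27595, nat_lit 27919, nat_lit 28243, nat_lit 28135, nat_lit 28063, nat_lit 28083, nat_lit 47763, nat_lit 8399] (nat_lit 1) [] false,
   Spec.mk (nat_lit 28083) (nat_lit 0) [nat_lit 14961, nat_lit 41205, nat_lit 23709, nat_lit 29541, nat_lit 27597, nat_lit 27921, nat_lit 28245, nat_lit 28137, nat_lit 28065, nat_lit 28089, nat_lit 28081, nat_lit 8401] (nat_lit 2) [] false,
   Spec.mk (nat_lit 28089) (nat_lit 0) [nat_lit 14967, nat_lit 41211, nat_lit 23715, nat_lit 29547, nat_lit 27603, nat_lit 27927, nat_lit 28251, nat_lit 28143, nat_lit 28071, nat_lit 28083, nat_lit 8407] (nat_lit 0) [] false,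
   Spec.mk (nat_lit 28109) (nat_lit 0) [nat_lit 14987, nat_lit 41231, nat_lit 23735, nat_lit 29567, nat_lit 27623, nat_lit 28271, nat_lit 28055, nat_lit 28111, nat_lit 47791] (nat_lit 1) [] false,
   Spec.mk (nat_lit 28111) (nat_lit 0) [nat_lit 14989, nat_lit 41233, nat_lit 23737, nat_lit 29569, nat_lit 27625, nat_lit 28273, nat_lit 28057, nat_lit 28117, nat_lit 28109, nat_lit 28113, nat_lit 47793, nat_lit 8429] (nat_lit 1) [] false,
   Spec.mk (nat_lit 28113) (nat_lit 0) [nat_lit 14991, nat_lit 41235, nat_lit 23739, nat_lit 29571, nat_lit 27627, nat_lit 28275, nat_lit 28059, nat_lit 28119, nat_lit 28111, nat_lit 8431] (nat_lit 3) [] false,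
   Spec.mk (nat_lit 28117) (nat_lit 0) [nat_lit 14995, nat_lit 41239, nat_lit 23743, nat_lit 29575, nat_lit 27631, nat_lit 28279, nat_lit 28063, nat_lit 28135, nat_lit 28111, nat_lit 28119, nat_lit 47799, nat_lit 8435] (nat_lit 2) [] false,
   Spec.mk (nat_lit 28119) (nat_lit 0) [nat_lit 14997, nat_lit 41241, nat_lit 23745, nat_lit 29577, nat_lit 27633, nat_lit 28281, nat_lit 28065, nat_lit 28137, nat_lit 28113, nat_lit 28125, nat_lit 28117, nat_lit 8437] (nat_lit 2) [] false,
   Spec.mk (nat_lit 28125) (nat_lit 0) [nat_lit 15003, nat_lit 41247, nat_lit 23751, nat_lit 29583, nat_lit 27639, nat_lit 28287, nat_lit 28071, nat_lit 28143, nat_lit 28119, nat_lit 8443] (nat_lit 3) [] false,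
   Spec.mk (nat_lit 28135) (nat_lit 0) [nat_lit 15013, nat_lit 41257, nat_lit 23761, nat_lit 29593, nat_lit 27649, nat_lit 28297, nat_lit 28081, nat_lit 28117, nat_lit 28137, nat_lit 47817, nat_lit 8453] (nat_lit 0) [] false,
   Spec.mk (nat_lit 28137) (nat_lit 0) [nat_lit 15015, nat_lit 41259, nat_lit 23763, nat_lit 29595, nat_lit 27651, nat_lit 28299, nat_lit 28083, nat_lit 28119, nat_lit 28143, nat_lit 28135, nat_lit 8455] (nat_lit 1) [] false,
   Spec.mk (nat_lit 28143) (nat_lit 0) [nat_lit 15021, nat_lit 41265, nat_lit 23769, nat_lit 29601, nat_lit 27657, nat_lit 28305, nat_lit 28089, nat_lit 28125, nat_lit 28161, nat_lit 28137, nat_lit 8461] (nat_lit 0) [] false,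
   Spec.mk (nat_lit 28161) (nat_lit 1) [nat_lit 15039, nat_lit 41283, nat_lit 23787, nat_lit 29619, nat_lit 27675, nat_lit 28323, nat_lit 28143, nat_lit 8479] (nat_lit 0) [] false,
   Spec.mk (nat_lit 28193) (nat_lit 1) [nat_lit 15071, nat_lit 41315, nat_lit 23819, nat_lit 29651, nat_lit 28031, nat_lit 28199, nat_lit 28195, nat_lit 47875] (nat_lit 0) [] false,
   Spec.mk (nat_lit 28195) (nat_lit 0) [nat_lit 15073, nat_lit 41317, nat_lit 23821, nat_lit 29653, nat_lit 28033, nat_lit 28201, nat_lit 28193, nat_lit 47877, nat_lit 8513] (nat_lit 0) [] false,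
   Spec.mk (nat_lit 28199) (nat_lit 0) [nat_lit 15077, nat_lit 41321, nat_lit 23825, nat_lit 29657, nat_lit 28037, nat_lit 28217, nat_lit 28193, nat_lit 28201, nat_lit 47881] (nat_lit 1) [] false,
   Spec.mk (nat_lit 28201) (nat_lit 0) [nat_lit 15079, nat_lit 41323, nat_lit 23827, nat_lit 29659, nat_lit 28039, nat_lit 28219, nat_lit 28195, nat_lit 28207, nat_lit 28199, nat_lit 28203, nat_lit 47883, nat_lit 8519] (nat_lit 0) [] false,
   Spec.mk (nat_lit 28203) (nat_lit 0) [nat_lit 15081, nat_lit 41325, nat_lit 23829, nat_lit 29661, nat_lit 28041, nat_lit 28221, nat_lit 28209, nat_lit 28201, nat_lit 8521] (nat_lit 1) [] false,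
   Spec.mk (nat_lit 28207) (nat_lit 0) [nat_lit 15085, nat_lit 41329, nat_lit 23833, nat_lit 29665, nat_lit 28045, nat_lit 28225, nat_lit 28201, nat_lit 28209, nat_lit 47889, nat_lit 8525] (nat_lit 2) [] false,
   Spec.mk (nat_lit 28209) (nat_lit 0) [nat_lit 15087, nat_lit 41331, nat_lit 23835, nat_lit 29667, nat_lit 28047, nat_lit 28227, nat_lit 28203, nat_lit 28207, nat_lit 8527] (nat_lit 1) [] false,
   Spec.mk (nat_lit 28217) (nat_lit 0) [nat_lit 15095, nat_lit 41339, nat_lit 23843, nat_lit 29675, nat_lit 28055, nat_lit 28271, nat_lit 28199, nat_lit 28219, nat_lit 47899] (nat_lit 1) [] false,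
   Spec.mk (nat_lit 28219) (nat_lit 0) [nat_lit 15097, nat_lit 41341, nat_lit 23845, nat_lit 29677, nat_lit 28057, nat_lit 28273, nat_lit 28201, nat_lit 28225, nat_lit 28217, nat_lit 28221, nat_lit 47901, nat_lit 8537] (nat_lit 1) [] false,
   Spec.mk (nat_lit 28221) (nat_lit 0) [nat_lit 15099, nat_lit 41343, nat_lit 23847, nat_lit 29679, nat_lit 28059, nat_lit 28275, nat_lit 28203, nat_lit 28227, nat_lit 28219, nat_lit 8539] (nat_lit 3) [] false,
   Spec.mk (nat_lit 28225) (nat_lit 0) [nat_lit 15103, nat_lit 41347, nat_lit 23851, nat_lit 29683, nat_lit 28063, nat_lit 28279, nat_lit 28207, nat_lit 28243, nat_lit 28219, nat_lit 28227, nat_lit 47907, nat_lit 8543] (nat_lit 1) [] false]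

noncomputable def sp77 : List Spec :=
  [Spec.mk (nat_lit 28227) (nat_lit 0) [nat_lit 15105, nat_lit 41349, nat_lit 23853, nat_lit 29685, nat_lit 28065, nat_lit 28281, nat_lit 28209, nat_lit 28245, nat_lit 28221, nat_lit 28233, nat_lit 28225, nat_lit 8545] (nat_lit 1) [] false,
   Spec.mk (nat_lit 28233) (nat_lit 0) [nat_lit 15111, nat_lit 41355, nat_lit 23859, nat_lit 29691, nat_lit 28071, nat_lit 28287, nat_lit 28251, nat_lit 28227, nat_lit 8551] (nat_lit 1) [] false,
   Spec.mk (nat_lit 28243) (nat_lit 0) [nat_lit 15121, nat_lit 41365, nat_lit 23869, nat_lit 29701, nat_lit 28081, nat_lit 28297, nat_lit 28225, nat_lit 28245, nat_lit 47925, nat_lit 8561] (nat_lit 2) [] false,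
   Spec.mk (nat_lit 28245) (nat_lit 0) [nat_lit 15123, nat_lit 41367, nat_lit 23871, nat_lit 29703, nat_lit 28083, nat_lit 28299, nat_lit 28227, nat_lit 28251, nat_lit 28243, nat_lit 8563] (nat_lit 3) [] false,
   Spec.mk (nat_lit 28251) (nat_lit 0) [nat_lit 15129, nat_lit 41373, nat_lit 23877, nat_lit 29709, nat_lit 28089, nat_lit 28305, nat_lit 28233, nat_lit 28245, nat_lit 8569] (nat_lit 1) [] false,
   Spec.mk (nat_lit 28271) (nat_lit 1) [nat_lit 15149, nat_lit 41393, nat_lit 23897, nat_lit 29729, nat_lit 28109, nat_lit 28217, nat_lit 28273, nat_lit 47953] (nat_lit 0) [] false,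
   Spec.mk (nat_lit 28273) (nat_lit 1) [nat_lit 15151, nat_lit 41395, nat_lit 23899, nat_lit 29731, nat_lit 28111, nat_lit 28219, nat_lit 28279, nat_lit 28271, nat_lit 28275, nat_lit 47955, nat_lit 8591] (nat_lit 0) [] false,
   Spec.mk (nat_lit 28275) (nat_lit 0) [nat_lit 15153, nat_lit 41397, nat_lit 23901, nat_lit 29733, nat_lit 28113, nat_lit 28221, nat_lit 28281, nat_lit 28273, nat_lit 8593] (nat_lit 1) [] false,
   Spec.mk (nat_lit 28279) (nat_lit 0) [nat_lit 15157, nat_lit 41401, nat_lit 23905, nat_lit 29737, nat_lit 28117, nat_lit 28225, nat_lit 28297, nat_lit 28273, nat_lit 28281, nat_lit 47961, nat_lit 8597] (nat_lit 0) [] false,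
   Spec.mk (nat_lit 28281) (nat_lit 0) [nat_lit 15159, nat_lit 41403, nat_lit 23907, nat_lit 29739, nat_lit 28119, nat_lit 28227, nat_lit 28299, nat_lit 28275, nat_lit 28287, nat_lit 28279, nat_lit 8599] (nat_lit 0) [] false,
   Spec.mk (nat_lit 28287) (nat_lit 0) [nat_lit 15165, nat_lit 41409, nat_lit 23913, nat_lit 29745, nat_lit 28125, nat_lit 28233, nat_lit 28305, nat_lit 28281, nat_lit 8605] (nat_lit 1) [] false,
   Spec.mk (nat_lit 28297) (nat_lit 1) [nat_lit 15175, nat_lit 41419, nat_lit 23923, nat_lit 29755, nat_lit 28135, nat_lit 28243, nat_lit 28351, nat_lit 28279, nat_lit 28299, nat_lit 47979, nat_lit 8615] (nat_lit 0) [] false,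
   Spec.mk (nat_lit 28299) (nat_lit 0) [nat_lit 15177, nat_lit 41421, nat_lit 23925, nat_lit 29757, nat_lit 28137, nat_lit 28245, nat_lit 28353, nat_lit 28281, nat_lit 28305, nat_lit 28297, nat_lit 8617] (nat_lit 0) [] false,
   Spec.mk (nat_lit 28305) (nat_lit 1) [nat_lit 15183, nat_lit 41427, nat_lit 23931, nat_lit 29763, nat_lit 28143, nat_lit 28251, nat_lit 28359, nat_lit 28287, nat_lit 28323, nat_lit 28299, nat_lit 8623] (nat_lit 0) [] false,
   Spec.mk (nat_lit 28323) (nat_lit 1) [nat_lit 15201, nat_lit 41445, nat_lit 23949, nat_lit 29781, nat_lit 28161, nat_lit 28377, nat_lit 28305, nat_lit 8641] (nat_lit 0) [] false,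
   Spec.mk (nat_lit 28351) (nat_lit 2) [nat_lit 15229, nat_lit 41473, nat_lit 23977, nat_lit 29809, nat_lit 28297, nat_lit 28353, nat_lit 48033, nat_lit 8669] (nat_lit 0) [] false,
   Spec.mk (nat_lit 28353) (nat_lit 1) [nat_lit 15231, nat_lit 41475, nat_lit 23979, nat_lit 29811, nat_lit 28299, nat_lit 28359, nat_lit 28351, nat_lit 8671] (nat_lit 0) [] false,
   Spec.mk (nat_lit 28359) (nat_lit 1) [nat_lit 15237, nat_lit 41481, nat_lit 23985, nat_lit 29817, nat_lit 28305, nat_lit 28377, nat_lit 28353, nat_lit 8677] (nat_lit 0) [] false,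
   Spec.mk (nat_lit 28377) (nat_lit 3) [nat_lit 15255, nat_lit 41499, nat_lit 24003, nat_lit 29835, nat_lit 28323, nat_lit 28359, nat_lit 8695] (nat_lit 0) [] false,
   Spec.mk (nat_lit 28457) (nat_lit 4) [nat_lit 15335, nat_lit 41579, nat_lit 24083, nat_lit 32831, nat_lit 26999, nat_lit 28475, nat_lit 48139] (nat_lit 0) [] false,
   Spec.mk (nat_lit 28475) (nat_lit 3) [nat_lit 15353, nat_lit 41597, nat_lit 24101, nat_lit 32849, nat_lit 27017, nat_lit 28529, nat_lit 28457, nat_lit 28493, nat_lit 28481, nat_lit 48157] (nat_lit 0) [] false,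
   Spec.mk (nat_lit 28481) (nat_lit 2) [nat_lit 15359, nat_lit 41603, nat_lit 24107, nat_lit 32855, nat_lit 27023, nat_lit 28535, nat_lit 28499, nat_lit 28475, nat_lit 28483, nat_lit 48163] (nat_lit 0) [] false,
   Spec.mk (nat_lit 28483) (nat_lit 3) [nat_lit 15361, nat_lit 41605, nat_lit 24109, nat_lit 32857, nat_lit 27025, nat_lit 28537, nat_lit 28501, nat_lit 28481, nat_lit 48165, nat_lit 8801] (nat_lit 0) [] false,
   Spec.mk (nat_lit 28493) (nat_lit 0) [nat_lit 15371, nat_lit 41615, nat_lit 24119, nat_lit 32867, nat_lit 27035, nat_lit 28547, nat_lit 28475, nat_lit 28499, nat_lit 48175] (nat_lit 0) [] false,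
   Spec.mk (nat_lit 28499) (nat_lit 1) [nat_lit 15377, nat_lit 41621, nat_lit 24125, nat_lit 32873, nat_lit 27041, nat_lit 28553, nat_lit 28481, nat_lit 28493, nat_lit 28505, nat_lit 28501, nat_lit 48181] (nat_lit 0) [] false,
   Spec.mk (nat_lit 28501) (nat_lit 1) [nat_lit 15379, nat_lit 41623, nat_lit 24127, nat_lit 32875, nat_lit 27043, nat_lit 28555, nat_lit 28483, nat_lit 28507, nat_lit 28499, nat_lit 48183, nat_lit 8819] (nat_lit 0) [] false,
   Spec.mk (nat_lit 28505) (nat_lit 0) [nat_lit 15383, nat_lit 41627, nat_lit 24131, nat_lit 32879, nat_lit 27047, nat_lit 28559, nat_lit 28499, nat_lit 28507, nat_lit 48187] (nat_lit 0) [] false,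
   Spec.mk (nat_lit 28507) (nat_lit 2) [nat_lit 15385, nat_lit 41629, nat_lit 24133, nat_lit 32881, nat_lit 27049, nat_lit 28561, nat_lit 28501, nat_lit 28505, nat_lit 28509, nat_lit 48189, nat_lit 8825] (nat_lit 0) [] false,
   Spec.mk (nat_lit 28509) (nat_lit 2) [nat_lit 15387, nat_lit 41631, nat_lit 24135, nat_lit 32883, nat_lit 27051, nat_lit 28563, nat_lit 28507, nat_lit 8827] (nat_lit 0) [] false,
   Spec.mk (nat_lit 28529) (nat_lit 2) [nat_lit 15407, nat_lit 41651, nat_lit 24155, nat_lit 32903, nat_lit 27071, nat_lit 28691, nat_lit 28475, nat_lit 28547, nat_lit 28535, nat_lit 48211] (nat_lit 0) [] false,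
   Spec.mk (nat_lit 28535) (nat_lit 0) [nat_lit 15413, nat_lit 41657, nat_lit 24161, nat_lit 32909, nat_lit 27077, nat_lit 28697, nat_lit 28481, nat_lit 28553, nat_lit 28529, nat_lit 28537, nat_lit 48217] (nat_lit 0) [] false,
   Spec.mk (nat_lit 28537) (nat_lit 1) [nat_lit 15415, nat_lit 41659, nat_lit 24163, nat_lit 32911, nat_lit 27079, nat_lit 28699, nat_lit 28483, nat_lit 28555, nat_lit 28535, nat_lit 48219, nat_lit 8855] (nat_lit 0) [] false,
   Spec.mk (nat_lit 28547) (nat_lit 1) [nat_lit 15425, nat_lit 41669, nat_lit 24173, nat_lit 32921, nat_lit 27089, nat_lit 28709, nat_lit 28493, nat_lit 28601, nat_lit 28529, nat_lit 28553, nat_lit 48229] (nat_lit 0) [] false,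
   Spec.mk (nat_lit 28553) (nat_lit 1) [nat_lit 15431, nat_lit 41675, nat_lit 24179, nat_lit 32927, nat_lit 27095, nat_lit 28715, nat_lit 28499, nat_lit 28607, nat_lit 28535, nat_lit 28571, nat_lit 28547, nat_lit 28559, nat_lit 28555, nat_lit 48235] (nat_lit 0) [] false,
   Spec.mk (nat_lit 28555) (nat_lit 1) [nat_lit 15433, nat_lit 41677, nat_lit 24181, nat_lit 32929, nat_lit 27097, nat_lit 28717, nat_lit 28501, nat_lit 28609, nat_lit 28537, nat_lit 28573, nat_lit 28561, nat_lit 28553, nat_lit 48237, nat_lit 8873] (nat_lit 0) [] false,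
   Spec.mk (nat_lit 28559) (nat_lit 0) [nat_lit 15437, nat_lit 41681, nat_lit 24185, nat_lit 32933, nat_lit 27101, nat_lit 28721, nat_lit 28505, nat_lit 28613, nat_lit 28577, nat_lit 28553, nat_lit 28561, nat_lit 48241] (nat_lit 1) [] false,
   Spec.mk (nat_lit 28561) (nat_lit 1) [nat_lit 15439, nat_lit 41683, nat_lit 24187, nat_lit 32935, nat_lit 27103, nat_lit 28723, nat_lit 28507, nat_lit 28615, nat_lit 28579, nat_lit 28555, nat_lit 28559, nat_lit 28563, nat_lit 48243, nat_lit 8879] (nat_lit 0) [] false,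
   Spec.mk (nat_lit 28563) (nat_lit 1) [nat_lit 15441, nat_lit 41685, nat_lit 24189, nat_lit 32937, nat_lit 27105, nat_lit 28725, nat_lit 28509, nat_lit 28617, nat_lit 28581, nat_lit 28561, nat_lit 8881] (nat_lit 0) [] false,
   Spec.mk (nat_lit 28571) (nat_lit 0) [nat_lit 15449, nat_lit 41693, nat_lit 24197, nat_lit 32945, nat_lit 27113, nat_lit 28733, nat_lit 28625, nat_lit 28553, nat_lit 28577, nat_lit 28573, nat_lit 48253] (nat_lit 0) [] false,
   Spec.mk (nat_lit 28573) (nat_lit 0) [nat_lit 15451, nat_lit 41695, nat_lit 24199, nat_lit 32947, nat_lit 27115, nat_lit 28735, nat_lit 28627, nat_lit 28555, nat_lit 28579, nat_lit 28571, nat_lit 48255, nat_lit 8891] (nat_lit 1) [] false,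
   Spec.mk (nat_lit 28577) (nat_lit 0) [nat_lit 15455, nat_lit 41699, nat_lit 24203, nat_lit 32951, nat_lit 27119, nat_lit 28739, nat_lit 28631, nat_lit 28559, nat_lit 28571, nat_lit 28579, nat_lit 48259] (nat_lit 0) [] false,
   Spec.mk (nat_lit 28579) (nat_lit 1) [nat_lit 15457, nat_lit 41701, nat_lit 24205, nat_lit 32953, nat_lit 27121, nat_lit 28741, nat_lit 28633, nat_lit 28561, nat_lit 28573, nat_lit 28585, nat_lit 28577, nat_lit 28581, nat_lit 48261, nat_lit 8897] (nat_lit 0) [] false,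
   Spec.mk (nat_lit 28581) (nat_lit 0) [nat_lit 15459, nat_lit 41703, nat_lit 24207, nat_lit 32955, nat_lit 27123, nat_lit 28743, nat_lit 28635, nat_lit 28563, nat_lit 28587, nat_lit 28579, nat_lit 8899] (nat_lit 0) [] false,
   Spec.mk (nat_lit 28585) (nat_lit 1) [nat_lit 15463, nat_lit 41707, nat_lit 24211, nat_lit 32959, nat_lit 27127, nat_lit 28747, nat_lit 28639, nat_lit 28579, nat_lit 28587, nat_lit 48267, nat_lit 8903] (nat_lit 0) [] false,
   Spec.mk (nat_lit 28587) (nat_lit 2) [nat_lit 15465, nat_lit 41709, nat_lit 24213, nat_lit 32961, nat_lit 27129, nat_lit 28749, nat_lit 28641, nat_lit 28581, nat_lit 28585, nat_lit 8905] (nat_lit 0) [] false,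
   Spec.mk (nat_lit 28601) (nat_lit 0) [nat_lit 15479, nat_lit 41723, nat_lit 24227, nat_lit 32975, nat_lit 27143, nat_lit 28763, nat_lit 28547, nat_lit 28607, nat_lit 48283] (nat_lit 0) [] false,
   Spec.mk (nat_lit 28607) (nat_lit 0) [nat_lit 15485, nat_lit 41729, nat_lit 24233, nat_lit 32981, nat_lit 27149, nat_lit 28769, nat_lit 28553, nat_lit 28625, nat_lit 28601, nat_lit 28613, nat_lit 28609, nat_lit 48289] (nat_lit 1) [] false,
   Spec.mk (nat_lit 28609) (nat_lit 0) [nat_lit 15487, nat_lit 41731, nat_lit 24235, nat_lit 32983, nat_lit 27151, nat_lit 28771, nat_lit 28555, nat_lit 28627, nat_lit 28615, nat_lit 28607, nat_lit 48291, nat_lit 8927] (nat_lit 1) [] false,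
   Spec.mk (nat_lit 28613) (nat_lit 0) [nat_lit 15491, nat_lit 41735, nat_lit 24239, nat_lit 32987, nat_lit 27155, nat_lit 28775, nat_lit 28559, nat_lit 28631, nat_lit 28607, nat_lit 28615, nat_lit 48295] (nat_lit 4) [] false,
   Spec.mk (nat_lit 28615) (nat_lit 0) [nat_lit 15493, nat_lit 41737, nat_lit 24241, nat_lit 32989, nat_lit 27157, nat_lit 28777, nat_lit 28561, nat_lit 28633, nat_lit 28609, nat_lit 28613, nat_lit 28617, nat_lit 48297, nat_lit 8933] (nat_lit 2) [] false,
   Spec.mk (nat_lit 28617) (nat_lit 0) [nat_lit 15495, nat_lit 41739, nat_lit 24243, nat_lit 32991, nat_lit 27159, nat_lit 28779, nat_lit 28563, nat_lit 28635, nat_lit 28615, nat_lit 8935] (nat_lit 2) [] false,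
   Spec.mk (nat_lit 28625) (nat_lit 0) [nat_lit 15503, nat_lit 41747, nat_lit 24251, nat_lit 32999, nat_lit 27167, nat_lit 28787, nat_lit 28571, nat_lit 28607, nat_lit 28631, nat_lit 28627, nat_lit 48307] (nat_lit 0) [] false,
   Spec.mk (nat_lit 28627) (nat_lit 0) [nat_lit 15505, nat_lit 41749, nat_lit 24253, nat_lit 33001, nat_lit 27169, nat_lit 28789, nat_lit 28573, nat_lit 28609, nat_lit 28633, nat_lit 28625, nat_lit 48309, nat_lit 8945] (nat_lit 1) [] false,
   Spec.mk (nat_lit 28631) (nat_lit 0) [nat_lit 15509, nat_lit 41753, nat_lit 24257, nat_lit 33005, nat_lit 27173, nat_lit 28793, nat_lit 28577, nat_lit 28613, nat_lit 28649, nat_lit 28625, nat_lit 28633, nat_lit 48313] (nat_lit 1) [] false,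
   Spec.mk (nat_lit 28633) (nat_lit 0) [nat_lit 15511, nat_lit 41755, nat_lit 24259, nat_lit 33007, nat_lit 27175, nat_lit 28795, nat_lit 28579, nat_lit 28615, nat_lit 28651, nat_lit 28627, nat_lit 28639, nat_lit 28631, nat_lit 28635, nat_lit 48315, nat_lit 8951] (nat_lit 0) [] false,
   Spec.mk (nat_lit 28635) (nat_lit 0) [nat_lit 15513, nat_lit 41757, nat_lit 24261, nat_lit 33009, nat_lit 27177, nat_lit 28797, nat_lit 28581, nat_lit 28617, nat_lit 28653, nat_lit 28641, nat_lit 28633, nat_lit 8953] (nat_lit 1) [] false,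
   Spec.mk (nat_lit 28639) (nat_lit 0) [nat_lit 15517, nat_lit 41761, nat_lit 24265, nat_lit 33013, nat_lit 27181, nat_lit 28801, nat_lit 28585, nat_lit 28657, nat_lit 28633, nat_lit 28641, nat_lit 48321, nat_lit 8957] (nat_lit 1) [] false,
   Spec.mk (nat_lit 28641) (nat_lit 0) [nat_lit 15519, nat_lit 41763, nat_lit 24267, nat_lit 33015, nat_lit 27183, nat_lit 28803, nat_lit 28587, nat_lit 28659, nat_lit 28635, nat_lit 28639, nat_lit 8959] (nat_lit 0) [] false,
   Spec.mk (nat_lit 28649) (nat_lit 0) [nat_lit 15527, nat_lit 41771, nat_lit 24275, nat_lit 33023, nat_lit 27191, nat_lit 28811, nat_lit 28631, nat_lit 28651, nat_lit 48331] (nat_lit 0) [] false,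
   Spec.mk (nat_lit 28651) (nat_lit 0) [nat_lit 15529, nat_lit 41773, nat_lit 24277, nat_lit 33025, nat_lit 27193, nat_lit 28813, nat_lit 28633, nat_lit 28657, nat_lit 28649, nat_lit 28653, nat_lit 48333, nat_lit 8969] (nat_lit 0) [] false]

noncomputable def sp78 : List Spec :=
  [Spec.mk (nat_lit 28653) (nat_lit 0) [nat_lit 15531, nat_lit 41775, nat_lit 24279, nat_lit 33027, nat_lit 27195, nat_lit 28815, nat_lit 28635, nat_lit 28659, nat_lit 28651, nat_lit 8971] (nat_lit 2) [] false,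
   Spec.mk (nat_lit 28657) (nat_lit 1) [nat_lit 15535, nat_lit 41779, nat_lit 24283, nat_lit 33031, nat_lit 27199, nat_lit 28819, nat_lit 28639, nat_lit 28651, nat_lit 28659, nat_lit 48339, nat_lit 8975] (nat_lit 0) [] false,
   Spec.mk (nat_lit 28659) (nat_lit 1) [nat_lit 15537, nat_lit 41781, nat_lit 24285, nat_lit 33033, nat_lit 27201, nat_lit 28821, nat_lit 28641, nat_lit 28653, nat_lit 28665, nat_lit 28657, nat_lit 8977] (nat_lit 0) [] false,
   Spec.mk (nat_lit 28665) (nat_lit 2) [nat_lit 15543, nat_lit 41787, nat_lit 24291, nat_lit 33039, nat_lit 27207, nat_lit 28827, nat_lit 28659, nat_lit 8983] (nat_lit 0) [] false,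
   Spec.mk (nat_lit 28691) (nat_lit 2) [nat_lit 15569, nat_lit 41813, nat_lit 24317, nat_lit 33065, nat_lit 27233, nat_lit 29177, nat_lit 28529, nat_lit 28709, nat_lit 28697, nat_lit 48373] (nat_lit 0) [] false,
   Spec.mk (nat_lit 28697) (nat_lit 0) [nat_lit 15575, nat_lit 41819, nat_lit 24323, nat_lit 33071, nat_lit 27239, nat_lit 29183, nat_lit 28535, nat_lit 28715, nat_lit 28691, nat_lit 28699, nat_lit 48379] (nat_lit 0) [] false,
   Spec.mk (nat_lit 28699) (nat_lit 1) [nat_lit 15577, nat_lit 41821, nat_lit 24325, nat_lit 33073, nat_lit 27241, nat_lit 29185, nat_lit 28537, nat_lit 28717, nat_lit 28697, nat_lit 48381, nat_lit 9017] (nat_lit 0) [] false,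
   Spec.mk (nat_lit 28709) (nat_lit 0) [nat_lit 15587, nat_lit 41831, nat_lit 24335, nat_lit 33083, nat_lit 27251, nat_lit 29195, nat_lit 28547, nat_lit 28763, nat_lit 28691, nat_lit 28715, nat_lit 48391] (nat_lit 0) [] false,
   Spec.mk (nat_lit 28715) (nat_lit 0) [nat_lit 15593, nat_lit 41837, nat_lit 24341, nat_lit 33089, nat_lit 27257, nat_lit 29201, nat_lit 28553, nat_lit 28769, nat_lit 28697, nat_lit 28733, nat_lit 28709, nat_lit 28721, nat_lit 28717, nat_lit 48397] (nat_lit 0) [] false,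
   Spec.mk (nat_lit 28717) (nat_lit 0) [nat_lit 15595, nat_lit 41839, nat_lit 24343, nat_lit 33091, nat_lit 27259, nat_lit 29203, nat_lit 28555, nat_lit 28771, nat_lit 28699, nat_lit 28735, nat_lit 28723, nat_lit 28715, nat_lit 48399, nat_lit 9035] (nat_lit 0) [] false,
   Spec.mk (nat_lit 28721) (nat_lit 0) [nat_lit 15599, nat_lit 41843, nat_lit 24347, nat_lit 33095, nat_lit 27263, nat_lit 29207, nat_lit 28559, nat_lit 28775, nat_lit 28739, nat_lit 28715, nat_lit 28723, nat_lit 48403] (nat_lit 2) [] false,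
   Spec.mk (nat_lit 28723) (nat_lit 0) [nat_lit 15601, nat_lit 41845, nat_lit 24349, nat_lit 33097, nat_lit 27265, nat_lit 29209, nat_lit 28561, nat_lit 28777, nat_lit 28741, nat_lit 28717, nat_lit 28721, nat_lit 28725, nat_lit 48405, nat_lit 9041] (nat_lit 0) [] false,
   Spec.mk (nat_lit 28725) (nat_lit 0) [nat_lit 15603, nat_lit 41847, nat_lit 24351, nat_lit 33099, nat_lit 27267, nat_lit 29211, nat_lit 28563, nat_lit 28779, nat_lit 28743, nat_lit 28723, nat_lit 9043] (nat_lit 0) [] false,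
   Spec.mk (nat_lit 28733) (nat_lit 0) [nat_lit 15611, nat_lit 41855, nat_lit 24359, nat_lit 33107, nat_lit 27275, nat_lit 29219, nat_lit 28571, nat_lit 28787, nat_lit 28715, nat_lit 28739, nat_lit 28735, nat_lit 48415] (nat_lit 2) [] false,
   Spec.mk (nat_lit 28735) (nat_lit 0) [nat_lit 15613, nat_lit 41857, nat_lit 24361, nat_lit 33109, nat_lit 27277, nat_lit 29221, nat_lit 28573, nat_lit 28789, nat_lit 28717, nat_lit 28741, nat_lit 28733, nat_lit 48417, nat_lit 9053] (nat_lit 3) [] false,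
   Spec.mk (nat_lit 28739) (nat_lit 0) [nat_lit 15617, nat_lit 41861, nat_lit 24365, nat_lit 33113, nat_lit 27281, nat_lit 29225, nat_lit 28577, nat_lit 28793, nat_lit 28721, nat_lit 28733, nat_lit 28741, nat_lit 48421] (nat_lit 2) [] false,
   Spec.mk (nat_lit 28741) (nat_lit 0) [nat_lit 15619, nat_lit 41863, nat_lit 24367, nat_lit 33115, nat_lit 27283, nat_lit 29227, nat_lit 28579, nat_lit 28795, nat_lit 28723, nat_lit 28735, nat_lit 28747, nat_lit 28739, nat_lit 28743, nat_lit 48423, nat_lit 9059] (nat_lit 1) [] false,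
   Spec.mk (nat_lit 28743) (nat_lit 0) [nat_lit 15621, nat_lit 41865, nat_lit 24369, nat_lit 33117, nat_lit 27285, nat_lit 29229, nat_lit 28581, nat_lit 28797, nat_lit 28725, nat_lit 28749, nat_lit 28741, nat_lit 9061] (nat_lit 2) [] false,
   Spec.mk (nat_lit 28747) (nat_lit 0) [nat_lit 15625, nat_lit 41869, nat_lit 24373, nat_lit 33121, nat_lit 27289, nat_lit 29233, nat_lit 28585, nat_lit 28801, nat_lit 28741, nat_lit 28749, nat_lit 48429, nat_lit 9065] (nat_lit 1) [] false,
   Spec.mk (nat_lit 28749) (nat_lit 0) [nat_lit 15627, nat_lit 41871, nat_lit 24375, nat_lit 33123, nat_lit 27291, nat_lit 29235, nat_lit 28587, nat_lit 28803, nat_lit 28743, nat_lit 28747, nat_lit 9067] (nat_lit 0) [] false,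
   Spec.mk (nat_lit 28763) (nat_lit 1) [nat_lit 15641, nat_lit 41885, nat_lit 24389, nat_lit 33137, nat_lit 27305, nat_lit 29249, nat_lit 28601, nat_lit 28925, nat_lit 28709, nat_lit 28769, nat_lit 48445] (nat_lit 0) [] false,
   Spec.mk (nat_lit 28769) (nat_lit 0) [nat_lit 15647, nat_lit 41891, nat_lit 24395, nat_lit 33143, nat_lit 27311, nat_lit 29255, nat_lit 28607, nat_lit 28931, nat_lit 28715, nat_lit 28787, nat_lit 28763, nat_lit 28775, nat_lit 28771, nat_lit 48451] (nat_lit 0) [] false,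
   Spec.mk (nat_lit 28771) (nat_lit 0) [nat_lit 15649, nat_lit 41893, nat_lit 24397, nat_lit 33145, nat_lit 27313, nat_lit 29257, nat_lit 28609, nat_lit 28933, nat_lit 28717, nat_lit 28789, nat_lit 28777, nat_lit 28769, nat_lit 48453, nat_lit 9089] (nat_lit 0) [] false,
   Spec.mk (nat_lit 28775) (nat_lit 0) [nat_lit 15653, nat_lit 41897, nat_lit 24401, nat_lit 33149, nat_lit 27317, nat_lit 29261, nat_lit 28613, nat_lit 28937, nat_lit 28721, nat_lit 28793, nat_lit 28769, nat_lit 28777, nat_lit 48457] (nat_lit 3) [] false,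
   Spec.mk (nat_lit 28777) (nat_lit 0) [nat_lit 15655, nat_lit 41899, nat_lit 24403, nat_lit 33151, nat_lit 27319, nat_lit 29263, nat_lit 28615, nat_lit 28939, nat_lit 28723, nat_lit 28795, nat_lit 28771, nat_lit 28775, nat_lit 28779, nat_lit 48459, nat_lit 9095] (nat_lit 1) [] false,
   Spec.mk (nat_lit 28779) (nat_lit 0) [nat_lit 15657, nat_lit 41901, nat_lit 24405, nat_lit 33153, nat_lit 27321, nat_lit 29265, nat_lit 28617, nat_lit 28941, nat_lit 28725, nat_lit 28797, nat_lit 28777, nat_lit 9097] (nat_lit 1) [] false,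
   Spec.mk (nat_lit 28787) (nat_lit 0) [nat_lit 15665, nat_lit 41909, nat_lit 24413, nat_lit 33161, nat_lit 27329, nat_lit 29273, nat_lit 28625, nat_lit 28949, nat_lit 28733, nat_lit 28841, nat_lit 28769, nat_lit 28793, nat_lit 28789, nat_lit 48469] (nat_lit 0) [] false,
   Spec.mk (nat_lit 28789) (nat_lit 0) [nat_lit 15667, nat_lit 41911, nat_lit 24415, nat_lit 33163, nat_lit 27331, nat_lit 29275, nat_lit 28627, nat_lit 28951, nat_lit 28735, nat_lit 28843, nat_lit 28771, nat_lit 28795, nat_lit 28787, nat_lit 48471, nat_lit 9107] (nat_lit 1) [] false,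
   Spec.mk (nat_lit 28793) (nat_lit 0) [nat_lit 15671, nat_lit 41915, nat_lit 24419, nat_lit 33167, nat_lit 27335, nat_lit 29279, nat_lit 28631, nat_lit 28955, nat_lit 28739, nat_lit 28847, nat_lit 28775, nat_lit 28811, nat_lit 28787, nat_lit 28795, nat_lit 48475] (nat_lit 1) [] false,
   Spec.mk (nat_lit 28795) (nat_lit 0) [nat_lit 15673, nat_lit 41917, nat_lit 24421, nat_lit 33169, nat_lit 27337, nat_lit 29281, nat_lit 28633, nat_lit 28957, nat_lit 28741, nat_lit 28849, nat_lit 28777, nat_lit 28813, nat_lit 28789, nat_lit 28801, nat_lit 28793, nat_lit 28797, nat_lit 48477, nat_lit 9113] (nat_lit 0) [] false,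
   Spec.mk (nat_lit 28797) (nat_lit 0) [nat_lit 15675, nat_lit 41919, nat_lit 24423, nat_lit 33171, nat_lit 27339, nat_lit 29283, nat_lit 28635, nat_lit 28959, nat_lit 28743, nat_lit 28851, nat_lit 28779, nat_lit 28815, nat_lit 28803, nat_lit 28795, nat_lit 9115] (nat_lit 1) [] false,
   Spec.mk (nat_lit 28801) (nat_lit 0) [nat_lit 15679, nat_lit 41923, nat_lit 24427, nat_lit 33175, nat_lit 27343, nat_lit 29287, nat_lit 28639, nat_lit 28963, nat_lit 28747, nat_lit 28855, nat_lit 28819, nat_lit 28795, nat_lit 28803, nat_lit 48483, nat_lit 9119] (nat_lit 1) [] false,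
   Spec.mk (nat_lit 28803) (nat_lit 0) [nat_lit 15681, nat_lit 41925, nat_lit 24429, nat_lit 33177, nat_lit 27345, nat_lit 29289, nat_lit 28641, nat_lit 28965, nat_lit 28749, nat_lit 28857, nat_lit 28821, nat_lit 28797, nat_lit 28801, nat_lit 9121] (nat_lit 0) [] false,
   Spec.mk (nat_lit 28811) (nat_lit 0) [nat_lit 15689, nat_lit 41933, nat_lit 24437, nat_lit 33185, nat_lit 27353, nat_lit 29297, nat_lit 28649, nat_lit 28973, nat_lit 28865, nat_lit 28793, nat_lit 28813, nat_lit 48493] (nat_lit 1) [] false,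
   Spec.mk (nat_lit 28813) (nat_lit 0) [nat_lit 15691, nat_lit 41935, nat_lit 24439, nat_lit 33187, nat_lit 27355, nat_lit 29299, nat_lit 28651, nat_lit 28975, nat_lit 28867, nat_lit 28795, nat_lit 28819, nat_lit 28811, nat_lit 28815, nat_lit 48495, nat_lit 9131] (nat_lit 1) [] false,
   Spec.mk (nat_lit 28815) (nat_lit 0) [nat_lit 15693, nat_lit 41937, nat_lit 24441, nat_lit 33189, nat_lit 27357, nat_lit 29301, nat_lit 28653, nat_lit 28977, nat_lit 28869, nat_lit 28797, nat_lit 28821, nat_lit 28813, nat_lit 9133] (nat_lit 3) [] false,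
   Spec.mk (nat_lit 28819) (nat_lit 0) [nat_lit 15697, nat_lit 41941, nat_lit 24445, nat_lit 33193, nat_lit 27361, nat_lit 29305, nat_lit 28657, nat_lit 28981, nat_lit 28873, nat_lit 28801, nat_lit 28813, nat_lit 28821, nat_lit 48501, nat_lit 9137] (nat_lit 0) [] false,
   Spec.mk (nat_lit 28821) (nat_lit 0) [nat_lit 15699, nat_lit 41943, nat_lit 24447, nat_lit 33195, nat_lit 27363, nat_lit 29307, nat_lit 28659, nat_lit 28983, nat_lit 28875, nat_lit 28803, nat_lit 28815, nat_lit 28827, nat_lit 28819, nat_lit 9139] (nat_lit 0) [] false,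
   Spec.mk (nat_lit 28827) (nat_lit 1) [nat_lit 15705, nat_lit 41949, nat_lit 24453, nat_lit 33201, nat_lit 27369, nat_lit 29313, nat_lit 28665, nat_lit 28989, nat_lit 28881, nat_lit 28821, nat_lit 9145] (nat_lit 0) [] false,
   Spec.mk (nat_lit 28841) (nat_lit 0) [nat_lit 15719, nat_lit 41963, nat_lit 24467, nat_lit 33215, nat_lit 27383, nat_lit 29327, nat_lit 29003, nat_lit 28787, nat_lit 28847, nat_lit 28843, nat_lit 48523] (nat_lit 0) [] false,
   Spec.mk (nat_lit 28843) (nat_lit 0) [nat_lit 15721, nat_lit 41965, nat_lit 24469, nat_lit 33217, nat_lit 27385, nat_lit 29329, nat_lit 29005, nat_lit 28789, nat_lit 28849, nat_lit 28841, nat_lit 48525, nat_lit 9161] (nat_lit 1) [] false,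
   Spec.mk (nat_lit 28847) (nat_lit 0) [nat_lit 15725, nat_lit 41969, nat_lit 24473, nat_lit 33221, nat_lit 27389, nat_lit 29333, nat_lit 29009, nat_lit 28793, nat_lit 28865, nat_lit 28841, nat_lit 28849, nat_lit 48529] (nat_lit 2) [] false,
   Spec.mk (nat_lit 28849) (nat_lit 0) [nat_lit 15727, nat_lit 41971, nat_lit 24475, nat_lit 33223, nat_lit 27391, nat_lit 29335, nat_lit 29011, nat_lit 28795, nat_lit 28867, nat_lit 28843, nat_lit 28855, nat_lit 28847, nat_lit 28851, nat_lit 48531, nat_lit 9167] (nat_lit 1) [] false,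
   Spec.mk (nat_lit 28851) (nat_lit 0) [nat_lit 15729, nat_lit 41973, nat_lit 24477, nat_lit 33225, nat_lit 27393, nat_lit 29337, nat_lit 29013, nat_lit 28797, nat_lit 28869, nat_lit 28857, nat_lit 28849, nat_lit 9169] (nat_lit 2) [] false,
   Spec.mk (nat_lit 28855) (nat_lit 0) [nat_lit 15733, nat_lit 41977, nat_lit 24481, nat_lit 33229, nat_lit 27397, nat_lit 29341, nat_lit 29017, nat_lit 28801, nat_lit 28873, nat_lit 28849, nat_lit 28857, nat_lit 48537, nat_lit 9173] (nat_lit 3) [] false,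
   Spec.mk (nat_lit 28857) (nat_lit 0) [nat_lit 15735, nat_lit 41979, nat_lit 24483, nat_lit 33231, nat_lit 27399, nat_lit 29343, nat_lit 29019, nat_lit 28803, nat_lit 28875, nat_lit 28851, nat_lit 28855, nat_lit 9175] (nat_lit 2) [] false,
   Spec.mk (nat_lit 28865) (nat_lit 0) [nat_lit 15743, nat_lit 41987, nat_lit 24491, nat_lit 33239, nat_lit 27407, nat_lit 29351, nat_lit 29027, nat_lit 28811, nat_lit 28847, nat_lit 28867, nat_lit 48547] (nat_lit 0) [] false,
   Spec.mk (nat_lit 28867) (nat_lit 0) [nat_lit 15745, nat_lit 41989, nat_lit 24493, nat_lit 33241, nat_lit 27409, nat_lit 29353, nat_lit 29029, nat_lit 28813, nat_lit 28849, nat_lit 28873, nat_lit 28865, nat_lit 28869, nat_lit 48549, nat_lit 9185] (nat_lit 0) [] false,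
   Spec.mk (nat_lit 28869) (nat_lit 0) [nat_lit 15747, nat_lit 41991, nat_lit 24495, nat_lit 33243, nat_lit 27411, nat_lit 29355, nat_lit 29031, nat_lit 28815, nat_lit 28851, nat_lit 28875, nat_lit 28867, nat_lit 9187] (nat_lit 2) [] false,
   Spec.mk (nat_lit 28873) (nat_lit 0) [nat_lit 15751, nat_lit 41995, nat_lit 24499, nat_lit 33247, nat_lit 27415, nat_lit 29359, nat_lit 29035, nat_lit 28819, nat_lit 28855, nat_lit 28891, nat_lit 28867, nat_lit 28875, nat_lit 48555, nat_lit 9191] (nat_lit 0) [] false,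
   Spec.mk (nat_lit 28875) (nat_lit 0) [nat_lit 15753, nat_lit 41997, nat_lit 24501, nat_lit 33249, nat_lit 27417, nat_lit 29361, nat_lit 29037, nat_lit 28821, nat_lit 28857, nat_lit 28893, nat_lit 28869, nat_lit 28881, nat_lit 28873, nat_lit 9193] (nat_lit 0) [] false,
   Spec.mk (nat_lit 28881) (nat_lit 0) [nat_lit 15759, nat_lit 42003, nat_lit 24507, nat_lit 33255, nat_lit 27423, nat_lit 29367, nat_lit 29043, nat_lit 28827, nat_lit 28899, nat_lit 28875, nat_lit 9199] (nat_lit 0) [] false,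
   Spec.mk (nat_lit 28891) (nat_lit 1) [nat_lit 15769, nat_lit 42013, nat_lit 24517, nat_lit 33265, nat_lit 27433, nat_lit 29377, nat_lit 29053, nat_lit 28873, nat_lit 28893, nat_lit 48573, nat_lit 9209] (nat_lit 0) [] false,
   Spec.mk (nat_lit 28893) (nat_lit 0) [nat_lit 15771, nat_lit 42015, nat_lit 24519, nat_lit 33267, nat_lit 27435, nat_lit 29379, nat_lit 29055, nat_lit 28875, nat_lit 28899, nat_lit 28891, nat_lit 9211] (nat_lit 0) [] false,
   Spec.mk (nat_lit 28899) (nat_lit 2) [nat_lit 15777, nat_lit 42021, nat_lit 24525, nat_lit 33273, nat_lit 27441, nat_lit 29385, nat_lit 29061, nat_lit 28881, nat_lit 28893, nat_lit 9217] (nat_lit 0) [] false,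
   Spec.mk (nat_lit 28925) (nat_lit 0) [nat_lit 15803, nat_lit 42047, nat_lit 24551, nat_lit 33299, nat_lit 27467, nat_lit 29411, nat_lit 28763, nat_lit 28931, nat_lit 48607] (nat_lit 0) [] false,
   Spec.mk (nat_lit 28931) (nat_lit 0) [nat_lit 15809, nat_lit 42053, nat_lit 24557, nat_lit 33305, nat_lit 27473, nat_lit 29417, nat_lit 28769, nat_lit 28949, nat_lit 28925, nat_lit 28937, nat_lit 28933, nat_lit 48613] (nat_lit 1) [] false,
   Spec.mk (nat_lit 28933) (nat_lit 0) [nat_lit 15811, nat_lit 42055, nat_lit 24559, nat_lit 33307, nat_lit 27475, nat_lit 29419, nat_lit 28771, nat_lit 28951, nat_lit 28939, nat_lit 28931, nat_lit 48615, nat_lit 9251] (nat_lit 1) [] false,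
   Spec.mk (nat_lit 28937) (nat_lit 0) [nat_lit 15815, nat_lit 42059, nat_lit 24563, nat_lit 33311, nat_lit 27479, nat_lit 29423, nat_lit 28775, nat_lit 28955, nat_lit 28931, nat_lit 28939, nat_lit 48619] (nat_lit 4) [] false,
   Spec.mk (nat_lit 28939) (nat_lit 0) [nat_lit 15817, nat_lit 42061, nat_lit 24565, nat_lit 33313, nat_lit 27481, nat_lit 29425, nat_lit 28777, nat_lit 28957, nat_lit 28933, nat_lit 28937, nat_lit 28941, nat_lit 48621, nat_lit 9257] (nat_lit 2) [] false]

noncomputable def sp79 : List Spec :=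
  [Spec.mk (nat_lit 28941) (nat_lit 0) [nat_lit 15819, nat_lit 42063, nat_lit 24567, nat_lit 33315, nat_lit 27483, nat_lit 29427, nat_lit 28779, nat_lit 28959, nat_lit 28939, nat_lit 9259] (nat_lit 2) [] false,
   Spec.mk (nat_lit 28949) (nat_lit 0) [nat_lit 15827, nat_lit 42071, nat_lit 24575, nat_lit 33323, nat_lit 27491, nat_lit 29435, nat_lit 28787, nat_lit 29003, nat_lit 28931, nat_lit 28955, nat_lit 28951, nat_lit 48631] (nat_lit 2) [] false,
   Spec.mk (nat_lit 28951) (nat_lit 0) [nat_lit 15829, nat_lit 42073, nat_lit 24577, nat_lit 33325, nat_lit 27493, nat_lit 29437, nat_lit 28789, nat_lit 29005, nat_lit 28933, nat_lit 28957, nat_lit 28949, nat_lit 48633, nat_lit 9269] (nat_lit 3) [] false,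
   Spec.mk (nat_lit 28955) (nat_lit 0) [nat_lit 15833, nat_lit 42077, nat_lit 24581, nat_lit 33329, nat_lit 27497, nat_lit 29441, nat_lit 28793, nat_lit 29009, nat_lit 28937, nat_lit 28973, nat_lit 28949, nat_lit 28957, nat_lit 48637] (nat_lit 3) [] false,
   Spec.mk (nat_lit 28957) (nat_lit 0) [nat_lit 15835, nat_lit 42079, nat_lit 24583, nat_lit 33331, nat_lit 27499, nat_lit 29443, nat_lit 28795, nat_lit 29011, nat_lit 28939, nat_lit 28975, nat_lit 28951, nat_lit 28963, nat_lit 28955, nat_lit 28959, nat_lit 48639, nat_lit 9275] (nat_lit 2) [] false,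
   Spec.mk (nat_lit 28959) (nat_lit 0) [nat_lit 15837, nat_lit 42081, nat_lit 24585, nat_lit 33333, nat_lit 27501, nat_lit 29445, nat_lit 28797, nat_lit 29013, nat_lit 28941, nat_lit 28977, nat_lit 28965, nat_lit 28957, nat_lit 9277] (nat_lit 3) [] false,
   Spec.mk (nat_lit 28963) (nat_lit 0) [nat_lit 15841, nat_lit 42085, nat_lit 24589, nat_lit 33337, nat_lit 27505, nat_lit 29449, nat_lit 28801, nat_lit 29017, nat_lit 28981, nat_lit 28957, nat_lit 28965, nat_lit 48645, nat_lit 9281] (nat_lit 3) [] false,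
   Spec.mk (nat_lit 28965) (nat_lit 0) [nat_lit 15843, nat_lit 42087, nat_lit 24591, nat_lit 33339, nat_lit 27507, nat_lit 29451, nat_lit 28803, nat_lit 29019, nat_lit 28983, nat_lit 28959, nat_lit 28963, nat_lit 9283] (nat_lit 2) [] false,
   Spec.mk (nat_lit 28973) (nat_lit 0) [nat_lit 15851, nat_lit 42095, nat_lit 24599, nat_lit 33347, nat_lit 27515, nat_lit 29459, nat_lit 28811, nat_lit 29027, nat_lit 28955, nat_lit 28975, nat_lit 48655] (nat_lit 4) [] false,
   Spec.mk (nat_lit 28975) (nat_lit 0) [nat_lit 15853, nat_lit 42097, nat_lit 24601, nat_lit 33349, nat_lit 27517, nat_lit 29461, nat_lit 28813, nat_lit 29029, nat_lit 28957, nat_lit 28981, nat_lit 28973, nat_lit 28977, nat_lit 48657, nat_lit 9293] (nat_lit 4) [] false,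
   Spec.mk (nat_lit 28977) (nat_lit 0) [nat_lit 15855, nat_lit 42099, nat_lit 24603, nat_lit 33351, nat_lit 27519, nat_lit 29463, nat_lit 28815, nat_lit 29031, nat_lit 28959, nat_lit 28983, nat_lit 28975, nat_lit 9295] (nat_lit 6) [] false,
   Spec.mk (nat_lit 28981) (nat_lit 0) [nat_lit 15859, nat_lit 42103, nat_lit 24607, nat_lit 33355, nat_lit 27523, nat_lit 29467, nat_lit 28819, nat_lit 29035, nat_lit 28963, nat_lit 28975, nat_lit 28983, nat_lit 48663, nat_lit 9299] (nat_lit 3) [] false,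
   Spec.mk (nat_lit 28983) (nat_lit 0) [nat_lit 15861, nat_lit 42105, nat_lit 24609, nat_lit 33357, nat_lit 27525, nat_lit 29469, nat_lit 28821, nat_lit 29037, nat_lit 28965, nat_lit 28977, nat_lit 28989, nat_lit 28981, nat_lit 9301] (nat_lit 3) [] false,
   Spec.mk (nat_lit 28989) (nat_lit 0) [nat_lit 15867, nat_lit 42111, nat_lit 24615, nat_lit 33363, nat_lit 27531, nat_lit 29475, nat_lit 28827, nat_lit 29043, nat_lit 28983, nat_lit 9307] (nat_lit 2) [] false,
   Spec.mk (nat_lit 29003) (nat_lit 0) [nat_lit 15881, nat_lit 42125, nat_lit 24629, nat_lit 33377, nat_lit 27545, nat_lit 29489, nat_lit 28841, nat_lit 28949, nat_lit 29009, nat_lit 29005, nat_lit 48685] (nat_lit 0) [] false,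
   Spec.mk (nat_lit 29005) (nat_lit 0) [nat_lit 15883, nat_lit 42127, nat_lit 24631, nat_lit 33379, nat_lit 27547, nat_lit 29491, nat_lit 28843, nat_lit 28951, nat_lit 29011, nat_lit 29003, nat_lit 48687, nat_lit 9323] (nat_lit 1) [] false,
   Spec.mk (nat_lit 29009) (nat_lit 0) [nat_lit 15887, nat_lit 42131, nat_lit 24635, nat_lit 33383, nat_lit 27551, nat_lit 29495, nat_lit 28847, nat_lit 28955, nat_lit 29027, nat_lit 29003, nat_lit 29011, nat_lit 48691] (nat_lit 2) [] false,
   Spec.mk (nat_lit 29011) (nat_lit 0) [nat_lit 15889, nat_lit 42133, nat_lit 24637, nat_lit 33385, nat_lit 27553, nat_lit 29497, nat_lit 28849, nat_lit 28957, nat_lit 29029, nat_lit 29005, nat_lit 29017, nat_lit 29009, nat_lit 29013, nat_lit 48693, nat_lit 9329] (nat_lit 1) [] false,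
   Spec.mk (nat_lit 29013) (nat_lit 0) [nat_lit 15891, nat_lit 42135, nat_lit 24639, nat_lit 33387, nat_lit 27555, nat_lit 29499, nat_lit 28851, nat_lit 28959, nat_lit 29031, nat_lit 29019, nat_lit 29011, nat_lit 9331] (nat_lit 2) [] false,
   Spec.mk (nat_lit 29017) (nat_lit 0) [nat_lit 15895, nat_lit 42139, nat_lit 24643, nat_lit 33391, nat_lit 27559, nat_lit 29503, nat_lit 28855, nat_lit 28963, nat_lit 29035, nat_lit 29011, nat_lit 29019, nat_lit 48699, nat_lit 9335] (nat_lit 3) [] false,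
   Spec.mk (nat_lit 29019) (nat_lit 0) [nat_lit 15897, nat_lit 42141, nat_lit 24645, nat_lit 33393, nat_lit 27561, nat_lit 29505, nat_lit 28857, nat_lit 28965, nat_lit 29037, nat_lit 29013, nat_lit 29017, nat_lit 9337] (nat_lit 2) [] false,
   Spec.mk (nat_lit 29027) (nat_lit 0) [nat_lit 15905, nat_lit 42149, nat_lit 24653, nat_lit 33401, nat_lit 27569, nat_lit 29513, nat_lit 28865, nat_lit 28973, nat_lit 29081, nat_lit 29009, nat_lit 29029, nat_lit 48709] (nat_lit 1) [] false,
   Spec.mk (nat_lit 29029) (nat_lit 0) [nat_lit 15907, nat_lit 42151, nat_lit 24655, nat_lit 33403, nat_lit 27571, nat_lit 29515, nat_lit 28867, nat_lit 28975, nat_lit 29083, nat_lit 29011, nat_lit 29035, nat_lit 29027, nat_lit 29031, nat_lit 48711, nat_lit 9347] (nat_lit 1) [] false,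
   Spec.mk (nat_lit 29031) (nat_lit 0) [nat_lit 15909, nat_lit 42153, nat_lit 24657, nat_lit 33405, nat_lit 27573, nat_lit 29517, nat_lit 28869, nat_lit 28977, nat_lit 29085, nat_lit 29013, nat_lit 29037, nat_lit 29029, nat_lit 9349] (nat_lit 3) [] false,
   Spec.mk (nat_lit 29035) (nat_lit 0) [nat_lit 15913, nat_lit 42157, nat_lit 24661, nat_lit 33409, nat_lit 27577, nat_lit 29521, nat_lit 28873, nat_lit 28981, nat_lit 29089, nat_lit 29017, nat_lit 29053, nat_lit 29029, nat_lit 29037, nat_lit 48717, nat_lit 9353] (nat_lit 1) [] false,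
   Spec.mk (nat_lit 29037) (nat_lit 0) [nat_lit 15915, nat_lit 42159, nat_lit 24663, nat_lit 33411, nat_lit 27579, nat_lit 29523, nat_lit 28875, nat_lit 28983, nat_lit 29091, nat_lit 29019, nat_lit 29055, nat_lit 29031, nat_lit 29043, nat_lit 29035, nat_lit 9355] (nat_lit 1) [] false,
   Spec.mk (nat_lit 29043) (nat_lit 0) [nat_lit 15921, nat_lit 42165, nat_lit 24669, nat_lit 33417, nat_lit 27585, nat_lit 29529, nat_lit 28881, nat_lit 28989, nat_lit 29097, nat_lit 29061, nat_lit 29037, nat_lit 9361] (nat_lit 1) [] false,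
   Spec.mk (nat_lit 29053) (nat_lit 0) [nat_lit 15931, nat_lit 42175, nat_lit 24679, nat_lit 33427, nat_lit 27595, nat_lit 29539, nat_lit 28891, nat_lit 29107, nat_lit 29035, nat_lit 29055, nat_lit 48735, nat_lit 9371] (nat_lit 1) [] false,
   Spec.mk (nat_lit 29055) (nat_lit 0) [nat_lit 15933, nat_lit 42177, nat_lit 24681, nat_lit 33429, nat_lit 27597, nat_lit 29541, nat_lit 28893, nat_lit 29109, nat_lit 29037, nat_lit 29061, nat_lit 29053, nat_lit 9373] (nat_lit 2) [] false,
   Spec.mk (nat_lit 29061) (nat_lit 0) [nat_lit 15939, nat_lit 42183, nat_lit 24687, nat_lit 33435, nat_lit 27603, nat_lit 29547, nat_lit 28899, nat_lit 29115, nat_lit 29043, nat_lit 29055, nat_lit 9379] (nat_lit 0) [] false,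
   Spec.mk (nat_lit 29081) (nat_lit 0) [nat_lit 15959, nat_lit 42203, nat_lit 24707, nat_lit 33455, nat_lit 27623, nat_lit 29567, nat_lit 29027, nat_lit 29083, nat_lit 48763] (nat_lit 0) [] false,
   Spec.mk (nat_lit 29083) (nat_lit 0) [nat_lit 15961, nat_lit 42205, nat_lit 24709, nat_lit 33457, nat_lit 27625, nat_lit 29569, nat_lit 29029, nat_lit 29089, nat_lit 29081, nat_lit 29085, nat_lit 48765, nat_lit 9401] (nat_lit 0) [] false,
   Spec.mk (nat_lit 29085) (nat_lit 0) [nat_lit 15963, nat_lit 42207, nat_lit 24711, nat_lit 33459, nat_lit 27627, nat_lit 29571, nat_lit 29031, nat_lit 29091, nat_lit 29083, nat_lit 9403] (nat_lit 2) [] false,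
   Spec.mk (nat_lit 29089) (nat_lit 0) [nat_lit 15967, nat_lit 42211, nat_lit 24715, nat_lit 33463, nat_lit 27631, nat_lit 29575, nat_lit 29035, nat_lit 29107, nat_lit 29083, nat_lit 29091, nat_lit 48771, nat_lit 9407] (nat_lit 1) [] false,
   Spec.mk (nat_lit 29091) (nat_lit 0) [nat_lit 15969, nat_lit 42213, nat_lit 24717, nat_lit 33465, nat_lit 27633, nat_lit 29577, nat_lit 29037, nat_lit 29109, nat_lit 29085, nat_lit 29097, nat_lit 29089, nat_lit 9409] (nat_lit 1) [] false,
   Spec.mk (nat_lit 29097) (nat_lit 0) [nat_lit 15975, nat_lit 42219, nat_lit 24723, nat_lit 33471, nat_lit 27639, nat_lit 29583, nat_lit 29043, nat_lit 29115, nat_lit 29091, nat_lit 9415] (nat_lit 2) [] false,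
   Spec.mk (nat_lit 29107) (nat_lit 1) [nat_lit 15985, nat_lit 42229, nat_lit 24733, nat_lit 33481, nat_lit 27649, nat_lit 29593, nat_lit 29053, nat_lit 29089, nat_lit 29109, nat_lit 48789, nat_lit 9425] (nat_lit 0) [] false,
   Spec.mk (nat_lit 29109) (nat_lit 0) [nat_lit 15987, nat_lit 42231, nat_lit 24735, nat_lit 33483, nat_lit 27651, nat_lit 29595, nat_lit 29055, nat_lit 29091, nat_lit 29115, nat_lit 29107, nat_lit 9427] (nat_lit 0) [] false,
   Spec.mk (nat_lit 29115) (nat_lit 1) [nat_lit 15993, nat_lit 42237, nat_lit 24741, nat_lit 33489, nat_lit 27657, nat_lit 29601, nat_lit 29061, nat_lit 29097, nat_lit 29133, nat_lit 29109, nat_lit 9433] (nat_lit 0) [] false,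
   Spec.mk (nat_lit 29133) (nat_lit 2) [nat_lit 16011, nat_lit 42255, nat_lit 24759, nat_lit 33507, nat_lit 27675, nat_lit 29619, nat_lit 29115, nat_lit 9451] (nat_lit 0) [] false,
   Spec.mk (nat_lit 29177) (nat_lit 3) [nat_lit 16055, nat_lit 42299, nat_lit 24803, nat_lit 33551, nat_lit 27719, nat_lit 30635, nat_lit 28691, nat_lit 29195, nat_lit 29183, nat_lit 48859] (nat_lit 0) [] false,
   Spec.mk (nat_lit 29183) (nat_lit 1) [nat_lit 16061, nat_lit 42305, nat_lit 24809, nat_lit 33557, nat_lit 27725, nat_lit 30641, nat_lit 28697, nat_lit 29201, nat_lit 29177, nat_lit 29185, nat_lit 48865] (nat_lit 0) [] false,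
   Spec.mk (nat_lit 29185) (nat_lit 2) [nat_lit 16063, nat_lit 42307, nat_lit 24811, nat_lit 33559, nat_lit 27727, nat_lit 30643, nat_lit 28699, nat_lit 29203, nat_lit 29183, nat_lit 48867, nat_lit 9503] (nat_lit 0) [] false,
   Spec.mk (nat_lit 29195) (nat_lit 1) [nat_lit 16073, nat_lit 42317, nat_lit 24821, nat_lit 33569, nat_lit 27737, nat_lit 30653, nat_lit 28709, nat_lit 29249, nat_lit 29177, nat_lit 29201, nat_lit 48877] (nat_lit 0) [] false,
   Spec.mk (nat_lit 29201) (nat_lit 1) [nat_lit 16079, nat_lit 42323, nat_lit 24827, nat_lit 33575, nat_lit 27743, nat_lit 30659, nat_lit 28715, nat_lit 29255, nat_lit 29183, nat_lit 29219, nat_lit 29195, nat_lit 29207, nat_lit 29203, nat_lit 48883] (nat_lit 0) [] false,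
   Spec.mk (nat_lit 29203) (nat_lit 1) [nat_lit 16081, nat_lit 42325, nat_lit 24829, nat_lit 33577, nat_lit 27745, nat_lit 30661, nat_lit 28717, nat_lit 29257, nat_lit 29185, nat_lit 29221, nat_lit 29209, nat_lit 29201, nat_lit 48885, nat_lit 9521] (nat_lit 0) [] false,
   Spec.mk (nat_lit 29207) (nat_lit 0) [nat_lit 16085, nat_lit 42329, nat_lit 24833, nat_lit 33581, nat_lit 27749, nat_lit 30665, nat_lit 28721, nat_lit 29261, nat_lit 29225, nat_lit 29201, nat_lit 29209, nat_lit 48889] (nat_lit 1) [] false,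
   Spec.mk (nat_lit 29209) (nat_lit 1) [nat_lit 16087, nat_lit 42331, nat_lit 24835, nat_lit 33583, nat_lit 27751, nat_lit 30667, nat_lit 28723, nat_lit 29263, nat_lit 29227, nat_lit 29203, nat_lit 29207, nat_lit 29211, nat_lit 48891, nat_lit 9527] (nat_lit 0) [] false,
   Spec.mk (nat_lit 29211) (nat_lit 1) [nat_lit 16089, nat_lit 42333, nat_lit 24837, nat_lit 33585, nat_lit 27753, nat_lit 30669, nat_lit 28725, nat_lit 29265, nat_lit 29229, nat_lit 29209, nat_lit 9529] (nat_lit 0) [] false,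
   Spec.mk (nat_lit 29219) (nat_lit 0) [nat_lit 16097, nat_lit 42341, nat_lit 24845, nat_lit 33593, nat_lit 27761, nat_lit 30677, nat_lit 28733, nat_lit 29273, nat_lit 29201, nat_lit 29225, nat_lit 29221, nat_lit 48901] (nat_lit 1) [] false,
   Spec.mk (nat_lit 29221) (nat_lit 0) [nat_lit 16099, nat_lit 42343, nat_lit 24847, nat_lit 33595, nat_lit 27763, nat_lit 30679, nat_lit 28735, nat_lit 29275, nat_lit 29203, nat_lit 29227, nat_lit 29219, nat_lit 48903, nat_lit 9539] (nat_lit 2) [] false,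
   Spec.mk (nat_lit 29225) (nat_lit 0) [nat_lit 16103, nat_lit 42347, nat_lit 24851, nat_lit 33599, nat_lit 27767, nat_lit 30683, nat_lit 28739, nat_lit 29279, nat_lit 29207, nat_lit 29219, nat_lit 29227, nat_lit 48907] (nat_lit 1) [] false,
   Spec.mk (nat_lit 29227) (nat_lit 0) [nat_lit 16105, nat_lit 42349, nat_lit 24853, nat_lit 33601, nat_lit 27769, nat_lit 30685, nat_lit 28741, nat_lit 29281, nat_lit 29209, nat_lit 29221, nat_lit 29233, nat_lit 29225, nat_lit 29229, nat_lit 48909, nat_lit 9545] (nat_lit 0) [] false,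
   Spec.mk (nat_lit 29229) (nat_lit 0) [nat_lit 16107, nat_lit 42351, nat_lit 24855, nat_lit 33603, nat_lit 27771, nat_lit 30687, nat_lit 28743, nat_lit 29283, nat_lit 29211, nat_lit 29235, nat_lit 29227, nat_lit 9547] (nat_lit 1) [] false,
   Spec.mk (nat_lit 29233) (nat_lit 0) [nat_lit 16111, nat_lit 42355, nat_lit 24859, nat_lit 33607, nat_lit 27775, nat_lit 30691, nat_lit 28747, nat_lit 29287, nat_lit 29227, nat_lit 29235, nat_lit 48915, nat_lit 9551] (nat_lit 0) [] false,
   Spec.mk (nat_lit 29235) (nat_lit 1) [nat_lit 16113, nat_lit 42357, nat_lit 24861, nat_lit 33609, nat_lit 27777, nat_lit 30693, nat_lit 28749, nat_lit 29289, nat_lit 29229, nat_lit 29233, nat_lit 9553] (nat_lit 0) [] false,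
   Spec.mk (nat_lit 29249) (nat_lit 1) [nat_lit 16127, nat_lit 42371, nat_lit 24875, nat_lit 33623, nat_lit 27791, nat_lit 30707, nat_lit 28763, nat_lit 29411, nat_lit 29195, nat_lit 29255, nat_lit 48931] (nat_lit 0) [] false,
   Spec.mk (nat_lit 29255) (nat_lit 0) [nat_lit 16133, nat_lit 42377, nat_lit 24881, nat_lit 33629, nat_lit 27797, nat_lit 30713, nat_lit 28769, nat_lit 29417, nat_lit 29201, nat_lit 29273, nat_lit 29249, nat_lit 29261, nat_lit 29257, nat_lit 48937] (nat_lit 0) [] false,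
   Spec.mk (nat_lit 29257) (nat_lit 0) [nat_lit 16135, nat_lit 42379, nat_lit 24883, nat_lit 33631, nat_lit 27799, nat_lit 30715, nat_lit 28771, nat_lit 29419, nat_lit 29203, nat_lit 29275, nat_lit 29263, nat_lit 29255, nat_lit 48939, nat_lit 9575] (nat_lit 0) [] false,
   Spec.mk (nat_lit 29261) (nat_lit 0) [nat_lit 16139, nat_lit 42383, nat_lit 24887, nat_lit 33635, nat_lit 27803, nat_lit 30719, nat_lit 28775, nat_lit 29423, nat_lit 29207, nat_lit 29279, nat_lit 29255, nat_lit 29263, nat_lit 48943] (nat_lit 3) [] false]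

noncomputable def sp80 : List Spec :=
  [Spec.mk (nat_lit 29263) (nat_lit 0) [nat_lit 16141, nat_lit 42385, nat_lit 24889, nat_lit 33637, nat_lit 27805, nat_lit 30721, nat_lit 28777, nat_lit 29425, nat_lit 29209, nat_lit 29281, nat_lit 29257, nat_lit 29261, nat_lit 29265, nat_lit 48945, nat_lit 9581] (nat_lit 1) [] false,
   Spec.mk (nat_lit 29265) (nat_lit 0) [nat_lit 16143, nat_lit 42387, nat_lit 24891, nat_lit 33639, nat_lit 27807, nat_lit 30723, nat_lit 28779, nat_lit 29427, nat_lit 29211, nat_lit 29283, nat_lit 29263, nat_lit 9583] (nat_lit 1) [] false,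
   Spec.mk (nat_lit 29273) (nat_lit 0) [nat_lit 16151, nat_lit 42395, nat_lit 24899, nat_lit 33647, nat_lit 27815, nat_lit 30731, nat_lit 28787, nat_lit 29435, nat_lit 29219, nat_lit 29327, nat_lit 29255, nat_lit 29279, nat_lit 29275, nat_lit 48955] (nat_lit 0) [] false,
   Spec.mk (nat_lit 29275) (nat_lit 0) [nat_lit 16153, nat_lit 42397, nat_lit 24901, nat_lit 33649, nat_lit 27817, nat_lit 30733, nat_lit 28789, nat_lit 29437, nat_lit 29221, nat_lit 29329, nat_lit 29257, nat_lit 29281, nat_lit 29273, nat_lit 48957, nat_lit 9593] (nat_lit 1) [] false,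
   Spec.mk (nat_lit 29279) (nat_lit 0) [nat_lit 16157, nat_lit 42401, nat_lit 24905, nat_lit 33653, nat_lit 27821, nat_lit 30737, nat_lit 28793, nat_lit 29441, nat_lit 29225, nat_lit 29333, nat_lit 29261, nat_lit 29297, nat_lit 29273, nat_lit 29281, nat_lit 48961] (nat_lit 1) [] false,
   Spec.mk (nat_lit 29281) (nat_lit 0) [nat_lit 16159, nat_lit 42403, nat_lit 24907, nat_lit 33655, nat_lit 27823, nat_lit 30739, nat_lit 28795, nat_lit 29443, nat_lit 29227, nat_lit 29335, nat_lit 29263, nat_lit 29299, nat_lit 29275, nat_lit 29287, nat_lit 29279, nat_lit 29283, nat_lit 48963, nat_lit 9599] (nat_lit 0) [] false,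
   Spec.mk (nat_lit 29283) (nat_lit 0) [nat_lit 16161, nat_lit 42405, nat_lit 24909, nat_lit 33657, nat_lit 27825, nat_lit 30741, nat_lit 28797, nat_lit 29445, nat_lit 29229, nat_lit 29337, nat_lit 29265, nat_lit 29301, nat_lit 29289, nat_lit 29281, nat_lit 9601] (nat_lit 1) [] false,
   Spec.mk (nat_lit 29287) (nat_lit 0) [nat_lit 16165, nat_lit 42409, nat_lit 24913, nat_lit 33661, nat_lit 27829, nat_lit 30745, nat_lit 28801, nat_lit 29449, nat_lit 29233, nat_lit 29341, nat_lit 29305, nat_lit 29281, nat_lit 29289, nat_lit 48969, nat_lit 9605] (nat_lit 1) [] false,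
   Spec.mk (nat_lit 29289) (nat_lit 0) [nat_lit 16167, nat_lit 42411, nat_lit 24915, nat_lit 33663, nat_lit 27831, nat_lit 30747, nat_lit 28803, nat_lit 29451, nat_lit 29235, nat_lit 29343, nat_lit 29307, nat_lit 29283, nat_lit 29287, nat_lit 9607] (nat_lit 0) [] false,
   Spec.mk (nat_lit 29297) (nat_lit 0) [nat_lit 16175, nat_lit 42419, nat_lit 24923, nat_lit 33671, nat_lit 27839, nat_lit 30755, nat_lit 28811, nat_lit 29459, nat_lit 29351, nat_lit 29279, nat_lit 29299, nat_lit 48979] (nat_lit 1) [] false,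
   Spec.mk (nat_lit 29299) (nat_lit 0) [nat_lit 16177, nat_lit 42421, nat_lit 24925, nat_lit 33673, nat_lit 27841, nat_lit 30757, nat_lit 28813, nat_lit 29461, nat_lit 29353, nat_lit 29281, nat_lit 29305, nat_lit 29297, nat_lit 29301, nat_lit 48981, nat_lit 9617] (nat_lit 1) [] false,
   Spec.mk (nat_lit 29301) (nat_lit 0) [nat_lit 16179, nat_lit 42423, nat_lit 24927, nat_lit 33675, nat_lit 27843, nat_lit 30759, nat_lit 28815, nat_lit 29463, nat_lit 29355, nat_lit 29283, nat_lit 29307, nat_lit 29299, nat_lit 9619] (nat_lit 3) [] false,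
   Spec.mk (nat_lit 29305) (nat_lit 0) [nat_lit 16183, nat_lit 42427, nat_lit 24931, nat_lit 33679, nat_lit 27847, nat_lit 30763, nat_lit 28819, nat_lit 29467, nat_lit 29359, nat_lit 29287, nat_lit 29299, nat_lit 29307, nat_lit 48987, nat_lit 9623] (nat_lit 0) [] false,
   Spec.mk (nat_lit 29307) (nat_lit 0) [nat_lit 16185, nat_lit 42429, nat_lit 24933, nat_lit 33681, nat_lit 27849, nat_lit 30765, nat_lit 28821, nat_lit 29469, nat_lit 29361, nat_lit 29289, nat_lit 29301, nat_lit 29313, nat_lit 29305, nat_lit 9625] (nat_lit 0) [] false,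
   Spec.mk (nat_lit 29313) (nat_lit 1) [nat_lit 16191, nat_lit 42435, nat_lit 24939, nat_lit 33687, nat_lit 27855, nat_lit 30771, nat_lit 28827, nat_lit 29475, nat_lit 29367, nat_lit 29307, nat_lit 9631] (nat_lit 0) [] false,
   Spec.mk (nat_lit 29327) (nat_lit 0) [nat_lit 16205, nat_lit 42449, nat_lit 24953, nat_lit 33701, nat_lit 27869, nat_lit 30785, nat_lit 28841, nat_lit 29489, nat_lit 29273, nat_lit 29333, nat_lit 29329, nat_lit 49009] (nat_lit 1) [] false,
   Spec.mk (nat_lit 29329) (nat_lit 0) [nat_lit 16207, nat_lit 42451, nat_lit 24955, nat_lit 33703, nat_lit 27871, nat_lit 30787, nat_lit 28843, nat_lit 29491, nat_lit 29275, nat_lit 29335, nat_lit 29327, nat_lit 49011, nat_lit 9647] (nat_lit 2) [] false,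
   Spec.mk (nat_lit 29333) (nat_lit 0) [nat_lit 16211, nat_lit 42455, nat_lit 24959, nat_lit 33707, nat_lit 27875, nat_lit 30791, nat_lit 28847, nat_lit 29495, nat_lit 29279, nat_lit 29351, nat_lit 29327, nat_lit 29335, nat_lit 49015] (nat_lit 3) [] false,
   Spec.mk (nat_lit 29335) (nat_lit 0) [nat_lit 16213, nat_lit 42457, nat_lit 24961, nat_lit 33709, nat_lit 27877, nat_lit 30793, nat_lit 28849, nat_lit 29497, nat_lit 29281, nat_lit 29353, nat_lit 29329, nat_lit 29341, nat_lit 29333, nat_lit 29337, nat_lit 49017, nat_lit 9653] (nat_lit 2) [] false,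
   Spec.mk (nat_lit 29337) (nat_lit 0) [nat_lit 16215, nat_lit 42459, nat_lit 24963, nat_lit 33711, nat_lit 27879, nat_lit 30795, nat_lit 28851, nat_lit 29499, nat_lit 29283, nat_lit 29355, nat_lit 29343, nat_lit 29335, nat_lit 9655] (nat_lit 3) [] false,
   Spec.mk (nat_lit 29341) (nat_lit 0) [nat_lit 16219, nat_lit 42463, nat_lit 24967, nat_lit 33715, nat_lit 27883, nat_lit 30799, nat_lit 28855, nat_lit 29503, nat_lit 29287, nat_lit 29359, nat_lit 29335, nat_lit 29343, nat_lit 49023, nat_lit 9659] (nat_lit 4) [] false,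
   Spec.mk (nat_lit 29343) (nat_lit 0) [nat_lit 16221, nat_lit 42465, nat_lit 24969, nat_lit 33717, nat_lit 27885, nat_lit 30801, nat_lit 28857, nat_lit 29505, nat_lit 29289, nat_lit 29361, nat_lit 29337, nat_lit 29341, nat_lit 9661] (nat_lit 3) [] false,
   Spec.mk (nat_lit 29351) (nat_lit 0) [nat_lit 16229, nat_lit 42473, nat_lit 24977, nat_lit 33725, nat_lit 27893, nat_lit 30809, nat_lit 28865, nat_lit 29513, nat_lit 29297, nat_lit 29333, nat_lit 29353, nat_lit 49033] (nat_lit 1) [] false,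
   Spec.mk (nat_lit 29353) (nat_lit 0) [nat_lit 16231, nat_lit 42475, nat_lit 24979, nat_lit 33727, nat_lit 27895, nat_lit 30811, nat_lit 28867, nat_lit 29515, nat_lit 29299, nat_lit 29335, nat_lit 29359, nat_lit 29351, nat_lit 29355, nat_lit 49035, nat_lit 9671] (nat_lit 1) [] false,
   Spec.mk (nat_lit 29355) (nat_lit 0) [nat_lit 16233, nat_lit 42477, nat_lit 24981, nat_lit 33729, nat_lit 27897, nat_lit 30813, nat_lit 28869, nat_lit 29517, nat_lit 29301, nat_lit 29337, nat_lit 29361, nat_lit 29353, nat_lit 9673] (nat_lit 3) [] false,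
   Spec.mk (nat_lit 29359) (nat_lit 0) [nat_lit 16237, nat_lit 42481, nat_lit 24985, nat_lit 33733, nat_lit 27901, nat_lit 30817, nat_lit 28873, nat_lit 29521, nat_lit 29305, nat_lit 29341, nat_lit 29377, nat_lit 29353, nat_lit 29361, nat_lit 49041, nat_lit 9677] (nat_lit 1) [] false,
   Spec.mk (nat_lit 29361) (nat_lit 0) [nat_lit 16239, nat_lit 42483, nat_lit 24987, nat_lit 33735, nat_lit 27903, nat_lit 30819, nat_lit 28875, nat_lit 29523, nat_lit 29307, nat_lit 29343, nat_lit 29379, nat_lit 29355, nat_lit 29367, nat_lit 29359, nat_lit 9679] (nat_lit 1) [] false,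
   Spec.mk (nat_lit 29367) (nat_lit 0) [nat_lit 16245, nat_lit 42489, nat_lit 24993, nat_lit 33741, nat_lit 27909, nat_lit 30825, nat_lit 28881, nat_lit 29529, nat_lit 29313, nat_lit 29385, nat_lit 29361, nat_lit 9685] (nat_lit 1) [] false,
   Spec.mk (nat_lit 29377) (nat_lit 0) [nat_lit 16255, nat_lit 42499, nat_lit 25003, nat_lit 33751, nat_lit 27919, nat_lit 30835, nat_lit 28891, nat_lit 29539, nat_lit 29359, nat_lit 29379, nat_lit 49059, nat_lit 9695] (nat_lit 0) [] false,
   Spec.mk (nat_lit 29379) (nat_lit 0) [nat_lit 16257, nat_lit 42501, nat_lit 25005, nat_lit 33753, nat_lit 27921, nat_lit 30837, nat_lit 28893, nat_lit 29541, nat_lit 29361, nat_lit 29385, nat_lit 29377, nat_lit 9697] (nat_lit 1) [] false,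
   Spec.mk (nat_lit 29385) (nat_lit 1) [nat_lit 16263, nat_lit 42507, nat_lit 25011, nat_lit 33759, nat_lit 27927, nat_lit 30843, nat_lit 28899, nat_lit 29547, nat_lit 29367, nat_lit 29379, nat_lit 9703] (nat_lit 0) [] false,
   Spec.mk (nat_lit 29411) (nat_lit 2) [nat_lit 16289, nat_lit 42533, nat_lit 25037, nat_lit 33785, nat_lit 27953, nat_lit 30869, nat_lit 28925, nat_lit 29897, nat_lit 29249, nat_lit 29417, nat_lit 49093] (nat_lit 0) [] false,
   Spec.mk (nat_lit 29417) (nat_lit 1) [nat_lit 16295, nat_lit 42539, nat_lit 25043, nat_lit 33791, nat_lit 27959, nat_lit 30875, nat_lit 28931, nat_lit 29903, nat_lit 29255, nat_lit 29435, nat_lit 29411, nat_lit 29423, nat_lit 29419, nat_lit 49099] (nat_lit 0) [] false,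
   Spec.mk (nat_lit 29419) (nat_lit 1) [nat_lit 16297, nat_lit 42541, nat_lit 25045, nat_lit 33793, nat_lit 27961, nat_lit 30877, nat_lit 28933, nat_lit 29905, nat_lit 29257, nat_lit 29437, nat_lit 29425, nat_lit 29417, nat_lit 49101, nat_lit 9737] (nat_lit 0) [] false,
   Spec.mk (nat_lit 29423) (nat_lit 0) [nat_lit 16301, nat_lit 42545, nat_lit 25049, nat_lit 33797, nat_lit 27965, nat_lit 30881, nat_lit 28937, nat_lit 29909, nat_lit 29261, nat_lit 29441, nat_lit 29417, nat_lit 29425, nat_lit 49105] (nat_lit 2) [] false,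
   Spec.mk (nat_lit 29425) (nat_lit 0) [nat_lit 16303, nat_lit 42547, nat_lit 25051, nat_lit 33799, nat_lit 27967, nat_lit 30883, nat_lit 28939, nat_lit 29911, nat_lit 29263, nat_lit 29443, nat_lit 29419, nat_lit 29423, nat_lit 29427, nat_lit 49107, nat_lit 9743] (nat_lit 0) [] false,
   Spec.mk (nat_lit 29427) (nat_lit 0) [nat_lit 16305, nat_lit 42549, nat_lit 25053, nat_lit 33801, nat_lit 27969, nat_lit 30885, nat_lit 28941, nat_lit 29913, nat_lit 29265, nat_lit 29445, nat_lit 29425, nat_lit 9745] (nat_lit 0) [] false,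
   Spec.mk (nat_lit 29435) (nat_lit 0) [nat_lit 16313, nat_lit 42557, nat_lit 25061, nat_lit 33809, nat_lit 27977, nat_lit 30893, nat_lit 28949, nat_lit 29921, nat_lit 29273, nat_lit 29489, nat_lit 29417, nat_lit 29441, nat_lit 29437, nat_lit 49117] (nat_lit 0) [] false,
   Spec.mk (nat_lit 29437) (nat_lit 0) [nat_lit 16315, nat_lit 42559, nat_lit 25063, nat_lit 33811, nat_lit 27979, nat_lit 30895, nat_lit 28951, nat_lit 29923, nat_lit 29275, nat_lit 29491, nat_lit 29419, nat_lit 29443, nat_lit 29435, nat_lit 49119, nat_lit 9755] (nat_lit 1) [] false,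
   Spec.mk (nat_lit 29441) (nat_lit 0) [nat_lit 16319, nat_lit 42563, nat_lit 25067, nat_lit 33815, nat_lit 27983, nat_lit 30899, nat_lit 28955, nat_lit 29927, nat_lit 29279, nat_lit 29495, nat_lit 29423, nat_lit 29459, nat_lit 29435, nat_lit 29443, nat_lit 49123] (nat_lit 1) [] false,
   Spec.mk (nat_lit 29443) (nat_lit 0) [nat_lit 16321, nat_lit 42565, nat_lit 25069, nat_lit 33817, nat_lit 27985, nat_lit 30901, nat_lit 28957, nat_lit 29929, nat_lit 29281, nat_lit 29497, nat_lit 29425, nat_lit 29461, nat_lit 29437, nat_lit 29449, nat_lit 29441, nat_lit 29445, nat_lit 49125, nat_lit 9761] (nat_lit 0) [] false,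
   Spec.mk (nat_lit 29445) (nat_lit 0) [nat_lit 16323, nat_lit 42567, nat_lit 25071, nat_lit 33819, nat_lit 27987, nat_lit 30903, nat_lit 28959, nat_lit 29931, nat_lit 29283, nat_lit 29499, nat_lit 29427, nat_lit 29463, nat_lit 29451, nat_lit 29443, nat_lit 9763] (nat_lit 1) [] false,
   Spec.mk (nat_lit 29449) (nat_lit 0) [nat_lit 16327, nat_lit 42571, nat_lit 25075, nat_lit 33823, nat_lit 27991, nat_lit 30907, nat_lit 28963, nat_lit 29935, nat_lit 29287, nat_lit 29503, nat_lit 29467, nat_lit 29443, nat_lit 29451, nat_lit 49131, nat_lit 9767] (nat_lit 1) [] false,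
   Spec.mk (nat_lit 29451) (nat_lit 0) [nat_lit 16329, nat_lit 42573, nat_lit 25077, nat_lit 33825, nat_lit 27993, nat_lit 30909, nat_lit 28965, nat_lit 29937, nat_lit 29289, nat_lit 29505, nat_lit 29469, nat_lit 29445, nat_lit 29449, nat_lit 9769] (nat_lit 0) [] false,
   Spec.mk (nat_lit 29459) (nat_lit 0) [nat_lit 16337, nat_lit 42581, nat_lit 25085, nat_lit 33833, nat_lit 28001, nat_lit 30917, nat_lit 28973, nat_lit 29945, nat_lit 29297, nat_lit 29513, nat_lit 29441, nat_lit 29461, nat_lit 49141] (nat_lit 2) [] false,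
   Spec.mk (nat_lit 29461) (nat_lit 0) [nat_lit 16339, nat_lit 42583, nat_lit 25087, nat_lit 33835, nat_lit 28003, nat_lit 30919, nat_lit 28975, nat_lit 29947, nat_lit 29299, nat_lit 29515, nat_lit 29443, nat_lit 29467, nat_lit 29459, nat_lit 29463, nat_lit 49143, nat_lit 9779] (nat_lit 2) [] false,
   Spec.mk (nat_lit 29463) (nat_lit 0) [nat_lit 16341, nat_lit 42585, nat_lit 25089, nat_lit 33837, nat_lit 28005, nat_lit 30921, nat_lit 28977, nat_lit 29949, nat_lit 29301, nat_lit 29517, nat_lit 29445, nat_lit 29469, nat_lit 29461, nat_lit 9781] (nat_lit 4) [] false,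
   Spec.mk (nat_lit 29467) (nat_lit 0) [nat_lit 16345, nat_lit 42589, nat_lit 25093, nat_lit 33841, nat_lit 28009, nat_lit 30925, nat_lit 28981, nat_lit 29953, nat_lit 29305, nat_lit 29521, nat_lit 29449, nat_lit 29461, nat_lit 29469, nat_lit 49149, nat_lit 9785] (nat_lit 1) [] false,
   Spec.mk (nat_lit 29469) (nat_lit 0) [nat_lit 16347, nat_lit 42591, nat_lit 25095, nat_lit 33843, nat_lit 28011, nat_lit 30927, nat_lit 28983, nat_lit 29955, nat_lit 29307, nat_lit 29523, nat_lit 29451, nat_lit 29463, nat_lit 29475, nat_lit 29467, nat_lit 9787] (nat_lit 1) [] false,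
   Spec.mk (nat_lit 29475) (nat_lit 0) [nat_lit 16353, nat_lit 42597, nat_lit 25101, nat_lit 33849, nat_lit 28017, nat_lit 30933, nat_lit 28989, nat_lit 29961, nat_lit 29313, nat_lit 29529, nat_lit 29469, nat_lit 9793] (nat_lit 0) [] false,
   Spec.mk (nat_lit 29489) (nat_lit 1) [nat_lit 16367, nat_lit 42611, nat_lit 25115, nat_lit 33863, nat_lit 28031, nat_lit 30947, nat_lit 29003, nat_lit 29975, nat_lit 29327, nat_lit 29651, nat_lit 29435, nat_lit 29495, nat_lit 29491, nat_lit 49171] (nat_lit 0) [] false,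
   Spec.mk (nat_lit 29491) (nat_lit 0) [nat_lit 16369, nat_lit 42613, nat_lit 25117, nat_lit 33865, nat_lit 28033, nat_lit 30949, nat_lit 29005, nat_lit 29977, nat_lit 29329, nat_lit 29653, nat_lit 29437, nat_lit 29497, nat_lit 29489, nat_lit 49173, nat_lit 9809] (nat_lit 0) [] false,
   Spec.mk (nat_lit 29495) (nat_lit 0) [nat_lit 16373, nat_lit 42617, nat_lit 25121, nat_lit 33869, nat_lit 28037, nat_lit 30953, nat_lit 29009, nat_lit 29981, nat_lit 29333, nat_lit 29657, nat_lit 29441, nat_lit 29513, nat_lit 29489, nat_lit 29497, nat_lit 49177] (nat_lit 1) [] false,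
   Spec.mk (nat_lit 29497) (nat_lit 0) [nat_lit 16375, nat_lit 42619, nat_lit 25123, nat_lit 33871, nat_lit 28039, nat_lit 30955, nat_lit 29011, nat_lit 29983, nat_lit 29335, nat_lit 29659, nat_lit 29443, nat_lit 29515, nat_lit 29491, nat_lit 29503, nat_lit 29495, nat_lit 29499, nat_lit 49179, nat_lit 9815] (nat_lit 0) [] false,
   Spec.mk (nat_lit 29499) (nat_lit 0) [nat_lit 16377, nat_lit 42621, nat_lit 25125, nat_lit 33873, nat_lit 28041, nat_lit 30957, nat_lit 29013, nat_lit 29985, nat_lit 29337, nat_lit 29661, nat_lit 29445, nat_lit 29517, nat_lit 29505, nat_lit 29497, nat_lit 9817] (nat_lit 1) [] false,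
   Spec.mk (nat_lit 29503) (nat_lit 0) [nat_lit 16381, nat_lit 42625, nat_lit 25129, nat_lit 33877, nat_lit 28045, nat_lit 30961, nat_lit 29017, nat_lit 29989, nat_lit 29341, nat_lit 29665, nat_lit 29449, nat_lit 29521, nat_lit 29497, nat_lit 29505, nat_lit 49185, nat_lit 9821] (nat_lit 2) [] false,
   Spec.mk (nat_lit 29505) (nat_lit 0) [nat_lit 16383, nat_lit 42627, nat_lit 25131, nat_lit 33879, nat_lit 28047, nat_lit 30963, nat_lit 29019, nat_lit 29991, nat_lit 29343, nat_lit 29667, nat_lit 29451, nat_lit 29523, nat_lit 29499, nat_lit 29503, nat_lit 9823] (nat_lit 1) [] false,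
   Spec.mk (nat_lit 29513) (nat_lit 0) [nat_lit 16391, nat_lit 42635, nat_lit 25139, nat_lit 33887, nat_lit 28055, nat_lit 30971, nat_lit 29027, nat_lit 29999, nat_lit 29351, nat_lit 29675, nat_lit 29459, nat_lit 29567, nat_lit 29495, nat_lit 29515, nat_lit 49195] (nat_lit 0) [] false,
   Spec.mk (nat_lit 29515) (nat_lit 0) [nat_lit 16393, nat_lit 42637, nat_lit 25141, nat_lit 33889, nat_lit 28057, nat_lit 30973, nat_lit 29029, nat_lit 30001, nat_lit 29353, nat_lit 29677, nat_lit 29461, nat_lit 29569, nat_lit 29497, nat_lit 29521, nat_lit 29513, nat_lit 29517, nat_lit 49197, nat_lit 9833] (nat_lit 0) [] false,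
   Spec.mk (nat_lit 29517) (nat_lit 0) [nat_lit 16395, nat_lit 42639, nat_lit 25143, nat_lit 33891, nat_lit 28059, nat_lit 30975, nat_lit 29031, nat_lit 30003, nat_lit 29355, nat_lit 29679, nat_lit 29463, nat_lit 29571, nat_lit 29499, nat_lit 29523, nat_lit 29515, nat_lit 9835] (nat_lit 2) [] false]

noncomputable def sp81 : List Spec :=
  [Spec.mk (nat_lit 29521) (nat_lit 0) [nat_lit 16399, nat_lit 42643, nat_lit 25147, nat_lit 33895, nat_lit 28063, nat_lit 30979, nat_lit 29035, nat_lit 30007, nat_lit 29359, nat_lit 29683, nat_lit 29467, nat_lit 29575, nat_lit 29503, nat_lit 29539, nat_lit 29515, nat_lit 29523, nat_lit 49203, nat_lit 9839] (nat_lit 0) [] false,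
   Spec.mk (nat_lit 29523) (nat_lit 0) [nat_lit 16401, nat_lit 42645, nat_lit 25149, nat_lit 33897, nat_lit 28065, nat_lit 30981, nat_lit 29037, nat_lit 30009, nat_lit 29361, nat_lit 29685, nat_lit 29469, nat_lit 29577, nat_lit 29505, nat_lit 29541, nat_lit 29517, nat_lit 29529, nat_lit 29521, nat_lit 9841] (nat_lit 0) [] false,
   Spec.mk (nat_lit 29529) (nat_lit 0) [nat_lit 16407, nat_lit 42651, nat_lit 25155, nat_lit 33903, nat_lit 28071, nat_lit 30987, nat_lit 29043, nat_lit 30015, nat_lit 29367, nat_lit 29691, nat_lit 29475, nat_lit 29583, nat_lit 29547, nat_lit 29523, nat_lit 9847] (nat_lit 0) [] false,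
   Spec.mk (nat_lit 29539) (nat_lit 0) [nat_lit 16417, nat_lit 42661, nat_lit 25165, nat_lit 33913, nat_lit 28081, nat_lit 30997, nat_lit 29053, nat_lit 30025, nat_lit 29377, nat_lit 29701, nat_lit 29593, nat_lit 29521, nat_lit 29541, nat_lit 49221, nat_lit 9857] (nat_lit 0) [] false,
   Spec.mk (nat_lit 29541) (nat_lit 0) [nat_lit 16419, nat_lit 42663, nat_lit 25167, nat_lit 33915, nat_lit 28083, nat_lit 30999, nat_lit 29055, nat_lit 30027, nat_lit 29379, nat_lit 29703, nat_lit 29595, nat_lit 29523, nat_lit 29547, nat_lit 29539, nat_lit 9859] (nat_lit 1) [] false,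
   Spec.mk (nat_lit 29547) (nat_lit 1) [nat_lit 16425, nat_lit 42669, nat_lit 25173, nat_lit 33921, nat_lit 28089, nat_lit 31005, nat_lit 29061, nat_lit 30033, nat_lit 29385, nat_lit 29709, nat_lit 29601, nat_lit 29529, nat_lit 29541, nat_lit 9865] (nat_lit 0) [] false,
   Spec.mk (nat_lit 29567) (nat_lit 0) [nat_lit 16445, nat_lit 42689, nat_lit 25193, nat_lit 33941, nat_lit 28109, nat_lit 31025, nat_lit 29081, nat_lit 30053, nat_lit 29729, nat_lit 29513, nat_lit 29569, nat_lit 49249] (nat_lit 0) [] false,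
   Spec.mk (nat_lit 29569) (nat_lit 0) [nat_lit 16447, nat_lit 42691, nat_lit 25195, nat_lit 33943, nat_lit 28111, nat_lit 31027, nat_lit 29083, nat_lit 30055, nat_lit 29731, nat_lit 29515, nat_lit 29575, nat_lit 29567, nat_lit 29571, nat_lit 49251, nat_lit 9887] (nat_lit 0) [] false,
   Spec.mk (nat_lit 29571) (nat_lit 0) [nat_lit 16449, nat_lit 42693, nat_lit 25197, nat_lit 33945, nat_lit 28113, nat_lit 31029, nat_lit 29085, nat_lit 30057, nat_lit 29733, nat_lit 29517, nat_lit 29577, nat_lit 29569, nat_lit 9889] (nat_lit 2) [] false,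
   Spec.mk (nat_lit 29575) (nat_lit 0) [nat_lit 16453, nat_lit 42697, nat_lit 25201, nat_lit 33949, nat_lit 28117, nat_lit 31033, nat_lit 29089, nat_lit 30061, nat_lit 29737, nat_lit 29521, nat_lit 29593, nat_lit 29569, nat_lit 29577, nat_lit 49257, nat_lit 9893] (nat_lit 1) [] false,
   Spec.mk (nat_lit 29577) (nat_lit 0) [nat_lit 16455, nat_lit 42699, nat_lit 25203, nat_lit 33951, nat_lit 28119, nat_lit 31035, nat_lit 29091, nat_lit 30063, nat_lit 29739, nat_lit 29523, nat_lit 29595, nat_lit 29571, nat_lit 29583, nat_lit 29575, nat_lit 9895] (nat_lit 1) [] false,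
   Spec.mk (nat_lit 29583) (nat_lit 0) [nat_lit 16461, nat_lit 42705, nat_lit 25209, nat_lit 33957, nat_lit 28125, nat_lit 31041, nat_lit 29097, nat_lit 30069, nat_lit 29745, nat_lit 29529, nat_lit 29601, nat_lit 29577, nat_lit 9901] (nat_lit 2) [] false,
   Spec.mk (nat_lit 29593) (nat_lit 1) [nat_lit 16471, nat_lit 42715, nat_lit 25219, nat_lit 33967, nat_lit 28135, nat_lit 31051, nat_lit 29107, nat_lit 30079, nat_lit 29755, nat_lit 29539, nat_lit 29575, nat_lit 29595, nat_lit 49275, nat_lit 9911] (nat_lit 0) [] false,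
   Spec.mk (nat_lit 29595) (nat_lit 0) [nat_lit 16473, nat_lit 42717, nat_lit 25221, nat_lit 33969, nat_lit 28137, nat_lit 31053, nat_lit 29109, nat_lit 30081, nat_lit 29757, nat_lit 29541, nat_lit 29577, nat_lit 29601, nat_lit 29593, nat_lit 9913] (nat_lit 0) [] false,
   Spec.mk (nat_lit 29601) (nat_lit 1) [nat_lit 16479, nat_lit 42723, nat_lit 25227, nat_lit 33975, nat_lit 28143, nat_lit 31059, nat_lit 29115, nat_lit 30087, nat_lit 29763, nat_lit 29547, nat_lit 29583, nat_lit 29619, nat_lit 29595, nat_lit 9919] (nat_lit 0) [] false,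
   Spec.mk (nat_lit 29619) (nat_lit 2) [nat_lit 16497, nat_lit 42741, nat_lit 25245, nat_lit 33993, nat_lit 28161, nat_lit 31077, nat_lit 29133, nat_lit 30105, nat_lit 29781, nat_lit 29601, nat_lit 9937] (nat_lit 0) [] false,
   Spec.mk (nat_lit 29651) (nat_lit 1) [nat_lit 16529, nat_lit 42773, nat_lit 25277, nat_lit 34025, nat_lit 28193, nat_lit 31109, nat_lit 30137, nat_lit 29489, nat_lit 29657, nat_lit 29653, nat_lit 49333] (nat_lit 0) [] false,
   Spec.mk (nat_lit 29653) (nat_lit 0) [nat_lit 16531, nat_lit 42775, nat_lit 25279, nat_lit 34027, nat_lit 28195, nat_lit 31111, nat_lit 30139, nat_lit 29491, nat_lit 29659, nat_lit 29651, nat_lit 49335, nat_lit 9971] (nat_lit 0) [] false,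
   Spec.mk (nat_lit 29657) (nat_lit 0) [nat_lit 16535, nat_lit 42779, nat_lit 25283, nat_lit 34031, nat_lit 28199, nat_lit 31115, nat_lit 30143, nat_lit 29495, nat_lit 29675, nat_lit 29651, nat_lit 29659, nat_lit 49339] (nat_lit 1) [] false,
   Spec.mk (nat_lit 29659) (nat_lit 0) [nat_lit 16537, nat_lit 42781, nat_lit 25285, nat_lit 34033, nat_lit 28201, nat_lit 31117, nat_lit 30145, nat_lit 29497, nat_lit 29677, nat_lit 29653, nat_lit 29665, nat_lit 29657, nat_lit 29661, nat_lit 49341, nat_lit 9977] (nat_lit 0) [] false,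
   Spec.mk (nat_lit 29661) (nat_lit 0) [nat_lit 16539, nat_lit 42783, nat_lit 25287, nat_lit 34035, nat_lit 28203, nat_lit 31119, nat_lit 30147, nat_lit 29499, nat_lit 29679, nat_lit 29667, nat_lit 29659, nat_lit 9979] (nat_lit 1) [] false,
   Spec.mk (nat_lit 29665) (nat_lit 0) [nat_lit 16543, nat_lit 42787, nat_lit 25291, nat_lit 34039, nat_lit 28207, nat_lit 31123, nat_lit 30151, nat_lit 29503, nat_lit 29683, nat_lit 29659, nat_lit 29667, nat_lit 49347, nat_lit 9983] (nat_lit 2) [] false,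
   Spec.mk (nat_lit 29667) (nat_lit 0) [nat_lit 16545, nat_lit 42789, nat_lit 25293, nat_lit 34041, nat_lit 28209, nat_lit 31125, nat_lit 30153, nat_lit 29505, nat_lit 29685, nat_lit 29661, nat_lit 29665, nat_lit 9985] (nat_lit 1) [] false,
   Spec.mk (nat_lit 29675) (nat_lit 0) [nat_lit 16553, nat_lit 42797, nat_lit 25301, nat_lit 34049, nat_lit 28217, nat_lit 31133, nat_lit 30161, nat_lit 29513, nat_lit 29729, nat_lit 29657, nat_lit 29677, nat_lit 49357] (nat_lit 1) [] false,
   Spec.mk (nat_lit 29677) (nat_lit 0) [nat_lit 16555, nat_lit 42799, nat_lit 25303, nat_lit 34051, nat_lit 28219, nat_lit 31135, nat_lit 30163, nat_lit 29515, nat_lit 29731, nat_lit 29659, nat_lit 29683, nat_lit 29675, nat_lit 29679, nat_lit 49359, nat_lit 9995] (nat_lit 1) [] false,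
   Spec.mk (nat_lit 29679) (nat_lit 0) [nat_lit 16557, nat_lit 42801, nat_lit 25305, nat_lit 34053, nat_lit 28221, nat_lit 31137, nat_lit 30165, nat_lit 29517, nat_lit 29733, nat_lit 29661, nat_lit 29685, nat_lit 29677, nat_lit 9997] (nat_lit 3) [] false,
   Spec.mk (nat_lit 29683) (nat_lit 0) [nat_lit 16561, nat_lit 42805, nat_lit 25309, nat_lit 34057, nat_lit 28225, nat_lit 31141, nat_lit 30169, nat_lit 29521, nat_lit 29737, nat_lit 29665, nat_lit 29701, nat_lit 29677, nat_lit 29685, nat_lit 49365, nat_lit 10001] (nat_lit 1) [] false,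
   Spec.mk (nat_lit 29685) (nat_lit 0) [nat_lit 16563, nat_lit 42807, nat_lit 25311, nat_lit 34059, nat_lit 28227, nat_lit 31143, nat_lit 30171, nat_lit 29523, nat_lit 29739, nat_lit 29667, nat_lit 29703, nat_lit 29679, nat_lit 29691, nat_lit 29683, nat_lit 10003] (nat_lit 1) [] false,
   Spec.mk (nat_lit 29691) (nat_lit 0) [nat_lit 16569, nat_lit 42813, nat_lit 25317, nat_lit 34065, nat_lit 28233, nat_lit 31149, nat_lit 30177, nat_lit 29529, nat_lit 29745, nat_lit 29709, nat_lit 29685, nat_lit 10009] (nat_lit 1) [] false,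
   Spec.mk (nat_lit 29701) (nat_lit 0) [nat_lit 16579, nat_lit 42823, nat_lit 25327, nat_lit 34075, nat_lit 28243, nat_lit 31159, nat_lit 30187, nat_lit 29539, nat_lit 29755, nat_lit 29683, nat_lit 29703, nat_lit 49383, nat_lit 10019] (nat_lit 2) [] false,
   Spec.mk (nat_lit 29703) (nat_lit 0) [nat_lit 16581, nat_lit 42825, nat_lit 25329, nat_lit 34077, nat_lit 28245, nat_lit 31161, nat_lit 30189, nat_lit 29541, nat_lit 29757, nat_lit 29685, nat_lit 29709, nat_lit 29701, nat_lit 10021] (nat_lit 3) [] false,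
   Spec.mk (nat_lit 29709) (nat_lit 0) [nat_lit 16587, nat_lit 42831, nat_lit 25335, nat_lit 34083, nat_lit 28251, nat_lit 31167, nat_lit 30195, nat_lit 29547, nat_lit 29763, nat_lit 29691, nat_lit 29703, nat_lit 10027] (nat_lit 1) [] false,
   Spec.mk (nat_lit 29729) (nat_lit 1) [nat_lit 16607, nat_lit 42851, nat_lit 25355, nat_lit 34103, nat_lit 28271, nat_lit 31187, nat_lit 30215, nat_lit 29567, nat_lit 29675, nat_lit 29731, nat_lit 49411] (nat_lit 0) [] false,
   Spec.mk (nat_lit 29731) (nat_lit 1) [nat_lit 16609, nat_lit 42853, nat_lit 25357, nat_lit 34105, nat_lit 28273, nat_lit 31189, nat_lit 30217, nat_lit 29569, nat_lit 29677, nat_lit 29737, nat_lit 29729, nat_lit 29733, nat_lit 49413, nat_lit 10049] (nat_lit 0) [] false,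
   Spec.mk (nat_lit 29733) (nat_lit 0) [nat_lit 16611, nat_lit 42855, nat_lit 25359, nat_lit 34107, nat_lit 28275, nat_lit 31191, nat_lit 30219, nat_lit 29571, nat_lit 29679, nat_lit 29739, nat_lit 29731, nat_lit 10051] (nat_lit 1) [] false,
   Spec.mk (nat_lit 29737) (nat_lit 0) [nat_lit 16615, nat_lit 42859, nat_lit 25363, nat_lit 34111, nat_lit 28279, nat_lit 31195, nat_lit 30223, nat_lit 29575, nat_lit 29683, nat_lit 29755, nat_lit 29731, nat_lit 29739, nat_lit 49419, nat_lit 10055] (nat_lit 0) [] false,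
   Spec.mk (nat_lit 29739) (nat_lit 0) [nat_lit 16617, nat_lit 42861, nat_lit 25365, nat_lit 34113, nat_lit 28281, nat_lit 31197, nat_lit 30225, nat_lit 29577, nat_lit 29685, nat_lit 29757, nat_lit 29733, nat_lit 29745, nat_lit 29737, nat_lit 10057] (nat_lit 0) [] false,
   Spec.mk (nat_lit 29745) (nat_lit 0) [nat_lit 16623, nat_lit 42867, nat_lit 25371, nat_lit 34119, nat_lit 28287, nat_lit 31203, nat_lit 30231, nat_lit 29583, nat_lit 29691, nat_lit 29763, nat_lit 29739, nat_lit 10063] (nat_lit 1) [] false,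
   Spec.mk (nat_lit 29755) (nat_lit 1) [nat_lit 16633, nat_lit 42877, nat_lit 25381, nat_lit 34129, nat_lit 28297, nat_lit 31213, nat_lit 30241, nat_lit 29593, nat_lit 29701, nat_lit 29809, nat_lit 29737, nat_lit 29757, nat_lit 49437, nat_lit 10073] (nat_lit 0) [] false,
   Spec.mk (nat_lit 29757) (nat_lit 0) [nat_lit 16635, nat_lit 42879, nat_lit 25383, nat_lit 34131, nat_lit 28299, nat_lit 31215, nat_lit 30243, nat_lit 29595, nat_lit 29703, nat_lit 29811, nat_lit 29739, nat_lit 29763, nat_lit 29755, nat_lit 10075] (nat_lit 0) [] false,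
   Spec.mk (nat_lit 29763) (nat_lit 1) [nat_lit 16641, nat_lit 42885, nat_lit 25389, nat_lit 34137, nat_lit 28305, nat_lit 31221, nat_lit 30249, nat_lit 29601, nat_lit 29709, nat_lit 29817, nat_lit 29745, nat_lit 29781, nat_lit 29757, nat_lit 10081] (nat_lit 0) [] false,
   Spec.mk (nat_lit 29781) (nat_lit 1) [nat_lit 16659, nat_lit 42903, nat_lit 25407, nat_lit 34155, nat_lit 28323, nat_lit 31239, nat_lit 30267, nat_lit 29619, nat_lit 29835, nat_lit 29763, nat_lit 10099] (nat_lit 0) [] false,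
   Spec.mk (nat_lit 29809) (nat_lit 2) [nat_lit 16687, nat_lit 42931, nat_lit 25435, nat_lit 34183, nat_lit 28351, nat_lit 31267, nat_lit 30295, nat_lit 29755, nat_lit 29811, nat_lit 49491, nat_lit 10127] (nat_lit 0) [] false,
   Spec.mk (nat_lit 29811) (nat_lit 1) [nat_lit 16689, nat_lit 42933, nat_lit 25437, nat_lit 34185, nat_lit 28353, nat_lit 31269, nat_lit 30297, nat_lit 29757, nat_lit 29817, nat_lit 29809, nat_lit 10129] (nat_lit 0) [] false,
   Spec.mk (nat_lit 29817) (nat_lit 1) [nat_lit 16695, nat_lit 42939, nat_lit 25443, nat_lit 34191, nat_lit 28359, nat_lit 31275, nat_lit 30303, nat_lit 29763, nat_lit 29835, nat_lit 29811, nat_lit 10135] (nat_lit 0) [] false,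
   Spec.mk (nat_lit 29835) (nat_lit 3) [nat_lit 16713, nat_lit 42957, nat_lit 25461, nat_lit 34209, nat_lit 28377, nat_lit 31293, nat_lit 30321, nat_lit 29781, nat_lit 29817, nat_lit 10153] (nat_lit 0) [] false,
   Spec.mk (nat_lit 29897) (nat_lit 2) [nat_lit 16775, nat_lit 43019, nat_lit 25523, nat_lit 34271, nat_lit 31355, nat_lit 29411, nat_lit 29903, nat_lit 49579] (nat_lit 0) [] false,
   Spec.mk (nat_lit 29903) (nat_lit 1) [nat_lit 16781, nat_lit 43025, nat_lit 25529, nat_lit 34277, nat_lit 31361, nat_lit 29417, nat_lit 29921, nat_lit 29897, nat_lit 29909, nat_lit 29905, nat_lit 49585] (nat_lit 0) [] false,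
   Spec.mk (nat_lit 29905) (nat_lit 1) [nat_lit 16783, nat_lit 43027, nat_lit 25531, nat_lit 34279, nat_lit 31363, nat_lit 29419, nat_lit 29923, nat_lit 29911, nat_lit 29903, nat_lit 49587, nat_lit 10223] (nat_lit 0) [] false,
   Spec.mk (nat_lit 29909) (nat_lit 0) [nat_lit 16787, nat_lit 43031, nat_lit 25535, nat_lit 34283, nat_lit 31367, nat_lit 29423, nat_lit 29927, nat_lit 29903, nat_lit 29911, nat_lit 49591] (nat_lit 2) [] false,
   Spec.mk (nat_lit 29911) (nat_lit 0) [nat_lit 16789, nat_lit 43033, nat_lit 25537, nat_lit 34285, nat_lit 31369, nat_lit 29425, nat_lit 29929, nat_lit 29905, nat_lit 29909, nat_lit 29913, nat_lit 49593, nat_lit 10229] (nat_lit 0) [] false,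
   Spec.mk (nat_lit 29913) (nat_lit 0) [nat_lit 16791, nat_lit 43035, nat_lit 25539, nat_lit 34287, nat_lit 31371, nat_lit 29427, nat_lit 29931, nat_lit 29911, nat_lit 10231] (nat_lit 0) [] false,
   Spec.mk (nat_lit 29921) (nat_lit 0) [nat_lit 16799, nat_lit 43043, nat_lit 25547, nat_lit 34295, nat_lit 31379, nat_lit 29435, nat_lit 29975, nat_lit 29903, nat_lit 29927, nat_lit 29923, nat_lit 49603] (nat_lit 0) [] false,
   Spec.mk (nat_lit 29923) (nat_lit 0) [nat_lit 16801, nat_lit 43045, nat_lit 25549, nat_lit 34297, nat_lit 31381, nat_lit 29437, nat_lit 29977, nat_lit 29905, nat_lit 29929, nat_lit 29921, nat_lit 49605, nat_lit 10241] (nat_lit 1) [] false,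
   Spec.mk (nat_lit 29927) (nat_lit 0) [nat_lit 16805, nat_lit 43049, nat_lit 25553, nat_lit 34301, nat_lit 31385, nat_lit 29441, nat_lit 29981, nat_lit 29909, nat_lit 29945, nat_lit 29921, nat_lit 29929, nat_lit 49609] (nat_lit 1) [] false,
   Spec.mk (nat_lit 29929) (nat_lit 0) [nat_lit 16807, nat_lit 43051, nat_lit 25555, nat_lit 34303, nat_lit 31387, nat_lit 29443, nat_lit 29983, nat_lit 29911, nat_lit 29947, nat_lit 29923, nat_lit 29935, nat_lit 29927, nat_lit 29931, nat_lit 49611, nat_lit 10247] (nat_lit 0) [] false,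
   Spec.mk (nat_lit 29931) (nat_lit 0) [nat_lit 16809, nat_lit 43053, nat_lit 25557, nat_lit 34305, nat_lit 31389, nat_lit 29445, nat_lit 29985, nat_lit 29913, nat_lit 29949, nat_lit 29937, nat_lit 29929, nat_lit 10249] (nat_lit 1) [] false,
   Spec.mk (nat_lit 29935) (nat_lit 0) [nat_lit 16813, nat_lit 43057, nat_lit 25561, nat_lit 34309, nat_lit 31393, nat_lit 29449, nat_lit 29989, nat_lit 29953, nat_lit 29929, nat_lit 29937, nat_lit 49617, nat_lit 10253] (nat_lit 1) [] false,
   Spec.mk (nat_lit 29937) (nat_lit 0) [nat_lit 16815, nat_lit 43059, nat_lit 25563, nat_lit 34311, nat_lit 31395, nat_lit 29451, nat_lit 29991, nat_lit 29955, nat_lit 29931, nat_lit 29935, nat_lit 10255] (nat_lit 0) [] false,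
   Spec.mk (nat_lit 29945) (nat_lit 0) [nat_lit 16823, nat_lit 43067, nat_lit 25571, nat_lit 34319, nat_lit 31403, nat_lit 29459, nat_lit 29999, nat_lit 29927, nat_lit 29947, nat_lit 49627] (nat_lit 2) [] false]

noncomputable def sp82 : List Spec :=
  [Spec.mk (nat_lit 29947) (nat_lit 0) [nat_lit 16825, nat_lit 43069, nat_lit 25573, nat_lit 34321, nat_lit 31405, nat_lit 29461, nat_lit 30001, nat_lit 29929, nat_lit 29953, nat_lit 29945, nat_lit 29949, nat_lit 49629, nat_lit 10265] (nat_lit 2) [] false,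
   Spec.mk (nat_lit 29949) (nat_lit 0) [nat_lit 16827, nat_lit 43071, nat_lit 25575, nat_lit 34323, nat_lit 31407, nat_lit 29463, nat_lit 30003, nat_lit 29931, nat_lit 29955, nat_lit 29947, nat_lit 10267] (nat_lit 4) [] false,
   Spec.mk (nat_lit 29953) (nat_lit 0) [nat_lit 16831, nat_lit 43075, nat_lit 25579, nat_lit 34327, nat_lit 31411, nat_lit 29467, nat_lit 30007, nat_lit 29935, nat_lit 29947, nat_lit 29955, nat_lit 49635, nat_lit 10271] (nat_lit 1) [] false,
   Spec.mk (nat_lit 29955) (nat_lit 0) [nat_lit 16833, nat_lit 43077, nat_lit 25581, nat_lit 34329, nat_lit 31413, nat_lit 29469, nat_lit 30009, nat_lit 29937, nat_lit 29949, nat_lit 29961, nat_lit 29953, nat_lit 10273] (nat_lit 1) [] false,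
   Spec.mk (nat_lit 29961) (nat_lit 0) [nat_lit 16839, nat_lit 43083, nat_lit 25587, nat_lit 34335, nat_lit 31419, nat_lit 29475, nat_lit 30015, nat_lit 29955, nat_lit 10279] (nat_lit 0) [] false,
   Spec.mk (nat_lit 29975) (nat_lit 0) [nat_lit 16853, nat_lit 43097, nat_lit 25601, nat_lit 34349, nat_lit 31433, nat_lit 29489, nat_lit 30137, nat_lit 29921, nat_lit 29981, nat_lit 29977, nat_lit 49657] (nat_lit 0) [] false,
   Spec.mk (nat_lit 29977) (nat_lit 0) [nat_lit 16855, nat_lit 43099, nat_lit 25603, nat_lit 34351, nat_lit 31435, nat_lit 29491, nat_lit 30139, nat_lit 29923, nat_lit 29983, nat_lit 29975, nat_lit 49659, nat_lit 10295] (nat_lit 1) [] false,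
   Spec.mk (nat_lit 29981) (nat_lit 0) [nat_lit 16859, nat_lit 43103, nat_lit 25607, nat_lit 34355, nat_lit 31439, nat_lit 29495, nat_lit 30143, nat_lit 29927, nat_lit 29999, nat_lit 29975, nat_lit 29983, nat_lit 49663] (nat_lit 2) [] false,
   Spec.mk (nat_lit 29983) (nat_lit 0) [nat_lit 16861, nat_lit 43105, nat_lit 25609, nat_lit 34357, nat_lit 31441, nat_lit 29497, nat_lit 30145, nat_lit 29929, nat_lit 30001, nat_lit 29977, nat_lit 29989, nat_lit 29981, nat_lit 29985, nat_lit 49665, nat_lit 10301] (nat_lit 1) [] false,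
   Spec.mk (nat_lit 29985) (nat_lit 0) [nat_lit 16863, nat_lit 43107, nat_lit 25611, nat_lit 34359, nat_lit 31443, nat_lit 29499, nat_lit 30147, nat_lit 29931, nat_lit 30003, nat_lit 29991, nat_lit 29983, nat_lit 10303] (nat_lit 2) [] false,
   Spec.mk (nat_lit 29989) (nat_lit 0) [nat_lit 16867, nat_lit 43111, nat_lit 25615, nat_lit 34363, nat_lit 31447, nat_lit 29503, nat_lit 30151, nat_lit 29935, nat_lit 30007, nat_lit 29983, nat_lit 29991, nat_lit 49671, nat_lit 10307] (nat_lit 3) [] false,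
   Spec.mk (nat_lit 29991) (nat_lit 0) [nat_lit 16869, nat_lit 43113, nat_lit 25617, nat_lit 34365, nat_lit 31449, nat_lit 29505, nat_lit 30153, nat_lit 29937, nat_lit 30009, nat_lit 29985, nat_lit 29989, nat_lit 10309] (nat_lit 2) [] false,
   Spec.mk (nat_lit 29999) (nat_lit 0) [nat_lit 16877, nat_lit 43121, nat_lit 25625, nat_lit 34373, nat_lit 31457, nat_lit 29513, nat_lit 30161, nat_lit 29945, nat_lit 30053, nat_lit 29981, nat_lit 30001, nat_lit 49681] (nat_lit 1) [] false,
   Spec.mk (nat_lit 30001) (nat_lit 0) [nat_lit 16879, nat_lit 43123, nat_lit 25627, nat_lit 34375, nat_lit 31459, nat_lit 29515, nat_lit 30163, nat_lit 29947, nat_lit 30055, nat_lit 29983, nat_lit 30007, nat_lit 29999, nat_lit 30003, nat_lit 49683, nat_lit 10319] (nat_lit 1) [] false,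
   Spec.mk (nat_lit 30003) (nat_lit 0) [nat_lit 16881, nat_lit 43125, nat_lit 25629, nat_lit 34377, nat_lit 31461, nat_lit 29517, nat_lit 30165, nat_lit 29949, nat_lit 30057, nat_lit 29985, nat_lit 30009, nat_lit 30001, nat_lit 10321] (nat_lit 3) [] false,
   Spec.mk (nat_lit 30007) (nat_lit 0) [nat_lit 16885, nat_lit 43129, nat_lit 25633, nat_lit 34381, nat_lit 31465, nat_lit 29521, nat_lit 30169, nat_lit 29953, nat_lit 30061, nat_lit 29989, nat_lit 30025, nat_lit 30001, nat_lit 30009, nat_lit 49689, nat_lit 10325] (nat_lit 1) [] false,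
   Spec.mk (nat_lit 30009) (nat_lit 0) [nat_lit 16887, nat_lit 43131, nat_lit 25635, nat_lit 34383, nat_lit 31467, nat_lit 29523, nat_lit 30171, nat_lit 29955, nat_lit 30063, nat_lit 29991, nat_lit 30027, nat_lit 30003, nat_lit 30015, nat_lit 30007, nat_lit 10327] (nat_lit 1) [] false,
   Spec.mk (nat_lit 30015) (nat_lit 0) [nat_lit 16893, nat_lit 43137, nat_lit 25641, nat_lit 34389, nat_lit 31473, nat_lit 29529, nat_lit 30177, nat_lit 29961, nat_lit 30069, nat_lit 30033, nat_lit 30009, nat_lit 10333] (nat_lit 1) [] false,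
   Spec.mk (nat_lit 30025) (nat_lit 0) [nat_lit 16903, nat_lit 43147, nat_lit 25651, nat_lit 34399, nat_lit 31483, nat_lit 29539, nat_lit 30187, nat_lit 30079, nat_lit 30007, nat_lit 30027, nat_lit 49707, nat_lit 10343] (nat_lit 1) [] false,
   Spec.mk (nat_lit 30027) (nat_lit 0) [nat_lit 16905, nat_lit 43149, nat_lit 25653, nat_lit 34401, nat_lit 31485, nat_lit 29541, nat_lit 30189, nat_lit 30081, nat_lit 30009, nat_lit 30033, nat_lit 30025, nat_lit 10345] (nat_lit 2) [] false,
   Spec.mk (nat_lit 30033) (nat_lit 0) [nat_lit 16911, nat_lit 43155, nat_lit 25659, nat_lit 34407, nat_lit 31491, nat_lit 29547, nat_lit 30195, nat_lit 30087, nat_lit 30015, nat_lit 30027, nat_lit 10351] (nat_lit 0) [] false,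
   Spec.mk (nat_lit 30053) (nat_lit 0) [nat_lit 16931, nat_lit 43175, nat_lit 25679, nat_lit 34427, nat_lit 31511, nat_lit 29567, nat_lit 30215, nat_lit 29999, nat_lit 30055, nat_lit 49735] (nat_lit 2) [] false,
   Spec.mk (nat_lit 30055) (nat_lit 0) [nat_lit 16933, nat_lit 43177, nat_lit 25681, nat_lit 34429, nat_lit 31513, nat_lit 29569, nat_lit 30217, nat_lit 30001, nat_lit 30061, nat_lit 30053, nat_lit 30057, nat_lit 49737, nat_lit 10373] (nat_lit 2) [] false,
   Spec.mk (nat_lit 30057) (nat_lit 0) [nat_lit 16935, nat_lit 43179, nat_lit 25683, nat_lit 34431, nat_lit 31515, nat_lit 29571, nat_lit 30219, nat_lit 30003, nat_lit 30063, nat_lit 30055, nat_lit 10375] (nat_lit 4) [] false,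
   Spec.mk (nat_lit 30061) (nat_lit 0) [nat_lit 16939, nat_lit 43183, nat_lit 25687, nat_lit 34435, nat_lit 31519, nat_lit 29575, nat_lit 30223, nat_lit 30007, nat_lit 30079, nat_lit 30055, nat_lit 30063, nat_lit 49743, nat_lit 10379] (nat_lit 3) [] false,
   Spec.mk (nat_lit 30063) (nat_lit 0) [nat_lit 16941, nat_lit 43185, nat_lit 25689, nat_lit 34437, nat_lit 31521, nat_lit 29577, nat_lit 30225, nat_lit 30009, nat_lit 30081, nat_lit 30057, nat_lit 30069, nat_lit 30061, nat_lit 10381] (nat_lit 3) [] false,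
   Spec.mk (nat_lit 30069) (nat_lit 0) [nat_lit 16947, nat_lit 43191, nat_lit 25695, nat_lit 34443, nat_lit 31527, nat_lit 29583, nat_lit 30231, nat_lit 30015, nat_lit 30087, nat_lit 30063, nat_lit 10387] (nat_lit 4) [] false,
   Spec.mk (nat_lit 30079) (nat_lit 0) [nat_lit 16957, nat_lit 43201, nat_lit 25705, nat_lit 34453, nat_lit 31537, nat_lit 29593, nat_lit 30241, nat_lit 30025, nat_lit 30061, nat_lit 30081, nat_lit 49761, nat_lit 10397] (nat_lit 1) [] false,
   Spec.mk (nat_lit 30081) (nat_lit 0) [nat_lit 16959, nat_lit 43203, nat_lit 25707, nat_lit 34455, nat_lit 31539, nat_lit 29595, nat_lit 30243, nat_lit 30027, nat_lit 30063, nat_lit 30087, nat_lit 30079, nat_lit 10399] (nat_lit 2) [] false,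
   Spec.mk (nat_lit 30087) (nat_lit 0) [nat_lit 16965, nat_lit 43209, nat_lit 25713, nat_lit 34461, nat_lit 31545, nat_lit 29601, nat_lit 30249, nat_lit 30033, nat_lit 30069, nat_lit 30105, nat_lit 30081, nat_lit 10405] (nat_lit 1) [] false,
   Spec.mk (nat_lit 30105) (nat_lit 0) [nat_lit 16983, nat_lit 43227, nat_lit 25731, nat_lit 34479, nat_lit 31563, nat_lit 29619, nat_lit 30267, nat_lit 30087, nat_lit 10423] (nat_lit 0) [] false,
   Spec.mk (nat_lit 30137) (nat_lit 2) [nat_lit 17015, nat_lit 43259, nat_lit 25763, nat_lit 34511, nat_lit 31595, nat_lit 29651, nat_lit 29975, nat_lit 30143, nat_lit 30139, nat_lit 49819] (nat_lit 0) [] false,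
   Spec.mk (nat_lit 30139) (nat_lit 1) [nat_lit 17017, nat_lit 43261, nat_lit 25765, nat_lit 34513, nat_lit 31597, nat_lit 29653, nat_lit 29977, nat_lit 30145, nat_lit 30137, nat_lit 49821, nat_lit 10457] (nat_lit 0) [] false,
   Spec.mk (nat_lit 30143) (nat_lit 0) [nat_lit 17021, nat_lit 43265, nat_lit 25769, nat_lit 34517, nat_lit 31601, nat_lit 29657, nat_lit 29981, nat_lit 30161, nat_lit 30137, nat_lit 30145, nat_lit 49825] (nat_lit 0) [] false,
   Spec.mk (nat_lit 30145) (nat_lit 1) [nat_lit 17023, nat_lit 43267, nat_lit 25771, nat_lit 34519, nat_lit 31603, nat_lit 29659, nat_lit 29983, nat_lit 30163, nat_lit 30139, nat_lit 30151, nat_lit 30143, nat_lit 30147, nat_lit 49827, nat_lit 10463] (nat_lit 0) [] false,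
   Spec.mk (nat_lit 30147) (nat_lit 0) [nat_lit 17025, nat_lit 43269, nat_lit 25773, nat_lit 34521, nat_lit 31605, nat_lit 29661, nat_lit 29985, nat_lit 30165, nat_lit 30153, nat_lit 30145, nat_lit 10465] (nat_lit 0) [] false,
   Spec.mk (nat_lit 30151) (nat_lit 0) [nat_lit 17029, nat_lit 43273, nat_lit 25777, nat_lit 34525, nat_lit 31609, nat_lit 29665, nat_lit 29989, nat_lit 30169, nat_lit 30145, nat_lit 30153, nat_lit 49833, nat_lit 10469] (nat_lit 1) [] false,
   Spec.mk (nat_lit 30153) (nat_lit 0) [nat_lit 17031, nat_lit 43275, nat_lit 25779, nat_lit 34527, nat_lit 31611, nat_lit 29667, nat_lit 29991, nat_lit 30171, nat_lit 30147, nat_lit 30151, nat_lit 10471] (nat_lit 0) [] false,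
   Spec.mk (nat_lit 30161) (nat_lit 0) [nat_lit 17039, nat_lit 43283, nat_lit 25787, nat_lit 34535, nat_lit 31619, nat_lit 29675, nat_lit 29999, nat_lit 30215, nat_lit 30143, nat_lit 30163, nat_lit 49843] (nat_lit 0) [] false,
   Spec.mk (nat_lit 30163) (nat_lit 0) [nat_lit 17041, nat_lit 43285, nat_lit 25789, nat_lit 34537, nat_lit 31621, nat_lit 29677, nat_lit 30001, nat_lit 30217, nat_lit 30145, nat_lit 30169, nat_lit 30161, nat_lit 30165, nat_lit 49845, nat_lit 10481] (nat_lit 0) [] false,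
   Spec.mk (nat_lit 30165) (nat_lit 0) [nat_lit 17043, nat_lit 43287, nat_lit 25791, nat_lit 34539, nat_lit 31623, nat_lit 29679, nat_lit 30003, nat_lit 30219, nat_lit 30147, nat_lit 30171, nat_lit 30163, nat_lit 10483] (nat_lit 2) [] false,
   Spec.mk (nat_lit 30169) (nat_lit 0) [nat_lit 17047, nat_lit 43291, nat_lit 25795, nat_lit 34543, nat_lit 31627, nat_lit 29683, nat_lit 30007, nat_lit 30223, nat_lit 30151, nat_lit 30187, nat_lit 30163, nat_lit 30171, nat_lit 49851, nat_lit 10487] (nat_lit 0) [] false,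
   Spec.mk (nat_lit 30171) (nat_lit 0) [nat_lit 17049, nat_lit 43293, nat_lit 25797, nat_lit 34545, nat_lit 31629, nat_lit 29685, nat_lit 30009, nat_lit 30225, nat_lit 30153, nat_lit 30189, nat_lit 30165, nat_lit 30177, nat_lit 30169, nat_lit 10489] (nat_lit 0) [] false,
   Spec.mk (nat_lit 30177) (nat_lit 0) [nat_lit 17055, nat_lit 43299, nat_lit 25803, nat_lit 34551, nat_lit 31635, nat_lit 29691, nat_lit 30015, nat_lit 30231, nat_lit 30195, nat_lit 30171, nat_lit 10495] (nat_lit 0) [] false,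
   Spec.mk (nat_lit 30187) (nat_lit 0) [nat_lit 17065, nat_lit 43309, nat_lit 25813, nat_lit 34561, nat_lit 31645, nat_lit 29701, nat_lit 30025, nat_lit 30241, nat_lit 30169, nat_lit 30189, nat_lit 49869, nat_lit 10505] (nat_lit 1) [] false,
   Spec.mk (nat_lit 30189) (nat_lit 0) [nat_lit 17067, nat_lit 43311, nat_lit 25815, nat_lit 34563, nat_lit 31647, nat_lit 29703, nat_lit 30027, nat_lit 30243, nat_lit 30171, nat_lit 30195, nat_lit 30187, nat_lit 10507] (nat_lit 2) [] false,
   Spec.mk (nat_lit 30195) (nat_lit 0) [nat_lit 17073, nat_lit 43317, nat_lit 25821, nat_lit 34569, nat_lit 31653, nat_lit 29709, nat_lit 30033, nat_lit 30249, nat_lit 30177, nat_lit 30189, nat_lit 10513] (nat_lit 0) [] false,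
   Spec.mk (nat_lit 30215) (nat_lit 1) [nat_lit 17093, nat_lit 43337, nat_lit 25841, nat_lit 34589, nat_lit 31673, nat_lit 29729, nat_lit 30053, nat_lit 30377, nat_lit 30161, nat_lit 30217, nat_lit 49897] (nat_lit 0) [] false,
   Spec.mk (nat_lit 30217) (nat_lit 1) [nat_lit 17095, nat_lit 43339, nat_lit 25843, nat_lit 34591, nat_lit 31675, nat_lit 29731, nat_lit 30055, nat_lit 30379, nat_lit 30163, nat_lit 30223, nat_lit 30215, nat_lit 30219, nat_lit 49899, nat_lit 10535] (nat_lit 0) [] false,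
   Spec.mk (nat_lit 30219) (nat_lit 0) [nat_lit 17097, nat_lit 43341, nat_lit 25845, nat_lit 34593, nat_lit 31677, nat_lit 29733, nat_lit 30057, nat_lit 30381, nat_lit 30165, nat_lit 30225, nat_lit 30217, nat_lit 10537] (nat_lit 1) [] false,
   Spec.mk (nat_lit 30223) (nat_lit 0) [nat_lit 17101, nat_lit 43345, nat_lit 25849, nat_lit 34597, nat_lit 31681, nat_lit 29737, nat_lit 30061, nat_lit 30385, nat_lit 30169, nat_lit 30241, nat_lit 30217, nat_lit 30225, nat_lit 49905, nat_lit 10541] (nat_lit 0) [] false,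
   Spec.mk (nat_lit 30225) (nat_lit 0) [nat_lit 17103, nat_lit 43347, nat_lit 25851, nat_lit 34599, nat_lit 31683, nat_lit 29739, nat_lit 30063, nat_lit 30387, nat_lit 30171, nat_lit 30243, nat_lit 30219, nat_lit 30231, nat_lit 30223, nat_lit 10543] (nat_lit 0) [] false,
   Spec.mk (nat_lit 30231) (nat_lit 0) [nat_lit 17109, nat_lit 43353, nat_lit 25857, nat_lit 34605, nat_lit 31689, nat_lit 29745, nat_lit 30069, nat_lit 30393, nat_lit 30177, nat_lit 30249, nat_lit 30225, nat_lit 10549] (nat_lit 1) [] false,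
   Spec.mk (nat_lit 30241) (nat_lit 1) [nat_lit 17119, nat_lit 43363, nat_lit 25867, nat_lit 34615, nat_lit 31699, nat_lit 29755, nat_lit 30079, nat_lit 30403, nat_lit 30187, nat_lit 30295, nat_lit 30223, nat_lit 30243, nat_lit 49923, nat_lit 10559] (nat_lit 0) [] false,
   Spec.mk (nat_lit 30243) (nat_lit 0) [nat_lit 17121, nat_lit 43365, nat_lit 25869, nat_lit 34617, nat_lit 31701, nat_lit 29757, nat_lit 30081, nat_lit 30405, nat_lit 30189, nat_lit 30297, nat_lit 30225, nat_lit 30249, nat_lit 30241, nat_lit 10561] (nat_lit 0) [] false,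
   Spec.mk (nat_lit 30249) (nat_lit 1) [nat_lit 17127, nat_lit 43371, nat_lit 25875, nat_lit 34623, nat_lit 31707, nat_lit 29763, nat_lit 30087, nat_lit 30411, nat_lit 30195, nat_lit 30303, nat_lit 30231, nat_lit 30267, nat_lit 30243, nat_lit 10567] (nat_lit 0) [] false,
   Spec.mk (nat_lit 30267) (nat_lit 1) [nat_lit 17145, nat_lit 43389, nat_lit 25893, nat_lit 34641, nat_lit 31725, nat_lit 29781, nat_lit 30105, nat_lit 30429, nat_lit 30321, nat_lit 30249, nat_lit 10585] (nat_lit 0) [] false,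
   Spec.mk (nat_lit 30295) (nat_lit 1) [nat_lit 17173, nat_lit 43417, nat_lit 25921, nat_lit 34669, nat_lit 31753, nat_lit 29809, nat_lit 30457, nat_lit 30241, nat_lit 30297, nat_lit 49977, nat_lit 10613] (nat_lit 0) [] false,
   Spec.mk (nat_lit 30297) (nat_lit 0) [nat_lit 17175, nat_lit 43419, nat_lit 25923, nat_lit 34671, nat_lit 31755, nat_lit 29811, nat_lit 30459, nat_lit 30243, nat_lit 30303, nat_lit 30295, nat_lit 10615] (nat_lit 0) [] false,
   Spec.mk (nat_lit 30303) (nat_lit 0) [nat_lit 17181, nat_lit 43425, nat_lit 25929, nat_lit 34677, nat_lit 31761, nat_lit 29817, nat_lit 30465, nat_lit 30249, nat_lit 30321, nat_lit 30297, nat_lit 10621] (nat_lit 0) [] false]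

noncomputable def sp83 : List Spec :=
  [Spec.mk (nat_lit 30321) (nat_lit 2) [nat_lit 17199, nat_lit 43443, nat_lit 25947, nat_lit 34695, nat_lit 31779, nat_lit 29835, nat_lit 30483, nat_lit 30267, nat_lit 30303, nat_lit 10639] (nat_lit 0) [] false,
   Spec.mk (nat_lit 30377) (nat_lit 2) [nat_lit 17255, nat_lit 43499, nat_lit 26003, nat_lit 34751, nat_lit 31835, nat_lit 30215, nat_lit 30379, nat_lit 50059] (nat_lit 0) [] false,
   Spec.mk (nat_lit 30379) (nat_lit 2) [nat_lit 17257, nat_lit 43501, nat_lit 26005, nat_lit 34753, nat_lit 31837, nat_lit 30217, nat_lit 30385, nat_lit 30377, nat_lit 30381, nat_lit 50061, nat_lit 10697] (nat_lit 0) [] false,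
   Spec.mk (nat_lit 30381) (nat_lit 0) [nat_lit 17259, nat_lit 43503, nat_lit 26007, nat_lit 34755, nat_lit 31839, nat_lit 30219, nat_lit 30387, nat_lit 30379, nat_lit 10699] (nat_lit 0) [] false,
   Spec.mk (nat_lit 30385) (nat_lit 1) [nat_lit 17263, nat_lit 43507, nat_lit 26011, nat_lit 34759, nat_lit 31843, nat_lit 30223, nat_lit 30403, nat_lit 30379, nat_lit 30387, nat_lit 50067, nat_lit 10703] (nat_lit 0) [] false,
   Spec.mk (nat_lit 30387) (nat_lit 1) [nat_lit 17265, nat_lit 43509, nat_lit 26013, nat_lit 34761, nat_lit 31845, nat_lit 30225, nat_lit 30405, nat_lit 30381, nat_lit 30393, nat_lit 30385, nat_lit 10705] (nat_lit 0) [] false,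
   Spec.mk (nat_lit 30393) (nat_lit 0) [nat_lit 17271, nat_lit 43515, nat_lit 26019, nat_lit 34767, nat_lit 31851, nat_lit 30231, nat_lit 30411, nat_lit 30387, nat_lit 10711] (nat_lit 0) [] false,
   Spec.mk (nat_lit 30403) (nat_lit 1) [nat_lit 17281, nat_lit 43525, nat_lit 26029, nat_lit 34777, nat_lit 31861, nat_lit 30241, nat_lit 30457, nat_lit 30385, nat_lit 30405, nat_lit 50085, nat_lit 10721] (nat_lit 0) [] false,
   Spec.mk (nat_lit 30405) (nat_lit 0) [nat_lit 17283, nat_lit 43527, nat_lit 26031, nat_lit 34779, nat_lit 31863, nat_lit 30243, nat_lit 30459, nat_lit 30387, nat_lit 30411, nat_lit 30403, nat_lit 10723] (nat_lit 0) [] false,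
   Spec.mk (nat_lit 30411) (nat_lit 1) [nat_lit 17289, nat_lit 43533, nat_lit 26037, nat_lit 34785, nat_lit 31869, nat_lit 30249, nat_lit 30465, nat_lit 30393, nat_lit 30429, nat_lit 30405, nat_lit 10729] (nat_lit 0) [] false,
   Spec.mk (nat_lit 30429) (nat_lit 0) [nat_lit 17307, nat_lit 43551, nat_lit 26055, nat_lit 34803, nat_lit 31887, nat_lit 30267, nat_lit 30483, nat_lit 30411, nat_lit 10747] (nat_lit 0) [] false,
   Spec.mk (nat_lit 30457) (nat_lit 3) [nat_lit 17335, nat_lit 43579, nat_lit 26083, nat_lit 34831, nat_lit 31915, nat_lit 30295, nat_lit 30403, nat_lit 30459, nat_lit 50139, nat_lit 10775] (nat_lit 0) [] false,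
   Spec.mk (nat_lit 30459) (nat_lit 2) [nat_lit 17337, nat_lit 43581, nat_lit 26085, nat_lit 34833, nat_lit 31917, nat_lit 30297, nat_lit 30405, nat_lit 30465, nat_lit 30457, nat_lit 10777] (nat_lit 0) [] false,
   Spec.mk (nat_lit 30465) (nat_lit 2) [nat_lit 17343, nat_lit 43587, nat_lit 26091, nat_lit 34839, nat_lit 31923, nat_lit 30303, nat_lit 30411, nat_lit 30483, nat_lit 30459, nat_lit 10783] (nat_lit 0) [] false,
   Spec.mk (nat_lit 30483) (nat_lit 3) [nat_lit 17361, nat_lit 43605, nat_lit 26109, nat_lit 34857, nat_lit 31941, nat_lit 30321, nat_lit 30429, nat_lit 30537, nat_lit 30465, nat_lit 10801] (nat_lit 0) [] false,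
   Spec.mk (nat_lit 30537) (nat_lit 4) [nat_lit 17415, nat_lit 43659, nat_lit 26163, nat_lit 34911, nat_lit 31995, nat_lit 30483, nat_lit 10855] (nat_lit 0) [] false,
   Spec.mk (nat_lit 30635) (nat_lit 3) [nat_lit 17513, nat_lit 43757, nat_lit 35009, nat_lit 29177, nat_lit 30653, nat_lit 30641, nat_lit 50317] (nat_lit 0) [] false,
   Spec.mk (nat_lit 30641) (nat_lit 1) [nat_lit 17519, nat_lit 43763, nat_lit 35015, nat_lit 29183, nat_lit 30659, nat_lit 30635, nat_lit 30643, nat_lit 50323] (nat_lit 0) [] false,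
   Spec.mk (nat_lit 30643) (nat_lit 2) [nat_lit 17521, nat_lit 43765, nat_lit 35017, nat_lit 29185, nat_lit 30661, nat_lit 30641, nat_lit 50325, nat_lit 10961] (nat_lit 0) [] false,
   Spec.mk (nat_lit 30653) (nat_lit 1) [nat_lit 17531, nat_lit 43775, nat_lit 35027, nat_lit 29195, nat_lit 30707, nat_lit 30635, nat_lit 30659, nat_lit 50335] (nat_lit 0) [] false,
   Spec.mk (nat_lit 30659) (nat_lit 1) [nat_lit 17537, nat_lit 43781, nat_lit 35033, nat_lit 29201, nat_lit 30713, nat_lit 30641, nat_lit 30677, nat_lit 30653, nat_lit 30665, nat_lit 30661, nat_lit 50341] (nat_lit 0) [] false,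
   Spec.mk (nat_lit 30661) (nat_lit 1) [nat_lit 17539, nat_lit 43783, nat_lit 35035, nat_lit 29203, nat_lit 30715, nat_lit 30643, nat_lit 30679, nat_lit 30667, nat_lit 30659, nat_lit 50343, nat_lit 10979] (nat_lit 0) [] false,
   Spec.mk (nat_lit 30665) (nat_lit 0) [nat_lit 17543, nat_lit 43787, nat_lit 35039, nat_lit 29207, nat_lit 30719, nat_lit 30683, nat_lit 30659, nat_lit 30667, nat_lit 50347] (nat_lit 1) [] false,
   Spec.mk (nat_lit 30667) (nat_lit 1) [nat_lit 17545, nat_lit 43789, nat_lit 35041, nat_lit 29209, nat_lit 30721, nat_lit 30685, nat_lit 30661, nat_lit 30665, nat_lit 30669, nat_lit 50349, nat_lit 10985] (nat_lit 0) [] false,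
   Spec.mk (nat_lit 30669) (nat_lit 1) [nat_lit 17547, nat_lit 43791, nat_lit 35043, nat_lit 29211, nat_lit 30723, nat_lit 30687, nat_lit 30667, nat_lit 10987] (nat_lit 0) [] false,
   Spec.mk (nat_lit 30677) (nat_lit 0) [nat_lit 17555, nat_lit 43799, nat_lit 35051, nat_lit 29219, nat_lit 30731, nat_lit 30659, nat_lit 30683, nat_lit 30679, nat_lit 50359] (nat_lit 1) [] false,
   Spec.mk (nat_lit 30679) (nat_lit 0) [nat_lit 17557, nat_lit 43801, nat_lit 35053, nat_lit 29221, nat_lit 30733, nat_lit 30661, nat_lit 30685, nat_lit 30677, nat_lit 50361, nat_lit 10997] (nat_lit 2) [] false,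
   Spec.mk (nat_lit 30683) (nat_lit 0) [nat_lit 17561, nat_lit 43805, nat_lit 35057, nat_lit 29225, nat_lit 30737, nat_lit 30665, nat_lit 30677, nat_lit 30685, nat_lit 50365] (nat_lit 1) [] false,
   Spec.mk (nat_lit 30685) (nat_lit 0) [nat_lit 17563, nat_lit 43807, nat_lit 35059, nat_lit 29227, nat_lit 30739, nat_lit 30667, nat_lit 30679, nat_lit 30691, nat_lit 30683, nat_lit 30687, nat_lit 50367, nat_lit 11003] (nat_lit 0) [] false,
   Spec.mk (nat_lit 30687) (nat_lit 0) [nat_lit 17565, nat_lit 43809, nat_lit 35061, nat_lit 29229, nat_lit 30741, nat_lit 30669, nat_lit 30693, nat_lit 30685, nat_lit 11005] (nat_lit 1) [] false,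
   Spec.mk (nat_lit 30691) (nat_lit 0) [nat_lit 17569, nat_lit 43813, nat_lit 35065, nat_lit 29233, nat_lit 30745, nat_lit 30685, nat_lit 30693, nat_lit 50373, nat_lit 11009] (nat_lit 0) [] false,
   Spec.mk (nat_lit 30693) (nat_lit 1) [nat_lit 17571, nat_lit 43815, nat_lit 35067, nat_lit 29235, nat_lit 30747, nat_lit 30687, nat_lit 30691, nat_lit 11011] (nat_lit 0) [] false,
   Spec.mk (nat_lit 30707) (nat_lit 1) [nat_lit 17585, nat_lit 43829, nat_lit 35081, nat_lit 29249, nat_lit 30869, nat_lit 30653, nat_lit 30713, nat_lit 50389] (nat_lit 0) [] false,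
   Spec.mk (nat_lit 30713) (nat_lit 0) [nat_lit 17591, nat_lit 43835, nat_lit 35087, nat_lit 29255, nat_lit 30875, nat_lit 30659, nat_lit 30731, nat_lit 30707, nat_lit 30719, nat_lit 30715, nat_lit 50395] (nat_lit 0) [] false,
   Spec.mk (nat_lit 30715) (nat_lit 0) [nat_lit 17593, nat_lit 43837, nat_lit 35089, nat_lit 29257, nat_lit 30877, nat_lit 30661, nat_lit 30733, nat_lit 30721, nat_lit 30713, nat_lit 50397, nat_lit 11033] (nat_lit 0) [] false,
   Spec.mk (nat_lit 30719) (nat_lit 0) [nat_lit 17597, nat_lit 43841, nat_lit 35093, nat_lit 29261, nat_lit 30881, nat_lit 30665, nat_lit 30737, nat_lit 30713, nat_lit 30721, nat_lit 50401] (nat_lit 3) [] false,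
   Spec.mk (nat_lit 30721) (nat_lit 0) [nat_lit 17599, nat_lit 43843, nat_lit 35095, nat_lit 29263, nat_lit 30883, nat_lit 30667, nat_lit 30739, nat_lit 30715, nat_lit 30719, nat_lit 30723, nat_lit 50403, nat_lit 11039] (nat_lit 1) [] false,
   Spec.mk (nat_lit 30723) (nat_lit 0) [nat_lit 17601, nat_lit 43845, nat_lit 35097, nat_lit 29265, nat_lit 30885, nat_lit 30669, nat_lit 30741, nat_lit 30721, nat_lit 11041] (nat_lit 1) [] false,
   Spec.mk (nat_lit 30731) (nat_lit 0) [nat_lit 17609, nat_lit 43853, nat_lit 35105, nat_lit 29273, nat_lit 30893, nat_lit 30677, nat_lit 30785, nat_lit 30713, nat_lit 30737, nat_lit 30733, nat_lit 50413] (nat_lit 0) [] false,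
   Spec.mk (nat_lit 30733) (nat_lit 0) [nat_lit 17611, nat_lit 43855, nat_lit 35107, nat_lit 29275, nat_lit 30895, nat_lit 30679, nat_lit 30787, nat_lit 30715, nat_lit 30739, nat_lit 30731, nat_lit 50415, nat_lit 11051] (nat_lit 1) [] false,
   Spec.mk (nat_lit 30737) (nat_lit 0) [nat_lit 17615, nat_lit 43859, nat_lit 35111, nat_lit 29279, nat_lit 30899, nat_lit 30683, nat_lit 30791, nat_lit 30719, nat_lit 30755, nat_lit 30731, nat_lit 30739, nat_lit 50419] (nat_lit 1) [] false,
   Spec.mk (nat_lit 30739) (nat_lit 0) [nat_lit 17617, nat_lit 43861, nat_lit 35113, nat_lit 29281, nat_lit 30901, nat_lit 30685, nat_lit 30793, nat_lit 30721, nat_lit 30757, nat_lit 30733, nat_lit 30745, nat_lit 30737, nat_lit 30741, nat_lit 50421, nat_lit 11057] (nat_lit 0) [] false,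
   Spec.mk (nat_lit 30741) (nat_lit 0) [nat_lit 17619, nat_lit 43863, nat_lit 35115, nat_lit 29283, nat_lit 30903, nat_lit 30687, nat_lit 30795, nat_lit 30723, nat_lit 30759, nat_lit 30747, nat_lit 30739, nat_lit 11059] (nat_lit 1) [] false,
   Spec.mk (nat_lit 30745) (nat_lit 0) [nat_lit 17623, nat_lit 43867, nat_lit 35119, nat_lit 29287, nat_lit 30907, nat_lit 30691, nat_lit 30799, nat_lit 30763, nat_lit 30739, nat_lit 30747, nat_lit 50427, nat_lit 11063] (nat_lit 1) [] false,
   Spec.mk (nat_lit 30747) (nat_lit 0) [nat_lit 17625, nat_lit 43869, nat_lit 35121, nat_lit 29289, nat_lit 30909, nat_lit 30693, nat_lit 30801, nat_lit 30765, nat_lit 30741, nat_lit 30745, nat_lit 11065] (nat_lit 0) [] false,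
   Spec.mk (nat_lit 30755) (nat_lit 0) [nat_lit 17633, nat_lit 43877, nat_lit 35129, nat_lit 29297, nat_lit 30917, nat_lit 30809, nat_lit 30737, nat_lit 30757, nat_lit 50437] (nat_lit 1) [] false,
   Spec.mk (nat_lit 30757) (nat_lit 0) [nat_lit 17635, nat_lit 43879, nat_lit 35131, nat_lit 29299, nat_lit 30919, nat_lit 30811, nat_lit 30739, nat_lit 30763, nat_lit 30755, nat_lit 30759, nat_lit 50439, nat_lit 11075] (nat_lit 1) [] false,
   Spec.mk (nat_lit 30759) (nat_lit 0) [nat_lit 17637, nat_lit 43881, nat_lit 35133, nat_lit 29301, nat_lit 30921, nat_lit 30813, nat_lit 30741, nat_lit 30765, nat_lit 30757, nat_lit 11077] (nat_lit 3) [] false,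
   Spec.mk (nat_lit 30763) (nat_lit 0) [nat_lit 17641, nat_lit 43885, nat_lit 35137, nat_lit 29305, nat_lit 30925, nat_lit 30817, nat_lit 30745, nat_lit 30757, nat_lit 30765, nat_lit 50445, nat_lit 11081] (nat_lit 0) [] false,
   Spec.mk (nat_lit 30765) (nat_lit 0) [nat_lit 17643, nat_lit 43887, nat_lit 35139, nat_lit 29307, nat_lit 30927, nat_lit 30819, nat_lit 30747, nat_lit 30759, nat_lit 30771, nat_lit 30763, nat_lit 11083] (nat_lit 0) [] false,
   Spec.mk (nat_lit 30771) (nat_lit 1) [nat_lit 17649, nat_lit 43893, nat_lit 35145, nat_lit 29313, nat_lit 30933, nat_lit 30825, nat_lit 30765, nat_lit 11089] (nat_lit 0) [] false,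
   Spec.mk (nat_lit 30785) (nat_lit 0) [nat_lit 17663, nat_lit 43907, nat_lit 35159, nat_lit 29327, nat_lit 30947, nat_lit 30731, nat_lit 30791, nat_lit 30787, nat_lit 50467] (nat_lit 1) [] false,
   Spec.mk (nat_lit 30787) (nat_lit 0) [nat_lit 17665, nat_lit 43909, nat_lit 35161, nat_lit 29329, nat_lit 30949, nat_lit 30733, nat_lit 30793, nat_lit 30785, nat_lit 50469, nat_lit 11105] (nat_lit 2) [] false,
   Spec.mk (nat_lit 30791) (nat_lit 0) [nat_lit 17669, nat_lit 43913, nat_lit 35165, nat_lit 29333, nat_lit 30953, nat_lit 30737, nat_lit 30809, nat_lit 30785, nat_lit 30793, nat_lit 50473] (nat_lit 3) [] false,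
   Spec.mk (nat_lit 30793) (nat_lit 0) [nat_lit 17671, nat_lit 43915, nat_lit 35167, nat_lit 29335, nat_lit 30955, nat_lit 30739, nat_lit 30811, nat_lit 30787, nat_lit 30799, nat_lit 30791, nat_lit 30795, nat_lit 50475, nat_lit 11111] (nat_lit 2) [] false,
   Spec.mk (nat_lit 30795) (nat_lit 0) [nat_lit 17673, nat_lit 43917, nat_lit 35169, nat_lit 29337, nat_lit 30957, nat_lit 30741, nat_lit 30813, nat_lit 30801, nat_lit 30793, nat_lit 11113] (nat_lit 3) [] false,
   Spec.mk (nat_lit 30799) (nat_lit 0) [nat_lit 17677, nat_lit 43921, nat_lit 35173, nat_lit 29341, nat_lit 30961, nat_lit 30745, nat_lit 30817, nat_lit 30793, nat_lit 30801, nat_lit 50481, nat_lit 11117] (nat_lit 4) [] false,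
   Spec.mk (nat_lit 30801) (nat_lit 0) [nat_lit 17679, nat_lit 43923, nat_lit 35175, nat_lit 29343, nat_lit 30963, nat_lit 30747, nat_lit 30819, nat_lit 30795, nat_lit 30799, nat_lit 11119] (nat_lit 3) [] false,
   Spec.mk (nat_lit 30809) (nat_lit 0) [nat_lit 17687, nat_lit 43931, nat_lit 35183, nat_lit 29351, nat_lit 30971, nat_lit 30755, nat_lit 30791, nat_lit 30811, nat_lit 50491] (nat_lit 1) [] false,
   Spec.mk (nat_lit 30811) (nat_lit 0) [nat_lit 17689, nat_lit 43933, nat_lit 35185, nat_lit 29353, nat_lit 30973, nat_lit 30757, nat_lit 30793, nat_lit 30817, nat_lit 30809, nat_lit 30813, nat_lit 50493, nat_lit 11129] (nat_lit 1) [] false]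

noncomputable def sp84 : List Spec :=
  [Spec.mk (nat_lit 30813) (nat_lit 0) [nat_lit 17691, nat_lit 43935, nat_lit 35187, nat_lit 29355, nat_lit 30975, nat_lit 30759, nat_lit 30795, nat_lit 30819, nat_lit 30811, nat_lit 11131] (nat_lit 3) [] false,
   Spec.mk (nat_lit 30817) (nat_lit 0) [nat_lit 17695, nat_lit 43939, nat_lit 35191, nat_lit 29359, nat_lit 30979, nat_lit 30763, nat_lit 30799, nat_lit 30835, nat_lit 30811, nat_lit 30819, nat_lit 50499, nat_lit 11135] (nat_lit 1) [] false,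
   Spec.mk (nat_lit 30819) (nat_lit 0) [nat_lit 17697, nat_lit 43941, nat_lit 35193, nat_lit 29361, nat_lit 30981, nat_lit 30765, nat_lit 30801, nat_lit 30837, nat_lit 30813, nat_lit 30825, nat_lit 30817, nat_lit 11137] (nat_lit 1) [] false,
   Spec.mk (nat_lit 30825) (nat_lit 0) [nat_lit 17703, nat_lit 43947, nat_lit 35199, nat_lit 29367, nat_lit 30987, nat_lit 30771, nat_lit 30843, nat_lit 30819, nat_lit 11143] (nat_lit 1) [] false,
   Spec.mk (nat_lit 30835) (nat_lit 0) [nat_lit 17713, nat_lit 43957, nat_lit 35209, nat_lit 29377, nat_lit 30997, nat_lit 30817, nat_lit 30837, nat_lit 50517, nat_lit 11153] (nat_lit 0) [] false,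
   Spec.mk (nat_lit 30837) (nat_lit 0) [nat_lit 17715, nat_lit 43959, nat_lit 35211, nat_lit 29379, nat_lit 30999, nat_lit 30819, nat_lit 30843, nat_lit 30835, nat_lit 11155] (nat_lit 1) [] false,
   Spec.mk (nat_lit 30843) (nat_lit 1) [nat_lit 17721, nat_lit 43965, nat_lit 35217, nat_lit 29385, nat_lit 31005, nat_lit 30825, nat_lit 30837, nat_lit 11161] (nat_lit 0) [] false,
   Spec.mk (nat_lit 30869) (nat_lit 1) [nat_lit 17747, nat_lit 43991, nat_lit 35243, nat_lit 29411, nat_lit 31355, nat_lit 30707, nat_lit 30875, nat_lit 50551] (nat_lit 0) [] false,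
   Spec.mk (nat_lit 30875) (nat_lit 0) [nat_lit 17753, nat_lit 43997, nat_lit 35249, nat_lit 29417, nat_lit 31361, nat_lit 30713, nat_lit 30893, nat_lit 30869, nat_lit 30881, nat_lit 30877, nat_lit 50557] (nat_lit 0) [] false,
   Spec.mk (nat_lit 30877) (nat_lit 0) [nat_lit 17755, nat_lit 43999, nat_lit 35251, nat_lit 29419, nat_lit 31363, nat_lit 30715, nat_lit 30895, nat_lit 30883, nat_lit 30875, nat_lit 50559, nat_lit 11195] (nat_lit 0) [] false,
   Spec.mk (nat_lit 30881) (nat_lit 0) [nat_lit 17759, nat_lit 44003, nat_lit 35255, nat_lit 29423, nat_lit 31367, nat_lit 30719, nat_lit 30899, nat_lit 30875, nat_lit 30883, nat_lit 50563] (nat_lit 3) [] false,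
   Spec.mk (nat_lit 30883) (nat_lit 0) [nat_lit 17761, nat_lit 44005, nat_lit 35257, nat_lit 29425, nat_lit 31369, nat_lit 30721, nat_lit 30901, nat_lit 30877, nat_lit 30881, nat_lit 30885, nat_lit 50565, nat_lit 11201] (nat_lit 1) [] false,
   Spec.mk (nat_lit 30885) (nat_lit 0) [nat_lit 17763, nat_lit 44007, nat_lit 35259, nat_lit 29427, nat_lit 31371, nat_lit 30723, nat_lit 30903, nat_lit 30883, nat_lit 11203] (nat_lit 1) [] false,
   Spec.mk (nat_lit 30893) (nat_lit 0) [nat_lit 17771, nat_lit 44015, nat_lit 35267, nat_lit 29435, nat_lit 31379, nat_lit 30731, nat_lit 30947, nat_lit 30875, nat_lit 30899, nat_lit 30895, nat_lit 50575] (nat_lit 1) [] false,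
   Spec.mk (nat_lit 30895) (nat_lit 0) [nat_lit 17773, nat_lit 44017, nat_lit 35269, nat_lit 29437, nat_lit 31381, nat_lit 30733, nat_lit 30949, nat_lit 30877, nat_lit 30901, nat_lit 30893, nat_lit 50577, nat_lit 11213] (nat_lit 2) [] false,
   Spec.mk (nat_lit 30899) (nat_lit 0) [nat_lit 17777, nat_lit 44021, nat_lit 35273, nat_lit 29441, nat_lit 31385, nat_lit 30737, nat_lit 30953, nat_lit 30881, nat_lit 30917, nat_lit 30893, nat_lit 30901, nat_lit 50581] (nat_lit 2) [] false,
   Spec.mk (nat_lit 30901) (nat_lit 0) [nat_lit 17779, nat_lit 44023, nat_lit 35275, nat_lit 29443, nat_lit 31387, nat_lit 30739, nat_lit 30955, nat_lit 30883, nat_lit 30919, nat_lit 30895, nat_lit 30907, nat_lit 30899, nat_lit 30903, nat_lit 50583, nat_lit 11219] (nat_lit 1) [] false,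
   Spec.mk (nat_lit 30903) (nat_lit 0) [nat_lit 17781, nat_lit 44025, nat_lit 35277, nat_lit 29445, nat_lit 31389, nat_lit 30741, nat_lit 30957, nat_lit 30885, nat_lit 30921, nat_lit 30909, nat_lit 30901, nat_lit 11221] (nat_lit 2) [] false,
   Spec.mk (nat_lit 30907) (nat_lit 0) [nat_lit 17785, nat_lit 44029, nat_lit 35281, nat_lit 29449, nat_lit 31393, nat_lit 30745, nat_lit 30961, nat_lit 30925, nat_lit 30901, nat_lit 30909, nat_lit 50589, nat_lit 11225] (nat_lit 2) [] false,
   Spec.mk (nat_lit 30909) (nat_lit 0) [nat_lit 17787, nat_lit 44031, nat_lit 35283, nat_lit 29451, nat_lit 31395, nat_lit 30747, nat_lit 30963, nat_lit 30927, nat_lit 30903, nat_lit 30907, nat_lit 11227] (nat_lit 1) [] false,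
   Spec.mk (nat_lit 30917) (nat_lit 0) [nat_lit 17795, nat_lit 44039, nat_lit 35291, nat_lit 29459, nat_lit 31403, nat_lit 30755, nat_lit 30971, nat_lit 30899, nat_lit 30919, nat_lit 50599] (nat_lit 3) [] false,
   Spec.mk (nat_lit 30919) (nat_lit 0) [nat_lit 17797, nat_lit 44041, nat_lit 35293, nat_lit 29461, nat_lit 31405, nat_lit 30757, nat_lit 30973, nat_lit 30901, nat_lit 30925, nat_lit 30917, nat_lit 30921, nat_lit 50601, nat_lit 11237] (nat_lit 3) [] false,
   Spec.mk (nat_lit 30921) (nat_lit 0) [nat_lit 17799, nat_lit 44043, nat_lit 35295, nat_lit 29463, nat_lit 31407, nat_lit 30759, nat_lit 30975, nat_lit 30903, nat_lit 30927, nat_lit 30919, nat_lit 11239] (nat_lit 5) [] false,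
   Spec.mk (nat_lit 30925) (nat_lit 0) [nat_lit 17803, nat_lit 44047, nat_lit 35299, nat_lit 29467, nat_lit 31411, nat_lit 30763, nat_lit 30979, nat_lit 30907, nat_lit 30919, nat_lit 30927, nat_lit 50607, nat_lit 11243] (nat_lit 2) [] false,
   Spec.mk (nat_lit 30927) (nat_lit 0) [nat_lit 17805, nat_lit 44049, nat_lit 35301, nat_lit 29469, nat_lit 31413, nat_lit 30765, nat_lit 30981, nat_lit 30909, nat_lit 30921, nat_lit 30933, nat_lit 30925, nat_lit 11245] (nat_lit 2) [] false,
   Spec.mk (nat_lit 30933) (nat_lit 0) [nat_lit 17811, nat_lit 44055, nat_lit 35307, nat_lit 29475, nat_lit 31419, nat_lit 30771, nat_lit 30987, nat_lit 30927, nat_lit 11251] (nat_lit 1) [] false,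
   Spec.mk (nat_lit 30947) (nat_lit 0) [nat_lit 17825, nat_lit 44069, nat_lit 35321, nat_lit 29489, nat_lit 31433, nat_lit 30785, nat_lit 31109, nat_lit 30893, nat_lit 30953, nat_lit 30949, nat_lit 50629] (nat_lit 0) [] false,
   Spec.mk (nat_lit 30949) (nat_lit 0) [nat_lit 17827, nat_lit 44071, nat_lit 35323, nat_lit 29491, nat_lit 31435, nat_lit 30787, nat_lit 31111, nat_lit 30895, nat_lit 30955, nat_lit 30947, nat_lit 50631, nat_lit 11267] (nat_lit 1) [] false,
   Spec.mk (nat_lit 30953) (nat_lit 0) [nat_lit 17831, nat_lit 44075, nat_lit 35327, nat_lit 29495, nat_lit 31439, nat_lit 30791, nat_lit 31115, nat_lit 30899, nat_lit 30971, nat_lit 30947, nat_lit 30955, nat_lit 50635] (nat_lit 2) [] false,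
   Spec.mk (nat_lit 30955) (nat_lit 0) [nat_lit 17833, nat_lit 44077, nat_lit 35329, nat_lit 29497, nat_lit 31441, nat_lit 30793, nat_lit 31117, nat_lit 30901, nat_lit 30973, nat_lit 30949, nat_lit 30961, nat_lit 30953, nat_lit 30957, nat_lit 50637, nat_lit 11273] (nat_lit 1) [] false,
   Spec.mk (nat_lit 30957) (nat_lit 0) [nat_lit 17835, nat_lit 44079, nat_lit 35331, nat_lit 29499, nat_lit 31443, nat_lit 30795, nat_lit 31119, nat_lit 30903, nat_lit 30975, nat_lit 30963, nat_lit 30955, nat_lit 11275] (nat_lit 2) [] false,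
   Spec.mk (nat_lit 30961) (nat_lit 0) [nat_lit 17839, nat_lit 44083, nat_lit 35335, nat_lit 29503, nat_lit 31447, nat_lit 30799, nat_lit 31123, nat_lit 30907, nat_lit 30979, nat_lit 30955, nat_lit 30963, nat_lit 50643, nat_lit 11279] (nat_lit 3) [] false,
   Spec.mk (nat_lit 30963) (nat_lit 0) [nat_lit 17841, nat_lit 44085, nat_lit 35337, nat_lit 29505, nat_lit 31449, nat_lit 30801, nat_lit 31125, nat_lit 30909, nat_lit 30981, nat_lit 30957, nat_lit 30961, nat_lit 11281] (nat_lit 2) [] false,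
   Spec.mk (nat_lit 30971) (nat_lit 0) [nat_lit 17849, nat_lit 44093, nat_lit 35345, nat_lit 29513, nat_lit 31457, nat_lit 30809, nat_lit 31133, nat_lit 30917, nat_lit 31025, nat_lit 30953, nat_lit 30973, nat_lit 50653] (nat_lit 1) [] false,
   Spec.mk (nat_lit 30973) (nat_lit 0) [nat_lit 17851, nat_lit 44095, nat_lit 35347, nat_lit 29515, nat_lit 31459, nat_lit 30811, nat_lit 31135, nat_lit 30919, nat_lit 31027, nat_lit 30955, nat_lit 30979, nat_lit 30971, nat_lit 30975, nat_lit 50655, nat_lit 11291] (nat_lit 1) [] false,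
   Spec.mk (nat_lit 30975) (nat_lit 0) [nat_lit 17853, nat_lit 44097, nat_lit 35349, nat_lit 29517, nat_lit 31461, nat_lit 30813, nat_lit 31137, nat_lit 30921, nat_lit 31029, nat_lit 30957, nat_lit 30981, nat_lit 30973, nat_lit 11293] (nat_lit 3) [] false,
   Spec.mk (nat_lit 30979) (nat_lit 0) [nat_lit 17857, nat_lit 44101, nat_lit 35353, nat_lit 29521, nat_lit 31465, nat_lit 30817, nat_lit 31141, nat_lit 30925, nat_lit 31033, nat_lit 30961, nat_lit 30997, nat_lit 30973, nat_lit 30981, nat_lit 50661, nat_lit 11297] (nat_lit 1) [] false,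
   Spec.mk (nat_lit 30981) (nat_lit 0) [nat_lit 17859, nat_lit 44103, nat_lit 35355, nat_lit 29523, nat_lit 31467, nat_lit 30819, nat_lit 31143, nat_lit 30927, nat_lit 31035, nat_lit 30963, nat_lit 30999, nat_lit 30975, nat_lit 30987, nat_lit 30979, nat_lit 11299] (nat_lit 1) [] false,
   Spec.mk (nat_lit 30987) (nat_lit 0) [nat_lit 17865, nat_lit 44109, nat_lit 35361, nat_lit 29529, nat_lit 31473, nat_lit 30825, nat_lit 31149, nat_lit 30933, nat_lit 31041, nat_lit 31005, nat_lit 30981, nat_lit 11305] (nat_lit 1) [] false,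
   Spec.mk (nat_lit 30997) (nat_lit 0) [nat_lit 17875, nat_lit 44119, nat_lit 35371, nat_lit 29539, nat_lit 31483, nat_lit 30835, nat_lit 31159, nat_lit 31051, nat_lit 30979, nat_lit 30999, nat_lit 50679, nat_lit 11315] (nat_lit 1) [] false,
   Spec.mk (nat_lit 30999) (nat_lit 0) [nat_lit 17877, nat_lit 44121, nat_lit 35373, nat_lit 29541, nat_lit 31485, nat_lit 30837, nat_lit 31161, nat_lit 31053, nat_lit 30981, nat_lit 31005, nat_lit 30997, nat_lit 11317] (nat_lit 2) [] false,
   Spec.mk (nat_lit 31005) (nat_lit 0) [nat_lit 17883, nat_lit 44127, nat_lit 35379, nat_lit 29547, nat_lit 31491, nat_lit 30843, nat_lit 31167, nat_lit 31059, nat_lit 30987, nat_lit 30999, nat_lit 11323] (nat_lit 0) [] false,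
   Spec.mk (nat_lit 31025) (nat_lit 0) [nat_lit 17903, nat_lit 44147, nat_lit 35399, nat_lit 29567, nat_lit 31511, nat_lit 31187, nat_lit 30971, nat_lit 31027, nat_lit 50707] (nat_lit 1) [] false,
   Spec.mk (nat_lit 31027) (nat_lit 0) [nat_lit 17905, nat_lit 44149, nat_lit 35401, nat_lit 29569, nat_lit 31513, nat_lit 31189, nat_lit 30973, nat_lit 31033, nat_lit 31025, nat_lit 31029, nat_lit 50709, nat_lit 11345] (nat_lit 1) [] false,
   Spec.mk (nat_lit 31029) (nat_lit 0) [nat_lit 17907, nat_lit 44151, nat_lit 35403, nat_lit 29571, nat_lit 31515, nat_lit 31191, nat_lit 30975, nat_lit 31035, nat_lit 31027, nat_lit 11347] (nat_lit 3) [] false,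
   Spec.mk (nat_lit 31033) (nat_lit 0) [nat_lit 17911, nat_lit 44155, nat_lit 35407, nat_lit 29575, nat_lit 31519, nat_lit 31195, nat_lit 30979, nat_lit 31051, nat_lit 31027, nat_lit 31035, nat_lit 50715, nat_lit 11351] (nat_lit 2) [] false,
   Spec.mk (nat_lit 31035) (nat_lit 0) [nat_lit 17913, nat_lit 44157, nat_lit 35409, nat_lit 29577, nat_lit 31521, nat_lit 31197, nat_lit 30981, nat_lit 31053, nat_lit 31029, nat_lit 31041, nat_lit 31033, nat_lit 11353] (nat_lit 2) [] false,
   Spec.mk (nat_lit 31041) (nat_lit 0) [nat_lit 17919, nat_lit 44163, nat_lit 35415, nat_lit 29583, nat_lit 31527, nat_lit 31203, nat_lit 30987, nat_lit 31059, nat_lit 31035, nat_lit 11359] (nat_lit 3) [] false,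
   Spec.mk (nat_lit 31051) (nat_lit 0) [nat_lit 17929, nat_lit 44173, nat_lit 35425, nat_lit 29593, nat_lit 31537, nat_lit 31213, nat_lit 30997, nat_lit 31033, nat_lit 31053, nat_lit 50733, nat_lit 11369] (nat_lit 0) [] false,
   Spec.mk (nat_lit 31053) (nat_lit 0) [nat_lit 17931, nat_lit 44175, nat_lit 35427, nat_lit 29595, nat_lit 31539, nat_lit 31215, nat_lit 30999, nat_lit 31035, nat_lit 31059, nat_lit 31051, nat_lit 11371] (nat_lit 1) [] false,
   Spec.mk (nat_lit 31059) (nat_lit 0) [nat_lit 17937, nat_lit 44181, nat_lit 35433, nat_lit 29601, nat_lit 31545, nat_lit 31221, nat_lit 31005, nat_lit 31041, nat_lit 31077, nat_lit 31053, nat_lit 11377] (nat_lit 0) [] false,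
   Spec.mk (nat_lit 31077) (nat_lit 1) [nat_lit 17955, nat_lit 44199, nat_lit 35451, nat_lit 29619, nat_lit 31563, nat_lit 31239, nat_lit 31059, nat_lit 11395] (nat_lit 0) [] false,
   Spec.mk (nat_lit 31109) (nat_lit 0) [nat_lit 17987, nat_lit 44231, nat_lit 35483, nat_lit 29651, nat_lit 31595, nat_lit 30947, nat_lit 31115, nat_lit 31111, nat_lit 50791] (nat_lit 1) [] false,
   Spec.mk (nat_lit 31111) (nat_lit 0) [nat_lit 17989, nat_lit 44233, nat_lit 35485, nat_lit 29653, nat_lit 31597, nat_lit 30949, nat_lit 31117, nat_lit 31109, nat_lit 50793, nat_lit 11429] (nat_lit 2) [] false,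
   Spec.mk (nat_lit 31115) (nat_lit 0) [nat_lit 17993, nat_lit 44237, nat_lit 35489, nat_lit 29657, nat_lit 31601, nat_lit 30953, nat_lit 31133, nat_lit 31109, nat_lit 31117, nat_lit 50797] (nat_lit 3) [] false,
   Spec.mk (nat_lit 31117) (nat_lit 0) [nat_lit 17995, nat_lit 44239, nat_lit 35491, nat_lit 29659, nat_lit 31603, nat_lit 30955, nat_lit 31135, nat_lit 31111, nat_lit 31123, nat_lit 31115, nat_lit 31119, nat_lit 50799, nat_lit 11435] (nat_lit 2) [] false,
   Spec.mk (nat_lit 31119) (nat_lit 0) [nat_lit 17997, nat_lit 44241, nat_lit 35493, nat_lit 29661, nat_lit 31605, nat_lit 30957, nat_lit 31137, nat_lit 31125, nat_lit 31117, nat_lit 11437] (nat_lit 3) [] false,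
   Spec.mk (nat_lit 31123) (nat_lit 0) [nat_lit 18001, nat_lit 44245, nat_lit 35497, nat_lit 29665, nat_lit 31609, nat_lit 30961, nat_lit 31141, nat_lit 31117, nat_lit 31125, nat_lit 50805, nat_lit 11441] (nat_lit 4) [] false,
   Spec.mk (nat_lit 31125) (nat_lit 0) [nat_lit 18003, nat_lit 44247, nat_lit 35499, nat_lit 29667, nat_lit 31611, nat_lit 30963, nat_lit 31143, nat_lit 31119, nat_lit 31123, nat_lit 11443] (nat_lit 3) [] false,
   Spec.mk (nat_lit 31133) (nat_lit 0) [nat_lit 18011, nat_lit 44255, nat_lit 35507, nat_lit 29675, nat_lit 31619, nat_lit 30971, nat_lit 31187, nat_lit 31115, nat_lit 31135, nat_lit 50815] (nat_lit 3) [] false]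

noncomputable def sp85 : List Spec :=
  [Spec.mk (nat_lit 31135) (nat_lit 0) [nat_lit 18013, nat_lit 44257, nat_lit 35509, nat_lit 29677, nat_lit 31621, nat_lit 30973, nat_lit 31189, nat_lit 31117, nat_lit 31141, nat_lit 31133, nat_lit 31137, nat_lit 50817, nat_lit 11453] (nat_lit 3) [] false,
   Spec.mk (nat_lit 31137) (nat_lit 0) [nat_lit 18015, nat_lit 44259, nat_lit 35511, nat_lit 29679, nat_lit 31623, nat_lit 30975, nat_lit 31191, nat_lit 31119, nat_lit 31143, nat_lit 31135, nat_lit 11455] (nat_lit 5) [] false,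
   Spec.mk (nat_lit 31141) (nat_lit 0) [nat_lit 18019, nat_lit 44263, nat_lit 35515, nat_lit 29683, nat_lit 31627, nat_lit 30979, nat_lit 31195, nat_lit 31123, nat_lit 31159, nat_lit 31135, nat_lit 31143, nat_lit 50823, nat_lit 11459] (nat_lit 3) [] false,
   Spec.mk (nat_lit 31143) (nat_lit 0) [nat_lit 18021, nat_lit 44265, nat_lit 35517, nat_lit 29685, nat_lit 31629, nat_lit 30981, nat_lit 31197, nat_lit 31125, nat_lit 31161, nat_lit 31137, nat_lit 31149, nat_lit 31141, nat_lit 11461] (nat_lit 3) [] false,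
   Spec.mk (nat_lit 31149) (nat_lit 0) [nat_lit 18027, nat_lit 44271, nat_lit 35523, nat_lit 29691, nat_lit 31635, nat_lit 30987, nat_lit 31203, nat_lit 31167, nat_lit 31143, nat_lit 11467] (nat_lit 3) [] false,
   Spec.mk (nat_lit 31159) (nat_lit 0) [nat_lit 18037, nat_lit 44281, nat_lit 35533, nat_lit 29701, nat_lit 31645, nat_lit 30997, nat_lit 31213, nat_lit 31141, nat_lit 31161, nat_lit 50841, nat_lit 11477] (nat_lit 4) [] false,
   Spec.mk (nat_lit 31161) (nat_lit 0) [nat_lit 18039, nat_lit 44283, nat_lit 35535, nat_lit 29703, nat_lit 31647, nat_lit 30999, nat_lit 31215, nat_lit 31143, nat_lit 31167, nat_lit 31159, nat_lit 11479] (nat_lit 5) [] false,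
   Spec.mk (nat_lit 31167) (nat_lit 0) [nat_lit 18045, nat_lit 44289, nat_lit 35541, nat_lit 29709, nat_lit 31653, nat_lit 31005, nat_lit 31221, nat_lit 31149, nat_lit 31161, nat_lit 11485] (nat_lit 3) [] false,
   Spec.mk (nat_lit 31187) (nat_lit 0) [nat_lit 18065, nat_lit 44309, nat_lit 35561, nat_lit 29729, nat_lit 31673, nat_lit 31025, nat_lit 31133, nat_lit 31189, nat_lit 50869] (nat_lit 1) [] false,
   Spec.mk (nat_lit 31189) (nat_lit 0) [nat_lit 18067, nat_lit 44311, nat_lit 35563, nat_lit 29731, nat_lit 31675, nat_lit 31027, nat_lit 31135, nat_lit 31195, nat_lit 31187, nat_lit 31191, nat_lit 50871, nat_lit 11507] (nat_lit 1) [] false,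
   Spec.mk (nat_lit 31191) (nat_lit 0) [nat_lit 18069, nat_lit 44313, nat_lit 35565, nat_lit 29733, nat_lit 31677, nat_lit 31029, nat_lit 31137, nat_lit 31197, nat_lit 31189, nat_lit 11509] (nat_lit 3) [] false,
   Spec.mk (nat_lit 31195) (nat_lit 0) [nat_lit 18073, nat_lit 44317, nat_lit 35569, nat_lit 29737, nat_lit 31681, nat_lit 31033, nat_lit 31141, nat_lit 31213, nat_lit 31189, nat_lit 31197, nat_lit 50877, nat_lit 11513] (nat_lit 2) [] false,
   Spec.mk (nat_lit 31197) (nat_lit 0) [nat_lit 18075, nat_lit 44319, nat_lit 35571, nat_lit 29739, nat_lit 31683, nat_lit 31035, nat_lit 31143, nat_lit 31215, nat_lit 31191, nat_lit 31203, nat_lit 31195, nat_lit 11515] (nat_lit 2) [] false,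
   Spec.mk (nat_lit 31203) (nat_lit 0) [nat_lit 18081, nat_lit 44325, nat_lit 35577, nat_lit 29745, nat_lit 31689, nat_lit 31041, nat_lit 31149, nat_lit 31221, nat_lit 31197, nat_lit 11521] (nat_lit 3) [] false,
   Spec.mk (nat_lit 31213) (nat_lit 0) [nat_lit 18091, nat_lit 44335, nat_lit 35587, nat_lit 29755, nat_lit 31699, nat_lit 31051, nat_lit 31159, nat_lit 31267, nat_lit 31195, nat_lit 31215, nat_lit 50895, nat_lit 11531] (nat_lit 1) [] false,
   Spec.mk (nat_lit 31215) (nat_lit 0) [nat_lit 18093, nat_lit 44337, nat_lit 35589, nat_lit 29757, nat_lit 31701, nat_lit 31053, nat_lit 31161, nat_lit 31269, nat_lit 31197, nat_lit 31221, nat_lit 31213, nat_lit 11533] (nat_lit 2) [] false,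
   Spec.mk (nat_lit 31221) (nat_lit 0) [nat_lit 18099, nat_lit 44343, nat_lit 35595, nat_lit 29763, nat_lit 31707, nat_lit 31059, nat_lit 31167, nat_lit 31275, nat_lit 31203, nat_lit 31239, nat_lit 31215, nat_lit 11539] (nat_lit 1) [] false,
   Spec.mk (nat_lit 31239) (nat_lit 0) [nat_lit 18117, nat_lit 44361, nat_lit 35613, nat_lit 29781, nat_lit 31725, nat_lit 31077, nat_lit 31293, nat_lit 31221, nat_lit 11557] (nat_lit 1) [] false,
   Spec.mk (nat_lit 31267) (nat_lit 0) [nat_lit 18145, nat_lit 44389, nat_lit 35641, nat_lit 29809, nat_lit 31753, nat_lit 31213, nat_lit 31269, nat_lit 50949, nat_lit 11585] (nat_lit 0) [] false,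
   Spec.mk (nat_lit 31269) (nat_lit 0) [nat_lit 18147, nat_lit 44391, nat_lit 35643, nat_lit 29811, nat_lit 31755, nat_lit 31215, nat_lit 31275, nat_lit 31267, nat_lit 11587] (nat_lit 1) [] false,
   Spec.mk (nat_lit 31275) (nat_lit 0) [nat_lit 18153, nat_lit 44397, nat_lit 35649, nat_lit 29817, nat_lit 31761, nat_lit 31221, nat_lit 31293, nat_lit 31269, nat_lit 11593] (nat_lit 1) [] false,
   Spec.mk (nat_lit 31293) (nat_lit 1) [nat_lit 18171, nat_lit 44415, nat_lit 35667, nat_lit 29835, nat_lit 31779, nat_lit 31239, nat_lit 31275, nat_lit 11611] (nat_lit 0) [] false,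
   Spec.mk (nat_lit 31355) (nat_lit 3) [nat_lit 18233, nat_lit 44477, nat_lit 35729, nat_lit 29897, nat_lit 30869, nat_lit 31361, nat_lit 51037] (nat_lit 0) [] false,
   Spec.mk (nat_lit 31361) (nat_lit 2) [nat_lit 18239, nat_lit 44483, nat_lit 35735, nat_lit 29903, nat_lit 30875, nat_lit 31379, nat_lit 31355, nat_lit 31367, nat_lit 31363, nat_lit 51043] (nat_lit 0) [] false,
   Spec.mk (nat_lit 31363) (nat_lit 2) [nat_lit 18241, nat_lit 44485, nat_lit 35737, nat_lit 29905, nat_lit 30877, nat_lit 31381, nat_lit 31369, nat_lit 31361, nat_lit 51045, nat_lit 11681] (nat_lit 0) [] false,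
   Spec.mk (nat_lit 31367) (nat_lit 0) [nat_lit 18245, nat_lit 44489, nat_lit 35741, nat_lit 29909, nat_lit 30881, nat_lit 31385, nat_lit 31361, nat_lit 31369, nat_lit 51049] (nat_lit 1) [] false,
   Spec.mk (nat_lit 31369) (nat_lit 1) [nat_lit 18247, nat_lit 44491, nat_lit 35743, nat_lit 29911, nat_lit 30883, nat_lit 31387, nat_lit 31363, nat_lit 31367, nat_lit 31371, nat_lit 51051, nat_lit 11687] (nat_lit 0) [] false,
   Spec.mk (nat_lit 31371) (nat_lit 1) [nat_lit 18249, nat_lit 44493, nat_lit 35745, nat_lit 29913, nat_lit 30885, nat_lit 31389, nat_lit 31369, nat_lit 11689] (nat_lit 0) [] false,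
   Spec.mk (nat_lit 31379) (nat_lit 1) [nat_lit 18257, nat_lit 44501, nat_lit 35753, nat_lit 29921, nat_lit 30893, nat_lit 31433, nat_lit 31361, nat_lit 31385, nat_lit 31381, nat_lit 51061] (nat_lit 0) [] false,
   Spec.mk (nat_lit 31381) (nat_lit 0) [nat_lit 18259, nat_lit 44503, nat_lit 35755, nat_lit 29923, nat_lit 30895, nat_lit 31435, nat_lit 31363, nat_lit 31387, nat_lit 31379, nat_lit 51063, nat_lit 11699] (nat_lit 0) [] false,
   Spec.mk (nat_lit 31385) (nat_lit 0) [nat_lit 18263, nat_lit 44507, nat_lit 35759, nat_lit 29927, nat_lit 30899, nat_lit 31439, nat_lit 31367, nat_lit 31403, nat_lit 31379, nat_lit 31387, nat_lit 51067] (nat_lit 0) [] false,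
   Spec.mk (nat_lit 31387) (nat_lit 1) [nat_lit 18265, nat_lit 44509, nat_lit 35761, nat_lit 29929, nat_lit 30901, nat_lit 31441, nat_lit 31369, nat_lit 31405, nat_lit 31381, nat_lit 31393, nat_lit 31385, nat_lit 31389, nat_lit 51069, nat_lit 11705] (nat_lit 0) [] false,
   Spec.mk (nat_lit 31389) (nat_lit 0) [nat_lit 18267, nat_lit 44511, nat_lit 35763, nat_lit 29931, nat_lit 30903, nat_lit 31443, nat_lit 31371, nat_lit 31407, nat_lit 31395, nat_lit 31387, nat_lit 11707] (nat_lit 0) [] false,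
   Spec.mk (nat_lit 31393) (nat_lit 0) [nat_lit 18271, nat_lit 44515, nat_lit 35767, nat_lit 29935, nat_lit 30907, nat_lit 31447, nat_lit 31411, nat_lit 31387, nat_lit 31395, nat_lit 51075, nat_lit 11711] (nat_lit 0) [] false,
   Spec.mk (nat_lit 31395) (nat_lit 1) [nat_lit 18273, nat_lit 44517, nat_lit 35769, nat_lit 29937, nat_lit 30909, nat_lit 31449, nat_lit 31413, nat_lit 31389, nat_lit 31393, nat_lit 11713] (nat_lit 0) [] false,
   Spec.mk (nat_lit 31403) (nat_lit 0) [nat_lit 18281, nat_lit 44525, nat_lit 35777, nat_lit 29945, nat_lit 30917, nat_lit 31457, nat_lit 31385, nat_lit 31405, nat_lit 51085] (nat_lit 1) [] false,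
   Spec.mk (nat_lit 31405) (nat_lit 0) [nat_lit 18283, nat_lit 44527, nat_lit 35779, nat_lit 29947, nat_lit 30919, nat_lit 31459, nat_lit 31387, nat_lit 31411, nat_lit 31403, nat_lit 31407, nat_lit 51087, nat_lit 11723] (nat_lit 1) [] false,
   Spec.mk (nat_lit 31407) (nat_lit 0) [nat_lit 18285, nat_lit 44529, nat_lit 35781, nat_lit 29949, nat_lit 30921, nat_lit 31461, nat_lit 31389, nat_lit 31413, nat_lit 31405, nat_lit 11725] (nat_lit 3) [] false,
   Spec.mk (nat_lit 31411) (nat_lit 0) [nat_lit 18289, nat_lit 44533, nat_lit 35785, nat_lit 29953, nat_lit 30925, nat_lit 31465, nat_lit 31393, nat_lit 31405, nat_lit 31413, nat_lit 51093, nat_lit 11729] (nat_lit 0) [] false,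
   Spec.mk (nat_lit 31413) (nat_lit 0) [nat_lit 18291, nat_lit 44535, nat_lit 35787, nat_lit 29955, nat_lit 30927, nat_lit 31467, nat_lit 31395, nat_lit 31407, nat_lit 31419, nat_lit 31411, nat_lit 11731] (nat_lit 0) [] false,
   Spec.mk (nat_lit 31419) (nat_lit 1) [nat_lit 18297, nat_lit 44541, nat_lit 35793, nat_lit 29961, nat_lit 30933, nat_lit 31473, nat_lit 31413, nat_lit 11737] (nat_lit 0) [] false,
   Spec.mk (nat_lit 31433) (nat_lit 1) [nat_lit 18311, nat_lit 44555, nat_lit 35807, nat_lit 29975, nat_lit 30947, nat_lit 31595, nat_lit 31379, nat_lit 31439, nat_lit 31435, nat_lit 51115] (nat_lit 0) [] false,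
   Spec.mk (nat_lit 31435) (nat_lit 0) [nat_lit 18313, nat_lit 44557, nat_lit 35809, nat_lit 29977, nat_lit 30949, nat_lit 31597, nat_lit 31381, nat_lit 31441, nat_lit 31433, nat_lit 51117, nat_lit 11753] (nat_lit 0) [] false,
   Spec.mk (nat_lit 31439) (nat_lit 0) [nat_lit 18317, nat_lit 44561, nat_lit 35813, nat_lit 29981, nat_lit 30953, nat_lit 31601, nat_lit 31385, nat_lit 31457, nat_lit 31433, nat_lit 31441, nat_lit 51121] (nat_lit 1) [] false,
   Spec.mk (nat_lit 31441) (nat_lit 0) [nat_lit 18319, nat_lit 44563, nat_lit 35815, nat_lit 29983, nat_lit 30955, nat_lit 31603, nat_lit 31387, nat_lit 31459, nat_lit 31435, nat_lit 31447, nat_lit 31439, nat_lit 31443, nat_lit 51123, nat_lit 11759] (nat_lit 0) [] false,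
   Spec.mk (nat_lit 31443) (nat_lit 0) [nat_lit 18321, nat_lit 44565, nat_lit 35817, nat_lit 29985, nat_lit 30957, nat_lit 31605, nat_lit 31389, nat_lit 31461, nat_lit 31449, nat_lit 31441, nat_lit 11761] (nat_lit 1) [] false,
   Spec.mk (nat_lit 31447) (nat_lit 0) [nat_lit 18325, nat_lit 44569, nat_lit 35821, nat_lit 29989, nat_lit 30961, nat_lit 31609, nat_lit 31393, nat_lit 31465, nat_lit 31441, nat_lit 31449, nat_lit 51129, nat_lit 11765] (nat_lit 2) [] false,
   Spec.mk (nat_lit 31449) (nat_lit 0) [nat_lit 18327, nat_lit 44571, nat_lit 35823, nat_lit 29991, nat_lit 30963, nat_lit 31611, nat_lit 31395, nat_lit 31467, nat_lit 31443, nat_lit 31447, nat_lit 11767] (nat_lit 1) [] false,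
   Spec.mk (nat_lit 31457) (nat_lit 0) [nat_lit 18335, nat_lit 44579, nat_lit 35831, nat_lit 29999, nat_lit 30971, nat_lit 31619, nat_lit 31403, nat_lit 31511, nat_lit 31439, nat_lit 31459, nat_lit 51139] (nat_lit 0) [] false,
   Spec.mk (nat_lit 31459) (nat_lit 0) [nat_lit 18337, nat_lit 44581, nat_lit 35833, nat_lit 30001, nat_lit 30973, nat_lit 31621, nat_lit 31405, nat_lit 31513, nat_lit 31441, nat_lit 31465, nat_lit 31457, nat_lit 31461, nat_lit 51141, nat_lit 11777] (nat_lit 0) [] false,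
   Spec.mk (nat_lit 31461) (nat_lit 0) [nat_lit 18339, nat_lit 44583, nat_lit 35835, nat_lit 30003, nat_lit 30975, nat_lit 31623, nat_lit 31407, nat_lit 31515, nat_lit 31443, nat_lit 31467, nat_lit 31459, nat_lit 11779] (nat_lit 2) [] false,
   Spec.mk (nat_lit 31465) (nat_lit 0) [nat_lit 18343, nat_lit 44587, nat_lit 35839, nat_lit 30007, nat_lit 30979, nat_lit 31627, nat_lit 31411, nat_lit 31519, nat_lit 31447, nat_lit 31483, nat_lit 31459, nat_lit 31467, nat_lit 51147, nat_lit 11783] (nat_lit 0) [] false,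
   Spec.mk (nat_lit 31467) (nat_lit 0) [nat_lit 18345, nat_lit 44589, nat_lit 35841, nat_lit 30009, nat_lit 30981, nat_lit 31629, nat_lit 31413, nat_lit 31521, nat_lit 31449, nat_lit 31485, nat_lit 31461, nat_lit 31473, nat_lit 31465, nat_lit 11785] (nat_lit 0) [] false,
   Spec.mk (nat_lit 31473) (nat_lit 0) [nat_lit 18351, nat_lit 44595, nat_lit 35847, nat_lit 30015, nat_lit 30987, nat_lit 31635, nat_lit 31419, nat_lit 31527, nat_lit 31491, nat_lit 31467, nat_lit 11791] (nat_lit 0) [] false,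
   Spec.mk (nat_lit 31483) (nat_lit 0) [nat_lit 18361, nat_lit 44605, nat_lit 35857, nat_lit 30025, nat_lit 30997, nat_lit 31645, nat_lit 31537, nat_lit 31465, nat_lit 31485, nat_lit 51165, nat_lit 11801] (nat_lit 0) [] false,
   Spec.mk (nat_lit 31485) (nat_lit 0) [nat_lit 18363, nat_lit 44607, nat_lit 35859, nat_lit 30027, nat_lit 30999, nat_lit 31647, nat_lit 31539, nat_lit 31467, nat_lit 31491, nat_lit 31483, nat_lit 11803] (nat_lit 1) [] false,
   Spec.mk (nat_lit 31491) (nat_lit 1) [nat_lit 18369, nat_lit 44613, nat_lit 35865, nat_lit 30033, nat_lit 31005, nat_lit 31653, nat_lit 31545, nat_lit 31473, nat_lit 31485, nat_lit 11809] (nat_lit 0) [] false,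
   Spec.mk (nat_lit 31511) (nat_lit 0) [nat_lit 18389, nat_lit 44633, nat_lit 35885, nat_lit 30053, nat_lit 31025, nat_lit 31673, nat_lit 31457, nat_lit 31513, nat_lit 51193] (nat_lit 1) [] false,
   Spec.mk (nat_lit 31513) (nat_lit 0) [nat_lit 18391, nat_lit 44635, nat_lit 35887, nat_lit 30055, nat_lit 31027, nat_lit 31675, nat_lit 31459, nat_lit 31519, nat_lit 31511, nat_lit 31515, nat_lit 51195, nat_lit 11831] (nat_lit 1) [] false,
   Spec.mk (nat_lit 31515) (nat_lit 0) [nat_lit 18393, nat_lit 44637, nat_lit 35889, nat_lit 30057, nat_lit 31029, nat_lit 31677, nat_lit 31461, nat_lit 31521, nat_lit 31513, nat_lit 11833] (nat_lit 3) [] false]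

noncomputable def sp86 : List Spec :=
  [Spec.mk (nat_lit 31519) (nat_lit 0) [nat_lit 18397, nat_lit 44641, nat_lit 35893, nat_lit 30061, nat_lit 31033, nat_lit 31681, nat_lit 31465, nat_lit 31537, nat_lit 31513, nat_lit 31521, nat_lit 51201, nat_lit 11837] (nat_lit 2) [] false,
   Spec.mk (nat_lit 31521) (nat_lit 0) [nat_lit 18399, nat_lit 44643, nat_lit 35895, nat_lit 30063, nat_lit 31035, nat_lit 31683, nat_lit 31467, nat_lit 31539, nat_lit 31515, nat_lit 31527, nat_lit 31519, nat_lit 11839] (nat_lit 2) [] false,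
   Spec.mk (nat_lit 31527) (nat_lit 0) [nat_lit 18405, nat_lit 44649, nat_lit 35901, nat_lit 30069, nat_lit 31041, nat_lit 31689, nat_lit 31473, nat_lit 31545, nat_lit 31521, nat_lit 11845] (nat_lit 3) [] false,
   Spec.mk (nat_lit 31537) (nat_lit 0) [nat_lit 18415, nat_lit 44659, nat_lit 35911, nat_lit 30079, nat_lit 31051, nat_lit 31699, nat_lit 31483, nat_lit 31519, nat_lit 31539, nat_lit 51219, nat_lit 11855] (nat_lit 0) [] false,
   Spec.mk (nat_lit 31539) (nat_lit 0) [nat_lit 18417, nat_lit 44661, nat_lit 35913, nat_lit 30081, nat_lit 31053, nat_lit 31701, nat_lit 31485, nat_lit 31521, nat_lit 31545, nat_lit 31537, nat_lit 11857] (nat_lit 1) [] false,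
   Spec.mk (nat_lit 31545) (nat_lit 0) [nat_lit 18423, nat_lit 44667, nat_lit 35919, nat_lit 30087, nat_lit 31059, nat_lit 31707, nat_lit 31491, nat_lit 31527, nat_lit 31563, nat_lit 31539, nat_lit 11863] (nat_lit 0) [] false,
   Spec.mk (nat_lit 31563) (nat_lit 1) [nat_lit 18441, nat_lit 44685, nat_lit 35937, nat_lit 30105, nat_lit 31077, nat_lit 31725, nat_lit 31545, nat_lit 11881] (nat_lit 0) [] false,
   Spec.mk (nat_lit 31595) (nat_lit 2) [nat_lit 18473, nat_lit 44717, nat_lit 35969, nat_lit 30137, nat_lit 31109, nat_lit 32081, nat_lit 31433, nat_lit 31601, nat_lit 31597, nat_lit 51277] (nat_lit 0) [] false,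
   Spec.mk (nat_lit 31597) (nat_lit 1) [nat_lit 18475, nat_lit 44719, nat_lit 35971, nat_lit 30139, nat_lit 31111, nat_lit 32083, nat_lit 31435, nat_lit 31603, nat_lit 31595, nat_lit 51279, nat_lit 11915] (nat_lit 0) [] false,
   Spec.mk (nat_lit 31601) (nat_lit 0) [nat_lit 18479, nat_lit 44723, nat_lit 35975, nat_lit 30143, nat_lit 31115, nat_lit 32087, nat_lit 31439, nat_lit 31619, nat_lit 31595, nat_lit 31603, nat_lit 51283] (nat_lit 0) [] false,
   Spec.mk (nat_lit 31603) (nat_lit 1) [nat_lit 18481, nat_lit 44725, nat_lit 35977, nat_lit 30145, nat_lit 31117, nat_lit 32089, nat_lit 31441, nat_lit 31621, nat_lit 31597, nat_lit 31609, nat_lit 31601, nat_lit 31605, nat_lit 51285, nat_lit 11921] (nat_lit 0) [] false,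
   Spec.mk (nat_lit 31605) (nat_lit 0) [nat_lit 18483, nat_lit 44727, nat_lit 35979, nat_lit 30147, nat_lit 31119, nat_lit 32091, nat_lit 31443, nat_lit 31623, nat_lit 31611, nat_lit 31603, nat_lit 11923] (nat_lit 0) [] false,
   Spec.mk (nat_lit 31609) (nat_lit 0) [nat_lit 18487, nat_lit 44731, nat_lit 35983, nat_lit 30151, nat_lit 31123, nat_lit 32095, nat_lit 31447, nat_lit 31627, nat_lit 31603, nat_lit 31611, nat_lit 51291, nat_lit 11927] (nat_lit 1) [] false,
   Spec.mk (nat_lit 31611) (nat_lit 0) [nat_lit 18489, nat_lit 44733, nat_lit 35985, nat_lit 30153, nat_lit 31125, nat_lit 32097, nat_lit 31449, nat_lit 31629, nat_lit 31605, nat_lit 31609, nat_lit 11929] (nat_lit 0) [] false,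
   Spec.mk (nat_lit 31619) (nat_lit 0) [nat_lit 18497, nat_lit 44741, nat_lit 35993, nat_lit 30161, nat_lit 31133, nat_lit 32105, nat_lit 31457, nat_lit 31673, nat_lit 31601, nat_lit 31621, nat_lit 51301] (nat_lit 0) [] false,
   Spec.mk (nat_lit 31621) (nat_lit 0) [nat_lit 18499, nat_lit 44743, nat_lit 35995, nat_lit 30163, nat_lit 31135, nat_lit 32107, nat_lit 31459, nat_lit 31675, nat_lit 31603, nat_lit 31627, nat_lit 31619, nat_lit 31623, nat_lit 51303, nat_lit 11939] (nat_lit 0) [] false,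
   Spec.mk (nat_lit 31623) (nat_lit 0) [nat_lit 18501, nat_lit 44745, nat_lit 35997, nat_lit 30165, nat_lit 31137, nat_lit 32109, nat_lit 31461, nat_lit 31677, nat_lit 31605, nat_lit 31629, nat_lit 31621, nat_lit 11941] (nat_lit 2) [] false,
   Spec.mk (nat_lit 31627) (nat_lit 0) [nat_lit 18505, nat_lit 44749, nat_lit 36001, nat_lit 30169, nat_lit 31141, nat_lit 32113, nat_lit 31465, nat_lit 31681, nat_lit 31609, nat_lit 31645, nat_lit 31621, nat_lit 31629, nat_lit 51309, nat_lit 11945] (nat_lit 0) [] false,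
   Spec.mk (nat_lit 31629) (nat_lit 0) [nat_lit 18507, nat_lit 44751, nat_lit 36003, nat_lit 30171, nat_lit 31143, nat_lit 32115, nat_lit 31467, nat_lit 31683, nat_lit 31611, nat_lit 31647, nat_lit 31623, nat_lit 31635, nat_lit 31627, nat_lit 11947] (nat_lit 0) [] false,
   Spec.mk (nat_lit 31635) (nat_lit 0) [nat_lit 18513, nat_lit 44757, nat_lit 36009, nat_lit 30177, nat_lit 31149, nat_lit 32121, nat_lit 31473, nat_lit 31689, nat_lit 31653, nat_lit 31629, nat_lit 11953] (nat_lit 0) [] false,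
   Spec.mk (nat_lit 31645) (nat_lit 0) [nat_lit 18523, nat_lit 44767, nat_lit 36019, nat_lit 30187, nat_lit 31159, nat_lit 32131, nat_lit 31483, nat_lit 31699, nat_lit 31627, nat_lit 31647, nat_lit 51327, nat_lit 11963] (nat_lit 1) [] false,
   Spec.mk (nat_lit 31647) (nat_lit 0) [nat_lit 18525, nat_lit 44769, nat_lit 36021, nat_lit 30189, nat_lit 31161, nat_lit 32133, nat_lit 31485, nat_lit 31701, nat_lit 31629, nat_lit 31653, nat_lit 31645, nat_lit 11965] (nat_lit 2) [] false,
   Spec.mk (nat_lit 31653) (nat_lit 0) [nat_lit 18531, nat_lit 44775, nat_lit 36027, nat_lit 30195, nat_lit 31167, nat_lit 32139, nat_lit 31491, nat_lit 31707, nat_lit 31635, nat_lit 31647, nat_lit 11971] (nat_lit 0) [] false,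
   Spec.mk (nat_lit 31673) (nat_lit 1) [nat_lit 18551, nat_lit 44795, nat_lit 36047, nat_lit 30215, nat_lit 31187, nat_lit 32159, nat_lit 31511, nat_lit 31835, nat_lit 31619, nat_lit 31675, nat_lit 51355] (nat_lit 0) [] false,
   Spec.mk (nat_lit 31675) (nat_lit 1) [nat_lit 18553, nat_lit 44797, nat_lit 36049, nat_lit 30217, nat_lit 31189, nat_lit 32161, nat_lit 31513, nat_lit 31837, nat_lit 31621, nat_lit 31681, nat_lit 31673, nat_lit 31677, nat_lit 51357, nat_lit 11993] (nat_lit 0) [] false,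
   Spec.mk (nat_lit 31677) (nat_lit 0) [nat_lit 18555, nat_lit 44799, nat_lit 36051, nat_lit 30219, nat_lit 31191, nat_lit 32163, nat_lit 31515, nat_lit 31839, nat_lit 31623, nat_lit 31683, nat_lit 31675, nat_lit 11995] (nat_lit 1) [] false,
   Spec.mk (nat_lit 31681) (nat_lit 0) [nat_lit 18559, nat_lit 44803, nat_lit 36055, nat_lit 30223, nat_lit 31195, nat_lit 32167, nat_lit 31519, nat_lit 31843, nat_lit 31627, nat_lit 31699, nat_lit 31675, nat_lit 31683, nat_lit 51363, nat_lit 11999] (nat_lit 0) [] false,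
   Spec.mk (nat_lit 31683) (nat_lit 0) [nat_lit 18561, nat_lit 44805, nat_lit 36057, nat_lit 30225, nat_lit 31197, nat_lit 32169, nat_lit 31521, nat_lit 31845, nat_lit 31629, nat_lit 31701, nat_lit 31677, nat_lit 31689, nat_lit 31681, nat_lit 12001] (nat_lit 0) [] false,
   Spec.mk (nat_lit 31689) (nat_lit 0) [nat_lit 18567, nat_lit 44811, nat_lit 36063, nat_lit 30231, nat_lit 31203, nat_lit 32175, nat_lit 31527, nat_lit 31851, nat_lit 31635, nat_lit 31707, nat_lit 31683, nat_lit 12007] (nat_lit 1) [] false,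
   Spec.mk (nat_lit 31699) (nat_lit 1) [nat_lit 18577, nat_lit 44821, nat_lit 36073, nat_lit 30241, nat_lit 31213, nat_lit 32185, nat_lit 31537, nat_lit 31861, nat_lit 31645, nat_lit 31753, nat_lit 31681, nat_lit 31701, nat_lit 51381, nat_lit 12017] (nat_lit 0) [] false,
   Spec.mk (nat_lit 31701) (nat_lit 0) [nat_lit 18579, nat_lit 44823, nat_lit 36075, nat_lit 30243, nat_lit 31215, nat_lit 32187, nat_lit 31539, nat_lit 31863, nat_lit 31647, nat_lit 31755, nat_lit 31683, nat_lit 31707, nat_lit 31699, nat_lit 12019] (nat_lit 0) [] false,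
   Spec.mk (nat_lit 31707) (nat_lit 1) [nat_lit 18585, nat_lit 44829, nat_lit 36081, nat_lit 30249, nat_lit 31221, nat_lit 32193, nat_lit 31545, nat_lit 31869, nat_lit 31653, nat_lit 31761, nat_lit 31689, nat_lit 31725, nat_lit 31701, nat_lit 12025] (nat_lit 0) [] false,
   Spec.mk (nat_lit 31725) (nat_lit 1) [nat_lit 18603, nat_lit 44847, nat_lit 36099, nat_lit 30267, nat_lit 31239, nat_lit 32211, nat_lit 31563, nat_lit 31887, nat_lit 31779, nat_lit 31707, nat_lit 12043] (nat_lit 0) [] false,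
   Spec.mk (nat_lit 31753) (nat_lit 1) [nat_lit 18631, nat_lit 44875, nat_lit 36127, nat_lit 30295, nat_lit 31267, nat_lit 32239, nat_lit 31915, nat_lit 31699, nat_lit 31755, nat_lit 51435, nat_lit 12071] (nat_lit 0) [] false,
   Spec.mk (nat_lit 31755) (nat_lit 0) [nat_lit 18633, nat_lit 44877, nat_lit 36129, nat_lit 30297, nat_lit 31269, nat_lit 32241, nat_lit 31917, nat_lit 31701, nat_lit 31761, nat_lit 31753, nat_lit 12073] (nat_lit 0) [] false,
   Spec.mk (nat_lit 31761) (nat_lit 0) [nat_lit 18639, nat_lit 44883, nat_lit 36135, nat_lit 30303, nat_lit 31275, nat_lit 32247, nat_lit 31923, nat_lit 31707, nat_lit 31779, nat_lit 31755, nat_lit 12079] (nat_lit 0) [] false,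
   Spec.mk (nat_lit 31779) (nat_lit 2) [nat_lit 18657, nat_lit 44901, nat_lit 36153, nat_lit 30321, nat_lit 31293, nat_lit 32265, nat_lit 31941, nat_lit 31725, nat_lit 31761, nat_lit 12097] (nat_lit 0) [] false,
   Spec.mk (nat_lit 31835) (nat_lit 1) [nat_lit 18713, nat_lit 44957, nat_lit 36209, nat_lit 30377, nat_lit 32321, nat_lit 31673, nat_lit 31837, nat_lit 51517] (nat_lit 0) [] false,
   Spec.mk (nat_lit 31837) (nat_lit 1) [nat_lit 18715, nat_lit 44959, nat_lit 36211, nat_lit 30379, nat_lit 32323, nat_lit 31675, nat_lit 31843, nat_lit 31835, nat_lit 31839, nat_lit 51519, nat_lit 12155] (nat_lit 0) [] false,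
   Spec.mk (nat_lit 31839) (nat_lit 0) [nat_lit 18717, nat_lit 44961, nat_lit 36213, nat_lit 30381, nat_lit 32325, nat_lit 31677, nat_lit 31845, nat_lit 31837, nat_lit 12157] (nat_lit 1) [] false,
   Spec.mk (nat_lit 31843) (nat_lit 0) [nat_lit 18721, nat_lit 44965, nat_lit 36217, nat_lit 30385, nat_lit 32329, nat_lit 31681, nat_lit 31861, nat_lit 31837, nat_lit 31845, nat_lit 51525, nat_lit 12161] (nat_lit 0) [] false,
   Spec.mk (nat_lit 31845) (nat_lit 0) [nat_lit 18723, nat_lit 44967, nat_lit 36219, nat_lit 30387, nat_lit 32331, nat_lit 31683, nat_lit 31863, nat_lit 31839, nat_lit 31851, nat_lit 31843, nat_lit 12163] (nat_lit 0) [] false,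
   Spec.mk (nat_lit 31851) (nat_lit 0) [nat_lit 18729, nat_lit 44973, nat_lit 36225, nat_lit 30393, nat_lit 32337, nat_lit 31689, nat_lit 31869, nat_lit 31845, nat_lit 12169] (nat_lit 1) [] false,
   Spec.mk (nat_lit 31861) (nat_lit 0) [nat_lit 18739, nat_lit 44983, nat_lit 36235, nat_lit 30403, nat_lit 32347, nat_lit 31699, nat_lit 31915, nat_lit 31843, nat_lit 31863, nat_lit 51543, nat_lit 12179] (nat_lit 0) [] false,
   Spec.mk (nat_lit 31863) (nat_lit 0) [nat_lit 18741, nat_lit 44985, nat_lit 36237, nat_lit 30405, nat_lit 32349, nat_lit 31701, nat_lit 31917, nat_lit 31845, nat_lit 31869, nat_lit 31861, nat_lit 12181] (nat_lit 1) [] false,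
   Spec.mk (nat_lit 31869) (nat_lit 0) [nat_lit 18747, nat_lit 44991, nat_lit 36243, nat_lit 30411, nat_lit 32355, nat_lit 31707, nat_lit 31923, nat_lit 31851, nat_lit 31887, nat_lit 31863, nat_lit 12187] (nat_lit 0) [] false,
   Spec.mk (nat_lit 31887) (nat_lit 0) [nat_lit 18765, nat_lit 45009, nat_lit 36261, nat_lit 30429, nat_lit 32373, nat_lit 31725, nat_lit 31941, nat_lit 31869, nat_lit 12205] (nat_lit 1) [] false,
   Spec.mk (nat_lit 31915) (nat_lit 2) [nat_lit 18793, nat_lit 45037, nat_lit 36289, nat_lit 30457, nat_lit 32401, nat_lit 31753, nat_lit 31861, nat_lit 31917, nat_lit 51597, nat_lit 12233] (nat_lit 0) [] false,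
   Spec.mk (nat_lit 31917) (nat_lit 1) [nat_lit 18795, nat_lit 45039, nat_lit 36291, nat_lit 30459, nat_lit 32403, nat_lit 31755, nat_lit 31863, nat_lit 31923, nat_lit 31915, nat_lit 12235] (nat_lit 0) [] false,
   Spec.mk (nat_lit 31923) (nat_lit 1) [nat_lit 18801, nat_lit 45045, nat_lit 36297, nat_lit 30465, nat_lit 32409, nat_lit 31761, nat_lit 31869, nat_lit 31941, nat_lit 31917, nat_lit 12241] (nat_lit 0) [] false,
   Spec.mk (nat_lit 31941) (nat_lit 2) [nat_lit 18819, nat_lit 45063, nat_lit 36315, nat_lit 30483, nat_lit 32427, nat_lit 31779, nat_lit 31887, nat_lit 31995, nat_lit 31923, nat_lit 12259] (nat_lit 0) [] false,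
   Spec.mk (nat_lit 31995) (nat_lit 3) [nat_lit 18873, nat_lit 45117, nat_lit 36369, nat_lit 30537, nat_lit 32481, nat_lit 31941, nat_lit 12313] (nat_lit 0) [] false,
   Spec.mk (nat_lit 32081) (nat_lit 3) [nat_lit 18959, nat_lit 45203, nat_lit 36455, nat_lit 31595, nat_lit 32087, nat_lit 32083, nat_lit 51763] (nat_lit 0) [] false,
   Spec.mk (nat_lit 32083) (nat_lit 2) [nat_lit 18961, nat_lit 45205, nat_lit 36457, nat_lit 31597, nat_lit 32089, nat_lit 32081, nat_lit 51765, nat_lit 12401] (nat_lit 0) [] false,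
   Spec.mk (nat_lit 32087) (nat_lit 1) [nat_lit 18965, nat_lit 45209, nat_lit 36461, nat_lit 31601, nat_lit 32105, nat_lit 32081, nat_lit 32089, nat_lit 51769] (nat_lit 0) [] false,
   Spec.mk (nat_lit 32089) (nat_lit 2) [nat_lit 18967, nat_lit 45211, nat_lit 36463, nat_lit 31603, nat_lit 32107, nat_lit 32083, nat_lit 32095, nat_lit 32087, nat_lit 32091, nat_lit 51771, nat_lit 12407] (nat_lit 0) [] false,
   Spec.mk (nat_lit 32091) (nat_lit 1) [nat_lit 18969, nat_lit 45213, nat_lit 36465, nat_lit 31605, nat_lit 32109, nat_lit 32097, nat_lit 32089, nat_lit 12409] (nat_lit 0) [] false,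
   Spec.mk (nat_lit 32095) (nat_lit 0) [nat_lit 18973, nat_lit 45217, nat_lit 36469, nat_lit 31609, nat_lit 32113, nat_lit 32089, nat_lit 32097, nat_lit 51777, nat_lit 12413] (nat_lit 0) [] false,
   Spec.mk (nat_lit 32097) (nat_lit 1) [nat_lit 18975, nat_lit 45219, nat_lit 36471, nat_lit 31611, nat_lit 32115, nat_lit 32091, nat_lit 32095, nat_lit 12415] (nat_lit 0) [] false,
   Spec.mk (nat_lit 32105) (nat_lit 1) [nat_lit 18983, nat_lit 45227, nat_lit 36479, nat_lit 31619, nat_lit 32159, nat_lit 32087, nat_lit 32107, nat_lit 51787] (nat_lit 0) [] false]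

noncomputable def sp87 : List Spec :=
  [Spec.mk (nat_lit 32107) (nat_lit 1) [nat_lit 18985, nat_lit 45229, nat_lit 36481, nat_lit 31621, nat_lit 32161, nat_lit 32089, nat_lit 32113, nat_lit 32105, nat_lit 32109, nat_lit 51789, nat_lit 12425] (nat_lit 0) [] false,
   Spec.mk (nat_lit 32109) (nat_lit 0) [nat_lit 18987, nat_lit 45231, nat_lit 36483, nat_lit 31623, nat_lit 32163, nat_lit 32091, nat_lit 32115, nat_lit 32107, nat_lit 12427] (nat_lit 1) [] false,
   Spec.mk (nat_lit 32113) (nat_lit 1) [nat_lit 18991, nat_lit 45235, nat_lit 36487, nat_lit 31627, nat_lit 32167, nat_lit 32095, nat_lit 32131, nat_lit 32107, nat_lit 32115, nat_lit 51795, nat_lit 12431] (nat_lit 0) [] false,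
   Spec.mk (nat_lit 32115) (nat_lit 1) [nat_lit 18993, nat_lit 45237, nat_lit 36489, nat_lit 31629, nat_lit 32169, nat_lit 32097, nat_lit 32133, nat_lit 32109, nat_lit 32121, nat_lit 32113, nat_lit 12433] (nat_lit 0) [] false,
   Spec.mk (nat_lit 32121) (nat_lit 1) [nat_lit 18999, nat_lit 45243, nat_lit 36495, nat_lit 31635, nat_lit 32175, nat_lit 32139, nat_lit 32115, nat_lit 12439] (nat_lit 0) [] false,
   Spec.mk (nat_lit 32131) (nat_lit 0) [nat_lit 19009, nat_lit 45253, nat_lit 36505, nat_lit 31645, nat_lit 32185, nat_lit 32113, nat_lit 32133, nat_lit 51813, nat_lit 12449] (nat_lit 0) [] false,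
   Spec.mk (nat_lit 32133) (nat_lit 0) [nat_lit 19011, nat_lit 45255, nat_lit 36507, nat_lit 31647, nat_lit 32187, nat_lit 32115, nat_lit 32139, nat_lit 32131, nat_lit 12451] (nat_lit 1) [] false,
   Spec.mk (nat_lit 32139) (nat_lit 1) [nat_lit 19017, nat_lit 45261, nat_lit 36513, nat_lit 31653, nat_lit 32193, nat_lit 32121, nat_lit 32133, nat_lit 12457] (nat_lit 0) [] false,
   Spec.mk (nat_lit 32159) (nat_lit 1) [nat_lit 19037, nat_lit 45281, nat_lit 36533, nat_lit 31673, nat_lit 32321, nat_lit 32105, nat_lit 32161, nat_lit 51841] (nat_lit 0) [] false,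
   Spec.mk (nat_lit 32161) (nat_lit 1) [nat_lit 19039, nat_lit 45283, nat_lit 36535, nat_lit 31675, nat_lit 32323, nat_lit 32107, nat_lit 32167, nat_lit 32159, nat_lit 32163, nat_lit 51843, nat_lit 12479] (nat_lit 0) [] false,
   Spec.mk (nat_lit 32163) (nat_lit 0) [nat_lit 19041, nat_lit 45285, nat_lit 36537, nat_lit 31677, nat_lit 32325, nat_lit 32109, nat_lit 32169, nat_lit 32161, nat_lit 12481] (nat_lit 1) [] false,
   Spec.mk (nat_lit 32167) (nat_lit 0) [nat_lit 19045, nat_lit 45289, nat_lit 36541, nat_lit 31681, nat_lit 32329, nat_lit 32113, nat_lit 32185, nat_lit 32161, nat_lit 32169, nat_lit 51849, nat_lit 12485] (nat_lit 0) [] false,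
   Spec.mk (nat_lit 32169) (nat_lit 0) [nat_lit 19047, nat_lit 45291, nat_lit 36543, nat_lit 31683, nat_lit 32331, nat_lit 32115, nat_lit 32187, nat_lit 32163, nat_lit 32175, nat_lit 32167, nat_lit 12487] (nat_lit 0) [] false,
   Spec.mk (nat_lit 32175) (nat_lit 0) [nat_lit 19053, nat_lit 45297, nat_lit 36549, nat_lit 31689, nat_lit 32337, nat_lit 32121, nat_lit 32193, nat_lit 32169, nat_lit 12493] (nat_lit 1) [] false,
   Spec.mk (nat_lit 32185) (nat_lit 1) [nat_lit 19063, nat_lit 45307, nat_lit 36559, nat_lit 31699, nat_lit 32347, nat_lit 32131, nat_lit 32239, nat_lit 32167, nat_lit 32187, nat_lit 51867, nat_lit 12503] (nat_lit 0) [] false,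
   Spec.mk (nat_lit 32187) (nat_lit 0) [nat_lit 19065, nat_lit 45309, nat_lit 36561, nat_lit 31701, nat_lit 32349, nat_lit 32133, nat_lit 32241, nat_lit 32169, nat_lit 32193, nat_lit 32185, nat_lit 12505] (nat_lit 0) [] false,
   Spec.mk (nat_lit 32193) (nat_lit 1) [nat_lit 19071, nat_lit 45315, nat_lit 36567, nat_lit 31707, nat_lit 32355, nat_lit 32139, nat_lit 32247, nat_lit 32175, nat_lit 32211, nat_lit 32187, nat_lit 12511] (nat_lit 0) [] false,
   Spec.mk (nat_lit 32211) (nat_lit 1) [nat_lit 19089, nat_lit 45333, nat_lit 36585, nat_lit 31725, nat_lit 32373, nat_lit 32265, nat_lit 32193, nat_lit 12529] (nat_lit 0) [] false,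
   Spec.mk (nat_lit 32239) (nat_lit 0) [nat_lit 19117, nat_lit 45361, nat_lit 36613, nat_lit 31753, nat_lit 32401, nat_lit 32185, nat_lit 32241, nat_lit 51921, nat_lit 12557] (nat_lit 0) [] false,
   Spec.mk (nat_lit 32241) (nat_lit 0) [nat_lit 19119, nat_lit 45363, nat_lit 36615, nat_lit 31755, nat_lit 32403, nat_lit 32187, nat_lit 32247, nat_lit 32239, nat_lit 12559] (nat_lit 1) [] false,
   Spec.mk (nat_lit 32247) (nat_lit 0) [nat_lit 19125, nat_lit 45369, nat_lit 36621, nat_lit 31761, nat_lit 32409, nat_lit 32193, nat_lit 32265, nat_lit 32241, nat_lit 12565] (nat_lit 1) [] false,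
   Spec.mk (nat_lit 32265) (nat_lit 1) [nat_lit 19143, nat_lit 45387, nat_lit 36639, nat_lit 31779, nat_lit 32427, nat_lit 32211, nat_lit 32247, nat_lit 12583] (nat_lit 0) [] false,
   Spec.mk (nat_lit 32321) (nat_lit 3) [nat_lit 19199, nat_lit 45443, nat_lit 36695, nat_lit 31835, nat_lit 32159, nat_lit 32323, nat_lit 52003] (nat_lit 0) [] false,
   Spec.mk (nat_lit 32323) (nat_lit 3) [nat_lit 19201, nat_lit 45445, nat_lit 36697, nat_lit 31837, nat_lit 32161, nat_lit 32329, nat_lit 32321, nat_lit 32325, nat_lit 52005, nat_lit 12641] (nat_lit 0) [] false,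
   Spec.mk (nat_lit 32325) (nat_lit 1) [nat_lit 19203, nat_lit 45447, nat_lit 36699, nat_lit 31839, nat_lit 32163, nat_lit 32331, nat_lit 32323, nat_lit 12643] (nat_lit 0) [] false,
   Spec.mk (nat_lit 32329) (nat_lit 2) [nat_lit 19207, nat_lit 45451, nat_lit 36703, nat_lit 31843, nat_lit 32167, nat_lit 32347, nat_lit 32323, nat_lit 32331, nat_lit 52011, nat_lit 12647] (nat_lit 0) [] false,
   Spec.mk (nat_lit 32331) (nat_lit 2) [nat_lit 19209, nat_lit 45453, nat_lit 36705, nat_lit 31845, nat_lit 32169, nat_lit 32349, nat_lit 32325, nat_lit 32337, nat_lit 32329, nat_lit 12649] (nat_lit 0) [] false,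
   Spec.mk (nat_lit 32337) (nat_lit 1) [nat_lit 19215, nat_lit 45459, nat_lit 36711, nat_lit 31851, nat_lit 32175, nat_lit 32355, nat_lit 32331, nat_lit 12655] (nat_lit 0) [] false,
   Spec.mk (nat_lit 32347) (nat_lit 2) [nat_lit 19225, nat_lit 45469, nat_lit 36721, nat_lit 31861, nat_lit 32185, nat_lit 32401, nat_lit 32329, nat_lit 32349, nat_lit 52029, nat_lit 12665] (nat_lit 0) [] false,
   Spec.mk (nat_lit 32349) (nat_lit 1) [nat_lit 19227, nat_lit 45471, nat_lit 36723, nat_lit 31863, nat_lit 32187, nat_lit 32403, nat_lit 32331, nat_lit 32355, nat_lit 32347, nat_lit 12667] (nat_lit 0) [] false,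
   Spec.mk (nat_lit 32355) (nat_lit 2) [nat_lit 19233, nat_lit 45477, nat_lit 36729, nat_lit 31869, nat_lit 32193, nat_lit 32409, nat_lit 32337, nat_lit 32373, nat_lit 32349, nat_lit 12673] (nat_lit 0) [] false,
   Spec.mk (nat_lit 32373) (nat_lit 1) [nat_lit 19251, nat_lit 45495, nat_lit 36747, nat_lit 31887, nat_lit 32211, nat_lit 32427, nat_lit 32355, nat_lit 12691] (nat_lit 0) [] false,
   Spec.mk (nat_lit 32401) (nat_lit 3) [nat_lit 19279, nat_lit 45523, nat_lit 36775, nat_lit 31915, nat_lit 32239, nat_lit 32563, nat_lit 32347, nat_lit 32403, nat_lit 52083, nat_lit 12719] (nat_lit 0) [] false,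
   Spec.mk (nat_lit 32403) (nat_lit 2) [nat_lit 19281, nat_lit 45525, nat_lit 36777, nat_lit 31917, nat_lit 32241, nat_lit 32565, nat_lit 32349, nat_lit 32409, nat_lit 32401, nat_lit 12721] (nat_lit 0) [] false,
   Spec.mk (nat_lit 32409) (nat_lit 2) [nat_lit 19287, nat_lit 45531, nat_lit 36783, nat_lit 31923, nat_lit 32247, nat_lit 32571, nat_lit 32355, nat_lit 32427, nat_lit 32403, nat_lit 12727] (nat_lit 0) [] false,
   Spec.mk (nat_lit 32427) (nat_lit 3) [nat_lit 19305, nat_lit 45549, nat_lit 36801, nat_lit 31941, nat_lit 32265, nat_lit 32589, nat_lit 32373, nat_lit 32481, nat_lit 32409, nat_lit 12745] (nat_lit 0) [] false,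
   Spec.mk (nat_lit 32481) (nat_lit 3) [nat_lit 19359, nat_lit 45603, nat_lit 36855, nat_lit 31995, nat_lit 32643, nat_lit 32427, nat_lit 12799] (nat_lit 0) [] false,
   Spec.mk (nat_lit 32563) (nat_lit 4) [nat_lit 19441, nat_lit 45685, nat_lit 36937, nat_lit 32401, nat_lit 32565, nat_lit 52245, nat_lit 12881] (nat_lit 0) [] false,
   Spec.mk (nat_lit 32565) (nat_lit 3) [nat_lit 19443, nat_lit 45687, nat_lit 36939, nat_lit 32403, nat_lit 32571, nat_lit 32563, nat_lit 12883] (nat_lit 0) [] false,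
   Spec.mk (nat_lit 32571) (nat_lit 3) [nat_lit 19449, nat_lit 45693, nat_lit 36945, nat_lit 32409, nat_lit 32589, nat_lit 32565, nat_lit 12889] (nat_lit 0) [] false,
   Spec.mk (nat_lit 32589) (nat_lit 3) [nat_lit 19467, nat_lit 45711, nat_lit 36963, nat_lit 32427, nat_lit 32643, nat_lit 32571, nat_lit 12907] (nat_lit 0) [] false,
   Spec.mk (nat_lit 32643) (nat_lit 5) [nat_lit 19521, nat_lit 45765, nat_lit 37017, nat_lit 32481, nat_lit 32589, nat_lit 12961] (nat_lit 0) [] false,
   Spec.mk (nat_lit 32831) (nat_lit 4) [nat_lit 45953, nat_lit 28457, nat_lit 32849, nat_lit 52513] (nat_lit 0) [] false,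
   Spec.mk (nat_lit 32849) (nat_lit 3) [nat_lit 45971, nat_lit 28475, nat_lit 32903, nat_lit 32831, nat_lit 32867, nat_lit 32855, nat_lit 52531] (nat_lit 0) [] false,
   Spec.mk (nat_lit 32855) (nat_lit 2) [nat_lit 45977, nat_lit 28481, nat_lit 32909, nat_lit 32873, nat_lit 32849, nat_lit 32857, nat_lit 52537] (nat_lit 0) [] false,
   Spec.mk (nat_lit 32857) (nat_lit 3) [nat_lit 45979, nat_lit 28483, nat_lit 32911, nat_lit 32875, nat_lit 32855, nat_lit 52539, nat_lit 13175] (nat_lit 0) [] false,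
   Spec.mk (nat_lit 32867) (nat_lit 0) [nat_lit 45989, nat_lit 28493, nat_lit 32921, nat_lit 32849, nat_lit 32873, nat_lit 52549] (nat_lit 0) [] false,
   Spec.mk (nat_lit 32873) (nat_lit 1) [nat_lit 45995, nat_lit 28499, nat_lit 32927, nat_lit 32855, nat_lit 32867, nat_lit 32879, nat_lit 32875, nat_lit 52555] (nat_lit 0) [] false,
   Spec.mk (nat_lit 32875) (nat_lit 1) [nat_lit 45997, nat_lit 28501, nat_lit 32929, nat_lit 32857, nat_lit 32881, nat_lit 32873, nat_lit 52557, nat_lit 13193] (nat_lit 0) [] false,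
   Spec.mk (nat_lit 32879) (nat_lit 0) [nat_lit 46001, nat_lit 28505, nat_lit 32933, nat_lit 32873, nat_lit 32881, nat_lit 52561] (nat_lit 0) [] false,
   Spec.mk (nat_lit 32881) (nat_lit 2) [nat_lit 46003, nat_lit 28507, nat_lit 32935, nat_lit 32875, nat_lit 32879, nat_lit 32883, nat_lit 52563, nat_lit 13199] (nat_lit 0) [] false,
   Spec.mk (nat_lit 32883) (nat_lit 2) [nat_lit 46005, nat_lit 28509, nat_lit 32937, nat_lit 32881, nat_lit 13201] (nat_lit 0) [] false,
   Spec.mk (nat_lit 32903) (nat_lit 2) [nat_lit 46025, nat_lit 28529, nat_lit 33065, nat_lit 32849, nat_lit 32921, nat_lit 32909, nat_lit 52585] (nat_lit 0) [] false,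
   Spec.mk (nat_lit 32909) (nat_lit 0) [nat_lit 46031, nat_lit 28535, nat_lit 33071, nat_lit 32855, nat_lit 32927, nat_lit 32903, nat_lit 32911, nat_lit 52591] (nat_lit 0) [] false,
   Spec.mk (nat_lit 32911) (nat_lit 1) [nat_lit 46033, nat_lit 28537, nat_lit 33073, nat_lit 32857, nat_lit 32929, nat_lit 32909, nat_lit 52593, nat_lit 13229] (nat_lit 0) [] false,
   Spec.mk (nat_lit 32921) (nat_lit 1) [nat_lit 46043, nat_lit 28547, nat_lit 33083, nat_lit 32867, nat_lit 32975, nat_lit 32903, nat_lit 32927, nat_lit 52603] (nat_lit 0) [] false,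
   Spec.mk (nat_lit 32927) (nat_lit 1) [nat_lit 46049, nat_lit 28553, nat_lit 33089, nat_lit 32873, nat_lit 32981, nat_lit 32909, nat_lit 32945, nat_lit 32921, nat_lit 32933, nat_lit 32929, nat_lit 52609] (nat_lit 0) [] false,
   Spec.mk (nat_lit 32929) (nat_lit 1) [nat_lit 46051, nat_lit 28555, nat_lit 33091, nat_lit 32875, nat_lit 32983, nat_lit 32911, nat_lit 32947, nat_lit 32935, nat_lit 32927, nat_lit 52611, nat_lit 13247] (nat_lit 0) [] false,
   Spec.mk (nat_lit 32933) (nat_lit 0) [nat_lit 46055, nat_lit 28559, nat_lit 33095, nat_lit 32879, nat_lit 32987, nat_lit 32951, nat_lit 32927, nat_lit 32935, nat_lit 52615] (nat_lit 1) [] false,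
   Spec.mk (nat_lit 32935) (nat_lit 1) [nat_lit 46057, nat_lit 28561, nat_lit 33097, nat_lit 32881, nat_lit 32989, nat_lit 32953, nat_lit 32929, nat_lit 32933, nat_lit 32937, nat_lit 52617, nat_lit 13253] (nat_lit 0) [] false]

noncomputable def sp88 : List Spec :=
  [Spec.mk (nat_lit 32937) (nat_lit 1) [nat_lit 46059, nat_lit 28563, nat_lit 33099, nat_lit 32883, nat_lit 32991, nat_lit 32955, nat_lit 32935, nat_lit 13255] (nat_lit 0) [] false,
   Spec.mk (nat_lit 32945) (nat_lit 0) [nat_lit 46067, nat_lit 28571, nat_lit 33107, nat_lit 32999, nat_lit 32927, nat_lit 32951, nat_lit 32947, nat_lit 52627] (nat_lit 0) [] false,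
   Spec.mk (nat_lit 32947) (nat_lit 0) [nat_lit 46069, nat_lit 28573, nat_lit 33109, nat_lit 33001, nat_lit 32929, nat_lit 32953, nat_lit 32945, nat_lit 52629, nat_lit 13265] (nat_lit 1) [] false,
   Spec.mk (nat_lit 32951) (nat_lit 0) [nat_lit 46073, nat_lit 28577, nat_lit 33113, nat_lit 33005, nat_lit 32933, nat_lit 32945, nat_lit 32953, nat_lit 52633] (nat_lit 0) [] false,
   Spec.mk (nat_lit 32953) (nat_lit 1) [nat_lit 46075, nat_lit 28579, nat_lit 33115, nat_lit 33007, nat_lit 32935, nat_lit 32947, nat_lit 32959, nat_lit 32951, nat_lit 32955, nat_lit 52635, nat_lit 13271] (nat_lit 0) [] false,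
   Spec.mk (nat_lit 32955) (nat_lit 0) [nat_lit 46077, nat_lit 28581, nat_lit 33117, nat_lit 33009, nat_lit 32937, nat_lit 32961, nat_lit 32953, nat_lit 13273] (nat_lit 0) [] false,
   Spec.mk (nat_lit 32959) (nat_lit 1) [nat_lit 46081, nat_lit 28585, nat_lit 33121, nat_lit 33013, nat_lit 32953, nat_lit 32961, nat_lit 52641, nat_lit 13277] (nat_lit 0) [] false,
   Spec.mk (nat_lit 32961) (nat_lit 2) [nat_lit 46083, nat_lit 28587, nat_lit 33123, nat_lit 33015, nat_lit 32955, nat_lit 32959, nat_lit 13279] (nat_lit 0) [] false,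
   Spec.mk (nat_lit 32975) (nat_lit 0) [nat_lit 46097, nat_lit 28601, nat_lit 33137, nat_lit 32921, nat_lit 32981, nat_lit 52657] (nat_lit 0) [] false,
   Spec.mk (nat_lit 32981) (nat_lit 0) [nat_lit 46103, nat_lit 28607, nat_lit 33143, nat_lit 32927, nat_lit 32999, nat_lit 32975, nat_lit 32987, nat_lit 32983, nat_lit 52663] (nat_lit 1) [] false,
   Spec.mk (nat_lit 32983) (nat_lit 0) [nat_lit 46105, nat_lit 28609, nat_lit 33145, nat_lit 32929, nat_lit 33001, nat_lit 32989, nat_lit 32981, nat_lit 52665, nat_lit 13301] (nat_lit 1) [] false,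
   Spec.mk (nat_lit 32987) (nat_lit 0) [nat_lit 46109, nat_lit 28613, nat_lit 33149, nat_lit 32933, nat_lit 33005, nat_lit 32981, nat_lit 32989, nat_lit 52669] (nat_lit 4) [] false,
   Spec.mk (nat_lit 32989) (nat_lit 0) [nat_lit 46111, nat_lit 28615, nat_lit 33151, nat_lit 32935, nat_lit 33007, nat_lit 32983, nat_lit 32987, nat_lit 32991, nat_lit 52671, nat_lit 13307] (nat_lit 2) [] false,
   Spec.mk (nat_lit 32991) (nat_lit 0) [nat_lit 46113, nat_lit 28617, nat_lit 33153, nat_lit 32937, nat_lit 33009, nat_lit 32989, nat_lit 13309] (nat_lit 2) [] false,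
   Spec.mk (nat_lit 32999) (nat_lit 0) [nat_lit 46121, nat_lit 28625, nat_lit 33161, nat_lit 32945, nat_lit 32981, nat_lit 33005, nat_lit 33001, nat_lit 52681] (nat_lit 0) [] false,
   Spec.mk (nat_lit 33001) (nat_lit 0) [nat_lit 46123, nat_lit 28627, nat_lit 33163, nat_lit 32947, nat_lit 32983, nat_lit 33007, nat_lit 32999, nat_lit 52683, nat_lit 13319] (nat_lit 1) [] false,
   Spec.mk (nat_lit 33005) (nat_lit 0) [nat_lit 46127, nat_lit 28631, nat_lit 33167, nat_lit 32951, nat_lit 32987, nat_lit 33023, nat_lit 32999, nat_lit 33007, nat_lit 52687] (nat_lit 1) [] false,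
   Spec.mk (nat_lit 33007) (nat_lit 0) [nat_lit 46129, nat_lit 28633, nat_lit 33169, nat_lit 32953, nat_lit 32989, nat_lit 33025, nat_lit 33001, nat_lit 33013, nat_lit 33005, nat_lit 33009, nat_lit 52689, nat_lit 13325] (nat_lit 0) [] false,
   Spec.mk (nat_lit 33009) (nat_lit 0) [nat_lit 46131, nat_lit 28635, nat_lit 33171, nat_lit 32955, nat_lit 32991, nat_lit 33027, nat_lit 33015, nat_lit 33007, nat_lit 13327] (nat_lit 1) [] false,
   Spec.mk (nat_lit 33013) (nat_lit 0) [nat_lit 46135, nat_lit 28639, nat_lit 33175, nat_lit 32959, nat_lit 33031, nat_lit 33007, nat_lit 33015, nat_lit 52695, nat_lit 13331] (nat_lit 1) [] false,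
   Spec.mk (nat_lit 33015) (nat_lit 0) [nat_lit 46137, nat_lit 28641, nat_lit 33177, nat_lit 32961, nat_lit 33033, nat_lit 33009, nat_lit 33013, nat_lit 13333] (nat_lit 0) [] false,
   Spec.mk (nat_lit 33023) (nat_lit 0) [nat_lit 46145, nat_lit 28649, nat_lit 33185, nat_lit 33005, nat_lit 33025, nat_lit 52705] (nat_lit 0) [] false,
   Spec.mk (nat_lit 33025) (nat_lit 0) [nat_lit 46147, nat_lit 28651, nat_lit 33187, nat_lit 33007, nat_lit 33031, nat_lit 33023, nat_lit 33027, nat_lit 52707, nat_lit 13343] (nat_lit 0) [] false,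
   Spec.mk (nat_lit 33027) (nat_lit 0) [nat_lit 46149, nat_lit 28653, nat_lit 33189, nat_lit 33009, nat_lit 33033, nat_lit 33025, nat_lit 13345] (nat_lit 2) [] false,
   Spec.mk (nat_lit 33031) (nat_lit 1) [nat_lit 46153, nat_lit 28657, nat_lit 33193, nat_lit 33013, nat_lit 33025, nat_lit 33033, nat_lit 52713, nat_lit 13349] (nat_lit 0) [] false,
   Spec.mk (nat_lit 33033) (nat_lit 1) [nat_lit 46155, nat_lit 28659, nat_lit 33195, nat_lit 33015, nat_lit 33027, nat_lit 33039, nat_lit 33031, nat_lit 13351] (nat_lit 0) [] false,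
   Spec.mk (nat_lit 33039) (nat_lit 2) [nat_lit 46161, nat_lit 28665, nat_lit 33201, nat_lit 33033, nat_lit 13357] (nat_lit 0) [] false,
   Spec.mk (nat_lit 33065) (nat_lit 2) [nat_lit 46187, nat_lit 28691, nat_lit 33551, nat_lit 32903, nat_lit 33083, nat_lit 33071, nat_lit 52747] (nat_lit 0) [] false,
   Spec.mk (nat_lit 33071) (nat_lit 0) [nat_lit 46193, nat_lit 28697, nat_lit 33557, nat_lit 32909, nat_lit 33089, nat_lit 33065, nat_lit 33073, nat_lit 52753] (nat_lit 0) [] false,
   Spec.mk (nat_lit 33073) (nat_lit 1) [nat_lit 46195, nat_lit 28699, nat_lit 33559, nat_lit 32911, nat_lit 33091, nat_lit 33071, nat_lit 52755, nat_lit 13391] (nat_lit 0) [] false,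
   Spec.mk (nat_lit 33083) (nat_lit 0) [nat_lit 46205, nat_lit 28709, nat_lit 33569, nat_lit 32921, nat_lit 33137, nat_lit 33065, nat_lit 33089, nat_lit 52765] (nat_lit 0) [] false,
   Spec.mk (nat_lit 33089) (nat_lit 0) [nat_lit 46211, nat_lit 28715, nat_lit 33575, nat_lit 32927, nat_lit 33143, nat_lit 33071, nat_lit 33107, nat_lit 33083, nat_lit 33095, nat_lit 33091, nat_lit 52771] (nat_lit 0) [] false,
   Spec.mk (nat_lit 33091) (nat_lit 0) [nat_lit 46213, nat_lit 28717, nat_lit 33577, nat_lit 32929, nat_lit 33145, nat_lit 33073, nat_lit 33109, nat_lit 33097, nat_lit 33089, nat_lit 52773, nat_lit 13409] (nat_lit 0) [] false,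
   Spec.mk (nat_lit 33095) (nat_lit 0) [nat_lit 46217, nat_lit 28721, nat_lit 33581, nat_lit 32933, nat_lit 33149, nat_lit 33113, nat_lit 33089, nat_lit 33097, nat_lit 52777] (nat_lit 2) [] false,
   Spec.mk (nat_lit 33097) (nat_lit 0) [nat_lit 46219, nat_lit 28723, nat_lit 33583, nat_lit 32935, nat_lit 33151, nat_lit 33115, nat_lit 33091, nat_lit 33095, nat_lit 33099, nat_lit 52779, nat_lit 13415] (nat_lit 0) [] false,
   Spec.mk (nat_lit 33099) (nat_lit 0) [nat_lit 46221, nat_lit 28725, nat_lit 33585, nat_lit 32937, nat_lit 33153, nat_lit 33117, nat_lit 33097, nat_lit 13417] (nat_lit 0) [] false,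
   Spec.mk (nat_lit 33107) (nat_lit 0) [nat_lit 46229, nat_lit 28733, nat_lit 33593, nat_lit 32945, nat_lit 33161, nat_lit 33089, nat_lit 33113, nat_lit 33109, nat_lit 52789] (nat_lit 2) [] false,
   Spec.mk (nat_lit 33109) (nat_lit 0) [nat_lit 46231, nat_lit 28735, nat_lit 33595, nat_lit 32947, nat_lit 33163, nat_lit 33091, nat_lit 33115, nat_lit 33107, nat_lit 52791, nat_lit 13427] (nat_lit 3) [] false,
   Spec.mk (nat_lit 33113) (nat_lit 0) [nat_lit 46235, nat_lit 28739, nat_lit 33599, nat_lit 32951, nat_lit 33167, nat_lit 33095, nat_lit 33107, nat_lit 33115, nat_lit 52795] (nat_lit 2) [] false,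
   Spec.mk (nat_lit 33115) (nat_lit 0) [nat_lit 46237, nat_lit 28741, nat_lit 33601, nat_lit 32953, nat_lit 33169, nat_lit 33097, nat_lit 33109, nat_lit 33121, nat_lit 33113, nat_lit 33117, nat_lit 52797, nat_lit 13433] (nat_lit 1) [] false,
   Spec.mk (nat_lit 33117) (nat_lit 0) [nat_lit 46239, nat_lit 28743, nat_lit 33603, nat_lit 32955, nat_lit 33171, nat_lit 33099, nat_lit 33123, nat_lit 33115, nat_lit 13435] (nat_lit 2) [] false,
   Spec.mk (nat_lit 33121) (nat_lit 0) [nat_lit 46243, nat_lit 28747, nat_lit 33607, nat_lit 32959, nat_lit 33175, nat_lit 33115, nat_lit 33123, nat_lit 52803, nat_lit 13439] (nat_lit 1) [] false,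
   Spec.mk (nat_lit 33123) (nat_lit 0) [nat_lit 46245, nat_lit 28749, nat_lit 33609, nat_lit 32961, nat_lit 33177, nat_lit 33117, nat_lit 33121, nat_lit 13441] (nat_lit 0) [] false,
   Spec.mk (nat_lit 33137) (nat_lit 1) [nat_lit 46259, nat_lit 28763, nat_lit 33623, nat_lit 32975, nat_lit 33299, nat_lit 33083, nat_lit 33143, nat_lit 52819] (nat_lit 0) [] false,
   Spec.mk (nat_lit 33143) (nat_lit 0) [nat_lit 46265, nat_lit 28769, nat_lit 33629, nat_lit 32981, nat_lit 33305, nat_lit 33089, nat_lit 33161, nat_lit 33137, nat_lit 33149, nat_lit 33145, nat_lit 52825] (nat_lit 0) [] false,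
   Spec.mk (nat_lit 33145) (nat_lit 0) [nat_lit 46267, nat_lit 28771, nat_lit 33631, nat_lit 32983, nat_lit 33307, nat_lit 33091, nat_lit 33163, nat_lit 33151, nat_lit 33143, nat_lit 52827, nat_lit 13463] (nat_lit 0) [] false,
   Spec.mk (nat_lit 33149) (nat_lit 0) [nat_lit 46271, nat_lit 28775, nat_lit 33635, nat_lit 32987, nat_lit 33311, nat_lit 33095, nat_lit 33167, nat_lit 33143, nat_lit 33151, nat_lit 52831] (nat_lit 3) [] false,
   Spec.mk (nat_lit 33151) (nat_lit 0) [nat_lit 46273, nat_lit 28777, nat_lit 33637, nat_lit 32989, nat_lit 33313, nat_lit 33097, nat_lit 33169, nat_lit 33145, nat_lit 33149, nat_lit 33153, nat_lit 52833, nat_lit 13469] (nat_lit 1) [] false,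
   Spec.mk (nat_lit 33153) (nat_lit 0) [nat_lit 46275, nat_lit 28779, nat_lit 33639, nat_lit 32991, nat_lit 33315, nat_lit 33099, nat_lit 33171, nat_lit 33151, nat_lit 13471] (nat_lit 1) [] false,
   Spec.mk (nat_lit 33161) (nat_lit 0) [nat_lit 46283, nat_lit 28787, nat_lit 33647, nat_lit 32999, nat_lit 33323, nat_lit 33107, nat_lit 33215, nat_lit 33143, nat_lit 33167, nat_lit 33163, nat_lit 52843] (nat_lit 0) [] false,
   Spec.mk (nat_lit 33163) (nat_lit 0) [nat_lit 46285, nat_lit 28789, nat_lit 33649, nat_lit 33001, nat_lit 33325, nat_lit 33109, nat_lit 33217, nat_lit 33145, nat_lit 33169, nat_lit 33161, nat_lit 52845, nat_lit 13481] (nat_lit 1) [] false,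
   Spec.mk (nat_lit 33167) (nat_lit 0) [nat_lit 46289, nat_lit 28793, nat_lit 33653, nat_lit 33005, nat_lit 33329, nat_lit 33113, nat_lit 33221, nat_lit 33149, nat_lit 33185, nat_lit 33161, nat_lit 33169, nat_lit 52849] (nat_lit 1) [] false,
   Spec.mk (nat_lit 33169) (nat_lit 0) [nat_lit 46291, nat_lit 28795, nat_lit 33655, nat_lit 33007, nat_lit 33331, nat_lit 33115, nat_lit 33223, nat_lit 33151, nat_lit 33187, nat_lit 33163, nat_lit 33175, nat_lit 33167, nat_lit 33171, nat_lit 52851, nat_lit 13487] (nat_lit 0) [] false,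
   Spec.mk (nat_lit 33171) (nat_lit 0) [nat_lit 46293, nat_lit 28797, nat_lit 33657, nat_lit 33009, nat_lit 33333, nat_lit 33117, nat_lit 33225, nat_lit 33153, nat_lit 33189, nat_lit 33177, nat_lit 33169, nat_lit 13489] (nat_lit 1) [] false,
   Spec.mk (nat_lit 33175) (nat_lit 0) [nat_lit 46297, nat_lit 28801, nat_lit 33661, nat_lit 33013, nat_lit 33337, nat_lit 33121, nat_lit 33229, nat_lit 33193, nat_lit 33169, nat_lit 33177, nat_lit 52857, nat_lit 13493] (nat_lit 1) [] false,
   Spec.mk (nat_lit 33177) (nat_lit 0) [nat_lit 46299, nat_lit 28803, nat_lit 33663, nat_lit 33015, nat_lit 33339, nat_lit 33123, nat_lit 33231, nat_lit 33195, nat_lit 33171, nat_lit 33175, nat_lit 13495] (nat_lit 0) [] false,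
   Spec.mk (nat_lit 33185) (nat_lit 0) [nat_lit 46307, nat_lit 28811, nat_lit 33671, nat_lit 33023, nat_lit 33347, nat_lit 33239, nat_lit 33167, nat_lit 33187, nat_lit 52867] (nat_lit 1) [] false,
   Spec.mk (nat_lit 33187) (nat_lit 0) [nat_lit 46309, nat_lit 28813, nat_lit 33673, nat_lit 33025, nat_lit 33349, nat_lit 33241, nat_lit 33169, nat_lit 33193, nat_lit 33185, nat_lit 33189, nat_lit 52869, nat_lit 13505] (nat_lit 1) [] false,
   Spec.mk (nat_lit 33189) (nat_lit 0) [nat_lit 46311, nat_lit 28815, nat_lit 33675, nat_lit 33027, nat_lit 33351, nat_lit 33243, nat_lit 33171, nat_lit 33195, nat_lit 33187, nat_lit 13507] (nat_lit 3) [] false,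
   Spec.mk (nat_lit 33193) (nat_lit 0) [nat_lit 46315, nat_lit 28819, nat_lit 33679, nat_lit 33031, nat_lit 33355, nat_lit 33247, nat_lit 33175, nat_lit 33187, nat_lit 33195, nat_lit 52875, nat_lit 13511] (nat_lit 0) [] false]

noncomputable def sp89 : List Spec :=
  [Spec.mk (nat_lit 33195) (nat_lit 0) [nat_lit 46317, nat_lit 28821, nat_lit 33681, nat_lit 33033, nat_lit 33357, nat_lit 33249, nat_lit 33177, nat_lit 33189, nat_lit 33201, nat_lit 33193, nat_lit 13513] (nat_lit 0) [] false,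
   Spec.mk (nat_lit 33201) (nat_lit 1) [nat_lit 46323, nat_lit 28827, nat_lit 33687, nat_lit 33039, nat_lit 33363, nat_lit 33255, nat_lit 33195, nat_lit 13519] (nat_lit 0) [] false,
   Spec.mk (nat_lit 33215) (nat_lit 0) [nat_lit 46337, nat_lit 28841, nat_lit 33701, nat_lit 33377, nat_lit 33161, nat_lit 33221, nat_lit 33217, nat_lit 52897] (nat_lit 0) [] false,
   Spec.mk (nat_lit 33217) (nat_lit 0) [nat_lit 46339, nat_lit 28843, nat_lit 33703, nat_lit 33379, nat_lit 33163, nat_lit 33223, nat_lit 33215, nat_lit 52899, nat_lit 13535] (nat_lit 1) [] false,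
   Spec.mk (nat_lit 33221) (nat_lit 0) [nat_lit 46343, nat_lit 28847, nat_lit 33707, nat_lit 33383, nat_lit 33167, nat_lit 33239, nat_lit 33215, nat_lit 33223, nat_lit 52903] (nat_lit 2) [] false,
   Spec.mk (nat_lit 33223) (nat_lit 0) [nat_lit 46345, nat_lit 28849, nat_lit 33709, nat_lit 33385, nat_lit 33169, nat_lit 33241, nat_lit 33217, nat_lit 33229, nat_lit 33221, nat_lit 33225, nat_lit 52905, nat_lit 13541] (nat_lit 1) [] false,
   Spec.mk (nat_lit 33225) (nat_lit 0) [nat_lit 46347, nat_lit 28851, nat_lit 33711, nat_lit 33387, nat_lit 33171, nat_lit 33243, nat_lit 33231, nat_lit 33223, nat_lit 13543] (nat_lit 2) [] false,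
   Spec.mk (nat_lit 33229) (nat_lit 0) [nat_lit 46351, nat_lit 28855, nat_lit 33715, nat_lit 33391, nat_lit 33175, nat_lit 33247, nat_lit 33223, nat_lit 33231, nat_lit 52911, nat_lit 13547] (nat_lit 3) [] false,
   Spec.mk (nat_lit 33231) (nat_lit 0) [nat_lit 46353, nat_lit 28857, nat_lit 33717, nat_lit 33393, nat_lit 33177, nat_lit 33249, nat_lit 33225, nat_lit 33229, nat_lit 13549] (nat_lit 2) [] false,
   Spec.mk (nat_lit 33239) (nat_lit 0) [nat_lit 46361, nat_lit 28865, nat_lit 33725, nat_lit 33401, nat_lit 33185, nat_lit 33221, nat_lit 33241, nat_lit 52921] (nat_lit 0) [] false,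
   Spec.mk (nat_lit 33241) (nat_lit 0) [nat_lit 46363, nat_lit 28867, nat_lit 33727, nat_lit 33403, nat_lit 33187, nat_lit 33223, nat_lit 33247, nat_lit 33239, nat_lit 33243, nat_lit 52923, nat_lit 13559] (nat_lit 0) [] false,
   Spec.mk (nat_lit 33243) (nat_lit 0) [nat_lit 46365, nat_lit 28869, nat_lit 33729, nat_lit 33405, nat_lit 33189, nat_lit 33225, nat_lit 33249, nat_lit 33241, nat_lit 13561] (nat_lit 2) [] false,
   Spec.mk (nat_lit 33247) (nat_lit 0) [nat_lit 46369, nat_lit 28873, nat_lit 33733, nat_lit 33409, nat_lit 33193, nat_lit 33229, nat_lit 33265, nat_lit 33241, nat_lit 33249, nat_lit 52929, nat_lit 13565] (nat_lit 0) [] false,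
   Spec.mk (nat_lit 33249) (nat_lit 0) [nat_lit 46371, nat_lit 28875, nat_lit 33735, nat_lit 33411, nat_lit 33195, nat_lit 33231, nat_lit 33267, nat_lit 33243, nat_lit 33255, nat_lit 33247, nat_lit 13567] (nat_lit 0) [] false,
   Spec.mk (nat_lit 33255) (nat_lit 0) [nat_lit 46377, nat_lit 28881, nat_lit 33741, nat_lit 33417, nat_lit 33201, nat_lit 33273, nat_lit 33249, nat_lit 13573] (nat_lit 0) [] false,
   Spec.mk (nat_lit 33265) (nat_lit 1) [nat_lit 46387, nat_lit 28891, nat_lit 33751, nat_lit 33427, nat_lit 33247, nat_lit 33267, nat_lit 52947, nat_lit 13583] (nat_lit 0) [] false,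
   Spec.mk (nat_lit 33267) (nat_lit 0) [nat_lit 46389, nat_lit 28893, nat_lit 33753, nat_lit 33429, nat_lit 33249, nat_lit 33273, nat_lit 33265, nat_lit 13585] (nat_lit 0) [] false,
   Spec.mk (nat_lit 33273) (nat_lit 2) [nat_lit 46395, nat_lit 28899, nat_lit 33759, nat_lit 33435, nat_lit 33255, nat_lit 33267, nat_lit 13591] (nat_lit 0) [] false,
   Spec.mk (nat_lit 33299) (nat_lit 0) [nat_lit 46421, nat_lit 28925, nat_lit 33785, nat_lit 33137, nat_lit 33305, nat_lit 52981] (nat_lit 0) [] false,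
   Spec.mk (nat_lit 33305) (nat_lit 0) [nat_lit 46427, nat_lit 28931, nat_lit 33791, nat_lit 33143, nat_lit 33323, nat_lit 33299, nat_lit 33311, nat_lit 33307, nat_lit 52987] (nat_lit 1) [] false,
   Spec.mk (nat_lit 33307) (nat_lit 0) [nat_lit 46429, nat_lit 28933, nat_lit 33793, nat_lit 33145, nat_lit 33325, nat_lit 33313, nat_lit 33305, nat_lit 52989, nat_lit 13625] (nat_lit 1) [] false,
   Spec.mk (nat_lit 33311) (nat_lit 0) [nat_lit 46433, nat_lit 28937, nat_lit 33797, nat_lit 33149, nat_lit 33329, nat_lit 33305, nat_lit 33313, nat_lit 52993] (nat_lit 4) [] false,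
   Spec.mk (nat_lit 33313) (nat_lit 0) [nat_lit 46435, nat_lit 28939, nat_lit 33799, nat_lit 33151, nat_lit 33331, nat_lit 33307, nat_lit 33311, nat_lit 33315, nat_lit 52995, nat_lit 13631] (nat_lit 2) [] false,
   Spec.mk (nat_lit 33315) (nat_lit 0) [nat_lit 46437, nat_lit 28941, nat_lit 33801, nat_lit 33153, nat_lit 33333, nat_lit 33313, nat_lit 13633] (nat_lit 2) [] false,
   Spec.mk (nat_lit 33323) (nat_lit 0) [nat_lit 46445, nat_lit 28949, nat_lit 33809, nat_lit 33161, nat_lit 33377, nat_lit 33305, nat_lit 33329, nat_lit 33325, nat_lit 53005] (nat_lit 2) [] false,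
   Spec.mk (nat_lit 33325) (nat_lit 0) [nat_lit 46447, nat_lit 28951, nat_lit 33811, nat_lit 33163, nat_lit 33379, nat_lit 33307, nat_lit 33331, nat_lit 33323, nat_lit 53007, nat_lit 13643] (nat_lit 3) [] false,
   Spec.mk (nat_lit 33329) (nat_lit 0) [nat_lit 46451, nat_lit 28955, nat_lit 33815, nat_lit 33167, nat_lit 33383, nat_lit 33311, nat_lit 33347, nat_lit 33323, nat_lit 33331, nat_lit 53011] (nat_lit 3) [] false,
   Spec.mk (nat_lit 33331) (nat_lit 0) [nat_lit 46453, nat_lit 28957, nat_lit 33817, nat_lit 33169, nat_lit 33385, nat_lit 33313, nat_lit 33349, nat_lit 33325, nat_lit 33337, nat_lit 33329, nat_lit 33333, nat_lit 53013, nat_lit 13649] (nat_lit 2) [] false,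
   Spec.mk (nat_lit 33333) (nat_lit 0) [nat_lit 46455, nat_lit 28959, nat_lit 33819, nat_lit 33171, nat_lit 33387, nat_lit 33315, nat_lit 33351, nat_lit 33339, nat_lit 33331, nat_lit 13651] (nat_lit 3) [] false,
   Spec.mk (nat_lit 33337) (nat_lit 0) [nat_lit 46459, nat_lit 28963, nat_lit 33823, nat_lit 33175, nat_lit 33391, nat_lit 33355, nat_lit 33331, nat_lit 33339, nat_lit 53019, nat_lit 13655] (nat_lit 3) [] false,
   Spec.mk (nat_lit 33339) (nat_lit 0) [nat_lit 46461, nat_lit 28965, nat_lit 33825, nat_lit 33177, nat_lit 33393, nat_lit 33357, nat_lit 33333, nat_lit 33337, nat_lit 13657] (nat_lit 2) [] false,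
   Spec.mk (nat_lit 33347) (nat_lit 0) [nat_lit 46469, nat_lit 28973, nat_lit 33833, nat_lit 33185, nat_lit 33401, nat_lit 33329, nat_lit 33349, nat_lit 53029] (nat_lit 4) [] false,
   Spec.mk (nat_lit 33349) (nat_lit 0) [nat_lit 46471, nat_lit 28975, nat_lit 33835, nat_lit 33187, nat_lit 33403, nat_lit 33331, nat_lit 33355, nat_lit 33347, nat_lit 33351, nat_lit 53031, nat_lit 13667] (nat_lit 4) [] false,
   Spec.mk (nat_lit 33351) (nat_lit 0) [nat_lit 46473, nat_lit 28977, nat_lit 33837, nat_lit 33189, nat_lit 33405, nat_lit 33333, nat_lit 33357, nat_lit 33349, nat_lit 13669] (nat_lit 6) [] false,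
   Spec.mk (nat_lit 33355) (nat_lit 0) [nat_lit 46477, nat_lit 28981, nat_lit 33841, nat_lit 33193, nat_lit 33409, nat_lit 33337, nat_lit 33349, nat_lit 33357, nat_lit 53037, nat_lit 13673] (nat_lit 3) [] false,
   Spec.mk (nat_lit 33357) (nat_lit 0) [nat_lit 46479, nat_lit 28983, nat_lit 33843, nat_lit 33195, nat_lit 33411, nat_lit 33339, nat_lit 33351, nat_lit 33363, nat_lit 33355, nat_lit 13675] (nat_lit 3) [] false,
   Spec.mk (nat_lit 33363) (nat_lit 0) [nat_lit 46485, nat_lit 28989, nat_lit 33849, nat_lit 33201, nat_lit 33417, nat_lit 33357, nat_lit 13681] (nat_lit 2) [] false,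
   Spec.mk (nat_lit 33377) (nat_lit 0) [nat_lit 46499, nat_lit 29003, nat_lit 33863, nat_lit 33215, nat_lit 33323, nat_lit 33383, nat_lit 33379, nat_lit 53059] (nat_lit 0) [] false,
   Spec.mk (nat_lit 33379) (nat_lit 0) [nat_lit 46501, nat_lit 29005, nat_lit 33865, nat_lit 33217, nat_lit 33325, nat_lit 33385, nat_lit 33377, nat_lit 53061, nat_lit 13697] (nat_lit 1) [] false,
   Spec.mk (nat_lit 33383) (nat_lit 0) [nat_lit 46505, nat_lit 29009, nat_lit 33869, nat_lit 33221, nat_lit 33329, nat_lit 33401, nat_lit 33377, nat_lit 33385, nat_lit 53065] (nat_lit 2) [] false,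
   Spec.mk (nat_lit 33385) (nat_lit 0) [nat_lit 46507, nat_lit 29011, nat_lit 33871, nat_lit 33223, nat_lit 33331, nat_lit 33403, nat_lit 33379, nat_lit 33391, nat_lit 33383, nat_lit 33387, nat_lit 53067, nat_lit 13703] (nat_lit 1) [] false,
   Spec.mk (nat_lit 33387) (nat_lit 0) [nat_lit 46509, nat_lit 29013, nat_lit 33873, nat_lit 33225, nat_lit 33333, nat_lit 33405, nat_lit 33393, nat_lit 33385, nat_lit 13705] (nat_lit 2) [] false,
   Spec.mk (nat_lit 33391) (nat_lit 0) [nat_lit 46513, nat_lit 29017, nat_lit 33877, nat_lit 33229, nat_lit 33337, nat_lit 33409, nat_lit 33385, nat_lit 33393, nat_lit 53073, nat_lit 13709] (nat_lit 3) [] false,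
   Spec.mk (nat_lit 33393) (nat_lit 0) [nat_lit 46515, nat_lit 29019, nat_lit 33879, nat_lit 33231, nat_lit 33339, nat_lit 33411, nat_lit 33387, nat_lit 33391, nat_lit 13711] (nat_lit 2) [] false,
   Spec.mk (nat_lit 33401) (nat_lit 0) [nat_lit 46523, nat_lit 29027, nat_lit 33887, nat_lit 33239, nat_lit 33347, nat_lit 33455, nat_lit 33383, nat_lit 33403, nat_lit 53083] (nat_lit 1) [] false,
   Spec.mk (nat_lit 33403) (nat_lit 0) [nat_lit 46525, nat_lit 29029, nat_lit 33889, nat_lit 33241, nat_lit 33349, nat_lit 33457, nat_lit 33385, nat_lit 33409, nat_lit 33401, nat_lit 33405, nat_lit 53085, nat_lit 13721] (nat_lit 1) [] false,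
   Spec.mk (nat_lit 33405) (nat_lit 0) [nat_lit 46527, nat_lit 29031, nat_lit 33891, nat_lit 33243, nat_lit 33351, nat_lit 33459, nat_lit 33387, nat_lit 33411, nat_lit 33403, nat_lit 13723] (nat_lit 3) [] false,
   Spec.mk (nat_lit 33409) (nat_lit 0) [nat_lit 46531, nat_lit 29035, nat_lit 33895, nat_lit 33247, nat_lit 33355, nat_lit 33463, nat_lit 33391, nat_lit 33427, nat_lit 33403, nat_lit 33411, nat_lit 53091, nat_lit 13727] (nat_lit 1) [] false,
   Spec.mk (nat_lit 33411) (nat_lit 0) [nat_lit 46533, nat_lit 29037, nat_lit 33897, nat_lit 33249, nat_lit 33357, nat_lit 33465, nat_lit 33393, nat_lit 33429, nat_lit 33405, nat_lit 33417, nat_lit 33409, nat_lit 13729] (nat_lit 1) [] false,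
   Spec.mk (nat_lit 33417) (nat_lit 0) [nat_lit 46539, nat_lit 29043, nat_lit 33903, nat_lit 33255, nat_lit 33363, nat_lit 33471, nat_lit 33435, nat_lit 33411, nat_lit 13735] (nat_lit 1) [] false,
   Spec.mk (nat_lit 33427) (nat_lit 0) [nat_lit 46549, nat_lit 29053, nat_lit 33913, nat_lit 33265, nat_lit 33481, nat_lit 33409, nat_lit 33429, nat_lit 53109, nat_lit 13745] (nat_lit 1) [] false,
   Spec.mk (nat_lit 33429) (nat_lit 0) [nat_lit 46551, nat_lit 29055, nat_lit 33915, nat_lit 33267, nat_lit 33483, nat_lit 33411, nat_lit 33435, nat_lit 33427, nat_lit 13747] (nat_lit 2) [] false,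
   Spec.mk (nat_lit 33435) (nat_lit 0) [nat_lit 46557, nat_lit 29061, nat_lit 33921, nat_lit 33273, nat_lit 33489, nat_lit 33417, nat_lit 33429, nat_lit 13753] (nat_lit 0) [] false,
   Spec.mk (nat_lit 33455) (nat_lit 0) [nat_lit 46577, nat_lit 29081, nat_lit 33941, nat_lit 33401, nat_lit 33457, nat_lit 53137] (nat_lit 0) [] false,
   Spec.mk (nat_lit 33457) (nat_lit 0) [nat_lit 46579, nat_lit 29083, nat_lit 33943, nat_lit 33403, nat_lit 33463, nat_lit 33455, nat_lit 33459, nat_lit 53139, nat_lit 13775] (nat_lit 0) [] false,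
   Spec.mk (nat_lit 33459) (nat_lit 0) [nat_lit 46581, nat_lit 29085, nat_lit 33945, nat_lit 33405, nat_lit 33465, nat_lit 33457, nat_lit 13777] (nat_lit 2) [] false,
   Spec.mk (nat_lit 33463) (nat_lit 0) [nat_lit 46585, nat_lit 29089, nat_lit 33949, nat_lit 33409, nat_lit 33481, nat_lit 33457, nat_lit 33465, nat_lit 53145, nat_lit 13781] (nat_lit 1) [] false,
   Spec.mk (nat_lit 33465) (nat_lit 0) [nat_lit 46587, nat_lit 29091, nat_lit 33951, nat_lit 33411, nat_lit 33483, nat_lit 33459, nat_lit 33471, nat_lit 33463, nat_lit 13783] (nat_lit 1) [] false,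
   Spec.mk (nat_lit 33471) (nat_lit 0) [nat_lit 46593, nat_lit 29097, nat_lit 33957, nat_lit 33417, nat_lit 33489, nat_lit 33465, nat_lit 13789] (nat_lit 2) [] false,
   Spec.mk (nat_lit 33481) (nat_lit 1) [nat_lit 46603, nat_lit 29107, nat_lit 33967, nat_lit 33427, nat_lit 33463, nat_lit 33483, nat_lit 53163, nat_lit 13799] (nat_lit 0) [] false]

noncomputable def sp90 : List Spec :=
  [Spec.mk (nat_lit 33483) (nat_lit 0) [nat_lit 46605, nat_lit 29109, nat_lit 33969, nat_lit 33429, nat_lit 33465, nat_lit 33489, nat_lit 33481, nat_lit 13801] (nat_lit 0) [] false,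
   Spec.mk (nat_lit 33489) (nat_lit 1) [nat_lit 46611, nat_lit 29115, nat_lit 33975, nat_lit 33435, nat_lit 33471, nat_lit 33507, nat_lit 33483, nat_lit 13807] (nat_lit 0) [] false,
   Spec.mk (nat_lit 33507) (nat_lit 2) [nat_lit 46629, nat_lit 29133, nat_lit 33993, nat_lit 33489, nat_lit 13825] (nat_lit 0) [] false,
   Spec.mk (nat_lit 33551) (nat_lit 2) [nat_lit 46673, nat_lit 29177, nat_lit 35009, nat_lit 33065, nat_lit 33569, nat_lit 33557, nat_lit 53233] (nat_lit 0) [] false,
   Spec.mk (nat_lit 33557) (nat_lit 0) [nat_lit 46679, nat_lit 29183, nat_lit 35015, nat_lit 33071, nat_lit 33575, nat_lit 33551, nat_lit 33559, nat_lit 53239] (nat_lit 0) [] false,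
   Spec.mk (nat_lit 33559) (nat_lit 1) [nat_lit 46681, nat_lit 29185, nat_lit 35017, nat_lit 33073, nat_lit 33577, nat_lit 33557, nat_lit 53241, nat_lit 13877] (nat_lit 0) [] false,
   Spec.mk (nat_lit 33569) (nat_lit 0) [nat_lit 46691, nat_lit 29195, nat_lit 35027, nat_lit 33083, nat_lit 33623, nat_lit 33551, nat_lit 33575, nat_lit 53251] (nat_lit 0) [] false,
   Spec.mk (nat_lit 33575) (nat_lit 0) [nat_lit 46697, nat_lit 29201, nat_lit 35033, nat_lit 33089, nat_lit 33629, nat_lit 33557, nat_lit 33593, nat_lit 33569, nat_lit 33581, nat_lit 33577, nat_lit 53257] (nat_lit 0) [] false,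
   Spec.mk (nat_lit 33577) (nat_lit 0) [nat_lit 46699, nat_lit 29203, nat_lit 35035, nat_lit 33091, nat_lit 33631, nat_lit 33559, nat_lit 33595, nat_lit 33583, nat_lit 33575, nat_lit 53259, nat_lit 13895] (nat_lit 0) [] false,
   Spec.mk (nat_lit 33581) (nat_lit 0) [nat_lit 46703, nat_lit 29207, nat_lit 35039, nat_lit 33095, nat_lit 33635, nat_lit 33599, nat_lit 33575, nat_lit 33583, nat_lit 53263] (nat_lit 2) [] false,
   Spec.mk (nat_lit 33583) (nat_lit 0) [nat_lit 46705, nat_lit 29209, nat_lit 35041, nat_lit 33097, nat_lit 33637, nat_lit 33601, nat_lit 33577, nat_lit 33581, nat_lit 33585, nat_lit 53265, nat_lit 13901] (nat_lit 0) [] false,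
   Spec.mk (nat_lit 33585) (nat_lit 0) [nat_lit 46707, nat_lit 29211, nat_lit 35043, nat_lit 33099, nat_lit 33639, nat_lit 33603, nat_lit 33583, nat_lit 13903] (nat_lit 0) [] false,
   Spec.mk (nat_lit 33593) (nat_lit 0) [nat_lit 46715, nat_lit 29219, nat_lit 35051, nat_lit 33107, nat_lit 33647, nat_lit 33575, nat_lit 33599, nat_lit 33595, nat_lit 53275] (nat_lit 2) [] false,
   Spec.mk (nat_lit 33595) (nat_lit 0) [nat_lit 46717, nat_lit 29221, nat_lit 35053, nat_lit 33109, nat_lit 33649, nat_lit 33577, nat_lit 33601, nat_lit 33593, nat_lit 53277, nat_lit 13913] (nat_lit 3) [] false,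
   Spec.mk (nat_lit 33599) (nat_lit 0) [nat_lit 46721, nat_lit 29225, nat_lit 35057, nat_lit 33113, nat_lit 33653, nat_lit 33581, nat_lit 33593, nat_lit 33601, nat_lit 53281] (nat_lit 2) [] false,
   Spec.mk (nat_lit 33601) (nat_lit 0) [nat_lit 46723, nat_lit 29227, nat_lit 35059, nat_lit 33115, nat_lit 33655, nat_lit 33583, nat_lit 33595, nat_lit 33607, nat_lit 33599, nat_lit 33603, nat_lit 53283, nat_lit 13919] (nat_lit 1) [] false,
   Spec.mk (nat_lit 33603) (nat_lit 0) [nat_lit 46725, nat_lit 29229, nat_lit 35061, nat_lit 33117, nat_lit 33657, nat_lit 33585, nat_lit 33609, nat_lit 33601, nat_lit 13921] (nat_lit 2) [] false,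
   Spec.mk (nat_lit 33607) (nat_lit 0) [nat_lit 46729, nat_lit 29233, nat_lit 35065, nat_lit 33121, nat_lit 33661, nat_lit 33601, nat_lit 33609, nat_lit 53289, nat_lit 13925] (nat_lit 1) [] false,
   Spec.mk (nat_lit 33609) (nat_lit 0) [nat_lit 46731, nat_lit 29235, nat_lit 35067, nat_lit 33123, nat_lit 33663, nat_lit 33603, nat_lit 33607, nat_lit 13927] (nat_lit 0) [] false,
   Spec.mk (nat_lit 33623) (nat_lit 0) [nat_lit 46745, nat_lit 29249, nat_lit 35081, nat_lit 33137, nat_lit 33785, nat_lit 33569, nat_lit 33629, nat_lit 53305] (nat_lit 0) [] false,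
   Spec.mk (nat_lit 33629) (nat_lit 0) [nat_lit 46751, nat_lit 29255, nat_lit 35087, nat_lit 33143, nat_lit 33791, nat_lit 33575, nat_lit 33647, nat_lit 33623, nat_lit 33635, nat_lit 33631, nat_lit 53311] (nat_lit 1) [] false,
   Spec.mk (nat_lit 33631) (nat_lit 0) [nat_lit 46753, nat_lit 29257, nat_lit 35089, nat_lit 33145, nat_lit 33793, nat_lit 33577, nat_lit 33649, nat_lit 33637, nat_lit 33629, nat_lit 53313, nat_lit 13949] (nat_lit 1) [] false,
   Spec.mk (nat_lit 33635) (nat_lit 0) [nat_lit 46757, nat_lit 29261, nat_lit 35093, nat_lit 33149, nat_lit 33797, nat_lit 33581, nat_lit 33653, nat_lit 33629, nat_lit 33637, nat_lit 53317] (nat_lit 4) [] false,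
   Spec.mk (nat_lit 33637) (nat_lit 0) [nat_lit 46759, nat_lit 29263, nat_lit 35095, nat_lit 33151, nat_lit 33799, nat_lit 33583, nat_lit 33655, nat_lit 33631, nat_lit 33635, nat_lit 33639, nat_lit 53319, nat_lit 13955] (nat_lit 2) [] false,
   Spec.mk (nat_lit 33639) (nat_lit 0) [nat_lit 46761, nat_lit 29265, nat_lit 35097, nat_lit 33153, nat_lit 33801, nat_lit 33585, nat_lit 33657, nat_lit 33637, nat_lit 13957] (nat_lit 2) [] false,
   Spec.mk (nat_lit 33647) (nat_lit 0) [nat_lit 46769, nat_lit 29273, nat_lit 35105, nat_lit 33161, nat_lit 33809, nat_lit 33593, nat_lit 33701, nat_lit 33629, nat_lit 33653, nat_lit 33649, nat_lit 53329] (nat_lit 1) [] false,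
   Spec.mk (nat_lit 33649) (nat_lit 0) [nat_lit 46771, nat_lit 29275, nat_lit 35107, nat_lit 33163, nat_lit 33811, nat_lit 33595, nat_lit 33703, nat_lit 33631, nat_lit 33655, nat_lit 33647, nat_lit 53331, nat_lit 13967] (nat_lit 2) [] false,
   Spec.mk (nat_lit 33653) (nat_lit 0) [nat_lit 46775, nat_lit 29279, nat_lit 35111, nat_lit 33167, nat_lit 33815, nat_lit 33599, nat_lit 33707, nat_lit 33635, nat_lit 33671, nat_lit 33647, nat_lit 33655, nat_lit 53335] (nat_lit 2) [] false,
   Spec.mk (nat_lit 33655) (nat_lit 0) [nat_lit 46777, nat_lit 29281, nat_lit 35113, nat_lit 33169, nat_lit 33817, nat_lit 33601, nat_lit 33709, nat_lit 33637, nat_lit 33673, nat_lit 33649, nat_lit 33661, nat_lit 33653, nat_lit 33657, nat_lit 53337, nat_lit 13973] (nat_lit 1) [] false,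
   Spec.mk (nat_lit 33657) (nat_lit 0) [nat_lit 46779, nat_lit 29283, nat_lit 35115, nat_lit 33171, nat_lit 33819, nat_lit 33603, nat_lit 33711, nat_lit 33639, nat_lit 33675, nat_lit 33663, nat_lit 33655, nat_lit 13975] (nat_lit 2) [] false,
   Spec.mk (nat_lit 33661) (nat_lit 0) [nat_lit 46783, nat_lit 29287, nat_lit 35119, nat_lit 33175, nat_lit 33823, nat_lit 33607, nat_lit 33715, nat_lit 33679, nat_lit 33655, nat_lit 33663, nat_lit 53343, nat_lit 13979] (nat_lit 2) [] false,
   Spec.mk (nat_lit 33663) (nat_lit 0) [nat_lit 46785, nat_lit 29289, nat_lit 35121, nat_lit 33177, nat_lit 33825, nat_lit 33609, nat_lit 33717, nat_lit 33681, nat_lit 33657, nat_lit 33661, nat_lit 13981] (nat_lit 1) [] false,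
   Spec.mk (nat_lit 33671) (nat_lit 0) [nat_lit 46793, nat_lit 29297, nat_lit 35129, nat_lit 33185, nat_lit 33833, nat_lit 33725, nat_lit 33653, nat_lit 33673, nat_lit 53353] (nat_lit 2) [] false,
   Spec.mk (nat_lit 33673) (nat_lit 0) [nat_lit 46795, nat_lit 29299, nat_lit 35131, nat_lit 33187, nat_lit 33835, nat_lit 33727, nat_lit 33655, nat_lit 33679, nat_lit 33671, nat_lit 33675, nat_lit 53355, nat_lit 13991] (nat_lit 2) [] false,
   Spec.mk (nat_lit 33675) (nat_lit 0) [nat_lit 46797, nat_lit 29301, nat_lit 35133, nat_lit 33189, nat_lit 33837, nat_lit 33729, nat_lit 33657, nat_lit 33681, nat_lit 33673, nat_lit 13993] (nat_lit 4) [] false,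
   Spec.mk (nat_lit 33679) (nat_lit 0) [nat_lit 46801, nat_lit 29305, nat_lit 35137, nat_lit 33193, nat_lit 33841, nat_lit 33733, nat_lit 33661, nat_lit 33673, nat_lit 33681, nat_lit 53361, nat_lit 13997] (nat_lit 1) [] false,
   Spec.mk (nat_lit 33681) (nat_lit 0) [nat_lit 46803, nat_lit 29307, nat_lit 35139, nat_lit 33195, nat_lit 33843, nat_lit 33735, nat_lit 33663, nat_lit 33675, nat_lit 33687, nat_lit 33679, nat_lit 13999] (nat_lit 1) [] false,
   Spec.mk (nat_lit 33687) (nat_lit 0) [nat_lit 46809, nat_lit 29313, nat_lit 35145, nat_lit 33201, nat_lit 33849, nat_lit 33741, nat_lit 33681, nat_lit 14005] (nat_lit 0) [] false,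
   Spec.mk (nat_lit 33701) (nat_lit 0) [nat_lit 46823, nat_lit 29327, nat_lit 35159, nat_lit 33215, nat_lit 33863, nat_lit 33647, nat_lit 33707, nat_lit 33703, nat_lit 53383] (nat_lit 2) [] false,
   Spec.mk (nat_lit 33703) (nat_lit 0) [nat_lit 46825, nat_lit 29329, nat_lit 35161, nat_lit 33217, nat_lit 33865, nat_lit 33649, nat_lit 33709, nat_lit 33701, nat_lit 53385, nat_lit 14021] (nat_lit 3) [] false,
   Spec.mk (nat_lit 33707) (nat_lit 0) [nat_lit 46829, nat_lit 29333, nat_lit 35165, nat_lit 33221, nat_lit 33869, nat_lit 33653, nat_lit 33725, nat_lit 33701, nat_lit 33709, nat_lit 53389] (nat_lit 4) [] false,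
   Spec.mk (nat_lit 33709) (nat_lit 0) [nat_lit 46831, nat_lit 29335, nat_lit 35167, nat_lit 33223, nat_lit 33871, nat_lit 33655, nat_lit 33727, nat_lit 33703, nat_lit 33715, nat_lit 33707, nat_lit 33711, nat_lit 53391, nat_lit 14027] (nat_lit 3) [] false,
   Spec.mk (nat_lit 33711) (nat_lit 0) [nat_lit 46833, nat_lit 29337, nat_lit 35169, nat_lit 33225, nat_lit 33873, nat_lit 33657, nat_lit 33729, nat_lit 33717, nat_lit 33709, nat_lit 14029] (nat_lit 4) [] false,
   Spec.mk (nat_lit 33715) (nat_lit 0) [nat_lit 46837, nat_lit 29341, nat_lit 35173, nat_lit 33229, nat_lit 33877, nat_lit 33661, nat_lit 33733, nat_lit 33709, nat_lit 33717, nat_lit 53397, nat_lit 14033] (nat_lit 5) [] false,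
   Spec.mk (nat_lit 33717) (nat_lit 0) [nat_lit 46839, nat_lit 29343, nat_lit 35175, nat_lit 33231, nat_lit 33879, nat_lit 33663, nat_lit 33735, nat_lit 33711, nat_lit 33715, nat_lit 14035] (nat_lit 4) [] false,
   Spec.mk (nat_lit 33725) (nat_lit 0) [nat_lit 46847, nat_lit 29351, nat_lit 35183, nat_lit 33239, nat_lit 33887, nat_lit 33671, nat_lit 33707, nat_lit 33727, nat_lit 53407] (nat_lit 2) [] false,
   Spec.mk (nat_lit 33727) (nat_lit 0) [nat_lit 46849, nat_lit 29353, nat_lit 35185, nat_lit 33241, nat_lit 33889, nat_lit 33673, nat_lit 33709, nat_lit 33733, nat_lit 33725, nat_lit 33729, nat_lit 53409, nat_lit 14045] (nat_lit 2) [] false,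
   Spec.mk (nat_lit 33729) (nat_lit 0) [nat_lit 46851, nat_lit 29355, nat_lit 35187, nat_lit 33243, nat_lit 33891, nat_lit 33675, nat_lit 33711, nat_lit 33735, nat_lit 33727, nat_lit 14047] (nat_lit 4) [] false,
   Spec.mk (nat_lit 33733) (nat_lit 0) [nat_lit 46855, nat_lit 29359, nat_lit 35191, nat_lit 33247, nat_lit 33895, nat_lit 33679, nat_lit 33715, nat_lit 33751, nat_lit 33727, nat_lit 33735, nat_lit 53415, nat_lit 14051] (nat_lit 2) [] false,
   Spec.mk (nat_lit 33735) (nat_lit 0) [nat_lit 46857, nat_lit 29361, nat_lit 35193, nat_lit 33249, nat_lit 33897, nat_lit 33681, nat_lit 33717, nat_lit 33753, nat_lit 33729, nat_lit 33741, nat_lit 33733, nat_lit 14053] (nat_lit 2) [] false,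
   Spec.mk (nat_lit 33741) (nat_lit 0) [nat_lit 46863, nat_lit 29367, nat_lit 35199, nat_lit 33255, nat_lit 33903, nat_lit 33687, nat_lit 33759, nat_lit 33735, nat_lit 14059] (nat_lit 2) [] false,
   Spec.mk (nat_lit 33751) (nat_lit 0) [nat_lit 46873, nat_lit 29377, nat_lit 35209, nat_lit 33265, nat_lit 33913, nat_lit 33733, nat_lit 33753, nat_lit 53433, nat_lit 14069] (nat_lit 1) [] false,
   Spec.mk (nat_lit 33753) (nat_lit 0) [nat_lit 46875, nat_lit 29379, nat_lit 35211, nat_lit 33267, nat_lit 33915, nat_lit 33735, nat_lit 33759, nat_lit 33751, nat_lit 14071] (nat_lit 2) [] false,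
   Spec.mk (nat_lit 33759) (nat_lit 0) [nat_lit 46881, nat_lit 29385, nat_lit 35217, nat_lit 33273, nat_lit 33921, nat_lit 33741, nat_lit 33753, nat_lit 14077] (nat_lit 0) [] false,
   Spec.mk (nat_lit 33785) (nat_lit 1) [nat_lit 46907, nat_lit 29411, nat_lit 35243, nat_lit 33299, nat_lit 34271, nat_lit 33623, nat_lit 33791, nat_lit 53467] (nat_lit 0) [] false,
   Spec.mk (nat_lit 33791) (nat_lit 0) [nat_lit 46913, nat_lit 29417, nat_lit 35249, nat_lit 33305, nat_lit 34277, nat_lit 33629, nat_lit 33809, nat_lit 33785, nat_lit 33797, nat_lit 33793, nat_lit 53473] (nat_lit 0) [] false,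
   Spec.mk (nat_lit 33793) (nat_lit 0) [nat_lit 46915, nat_lit 29419, nat_lit 35251, nat_lit 33307, nat_lit 34279, nat_lit 33631, nat_lit 33811, nat_lit 33799, nat_lit 33791, nat_lit 53475, nat_lit 14111] (nat_lit 0) [] false,
   Spec.mk (nat_lit 33797) (nat_lit 0) [nat_lit 46919, nat_lit 29423, nat_lit 35255, nat_lit 33311, nat_lit 34283, nat_lit 33635, nat_lit 33815, nat_lit 33791, nat_lit 33799, nat_lit 53479] (nat_lit 3) [] false,
   Spec.mk (nat_lit 33799) (nat_lit 0) [nat_lit 46921, nat_lit 29425, nat_lit 35257, nat_lit 33313, nat_lit 34285, nat_lit 33637, nat_lit 33817, nat_lit 33793, nat_lit 33797, nat_lit 33801, nat_lit 53481, nat_lit 14117] (nat_lit 1) [] false,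
   Spec.mk (nat_lit 33801) (nat_lit 0) [nat_lit 46923, nat_lit 29427, nat_lit 35259, nat_lit 33315, nat_lit 34287, nat_lit 33639, nat_lit 33819, nat_lit 33799, nat_lit 14119] (nat_lit 1) [] false]

noncomputable def sp91 : List Spec :=
  [Spec.mk (nat_lit 33809) (nat_lit 0) [nat_lit 46931, nat_lit 29435, nat_lit 35267, nat_lit 33323, nat_lit 34295, nat_lit 33647, nat_lit 33863, nat_lit 33791, nat_lit 33815, nat_lit 33811, nat_lit 53491] (nat_lit 1) [] false,
   Spec.mk (nat_lit 33811) (nat_lit 0) [nat_lit 46933, nat_lit 29437, nat_lit 35269, nat_lit 33325, nat_lit 34297, nat_lit 33649, nat_lit 33865, nat_lit 33793, nat_lit 33817, nat_lit 33809, nat_lit 53493, nat_lit 14129] (nat_lit 2) [] false,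
   Spec.mk (nat_lit 33815) (nat_lit 0) [nat_lit 46937, nat_lit 29441, nat_lit 35273, nat_lit 33329, nat_lit 34301, nat_lit 33653, nat_lit 33869, nat_lit 33797, nat_lit 33833, nat_lit 33809, nat_lit 33817, nat_lit 53497] (nat_lit 2) [] false,
   Spec.mk (nat_lit 33817) (nat_lit 0) [nat_lit 46939, nat_lit 29443, nat_lit 35275, nat_lit 33331, nat_lit 34303, nat_lit 33655, nat_lit 33871, nat_lit 33799, nat_lit 33835, nat_lit 33811, nat_lit 33823, nat_lit 33815, nat_lit 33819, nat_lit 53499, nat_lit 14135] (nat_lit 1) [] false,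
   Spec.mk (nat_lit 33819) (nat_lit 0) [nat_lit 46941, nat_lit 29445, nat_lit 35277, nat_lit 33333, nat_lit 34305, nat_lit 33657, nat_lit 33873, nat_lit 33801, nat_lit 33837, nat_lit 33825, nat_lit 33817, nat_lit 14137] (nat_lit 2) [] false,
   Spec.mk (nat_lit 33823) (nat_lit 0) [nat_lit 46945, nat_lit 29449, nat_lit 35281, nat_lit 33337, nat_lit 34309, nat_lit 33661, nat_lit 33877, nat_lit 33841, nat_lit 33817, nat_lit 33825, nat_lit 53505, nat_lit 14141] (nat_lit 2) [] false,
   Spec.mk (nat_lit 33825) (nat_lit 0) [nat_lit 46947, nat_lit 29451, nat_lit 35283, nat_lit 33339, nat_lit 34311, nat_lit 33663, nat_lit 33879, nat_lit 33843, nat_lit 33819, nat_lit 33823, nat_lit 14143] (nat_lit 1) [] false,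
   Spec.mk (nat_lit 33833) (nat_lit 0) [nat_lit 46955, nat_lit 29459, nat_lit 35291, nat_lit 33347, nat_lit 34319, nat_lit 33671, nat_lit 33887, nat_lit 33815, nat_lit 33835, nat_lit 53515] (nat_lit 3) [] false,
   Spec.mk (nat_lit 33835) (nat_lit 0) [nat_lit 46957, nat_lit 29461, nat_lit 35293, nat_lit 33349, nat_lit 34321, nat_lit 33673, nat_lit 33889, nat_lit 33817, nat_lit 33841, nat_lit 33833, nat_lit 33837, nat_lit 53517, nat_lit 14153] (nat_lit 3) [] false,
   Spec.mk (nat_lit 33837) (nat_lit 0) [nat_lit 46959, nat_lit 29463, nat_lit 35295, nat_lit 33351, nat_lit 34323, nat_lit 33675, nat_lit 33891, nat_lit 33819, nat_lit 33843, nat_lit 33835, nat_lit 14155] (nat_lit 5) [] false,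
   Spec.mk (nat_lit 33841) (nat_lit 0) [nat_lit 46963, nat_lit 29467, nat_lit 35299, nat_lit 33355, nat_lit 34327, nat_lit 33679, nat_lit 33895, nat_lit 33823, nat_lit 33835, nat_lit 33843, nat_lit 53523, nat_lit 14159] (nat_lit 2) [] false,
   Spec.mk (nat_lit 33843) (nat_lit 0) [nat_lit 46965, nat_lit 29469, nat_lit 35301, nat_lit 33357, nat_lit 34329, nat_lit 33681, nat_lit 33897, nat_lit 33825, nat_lit 33837, nat_lit 33849, nat_lit 33841, nat_lit 14161] (nat_lit 2) [] false,
   Spec.mk (nat_lit 33849) (nat_lit 0) [nat_lit 46971, nat_lit 29475, nat_lit 35307, nat_lit 33363, nat_lit 34335, nat_lit 33687, nat_lit 33903, nat_lit 33843, nat_lit 14167] (nat_lit 1) [] false,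
   Spec.mk (nat_lit 33863) (nat_lit 0) [nat_lit 46985, nat_lit 29489, nat_lit 35321, nat_lit 33377, nat_lit 34349, nat_lit 33701, nat_lit 34025, nat_lit 33809, nat_lit 33869, nat_lit 33865, nat_lit 53545] (nat_lit 0) [] false,
   Spec.mk (nat_lit 33865) (nat_lit 0) [nat_lit 46987, nat_lit 29491, nat_lit 35323, nat_lit 33379, nat_lit 34351, nat_lit 33703, nat_lit 34027, nat_lit 33811, nat_lit 33871, nat_lit 33863, nat_lit 53547, nat_lit 14183] (nat_lit 1) [] false,
   Spec.mk (nat_lit 33869) (nat_lit 0) [nat_lit 46991, nat_lit 29495, nat_lit 35327, nat_lit 33383, nat_lit 34355, nat_lit 33707, nat_lit 34031, nat_lit 33815, nat_lit 33887, nat_lit 33863, nat_lit 33871, nat_lit 53551] (nat_lit 2) [] false,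
   Spec.mk (nat_lit 33871) (nat_lit 0) [nat_lit 46993, nat_lit 29497, nat_lit 35329, nat_lit 33385, nat_lit 34357, nat_lit 33709, nat_lit 34033, nat_lit 33817, nat_lit 33889, nat_lit 33865, nat_lit 33877, nat_lit 33869, nat_lit 33873, nat_lit 53553, nat_lit 14189] (nat_lit 1) [] false,
   Spec.mk (nat_lit 33873) (nat_lit 0) [nat_lit 46995, nat_lit 29499, nat_lit 35331, nat_lit 33387, nat_lit 34359, nat_lit 33711, nat_lit 34035, nat_lit 33819, nat_lit 33891, nat_lit 33879, nat_lit 33871, nat_lit 14191] (nat_lit 2) [] false,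
   Spec.mk (nat_lit 33877) (nat_lit 0) [nat_lit 46999, nat_lit 29503, nat_lit 35335, nat_lit 33391, nat_lit 34363, nat_lit 33715, nat_lit 34039, nat_lit 33823, nat_lit 33895, nat_lit 33871, nat_lit 33879, nat_lit 53559, nat_lit 14195] (nat_lit 3) [] false,
   Spec.mk (nat_lit 33879) (nat_lit 0) [nat_lit 47001, nat_lit 29505, nat_lit 35337, nat_lit 33393, nat_lit 34365, nat_lit 33717, nat_lit 34041, nat_lit 33825, nat_lit 33897, nat_lit 33873, nat_lit 33877, nat_lit 14197] (nat_lit 2) [] false,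
   Spec.mk (nat_lit 33887) (nat_lit 0) [nat_lit 47009, nat_lit 29513, nat_lit 35345, nat_lit 33401, nat_lit 34373, nat_lit 33725, nat_lit 34049, nat_lit 33833, nat_lit 33941, nat_lit 33869, nat_lit 33889, nat_lit 53569] (nat_lit 1) [] false,
   Spec.mk (nat_lit 33889) (nat_lit 0) [nat_lit 47011, nat_lit 29515, nat_lit 35347, nat_lit 33403, nat_lit 34375, nat_lit 33727, nat_lit 34051, nat_lit 33835, nat_lit 33943, nat_lit 33871, nat_lit 33895, nat_lit 33887, nat_lit 33891, nat_lit 53571, nat_lit 14207] (nat_lit 1) [] false,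
   Spec.mk (nat_lit 33891) (nat_lit 0) [nat_lit 47013, nat_lit 29517, nat_lit 35349, nat_lit 33405, nat_lit 34377, nat_lit 33729, nat_lit 34053, nat_lit 33837, nat_lit 33945, nat_lit 33873, nat_lit 33897, nat_lit 33889, nat_lit 14209] (nat_lit 3) [] false,
   Spec.mk (nat_lit 33895) (nat_lit 0) [nat_lit 47017, nat_lit 29521, nat_lit 35353, nat_lit 33409, nat_lit 34381, nat_lit 33733, nat_lit 34057, nat_lit 33841, nat_lit 33949, nat_lit 33877, nat_lit 33913, nat_lit 33889, nat_lit 33897, nat_lit 53577, nat_lit 14213] (nat_lit 1) [] false,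
   Spec.mk (nat_lit 33897) (nat_lit 0) [nat_lit 47019, nat_lit 29523, nat_lit 35355, nat_lit 33411, nat_lit 34383, nat_lit 33735, nat_lit 34059, nat_lit 33843, nat_lit 33951, nat_lit 33879, nat_lit 33915, nat_lit 33891, nat_lit 33903, nat_lit 33895, nat_lit 14215] (nat_lit 1) [] false,
   Spec.mk (nat_lit 33903) (nat_lit 0) [nat_lit 47025, nat_lit 29529, nat_lit 35361, nat_lit 33417, nat_lit 34389, nat_lit 33741, nat_lit 34065, nat_lit 33849, nat_lit 33957, nat_lit 33921, nat_lit 33897, nat_lit 14221] (nat_lit 1) [] false,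
   Spec.mk (nat_lit 33913) (nat_lit 0) [nat_lit 47035, nat_lit 29539, nat_lit 35371, nat_lit 33427, nat_lit 34399, nat_lit 33751, nat_lit 34075, nat_lit 33967, nat_lit 33895, nat_lit 33915, nat_lit 53595, nat_lit 14231] (nat_lit 1) [] false,
   Spec.mk (nat_lit 33915) (nat_lit 0) [nat_lit 47037, nat_lit 29541, nat_lit 35373, nat_lit 33429, nat_lit 34401, nat_lit 33753, nat_lit 34077, nat_lit 33969, nat_lit 33897, nat_lit 33921, nat_lit 33913, nat_lit 14233] (nat_lit 2) [] false,
   Spec.mk (nat_lit 33921) (nat_lit 0) [nat_lit 47043, nat_lit 29547, nat_lit 35379, nat_lit 33435, nat_lit 34407, nat_lit 33759, nat_lit 34083, nat_lit 33975, nat_lit 33903, nat_lit 33915, nat_lit 14239] (nat_lit 0) [] false,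
   Spec.mk (nat_lit 33941) (nat_lit 0) [nat_lit 47063, nat_lit 29567, nat_lit 35399, nat_lit 33455, nat_lit 34427, nat_lit 34103, nat_lit 33887, nat_lit 33943, nat_lit 53623] (nat_lit 1) [] false,
   Spec.mk (nat_lit 33943) (nat_lit 0) [nat_lit 47065, nat_lit 29569, nat_lit 35401, nat_lit 33457, nat_lit 34429, nat_lit 34105, nat_lit 33889, nat_lit 33949, nat_lit 33941, nat_lit 33945, nat_lit 53625, nat_lit 14261] (nat_lit 1) [] false,
   Spec.mk (nat_lit 33945) (nat_lit 0) [nat_lit 47067, nat_lit 29571, nat_lit 35403, nat_lit 33459, nat_lit 34431, nat_lit 34107, nat_lit 33891, nat_lit 33951, nat_lit 33943, nat_lit 14263] (nat_lit 3) [] false,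
   Spec.mk (nat_lit 33949) (nat_lit 0) [nat_lit 47071, nat_lit 29575, nat_lit 35407, nat_lit 33463, nat_lit 34435, nat_lit 34111, nat_lit 33895, nat_lit 33967, nat_lit 33943, nat_lit 33951, nat_lit 53631, nat_lit 14267] (nat_lit 2) [] false,
   Spec.mk (nat_lit 33951) (nat_lit 0) [nat_lit 47073, nat_lit 29577, nat_lit 35409, nat_lit 33465, nat_lit 34437, nat_lit 34113, nat_lit 33897, nat_lit 33969, nat_lit 33945, nat_lit 33957, nat_lit 33949, nat_lit 14269] (nat_lit 2) [] false,
   Spec.mk (nat_lit 33957) (nat_lit 0) [nat_lit 47079, nat_lit 29583, nat_lit 35415, nat_lit 33471, nat_lit 34443, nat_lit 34119, nat_lit 33903, nat_lit 33975, nat_lit 33951, nat_lit 14275] (nat_lit 3) [] false,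
   Spec.mk (nat_lit 33967) (nat_lit 0) [nat_lit 47089, nat_lit 29593, nat_lit 35425, nat_lit 33481, nat_lit 34453, nat_lit 34129, nat_lit 33913, nat_lit 33949, nat_lit 33969, nat_lit 53649, nat_lit 14285] (nat_lit 0) [] false,
   Spec.mk (nat_lit 33969) (nat_lit 0) [nat_lit 47091, nat_lit 29595, nat_lit 35427, nat_lit 33483, nat_lit 34455, nat_lit 34131, nat_lit 33915, nat_lit 33951, nat_lit 33975, nat_lit 33967, nat_lit 14287] (nat_lit 1) [] false,
   Spec.mk (nat_lit 33975) (nat_lit 0) [nat_lit 47097, nat_lit 29601, nat_lit 35433, nat_lit 33489, nat_lit 34461, nat_lit 34137, nat_lit 33921, nat_lit 33957, nat_lit 33993, nat_lit 33969, nat_lit 14293] (nat_lit 0) [] false,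
   Spec.mk (nat_lit 33993) (nat_lit 1) [nat_lit 47115, nat_lit 29619, nat_lit 35451, nat_lit 33507, nat_lit 34479, nat_lit 34155, nat_lit 33975, nat_lit 14311] (nat_lit 0) [] false,
   Spec.mk (nat_lit 34025) (nat_lit 0) [nat_lit 47147, nat_lit 29651, nat_lit 35483, nat_lit 34511, nat_lit 33863, nat_lit 34031, nat_lit 34027, nat_lit 53707] (nat_lit 0) [] false,
   Spec.mk (nat_lit 34027) (nat_lit 0) [nat_lit 47149, nat_lit 29653, nat_lit 35485, nat_lit 34513, nat_lit 33865, nat_lit 34033, nat_lit 34025, nat_lit 53709, nat_lit 14345] (nat_lit 1) [] false,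
   Spec.mk (nat_lit 34031) (nat_lit 0) [nat_lit 47153, nat_lit 29657, nat_lit 35489, nat_lit 34517, nat_lit 33869, nat_lit 34049, nat_lit 34025, nat_lit 34033, nat_lit 53713] (nat_lit 2) [] false,
   Spec.mk (nat_lit 34033) (nat_lit 0) [nat_lit 47155, nat_lit 29659, nat_lit 35491, nat_lit 34519, nat_lit 33871, nat_lit 34051, nat_lit 34027, nat_lit 34039, nat_lit 34031, nat_lit 34035, nat_lit 53715, nat_lit 14351] (nat_lit 1) [] false,
   Spec.mk (nat_lit 34035) (nat_lit 0) [nat_lit 47157, nat_lit 29661, nat_lit 35493, nat_lit 34521, nat_lit 33873, nat_lit 34053, nat_lit 34041, nat_lit 34033, nat_lit 14353] (nat_lit 2) [] false,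
   Spec.mk (nat_lit 34039) (nat_lit 0) [nat_lit 47161, nat_lit 29665, nat_lit 35497, nat_lit 34525, nat_lit 33877, nat_lit 34057, nat_lit 34033, nat_lit 34041, nat_lit 53721, nat_lit 14357] (nat_lit 3) [] false,
   Spec.mk (nat_lit 34041) (nat_lit 0) [nat_lit 47163, nat_lit 29667, nat_lit 35499, nat_lit 34527, nat_lit 33879, nat_lit 34059, nat_lit 34035, nat_lit 34039, nat_lit 14359] (nat_lit 2) [] false,
   Spec.mk (nat_lit 34049) (nat_lit 0) [nat_lit 47171, nat_lit 29675, nat_lit 35507, nat_lit 34535, nat_lit 33887, nat_lit 34103, nat_lit 34031, nat_lit 34051, nat_lit 53731] (nat_lit 2) [] false,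
   Spec.mk (nat_lit 34051) (nat_lit 0) [nat_lit 47173, nat_lit 29677, nat_lit 35509, nat_lit 34537, nat_lit 33889, nat_lit 34105, nat_lit 34033, nat_lit 34057, nat_lit 34049, nat_lit 34053, nat_lit 53733, nat_lit 14369] (nat_lit 2) [] false,
   Spec.mk (nat_lit 34053) (nat_lit 0) [nat_lit 47175, nat_lit 29679, nat_lit 35511, nat_lit 34539, nat_lit 33891, nat_lit 34107, nat_lit 34035, nat_lit 34059, nat_lit 34051, nat_lit 14371] (nat_lit 4) [] false,
   Spec.mk (nat_lit 34057) (nat_lit 0) [nat_lit 47179, nat_lit 29683, nat_lit 35515, nat_lit 34543, nat_lit 33895, nat_lit 34111, nat_lit 34039, nat_lit 34075, nat_lit 34051, nat_lit 34059, nat_lit 53739, nat_lit 14375] (nat_lit 2) [] false,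
   Spec.mk (nat_lit 34059) (nat_lit 0) [nat_lit 47181, nat_lit 29685, nat_lit 35517, nat_lit 34545, nat_lit 33897, nat_lit 34113, nat_lit 34041, nat_lit 34077, nat_lit 34053, nat_lit 34065, nat_lit 34057, nat_lit 14377] (nat_lit 2) [] false,
   Spec.mk (nat_lit 34065) (nat_lit 0) [nat_lit 47187, nat_lit 29691, nat_lit 35523, nat_lit 34551, nat_lit 33903, nat_lit 34119, nat_lit 34083, nat_lit 34059, nat_lit 14383] (nat_lit 2) [] false,
   Spec.mk (nat_lit 34075) (nat_lit 0) [nat_lit 47197, nat_lit 29701, nat_lit 35533, nat_lit 34561, nat_lit 33913, nat_lit 34129, nat_lit 34057, nat_lit 34077, nat_lit 53757, nat_lit 14393] (nat_lit 3) [] false,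
   Spec.mk (nat_lit 34077) (nat_lit 0) [nat_lit 47199, nat_lit 29703, nat_lit 35535, nat_lit 34563, nat_lit 33915, nat_lit 34131, nat_lit 34059, nat_lit 34083, nat_lit 34075, nat_lit 14395] (nat_lit 4) [] false,
   Spec.mk (nat_lit 34083) (nat_lit 0) [nat_lit 47205, nat_lit 29709, nat_lit 35541, nat_lit 34569, nat_lit 33921, nat_lit 34137, nat_lit 34065, nat_lit 34077, nat_lit 14401] (nat_lit 2) [] false,
   Spec.mk (nat_lit 34103) (nat_lit 0) [nat_lit 47225, nat_lit 29729, nat_lit 35561, nat_lit 34589, nat_lit 33941, nat_lit 34049, nat_lit 34105, nat_lit 53785] (nat_lit 0) [] false,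
   Spec.mk (nat_lit 34105) (nat_lit 0) [nat_lit 47227, nat_lit 29731, nat_lit 35563, nat_lit 34591, nat_lit 33943, nat_lit 34051, nat_lit 34111, nat_lit 34103, nat_lit 34107, nat_lit 53787, nat_lit 14423] (nat_lit 0) [] false,
   Spec.mk (nat_lit 34107) (nat_lit 0) [nat_lit 47229, nat_lit 29733, nat_lit 35565, nat_lit 34593, nat_lit 33945, nat_lit 34053, nat_lit 34113, nat_lit 34105, nat_lit 14425] (nat_lit 2) [] false,
   Spec.mk (nat_lit 34111) (nat_lit 0) [nat_lit 47233, nat_lit 29737, nat_lit 35569, nat_lit 34597, nat_lit 33949, nat_lit 34057, nat_lit 34129, nat_lit 34105, nat_lit 34113, nat_lit 53793, nat_lit 14429] (nat_lit 1) [] false,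
   Spec.mk (nat_lit 34113) (nat_lit 0) [nat_lit 47235, nat_lit 29739, nat_lit 35571, nat_lit 34599, nat_lit 33951, nat_lit 34059, nat_lit 34131, nat_lit 34107, nat_lit 34119, nat_lit 34111, nat_lit 14431] (nat_lit 1) [] false]

noncomputable def sp92 : List Spec :=
  [Spec.mk (nat_lit 34119) (nat_lit 0) [nat_lit 47241, nat_lit 29745, nat_lit 35577, nat_lit 34605, nat_lit 33957, nat_lit 34065, nat_lit 34137, nat_lit 34113, nat_lit 14437] (nat_lit 2) [] false,
   Spec.mk (nat_lit 34129) (nat_lit 0) [nat_lit 47251, nat_lit 29755, nat_lit 35587, nat_lit 34615, nat_lit 33967, nat_lit 34075, nat_lit 34183, nat_lit 34111, nat_lit 34131, nat_lit 53811, nat_lit 14447] (nat_lit 0) [] false,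
   Spec.mk (nat_lit 34131) (nat_lit 0) [nat_lit 47253, nat_lit 29757, nat_lit 35589, nat_lit 34617, nat_lit 33969, nat_lit 34077, nat_lit 34185, nat_lit 34113, nat_lit 34137, nat_lit 34129, nat_lit 14449] (nat_lit 1) [] false,
   Spec.mk (nat_lit 34137) (nat_lit 0) [nat_lit 47259, nat_lit 29763, nat_lit 35595, nat_lit 34623, nat_lit 33975, nat_lit 34083, nat_lit 34191, nat_lit 34119, nat_lit 34155, nat_lit 34131, nat_lit 14455] (nat_lit 0) [] false,
   Spec.mk (nat_lit 34155) (nat_lit 0) [nat_lit 47277, nat_lit 29781, nat_lit 35613, nat_lit 34641, nat_lit 33993, nat_lit 34209, nat_lit 34137, nat_lit 14473] (nat_lit 0) [] false,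
   Spec.mk (nat_lit 34183) (nat_lit 1) [nat_lit 47305, nat_lit 29809, nat_lit 35641, nat_lit 34669, nat_lit 34129, nat_lit 34185, nat_lit 53865, nat_lit 14501] (nat_lit 0) [] false,
   Spec.mk (nat_lit 34185) (nat_lit 0) [nat_lit 47307, nat_lit 29811, nat_lit 35643, nat_lit 34671, nat_lit 34131, nat_lit 34191, nat_lit 34183, nat_lit 14503] (nat_lit 0) [] false,
   Spec.mk (nat_lit 34191) (nat_lit 0) [nat_lit 47313, nat_lit 29817, nat_lit 35649, nat_lit 34677, nat_lit 34137, nat_lit 34209, nat_lit 34185, nat_lit 14509] (nat_lit 0) [] false,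
   Spec.mk (nat_lit 34209) (nat_lit 2) [nat_lit 47331, nat_lit 29835, nat_lit 35667, nat_lit 34695, nat_lit 34155, nat_lit 34191, nat_lit 14527] (nat_lit 0) [] false,
   Spec.mk (nat_lit 34271) (nat_lit 0) [nat_lit 47393, nat_lit 29897, nat_lit 35729, nat_lit 33785, nat_lit 34277, nat_lit 53953] (nat_lit 0) [] false,
   Spec.mk (nat_lit 34277) (nat_lit 0) [nat_lit 47399, nat_lit 29903, nat_lit 35735, nat_lit 33791, nat_lit 34295, nat_lit 34271, nat_lit 34283, nat_lit 34279, nat_lit 53959] (nat_lit 1) [] false,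
   Spec.mk (nat_lit 34279) (nat_lit 0) [nat_lit 47401, nat_lit 29905, nat_lit 35737, nat_lit 33793, nat_lit 34297, nat_lit 34285, nat_lit 34277, nat_lit 53961, nat_lit 14597] (nat_lit 1) [] false,
   Spec.mk (nat_lit 34283) (nat_lit 0) [nat_lit 47405, nat_lit 29909, nat_lit 35741, nat_lit 33797, nat_lit 34301, nat_lit 34277, nat_lit 34285, nat_lit 53965] (nat_lit 4) [] false,
   Spec.mk (nat_lit 34285) (nat_lit 0) [nat_lit 47407, nat_lit 29911, nat_lit 35743, nat_lit 33799, nat_lit 34303, nat_lit 34279, nat_lit 34283, nat_lit 34287, nat_lit 53967, nat_lit 14603] (nat_lit 2) [] false,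
   Spec.mk (nat_lit 34287) (nat_lit 0) [nat_lit 47409, nat_lit 29913, nat_lit 35745, nat_lit 33801, nat_lit 34305, nat_lit 34285, nat_lit 14605] (nat_lit 2) [] false,
   Spec.mk (nat_lit 34295) (nat_lit 0) [nat_lit 47417, nat_lit 29921, nat_lit 35753, nat_lit 33809, nat_lit 34349, nat_lit 34277, nat_lit 34301, nat_lit 34297, nat_lit 53977] (nat_lit 2) [] false,
   Spec.mk (nat_lit 34297) (nat_lit 0) [nat_lit 47419, nat_lit 29923, nat_lit 35755, nat_lit 33811, nat_lit 34351, nat_lit 34279, nat_lit 34303, nat_lit 34295, nat_lit 53979, nat_lit 14615] (nat_lit 3) [] false,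
   Spec.mk (nat_lit 34301) (nat_lit 0) [nat_lit 47423, nat_lit 29927, nat_lit 35759, nat_lit 33815, nat_lit 34355, nat_lit 34283, nat_lit 34319, nat_lit 34295, nat_lit 34303, nat_lit 53983] (nat_lit 3) [] false,
   Spec.mk (nat_lit 34303) (nat_lit 0) [nat_lit 47425, nat_lit 29929, nat_lit 35761, nat_lit 33817, nat_lit 34357, nat_lit 34285, nat_lit 34321, nat_lit 34297, nat_lit 34309, nat_lit 34301, nat_lit 34305, nat_lit 53985, nat_lit 14621] (nat_lit 2) [] false,
   Spec.mk (nat_lit 34305) (nat_lit 0) [nat_lit 47427, nat_lit 29931, nat_lit 35763, nat_lit 33819, nat_lit 34359, nat_lit 34287, nat_lit 34323, nat_lit 34311, nat_lit 34303, nat_lit 14623] (nat_lit 3) [] false,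
   Spec.mk (nat_lit 34309) (nat_lit 0) [nat_lit 47431, nat_lit 29935, nat_lit 35767, nat_lit 33823, nat_lit 34363, nat_lit 34327, nat_lit 34303, nat_lit 34311, nat_lit 53991, nat_lit 14627] (nat_lit 3) [] false,
   Spec.mk (nat_lit 34311) (nat_lit 0) [nat_lit 47433, nat_lit 29937, nat_lit 35769, nat_lit 33825, nat_lit 34365, nat_lit 34329, nat_lit 34305, nat_lit 34309, nat_lit 14629] (nat_lit 2) [] false,
   Spec.mk (nat_lit 34319) (nat_lit 0) [nat_lit 47441, nat_lit 29945, nat_lit 35777, nat_lit 33833, nat_lit 34373, nat_lit 34301, nat_lit 34321, nat_lit 54001] (nat_lit 4) [] false,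
   Spec.mk (nat_lit 34321) (nat_lit 0) [nat_lit 47443, nat_lit 29947, nat_lit 35779, nat_lit 33835, nat_lit 34375, nat_lit 34303, nat_lit 34327, nat_lit 34319, nat_lit 34323, nat_lit 54003, nat_lit 14639] (nat_lit 4) [] false,
   Spec.mk (nat_lit 34323) (nat_lit 0) [nat_lit 47445, nat_lit 29949, nat_lit 35781, nat_lit 33837, nat_lit 34377, nat_lit 34305, nat_lit 34329, nat_lit 34321, nat_lit 14641] (nat_lit 6) [] false,
   Spec.mk (nat_lit 34327) (nat_lit 0) [nat_lit 47449, nat_lit 29953, nat_lit 35785, nat_lit 33841, nat_lit 34381, nat_lit 34309, nat_lit 34321, nat_lit 34329, nat_lit 54009, nat_lit 14645] (nat_lit 3) [] false,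
   Spec.mk (nat_lit 34329) (nat_lit 0) [nat_lit 47451, nat_lit 29955, nat_lit 35787, nat_lit 33843, nat_lit 34383, nat_lit 34311, nat_lit 34323, nat_lit 34335, nat_lit 34327, nat_lit 14647] (nat_lit 3) [] false,
   Spec.mk (nat_lit 34335) (nat_lit 0) [nat_lit 47457, nat_lit 29961, nat_lit 35793, nat_lit 33849, nat_lit 34389, nat_lit 34329, nat_lit 14653] (nat_lit 2) [] false,
   Spec.mk (nat_lit 34349) (nat_lit 0) [nat_lit 47471, nat_lit 29975, nat_lit 35807, nat_lit 33863, nat_lit 34511, nat_lit 34295, nat_lit 34355, nat_lit 34351, nat_lit 54031] (nat_lit 2) [] false,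
   Spec.mk (nat_lit 34351) (nat_lit 0) [nat_lit 47473, nat_lit 29977, nat_lit 35809, nat_lit 33865, nat_lit 34513, nat_lit 34297, nat_lit 34357, nat_lit 34349, nat_lit 54033, nat_lit 14669] (nat_lit 3) [] false,
   Spec.mk (nat_lit 34355) (nat_lit 0) [nat_lit 47477, nat_lit 29981, nat_lit 35813, nat_lit 33869, nat_lit 34517, nat_lit 34301, nat_lit 34373, nat_lit 34349, nat_lit 34357, nat_lit 54037] (nat_lit 4) [] false,
   Spec.mk (nat_lit 34357) (nat_lit 0) [nat_lit 47479, nat_lit 29983, nat_lit 35815, nat_lit 33871, nat_lit 34519, nat_lit 34303, nat_lit 34375, nat_lit 34351, nat_lit 34363, nat_lit 34355, nat_lit 34359, nat_lit 54039, nat_lit 14675] (nat_lit 3) [] false,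
   Spec.mk (nat_lit 34359) (nat_lit 0) [nat_lit 47481, nat_lit 29985, nat_lit 35817, nat_lit 33873, nat_lit 34521, nat_lit 34305, nat_lit 34377, nat_lit 34365, nat_lit 34357, nat_lit 14677] (nat_lit 4) [] false,
   Spec.mk (nat_lit 34363) (nat_lit 0) [nat_lit 47485, nat_lit 29989, nat_lit 35821, nat_lit 33877, nat_lit 34525, nat_lit 34309, nat_lit 34381, nat_lit 34357, nat_lit 34365, nat_lit 54045, nat_lit 14681] (nat_lit 5) [] false,
   Spec.mk (nat_lit 34365) (nat_lit 0) [nat_lit 47487, nat_lit 29991, nat_lit 35823, nat_lit 33879, nat_lit 34527, nat_lit 34311, nat_lit 34383, nat_lit 34359, nat_lit 34363, nat_lit 14683] (nat_lit 4) [] false,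
   Spec.mk (nat_lit 34373) (nat_lit 0) [nat_lit 47495, nat_lit 29999, nat_lit 35831, nat_lit 33887, nat_lit 34535, nat_lit 34319, nat_lit 34427, nat_lit 34355, nat_lit 34375, nat_lit 54055] (nat_lit 3) [] false,
   Spec.mk (nat_lit 34375) (nat_lit 0) [nat_lit 47497, nat_lit 30001, nat_lit 35833, nat_lit 33889, nat_lit 34537, nat_lit 34321, nat_lit 34429, nat_lit 34357, nat_lit 34381, nat_lit 34373, nat_lit 34377, nat_lit 54057, nat_lit 14693] (nat_lit 3) [] false,
   Spec.mk (nat_lit 34377) (nat_lit 0) [nat_lit 47499, nat_lit 30003, nat_lit 35835, nat_lit 33891, nat_lit 34539, nat_lit 34323, nat_lit 34431, nat_lit 34359, nat_lit 34383, nat_lit 34375, nat_lit 14695] (nat_lit 5) [] false,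
   Spec.mk (nat_lit 34381) (nat_lit 0) [nat_lit 47503, nat_lit 30007, nat_lit 35839, nat_lit 33895, nat_lit 34543, nat_lit 34327, nat_lit 34435, nat_lit 34363, nat_lit 34399, nat_lit 34375, nat_lit 34383, nat_lit 54063, nat_lit 14699] (nat_lit 3) [] false,
   Spec.mk (nat_lit 34383) (nat_lit 0) [nat_lit 47505, nat_lit 30009, nat_lit 35841, nat_lit 33897, nat_lit 34545, nat_lit 34329, nat_lit 34437, nat_lit 34365, nat_lit 34401, nat_lit 34377, nat_lit 34389, nat_lit 34381, nat_lit 14701] (nat_lit 3) [] false,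
   Spec.mk (nat_lit 34389) (nat_lit 0) [nat_lit 47511, nat_lit 30015, nat_lit 35847, nat_lit 33903, nat_lit 34551, nat_lit 34335, nat_lit 34443, nat_lit 34407, nat_lit 34383, nat_lit 14707] (nat_lit 3) [] false,
   Spec.mk (nat_lit 34399) (nat_lit 0) [nat_lit 47521, nat_lit 30025, nat_lit 35857, nat_lit 33913, nat_lit 34561, nat_lit 34453, nat_lit 34381, nat_lit 34401, nat_lit 54081, nat_lit 14717] (nat_lit 3) [] false,
   Spec.mk (nat_lit 34401) (nat_lit 0) [nat_lit 47523, nat_lit 30027, nat_lit 35859, nat_lit 33915, nat_lit 34563, nat_lit 34455, nat_lit 34383, nat_lit 34407, nat_lit 34399, nat_lit 14719] (nat_lit 4) [] false,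
   Spec.mk (nat_lit 34407) (nat_lit 0) [nat_lit 47529, nat_lit 30033, nat_lit 35865, nat_lit 33921, nat_lit 34569, nat_lit 34461, nat_lit 34389, nat_lit 34401, nat_lit 14725] (nat_lit 2) [] false,
   Spec.mk (nat_lit 34427) (nat_lit 0) [nat_lit 47549, nat_lit 30053, nat_lit 35885, nat_lit 33941, nat_lit 34589, nat_lit 34373, nat_lit 34429, nat_lit 54109] (nat_lit 4) [] false,
   Spec.mk (nat_lit 34429) (nat_lit 0) [nat_lit 47551, nat_lit 30055, nat_lit 35887, nat_lit 33943, nat_lit 34591, nat_lit 34375, nat_lit 34435, nat_lit 34427, nat_lit 34431, nat_lit 54111, nat_lit 14747] (nat_lit 4) [] false,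
   Spec.mk (nat_lit 34431) (nat_lit 0) [nat_lit 47553, nat_lit 30057, nat_lit 35889, nat_lit 33945, nat_lit 34593, nat_lit 34377, nat_lit 34437, nat_lit 34429, nat_lit 14749] (nat_lit 6) [] false,
   Spec.mk (nat_lit 34435) (nat_lit 0) [nat_lit 47557, nat_lit 30061, nat_lit 35893, nat_lit 33949, nat_lit 34597, nat_lit 34381, nat_lit 34453, nat_lit 34429, nat_lit 34437, nat_lit 54117, nat_lit 14753] (nat_lit 5) [] false,
   Spec.mk (nat_lit 34437) (nat_lit 0) [nat_lit 47559, nat_lit 30063, nat_lit 35895, nat_lit 33951, nat_lit 34599, nat_lit 34383, nat_lit 34455, nat_lit 34431, nat_lit 34443, nat_lit 34435, nat_lit 14755] (nat_lit 5) [] false,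
   Spec.mk (nat_lit 34443) (nat_lit 0) [nat_lit 47565, nat_lit 30069, nat_lit 35901, nat_lit 33957, nat_lit 34605, nat_lit 34389, nat_lit 34461, nat_lit 34437, nat_lit 14761] (nat_lit 6) [] false,
   Spec.mk (nat_lit 34453) (nat_lit 0) [nat_lit 47575, nat_lit 30079, nat_lit 35911, nat_lit 33967, nat_lit 34615, nat_lit 34399, nat_lit 34435, nat_lit 34455, nat_lit 54135, nat_lit 14771] (nat_lit 3) [] false,
   Spec.mk (nat_lit 34455) (nat_lit 0) [nat_lit 47577, nat_lit 30081, nat_lit 35913, nat_lit 33969, nat_lit 34617, nat_lit 34401, nat_lit 34437, nat_lit 34461, nat_lit 34453, nat_lit 14773] (nat_lit 4) [] false,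
   Spec.mk (nat_lit 34461) (nat_lit 0) [nat_lit 47583, nat_lit 30087, nat_lit 35919, nat_lit 33975, nat_lit 34623, nat_lit 34407, nat_lit 34443, nat_lit 34479, nat_lit 34455, nat_lit 14779] (nat_lit 3) [] false,
   Spec.mk (nat_lit 34479) (nat_lit 0) [nat_lit 47601, nat_lit 30105, nat_lit 35937, nat_lit 33993, nat_lit 34641, nat_lit 34461, nat_lit 14797] (nat_lit 2) [] false,
   Spec.mk (nat_lit 34511) (nat_lit 0) [nat_lit 47633, nat_lit 30137, nat_lit 35969, nat_lit 34025, nat_lit 34349, nat_lit 34517, nat_lit 34513, nat_lit 54193] (nat_lit 0) [] false,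
   Spec.mk (nat_lit 34513) (nat_lit 0) [nat_lit 47635, nat_lit 30139, nat_lit 35971, nat_lit 34027, nat_lit 34351, nat_lit 34519, nat_lit 34511, nat_lit 54195, nat_lit 14831] (nat_lit 1) [] false,
   Spec.mk (nat_lit 34517) (nat_lit 0) [nat_lit 47639, nat_lit 30143, nat_lit 35975, nat_lit 34031, nat_lit 34355, nat_lit 34535, nat_lit 34511, nat_lit 34519, nat_lit 54199] (nat_lit 2) [] false,
   Spec.mk (nat_lit 34519) (nat_lit 0) [nat_lit 47641, nat_lit 30145, nat_lit 35977, nat_lit 34033, nat_lit 34357, nat_lit 34537, nat_lit 34513, nat_lit 34525, nat_lit 34517, nat_lit 34521, nat_lit 54201, nat_lit 14837] (nat_lit 1) [] false,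
   Spec.mk (nat_lit 34521) (nat_lit 0) [nat_lit 47643, nat_lit 30147, nat_lit 35979, nat_lit 34035, nat_lit 34359, nat_lit 34539, nat_lit 34527, nat_lit 34519, nat_lit 14839] (nat_lit 2) [] false,
   Spec.mk (nat_lit 34525) (nat_lit 0) [nat_lit 47647, nat_lit 30151, nat_lit 35983, nat_lit 34039, nat_lit 34363, nat_lit 34543, nat_lit 34519, nat_lit 34527, nat_lit 54207, nat_lit 14843] (nat_lit 3) [] false]

noncomputable def sp93 : List Spec :=
  [Spec.mk (nat_lit 34527) (nat_lit 0) [nat_lit 47649, nat_lit 30153, nat_lit 35985, nat_lit 34041, nat_lit 34365, nat_lit 34545, nat_lit 34521, nat_lit 34525, nat_lit 14845] (nat_lit 2) [] false,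
   Spec.mk (nat_lit 34535) (nat_lit 0) [nat_lit 47657, nat_lit 30161, nat_lit 35993, nat_lit 34049, nat_lit 34373, nat_lit 34589, nat_lit 34517, nat_lit 34537, nat_lit 54217] (nat_lit 2) [] false,
   Spec.mk (nat_lit 34537) (nat_lit 0) [nat_lit 47659, nat_lit 30163, nat_lit 35995, nat_lit 34051, nat_lit 34375, nat_lit 34591, nat_lit 34519, nat_lit 34543, nat_lit 34535, nat_lit 34539, nat_lit 54219, nat_lit 14855] (nat_lit 2) [] false,
   Spec.mk (nat_lit 34539) (nat_lit 0) [nat_lit 47661, nat_lit 30165, nat_lit 35997, nat_lit 34053, nat_lit 34377, nat_lit 34593, nat_lit 34521, nat_lit 34545, nat_lit 34537, nat_lit 14857] (nat_lit 4) [] false,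
   Spec.mk (nat_lit 34543) (nat_lit 0) [nat_lit 47665, nat_lit 30169, nat_lit 36001, nat_lit 34057, nat_lit 34381, nat_lit 34597, nat_lit 34525, nat_lit 34561, nat_lit 34537, nat_lit 34545, nat_lit 54225, nat_lit 14861] (nat_lit 2) [] false,
   Spec.mk (nat_lit 34545) (nat_lit 0) [nat_lit 47667, nat_lit 30171, nat_lit 36003, nat_lit 34059, nat_lit 34383, nat_lit 34599, nat_lit 34527, nat_lit 34563, nat_lit 34539, nat_lit 34551, nat_lit 34543, nat_lit 14863] (nat_lit 2) [] false,
   Spec.mk (nat_lit 34551) (nat_lit 0) [nat_lit 47673, nat_lit 30177, nat_lit 36009, nat_lit 34065, nat_lit 34389, nat_lit 34605, nat_lit 34569, nat_lit 34545, nat_lit 14869] (nat_lit 2) [] false,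
   Spec.mk (nat_lit 34561) (nat_lit 0) [nat_lit 47683, nat_lit 30187, nat_lit 36019, nat_lit 34075, nat_lit 34399, nat_lit 34615, nat_lit 34543, nat_lit 34563, nat_lit 54243, nat_lit 14879] (nat_lit 3) [] false,
   Spec.mk (nat_lit 34563) (nat_lit 0) [nat_lit 47685, nat_lit 30189, nat_lit 36021, nat_lit 34077, nat_lit 34401, nat_lit 34617, nat_lit 34545, nat_lit 34569, nat_lit 34561, nat_lit 14881] (nat_lit 4) [] false,
   Spec.mk (nat_lit 34569) (nat_lit 0) [nat_lit 47691, nat_lit 30195, nat_lit 36027, nat_lit 34083, nat_lit 34407, nat_lit 34623, nat_lit 34551, nat_lit 34563, nat_lit 14887] (nat_lit 2) [] false,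
   Spec.mk (nat_lit 34589) (nat_lit 0) [nat_lit 47711, nat_lit 30215, nat_lit 36047, nat_lit 34103, nat_lit 34427, nat_lit 34751, nat_lit 34535, nat_lit 34591, nat_lit 54271] (nat_lit 1) [] false,
   Spec.mk (nat_lit 34591) (nat_lit 0) [nat_lit 47713, nat_lit 30217, nat_lit 36049, nat_lit 34105, nat_lit 34429, nat_lit 34753, nat_lit 34537, nat_lit 34597, nat_lit 34589, nat_lit 34593, nat_lit 54273, nat_lit 14909] (nat_lit 1) [] false,
   Spec.mk (nat_lit 34593) (nat_lit 0) [nat_lit 47715, nat_lit 30219, nat_lit 36051, nat_lit 34107, nat_lit 34431, nat_lit 34755, nat_lit 34539, nat_lit 34599, nat_lit 34591, nat_lit 14911] (nat_lit 3) [] false,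
   Spec.mk (nat_lit 34597) (nat_lit 0) [nat_lit 47719, nat_lit 30223, nat_lit 36055, nat_lit 34111, nat_lit 34435, nat_lit 34759, nat_lit 34543, nat_lit 34615, nat_lit 34591, nat_lit 34599, nat_lit 54279, nat_lit 14915] (nat_lit 2) [] false,
   Spec.mk (nat_lit 34599) (nat_lit 0) [nat_lit 47721, nat_lit 30225, nat_lit 36057, nat_lit 34113, nat_lit 34437, nat_lit 34761, nat_lit 34545, nat_lit 34617, nat_lit 34593, nat_lit 34605, nat_lit 34597, nat_lit 14917] (nat_lit 2) [] false,
   Spec.mk (nat_lit 34605) (nat_lit 0) [nat_lit 47727, nat_lit 30231, nat_lit 36063, nat_lit 34119, nat_lit 34443, nat_lit 34767, nat_lit 34551, nat_lit 34623, nat_lit 34599, nat_lit 14923] (nat_lit 3) [] false,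
   Spec.mk (nat_lit 34615) (nat_lit 0) [nat_lit 47737, nat_lit 30241, nat_lit 36073, nat_lit 34129, nat_lit 34453, nat_lit 34777, nat_lit 34561, nat_lit 34669, nat_lit 34597, nat_lit 34617, nat_lit 54297, nat_lit 14933] (nat_lit 1) [] false,
   Spec.mk (nat_lit 34617) (nat_lit 0) [nat_lit 47739, nat_lit 30243, nat_lit 36075, nat_lit 34131, nat_lit 34455, nat_lit 34779, nat_lit 34563, nat_lit 34671, nat_lit 34599, nat_lit 34623, nat_lit 34615, nat_lit 14935] (nat_lit 2) [] false,
   Spec.mk (nat_lit 34623) (nat_lit 0) [nat_lit 47745, nat_lit 30249, nat_lit 36081, nat_lit 34137, nat_lit 34461, nat_lit 34785, nat_lit 34569, nat_lit 34677, nat_lit 34605, nat_lit 34641, nat_lit 34617, nat_lit 14941] (nat_lit 1) [] false,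
   Spec.mk (nat_lit 34641) (nat_lit 0) [nat_lit 47763, nat_lit 30267, nat_lit 36099, nat_lit 34155, nat_lit 34479, nat_lit 34803, nat_lit 34695, nat_lit 34623, nat_lit 14959] (nat_lit 1) [] false,
   Spec.mk (nat_lit 34669) (nat_lit 0) [nat_lit 47791, nat_lit 30295, nat_lit 36127, nat_lit 34183, nat_lit 34831, nat_lit 34615, nat_lit 34671, nat_lit 54351, nat_lit 14987] (nat_lit 1) [] false,
   Spec.mk (nat_lit 34671) (nat_lit 0) [nat_lit 47793, nat_lit 30297, nat_lit 36129, nat_lit 34185, nat_lit 34833, nat_lit 34617, nat_lit 34677, nat_lit 34669, nat_lit 14989] (nat_lit 2) [] false,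
   Spec.mk (nat_lit 34677) (nat_lit 0) [nat_lit 47799, nat_lit 30303, nat_lit 36135, nat_lit 34191, nat_lit 34839, nat_lit 34623, nat_lit 34695, nat_lit 34671, nat_lit 14995] (nat_lit 2) [] false,
   Spec.mk (nat_lit 34695) (nat_lit 0) [nat_lit 47817, nat_lit 30321, nat_lit 36153, nat_lit 34209, nat_lit 34857, nat_lit 34641, nat_lit 34677, nat_lit 15013] (nat_lit 0) [] false,
   Spec.mk (nat_lit 34751) (nat_lit 0) [nat_lit 47873, nat_lit 30377, nat_lit 36209, nat_lit 34589, nat_lit 34753, nat_lit 54433] (nat_lit 0) [] false,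
   Spec.mk (nat_lit 34753) (nat_lit 0) [nat_lit 47875, nat_lit 30379, nat_lit 36211, nat_lit 34591, nat_lit 34759, nat_lit 34751, nat_lit 34755, nat_lit 54435, nat_lit 15071] (nat_lit 0) [] false,
   Spec.mk (nat_lit 34755) (nat_lit 0) [nat_lit 47877, nat_lit 30381, nat_lit 36213, nat_lit 34593, nat_lit 34761, nat_lit 34753, nat_lit 15073] (nat_lit 2) [] false,
   Spec.mk (nat_lit 34759) (nat_lit 0) [nat_lit 47881, nat_lit 30385, nat_lit 36217, nat_lit 34597, nat_lit 34777, nat_lit 34753, nat_lit 34761, nat_lit 54441, nat_lit 15077] (nat_lit 1) [] false,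
   Spec.mk (nat_lit 34761) (nat_lit 0) [nat_lit 47883, nat_lit 30387, nat_lit 36219, nat_lit 34599, nat_lit 34779, nat_lit 34755, nat_lit 34767, nat_lit 34759, nat_lit 15079] (nat_lit 1) [] false,
   Spec.mk (nat_lit 34767) (nat_lit 0) [nat_lit 47889, nat_lit 30393, nat_lit 36225, nat_lit 34605, nat_lit 34785, nat_lit 34761, nat_lit 15085] (nat_lit 2) [] false,
   Spec.mk (nat_lit 34777) (nat_lit 0) [nat_lit 47899, nat_lit 30403, nat_lit 36235, nat_lit 34615, nat_lit 34831, nat_lit 34759, nat_lit 34779, nat_lit 54459, nat_lit 15095] (nat_lit 1) [] false,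
   Spec.mk (nat_lit 34779) (nat_lit 0) [nat_lit 47901, nat_lit 30405, nat_lit 36237, nat_lit 34617, nat_lit 34833, nat_lit 34761, nat_lit 34785, nat_lit 34777, nat_lit 15097] (nat_lit 2) [] false,
   Spec.mk (nat_lit 34785) (nat_lit 0) [nat_lit 47907, nat_lit 30411, nat_lit 36243, nat_lit 34623, nat_lit 34839, nat_lit 34767, nat_lit 34803, nat_lit 34779, nat_lit 15103] (nat_lit 1) [] false,
   Spec.mk (nat_lit 34803) (nat_lit 0) [nat_lit 47925, nat_lit 30429, nat_lit 36261, nat_lit 34641, nat_lit 34857, nat_lit 34785, nat_lit 15121] (nat_lit 2) [] false,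
   Spec.mk (nat_lit 34831) (nat_lit 1) [nat_lit 47953, nat_lit 30457, nat_lit 36289, nat_lit 34669, nat_lit 34777, nat_lit 34833, nat_lit 54513, nat_lit 15149] (nat_lit 0) [] false,
   Spec.mk (nat_lit 34833) (nat_lit 0) [nat_lit 47955, nat_lit 30459, nat_lit 36291, nat_lit 34671, nat_lit 34779, nat_lit 34839, nat_lit 34831, nat_lit 15151] (nat_lit 0) [] false,
   Spec.mk (nat_lit 34839) (nat_lit 0) [nat_lit 47961, nat_lit 30465, nat_lit 36297, nat_lit 34677, nat_lit 34785, nat_lit 34857, nat_lit 34833, nat_lit 15157] (nat_lit 0) [] false,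
   Spec.mk (nat_lit 34857) (nat_lit 1) [nat_lit 47979, nat_lit 30483, nat_lit 36315, nat_lit 34695, nat_lit 34803, nat_lit 34911, nat_lit 34839, nat_lit 15175] (nat_lit 0) [] false,
   Spec.mk (nat_lit 34911) (nat_lit 2) [nat_lit 48033, nat_lit 30537, nat_lit 36369, nat_lit 34857, nat_lit 15229] (nat_lit 0) [] false,
   Spec.mk (nat_lit 35009) (nat_lit 4) [nat_lit 48131, nat_lit 30635, nat_lit 33551, nat_lit 35027, nat_lit 35015, nat_lit 54691] (nat_lit 0) [] false,
   Spec.mk (nat_lit 35015) (nat_lit 2) [nat_lit 48137, nat_lit 30641, nat_lit 33557, nat_lit 35033, nat_lit 35009, nat_lit 35017, nat_lit 54697] (nat_lit 0) [] false,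
   Spec.mk (nat_lit 35017) (nat_lit 3) [nat_lit 48139, nat_lit 30643, nat_lit 33559, nat_lit 35035, nat_lit 35015, nat_lit 54699, nat_lit 15335] (nat_lit 0) [] false,
   Spec.mk (nat_lit 35027) (nat_lit 2) [nat_lit 48149, nat_lit 30653, nat_lit 33569, nat_lit 35081, nat_lit 35009, nat_lit 35033, nat_lit 54709] (nat_lit 0) [] false,
   Spec.mk (nat_lit 35033) (nat_lit 2) [nat_lit 48155, nat_lit 30659, nat_lit 33575, nat_lit 35087, nat_lit 35015, nat_lit 35051, nat_lit 35027, nat_lit 35039, nat_lit 35035, nat_lit 54715] (nat_lit 0) [] false,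
   Spec.mk (nat_lit 35035) (nat_lit 2) [nat_lit 48157, nat_lit 30661, nat_lit 33577, nat_lit 35089, nat_lit 35017, nat_lit 35053, nat_lit 35041, nat_lit 35033, nat_lit 54717, nat_lit 15353] (nat_lit 0) [] false,
   Spec.mk (nat_lit 35039) (nat_lit 0) [nat_lit 48161, nat_lit 30665, nat_lit 33581, nat_lit 35093, nat_lit 35057, nat_lit 35033, nat_lit 35041, nat_lit 54721] (nat_lit 0) [] false,
   Spec.mk (nat_lit 35041) (nat_lit 2) [nat_lit 48163, nat_lit 30667, nat_lit 33583, nat_lit 35095, nat_lit 35059, nat_lit 35035, nat_lit 35039, nat_lit 35043, nat_lit 54723, nat_lit 15359] (nat_lit 0) [] false,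
   Spec.mk (nat_lit 35043) (nat_lit 2) [nat_lit 48165, nat_lit 30669, nat_lit 33585, nat_lit 35097, nat_lit 35061, nat_lit 35041, nat_lit 15361] (nat_lit 0) [] false,
   Spec.mk (nat_lit 35051) (nat_lit 0) [nat_lit 48173, nat_lit 30677, nat_lit 33593, nat_lit 35105, nat_lit 35033, nat_lit 35057, nat_lit 35053, nat_lit 54733] (nat_lit 0) [] false,
   Spec.mk (nat_lit 35053) (nat_lit 0) [nat_lit 48175, nat_lit 30679, nat_lit 33595, nat_lit 35107, nat_lit 35035, nat_lit 35059, nat_lit 35051, nat_lit 54735, nat_lit 15371] (nat_lit 1) [] false,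
   Spec.mk (nat_lit 35057) (nat_lit 0) [nat_lit 48179, nat_lit 30683, nat_lit 33599, nat_lit 35111, nat_lit 35039, nat_lit 35051, nat_lit 35059, nat_lit 54739] (nat_lit 0) [] false,
   Spec.mk (nat_lit 35059) (nat_lit 1) [nat_lit 48181, nat_lit 30685, nat_lit 33601, nat_lit 35113, nat_lit 35041, nat_lit 35053, nat_lit 35065, nat_lit 35057, nat_lit 35061, nat_lit 54741, nat_lit 15377] (nat_lit 0) [] false,
   Spec.mk (nat_lit 35061) (nat_lit 0) [nat_lit 48183, nat_lit 30687, nat_lit 33603, nat_lit 35115, nat_lit 35043, nat_lit 35067, nat_lit 35059, nat_lit 15379] (nat_lit 0) [] false,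
   Spec.mk (nat_lit 35065) (nat_lit 1) [nat_lit 48187, nat_lit 30691, nat_lit 33607, nat_lit 35119, nat_lit 35059, nat_lit 35067, nat_lit 54747, nat_lit 15383] (nat_lit 0) [] false,
   Spec.mk (nat_lit 35067) (nat_lit 2) [nat_lit 48189, nat_lit 30693, nat_lit 33609, nat_lit 35121, nat_lit 35061, nat_lit 35065, nat_lit 15385] (nat_lit 0) [] false,
   Spec.mk (nat_lit 35081) (nat_lit 2) [nat_lit 48203, nat_lit 30707, nat_lit 33623, nat_lit 35243, nat_lit 35027, nat_lit 35087, nat_lit 54763] (nat_lit 0) [] false,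
   Spec.mk (nat_lit 35087) (nat_lit 1) [nat_lit 48209, nat_lit 30713, nat_lit 33629, nat_lit 35249, nat_lit 35033, nat_lit 35105, nat_lit 35081, nat_lit 35093, nat_lit 35089, nat_lit 54769] (nat_lit 0) [] false,
   Spec.mk (nat_lit 35089) (nat_lit 1) [nat_lit 48211, nat_lit 30715, nat_lit 33631, nat_lit 35251, nat_lit 35035, nat_lit 35107, nat_lit 35095, nat_lit 35087, nat_lit 54771, nat_lit 15407] (nat_lit 0) [] false,
   Spec.mk (nat_lit 35093) (nat_lit 0) [nat_lit 48215, nat_lit 30719, nat_lit 33635, nat_lit 35255, nat_lit 35039, nat_lit 35111, nat_lit 35087, nat_lit 35095, nat_lit 54775] (nat_lit 2) [] false,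
   Spec.mk (nat_lit 35095) (nat_lit 0) [nat_lit 48217, nat_lit 30721, nat_lit 33637, nat_lit 35257, nat_lit 35041, nat_lit 35113, nat_lit 35089, nat_lit 35093, nat_lit 35097, nat_lit 54777, nat_lit 15413] (nat_lit 0) [] false]

noncomputable def sp94 : List Spec :=
  [Spec.mk (nat_lit 35097) (nat_lit 0) [nat_lit 48219, nat_lit 30723, nat_lit 33639, nat_lit 35259, nat_lit 35043, nat_lit 35115, nat_lit 35095, nat_lit 15415] (nat_lit 0) [] false,
   Spec.mk (nat_lit 35105) (nat_lit 1) [nat_lit 48227, nat_lit 30731, nat_lit 33647, nat_lit 35267, nat_lit 35051, nat_lit 35159, nat_lit 35087, nat_lit 35111, nat_lit 35107, nat_lit 54787] (nat_lit 0) [] false,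
   Spec.mk (nat_lit 35107) (nat_lit 0) [nat_lit 48229, nat_lit 30733, nat_lit 33649, nat_lit 35269, nat_lit 35053, nat_lit 35161, nat_lit 35089, nat_lit 35113, nat_lit 35105, nat_lit 54789, nat_lit 15425] (nat_lit 0) [] false,
   Spec.mk (nat_lit 35111) (nat_lit 0) [nat_lit 48233, nat_lit 30737, nat_lit 33653, nat_lit 35273, nat_lit 35057, nat_lit 35165, nat_lit 35093, nat_lit 35129, nat_lit 35105, nat_lit 35113, nat_lit 54793] (nat_lit 0) [] false,
   Spec.mk (nat_lit 35113) (nat_lit 1) [nat_lit 48235, nat_lit 30739, nat_lit 33655, nat_lit 35275, nat_lit 35059, nat_lit 35167, nat_lit 35095, nat_lit 35131, nat_lit 35107, nat_lit 35119, nat_lit 35111, nat_lit 35115, nat_lit 54795, nat_lit 15431] (nat_lit 0) [] false,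
   Spec.mk (nat_lit 35115) (nat_lit 0) [nat_lit 48237, nat_lit 30741, nat_lit 33657, nat_lit 35277, nat_lit 35061, nat_lit 35169, nat_lit 35097, nat_lit 35133, nat_lit 35121, nat_lit 35113, nat_lit 15433] (nat_lit 0) [] false,
   Spec.mk (nat_lit 35119) (nat_lit 0) [nat_lit 48241, nat_lit 30745, nat_lit 33661, nat_lit 35281, nat_lit 35065, nat_lit 35173, nat_lit 35137, nat_lit 35113, nat_lit 35121, nat_lit 54801, nat_lit 15437] (nat_lit 0) [] false,
   Spec.mk (nat_lit 35121) (nat_lit 1) [nat_lit 48243, nat_lit 30747, nat_lit 33663, nat_lit 35283, nat_lit 35067, nat_lit 35175, nat_lit 35139, nat_lit 35115, nat_lit 35119, nat_lit 15439] (nat_lit 0) [] false,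
   Spec.mk (nat_lit 35129) (nat_lit 0) [nat_lit 48251, nat_lit 30755, nat_lit 33671, nat_lit 35291, nat_lit 35183, nat_lit 35111, nat_lit 35131, nat_lit 54811] (nat_lit 0) [] false,
   Spec.mk (nat_lit 35131) (nat_lit 0) [nat_lit 48253, nat_lit 30757, nat_lit 33673, nat_lit 35293, nat_lit 35185, nat_lit 35113, nat_lit 35137, nat_lit 35129, nat_lit 35133, nat_lit 54813, nat_lit 15449] (nat_lit 0) [] false,
   Spec.mk (nat_lit 35133) (nat_lit 0) [nat_lit 48255, nat_lit 30759, nat_lit 33675, nat_lit 35295, nat_lit 35187, nat_lit 35115, nat_lit 35139, nat_lit 35131, nat_lit 15451] (nat_lit 2) [] false,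
   Spec.mk (nat_lit 35137) (nat_lit 1) [nat_lit 48259, nat_lit 30763, nat_lit 33679, nat_lit 35299, nat_lit 35191, nat_lit 35119, nat_lit 35131, nat_lit 35139, nat_lit 54819, nat_lit 15455] (nat_lit 0) [] false,
   Spec.mk (nat_lit 35139) (nat_lit 1) [nat_lit 48261, nat_lit 30765, nat_lit 33681, nat_lit 35301, nat_lit 35193, nat_lit 35121, nat_lit 35133, nat_lit 35145, nat_lit 35137, nat_lit 15457] (nat_lit 0) [] false,
   Spec.mk (nat_lit 35145) (nat_lit 2) [nat_lit 48267, nat_lit 30771, nat_lit 33687, nat_lit 35307, nat_lit 35199, nat_lit 35139, nat_lit 15463] (nat_lit 0) [] false,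
   Spec.mk (nat_lit 35159) (nat_lit 0) [nat_lit 48281, nat_lit 30785, nat_lit 33701, nat_lit 35321, nat_lit 35105, nat_lit 35165, nat_lit 35161, nat_lit 54841] (nat_lit 0) [] false,
   Spec.mk (nat_lit 35161) (nat_lit 0) [nat_lit 48283, nat_lit 30787, nat_lit 33703, nat_lit 35323, nat_lit 35107, nat_lit 35167, nat_lit 35159, nat_lit 54843, nat_lit 15479] (nat_lit 1) [] false,
   Spec.mk (nat_lit 35165) (nat_lit 0) [nat_lit 48287, nat_lit 30791, nat_lit 33707, nat_lit 35327, nat_lit 35111, nat_lit 35183, nat_lit 35159, nat_lit 35167, nat_lit 54847] (nat_lit 2) [] false,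
   Spec.mk (nat_lit 35167) (nat_lit 0) [nat_lit 48289, nat_lit 30793, nat_lit 33709, nat_lit 35329, nat_lit 35113, nat_lit 35185, nat_lit 35161, nat_lit 35173, nat_lit 35165, nat_lit 35169, nat_lit 54849, nat_lit 15485] (nat_lit 1) [] false,
   Spec.mk (nat_lit 35169) (nat_lit 0) [nat_lit 48291, nat_lit 30795, nat_lit 33711, nat_lit 35331, nat_lit 35115, nat_lit 35187, nat_lit 35175, nat_lit 35167, nat_lit 15487] (nat_lit 2) [] false,
   Spec.mk (nat_lit 35173) (nat_lit 0) [nat_lit 48295, nat_lit 30799, nat_lit 33715, nat_lit 35335, nat_lit 35119, nat_lit 35191, nat_lit 35167, nat_lit 35175, nat_lit 54855, nat_lit 15491] (nat_lit 3) [] false,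
   Spec.mk (nat_lit 35175) (nat_lit 0) [nat_lit 48297, nat_lit 30801, nat_lit 33717, nat_lit 35337, nat_lit 35121, nat_lit 35193, nat_lit 35169, nat_lit 35173, nat_lit 15493] (nat_lit 2) [] false,
   Spec.mk (nat_lit 35183) (nat_lit 0) [nat_lit 48305, nat_lit 30809, nat_lit 33725, nat_lit 35345, nat_lit 35129, nat_lit 35165, nat_lit 35185, nat_lit 54865] (nat_lit 0) [] false,
   Spec.mk (nat_lit 35185) (nat_lit 0) [nat_lit 48307, nat_lit 30811, nat_lit 33727, nat_lit 35347, nat_lit 35131, nat_lit 35167, nat_lit 35191, nat_lit 35183, nat_lit 35187, nat_lit 54867, nat_lit 15503] (nat_lit 0) [] false,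
   Spec.mk (nat_lit 35187) (nat_lit 0) [nat_lit 48309, nat_lit 30813, nat_lit 33729, nat_lit 35349, nat_lit 35133, nat_lit 35169, nat_lit 35193, nat_lit 35185, nat_lit 15505] (nat_lit 2) [] false,
   Spec.mk (nat_lit 35191) (nat_lit 0) [nat_lit 48313, nat_lit 30817, nat_lit 33733, nat_lit 35353, nat_lit 35137, nat_lit 35173, nat_lit 35209, nat_lit 35185, nat_lit 35193, nat_lit 54873, nat_lit 15509] (nat_lit 0) [] false,
   Spec.mk (nat_lit 35193) (nat_lit 0) [nat_lit 48315, nat_lit 30819, nat_lit 33735, nat_lit 35355, nat_lit 35139, nat_lit 35175, nat_lit 35211, nat_lit 35187, nat_lit 35199, nat_lit 35191, nat_lit 15511] (nat_lit 0) [] false,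
   Spec.mk (nat_lit 35199) (nat_lit 0) [nat_lit 48321, nat_lit 30825, nat_lit 33741, nat_lit 35361, nat_lit 35145, nat_lit 35217, nat_lit 35193, nat_lit 15517] (nat_lit 0) [] false,
   Spec.mk (nat_lit 35209) (nat_lit 1) [nat_lit 48331, nat_lit 30835, nat_lit 33751, nat_lit 35371, nat_lit 35191, nat_lit 35211, nat_lit 54891, nat_lit 15527] (nat_lit 0) [] false,
   Spec.mk (nat_lit 35211) (nat_lit 0) [nat_lit 48333, nat_lit 30837, nat_lit 33753, nat_lit 35373, nat_lit 35193, nat_lit 35217, nat_lit 35209, nat_lit 15529] (nat_lit 0) [] false,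
   Spec.mk (nat_lit 35217) (nat_lit 2) [nat_lit 48339, nat_lit 30843, nat_lit 33759, nat_lit 35379, nat_lit 35199, nat_lit 35211, nat_lit 15535] (nat_lit 0) [] false,
   Spec.mk (nat_lit 35243) (nat_lit 2) [nat_lit 48365, nat_lit 30869, nat_lit 33785, nat_lit 35729, nat_lit 35081, nat_lit 35249, nat_lit 54925] (nat_lit 0) [] false,
   Spec.mk (nat_lit 35249) (nat_lit 1) [nat_lit 48371, nat_lit 30875, nat_lit 33791, nat_lit 35735, nat_lit 35087, nat_lit 35267, nat_lit 35243, nat_lit 35255, nat_lit 35251, nat_lit 54931] (nat_lit 0) [] false,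
   Spec.mk (nat_lit 35251) (nat_lit 1) [nat_lit 48373, nat_lit 30877, nat_lit 33793, nat_lit 35737, nat_lit 35089, nat_lit 35269, nat_lit 35257, nat_lit 35249, nat_lit 54933, nat_lit 15569] (nat_lit 0) [] false,
   Spec.mk (nat_lit 35255) (nat_lit 0) [nat_lit 48377, nat_lit 30881, nat_lit 33797, nat_lit 35741, nat_lit 35093, nat_lit 35273, nat_lit 35249, nat_lit 35257, nat_lit 54937] (nat_lit 2) [] false,
   Spec.mk (nat_lit 35257) (nat_lit 0) [nat_lit 48379, nat_lit 30883, nat_lit 33799, nat_lit 35743, nat_lit 35095, nat_lit 35275, nat_lit 35251, nat_lit 35255, nat_lit 35259, nat_lit 54939, nat_lit 15575] (nat_lit 0) [] false,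
   Spec.mk (nat_lit 35259) (nat_lit 0) [nat_lit 48381, nat_lit 30885, nat_lit 33801, nat_lit 35745, nat_lit 35097, nat_lit 35277, nat_lit 35257, nat_lit 15577] (nat_lit 0) [] false,
   Spec.mk (nat_lit 35267) (nat_lit 0) [nat_lit 48389, nat_lit 30893, nat_lit 33809, nat_lit 35753, nat_lit 35105, nat_lit 35321, nat_lit 35249, nat_lit 35273, nat_lit 35269, nat_lit 54949] (nat_lit 0) [] false,
   Spec.mk (nat_lit 35269) (nat_lit 0) [nat_lit 48391, nat_lit 30895, nat_lit 33811, nat_lit 35755, nat_lit 35107, nat_lit 35323, nat_lit 35251, nat_lit 35275, nat_lit 35267, nat_lit 54951, nat_lit 15587] (nat_lit 1) [] false,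
   Spec.mk (nat_lit 35273) (nat_lit 0) [nat_lit 48395, nat_lit 30899, nat_lit 33815, nat_lit 35759, nat_lit 35111, nat_lit 35327, nat_lit 35255, nat_lit 35291, nat_lit 35267, nat_lit 35275, nat_lit 54955] (nat_lit 1) [] false,
   Spec.mk (nat_lit 35275) (nat_lit 0) [nat_lit 48397, nat_lit 30901, nat_lit 33817, nat_lit 35761, nat_lit 35113, nat_lit 35329, nat_lit 35257, nat_lit 35293, nat_lit 35269, nat_lit 35281, nat_lit 35273, nat_lit 35277, nat_lit 54957, nat_lit 15593] (nat_lit 0) [] false,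
   Spec.mk (nat_lit 35277) (nat_lit 0) [nat_lit 48399, nat_lit 30903, nat_lit 33819, nat_lit 35763, nat_lit 35115, nat_lit 35331, nat_lit 35259, nat_lit 35295, nat_lit 35283, nat_lit 35275, nat_lit 15595] (nat_lit 1) [] false,
   Spec.mk (nat_lit 35281) (nat_lit 0) [nat_lit 48403, nat_lit 30907, nat_lit 33823, nat_lit 35767, nat_lit 35119, nat_lit 35335, nat_lit 35299, nat_lit 35275, nat_lit 35283, nat_lit 54963, nat_lit 15599] (nat_lit 1) [] false,
   Spec.mk (nat_lit 35283) (nat_lit 0) [nat_lit 48405, nat_lit 30909, nat_lit 33825, nat_lit 35769, nat_lit 35121, nat_lit 35337, nat_lit 35301, nat_lit 35277, nat_lit 35281, nat_lit 15601] (nat_lit 0) [] false,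
   Spec.mk (nat_lit 35291) (nat_lit 0) [nat_lit 48413, nat_lit 30917, nat_lit 33833, nat_lit 35777, nat_lit 35129, nat_lit 35345, nat_lit 35273, nat_lit 35293, nat_lit 54973] (nat_lit 2) [] false,
   Spec.mk (nat_lit 35293) (nat_lit 0) [nat_lit 48415, nat_lit 30919, nat_lit 33835, nat_lit 35779, nat_lit 35131, nat_lit 35347, nat_lit 35275, nat_lit 35299, nat_lit 35291, nat_lit 35295, nat_lit 54975, nat_lit 15611] (nat_lit 2) [] false,
   Spec.mk (nat_lit 35295) (nat_lit 0) [nat_lit 48417, nat_lit 30921, nat_lit 33837, nat_lit 35781, nat_lit 35133, nat_lit 35349, nat_lit 35277, nat_lit 35301, nat_lit 35293, nat_lit 15613] (nat_lit 4) [] false,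
   Spec.mk (nat_lit 35299) (nat_lit 0) [nat_lit 48421, nat_lit 30925, nat_lit 33841, nat_lit 35785, nat_lit 35137, nat_lit 35353, nat_lit 35281, nat_lit 35293, nat_lit 35301, nat_lit 54981, nat_lit 15617] (nat_lit 1) [] false,
   Spec.mk (nat_lit 35301) (nat_lit 0) [nat_lit 48423, nat_lit 30927, nat_lit 33843, nat_lit 35787, nat_lit 35139, nat_lit 35355, nat_lit 35283, nat_lit 35295, nat_lit 35307, nat_lit 35299, nat_lit 15619] (nat_lit 1) [] false,
   Spec.mk (nat_lit 35307) (nat_lit 0) [nat_lit 48429, nat_lit 30933, nat_lit 33849, nat_lit 35793, nat_lit 35145, nat_lit 35361, nat_lit 35301, nat_lit 15625] (nat_lit 0) [] false,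
   Spec.mk (nat_lit 35321) (nat_lit 1) [nat_lit 48443, nat_lit 30947, nat_lit 33863, nat_lit 35807, nat_lit 35159, nat_lit 35483, nat_lit 35267, nat_lit 35327, nat_lit 35323, nat_lit 55003] (nat_lit 0) [] false,
   Spec.mk (nat_lit 35323) (nat_lit 0) [nat_lit 48445, nat_lit 30949, nat_lit 33865, nat_lit 35809, nat_lit 35161, nat_lit 35485, nat_lit 35269, nat_lit 35329, nat_lit 35321, nat_lit 55005, nat_lit 15641] (nat_lit 0) [] false,
   Spec.mk (nat_lit 35327) (nat_lit 0) [nat_lit 48449, nat_lit 30953, nat_lit 33869, nat_lit 35813, nat_lit 35165, nat_lit 35489, nat_lit 35273, nat_lit 35345, nat_lit 35321, nat_lit 35329, nat_lit 55009] (nat_lit 1) [] false,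
   Spec.mk (nat_lit 35329) (nat_lit 0) [nat_lit 48451, nat_lit 30955, nat_lit 33871, nat_lit 35815, nat_lit 35167, nat_lit 35491, nat_lit 35275, nat_lit 35347, nat_lit 35323, nat_lit 35335, nat_lit 35327, nat_lit 35331, nat_lit 55011, nat_lit 15647] (nat_lit 0) [] false,
   Spec.mk (nat_lit 35331) (nat_lit 0) [nat_lit 48453, nat_lit 30957, nat_lit 33873, nat_lit 35817, nat_lit 35169, nat_lit 35493, nat_lit 35277, nat_lit 35349, nat_lit 35337, nat_lit 35329, nat_lit 15649] (nat_lit 1) [] false,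
   Spec.mk (nat_lit 35335) (nat_lit 0) [nat_lit 48457, nat_lit 30961, nat_lit 33877, nat_lit 35821, nat_lit 35173, nat_lit 35497, nat_lit 35281, nat_lit 35353, nat_lit 35329, nat_lit 35337, nat_lit 55017, nat_lit 15653] (nat_lit 2) [] false,
   Spec.mk (nat_lit 35337) (nat_lit 0) [nat_lit 48459, nat_lit 30963, nat_lit 33879, nat_lit 35823, nat_lit 35175, nat_lit 35499, nat_lit 35283, nat_lit 35355, nat_lit 35331, nat_lit 35335, nat_lit 15655] (nat_lit 1) [] false,
   Spec.mk (nat_lit 35345) (nat_lit 0) [nat_lit 48467, nat_lit 30971, nat_lit 33887, nat_lit 35831, nat_lit 35183, nat_lit 35507, nat_lit 35291, nat_lit 35399, nat_lit 35327, nat_lit 35347, nat_lit 55027] (nat_lit 0) [] false,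
   Spec.mk (nat_lit 35347) (nat_lit 0) [nat_lit 48469, nat_lit 30973, nat_lit 33889, nat_lit 35833, nat_lit 35185, nat_lit 35509, nat_lit 35293, nat_lit 35401, nat_lit 35329, nat_lit 35353, nat_lit 35345, nat_lit 35349, nat_lit 55029, nat_lit 15665] (nat_lit 0) [] false,
   Spec.mk (nat_lit 35349) (nat_lit 0) [nat_lit 48471, nat_lit 30975, nat_lit 33891, nat_lit 35835, nat_lit 35187, nat_lit 35511, nat_lit 35295, nat_lit 35403, nat_lit 35331, nat_lit 35355, nat_lit 35347, nat_lit 15667] (nat_lit 2) [] false,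
   Spec.mk (nat_lit 35353) (nat_lit 0) [nat_lit 48475, nat_lit 30979, nat_lit 33895, nat_lit 35839, nat_lit 35191, nat_lit 35515, nat_lit 35299, nat_lit 35407, nat_lit 35335, nat_lit 35371, nat_lit 35347, nat_lit 35355, nat_lit 55035, nat_lit 15671] (nat_lit 0) [] false]

noncomputable def sp95 : List Spec :=
  [Spec.mk (nat_lit 35355) (nat_lit 0) [nat_lit 48477, nat_lit 30981, nat_lit 33897, nat_lit 35841, nat_lit 35193, nat_lit 35517, nat_lit 35301, nat_lit 35409, nat_lit 35337, nat_lit 35373, nat_lit 35349, nat_lit 35361, nat_lit 35353, nat_lit 15673] (nat_lit 0) [] false,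
   Spec.mk (nat_lit 35361) (nat_lit 0) [nat_lit 48483, nat_lit 30987, nat_lit 33903, nat_lit 35847, nat_lit 35199, nat_lit 35523, nat_lit 35307, nat_lit 35415, nat_lit 35379, nat_lit 35355, nat_lit 15679] (nat_lit 0) [] false,
   Spec.mk (nat_lit 35371) (nat_lit 0) [nat_lit 48493, nat_lit 30997, nat_lit 33913, nat_lit 35857, nat_lit 35209, nat_lit 35533, nat_lit 35425, nat_lit 35353, nat_lit 35373, nat_lit 55053, nat_lit 15689] (nat_lit 0) [] false,
   Spec.mk (nat_lit 35373) (nat_lit 0) [nat_lit 48495, nat_lit 30999, nat_lit 33915, nat_lit 35859, nat_lit 35211, nat_lit 35535, nat_lit 35427, nat_lit 35355, nat_lit 35379, nat_lit 35371, nat_lit 15691] (nat_lit 1) [] false,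
   Spec.mk (nat_lit 35379) (nat_lit 1) [nat_lit 48501, nat_lit 31005, nat_lit 33921, nat_lit 35865, nat_lit 35217, nat_lit 35541, nat_lit 35433, nat_lit 35361, nat_lit 35373, nat_lit 15697] (nat_lit 0) [] false,
   Spec.mk (nat_lit 35399) (nat_lit 0) [nat_lit 48521, nat_lit 31025, nat_lit 33941, nat_lit 35885, nat_lit 35561, nat_lit 35345, nat_lit 35401, nat_lit 55081] (nat_lit 0) [] false,
   Spec.mk (nat_lit 35401) (nat_lit 0) [nat_lit 48523, nat_lit 31027, nat_lit 33943, nat_lit 35887, nat_lit 35563, nat_lit 35347, nat_lit 35407, nat_lit 35399, nat_lit 35403, nat_lit 55083, nat_lit 15719] (nat_lit 0) [] false,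
   Spec.mk (nat_lit 35403) (nat_lit 0) [nat_lit 48525, nat_lit 31029, nat_lit 33945, nat_lit 35889, nat_lit 35565, nat_lit 35349, nat_lit 35409, nat_lit 35401, nat_lit 15721] (nat_lit 2) [] false,
   Spec.mk (nat_lit 35407) (nat_lit 0) [nat_lit 48529, nat_lit 31033, nat_lit 33949, nat_lit 35893, nat_lit 35569, nat_lit 35353, nat_lit 35425, nat_lit 35401, nat_lit 35409, nat_lit 55089, nat_lit 15725] (nat_lit 1) [] false,
   Spec.mk (nat_lit 35409) (nat_lit 0) [nat_lit 48531, nat_lit 31035, nat_lit 33951, nat_lit 35895, nat_lit 35571, nat_lit 35355, nat_lit 35427, nat_lit 35403, nat_lit 35415, nat_lit 35407, nat_lit 15727] (nat_lit 1) [] false,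
   Spec.mk (nat_lit 35415) (nat_lit 0) [nat_lit 48537, nat_lit 31041, nat_lit 33957, nat_lit 35901, nat_lit 35577, nat_lit 35361, nat_lit 35433, nat_lit 35409, nat_lit 15733] (nat_lit 2) [] false,
   Spec.mk (nat_lit 35425) (nat_lit 1) [nat_lit 48547, nat_lit 31051, nat_lit 33967, nat_lit 35911, nat_lit 35587, nat_lit 35371, nat_lit 35407, nat_lit 35427, nat_lit 55107, nat_lit 15743] (nat_lit 0) [] false,
   Spec.mk (nat_lit 35427) (nat_lit 0) [nat_lit 48549, nat_lit 31053, nat_lit 33969, nat_lit 35913, nat_lit 35589, nat_lit 35373, nat_lit 35409, nat_lit 35433, nat_lit 35425, nat_lit 15745] (nat_lit 0) [] false,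
   Spec.mk (nat_lit 35433) (nat_lit 1) [nat_lit 48555, nat_lit 31059, nat_lit 33975, nat_lit 35919, nat_lit 35595, nat_lit 35379, nat_lit 35415, nat_lit 35451, nat_lit 35427, nat_lit 15751] (nat_lit 0) [] false,
   Spec.mk (nat_lit 35451) (nat_lit 2) [nat_lit 48573, nat_lit 31077, nat_lit 33993, nat_lit 35937, nat_lit 35613, nat_lit 35433, nat_lit 15769] (nat_lit 0) [] false,
   Spec.mk (nat_lit 35483) (nat_lit 0) [nat_lit 48605, nat_lit 31109, nat_lit 34025, nat_lit 35969, nat_lit 35321, nat_lit 35489, nat_lit 35485, nat_lit 55165] (nat_lit 0) [] false,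
   Spec.mk (nat_lit 35485) (nat_lit 0) [nat_lit 48607, nat_lit 31111, nat_lit 34027, nat_lit 35971, nat_lit 35323, nat_lit 35491, nat_lit 35483, nat_lit 55167, nat_lit 15803] (nat_lit 1) [] false,
   Spec.mk (nat_lit 35489) (nat_lit 0) [nat_lit 48611, nat_lit 31115, nat_lit 34031, nat_lit 35975, nat_lit 35327, nat_lit 35507, nat_lit 35483, nat_lit 35491, nat_lit 55171] (nat_lit 2) [] false,
   Spec.mk (nat_lit 35491) (nat_lit 0) [nat_lit 48613, nat_lit 31117, nat_lit 34033, nat_lit 35977, nat_lit 35329, nat_lit 35509, nat_lit 35485, nat_lit 35497, nat_lit 35489, nat_lit 35493, nat_lit 55173, nat_lit 15809] (nat_lit 1) [] false,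
   Spec.mk (nat_lit 35493) (nat_lit 0) [nat_lit 48615, nat_lit 31119, nat_lit 34035, nat_lit 35979, nat_lit 35331, nat_lit 35511, nat_lit 35499, nat_lit 35491, nat_lit 15811] (nat_lit 2) [] false,
   Spec.mk (nat_lit 35497) (nat_lit 0) [nat_lit 48619, nat_lit 31123, nat_lit 34039, nat_lit 35983, nat_lit 35335, nat_lit 35515, nat_lit 35491, nat_lit 35499, nat_lit 55179, nat_lit 15815] (nat_lit 3) [] false,
   Spec.mk (nat_lit 35499) (nat_lit 0) [nat_lit 48621, nat_lit 31125, nat_lit 34041, nat_lit 35985, nat_lit 35337, nat_lit 35517, nat_lit 35493, nat_lit 35497, nat_lit 15817] (nat_lit 2) [] false,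
   Spec.mk (nat_lit 35507) (nat_lit 0) [nat_lit 48629, nat_lit 31133, nat_lit 34049, nat_lit 35993, nat_lit 35345, nat_lit 35561, nat_lit 35489, nat_lit 35509, nat_lit 55189] (nat_lit 2) [] false,
   Spec.mk (nat_lit 35509) (nat_lit 0) [nat_lit 48631, nat_lit 31135, nat_lit 34051, nat_lit 35995, nat_lit 35347, nat_lit 35563, nat_lit 35491, nat_lit 35515, nat_lit 35507, nat_lit 35511, nat_lit 55191, nat_lit 15827] (nat_lit 2) [] false,
   Spec.mk (nat_lit 35511) (nat_lit 0) [nat_lit 48633, nat_lit 31137, nat_lit 34053, nat_lit 35997, nat_lit 35349, nat_lit 35565, nat_lit 35493, nat_lit 35517, nat_lit 35509, nat_lit 15829] (nat_lit 4) [] false,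
   Spec.mk (nat_lit 35515) (nat_lit 0) [nat_lit 48637, nat_lit 31141, nat_lit 34057, nat_lit 36001, nat_lit 35353, nat_lit 35569, nat_lit 35497, nat_lit 35533, nat_lit 35509, nat_lit 35517, nat_lit 55197, nat_lit 15833] (nat_lit 2) [] false,
   Spec.mk (nat_lit 35517) (nat_lit 0) [nat_lit 48639, nat_lit 31143, nat_lit 34059, nat_lit 36003, nat_lit 35355, nat_lit 35571, nat_lit 35499, nat_lit 35535, nat_lit 35511, nat_lit 35523, nat_lit 35515, nat_lit 15835] (nat_lit 2) [] false,
   Spec.mk (nat_lit 35523) (nat_lit 0) [nat_lit 48645, nat_lit 31149, nat_lit 34065, nat_lit 36009, nat_lit 35361, nat_lit 35577, nat_lit 35541, nat_lit 35517, nat_lit 15841] (nat_lit 2) [] false,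
   Spec.mk (nat_lit 35533) (nat_lit 0) [nat_lit 48655, nat_lit 31159, nat_lit 34075, nat_lit 36019, nat_lit 35371, nat_lit 35587, nat_lit 35515, nat_lit 35535, nat_lit 55215, nat_lit 15851] (nat_lit 3) [] false,
   Spec.mk (nat_lit 35535) (nat_lit 0) [nat_lit 48657, nat_lit 31161, nat_lit 34077, nat_lit 36021, nat_lit 35373, nat_lit 35589, nat_lit 35517, nat_lit 35541, nat_lit 35533, nat_lit 15853] (nat_lit 4) [] false,
   Spec.mk (nat_lit 35541) (nat_lit 0) [nat_lit 48663, nat_lit 31167, nat_lit 34083, nat_lit 36027, nat_lit 35379, nat_lit 35595, nat_lit 35523, nat_lit 35535, nat_lit 15859] (nat_lit 2) [] false,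
   Spec.mk (nat_lit 35561) (nat_lit 0) [nat_lit 48683, nat_lit 31187, nat_lit 34103, nat_lit 36047, nat_lit 35399, nat_lit 35507, nat_lit 35563, nat_lit 55243] (nat_lit 0) [] false,
   Spec.mk (nat_lit 35563) (nat_lit 0) [nat_lit 48685, nat_lit 31189, nat_lit 34105, nat_lit 36049, nat_lit 35401, nat_lit 35509, nat_lit 35569, nat_lit 35561, nat_lit 35565, nat_lit 55245, nat_lit 15881] (nat_lit 0) [] false,
   Spec.mk (nat_lit 35565) (nat_lit 0) [nat_lit 48687, nat_lit 31191, nat_lit 34107, nat_lit 36051, nat_lit 35403, nat_lit 35511, nat_lit 35571, nat_lit 35563, nat_lit 15883] (nat_lit 2) [] false,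
   Spec.mk (nat_lit 35569) (nat_lit 0) [nat_lit 48691, nat_lit 31195, nat_lit 34111, nat_lit 36055, nat_lit 35407, nat_lit 35515, nat_lit 35587, nat_lit 35563, nat_lit 35571, nat_lit 55251, nat_lit 15887] (nat_lit 1) [] false,
   Spec.mk (nat_lit 35571) (nat_lit 0) [nat_lit 48693, nat_lit 31197, nat_lit 34113, nat_lit 36057, nat_lit 35409, nat_lit 35517, nat_lit 35589, nat_lit 35565, nat_lit 35577, nat_lit 35569, nat_lit 15889] (nat_lit 1) [] false,
   Spec.mk (nat_lit 35577) (nat_lit 0) [nat_lit 48699, nat_lit 31203, nat_lit 34119, nat_lit 36063, nat_lit 35415, nat_lit 35523, nat_lit 35595, nat_lit 35571, nat_lit 15895] (nat_lit 2) [] false,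
   Spec.mk (nat_lit 35587) (nat_lit 0) [nat_lit 48709, nat_lit 31213, nat_lit 34129, nat_lit 36073, nat_lit 35425, nat_lit 35533, nat_lit 35641, nat_lit 35569, nat_lit 35589, nat_lit 55269, nat_lit 15905] (nat_lit 0) [] false,
   Spec.mk (nat_lit 35589) (nat_lit 0) [nat_lit 48711, nat_lit 31215, nat_lit 34131, nat_lit 36075, nat_lit 35427, nat_lit 35535, nat_lit 35643, nat_lit 35571, nat_lit 35595, nat_lit 35587, nat_lit 15907] (nat_lit 1) [] false,
   Spec.mk (nat_lit 35595) (nat_lit 0) [nat_lit 48717, nat_lit 31221, nat_lit 34137, nat_lit 36081, nat_lit 35433, nat_lit 35541, nat_lit 35649, nat_lit 35577, nat_lit 35613, nat_lit 35589, nat_lit 15913] (nat_lit 0) [] false,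
   Spec.mk (nat_lit 35613) (nat_lit 0) [nat_lit 48735, nat_lit 31239, nat_lit 34155, nat_lit 36099, nat_lit 35451, nat_lit 35667, nat_lit 35595, nat_lit 15931] (nat_lit 0) [] false,
   Spec.mk (nat_lit 35641) (nat_lit 1) [nat_lit 48763, nat_lit 31267, nat_lit 34183, nat_lit 36127, nat_lit 35587, nat_lit 35643, nat_lit 55323, nat_lit 15959] (nat_lit 0) [] false,
   Spec.mk (nat_lit 35643) (nat_lit 0) [nat_lit 48765, nat_lit 31269, nat_lit 34185, nat_lit 36129, nat_lit 35589, nat_lit 35649, nat_lit 35641, nat_lit 15961] (nat_lit 0) [] false,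
   Spec.mk (nat_lit 35649) (nat_lit 0) [nat_lit 48771, nat_lit 31275, nat_lit 34191, nat_lit 36135, nat_lit 35595, nat_lit 35667, nat_lit 35643, nat_lit 15967] (nat_lit 0) [] false,
   Spec.mk (nat_lit 35667) (nat_lit 2) [nat_lit 48789, nat_lit 31293, nat_lit 34209, nat_lit 36153, nat_lit 35613, nat_lit 35649, nat_lit 15985] (nat_lit 0) [] false,
   Spec.mk (nat_lit 35729) (nat_lit 3) [nat_lit 48851, nat_lit 31355, nat_lit 34271, nat_lit 37187, nat_lit 35243, nat_lit 35735, nat_lit 55411] (nat_lit 0) [] false,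
   Spec.mk (nat_lit 35735) (nat_lit 2) [nat_lit 48857, nat_lit 31361, nat_lit 34277, nat_lit 37193, nat_lit 35249, nat_lit 35753, nat_lit 35729, nat_lit 35741, nat_lit 35737, nat_lit 55417] (nat_lit 0) [] false,
   Spec.mk (nat_lit 35737) (nat_lit 2) [nat_lit 48859, nat_lit 31363, nat_lit 34279, nat_lit 37195, nat_lit 35251, nat_lit 35755, nat_lit 35743, nat_lit 35735, nat_lit 55419, nat_lit 16055] (nat_lit 0) [] false,
   Spec.mk (nat_lit 35741) (nat_lit 0) [nat_lit 48863, nat_lit 31367, nat_lit 34283, nat_lit 37199, nat_lit 35255, nat_lit 35759, nat_lit 35735, nat_lit 35743, nat_lit 55423] (nat_lit 1) [] false,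
   Spec.mk (nat_lit 35743) (nat_lit 1) [nat_lit 48865, nat_lit 31369, nat_lit 34285, nat_lit 37201, nat_lit 35257, nat_lit 35761, nat_lit 35737, nat_lit 35741, nat_lit 35745, nat_lit 55425, nat_lit 16061] (nat_lit 0) [] false,
   Spec.mk (nat_lit 35745) (nat_lit 1) [nat_lit 48867, nat_lit 31371, nat_lit 34287, nat_lit 37203, nat_lit 35259, nat_lit 35763, nat_lit 35743, nat_lit 16063] (nat_lit 0) [] false,
   Spec.mk (nat_lit 35753) (nat_lit 1) [nat_lit 48875, nat_lit 31379, nat_lit 34295, nat_lit 37211, nat_lit 35267, nat_lit 35807, nat_lit 35735, nat_lit 35759, nat_lit 35755, nat_lit 55435] (nat_lit 0) [] false,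
   Spec.mk (nat_lit 35755) (nat_lit 0) [nat_lit 48877, nat_lit 31381, nat_lit 34297, nat_lit 37213, nat_lit 35269, nat_lit 35809, nat_lit 35737, nat_lit 35761, nat_lit 35753, nat_lit 55437, nat_lit 16073] (nat_lit 0) [] false,
   Spec.mk (nat_lit 35759) (nat_lit 0) [nat_lit 48881, nat_lit 31385, nat_lit 34301, nat_lit 37217, nat_lit 35273, nat_lit 35813, nat_lit 35741, nat_lit 35777, nat_lit 35753, nat_lit 35761, nat_lit 55441] (nat_lit 0) [] false,
   Spec.mk (nat_lit 35761) (nat_lit 1) [nat_lit 48883, nat_lit 31387, nat_lit 34303, nat_lit 37219, nat_lit 35275, nat_lit 35815, nat_lit 35743, nat_lit 35779, nat_lit 35755, nat_lit 35767, nat_lit 35759, nat_lit 35763, nat_lit 55443, nat_lit 16079] (nat_lit 0) [] false,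
   Spec.mk (nat_lit 35763) (nat_lit 0) [nat_lit 48885, nat_lit 31389, nat_lit 34305, nat_lit 37221, nat_lit 35277, nat_lit 35817, nat_lit 35745, nat_lit 35781, nat_lit 35769, nat_lit 35761, nat_lit 16081] (nat_lit 0) [] false,
   Spec.mk (nat_lit 35767) (nat_lit 0) [nat_lit 48889, nat_lit 31393, nat_lit 34309, nat_lit 37225, nat_lit 35281, nat_lit 35821, nat_lit 35785, nat_lit 35761, nat_lit 35769, nat_lit 55449, nat_lit 16085] (nat_lit 0) [] false,
   Spec.mk (nat_lit 35769) (nat_lit 1) [nat_lit 48891, nat_lit 31395, nat_lit 34311, nat_lit 37227, nat_lit 35283, nat_lit 35823, nat_lit 35787, nat_lit 35763, nat_lit 35767, nat_lit 16087] (nat_lit 0) [] false,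
   Spec.mk (nat_lit 35777) (nat_lit 0) [nat_lit 48899, nat_lit 31403, nat_lit 34319, nat_lit 37235, nat_lit 35291, nat_lit 35831, nat_lit 35759, nat_lit 35779, nat_lit 55459] (nat_lit 1) [] false,
   Spec.mk (nat_lit 35779) (nat_lit 0) [nat_lit 48901, nat_lit 31405, nat_lit 34321, nat_lit 37237, nat_lit 35293, nat_lit 35833, nat_lit 35761, nat_lit 35785, nat_lit 35777, nat_lit 35781, nat_lit 55461, nat_lit 16097] (nat_lit 1) [] false]

noncomputable def sp96 : List Spec :=
  [Spec.mk (nat_lit 35781) (nat_lit 0) [nat_lit 48903, nat_lit 31407, nat_lit 34323, nat_lit 37239, nat_lit 35295, nat_lit 35835, nat_lit 35763, nat_lit 35787, nat_lit 35779, nat_lit 16099] (nat_lit 3) [] false,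
   Spec.mk (nat_lit 35785) (nat_lit 0) [nat_lit 48907, nat_lit 31411, nat_lit 34327, nat_lit 37243, nat_lit 35299, nat_lit 35839, nat_lit 35767, nat_lit 35779, nat_lit 35787, nat_lit 55467, nat_lit 16103] (nat_lit 0) [] false,
   Spec.mk (nat_lit 35787) (nat_lit 0) [nat_lit 48909, nat_lit 31413, nat_lit 34329, nat_lit 37245, nat_lit 35301, nat_lit 35841, nat_lit 35769, nat_lit 35781, nat_lit 35793, nat_lit 35785, nat_lit 16105] (nat_lit 0) [] false,
   Spec.mk (nat_lit 35793) (nat_lit 1) [nat_lit 48915, nat_lit 31419, nat_lit 34335, nat_lit 37251, nat_lit 35307, nat_lit 35847, nat_lit 35787, nat_lit 16111] (nat_lit 0) [] false,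
   Spec.mk (nat_lit 35807) (nat_lit 1) [nat_lit 48929, nat_lit 31433, nat_lit 34349, nat_lit 37265, nat_lit 35321, nat_lit 35969, nat_lit 35753, nat_lit 35813, nat_lit 35809, nat_lit 55489] (nat_lit 0) [] false,
   Spec.mk (nat_lit 35809) (nat_lit 0) [nat_lit 48931, nat_lit 31435, nat_lit 34351, nat_lit 37267, nat_lit 35323, nat_lit 35971, nat_lit 35755, nat_lit 35815, nat_lit 35807, nat_lit 55491, nat_lit 16127] (nat_lit 0) [] false,
   Spec.mk (nat_lit 35813) (nat_lit 0) [nat_lit 48935, nat_lit 31439, nat_lit 34355, nat_lit 37271, nat_lit 35327, nat_lit 35975, nat_lit 35759, nat_lit 35831, nat_lit 35807, nat_lit 35815, nat_lit 55495] (nat_lit 1) [] false,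
   Spec.mk (nat_lit 35815) (nat_lit 0) [nat_lit 48937, nat_lit 31441, nat_lit 34357, nat_lit 37273, nat_lit 35329, nat_lit 35977, nat_lit 35761, nat_lit 35833, nat_lit 35809, nat_lit 35821, nat_lit 35813, nat_lit 35817, nat_lit 55497, nat_lit 16133] (nat_lit 0) [] false,
   Spec.mk (nat_lit 35817) (nat_lit 0) [nat_lit 48939, nat_lit 31443, nat_lit 34359, nat_lit 37275, nat_lit 35331, nat_lit 35979, nat_lit 35763, nat_lit 35835, nat_lit 35823, nat_lit 35815, nat_lit 16135] (nat_lit 1) [] false,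
   Spec.mk (nat_lit 35821) (nat_lit 0) [nat_lit 48943, nat_lit 31447, nat_lit 34363, nat_lit 37279, nat_lit 35335, nat_lit 35983, nat_lit 35767, nat_lit 35839, nat_lit 35815, nat_lit 35823, nat_lit 55503, nat_lit 16139] (nat_lit 2) [] false,
   Spec.mk (nat_lit 35823) (nat_lit 0) [nat_lit 48945, nat_lit 31449, nat_lit 34365, nat_lit 37281, nat_lit 35337, nat_lit 35985, nat_lit 35769, nat_lit 35841, nat_lit 35817, nat_lit 35821, nat_lit 16141] (nat_lit 1) [] false,
   Spec.mk (nat_lit 35831) (nat_lit 0) [nat_lit 48953, nat_lit 31457, nat_lit 34373, nat_lit 37289, nat_lit 35345, nat_lit 35993, nat_lit 35777, nat_lit 35885, nat_lit 35813, nat_lit 35833, nat_lit 55513] (nat_lit 0) [] false,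
   Spec.mk (nat_lit 35833) (nat_lit 0) [nat_lit 48955, nat_lit 31459, nat_lit 34375, nat_lit 37291, nat_lit 35347, nat_lit 35995, nat_lit 35779, nat_lit 35887, nat_lit 35815, nat_lit 35839, nat_lit 35831, nat_lit 35835, nat_lit 55515, nat_lit 16151] (nat_lit 0) [] false,
   Spec.mk (nat_lit 35835) (nat_lit 0) [nat_lit 48957, nat_lit 31461, nat_lit 34377, nat_lit 37293, nat_lit 35349, nat_lit 35997, nat_lit 35781, nat_lit 35889, nat_lit 35817, nat_lit 35841, nat_lit 35833, nat_lit 16153] (nat_lit 2) [] false,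
   Spec.mk (nat_lit 35839) (nat_lit 0) [nat_lit 48961, nat_lit 31465, nat_lit 34381, nat_lit 37297, nat_lit 35353, nat_lit 36001, nat_lit 35785, nat_lit 35893, nat_lit 35821, nat_lit 35857, nat_lit 35833, nat_lit 35841, nat_lit 55521, nat_lit 16157] (nat_lit 0) [] false,
   Spec.mk (nat_lit 35841) (nat_lit 0) [nat_lit 48963, nat_lit 31467, nat_lit 34383, nat_lit 37299, nat_lit 35355, nat_lit 36003, nat_lit 35787, nat_lit 35895, nat_lit 35823, nat_lit 35859, nat_lit 35835, nat_lit 35847, nat_lit 35839, nat_lit 16159] (nat_lit 0) [] false,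
   Spec.mk (nat_lit 35847) (nat_lit 0) [nat_lit 48969, nat_lit 31473, nat_lit 34389, nat_lit 37305, nat_lit 35361, nat_lit 36009, nat_lit 35793, nat_lit 35901, nat_lit 35865, nat_lit 35841, nat_lit 16165] (nat_lit 0) [] false,
   Spec.mk (nat_lit 35857) (nat_lit 0) [nat_lit 48979, nat_lit 31483, nat_lit 34399, nat_lit 37315, nat_lit 35371, nat_lit 36019, nat_lit 35911, nat_lit 35839, nat_lit 35859, nat_lit 55539, nat_lit 16175] (nat_lit 0) [] false,
   Spec.mk (nat_lit 35859) (nat_lit 0) [nat_lit 48981, nat_lit 31485, nat_lit 34401, nat_lit 37317, nat_lit 35373, nat_lit 36021, nat_lit 35913, nat_lit 35841, nat_lit 35865, nat_lit 35857, nat_lit 16177] (nat_lit 1) [] false,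
   Spec.mk (nat_lit 35865) (nat_lit 1) [nat_lit 48987, nat_lit 31491, nat_lit 34407, nat_lit 37323, nat_lit 35379, nat_lit 36027, nat_lit 35919, nat_lit 35847, nat_lit 35859, nat_lit 16183] (nat_lit 0) [] false,
   Spec.mk (nat_lit 35885) (nat_lit 0) [nat_lit 49007, nat_lit 31511, nat_lit 34427, nat_lit 37343, nat_lit 35399, nat_lit 36047, nat_lit 35831, nat_lit 35887, nat_lit 55567] (nat_lit 1) [] false,
   Spec.mk (nat_lit 35887) (nat_lit 0) [nat_lit 49009, nat_lit 31513, nat_lit 34429, nat_lit 37345, nat_lit 35401, nat_lit 36049, nat_lit 35833, nat_lit 35893, nat_lit 35885, nat_lit 35889, nat_lit 55569, nat_lit 16205] (nat_lit 1) [] false,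
   Spec.mk (nat_lit 35889) (nat_lit 0) [nat_lit 49011, nat_lit 31515, nat_lit 34431, nat_lit 37347, nat_lit 35403, nat_lit 36051, nat_lit 35835, nat_lit 35895, nat_lit 35887, nat_lit 16207] (nat_lit 3) [] false,
   Spec.mk (nat_lit 35893) (nat_lit 0) [nat_lit 49015, nat_lit 31519, nat_lit 34435, nat_lit 37351, nat_lit 35407, nat_lit 36055, nat_lit 35839, nat_lit 35911, nat_lit 35887, nat_lit 35895, nat_lit 55575, nat_lit 16211] (nat_lit 2) [] false,
   Spec.mk (nat_lit 35895) (nat_lit 0) [nat_lit 49017, nat_lit 31521, nat_lit 34437, nat_lit 37353, nat_lit 35409, nat_lit 36057, nat_lit 35841, nat_lit 35913, nat_lit 35889, nat_lit 35901, nat_lit 35893, nat_lit 16213] (nat_lit 2) [] false,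
   Spec.mk (nat_lit 35901) (nat_lit 0) [nat_lit 49023, nat_lit 31527, nat_lit 34443, nat_lit 37359, nat_lit 35415, nat_lit 36063, nat_lit 35847, nat_lit 35919, nat_lit 35895, nat_lit 16219] (nat_lit 3) [] false,
   Spec.mk (nat_lit 35911) (nat_lit 0) [nat_lit 49033, nat_lit 31537, nat_lit 34453, nat_lit 37369, nat_lit 35425, nat_lit 36073, nat_lit 35857, nat_lit 35893, nat_lit 35913, nat_lit 55593, nat_lit 16229] (nat_lit 0) [] false,
   Spec.mk (nat_lit 35913) (nat_lit 0) [nat_lit 49035, nat_lit 31539, nat_lit 34455, nat_lit 37371, nat_lit 35427, nat_lit 36075, nat_lit 35859, nat_lit 35895, nat_lit 35919, nat_lit 35911, nat_lit 16231] (nat_lit 1) [] false,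
   Spec.mk (nat_lit 35919) (nat_lit 0) [nat_lit 49041, nat_lit 31545, nat_lit 34461, nat_lit 37377, nat_lit 35433, nat_lit 36081, nat_lit 35865, nat_lit 35901, nat_lit 35937, nat_lit 35913, nat_lit 16237] (nat_lit 0) [] false,
   Spec.mk (nat_lit 35937) (nat_lit 1) [nat_lit 49059, nat_lit 31563, nat_lit 34479, nat_lit 37395, nat_lit 35451, nat_lit 36099, nat_lit 35919, nat_lit 16255] (nat_lit 0) [] false,
   Spec.mk (nat_lit 35969) (nat_lit 2) [nat_lit 49091, nat_lit 31595, nat_lit 34511, nat_lit 37427, nat_lit 35483, nat_lit 36455, nat_lit 35807, nat_lit 35975, nat_lit 35971, nat_lit 55651] (nat_lit 0) [] false,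
   Spec.mk (nat_lit 35971) (nat_lit 1) [nat_lit 49093, nat_lit 31597, nat_lit 34513, nat_lit 37429, nat_lit 35485, nat_lit 36457, nat_lit 35809, nat_lit 35977, nat_lit 35969, nat_lit 55653, nat_lit 16289] (nat_lit 0) [] false,
   Spec.mk (nat_lit 35975) (nat_lit 0) [nat_lit 49097, nat_lit 31601, nat_lit 34517, nat_lit 37433, nat_lit 35489, nat_lit 36461, nat_lit 35813, nat_lit 35993, nat_lit 35969, nat_lit 35977, nat_lit 55657] (nat_lit 0) [] false,
   Spec.mk (nat_lit 35977) (nat_lit 1) [nat_lit 49099, nat_lit 31603, nat_lit 34519, nat_lit 37435, nat_lit 35491, nat_lit 36463, nat_lit 35815, nat_lit 35995, nat_lit 35971, nat_lit 35983, nat_lit 35975, nat_lit 35979, nat_lit 55659, nat_lit 16295] (nat_lit 0) [] false,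
   Spec.mk (nat_lit 35979) (nat_lit 0) [nat_lit 49101, nat_lit 31605, nat_lit 34521, nat_lit 37437, nat_lit 35493, nat_lit 36465, nat_lit 35817, nat_lit 35997, nat_lit 35985, nat_lit 35977, nat_lit 16297] (nat_lit 0) [] false,
   Spec.mk (nat_lit 35983) (nat_lit 0) [nat_lit 49105, nat_lit 31609, nat_lit 34525, nat_lit 37441, nat_lit 35497, nat_lit 36469, nat_lit 35821, nat_lit 36001, nat_lit 35977, nat_lit 35985, nat_lit 55665, nat_lit 16301] (nat_lit 1) [] false,
   Spec.mk (nat_lit 35985) (nat_lit 0) [nat_lit 49107, nat_lit 31611, nat_lit 34527, nat_lit 37443, nat_lit 35499, nat_lit 36471, nat_lit 35823, nat_lit 36003, nat_lit 35979, nat_lit 35983, nat_lit 16303] (nat_lit 0) [] false,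
   Spec.mk (nat_lit 35993) (nat_lit 0) [nat_lit 49115, nat_lit 31619, nat_lit 34535, nat_lit 37451, nat_lit 35507, nat_lit 36479, nat_lit 35831, nat_lit 36047, nat_lit 35975, nat_lit 35995, nat_lit 55675] (nat_lit 0) [] false,
   Spec.mk (nat_lit 35995) (nat_lit 0) [nat_lit 49117, nat_lit 31621, nat_lit 34537, nat_lit 37453, nat_lit 35509, nat_lit 36481, nat_lit 35833, nat_lit 36049, nat_lit 35977, nat_lit 36001, nat_lit 35993, nat_lit 35997, nat_lit 55677, nat_lit 16313] (nat_lit 0) [] false,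
   Spec.mk (nat_lit 35997) (nat_lit 0) [nat_lit 49119, nat_lit 31623, nat_lit 34539, nat_lit 37455, nat_lit 35511, nat_lit 36483, nat_lit 35835, nat_lit 36051, nat_lit 35979, nat_lit 36003, nat_lit 35995, nat_lit 16315] (nat_lit 2) [] false,
   Spec.mk (nat_lit 36001) (nat_lit 0) [nat_lit 49123, nat_lit 31627, nat_lit 34543, nat_lit 37459, nat_lit 35515, nat_lit 36487, nat_lit 35839, nat_lit 36055, nat_lit 35983, nat_lit 36019, nat_lit 35995, nat_lit 36003, nat_lit 55683, nat_lit 16319] (nat_lit 0) [] false,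
   Spec.mk (nat_lit 36003) (nat_lit 0) [nat_lit 49125, nat_lit 31629, nat_lit 34545, nat_lit 37461, nat_lit 35517, nat_lit 36489, nat_lit 35841, nat_lit 36057, nat_lit 35985, nat_lit 36021, nat_lit 35997, nat_lit 36009, nat_lit 36001, nat_lit 16321] (nat_lit 0) [] false,
   Spec.mk (nat_lit 36009) (nat_lit 0) [nat_lit 49131, nat_lit 31635, nat_lit 34551, nat_lit 37467, nat_lit 35523, nat_lit 36495, nat_lit 35847, nat_lit 36063, nat_lit 36027, nat_lit 36003, nat_lit 16327] (nat_lit 0) [] false,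
   Spec.mk (nat_lit 36019) (nat_lit 0) [nat_lit 49141, nat_lit 31645, nat_lit 34561, nat_lit 37477, nat_lit 35533, nat_lit 36505, nat_lit 35857, nat_lit 36073, nat_lit 36001, nat_lit 36021, nat_lit 55701, nat_lit 16337] (nat_lit 1) [] false,
   Spec.mk (nat_lit 36021) (nat_lit 0) [nat_lit 49143, nat_lit 31647, nat_lit 34563, nat_lit 37479, nat_lit 35535, nat_lit 36507, nat_lit 35859, nat_lit 36075, nat_lit 36003, nat_lit 36027, nat_lit 36019, nat_lit 16339] (nat_lit 2) [] false,
   Spec.mk (nat_lit 36027) (nat_lit 0) [nat_lit 49149, nat_lit 31653, nat_lit 34569, nat_lit 37485, nat_lit 35541, nat_lit 36513, nat_lit 35865, nat_lit 36081, nat_lit 36009, nat_lit 36021, nat_lit 16345] (nat_lit 0) [] false,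
   Spec.mk (nat_lit 36047) (nat_lit 1) [nat_lit 49169, nat_lit 31673, nat_lit 34589, nat_lit 37505, nat_lit 35561, nat_lit 36533, nat_lit 35885, nat_lit 36209, nat_lit 35993, nat_lit 36049, nat_lit 55729] (nat_lit 0) [] false,
   Spec.mk (nat_lit 36049) (nat_lit 1) [nat_lit 49171, nat_lit 31675, nat_lit 34591, nat_lit 37507, nat_lit 35563, nat_lit 36535, nat_lit 35887, nat_lit 36211, nat_lit 35995, nat_lit 36055, nat_lit 36047, nat_lit 36051, nat_lit 55731, nat_lit 16367] (nat_lit 0) [] false,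
   Spec.mk (nat_lit 36051) (nat_lit 0) [nat_lit 49173, nat_lit 31677, nat_lit 34593, nat_lit 37509, nat_lit 35565, nat_lit 36537, nat_lit 35889, nat_lit 36213, nat_lit 35997, nat_lit 36057, nat_lit 36049, nat_lit 16369] (nat_lit 1) [] false,
   Spec.mk (nat_lit 36055) (nat_lit 0) [nat_lit 49177, nat_lit 31681, nat_lit 34597, nat_lit 37513, nat_lit 35569, nat_lit 36541, nat_lit 35893, nat_lit 36217, nat_lit 36001, nat_lit 36073, nat_lit 36049, nat_lit 36057, nat_lit 55737, nat_lit 16373] (nat_lit 0) [] false,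
   Spec.mk (nat_lit 36057) (nat_lit 0) [nat_lit 49179, nat_lit 31683, nat_lit 34599, nat_lit 37515, nat_lit 35571, nat_lit 36543, nat_lit 35895, nat_lit 36219, nat_lit 36003, nat_lit 36075, nat_lit 36051, nat_lit 36063, nat_lit 36055, nat_lit 16375] (nat_lit 0) [] false,
   Spec.mk (nat_lit 36063) (nat_lit 0) [nat_lit 49185, nat_lit 31689, nat_lit 34605, nat_lit 37521, nat_lit 35577, nat_lit 36549, nat_lit 35901, nat_lit 36225, nat_lit 36009, nat_lit 36081, nat_lit 36057, nat_lit 16381] (nat_lit 1) [] false,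
   Spec.mk (nat_lit 36073) (nat_lit 1) [nat_lit 49195, nat_lit 31699, nat_lit 34615, nat_lit 37531, nat_lit 35587, nat_lit 36559, nat_lit 35911, nat_lit 36235, nat_lit 36019, nat_lit 36127, nat_lit 36055, nat_lit 36075, nat_lit 55755, nat_lit 16391] (nat_lit 0) [] false,
   Spec.mk (nat_lit 36075) (nat_lit 0) [nat_lit 49197, nat_lit 31701, nat_lit 34617, nat_lit 37533, nat_lit 35589, nat_lit 36561, nat_lit 35913, nat_lit 36237, nat_lit 36021, nat_lit 36129, nat_lit 36057, nat_lit 36081, nat_lit 36073, nat_lit 16393] (nat_lit 0) [] false,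
   Spec.mk (nat_lit 36081) (nat_lit 1) [nat_lit 49203, nat_lit 31707, nat_lit 34623, nat_lit 37539, nat_lit 35595, nat_lit 36567, nat_lit 35919, nat_lit 36243, nat_lit 36027, nat_lit 36135, nat_lit 36063, nat_lit 36099, nat_lit 36075, nat_lit 16399] (nat_lit 0) [] false,
   Spec.mk (nat_lit 36099) (nat_lit 1) [nat_lit 49221, nat_lit 31725, nat_lit 34641, nat_lit 37557, nat_lit 35613, nat_lit 36585, nat_lit 35937, nat_lit 36261, nat_lit 36153, nat_lit 36081, nat_lit 16417] (nat_lit 0) [] false,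
   Spec.mk (nat_lit 36127) (nat_lit 1) [nat_lit 49249, nat_lit 31753, nat_lit 34669, nat_lit 37585, nat_lit 35641, nat_lit 36613, nat_lit 36289, nat_lit 36073, nat_lit 36129, nat_lit 55809, nat_lit 16445] (nat_lit 0) [] false,
   Spec.mk (nat_lit 36129) (nat_lit 0) [nat_lit 49251, nat_lit 31755, nat_lit 34671, nat_lit 37587, nat_lit 35643, nat_lit 36615, nat_lit 36291, nat_lit 36075, nat_lit 36135, nat_lit 36127, nat_lit 16447] (nat_lit 0) [] false,
   Spec.mk (nat_lit 36135) (nat_lit 0) [nat_lit 49257, nat_lit 31761, nat_lit 34677, nat_lit 37593, nat_lit 35649, nat_lit 36621, nat_lit 36297, nat_lit 36081, nat_lit 36153, nat_lit 36129, nat_lit 16453] (nat_lit 0) [] false,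
   Spec.mk (nat_lit 36153) (nat_lit 2) [nat_lit 49275, nat_lit 31779, nat_lit 34695, nat_lit 37611, nat_lit 35667, nat_lit 36639, nat_lit 36315, nat_lit 36099, nat_lit 36135, nat_lit 16471] (nat_lit 0) [] false]

noncomputable def sp97 : List Spec :=
  [Spec.mk (nat_lit 36209) (nat_lit 1) [nat_lit 49331, nat_lit 31835, nat_lit 34751, nat_lit 37667, nat_lit 36695, nat_lit 36047, nat_lit 36211, nat_lit 55891] (nat_lit 0) [] false,
   Spec.mk (nat_lit 36211) (nat_lit 1) [nat_lit 49333, nat_lit 31837, nat_lit 34753, nat_lit 37669, nat_lit 36697, nat_lit 36049, nat_lit 36217, nat_lit 36209, nat_lit 36213, nat_lit 55893, nat_lit 16529] (nat_lit 0) [] false,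
   Spec.mk (nat_lit 36213) (nat_lit 0) [nat_lit 49335, nat_lit 31839, nat_lit 34755, nat_lit 37671, nat_lit 36699, nat_lit 36051, nat_lit 36219, nat_lit 36211, nat_lit 16531] (nat_lit 1) [] false,
   Spec.mk (nat_lit 36217) (nat_lit 0) [nat_lit 49339, nat_lit 31843, nat_lit 34759, nat_lit 37675, nat_lit 36703, nat_lit 36055, nat_lit 36235, nat_lit 36211, nat_lit 36219, nat_lit 55899, nat_lit 16535] (nat_lit 0) [] false,
   Spec.mk (nat_lit 36219) (nat_lit 0) [nat_lit 49341, nat_lit 31845, nat_lit 34761, nat_lit 37677, nat_lit 36705, nat_lit 36057, nat_lit 36237, nat_lit 36213, nat_lit 36225, nat_lit 36217, nat_lit 16537] (nat_lit 0) [] false,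
   Spec.mk (nat_lit 36225) (nat_lit 0) [nat_lit 49347, nat_lit 31851, nat_lit 34767, nat_lit 37683, nat_lit 36711, nat_lit 36063, nat_lit 36243, nat_lit 36219, nat_lit 16543] (nat_lit 1) [] false,
   Spec.mk (nat_lit 36235) (nat_lit 0) [nat_lit 49357, nat_lit 31861, nat_lit 34777, nat_lit 37693, nat_lit 36721, nat_lit 36073, nat_lit 36289, nat_lit 36217, nat_lit 36237, nat_lit 55917, nat_lit 16553] (nat_lit 0) [] false,
   Spec.mk (nat_lit 36237) (nat_lit 0) [nat_lit 49359, nat_lit 31863, nat_lit 34779, nat_lit 37695, nat_lit 36723, nat_lit 36075, nat_lit 36291, nat_lit 36219, nat_lit 36243, nat_lit 36235, nat_lit 16555] (nat_lit 1) [] false,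
   Spec.mk (nat_lit 36243) (nat_lit 0) [nat_lit 49365, nat_lit 31869, nat_lit 34785, nat_lit 37701, nat_lit 36729, nat_lit 36081, nat_lit 36297, nat_lit 36225, nat_lit 36261, nat_lit 36237, nat_lit 16561] (nat_lit 0) [] false,
   Spec.mk (nat_lit 36261) (nat_lit 0) [nat_lit 49383, nat_lit 31887, nat_lit 34803, nat_lit 37719, nat_lit 36747, nat_lit 36099, nat_lit 36315, nat_lit 36243, nat_lit 16579] (nat_lit 1) [] false,
   Spec.mk (nat_lit 36289) (nat_lit 2) [nat_lit 49411, nat_lit 31915, nat_lit 34831, nat_lit 37747, nat_lit 36775, nat_lit 36127, nat_lit 36235, nat_lit 36291, nat_lit 55971, nat_lit 16607] (nat_lit 0) [] false,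
   Spec.mk (nat_lit 36291) (nat_lit 1) [nat_lit 49413, nat_lit 31917, nat_lit 34833, nat_lit 37749, nat_lit 36777, nat_lit 36129, nat_lit 36237, nat_lit 36297, nat_lit 36289, nat_lit 16609] (nat_lit 0) [] false,
   Spec.mk (nat_lit 36297) (nat_lit 1) [nat_lit 49419, nat_lit 31923, nat_lit 34839, nat_lit 37755, nat_lit 36783, nat_lit 36135, nat_lit 36243, nat_lit 36315, nat_lit 36291, nat_lit 16615] (nat_lit 0) [] false,
   Spec.mk (nat_lit 36315) (nat_lit 2) [nat_lit 49437, nat_lit 31941, nat_lit 34857, nat_lit 37773, nat_lit 36801, nat_lit 36153, nat_lit 36261, nat_lit 36369, nat_lit 36297, nat_lit 16633] (nat_lit 0) [] false,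
   Spec.mk (nat_lit 36369) (nat_lit 3) [nat_lit 49491, nat_lit 31995, nat_lit 34911, nat_lit 37827, nat_lit 36855, nat_lit 36315, nat_lit 16687] (nat_lit 0) [] false,
   Spec.mk (nat_lit 36455) (nat_lit 2) [nat_lit 49577, nat_lit 32081, nat_lit 37913, nat_lit 35969, nat_lit 36461, nat_lit 36457, nat_lit 56137] (nat_lit 0) [] false,
   Spec.mk (nat_lit 36457) (nat_lit 1) [nat_lit 49579, nat_lit 32083, nat_lit 37915, nat_lit 35971, nat_lit 36463, nat_lit 36455, nat_lit 56139, nat_lit 16775] (nat_lit 0) [] false,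
   Spec.mk (nat_lit 36461) (nat_lit 0) [nat_lit 49583, nat_lit 32087, nat_lit 37919, nat_lit 35975, nat_lit 36479, nat_lit 36455, nat_lit 36463, nat_lit 56143] (nat_lit 0) [] false,
   Spec.mk (nat_lit 36463) (nat_lit 1) [nat_lit 49585, nat_lit 32089, nat_lit 37921, nat_lit 35977, nat_lit 36481, nat_lit 36457, nat_lit 36469, nat_lit 36461, nat_lit 36465, nat_lit 56145, nat_lit 16781] (nat_lit 0) [] false,
   Spec.mk (nat_lit 36465) (nat_lit 0) [nat_lit 49587, nat_lit 32091, nat_lit 37923, nat_lit 35979, nat_lit 36483, nat_lit 36471, nat_lit 36463, nat_lit 16783] (nat_lit 0) [] false,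
   Spec.mk (nat_lit 36469) (nat_lit 0) [nat_lit 49591, nat_lit 32095, nat_lit 37927, nat_lit 35983, nat_lit 36487, nat_lit 36463, nat_lit 36471, nat_lit 56151, nat_lit 16787] (nat_lit 1) [] false,
   Spec.mk (nat_lit 36471) (nat_lit 0) [nat_lit 49593, nat_lit 32097, nat_lit 37929, nat_lit 35985, nat_lit 36489, nat_lit 36465, nat_lit 36469, nat_lit 16789] (nat_lit 0) [] false,
   Spec.mk (nat_lit 36479) (nat_lit 0) [nat_lit 49601, nat_lit 32105, nat_lit 37937, nat_lit 35993, nat_lit 36533, nat_lit 36461, nat_lit 36481, nat_lit 56161] (nat_lit 0) [] false,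
   Spec.mk (nat_lit 36481) (nat_lit 0) [nat_lit 49603, nat_lit 32107, nat_lit 37939, nat_lit 35995, nat_lit 36535, nat_lit 36463, nat_lit 36487, nat_lit 36479, nat_lit 36483, nat_lit 56163, nat_lit 16799] (nat_lit 0) [] false,
   Spec.mk (nat_lit 36483) (nat_lit 0) [nat_lit 49605, nat_lit 32109, nat_lit 37941, nat_lit 35997, nat_lit 36537, nat_lit 36465, nat_lit 36489, nat_lit 36481, nat_lit 16801] (nat_lit 2) [] false,
   Spec.mk (nat_lit 36487) (nat_lit 0) [nat_lit 49609, nat_lit 32113, nat_lit 37945, nat_lit 36001, nat_lit 36541, nat_lit 36469, nat_lit 36505, nat_lit 36481, nat_lit 36489, nat_lit 56169, nat_lit 16805] (nat_lit 0) [] false,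
   Spec.mk (nat_lit 36489) (nat_lit 0) [nat_lit 49611, nat_lit 32115, nat_lit 37947, nat_lit 36003, nat_lit 36543, nat_lit 36471, nat_lit 36507, nat_lit 36483, nat_lit 36495, nat_lit 36487, nat_lit 16807] (nat_lit 0) [] false,
   Spec.mk (nat_lit 36495) (nat_lit 0) [nat_lit 49617, nat_lit 32121, nat_lit 37953, nat_lit 36009, nat_lit 36549, nat_lit 36513, nat_lit 36489, nat_lit 16813] (nat_lit 0) [] false,
   Spec.mk (nat_lit 36505) (nat_lit 0) [nat_lit 49627, nat_lit 32131, nat_lit 37963, nat_lit 36019, nat_lit 36559, nat_lit 36487, nat_lit 36507, nat_lit 56187, nat_lit 16823] (nat_lit 1) [] false,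
   Spec.mk (nat_lit 36507) (nat_lit 0) [nat_lit 49629, nat_lit 32133, nat_lit 37965, nat_lit 36021, nat_lit 36561, nat_lit 36489, nat_lit 36513, nat_lit 36505, nat_lit 16825] (nat_lit 2) [] false,
   Spec.mk (nat_lit 36513) (nat_lit 0) [nat_lit 49635, nat_lit 32139, nat_lit 37971, nat_lit 36027, nat_lit 36567, nat_lit 36495, nat_lit 36507, nat_lit 16831] (nat_lit 0) [] false,
   Spec.mk (nat_lit 36533) (nat_lit 0) [nat_lit 49655, nat_lit 32159, nat_lit 37991, nat_lit 36047, nat_lit 36695, nat_lit 36479, nat_lit 36535, nat_lit 56215] (nat_lit 0) [] false,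
   Spec.mk (nat_lit 36535) (nat_lit 0) [nat_lit 49657, nat_lit 32161, nat_lit 37993, nat_lit 36049, nat_lit 36697, nat_lit 36481, nat_lit 36541, nat_lit 36533, nat_lit 36537, nat_lit 56217, nat_lit 16853] (nat_lit 0) [] false,
   Spec.mk (nat_lit 36537) (nat_lit 0) [nat_lit 49659, nat_lit 32163, nat_lit 37995, nat_lit 36051, nat_lit 36699, nat_lit 36483, nat_lit 36543, nat_lit 36535, nat_lit 16855] (nat_lit 2) [] false,
   Spec.mk (nat_lit 36541) (nat_lit 0) [nat_lit 49663, nat_lit 32167, nat_lit 37999, nat_lit 36055, nat_lit 36703, nat_lit 36487, nat_lit 36559, nat_lit 36535, nat_lit 36543, nat_lit 56223, nat_lit 16859] (nat_lit 1) [] false,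
   Spec.mk (nat_lit 36543) (nat_lit 0) [nat_lit 49665, nat_lit 32169, nat_lit 38001, nat_lit 36057, nat_lit 36705, nat_lit 36489, nat_lit 36561, nat_lit 36537, nat_lit 36549, nat_lit 36541, nat_lit 16861] (nat_lit 1) [] false,
   Spec.mk (nat_lit 36549) (nat_lit 0) [nat_lit 49671, nat_lit 32175, nat_lit 38007, nat_lit 36063, nat_lit 36711, nat_lit 36495, nat_lit 36567, nat_lit 36543, nat_lit 16867] (nat_lit 2) [] false,
   Spec.mk (nat_lit 36559) (nat_lit 0) [nat_lit 49681, nat_lit 32185, nat_lit 38017, nat_lit 36073, nat_lit 36721, nat_lit 36505, nat_lit 36613, nat_lit 36541, nat_lit 36561, nat_lit 56241, nat_lit 16877] (nat_lit 0) [] false,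
   Spec.mk (nat_lit 36561) (nat_lit 0) [nat_lit 49683, nat_lit 32187, nat_lit 38019, nat_lit 36075, nat_lit 36723, nat_lit 36507, nat_lit 36615, nat_lit 36543, nat_lit 36567, nat_lit 36559, nat_lit 16879] (nat_lit 1) [] false,
   Spec.mk (nat_lit 36567) (nat_lit 0) [nat_lit 49689, nat_lit 32193, nat_lit 38025, nat_lit 36081, nat_lit 36729, nat_lit 36513, nat_lit 36621, nat_lit 36549, nat_lit 36585, nat_lit 36561, nat_lit 16885] (nat_lit 0) [] false,
   Spec.mk (nat_lit 36585) (nat_lit 0) [nat_lit 49707, nat_lit 32211, nat_lit 38043, nat_lit 36099, nat_lit 36747, nat_lit 36639, nat_lit 36567, nat_lit 16903] (nat_lit 0) [] false,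
   Spec.mk (nat_lit 36613) (nat_lit 0) [nat_lit 49735, nat_lit 32239, nat_lit 38071, nat_lit 36127, nat_lit 36775, nat_lit 36559, nat_lit 36615, nat_lit 56295, nat_lit 16931] (nat_lit 1) [] false,
   Spec.mk (nat_lit 36615) (nat_lit 0) [nat_lit 49737, nat_lit 32241, nat_lit 38073, nat_lit 36129, nat_lit 36777, nat_lit 36561, nat_lit 36621, nat_lit 36613, nat_lit 16933] (nat_lit 2) [] false,
   Spec.mk (nat_lit 36621) (nat_lit 0) [nat_lit 49743, nat_lit 32247, nat_lit 38079, nat_lit 36135, nat_lit 36783, nat_lit 36567, nat_lit 36639, nat_lit 36615, nat_lit 16939] (nat_lit 2) [] false,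
   Spec.mk (nat_lit 36639) (nat_lit 0) [nat_lit 49761, nat_lit 32265, nat_lit 38097, nat_lit 36153, nat_lit 36801, nat_lit 36585, nat_lit 36621, nat_lit 16957] (nat_lit 0) [] false,
   Spec.mk (nat_lit 36695) (nat_lit 2) [nat_lit 49817, nat_lit 32321, nat_lit 38153, nat_lit 36209, nat_lit 36533, nat_lit 36697, nat_lit 56377] (nat_lit 0) [] false,
   Spec.mk (nat_lit 36697) (nat_lit 2) [nat_lit 49819, nat_lit 32323, nat_lit 38155, nat_lit 36211, nat_lit 36535, nat_lit 36703, nat_lit 36695, nat_lit 36699, nat_lit 56379, nat_lit 17015] (nat_lit 0) [] false,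
   Spec.mk (nat_lit 36699) (nat_lit 0) [nat_lit 49821, nat_lit 32325, nat_lit 38157, nat_lit 36213, nat_lit 36537, nat_lit 36705, nat_lit 36697, nat_lit 17017] (nat_lit 0) [] false,
   Spec.mk (nat_lit 36703) (nat_lit 1) [nat_lit 49825, nat_lit 32329, nat_lit 38161, nat_lit 36217, nat_lit 36541, nat_lit 36721, nat_lit 36697, nat_lit 36705, nat_lit 56385, nat_lit 17021] (nat_lit 0) [] false,
   Spec.mk (nat_lit 36705) (nat_lit 1) [nat_lit 49827, nat_lit 32331, nat_lit 38163, nat_lit 36219, nat_lit 36543, nat_lit 36723, nat_lit 36699, nat_lit 36711, nat_lit 36703, nat_lit 17023] (nat_lit 0) [] false,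
   Spec.mk (nat_lit 36711) (nat_lit 0) [nat_lit 49833, nat_lit 32337, nat_lit 38169, nat_lit 36225, nat_lit 36549, nat_lit 36729, nat_lit 36705, nat_lit 17029] (nat_lit 0) [] false,
   Spec.mk (nat_lit 36721) (nat_lit 1) [nat_lit 49843, nat_lit 32347, nat_lit 38179, nat_lit 36235, nat_lit 36559, nat_lit 36775, nat_lit 36703, nat_lit 36723, nat_lit 56403, nat_lit 17039] (nat_lit 0) [] false,
   Spec.mk (nat_lit 36723) (nat_lit 0) [nat_lit 49845, nat_lit 32349, nat_lit 38181, nat_lit 36237, nat_lit 36561, nat_lit 36777, nat_lit 36705, nat_lit 36729, nat_lit 36721, nat_lit 17041] (nat_lit 0) [] false,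
   Spec.mk (nat_lit 36729) (nat_lit 1) [nat_lit 49851, nat_lit 32355, nat_lit 38187, nat_lit 36243, nat_lit 36567, nat_lit 36783, nat_lit 36711, nat_lit 36747, nat_lit 36723, nat_lit 17047] (nat_lit 0) [] false,
   Spec.mk (nat_lit 36747) (nat_lit 0) [nat_lit 49869, nat_lit 32373, nat_lit 38205, nat_lit 36261, nat_lit 36585, nat_lit 36801, nat_lit 36729, nat_lit 17065] (nat_lit 0) [] false,
   Spec.mk (nat_lit 36775) (nat_lit 2) [nat_lit 49897, nat_lit 32401, nat_lit 38233, nat_lit 36289, nat_lit 36613, nat_lit 36937, nat_lit 36721, nat_lit 36777, nat_lit 56457, nat_lit 17093] (nat_lit 0) [] false,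
   Spec.mk (nat_lit 36777) (nat_lit 1) [nat_lit 49899, nat_lit 32403, nat_lit 38235, nat_lit 36291, nat_lit 36615, nat_lit 36939, nat_lit 36723, nat_lit 36783, nat_lit 36775, nat_lit 17095] (nat_lit 0) [] false,
   Spec.mk (nat_lit 36783) (nat_lit 1) [nat_lit 49905, nat_lit 32409, nat_lit 38241, nat_lit 36297, nat_lit 36621, nat_lit 36945, nat_lit 36729, nat_lit 36801, nat_lit 36777, nat_lit 17101] (nat_lit 0) [] false,
   Spec.mk (nat_lit 36801) (nat_lit 2) [nat_lit 49923, nat_lit 32427, nat_lit 38259, nat_lit 36315, nat_lit 36639, nat_lit 36963, nat_lit 36747, nat_lit 36855, nat_lit 36783, nat_lit 17119] (nat_lit 0) [] false,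
   Spec.mk (nat_lit 36855) (nat_lit 2) [nat_lit 49977, nat_lit 32481, nat_lit 38313, nat_lit 36369, nat_lit 37017, nat_lit 36801, nat_lit 17173] (nat_lit 0) [] false]

noncomputable def sp98 : List Spec :=
  [Spec.mk (nat_lit 36937) (nat_lit 3) [nat_lit 50059, nat_lit 32563, nat_lit 38395, nat_lit 36775, nat_lit 36939, nat_lit 56619, nat_lit 17255] (nat_lit 0) [] false,
   Spec.mk (nat_lit 36939) (nat_lit 2) [nat_lit 50061, nat_lit 32565, nat_lit 38397, nat_lit 36777, nat_lit 36945, nat_lit 36937, nat_lit 17257] (nat_lit 0) [] false,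
   Spec.mk (nat_lit 36945) (nat_lit 2) [nat_lit 50067, nat_lit 32571, nat_lit 38403, nat_lit 36783, nat_lit 36963, nat_lit 36939, nat_lit 17263] (nat_lit 0) [] false,
   Spec.mk (nat_lit 36963) (nat_lit 2) [nat_lit 50085, nat_lit 32589, nat_lit 38421, nat_lit 36801, nat_lit 37017, nat_lit 36945, nat_lit 17281] (nat_lit 0) [] false,
   Spec.mk (nat_lit 37017) (nat_lit 4) [nat_lit 50139, nat_lit 32643, nat_lit 38475, nat_lit 36855, nat_lit 36963, nat_lit 17335] (nat_lit 0) [] false,
   Spec.mk (nat_lit 37187) (nat_lit 4) [nat_lit 50309, nat_lit 35729, nat_lit 37193, nat_lit 56869] (nat_lit 0) [] false,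
   Spec.mk (nat_lit 37193) (nat_lit 3) [nat_lit 50315, nat_lit 35735, nat_lit 37211, nat_lit 37187, nat_lit 37199, nat_lit 37195, nat_lit 56875] (nat_lit 0) [] false,
   Spec.mk (nat_lit 37195) (nat_lit 3) [nat_lit 50317, nat_lit 35737, nat_lit 37213, nat_lit 37201, nat_lit 37193, nat_lit 56877, nat_lit 17513] (nat_lit 0) [] false,
   Spec.mk (nat_lit 37199) (nat_lit 0) [nat_lit 50321, nat_lit 35741, nat_lit 37217, nat_lit 37193, nat_lit 37201, nat_lit 56881] (nat_lit 0) [] false,
   Spec.mk (nat_lit 37201) (nat_lit 2) [nat_lit 50323, nat_lit 35743, nat_lit 37219, nat_lit 37195, nat_lit 37199, nat_lit 37203, nat_lit 56883, nat_lit 17519] (nat_lit 0) [] false,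
   Spec.mk (nat_lit 37203) (nat_lit 2) [nat_lit 50325, nat_lit 35745, nat_lit 37221, nat_lit 37201, nat_lit 17521] (nat_lit 0) [] false,
   Spec.mk (nat_lit 37211) (nat_lit 2) [nat_lit 50333, nat_lit 35753, nat_lit 37265, nat_lit 37193, nat_lit 37217, nat_lit 37213, nat_lit 56893] (nat_lit 0) [] false,
   Spec.mk (nat_lit 37213) (nat_lit 1) [nat_lit 50335, nat_lit 35755, nat_lit 37267, nat_lit 37195, nat_lit 37219, nat_lit 37211, nat_lit 56895, nat_lit 17531] (nat_lit 0) [] false,
   Spec.mk (nat_lit 37217) (nat_lit 1) [nat_lit 50339, nat_lit 35759, nat_lit 37271, nat_lit 37199, nat_lit 37235, nat_lit 37211, nat_lit 37219, nat_lit 56899] (nat_lit 0) [] false,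
   Spec.mk (nat_lit 37219) (nat_lit 2) [nat_lit 50341, nat_lit 35761, nat_lit 37273, nat_lit 37201, nat_lit 37237, nat_lit 37213, nat_lit 37225, nat_lit 37217, nat_lit 37221, nat_lit 56901, nat_lit 17537] (nat_lit 0) [] false,
   Spec.mk (nat_lit 37221) (nat_lit 1) [nat_lit 50343, nat_lit 35763, nat_lit 37275, nat_lit 37203, nat_lit 37239, nat_lit 37227, nat_lit 37219, nat_lit 17539] (nat_lit 0) [] false,
   Spec.mk (nat_lit 37225) (nat_lit 1) [nat_lit 50347, nat_lit 35767, nat_lit 37279, nat_lit 37243, nat_lit 37219, nat_lit 37227, nat_lit 56907, nat_lit 17543] (nat_lit 0) [] false,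
   Spec.mk (nat_lit 37227) (nat_lit 2) [nat_lit 50349, nat_lit 35769, nat_lit 37281, nat_lit 37245, nat_lit 37221, nat_lit 37225, nat_lit 17545] (nat_lit 0) [] false,
   Spec.mk (nat_lit 37235) (nat_lit 0) [nat_lit 50357, nat_lit 35777, nat_lit 37289, nat_lit 37217, nat_lit 37237, nat_lit 56917] (nat_lit 0) [] false,
   Spec.mk (nat_lit 37237) (nat_lit 0) [nat_lit 50359, nat_lit 35779, nat_lit 37291, nat_lit 37219, nat_lit 37243, nat_lit 37235, nat_lit 37239, nat_lit 56919, nat_lit 17555] (nat_lit 0) [] false,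
   Spec.mk (nat_lit 37239) (nat_lit 0) [nat_lit 50361, nat_lit 35781, nat_lit 37293, nat_lit 37221, nat_lit 37245, nat_lit 37237, nat_lit 17557] (nat_lit 2) [] false,
   Spec.mk (nat_lit 37243) (nat_lit 1) [nat_lit 50365, nat_lit 35785, nat_lit 37297, nat_lit 37225, nat_lit 37237, nat_lit 37245, nat_lit 56925, nat_lit 17561] (nat_lit 0) [] false,
   Spec.mk (nat_lit 37245) (nat_lit 1) [nat_lit 50367, nat_lit 35787, nat_lit 37299, nat_lit 37227, nat_lit 37239, nat_lit 37251, nat_lit 37243, nat_lit 17563] (nat_lit 0) [] false,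
   Spec.mk (nat_lit 37251) (nat_lit 2) [nat_lit 50373, nat_lit 35793, nat_lit 37305, nat_lit 37245, nat_lit 17569] (nat_lit 0) [] false,
   Spec.mk (nat_lit 37265) (nat_lit 2) [nat_lit 50387, nat_lit 35807, nat_lit 37427, nat_lit 37211, nat_lit 37271, nat_lit 37267, nat_lit 56947] (nat_lit 0) [] false,
   Spec.mk (nat_lit 37267) (nat_lit 1) [nat_lit 50389, nat_lit 35809, nat_lit 37429, nat_lit 37213, nat_lit 37273, nat_lit 37265, nat_lit 56949, nat_lit 17585] (nat_lit 0) [] false,
   Spec.mk (nat_lit 37271) (nat_lit 0) [nat_lit 50393, nat_lit 35813, nat_lit 37433, nat_lit 37217, nat_lit 37289, nat_lit 37265, nat_lit 37273, nat_lit 56953] (nat_lit 0) [] false,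
   Spec.mk (nat_lit 37273) (nat_lit 1) [nat_lit 50395, nat_lit 35815, nat_lit 37435, nat_lit 37219, nat_lit 37291, nat_lit 37267, nat_lit 37279, nat_lit 37271, nat_lit 37275, nat_lit 56955, nat_lit 17591] (nat_lit 0) [] false,
   Spec.mk (nat_lit 37275) (nat_lit 0) [nat_lit 50397, nat_lit 35817, nat_lit 37437, nat_lit 37221, nat_lit 37293, nat_lit 37281, nat_lit 37273, nat_lit 17593] (nat_lit 0) [] false,
   Spec.mk (nat_lit 37279) (nat_lit 0) [nat_lit 50401, nat_lit 35821, nat_lit 37441, nat_lit 37225, nat_lit 37297, nat_lit 37273, nat_lit 37281, nat_lit 56961, nat_lit 17597] (nat_lit 1) [] false,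
   Spec.mk (nat_lit 37281) (nat_lit 0) [nat_lit 50403, nat_lit 35823, nat_lit 37443, nat_lit 37227, nat_lit 37299, nat_lit 37275, nat_lit 37279, nat_lit 17599] (nat_lit 0) [] false,
   Spec.mk (nat_lit 37289) (nat_lit 1) [nat_lit 50411, nat_lit 35831, nat_lit 37451, nat_lit 37235, nat_lit 37343, nat_lit 37271, nat_lit 37291, nat_lit 56971] (nat_lit 0) [] false,
   Spec.mk (nat_lit 37291) (nat_lit 1) [nat_lit 50413, nat_lit 35833, nat_lit 37453, nat_lit 37237, nat_lit 37345, nat_lit 37273, nat_lit 37297, nat_lit 37289, nat_lit 37293, nat_lit 56973, nat_lit 17609] (nat_lit 0) [] false,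
   Spec.mk (nat_lit 37293) (nat_lit 0) [nat_lit 50415, nat_lit 35835, nat_lit 37455, nat_lit 37239, nat_lit 37347, nat_lit 37275, nat_lit 37299, nat_lit 37291, nat_lit 17611] (nat_lit 1) [] false,
   Spec.mk (nat_lit 37297) (nat_lit 1) [nat_lit 50419, nat_lit 35839, nat_lit 37459, nat_lit 37243, nat_lit 37351, nat_lit 37279, nat_lit 37315, nat_lit 37291, nat_lit 37299, nat_lit 56979, nat_lit 17615] (nat_lit 0) [] false,
   Spec.mk (nat_lit 37299) (nat_lit 1) [nat_lit 50421, nat_lit 35841, nat_lit 37461, nat_lit 37245, nat_lit 37353, nat_lit 37281, nat_lit 37317, nat_lit 37293, nat_lit 37305, nat_lit 37297, nat_lit 17617] (nat_lit 0) [] false,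
   Spec.mk (nat_lit 37305) (nat_lit 1) [nat_lit 50427, nat_lit 35847, nat_lit 37467, nat_lit 37251, nat_lit 37359, nat_lit 37323, nat_lit 37299, nat_lit 17623] (nat_lit 0) [] false,
   Spec.mk (nat_lit 37315) (nat_lit 1) [nat_lit 50437, nat_lit 35857, nat_lit 37477, nat_lit 37369, nat_lit 37297, nat_lit 37317, nat_lit 56997, nat_lit 17633] (nat_lit 0) [] false,
   Spec.mk (nat_lit 37317) (nat_lit 0) [nat_lit 50439, nat_lit 35859, nat_lit 37479, nat_lit 37371, nat_lit 37299, nat_lit 37323, nat_lit 37315, nat_lit 17635] (nat_lit 0) [] false,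
   Spec.mk (nat_lit 37323) (nat_lit 2) [nat_lit 50445, nat_lit 35865, nat_lit 37485, nat_lit 37377, nat_lit 37305, nat_lit 37317, nat_lit 17641] (nat_lit 0) [] false,
   Spec.mk (nat_lit 37343) (nat_lit 0) [nat_lit 50465, nat_lit 35885, nat_lit 37505, nat_lit 37289, nat_lit 37345, nat_lit 57025] (nat_lit 0) [] false,
   Spec.mk (nat_lit 37345) (nat_lit 0) [nat_lit 50467, nat_lit 35887, nat_lit 37507, nat_lit 37291, nat_lit 37351, nat_lit 37343, nat_lit 37347, nat_lit 57027, nat_lit 17663] (nat_lit 0) [] false,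
   Spec.mk (nat_lit 37347) (nat_lit 0) [nat_lit 50469, nat_lit 35889, nat_lit 37509, nat_lit 37293, nat_lit 37353, nat_lit 37345, nat_lit 17665] (nat_lit 2) [] false,
   Spec.mk (nat_lit 37351) (nat_lit 0) [nat_lit 50473, nat_lit 35893, nat_lit 37513, nat_lit 37297, nat_lit 37369, nat_lit 37345, nat_lit 37353, nat_lit 57033, nat_lit 17669] (nat_lit 1) [] false,
   Spec.mk (nat_lit 37353) (nat_lit 0) [nat_lit 50475, nat_lit 35895, nat_lit 37515, nat_lit 37299, nat_lit 37371, nat_lit 37347, nat_lit 37359, nat_lit 37351, nat_lit 17671] (nat_lit 1) [] false,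
   Spec.mk (nat_lit 37359) (nat_lit 0) [nat_lit 50481, nat_lit 35901, nat_lit 37521, nat_lit 37305, nat_lit 37377, nat_lit 37353, nat_lit 17677] (nat_lit 2) [] false,
   Spec.mk (nat_lit 37369) (nat_lit 1) [nat_lit 50491, nat_lit 35911, nat_lit 37531, nat_lit 37315, nat_lit 37351, nat_lit 37371, nat_lit 57051, nat_lit 17687] (nat_lit 0) [] false,
   Spec.mk (nat_lit 37371) (nat_lit 0) [nat_lit 50493, nat_lit 35913, nat_lit 37533, nat_lit 37317, nat_lit 37353, nat_lit 37377, nat_lit 37369, nat_lit 17689] (nat_lit 0) [] false,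
   Spec.mk (nat_lit 37377) (nat_lit 1) [nat_lit 50499, nat_lit 35919, nat_lit 37539, nat_lit 37323, nat_lit 37359, nat_lit 37395, nat_lit 37371, nat_lit 17695] (nat_lit 0) [] false,
   Spec.mk (nat_lit 37395) (nat_lit 2) [nat_lit 50517, nat_lit 35937, nat_lit 37557, nat_lit 37377, nat_lit 17713] (nat_lit 0) [] false,
   Spec.mk (nat_lit 37427) (nat_lit 2) [nat_lit 50549, nat_lit 35969, nat_lit 37913, nat_lit 37265, nat_lit 37433, nat_lit 37429, nat_lit 57109] (nat_lit 0) [] false,
   Spec.mk (nat_lit 37429) (nat_lit 1) [nat_lit 50551, nat_lit 35971, nat_lit 37915, nat_lit 37267, nat_lit 37435, nat_lit 37427, nat_lit 57111, nat_lit 17747] (nat_lit 0) [] false,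
   Spec.mk (nat_lit 37433) (nat_lit 0) [nat_lit 50555, nat_lit 35975, nat_lit 37919, nat_lit 37271, nat_lit 37451, nat_lit 37427, nat_lit 37435, nat_lit 57115] (nat_lit 0) [] false,
   Spec.mk (nat_lit 37435) (nat_lit 1) [nat_lit 50557, nat_lit 35977, nat_lit 37921, nat_lit 37273, nat_lit 37453, nat_lit 37429, nat_lit 37441, nat_lit 37433, nat_lit 37437, nat_lit 57117, nat_lit 17753] (nat_lit 0) [] false,
   Spec.mk (nat_lit 37437) (nat_lit 0) [nat_lit 50559, nat_lit 35979, nat_lit 37923, nat_lit 37275, nat_lit 37455, nat_lit 37443, nat_lit 37435, nat_lit 17755] (nat_lit 0) [] false,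
   Spec.mk (nat_lit 37441) (nat_lit 0) [nat_lit 50563, nat_lit 35983, nat_lit 37927, nat_lit 37279, nat_lit 37459, nat_lit 37435, nat_lit 37443, nat_lit 57123, nat_lit 17759] (nat_lit 1) [] false,
   Spec.mk (nat_lit 37443) (nat_lit 0) [nat_lit 50565, nat_lit 35985, nat_lit 37929, nat_lit 37281, nat_lit 37461, nat_lit 37437, nat_lit 37441, nat_lit 17761] (nat_lit 0) [] false,
   Spec.mk (nat_lit 37451) (nat_lit 0) [nat_lit 50573, nat_lit 35993, nat_lit 37937, nat_lit 37289, nat_lit 37505, nat_lit 37433, nat_lit 37453, nat_lit 57133] (nat_lit 0) [] false,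
   Spec.mk (nat_lit 37453) (nat_lit 0) [nat_lit 50575, nat_lit 35995, nat_lit 37939, nat_lit 37291, nat_lit 37507, nat_lit 37435, nat_lit 37459, nat_lit 37451, nat_lit 37455, nat_lit 57135, nat_lit 17771] (nat_lit 0) [] false,
   Spec.mk (nat_lit 37455) (nat_lit 0) [nat_lit 50577, nat_lit 35997, nat_lit 37941, nat_lit 37293, nat_lit 37509, nat_lit 37437, nat_lit 37461, nat_lit 37453, nat_lit 17773] (nat_lit 2) [] false]

noncomputable def sp99 : List Spec :=
  [Spec.mk (nat_lit 37459) (nat_lit 0) [nat_lit 50581, nat_lit 36001, nat_lit 37945, nat_lit 37297, nat_lit 37513, nat_lit 37441, nat_lit 37477, nat_lit 37453, nat_lit 37461, nat_lit 57141, nat_lit 17777] (nat_lit 0) [] false,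
   Spec.mk (nat_lit 37461) (nat_lit 0) [nat_lit 50583, nat_lit 36003, nat_lit 37947, nat_lit 37299, nat_lit 37515, nat_lit 37443, nat_lit 37479, nat_lit 37455, nat_lit 37467, nat_lit 37459, nat_lit 17779] (nat_lit 0) [] false,
   Spec.mk (nat_lit 37467) (nat_lit 0) [nat_lit 50589, nat_lit 36009, nat_lit 37953, nat_lit 37305, nat_lit 37521, nat_lit 37485, nat_lit 37461, nat_lit 17785] (nat_lit 0) [] false,
   Spec.mk (nat_lit 37477) (nat_lit 0) [nat_lit 50599, nat_lit 36019, nat_lit 37963, nat_lit 37315, nat_lit 37531, nat_lit 37459, nat_lit 37479, nat_lit 57159, nat_lit 17795] (nat_lit 1) [] false,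
   Spec.mk (nat_lit 37479) (nat_lit 0) [nat_lit 50601, nat_lit 36021, nat_lit 37965, nat_lit 37317, nat_lit 37533, nat_lit 37461, nat_lit 37485, nat_lit 37477, nat_lit 17797] (nat_lit 2) [] false,
   Spec.mk (nat_lit 37485) (nat_lit 0) [nat_lit 50607, nat_lit 36027, nat_lit 37971, nat_lit 37323, nat_lit 37539, nat_lit 37467, nat_lit 37479, nat_lit 17803] (nat_lit 0) [] false,
   Spec.mk (nat_lit 37505) (nat_lit 1) [nat_lit 50627, nat_lit 36047, nat_lit 37991, nat_lit 37343, nat_lit 37667, nat_lit 37451, nat_lit 37507, nat_lit 57187] (nat_lit 0) [] false,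
   Spec.mk (nat_lit 37507) (nat_lit 1) [nat_lit 50629, nat_lit 36049, nat_lit 37993, nat_lit 37345, nat_lit 37669, nat_lit 37453, nat_lit 37513, nat_lit 37505, nat_lit 37509, nat_lit 57189, nat_lit 17825] (nat_lit 0) [] false,
   Spec.mk (nat_lit 37509) (nat_lit 0) [nat_lit 50631, nat_lit 36051, nat_lit 37995, nat_lit 37347, nat_lit 37671, nat_lit 37455, nat_lit 37515, nat_lit 37507, nat_lit 17827] (nat_lit 1) [] false,
   Spec.mk (nat_lit 37513) (nat_lit 0) [nat_lit 50635, nat_lit 36055, nat_lit 37999, nat_lit 37351, nat_lit 37675, nat_lit 37459, nat_lit 37531, nat_lit 37507, nat_lit 37515, nat_lit 57195, nat_lit 17831] (nat_lit 0) [] false,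
   Spec.mk (nat_lit 37515) (nat_lit 0) [nat_lit 50637, nat_lit 36057, nat_lit 38001, nat_lit 37353, nat_lit 37677, nat_lit 37461, nat_lit 37533, nat_lit 37509, nat_lit 37521, nat_lit 37513, nat_lit 17833] (nat_lit 0) [] false,
   Spec.mk (nat_lit 37521) (nat_lit 0) [nat_lit 50643, nat_lit 36063, nat_lit 38007, nat_lit 37359, nat_lit 37683, nat_lit 37467, nat_lit 37539, nat_lit 37515, nat_lit 17839] (nat_lit 1) [] false,
   Spec.mk (nat_lit 37531) (nat_lit 1) [nat_lit 50653, nat_lit 36073, nat_lit 38017, nat_lit 37369, nat_lit 37693, nat_lit 37477, nat_lit 37585, nat_lit 37513, nat_lit 37533, nat_lit 57213, nat_lit 17849] (nat_lit 0) [] false,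
   Spec.mk (nat_lit 37533) (nat_lit 0) [nat_lit 50655, nat_lit 36075, nat_lit 38019, nat_lit 37371, nat_lit 37695, nat_lit 37479, nat_lit 37587, nat_lit 37515, nat_lit 37539, nat_lit 37531, nat_lit 17851] (nat_lit 0) [] false,
   Spec.mk (nat_lit 37539) (nat_lit 1) [nat_lit 50661, nat_lit 36081, nat_lit 38025, nat_lit 37377, nat_lit 37701, nat_lit 37485, nat_lit 37593, nat_lit 37521, nat_lit 37557, nat_lit 37533, nat_lit 17857] (nat_lit 0) [] false,
   Spec.mk (nat_lit 37557) (nat_lit 1) [nat_lit 50679, nat_lit 36099, nat_lit 38043, nat_lit 37395, nat_lit 37719, nat_lit 37611, nat_lit 37539, nat_lit 17875] (nat_lit 0) [] false,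
   Spec.mk (nat_lit 37585) (nat_lit 1) [nat_lit 50707, nat_lit 36127, nat_lit 38071, nat_lit 37747, nat_lit 37531, nat_lit 37587, nat_lit 57267, nat_lit 17903] (nat_lit 0) [] false,
   Spec.mk (nat_lit 37587) (nat_lit 0) [nat_lit 50709, nat_lit 36129, nat_lit 38073, nat_lit 37749, nat_lit 37533, nat_lit 37593, nat_lit 37585, nat_lit 17905] (nat_lit 0) [] false,
   Spec.mk (nat_lit 37593) (nat_lit 0) [nat_lit 50715, nat_lit 36135, nat_lit 38079, nat_lit 37755, nat_lit 37539, nat_lit 37611, nat_lit 37587, nat_lit 17911] (nat_lit 0) [] false,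
   Spec.mk (nat_lit 37611) (nat_lit 2) [nat_lit 50733, nat_lit 36153, nat_lit 38097, nat_lit 37773, nat_lit 37557, nat_lit 37593, nat_lit 17929] (nat_lit 0) [] false,
   Spec.mk (nat_lit 37667) (nat_lit 0) [nat_lit 50789, nat_lit 36209, nat_lit 38153, nat_lit 37505, nat_lit 37669, nat_lit 57349] (nat_lit 0) [] false,
   Spec.mk (nat_lit 37669) (nat_lit 0) [nat_lit 50791, nat_lit 36211, nat_lit 38155, nat_lit 37507, nat_lit 37675, nat_lit 37667, nat_lit 37671, nat_lit 57351, nat_lit 17987] (nat_lit 0) [] false,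
   Spec.mk (nat_lit 37671) (nat_lit 0) [nat_lit 50793, nat_lit 36213, nat_lit 38157, nat_lit 37509, nat_lit 37677, nat_lit 37669, nat_lit 17989] (nat_lit 2) [] false,
   Spec.mk (nat_lit 37675) (nat_lit 0) [nat_lit 50797, nat_lit 36217, nat_lit 38161, nat_lit 37513, nat_lit 37693, nat_lit 37669, nat_lit 37677, nat_lit 57357, nat_lit 17993] (nat_lit 1) [] false,
   Spec.mk (nat_lit 37677) (nat_lit 0) [nat_lit 50799, nat_lit 36219, nat_lit 38163, nat_lit 37515, nat_lit 37695, nat_lit 37671, nat_lit 37683, nat_lit 37675, nat_lit 17995] (nat_lit 1) [] false,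
   Spec.mk (nat_lit 37683) (nat_lit 0) [nat_lit 50805, nat_lit 36225, nat_lit 38169, nat_lit 37521, nat_lit 37701, nat_lit 37677, nat_lit 18001] (nat_lit 2) [] false,
   Spec.mk (nat_lit 37693) (nat_lit 0) [nat_lit 50815, nat_lit 36235, nat_lit 38179, nat_lit 37531, nat_lit 37747, nat_lit 37675, nat_lit 37695, nat_lit 57375, nat_lit 18011] (nat_lit 1) [] false,
   Spec.mk (nat_lit 37695) (nat_lit 0) [nat_lit 50817, nat_lit 36237, nat_lit 38181, nat_lit 37533, nat_lit 37749, nat_lit 37677, nat_lit 37701, nat_lit 37693, nat_lit 18013] (nat_lit 2) [] false,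
   Spec.mk (nat_lit 37701) (nat_lit 0) [nat_lit 50823, nat_lit 36243, nat_lit 38187, nat_lit 37539, nat_lit 37755, nat_lit 37683, nat_lit 37719, nat_lit 37695, nat_lit 18019] (nat_lit 1) [] false,
   Spec.mk (nat_lit 37719) (nat_lit 0) [nat_lit 50841, nat_lit 36261, nat_lit 38205, nat_lit 37557, nat_lit 37773, nat_lit 37701, nat_lit 18037] (nat_lit 2) [] false,
   Spec.mk (nat_lit 37747) (nat_lit 1) [nat_lit 50869, nat_lit 36289, nat_lit 38233, nat_lit 37585, nat_lit 37693, nat_lit 37749, nat_lit 57429, nat_lit 18065] (nat_lit 0) [] false,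
   Spec.mk (nat_lit 37749) (nat_lit 0) [nat_lit 50871, nat_lit 36291, nat_lit 38235, nat_lit 37587, nat_lit 37695, nat_lit 37755, nat_lit 37747, nat_lit 18067] (nat_lit 0) [] false,
   Spec.mk (nat_lit 37755) (nat_lit 0) [nat_lit 50877, nat_lit 36297, nat_lit 38241, nat_lit 37593, nat_lit 37701, nat_lit 37773, nat_lit 37749, nat_lit 18073] (nat_lit 0) [] false,
   Spec.mk (nat_lit 37773) (nat_lit 1) [nat_lit 50895, nat_lit 36315, nat_lit 38259, nat_lit 37611, nat_lit 37719, nat_lit 37827, nat_lit 37755, nat_lit 18091] (nat_lit 0) [] false,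
   Spec.mk (nat_lit 37827) (nat_lit 2) [nat_lit 50949, nat_lit 36369, nat_lit 38313, nat_lit 37773, nat_lit 18145] (nat_lit 0) [] false,
   Spec.mk (nat_lit 37913) (nat_lit 4) [nat_lit 51035, nat_lit 36455, nat_lit 37427, nat_lit 37919, nat_lit 37915, nat_lit 57595] (nat_lit 0) [] false,
   Spec.mk (nat_lit 37915) (nat_lit 3) [nat_lit 51037, nat_lit 36457, nat_lit 37429, nat_lit 37921, nat_lit 37913, nat_lit 57597, nat_lit 18233] (nat_lit 0) [] false,
   Spec.mk (nat_lit 37919) (nat_lit 2) [nat_lit 51041, nat_lit 36461, nat_lit 37433, nat_lit 37937, nat_lit 37913, nat_lit 37921, nat_lit 57601] (nat_lit 0) [] false,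
   Spec.mk (nat_lit 37921) (nat_lit 3) [nat_lit 51043, nat_lit 36463, nat_lit 37435, nat_lit 37939, nat_lit 37915, nat_lit 37927, nat_lit 37919, nat_lit 37923, nat_lit 57603, nat_lit 18239] (nat_lit 0) [] false,
   Spec.mk (nat_lit 37923) (nat_lit 2) [nat_lit 51045, nat_lit 36465, nat_lit 37437, nat_lit 37941, nat_lit 37929, nat_lit 37921, nat_lit 18241] (nat_lit 0) [] false,
   Spec.mk (nat_lit 37927) (nat_lit 1) [nat_lit 51049, nat_lit 36469, nat_lit 37441, nat_lit 37945, nat_lit 37921, nat_lit 37929, nat_lit 57609, nat_lit 18245] (nat_lit 0) [] false,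
   Spec.mk (nat_lit 37929) (nat_lit 2) [nat_lit 51051, nat_lit 36471, nat_lit 37443, nat_lit 37947, nat_lit 37923, nat_lit 37927, nat_lit 18247] (nat_lit 0) [] false,
   Spec.mk (nat_lit 37937) (nat_lit 2) [nat_lit 51059, nat_lit 36479, nat_lit 37451, nat_lit 37991, nat_lit 37919, nat_lit 37939, nat_lit 57619] (nat_lit 0) [] false,
   Spec.mk (nat_lit 37939) (nat_lit 2) [nat_lit 51061, nat_lit 36481, nat_lit 37453, nat_lit 37993, nat_lit 37921, nat_lit 37945, nat_lit 37937, nat_lit 37941, nat_lit 57621, nat_lit 18257] (nat_lit 0) [] false,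
   Spec.mk (nat_lit 37941) (nat_lit 0) [nat_lit 51063, nat_lit 36483, nat_lit 37455, nat_lit 37995, nat_lit 37923, nat_lit 37947, nat_lit 37939, nat_lit 18259] (nat_lit 0) [] false,
   Spec.mk (nat_lit 37945) (nat_lit 2) [nat_lit 51067, nat_lit 36487, nat_lit 37459, nat_lit 37999, nat_lit 37927, nat_lit 37963, nat_lit 37939, nat_lit 37947, nat_lit 57627, nat_lit 18263] (nat_lit 0) [] false,
   Spec.mk (nat_lit 37947) (nat_lit 2) [nat_lit 51069, nat_lit 36489, nat_lit 37461, nat_lit 38001, nat_lit 37929, nat_lit 37965, nat_lit 37941, nat_lit 37953, nat_lit 37945, nat_lit 18265] (nat_lit 0) [] false,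
   Spec.mk (nat_lit 37953) (nat_lit 2) [nat_lit 51075, nat_lit 36495, nat_lit 37467, nat_lit 38007, nat_lit 37971, nat_lit 37947, nat_lit 18271] (nat_lit 0) [] false,
   Spec.mk (nat_lit 37963) (nat_lit 1) [nat_lit 51085, nat_lit 36505, nat_lit 37477, nat_lit 38017, nat_lit 37945, nat_lit 37965, nat_lit 57645, nat_lit 18281] (nat_lit 0) [] false,
   Spec.mk (nat_lit 37965) (nat_lit 0) [nat_lit 51087, nat_lit 36507, nat_lit 37479, nat_lit 38019, nat_lit 37947, nat_lit 37971, nat_lit 37963, nat_lit 18283] (nat_lit 0) [] false,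
   Spec.mk (nat_lit 37971) (nat_lit 2) [nat_lit 51093, nat_lit 36513, nat_lit 37485, nat_lit 38025, nat_lit 37953, nat_lit 37965, nat_lit 18289] (nat_lit 0) [] false,
   Spec.mk (nat_lit 37991) (nat_lit 2) [nat_lit 51113, nat_lit 36533, nat_lit 37505, nat_lit 38153, nat_lit 37937, nat_lit 37993, nat_lit 57673] (nat_lit 0) [] false,
   Spec.mk (nat_lit 37993) (nat_lit 2) [nat_lit 51115, nat_lit 36535, nat_lit 37507, nat_lit 38155, nat_lit 37939, nat_lit 37999, nat_lit 37991, nat_lit 37995, nat_lit 57675, nat_lit 18311] (nat_lit 0) [] false,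
   Spec.mk (nat_lit 37995) (nat_lit 0) [nat_lit 51117, nat_lit 36537, nat_lit 37509, nat_lit 38157, nat_lit 37941, nat_lit 38001, nat_lit 37993, nat_lit 18313] (nat_lit 0) [] false,
   Spec.mk (nat_lit 37999) (nat_lit 1) [nat_lit 51121, nat_lit 36541, nat_lit 37513, nat_lit 38161, nat_lit 37945, nat_lit 38017, nat_lit 37993, nat_lit 38001, nat_lit 57681, nat_lit 18317] (nat_lit 0) [] false,
   Spec.mk (nat_lit 38001) (nat_lit 1) [nat_lit 51123, nat_lit 36543, nat_lit 37515, nat_lit 38163, nat_lit 37947, nat_lit 38019, nat_lit 37995, nat_lit 38007, nat_lit 37999, nat_lit 18319] (nat_lit 0) [] false,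
   Spec.mk (nat_lit 38007) (nat_lit 0) [nat_lit 51129, nat_lit 36549, nat_lit 37521, nat_lit 38169, nat_lit 37953, nat_lit 38025, nat_lit 38001, nat_lit 18325] (nat_lit 0) [] false,
   Spec.mk (nat_lit 38017) (nat_lit 2) [nat_lit 51139, nat_lit 36559, nat_lit 37531, nat_lit 38179, nat_lit 37963, nat_lit 38071, nat_lit 37999, nat_lit 38019, nat_lit 57699, nat_lit 18335] (nat_lit 0) [] false,
   Spec.mk (nat_lit 38019) (nat_lit 1) [nat_lit 51141, nat_lit 36561, nat_lit 37533, nat_lit 38181, nat_lit 37965, nat_lit 38073, nat_lit 38001, nat_lit 38025, nat_lit 38017, nat_lit 18337] (nat_lit 0) [] false,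
   Spec.mk (nat_lit 38025) (nat_lit 2) [nat_lit 51147, nat_lit 36567, nat_lit 37539, nat_lit 38187, nat_lit 37971, nat_lit 38079, nat_lit 38007, nat_lit 38043, nat_lit 38019, nat_lit 18343] (nat_lit 0) [] false]

noncomputable def sp100 : List Spec :=
  [Spec.mk (nat_lit 38043) (nat_lit 2) [nat_lit 51165, nat_lit 36585, nat_lit 37557, nat_lit 38205, nat_lit 38097, nat_lit 38025, nat_lit 18361] (nat_lit 0) [] false,
   Spec.mk (nat_lit 38071) (nat_lit 1) [nat_lit 51193, nat_lit 36613, nat_lit 37585, nat_lit 38233, nat_lit 38017, nat_lit 38073, nat_lit 57753, nat_lit 18389] (nat_lit 0) [] false,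
   Spec.mk (nat_lit 38073) (nat_lit 0) [nat_lit 51195, nat_lit 36615, nat_lit 37587, nat_lit 38235, nat_lit 38019, nat_lit 38079, nat_lit 38071, nat_lit 18391] (nat_lit 0) [] false,
   Spec.mk (nat_lit 38079) (nat_lit 0) [nat_lit 51201, nat_lit 36621, nat_lit 37593, nat_lit 38241, nat_lit 38025, nat_lit 38097, nat_lit 38073, nat_lit 18397] (nat_lit 0) [] false,
   Spec.mk (nat_lit 38097) (nat_lit 2) [nat_lit 51219, nat_lit 36639, nat_lit 37611, nat_lit 38259, nat_lit 38043, nat_lit 38079, nat_lit 18415] (nat_lit 0) [] false,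
   Spec.mk (nat_lit 38153) (nat_lit 3) [nat_lit 51275, nat_lit 36695, nat_lit 37667, nat_lit 38639, nat_lit 37991, nat_lit 38155, nat_lit 57835] (nat_lit 0) [] false,
   Spec.mk (nat_lit 38155) (nat_lit 3) [nat_lit 51277, nat_lit 36697, nat_lit 37669, nat_lit 38641, nat_lit 37993, nat_lit 38161, nat_lit 38153, nat_lit 38157, nat_lit 57837, nat_lit 18473] (nat_lit 0) [] false,
   Spec.mk (nat_lit 38157) (nat_lit 1) [nat_lit 51279, nat_lit 36699, nat_lit 37671, nat_lit 38643, nat_lit 37995, nat_lit 38163, nat_lit 38155, nat_lit 18475] (nat_lit 0) [] false,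
   Spec.mk (nat_lit 38161) (nat_lit 2) [nat_lit 51283, nat_lit 36703, nat_lit 37675, nat_lit 38647, nat_lit 37999, nat_lit 38179, nat_lit 38155, nat_lit 38163, nat_lit 57843, nat_lit 18479] (nat_lit 0) [] false,
   Spec.mk (nat_lit 38163) (nat_lit 2) [nat_lit 51285, nat_lit 36705, nat_lit 37677, nat_lit 38649, nat_lit 38001, nat_lit 38181, nat_lit 38157, nat_lit 38169, nat_lit 38161, nat_lit 18481] (nat_lit 0) [] false,
   Spec.mk (nat_lit 38169) (nat_lit 1) [nat_lit 51291, nat_lit 36711, nat_lit 37683, nat_lit 38655, nat_lit 38007, nat_lit 38187, nat_lit 38163, nat_lit 18487] (nat_lit 0) [] false,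
   Spec.mk (nat_lit 38179) (nat_lit 2) [nat_lit 51301, nat_lit 36721, nat_lit 37693, nat_lit 38665, nat_lit 38017, nat_lit 38233, nat_lit 38161, nat_lit 38181, nat_lit 57861, nat_lit 18497] (nat_lit 0) [] false,
   Spec.mk (nat_lit 38181) (nat_lit 1) [nat_lit 51303, nat_lit 36723, nat_lit 37695, nat_lit 38667, nat_lit 38019, nat_lit 38235, nat_lit 38163, nat_lit 38187, nat_lit 38179, nat_lit 18499] (nat_lit 0) [] false,
   Spec.mk (nat_lit 38187) (nat_lit 2) [nat_lit 51309, nat_lit 36729, nat_lit 37701, nat_lit 38673, nat_lit 38025, nat_lit 38241, nat_lit 38169, nat_lit 38205, nat_lit 38181, nat_lit 18505] (nat_lit 0) [] false,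
   Spec.mk (nat_lit 38205) (nat_lit 1) [nat_lit 51327, nat_lit 36747, nat_lit 37719, nat_lit 38691, nat_lit 38043, nat_lit 38259, nat_lit 38187, nat_lit 18523] (nat_lit 0) [] false,
   Spec.mk (nat_lit 38233) (nat_lit 3) [nat_lit 51355, nat_lit 36775, nat_lit 37747, nat_lit 38719, nat_lit 38071, nat_lit 38395, nat_lit 38179, nat_lit 38235, nat_lit 57915, nat_lit 18551] (nat_lit 0) [] false,
   Spec.mk (nat_lit 38235) (nat_lit 2) [nat_lit 51357, nat_lit 36777, nat_lit 37749, nat_lit 38721, nat_lit 38073, nat_lit 38397, nat_lit 38181, nat_lit 38241, nat_lit 38233, nat_lit 18553] (nat_lit 0) [] false,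
   Spec.mk (nat_lit 38241) (nat_lit 2) [nat_lit 51363, nat_lit 36783, nat_lit 37755, nat_lit 38727, nat_lit 38079, nat_lit 38403, nat_lit 38187, nat_lit 38259, nat_lit 38235, nat_lit 18559] (nat_lit 0) [] false,
   Spec.mk (nat_lit 38259) (nat_lit 3) [nat_lit 51381, nat_lit 36801, nat_lit 37773, nat_lit 38745, nat_lit 38097, nat_lit 38421, nat_lit 38205, nat_lit 38313, nat_lit 38241, nat_lit 18577] (nat_lit 0) [] false,
   Spec.mk (nat_lit 38313) (nat_lit 3) [nat_lit 51435, nat_lit 36855, nat_lit 37827, nat_lit 38799, nat_lit 38475, nat_lit 38259, nat_lit 18631] (nat_lit 0) [] false,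
   Spec.mk (nat_lit 38395) (nat_lit 3) [nat_lit 51517, nat_lit 36937, nat_lit 38881, nat_lit 38233, nat_lit 38397, nat_lit 58077, nat_lit 18713] (nat_lit 0) [] false,
   Spec.mk (nat_lit 38397) (nat_lit 2) [nat_lit 51519, nat_lit 36939, nat_lit 38883, nat_lit 38235, nat_lit 38403, nat_lit 38395, nat_lit 18715] (nat_lit 0) [] false,
   Spec.mk (nat_lit 38403) (nat_lit 2) [nat_lit 51525, nat_lit 36945, nat_lit 38889, nat_lit 38241, nat_lit 38421, nat_lit 38397, nat_lit 18721] (nat_lit 0) [] false,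
   Spec.mk (nat_lit 38421) (nat_lit 2) [nat_lit 51543, nat_lit 36963, nat_lit 38907, nat_lit 38259, nat_lit 38475, nat_lit 38403, nat_lit 18739] (nat_lit 0) [] false,
   Spec.mk (nat_lit 38475) (nat_lit 4) [nat_lit 51597, nat_lit 37017, nat_lit 38961, nat_lit 38313, nat_lit 38421, nat_lit 18793] (nat_lit 0) [] false,
   Spec.mk (nat_lit 38639) (nat_lit 4) [nat_lit 51761, nat_lit 38153, nat_lit 38641, nat_lit 58321] (nat_lit 0) [] false,
   Spec.mk (nat_lit 38641) (nat_lit 4) [nat_lit 51763, nat_lit 38155, nat_lit 38647, nat_lit 38639, nat_lit 38643, nat_lit 58323, nat_lit 18959] (nat_lit 0) [] false,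
   Spec.mk (nat_lit 38643) (nat_lit 2) [nat_lit 51765, nat_lit 38157, nat_lit 38649, nat_lit 38641, nat_lit 18961] (nat_lit 0) [] false,
   Spec.mk (nat_lit 38647) (nat_lit 3) [nat_lit 51769, nat_lit 38161, nat_lit 38665, nat_lit 38641, nat_lit 38649, nat_lit 58329, nat_lit 18965] (nat_lit 0) [] false,
   Spec.mk (nat_lit 38649) (nat_lit 3) [nat_lit 51771, nat_lit 38163, nat_lit 38667, nat_lit 38643, nat_lit 38655, nat_lit 38647, nat_lit 18967] (nat_lit 0) [] false,
   Spec.mk (nat_lit 38655) (nat_lit 2) [nat_lit 51777, nat_lit 38169, nat_lit 38673, nat_lit 38649, nat_lit 18973] (nat_lit 0) [] false,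
   Spec.mk (nat_lit 38665) (nat_lit 3) [nat_lit 51787, nat_lit 38179, nat_lit 38719, nat_lit 38647, nat_lit 38667, nat_lit 58347, nat_lit 18983] (nat_lit 0) [] false,
   Spec.mk (nat_lit 38667) (nat_lit 2) [nat_lit 51789, nat_lit 38181, nat_lit 38721, nat_lit 38649, nat_lit 38673, nat_lit 38665, nat_lit 18985] (nat_lit 0) [] false,
   Spec.mk (nat_lit 38673) (nat_lit 3) [nat_lit 51795, nat_lit 38187, nat_lit 38727, nat_lit 38655, nat_lit 38691, nat_lit 38667, nat_lit 18991] (nat_lit 0) [] false,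
   Spec.mk (nat_lit 38691) (nat_lit 2) [nat_lit 51813, nat_lit 38205, nat_lit 38745, nat_lit 38673, nat_lit 19009] (nat_lit 0) [] false,
   Spec.mk (nat_lit 38719) (nat_lit 3) [nat_lit 51841, nat_lit 38233, nat_lit 38881, nat_lit 38665, nat_lit 38721, nat_lit 58401, nat_lit 19037] (nat_lit 0) [] false,
   Spec.mk (nat_lit 38721) (nat_lit 2) [nat_lit 51843, nat_lit 38235, nat_lit 38883, nat_lit 38667, nat_lit 38727, nat_lit 38719, nat_lit 19039] (nat_lit 0) [] false,
   Spec.mk (nat_lit 38727) (nat_lit 2) [nat_lit 51849, nat_lit 38241, nat_lit 38889, nat_lit 38673, nat_lit 38745, nat_lit 38721, nat_lit 19045] (nat_lit 0) [] false,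
   Spec.mk (nat_lit 38745) (nat_lit 3) [nat_lit 51867, nat_lit 38259, nat_lit 38907, nat_lit 38691, nat_lit 38799, nat_lit 38727, nat_lit 19063] (nat_lit 0) [] false,
   Spec.mk (nat_lit 38799) (nat_lit 2) [nat_lit 51921, nat_lit 38313, nat_lit 38961, nat_lit 38745, nat_lit 19117] (nat_lit 0) [] false,
   Spec.mk (nat_lit 38881) (nat_lit 5) [nat_lit 52003, nat_lit 38395, nat_lit 38719, nat_lit 38883, nat_lit 58563, nat_lit 19199] (nat_lit 0) [] false,
   Spec.mk (nat_lit 38883) (nat_lit 4) [nat_lit 52005, nat_lit 38397, nat_lit 38721, nat_lit 38889, nat_lit 38881, nat_lit 19201] (nat_lit 0) [] false,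
   Spec.mk (nat_lit 38889) (nat_lit 4) [nat_lit 52011, nat_lit 38403, nat_lit 38727, nat_lit 38907, nat_lit 38883, nat_lit 19207] (nat_lit 0) [] false,
   Spec.mk (nat_lit 38907) (nat_lit 4) [nat_lit 52029, nat_lit 38421, nat_lit 38745, nat_lit 38961, nat_lit 38889, nat_lit 19225] (nat_lit 0) [] false,
   Spec.mk (nat_lit 38961) (nat_lit 5) [nat_lit 52083, nat_lit 38475, nat_lit 38799, nat_lit 39123, nat_lit 38907, nat_lit 19279] (nat_lit 0) [] false,
   Spec.mk (nat_lit 39123) (nat_lit 6) [nat_lit 52245, nat_lit 38961, nat_lit 19441] (nat_lit 0) [] false,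
   Spec.mk (nat_lit 39419) (nat_lit 6) [nat_lit 26297, nat_lit 39473, nat_lit 39437] (nat_lit 0) [] false,
   Spec.mk (nat_lit 39437) (nat_lit 4) [nat_lit 26315, nat_lit 39491, nat_lit 39419, nat_lit 39443] (nat_lit 0) [] false,
   Spec.mk (nat_lit 39443) (nat_lit 4) [nat_lit 26321, nat_lit 39497, nat_lit 39437, nat_lit 39445] (nat_lit 0) [] false,
   Spec.mk (nat_lit 39445) (nat_lit 4) [nat_lit 26323, nat_lit 39499, nat_lit 39443, nat_lit 19763] (nat_lit 0) [] false,
   Spec.mk (nat_lit 39473) (nat_lit 4) [nat_lit 26351, nat_lit 39635, nat_lit 39419, nat_lit 39491] (nat_lit 0) [] false,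
   Spec.mk (nat_lit 39491) (nat_lit 4) [nat_lit 26369, nat_lit 39653, nat_lit 39437, nat_lit 39545, nat_lit 39473, nat_lit 39509, nat_lit 39497] (nat_lit 0) [] false,
   Spec.mk (nat_lit 39497) (nat_lit 3) [nat_lit 26375, nat_lit 39659, nat_lit 39443, nat_lit 39551, nat_lit 39515, nat_lit 39491, nat_lit 39499] (nat_lit 0) [] false,
   Spec.mk (nat_lit 39499) (nat_lit 3) [nat_lit 26377, nat_lit 39661, nat_lit 39445, nat_lit 39553, nat_lit 39517, nat_lit 39497, nat_lit 19817] (nat_lit 0) [] false,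
   Spec.mk (nat_lit 39509) (nat_lit 2) [nat_lit 26387, nat_lit 39671, nat_lit 39563, nat_lit 39491, nat_lit 39515] (nat_lit 0) [] false,
   Spec.mk (nat_lit 39515) (nat_lit 3) [nat_lit 26393, nat_lit 39677, nat_lit 39569, nat_lit 39497, nat_lit 39509, nat_lit 39521, nat_lit 39517] (nat_lit 0) [] false,
   Spec.mk (nat_lit 39517) (nat_lit 2) [nat_lit 26395, nat_lit 39679, nat_lit 39571, nat_lit 39499, nat_lit 39523, nat_lit 39515, nat_lit 19835] (nat_lit 0) [] false,
   Spec.mk (nat_lit 39521) (nat_lit 2) [nat_lit 26399, nat_lit 39683, nat_lit 39575, nat_lit 39515, nat_lit 39523] (nat_lit 0) [] false,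
   Spec.mk (nat_lit 39523) (nat_lit 3) [nat_lit 26401, nat_lit 39685, nat_lit 39577, nat_lit 39517, nat_lit 39521, nat_lit 39525, nat_lit 19841] (nat_lit 0) [] false,
   Spec.mk (nat_lit 39525) (nat_lit 2) [nat_lit 26403, nat_lit 39687, nat_lit 39579, nat_lit 39523, nat_lit 19843] (nat_lit 0) [] false]

noncomputable def sp101 : List Spec :=
  [Spec.mk (nat_lit 39545) (nat_lit 2) [nat_lit 26423, nat_lit 39707, nat_lit 39491, nat_lit 39563, nat_lit 39551] (nat_lit 0) [] false,
   Spec.mk (nat_lit 39551) (nat_lit 0) [nat_lit 26429, nat_lit 39713, nat_lit 39497, nat_lit 39569, nat_lit 39545, nat_lit 39553] (nat_lit 0) [] false,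
   Spec.mk (nat_lit 39553) (nat_lit 0) [nat_lit 26431, nat_lit 39715, nat_lit 39499, nat_lit 39571, nat_lit 39551, nat_lit 19871] (nat_lit 0) [] false,
   Spec.mk (nat_lit 39563) (nat_lit 2) [nat_lit 26441, nat_lit 39725, nat_lit 39509, nat_lit 39545, nat_lit 39569] (nat_lit 0) [] false,
   Spec.mk (nat_lit 39569) (nat_lit 2) [nat_lit 26447, nat_lit 39731, nat_lit 39515, nat_lit 39551, nat_lit 39587, nat_lit 39563, nat_lit 39575, nat_lit 39571] (nat_lit 0) [] false,
   Spec.mk (nat_lit 39571) (nat_lit 1) [nat_lit 26449, nat_lit 39733, nat_lit 39517, nat_lit 39553, nat_lit 39589, nat_lit 39577, nat_lit 39569, nat_lit 19889] (nat_lit 0) [] false,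
   Spec.mk (nat_lit 39575) (nat_lit 0) [nat_lit 26453, nat_lit 39737, nat_lit 39521, nat_lit 39593, nat_lit 39569, nat_lit 39577] (nat_lit 0) [] false,
   Spec.mk (nat_lit 39577) (nat_lit 1) [nat_lit 26455, nat_lit 39739, nat_lit 39523, nat_lit 39595, nat_lit 39571, nat_lit 39575, nat_lit 39579, nat_lit 19895] (nat_lit 0) [] false,
   Spec.mk (nat_lit 39579) (nat_lit 0) [nat_lit 26457, nat_lit 39741, nat_lit 39525, nat_lit 39597, nat_lit 39577, nat_lit 19897] (nat_lit 0) [] false,
   Spec.mk (nat_lit 39587) (nat_lit 2) [nat_lit 26465, nat_lit 39749, nat_lit 39569, nat_lit 39593, nat_lit 39589] (nat_lit 0) [] false,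
   Spec.mk (nat_lit 39589) (nat_lit 0) [nat_lit 26467, nat_lit 39751, nat_lit 39571, nat_lit 39595, nat_lit 39587, nat_lit 19907] (nat_lit 0) [] false,
   Spec.mk (nat_lit 39593) (nat_lit 2) [nat_lit 26471, nat_lit 39755, nat_lit 39575, nat_lit 39587, nat_lit 39595] (nat_lit 0) [] false,
   Spec.mk (nat_lit 39595) (nat_lit 2) [nat_lit 26473, nat_lit 39757, nat_lit 39577, nat_lit 39589, nat_lit 39601, nat_lit 39593, nat_lit 39597, nat_lit 19913] (nat_lit 0) [] false,
   Spec.mk (nat_lit 39597) (nat_lit 0) [nat_lit 26475, nat_lit 39759, nat_lit 39579, nat_lit 39603, nat_lit 39595, nat_lit 19915] (nat_lit 0) [] false,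
   Spec.mk (nat_lit 39601) (nat_lit 2) [nat_lit 26479, nat_lit 39763, nat_lit 39595, nat_lit 39603, nat_lit 19919] (nat_lit 0) [] false,
   Spec.mk (nat_lit 39603) (nat_lit 2) [nat_lit 26481, nat_lit 39765, nat_lit 39597, nat_lit 39601, nat_lit 19921] (nat_lit 0) [] false,
   Spec.mk (nat_lit 39635) (nat_lit 4) [nat_lit 26513, nat_lit 40121, nat_lit 39473, nat_lit 39653] (nat_lit 0) [] false,
   Spec.mk (nat_lit 39653) (nat_lit 3) [nat_lit 26531, nat_lit 40139, nat_lit 39491, nat_lit 39707, nat_lit 39635, nat_lit 39671, nat_lit 39659] (nat_lit 0) [] false,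
   Spec.mk (nat_lit 39659) (nat_lit 2) [nat_lit 26537, nat_lit 40145, nat_lit 39497, nat_lit 39713, nat_lit 39677, nat_lit 39653, nat_lit 39661] (nat_lit 0) [] false,
   Spec.mk (nat_lit 39661) (nat_lit 2) [nat_lit 26539, nat_lit 40147, nat_lit 39499, nat_lit 39715, nat_lit 39679, nat_lit 39659, nat_lit 19979] (nat_lit 0) [] false,
   Spec.mk (nat_lit 39671) (nat_lit 0) [nat_lit 26549, nat_lit 40157, nat_lit 39509, nat_lit 39725, nat_lit 39653, nat_lit 39677] (nat_lit 0) [] false,
   Spec.mk (nat_lit 39677) (nat_lit 1) [nat_lit 26555, nat_lit 40163, nat_lit 39515, nat_lit 39731, nat_lit 39659, nat_lit 39671, nat_lit 39683, nat_lit 39679] (nat_lit 0) [] false,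
   Spec.mk (nat_lit 39679) (nat_lit 0) [nat_lit 26557, nat_lit 40165, nat_lit 39517, nat_lit 39733, nat_lit 39661, nat_lit 39685, nat_lit 39677, nat_lit 19997] (nat_lit 0) [] false,
   Spec.mk (nat_lit 39683) (nat_lit 0) [nat_lit 26561, nat_lit 40169, nat_lit 39521, nat_lit 39737, nat_lit 39677, nat_lit 39685] (nat_lit 0) [] false,
   Spec.mk (nat_lit 39685) (nat_lit 1) [nat_lit 26563, nat_lit 40171, nat_lit 39523, nat_lit 39739, nat_lit 39679, nat_lit 39683, nat_lit 39687, nat_lit 20003] (nat_lit 0) [] false,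
   Spec.mk (nat_lit 39687) (nat_lit 0) [nat_lit 26565, nat_lit 40173, nat_lit 39525, nat_lit 39741, nat_lit 39685, nat_lit 20005] (nat_lit 0) [] false,
   Spec.mk (nat_lit 39707) (nat_lit 3) [nat_lit 26585, nat_lit 40193, nat_lit 39545, nat_lit 39869, nat_lit 39653, nat_lit 39725, nat_lit 39713] (nat_lit 0) [] false,
   Spec.mk (nat_lit 39713) (nat_lit 1) [nat_lit 26591, nat_lit 40199, nat_lit 39551, nat_lit 39875, nat_lit 39659, nat_lit 39731, nat_lit 39707, nat_lit 39715] (nat_lit 0) [] false,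
   Spec.mk (nat_lit 39715) (nat_lit 1) [nat_lit 26593, nat_lit 40201, nat_lit 39553, nat_lit 39877, nat_lit 39661, nat_lit 39733, nat_lit 39713, nat_lit 20033] (nat_lit 0) [] false,
   Spec.mk (nat_lit 39725) (nat_lit 2) [nat_lit 26603, nat_lit 40211, nat_lit 39563, nat_lit 39887, nat_lit 39671, nat_lit 39779, nat_lit 39707, nat_lit 39731] (nat_lit 0) [] false,
   Spec.mk (nat_lit 39731) (nat_lit 2) [nat_lit 26609, nat_lit 40217, nat_lit 39569, nat_lit 39893, nat_lit 39677, nat_lit 39785, nat_lit 39713, nat_lit 39749, nat_lit 39725, nat_lit 39737, nat_lit 39733] (nat_lit 0) [] false,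
   Spec.mk (nat_lit 39733) (nat_lit 1) [nat_lit 26611, nat_lit 40219, nat_lit 39571, nat_lit 39895, nat_lit 39679, nat_lit 39787, nat_lit 39715, nat_lit 39751, nat_lit 39739, nat_lit 39731, nat_lit 20051] (nat_lit 0) [] false,
   Spec.mk (nat_lit 39737) (nat_lit 0) [nat_lit 26615, nat_lit 40223, nat_lit 39575, nat_lit 39899, nat_lit 39683, nat_lit 39791, nat_lit 39755, nat_lit 39731, nat_lit 39739] (nat_lit 0) [] false,
   Spec.mk (nat_lit 39739) (nat_lit 1) [nat_lit 26617, nat_lit 40225, nat_lit 39577, nat_lit 39901, nat_lit 39685, nat_lit 39793, nat_lit 39757, nat_lit 39733, nat_lit 39737, nat_lit 39741, nat_lit 20057] (nat_lit 0) [] false,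
   Spec.mk (nat_lit 39741) (nat_lit 0) [nat_lit 26619, nat_lit 40227, nat_lit 39579, nat_lit 39903, nat_lit 39687, nat_lit 39795, nat_lit 39759, nat_lit 39739, nat_lit 20059] (nat_lit 0) [] false,
   Spec.mk (nat_lit 39749) (nat_lit 1) [nat_lit 26627, nat_lit 40235, nat_lit 39587, nat_lit 39911, nat_lit 39803, nat_lit 39731, nat_lit 39755, nat_lit 39751] (nat_lit 0) [] false,
   Spec.mk (nat_lit 39751) (nat_lit 0) [nat_lit 26629, nat_lit 40237, nat_lit 39589, nat_lit 39913, nat_lit 39805, nat_lit 39733, nat_lit 39757, nat_lit 39749, nat_lit 20069] (nat_lit 1) [] false,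
   Spec.mk (nat_lit 39755) (nat_lit 1) [nat_lit 26633, nat_lit 40241, nat_lit 39593, nat_lit 39917, nat_lit 39809, nat_lit 39737, nat_lit 39749, nat_lit 39757] (nat_lit 0) [] false,
   Spec.mk (nat_lit 39757) (nat_lit 1) [nat_lit 26635, nat_lit 40243, nat_lit 39595, nat_lit 39919, nat_lit 39811, nat_lit 39739, nat_lit 39751, nat_lit 39763, nat_lit 39755, nat_lit 39759, nat_lit 20075] (nat_lit 0) [] false,
   Spec.mk (nat_lit 39759) (nat_lit 0) [nat_lit 26637, nat_lit 40245, nat_lit 39597, nat_lit 39921, nat_lit 39813, nat_lit 39741, nat_lit 39765, nat_lit 39757, nat_lit 20077] (nat_lit 1) [] false,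
   Spec.mk (nat_lit 39763) (nat_lit 1) [nat_lit 26641, nat_lit 40249, nat_lit 39601, nat_lit 39925, nat_lit 39817, nat_lit 39757, nat_lit 39765, nat_lit 20081] (nat_lit 0) [] false,
   Spec.mk (nat_lit 39765) (nat_lit 1) [nat_lit 26643, nat_lit 40251, nat_lit 39603, nat_lit 39927, nat_lit 39819, nat_lit 39759, nat_lit 39763, nat_lit 20083] (nat_lit 0) [] false,
   Spec.mk (nat_lit 39779) (nat_lit 2) [nat_lit 26657, nat_lit 40265, nat_lit 39941, nat_lit 39725, nat_lit 39785] (nat_lit 0) [] false,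
   Spec.mk (nat_lit 39785) (nat_lit 1) [nat_lit 26663, nat_lit 40271, nat_lit 39947, nat_lit 39731, nat_lit 39803, nat_lit 39779, nat_lit 39791, nat_lit 39787] (nat_lit 0) [] false,
   Spec.mk (nat_lit 39787) (nat_lit 0) [nat_lit 26665, nat_lit 40273, nat_lit 39949, nat_lit 39733, nat_lit 39805, nat_lit 39793, nat_lit 39785, nat_lit 20105] (nat_lit 0) [] false,
   Spec.mk (nat_lit 39791) (nat_lit 0) [nat_lit 26669, nat_lit 40277, nat_lit 39953, nat_lit 39737, nat_lit 39809, nat_lit 39785, nat_lit 39793] (nat_lit 2) [] false,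
   Spec.mk (nat_lit 39793) (nat_lit 0) [nat_lit 26671, nat_lit 40279, nat_lit 39955, nat_lit 39739, nat_lit 39811, nat_lit 39787, nat_lit 39791, nat_lit 39795, nat_lit 20111] (nat_lit 1) [] false,
   Spec.mk (nat_lit 39795) (nat_lit 0) [nat_lit 26673, nat_lit 40281, nat_lit 39957, nat_lit 39741, nat_lit 39813, nat_lit 39793, nat_lit 20113] (nat_lit 2) [] false,
   Spec.mk (nat_lit 39803) (nat_lit 2) [nat_lit 26681, nat_lit 40289, nat_lit 39965, nat_lit 39749, nat_lit 39785, nat_lit 39809, nat_lit 39805] (nat_lit 0) [] false,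
   Spec.mk (nat_lit 39805) (nat_lit 0) [nat_lit 26683, nat_lit 40291, nat_lit 39967, nat_lit 39751, nat_lit 39787, nat_lit 39811, nat_lit 39803, nat_lit 20123] (nat_lit 0) [] false,
   Spec.mk (nat_lit 39809) (nat_lit 1) [nat_lit 26687, nat_lit 40295, nat_lit 39971, nat_lit 39755, nat_lit 39791, nat_lit 39827, nat_lit 39803, nat_lit 39811] (nat_lit 0) [] false,
   Spec.mk (nat_lit 39811) (nat_lit 1) [nat_lit 26689, nat_lit 40297, nat_lit 39973, nat_lit 39757, nat_lit 39793, nat_lit 39829, nat_lit 39805, nat_lit 39817, nat_lit 39809, nat_lit 39813, nat_lit 20129] (nat_lit 0) [] false,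
   Spec.mk (nat_lit 39813) (nat_lit 0) [nat_lit 26691, nat_lit 40299, nat_lit 39975, nat_lit 39759, nat_lit 39795, nat_lit 39831, nat_lit 39819, nat_lit 39811, nat_lit 20131] (nat_lit 1) [] false,
   Spec.mk (nat_lit 39817) (nat_lit 0) [nat_lit 26695, nat_lit 40303, nat_lit 39979, nat_lit 39763, nat_lit 39835, nat_lit 39811, nat_lit 39819, nat_lit 20135] (nat_lit 0) [] false,
   Spec.mk (nat_lit 39819) (nat_lit 0) [nat_lit 26697, nat_lit 40305, nat_lit 39981, nat_lit 39765, nat_lit 39837, nat_lit 39813, nat_lit 39817, nat_lit 20137] (nat_lit 0) [] false,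
   Spec.mk (nat_lit 39827) (nat_lit 2) [nat_lit 26705, nat_lit 40313, nat_lit 39989, nat_lit 39809, nat_lit 39829] (nat_lit 0) [] false,
   Spec.mk (nat_lit 39829) (nat_lit 1) [nat_lit 26707, nat_lit 40315, nat_lit 39991, nat_lit 39811, nat_lit 39835, nat_lit 39827, nat_lit 39831, nat_lit 20147] (nat_lit 0) [] false,
   Spec.mk (nat_lit 39831) (nat_lit 0) [nat_lit 26709, nat_lit 40317, nat_lit 39993, nat_lit 39813, nat_lit 39837, nat_lit 39829, nat_lit 20149] (nat_lit 2) [] false,
   Spec.mk (nat_lit 39835) (nat_lit 2) [nat_lit 26713, nat_lit 40321, nat_lit 39997, nat_lit 39817, nat_lit 39829, nat_lit 39837, nat_lit 20153] (nat_lit 0) [] false,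
   Spec.mk (nat_lit 39837) (nat_lit 1) [nat_lit 26715, nat_lit 40323, nat_lit 39999, nat_lit 39819, nat_lit 39831, nat_lit 39843, nat_lit 39835, nat_lit 20155] (nat_lit 0) [] false]

noncomputable def sp102 : List Spec :=
  [Spec.mk (nat_lit 39843) (nat_lit 2) [nat_lit 26721, nat_lit 40329, nat_lit 40005, nat_lit 39837, nat_lit 20161] (nat_lit 0) [] false,
   Spec.mk (nat_lit 39869) (nat_lit 2) [nat_lit 26747, nat_lit 40355, nat_lit 39707, nat_lit 39887, nat_lit 39875] (nat_lit 0) [] false,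
   Spec.mk (nat_lit 39875) (nat_lit 0) [nat_lit 26753, nat_lit 40361, nat_lit 39713, nat_lit 39893, nat_lit 39869, nat_lit 39877] (nat_lit 0) [] false,
   Spec.mk (nat_lit 39877) (nat_lit 0) [nat_lit 26755, nat_lit 40363, nat_lit 39715, nat_lit 39895, nat_lit 39875, nat_lit 20195] (nat_lit 0) [] false,
   Spec.mk (nat_lit 39887) (nat_lit 0) [nat_lit 26765, nat_lit 40373, nat_lit 39725, nat_lit 39941, nat_lit 39869, nat_lit 39893] (nat_lit 0) [] false,
   Spec.mk (nat_lit 39893) (nat_lit 0) [nat_lit 26771, nat_lit 40379, nat_lit 39731, nat_lit 39947, nat_lit 39875, nat_lit 39911, nat_lit 39887, nat_lit 39899, nat_lit 39895] (nat_lit 0) [] false,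
   Spec.mk (nat_lit 39895) (nat_lit 0) [nat_lit 26773, nat_lit 40381, nat_lit 39733, nat_lit 39949, nat_lit 39877, nat_lit 39913, nat_lit 39901, nat_lit 39893, nat_lit 20213] (nat_lit 1) [] false,
   Spec.mk (nat_lit 39899) (nat_lit 0) [nat_lit 26777, nat_lit 40385, nat_lit 39737, nat_lit 39953, nat_lit 39917, nat_lit 39893, nat_lit 39901] (nat_lit 2) [] false,
   Spec.mk (nat_lit 39901) (nat_lit 0) [nat_lit 26779, nat_lit 40387, nat_lit 39739, nat_lit 39955, nat_lit 39919, nat_lit 39895, nat_lit 39899, nat_lit 39903, nat_lit 20219] (nat_lit 1) [] false,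
   Spec.mk (nat_lit 39903) (nat_lit 0) [nat_lit 26781, nat_lit 40389, nat_lit 39741, nat_lit 39957, nat_lit 39921, nat_lit 39901, nat_lit 20221] (nat_lit 2) [] false,
   Spec.mk (nat_lit 39911) (nat_lit 0) [nat_lit 26789, nat_lit 40397, nat_lit 39749, nat_lit 39965, nat_lit 39893, nat_lit 39917, nat_lit 39913] (nat_lit 2) [] false,
   Spec.mk (nat_lit 39913) (nat_lit 0) [nat_lit 26791, nat_lit 40399, nat_lit 39751, nat_lit 39967, nat_lit 39895, nat_lit 39919, nat_lit 39911, nat_lit 20231] (nat_lit 4) [] false,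
   Spec.mk (nat_lit 39917) (nat_lit 0) [nat_lit 26795, nat_lit 40403, nat_lit 39755, nat_lit 39971, nat_lit 39899, nat_lit 39911, nat_lit 39919] (nat_lit 2) [] false,
   Spec.mk (nat_lit 39919) (nat_lit 0) [nat_lit 26797, nat_lit 40405, nat_lit 39757, nat_lit 39973, nat_lit 39901, nat_lit 39913, nat_lit 39925, nat_lit 39917, nat_lit 39921, nat_lit 20237] (nat_lit 2) [] false,
   Spec.mk (nat_lit 39921) (nat_lit 0) [nat_lit 26799, nat_lit 40407, nat_lit 39759, nat_lit 39975, nat_lit 39903, nat_lit 39927, nat_lit 39919, nat_lit 20239] (nat_lit 4) [] false,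
   Spec.mk (nat_lit 39925) (nat_lit 0) [nat_lit 26803, nat_lit 40411, nat_lit 39763, nat_lit 39979, nat_lit 39919, nat_lit 39927, nat_lit 20243] (nat_lit 2) [] false,
   Spec.mk (nat_lit 39927) (nat_lit 0) [nat_lit 26805, nat_lit 40413, nat_lit 39765, nat_lit 39981, nat_lit 39921, nat_lit 39925, nat_lit 20245] (nat_lit 2) [] false,
   Spec.mk (nat_lit 39941) (nat_lit 2) [nat_lit 26819, nat_lit 40427, nat_lit 39779, nat_lit 39887, nat_lit 39947] (nat_lit 0) [] false,
   Spec.mk (nat_lit 39947) (nat_lit 1) [nat_lit 26825, nat_lit 40433, nat_lit 39785, nat_lit 39893, nat_lit 39965, nat_lit 39941, nat_lit 39953, nat_lit 39949] (nat_lit 0) [] false,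
   Spec.mk (nat_lit 39949) (nat_lit 0) [nat_lit 26827, nat_lit 40435, nat_lit 39787, nat_lit 39895, nat_lit 39967, nat_lit 39955, nat_lit 39947, nat_lit 20267] (nat_lit 0) [] false,
   Spec.mk (nat_lit 39953) (nat_lit 0) [nat_lit 26831, nat_lit 40439, nat_lit 39791, nat_lit 39899, nat_lit 39971, nat_lit 39947, nat_lit 39955] (nat_lit 2) [] false,
   Spec.mk (nat_lit 39955) (nat_lit 0) [nat_lit 26833, nat_lit 40441, nat_lit 39793, nat_lit 39901, nat_lit 39973, nat_lit 39949, nat_lit 39953, nat_lit 39957, nat_lit 20273] (nat_lit 1) [] false,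
   Spec.mk (nat_lit 39957) (nat_lit 0) [nat_lit 26835, nat_lit 40443, nat_lit 39795, nat_lit 39903, nat_lit 39975, nat_lit 39955, nat_lit 20275] (nat_lit 2) [] false,
   Spec.mk (nat_lit 39965) (nat_lit 1) [nat_lit 26843, nat_lit 40451, nat_lit 39803, nat_lit 39911, nat_lit 40019, nat_lit 39947, nat_lit 39971, nat_lit 39967] (nat_lit 0) [] false,
   Spec.mk (nat_lit 39967) (nat_lit 0) [nat_lit 26845, nat_lit 40453, nat_lit 39805, nat_lit 39913, nat_lit 40021, nat_lit 39949, nat_lit 39973, nat_lit 39965, nat_lit 20285] (nat_lit 1) [] false,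
   Spec.mk (nat_lit 39971) (nat_lit 0) [nat_lit 26849, nat_lit 40457, nat_lit 39809, nat_lit 39917, nat_lit 40025, nat_lit 39953, nat_lit 39989, nat_lit 39965, nat_lit 39973] (nat_lit 0) [] false,
   Spec.mk (nat_lit 39973) (nat_lit 0) [nat_lit 26851, nat_lit 40459, nat_lit 39811, nat_lit 39919, nat_lit 40027, nat_lit 39955, nat_lit 39991, nat_lit 39967, nat_lit 39979, nat_lit 39971, nat_lit 39975, nat_lit 20291] (nat_lit 0) [] false,
   Spec.mk (nat_lit 39975) (nat_lit 0) [nat_lit 26853, nat_lit 40461, nat_lit 39813, nat_lit 39921, nat_lit 40029, nat_lit 39957, nat_lit 39993, nat_lit 39981, nat_lit 39973, nat_lit 20293] (nat_lit 2) [] false,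
   Spec.mk (nat_lit 39979) (nat_lit 0) [nat_lit 26857, nat_lit 40465, nat_lit 39817, nat_lit 39925, nat_lit 40033, nat_lit 39997, nat_lit 39973, nat_lit 39981, nat_lit 20297] (nat_lit 1) [] false,
   Spec.mk (nat_lit 39981) (nat_lit 0) [nat_lit 26859, nat_lit 40467, nat_lit 39819, nat_lit 39927, nat_lit 40035, nat_lit 39999, nat_lit 39975, nat_lit 39979, nat_lit 20299] (nat_lit 1) [] false,
   Spec.mk (nat_lit 39989) (nat_lit 0) [nat_lit 26867, nat_lit 40475, nat_lit 39827, nat_lit 40043, nat_lit 39971, nat_lit 39991] (nat_lit 0) [] false,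
   Spec.mk (nat_lit 39991) (nat_lit 0) [nat_lit 26869, nat_lit 40477, nat_lit 39829, nat_lit 40045, nat_lit 39973, nat_lit 39997, nat_lit 39989, nat_lit 39993, nat_lit 20309] (nat_lit 1) [] false,
   Spec.mk (nat_lit 39993) (nat_lit 0) [nat_lit 26871, nat_lit 40479, nat_lit 39831, nat_lit 40047, nat_lit 39975, nat_lit 39999, nat_lit 39991, nat_lit 20311] (nat_lit 4) [] false,
   Spec.mk (nat_lit 39997) (nat_lit 0) [nat_lit 26875, nat_lit 40483, nat_lit 39835, nat_lit 40051, nat_lit 39979, nat_lit 39991, nat_lit 39999, nat_lit 20315] (nat_lit 0) [] false,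
   Spec.mk (nat_lit 39999) (nat_lit 0) [nat_lit 26877, nat_lit 40485, nat_lit 39837, nat_lit 40053, nat_lit 39981, nat_lit 39993, nat_lit 40005, nat_lit 39997, nat_lit 20317] (nat_lit 1) [] false,
   Spec.mk (nat_lit 40005) (nat_lit 0) [nat_lit 26883, nat_lit 40491, nat_lit 39843, nat_lit 40059, nat_lit 39999, nat_lit 20323] (nat_lit 0) [] false,
   Spec.mk (nat_lit 40019) (nat_lit 2) [nat_lit 26897, nat_lit 40505, nat_lit 39965, nat_lit 40025, nat_lit 40021] (nat_lit 0) [] false,
   Spec.mk (nat_lit 40021) (nat_lit 0) [nat_lit 26899, nat_lit 40507, nat_lit 39967, nat_lit 40027, nat_lit 40019, nat_lit 20339] (nat_lit 0) [] false,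
   Spec.mk (nat_lit 40025) (nat_lit 0) [nat_lit 26903, nat_lit 40511, nat_lit 39971, nat_lit 40043, nat_lit 40019, nat_lit 40027] (nat_lit 0) [] false,
   Spec.mk (nat_lit 40027) (nat_lit 0) [nat_lit 26905, nat_lit 40513, nat_lit 39973, nat_lit 40045, nat_lit 40021, nat_lit 40033, nat_lit 40025, nat_lit 40029, nat_lit 20345] (nat_lit 0) [] false,
   Spec.mk (nat_lit 40029) (nat_lit 0) [nat_lit 26907, nat_lit 40515, nat_lit 39975, nat_lit 40047, nat_lit 40035, nat_lit 40027, nat_lit 20347] (nat_lit 2) [] false,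
   Spec.mk (nat_lit 40033) (nat_lit 0) [nat_lit 26911, nat_lit 40519, nat_lit 39979, nat_lit 40051, nat_lit 40027, nat_lit 40035, nat_lit 20351] (nat_lit 2) [] false,
   Spec.mk (nat_lit 40035) (nat_lit 0) [nat_lit 26913, nat_lit 40521, nat_lit 39981, nat_lit 40053, nat_lit 40029, nat_lit 40033, nat_lit 20353] (nat_lit 2) [] false,
   Spec.mk (nat_lit 40043) (nat_lit 2) [nat_lit 26921, nat_lit 40529, nat_lit 39989, nat_lit 40025, nat_lit 40045] (nat_lit 0) [] false,
   Spec.mk (nat_lit 40045) (nat_lit 1) [nat_lit 26923, nat_lit 40531, nat_lit 39991, nat_lit 40027, nat_lit 40051, nat_lit 40043, nat_lit 40047, nat_lit 20363] (nat_lit 0) [] false,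
   Spec.mk (nat_lit 40047) (nat_lit 0) [nat_lit 26925, nat_lit 40533, nat_lit 39993, nat_lit 40029, nat_lit 40053, nat_lit 40045, nat_lit 20365] (nat_lit 2) [] false,
   Spec.mk (nat_lit 40051) (nat_lit 1) [nat_lit 26929, nat_lit 40537, nat_lit 39997, nat_lit 40033, nat_lit 40069, nat_lit 40045, nat_lit 40053, nat_lit 20369] (nat_lit 0) [] false,
   Spec.mk (nat_lit 40053) (nat_lit 0) [nat_lit 26931, nat_lit 40539, nat_lit 39999, nat_lit 40035, nat_lit 40071, nat_lit 40047, nat_lit 40059, nat_lit 40051, nat_lit 20371] (nat_lit 0) [] false,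
   Spec.mk (nat_lit 40059) (nat_lit 0) [nat_lit 26937, nat_lit 40545, nat_lit 40005, nat_lit 40077, nat_lit 40053, nat_lit 20377] (nat_lit 0) [] false,
   Spec.mk (nat_lit 40069) (nat_lit 2) [nat_lit 26947, nat_lit 40555, nat_lit 40051, nat_lit 40071, nat_lit 20387] (nat_lit 0) [] false,
   Spec.mk (nat_lit 40071) (nat_lit 0) [nat_lit 26949, nat_lit 40557, nat_lit 40053, nat_lit 40077, nat_lit 40069, nat_lit 20389] (nat_lit 0) [] false,
   Spec.mk (nat_lit 40077) (nat_lit 2) [nat_lit 26955, nat_lit 40563, nat_lit 40059, nat_lit 40071, nat_lit 20395] (nat_lit 0) [] false,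
   Spec.mk (nat_lit 40121) (nat_lit 4) [nat_lit 26999, nat_lit 41579, nat_lit 39635, nat_lit 40139] (nat_lit 0) [] false,
   Spec.mk (nat_lit 40139) (nat_lit 3) [nat_lit 27017, nat_lit 41597, nat_lit 39653, nat_lit 40193, nat_lit 40121, nat_lit 40157, nat_lit 40145] (nat_lit 0) [] false,
   Spec.mk (nat_lit 40145) (nat_lit 2) [nat_lit 27023, nat_lit 41603, nat_lit 39659, nat_lit 40199, nat_lit 40163, nat_lit 40139, nat_lit 40147] (nat_lit 0) [] false,
   Spec.mk (nat_lit 40147) (nat_lit 2) [nat_lit 27025, nat_lit 41605, nat_lit 39661, nat_lit 40201, nat_lit 40165, nat_lit 40145, nat_lit 20465] (nat_lit 0) [] false,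
   Spec.mk (nat_lit 40157) (nat_lit 0) [nat_lit 27035, nat_lit 41615, nat_lit 39671, nat_lit 40211, nat_lit 40139, nat_lit 40163] (nat_lit 0) [] false,
   Spec.mk (nat_lit 40163) (nat_lit 1) [nat_lit 27041, nat_lit 41621, nat_lit 39677, nat_lit 40217, nat_lit 40145, nat_lit 40157, nat_lit 40169, nat_lit 40165] (nat_lit 0) [] false,
   Spec.mk (nat_lit 40165) (nat_lit 0) [nat_lit 27043, nat_lit 41623, nat_lit 39679, nat_lit 40219, nat_lit 40147, nat_lit 40171, nat_lit 40163, nat_lit 20483] (nat_lit 0) [] false,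
   Spec.mk (nat_lit 40169) (nat_lit 0) [nat_lit 27047, nat_lit 41627, nat_lit 39683, nat_lit 40223, nat_lit 40163, nat_lit 40171] (nat_lit 0) [] false]

noncomputable def sp103 : List Spec :=
  [Spec.mk (nat_lit 40171) (nat_lit 1) [nat_lit 27049, nat_lit 41629, nat_lit 39685, nat_lit 40225, nat_lit 40165, nat_lit 40169, nat_lit 40173, nat_lit 20489] (nat_lit 0) [] false,
   Spec.mk (nat_lit 40173) (nat_lit 0) [nat_lit 27051, nat_lit 41631, nat_lit 39687, nat_lit 40227, nat_lit 40171, nat_lit 20491] (nat_lit 0) [] false,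
   Spec.mk (nat_lit 40193) (nat_lit 2) [nat_lit 27071, nat_lit 41651, nat_lit 39707, nat_lit 40355, nat_lit 40139, nat_lit 40211, nat_lit 40199] (nat_lit 0) [] false,
   Spec.mk (nat_lit 40199) (nat_lit 0) [nat_lit 27077, nat_lit 41657, nat_lit 39713, nat_lit 40361, nat_lit 40145, nat_lit 40217, nat_lit 40193, nat_lit 40201] (nat_lit 0) [] false,
   Spec.mk (nat_lit 40201) (nat_lit 0) [nat_lit 27079, nat_lit 41659, nat_lit 39715, nat_lit 40363, nat_lit 40147, nat_lit 40219, nat_lit 40199, nat_lit 20519] (nat_lit 0) [] false,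
   Spec.mk (nat_lit 40211) (nat_lit 1) [nat_lit 27089, nat_lit 41669, nat_lit 39725, nat_lit 40373, nat_lit 40157, nat_lit 40265, nat_lit 40193, nat_lit 40217] (nat_lit 0) [] false,
   Spec.mk (nat_lit 40217) (nat_lit 1) [nat_lit 27095, nat_lit 41675, nat_lit 39731, nat_lit 40379, nat_lit 40163, nat_lit 40271, nat_lit 40199, nat_lit 40235, nat_lit 40211, nat_lit 40223, nat_lit 40219] (nat_lit 0) [] false,
   Spec.mk (nat_lit 40219) (nat_lit 0) [nat_lit 27097, nat_lit 41677, nat_lit 39733, nat_lit 40381, nat_lit 40165, nat_lit 40273, nat_lit 40201, nat_lit 40237, nat_lit 40225, nat_lit 40217, nat_lit 20537] (nat_lit 0) [] false,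
   Spec.mk (nat_lit 40223) (nat_lit 0) [nat_lit 27101, nat_lit 41681, nat_lit 39737, nat_lit 40385, nat_lit 40169, nat_lit 40277, nat_lit 40241, nat_lit 40217, nat_lit 40225] (nat_lit 1) [] false,
   Spec.mk (nat_lit 40225) (nat_lit 0) [nat_lit 27103, nat_lit 41683, nat_lit 39739, nat_lit 40387, nat_lit 40171, nat_lit 40279, nat_lit 40243, nat_lit 40219, nat_lit 40223, nat_lit 40227, nat_lit 20543] (nat_lit 0) [] false,
   Spec.mk (nat_lit 40227) (nat_lit 0) [nat_lit 27105, nat_lit 41685, nat_lit 39741, nat_lit 40389, nat_lit 40173, nat_lit 40281, nat_lit 40245, nat_lit 40225, nat_lit 20545] (nat_lit 1) [] false,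
   Spec.mk (nat_lit 40235) (nat_lit 0) [nat_lit 27113, nat_lit 41693, nat_lit 39749, nat_lit 40397, nat_lit 40289, nat_lit 40217, nat_lit 40241, nat_lit 40237] (nat_lit 0) [] false,
   Spec.mk (nat_lit 40237) (nat_lit 0) [nat_lit 27115, nat_lit 41695, nat_lit 39751, nat_lit 40399, nat_lit 40291, nat_lit 40219, nat_lit 40243, nat_lit 40235, nat_lit 20555] (nat_lit 2) [] false,
   Spec.mk (nat_lit 40241) (nat_lit 0) [nat_lit 27119, nat_lit 41699, nat_lit 39755, nat_lit 40403, nat_lit 40295, nat_lit 40223, nat_lit 40235, nat_lit 40243] (nat_lit 0) [] false,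
   Spec.mk (nat_lit 40243) (nat_lit 0) [nat_lit 27121, nat_lit 41701, nat_lit 39757, nat_lit 40405, nat_lit 40297, nat_lit 40225, nat_lit 40237, nat_lit 40249, nat_lit 40241, nat_lit 40245, nat_lit 20561] (nat_lit 0) [] false,
   Spec.mk (nat_lit 40245) (nat_lit 0) [nat_lit 27123, nat_lit 41703, nat_lit 39759, nat_lit 40407, nat_lit 40299, nat_lit 40227, nat_lit 40251, nat_lit 40243, nat_lit 20563] (nat_lit 2) [] false,
   Spec.mk (nat_lit 40249) (nat_lit 0) [nat_lit 27127, nat_lit 41707, nat_lit 39763, nat_lit 40411, nat_lit 40303, nat_lit 40243, nat_lit 40251, nat_lit 20567] (nat_lit 0) [] false,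
   Spec.mk (nat_lit 40251) (nat_lit 0) [nat_lit 27129, nat_lit 41709, nat_lit 39765, nat_lit 40413, nat_lit 40305, nat_lit 40245, nat_lit 40249, nat_lit 20569] (nat_lit 0) [] false,
   Spec.mk (nat_lit 40265) (nat_lit 0) [nat_lit 27143, nat_lit 41723, nat_lit 39779, nat_lit 40427, nat_lit 40211, nat_lit 40271] (nat_lit 0) [] false,
   Spec.mk (nat_lit 40271) (nat_lit 0) [nat_lit 27149, nat_lit 41729, nat_lit 39785, nat_lit 40433, nat_lit 40217, nat_lit 40289, nat_lit 40265, nat_lit 40277, nat_lit 40273] (nat_lit 1) [] false,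
   Spec.mk (nat_lit 40273) (nat_lit 0) [nat_lit 27151, nat_lit 41731, nat_lit 39787, nat_lit 40435, nat_lit 40219, nat_lit 40291, nat_lit 40279, nat_lit 40271, nat_lit 20591] (nat_lit 2) [] false,
   Spec.mk (nat_lit 40277) (nat_lit 0) [nat_lit 27155, nat_lit 41735, nat_lit 39791, nat_lit 40439, nat_lit 40223, nat_lit 40295, nat_lit 40271, nat_lit 40279] (nat_lit 4) [] false,
   Spec.mk (nat_lit 40279) (nat_lit 0) [nat_lit 27157, nat_lit 41737, nat_lit 39793, nat_lit 40441, nat_lit 40225, nat_lit 40297, nat_lit 40273, nat_lit 40277, nat_lit 40281, nat_lit 20597] (nat_lit 3) [] false,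
   Spec.mk (nat_lit 40281) (nat_lit 0) [nat_lit 27159, nat_lit 41739, nat_lit 39795, nat_lit 40443, nat_lit 40227, nat_lit 40299, nat_lit 40279, nat_lit 20599] (nat_lit 4) [] false,
   Spec.mk (nat_lit 40289) (nat_lit 0) [nat_lit 27167, nat_lit 41747, nat_lit 39803, nat_lit 40451, nat_lit 40235, nat_lit 40271, nat_lit 40295, nat_lit 40291] (nat_lit 0) [] false,
   Spec.mk (nat_lit 40291) (nat_lit 0) [nat_lit 27169, nat_lit 41749, nat_lit 39805, nat_lit 40453, nat_lit 40237, nat_lit 40273, nat_lit 40297, nat_lit 40289, nat_lit 20609] (nat_lit 2) [] false,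
   Spec.mk (nat_lit 40295) (nat_lit 0) [nat_lit 27173, nat_lit 41753, nat_lit 39809, nat_lit 40457, nat_lit 40241, nat_lit 40277, nat_lit 40313, nat_lit 40289, nat_lit 40297] (nat_lit 1) [] false,
   Spec.mk (nat_lit 40297) (nat_lit 0) [nat_lit 27175, nat_lit 41755, nat_lit 39811, nat_lit 40459, nat_lit 40243, nat_lit 40279, nat_lit 40315, nat_lit 40291, nat_lit 40303, nat_lit 40295, nat_lit 40299, nat_lit 20615] (nat_lit 1) [] false,
   Spec.mk (nat_lit 40299) (nat_lit 0) [nat_lit 27177, nat_lit 41757, nat_lit 39813, nat_lit 40461, nat_lit 40245, nat_lit 40281, nat_lit 40317, nat_lit 40305, nat_lit 40297, nat_lit 20617] (nat_lit 3) [] false,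
   Spec.mk (nat_lit 40303) (nat_lit 0) [nat_lit 27181, nat_lit 41761, nat_lit 39817, nat_lit 40465, nat_lit 40249, nat_lit 40321, nat_lit 40297, nat_lit 40305, nat_lit 20621] (nat_lit 2) [] false,
   Spec.mk (nat_lit 40305) (nat_lit 0) [nat_lit 27183, nat_lit 41763, nat_lit 39819, nat_lit 40467, nat_lit 40251, nat_lit 40323, nat_lit 40299, nat_lit 40303, nat_lit 20623] (nat_lit 2) [] false,
   Spec.mk (nat_lit 40313) (nat_lit 0) [nat_lit 27191, nat_lit 41771, nat_lit 39827, nat_lit 40475, nat_lit 40295, nat_lit 40315] (nat_lit 0) [] false,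
   Spec.mk (nat_lit 40315) (nat_lit 0) [nat_lit 27193, nat_lit 41773, nat_lit 39829, nat_lit 40477, nat_lit 40297, nat_lit 40321, nat_lit 40313, nat_lit 40317, nat_lit 20633] (nat_lit 1) [] false,
   Spec.mk (nat_lit 40317) (nat_lit 0) [nat_lit 27195, nat_lit 41775, nat_lit 39831, nat_lit 40479, nat_lit 40299, nat_lit 40323, nat_lit 40315, nat_lit 20635] (nat_lit 4) [] false,
   Spec.mk (nat_lit 40321) (nat_lit 0) [nat_lit 27199, nat_lit 41779, nat_lit 39835, nat_lit 40483, nat_lit 40303, nat_lit 40315, nat_lit 40323, nat_lit 20639] (nat_lit 0) [] false,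
   Spec.mk (nat_lit 40323) (nat_lit 0) [nat_lit 27201, nat_lit 41781, nat_lit 39837, nat_lit 40485, nat_lit 40305, nat_lit 40317, nat_lit 40329, nat_lit 40321, nat_lit 20641] (nat_lit 1) [] false,
   Spec.mk (nat_lit 40329) (nat_lit 0) [nat_lit 27207, nat_lit 41787, nat_lit 39843, nat_lit 40491, nat_lit 40323, nat_lit 20647] (nat_lit 0) [] false,
   Spec.mk (nat_lit 40355) (nat_lit 3) [nat_lit 27233, nat_lit 41813, nat_lit 39869, nat_lit 40841, nat_lit 40193, nat_lit 40373, nat_lit 40361] (nat_lit 0) [] false,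
   Spec.mk (nat_lit 40361) (nat_lit 1) [nat_lit 27239, nat_lit 41819, nat_lit 39875, nat_lit 40847, nat_lit 40199, nat_lit 40379, nat_lit 40355, nat_lit 40363] (nat_lit 0) [] false,
   Spec.mk (nat_lit 40363) (nat_lit 1) [nat_lit 27241, nat_lit 41821, nat_lit 39877, nat_lit 40849, nat_lit 40201, nat_lit 40381, nat_lit 40361, nat_lit 20681] (nat_lit 0) [] false,
   Spec.mk (nat_lit 40373) (nat_lit 1) [nat_lit 27251, nat_lit 41831, nat_lit 39887, nat_lit 40859, nat_lit 40211, nat_lit 40427, nat_lit 40355, nat_lit 40379] (nat_lit 0) [] false,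
   Spec.mk (nat_lit 40379) (nat_lit 1) [nat_lit 27257, nat_lit 41837, nat_lit 39893, nat_lit 40865, nat_lit 40217, nat_lit 40433, nat_lit 40361, nat_lit 40397, nat_lit 40373, nat_lit 40385, nat_lit 40381] (nat_lit 0) [] false,
   Spec.mk (nat_lit 40381) (nat_lit 0) [nat_lit 27259, nat_lit 41839, nat_lit 39895, nat_lit 40867, nat_lit 40219, nat_lit 40435, nat_lit 40363, nat_lit 40399, nat_lit 40387, nat_lit 40379, nat_lit 20699] (nat_lit 0) [] false,
   Spec.mk (nat_lit 40385) (nat_lit 0) [nat_lit 27263, nat_lit 41843, nat_lit 39899, nat_lit 40871, nat_lit 40223, nat_lit 40439, nat_lit 40403, nat_lit 40379, nat_lit 40387] (nat_lit 1) [] false,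
   Spec.mk (nat_lit 40387) (nat_lit 0) [nat_lit 27265, nat_lit 41845, nat_lit 39901, nat_lit 40873, nat_lit 40225, nat_lit 40441, nat_lit 40405, nat_lit 40381, nat_lit 40385, nat_lit 40389, nat_lit 20705] (nat_lit 0) [] false,
   Spec.mk (nat_lit 40389) (nat_lit 0) [nat_lit 27267, nat_lit 41847, nat_lit 39903, nat_lit 40875, nat_lit 40227, nat_lit 40443, nat_lit 40407, nat_lit 40387, nat_lit 20707] (nat_lit 1) [] false,
   Spec.mk (nat_lit 40397) (nat_lit 0) [nat_lit 27275, nat_lit 41855, nat_lit 39911, nat_lit 40883, nat_lit 40235, nat_lit 40451, nat_lit 40379, nat_lit 40403, nat_lit 40399] (nat_lit 1) [] false,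
   Spec.mk (nat_lit 40399) (nat_lit 0) [nat_lit 27277, nat_lit 41857, nat_lit 39913, nat_lit 40885, nat_lit 40237, nat_lit 40453, nat_lit 40381, nat_lit 40405, nat_lit 40397, nat_lit 20717] (nat_lit 3) [] false,
   Spec.mk (nat_lit 40403) (nat_lit 0) [nat_lit 27281, nat_lit 41861, nat_lit 39917, nat_lit 40889, nat_lit 40241, nat_lit 40457, nat_lit 40385, nat_lit 40397, nat_lit 40405] (nat_lit 1) [] false,
   Spec.mk (nat_lit 40405) (nat_lit 0) [nat_lit 27283, nat_lit 41863, nat_lit 39919, nat_lit 40891, nat_lit 40243, nat_lit 40459, nat_lit 40387, nat_lit 40399, nat_lit 40411, nat_lit 40403, nat_lit 40407, nat_lit 20723] (nat_lit 1) [] false,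
   Spec.mk (nat_lit 40407) (nat_lit 0) [nat_lit 27285, nat_lit 41865, nat_lit 39921, nat_lit 40893, nat_lit 40245, nat_lit 40461, nat_lit 40389, nat_lit 40413, nat_lit 40405, nat_lit 20725] (nat_lit 3) [] false,
   Spec.mk (nat_lit 40411) (nat_lit 0) [nat_lit 27289, nat_lit 41869, nat_lit 39925, nat_lit 40897, nat_lit 40249, nat_lit 40465, nat_lit 40405, nat_lit 40413, nat_lit 20729] (nat_lit 1) [] false,
   Spec.mk (nat_lit 40413) (nat_lit 0) [nat_lit 27291, nat_lit 41871, nat_lit 39927, nat_lit 40899, nat_lit 40251, nat_lit 40467, nat_lit 40407, nat_lit 40411, nat_lit 20731] (nat_lit 1) [] false,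
   Spec.mk (nat_lit 40427) (nat_lit 2) [nat_lit 27305, nat_lit 41885, nat_lit 39941, nat_lit 40913, nat_lit 40265, nat_lit 40589, nat_lit 40373, nat_lit 40433] (nat_lit 0) [] false,
   Spec.mk (nat_lit 40433) (nat_lit 1) [nat_lit 27311, nat_lit 41891, nat_lit 39947, nat_lit 40919, nat_lit 40271, nat_lit 40595, nat_lit 40379, nat_lit 40451, nat_lit 40427, nat_lit 40439, nat_lit 40435] (nat_lit 0) [] false,
   Spec.mk (nat_lit 40435) (nat_lit 0) [nat_lit 27313, nat_lit 41893, nat_lit 39949, nat_lit 40921, nat_lit 40273, nat_lit 40597, nat_lit 40381, nat_lit 40453, nat_lit 40441, nat_lit 40433, nat_lit 20753] (nat_lit 0) [] false,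
   Spec.mk (nat_lit 40439) (nat_lit 0) [nat_lit 27317, nat_lit 41897, nat_lit 39953, nat_lit 40925, nat_lit 40277, nat_lit 40601, nat_lit 40385, nat_lit 40457, nat_lit 40433, nat_lit 40441] (nat_lit 2) [] false,
   Spec.mk (nat_lit 40441) (nat_lit 0) [nat_lit 27319, nat_lit 41899, nat_lit 39955, nat_lit 40927, nat_lit 40279, nat_lit 40603, nat_lit 40387, nat_lit 40459, nat_lit 40435, nat_lit 40439, nat_lit 40443, nat_lit 20759] (nat_lit 1) [] false,
   Spec.mk (nat_lit 40443) (nat_lit 0) [nat_lit 27321, nat_lit 41901, nat_lit 39957, nat_lit 40929, nat_lit 40281, nat_lit 40605, nat_lit 40389, nat_lit 40461, nat_lit 40441, nat_lit 20761] (nat_lit 2) [] false,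
   Spec.mk (nat_lit 40451) (nat_lit 1) [nat_lit 27329, nat_lit 41909, nat_lit 39965, nat_lit 40937, nat_lit 40289, nat_lit 40613, nat_lit 40397, nat_lit 40505, nat_lit 40433, nat_lit 40457, nat_lit 40453] (nat_lit 0) [] false]

noncomputable def sp104 : List Spec :=
  [Spec.mk (nat_lit 40453) (nat_lit 0) [nat_lit 27331, nat_lit 41911, nat_lit 39967, nat_lit 40939, nat_lit 40291, nat_lit 40615, nat_lit 40399, nat_lit 40507, nat_lit 40435, nat_lit 40459, nat_lit 40451, nat_lit 20771] (nat_lit 1) [] false,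
   Spec.mk (nat_lit 40457) (nat_lit 0) [nat_lit 27335, nat_lit 41915, nat_lit 39971, nat_lit 40943, nat_lit 40295, nat_lit 40619, nat_lit 40403, nat_lit 40511, nat_lit 40439, nat_lit 40475, nat_lit 40451, nat_lit 40459] (nat_lit 0) [] false,
   Spec.mk (nat_lit 40459) (nat_lit 0) [nat_lit 27337, nat_lit 41917, nat_lit 39973, nat_lit 40945, nat_lit 40297, nat_lit 40621, nat_lit 40405, nat_lit 40513, nat_lit 40441, nat_lit 40477, nat_lit 40453, nat_lit 40465, nat_lit 40457, nat_lit 40461, nat_lit 20777] (nat_lit 0) [] false,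
   Spec.mk (nat_lit 40461) (nat_lit 0) [nat_lit 27339, nat_lit 41919, nat_lit 39975, nat_lit 40947, nat_lit 40299, nat_lit 40623, nat_lit 40407, nat_lit 40515, nat_lit 40443, nat_lit 40479, nat_lit 40467, nat_lit 40459, nat_lit 20779] (nat_lit 2) [] false,
   Spec.mk (nat_lit 40465) (nat_lit 0) [nat_lit 27343, nat_lit 41923, nat_lit 39979, nat_lit 40951, nat_lit 40303, nat_lit 40627, nat_lit 40411, nat_lit 40519, nat_lit 40483, nat_lit 40459, nat_lit 40467, nat_lit 20783] (nat_lit 1) [] false,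
   Spec.mk (nat_lit 40467) (nat_lit 0) [nat_lit 27345, nat_lit 41925, nat_lit 39981, nat_lit 40953, nat_lit 40305, nat_lit 40629, nat_lit 40413, nat_lit 40521, nat_lit 40485, nat_lit 40461, nat_lit 40465, nat_lit 20785] (nat_lit 1) [] false,
   Spec.mk (nat_lit 40475) (nat_lit 0) [nat_lit 27353, nat_lit 41933, nat_lit 39989, nat_lit 40961, nat_lit 40313, nat_lit 40637, nat_lit 40529, nat_lit 40457, nat_lit 40477] (nat_lit 0) [] false,
   Spec.mk (nat_lit 40477) (nat_lit 0) [nat_lit 27355, nat_lit 41935, nat_lit 39991, nat_lit 40963, nat_lit 40315, nat_lit 40639, nat_lit 40531, nat_lit 40459, nat_lit 40483, nat_lit 40475, nat_lit 40479, nat_lit 20795] (nat_lit 1) [] false,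
   Spec.mk (nat_lit 40479) (nat_lit 0) [nat_lit 27357, nat_lit 41937, nat_lit 39993, nat_lit 40965, nat_lit 40317, nat_lit 40641, nat_lit 40533, nat_lit 40461, nat_lit 40485, nat_lit 40477, nat_lit 20797] (nat_lit 4) [] false,
   Spec.mk (nat_lit 40483) (nat_lit 0) [nat_lit 27361, nat_lit 41941, nat_lit 39997, nat_lit 40969, nat_lit 40321, nat_lit 40645, nat_lit 40537, nat_lit 40465, nat_lit 40477, nat_lit 40485, nat_lit 20801] (nat_lit 0) [] false,
   Spec.mk (nat_lit 40485) (nat_lit 0) [nat_lit 27363, nat_lit 41943, nat_lit 39999, nat_lit 40971, nat_lit 40323, nat_lit 40647, nat_lit 40539, nat_lit 40467, nat_lit 40479, nat_lit 40491, nat_lit 40483, nat_lit 20803] (nat_lit 1) [] false,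
   Spec.mk (nat_lit 40491) (nat_lit 0) [nat_lit 27369, nat_lit 41949, nat_lit 40005, nat_lit 40977, nat_lit 40329, nat_lit 40653, nat_lit 40545, nat_lit 40485, nat_lit 20809] (nat_lit 0) [] false,
   Spec.mk (nat_lit 40505) (nat_lit 1) [nat_lit 27383, nat_lit 41963, nat_lit 40019, nat_lit 40991, nat_lit 40667, nat_lit 40451, nat_lit 40511, nat_lit 40507] (nat_lit 0) [] false,
   Spec.mk (nat_lit 40507) (nat_lit 0) [nat_lit 27385, nat_lit 41965, nat_lit 40021, nat_lit 40993, nat_lit 40669, nat_lit 40453, nat_lit 40513, nat_lit 40505, nat_lit 20825] (nat_lit 1) [] false,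
   Spec.mk (nat_lit 40511) (nat_lit 0) [nat_lit 27389, nat_lit 41969, nat_lit 40025, nat_lit 40997, nat_lit 40673, nat_lit 40457, nat_lit 40529, nat_lit 40505, nat_lit 40513] (nat_lit 1) [] false,
   Spec.mk (nat_lit 40513) (nat_lit 0) [nat_lit 27391, nat_lit 41971, nat_lit 40027, nat_lit 40999, nat_lit 40675, nat_lit 40459, nat_lit 40531, nat_lit 40507, nat_lit 40519, nat_lit 40511, nat_lit 40515, nat_lit 20831] (nat_lit 1) [] false,
   Spec.mk (nat_lit 40515) (nat_lit 0) [nat_lit 27393, nat_lit 41973, nat_lit 40029, nat_lit 41001, nat_lit 40677, nat_lit 40461, nat_lit 40533, nat_lit 40521, nat_lit 40513, nat_lit 20833] (nat_lit 3) [] false,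
   Spec.mk (nat_lit 40519) (nat_lit 0) [nat_lit 27397, nat_lit 41977, nat_lit 40033, nat_lit 41005, nat_lit 40681, nat_lit 40465, nat_lit 40537, nat_lit 40513, nat_lit 40521, nat_lit 20837] (nat_lit 3) [] false,
   Spec.mk (nat_lit 40521) (nat_lit 0) [nat_lit 27399, nat_lit 41979, nat_lit 40035, nat_lit 41007, nat_lit 40683, nat_lit 40467, nat_lit 40539, nat_lit 40515, nat_lit 40519, nat_lit 20839] (nat_lit 3) [] false,
   Spec.mk (nat_lit 40529) (nat_lit 1) [nat_lit 27407, nat_lit 41987, nat_lit 40043, nat_lit 41015, nat_lit 40691, nat_lit 40475, nat_lit 40511, nat_lit 40531] (nat_lit 0) [] false,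
   Spec.mk (nat_lit 40531) (nat_lit 0) [nat_lit 27409, nat_lit 41989, nat_lit 40045, nat_lit 41017, nat_lit 40693, nat_lit 40477, nat_lit 40513, nat_lit 40537, nat_lit 40529, nat_lit 40533, nat_lit 20849] (nat_lit 0) [] false,
   Spec.mk (nat_lit 40533) (nat_lit 0) [nat_lit 27411, nat_lit 41991, nat_lit 40047, nat_lit 41019, nat_lit 40695, nat_lit 40479, nat_lit 40515, nat_lit 40539, nat_lit 40531, nat_lit 20851] (nat_lit 3) [] false,
   Spec.mk (nat_lit 40537) (nat_lit 0) [nat_lit 27415, nat_lit 41995, nat_lit 40051, nat_lit 41023, nat_lit 40699, nat_lit 40483, nat_lit 40519, nat_lit 40555, nat_lit 40531, nat_lit 40539, nat_lit 20855] (nat_lit 0) [] false,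
   Spec.mk (nat_lit 40539) (nat_lit 0) [nat_lit 27417, nat_lit 41997, nat_lit 40053, nat_lit 41025, nat_lit 40701, nat_lit 40485, nat_lit 40521, nat_lit 40557, nat_lit 40533, nat_lit 40545, nat_lit 40537, nat_lit 20857] (nat_lit 1) [] false,
   Spec.mk (nat_lit 40545) (nat_lit 0) [nat_lit 27423, nat_lit 42003, nat_lit 40059, nat_lit 41031, nat_lit 40707, nat_lit 40491, nat_lit 40563, nat_lit 40539, nat_lit 20863] (nat_lit 1) [] false,
   Spec.mk (nat_lit 40555) (nat_lit 1) [nat_lit 27433, nat_lit 42013, nat_lit 40069, nat_lit 41041, nat_lit 40717, nat_lit 40537, nat_lit 40557, nat_lit 20873] (nat_lit 0) [] false,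
   Spec.mk (nat_lit 40557) (nat_lit 0) [nat_lit 27435, nat_lit 42015, nat_lit 40071, nat_lit 41043, nat_lit 40719, nat_lit 40539, nat_lit 40563, nat_lit 40555, nat_lit 20875] (nat_lit 1) [] false,
   Spec.mk (nat_lit 40563) (nat_lit 1) [nat_lit 27441, nat_lit 42021, nat_lit 40077, nat_lit 41049, nat_lit 40725, nat_lit 40545, nat_lit 40557, nat_lit 20881] (nat_lit 0) [] false,
   Spec.mk (nat_lit 40589) (nat_lit 2) [nat_lit 27467, nat_lit 42047, nat_lit 41075, nat_lit 40427, nat_lit 40595] (nat_lit 0) [] false,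
   Spec.mk (nat_lit 40595) (nat_lit 1) [nat_lit 27473, nat_lit 42053, nat_lit 41081, nat_lit 40433, nat_lit 40613, nat_lit 40589, nat_lit 40601, nat_lit 40597] (nat_lit 0) [] false,
   Spec.mk (nat_lit 40597) (nat_lit 0) [nat_lit 27475, nat_lit 42055, nat_lit 41083, nat_lit 40435, nat_lit 40615, nat_lit 40603, nat_lit 40595, nat_lit 20915] (nat_lit 0) [] false,
   Spec.mk (nat_lit 40601) (nat_lit 0) [nat_lit 27479, nat_lit 42059, nat_lit 41087, nat_lit 40439, nat_lit 40619, nat_lit 40595, nat_lit 40603] (nat_lit 2) [] false,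
   Spec.mk (nat_lit 40603) (nat_lit 0) [nat_lit 27481, nat_lit 42061, nat_lit 41089, nat_lit 40441, nat_lit 40621, nat_lit 40597, nat_lit 40601, nat_lit 40605, nat_lit 20921] (nat_lit 1) [] false,
   Spec.mk (nat_lit 40605) (nat_lit 0) [nat_lit 27483, nat_lit 42063, nat_lit 41091, nat_lit 40443, nat_lit 40623, nat_lit 40603, nat_lit 20923] (nat_lit 2) [] false,
   Spec.mk (nat_lit 40613) (nat_lit 0) [nat_lit 27491, nat_lit 42071, nat_lit 41099, nat_lit 40451, nat_lit 40667, nat_lit 40595, nat_lit 40619, nat_lit 40615] (nat_lit 0) [] false,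
   Spec.mk (nat_lit 40615) (nat_lit 0) [nat_lit 27493, nat_lit 42073, nat_lit 41101, nat_lit 40453, nat_lit 40669, nat_lit 40597, nat_lit 40621, nat_lit 40613, nat_lit 20933] (nat_lit 2) [] false,
   Spec.mk (nat_lit 40619) (nat_lit 0) [nat_lit 27497, nat_lit 42077, nat_lit 41105, nat_lit 40457, nat_lit 40673, nat_lit 40601, nat_lit 40637, nat_lit 40613, nat_lit 40621] (nat_lit 1) [] false,
   Spec.mk (nat_lit 40621) (nat_lit 0) [nat_lit 27499, nat_lit 42079, nat_lit 41107, nat_lit 40459, nat_lit 40675, nat_lit 40603, nat_lit 40639, nat_lit 40615, nat_lit 40627, nat_lit 40619, nat_lit 40623, nat_lit 20939] (nat_lit 1) [] false,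
   Spec.mk (nat_lit 40623) (nat_lit 0) [nat_lit 27501, nat_lit 42081, nat_lit 41109, nat_lit 40461, nat_lit 40677, nat_lit 40605, nat_lit 40641, nat_lit 40629, nat_lit 40621, nat_lit 20941] (nat_lit 3) [] false,
   Spec.mk (nat_lit 40627) (nat_lit 0) [nat_lit 27505, nat_lit 42085, nat_lit 41113, nat_lit 40465, nat_lit 40681, nat_lit 40645, nat_lit 40621, nat_lit 40629, nat_lit 20945] (nat_lit 2) [] false,
   Spec.mk (nat_lit 40629) (nat_lit 0) [nat_lit 27507, nat_lit 42087, nat_lit 41115, nat_lit 40467, nat_lit 40683, nat_lit 40647, nat_lit 40623, nat_lit 40627, nat_lit 20947] (nat_lit 2) [] false,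
   Spec.mk (nat_lit 40637) (nat_lit 0) [nat_lit 27515, nat_lit 42095, nat_lit 41123, nat_lit 40475, nat_lit 40691, nat_lit 40619, nat_lit 40639] (nat_lit 2) [] false,
   Spec.mk (nat_lit 40639) (nat_lit 0) [nat_lit 27517, nat_lit 42097, nat_lit 41125, nat_lit 40477, nat_lit 40693, nat_lit 40621, nat_lit 40645, nat_lit 40637, nat_lit 40641, nat_lit 20957] (nat_lit 3) [] false,
   Spec.mk (nat_lit 40641) (nat_lit 0) [nat_lit 27519, nat_lit 42099, nat_lit 41127, nat_lit 40479, nat_lit 40695, nat_lit 40623, nat_lit 40647, nat_lit 40639, nat_lit 20959] (nat_lit 6) [] false,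
   Spec.mk (nat_lit 40645) (nat_lit 0) [nat_lit 27523, nat_lit 42103, nat_lit 41131, nat_lit 40483, nat_lit 40699, nat_lit 40627, nat_lit 40639, nat_lit 40647, nat_lit 20963] (nat_lit 2) [] false,
   Spec.mk (nat_lit 40647) (nat_lit 0) [nat_lit 27525, nat_lit 42105, nat_lit 41133, nat_lit 40485, nat_lit 40701, nat_lit 40629, nat_lit 40641, nat_lit 40653, nat_lit 40645, nat_lit 20965] (nat_lit 3) [] false,
   Spec.mk (nat_lit 40653) (nat_lit 0) [nat_lit 27531, nat_lit 42111, nat_lit 41139, nat_lit 40491, nat_lit 40707, nat_lit 40647, nat_lit 20971] (nat_lit 2) [] false,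
   Spec.mk (nat_lit 40667) (nat_lit 2) [nat_lit 27545, nat_lit 42125, nat_lit 41153, nat_lit 40505, nat_lit 40613, nat_lit 40673, nat_lit 40669] (nat_lit 0) [] false,
   Spec.mk (nat_lit 40669) (nat_lit 0) [nat_lit 27547, nat_lit 42127, nat_lit 41155, nat_lit 40507, nat_lit 40615, nat_lit 40675, nat_lit 40667, nat_lit 20987] (nat_lit 0) [] false,
   Spec.mk (nat_lit 40673) (nat_lit 0) [nat_lit 27551, nat_lit 42131, nat_lit 41159, nat_lit 40511, nat_lit 40619, nat_lit 40691, nat_lit 40667, nat_lit 40675] (nat_lit 0) [] false,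
   Spec.mk (nat_lit 40675) (nat_lit 0) [nat_lit 27553, nat_lit 42133, nat_lit 41161, nat_lit 40513, nat_lit 40621, nat_lit 40693, nat_lit 40669, nat_lit 40681, nat_lit 40673, nat_lit 40677, nat_lit 20993] (nat_lit 0) [] false,
   Spec.mk (nat_lit 40677) (nat_lit 0) [nat_lit 27555, nat_lit 42135, nat_lit 41163, nat_lit 40515, nat_lit 40623, nat_lit 40695, nat_lit 40683, nat_lit 40675, nat_lit 20995] (nat_lit 2) [] false,
   Spec.mk (nat_lit 40681) (nat_lit 0) [nat_lit 27559, nat_lit 42139, nat_lit 41167, nat_lit 40519, nat_lit 40627, nat_lit 40699, nat_lit 40675, nat_lit 40683, nat_lit 20999] (nat_lit 2) [] false,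
   Spec.mk (nat_lit 40683) (nat_lit 0) [nat_lit 27561, nat_lit 42141, nat_lit 41169, nat_lit 40521, nat_lit 40629, nat_lit 40701, nat_lit 40677, nat_lit 40681, nat_lit 21001] (nat_lit 2) [] false,
   Spec.mk (nat_lit 40691) (nat_lit 1) [nat_lit 27569, nat_lit 42149, nat_lit 41177, nat_lit 40529, nat_lit 40637, nat_lit 40745, nat_lit 40673, nat_lit 40693] (nat_lit 0) [] false,
   Spec.mk (nat_lit 40693) (nat_lit 0) [nat_lit 27571, nat_lit 42151, nat_lit 41179, nat_lit 40531, nat_lit 40639, nat_lit 40747, nat_lit 40675, nat_lit 40699, nat_lit 40691, nat_lit 40695, nat_lit 21011] (nat_lit 0) [] false,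
   Spec.mk (nat_lit 40695) (nat_lit 0) [nat_lit 27573, nat_lit 42153, nat_lit 41181, nat_lit 40533, nat_lit 40641, nat_lit 40749, nat_lit 40677, nat_lit 40701, nat_lit 40693, nat_lit 21013] (nat_lit 3) [] false,
   Spec.mk (nat_lit 40699) (nat_lit 0) [nat_lit 27577, nat_lit 42157, nat_lit 41185, nat_lit 40537, nat_lit 40645, nat_lit 40753, nat_lit 40681, nat_lit 40717, nat_lit 40693, nat_lit 40701, nat_lit 21017] (nat_lit 0) [] false,
   Spec.mk (nat_lit 40701) (nat_lit 0) [nat_lit 27579, nat_lit 42159, nat_lit 41187, nat_lit 40539, nat_lit 40647, nat_lit 40755, nat_lit 40683, nat_lit 40719, nat_lit 40695, nat_lit 40707, nat_lit 40699, nat_lit 21019] (nat_lit 1) [] false,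
   Spec.mk (nat_lit 40707) (nat_lit 0) [nat_lit 27585, nat_lit 42165, nat_lit 41193, nat_lit 40545, nat_lit 40653, nat_lit 40761, nat_lit 40725, nat_lit 40701, nat_lit 21025] (nat_lit 1) [] false]

noncomputable def sp105 : List Spec :=
  [Spec.mk (nat_lit 40717) (nat_lit 0) [nat_lit 27595, nat_lit 42175, nat_lit 41203, nat_lit 40555, nat_lit 40771, nat_lit 40699, nat_lit 40719, nat_lit 21035] (nat_lit 0) [] false,
   Spec.mk (nat_lit 40719) (nat_lit 0) [nat_lit 27597, nat_lit 42177, nat_lit 41205, nat_lit 40557, nat_lit 40773, nat_lit 40701, nat_lit 40725, nat_lit 40717, nat_lit 21037] (nat_lit 2) [] false,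
   Spec.mk (nat_lit 40725) (nat_lit 0) [nat_lit 27603, nat_lit 42183, nat_lit 41211, nat_lit 40563, nat_lit 40779, nat_lit 40707, nat_lit 40719, nat_lit 21043] (nat_lit 0) [] false,
   Spec.mk (nat_lit 40745) (nat_lit 2) [nat_lit 27623, nat_lit 42203, nat_lit 41231, nat_lit 40691, nat_lit 40747] (nat_lit 0) [] false,
   Spec.mk (nat_lit 40747) (nat_lit 1) [nat_lit 27625, nat_lit 42205, nat_lit 41233, nat_lit 40693, nat_lit 40753, nat_lit 40745, nat_lit 40749, nat_lit 21065] (nat_lit 0) [] false,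
   Spec.mk (nat_lit 40749) (nat_lit 0) [nat_lit 27627, nat_lit 42207, nat_lit 41235, nat_lit 40695, nat_lit 40755, nat_lit 40747, nat_lit 21067] (nat_lit 2) [] false,
   Spec.mk (nat_lit 40753) (nat_lit 0) [nat_lit 27631, nat_lit 42211, nat_lit 41239, nat_lit 40699, nat_lit 40771, nat_lit 40747, nat_lit 40755, nat_lit 21071] (nat_lit 0) [] false,
   Spec.mk (nat_lit 40755) (nat_lit 0) [nat_lit 27633, nat_lit 42213, nat_lit 41241, nat_lit 40701, nat_lit 40773, nat_lit 40749, nat_lit 40761, nat_lit 40753, nat_lit 21073] (nat_lit 1) [] false,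
   Spec.mk (nat_lit 40761) (nat_lit 0) [nat_lit 27639, nat_lit 42219, nat_lit 41247, nat_lit 40707, nat_lit 40779, nat_lit 40755, nat_lit 21079] (nat_lit 2) [] false,
   Spec.mk (nat_lit 40771) (nat_lit 2) [nat_lit 27649, nat_lit 42229, nat_lit 41257, nat_lit 40717, nat_lit 40753, nat_lit 40773, nat_lit 21089] (nat_lit 0) [] false,
   Spec.mk (nat_lit 40773) (nat_lit 0) [nat_lit 27651, nat_lit 42231, nat_lit 41259, nat_lit 40719, nat_lit 40755, nat_lit 40779, nat_lit 40771, nat_lit 21091] (nat_lit 0) [] false,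
   Spec.mk (nat_lit 40779) (nat_lit 1) [nat_lit 27657, nat_lit 42237, nat_lit 41265, nat_lit 40725, nat_lit 40761, nat_lit 40797, nat_lit 40773, nat_lit 21097] (nat_lit 0) [] false,
   Spec.mk (nat_lit 40797) (nat_lit 2) [nat_lit 27675, nat_lit 42255, nat_lit 41283, nat_lit 40779, nat_lit 21115] (nat_lit 0) [] false,
   Spec.mk (nat_lit 40841) (nat_lit 2) [nat_lit 27719, nat_lit 42299, nat_lit 40355, nat_lit 40859, nat_lit 40847] (nat_lit 0) [] false,
   Spec.mk (nat_lit 40847) (nat_lit 0) [nat_lit 27725, nat_lit 42305, nat_lit 40361, nat_lit 40865, nat_lit 40841, nat_lit 40849] (nat_lit 0) [] false,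
   Spec.mk (nat_lit 40849) (nat_lit 0) [nat_lit 27727, nat_lit 42307, nat_lit 40363, nat_lit 40867, nat_lit 40847, nat_lit 21167] (nat_lit 0) [] false,
   Spec.mk (nat_lit 40859) (nat_lit 0) [nat_lit 27737, nat_lit 42317, nat_lit 40373, nat_lit 40913, nat_lit 40841, nat_lit 40865] (nat_lit 0) [] false,
   Spec.mk (nat_lit 40865) (nat_lit 0) [nat_lit 27743, nat_lit 42323, nat_lit 40379, nat_lit 40919, nat_lit 40847, nat_lit 40883, nat_lit 40859, nat_lit 40871, nat_lit 40867] (nat_lit 0) [] false,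
   Spec.mk (nat_lit 40867) (nat_lit 0) [nat_lit 27745, nat_lit 42325, nat_lit 40381, nat_lit 40921, nat_lit 40849, nat_lit 40885, nat_lit 40873, nat_lit 40865, nat_lit 21185] (nat_lit 1) [] false,
   Spec.mk (nat_lit 40871) (nat_lit 0) [nat_lit 27749, nat_lit 42329, nat_lit 40385, nat_lit 40925, nat_lit 40889, nat_lit 40865, nat_lit 40873] (nat_lit 2) [] false,
   Spec.mk (nat_lit 40873) (nat_lit 0) [nat_lit 27751, nat_lit 42331, nat_lit 40387, nat_lit 40927, nat_lit 40891, nat_lit 40867, nat_lit 40871, nat_lit 40875, nat_lit 21191] (nat_lit 1) [] false,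
   Spec.mk (nat_lit 40875) (nat_lit 0) [nat_lit 27753, nat_lit 42333, nat_lit 40389, nat_lit 40929, nat_lit 40893, nat_lit 40873, nat_lit 21193] (nat_lit 2) [] false,
   Spec.mk (nat_lit 40883) (nat_lit 0) [nat_lit 27761, nat_lit 42341, nat_lit 40397, nat_lit 40937, nat_lit 40865, nat_lit 40889, nat_lit 40885] (nat_lit 2) [] false,
   Spec.mk (nat_lit 40885) (nat_lit 0) [nat_lit 27763, nat_lit 42343, nat_lit 40399, nat_lit 40939, nat_lit 40867, nat_lit 40891, nat_lit 40883, nat_lit 21203] (nat_lit 4) [] false,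
   Spec.mk (nat_lit 40889) (nat_lit 0) [nat_lit 27767, nat_lit 42347, nat_lit 40403, nat_lit 40943, nat_lit 40871, nat_lit 40883, nat_lit 40891] (nat_lit 2) [] false,
   Spec.mk (nat_lit 40891) (nat_lit 0) [nat_lit 27769, nat_lit 42349, nat_lit 40405, nat_lit 40945, nat_lit 40873, nat_lit 40885, nat_lit 40897, nat_lit 40889, nat_lit 40893, nat_lit 21209] (nat_lit 2) [] false,
   Spec.mk (nat_lit 40893) (nat_lit 0) [nat_lit 27771, nat_lit 42351, nat_lit 40407, nat_lit 40947, nat_lit 40875, nat_lit 40899, nat_lit 40891, nat_lit 21211] (nat_lit 4) [] false,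
   Spec.mk (nat_lit 40897) (nat_lit 0) [nat_lit 27775, nat_lit 42355, nat_lit 40411, nat_lit 40951, nat_lit 40891, nat_lit 40899, nat_lit 21215] (nat_lit 2) [] false,
   Spec.mk (nat_lit 40899) (nat_lit 0) [nat_lit 27777, nat_lit 42357, nat_lit 40413, nat_lit 40953, nat_lit 40893, nat_lit 40897, nat_lit 21217] (nat_lit 2) [] false,
   Spec.mk (nat_lit 40913) (nat_lit 0) [nat_lit 27791, nat_lit 42371, nat_lit 40427, nat_lit 41075, nat_lit 40859, nat_lit 40919] (nat_lit 0) [] false,
   Spec.mk (nat_lit 40919) (nat_lit 0) [nat_lit 27797, nat_lit 42377, nat_lit 40433, nat_lit 41081, nat_lit 40865, nat_lit 40937, nat_lit 40913, nat_lit 40925, nat_lit 40921] (nat_lit 1) [] false,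
   Spec.mk (nat_lit 40921) (nat_lit 0) [nat_lit 27799, nat_lit 42379, nat_lit 40435, nat_lit 41083, nat_lit 40867, nat_lit 40939, nat_lit 40927, nat_lit 40919, nat_lit 21239] (nat_lit 2) [] false,
   Spec.mk (nat_lit 40925) (nat_lit 0) [nat_lit 27803, nat_lit 42383, nat_lit 40439, nat_lit 41087, nat_lit 40871, nat_lit 40943, nat_lit 40919, nat_lit 40927] (nat_lit 4) [] false,
   Spec.mk (nat_lit 40927) (nat_lit 0) [nat_lit 27805, nat_lit 42385, nat_lit 40441, nat_lit 41089, nat_lit 40873, nat_lit 40945, nat_lit 40921, nat_lit 40925, nat_lit 40929, nat_lit 21245] (nat_lit 3) [] false,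
   Spec.mk (nat_lit 40929) (nat_lit 0) [nat_lit 27807, nat_lit 42387, nat_lit 40443, nat_lit 41091, nat_lit 40875, nat_lit 40947, nat_lit 40927, nat_lit 21247] (nat_lit 4) [] false,
   Spec.mk (nat_lit 40937) (nat_lit 0) [nat_lit 27815, nat_lit 42395, nat_lit 40451, nat_lit 41099, nat_lit 40883, nat_lit 40991, nat_lit 40919, nat_lit 40943, nat_lit 40939] (nat_lit 1) [] false,
   Spec.mk (nat_lit 40939) (nat_lit 0) [nat_lit 27817, nat_lit 42397, nat_lit 40453, nat_lit 41101, nat_lit 40885, nat_lit 40993, nat_lit 40921, nat_lit 40945, nat_lit 40937, nat_lit 21257] (nat_lit 3) [] false,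
   Spec.mk (nat_lit 40943) (nat_lit 0) [nat_lit 27821, nat_lit 42401, nat_lit 40457, nat_lit 41105, nat_lit 40889, nat_lit 40997, nat_lit 40925, nat_lit 40961, nat_lit 40937, nat_lit 40945] (nat_lit 2) [] false,
   Spec.mk (nat_lit 40945) (nat_lit 0) [nat_lit 27823, nat_lit 42403, nat_lit 40459, nat_lit 41107, nat_lit 40891, nat_lit 40999, nat_lit 40927, nat_lit 40963, nat_lit 40939, nat_lit 40951, nat_lit 40943, nat_lit 40947, nat_lit 21263] (nat_lit 2) [] false,
   Spec.mk (nat_lit 40947) (nat_lit 0) [nat_lit 27825, nat_lit 42405, nat_lit 40461, nat_lit 41109, nat_lit 40893, nat_lit 41001, nat_lit 40929, nat_lit 40965, nat_lit 40953, nat_lit 40945, nat_lit 21265] (nat_lit 4) [] false,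
   Spec.mk (nat_lit 40951) (nat_lit 0) [nat_lit 27829, nat_lit 42409, nat_lit 40465, nat_lit 41113, nat_lit 40897, nat_lit 41005, nat_lit 40969, nat_lit 40945, nat_lit 40953, nat_lit 21269] (nat_lit 3) [] false,
   Spec.mk (nat_lit 40953) (nat_lit 0) [nat_lit 27831, nat_lit 42411, nat_lit 40467, nat_lit 41115, nat_lit 40899, nat_lit 41007, nat_lit 40971, nat_lit 40947, nat_lit 40951, nat_lit 21271] (nat_lit 3) [] false,
   Spec.mk (nat_lit 40961) (nat_lit 0) [nat_lit 27839, nat_lit 42419, nat_lit 40475, nat_lit 41123, nat_lit 41015, nat_lit 40943, nat_lit 40963] (nat_lit 2) [] false,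
   Spec.mk (nat_lit 40963) (nat_lit 0) [nat_lit 27841, nat_lit 42421, nat_lit 40477, nat_lit 41125, nat_lit 41017, nat_lit 40945, nat_lit 40969, nat_lit 40961, nat_lit 40965, nat_lit 21281] (nat_lit 3) [] false,
   Spec.mk (nat_lit 40965) (nat_lit 0) [nat_lit 27843, nat_lit 42423, nat_lit 40479, nat_lit 41127, nat_lit 41019, nat_lit 40947, nat_lit 40971, nat_lit 40963, nat_lit 21283] (nat_lit 6) [] false,
   Spec.mk (nat_lit 40969) (nat_lit 0) [nat_lit 27847, nat_lit 42427, nat_lit 40483, nat_lit 41131, nat_lit 41023, nat_lit 40951, nat_lit 40963, nat_lit 40971, nat_lit 21287] (nat_lit 2) [] false,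
   Spec.mk (nat_lit 40971) (nat_lit 0) [nat_lit 27849, nat_lit 42429, nat_lit 40485, nat_lit 41133, nat_lit 41025, nat_lit 40953, nat_lit 40965, nat_lit 40977, nat_lit 40969, nat_lit 21289] (nat_lit 3) [] false,
   Spec.mk (nat_lit 40977) (nat_lit 0) [nat_lit 27855, nat_lit 42435, nat_lit 40491, nat_lit 41139, nat_lit 41031, nat_lit 40971, nat_lit 21295] (nat_lit 2) [] false,
   Spec.mk (nat_lit 40991) (nat_lit 0) [nat_lit 27869, nat_lit 42449, nat_lit 40505, nat_lit 41153, nat_lit 40937, nat_lit 40997, nat_lit 40993] (nat_lit 2) [] false,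
   Spec.mk (nat_lit 40993) (nat_lit 0) [nat_lit 27871, nat_lit 42451, nat_lit 40507, nat_lit 41155, nat_lit 40939, nat_lit 40999, nat_lit 40991, nat_lit 21311] (nat_lit 4) [] false,
   Spec.mk (nat_lit 40997) (nat_lit 0) [nat_lit 27875, nat_lit 42455, nat_lit 40511, nat_lit 41159, nat_lit 40943, nat_lit 41015, nat_lit 40991, nat_lit 40999] (nat_lit 4) [] false,
   Spec.mk (nat_lit 40999) (nat_lit 0) [nat_lit 27877, nat_lit 42457, nat_lit 40513, nat_lit 41161, nat_lit 40945, nat_lit 41017, nat_lit 40993, nat_lit 41005, nat_lit 40997, nat_lit 41001, nat_lit 21317] (nat_lit 4) [] false,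
   Spec.mk (nat_lit 41001) (nat_lit 0) [nat_lit 27879, nat_lit 42459, nat_lit 40515, nat_lit 41163, nat_lit 40947, nat_lit 41019, nat_lit 41007, nat_lit 40999, nat_lit 21319] (nat_lit 6) [] false,
   Spec.mk (nat_lit 41005) (nat_lit 0) [nat_lit 27883, nat_lit 42463, nat_lit 40519, nat_lit 41167, nat_lit 40951, nat_lit 41023, nat_lit 40999, nat_lit 41007, nat_lit 21323] (nat_lit 6) [] false,
   Spec.mk (nat_lit 41007) (nat_lit 0) [nat_lit 27885, nat_lit 42465, nat_lit 40521, nat_lit 41169, nat_lit 40953, nat_lit 41025, nat_lit 41001, nat_lit 41005, nat_lit 21325] (nat_lit 6) [] false,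
   Spec.mk (nat_lit 41015) (nat_lit 0) [nat_lit 27893, nat_lit 42473, nat_lit 40529, nat_lit 41177, nat_lit 40961, nat_lit 40997, nat_lit 41017] (nat_lit 2) [] false,
   Spec.mk (nat_lit 41017) (nat_lit 0) [nat_lit 27895, nat_lit 42475, nat_lit 40531, nat_lit 41179, nat_lit 40963, nat_lit 40999, nat_lit 41023, nat_lit 41015, nat_lit 41019, nat_lit 21335] (nat_lit 3) [] false,
   Spec.mk (nat_lit 41019) (nat_lit 0) [nat_lit 27897, nat_lit 42477, nat_lit 40533, nat_lit 41181, nat_lit 40965, nat_lit 41001, nat_lit 41025, nat_lit 41017, nat_lit 21337] (nat_lit 6) [] false,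
   Spec.mk (nat_lit 41023) (nat_lit 0) [nat_lit 27901, nat_lit 42481, nat_lit 40537, nat_lit 41185, nat_lit 40969, nat_lit 41005, nat_lit 41041, nat_lit 41017, nat_lit 41025, nat_lit 21341] (nat_lit 3) [] false,
   Spec.mk (nat_lit 41025) (nat_lit 0) [nat_lit 27903, nat_lit 42483, nat_lit 40539, nat_lit 41187, nat_lit 40971, nat_lit 41007, nat_lit 41043, nat_lit 41019, nat_lit 41031, nat_lit 41023, nat_lit 21343] (nat_lit 4) [] false]

noncomputable def sp106 : List Spec :=
  [Spec.mk (nat_lit 41031) (nat_lit 0) [nat_lit 27909, nat_lit 42489, nat_lit 40545, nat_lit 41193, nat_lit 40977, nat_lit 41049, nat_lit 41025, nat_lit 21349] (nat_lit 4) [] false,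
   Spec.mk (nat_lit 41041) (nat_lit 0) [nat_lit 27919, nat_lit 42499, nat_lit 40555, nat_lit 41203, nat_lit 41023, nat_lit 41043, nat_lit 21359] (nat_lit 2) [] false,
   Spec.mk (nat_lit 41043) (nat_lit 0) [nat_lit 27921, nat_lit 42501, nat_lit 40557, nat_lit 41205, nat_lit 41025, nat_lit 41049, nat_lit 41041, nat_lit 21361] (nat_lit 4) [] false,
   Spec.mk (nat_lit 41049) (nat_lit 0) [nat_lit 27927, nat_lit 42507, nat_lit 40563, nat_lit 41211, nat_lit 41031, nat_lit 41043, nat_lit 21367] (nat_lit 2) [] false,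
   Spec.mk (nat_lit 41075) (nat_lit 2) [nat_lit 27953, nat_lit 42533, nat_lit 40589, nat_lit 40913, nat_lit 41081] (nat_lit 0) [] false,
   Spec.mk (nat_lit 41081) (nat_lit 1) [nat_lit 27959, nat_lit 42539, nat_lit 40595, nat_lit 40919, nat_lit 41099, nat_lit 41075, nat_lit 41087, nat_lit 41083] (nat_lit 0) [] false,
   Spec.mk (nat_lit 41083) (nat_lit 0) [nat_lit 27961, nat_lit 42541, nat_lit 40597, nat_lit 40921, nat_lit 41101, nat_lit 41089, nat_lit 41081, nat_lit 21401] (nat_lit 0) [] false,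
   Spec.mk (nat_lit 41087) (nat_lit 0) [nat_lit 27965, nat_lit 42545, nat_lit 40601, nat_lit 40925, nat_lit 41105, nat_lit 41081, nat_lit 41089] (nat_lit 2) [] false,
   Spec.mk (nat_lit 41089) (nat_lit 0) [nat_lit 27967, nat_lit 42547, nat_lit 40603, nat_lit 40927, nat_lit 41107, nat_lit 41083, nat_lit 41087, nat_lit 41091, nat_lit 21407] (nat_lit 1) [] false,
   Spec.mk (nat_lit 41091) (nat_lit 0) [nat_lit 27969, nat_lit 42549, nat_lit 40605, nat_lit 40929, nat_lit 41109, nat_lit 41089, nat_lit 21409] (nat_lit 2) [] false,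
   Spec.mk (nat_lit 41099) (nat_lit 0) [nat_lit 27977, nat_lit 42557, nat_lit 40613, nat_lit 40937, nat_lit 41153, nat_lit 41081, nat_lit 41105, nat_lit 41101] (nat_lit 0) [] false,
   Spec.mk (nat_lit 41101) (nat_lit 0) [nat_lit 27979, nat_lit 42559, nat_lit 40615, nat_lit 40939, nat_lit 41155, nat_lit 41083, nat_lit 41107, nat_lit 41099, nat_lit 21419] (nat_lit 2) [] false,
   Spec.mk (nat_lit 41105) (nat_lit 0) [nat_lit 27983, nat_lit 42563, nat_lit 40619, nat_lit 40943, nat_lit 41159, nat_lit 41087, nat_lit 41123, nat_lit 41099, nat_lit 41107] (nat_lit 1) [] false,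
   Spec.mk (nat_lit 41107) (nat_lit 0) [nat_lit 27985, nat_lit 42565, nat_lit 40621, nat_lit 40945, nat_lit 41161, nat_lit 41089, nat_lit 41125, nat_lit 41101, nat_lit 41113, nat_lit 41105, nat_lit 41109, nat_lit 21425] (nat_lit 1) [] false,
   Spec.mk (nat_lit 41109) (nat_lit 0) [nat_lit 27987, nat_lit 42567, nat_lit 40623, nat_lit 40947, nat_lit 41163, nat_lit 41091, nat_lit 41127, nat_lit 41115, nat_lit 41107, nat_lit 21427] (nat_lit 3) [] false,
   Spec.mk (nat_lit 41113) (nat_lit 0) [nat_lit 27991, nat_lit 42571, nat_lit 40627, nat_lit 40951, nat_lit 41167, nat_lit 41131, nat_lit 41107, nat_lit 41115, nat_lit 21431] (nat_lit 2) [] false,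
   Spec.mk (nat_lit 41115) (nat_lit 0) [nat_lit 27993, nat_lit 42573, nat_lit 40629, nat_lit 40953, nat_lit 41169, nat_lit 41133, nat_lit 41109, nat_lit 41113, nat_lit 21433] (nat_lit 2) [] false,
   Spec.mk (nat_lit 41123) (nat_lit 0) [nat_lit 28001, nat_lit 42581, nat_lit 40637, nat_lit 40961, nat_lit 41177, nat_lit 41105, nat_lit 41125] (nat_lit 2) [] false,
   Spec.mk (nat_lit 41125) (nat_lit 0) [nat_lit 28003, nat_lit 42583, nat_lit 40639, nat_lit 40963, nat_lit 41179, nat_lit 41107, nat_lit 41131, nat_lit 41123, nat_lit 41127, nat_lit 21443] (nat_lit 3) [] false,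
   Spec.mk (nat_lit 41127) (nat_lit 0) [nat_lit 28005, nat_lit 42585, nat_lit 40641, nat_lit 40965, nat_lit 41181, nat_lit 41109, nat_lit 41133, nat_lit 41125, nat_lit 21445] (nat_lit 6) [] false,
   Spec.mk (nat_lit 41131) (nat_lit 0) [nat_lit 28009, nat_lit 42589, nat_lit 40645, nat_lit 40969, nat_lit 41185, nat_lit 41113, nat_lit 41125, nat_lit 41133, nat_lit 21449] (nat_lit 2) [] false,
   Spec.mk (nat_lit 41133) (nat_lit 0) [nat_lit 28011, nat_lit 42591, nat_lit 40647, nat_lit 40971, nat_lit 41187, nat_lit 41115, nat_lit 41127, nat_lit 41139, nat_lit 41131, nat_lit 21451] (nat_lit 3) [] false,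
   Spec.mk (nat_lit 41139) (nat_lit 0) [nat_lit 28017, nat_lit 42597, nat_lit 40653, nat_lit 40977, nat_lit 41193, nat_lit 41133, nat_lit 21457] (nat_lit 2) [] false,
   Spec.mk (nat_lit 41153) (nat_lit 1) [nat_lit 28031, nat_lit 42611, nat_lit 40667, nat_lit 40991, nat_lit 41315, nat_lit 41099, nat_lit 41159, nat_lit 41155] (nat_lit 0) [] false,
   Spec.mk (nat_lit 41155) (nat_lit 0) [nat_lit 28033, nat_lit 42613, nat_lit 40669, nat_lit 40993, nat_lit 41317, nat_lit 41101, nat_lit 41161, nat_lit 41153, nat_lit 21473] (nat_lit 1) [] false,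
   Spec.mk (nat_lit 41159) (nat_lit 0) [nat_lit 28037, nat_lit 42617, nat_lit 40673, nat_lit 40997, nat_lit 41321, nat_lit 41105, nat_lit 41177, nat_lit 41153, nat_lit 41161] (nat_lit 1) [] false,
   Spec.mk (nat_lit 41161) (nat_lit 0) [nat_lit 28039, nat_lit 42619, nat_lit 40675, nat_lit 40999, nat_lit 41323, nat_lit 41107, nat_lit 41179, nat_lit 41155, nat_lit 41167, nat_lit 41159, nat_lit 41163, nat_lit 21479] (nat_lit 1) [] false,
   Spec.mk (nat_lit 41163) (nat_lit 0) [nat_lit 28041, nat_lit 42621, nat_lit 40677, nat_lit 41001, nat_lit 41325, nat_lit 41109, nat_lit 41181, nat_lit 41169, nat_lit 41161, nat_lit 21481] (nat_lit 3) [] false,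
   Spec.mk (nat_lit 41167) (nat_lit 0) [nat_lit 28045, nat_lit 42625, nat_lit 40681, nat_lit 41005, nat_lit 41329, nat_lit 41113, nat_lit 41185, nat_lit 41161, nat_lit 41169, nat_lit 21485] (nat_lit 3) [] false,
   Spec.mk (nat_lit 41169) (nat_lit 0) [nat_lit 28047, nat_lit 42627, nat_lit 40683, nat_lit 41007, nat_lit 41331, nat_lit 41115, nat_lit 41187, nat_lit 41163, nat_lit 41167, nat_lit 21487] (nat_lit 3) [] false,
   Spec.mk (nat_lit 41177) (nat_lit 0) [nat_lit 28055, nat_lit 42635, nat_lit 40691, nat_lit 41015, nat_lit 41339, nat_lit 41123, nat_lit 41231, nat_lit 41159, nat_lit 41179] (nat_lit 0) [] false,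
   Spec.mk (nat_lit 41179) (nat_lit 0) [nat_lit 28057, nat_lit 42637, nat_lit 40693, nat_lit 41017, nat_lit 41341, nat_lit 41125, nat_lit 41233, nat_lit 41161, nat_lit 41185, nat_lit 41177, nat_lit 41181, nat_lit 21497] (nat_lit 1) [] false,
   Spec.mk (nat_lit 41181) (nat_lit 0) [nat_lit 28059, nat_lit 42639, nat_lit 40695, nat_lit 41019, nat_lit 41343, nat_lit 41127, nat_lit 41235, nat_lit 41163, nat_lit 41187, nat_lit 41179, nat_lit 21499] (nat_lit 4) [] false,
   Spec.mk (nat_lit 41185) (nat_lit 0) [nat_lit 28063, nat_lit 42643, nat_lit 40699, nat_lit 41023, nat_lit 41347, nat_lit 41131, nat_lit 41239, nat_lit 41167, nat_lit 41203, nat_lit 41179, nat_lit 41187, nat_lit 21503] (nat_lit 1) [] false,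
   Spec.mk (nat_lit 41187) (nat_lit 0) [nat_lit 28065, nat_lit 42645, nat_lit 40701, nat_lit 41025, nat_lit 41349, nat_lit 41133, nat_lit 41241, nat_lit 41169, nat_lit 41205, nat_lit 41181, nat_lit 41193, nat_lit 41185, nat_lit 21505] (nat_lit 2) [] false,
   Spec.mk (nat_lit 41193) (nat_lit 0) [nat_lit 28071, nat_lit 42651, nat_lit 40707, nat_lit 41031, nat_lit 41355, nat_lit 41139, nat_lit 41247, nat_lit 41211, nat_lit 41187, nat_lit 21511] (nat_lit 2) [] false,
   Spec.mk (nat_lit 41203) (nat_lit 0) [nat_lit 28081, nat_lit 42661, nat_lit 40717, nat_lit 41041, nat_lit 41365, nat_lit 41257, nat_lit 41185, nat_lit 41205, nat_lit 21521] (nat_lit 1) [] false,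
   Spec.mk (nat_lit 41205) (nat_lit 0) [nat_lit 28083, nat_lit 42663, nat_lit 40719, nat_lit 41043, nat_lit 41367, nat_lit 41259, nat_lit 41187, nat_lit 41211, nat_lit 41203, nat_lit 21523] (nat_lit 3) [] false,
   Spec.mk (nat_lit 41211) (nat_lit 0) [nat_lit 28089, nat_lit 42669, nat_lit 40725, nat_lit 41049, nat_lit 41373, nat_lit 41265, nat_lit 41193, nat_lit 41205, nat_lit 21529] (nat_lit 1) [] false,
   Spec.mk (nat_lit 41231) (nat_lit 0) [nat_lit 28109, nat_lit 42689, nat_lit 40745, nat_lit 41393, nat_lit 41177, nat_lit 41233] (nat_lit 0) [] false,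
   Spec.mk (nat_lit 41233) (nat_lit 0) [nat_lit 28111, nat_lit 42691, nat_lit 40747, nat_lit 41395, nat_lit 41179, nat_lit 41239, nat_lit 41231, nat_lit 41235, nat_lit 21551] (nat_lit 1) [] false,
   Spec.mk (nat_lit 41235) (nat_lit 0) [nat_lit 28113, nat_lit 42693, nat_lit 40749, nat_lit 41397, nat_lit 41181, nat_lit 41241, nat_lit 41233, nat_lit 21553] (nat_lit 4) [] false,
   Spec.mk (nat_lit 41239) (nat_lit 0) [nat_lit 28117, nat_lit 42697, nat_lit 40753, nat_lit 41401, nat_lit 41185, nat_lit 41257, nat_lit 41233, nat_lit 41241, nat_lit 21557] (nat_lit 2) [] false,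
   Spec.mk (nat_lit 41241) (nat_lit 0) [nat_lit 28119, nat_lit 42699, nat_lit 40755, nat_lit 41403, nat_lit 41187, nat_lit 41259, nat_lit 41235, nat_lit 41247, nat_lit 41239, nat_lit 21559] (nat_lit 3) [] false,
   Spec.mk (nat_lit 41247) (nat_lit 0) [nat_lit 28125, nat_lit 42705, nat_lit 40761, nat_lit 41409, nat_lit 41193, nat_lit 41265, nat_lit 41241, nat_lit 21565] (nat_lit 4) [] false,
   Spec.mk (nat_lit 41257) (nat_lit 0) [nat_lit 28135, nat_lit 42715, nat_lit 40771, nat_lit 41419, nat_lit 41203, nat_lit 41239, nat_lit 41259, nat_lit 21575] (nat_lit 0) [] false,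
   Spec.mk (nat_lit 41259) (nat_lit 0) [nat_lit 28137, nat_lit 42717, nat_lit 40773, nat_lit 41421, nat_lit 41205, nat_lit 41241, nat_lit 41265, nat_lit 41257, nat_lit 21577] (nat_lit 2) [] false,
   Spec.mk (nat_lit 41265) (nat_lit 0) [nat_lit 28143, nat_lit 42723, nat_lit 40779, nat_lit 41427, nat_lit 41211, nat_lit 41247, nat_lit 41283, nat_lit 41259, nat_lit 21583] (nat_lit 1) [] false,
   Spec.mk (nat_lit 41283) (nat_lit 0) [nat_lit 28161, nat_lit 42741, nat_lit 40797, nat_lit 41445, nat_lit 41265, nat_lit 21601] (nat_lit 0) [] false,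
   Spec.mk (nat_lit 41315) (nat_lit 2) [nat_lit 28193, nat_lit 42773, nat_lit 41153, nat_lit 41321, nat_lit 41317] (nat_lit 0) [] false,
   Spec.mk (nat_lit 41317) (nat_lit 0) [nat_lit 28195, nat_lit 42775, nat_lit 41155, nat_lit 41323, nat_lit 41315, nat_lit 21635] (nat_lit 0) [] false,
   Spec.mk (nat_lit 41321) (nat_lit 0) [nat_lit 28199, nat_lit 42779, nat_lit 41159, nat_lit 41339, nat_lit 41315, nat_lit 41323] (nat_lit 0) [] false,
   Spec.mk (nat_lit 41323) (nat_lit 0) [nat_lit 28201, nat_lit 42781, nat_lit 41161, nat_lit 41341, nat_lit 41317, nat_lit 41329, nat_lit 41321, nat_lit 41325, nat_lit 21641] (nat_lit 0) [] false,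
   Spec.mk (nat_lit 41325) (nat_lit 0) [nat_lit 28203, nat_lit 42783, nat_lit 41163, nat_lit 41343, nat_lit 41331, nat_lit 41323, nat_lit 21643] (nat_lit 2) [] false,
   Spec.mk (nat_lit 41329) (nat_lit 0) [nat_lit 28207, nat_lit 42787, nat_lit 41167, nat_lit 41347, nat_lit 41323, nat_lit 41331, nat_lit 21647] (nat_lit 2) [] false,
   Spec.mk (nat_lit 41331) (nat_lit 0) [nat_lit 28209, nat_lit 42789, nat_lit 41169, nat_lit 41349, nat_lit 41325, nat_lit 41329, nat_lit 21649] (nat_lit 2) [] false,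
   Spec.mk (nat_lit 41339) (nat_lit 0) [nat_lit 28217, nat_lit 42797, nat_lit 41177, nat_lit 41393, nat_lit 41321, nat_lit 41341] (nat_lit 0) [] false,
   Spec.mk (nat_lit 41341) (nat_lit 0) [nat_lit 28219, nat_lit 42799, nat_lit 41179, nat_lit 41395, nat_lit 41323, nat_lit 41347, nat_lit 41339, nat_lit 41343, nat_lit 21659] (nat_lit 1) [] false,
   Spec.mk (nat_lit 41343) (nat_lit 0) [nat_lit 28221, nat_lit 42801, nat_lit 41181, nat_lit 41397, nat_lit 41325, nat_lit 41349, nat_lit 41341, nat_lit 21661] (nat_lit 4) [] false,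
   Spec.mk (nat_lit 41347) (nat_lit 0) [nat_lit 28225, nat_lit 42805, nat_lit 41185, nat_lit 41401, nat_lit 41329, nat_lit 41365, nat_lit 41341, nat_lit 41349, nat_lit 21665] (nat_lit 1) [] false]

noncomputable def sp107 : List Spec :=
  [Spec.mk (nat_lit 41349) (nat_lit 0) [nat_lit 28227, nat_lit 42807, nat_lit 41187, nat_lit 41403, nat_lit 41331, nat_lit 41367, nat_lit 41343, nat_lit 41355, nat_lit 41347, nat_lit 21667] (nat_lit 2) [] false,
   Spec.mk (nat_lit 41355) (nat_lit 0) [nat_lit 28233, nat_lit 42813, nat_lit 41193, nat_lit 41409, nat_lit 41373, nat_lit 41349, nat_lit 21673] (nat_lit 2) [] false,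
   Spec.mk (nat_lit 41365) (nat_lit 0) [nat_lit 28243, nat_lit 42823, nat_lit 41203, nat_lit 41419, nat_lit 41347, nat_lit 41367, nat_lit 21683] (nat_lit 2) [] false,
   Spec.mk (nat_lit 41367) (nat_lit 0) [nat_lit 28245, nat_lit 42825, nat_lit 41205, nat_lit 41421, nat_lit 41349, nat_lit 41373, nat_lit 41365, nat_lit 21685] (nat_lit 4) [] false,
   Spec.mk (nat_lit 41373) (nat_lit 0) [nat_lit 28251, nat_lit 42831, nat_lit 41211, nat_lit 41427, nat_lit 41355, nat_lit 41367, nat_lit 21691] (nat_lit 2) [] false,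
   Spec.mk (nat_lit 41393) (nat_lit 2) [nat_lit 28271, nat_lit 42851, nat_lit 41231, nat_lit 41339, nat_lit 41395] (nat_lit 0) [] false,
   Spec.mk (nat_lit 41395) (nat_lit 1) [nat_lit 28273, nat_lit 42853, nat_lit 41233, nat_lit 41341, nat_lit 41401, nat_lit 41393, nat_lit 41397, nat_lit 21713] (nat_lit 0) [] false,
   Spec.mk (nat_lit 41397) (nat_lit 0) [nat_lit 28275, nat_lit 42855, nat_lit 41235, nat_lit 41343, nat_lit 41403, nat_lit 41395, nat_lit 21715] (nat_lit 2) [] false,
   Spec.mk (nat_lit 41401) (nat_lit 0) [nat_lit 28279, nat_lit 42859, nat_lit 41239, nat_lit 41347, nat_lit 41419, nat_lit 41395, nat_lit 41403, nat_lit 21719] (nat_lit 0) [] false,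
   Spec.mk (nat_lit 41403) (nat_lit 0) [nat_lit 28281, nat_lit 42861, nat_lit 41241, nat_lit 41349, nat_lit 41421, nat_lit 41397, nat_lit 41409, nat_lit 41401, nat_lit 21721] (nat_lit 1) [] false,
   Spec.mk (nat_lit 41409) (nat_lit 0) [nat_lit 28287, nat_lit 42867, nat_lit 41247, nat_lit 41355, nat_lit 41427, nat_lit 41403, nat_lit 21727] (nat_lit 2) [] false,
   Spec.mk (nat_lit 41419) (nat_lit 1) [nat_lit 28297, nat_lit 42877, nat_lit 41257, nat_lit 41365, nat_lit 41473, nat_lit 41401, nat_lit 41421, nat_lit 21737] (nat_lit 0) [] false,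
   Spec.mk (nat_lit 41421) (nat_lit 0) [nat_lit 28299, nat_lit 42879, nat_lit 41259, nat_lit 41367, nat_lit 41475, nat_lit 41403, nat_lit 41427, nat_lit 41419, nat_lit 21739] (nat_lit 1) [] false,
   Spec.mk (nat_lit 41427) (nat_lit 0) [nat_lit 28305, nat_lit 42885, nat_lit 41265, nat_lit 41373, nat_lit 41481, nat_lit 41409, nat_lit 41445, nat_lit 41421, nat_lit 21745] (nat_lit 0) [] false,
   Spec.mk (nat_lit 41445) (nat_lit 0) [nat_lit 28323, nat_lit 42903, nat_lit 41283, nat_lit 41499, nat_lit 41427, nat_lit 21763] (nat_lit 0) [] false,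
   Spec.mk (nat_lit 41473) (nat_lit 2) [nat_lit 28351, nat_lit 42931, nat_lit 41419, nat_lit 41475, nat_lit 21791] (nat_lit 0) [] false,
   Spec.mk (nat_lit 41475) (nat_lit 0) [nat_lit 28353, nat_lit 42933, nat_lit 41421, nat_lit 41481, nat_lit 41473, nat_lit 21793] (nat_lit 0) [] false,
   Spec.mk (nat_lit 41481) (nat_lit 0) [nat_lit 28359, nat_lit 42939, nat_lit 41427, nat_lit 41499, nat_lit 41475, nat_lit 21799] (nat_lit 0) [] false,
   Spec.mk (nat_lit 41499) (nat_lit 2) [nat_lit 28377, nat_lit 42957, nat_lit 41445, nat_lit 41481, nat_lit 21817] (nat_lit 0) [] false,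
   Spec.mk (nat_lit 41579) (nat_lit 4) [nat_lit 28457, nat_lit 45953, nat_lit 40121, nat_lit 41597] (nat_lit 0) [] false,
   Spec.mk (nat_lit 41597) (nat_lit 3) [nat_lit 28475, nat_lit 45971, nat_lit 40139, nat_lit 41651, nat_lit 41579, nat_lit 41615, nat_lit 41603] (nat_lit 0) [] false,
   Spec.mk (nat_lit 41603) (nat_lit 2) [nat_lit 28481, nat_lit 45977, nat_lit 40145, nat_lit 41657, nat_lit 41621, nat_lit 41597, nat_lit 41605] (nat_lit 0) [] false,
   Spec.mk (nat_lit 41605) (nat_lit 2) [nat_lit 28483, nat_lit 45979, nat_lit 40147, nat_lit 41659, nat_lit 41623, nat_lit 41603, nat_lit 21923] (nat_lit 0) [] false,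
   Spec.mk (nat_lit 41615) (nat_lit 0) [nat_lit 28493, nat_lit 45989, nat_lit 40157, nat_lit 41669, nat_lit 41597, nat_lit 41621] (nat_lit 0) [] false,
   Spec.mk (nat_lit 41621) (nat_lit 1) [nat_lit 28499, nat_lit 45995, nat_lit 40163, nat_lit 41675, nat_lit 41603, nat_lit 41615, nat_lit 41627, nat_lit 41623] (nat_lit 0) [] false,
   Spec.mk (nat_lit 41623) (nat_lit 0) [nat_lit 28501, nat_lit 45997, nat_lit 40165, nat_lit 41677, nat_lit 41605, nat_lit 41629, nat_lit 41621, nat_lit 21941] (nat_lit 0) [] false,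
   Spec.mk (nat_lit 41627) (nat_lit 0) [nat_lit 28505, nat_lit 46001, nat_lit 40169, nat_lit 41681, nat_lit 41621, nat_lit 41629] (nat_lit 0) [] false,
   Spec.mk (nat_lit 41629) (nat_lit 1) [nat_lit 28507, nat_lit 46003, nat_lit 40171, nat_lit 41683, nat_lit 41623, nat_lit 41627, nat_lit 41631, nat_lit 21947] (nat_lit 0) [] false,
   Spec.mk (nat_lit 41631) (nat_lit 0) [nat_lit 28509, nat_lit 46005, nat_lit 40173, nat_lit 41685, nat_lit 41629, nat_lit 21949] (nat_lit 0) [] false,
   Spec.mk (nat_lit 41651) (nat_lit 2) [nat_lit 28529, nat_lit 46025, nat_lit 40193, nat_lit 41813, nat_lit 41597, nat_lit 41669, nat_lit 41657] (nat_lit 0) [] false,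
   Spec.mk (nat_lit 41657) (nat_lit 0) [nat_lit 28535, nat_lit 46031, nat_lit 40199, nat_lit 41819, nat_lit 41603, nat_lit 41675, nat_lit 41651, nat_lit 41659] (nat_lit 0) [] false,
   Spec.mk (nat_lit 41659) (nat_lit 0) [nat_lit 28537, nat_lit 46033, nat_lit 40201, nat_lit 41821, nat_lit 41605, nat_lit 41677, nat_lit 41657, nat_lit 21977] (nat_lit 0) [] false,
   Spec.mk (nat_lit 41669) (nat_lit 1) [nat_lit 28547, nat_lit 46043, nat_lit 40211, nat_lit 41831, nat_lit 41615, nat_lit 41723, nat_lit 41651, nat_lit 41675] (nat_lit 0) [] false,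
   Spec.mk (nat_lit 41675) (nat_lit 1) [nat_lit 28553, nat_lit 46049, nat_lit 40217, nat_lit 41837, nat_lit 41621, nat_lit 41729, nat_lit 41657, nat_lit 41693, nat_lit 41669, nat_lit 41681, nat_lit 41677] (nat_lit 0) [] false,
   Spec.mk (nat_lit 41677) (nat_lit 0) [nat_lit 28555, nat_lit 46051, nat_lit 40219, nat_lit 41839, nat_lit 41623, nat_lit 41731, nat_lit 41659, nat_lit 41695, nat_lit 41683, nat_lit 41675, nat_lit 21995] (nat_lit 0) [] false,
   Spec.mk (nat_lit 41681) (nat_lit 0) [nat_lit 28559, nat_lit 46055, nat_lit 40223, nat_lit 41843, nat_lit 41627, nat_lit 41735, nat_lit 41699, nat_lit 41675, nat_lit 41683] (nat_lit 1) [] false,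
   Spec.mk (nat_lit 41683) (nat_lit 0) [nat_lit 28561, nat_lit 46057, nat_lit 40225, nat_lit 41845, nat_lit 41629, nat_lit 41737, nat_lit 41701, nat_lit 41677, nat_lit 41681, nat_lit 41685, nat_lit 22001] (nat_lit 0) [] false,
   Spec.mk (nat_lit 41685) (nat_lit 0) [nat_lit 28563, nat_lit 46059, nat_lit 40227, nat_lit 41847, nat_lit 41631, nat_lit 41739, nat_lit 41703, nat_lit 41683, nat_lit 22003] (nat_lit 1) [] false,
   Spec.mk (nat_lit 41693) (nat_lit 0) [nat_lit 28571, nat_lit 46067, nat_lit 40235, nat_lit 41855, nat_lit 41747, nat_lit 41675, nat_lit 41699, nat_lit 41695] (nat_lit 0) [] false,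
   Spec.mk (nat_lit 41695) (nat_lit 0) [nat_lit 28573, nat_lit 46069, nat_lit 40237, nat_lit 41857, nat_lit 41749, nat_lit 41677, nat_lit 41701, nat_lit 41693, nat_lit 22013] (nat_lit 2) [] false,
   Spec.mk (nat_lit 41699) (nat_lit 0) [nat_lit 28577, nat_lit 46073, nat_lit 40241, nat_lit 41861, nat_lit 41753, nat_lit 41681, nat_lit 41693, nat_lit 41701] (nat_lit 0) [] false,
   Spec.mk (nat_lit 41701) (nat_lit 0) [nat_lit 28579, nat_lit 46075, nat_lit 40243, nat_lit 41863, nat_lit 41755, nat_lit 41683, nat_lit 41695, nat_lit 41707, nat_lit 41699, nat_lit 41703, nat_lit 22019] (nat_lit 0) [] false,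
   Spec.mk (nat_lit 41703) (nat_lit 0) [nat_lit 28581, nat_lit 46077, nat_lit 40245, nat_lit 41865, nat_lit 41757, nat_lit 41685, nat_lit 41709, nat_lit 41701, nat_lit 22021] (nat_lit 2) [] false,
   Spec.mk (nat_lit 41707) (nat_lit 0) [nat_lit 28585, nat_lit 46081, nat_lit 40249, nat_lit 41869, nat_lit 41761, nat_lit 41701, nat_lit 41709, nat_lit 22025] (nat_lit 0) [] false,
   Spec.mk (nat_lit 41709) (nat_lit 0) [nat_lit 28587, nat_lit 46083, nat_lit 40251, nat_lit 41871, nat_lit 41763, nat_lit 41703, nat_lit 41707, nat_lit 22027] (nat_lit 0) [] false,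
   Spec.mk (nat_lit 41723) (nat_lit 0) [nat_lit 28601, nat_lit 46097, nat_lit 40265, nat_lit 41885, nat_lit 41669, nat_lit 41729] (nat_lit 0) [] false,
   Spec.mk (nat_lit 41729) (nat_lit 0) [nat_lit 28607, nat_lit 46103, nat_lit 40271, nat_lit 41891, nat_lit 41675, nat_lit 41747, nat_lit 41723, nat_lit 41735, nat_lit 41731] (nat_lit 1) [] false,
   Spec.mk (nat_lit 41731) (nat_lit 0) [nat_lit 28609, nat_lit 46105, nat_lit 40273, nat_lit 41893, nat_lit 41677, nat_lit 41749, nat_lit 41737, nat_lit 41729, nat_lit 22049] (nat_lit 2) [] false,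
   Spec.mk (nat_lit 41735) (nat_lit 0) [nat_lit 28613, nat_lit 46109, nat_lit 40277, nat_lit 41897, nat_lit 41681, nat_lit 41753, nat_lit 41729, nat_lit 41737] (nat_lit 4) [] false,
   Spec.mk (nat_lit 41737) (nat_lit 0) [nat_lit 28615, nat_lit 46111, nat_lit 40279, nat_lit 41899, nat_lit 41683, nat_lit 41755, nat_lit 41731, nat_lit 41735, nat_lit 41739, nat_lit 22055] (nat_lit 3) [] false,
   Spec.mk (nat_lit 41739) (nat_lit 0) [nat_lit 28617, nat_lit 46113, nat_lit 40281, nat_lit 41901, nat_lit 41685, nat_lit 41757, nat_lit 41737, nat_lit 22057] (nat_lit 4) [] false,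
   Spec.mk (nat_lit 41747) (nat_lit 0) [nat_lit 28625, nat_lit 46121, nat_lit 40289, nat_lit 41909, nat_lit 41693, nat_lit 41729, nat_lit 41753, nat_lit 41749] (nat_lit 0) [] false,
   Spec.mk (nat_lit 41749) (nat_lit 0) [nat_lit 28627, nat_lit 46123, nat_lit 40291, nat_lit 41911, nat_lit 41695, nat_lit 41731, nat_lit 41755, nat_lit 41747, nat_lit 22067] (nat_lit 2) [] false,
   Spec.mk (nat_lit 41753) (nat_lit 0) [nat_lit 28631, nat_lit 46127, nat_lit 40295, nat_lit 41915, nat_lit 41699, nat_lit 41735, nat_lit 41771, nat_lit 41747, nat_lit 41755] (nat_lit 1) [] false,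
   Spec.mk (nat_lit 41755) (nat_lit 0) [nat_lit 28633, nat_lit 46129, nat_lit 40297, nat_lit 41917, nat_lit 41701, nat_lit 41737, nat_lit 41773, nat_lit 41749, nat_lit 41761, nat_lit 41753, nat_lit 41757, nat_lit 22073] (nat_lit 1) [] false,
   Spec.mk (nat_lit 41757) (nat_lit 0) [nat_lit 28635, nat_lit 46131, nat_lit 40299, nat_lit 41919, nat_lit 41703, nat_lit 41739, nat_lit 41775, nat_lit 41763, nat_lit 41755, nat_lit 22075] (nat_lit 3) [] false,
   Spec.mk (nat_lit 41761) (nat_lit 0) [nat_lit 28639, nat_lit 46135, nat_lit 40303, nat_lit 41923, nat_lit 41707, nat_lit 41779, nat_lit 41755, nat_lit 41763, nat_lit 22079] (nat_lit 2) [] false,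
   Spec.mk (nat_lit 41763) (nat_lit 0) [nat_lit 28641, nat_lit 46137, nat_lit 40305, nat_lit 41925, nat_lit 41709, nat_lit 41781, nat_lit 41757, nat_lit 41761, nat_lit 22081] (nat_lit 2) [] false,
   Spec.mk (nat_lit 41771) (nat_lit 0) [nat_lit 28649, nat_lit 46145, nat_lit 40313, nat_lit 41933, nat_lit 41753, nat_lit 41773] (nat_lit 0) [] false,
   Spec.mk (nat_lit 41773) (nat_lit 0) [nat_lit 28651, nat_lit 46147, nat_lit 40315, nat_lit 41935, nat_lit 41755, nat_lit 41779, nat_lit 41771, nat_lit 41775, nat_lit 22091] (nat_lit 1) [] false]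

noncomputable def sp108 : List Spec :=
  [Spec.mk (nat_lit 41775) (nat_lit 0) [nat_lit 28653, nat_lit 46149, nat_lit 40317, nat_lit 41937, nat_lit 41757, nat_lit 41781, nat_lit 41773, nat_lit 22093] (nat_lit 4) [] false,
   Spec.mk (nat_lit 41779) (nat_lit 0) [nat_lit 28657, nat_lit 46153, nat_lit 40321, nat_lit 41941, nat_lit 41761, nat_lit 41773, nat_lit 41781, nat_lit 22097] (nat_lit 0) [] false,
   Spec.mk (nat_lit 41781) (nat_lit 0) [nat_lit 28659, nat_lit 46155, nat_lit 40323, nat_lit 41943, nat_lit 41763, nat_lit 41775, nat_lit 41787, nat_lit 41779, nat_lit 22099] (nat_lit 1) [] false,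
   Spec.mk (nat_lit 41787) (nat_lit 0) [nat_lit 28665, nat_lit 46161, nat_lit 40329, nat_lit 41949, nat_lit 41781, nat_lit 22105] (nat_lit 0) [] false,
   Spec.mk (nat_lit 41813) (nat_lit 2) [nat_lit 28691, nat_lit 46187, nat_lit 40355, nat_lit 42299, nat_lit 41651, nat_lit 41831, nat_lit 41819] (nat_lit 0) [] false,
   Spec.mk (nat_lit 41819) (nat_lit 0) [nat_lit 28697, nat_lit 46193, nat_lit 40361, nat_lit 42305, nat_lit 41657, nat_lit 41837, nat_lit 41813, nat_lit 41821] (nat_lit 0) [] false,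
   Spec.mk (nat_lit 41821) (nat_lit 0) [nat_lit 28699, nat_lit 46195, nat_lit 40363, nat_lit 42307, nat_lit 41659, nat_lit 41839, nat_lit 41819, nat_lit 22139] (nat_lit 0) [] false,
   Spec.mk (nat_lit 41831) (nat_lit 0) [nat_lit 28709, nat_lit 46205, nat_lit 40373, nat_lit 42317, nat_lit 41669, nat_lit 41885, nat_lit 41813, nat_lit 41837] (nat_lit 0) [] false,
   Spec.mk (nat_lit 41837) (nat_lit 0) [nat_lit 28715, nat_lit 46211, nat_lit 40379, nat_lit 42323, nat_lit 41675, nat_lit 41891, nat_lit 41819, nat_lit 41855, nat_lit 41831, nat_lit 41843, nat_lit 41839] (nat_lit 0) [] false,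
   Spec.mk (nat_lit 41839) (nat_lit 0) [nat_lit 28717, nat_lit 46213, nat_lit 40381, nat_lit 42325, nat_lit 41677, nat_lit 41893, nat_lit 41821, nat_lit 41857, nat_lit 41845, nat_lit 41837, nat_lit 22157] (nat_lit 1) [] false,
   Spec.mk (nat_lit 41843) (nat_lit 0) [nat_lit 28721, nat_lit 46217, nat_lit 40385, nat_lit 42329, nat_lit 41681, nat_lit 41897, nat_lit 41861, nat_lit 41837, nat_lit 41845] (nat_lit 2) [] false,
   Spec.mk (nat_lit 41845) (nat_lit 0) [nat_lit 28723, nat_lit 46219, nat_lit 40387, nat_lit 42331, nat_lit 41683, nat_lit 41899, nat_lit 41863, nat_lit 41839, nat_lit 41843, nat_lit 41847, nat_lit 22163] (nat_lit 1) [] false,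
   Spec.mk (nat_lit 41847) (nat_lit 0) [nat_lit 28725, nat_lit 46221, nat_lit 40389, nat_lit 42333, nat_lit 41685, nat_lit 41901, nat_lit 41865, nat_lit 41845, nat_lit 22165] (nat_lit 2) [] false,
   Spec.mk (nat_lit 41855) (nat_lit 0) [nat_lit 28733, nat_lit 46229, nat_lit 40397, nat_lit 42341, nat_lit 41693, nat_lit 41909, nat_lit 41837, nat_lit 41861, nat_lit 41857] (nat_lit 2) [] false,
   Spec.mk (nat_lit 41857) (nat_lit 0) [nat_lit 28735, nat_lit 46231, nat_lit 40399, nat_lit 42343, nat_lit 41695, nat_lit 41911, nat_lit 41839, nat_lit 41863, nat_lit 41855, nat_lit 22175] (nat_lit 4) [] false,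
   Spec.mk (nat_lit 41861) (nat_lit 0) [nat_lit 28739, nat_lit 46235, nat_lit 40403, nat_lit 42347, nat_lit 41699, nat_lit 41915, nat_lit 41843, nat_lit 41855, nat_lit 41863] (nat_lit 2) [] false,
   Spec.mk (nat_lit 41863) (nat_lit 0) [nat_lit 28741, nat_lit 46237, nat_lit 40405, nat_lit 42349, nat_lit 41701, nat_lit 41917, nat_lit 41845, nat_lit 41857, nat_lit 41869, nat_lit 41861, nat_lit 41865, nat_lit 22181] (nat_lit 2) [] false,
   Spec.mk (nat_lit 41865) (nat_lit 0) [nat_lit 28743, nat_lit 46239, nat_lit 40407, nat_lit 42351, nat_lit 41703, nat_lit 41919, nat_lit 41847, nat_lit 41871, nat_lit 41863, nat_lit 22183] (nat_lit 4) [] false,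
   Spec.mk (nat_lit 41869) (nat_lit 0) [nat_lit 28747, nat_lit 46243, nat_lit 40411, nat_lit 42355, nat_lit 41707, nat_lit 41923, nat_lit 41863, nat_lit 41871, nat_lit 22187] (nat_lit 2) [] false,
   Spec.mk (nat_lit 41871) (nat_lit 0) [nat_lit 28749, nat_lit 46245, nat_lit 40413, nat_lit 42357, nat_lit 41709, nat_lit 41925, nat_lit 41865, nat_lit 41869, nat_lit 22189] (nat_lit 2) [] false,
   Spec.mk (nat_lit 41885) (nat_lit 1) [nat_lit 28763, nat_lit 46259, nat_lit 40427, nat_lit 42371, nat_lit 41723, nat_lit 42047, nat_lit 41831, nat_lit 41891] (nat_lit 0) [] false,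
   Spec.mk (nat_lit 41891) (nat_lit 0) [nat_lit 28769, nat_lit 46265, nat_lit 40433, nat_lit 42377, nat_lit 41729, nat_lit 42053, nat_lit 41837, nat_lit 41909, nat_lit 41885, nat_lit 41897, nat_lit 41893] (nat_lit 0) [] false,
   Spec.mk (nat_lit 41893) (nat_lit 0) [nat_lit 28771, nat_lit 46267, nat_lit 40435, nat_lit 42379, nat_lit 41731, nat_lit 42055, nat_lit 41839, nat_lit 41911, nat_lit 41899, nat_lit 41891, nat_lit 22211] (nat_lit 1) [] false,
   Spec.mk (nat_lit 41897) (nat_lit 0) [nat_lit 28775, nat_lit 46271, nat_lit 40439, nat_lit 42383, nat_lit 41735, nat_lit 42059, nat_lit 41843, nat_lit 41915, nat_lit 41891, nat_lit 41899] (nat_lit 3) [] false,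
   Spec.mk (nat_lit 41899) (nat_lit 0) [nat_lit 28777, nat_lit 46273, nat_lit 40441, nat_lit 42385, nat_lit 41737, nat_lit 42061, nat_lit 41845, nat_lit 41917, nat_lit 41893, nat_lit 41897, nat_lit 41901, nat_lit 22217] (nat_lit 2) [] false,
   Spec.mk (nat_lit 41901) (nat_lit 0) [nat_lit 28779, nat_lit 46275, nat_lit 40443, nat_lit 42387, nat_lit 41739, nat_lit 42063, nat_lit 41847, nat_lit 41919, nat_lit 41899, nat_lit 22219] (nat_lit 3) [] false,
   Spec.mk (nat_lit 41909) (nat_lit 0) [nat_lit 28787, nat_lit 46283, nat_lit 40451, nat_lit 42395, nat_lit 41747, nat_lit 42071, nat_lit 41855, nat_lit 41963, nat_lit 41891, nat_lit 41915, nat_lit 41911] (nat_lit 0) [] false,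
   Spec.mk (nat_lit 41911) (nat_lit 0) [nat_lit 28789, nat_lit 46285, nat_lit 40453, nat_lit 42397, nat_lit 41749, nat_lit 42073, nat_lit 41857, nat_lit 41965, nat_lit 41893, nat_lit 41917, nat_lit 41909, nat_lit 22229] (nat_lit 2) [] false,
   Spec.mk (nat_lit 41915) (nat_lit 0) [nat_lit 28793, nat_lit 46289, nat_lit 40457, nat_lit 42401, nat_lit 41753, nat_lit 42077, nat_lit 41861, nat_lit 41969, nat_lit 41897, nat_lit 41933, nat_lit 41909, nat_lit 41917] (nat_lit 1) [] false,
   Spec.mk (nat_lit 41917) (nat_lit 0) [nat_lit 28795, nat_lit 46291, nat_lit 40459, nat_lit 42403, nat_lit 41755, nat_lit 42079, nat_lit 41863, nat_lit 41971, nat_lit 41899, nat_lit 41935, nat_lit 41911, nat_lit 41923, nat_lit 41915, nat_lit 41919, nat_lit 22235] (nat_lit 1) [] false,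
   Spec.mk (nat_lit 41919) (nat_lit 0) [nat_lit 28797, nat_lit 46293, nat_lit 40461, nat_lit 42405, nat_lit 41757, nat_lit 42081, nat_lit 41865, nat_lit 41973, nat_lit 41901, nat_lit 41937, nat_lit 41925, nat_lit 41917, nat_lit 22237] (nat_lit 3) [] false,
   Spec.mk (nat_lit 41923) (nat_lit 0) [nat_lit 28801, nat_lit 46297, nat_lit 40465, nat_lit 42409, nat_lit 41761, nat_lit 42085, nat_lit 41869, nat_lit 41977, nat_lit 41941, nat_lit 41917, nat_lit 41925, nat_lit 22241] (nat_lit 2) [] false,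
   Spec.mk (nat_lit 41925) (nat_lit 0) [nat_lit 28803, nat_lit 46299, nat_lit 40467, nat_lit 42411, nat_lit 41763, nat_lit 42087, nat_lit 41871, nat_lit 41979, nat_lit 41943, nat_lit 41919, nat_lit 41923, nat_lit 22243] (nat_lit 2) [] false,
   Spec.mk (nat_lit 41933) (nat_lit 0) [nat_lit 28811, nat_lit 46307, nat_lit 40475, nat_lit 42419, nat_lit 41771, nat_lit 42095, nat_lit 41987, nat_lit 41915, nat_lit 41935] (nat_lit 1) [] false,
   Spec.mk (nat_lit 41935) (nat_lit 0) [nat_lit 28813, nat_lit 46309, nat_lit 40477, nat_lit 42421, nat_lit 41773, nat_lit 42097, nat_lit 41989, nat_lit 41917, nat_lit 41941, nat_lit 41933, nat_lit 41937, nat_lit 22253] (nat_lit 2) [] false,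
   Spec.mk (nat_lit 41937) (nat_lit 0) [nat_lit 28815, nat_lit 46311, nat_lit 40479, nat_lit 42423, nat_lit 41775, nat_lit 42099, nat_lit 41991, nat_lit 41919, nat_lit 41943, nat_lit 41935, nat_lit 22255] (nat_lit 5) [] false,
   Spec.mk (nat_lit 41941) (nat_lit 0) [nat_lit 28819, nat_lit 46315, nat_lit 40483, nat_lit 42427, nat_lit 41779, nat_lit 42103, nat_lit 41995, nat_lit 41923, nat_lit 41935, nat_lit 41943, nat_lit 22259] (nat_lit 1) [] false,
   Spec.mk (nat_lit 41943) (nat_lit 0) [nat_lit 28821, nat_lit 46317, nat_lit 40485, nat_lit 42429, nat_lit 41781, nat_lit 42105, nat_lit 41997, nat_lit 41925, nat_lit 41937, nat_lit 41949, nat_lit 41941, nat_lit 22261] (nat_lit 2) [] false,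
   Spec.mk (nat_lit 41949) (nat_lit 0) [nat_lit 28827, nat_lit 46323, nat_lit 40491, nat_lit 42435, nat_lit 41787, nat_lit 42111, nat_lit 42003, nat_lit 41943, nat_lit 22267] (nat_lit 1) [] false,
   Spec.mk (nat_lit 41963) (nat_lit 0) [nat_lit 28841, nat_lit 46337, nat_lit 40505, nat_lit 42449, nat_lit 42125, nat_lit 41909, nat_lit 41969, nat_lit 41965] (nat_lit 0) [] false,
   Spec.mk (nat_lit 41965) (nat_lit 0) [nat_lit 28843, nat_lit 46339, nat_lit 40507, nat_lit 42451, nat_lit 42127, nat_lit 41911, nat_lit 41971, nat_lit 41963, nat_lit 22283] (nat_lit 2) [] false,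
   Spec.mk (nat_lit 41969) (nat_lit 0) [nat_lit 28847, nat_lit 46343, nat_lit 40511, nat_lit 42455, nat_lit 42131, nat_lit 41915, nat_lit 41987, nat_lit 41963, nat_lit 41971] (nat_lit 2) [] false,
   Spec.mk (nat_lit 41971) (nat_lit 0) [nat_lit 28849, nat_lit 46345, nat_lit 40513, nat_lit 42457, nat_lit 42133, nat_lit 41917, nat_lit 41989, nat_lit 41965, nat_lit 41977, nat_lit 41969, nat_lit 41973, nat_lit 22289] (nat_lit 2) [] false,
   Spec.mk (nat_lit 41973) (nat_lit 0) [nat_lit 28851, nat_lit 46347, nat_lit 40515, nat_lit 42459, nat_lit 42135, nat_lit 41919, nat_lit 41991, nat_lit 41979, nat_lit 41971, nat_lit 22291] (nat_lit 4) [] false,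
   Spec.mk (nat_lit 41977) (nat_lit 0) [nat_lit 28855, nat_lit 46351, nat_lit 40519, nat_lit 42463, nat_lit 42139, nat_lit 41923, nat_lit 41995, nat_lit 41971, nat_lit 41979, nat_lit 22295] (nat_lit 4) [] false,
   Spec.mk (nat_lit 41979) (nat_lit 0) [nat_lit 28857, nat_lit 46353, nat_lit 40521, nat_lit 42465, nat_lit 42141, nat_lit 41925, nat_lit 41997, nat_lit 41973, nat_lit 41977, nat_lit 22297] (nat_lit 4) [] false,
   Spec.mk (nat_lit 41987) (nat_lit 0) [nat_lit 28865, nat_lit 46361, nat_lit 40529, nat_lit 42473, nat_lit 42149, nat_lit 41933, nat_lit 41969, nat_lit 41989] (nat_lit 0) [] false,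
   Spec.mk (nat_lit 41989) (nat_lit 0) [nat_lit 28867, nat_lit 46363, nat_lit 40531, nat_lit 42475, nat_lit 42151, nat_lit 41935, nat_lit 41971, nat_lit 41995, nat_lit 41987, nat_lit 41991, nat_lit 22307] (nat_lit 1) [] false,
   Spec.mk (nat_lit 41991) (nat_lit 0) [nat_lit 28869, nat_lit 46365, nat_lit 40533, nat_lit 42477, nat_lit 42153, nat_lit 41937, nat_lit 41973, nat_lit 41997, nat_lit 41989, nat_lit 22309] (nat_lit 4) [] false,
   Spec.mk (nat_lit 41995) (nat_lit 0) [nat_lit 28873, nat_lit 46369, nat_lit 40537, nat_lit 42481, nat_lit 42157, nat_lit 41941, nat_lit 41977, nat_lit 42013, nat_lit 41989, nat_lit 41997, nat_lit 22313] (nat_lit 1) [] false,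
   Spec.mk (nat_lit 41997) (nat_lit 0) [nat_lit 28875, nat_lit 46371, nat_lit 40539, nat_lit 42483, nat_lit 42159, nat_lit 41943, nat_lit 41979, nat_lit 42015, nat_lit 41991, nat_lit 42003, nat_lit 41995, nat_lit 22315] (nat_lit 2) [] false,
   Spec.mk (nat_lit 42003) (nat_lit 0) [nat_lit 28881, nat_lit 46377, nat_lit 40545, nat_lit 42489, nat_lit 42165, nat_lit 41949, nat_lit 42021, nat_lit 41997, nat_lit 22321] (nat_lit 2) [] false,
   Spec.mk (nat_lit 42013) (nat_lit 0) [nat_lit 28891, nat_lit 46387, nat_lit 40555, nat_lit 42499, nat_lit 42175, nat_lit 41995, nat_lit 42015, nat_lit 22331] (nat_lit 0) [] false,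
   Spec.mk (nat_lit 42015) (nat_lit 0) [nat_lit 28893, nat_lit 46389, nat_lit 40557, nat_lit 42501, nat_lit 42177, nat_lit 41997, nat_lit 42021, nat_lit 42013, nat_lit 22333] (nat_lit 2) [] false,
   Spec.mk (nat_lit 42021) (nat_lit 0) [nat_lit 28899, nat_lit 46395, nat_lit 40563, nat_lit 42507, nat_lit 42183, nat_lit 42003, nat_lit 42015, nat_lit 22339] (nat_lit 0) [] false,
   Spec.mk (nat_lit 42047) (nat_lit 0) [nat_lit 28925, nat_lit 46421, nat_lit 40589, nat_lit 42533, nat_lit 41885, nat_lit 42053] (nat_lit 0) [] false,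
   Spec.mk (nat_lit 42053) (nat_lit 0) [nat_lit 28931, nat_lit 46427, nat_lit 40595, nat_lit 42539, nat_lit 41891, nat_lit 42071, nat_lit 42047, nat_lit 42059, nat_lit 42055] (nat_lit 1) [] false,
   Spec.mk (nat_lit 42055) (nat_lit 0) [nat_lit 28933, nat_lit 46429, nat_lit 40597, nat_lit 42541, nat_lit 41893, nat_lit 42073, nat_lit 42061, nat_lit 42053, nat_lit 22373] (nat_lit 2) [] false,
   Spec.mk (nat_lit 42059) (nat_lit 0) [nat_lit 28937, nat_lit 46433, nat_lit 40601, nat_lit 42545, nat_lit 41897, nat_lit 42077, nat_lit 42053, nat_lit 42061] (nat_lit 4) [] false,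
   Spec.mk (nat_lit 42061) (nat_lit 0) [nat_lit 28939, nat_lit 46435, nat_lit 40603, nat_lit 42547, nat_lit 41899, nat_lit 42079, nat_lit 42055, nat_lit 42059, nat_lit 42063, nat_lit 22379] (nat_lit 3) [] false]

noncomputable def sp109 : List Spec :=
  [Spec.mk (nat_lit 42063) (nat_lit 0) [nat_lit 28941, nat_lit 46437, nat_lit 40605, nat_lit 42549, nat_lit 41901, nat_lit 42081, nat_lit 42061, nat_lit 22381] (nat_lit 4) [] false,
   Spec.mk (nat_lit 42071) (nat_lit 0) [nat_lit 28949, nat_lit 46445, nat_lit 40613, nat_lit 42557, nat_lit 41909, nat_lit 42125, nat_lit 42053, nat_lit 42077, nat_lit 42073] (nat_lit 2) [] false,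
   Spec.mk (nat_lit 42073) (nat_lit 0) [nat_lit 28951, nat_lit 46447, nat_lit 40615, nat_lit 42559, nat_lit 41911, nat_lit 42127, nat_lit 42055, nat_lit 42079, nat_lit 42071, nat_lit 22391] (nat_lit 4) [] false,
   Spec.mk (nat_lit 42077) (nat_lit 0) [nat_lit 28955, nat_lit 46451, nat_lit 40619, nat_lit 42563, nat_lit 41915, nat_lit 42131, nat_lit 42059, nat_lit 42095, nat_lit 42071, nat_lit 42079] (nat_lit 3) [] false,
   Spec.mk (nat_lit 42079) (nat_lit 0) [nat_lit 28957, nat_lit 46453, nat_lit 40621, nat_lit 42565, nat_lit 41917, nat_lit 42133, nat_lit 42061, nat_lit 42097, nat_lit 42073, nat_lit 42085, nat_lit 42077, nat_lit 42081, nat_lit 22397] (nat_lit 3) [] false,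
   Spec.mk (nat_lit 42081) (nat_lit 0) [nat_lit 28959, nat_lit 46455, nat_lit 40623, nat_lit 42567, nat_lit 41919, nat_lit 42135, nat_lit 42063, nat_lit 42099, nat_lit 42087, nat_lit 42079, nat_lit 22399] (nat_lit 5) [] false,
   Spec.mk (nat_lit 42085) (nat_lit 0) [nat_lit 28963, nat_lit 46459, nat_lit 40627, nat_lit 42571, nat_lit 41923, nat_lit 42139, nat_lit 42103, nat_lit 42079, nat_lit 42087, nat_lit 22403] (nat_lit 4) [] false,
   Spec.mk (nat_lit 42087) (nat_lit 0) [nat_lit 28965, nat_lit 46461, nat_lit 40629, nat_lit 42573, nat_lit 41925, nat_lit 42141, nat_lit 42105, nat_lit 42081, nat_lit 42085, nat_lit 22405] (nat_lit 4) [] false,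
   Spec.mk (nat_lit 42095) (nat_lit 0) [nat_lit 28973, nat_lit 46469, nat_lit 40637, nat_lit 42581, nat_lit 41933, nat_lit 42149, nat_lit 42077, nat_lit 42097] (nat_lit 4) [] false,
   Spec.mk (nat_lit 42097) (nat_lit 0) [nat_lit 28975, nat_lit 46471, nat_lit 40639, nat_lit 42583, nat_lit 41935, nat_lit 42151, nat_lit 42079, nat_lit 42103, nat_lit 42095, nat_lit 42099, nat_lit 22415] (nat_lit 5) [] false,
   Spec.mk (nat_lit 42099) (nat_lit 0) [nat_lit 28977, nat_lit 46473, nat_lit 40641, nat_lit 42585, nat_lit 41937, nat_lit 42153, nat_lit 42081, nat_lit 42105, nat_lit 42097, nat_lit 22417] (nat_lit 8) [] false,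
   Spec.mk (nat_lit 42103) (nat_lit 0) [nat_lit 28981, nat_lit 46477, nat_lit 40645, nat_lit 42589, nat_lit 41941, nat_lit 42157, nat_lit 42085, nat_lit 42097, nat_lit 42105, nat_lit 22421] (nat_lit 4) [] false,
   Spec.mk (nat_lit 42105) (nat_lit 0) [nat_lit 28983, nat_lit 46479, nat_lit 40647, nat_lit 42591, nat_lit 41943, nat_lit 42159, nat_lit 42087, nat_lit 42099, nat_lit 42111, nat_lit 42103, nat_lit 22423] (nat_lit 5) [] false,
   Spec.mk (nat_lit 42111) (nat_lit 0) [nat_lit 28989, nat_lit 46485, nat_lit 40653, nat_lit 42597, nat_lit 41949, nat_lit 42165, nat_lit 42105, nat_lit 22429] (nat_lit 4) [] false,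
   Spec.mk (nat_lit 42125) (nat_lit 0) [nat_lit 29003, nat_lit 46499, nat_lit 40667, nat_lit 42611, nat_lit 41963, nat_lit 42071, nat_lit 42131, nat_lit 42127] (nat_lit 0) [] false,
   Spec.mk (nat_lit 42127) (nat_lit 0) [nat_lit 29005, nat_lit 46501, nat_lit 40669, nat_lit 42613, nat_lit 41965, nat_lit 42073, nat_lit 42133, nat_lit 42125, nat_lit 22445] (nat_lit 2) [] false,
   Spec.mk (nat_lit 42131) (nat_lit 0) [nat_lit 29009, nat_lit 46505, nat_lit 40673, nat_lit 42617, nat_lit 41969, nat_lit 42077, nat_lit 42149, nat_lit 42125, nat_lit 42133] (nat_lit 2) [] false,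
   Spec.mk (nat_lit 42133) (nat_lit 0) [nat_lit 29011, nat_lit 46507, nat_lit 40675, nat_lit 42619, nat_lit 41971, nat_lit 42079, nat_lit 42151, nat_lit 42127, nat_lit 42139, nat_lit 42131, nat_lit 42135, nat_lit 22451] (nat_lit 2) [] false,
   Spec.mk (nat_lit 42135) (nat_lit 0) [nat_lit 29013, nat_lit 46509, nat_lit 40677, nat_lit 42621, nat_lit 41973, nat_lit 42081, nat_lit 42153, nat_lit 42141, nat_lit 42133, nat_lit 22453] (nat_lit 4) [] false,
   Spec.mk (nat_lit 42139) (nat_lit 0) [nat_lit 29017, nat_lit 46513, nat_lit 40681, nat_lit 42625, nat_lit 41977, nat_lit 42085, nat_lit 42157, nat_lit 42133, nat_lit 42141, nat_lit 22457] (nat_lit 4) [] false,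
   Spec.mk (nat_lit 42141) (nat_lit 0) [nat_lit 29019, nat_lit 46515, nat_lit 40683, nat_lit 42627, nat_lit 41979, nat_lit 42087, nat_lit 42159, nat_lit 42135, nat_lit 42139, nat_lit 22459] (nat_lit 4) [] false,
   Spec.mk (nat_lit 42149) (nat_lit 0) [nat_lit 29027, nat_lit 46523, nat_lit 40691, nat_lit 42635, nat_lit 41987, nat_lit 42095, nat_lit 42203, nat_lit 42131, nat_lit 42151] (nat_lit 1) [] false,
   Spec.mk (nat_lit 42151) (nat_lit 0) [nat_lit 29029, nat_lit 46525, nat_lit 40693, nat_lit 42637, nat_lit 41989, nat_lit 42097, nat_lit 42205, nat_lit 42133, nat_lit 42157, nat_lit 42149, nat_lit 42153, nat_lit 22469] (nat_lit 2) [] false,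
   Spec.mk (nat_lit 42153) (nat_lit 0) [nat_lit 29031, nat_lit 46527, nat_lit 40695, nat_lit 42639, nat_lit 41991, nat_lit 42099, nat_lit 42207, nat_lit 42135, nat_lit 42159, nat_lit 42151, nat_lit 22471] (nat_lit 5) [] false,
   Spec.mk (nat_lit 42157) (nat_lit 0) [nat_lit 29035, nat_lit 46531, nat_lit 40699, nat_lit 42643, nat_lit 41995, nat_lit 42103, nat_lit 42211, nat_lit 42139, nat_lit 42175, nat_lit 42151, nat_lit 42159, nat_lit 22475] (nat_lit 2) [] false,
   Spec.mk (nat_lit 42159) (nat_lit 0) [nat_lit 29037, nat_lit 46533, nat_lit 40701, nat_lit 42645, nat_lit 41997, nat_lit 42105, nat_lit 42213, nat_lit 42141, nat_lit 42177, nat_lit 42153, nat_lit 42165, nat_lit 42157, nat_lit 22477] (nat_lit 3) [] false,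
   Spec.mk (nat_lit 42165) (nat_lit 0) [nat_lit 29043, nat_lit 46539, nat_lit 40707, nat_lit 42651, nat_lit 42003, nat_lit 42111, nat_lit 42219, nat_lit 42183, nat_lit 42159, nat_lit 22483] (nat_lit 3) [] false,
   Spec.mk (nat_lit 42175) (nat_lit 0) [nat_lit 29053, nat_lit 46549, nat_lit 40717, nat_lit 42661, nat_lit 42013, nat_lit 42229, nat_lit 42157, nat_lit 42177, nat_lit 22493] (nat_lit 2) [] false,
   Spec.mk (nat_lit 42177) (nat_lit 0) [nat_lit 29055, nat_lit 46551, nat_lit 40719, nat_lit 42663, nat_lit 42015, nat_lit 42231, nat_lit 42159, nat_lit 42183, nat_lit 42175, nat_lit 22495] (nat_lit 4) [] false,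
   Spec.mk (nat_lit 42183) (nat_lit 0) [nat_lit 29061, nat_lit 46557, nat_lit 40725, nat_lit 42669, nat_lit 42021, nat_lit 42237, nat_lit 42165, nat_lit 42177, nat_lit 22501] (nat_lit 2) [] false,
   Spec.mk (nat_lit 42203) (nat_lit 0) [nat_lit 29081, nat_lit 46577, nat_lit 40745, nat_lit 42689, nat_lit 42149, nat_lit 42205] (nat_lit 0) [] false,
   Spec.mk (nat_lit 42205) (nat_lit 0) [nat_lit 29083, nat_lit 46579, nat_lit 40747, nat_lit 42691, nat_lit 42151, nat_lit 42211, nat_lit 42203, nat_lit 42207, nat_lit 22523] (nat_lit 1) [] false,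
   Spec.mk (nat_lit 42207) (nat_lit 0) [nat_lit 29085, nat_lit 46581, nat_lit 40749, nat_lit 42693, nat_lit 42153, nat_lit 42213, nat_lit 42205, nat_lit 22525] (nat_lit 4) [] false,
   Spec.mk (nat_lit 42211) (nat_lit 0) [nat_lit 29089, nat_lit 46585, nat_lit 40753, nat_lit 42697, nat_lit 42157, nat_lit 42229, nat_lit 42205, nat_lit 42213, nat_lit 22529] (nat_lit 2) [] false,
   Spec.mk (nat_lit 42213) (nat_lit 0) [nat_lit 29091, nat_lit 46587, nat_lit 40755, nat_lit 42699, nat_lit 42159, nat_lit 42231, nat_lit 42207, nat_lit 42219, nat_lit 42211, nat_lit 22531] (nat_lit 3) [] false,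
   Spec.mk (nat_lit 42219) (nat_lit 0) [nat_lit 29097, nat_lit 46593, nat_lit 40761, nat_lit 42705, nat_lit 42165, nat_lit 42237, nat_lit 42213, nat_lit 22537] (nat_lit 4) [] false,
   Spec.mk (nat_lit 42229) (nat_lit 0) [nat_lit 29107, nat_lit 46603, nat_lit 40771, nat_lit 42715, nat_lit 42175, nat_lit 42211, nat_lit 42231, nat_lit 22547] (nat_lit 0) [] false,
   Spec.mk (nat_lit 42231) (nat_lit 0) [nat_lit 29109, nat_lit 46605, nat_lit 40773, nat_lit 42717, nat_lit 42177, nat_lit 42213, nat_lit 42237, nat_lit 42229, nat_lit 22549] (nat_lit 2) [] false,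
   Spec.mk (nat_lit 42237) (nat_lit 0) [nat_lit 29115, nat_lit 46611, nat_lit 40779, nat_lit 42723, nat_lit 42183, nat_lit 42219, nat_lit 42255, nat_lit 42231, nat_lit 22555] (nat_lit 1) [] false,
   Spec.mk (nat_lit 42255) (nat_lit 0) [nat_lit 29133, nat_lit 46629, nat_lit 40797, nat_lit 42741, nat_lit 42237, nat_lit 22573] (nat_lit 0) [] false,
   Spec.mk (nat_lit 42299) (nat_lit 3) [nat_lit 29177, nat_lit 46673, nat_lit 40841, nat_lit 43757, nat_lit 41813, nat_lit 42317, nat_lit 42305] (nat_lit 0) [] false,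
   Spec.mk (nat_lit 42305) (nat_lit 1) [nat_lit 29183, nat_lit 46679, nat_lit 40847, nat_lit 43763, nat_lit 41819, nat_lit 42323, nat_lit 42299, nat_lit 42307] (nat_lit 0) [] false,
   Spec.mk (nat_lit 42307) (nat_lit 1) [nat_lit 29185, nat_lit 46681, nat_lit 40849, nat_lit 43765, nat_lit 41821, nat_lit 42325, nat_lit 42305, nat_lit 22625] (nat_lit 0) [] false,
   Spec.mk (nat_lit 42317) (nat_lit 1) [nat_lit 29195, nat_lit 46691, nat_lit 40859, nat_lit 43775, nat_lit 41831, nat_lit 42371, nat_lit 42299, nat_lit 42323] (nat_lit 0) [] false,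
   Spec.mk (nat_lit 42323) (nat_lit 1) [nat_lit 29201, nat_lit 46697, nat_lit 40865, nat_lit 43781, nat_lit 41837, nat_lit 42377, nat_lit 42305, nat_lit 42341, nat_lit 42317, nat_lit 42329, nat_lit 42325] (nat_lit 0) [] false,
   Spec.mk (nat_lit 42325) (nat_lit 0) [nat_lit 29203, nat_lit 46699, nat_lit 40867, nat_lit 43783, nat_lit 41839, nat_lit 42379, nat_lit 42307, nat_lit 42343, nat_lit 42331, nat_lit 42323, nat_lit 22643] (nat_lit 0) [] false,
   Spec.mk (nat_lit 42329) (nat_lit 0) [nat_lit 29207, nat_lit 46703, nat_lit 40871, nat_lit 43787, nat_lit 41843, nat_lit 42383, nat_lit 42347, nat_lit 42323, nat_lit 42331] (nat_lit 1) [] false,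
   Spec.mk (nat_lit 42331) (nat_lit 0) [nat_lit 29209, nat_lit 46705, nat_lit 40873, nat_lit 43789, nat_lit 41845, nat_lit 42385, nat_lit 42349, nat_lit 42325, nat_lit 42329, nat_lit 42333, nat_lit 22649] (nat_lit 0) [] false,
   Spec.mk (nat_lit 42333) (nat_lit 0) [nat_lit 29211, nat_lit 46707, nat_lit 40875, nat_lit 43791, nat_lit 41847, nat_lit 42387, nat_lit 42351, nat_lit 42331, nat_lit 22651] (nat_lit 1) [] false,
   Spec.mk (nat_lit 42341) (nat_lit 0) [nat_lit 29219, nat_lit 46715, nat_lit 40883, nat_lit 43799, nat_lit 41855, nat_lit 42395, nat_lit 42323, nat_lit 42347, nat_lit 42343] (nat_lit 1) [] false,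
   Spec.mk (nat_lit 42343) (nat_lit 0) [nat_lit 29221, nat_lit 46717, nat_lit 40885, nat_lit 43801, nat_lit 41857, nat_lit 42397, nat_lit 42325, nat_lit 42349, nat_lit 42341, nat_lit 22661] (nat_lit 3) [] false,
   Spec.mk (nat_lit 42347) (nat_lit 0) [nat_lit 29225, nat_lit 46721, nat_lit 40889, nat_lit 43805, nat_lit 41861, nat_lit 42401, nat_lit 42329, nat_lit 42341, nat_lit 42349] (nat_lit 1) [] false,
   Spec.mk (nat_lit 42349) (nat_lit 0) [nat_lit 29227, nat_lit 46723, nat_lit 40891, nat_lit 43807, nat_lit 41863, nat_lit 42403, nat_lit 42331, nat_lit 42343, nat_lit 42355, nat_lit 42347, nat_lit 42351, nat_lit 22667] (nat_lit 1) [] false,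
   Spec.mk (nat_lit 42351) (nat_lit 0) [nat_lit 29229, nat_lit 46725, nat_lit 40893, nat_lit 43809, nat_lit 41865, nat_lit 42405, nat_lit 42333, nat_lit 42357, nat_lit 42349, nat_lit 22669] (nat_lit 3) [] false,
   Spec.mk (nat_lit 42355) (nat_lit 0) [nat_lit 29233, nat_lit 46729, nat_lit 40897, nat_lit 43813, nat_lit 41869, nat_lit 42409, nat_lit 42349, nat_lit 42357, nat_lit 22673] (nat_lit 1) [] false,
   Spec.mk (nat_lit 42357) (nat_lit 0) [nat_lit 29235, nat_lit 46731, nat_lit 40899, nat_lit 43815, nat_lit 41871, nat_lit 42411, nat_lit 42351, nat_lit 42355, nat_lit 22675] (nat_lit 1) [] false,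
   Spec.mk (nat_lit 42371) (nat_lit 1) [nat_lit 29249, nat_lit 46745, nat_lit 40913, nat_lit 43829, nat_lit 41885, nat_lit 42533, nat_lit 42317, nat_lit 42377] (nat_lit 0) [] false,
   Spec.mk (nat_lit 42377) (nat_lit 0) [nat_lit 29255, nat_lit 46751, nat_lit 40919, nat_lit 43835, nat_lit 41891, nat_lit 42539, nat_lit 42323, nat_lit 42395, nat_lit 42371, nat_lit 42383, nat_lit 42379] (nat_lit 0) [] false,
   Spec.mk (nat_lit 42379) (nat_lit 0) [nat_lit 29257, nat_lit 46753, nat_lit 40921, nat_lit 43837, nat_lit 41893, nat_lit 42541, nat_lit 42325, nat_lit 42397, nat_lit 42385, nat_lit 42377, nat_lit 22697] (nat_lit 1) [] false,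
   Spec.mk (nat_lit 42383) (nat_lit 0) [nat_lit 29261, nat_lit 46757, nat_lit 40925, nat_lit 43841, nat_lit 41897, nat_lit 42545, nat_lit 42329, nat_lit 42401, nat_lit 42377, nat_lit 42385] (nat_lit 3) [] false]

noncomputable def sp110 : List Spec :=
  [Spec.mk (nat_lit 42385) (nat_lit 0) [nat_lit 29263, nat_lit 46759, nat_lit 40927, nat_lit 43843, nat_lit 41899, nat_lit 42547, nat_lit 42331, nat_lit 42403, nat_lit 42379, nat_lit 42383, nat_lit 42387, nat_lit 22703] (nat_lit 2) [] false,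
   Spec.mk (nat_lit 42387) (nat_lit 0) [nat_lit 29265, nat_lit 46761, nat_lit 40929, nat_lit 43845, nat_lit 41901, nat_lit 42549, nat_lit 42333, nat_lit 42405, nat_lit 42385, nat_lit 22705] (nat_lit 3) [] false,
   Spec.mk (nat_lit 42395) (nat_lit 0) [nat_lit 29273, nat_lit 46769, nat_lit 40937, nat_lit 43853, nat_lit 41909, nat_lit 42557, nat_lit 42341, nat_lit 42449, nat_lit 42377, nat_lit 42401, nat_lit 42397] (nat_lit 0) [] false,
   Spec.mk (nat_lit 42397) (nat_lit 0) [nat_lit 29275, nat_lit 46771, nat_lit 40939, nat_lit 43855, nat_lit 41911, nat_lit 42559, nat_lit 42343, nat_lit 42451, nat_lit 42379, nat_lit 42403, nat_lit 42395, nat_lit 22715] (nat_lit 2) [] false,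
   Spec.mk (nat_lit 42401) (nat_lit 0) [nat_lit 29279, nat_lit 46775, nat_lit 40943, nat_lit 43859, nat_lit 41915, nat_lit 42563, nat_lit 42347, nat_lit 42455, nat_lit 42383, nat_lit 42419, nat_lit 42395, nat_lit 42403] (nat_lit 1) [] false,
   Spec.mk (nat_lit 42403) (nat_lit 0) [nat_lit 29281, nat_lit 46777, nat_lit 40945, nat_lit 43861, nat_lit 41917, nat_lit 42565, nat_lit 42349, nat_lit 42457, nat_lit 42385, nat_lit 42421, nat_lit 42397, nat_lit 42409, nat_lit 42401, nat_lit 42405, nat_lit 22721] (nat_lit 1) [] false,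
   Spec.mk (nat_lit 42405) (nat_lit 0) [nat_lit 29283, nat_lit 46779, nat_lit 40947, nat_lit 43863, nat_lit 41919, nat_lit 42567, nat_lit 42351, nat_lit 42459, nat_lit 42387, nat_lit 42423, nat_lit 42411, nat_lit 42403, nat_lit 22723] (nat_lit 3) [] false,
   Spec.mk (nat_lit 42409) (nat_lit 0) [nat_lit 29287, nat_lit 46783, nat_lit 40951, nat_lit 43867, nat_lit 41923, nat_lit 42571, nat_lit 42355, nat_lit 42463, nat_lit 42427, nat_lit 42403, nat_lit 42411, nat_lit 22727] (nat_lit 2) [] false,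
   Spec.mk (nat_lit 42411) (nat_lit 0) [nat_lit 29289, nat_lit 46785, nat_lit 40953, nat_lit 43869, nat_lit 41925, nat_lit 42573, nat_lit 42357, nat_lit 42465, nat_lit 42429, nat_lit 42405, nat_lit 42409, nat_lit 22729] (nat_lit 2) [] false,
   Spec.mk (nat_lit 42419) (nat_lit 0) [nat_lit 29297, nat_lit 46793, nat_lit 40961, nat_lit 43877, nat_lit 41933, nat_lit 42581, nat_lit 42473, nat_lit 42401, nat_lit 42421] (nat_lit 1) [] false,
   Spec.mk (nat_lit 42421) (nat_lit 0) [nat_lit 29299, nat_lit 46795, nat_lit 40963, nat_lit 43879, nat_lit 41935, nat_lit 42583, nat_lit 42475, nat_lit 42403, nat_lit 42427, nat_lit 42419, nat_lit 42423, nat_lit 22739] (nat_lit 2) [] false,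
   Spec.mk (nat_lit 42423) (nat_lit 0) [nat_lit 29301, nat_lit 46797, nat_lit 40965, nat_lit 43881, nat_lit 41937, nat_lit 42585, nat_lit 42477, nat_lit 42405, nat_lit 42429, nat_lit 42421, nat_lit 22741] (nat_lit 5) [] false,
   Spec.mk (nat_lit 42427) (nat_lit 0) [nat_lit 29305, nat_lit 46801, nat_lit 40969, nat_lit 43885, nat_lit 41941, nat_lit 42589, nat_lit 42481, nat_lit 42409, nat_lit 42421, nat_lit 42429, nat_lit 22745] (nat_lit 1) [] false,
   Spec.mk (nat_lit 42429) (nat_lit 0) [nat_lit 29307, nat_lit 46803, nat_lit 40971, nat_lit 43887, nat_lit 41943, nat_lit 42591, nat_lit 42483, nat_lit 42411, nat_lit 42423, nat_lit 42435, nat_lit 42427, nat_lit 22747] (nat_lit 2) [] false,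
   Spec.mk (nat_lit 42435) (nat_lit 0) [nat_lit 29313, nat_lit 46809, nat_lit 40977, nat_lit 43893, nat_lit 41949, nat_lit 42597, nat_lit 42489, nat_lit 42429, nat_lit 22753] (nat_lit 1) [] false,
   Spec.mk (nat_lit 42449) (nat_lit 0) [nat_lit 29327, nat_lit 46823, nat_lit 40991, nat_lit 43907, nat_lit 41963, nat_lit 42611, nat_lit 42395, nat_lit 42455, nat_lit 42451] (nat_lit 1) [] false,
   Spec.mk (nat_lit 42451) (nat_lit 0) [nat_lit 29329, nat_lit 46825, nat_lit 40993, nat_lit 43909, nat_lit 41965, nat_lit 42613, nat_lit 42397, nat_lit 42457, nat_lit 42449, nat_lit 22769] (nat_lit 3) [] false,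
   Spec.mk (nat_lit 42455) (nat_lit 0) [nat_lit 29333, nat_lit 46829, nat_lit 40997, nat_lit 43913, nat_lit 41969, nat_lit 42617, nat_lit 42401, nat_lit 42473, nat_lit 42449, nat_lit 42457] (nat_lit 3) [] false,
   Spec.mk (nat_lit 42457) (nat_lit 0) [nat_lit 29335, nat_lit 46831, nat_lit 40999, nat_lit 43915, nat_lit 41971, nat_lit 42619, nat_lit 42403, nat_lit 42475, nat_lit 42451, nat_lit 42463, nat_lit 42455, nat_lit 42459, nat_lit 22775] (nat_lit 3) [] false,
   Spec.mk (nat_lit 42459) (nat_lit 0) [nat_lit 29337, nat_lit 46833, nat_lit 41001, nat_lit 43917, nat_lit 41973, nat_lit 42621, nat_lit 42405, nat_lit 42477, nat_lit 42465, nat_lit 42457, nat_lit 22777] (nat_lit 5) [] false,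
   Spec.mk (nat_lit 42463) (nat_lit 0) [nat_lit 29341, nat_lit 46837, nat_lit 41005, nat_lit 43921, nat_lit 41977, nat_lit 42625, nat_lit 42409, nat_lit 42481, nat_lit 42457, nat_lit 42465, nat_lit 22781] (nat_lit 5) [] false,
   Spec.mk (nat_lit 42465) (nat_lit 0) [nat_lit 29343, nat_lit 46839, nat_lit 41007, nat_lit 43923, nat_lit 41979, nat_lit 42627, nat_lit 42411, nat_lit 42483, nat_lit 42459, nat_lit 42463, nat_lit 22783] (nat_lit 5) [] false,
   Spec.mk (nat_lit 42473) (nat_lit 0) [nat_lit 29351, nat_lit 46847, nat_lit 41015, nat_lit 43931, nat_lit 41987, nat_lit 42635, nat_lit 42419, nat_lit 42455, nat_lit 42475] (nat_lit 1) [] false,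
   Spec.mk (nat_lit 42475) (nat_lit 0) [nat_lit 29353, nat_lit 46849, nat_lit 41017, nat_lit 43933, nat_lit 41989, nat_lit 42637, nat_lit 42421, nat_lit 42457, nat_lit 42481, nat_lit 42473, nat_lit 42477, nat_lit 22793] (nat_lit 2) [] false,
   Spec.mk (nat_lit 42477) (nat_lit 0) [nat_lit 29355, nat_lit 46851, nat_lit 41019, nat_lit 43935, nat_lit 41991, nat_lit 42639, nat_lit 42423, nat_lit 42459, nat_lit 42483, nat_lit 42475, nat_lit 22795] (nat_lit 5) [] false,
   Spec.mk (nat_lit 42481) (nat_lit 0) [nat_lit 29359, nat_lit 46855, nat_lit 41023, nat_lit 43939, nat_lit 41995, nat_lit 42643, nat_lit 42427, nat_lit 42463, nat_lit 42499, nat_lit 42475, nat_lit 42483, nat_lit 22799] (nat_lit 2) [] false,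
   Spec.mk (nat_lit 42483) (nat_lit 0) [nat_lit 29361, nat_lit 46857, nat_lit 41025, nat_lit 43941, nat_lit 41997, nat_lit 42645, nat_lit 42429, nat_lit 42465, nat_lit 42501, nat_lit 42477, nat_lit 42489, nat_lit 42481, nat_lit 22801] (nat_lit 3) [] false,
   Spec.mk (nat_lit 42489) (nat_lit 0) [nat_lit 29367, nat_lit 46863, nat_lit 41031, nat_lit 43947, nat_lit 42003, nat_lit 42651, nat_lit 42435, nat_lit 42507, nat_lit 42483, nat_lit 22807] (nat_lit 3) [] false,
   Spec.mk (nat_lit 42499) (nat_lit 0) [nat_lit 29377, nat_lit 46873, nat_lit 41041, nat_lit 43957, nat_lit 42013, nat_lit 42661, nat_lit 42481, nat_lit 42501, nat_lit 22817] (nat_lit 1) [] false,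
   Spec.mk (nat_lit 42501) (nat_lit 0) [nat_lit 29379, nat_lit 46875, nat_lit 41043, nat_lit 43959, nat_lit 42015, nat_lit 42663, nat_lit 42483, nat_lit 42507, nat_lit 42499, nat_lit 22819] (nat_lit 3) [] false,
   Spec.mk (nat_lit 42507) (nat_lit 0) [nat_lit 29385, nat_lit 46881, nat_lit 41049, nat_lit 43965, nat_lit 42021, nat_lit 42669, nat_lit 42489, nat_lit 42501, nat_lit 22825] (nat_lit 1) [] false,
   Spec.mk (nat_lit 42533) (nat_lit 2) [nat_lit 29411, nat_lit 46907, nat_lit 41075, nat_lit 43991, nat_lit 42047, nat_lit 43019, nat_lit 42371, nat_lit 42539] (nat_lit 0) [] false,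
   Spec.mk (nat_lit 42539) (nat_lit 1) [nat_lit 29417, nat_lit 46913, nat_lit 41081, nat_lit 43997, nat_lit 42053, nat_lit 43025, nat_lit 42377, nat_lit 42557, nat_lit 42533, nat_lit 42545, nat_lit 42541] (nat_lit 0) [] false,
   Spec.mk (nat_lit 42541) (nat_lit 0) [nat_lit 29419, nat_lit 46915, nat_lit 41083, nat_lit 43999, nat_lit 42055, nat_lit 43027, nat_lit 42379, nat_lit 42559, nat_lit 42547, nat_lit 42539, nat_lit 22859] (nat_lit 0) [] false,
   Spec.mk (nat_lit 42545) (nat_lit 0) [nat_lit 29423, nat_lit 46919, nat_lit 41087, nat_lit 44003, nat_lit 42059, nat_lit 43031, nat_lit 42383, nat_lit 42563, nat_lit 42539, nat_lit 42547] (nat_lit 2) [] false,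
   Spec.mk (nat_lit 42547) (nat_lit 0) [nat_lit 29425, nat_lit 46921, nat_lit 41089, nat_lit 44005, nat_lit 42061, nat_lit 43033, nat_lit 42385, nat_lit 42565, nat_lit 42541, nat_lit 42545, nat_lit 42549, nat_lit 22865] (nat_lit 1) [] false,
   Spec.mk (nat_lit 42549) (nat_lit 0) [nat_lit 29427, nat_lit 46923, nat_lit 41091, nat_lit 44007, nat_lit 42063, nat_lit 43035, nat_lit 42387, nat_lit 42567, nat_lit 42547, nat_lit 22867] (nat_lit 2) [] false,
   Spec.mk (nat_lit 42557) (nat_lit 0) [nat_lit 29435, nat_lit 46931, nat_lit 41099, nat_lit 44015, nat_lit 42071, nat_lit 43043, nat_lit 42395, nat_lit 42611, nat_lit 42539, nat_lit 42563, nat_lit 42559] (nat_lit 0) [] false,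
   Spec.mk (nat_lit 42559) (nat_lit 0) [nat_lit 29437, nat_lit 46933, nat_lit 41101, nat_lit 44017, nat_lit 42073, nat_lit 43045, nat_lit 42397, nat_lit 42613, nat_lit 42541, nat_lit 42565, nat_lit 42557, nat_lit 22877] (nat_lit 2) [] false,
   Spec.mk (nat_lit 42563) (nat_lit 0) [nat_lit 29441, nat_lit 46937, nat_lit 41105, nat_lit 44021, nat_lit 42077, nat_lit 43049, nat_lit 42401, nat_lit 42617, nat_lit 42545, nat_lit 42581, nat_lit 42557, nat_lit 42565] (nat_lit 1) [] false,
   Spec.mk (nat_lit 42565) (nat_lit 0) [nat_lit 29443, nat_lit 46939, nat_lit 41107, nat_lit 44023, nat_lit 42079, nat_lit 43051, nat_lit 42403, nat_lit 42619, nat_lit 42547, nat_lit 42583, nat_lit 42559, nat_lit 42571, nat_lit 42563, nat_lit 42567, nat_lit 22883] (nat_lit 1) [] false,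
   Spec.mk (nat_lit 42567) (nat_lit 0) [nat_lit 29445, nat_lit 46941, nat_lit 41109, nat_lit 44025, nat_lit 42081, nat_lit 43053, nat_lit 42405, nat_lit 42621, nat_lit 42549, nat_lit 42585, nat_lit 42573, nat_lit 42565, nat_lit 22885] (nat_lit 3) [] false,
   Spec.mk (nat_lit 42571) (nat_lit 0) [nat_lit 29449, nat_lit 46945, nat_lit 41113, nat_lit 44029, nat_lit 42085, nat_lit 43057, nat_lit 42409, nat_lit 42625, nat_lit 42589, nat_lit 42565, nat_lit 42573, nat_lit 22889] (nat_lit 2) [] false,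
   Spec.mk (nat_lit 42573) (nat_lit 0) [nat_lit 29451, nat_lit 46947, nat_lit 41115, nat_lit 44031, nat_lit 42087, nat_lit 43059, nat_lit 42411, nat_lit 42627, nat_lit 42591, nat_lit 42567, nat_lit 42571, nat_lit 22891] (nat_lit 2) [] false,
   Spec.mk (nat_lit 42581) (nat_lit 0) [nat_lit 29459, nat_lit 46955, nat_lit 41123, nat_lit 44039, nat_lit 42095, nat_lit 43067, nat_lit 42419, nat_lit 42635, nat_lit 42563, nat_lit 42583] (nat_lit 2) [] false,
   Spec.mk (nat_lit 42583) (nat_lit 0) [nat_lit 29461, nat_lit 46957, nat_lit 41125, nat_lit 44041, nat_lit 42097, nat_lit 43069, nat_lit 42421, nat_lit 42637, nat_lit 42565, nat_lit 42589, nat_lit 42581, nat_lit 42585, nat_lit 22901] (nat_lit 3) [] false,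
   Spec.mk (nat_lit 42585) (nat_lit 0) [nat_lit 29463, nat_lit 46959, nat_lit 41127, nat_lit 44043, nat_lit 42099, nat_lit 43071, nat_lit 42423, nat_lit 42639, nat_lit 42567, nat_lit 42591, nat_lit 42583, nat_lit 22903] (nat_lit 6) [] false,
   Spec.mk (nat_lit 42589) (nat_lit 0) [nat_lit 29467, nat_lit 46963, nat_lit 41131, nat_lit 44047, nat_lit 42103, nat_lit 43075, nat_lit 42427, nat_lit 42643, nat_lit 42571, nat_lit 42583, nat_lit 42591, nat_lit 22907] (nat_lit 2) [] false,
   Spec.mk (nat_lit 42591) (nat_lit 0) [nat_lit 29469, nat_lit 46965, nat_lit 41133, nat_lit 44049, nat_lit 42105, nat_lit 43077, nat_lit 42429, nat_lit 42645, nat_lit 42573, nat_lit 42585, nat_lit 42597, nat_lit 42589, nat_lit 22909] (nat_lit 3) [] false,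
   Spec.mk (nat_lit 42597) (nat_lit 0) [nat_lit 29475, nat_lit 46971, nat_lit 41139, nat_lit 44055, nat_lit 42111, nat_lit 43083, nat_lit 42435, nat_lit 42651, nat_lit 42591, nat_lit 22915] (nat_lit 2) [] false,
   Spec.mk (nat_lit 42611) (nat_lit 1) [nat_lit 29489, nat_lit 46985, nat_lit 41153, nat_lit 44069, nat_lit 42125, nat_lit 43097, nat_lit 42449, nat_lit 42773, nat_lit 42557, nat_lit 42617, nat_lit 42613] (nat_lit 0) [] false,
   Spec.mk (nat_lit 42613) (nat_lit 0) [nat_lit 29491, nat_lit 46987, nat_lit 41155, nat_lit 44071, nat_lit 42127, nat_lit 43099, nat_lit 42451, nat_lit 42775, nat_lit 42559, nat_lit 42619, nat_lit 42611, nat_lit 22931] (nat_lit 1) [] false,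
   Spec.mk (nat_lit 42617) (nat_lit 0) [nat_lit 29495, nat_lit 46991, nat_lit 41159, nat_lit 44075, nat_lit 42131, nat_lit 43103, nat_lit 42455, nat_lit 42779, nat_lit 42563, nat_lit 42635, nat_lit 42611, nat_lit 42619] (nat_lit 1) [] false,
   Spec.mk (nat_lit 42619) (nat_lit 0) [nat_lit 29497, nat_lit 46993, nat_lit 41161, nat_lit 44077, nat_lit 42133, nat_lit 43105, nat_lit 42457, nat_lit 42781, nat_lit 42565, nat_lit 42637, nat_lit 42613, nat_lit 42625, nat_lit 42617, nat_lit 42621, nat_lit 22937] (nat_lit 1) [] false,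
   Spec.mk (nat_lit 42621) (nat_lit 0) [nat_lit 29499, nat_lit 46995, nat_lit 41163, nat_lit 44079, nat_lit 42135, nat_lit 43107, nat_lit 42459, nat_lit 42783, nat_lit 42567, nat_lit 42639, nat_lit 42627, nat_lit 42619, nat_lit 22939] (nat_lit 3) [] false,
   Spec.mk (nat_lit 42625) (nat_lit 0) [nat_lit 29503, nat_lit 46999, nat_lit 41167, nat_lit 44083, nat_lit 42139, nat_lit 43111, nat_lit 42463, nat_lit 42787, nat_lit 42571, nat_lit 42643, nat_lit 42619, nat_lit 42627, nat_lit 22943] (nat_lit 3) [] false,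
   Spec.mk (nat_lit 42627) (nat_lit 0) [nat_lit 29505, nat_lit 47001, nat_lit 41169, nat_lit 44085, nat_lit 42141, nat_lit 43113, nat_lit 42465, nat_lit 42789, nat_lit 42573, nat_lit 42645, nat_lit 42621, nat_lit 42625, nat_lit 22945] (nat_lit 3) [] false,
   Spec.mk (nat_lit 42635) (nat_lit 0) [nat_lit 29513, nat_lit 47009, nat_lit 41177, nat_lit 44093, nat_lit 42149, nat_lit 43121, nat_lit 42473, nat_lit 42797, nat_lit 42581, nat_lit 42689, nat_lit 42617, nat_lit 42637] (nat_lit 0) [] false,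
   Spec.mk (nat_lit 42637) (nat_lit 0) [nat_lit 29515, nat_lit 47011, nat_lit 41179, nat_lit 44095, nat_lit 42151, nat_lit 43123, nat_lit 42475, nat_lit 42799, nat_lit 42583, nat_lit 42691, nat_lit 42619, nat_lit 42643, nat_lit 42635, nat_lit 42639, nat_lit 22955] (nat_lit 1) [] false,
   Spec.mk (nat_lit 42639) (nat_lit 0) [nat_lit 29517, nat_lit 47013, nat_lit 41181, nat_lit 44097, nat_lit 42153, nat_lit 43125, nat_lit 42477, nat_lit 42801, nat_lit 42585, nat_lit 42693, nat_lit 42621, nat_lit 42645, nat_lit 42637, nat_lit 22957] (nat_lit 4) [] false]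

noncomputable def sp111 : List Spec :=
  [Spec.mk (nat_lit 42643) (nat_lit 0) [nat_lit 29521, nat_lit 47017, nat_lit 41185, nat_lit 44101, nat_lit 42157, nat_lit 43129, nat_lit 42481, nat_lit 42805, nat_lit 42589, nat_lit 42697, nat_lit 42625, nat_lit 42661, nat_lit 42637, nat_lit 42645, nat_lit 22961] (nat_lit 1) [] false,
   Spec.mk (nat_lit 42645) (nat_lit 0) [nat_lit 29523, nat_lit 47019, nat_lit 41187, nat_lit 44103, nat_lit 42159, nat_lit 43131, nat_lit 42483, nat_lit 42807, nat_lit 42591, nat_lit 42699, nat_lit 42627, nat_lit 42663, nat_lit 42639, nat_lit 42651, nat_lit 42643, nat_lit 22963] (nat_lit 2) [] false,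
   Spec.mk (nat_lit 42651) (nat_lit 0) [nat_lit 29529, nat_lit 47025, nat_lit 41193, nat_lit 44109, nat_lit 42165, nat_lit 43137, nat_lit 42489, nat_lit 42813, nat_lit 42597, nat_lit 42705, nat_lit 42669, nat_lit 42645, nat_lit 22969] (nat_lit 2) [] false,
   Spec.mk (nat_lit 42661) (nat_lit 0) [nat_lit 29539, nat_lit 47035, nat_lit 41203, nat_lit 44119, nat_lit 42175, nat_lit 43147, nat_lit 42499, nat_lit 42823, nat_lit 42715, nat_lit 42643, nat_lit 42663, nat_lit 22979] (nat_lit 1) [] false,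
   Spec.mk (nat_lit 42663) (nat_lit 0) [nat_lit 29541, nat_lit 47037, nat_lit 41205, nat_lit 44121, nat_lit 42177, nat_lit 43149, nat_lit 42501, nat_lit 42825, nat_lit 42717, nat_lit 42645, nat_lit 42669, nat_lit 42661, nat_lit 22981] (nat_lit 3) [] false,
   Spec.mk (nat_lit 42669) (nat_lit 0) [nat_lit 29547, nat_lit 47043, nat_lit 41211, nat_lit 44127, nat_lit 42183, nat_lit 43155, nat_lit 42507, nat_lit 42831, nat_lit 42723, nat_lit 42651, nat_lit 42663, nat_lit 22987] (nat_lit 1) [] false,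
   Spec.mk (nat_lit 42689) (nat_lit 0) [nat_lit 29567, nat_lit 47063, nat_lit 41231, nat_lit 44147, nat_lit 42203, nat_lit 43175, nat_lit 42851, nat_lit 42635, nat_lit 42691] (nat_lit 0) [] false,
   Spec.mk (nat_lit 42691) (nat_lit 0) [nat_lit 29569, nat_lit 47065, nat_lit 41233, nat_lit 44149, nat_lit 42205, nat_lit 43177, nat_lit 42853, nat_lit 42637, nat_lit 42697, nat_lit 42689, nat_lit 42693, nat_lit 23009] (nat_lit 1) [] false,
   Spec.mk (nat_lit 42693) (nat_lit 0) [nat_lit 29571, nat_lit 47067, nat_lit 41235, nat_lit 44151, nat_lit 42207, nat_lit 43179, nat_lit 42855, nat_lit 42639, nat_lit 42699, nat_lit 42691, nat_lit 23011] (nat_lit 4) [] false,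
   Spec.mk (nat_lit 42697) (nat_lit 0) [nat_lit 29575, nat_lit 47071, nat_lit 41239, nat_lit 44155, nat_lit 42211, nat_lit 43183, nat_lit 42859, nat_lit 42643, nat_lit 42715, nat_lit 42691, nat_lit 42699, nat_lit 23015] (nat_lit 2) [] false,
   Spec.mk (nat_lit 42699) (nat_lit 0) [nat_lit 29577, nat_lit 47073, nat_lit 41241, nat_lit 44157, nat_lit 42213, nat_lit 43185, nat_lit 42861, nat_lit 42645, nat_lit 42717, nat_lit 42693, nat_lit 42705, nat_lit 42697, nat_lit 23017] (nat_lit 3) [] false,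
   Spec.mk (nat_lit 42705) (nat_lit 0) [nat_lit 29583, nat_lit 47079, nat_lit 41247, nat_lit 44163, nat_lit 42219, nat_lit 43191, nat_lit 42867, nat_lit 42651, nat_lit 42723, nat_lit 42699, nat_lit 23023] (nat_lit 4) [] false,
   Spec.mk (nat_lit 42715) (nat_lit 0) [nat_lit 29593, nat_lit 47089, nat_lit 41257, nat_lit 44173, nat_lit 42229, nat_lit 43201, nat_lit 42877, nat_lit 42661, nat_lit 42697, nat_lit 42717, nat_lit 23033] (nat_lit 0) [] false,
   Spec.mk (nat_lit 42717) (nat_lit 0) [nat_lit 29595, nat_lit 47091, nat_lit 41259, nat_lit 44175, nat_lit 42231, nat_lit 43203, nat_lit 42879, nat_lit 42663, nat_lit 42699, nat_lit 42723, nat_lit 42715, nat_lit 23035] (nat_lit 2) [] false,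
   Spec.mk (nat_lit 42723) (nat_lit 0) [nat_lit 29601, nat_lit 47097, nat_lit 41265, nat_lit 44181, nat_lit 42237, nat_lit 43209, nat_lit 42885, nat_lit 42669, nat_lit 42705, nat_lit 42741, nat_lit 42717, nat_lit 23041] (nat_lit 1) [] false,
   Spec.mk (nat_lit 42741) (nat_lit 0) [nat_lit 29619, nat_lit 47115, nat_lit 41283, nat_lit 44199, nat_lit 42255, nat_lit 43227, nat_lit 42903, nat_lit 42723, nat_lit 23059] (nat_lit 0) [] false,
   Spec.mk (nat_lit 42773) (nat_lit 1) [nat_lit 29651, nat_lit 47147, nat_lit 41315, nat_lit 44231, nat_lit 43259, nat_lit 42611, nat_lit 42779, nat_lit 42775] (nat_lit 0) [] false,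
   Spec.mk (nat_lit 42775) (nat_lit 0) [nat_lit 29653, nat_lit 47149, nat_lit 41317, nat_lit 44233, nat_lit 43261, nat_lit 42613, nat_lit 42781, nat_lit 42773, nat_lit 23093] (nat_lit 1) [] false,
   Spec.mk (nat_lit 42779) (nat_lit 0) [nat_lit 29657, nat_lit 47153, nat_lit 41321, nat_lit 44237, nat_lit 43265, nat_lit 42617, nat_lit 42797, nat_lit 42773, nat_lit 42781] (nat_lit 1) [] false,
   Spec.mk (nat_lit 42781) (nat_lit 0) [nat_lit 29659, nat_lit 47155, nat_lit 41323, nat_lit 44239, nat_lit 43267, nat_lit 42619, nat_lit 42799, nat_lit 42775, nat_lit 42787, nat_lit 42779, nat_lit 42783, nat_lit 23099] (nat_lit 1) [] false,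
   Spec.mk (nat_lit 42783) (nat_lit 0) [nat_lit 29661, nat_lit 47157, nat_lit 41325, nat_lit 44241, nat_lit 43269, nat_lit 42621, nat_lit 42801, nat_lit 42789, nat_lit 42781, nat_lit 23101] (nat_lit 3) [] false,
   Spec.mk (nat_lit 42787) (nat_lit 0) [nat_lit 29665, nat_lit 47161, nat_lit 41329, nat_lit 44245, nat_lit 43273, nat_lit 42625, nat_lit 42805, nat_lit 42781, nat_lit 42789, nat_lit 23105] (nat_lit 3) [] false,
   Spec.mk (nat_lit 42789) (nat_lit 0) [nat_lit 29667, nat_lit 47163, nat_lit 41331, nat_lit 44247, nat_lit 43275, nat_lit 42627, nat_lit 42807, nat_lit 42783, nat_lit 42787, nat_lit 23107] (nat_lit 3) [] false,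
   Spec.mk (nat_lit 42797) (nat_lit 0) [nat_lit 29675, nat_lit 47171, nat_lit 41339, nat_lit 44255, nat_lit 43283, nat_lit 42635, nat_lit 42851, nat_lit 42779, nat_lit 42799] (nat_lit 1) [] false,
   Spec.mk (nat_lit 42799) (nat_lit 0) [nat_lit 29677, nat_lit 47173, nat_lit 41341, nat_lit 44257, nat_lit 43285, nat_lit 42637, nat_lit 42853, nat_lit 42781, nat_lit 42805, nat_lit 42797, nat_lit 42801, nat_lit 23117] (nat_lit 2) [] false,
   Spec.mk (nat_lit 42801) (nat_lit 0) [nat_lit 29679, nat_lit 47175, nat_lit 41343, nat_lit 44259, nat_lit 43287, nat_lit 42639, nat_lit 42855, nat_lit 42783, nat_lit 42807, nat_lit 42799, nat_lit 23119] (nat_lit 5) [] false,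
   Spec.mk (nat_lit 42805) (nat_lit 0) [nat_lit 29683, nat_lit 47179, nat_lit 41347, nat_lit 44263, nat_lit 43291, nat_lit 42643, nat_lit 42859, nat_lit 42787, nat_lit 42823, nat_lit 42799, nat_lit 42807, nat_lit 23123] (nat_lit 2) [] false,
   Spec.mk (nat_lit 42807) (nat_lit 0) [nat_lit 29685, nat_lit 47181, nat_lit 41349, nat_lit 44265, nat_lit 43293, nat_lit 42645, nat_lit 42861, nat_lit 42789, nat_lit 42825, nat_lit 42801, nat_lit 42813, nat_lit 42805, nat_lit 23125] (nat_lit 3) [] false,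
   Spec.mk (nat_lit 42813) (nat_lit 0) [nat_lit 29691, nat_lit 47187, nat_lit 41355, nat_lit 44271, nat_lit 43299, nat_lit 42651, nat_lit 42867, nat_lit 42831, nat_lit 42807, nat_lit 23131] (nat_lit 3) [] false,
   Spec.mk (nat_lit 42823) (nat_lit 0) [nat_lit 29701, nat_lit 47197, nat_lit 41365, nat_lit 44281, nat_lit 43309, nat_lit 42661, nat_lit 42877, nat_lit 42805, nat_lit 42825, nat_lit 23141] (nat_lit 3) [] false,
   Spec.mk (nat_lit 42825) (nat_lit 0) [nat_lit 29703, nat_lit 47199, nat_lit 41367, nat_lit 44283, nat_lit 43311, nat_lit 42663, nat_lit 42879, nat_lit 42807, nat_lit 42831, nat_lit 42823, nat_lit 23143] (nat_lit 5) [] false,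
   Spec.mk (nat_lit 42831) (nat_lit 0) [nat_lit 29709, nat_lit 47205, nat_lit 41373, nat_lit 44289, nat_lit 43317, nat_lit 42669, nat_lit 42885, nat_lit 42813, nat_lit 42825, nat_lit 23149] (nat_lit 3) [] false,
   Spec.mk (nat_lit 42851) (nat_lit 1) [nat_lit 29729, nat_lit 47225, nat_lit 41393, nat_lit 44309, nat_lit 43337, nat_lit 42689, nat_lit 42797, nat_lit 42853] (nat_lit 0) [] false,
   Spec.mk (nat_lit 42853) (nat_lit 0) [nat_lit 29731, nat_lit 47227, nat_lit 41395, nat_lit 44311, nat_lit 43339, nat_lit 42691, nat_lit 42799, nat_lit 42859, nat_lit 42851, nat_lit 42855, nat_lit 23171] (nat_lit 0) [] false,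
   Spec.mk (nat_lit 42855) (nat_lit 0) [nat_lit 29733, nat_lit 47229, nat_lit 41397, nat_lit 44313, nat_lit 43341, nat_lit 42693, nat_lit 42801, nat_lit 42861, nat_lit 42853, nat_lit 23173] (nat_lit 3) [] false,
   Spec.mk (nat_lit 42859) (nat_lit 0) [nat_lit 29737, nat_lit 47233, nat_lit 41401, nat_lit 44317, nat_lit 43345, nat_lit 42697, nat_lit 42805, nat_lit 42877, nat_lit 42853, nat_lit 42861, nat_lit 23177] (nat_lit 1) [] false,
   Spec.mk (nat_lit 42861) (nat_lit 0) [nat_lit 29739, nat_lit 47235, nat_lit 41403, nat_lit 44319, nat_lit 43347, nat_lit 42699, nat_lit 42807, nat_lit 42879, nat_lit 42855, nat_lit 42867, nat_lit 42859, nat_lit 23179] (nat_lit 2) [] false,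
   Spec.mk (nat_lit 42867) (nat_lit 0) [nat_lit 29745, nat_lit 47241, nat_lit 41409, nat_lit 44325, nat_lit 43353, nat_lit 42705, nat_lit 42813, nat_lit 42885, nat_lit 42861, nat_lit 23185] (nat_lit 3) [] false,
   Spec.mk (nat_lit 42877) (nat_lit 0) [nat_lit 29755, nat_lit 47251, nat_lit 41419, nat_lit 44335, nat_lit 43363, nat_lit 42715, nat_lit 42823, nat_lit 42931, nat_lit 42859, nat_lit 42879, nat_lit 23195] (nat_lit 0) [] false,
   Spec.mk (nat_lit 42879) (nat_lit 0) [nat_lit 29757, nat_lit 47253, nat_lit 41421, nat_lit 44337, nat_lit 43365, nat_lit 42717, nat_lit 42825, nat_lit 42933, nat_lit 42861, nat_lit 42885, nat_lit 42877, nat_lit 23197] (nat_lit 2) [] false,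
   Spec.mk (nat_lit 42885) (nat_lit 0) [nat_lit 29763, nat_lit 47259, nat_lit 41427, nat_lit 44343, nat_lit 43371, nat_lit 42723, nat_lit 42831, nat_lit 42939, nat_lit 42867, nat_lit 42903, nat_lit 42879, nat_lit 23203] (nat_lit 1) [] false,
   Spec.mk (nat_lit 42903) (nat_lit 0) [nat_lit 29781, nat_lit 47277, nat_lit 41445, nat_lit 44361, nat_lit 43389, nat_lit 42741, nat_lit 42957, nat_lit 42885, nat_lit 23221] (nat_lit 1) [] false,
   Spec.mk (nat_lit 42931) (nat_lit 1) [nat_lit 29809, nat_lit 47305, nat_lit 41473, nat_lit 44389, nat_lit 43417, nat_lit 42877, nat_lit 42933, nat_lit 23249] (nat_lit 0) [] false,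
   Spec.mk (nat_lit 42933) (nat_lit 0) [nat_lit 29811, nat_lit 47307, nat_lit 41475, nat_lit 44391, nat_lit 43419, nat_lit 42879, nat_lit 42939, nat_lit 42931, nat_lit 23251] (nat_lit 1) [] false,
   Spec.mk (nat_lit 42939) (nat_lit 0) [nat_lit 29817, nat_lit 47313, nat_lit 41481, nat_lit 44397, nat_lit 43425, nat_lit 42885, nat_lit 42957, nat_lit 42933, nat_lit 23257] (nat_lit 1) [] false,
   Spec.mk (nat_lit 42957) (nat_lit 1) [nat_lit 29835, nat_lit 47331, nat_lit 41499, nat_lit 44415, nat_lit 43443, nat_lit 42903, nat_lit 42939, nat_lit 23275] (nat_lit 0) [] false,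
   Spec.mk (nat_lit 43019) (nat_lit 2) [nat_lit 29897, nat_lit 47393, nat_lit 44477, nat_lit 42533, nat_lit 43025] (nat_lit 0) [] false,
   Spec.mk (nat_lit 43025) (nat_lit 1) [nat_lit 29903, nat_lit 47399, nat_lit 44483, nat_lit 42539, nat_lit 43043, nat_lit 43019, nat_lit 43031, nat_lit 43027] (nat_lit 0) [] false,
   Spec.mk (nat_lit 43027) (nat_lit 0) [nat_lit 29905, nat_lit 47401, nat_lit 44485, nat_lit 42541, nat_lit 43045, nat_lit 43033, nat_lit 43025, nat_lit 23345] (nat_lit 0) [] false,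
   Spec.mk (nat_lit 43031) (nat_lit 0) [nat_lit 29909, nat_lit 47405, nat_lit 44489, nat_lit 42545, nat_lit 43049, nat_lit 43025, nat_lit 43033] (nat_lit 2) [] false,
   Spec.mk (nat_lit 43033) (nat_lit 0) [nat_lit 29911, nat_lit 47407, nat_lit 44491, nat_lit 42547, nat_lit 43051, nat_lit 43027, nat_lit 43031, nat_lit 43035, nat_lit 23351] (nat_lit 1) [] false,
   Spec.mk (nat_lit 43035) (nat_lit 0) [nat_lit 29913, nat_lit 47409, nat_lit 44493, nat_lit 42549, nat_lit 43053, nat_lit 43033, nat_lit 23353] (nat_lit 2) [] false,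
   Spec.mk (nat_lit 43043) (nat_lit 0) [nat_lit 29921, nat_lit 47417, nat_lit 44501, nat_lit 42557, nat_lit 43097, nat_lit 43025, nat_lit 43049, nat_lit 43045] (nat_lit 0) [] false,
   Spec.mk (nat_lit 43045) (nat_lit 0) [nat_lit 29923, nat_lit 47419, nat_lit 44503, nat_lit 42559, nat_lit 43099, nat_lit 43027, nat_lit 43051, nat_lit 43043, nat_lit 23363] (nat_lit 2) [] false,
   Spec.mk (nat_lit 43049) (nat_lit 0) [nat_lit 29927, nat_lit 47423, nat_lit 44507, nat_lit 42563, nat_lit 43103, nat_lit 43031, nat_lit 43067, nat_lit 43043, nat_lit 43051] (nat_lit 1) [] false,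
   Spec.mk (nat_lit 43051) (nat_lit 0) [nat_lit 29929, nat_lit 47425, nat_lit 44509, nat_lit 42565, nat_lit 43105, nat_lit 43033, nat_lit 43069, nat_lit 43045, nat_lit 43057, nat_lit 43049, nat_lit 43053, nat_lit 23369] (nat_lit 1) [] false,
   Spec.mk (nat_lit 43053) (nat_lit 0) [nat_lit 29931, nat_lit 47427, nat_lit 44511, nat_lit 42567, nat_lit 43107, nat_lit 43035, nat_lit 43071, nat_lit 43059, nat_lit 43051, nat_lit 23371] (nat_lit 3) [] false,
   Spec.mk (nat_lit 43057) (nat_lit 0) [nat_lit 29935, nat_lit 47431, nat_lit 44515, nat_lit 42571, nat_lit 43111, nat_lit 43075, nat_lit 43051, nat_lit 43059, nat_lit 23375] (nat_lit 2) [] false,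
   Spec.mk (nat_lit 43059) (nat_lit 0) [nat_lit 29937, nat_lit 47433, nat_lit 44517, nat_lit 42573, nat_lit 43113, nat_lit 43077, nat_lit 43053, nat_lit 43057, nat_lit 23377] (nat_lit 2) [] false,
   Spec.mk (nat_lit 43067) (nat_lit 0) [nat_lit 29945, nat_lit 47441, nat_lit 44525, nat_lit 42581, nat_lit 43121, nat_lit 43049, nat_lit 43069] (nat_lit 2) [] false]

noncomputable def sp112 : List Spec :=
  [Spec.mk (nat_lit 43069) (nat_lit 0) [nat_lit 29947, nat_lit 47443, nat_lit 44527, nat_lit 42583, nat_lit 43123, nat_lit 43051, nat_lit 43075, nat_lit 43067, nat_lit 43071, nat_lit 23387] (nat_lit 3) [] false,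
   Spec.mk (nat_lit 43071) (nat_lit 0) [nat_lit 29949, nat_lit 47445, nat_lit 44529, nat_lit 42585, nat_lit 43125, nat_lit 43053, nat_lit 43077, nat_lit 43069, nat_lit 23389] (nat_lit 6) [] false,
   Spec.mk (nat_lit 43075) (nat_lit 0) [nat_lit 29953, nat_lit 47449, nat_lit 44533, nat_lit 42589, nat_lit 43129, nat_lit 43057, nat_lit 43069, nat_lit 43077, nat_lit 23393] (nat_lit 2) [] false,
   Spec.mk (nat_lit 43077) (nat_lit 0) [nat_lit 29955, nat_lit 47451, nat_lit 44535, nat_lit 42591, nat_lit 43131, nat_lit 43059, nat_lit 43071, nat_lit 43083, nat_lit 43075, nat_lit 23395] (nat_lit 3) [] false,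
   Spec.mk (nat_lit 43083) (nat_lit 0) [nat_lit 29961, nat_lit 47457, nat_lit 44541, nat_lit 42597, nat_lit 43137, nat_lit 43077, nat_lit 23401] (nat_lit 2) [] false,
   Spec.mk (nat_lit 43097) (nat_lit 0) [nat_lit 29975, nat_lit 47471, nat_lit 44555, nat_lit 42611, nat_lit 43259, nat_lit 43043, nat_lit 43103, nat_lit 43099] (nat_lit 0) [] false,
   Spec.mk (nat_lit 43099) (nat_lit 0) [nat_lit 29977, nat_lit 47473, nat_lit 44557, nat_lit 42613, nat_lit 43261, nat_lit 43045, nat_lit 43105, nat_lit 43097, nat_lit 23417] (nat_lit 2) [] false,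
   Spec.mk (nat_lit 43103) (nat_lit 0) [nat_lit 29981, nat_lit 47477, nat_lit 44561, nat_lit 42617, nat_lit 43265, nat_lit 43049, nat_lit 43121, nat_lit 43097, nat_lit 43105] (nat_lit 2) [] false,
   Spec.mk (nat_lit 43105) (nat_lit 0) [nat_lit 29983, nat_lit 47479, nat_lit 44563, nat_lit 42619, nat_lit 43267, nat_lit 43051, nat_lit 43123, nat_lit 43099, nat_lit 43111, nat_lit 43103, nat_lit 43107, nat_lit 23423] (nat_lit 2) [] false,
   Spec.mk (nat_lit 43107) (nat_lit 0) [nat_lit 29985, nat_lit 47481, nat_lit 44565, nat_lit 42621, nat_lit 43269, nat_lit 43053, nat_lit 43125, nat_lit 43113, nat_lit 43105, nat_lit 23425] (nat_lit 4) [] false,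
   Spec.mk (nat_lit 43111) (nat_lit 0) [nat_lit 29989, nat_lit 47485, nat_lit 44569, nat_lit 42625, nat_lit 43273, nat_lit 43057, nat_lit 43129, nat_lit 43105, nat_lit 43113, nat_lit 23429] (nat_lit 4) [] false,
   Spec.mk (nat_lit 43113) (nat_lit 0) [nat_lit 29991, nat_lit 47487, nat_lit 44571, nat_lit 42627, nat_lit 43275, nat_lit 43059, nat_lit 43131, nat_lit 43107, nat_lit 43111, nat_lit 23431] (nat_lit 4) [] false,
   Spec.mk (nat_lit 43121) (nat_lit 0) [nat_lit 29999, nat_lit 47495, nat_lit 44579, nat_lit 42635, nat_lit 43283, nat_lit 43067, nat_lit 43175, nat_lit 43103, nat_lit 43123] (nat_lit 1) [] false,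
   Spec.mk (nat_lit 43123) (nat_lit 0) [nat_lit 30001, nat_lit 47497, nat_lit 44581, nat_lit 42637, nat_lit 43285, nat_lit 43069, nat_lit 43177, nat_lit 43105, nat_lit 43129, nat_lit 43121, nat_lit 43125, nat_lit 23441] (nat_lit 2) [] false,
   Spec.mk (nat_lit 43125) (nat_lit 0) [nat_lit 30003, nat_lit 47499, nat_lit 44583, nat_lit 42639, nat_lit 43287, nat_lit 43071, nat_lit 43179, nat_lit 43107, nat_lit 43131, nat_lit 43123, nat_lit 23443] (nat_lit 5) [] false,
   Spec.mk (nat_lit 43129) (nat_lit 0) [nat_lit 30007, nat_lit 47503, nat_lit 44587, nat_lit 42643, nat_lit 43291, nat_lit 43075, nat_lit 43183, nat_lit 43111, nat_lit 43147, nat_lit 43123, nat_lit 43131, nat_lit 23447] (nat_lit 2) [] false,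
   Spec.mk (nat_lit 43131) (nat_lit 0) [nat_lit 30009, nat_lit 47505, nat_lit 44589, nat_lit 42645, nat_lit 43293, nat_lit 43077, nat_lit 43185, nat_lit 43113, nat_lit 43149, nat_lit 43125, nat_lit 43137, nat_lit 43129, nat_lit 23449] (nat_lit 3) [] false,
   Spec.mk (nat_lit 43137) (nat_lit 0) [nat_lit 30015, nat_lit 47511, nat_lit 44595, nat_lit 42651, nat_lit 43299, nat_lit 43083, nat_lit 43191, nat_lit 43155, nat_lit 43131, nat_lit 23455] (nat_lit 3) [] false,
   Spec.mk (nat_lit 43147) (nat_lit 0) [nat_lit 30025, nat_lit 47521, nat_lit 44605, nat_lit 42661, nat_lit 43309, nat_lit 43201, nat_lit 43129, nat_lit 43149, nat_lit 23465] (nat_lit 2) [] false,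
   Spec.mk (nat_lit 43149) (nat_lit 0) [nat_lit 30027, nat_lit 47523, nat_lit 44607, nat_lit 42663, nat_lit 43311, nat_lit 43203, nat_lit 43131, nat_lit 43155, nat_lit 43147, nat_lit 23467] (nat_lit 4) [] false,
   Spec.mk (nat_lit 43155) (nat_lit 0) [nat_lit 30033, nat_lit 47529, nat_lit 44613, nat_lit 42669, nat_lit 43317, nat_lit 43209, nat_lit 43137, nat_lit 43149, nat_lit 23473] (nat_lit 2) [] false,
   Spec.mk (nat_lit 43175) (nat_lit 0) [nat_lit 30053, nat_lit 47549, nat_lit 44633, nat_lit 42689, nat_lit 43337, nat_lit 43121, nat_lit 43177] (nat_lit 2) [] false,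
   Spec.mk (nat_lit 43177) (nat_lit 0) [nat_lit 30055, nat_lit 47551, nat_lit 44635, nat_lit 42691, nat_lit 43339, nat_lit 43123, nat_lit 43183, nat_lit 43175, nat_lit 43179, nat_lit 23495] (nat_lit 3) [] false,
   Spec.mk (nat_lit 43179) (nat_lit 0) [nat_lit 30057, nat_lit 47553, nat_lit 44637, nat_lit 42693, nat_lit 43341, nat_lit 43125, nat_lit 43185, nat_lit 43177, nat_lit 23497] (nat_lit 6) [] false,
   Spec.mk (nat_lit 43183) (nat_lit 0) [nat_lit 30061, nat_lit 47557, nat_lit 44641, nat_lit 42697, nat_lit 43345, nat_lit 43129, nat_lit 43201, nat_lit 43177, nat_lit 43185, nat_lit 23501] (nat_lit 4) [] false,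
   Spec.mk (nat_lit 43185) (nat_lit 0) [nat_lit 30063, nat_lit 47559, nat_lit 44643, nat_lit 42699, nat_lit 43347, nat_lit 43131, nat_lit 43203, nat_lit 43179, nat_lit 43191, nat_lit 43183, nat_lit 23503] (nat_lit 5) [] false,
   Spec.mk (nat_lit 43191) (nat_lit 0) [nat_lit 30069, nat_lit 47565, nat_lit 44649, nat_lit 42705, nat_lit 43353, nat_lit 43137, nat_lit 43209, nat_lit 43185, nat_lit 23509] (nat_lit 6) [] false,
   Spec.mk (nat_lit 43201) (nat_lit 0) [nat_lit 30079, nat_lit 47575, nat_lit 44659, nat_lit 42715, nat_lit 43363, nat_lit 43147, nat_lit 43183, nat_lit 43203, nat_lit 23519] (nat_lit 2) [] false,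
   Spec.mk (nat_lit 43203) (nat_lit 0) [nat_lit 30081, nat_lit 47577, nat_lit 44661, nat_lit 42717, nat_lit 43365, nat_lit 43149, nat_lit 43185, nat_lit 43209, nat_lit 43201, nat_lit 23521] (nat_lit 4) [] false,
   Spec.mk (nat_lit 43209) (nat_lit 0) [nat_lit 30087, nat_lit 47583, nat_lit 44667, nat_lit 42723, nat_lit 43371, nat_lit 43155, nat_lit 43191, nat_lit 43227, nat_lit 43203, nat_lit 23527] (nat_lit 3) [] false,
   Spec.mk (nat_lit 43227) (nat_lit 0) [nat_lit 30105, nat_lit 47601, nat_lit 44685, nat_lit 42741, nat_lit 43389, nat_lit 43209, nat_lit 23545] (nat_lit 2) [] false,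
   Spec.mk (nat_lit 43259) (nat_lit 2) [nat_lit 30137, nat_lit 47633, nat_lit 44717, nat_lit 42773, nat_lit 43097, nat_lit 43265, nat_lit 43261] (nat_lit 0) [] false,
   Spec.mk (nat_lit 43261) (nat_lit 0) [nat_lit 30139, nat_lit 47635, nat_lit 44719, nat_lit 42775, nat_lit 43099, nat_lit 43267, nat_lit 43259, nat_lit 23579] (nat_lit 0) [] false,
   Spec.mk (nat_lit 43265) (nat_lit 0) [nat_lit 30143, nat_lit 47639, nat_lit 44723, nat_lit 42779, nat_lit 43103, nat_lit 43283, nat_lit 43259, nat_lit 43267] (nat_lit 0) [] false,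
   Spec.mk (nat_lit 43267) (nat_lit 0) [nat_lit 30145, nat_lit 47641, nat_lit 44725, nat_lit 42781, nat_lit 43105, nat_lit 43285, nat_lit 43261, nat_lit 43273, nat_lit 43265, nat_lit 43269, nat_lit 23585] (nat_lit 0) [] false,
   Spec.mk (nat_lit 43269) (nat_lit 0) [nat_lit 30147, nat_lit 47643, nat_lit 44727, nat_lit 42783, nat_lit 43107, nat_lit 43287, nat_lit 43275, nat_lit 43267, nat_lit 23587] (nat_lit 2) [] false,
   Spec.mk (nat_lit 43273) (nat_lit 0) [nat_lit 30151, nat_lit 47647, nat_lit 44731, nat_lit 42787, nat_lit 43111, nat_lit 43291, nat_lit 43267, nat_lit 43275, nat_lit 23591] (nat_lit 2) [] false,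
   Spec.mk (nat_lit 43275) (nat_lit 0) [nat_lit 30153, nat_lit 47649, nat_lit 44733, nat_lit 42789, nat_lit 43113, nat_lit 43293, nat_lit 43269, nat_lit 43273, nat_lit 23593] (nat_lit 2) [] false,
   Spec.mk (nat_lit 43283) (nat_lit 0) [nat_lit 30161, nat_lit 47657, nat_lit 44741, nat_lit 42797, nat_lit 43121, nat_lit 43337, nat_lit 43265, nat_lit 43285] (nat_lit 0) [] false,
   Spec.mk (nat_lit 43285) (nat_lit 0) [nat_lit 30163, nat_lit 47659, nat_lit 44743, nat_lit 42799, nat_lit 43123, nat_lit 43339, nat_lit 43267, nat_lit 43291, nat_lit 43283, nat_lit 43287, nat_lit 23603] (nat_lit 1) [] false,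
   Spec.mk (nat_lit 43287) (nat_lit 0) [nat_lit 30165, nat_lit 47661, nat_lit 44745, nat_lit 42801, nat_lit 43125, nat_lit 43341, nat_lit 43269, nat_lit 43293, nat_lit 43285, nat_lit 23605] (nat_lit 4) [] false,
   Spec.mk (nat_lit 43291) (nat_lit 0) [nat_lit 30169, nat_lit 47665, nat_lit 44749, nat_lit 42805, nat_lit 43129, nat_lit 43345, nat_lit 43273, nat_lit 43309, nat_lit 43285, nat_lit 43293, nat_lit 23609] (nat_lit 1) [] false,
   Spec.mk (nat_lit 43293) (nat_lit 0) [nat_lit 30171, nat_lit 47667, nat_lit 44751, nat_lit 42807, nat_lit 43131, nat_lit 43347, nat_lit 43275, nat_lit 43311, nat_lit 43287, nat_lit 43299, nat_lit 43291, nat_lit 23611] (nat_lit 2) [] false,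
   Spec.mk (nat_lit 43299) (nat_lit 0) [nat_lit 30177, nat_lit 47673, nat_lit 44757, nat_lit 42813, nat_lit 43137, nat_lit 43353, nat_lit 43317, nat_lit 43293, nat_lit 23617] (nat_lit 2) [] false,
   Spec.mk (nat_lit 43309) (nat_lit 0) [nat_lit 30187, nat_lit 47683, nat_lit 44767, nat_lit 42823, nat_lit 43147, nat_lit 43363, nat_lit 43291, nat_lit 43311, nat_lit 23627] (nat_lit 2) [] false,
   Spec.mk (nat_lit 43311) (nat_lit 0) [nat_lit 30189, nat_lit 47685, nat_lit 44769, nat_lit 42825, nat_lit 43149, nat_lit 43365, nat_lit 43293, nat_lit 43317, nat_lit 43309, nat_lit 23629] (nat_lit 4) [] false,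
   Spec.mk (nat_lit 43317) (nat_lit 0) [nat_lit 30195, nat_lit 47691, nat_lit 44775, nat_lit 42831, nat_lit 43155, nat_lit 43371, nat_lit 43299, nat_lit 43311, nat_lit 23635] (nat_lit 2) [] false,
   Spec.mk (nat_lit 43337) (nat_lit 1) [nat_lit 30215, nat_lit 47711, nat_lit 44795, nat_lit 42851, nat_lit 43175, nat_lit 43499, nat_lit 43283, nat_lit 43339] (nat_lit 0) [] false,
   Spec.mk (nat_lit 43339) (nat_lit 0) [nat_lit 30217, nat_lit 47713, nat_lit 44797, nat_lit 42853, nat_lit 43177, nat_lit 43501, nat_lit 43285, nat_lit 43345, nat_lit 43337, nat_lit 43341, nat_lit 23657] (nat_lit 0) [] false,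
   Spec.mk (nat_lit 43341) (nat_lit 0) [nat_lit 30219, nat_lit 47715, nat_lit 44799, nat_lit 42855, nat_lit 43179, nat_lit 43503, nat_lit 43287, nat_lit 43347, nat_lit 43339, nat_lit 23659] (nat_lit 3) [] false,
   Spec.mk (nat_lit 43345) (nat_lit 0) [nat_lit 30223, nat_lit 47719, nat_lit 44803, nat_lit 42859, nat_lit 43183, nat_lit 43507, nat_lit 43291, nat_lit 43363, nat_lit 43339, nat_lit 43347, nat_lit 23663] (nat_lit 1) [] false,
   Spec.mk (nat_lit 43347) (nat_lit 0) [nat_lit 30225, nat_lit 47721, nat_lit 44805, nat_lit 42861, nat_lit 43185, nat_lit 43509, nat_lit 43293, nat_lit 43365, nat_lit 43341, nat_lit 43353, nat_lit 43345, nat_lit 23665] (nat_lit 2) [] false,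
   Spec.mk (nat_lit 43353) (nat_lit 0) [nat_lit 30231, nat_lit 47727, nat_lit 44811, nat_lit 42867, nat_lit 43191, nat_lit 43515, nat_lit 43299, nat_lit 43371, nat_lit 43347, nat_lit 23671] (nat_lit 3) [] false,
   Spec.mk (nat_lit 43363) (nat_lit 0) [nat_lit 30241, nat_lit 47737, nat_lit 44821, nat_lit 42877, nat_lit 43201, nat_lit 43525, nat_lit 43309, nat_lit 43417, nat_lit 43345, nat_lit 43365, nat_lit 23681] (nat_lit 0) [] false,
   Spec.mk (nat_lit 43365) (nat_lit 0) [nat_lit 30243, nat_lit 47739, nat_lit 44823, nat_lit 42879, nat_lit 43203, nat_lit 43527, nat_lit 43311, nat_lit 43419, nat_lit 43347, nat_lit 43371, nat_lit 43363, nat_lit 23683] (nat_lit 2) [] false,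
   Spec.mk (nat_lit 43371) (nat_lit 0) [nat_lit 30249, nat_lit 47745, nat_lit 44829, nat_lit 42885, nat_lit 43209, nat_lit 43533, nat_lit 43317, nat_lit 43425, nat_lit 43353, nat_lit 43389, nat_lit 43365, nat_lit 23689] (nat_lit 1) [] false,
   Spec.mk (nat_lit 43389) (nat_lit 0) [nat_lit 30267, nat_lit 47763, nat_lit 44847, nat_lit 42903, nat_lit 43227, nat_lit 43551, nat_lit 43443, nat_lit 43371, nat_lit 23707] (nat_lit 1) [] false,
   Spec.mk (nat_lit 43417) (nat_lit 0) [nat_lit 30295, nat_lit 47791, nat_lit 44875, nat_lit 42931, nat_lit 43579, nat_lit 43363, nat_lit 43419, nat_lit 23735] (nat_lit 0) [] false,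
   Spec.mk (nat_lit 43419) (nat_lit 0) [nat_lit 30297, nat_lit 47793, nat_lit 44877, nat_lit 42933, nat_lit 43581, nat_lit 43365, nat_lit 43425, nat_lit 43417, nat_lit 23737] (nat_lit 2) [] false,
   Spec.mk (nat_lit 43425) (nat_lit 0) [nat_lit 30303, nat_lit 47799, nat_lit 44883, nat_lit 42939, nat_lit 43587, nat_lit 43371, nat_lit 43443, nat_lit 43419, nat_lit 23743] (nat_lit 2) [] false]

noncomputable def sp113 : List Spec :=
  [Spec.mk (nat_lit 43443) (nat_lit 0) [nat_lit 30321, nat_lit 47817, nat_lit 44901, nat_lit 42957, nat_lit 43605, nat_lit 43389, nat_lit 43425, nat_lit 23761] (nat_lit 0) [] false,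
   Spec.mk (nat_lit 43499) (nat_lit 2) [nat_lit 30377, nat_lit 47873, nat_lit 44957, nat_lit 43337, nat_lit 43501] (nat_lit 0) [] false,
   Spec.mk (nat_lit 43501) (nat_lit 1) [nat_lit 30379, nat_lit 47875, nat_lit 44959, nat_lit 43339, nat_lit 43507, nat_lit 43499, nat_lit 43503, nat_lit 23819] (nat_lit 0) [] false,
   Spec.mk (nat_lit 43503) (nat_lit 0) [nat_lit 30381, nat_lit 47877, nat_lit 44961, nat_lit 43341, nat_lit 43509, nat_lit 43501, nat_lit 23821] (nat_lit 2) [] false,
   Spec.mk (nat_lit 43507) (nat_lit 0) [nat_lit 30385, nat_lit 47881, nat_lit 44965, nat_lit 43345, nat_lit 43525, nat_lit 43501, nat_lit 43509, nat_lit 23825] (nat_lit 0) [] false,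
   Spec.mk (nat_lit 43509) (nat_lit 0) [nat_lit 30387, nat_lit 47883, nat_lit 44967, nat_lit 43347, nat_lit 43527, nat_lit 43503, nat_lit 43515, nat_lit 43507, nat_lit 23827] (nat_lit 1) [] false,
   Spec.mk (nat_lit 43515) (nat_lit 0) [nat_lit 30393, nat_lit 47889, nat_lit 44973, nat_lit 43353, nat_lit 43533, nat_lit 43509, nat_lit 23833] (nat_lit 2) [] false,
   Spec.mk (nat_lit 43525) (nat_lit 0) [nat_lit 30403, nat_lit 47899, nat_lit 44983, nat_lit 43363, nat_lit 43579, nat_lit 43507, nat_lit 43527, nat_lit 23843] (nat_lit 0) [] false,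
   Spec.mk (nat_lit 43527) (nat_lit 0) [nat_lit 30405, nat_lit 47901, nat_lit 44985, nat_lit 43365, nat_lit 43581, nat_lit 43509, nat_lit 43533, nat_lit 43525, nat_lit 23845] (nat_lit 2) [] false,
   Spec.mk (nat_lit 43533) (nat_lit 0) [nat_lit 30411, nat_lit 47907, nat_lit 44991, nat_lit 43371, nat_lit 43587, nat_lit 43515, nat_lit 43551, nat_lit 43527, nat_lit 23851] (nat_lit 1) [] false,
   Spec.mk (nat_lit 43551) (nat_lit 0) [nat_lit 30429, nat_lit 47925, nat_lit 45009, nat_lit 43389, nat_lit 43605, nat_lit 43533, nat_lit 23869] (nat_lit 2) [] false,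
   Spec.mk (nat_lit 43579) (nat_lit 2) [nat_lit 30457, nat_lit 47953, nat_lit 45037, nat_lit 43417, nat_lit 43525, nat_lit 43581, nat_lit 23897] (nat_lit 0) [] false,
   Spec.mk (nat_lit 43581) (nat_lit 0) [nat_lit 30459, nat_lit 47955, nat_lit 45039, nat_lit 43419, nat_lit 43527, nat_lit 43587, nat_lit 43579, nat_lit 23899] (nat_lit 0) [] false,
   Spec.mk (nat_lit 43587) (nat_lit 0) [nat_lit 30465, nat_lit 47961, nat_lit 45045, nat_lit 43425, nat_lit 43533, nat_lit 43605, nat_lit 43581, nat_lit 23905] (nat_lit 0) [] false,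
   Spec.mk (nat_lit 43605) (nat_lit 1) [nat_lit 30483, nat_lit 47979, nat_lit 45063, nat_lit 43443, nat_lit 43551, nat_lit 43659, nat_lit 43587, nat_lit 23923] (nat_lit 0) [] false,
   Spec.mk (nat_lit 43659) (nat_lit 2) [nat_lit 30537, nat_lit 48033, nat_lit 45117, nat_lit 43605, nat_lit 23977] (nat_lit 0) [] false,
   Spec.mk (nat_lit 43757) (nat_lit 2) [nat_lit 30635, nat_lit 48131, nat_lit 42299, nat_lit 43775, nat_lit 43763] (nat_lit 0) [] false,
   Spec.mk (nat_lit 43763) (nat_lit 0) [nat_lit 30641, nat_lit 48137, nat_lit 42305, nat_lit 43781, nat_lit 43757, nat_lit 43765] (nat_lit 0) [] false,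
   Spec.mk (nat_lit 43765) (nat_lit 0) [nat_lit 30643, nat_lit 48139, nat_lit 42307, nat_lit 43783, nat_lit 43763, nat_lit 24083] (nat_lit 0) [] false,
   Spec.mk (nat_lit 43775) (nat_lit 0) [nat_lit 30653, nat_lit 48149, nat_lit 42317, nat_lit 43829, nat_lit 43757, nat_lit 43781] (nat_lit 0) [] false,
   Spec.mk (nat_lit 43781) (nat_lit 0) [nat_lit 30659, nat_lit 48155, nat_lit 42323, nat_lit 43835, nat_lit 43763, nat_lit 43799, nat_lit 43775, nat_lit 43787, nat_lit 43783] (nat_lit 0) [] false,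
   Spec.mk (nat_lit 43783) (nat_lit 0) [nat_lit 30661, nat_lit 48157, nat_lit 42325, nat_lit 43837, nat_lit 43765, nat_lit 43801, nat_lit 43789, nat_lit 43781, nat_lit 24101] (nat_lit 1) [] false,
   Spec.mk (nat_lit 43787) (nat_lit 0) [nat_lit 30665, nat_lit 48161, nat_lit 42329, nat_lit 43841, nat_lit 43805, nat_lit 43781, nat_lit 43789] (nat_lit 2) [] false,
   Spec.mk (nat_lit 43789) (nat_lit 0) [nat_lit 30667, nat_lit 48163, nat_lit 42331, nat_lit 43843, nat_lit 43807, nat_lit 43783, nat_lit 43787, nat_lit 43791, nat_lit 24107] (nat_lit 1) [] false,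
   Spec.mk (nat_lit 43791) (nat_lit 0) [nat_lit 30669, nat_lit 48165, nat_lit 42333, nat_lit 43845, nat_lit 43809, nat_lit 43789, nat_lit 24109] (nat_lit 2) [] false,
   Spec.mk (nat_lit 43799) (nat_lit 0) [nat_lit 30677, nat_lit 48173, nat_lit 42341, nat_lit 43853, nat_lit 43781, nat_lit 43805, nat_lit 43801] (nat_lit 2) [] false,
   Spec.mk (nat_lit 43801) (nat_lit 0) [nat_lit 30679, nat_lit 48175, nat_lit 42343, nat_lit 43855, nat_lit 43783, nat_lit 43807, nat_lit 43799, nat_lit 24119] (nat_lit 4) [] false,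
   Spec.mk (nat_lit 43805) (nat_lit 0) [nat_lit 30683, nat_lit 48179, nat_lit 42347, nat_lit 43859, nat_lit 43787, nat_lit 43799, nat_lit 43807] (nat_lit 2) [] false,
   Spec.mk (nat_lit 43807) (nat_lit 0) [nat_lit 30685, nat_lit 48181, nat_lit 42349, nat_lit 43861, nat_lit 43789, nat_lit 43801, nat_lit 43813, nat_lit 43805, nat_lit 43809, nat_lit 24125] (nat_lit 2) [] false,
   Spec.mk (nat_lit 43809) (nat_lit 0) [nat_lit 30687, nat_lit 48183, nat_lit 42351, nat_lit 43863, nat_lit 43791, nat_lit 43815, nat_lit 43807, nat_lit 24127] (nat_lit 4) [] false,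
   Spec.mk (nat_lit 43813) (nat_lit 0) [nat_lit 30691, nat_lit 48187, nat_lit 42355, nat_lit 43867, nat_lit 43807, nat_lit 43815, nat_lit 24131] (nat_lit 2) [] false,
   Spec.mk (nat_lit 43815) (nat_lit 0) [nat_lit 30693, nat_lit 48189, nat_lit 42357, nat_lit 43869, nat_lit 43809, nat_lit 43813, nat_lit 24133] (nat_lit 2) [] false,
   Spec.mk (nat_lit 43829) (nat_lit 0) [nat_lit 30707, nat_lit 48203, nat_lit 42371, nat_lit 43991, nat_lit 43775, nat_lit 43835] (nat_lit 0) [] false,
   Spec.mk (nat_lit 43835) (nat_lit 0) [nat_lit 30713, nat_lit 48209, nat_lit 42377, nat_lit 43997, nat_lit 43781, nat_lit 43853, nat_lit 43829, nat_lit 43841, nat_lit 43837] (nat_lit 1) [] false,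
   Spec.mk (nat_lit 43837) (nat_lit 0) [nat_lit 30715, nat_lit 48211, nat_lit 42379, nat_lit 43999, nat_lit 43783, nat_lit 43855, nat_lit 43843, nat_lit 43835, nat_lit 24155] (nat_lit 2) [] false,
   Spec.mk (nat_lit 43841) (nat_lit 0) [nat_lit 30719, nat_lit 48215, nat_lit 42383, nat_lit 44003, nat_lit 43787, nat_lit 43859, nat_lit 43835, nat_lit 43843] (nat_lit 4) [] false,
   Spec.mk (nat_lit 43843) (nat_lit 0) [nat_lit 30721, nat_lit 48217, nat_lit 42385, nat_lit 44005, nat_lit 43789, nat_lit 43861, nat_lit 43837, nat_lit 43841, nat_lit 43845, nat_lit 24161] (nat_lit 3) [] false,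
   Spec.mk (nat_lit 43845) (nat_lit 0) [nat_lit 30723, nat_lit 48219, nat_lit 42387, nat_lit 44007, nat_lit 43791, nat_lit 43863, nat_lit 43843, nat_lit 24163] (nat_lit 4) [] false,
   Spec.mk (nat_lit 43853) (nat_lit 0) [nat_lit 30731, nat_lit 48227, nat_lit 42395, nat_lit 44015, nat_lit 43799, nat_lit 43907, nat_lit 43835, nat_lit 43859, nat_lit 43855] (nat_lit 1) [] false,
   Spec.mk (nat_lit 43855) (nat_lit 0) [nat_lit 30733, nat_lit 48229, nat_lit 42397, nat_lit 44017, nat_lit 43801, nat_lit 43909, nat_lit 43837, nat_lit 43861, nat_lit 43853, nat_lit 24173] (nat_lit 3) [] false,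
   Spec.mk (nat_lit 43859) (nat_lit 0) [nat_lit 30737, nat_lit 48233, nat_lit 42401, nat_lit 44021, nat_lit 43805, nat_lit 43913, nat_lit 43841, nat_lit 43877, nat_lit 43853, nat_lit 43861] (nat_lit 2) [] false,
   Spec.mk (nat_lit 43861) (nat_lit 0) [nat_lit 30739, nat_lit 48235, nat_lit 42403, nat_lit 44023, nat_lit 43807, nat_lit 43915, nat_lit 43843, nat_lit 43879, nat_lit 43855, nat_lit 43867, nat_lit 43859, nat_lit 43863, nat_lit 24179] (nat_lit 2) [] false,
   Spec.mk (nat_lit 43863) (nat_lit 0) [nat_lit 30741, nat_lit 48237, nat_lit 42405, nat_lit 44025, nat_lit 43809, nat_lit 43917, nat_lit 43845, nat_lit 43881, nat_lit 43869, nat_lit 43861, nat_lit 24181] (nat_lit 4) [] false,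
   Spec.mk (nat_lit 43867) (nat_lit 0) [nat_lit 30745, nat_lit 48241, nat_lit 42409, nat_lit 44029, nat_lit 43813, nat_lit 43921, nat_lit 43885, nat_lit 43861, nat_lit 43869, nat_lit 24185] (nat_lit 3) [] false,
   Spec.mk (nat_lit 43869) (nat_lit 0) [nat_lit 30747, nat_lit 48243, nat_lit 42411, nat_lit 44031, nat_lit 43815, nat_lit 43923, nat_lit 43887, nat_lit 43863, nat_lit 43867, nat_lit 24187] (nat_lit 3) [] false,
   Spec.mk (nat_lit 43877) (nat_lit 0) [nat_lit 30755, nat_lit 48251, nat_lit 42419, nat_lit 44039, nat_lit 43931, nat_lit 43859, nat_lit 43879] (nat_lit 2) [] false,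
   Spec.mk (nat_lit 43879) (nat_lit 0) [nat_lit 30757, nat_lit 48253, nat_lit 42421, nat_lit 44041, nat_lit 43933, nat_lit 43861, nat_lit 43885, nat_lit 43877, nat_lit 43881, nat_lit 24197] (nat_lit 3) [] false,
   Spec.mk (nat_lit 43881) (nat_lit 0) [nat_lit 30759, nat_lit 48255, nat_lit 42423, nat_lit 44043, nat_lit 43935, nat_lit 43863, nat_lit 43887, nat_lit 43879, nat_lit 24199] (nat_lit 6) [] false,
   Spec.mk (nat_lit 43885) (nat_lit 0) [nat_lit 30763, nat_lit 48259, nat_lit 42427, nat_lit 44047, nat_lit 43939, nat_lit 43867, nat_lit 43879, nat_lit 43887, nat_lit 24203] (nat_lit 2) [] false,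
   Spec.mk (nat_lit 43887) (nat_lit 0) [nat_lit 30765, nat_lit 48261, nat_lit 42429, nat_lit 44049, nat_lit 43941, nat_lit 43869, nat_lit 43881, nat_lit 43893, nat_lit 43885, nat_lit 24205] (nat_lit 3) [] false,
   Spec.mk (nat_lit 43893) (nat_lit 0) [nat_lit 30771, nat_lit 48267, nat_lit 42435, nat_lit 44055, nat_lit 43947, nat_lit 43887, nat_lit 24211] (nat_lit 2) [] false,
   Spec.mk (nat_lit 43907) (nat_lit 0) [nat_lit 30785, nat_lit 48281, nat_lit 42449, nat_lit 44069, nat_lit 43853, nat_lit 43913, nat_lit 43909] (nat_lit 2) [] false,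
   Spec.mk (nat_lit 43909) (nat_lit 0) [nat_lit 30787, nat_lit 48283, nat_lit 42451, nat_lit 44071, nat_lit 43855, nat_lit 43915, nat_lit 43907, nat_lit 24227] (nat_lit 4) [] false,
   Spec.mk (nat_lit 43913) (nat_lit 0) [nat_lit 30791, nat_lit 48287, nat_lit 42455, nat_lit 44075, nat_lit 43859, nat_lit 43931, nat_lit 43907, nat_lit 43915] (nat_lit 4) [] false,
   Spec.mk (nat_lit 43915) (nat_lit 0) [nat_lit 30793, nat_lit 48289, nat_lit 42457, nat_lit 44077, nat_lit 43861, nat_lit 43933, nat_lit 43909, nat_lit 43921, nat_lit 43913, nat_lit 43917, nat_lit 24233] (nat_lit 4) [] false,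
   Spec.mk (nat_lit 43917) (nat_lit 0) [nat_lit 30795, nat_lit 48291, nat_lit 42459, nat_lit 44079, nat_lit 43863, nat_lit 43935, nat_lit 43923, nat_lit 43915, nat_lit 24235] (nat_lit 6) [] false,
   Spec.mk (nat_lit 43921) (nat_lit 0) [nat_lit 30799, nat_lit 48295, nat_lit 42463, nat_lit 44083, nat_lit 43867, nat_lit 43939, nat_lit 43915, nat_lit 43923, nat_lit 24239] (nat_lit 6) [] false,
   Spec.mk (nat_lit 43923) (nat_lit 0) [nat_lit 30801, nat_lit 48297, nat_lit 42465, nat_lit 44085, nat_lit 43869, nat_lit 43941, nat_lit 43917, nat_lit 43921, nat_lit 24241] (nat_lit 6) [] false,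
   Spec.mk (nat_lit 43931) (nat_lit 0) [nat_lit 30809, nat_lit 48305, nat_lit 42473, nat_lit 44093, nat_lit 43877, nat_lit 43913, nat_lit 43933] (nat_lit 2) [] false,
   Spec.mk (nat_lit 43933) (nat_lit 0) [nat_lit 30811, nat_lit 48307, nat_lit 42475, nat_lit 44095, nat_lit 43879, nat_lit 43915, nat_lit 43939, nat_lit 43931, nat_lit 43935, nat_lit 24251] (nat_lit 3) [] false]

noncomputable def sp114 : List Spec :=
  [Spec.mk (nat_lit 43935) (nat_lit 0) [nat_lit 30813, nat_lit 48309, nat_lit 42477, nat_lit 44097, nat_lit 43881, nat_lit 43917, nat_lit 43941, nat_lit 43933, nat_lit 24253] (nat_lit 6) [] false,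
   Spec.mk (nat_lit 43939) (nat_lit 0) [nat_lit 30817, nat_lit 48313, nat_lit 42481, nat_lit 44101, nat_lit 43885, nat_lit 43921, nat_lit 43957, nat_lit 43933, nat_lit 43941, nat_lit 24257] (nat_lit 3) [] false,
   Spec.mk (nat_lit 43941) (nat_lit 0) [nat_lit 30819, nat_lit 48315, nat_lit 42483, nat_lit 44103, nat_lit 43887, nat_lit 43923, nat_lit 43959, nat_lit 43935, nat_lit 43947, nat_lit 43939, nat_lit 24259] (nat_lit 4) [] false,
   Spec.mk (nat_lit 43947) (nat_lit 0) [nat_lit 30825, nat_lit 48321, nat_lit 42489, nat_lit 44109, nat_lit 43893, nat_lit 43965, nat_lit 43941, nat_lit 24265] (nat_lit 4) [] false,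
   Spec.mk (nat_lit 43957) (nat_lit 0) [nat_lit 30835, nat_lit 48331, nat_lit 42499, nat_lit 44119, nat_lit 43939, nat_lit 43959, nat_lit 24275] (nat_lit 2) [] false,
   Spec.mk (nat_lit 43959) (nat_lit 0) [nat_lit 30837, nat_lit 48333, nat_lit 42501, nat_lit 44121, nat_lit 43941, nat_lit 43965, nat_lit 43957, nat_lit 24277] (nat_lit 4) [] false,
   Spec.mk (nat_lit 43965) (nat_lit 0) [nat_lit 30843, nat_lit 48339, nat_lit 42507, nat_lit 44127, nat_lit 43947, nat_lit 43959, nat_lit 24283] (nat_lit 2) [] false,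
   Spec.mk (nat_lit 43991) (nat_lit 0) [nat_lit 30869, nat_lit 48365, nat_lit 42533, nat_lit 44477, nat_lit 43829, nat_lit 43997] (nat_lit 0) [] false,
   Spec.mk (nat_lit 43997) (nat_lit 0) [nat_lit 30875, nat_lit 48371, nat_lit 42539, nat_lit 44483, nat_lit 43835, nat_lit 44015, nat_lit 43991, nat_lit 44003, nat_lit 43999] (nat_lit 1) [] false,
   Spec.mk (nat_lit 43999) (nat_lit 0) [nat_lit 30877, nat_lit 48373, nat_lit 42541, nat_lit 44485, nat_lit 43837, nat_lit 44017, nat_lit 44005, nat_lit 43997, nat_lit 24317] (nat_lit 2) [] false,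
   Spec.mk (nat_lit 44003) (nat_lit 0) [nat_lit 30881, nat_lit 48377, nat_lit 42545, nat_lit 44489, nat_lit 43841, nat_lit 44021, nat_lit 43997, nat_lit 44005] (nat_lit 4) [] false,
   Spec.mk (nat_lit 44005) (nat_lit 0) [nat_lit 30883, nat_lit 48379, nat_lit 42547, nat_lit 44491, nat_lit 43843, nat_lit 44023, nat_lit 43999, nat_lit 44003, nat_lit 44007, nat_lit 24323] (nat_lit 3) [] false,
   Spec.mk (nat_lit 44007) (nat_lit 0) [nat_lit 30885, nat_lit 48381, nat_lit 42549, nat_lit 44493, nat_lit 43845, nat_lit 44025, nat_lit 44005, nat_lit 24325] (nat_lit 4) [] false,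
   Spec.mk (nat_lit 44015) (nat_lit 0) [nat_lit 30893, nat_lit 48389, nat_lit 42557, nat_lit 44501, nat_lit 43853, nat_lit 44069, nat_lit 43997, nat_lit 44021, nat_lit 44017] (nat_lit 2) [] false,
   Spec.mk (nat_lit 44017) (nat_lit 0) [nat_lit 30895, nat_lit 48391, nat_lit 42559, nat_lit 44503, nat_lit 43855, nat_lit 44071, nat_lit 43999, nat_lit 44023, nat_lit 44015, nat_lit 24335] (nat_lit 4) [] false,
   Spec.mk (nat_lit 44021) (nat_lit 0) [nat_lit 30899, nat_lit 48395, nat_lit 42563, nat_lit 44507, nat_lit 43859, nat_lit 44075, nat_lit 44003, nat_lit 44039, nat_lit 44015, nat_lit 44023] (nat_lit 3) [] false,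
   Spec.mk (nat_lit 44023) (nat_lit 0) [nat_lit 30901, nat_lit 48397, nat_lit 42565, nat_lit 44509, nat_lit 43861, nat_lit 44077, nat_lit 44005, nat_lit 44041, nat_lit 44017, nat_lit 44029, nat_lit 44021, nat_lit 44025, nat_lit 24341] (nat_lit 3) [] false,
   Spec.mk (nat_lit 44025) (nat_lit 0) [nat_lit 30903, nat_lit 48399, nat_lit 42567, nat_lit 44511, nat_lit 43863, nat_lit 44079, nat_lit 44007, nat_lit 44043, nat_lit 44031, nat_lit 44023, nat_lit 24343] (nat_lit 5) [] false,
   Spec.mk (nat_lit 44029) (nat_lit 0) [nat_lit 30907, nat_lit 48403, nat_lit 42571, nat_lit 44515, nat_lit 43867, nat_lit 44083, nat_lit 44047, nat_lit 44023, nat_lit 44031, nat_lit 24347] (nat_lit 4) [] false,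
   Spec.mk (nat_lit 44031) (nat_lit 0) [nat_lit 30909, nat_lit 48405, nat_lit 42573, nat_lit 44517, nat_lit 43869, nat_lit 44085, nat_lit 44049, nat_lit 44025, nat_lit 44029, nat_lit 24349] (nat_lit 4) [] false,
   Spec.mk (nat_lit 44039) (nat_lit 0) [nat_lit 30917, nat_lit 48413, nat_lit 42581, nat_lit 44525, nat_lit 43877, nat_lit 44093, nat_lit 44021, nat_lit 44041] (nat_lit 4) [] false,
   Spec.mk (nat_lit 44041) (nat_lit 0) [nat_lit 30919, nat_lit 48415, nat_lit 42583, nat_lit 44527, nat_lit 43879, nat_lit 44095, nat_lit 44023, nat_lit 44047, nat_lit 44039, nat_lit 44043, nat_lit 24359] (nat_lit 5) [] false,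
   Spec.mk (nat_lit 44043) (nat_lit 0) [nat_lit 30921, nat_lit 48417, nat_lit 42585, nat_lit 44529, nat_lit 43881, nat_lit 44097, nat_lit 44025, nat_lit 44049, nat_lit 44041, nat_lit 24361] (nat_lit 8) [] false,
   Spec.mk (nat_lit 44047) (nat_lit 0) [nat_lit 30925, nat_lit 48421, nat_lit 42589, nat_lit 44533, nat_lit 43885, nat_lit 44101, nat_lit 44029, nat_lit 44041, nat_lit 44049, nat_lit 24365] (nat_lit 4) [] false,
   Spec.mk (nat_lit 44049) (nat_lit 0) [nat_lit 30927, nat_lit 48423, nat_lit 42591, nat_lit 44535, nat_lit 43887, nat_lit 44103, nat_lit 44031, nat_lit 44043, nat_lit 44055, nat_lit 44047, nat_lit 24367] (nat_lit 5) [] false,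
   Spec.mk (nat_lit 44055) (nat_lit 0) [nat_lit 30933, nat_lit 48429, nat_lit 42597, nat_lit 44541, nat_lit 43893, nat_lit 44109, nat_lit 44049, nat_lit 24373] (nat_lit 4) [] false,
   Spec.mk (nat_lit 44069) (nat_lit 0) [nat_lit 30947, nat_lit 48443, nat_lit 42611, nat_lit 44555, nat_lit 43907, nat_lit 44231, nat_lit 44015, nat_lit 44075, nat_lit 44071] (nat_lit 1) [] false,
   Spec.mk (nat_lit 44071) (nat_lit 0) [nat_lit 30949, nat_lit 48445, nat_lit 42613, nat_lit 44557, nat_lit 43909, nat_lit 44233, nat_lit 44017, nat_lit 44077, nat_lit 44069, nat_lit 24389] (nat_lit 3) [] false,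
   Spec.mk (nat_lit 44075) (nat_lit 0) [nat_lit 30953, nat_lit 48449, nat_lit 42617, nat_lit 44561, nat_lit 43913, nat_lit 44237, nat_lit 44021, nat_lit 44093, nat_lit 44069, nat_lit 44077] (nat_lit 3) [] false,
   Spec.mk (nat_lit 44077) (nat_lit 0) [nat_lit 30955, nat_lit 48451, nat_lit 42619, nat_lit 44563, nat_lit 43915, nat_lit 44239, nat_lit 44023, nat_lit 44095, nat_lit 44071, nat_lit 44083, nat_lit 44075, nat_lit 44079, nat_lit 24395] (nat_lit 3) [] false,
   Spec.mk (nat_lit 44079) (nat_lit 0) [nat_lit 30957, nat_lit 48453, nat_lit 42621, nat_lit 44565, nat_lit 43917, nat_lit 44241, nat_lit 44025, nat_lit 44097, nat_lit 44085, nat_lit 44077, nat_lit 24397] (nat_lit 5) [] false,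
   Spec.mk (nat_lit 44083) (nat_lit 0) [nat_lit 30961, nat_lit 48457, nat_lit 42625, nat_lit 44569, nat_lit 43921, nat_lit 44245, nat_lit 44029, nat_lit 44101, nat_lit 44077, nat_lit 44085, nat_lit 24401] (nat_lit 5) [] false,
   Spec.mk (nat_lit 44085) (nat_lit 0) [nat_lit 30963, nat_lit 48459, nat_lit 42627, nat_lit 44571, nat_lit 43923, nat_lit 44247, nat_lit 44031, nat_lit 44103, nat_lit 44079, nat_lit 44083, nat_lit 24403] (nat_lit 5) [] false,
   Spec.mk (nat_lit 44093) (nat_lit 0) [nat_lit 30971, nat_lit 48467, nat_lit 42635, nat_lit 44579, nat_lit 43931, nat_lit 44255, nat_lit 44039, nat_lit 44147, nat_lit 44075, nat_lit 44095] (nat_lit 2) [] false,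
   Spec.mk (nat_lit 44095) (nat_lit 0) [nat_lit 30973, nat_lit 48469, nat_lit 42637, nat_lit 44581, nat_lit 43933, nat_lit 44257, nat_lit 44041, nat_lit 44149, nat_lit 44077, nat_lit 44101, nat_lit 44093, nat_lit 44097, nat_lit 24413] (nat_lit 3) [] false,
   Spec.mk (nat_lit 44097) (nat_lit 0) [nat_lit 30975, nat_lit 48471, nat_lit 42639, nat_lit 44583, nat_lit 43935, nat_lit 44259, nat_lit 44043, nat_lit 44151, nat_lit 44079, nat_lit 44103, nat_lit 44095, nat_lit 24415] (nat_lit 6) [] false,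
   Spec.mk (nat_lit 44101) (nat_lit 0) [nat_lit 30979, nat_lit 48475, nat_lit 42643, nat_lit 44587, nat_lit 43939, nat_lit 44263, nat_lit 44047, nat_lit 44155, nat_lit 44083, nat_lit 44119, nat_lit 44095, nat_lit 44103, nat_lit 24419] (nat_lit 3) [] false,
   Spec.mk (nat_lit 44103) (nat_lit 0) [nat_lit 30981, nat_lit 48477, nat_lit 42645, nat_lit 44589, nat_lit 43941, nat_lit 44265, nat_lit 44049, nat_lit 44157, nat_lit 44085, nat_lit 44121, nat_lit 44097, nat_lit 44109, nat_lit 44101, nat_lit 24421] (nat_lit 4) [] false,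
   Spec.mk (nat_lit 44109) (nat_lit 0) [nat_lit 30987, nat_lit 48483, nat_lit 42651, nat_lit 44595, nat_lit 43947, nat_lit 44271, nat_lit 44055, nat_lit 44163, nat_lit 44127, nat_lit 44103, nat_lit 24427] (nat_lit 4) [] false,
   Spec.mk (nat_lit 44119) (nat_lit 0) [nat_lit 30997, nat_lit 48493, nat_lit 42661, nat_lit 44605, nat_lit 43957, nat_lit 44281, nat_lit 44173, nat_lit 44101, nat_lit 44121, nat_lit 24437] (nat_lit 3) [] false,
   Spec.mk (nat_lit 44121) (nat_lit 0) [nat_lit 30999, nat_lit 48495, nat_lit 42663, nat_lit 44607, nat_lit 43959, nat_lit 44283, nat_lit 44175, nat_lit 44103, nat_lit 44127, nat_lit 44119, nat_lit 24439] (nat_lit 5) [] false,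
   Spec.mk (nat_lit 44127) (nat_lit 0) [nat_lit 31005, nat_lit 48501, nat_lit 42669, nat_lit 44613, nat_lit 43965, nat_lit 44289, nat_lit 44181, nat_lit 44109, nat_lit 44121, nat_lit 24445] (nat_lit 3) [] false,
   Spec.mk (nat_lit 44147) (nat_lit 0) [nat_lit 31025, nat_lit 48521, nat_lit 42689, nat_lit 44633, nat_lit 44309, nat_lit 44093, nat_lit 44149] (nat_lit 2) [] false,
   Spec.mk (nat_lit 44149) (nat_lit 0) [nat_lit 31027, nat_lit 48523, nat_lit 42691, nat_lit 44635, nat_lit 44311, nat_lit 44095, nat_lit 44155, nat_lit 44147, nat_lit 44151, nat_lit 24467] (nat_lit 3) [] false,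
   Spec.mk (nat_lit 44151) (nat_lit 0) [nat_lit 31029, nat_lit 48525, nat_lit 42693, nat_lit 44637, nat_lit 44313, nat_lit 44097, nat_lit 44157, nat_lit 44149, nat_lit 24469] (nat_lit 6) [] false,
   Spec.mk (nat_lit 44155) (nat_lit 0) [nat_lit 31033, nat_lit 48529, nat_lit 42697, nat_lit 44641, nat_lit 44317, nat_lit 44101, nat_lit 44173, nat_lit 44149, nat_lit 44157, nat_lit 24473] (nat_lit 4) [] false,
   Spec.mk (nat_lit 44157) (nat_lit 0) [nat_lit 31035, nat_lit 48531, nat_lit 42699, nat_lit 44643, nat_lit 44319, nat_lit 44103, nat_lit 44175, nat_lit 44151, nat_lit 44163, nat_lit 44155, nat_lit 24475] (nat_lit 5) [] false,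
   Spec.mk (nat_lit 44163) (nat_lit 0) [nat_lit 31041, nat_lit 48537, nat_lit 42705, nat_lit 44649, nat_lit 44325, nat_lit 44109, nat_lit 44181, nat_lit 44157, nat_lit 24481] (nat_lit 6) [] false,
   Spec.mk (nat_lit 44173) (nat_lit 0) [nat_lit 31051, nat_lit 48547, nat_lit 42715, nat_lit 44659, nat_lit 44335, nat_lit 44119, nat_lit 44155, nat_lit 44175, nat_lit 24491] (nat_lit 2) [] false,
   Spec.mk (nat_lit 44175) (nat_lit 0) [nat_lit 31053, nat_lit 48549, nat_lit 42717, nat_lit 44661, nat_lit 44337, nat_lit 44121, nat_lit 44157, nat_lit 44181, nat_lit 44173, nat_lit 24493] (nat_lit 4) [] false,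
   Spec.mk (nat_lit 44181) (nat_lit 0) [nat_lit 31059, nat_lit 48555, nat_lit 42723, nat_lit 44667, nat_lit 44343, nat_lit 44127, nat_lit 44163, nat_lit 44199, nat_lit 44175, nat_lit 24499] (nat_lit 3) [] false,
   Spec.mk (nat_lit 44199) (nat_lit 0) [nat_lit 31077, nat_lit 48573, nat_lit 42741, nat_lit 44685, nat_lit 44361, nat_lit 44181, nat_lit 24517] (nat_lit 2) [] false,
   Spec.mk (nat_lit 44231) (nat_lit 0) [nat_lit 31109, nat_lit 48605, nat_lit 42773, nat_lit 44717, nat_lit 44069, nat_lit 44237, nat_lit 44233] (nat_lit 2) [] false,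
   Spec.mk (nat_lit 44233) (nat_lit 0) [nat_lit 31111, nat_lit 48607, nat_lit 42775, nat_lit 44719, nat_lit 44071, nat_lit 44239, nat_lit 44231, nat_lit 24551] (nat_lit 4) [] false,
   Spec.mk (nat_lit 44237) (nat_lit 0) [nat_lit 31115, nat_lit 48611, nat_lit 42779, nat_lit 44723, nat_lit 44075, nat_lit 44255, nat_lit 44231, nat_lit 44239] (nat_lit 4) [] false,
   Spec.mk (nat_lit 44239) (nat_lit 0) [nat_lit 31117, nat_lit 48613, nat_lit 42781, nat_lit 44725, nat_lit 44077, nat_lit 44257, nat_lit 44233, nat_lit 44245, nat_lit 44237, nat_lit 44241, nat_lit 24557] (nat_lit 4) [] false,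
   Spec.mk (nat_lit 44241) (nat_lit 0) [nat_lit 31119, nat_lit 48615, nat_lit 42783, nat_lit 44727, nat_lit 44079, nat_lit 44259, nat_lit 44247, nat_lit 44239, nat_lit 24559] (nat_lit 6) [] false,
   Spec.mk (nat_lit 44245) (nat_lit 0) [nat_lit 31123, nat_lit 48619, nat_lit 42787, nat_lit 44731, nat_lit 44083, nat_lit 44263, nat_lit 44239, nat_lit 44247, nat_lit 24563] (nat_lit 6) [] false,
   Spec.mk (nat_lit 44247) (nat_lit 0) [nat_lit 31125, nat_lit 48621, nat_lit 42789, nat_lit 44733, nat_lit 44085, nat_lit 44265, nat_lit 44241, nat_lit 44245, nat_lit 24565] (nat_lit 6) [] false,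
   Spec.mk (nat_lit 44255) (nat_lit 0) [nat_lit 31133, nat_lit 48629, nat_lit 42797, nat_lit 44741, nat_lit 44093, nat_lit 44309, nat_lit 44237, nat_lit 44257] (nat_lit 4) [] false]

noncomputable def sp115 : List Spec :=
  [Spec.mk (nat_lit 44257) (nat_lit 0) [nat_lit 31135, nat_lit 48631, nat_lit 42799, nat_lit 44743, nat_lit 44095, nat_lit 44311, nat_lit 44239, nat_lit 44263, nat_lit 44255, nat_lit 44259, nat_lit 24575] (nat_lit 5) [] false,
   Spec.mk (nat_lit 44259) (nat_lit 0) [nat_lit 31137, nat_lit 48633, nat_lit 42801, nat_lit 44745, nat_lit 44097, nat_lit 44313, nat_lit 44241, nat_lit 44265, nat_lit 44257, nat_lit 24577] (nat_lit 8) [] false,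
   Spec.mk (nat_lit 44263) (nat_lit 0) [nat_lit 31141, nat_lit 48637, nat_lit 42805, nat_lit 44749, nat_lit 44101, nat_lit 44317, nat_lit 44245, nat_lit 44281, nat_lit 44257, nat_lit 44265, nat_lit 24581] (nat_lit 5) [] false,
   Spec.mk (nat_lit 44265) (nat_lit 0) [nat_lit 31143, nat_lit 48639, nat_lit 42807, nat_lit 44751, nat_lit 44103, nat_lit 44319, nat_lit 44247, nat_lit 44283, nat_lit 44259, nat_lit 44271, nat_lit 44263, nat_lit 24583] (nat_lit 6) [] false,
   Spec.mk (nat_lit 44271) (nat_lit 0) [nat_lit 31149, nat_lit 48645, nat_lit 42813, nat_lit 44757, nat_lit 44109, nat_lit 44325, nat_lit 44289, nat_lit 44265, nat_lit 24589] (nat_lit 6) [] false,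
   Spec.mk (nat_lit 44281) (nat_lit 0) [nat_lit 31159, nat_lit 48655, nat_lit 42823, nat_lit 44767, nat_lit 44119, nat_lit 44335, nat_lit 44263, nat_lit 44283, nat_lit 24599] (nat_lit 6) [] false,
   Spec.mk (nat_lit 44283) (nat_lit 0) [nat_lit 31161, nat_lit 48657, nat_lit 42825, nat_lit 44769, nat_lit 44121, nat_lit 44337, nat_lit 44265, nat_lit 44289, nat_lit 44281, nat_lit 24601] (nat_lit 8) [] false,
   Spec.mk (nat_lit 44289) (nat_lit 0) [nat_lit 31167, nat_lit 48663, nat_lit 42831, nat_lit 44775, nat_lit 44127, nat_lit 44343, nat_lit 44271, nat_lit 44283, nat_lit 24607] (nat_lit 6) [] false,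
   Spec.mk (nat_lit 44309) (nat_lit 0) [nat_lit 31187, nat_lit 48683, nat_lit 42851, nat_lit 44795, nat_lit 44147, nat_lit 44255, nat_lit 44311] (nat_lit 2) [] false,
   Spec.mk (nat_lit 44311) (nat_lit 0) [nat_lit 31189, nat_lit 48685, nat_lit 42853, nat_lit 44797, nat_lit 44149, nat_lit 44257, nat_lit 44317, nat_lit 44309, nat_lit 44313, nat_lit 24629] (nat_lit 3) [] false,
   Spec.mk (nat_lit 44313) (nat_lit 0) [nat_lit 31191, nat_lit 48687, nat_lit 42855, nat_lit 44799, nat_lit 44151, nat_lit 44259, nat_lit 44319, nat_lit 44311, nat_lit 24631] (nat_lit 6) [] false,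
   Spec.mk (nat_lit 44317) (nat_lit 0) [nat_lit 31195, nat_lit 48691, nat_lit 42859, nat_lit 44803, nat_lit 44155, nat_lit 44263, nat_lit 44335, nat_lit 44311, nat_lit 44319, nat_lit 24635] (nat_lit 4) [] false,
   Spec.mk (nat_lit 44319) (nat_lit 0) [nat_lit 31197, nat_lit 48693, nat_lit 42861, nat_lit 44805, nat_lit 44157, nat_lit 44265, nat_lit 44337, nat_lit 44313, nat_lit 44325, nat_lit 44317, nat_lit 24637] (nat_lit 5) [] false,
   Spec.mk (nat_lit 44325) (nat_lit 0) [nat_lit 31203, nat_lit 48699, nat_lit 42867, nat_lit 44811, nat_lit 44163, nat_lit 44271, nat_lit 44343, nat_lit 44319, nat_lit 24643] (nat_lit 6) [] false,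
   Spec.mk (nat_lit 44335) (nat_lit 0) [nat_lit 31213, nat_lit 48709, nat_lit 42877, nat_lit 44821, nat_lit 44173, nat_lit 44281, nat_lit 44389, nat_lit 44317, nat_lit 44337, nat_lit 24653] (nat_lit 3) [] false,
   Spec.mk (nat_lit 44337) (nat_lit 0) [nat_lit 31215, nat_lit 48711, nat_lit 42879, nat_lit 44823, nat_lit 44175, nat_lit 44283, nat_lit 44391, nat_lit 44319, nat_lit 44343, nat_lit 44335, nat_lit 24655] (nat_lit 5) [] false,
   Spec.mk (nat_lit 44343) (nat_lit 0) [nat_lit 31221, nat_lit 48717, nat_lit 42885, nat_lit 44829, nat_lit 44181, nat_lit 44289, nat_lit 44397, nat_lit 44325, nat_lit 44361, nat_lit 44337, nat_lit 24661] (nat_lit 4) [] false,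
   Spec.mk (nat_lit 44361) (nat_lit 0) [nat_lit 31239, nat_lit 48735, nat_lit 42903, nat_lit 44847, nat_lit 44199, nat_lit 44415, nat_lit 44343, nat_lit 24679] (nat_lit 4) [] false,
   Spec.mk (nat_lit 44389) (nat_lit 0) [nat_lit 31267, nat_lit 48763, nat_lit 42931, nat_lit 44875, nat_lit 44335, nat_lit 44391, nat_lit 24707] (nat_lit 2) [] false,
   Spec.mk (nat_lit 44391) (nat_lit 0) [nat_lit 31269, nat_lit 48765, nat_lit 42933, nat_lit 44877, nat_lit 44337, nat_lit 44397, nat_lit 44389, nat_lit 24709] (nat_lit 4) [] false,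
   Spec.mk (nat_lit 44397) (nat_lit 0) [nat_lit 31275, nat_lit 48771, nat_lit 42939, nat_lit 44883, nat_lit 44343, nat_lit 44415, nat_lit 44391, nat_lit 24715] (nat_lit 4) [] false,
   Spec.mk (nat_lit 44415) (nat_lit 0) [nat_lit 31293, nat_lit 48789, nat_lit 42957, nat_lit 44901, nat_lit 44361, nat_lit 44397, nat_lit 24733] (nat_lit 2) [] false,
   Spec.mk (nat_lit 44477) (nat_lit 2) [nat_lit 31355, nat_lit 48851, nat_lit 43019, nat_lit 43991, nat_lit 44483] (nat_lit 0) [] false,
   Spec.mk (nat_lit 44483) (nat_lit 1) [nat_lit 31361, nat_lit 48857, nat_lit 43025, nat_lit 43997, nat_lit 44501, nat_lit 44477, nat_lit 44489, nat_lit 44485] (nat_lit 0) [] false,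
   Spec.mk (nat_lit 44485) (nat_lit 0) [nat_lit 31363, nat_lit 48859, nat_lit 43027, nat_lit 43999, nat_lit 44503, nat_lit 44491, nat_lit 44483, nat_lit 24803] (nat_lit 0) [] false,
   Spec.mk (nat_lit 44489) (nat_lit 0) [nat_lit 31367, nat_lit 48863, nat_lit 43031, nat_lit 44003, nat_lit 44507, nat_lit 44483, nat_lit 44491] (nat_lit 2) [] false,
   Spec.mk (nat_lit 44491) (nat_lit 0) [nat_lit 31369, nat_lit 48865, nat_lit 43033, nat_lit 44005, nat_lit 44509, nat_lit 44485, nat_lit 44489, nat_lit 44493, nat_lit 24809] (nat_lit 1) [] false,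
   Spec.mk (nat_lit 44493) (nat_lit 0) [nat_lit 31371, nat_lit 48867, nat_lit 43035, nat_lit 44007, nat_lit 44511, nat_lit 44491, nat_lit 24811] (nat_lit 2) [] false,
   Spec.mk (nat_lit 44501) (nat_lit 0) [nat_lit 31379, nat_lit 48875, nat_lit 43043, nat_lit 44015, nat_lit 44555, nat_lit 44483, nat_lit 44507, nat_lit 44503] (nat_lit 0) [] false,
   Spec.mk (nat_lit 44503) (nat_lit 0) [nat_lit 31381, nat_lit 48877, nat_lit 43045, nat_lit 44017, nat_lit 44557, nat_lit 44485, nat_lit 44509, nat_lit 44501, nat_lit 24821] (nat_lit 2) [] false,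
   Spec.mk (nat_lit 44507) (nat_lit 0) [nat_lit 31385, nat_lit 48881, nat_lit 43049, nat_lit 44021, nat_lit 44561, nat_lit 44489, nat_lit 44525, nat_lit 44501, nat_lit 44509] (nat_lit 1) [] false,
   Spec.mk (nat_lit 44509) (nat_lit 0) [nat_lit 31387, nat_lit 48883, nat_lit 43051, nat_lit 44023, nat_lit 44563, nat_lit 44491, nat_lit 44527, nat_lit 44503, nat_lit 44515, nat_lit 44507, nat_lit 44511, nat_lit 24827] (nat_lit 1) [] false,
   Spec.mk (nat_lit 44511) (nat_lit 0) [nat_lit 31389, nat_lit 48885, nat_lit 43053, nat_lit 44025, nat_lit 44565, nat_lit 44493, nat_lit 44529, nat_lit 44517, nat_lit 44509, nat_lit 24829] (nat_lit 3) [] false,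
   Spec.mk (nat_lit 44515) (nat_lit 0) [nat_lit 31393, nat_lit 48889, nat_lit 43057, nat_lit 44029, nat_lit 44569, nat_lit 44533, nat_lit 44509, nat_lit 44517, nat_lit 24833] (nat_lit 2) [] false,
   Spec.mk (nat_lit 44517) (nat_lit 0) [nat_lit 31395, nat_lit 48891, nat_lit 43059, nat_lit 44031, nat_lit 44571, nat_lit 44535, nat_lit 44511, nat_lit 44515, nat_lit 24835] (nat_lit 2) [] false,
   Spec.mk (nat_lit 44525) (nat_lit 0) [nat_lit 31403, nat_lit 48899, nat_lit 43067, nat_lit 44039, nat_lit 44579, nat_lit 44507, nat_lit 44527] (nat_lit 2) [] false,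
   Spec.mk (nat_lit 44527) (nat_lit 0) [nat_lit 31405, nat_lit 48901, nat_lit 43069, nat_lit 44041, nat_lit 44581, nat_lit 44509, nat_lit 44533, nat_lit 44525, nat_lit 44529, nat_lit 24845] (nat_lit 3) [] false,
   Spec.mk (nat_lit 44529) (nat_lit 0) [nat_lit 31407, nat_lit 48903, nat_lit 43071, nat_lit 44043, nat_lit 44583, nat_lit 44511, nat_lit 44535, nat_lit 44527, nat_lit 24847] (nat_lit 6) [] false,
   Spec.mk (nat_lit 44533) (nat_lit 0) [nat_lit 31411, nat_lit 48907, nat_lit 43075, nat_lit 44047, nat_lit 44587, nat_lit 44515, nat_lit 44527, nat_lit 44535, nat_lit 24851] (nat_lit 2) [] false,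
   Spec.mk (nat_lit 44535) (nat_lit 0) [nat_lit 31413, nat_lit 48909, nat_lit 43077, nat_lit 44049, nat_lit 44589, nat_lit 44517, nat_lit 44529, nat_lit 44541, nat_lit 44533, nat_lit 24853] (nat_lit 3) [] false,
   Spec.mk (nat_lit 44541) (nat_lit 0) [nat_lit 31419, nat_lit 48915, nat_lit 43083, nat_lit 44055, nat_lit 44595, nat_lit 44535, nat_lit 24859] (nat_lit 2) [] false,
   Spec.mk (nat_lit 44555) (nat_lit 0) [nat_lit 31433, nat_lit 48929, nat_lit 43097, nat_lit 44069, nat_lit 44717, nat_lit 44501, nat_lit 44561, nat_lit 44557] (nat_lit 0) [] false,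
   Spec.mk (nat_lit 44557) (nat_lit 0) [nat_lit 31435, nat_lit 48931, nat_lit 43099, nat_lit 44071, nat_lit 44719, nat_lit 44503, nat_lit 44563, nat_lit 44555, nat_lit 24875] (nat_lit 2) [] false,
   Spec.mk (nat_lit 44561) (nat_lit 0) [nat_lit 31439, nat_lit 48935, nat_lit 43103, nat_lit 44075, nat_lit 44723, nat_lit 44507, nat_lit 44579, nat_lit 44555, nat_lit 44563] (nat_lit 2) [] false,
   Spec.mk (nat_lit 44563) (nat_lit 0) [nat_lit 31441, nat_lit 48937, nat_lit 43105, nat_lit 44077, nat_lit 44725, nat_lit 44509, nat_lit 44581, nat_lit 44557, nat_lit 44569, nat_lit 44561, nat_lit 44565, nat_lit 24881] (nat_lit 2) [] false,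
   Spec.mk (nat_lit 44565) (nat_lit 0) [nat_lit 31443, nat_lit 48939, nat_lit 43107, nat_lit 44079, nat_lit 44727, nat_lit 44511, nat_lit 44583, nat_lit 44571, nat_lit 44563, nat_lit 24883] (nat_lit 4) [] false,
   Spec.mk (nat_lit 44569) (nat_lit 0) [nat_lit 31447, nat_lit 48943, nat_lit 43111, nat_lit 44083, nat_lit 44731, nat_lit 44515, nat_lit 44587, nat_lit 44563, nat_lit 44571, nat_lit 24887] (nat_lit 4) [] false,
   Spec.mk (nat_lit 44571) (nat_lit 0) [nat_lit 31449, nat_lit 48945, nat_lit 43113, nat_lit 44085, nat_lit 44733, nat_lit 44517, nat_lit 44589, nat_lit 44565, nat_lit 44569, nat_lit 24889] (nat_lit 4) [] false,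
   Spec.mk (nat_lit 44579) (nat_lit 0) [nat_lit 31457, nat_lit 48953, nat_lit 43121, nat_lit 44093, nat_lit 44741, nat_lit 44525, nat_lit 44633, nat_lit 44561, nat_lit 44581] (nat_lit 1) [] false,
   Spec.mk (nat_lit 44581) (nat_lit 0) [nat_lit 31459, nat_lit 48955, nat_lit 43123, nat_lit 44095, nat_lit 44743, nat_lit 44527, nat_lit 44635, nat_lit 44563, nat_lit 44587, nat_lit 44579, nat_lit 44583, nat_lit 24899] (nat_lit 2) [] false,
   Spec.mk (nat_lit 44583) (nat_lit 0) [nat_lit 31461, nat_lit 48957, nat_lit 43125, nat_lit 44097, nat_lit 44745, nat_lit 44529, nat_lit 44637, nat_lit 44565, nat_lit 44589, nat_lit 44581, nat_lit 24901] (nat_lit 5) [] false,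
   Spec.mk (nat_lit 44587) (nat_lit 0) [nat_lit 31465, nat_lit 48961, nat_lit 43129, nat_lit 44101, nat_lit 44749, nat_lit 44533, nat_lit 44641, nat_lit 44569, nat_lit 44605, nat_lit 44581, nat_lit 44589, nat_lit 24905] (nat_lit 2) [] false,
   Spec.mk (nat_lit 44589) (nat_lit 0) [nat_lit 31467, nat_lit 48963, nat_lit 43131, nat_lit 44103, nat_lit 44751, nat_lit 44535, nat_lit 44643, nat_lit 44571, nat_lit 44607, nat_lit 44583, nat_lit 44595, nat_lit 44587, nat_lit 24907] (nat_lit 3) [] false,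
   Spec.mk (nat_lit 44595) (nat_lit 0) [nat_lit 31473, nat_lit 48969, nat_lit 43137, nat_lit 44109, nat_lit 44757, nat_lit 44541, nat_lit 44649, nat_lit 44613, nat_lit 44589, nat_lit 24913] (nat_lit 3) [] false,
   Spec.mk (nat_lit 44605) (nat_lit 0) [nat_lit 31483, nat_lit 48979, nat_lit 43147, nat_lit 44119, nat_lit 44767, nat_lit 44659, nat_lit 44587, nat_lit 44607, nat_lit 24923] (nat_lit 2) [] false,
   Spec.mk (nat_lit 44607) (nat_lit 0) [nat_lit 31485, nat_lit 48981, nat_lit 43149, nat_lit 44121, nat_lit 44769, nat_lit 44661, nat_lit 44589, nat_lit 44613, nat_lit 44605, nat_lit 24925] (nat_lit 4) [] false,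
   Spec.mk (nat_lit 44613) (nat_lit 0) [nat_lit 31491, nat_lit 48987, nat_lit 43155, nat_lit 44127, nat_lit 44775, nat_lit 44667, nat_lit 44595, nat_lit 44607, nat_lit 24931] (nat_lit 2) [] false,
   Spec.mk (nat_lit 44633) (nat_lit 0) [nat_lit 31511, nat_lit 49007, nat_lit 43175, nat_lit 44147, nat_lit 44795, nat_lit 44579, nat_lit 44635] (nat_lit 2) [] false,
   Spec.mk (nat_lit 44635) (nat_lit 0) [nat_lit 31513, nat_lit 49009, nat_lit 43177, nat_lit 44149, nat_lit 44797, nat_lit 44581, nat_lit 44641, nat_lit 44633, nat_lit 44637, nat_lit 24953] (nat_lit 3) [] false,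
   Spec.mk (nat_lit 44637) (nat_lit 0) [nat_lit 31515, nat_lit 49011, nat_lit 43179, nat_lit 44151, nat_lit 44799, nat_lit 44583, nat_lit 44643, nat_lit 44635, nat_lit 24955] (nat_lit 6) [] false]

noncomputable def sp116 : List Spec :=
  [Spec.mk (nat_lit 44641) (nat_lit 0) [nat_lit 31519, nat_lit 49015, nat_lit 43183, nat_lit 44155, nat_lit 44803, nat_lit 44587, nat_lit 44659, nat_lit 44635, nat_lit 44643, nat_lit 24959] (nat_lit 4) [] false,
   Spec.mk (nat_lit 44643) (nat_lit 0) [nat_lit 31521, nat_lit 49017, nat_lit 43185, nat_lit 44157, nat_lit 44805, nat_lit 44589, nat_lit 44661, nat_lit 44637, nat_lit 44649, nat_lit 44641, nat_lit 24961] (nat_lit 5) [] false,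
   Spec.mk (nat_lit 44649) (nat_lit 0) [nat_lit 31527, nat_lit 49023, nat_lit 43191, nat_lit 44163, nat_lit 44811, nat_lit 44595, nat_lit 44667, nat_lit 44643, nat_lit 24967] (nat_lit 6) [] false,
   Spec.mk (nat_lit 44659) (nat_lit 0) [nat_lit 31537, nat_lit 49033, nat_lit 43201, nat_lit 44173, nat_lit 44821, nat_lit 44605, nat_lit 44641, nat_lit 44661, nat_lit 24977] (nat_lit 2) [] false,
   Spec.mk (nat_lit 44661) (nat_lit 0) [nat_lit 31539, nat_lit 49035, nat_lit 43203, nat_lit 44175, nat_lit 44823, nat_lit 44607, nat_lit 44643, nat_lit 44667, nat_lit 44659, nat_lit 24979] (nat_lit 4) [] false,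
   Spec.mk (nat_lit 44667) (nat_lit 0) [nat_lit 31545, nat_lit 49041, nat_lit 43209, nat_lit 44181, nat_lit 44829, nat_lit 44613, nat_lit 44649, nat_lit 44685, nat_lit 44661, nat_lit 24985] (nat_lit 3) [] false,
   Spec.mk (nat_lit 44685) (nat_lit 0) [nat_lit 31563, nat_lit 49059, nat_lit 43227, nat_lit 44199, nat_lit 44847, nat_lit 44667, nat_lit 25003] (nat_lit 2) [] false,
   Spec.mk (nat_lit 44717) (nat_lit 1) [nat_lit 31595, nat_lit 49091, nat_lit 43259, nat_lit 44231, nat_lit 45203, nat_lit 44555, nat_lit 44723, nat_lit 44719] (nat_lit 0) [] false,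
   Spec.mk (nat_lit 44719) (nat_lit 0) [nat_lit 31597, nat_lit 49093, nat_lit 43261, nat_lit 44233, nat_lit 45205, nat_lit 44557, nat_lit 44725, nat_lit 44717, nat_lit 25037] (nat_lit 1) [] false,
   Spec.mk (nat_lit 44723) (nat_lit 0) [nat_lit 31601, nat_lit 49097, nat_lit 43265, nat_lit 44237, nat_lit 45209, nat_lit 44561, nat_lit 44741, nat_lit 44717, nat_lit 44725] (nat_lit 1) [] false,
   Spec.mk (nat_lit 44725) (nat_lit 0) [nat_lit 31603, nat_lit 49099, nat_lit 43267, nat_lit 44239, nat_lit 45211, nat_lit 44563, nat_lit 44743, nat_lit 44719, nat_lit 44731, nat_lit 44723, nat_lit 44727, nat_lit 25043] (nat_lit 1) [] false,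
   Spec.mk (nat_lit 44727) (nat_lit 0) [nat_lit 31605, nat_lit 49101, nat_lit 43269, nat_lit 44241, nat_lit 45213, nat_lit 44565, nat_lit 44745, nat_lit 44733, nat_lit 44725, nat_lit 25045] (nat_lit 3) [] false,
   Spec.mk (nat_lit 44731) (nat_lit 0) [nat_lit 31609, nat_lit 49105, nat_lit 43273, nat_lit 44245, nat_lit 45217, nat_lit 44569, nat_lit 44749, nat_lit 44725, nat_lit 44733, nat_lit 25049] (nat_lit 3) [] false,
   Spec.mk (nat_lit 44733) (nat_lit 0) [nat_lit 31611, nat_lit 49107, nat_lit 43275, nat_lit 44247, nat_lit 45219, nat_lit 44571, nat_lit 44751, nat_lit 44727, nat_lit 44731, nat_lit 25051] (nat_lit 3) [] false,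
   Spec.mk (nat_lit 44741) (nat_lit 0) [nat_lit 31619, nat_lit 49115, nat_lit 43283, nat_lit 44255, nat_lit 45227, nat_lit 44579, nat_lit 44795, nat_lit 44723, nat_lit 44743] (nat_lit 1) [] false,
   Spec.mk (nat_lit 44743) (nat_lit 0) [nat_lit 31621, nat_lit 49117, nat_lit 43285, nat_lit 44257, nat_lit 45229, nat_lit 44581, nat_lit 44797, nat_lit 44725, nat_lit 44749, nat_lit 44741, nat_lit 44745, nat_lit 25061] (nat_lit 2) [] false,
   Spec.mk (nat_lit 44745) (nat_lit 0) [nat_lit 31623, nat_lit 49119, nat_lit 43287, nat_lit 44259, nat_lit 45231, nat_lit 44583, nat_lit 44799, nat_lit 44727, nat_lit 44751, nat_lit 44743, nat_lit 25063] (nat_lit 5) [] false,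
   Spec.mk (nat_lit 44749) (nat_lit 0) [nat_lit 31627, nat_lit 49123, nat_lit 43291, nat_lit 44263, nat_lit 45235, nat_lit 44587, nat_lit 44803, nat_lit 44731, nat_lit 44767, nat_lit 44743, nat_lit 44751, nat_lit 25067] (nat_lit 2) [] false,
   Spec.mk (nat_lit 44751) (nat_lit 0) [nat_lit 31629, nat_lit 49125, nat_lit 43293, nat_lit 44265, nat_lit 45237, nat_lit 44589, nat_lit 44805, nat_lit 44733, nat_lit 44769, nat_lit 44745, nat_lit 44757, nat_lit 44749, nat_lit 25069] (nat_lit 3) [] false,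
   Spec.mk (nat_lit 44757) (nat_lit 0) [nat_lit 31635, nat_lit 49131, nat_lit 43299, nat_lit 44271, nat_lit 45243, nat_lit 44595, nat_lit 44811, nat_lit 44775, nat_lit 44751, nat_lit 25075] (nat_lit 3) [] false,
   Spec.mk (nat_lit 44767) (nat_lit 0) [nat_lit 31645, nat_lit 49141, nat_lit 43309, nat_lit 44281, nat_lit 45253, nat_lit 44605, nat_lit 44821, nat_lit 44749, nat_lit 44769, nat_lit 25085] (nat_lit 3) [] false,
   Spec.mk (nat_lit 44769) (nat_lit 0) [nat_lit 31647, nat_lit 49143, nat_lit 43311, nat_lit 44283, nat_lit 45255, nat_lit 44607, nat_lit 44823, nat_lit 44751, nat_lit 44775, nat_lit 44767, nat_lit 25087] (nat_lit 5) [] false,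
   Spec.mk (nat_lit 44775) (nat_lit 0) [nat_lit 31653, nat_lit 49149, nat_lit 43317, nat_lit 44289, nat_lit 45261, nat_lit 44613, nat_lit 44829, nat_lit 44757, nat_lit 44769, nat_lit 25093] (nat_lit 3) [] false,
   Spec.mk (nat_lit 44795) (nat_lit 0) [nat_lit 31673, nat_lit 49169, nat_lit 43337, nat_lit 44309, nat_lit 45281, nat_lit 44633, nat_lit 44957, nat_lit 44741, nat_lit 44797] (nat_lit 0) [] false,
   Spec.mk (nat_lit 44797) (nat_lit 0) [nat_lit 31675, nat_lit 49171, nat_lit 43339, nat_lit 44311, nat_lit 45283, nat_lit 44635, nat_lit 44959, nat_lit 44743, nat_lit 44803, nat_lit 44795, nat_lit 44799, nat_lit 25115] (nat_lit 1) [] false,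
   Spec.mk (nat_lit 44799) (nat_lit 0) [nat_lit 31677, nat_lit 49173, nat_lit 43341, nat_lit 44313, nat_lit 45285, nat_lit 44637, nat_lit 44961, nat_lit 44745, nat_lit 44805, nat_lit 44797, nat_lit 25117] (nat_lit 4) [] false,
   Spec.mk (nat_lit 44803) (nat_lit 0) [nat_lit 31681, nat_lit 49177, nat_lit 43345, nat_lit 44317, nat_lit 45289, nat_lit 44641, nat_lit 44965, nat_lit 44749, nat_lit 44821, nat_lit 44797, nat_lit 44805, nat_lit 25121] (nat_lit 2) [] false,
   Spec.mk (nat_lit 44805) (nat_lit 0) [nat_lit 31683, nat_lit 49179, nat_lit 43347, nat_lit 44319, nat_lit 45291, nat_lit 44643, nat_lit 44967, nat_lit 44751, nat_lit 44823, nat_lit 44799, nat_lit 44811, nat_lit 44803, nat_lit 25123] (nat_lit 3) [] false,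
   Spec.mk (nat_lit 44811) (nat_lit 0) [nat_lit 31689, nat_lit 49185, nat_lit 43353, nat_lit 44325, nat_lit 45297, nat_lit 44649, nat_lit 44973, nat_lit 44757, nat_lit 44829, nat_lit 44805, nat_lit 25129] (nat_lit 4) [] false,
   Spec.mk (nat_lit 44821) (nat_lit 0) [nat_lit 31699, nat_lit 49195, nat_lit 43363, nat_lit 44335, nat_lit 45307, nat_lit 44659, nat_lit 44983, nat_lit 44767, nat_lit 44875, nat_lit 44803, nat_lit 44823, nat_lit 25139] (nat_lit 1) [] false,
   Spec.mk (nat_lit 44823) (nat_lit 0) [nat_lit 31701, nat_lit 49197, nat_lit 43365, nat_lit 44337, nat_lit 45309, nat_lit 44661, nat_lit 44985, nat_lit 44769, nat_lit 44877, nat_lit 44805, nat_lit 44829, nat_lit 44821, nat_lit 25141] (nat_lit 3) [] false,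
   Spec.mk (nat_lit 44829) (nat_lit 0) [nat_lit 31707, nat_lit 49203, nat_lit 43371, nat_lit 44343, nat_lit 45315, nat_lit 44667, nat_lit 44991, nat_lit 44775, nat_lit 44883, nat_lit 44811, nat_lit 44847, nat_lit 44823, nat_lit 25147] (nat_lit 2) [] false,
   Spec.mk (nat_lit 44847) (nat_lit 0) [nat_lit 31725, nat_lit 49221, nat_lit 43389, nat_lit 44361, nat_lit 45333, nat_lit 44685, nat_lit 45009, nat_lit 44901, nat_lit 44829, nat_lit 25165] (nat_lit 2) [] false,
   Spec.mk (nat_lit 44875) (nat_lit 0) [nat_lit 31753, nat_lit 49249, nat_lit 43417, nat_lit 44389, nat_lit 45361, nat_lit 45037, nat_lit 44821, nat_lit 44877, nat_lit 25193] (nat_lit 1) [] false,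
   Spec.mk (nat_lit 44877) (nat_lit 0) [nat_lit 31755, nat_lit 49251, nat_lit 43419, nat_lit 44391, nat_lit 45363, nat_lit 45039, nat_lit 44823, nat_lit 44883, nat_lit 44875, nat_lit 25195] (nat_lit 3) [] false,
   Spec.mk (nat_lit 44883) (nat_lit 0) [nat_lit 31761, nat_lit 49257, nat_lit 43425, nat_lit 44397, nat_lit 45369, nat_lit 45045, nat_lit 44829, nat_lit 44901, nat_lit 44877, nat_lit 25201] (nat_lit 3) [] false,
   Spec.mk (nat_lit 44901) (nat_lit 0) [nat_lit 31779, nat_lit 49275, nat_lit 43443, nat_lit 44415, nat_lit 45387, nat_lit 45063, nat_lit 44847, nat_lit 44883, nat_lit 25219] (nat_lit 1) [] false,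
   Spec.mk (nat_lit 44957) (nat_lit 0) [nat_lit 31835, nat_lit 49331, nat_lit 43499, nat_lit 45443, nat_lit 44795, nat_lit 44959] (nat_lit 0) [] false,
   Spec.mk (nat_lit 44959) (nat_lit 0) [nat_lit 31837, nat_lit 49333, nat_lit 43501, nat_lit 45445, nat_lit 44797, nat_lit 44965, nat_lit 44957, nat_lit 44961, nat_lit 25277] (nat_lit 1) [] false,
   Spec.mk (nat_lit 44961) (nat_lit 0) [nat_lit 31839, nat_lit 49335, nat_lit 43503, nat_lit 45447, nat_lit 44799, nat_lit 44967, nat_lit 44959, nat_lit 25279] (nat_lit 4) [] false,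
   Spec.mk (nat_lit 44965) (nat_lit 0) [nat_lit 31843, nat_lit 49339, nat_lit 43507, nat_lit 45451, nat_lit 44803, nat_lit 44983, nat_lit 44959, nat_lit 44967, nat_lit 25283] (nat_lit 2) [] false,
   Spec.mk (nat_lit 44967) (nat_lit 0) [nat_lit 31845, nat_lit 49341, nat_lit 43509, nat_lit 45453, nat_lit 44805, nat_lit 44985, nat_lit 44961, nat_lit 44973, nat_lit 44965, nat_lit 25285] (nat_lit 3) [] false,
   Spec.mk (nat_lit 44973) (nat_lit 0) [nat_lit 31851, nat_lit 49347, nat_lit 43515, nat_lit 45459, nat_lit 44811, nat_lit 44991, nat_lit 44967, nat_lit 25291] (nat_lit 4) [] false,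
   Spec.mk (nat_lit 44983) (nat_lit 0) [nat_lit 31861, nat_lit 49357, nat_lit 43525, nat_lit 45469, nat_lit 44821, nat_lit 45037, nat_lit 44965, nat_lit 44985, nat_lit 25301] (nat_lit 2) [] false,
   Spec.mk (nat_lit 44985) (nat_lit 0) [nat_lit 31863, nat_lit 49359, nat_lit 43527, nat_lit 45471, nat_lit 44823, nat_lit 45039, nat_lit 44967, nat_lit 44991, nat_lit 44983, nat_lit 25303] (nat_lit 4) [] false,
   Spec.mk (nat_lit 44991) (nat_lit 0) [nat_lit 31869, nat_lit 49365, nat_lit 43533, nat_lit 45477, nat_lit 44829, nat_lit 45045, nat_lit 44973, nat_lit 45009, nat_lit 44985, nat_lit 25309] (nat_lit 3) [] false,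
   Spec.mk (nat_lit 45009) (nat_lit 0) [nat_lit 31887, nat_lit 49383, nat_lit 43551, nat_lit 45495, nat_lit 44847, nat_lit 45063, nat_lit 44991, nat_lit 25327] (nat_lit 4) [] false,
   Spec.mk (nat_lit 45037) (nat_lit 0) [nat_lit 31915, nat_lit 49411, nat_lit 43579, nat_lit 45523, nat_lit 44875, nat_lit 44983, nat_lit 45039, nat_lit 25355] (nat_lit 0) [] false,
   Spec.mk (nat_lit 45039) (nat_lit 0) [nat_lit 31917, nat_lit 49413, nat_lit 43581, nat_lit 45525, nat_lit 44877, nat_lit 44985, nat_lit 45045, nat_lit 45037, nat_lit 25357] (nat_lit 2) [] false,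
   Spec.mk (nat_lit 45045) (nat_lit 0) [nat_lit 31923, nat_lit 49419, nat_lit 43587, nat_lit 45531, nat_lit 44883, nat_lit 44991, nat_lit 45063, nat_lit 45039, nat_lit 25363] (nat_lit 2) [] false,
   Spec.mk (nat_lit 45063) (nat_lit 0) [nat_lit 31941, nat_lit 49437, nat_lit 43605, nat_lit 45549, nat_lit 44901, nat_lit 45009, nat_lit 45117, nat_lit 45045, nat_lit 25381] (nat_lit 1) [] false,
   Spec.mk (nat_lit 45117) (nat_lit 0) [nat_lit 31995, nat_lit 49491, nat_lit 43659, nat_lit 45603, nat_lit 45063, nat_lit 25435] (nat_lit 0) [] false,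
   Spec.mk (nat_lit 45203) (nat_lit 2) [nat_lit 32081, nat_lit 49577, nat_lit 44717, nat_lit 45209, nat_lit 45205] (nat_lit 0) [] false,
   Spec.mk (nat_lit 45205) (nat_lit 0) [nat_lit 32083, nat_lit 49579, nat_lit 44719, nat_lit 45211, nat_lit 45203, nat_lit 25523] (nat_lit 0) [] false,
   Spec.mk (nat_lit 45209) (nat_lit 0) [nat_lit 32087, nat_lit 49583, nat_lit 44723, nat_lit 45227, nat_lit 45203, nat_lit 45211] (nat_lit 0) [] false,
   Spec.mk (nat_lit 45211) (nat_lit 0) [nat_lit 32089, nat_lit 49585, nat_lit 44725, nat_lit 45229, nat_lit 45205, nat_lit 45217, nat_lit 45209, nat_lit 45213, nat_lit 25529] (nat_lit 0) [] false,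
   Spec.mk (nat_lit 45213) (nat_lit 0) [nat_lit 32091, nat_lit 49587, nat_lit 44727, nat_lit 45231, nat_lit 45219, nat_lit 45211, nat_lit 25531] (nat_lit 2) [] false,
   Spec.mk (nat_lit 45217) (nat_lit 0) [nat_lit 32095, nat_lit 49591, nat_lit 44731, nat_lit 45235, nat_lit 45211, nat_lit 45219, nat_lit 25535] (nat_lit 2) [] false,
   Spec.mk (nat_lit 45219) (nat_lit 0) [nat_lit 32097, nat_lit 49593, nat_lit 44733, nat_lit 45237, nat_lit 45213, nat_lit 45217, nat_lit 25537] (nat_lit 2) [] false,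
   Spec.mk (nat_lit 45227) (nat_lit 0) [nat_lit 32105, nat_lit 49601, nat_lit 44741, nat_lit 45281, nat_lit 45209, nat_lit 45229] (nat_lit 0) [] false]

noncomputable def sp117 : List Spec :=
  [Spec.mk (nat_lit 45229) (nat_lit 0) [nat_lit 32107, nat_lit 49603, nat_lit 44743, nat_lit 45283, nat_lit 45211, nat_lit 45235, nat_lit 45227, nat_lit 45231, nat_lit 25547] (nat_lit 1) [] false,
   Spec.mk (nat_lit 45231) (nat_lit 0) [nat_lit 32109, nat_lit 49605, nat_lit 44745, nat_lit 45285, nat_lit 45213, nat_lit 45237, nat_lit 45229, nat_lit 25549] (nat_lit 4) [] false,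
   Spec.mk (nat_lit 45235) (nat_lit 0) [nat_lit 32113, nat_lit 49609, nat_lit 44749, nat_lit 45289, nat_lit 45217, nat_lit 45253, nat_lit 45229, nat_lit 45237, nat_lit 25553] (nat_lit 1) [] false,
   Spec.mk (nat_lit 45237) (nat_lit 0) [nat_lit 32115, nat_lit 49611, nat_lit 44751, nat_lit 45291, nat_lit 45219, nat_lit 45255, nat_lit 45231, nat_lit 45243, nat_lit 45235, nat_lit 25555] (nat_lit 2) [] false,
   Spec.mk (nat_lit 45243) (nat_lit 0) [nat_lit 32121, nat_lit 49617, nat_lit 44757, nat_lit 45297, nat_lit 45261, nat_lit 45237, nat_lit 25561] (nat_lit 2) [] false,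
   Spec.mk (nat_lit 45253) (nat_lit 0) [nat_lit 32131, nat_lit 49627, nat_lit 44767, nat_lit 45307, nat_lit 45235, nat_lit 45255, nat_lit 25571] (nat_lit 2) [] false,
   Spec.mk (nat_lit 45255) (nat_lit 0) [nat_lit 32133, nat_lit 49629, nat_lit 44769, nat_lit 45309, nat_lit 45237, nat_lit 45261, nat_lit 45253, nat_lit 25573] (nat_lit 4) [] false,
   Spec.mk (nat_lit 45261) (nat_lit 0) [nat_lit 32139, nat_lit 49635, nat_lit 44775, nat_lit 45315, nat_lit 45243, nat_lit 45255, nat_lit 25579] (nat_lit 2) [] false,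
   Spec.mk (nat_lit 45281) (nat_lit 0) [nat_lit 32159, nat_lit 49655, nat_lit 44795, nat_lit 45443, nat_lit 45227, nat_lit 45283] (nat_lit 0) [] false,
   Spec.mk (nat_lit 45283) (nat_lit 0) [nat_lit 32161, nat_lit 49657, nat_lit 44797, nat_lit 45445, nat_lit 45229, nat_lit 45289, nat_lit 45281, nat_lit 45285, nat_lit 25601] (nat_lit 1) [] false,
   Spec.mk (nat_lit 45285) (nat_lit 0) [nat_lit 32163, nat_lit 49659, nat_lit 44799, nat_lit 45447, nat_lit 45231, nat_lit 45291, nat_lit 45283, nat_lit 25603] (nat_lit 4) [] false,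
   Spec.mk (nat_lit 45289) (nat_lit 0) [nat_lit 32167, nat_lit 49663, nat_lit 44803, nat_lit 45451, nat_lit 45235, nat_lit 45307, nat_lit 45283, nat_lit 45291, nat_lit 25607] (nat_lit 2) [] false,
   Spec.mk (nat_lit 45291) (nat_lit 0) [nat_lit 32169, nat_lit 49665, nat_lit 44805, nat_lit 45453, nat_lit 45237, nat_lit 45309, nat_lit 45285, nat_lit 45297, nat_lit 45289, nat_lit 25609] (nat_lit 3) [] false,
   Spec.mk (nat_lit 45297) (nat_lit 0) [nat_lit 32175, nat_lit 49671, nat_lit 44811, nat_lit 45459, nat_lit 45243, nat_lit 45315, nat_lit 45291, nat_lit 25615] (nat_lit 4) [] false,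
   Spec.mk (nat_lit 45307) (nat_lit 0) [nat_lit 32185, nat_lit 49681, nat_lit 44821, nat_lit 45469, nat_lit 45253, nat_lit 45361, nat_lit 45289, nat_lit 45309, nat_lit 25625] (nat_lit 1) [] false,
   Spec.mk (nat_lit 45309) (nat_lit 0) [nat_lit 32187, nat_lit 49683, nat_lit 44823, nat_lit 45471, nat_lit 45255, nat_lit 45363, nat_lit 45291, nat_lit 45315, nat_lit 45307, nat_lit 25627] (nat_lit 3) [] false,
   Spec.mk (nat_lit 45315) (nat_lit 0) [nat_lit 32193, nat_lit 49689, nat_lit 44829, nat_lit 45477, nat_lit 45261, nat_lit 45369, nat_lit 45297, nat_lit 45333, nat_lit 45309, nat_lit 25633] (nat_lit 2) [] false,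
   Spec.mk (nat_lit 45333) (nat_lit 0) [nat_lit 32211, nat_lit 49707, nat_lit 44847, nat_lit 45495, nat_lit 45387, nat_lit 45315, nat_lit 25651] (nat_lit 2) [] false,
   Spec.mk (nat_lit 45361) (nat_lit 0) [nat_lit 32239, nat_lit 49735, nat_lit 44875, nat_lit 45523, nat_lit 45307, nat_lit 45363, nat_lit 25679] (nat_lit 2) [] false,
   Spec.mk (nat_lit 45363) (nat_lit 0) [nat_lit 32241, nat_lit 49737, nat_lit 44877, nat_lit 45525, nat_lit 45309, nat_lit 45369, nat_lit 45361, nat_lit 25681] (nat_lit 4) [] false,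
   Spec.mk (nat_lit 45369) (nat_lit 0) [nat_lit 32247, nat_lit 49743, nat_lit 44883, nat_lit 45531, nat_lit 45315, nat_lit 45387, nat_lit 45363, nat_lit 25687] (nat_lit 4) [] false,
   Spec.mk (nat_lit 45387) (nat_lit 0) [nat_lit 32265, nat_lit 49761, nat_lit 44901, nat_lit 45549, nat_lit 45333, nat_lit 45369, nat_lit 25705] (nat_lit 2) [] false,
   Spec.mk (nat_lit 45443) (nat_lit 2) [nat_lit 32321, nat_lit 49817, nat_lit 44957, nat_lit 45281, nat_lit 45445] (nat_lit 0) [] false,
   Spec.mk (nat_lit 45445) (nat_lit 1) [nat_lit 32323, nat_lit 49819, nat_lit 44959, nat_lit 45283, nat_lit 45451, nat_lit 45443, nat_lit 45447, nat_lit 25763] (nat_lit 0) [] false,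
   Spec.mk (nat_lit 45447) (nat_lit 0) [nat_lit 32325, nat_lit 49821, nat_lit 44961, nat_lit 45285, nat_lit 45453, nat_lit 45445, nat_lit 25765] (nat_lit 2) [] false,
   Spec.mk (nat_lit 45451) (nat_lit 0) [nat_lit 32329, nat_lit 49825, nat_lit 44965, nat_lit 45289, nat_lit 45469, nat_lit 45445, nat_lit 45453, nat_lit 25769] (nat_lit 0) [] false,
   Spec.mk (nat_lit 45453) (nat_lit 0) [nat_lit 32331, nat_lit 49827, nat_lit 44967, nat_lit 45291, nat_lit 45471, nat_lit 45447, nat_lit 45459, nat_lit 45451, nat_lit 25771] (nat_lit 1) [] false,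
   Spec.mk (nat_lit 45459) (nat_lit 0) [nat_lit 32337, nat_lit 49833, nat_lit 44973, nat_lit 45297, nat_lit 45477, nat_lit 45453, nat_lit 25777] (nat_lit 2) [] false,
   Spec.mk (nat_lit 45469) (nat_lit 0) [nat_lit 32347, nat_lit 49843, nat_lit 44983, nat_lit 45307, nat_lit 45523, nat_lit 45451, nat_lit 45471, nat_lit 25787] (nat_lit 0) [] false,
   Spec.mk (nat_lit 45471) (nat_lit 0) [nat_lit 32349, nat_lit 49845, nat_lit 44985, nat_lit 45309, nat_lit 45525, nat_lit 45453, nat_lit 45477, nat_lit 45469, nat_lit 25789] (nat_lit 2) [] false,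
   Spec.mk (nat_lit 45477) (nat_lit 0) [nat_lit 32355, nat_lit 49851, nat_lit 44991, nat_lit 45315, nat_lit 45531, nat_lit 45459, nat_lit 45495, nat_lit 45471, nat_lit 25795] (nat_lit 1) [] false,
   Spec.mk (nat_lit 45495) (nat_lit 0) [nat_lit 32373, nat_lit 49869, nat_lit 45009, nat_lit 45333, nat_lit 45549, nat_lit 45477, nat_lit 25813] (nat_lit 2) [] false,
   Spec.mk (nat_lit 45523) (nat_lit 1) [nat_lit 32401, nat_lit 49897, nat_lit 45037, nat_lit 45361, nat_lit 45685, nat_lit 45469, nat_lit 45525, nat_lit 25841] (nat_lit 0) [] false,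
   Spec.mk (nat_lit 45525) (nat_lit 0) [nat_lit 32403, nat_lit 49899, nat_lit 45039, nat_lit 45363, nat_lit 45687, nat_lit 45471, nat_lit 45531, nat_lit 45523, nat_lit 25843] (nat_lit 1) [] false,
   Spec.mk (nat_lit 45531) (nat_lit 0) [nat_lit 32409, nat_lit 49905, nat_lit 45045, nat_lit 45369, nat_lit 45693, nat_lit 45477, nat_lit 45549, nat_lit 45525, nat_lit 25849] (nat_lit 1) [] false,
   Spec.mk (nat_lit 45549) (nat_lit 0) [nat_lit 32427, nat_lit 49923, nat_lit 45063, nat_lit 45387, nat_lit 45711, nat_lit 45495, nat_lit 45603, nat_lit 45531, nat_lit 25867] (nat_lit 0) [] false,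
   Spec.mk (nat_lit 45603) (nat_lit 0) [nat_lit 32481, nat_lit 49977, nat_lit 45117, nat_lit 45765, nat_lit 45549, nat_lit 25921] (nat_lit 0) [] false,
   Spec.mk (nat_lit 45685) (nat_lit 2) [nat_lit 32563, nat_lit 50059, nat_lit 45523, nat_lit 45687, nat_lit 26003] (nat_lit 0) [] false,
   Spec.mk (nat_lit 45687) (nat_lit 0) [nat_lit 32565, nat_lit 50061, nat_lit 45525, nat_lit 45693, nat_lit 45685, nat_lit 26005] (nat_lit 0) [] false,
   Spec.mk (nat_lit 45693) (nat_lit 0) [nat_lit 32571, nat_lit 50067, nat_lit 45531, nat_lit 45711, nat_lit 45687, nat_lit 26011] (nat_lit 0) [] false,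
   Spec.mk (nat_lit 45711) (nat_lit 0) [nat_lit 32589, nat_lit 50085, nat_lit 45549, nat_lit 45765, nat_lit 45693, nat_lit 26029] (nat_lit 0) [] false,
   Spec.mk (nat_lit 45765) (nat_lit 2) [nat_lit 32643, nat_lit 50139, nat_lit 45603, nat_lit 45711, nat_lit 26083] (nat_lit 0) [] false,
   Spec.mk (nat_lit 45953) (nat_lit 6) [nat_lit 32831, nat_lit 41579, nat_lit 45971] (nat_lit 0) [] false,
   Spec.mk (nat_lit 45971) (nat_lit 5) [nat_lit 32849, nat_lit 41597, nat_lit 46025, nat_lit 45953, nat_lit 45989, nat_lit 45977] (nat_lit 0) [] false,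
   Spec.mk (nat_lit 45977) (nat_lit 4) [nat_lit 32855, nat_lit 41603, nat_lit 46031, nat_lit 45995, nat_lit 45971, nat_lit 45979] (nat_lit 0) [] false,
   Spec.mk (nat_lit 45979) (nat_lit 4) [nat_lit 32857, nat_lit 41605, nat_lit 46033, nat_lit 45997, nat_lit 45977, nat_lit 26297] (nat_lit 0) [] false,
   Spec.mk (nat_lit 45989) (nat_lit 2) [nat_lit 32867, nat_lit 41615, nat_lit 46043, nat_lit 45971, nat_lit 45995] (nat_lit 0) [] false,
   Spec.mk (nat_lit 45995) (nat_lit 3) [nat_lit 32873, nat_lit 41621, nat_lit 46049, nat_lit 45977, nat_lit 45989, nat_lit 46001, nat_lit 45997] (nat_lit 0) [] false,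
   Spec.mk (nat_lit 45997) (nat_lit 2) [nat_lit 32875, nat_lit 41623, nat_lit 46051, nat_lit 45979, nat_lit 46003, nat_lit 45995, nat_lit 26315] (nat_lit 0) [] false,
   Spec.mk (nat_lit 46001) (nat_lit 2) [nat_lit 32879, nat_lit 41627, nat_lit 46055, nat_lit 45995, nat_lit 46003] (nat_lit 0) [] false,
   Spec.mk (nat_lit 46003) (nat_lit 3) [nat_lit 32881, nat_lit 41629, nat_lit 46057, nat_lit 45997, nat_lit 46001, nat_lit 46005, nat_lit 26321] (nat_lit 0) [] false,
   Spec.mk (nat_lit 46005) (nat_lit 2) [nat_lit 32883, nat_lit 41631, nat_lit 46059, nat_lit 46003, nat_lit 26323] (nat_lit 0) [] false,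
   Spec.mk (nat_lit 46025) (nat_lit 4) [nat_lit 32903, nat_lit 41651, nat_lit 46187, nat_lit 45971, nat_lit 46043, nat_lit 46031] (nat_lit 0) [] false,
   Spec.mk (nat_lit 46031) (nat_lit 2) [nat_lit 32909, nat_lit 41657, nat_lit 46193, nat_lit 45977, nat_lit 46049, nat_lit 46025, nat_lit 46033] (nat_lit 0) [] false,
   Spec.mk (nat_lit 46033) (nat_lit 2) [nat_lit 32911, nat_lit 41659, nat_lit 46195, nat_lit 45979, nat_lit 46051, nat_lit 46031, nat_lit 26351] (nat_lit 0) [] false,
   Spec.mk (nat_lit 46043) (nat_lit 3) [nat_lit 32921, nat_lit 41669, nat_lit 46205, nat_lit 45989, nat_lit 46097, nat_lit 46025, nat_lit 46049] (nat_lit 0) [] false,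
   Spec.mk (nat_lit 46049) (nat_lit 3) [nat_lit 32927, nat_lit 41675, nat_lit 46211, nat_lit 45995, nat_lit 46103, nat_lit 46031, nat_lit 46067, nat_lit 46043, nat_lit 46055, nat_lit 46051] (nat_lit 0) [] false,
   Spec.mk (nat_lit 46051) (nat_lit 2) [nat_lit 32929, nat_lit 41677, nat_lit 46213, nat_lit 45997, nat_lit 46105, nat_lit 46033, nat_lit 46069, nat_lit 46057, nat_lit 46049, nat_lit 26369] (nat_lit 0) [] false,
   Spec.mk (nat_lit 46055) (nat_lit 1) [nat_lit 32933, nat_lit 41681, nat_lit 46217, nat_lit 46001, nat_lit 46109, nat_lit 46073, nat_lit 46049, nat_lit 46057] (nat_lit 0) [] false,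
   Spec.mk (nat_lit 46057) (nat_lit 2) [nat_lit 32935, nat_lit 41683, nat_lit 46219, nat_lit 46003, nat_lit 46111, nat_lit 46075, nat_lit 46051, nat_lit 46055, nat_lit 46059, nat_lit 26375] (nat_lit 0) [] false]

noncomputable def sp118 : List Spec :=
  [Spec.mk (nat_lit 46059) (nat_lit 1) [nat_lit 32937, nat_lit 41685, nat_lit 46221, nat_lit 46005, nat_lit 46113, nat_lit 46077, nat_lit 46057, nat_lit 26377] (nat_lit 0) [] false,
   Spec.mk (nat_lit 46067) (nat_lit 2) [nat_lit 32945, nat_lit 41693, nat_lit 46229, nat_lit 46121, nat_lit 46049, nat_lit 46073, nat_lit 46069] (nat_lit 0) [] false,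
   Spec.mk (nat_lit 46069) (nat_lit 0) [nat_lit 32947, nat_lit 41695, nat_lit 46231, nat_lit 46123, nat_lit 46051, nat_lit 46075, nat_lit 46067, nat_lit 26387] (nat_lit 0) [] false,
   Spec.mk (nat_lit 46073) (nat_lit 2) [nat_lit 32951, nat_lit 41699, nat_lit 46235, nat_lit 46127, nat_lit 46055, nat_lit 46067, nat_lit 46075] (nat_lit 0) [] false,
   Spec.mk (nat_lit 46075) (nat_lit 2) [nat_lit 32953, nat_lit 41701, nat_lit 46237, nat_lit 46129, nat_lit 46057, nat_lit 46069, nat_lit 46081, nat_lit 46073, nat_lit 46077, nat_lit 26393] (nat_lit 0) [] false,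
   Spec.mk (nat_lit 46077) (nat_lit 0) [nat_lit 32955, nat_lit 41703, nat_lit 46239, nat_lit 46131, nat_lit 46059, nat_lit 46083, nat_lit 46075, nat_lit 26395] (nat_lit 0) [] false,
   Spec.mk (nat_lit 46081) (nat_lit 2) [nat_lit 32959, nat_lit 41707, nat_lit 46243, nat_lit 46135, nat_lit 46075, nat_lit 46083, nat_lit 26399] (nat_lit 0) [] false,
   Spec.mk (nat_lit 46083) (nat_lit 2) [nat_lit 32961, nat_lit 41709, nat_lit 46245, nat_lit 46137, nat_lit 46077, nat_lit 46081, nat_lit 26401] (nat_lit 0) [] false,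
   Spec.mk (nat_lit 46097) (nat_lit 2) [nat_lit 32975, nat_lit 41723, nat_lit 46259, nat_lit 46043, nat_lit 46103] (nat_lit 0) [] false,
   Spec.mk (nat_lit 46103) (nat_lit 1) [nat_lit 32981, nat_lit 41729, nat_lit 46265, nat_lit 46049, nat_lit 46121, nat_lit 46097, nat_lit 46109, nat_lit 46105] (nat_lit 0) [] false,
   Spec.mk (nat_lit 46105) (nat_lit 0) [nat_lit 32983, nat_lit 41731, nat_lit 46267, nat_lit 46051, nat_lit 46123, nat_lit 46111, nat_lit 46103, nat_lit 26423] (nat_lit 0) [] false,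
   Spec.mk (nat_lit 46109) (nat_lit 0) [nat_lit 32987, nat_lit 41735, nat_lit 46271, nat_lit 46055, nat_lit 46127, nat_lit 46103, nat_lit 46111] (nat_lit 2) [] false,
   Spec.mk (nat_lit 46111) (nat_lit 0) [nat_lit 32989, nat_lit 41737, nat_lit 46273, nat_lit 46057, nat_lit 46129, nat_lit 46105, nat_lit 46109, nat_lit 46113, nat_lit 26429] (nat_lit 1) [] false,
   Spec.mk (nat_lit 46113) (nat_lit 0) [nat_lit 32991, nat_lit 41739, nat_lit 46275, nat_lit 46059, nat_lit 46131, nat_lit 46111, nat_lit 26431] (nat_lit 2) [] false,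
   Spec.mk (nat_lit 46121) (nat_lit 2) [nat_lit 32999, nat_lit 41747, nat_lit 46283, nat_lit 46067, nat_lit 46103, nat_lit 46127, nat_lit 46123] (nat_lit 0) [] false,
   Spec.mk (nat_lit 46123) (nat_lit 0) [nat_lit 33001, nat_lit 41749, nat_lit 46285, nat_lit 46069, nat_lit 46105, nat_lit 46129, nat_lit 46121, nat_lit 26441] (nat_lit 0) [] false,
   Spec.mk (nat_lit 46127) (nat_lit 1) [nat_lit 33005, nat_lit 41753, nat_lit 46289, nat_lit 46073, nat_lit 46109, nat_lit 46145, nat_lit 46121, nat_lit 46129] (nat_lit 0) [] false,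
   Spec.mk (nat_lit 46129) (nat_lit 1) [nat_lit 33007, nat_lit 41755, nat_lit 46291, nat_lit 46075, nat_lit 46111, nat_lit 46147, nat_lit 46123, nat_lit 46135, nat_lit 46127, nat_lit 46131, nat_lit 26447] (nat_lit 0) [] false,
   Spec.mk (nat_lit 46131) (nat_lit 0) [nat_lit 33009, nat_lit 41757, nat_lit 46293, nat_lit 46077, nat_lit 46113, nat_lit 46149, nat_lit 46137, nat_lit 46129, nat_lit 26449] (nat_lit 1) [] false,
   Spec.mk (nat_lit 46135) (nat_lit 0) [nat_lit 33013, nat_lit 41761, nat_lit 46297, nat_lit 46081, nat_lit 46153, nat_lit 46129, nat_lit 46137, nat_lit 26453] (nat_lit 0) [] false,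
   Spec.mk (nat_lit 46137) (nat_lit 0) [nat_lit 33015, nat_lit 41763, nat_lit 46299, nat_lit 46083, nat_lit 46155, nat_lit 46131, nat_lit 46135, nat_lit 26455] (nat_lit 0) [] false,
   Spec.mk (nat_lit 46145) (nat_lit 2) [nat_lit 33023, nat_lit 41771, nat_lit 46307, nat_lit 46127, nat_lit 46147] (nat_lit 0) [] false,
   Spec.mk (nat_lit 46147) (nat_lit 1) [nat_lit 33025, nat_lit 41773, nat_lit 46309, nat_lit 46129, nat_lit 46153, nat_lit 46145, nat_lit 46149, nat_lit 26465] (nat_lit 0) [] false,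
   Spec.mk (nat_lit 46149) (nat_lit 0) [nat_lit 33027, nat_lit 41775, nat_lit 46311, nat_lit 46131, nat_lit 46155, nat_lit 46147, nat_lit 26467] (nat_lit 2) [] false,
   Spec.mk (nat_lit 46153) (nat_lit 2) [nat_lit 33031, nat_lit 41779, nat_lit 46315, nat_lit 46135, nat_lit 46147, nat_lit 46155, nat_lit 26471] (nat_lit 0) [] false,
   Spec.mk (nat_lit 46155) (nat_lit 1) [nat_lit 33033, nat_lit 41781, nat_lit 46317, nat_lit 46137, nat_lit 46149, nat_lit 46161, nat_lit 46153, nat_lit 26473] (nat_lit 0) [] false,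
   Spec.mk (nat_lit 46161) (nat_lit 2) [nat_lit 33039, nat_lit 41787, nat_lit 46323, nat_lit 46155, nat_lit 26479] (nat_lit 0) [] false,
   Spec.mk (nat_lit 46187) (nat_lit 4) [nat_lit 33065, nat_lit 41813, nat_lit 46673, nat_lit 46025, nat_lit 46205, nat_lit 46193] (nat_lit 0) [] false,
   Spec.mk (nat_lit 46193) (nat_lit 2) [nat_lit 33071, nat_lit 41819, nat_lit 46679, nat_lit 46031, nat_lit 46211, nat_lit 46187, nat_lit 46195] (nat_lit 0) [] false,
   Spec.mk (nat_lit 46195) (nat_lit 2) [nat_lit 33073, nat_lit 41821, nat_lit 46681, nat_lit 46033, nat_lit 46213, nat_lit 46193, nat_lit 26513] (nat_lit 0) [] false,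
   Spec.mk (nat_lit 46205) (nat_lit 2) [nat_lit 33083, nat_lit 41831, nat_lit 46691, nat_lit 46043, nat_lit 46259, nat_lit 46187, nat_lit 46211] (nat_lit 0) [] false,
   Spec.mk (nat_lit 46211) (nat_lit 2) [nat_lit 33089, nat_lit 41837, nat_lit 46697, nat_lit 46049, nat_lit 46265, nat_lit 46193, nat_lit 46229, nat_lit 46205, nat_lit 46217, nat_lit 46213] (nat_lit 0) [] false,
   Spec.mk (nat_lit 46213) (nat_lit 1) [nat_lit 33091, nat_lit 41839, nat_lit 46699, nat_lit 46051, nat_lit 46267, nat_lit 46195, nat_lit 46231, nat_lit 46219, nat_lit 46211, nat_lit 26531] (nat_lit 0) [] false,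
   Spec.mk (nat_lit 46217) (nat_lit 0) [nat_lit 33095, nat_lit 41843, nat_lit 46703, nat_lit 46055, nat_lit 46271, nat_lit 46235, nat_lit 46211, nat_lit 46219] (nat_lit 0) [] false,
   Spec.mk (nat_lit 46219) (nat_lit 1) [nat_lit 33097, nat_lit 41845, nat_lit 46705, nat_lit 46057, nat_lit 46273, nat_lit 46237, nat_lit 46213, nat_lit 46217, nat_lit 46221, nat_lit 26537] (nat_lit 0) [] false,
   Spec.mk (nat_lit 46221) (nat_lit 0) [nat_lit 33099, nat_lit 41847, nat_lit 46707, nat_lit 46059, nat_lit 46275, nat_lit 46239, nat_lit 46219, nat_lit 26539] (nat_lit 0) [] false,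
   Spec.mk (nat_lit 46229) (nat_lit 0) [nat_lit 33107, nat_lit 41855, nat_lit 46715, nat_lit 46067, nat_lit 46283, nat_lit 46211, nat_lit 46235, nat_lit 46231] (nat_lit 0) [] false,
   Spec.mk (nat_lit 46231) (nat_lit 0) [nat_lit 33109, nat_lit 41857, nat_lit 46717, nat_lit 46069, nat_lit 46285, nat_lit 46213, nat_lit 46237, nat_lit 46229, nat_lit 26549] (nat_lit 2) [] false,
   Spec.mk (nat_lit 46235) (nat_lit 0) [nat_lit 33113, nat_lit 41861, nat_lit 46721, nat_lit 46073, nat_lit 46289, nat_lit 46217, nat_lit 46229, nat_lit 46237] (nat_lit 0) [] false,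
   Spec.mk (nat_lit 46237) (nat_lit 0) [nat_lit 33115, nat_lit 41863, nat_lit 46723, nat_lit 46075, nat_lit 46291, nat_lit 46219, nat_lit 46231, nat_lit 46243, nat_lit 46235, nat_lit 46239, nat_lit 26555] (nat_lit 0) [] false,
   Spec.mk (nat_lit 46239) (nat_lit 0) [nat_lit 33117, nat_lit 41865, nat_lit 46725, nat_lit 46077, nat_lit 46293, nat_lit 46221, nat_lit 46245, nat_lit 46237, nat_lit 26557] (nat_lit 2) [] false,
   Spec.mk (nat_lit 46243) (nat_lit 0) [nat_lit 33121, nat_lit 41869, nat_lit 46729, nat_lit 46081, nat_lit 46297, nat_lit 46237, nat_lit 46245, nat_lit 26561] (nat_lit 0) [] false,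
   Spec.mk (nat_lit 46245) (nat_lit 0) [nat_lit 33123, nat_lit 41871, nat_lit 46731, nat_lit 46083, nat_lit 46299, nat_lit 46239, nat_lit 46243, nat_lit 26563] (nat_lit 0) [] false,
   Spec.mk (nat_lit 46259) (nat_lit 3) [nat_lit 33137, nat_lit 41885, nat_lit 46745, nat_lit 46097, nat_lit 46421, nat_lit 46205, nat_lit 46265] (nat_lit 0) [] false,
   Spec.mk (nat_lit 46265) (nat_lit 2) [nat_lit 33143, nat_lit 41891, nat_lit 46751, nat_lit 46103, nat_lit 46427, nat_lit 46211, nat_lit 46283, nat_lit 46259, nat_lit 46271, nat_lit 46267] (nat_lit 0) [] false,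
   Spec.mk (nat_lit 46267) (nat_lit 1) [nat_lit 33145, nat_lit 41893, nat_lit 46753, nat_lit 46105, nat_lit 46429, nat_lit 46213, nat_lit 46285, nat_lit 46273, nat_lit 46265, nat_lit 26585] (nat_lit 0) [] false,
   Spec.mk (nat_lit 46271) (nat_lit 0) [nat_lit 33149, nat_lit 41897, nat_lit 46757, nat_lit 46109, nat_lit 46433, nat_lit 46217, nat_lit 46289, nat_lit 46265, nat_lit 46273] (nat_lit 1) [] false,
   Spec.mk (nat_lit 46273) (nat_lit 0) [nat_lit 33151, nat_lit 41899, nat_lit 46759, nat_lit 46111, nat_lit 46435, nat_lit 46219, nat_lit 46291, nat_lit 46267, nat_lit 46271, nat_lit 46275, nat_lit 26591] (nat_lit 0) [] false,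
   Spec.mk (nat_lit 46275) (nat_lit 0) [nat_lit 33153, nat_lit 41901, nat_lit 46761, nat_lit 46113, nat_lit 46437, nat_lit 46221, nat_lit 46293, nat_lit 46273, nat_lit 26593] (nat_lit 1) [] false,
   Spec.mk (nat_lit 46283) (nat_lit 2) [nat_lit 33161, nat_lit 41909, nat_lit 46769, nat_lit 46121, nat_lit 46445, nat_lit 46229, nat_lit 46337, nat_lit 46265, nat_lit 46289, nat_lit 46285] (nat_lit 0) [] false,
   Spec.mk (nat_lit 46285) (nat_lit 0) [nat_lit 33163, nat_lit 41911, nat_lit 46771, nat_lit 46123, nat_lit 46447, nat_lit 46231, nat_lit 46339, nat_lit 46267, nat_lit 46291, nat_lit 46283, nat_lit 26603] (nat_lit 0) [] false,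
   Spec.mk (nat_lit 46289) (nat_lit 1) [nat_lit 33167, nat_lit 41915, nat_lit 46775, nat_lit 46127, nat_lit 46451, nat_lit 46235, nat_lit 46343, nat_lit 46271, nat_lit 46307, nat_lit 46283, nat_lit 46291] (nat_lit 0) [] false,
   Spec.mk (nat_lit 46291) (nat_lit 1) [nat_lit 33169, nat_lit 41917, nat_lit 46777, nat_lit 46129, nat_lit 46453, nat_lit 46237, nat_lit 46345, nat_lit 46273, nat_lit 46309, nat_lit 46285, nat_lit 46297, nat_lit 46289, nat_lit 46293, nat_lit 26609] (nat_lit 0) [] false,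
   Spec.mk (nat_lit 46293) (nat_lit 0) [nat_lit 33171, nat_lit 41919, nat_lit 46779, nat_lit 46131, nat_lit 46455, nat_lit 46239, nat_lit 46347, nat_lit 46275, nat_lit 46311, nat_lit 46299, nat_lit 46291, nat_lit 26611] (nat_lit 1) [] false,
   Spec.mk (nat_lit 46297) (nat_lit 0) [nat_lit 33175, nat_lit 41923, nat_lit 46783, nat_lit 46135, nat_lit 46459, nat_lit 46243, nat_lit 46351, nat_lit 46315, nat_lit 46291, nat_lit 46299, nat_lit 26615] (nat_lit 0) [] false,
   Spec.mk (nat_lit 46299) (nat_lit 0) [nat_lit 33177, nat_lit 41925, nat_lit 46785, nat_lit 46137, nat_lit 46461, nat_lit 46245, nat_lit 46353, nat_lit 46317, nat_lit 46293, nat_lit 46297, nat_lit 26617] (nat_lit 0) [] false,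
   Spec.mk (nat_lit 46307) (nat_lit 1) [nat_lit 33185, nat_lit 41933, nat_lit 46793, nat_lit 46145, nat_lit 46469, nat_lit 46361, nat_lit 46289, nat_lit 46309] (nat_lit 0) [] false,
   Spec.mk (nat_lit 46309) (nat_lit 0) [nat_lit 33187, nat_lit 41935, nat_lit 46795, nat_lit 46147, nat_lit 46471, nat_lit 46363, nat_lit 46291, nat_lit 46315, nat_lit 46307, nat_lit 46311, nat_lit 26627] (nat_lit 0) [] false,
   Spec.mk (nat_lit 46311) (nat_lit 0) [nat_lit 33189, nat_lit 41937, nat_lit 46797, nat_lit 46149, nat_lit 46473, nat_lit 46365, nat_lit 46293, nat_lit 46317, nat_lit 46309, nat_lit 26629] (nat_lit 3) [] false,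
   Spec.mk (nat_lit 46315) (nat_lit 1) [nat_lit 33193, nat_lit 41941, nat_lit 46801, nat_lit 46153, nat_lit 46477, nat_lit 46369, nat_lit 46297, nat_lit 46309, nat_lit 46317, nat_lit 26633] (nat_lit 0) [] false]

noncomputable def sp119 : List Spec :=
  [Spec.mk (nat_lit 46317) (nat_lit 0) [nat_lit 33195, nat_lit 41943, nat_lit 46803, nat_lit 46155, nat_lit 46479, nat_lit 46371, nat_lit 46299, nat_lit 46311, nat_lit 46323, nat_lit 46315, nat_lit 26635] (nat_lit 0) [] false,
   Spec.mk (nat_lit 46323) (nat_lit 1) [nat_lit 33201, nat_lit 41949, nat_lit 46809, nat_lit 46161, nat_lit 46485, nat_lit 46377, nat_lit 46317, nat_lit 26641] (nat_lit 0) [] false,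
   Spec.mk (nat_lit 46337) (nat_lit 2) [nat_lit 33215, nat_lit 41963, nat_lit 46823, nat_lit 46499, nat_lit 46283, nat_lit 46343, nat_lit 46339] (nat_lit 0) [] false,
   Spec.mk (nat_lit 46339) (nat_lit 0) [nat_lit 33217, nat_lit 41965, nat_lit 46825, nat_lit 46501, nat_lit 46285, nat_lit 46345, nat_lit 46337, nat_lit 26657] (nat_lit 0) [] false,
   Spec.mk (nat_lit 46343) (nat_lit 0) [nat_lit 33221, nat_lit 41969, nat_lit 46829, nat_lit 46505, nat_lit 46289, nat_lit 46361, nat_lit 46337, nat_lit 46345] (nat_lit 0) [] false,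
   Spec.mk (nat_lit 46345) (nat_lit 0) [nat_lit 33223, nat_lit 41971, nat_lit 46831, nat_lit 46507, nat_lit 46291, nat_lit 46363, nat_lit 46339, nat_lit 46351, nat_lit 46343, nat_lit 46347, nat_lit 26663] (nat_lit 0) [] false,
   Spec.mk (nat_lit 46347) (nat_lit 0) [nat_lit 33225, nat_lit 41973, nat_lit 46833, nat_lit 46509, nat_lit 46293, nat_lit 46365, nat_lit 46353, nat_lit 46345, nat_lit 26665] (nat_lit 2) [] false,
   Spec.mk (nat_lit 46351) (nat_lit 0) [nat_lit 33229, nat_lit 41977, nat_lit 46837, nat_lit 46513, nat_lit 46297, nat_lit 46369, nat_lit 46345, nat_lit 46353, nat_lit 26669] (nat_lit 2) [] false,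
   Spec.mk (nat_lit 46353) (nat_lit 0) [nat_lit 33231, nat_lit 41979, nat_lit 46839, nat_lit 46515, nat_lit 46299, nat_lit 46371, nat_lit 46347, nat_lit 46351, nat_lit 26671] (nat_lit 2) [] false,
   Spec.mk (nat_lit 46361) (nat_lit 2) [nat_lit 33239, nat_lit 41987, nat_lit 46847, nat_lit 46523, nat_lit 46307, nat_lit 46343, nat_lit 46363] (nat_lit 0) [] false,
   Spec.mk (nat_lit 46363) (nat_lit 1) [nat_lit 33241, nat_lit 41989, nat_lit 46849, nat_lit 46525, nat_lit 46309, nat_lit 46345, nat_lit 46369, nat_lit 46361, nat_lit 46365, nat_lit 26681] (nat_lit 0) [] false,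
   Spec.mk (nat_lit 46365) (nat_lit 0) [nat_lit 33243, nat_lit 41991, nat_lit 46851, nat_lit 46527, nat_lit 46311, nat_lit 46347, nat_lit 46371, nat_lit 46363, nat_lit 26683] (nat_lit 2) [] false,
   Spec.mk (nat_lit 46369) (nat_lit 1) [nat_lit 33247, nat_lit 41995, nat_lit 46855, nat_lit 46531, nat_lit 46315, nat_lit 46351, nat_lit 46387, nat_lit 46363, nat_lit 46371, nat_lit 26687] (nat_lit 0) [] false,
   Spec.mk (nat_lit 46371) (nat_lit 0) [nat_lit 33249, nat_lit 41997, nat_lit 46857, nat_lit 46533, nat_lit 46317, nat_lit 46353, nat_lit 46389, nat_lit 46365, nat_lit 46377, nat_lit 46369, nat_lit 26689] (nat_lit 0) [] false,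
   Spec.mk (nat_lit 46377) (nat_lit 0) [nat_lit 33255, nat_lit 42003, nat_lit 46863, nat_lit 46539, nat_lit 46323, nat_lit 46395, nat_lit 46371, nat_lit 26695] (nat_lit 0) [] false,
   Spec.mk (nat_lit 46387) (nat_lit 2) [nat_lit 33265, nat_lit 42013, nat_lit 46873, nat_lit 46549, nat_lit 46369, nat_lit 46389, nat_lit 26705] (nat_lit 0) [] false,
   Spec.mk (nat_lit 46389) (nat_lit 0) [nat_lit 33267, nat_lit 42015, nat_lit 46875, nat_lit 46551, nat_lit 46371, nat_lit 46395, nat_lit 46387, nat_lit 26707] (nat_lit 0) [] false,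
   Spec.mk (nat_lit 46395) (nat_lit 2) [nat_lit 33273, nat_lit 42021, nat_lit 46881, nat_lit 46557, nat_lit 46377, nat_lit 46389, nat_lit 26713] (nat_lit 0) [] false,
   Spec.mk (nat_lit 46421) (nat_lit 2) [nat_lit 33299, nat_lit 42047, nat_lit 46907, nat_lit 46259, nat_lit 46427] (nat_lit 0) [] false,
   Spec.mk (nat_lit 46427) (nat_lit 1) [nat_lit 33305, nat_lit 42053, nat_lit 46913, nat_lit 46265, nat_lit 46445, nat_lit 46421, nat_lit 46433, nat_lit 46429] (nat_lit 0) [] false,
   Spec.mk (nat_lit 46429) (nat_lit 0) [nat_lit 33307, nat_lit 42055, nat_lit 46915, nat_lit 46267, nat_lit 46447, nat_lit 46435, nat_lit 46427, nat_lit 26747] (nat_lit 0) [] false,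
   Spec.mk (nat_lit 46433) (nat_lit 0) [nat_lit 33311, nat_lit 42059, nat_lit 46919, nat_lit 46271, nat_lit 46451, nat_lit 46427, nat_lit 46435] (nat_lit 2) [] false,
   Spec.mk (nat_lit 46435) (nat_lit 0) [nat_lit 33313, nat_lit 42061, nat_lit 46921, nat_lit 46273, nat_lit 46453, nat_lit 46429, nat_lit 46433, nat_lit 46437, nat_lit 26753] (nat_lit 1) [] false,
   Spec.mk (nat_lit 46437) (nat_lit 0) [nat_lit 33315, nat_lit 42063, nat_lit 46923, nat_lit 46275, nat_lit 46455, nat_lit 46435, nat_lit 26755] (nat_lit 2) [] false,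
   Spec.mk (nat_lit 46445) (nat_lit 0) [nat_lit 33323, nat_lit 42071, nat_lit 46931, nat_lit 46283, nat_lit 46499, nat_lit 46427, nat_lit 46451, nat_lit 46447] (nat_lit 0) [] false,
   Spec.mk (nat_lit 46447) (nat_lit 0) [nat_lit 33325, nat_lit 42073, nat_lit 46933, nat_lit 46285, nat_lit 46501, nat_lit 46429, nat_lit 46453, nat_lit 46445, nat_lit 26765] (nat_lit 2) [] false,
   Spec.mk (nat_lit 46451) (nat_lit 0) [nat_lit 33329, nat_lit 42077, nat_lit 46937, nat_lit 46289, nat_lit 46505, nat_lit 46433, nat_lit 46469, nat_lit 46445, nat_lit 46453] (nat_lit 1) [] false,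
   Spec.mk (nat_lit 46453) (nat_lit 0) [nat_lit 33331, nat_lit 42079, nat_lit 46939, nat_lit 46291, nat_lit 46507, nat_lit 46435, nat_lit 46471, nat_lit 46447, nat_lit 46459, nat_lit 46451, nat_lit 46455, nat_lit 26771] (nat_lit 1) [] false,
   Spec.mk (nat_lit 46455) (nat_lit 0) [nat_lit 33333, nat_lit 42081, nat_lit 46941, nat_lit 46293, nat_lit 46509, nat_lit 46437, nat_lit 46473, nat_lit 46461, nat_lit 46453, nat_lit 26773] (nat_lit 3) [] false,
   Spec.mk (nat_lit 46459) (nat_lit 0) [nat_lit 33337, nat_lit 42085, nat_lit 46945, nat_lit 46297, nat_lit 46513, nat_lit 46477, nat_lit 46453, nat_lit 46461, nat_lit 26777] (nat_lit 2) [] false,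
   Spec.mk (nat_lit 46461) (nat_lit 0) [nat_lit 33339, nat_lit 42087, nat_lit 46947, nat_lit 46299, nat_lit 46515, nat_lit 46479, nat_lit 46455, nat_lit 46459, nat_lit 26779] (nat_lit 2) [] false,
   Spec.mk (nat_lit 46469) (nat_lit 0) [nat_lit 33347, nat_lit 42095, nat_lit 46955, nat_lit 46307, nat_lit 46523, nat_lit 46451, nat_lit 46471] (nat_lit 2) [] false,
   Spec.mk (nat_lit 46471) (nat_lit 0) [nat_lit 33349, nat_lit 42097, nat_lit 46957, nat_lit 46309, nat_lit 46525, nat_lit 46453, nat_lit 46477, nat_lit 46469, nat_lit 46473, nat_lit 26789] (nat_lit 3) [] false,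
   Spec.mk (nat_lit 46473) (nat_lit 0) [nat_lit 33351, nat_lit 42099, nat_lit 46959, nat_lit 46311, nat_lit 46527, nat_lit 46455, nat_lit 46479, nat_lit 46471, nat_lit 26791] (nat_lit 6) [] false,
   Spec.mk (nat_lit 46477) (nat_lit 0) [nat_lit 33355, nat_lit 42103, nat_lit 46963, nat_lit 46315, nat_lit 46531, nat_lit 46459, nat_lit 46471, nat_lit 46479, nat_lit 26795] (nat_lit 2) [] false,
   Spec.mk (nat_lit 46479) (nat_lit 0) [nat_lit 33357, nat_lit 42105, nat_lit 46965, nat_lit 46317, nat_lit 46533, nat_lit 46461, nat_lit 46473, nat_lit 46485, nat_lit 46477, nat_lit 26797] (nat_lit 3) [] false,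
   Spec.mk (nat_lit 46485) (nat_lit 0) [nat_lit 33363, nat_lit 42111, nat_lit 46971, nat_lit 46323, nat_lit 46539, nat_lit 46479, nat_lit 26803] (nat_lit 2) [] false,
   Spec.mk (nat_lit 46499) (nat_lit 2) [nat_lit 33377, nat_lit 42125, nat_lit 46985, nat_lit 46337, nat_lit 46445, nat_lit 46505, nat_lit 46501] (nat_lit 0) [] false,
   Spec.mk (nat_lit 46501) (nat_lit 0) [nat_lit 33379, nat_lit 42127, nat_lit 46987, nat_lit 46339, nat_lit 46447, nat_lit 46507, nat_lit 46499, nat_lit 26819] (nat_lit 0) [] false,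
   Spec.mk (nat_lit 46505) (nat_lit 0) [nat_lit 33383, nat_lit 42131, nat_lit 46991, nat_lit 46343, nat_lit 46451, nat_lit 46523, nat_lit 46499, nat_lit 46507] (nat_lit 0) [] false,
   Spec.mk (nat_lit 46507) (nat_lit 0) [nat_lit 33385, nat_lit 42133, nat_lit 46993, nat_lit 46345, nat_lit 46453, nat_lit 46525, nat_lit 46501, nat_lit 46513, nat_lit 46505, nat_lit 46509, nat_lit 26825] (nat_lit 0) [] false,
   Spec.mk (nat_lit 46509) (nat_lit 0) [nat_lit 33387, nat_lit 42135, nat_lit 46995, nat_lit 46347, nat_lit 46455, nat_lit 46527, nat_lit 46515, nat_lit 46507, nat_lit 26827] (nat_lit 2) [] false,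
   Spec.mk (nat_lit 46513) (nat_lit 0) [nat_lit 33391, nat_lit 42139, nat_lit 46999, nat_lit 46351, nat_lit 46459, nat_lit 46531, nat_lit 46507, nat_lit 46515, nat_lit 26831] (nat_lit 2) [] false,
   Spec.mk (nat_lit 46515) (nat_lit 0) [nat_lit 33393, nat_lit 42141, nat_lit 47001, nat_lit 46353, nat_lit 46461, nat_lit 46533, nat_lit 46509, nat_lit 46513, nat_lit 26833] (nat_lit 2) [] false,
   Spec.mk (nat_lit 46523) (nat_lit 1) [nat_lit 33401, nat_lit 42149, nat_lit 47009, nat_lit 46361, nat_lit 46469, nat_lit 46577, nat_lit 46505, nat_lit 46525] (nat_lit 0) [] false,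
   Spec.mk (nat_lit 46525) (nat_lit 0) [nat_lit 33403, nat_lit 42151, nat_lit 47011, nat_lit 46363, nat_lit 46471, nat_lit 46579, nat_lit 46507, nat_lit 46531, nat_lit 46523, nat_lit 46527, nat_lit 26843] (nat_lit 0) [] false,
   Spec.mk (nat_lit 46527) (nat_lit 0) [nat_lit 33405, nat_lit 42153, nat_lit 47013, nat_lit 46365, nat_lit 46473, nat_lit 46581, nat_lit 46509, nat_lit 46533, nat_lit 46525, nat_lit 26845] (nat_lit 3) [] false,
   Spec.mk (nat_lit 46531) (nat_lit 0) [nat_lit 33409, nat_lit 42157, nat_lit 47017, nat_lit 46369, nat_lit 46477, nat_lit 46585, nat_lit 46513, nat_lit 46549, nat_lit 46525, nat_lit 46533, nat_lit 26849] (nat_lit 0) [] false,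
   Spec.mk (nat_lit 46533) (nat_lit 0) [nat_lit 33411, nat_lit 42159, nat_lit 47019, nat_lit 46371, nat_lit 46479, nat_lit 46587, nat_lit 46515, nat_lit 46551, nat_lit 46527, nat_lit 46539, nat_lit 46531, nat_lit 26851] (nat_lit 1) [] false,
   Spec.mk (nat_lit 46539) (nat_lit 0) [nat_lit 33417, nat_lit 42165, nat_lit 47025, nat_lit 46377, nat_lit 46485, nat_lit 46593, nat_lit 46557, nat_lit 46533, nat_lit 26857] (nat_lit 1) [] false,
   Spec.mk (nat_lit 46549) (nat_lit 0) [nat_lit 33427, nat_lit 42175, nat_lit 47035, nat_lit 46387, nat_lit 46603, nat_lit 46531, nat_lit 46551, nat_lit 26867] (nat_lit 0) [] false,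
   Spec.mk (nat_lit 46551) (nat_lit 0) [nat_lit 33429, nat_lit 42177, nat_lit 47037, nat_lit 46389, nat_lit 46605, nat_lit 46533, nat_lit 46557, nat_lit 46549, nat_lit 26869] (nat_lit 2) [] false,
   Spec.mk (nat_lit 46557) (nat_lit 0) [nat_lit 33435, nat_lit 42183, nat_lit 47043, nat_lit 46395, nat_lit 46611, nat_lit 46539, nat_lit 46551, nat_lit 26875] (nat_lit 0) [] false,
   Spec.mk (nat_lit 46577) (nat_lit 2) [nat_lit 33455, nat_lit 42203, nat_lit 47063, nat_lit 46523, nat_lit 46579] (nat_lit 0) [] false,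
   Spec.mk (nat_lit 46579) (nat_lit 1) [nat_lit 33457, nat_lit 42205, nat_lit 47065, nat_lit 46525, nat_lit 46585, nat_lit 46577, nat_lit 46581, nat_lit 26897] (nat_lit 0) [] false,
   Spec.mk (nat_lit 46581) (nat_lit 0) [nat_lit 33459, nat_lit 42207, nat_lit 47067, nat_lit 46527, nat_lit 46587, nat_lit 46579, nat_lit 26899] (nat_lit 2) [] false,
   Spec.mk (nat_lit 46585) (nat_lit 0) [nat_lit 33463, nat_lit 42211, nat_lit 47071, nat_lit 46531, nat_lit 46603, nat_lit 46579, nat_lit 46587, nat_lit 26903] (nat_lit 0) [] false,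
   Spec.mk (nat_lit 46587) (nat_lit 0) [nat_lit 33465, nat_lit 42213, nat_lit 47073, nat_lit 46533, nat_lit 46605, nat_lit 46581, nat_lit 46593, nat_lit 46585, nat_lit 26905] (nat_lit 1) [] false,
   Spec.mk (nat_lit 46593) (nat_lit 0) [nat_lit 33471, nat_lit 42219, nat_lit 47079, nat_lit 46539, nat_lit 46611, nat_lit 46587, nat_lit 26911] (nat_lit 2) [] false,
   Spec.mk (nat_lit 46603) (nat_lit 2) [nat_lit 33481, nat_lit 42229, nat_lit 47089, nat_lit 46549, nat_lit 46585, nat_lit 46605, nat_lit 26921] (nat_lit 0) [] false]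

noncomputable def sp120 : List Spec :=
  [Spec.mk (nat_lit 46605) (nat_lit 0) [nat_lit 33483, nat_lit 42231, nat_lit 47091, nat_lit 46551, nat_lit 46587, nat_lit 46611, nat_lit 46603, nat_lit 26923] (nat_lit 0) [] false,
   Spec.mk (nat_lit 46611) (nat_lit 1) [nat_lit 33489, nat_lit 42237, nat_lit 47097, nat_lit 46557, nat_lit 46593, nat_lit 46629, nat_lit 46605, nat_lit 26929] (nat_lit 0) [] false,
   Spec.mk (nat_lit 46629) (nat_lit 2) [nat_lit 33507, nat_lit 42255, nat_lit 47115, nat_lit 46611, nat_lit 26947] (nat_lit 0) [] false,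
   Spec.mk (nat_lit 46673) (nat_lit 4) [nat_lit 33551, nat_lit 42299, nat_lit 48131, nat_lit 46187, nat_lit 46691, nat_lit 46679] (nat_lit 0) [] false,
   Spec.mk (nat_lit 46679) (nat_lit 2) [nat_lit 33557, nat_lit 42305, nat_lit 48137, nat_lit 46193, nat_lit 46697, nat_lit 46673, nat_lit 46681] (nat_lit 0) [] false,
   Spec.mk (nat_lit 46681) (nat_lit 2) [nat_lit 33559, nat_lit 42307, nat_lit 48139, nat_lit 46195, nat_lit 46699, nat_lit 46679, nat_lit 26999] (nat_lit 0) [] false,
   Spec.mk (nat_lit 46691) (nat_lit 2) [nat_lit 33569, nat_lit 42317, nat_lit 48149, nat_lit 46205, nat_lit 46745, nat_lit 46673, nat_lit 46697] (nat_lit 0) [] false,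
   Spec.mk (nat_lit 46697) (nat_lit 2) [nat_lit 33575, nat_lit 42323, nat_lit 48155, nat_lit 46211, nat_lit 46751, nat_lit 46679, nat_lit 46715, nat_lit 46691, nat_lit 46703, nat_lit 46699] (nat_lit 0) [] false,
   Spec.mk (nat_lit 46699) (nat_lit 1) [nat_lit 33577, nat_lit 42325, nat_lit 48157, nat_lit 46213, nat_lit 46753, nat_lit 46681, nat_lit 46717, nat_lit 46705, nat_lit 46697, nat_lit 27017] (nat_lit 0) [] false,
   Spec.mk (nat_lit 46703) (nat_lit 0) [nat_lit 33581, nat_lit 42329, nat_lit 48161, nat_lit 46217, nat_lit 46757, nat_lit 46721, nat_lit 46697, nat_lit 46705] (nat_lit 0) [] false,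
   Spec.mk (nat_lit 46705) (nat_lit 1) [nat_lit 33583, nat_lit 42331, nat_lit 48163, nat_lit 46219, nat_lit 46759, nat_lit 46723, nat_lit 46699, nat_lit 46703, nat_lit 46707, nat_lit 27023] (nat_lit 0) [] false,
   Spec.mk (nat_lit 46707) (nat_lit 0) [nat_lit 33585, nat_lit 42333, nat_lit 48165, nat_lit 46221, nat_lit 46761, nat_lit 46725, nat_lit 46705, nat_lit 27025] (nat_lit 0) [] false,
   Spec.mk (nat_lit 46715) (nat_lit 0) [nat_lit 33593, nat_lit 42341, nat_lit 48173, nat_lit 46229, nat_lit 46769, nat_lit 46697, nat_lit 46721, nat_lit 46717] (nat_lit 0) [] false,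
   Spec.mk (nat_lit 46717) (nat_lit 0) [nat_lit 33595, nat_lit 42343, nat_lit 48175, nat_lit 46231, nat_lit 46771, nat_lit 46699, nat_lit 46723, nat_lit 46715, nat_lit 27035] (nat_lit 2) [] false,
   Spec.mk (nat_lit 46721) (nat_lit 0) [nat_lit 33599, nat_lit 42347, nat_lit 48179, nat_lit 46235, nat_lit 46775, nat_lit 46703, nat_lit 46715, nat_lit 46723] (nat_lit 0) [] false,
   Spec.mk (nat_lit 46723) (nat_lit 0) [nat_lit 33601, nat_lit 42349, nat_lit 48181, nat_lit 46237, nat_lit 46777, nat_lit 46705, nat_lit 46717, nat_lit 46729, nat_lit 46721, nat_lit 46725, nat_lit 27041] (nat_lit 0) [] false,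
   Spec.mk (nat_lit 46725) (nat_lit 0) [nat_lit 33603, nat_lit 42351, nat_lit 48183, nat_lit 46239, nat_lit 46779, nat_lit 46707, nat_lit 46731, nat_lit 46723, nat_lit 27043] (nat_lit 2) [] false,
   Spec.mk (nat_lit 46729) (nat_lit 0) [nat_lit 33607, nat_lit 42355, nat_lit 48187, nat_lit 46243, nat_lit 46783, nat_lit 46723, nat_lit 46731, nat_lit 27047] (nat_lit 0) [] false,
   Spec.mk (nat_lit 46731) (nat_lit 0) [nat_lit 33609, nat_lit 42357, nat_lit 48189, nat_lit 46245, nat_lit 46785, nat_lit 46725, nat_lit 46729, nat_lit 27049] (nat_lit 0) [] false,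
   Spec.mk (nat_lit 46745) (nat_lit 2) [nat_lit 33623, nat_lit 42371, nat_lit 48203, nat_lit 46259, nat_lit 46907, nat_lit 46691, nat_lit 46751] (nat_lit 0) [] false,
   Spec.mk (nat_lit 46751) (nat_lit 1) [nat_lit 33629, nat_lit 42377, nat_lit 48209, nat_lit 46265, nat_lit 46913, nat_lit 46697, nat_lit 46769, nat_lit 46745, nat_lit 46757, nat_lit 46753] (nat_lit 0) [] false,
   Spec.mk (nat_lit 46753) (nat_lit 0) [nat_lit 33631, nat_lit 42379, nat_lit 48211, nat_lit 46267, nat_lit 46915, nat_lit 46699, nat_lit 46771, nat_lit 46759, nat_lit 46751, nat_lit 27071] (nat_lit 0) [] false,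
   Spec.mk (nat_lit 46757) (nat_lit 0) [nat_lit 33635, nat_lit 42383, nat_lit 48215, nat_lit 46271, nat_lit 46919, nat_lit 46703, nat_lit 46775, nat_lit 46751, nat_lit 46759] (nat_lit 2) [] false,
   Spec.mk (nat_lit 46759) (nat_lit 0) [nat_lit 33637, nat_lit 42385, nat_lit 48217, nat_lit 46273, nat_lit 46921, nat_lit 46705, nat_lit 46777, nat_lit 46753, nat_lit 46757, nat_lit 46761, nat_lit 27077] (nat_lit 1) [] false,
   Spec.mk (nat_lit 46761) (nat_lit 0) [nat_lit 33639, nat_lit 42387, nat_lit 48219, nat_lit 46275, nat_lit 46923, nat_lit 46707, nat_lit 46779, nat_lit 46759, nat_lit 27079] (nat_lit 2) [] false,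
   Spec.mk (nat_lit 46769) (nat_lit 1) [nat_lit 33647, nat_lit 42395, nat_lit 48227, nat_lit 46283, nat_lit 46931, nat_lit 46715, nat_lit 46823, nat_lit 46751, nat_lit 46775, nat_lit 46771] (nat_lit 0) [] false,
   Spec.mk (nat_lit 46771) (nat_lit 0) [nat_lit 33649, nat_lit 42397, nat_lit 48229, nat_lit 46285, nat_lit 46933, nat_lit 46717, nat_lit 46825, nat_lit 46753, nat_lit 46777, nat_lit 46769, nat_lit 27089] (nat_lit 1) [] false,
   Spec.mk (nat_lit 46775) (nat_lit 0) [nat_lit 33653, nat_lit 42401, nat_lit 48233, nat_lit 46289, nat_lit 46937, nat_lit 46721, nat_lit 46829, nat_lit 46757, nat_lit 46793, nat_lit 46769, nat_lit 46777] (nat_lit 0) [] false,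
   Spec.mk (nat_lit 46777) (nat_lit 0) [nat_lit 33655, nat_lit 42403, nat_lit 48235, nat_lit 46291, nat_lit 46939, nat_lit 46723, nat_lit 46831, nat_lit 46759, nat_lit 46795, nat_lit 46771, nat_lit 46783, nat_lit 46775, nat_lit 46779, nat_lit 27095] (nat_lit 0) [] false,
   Spec.mk (nat_lit 46779) (nat_lit 0) [nat_lit 33657, nat_lit 42405, nat_lit 48237, nat_lit 46293, nat_lit 46941, nat_lit 46725, nat_lit 46833, nat_lit 46761, nat_lit 46797, nat_lit 46785, nat_lit 46777, nat_lit 27097] (nat_lit 2) [] false,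
   Spec.mk (nat_lit 46783) (nat_lit 0) [nat_lit 33661, nat_lit 42409, nat_lit 48241, nat_lit 46297, nat_lit 46945, nat_lit 46729, nat_lit 46837, nat_lit 46801, nat_lit 46777, nat_lit 46785, nat_lit 27101] (nat_lit 1) [] false,
   Spec.mk (nat_lit 46785) (nat_lit 0) [nat_lit 33663, nat_lit 42411, nat_lit 48243, nat_lit 46299, nat_lit 46947, nat_lit 46731, nat_lit 46839, nat_lit 46803, nat_lit 46779, nat_lit 46783, nat_lit 27103] (nat_lit 1) [] false,
   Spec.mk (nat_lit 46793) (nat_lit 0) [nat_lit 33671, nat_lit 42419, nat_lit 48251, nat_lit 46307, nat_lit 46955, nat_lit 46847, nat_lit 46775, nat_lit 46795] (nat_lit 0) [] false,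
   Spec.mk (nat_lit 46795) (nat_lit 0) [nat_lit 33673, nat_lit 42421, nat_lit 48253, nat_lit 46309, nat_lit 46957, nat_lit 46849, nat_lit 46777, nat_lit 46801, nat_lit 46793, nat_lit 46797, nat_lit 27113] (nat_lit 1) [] false,
   Spec.mk (nat_lit 46797) (nat_lit 0) [nat_lit 33675, nat_lit 42423, nat_lit 48255, nat_lit 46311, nat_lit 46959, nat_lit 46851, nat_lit 46779, nat_lit 46803, nat_lit 46795, nat_lit 27115] (nat_lit 4) [] false,
   Spec.mk (nat_lit 46801) (nat_lit 0) [nat_lit 33679, nat_lit 42427, nat_lit 48259, nat_lit 46315, nat_lit 46963, nat_lit 46855, nat_lit 46783, nat_lit 46795, nat_lit 46803, nat_lit 27119] (nat_lit 0) [] false,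
   Spec.mk (nat_lit 46803) (nat_lit 0) [nat_lit 33681, nat_lit 42429, nat_lit 48261, nat_lit 46317, nat_lit 46965, nat_lit 46857, nat_lit 46785, nat_lit 46797, nat_lit 46809, nat_lit 46801, nat_lit 27121] (nat_lit 1) [] false,
   Spec.mk (nat_lit 46809) (nat_lit 0) [nat_lit 33687, nat_lit 42435, nat_lit 48267, nat_lit 46323, nat_lit 46971, nat_lit 46863, nat_lit 46803, nat_lit 27127] (nat_lit 0) [] false,
   Spec.mk (nat_lit 46823) (nat_lit 0) [nat_lit 33701, nat_lit 42449, nat_lit 48281, nat_lit 46337, nat_lit 46985, nat_lit 46769, nat_lit 46829, nat_lit 46825] (nat_lit 0) [] false,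
   Spec.mk (nat_lit 46825) (nat_lit 0) [nat_lit 33703, nat_lit 42451, nat_lit 48283, nat_lit 46339, nat_lit 46987, nat_lit 46771, nat_lit 46831, nat_lit 46823, nat_lit 27143] (nat_lit 2) [] false,
   Spec.mk (nat_lit 46829) (nat_lit 0) [nat_lit 33707, nat_lit 42455, nat_lit 48287, nat_lit 46343, nat_lit 46991, nat_lit 46775, nat_lit 46847, nat_lit 46823, nat_lit 46831] (nat_lit 2) [] false,
   Spec.mk (nat_lit 46831) (nat_lit 0) [nat_lit 33709, nat_lit 42457, nat_lit 48289, nat_lit 46345, nat_lit 46993, nat_lit 46777, nat_lit 46849, nat_lit 46825, nat_lit 46837, nat_lit 46829, nat_lit 46833, nat_lit 27149] (nat_lit 2) [] false,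
   Spec.mk (nat_lit 46833) (nat_lit 0) [nat_lit 33711, nat_lit 42459, nat_lit 48291, nat_lit 46347, nat_lit 46995, nat_lit 46779, nat_lit 46851, nat_lit 46839, nat_lit 46831, nat_lit 27151] (nat_lit 4) [] false,
   Spec.mk (nat_lit 46837) (nat_lit 0) [nat_lit 33715, nat_lit 42463, nat_lit 48295, nat_lit 46351, nat_lit 46999, nat_lit 46783, nat_lit 46855, nat_lit 46831, nat_lit 46839, nat_lit 27155] (nat_lit 4) [] false,
   Spec.mk (nat_lit 46839) (nat_lit 0) [nat_lit 33717, nat_lit 42465, nat_lit 48297, nat_lit 46353, nat_lit 47001, nat_lit 46785, nat_lit 46857, nat_lit 46833, nat_lit 46837, nat_lit 27157] (nat_lit 4) [] false,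
   Spec.mk (nat_lit 46847) (nat_lit 0) [nat_lit 33725, nat_lit 42473, nat_lit 48305, nat_lit 46361, nat_lit 47009, nat_lit 46793, nat_lit 46829, nat_lit 46849] (nat_lit 0) [] false,
   Spec.mk (nat_lit 46849) (nat_lit 0) [nat_lit 33727, nat_lit 42475, nat_lit 48307, nat_lit 46363, nat_lit 47011, nat_lit 46795, nat_lit 46831, nat_lit 46855, nat_lit 46847, nat_lit 46851, nat_lit 27167] (nat_lit 1) [] false,
   Spec.mk (nat_lit 46851) (nat_lit 0) [nat_lit 33729, nat_lit 42477, nat_lit 48309, nat_lit 46365, nat_lit 47013, nat_lit 46797, nat_lit 46833, nat_lit 46857, nat_lit 46849, nat_lit 27169] (nat_lit 4) [] false,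
   Spec.mk (nat_lit 46855) (nat_lit 0) [nat_lit 33733, nat_lit 42481, nat_lit 48313, nat_lit 46369, nat_lit 47017, nat_lit 46801, nat_lit 46837, nat_lit 46873, nat_lit 46849, nat_lit 46857, nat_lit 27173] (nat_lit 1) [] false,
   Spec.mk (nat_lit 46857) (nat_lit 0) [nat_lit 33735, nat_lit 42483, nat_lit 48315, nat_lit 46371, nat_lit 47019, nat_lit 46803, nat_lit 46839, nat_lit 46875, nat_lit 46851, nat_lit 46863, nat_lit 46855, nat_lit 27175] (nat_lit 2) [] false,
   Spec.mk (nat_lit 46863) (nat_lit 0) [nat_lit 33741, nat_lit 42489, nat_lit 48321, nat_lit 46377, nat_lit 47025, nat_lit 46809, nat_lit 46881, nat_lit 46857, nat_lit 27181] (nat_lit 2) [] false,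
   Spec.mk (nat_lit 46873) (nat_lit 0) [nat_lit 33751, nat_lit 42499, nat_lit 48331, nat_lit 46387, nat_lit 47035, nat_lit 46855, nat_lit 46875, nat_lit 27191] (nat_lit 0) [] false,
   Spec.mk (nat_lit 46875) (nat_lit 0) [nat_lit 33753, nat_lit 42501, nat_lit 48333, nat_lit 46389, nat_lit 47037, nat_lit 46857, nat_lit 46881, nat_lit 46873, nat_lit 27193] (nat_lit 2) [] false,
   Spec.mk (nat_lit 46881) (nat_lit 0) [nat_lit 33759, nat_lit 42507, nat_lit 48339, nat_lit 46395, nat_lit 47043, nat_lit 46863, nat_lit 46875, nat_lit 27199] (nat_lit 0) [] false,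
   Spec.mk (nat_lit 46907) (nat_lit 3) [nat_lit 33785, nat_lit 42533, nat_lit 48365, nat_lit 46421, nat_lit 47393, nat_lit 46745, nat_lit 46913] (nat_lit 0) [] false,
   Spec.mk (nat_lit 46913) (nat_lit 2) [nat_lit 33791, nat_lit 42539, nat_lit 48371, nat_lit 46427, nat_lit 47399, nat_lit 46751, nat_lit 46931, nat_lit 46907, nat_lit 46919, nat_lit 46915] (nat_lit 0) [] false,
   Spec.mk (nat_lit 46915) (nat_lit 1) [nat_lit 33793, nat_lit 42541, nat_lit 48373, nat_lit 46429, nat_lit 47401, nat_lit 46753, nat_lit 46933, nat_lit 46921, nat_lit 46913, nat_lit 27233] (nat_lit 0) [] false,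
   Spec.mk (nat_lit 46919) (nat_lit 0) [nat_lit 33797, nat_lit 42545, nat_lit 48377, nat_lit 46433, nat_lit 47405, nat_lit 46757, nat_lit 46937, nat_lit 46913, nat_lit 46921] (nat_lit 1) [] false,
   Spec.mk (nat_lit 46921) (nat_lit 0) [nat_lit 33799, nat_lit 42547, nat_lit 48379, nat_lit 46435, nat_lit 47407, nat_lit 46759, nat_lit 46939, nat_lit 46915, nat_lit 46919, nat_lit 46923, nat_lit 27239] (nat_lit 0) [] false,
   Spec.mk (nat_lit 46923) (nat_lit 0) [nat_lit 33801, nat_lit 42549, nat_lit 48381, nat_lit 46437, nat_lit 47409, nat_lit 46761, nat_lit 46941, nat_lit 46921, nat_lit 27241] (nat_lit 1) [] false]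

noncomputable def sp121 : List Spec :=
  [Spec.mk (nat_lit 46931) (nat_lit 1) [nat_lit 33809, nat_lit 42557, nat_lit 48389, nat_lit 46445, nat_lit 47417, nat_lit 46769, nat_lit 46985, nat_lit 46913, nat_lit 46937, nat_lit 46933] (nat_lit 0) [] false,
   Spec.mk (nat_lit 46933) (nat_lit 0) [nat_lit 33811, nat_lit 42559, nat_lit 48391, nat_lit 46447, nat_lit 47419, nat_lit 46771, nat_lit 46987, nat_lit 46915, nat_lit 46939, nat_lit 46931, nat_lit 27251] (nat_lit 1) [] false,
   Spec.mk (nat_lit 46937) (nat_lit 0) [nat_lit 33815, nat_lit 42563, nat_lit 48395, nat_lit 46451, nat_lit 47423, nat_lit 46775, nat_lit 46991, nat_lit 46919, nat_lit 46955, nat_lit 46931, nat_lit 46939] (nat_lit 0) [] false,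
   Spec.mk (nat_lit 46939) (nat_lit 0) [nat_lit 33817, nat_lit 42565, nat_lit 48397, nat_lit 46453, nat_lit 47425, nat_lit 46777, nat_lit 46993, nat_lit 46921, nat_lit 46957, nat_lit 46933, nat_lit 46945, nat_lit 46937, nat_lit 46941, nat_lit 27257] (nat_lit 0) [] false,
   Spec.mk (nat_lit 46941) (nat_lit 0) [nat_lit 33819, nat_lit 42567, nat_lit 48399, nat_lit 46455, nat_lit 47427, nat_lit 46779, nat_lit 46995, nat_lit 46923, nat_lit 46959, nat_lit 46947, nat_lit 46939, nat_lit 27259] (nat_lit 2) [] false,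
   Spec.mk (nat_lit 46945) (nat_lit 0) [nat_lit 33823, nat_lit 42571, nat_lit 48403, nat_lit 46459, nat_lit 47431, nat_lit 46783, nat_lit 46999, nat_lit 46963, nat_lit 46939, nat_lit 46947, nat_lit 27263] (nat_lit 1) [] false,
   Spec.mk (nat_lit 46947) (nat_lit 0) [nat_lit 33825, nat_lit 42573, nat_lit 48405, nat_lit 46461, nat_lit 47433, nat_lit 46785, nat_lit 47001, nat_lit 46965, nat_lit 46941, nat_lit 46945, nat_lit 27265] (nat_lit 1) [] false,
   Spec.mk (nat_lit 46955) (nat_lit 0) [nat_lit 33833, nat_lit 42581, nat_lit 48413, nat_lit 46469, nat_lit 47441, nat_lit 46793, nat_lit 47009, nat_lit 46937, nat_lit 46957] (nat_lit 1) [] false,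
   Spec.mk (nat_lit 46957) (nat_lit 0) [nat_lit 33835, nat_lit 42583, nat_lit 48415, nat_lit 46471, nat_lit 47443, nat_lit 46795, nat_lit 47011, nat_lit 46939, nat_lit 46963, nat_lit 46955, nat_lit 46959, nat_lit 27275] (nat_lit 2) [] false,
   Spec.mk (nat_lit 46959) (nat_lit 0) [nat_lit 33837, nat_lit 42585, nat_lit 48417, nat_lit 46473, nat_lit 47445, nat_lit 46797, nat_lit 47013, nat_lit 46941, nat_lit 46965, nat_lit 46957, nat_lit 27277] (nat_lit 5) [] false,
   Spec.mk (nat_lit 46963) (nat_lit 0) [nat_lit 33841, nat_lit 42589, nat_lit 48421, nat_lit 46477, nat_lit 47449, nat_lit 46801, nat_lit 47017, nat_lit 46945, nat_lit 46957, nat_lit 46965, nat_lit 27281] (nat_lit 1) [] false,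
   Spec.mk (nat_lit 46965) (nat_lit 0) [nat_lit 33843, nat_lit 42591, nat_lit 48423, nat_lit 46479, nat_lit 47451, nat_lit 46803, nat_lit 47019, nat_lit 46947, nat_lit 46959, nat_lit 46971, nat_lit 46963, nat_lit 27283] (nat_lit 2) [] false,
   Spec.mk (nat_lit 46971) (nat_lit 0) [nat_lit 33849, nat_lit 42597, nat_lit 48429, nat_lit 46485, nat_lit 47457, nat_lit 46809, nat_lit 47025, nat_lit 46965, nat_lit 27289] (nat_lit 1) [] false,
   Spec.mk (nat_lit 46985) (nat_lit 2) [nat_lit 33863, nat_lit 42611, nat_lit 48443, nat_lit 46499, nat_lit 47471, nat_lit 46823, nat_lit 47147, nat_lit 46931, nat_lit 46991, nat_lit 46987] (nat_lit 0) [] false,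
   Spec.mk (nat_lit 46987) (nat_lit 0) [nat_lit 33865, nat_lit 42613, nat_lit 48445, nat_lit 46501, nat_lit 47473, nat_lit 46825, nat_lit 47149, nat_lit 46933, nat_lit 46993, nat_lit 46985, nat_lit 27305] (nat_lit 0) [] false,
   Spec.mk (nat_lit 46991) (nat_lit 0) [nat_lit 33869, nat_lit 42617, nat_lit 48449, nat_lit 46505, nat_lit 47477, nat_lit 46829, nat_lit 47153, nat_lit 46937, nat_lit 47009, nat_lit 46985, nat_lit 46993] (nat_lit 0) [] false,
   Spec.mk (nat_lit 46993) (nat_lit 0) [nat_lit 33871, nat_lit 42619, nat_lit 48451, nat_lit 46507, nat_lit 47479, nat_lit 46831, nat_lit 47155, nat_lit 46939, nat_lit 47011, nat_lit 46987, nat_lit 46999, nat_lit 46991, nat_lit 46995, nat_lit 27311] (nat_lit 0) [] false,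
   Spec.mk (nat_lit 46995) (nat_lit 0) [nat_lit 33873, nat_lit 42621, nat_lit 48453, nat_lit 46509, nat_lit 47481, nat_lit 46833, nat_lit 47157, nat_lit 46941, nat_lit 47013, nat_lit 47001, nat_lit 46993, nat_lit 27313] (nat_lit 2) [] false,
   Spec.mk (nat_lit 46999) (nat_lit 0) [nat_lit 33877, nat_lit 42625, nat_lit 48457, nat_lit 46513, nat_lit 47485, nat_lit 46837, nat_lit 47161, nat_lit 46945, nat_lit 47017, nat_lit 46993, nat_lit 47001, nat_lit 27317] (nat_lit 2) [] false,
   Spec.mk (nat_lit 47001) (nat_lit 0) [nat_lit 33879, nat_lit 42627, nat_lit 48459, nat_lit 46515, nat_lit 47487, nat_lit 46839, nat_lit 47163, nat_lit 46947, nat_lit 47019, nat_lit 46995, nat_lit 46999, nat_lit 27319] (nat_lit 2) [] false,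
   Spec.mk (nat_lit 47009) (nat_lit 1) [nat_lit 33887, nat_lit 42635, nat_lit 48467, nat_lit 46523, nat_lit 47495, nat_lit 46847, nat_lit 47171, nat_lit 46955, nat_lit 47063, nat_lit 46991, nat_lit 47011] (nat_lit 0) [] false,
   Spec.mk (nat_lit 47011) (nat_lit 0) [nat_lit 33889, nat_lit 42637, nat_lit 48469, nat_lit 46525, nat_lit 47497, nat_lit 46849, nat_lit 47173, nat_lit 46957, nat_lit 47065, nat_lit 46993, nat_lit 47017, nat_lit 47009, nat_lit 47013, nat_lit 27329] (nat_lit 0) [] false,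
   Spec.mk (nat_lit 47013) (nat_lit 0) [nat_lit 33891, nat_lit 42639, nat_lit 48471, nat_lit 46527, nat_lit 47499, nat_lit 46851, nat_lit 47175, nat_lit 46959, nat_lit 47067, nat_lit 46995, nat_lit 47019, nat_lit 47011, nat_lit 27331] (nat_lit 3) [] false,
   Spec.mk (nat_lit 47017) (nat_lit 0) [nat_lit 33895, nat_lit 42643, nat_lit 48475, nat_lit 46531, nat_lit 47503, nat_lit 46855, nat_lit 47179, nat_lit 46963, nat_lit 47071, nat_lit 46999, nat_lit 47035, nat_lit 47011, nat_lit 47019, nat_lit 27335] (nat_lit 0) [] false,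
   Spec.mk (nat_lit 47019) (nat_lit 0) [nat_lit 33897, nat_lit 42645, nat_lit 48477, nat_lit 46533, nat_lit 47505, nat_lit 46857, nat_lit 47181, nat_lit 46965, nat_lit 47073, nat_lit 47001, nat_lit 47037, nat_lit 47013, nat_lit 47025, nat_lit 47017, nat_lit 27337] (nat_lit 1) [] false,
   Spec.mk (nat_lit 47025) (nat_lit 0) [nat_lit 33903, nat_lit 42651, nat_lit 48483, nat_lit 46539, nat_lit 47511, nat_lit 46863, nat_lit 47187, nat_lit 46971, nat_lit 47079, nat_lit 47043, nat_lit 47019, nat_lit 27343] (nat_lit 1) [] false,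
   Spec.mk (nat_lit 47035) (nat_lit 0) [nat_lit 33913, nat_lit 42661, nat_lit 48493, nat_lit 46549, nat_lit 47521, nat_lit 46873, nat_lit 47197, nat_lit 47089, nat_lit 47017, nat_lit 47037, nat_lit 27353] (nat_lit 0) [] false,
   Spec.mk (nat_lit 47037) (nat_lit 0) [nat_lit 33915, nat_lit 42663, nat_lit 48495, nat_lit 46551, nat_lit 47523, nat_lit 46875, nat_lit 47199, nat_lit 47091, nat_lit 47019, nat_lit 47043, nat_lit 47035, nat_lit 27355] (nat_lit 2) [] false,
   Spec.mk (nat_lit 47043) (nat_lit 0) [nat_lit 33921, nat_lit 42669, nat_lit 48501, nat_lit 46557, nat_lit 47529, nat_lit 46881, nat_lit 47205, nat_lit 47097, nat_lit 47025, nat_lit 47037, nat_lit 27361] (nat_lit 0) [] false,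
   Spec.mk (nat_lit 47063) (nat_lit 1) [nat_lit 33941, nat_lit 42689, nat_lit 48521, nat_lit 46577, nat_lit 47549, nat_lit 47225, nat_lit 47009, nat_lit 47065] (nat_lit 0) [] false,
   Spec.mk (nat_lit 47065) (nat_lit 0) [nat_lit 33943, nat_lit 42691, nat_lit 48523, nat_lit 46579, nat_lit 47551, nat_lit 47227, nat_lit 47011, nat_lit 47071, nat_lit 47063, nat_lit 47067, nat_lit 27383] (nat_lit 0) [] false,
   Spec.mk (nat_lit 47067) (nat_lit 0) [nat_lit 33945, nat_lit 42693, nat_lit 48525, nat_lit 46581, nat_lit 47553, nat_lit 47229, nat_lit 47013, nat_lit 47073, nat_lit 47065, nat_lit 27385] (nat_lit 3) [] false,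
   Spec.mk (nat_lit 47071) (nat_lit 0) [nat_lit 33949, nat_lit 42697, nat_lit 48529, nat_lit 46585, nat_lit 47557, nat_lit 47233, nat_lit 47017, nat_lit 47089, nat_lit 47065, nat_lit 47073, nat_lit 27389] (nat_lit 1) [] false,
   Spec.mk (nat_lit 47073) (nat_lit 0) [nat_lit 33951, nat_lit 42699, nat_lit 48531, nat_lit 46587, nat_lit 47559, nat_lit 47235, nat_lit 47019, nat_lit 47091, nat_lit 47067, nat_lit 47079, nat_lit 47071, nat_lit 27391] (nat_lit 2) [] false,
   Spec.mk (nat_lit 47079) (nat_lit 0) [nat_lit 33957, nat_lit 42705, nat_lit 48537, nat_lit 46593, nat_lit 47565, nat_lit 47241, nat_lit 47025, nat_lit 47097, nat_lit 47073, nat_lit 27397] (nat_lit 3) [] false,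
   Spec.mk (nat_lit 47089) (nat_lit 1) [nat_lit 33967, nat_lit 42715, nat_lit 48547, nat_lit 46603, nat_lit 47575, nat_lit 47251, nat_lit 47035, nat_lit 47071, nat_lit 47091, nat_lit 27407] (nat_lit 0) [] false,
   Spec.mk (nat_lit 47091) (nat_lit 0) [nat_lit 33969, nat_lit 42717, nat_lit 48549, nat_lit 46605, nat_lit 47577, nat_lit 47253, nat_lit 47037, nat_lit 47073, nat_lit 47097, nat_lit 47089, nat_lit 27409] (nat_lit 1) [] false,
   Spec.mk (nat_lit 47097) (nat_lit 0) [nat_lit 33975, nat_lit 42723, nat_lit 48555, nat_lit 46611, nat_lit 47583, nat_lit 47259, nat_lit 47043, nat_lit 47079, nat_lit 47115, nat_lit 47091, nat_lit 27415] (nat_lit 0) [] false,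
   Spec.mk (nat_lit 47115) (nat_lit 1) [nat_lit 33993, nat_lit 42741, nat_lit 48573, nat_lit 46629, nat_lit 47601, nat_lit 47277, nat_lit 47097, nat_lit 27433] (nat_lit 0) [] false,
   Spec.mk (nat_lit 47147) (nat_lit 2) [nat_lit 34025, nat_lit 42773, nat_lit 48605, nat_lit 47633, nat_lit 46985, nat_lit 47153, nat_lit 47149] (nat_lit 0) [] false,
   Spec.mk (nat_lit 47149) (nat_lit 0) [nat_lit 34027, nat_lit 42775, nat_lit 48607, nat_lit 47635, nat_lit 46987, nat_lit 47155, nat_lit 47147, nat_lit 27467] (nat_lit 0) [] false,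
   Spec.mk (nat_lit 47153) (nat_lit 0) [nat_lit 34031, nat_lit 42779, nat_lit 48611, nat_lit 47639, nat_lit 46991, nat_lit 47171, nat_lit 47147, nat_lit 47155] (nat_lit 0) [] false,
   Spec.mk (nat_lit 47155) (nat_lit 0) [nat_lit 34033, nat_lit 42781, nat_lit 48613, nat_lit 47641, nat_lit 46993, nat_lit 47173, nat_lit 47149, nat_lit 47161, nat_lit 47153, nat_lit 47157, nat_lit 27473] (nat_lit 0) [] false,
   Spec.mk (nat_lit 47157) (nat_lit 0) [nat_lit 34035, nat_lit 42783, nat_lit 48615, nat_lit 47643, nat_lit 46995, nat_lit 47175, nat_lit 47163, nat_lit 47155, nat_lit 27475] (nat_lit 2) [] false,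
   Spec.mk (nat_lit 47161) (nat_lit 0) [nat_lit 34039, nat_lit 42787, nat_lit 48619, nat_lit 47647, nat_lit 46999, nat_lit 47179, nat_lit 47155, nat_lit 47163, nat_lit 27479] (nat_lit 2) [] false,
   Spec.mk (nat_lit 47163) (nat_lit 0) [nat_lit 34041, nat_lit 42789, nat_lit 48621, nat_lit 47649, nat_lit 47001, nat_lit 47181, nat_lit 47157, nat_lit 47161, nat_lit 27481] (nat_lit 2) [] false,
   Spec.mk (nat_lit 47171) (nat_lit 0) [nat_lit 34049, nat_lit 42797, nat_lit 48629, nat_lit 47657, nat_lit 47009, nat_lit 47225, nat_lit 47153, nat_lit 47173] (nat_lit 0) [] false,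
   Spec.mk (nat_lit 47173) (nat_lit 0) [nat_lit 34051, nat_lit 42799, nat_lit 48631, nat_lit 47659, nat_lit 47011, nat_lit 47227, nat_lit 47155, nat_lit 47179, nat_lit 47171, nat_lit 47175, nat_lit 27491] (nat_lit 1) [] false,
   Spec.mk (nat_lit 47175) (nat_lit 0) [nat_lit 34053, nat_lit 42801, nat_lit 48633, nat_lit 47661, nat_lit 47013, nat_lit 47229, nat_lit 47157, nat_lit 47181, nat_lit 47173, nat_lit 27493] (nat_lit 4) [] false,
   Spec.mk (nat_lit 47179) (nat_lit 0) [nat_lit 34057, nat_lit 42805, nat_lit 48637, nat_lit 47665, nat_lit 47017, nat_lit 47233, nat_lit 47161, nat_lit 47197, nat_lit 47173, nat_lit 47181, nat_lit 27497] (nat_lit 1) [] false,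
   Spec.mk (nat_lit 47181) (nat_lit 0) [nat_lit 34059, nat_lit 42807, nat_lit 48639, nat_lit 47667, nat_lit 47019, nat_lit 47235, nat_lit 47163, nat_lit 47199, nat_lit 47175, nat_lit 47187, nat_lit 47179, nat_lit 27499] (nat_lit 2) [] false,
   Spec.mk (nat_lit 47187) (nat_lit 0) [nat_lit 34065, nat_lit 42813, nat_lit 48645, nat_lit 47673, nat_lit 47025, nat_lit 47241, nat_lit 47205, nat_lit 47181, nat_lit 27505] (nat_lit 2) [] false,
   Spec.mk (nat_lit 47197) (nat_lit 0) [nat_lit 34075, nat_lit 42823, nat_lit 48655, nat_lit 47683, nat_lit 47035, nat_lit 47251, nat_lit 47179, nat_lit 47199, nat_lit 27515] (nat_lit 2) [] false,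
   Spec.mk (nat_lit 47199) (nat_lit 0) [nat_lit 34077, nat_lit 42825, nat_lit 48657, nat_lit 47685, nat_lit 47037, nat_lit 47253, nat_lit 47181, nat_lit 47205, nat_lit 47197, nat_lit 27517] (nat_lit 4) [] false,
   Spec.mk (nat_lit 47205) (nat_lit 0) [nat_lit 34083, nat_lit 42831, nat_lit 48663, nat_lit 47691, nat_lit 47043, nat_lit 47259, nat_lit 47187, nat_lit 47199, nat_lit 27523] (nat_lit 2) [] false,
   Spec.mk (nat_lit 47225) (nat_lit 2) [nat_lit 34103, nat_lit 42851, nat_lit 48683, nat_lit 47711, nat_lit 47063, nat_lit 47171, nat_lit 47227] (nat_lit 0) [] false,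
   Spec.mk (nat_lit 47227) (nat_lit 1) [nat_lit 34105, nat_lit 42853, nat_lit 48685, nat_lit 47713, nat_lit 47065, nat_lit 47173, nat_lit 47233, nat_lit 47225, nat_lit 47229, nat_lit 27545] (nat_lit 0) [] false,
   Spec.mk (nat_lit 47229) (nat_lit 0) [nat_lit 34107, nat_lit 42855, nat_lit 48687, nat_lit 47715, nat_lit 47067, nat_lit 47175, nat_lit 47235, nat_lit 47227, nat_lit 27547] (nat_lit 2) [] false,
   Spec.mk (nat_lit 47233) (nat_lit 0) [nat_lit 34111, nat_lit 42859, nat_lit 48691, nat_lit 47719, nat_lit 47071, nat_lit 47179, nat_lit 47251, nat_lit 47227, nat_lit 47235, nat_lit 27551] (nat_lit 0) [] false,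
   Spec.mk (nat_lit 47235) (nat_lit 0) [nat_lit 34113, nat_lit 42861, nat_lit 48693, nat_lit 47721, nat_lit 47073, nat_lit 47181, nat_lit 47253, nat_lit 47229, nat_lit 47241, nat_lit 47233, nat_lit 27553] (nat_lit 1) [] false]

noncomputable def sp122 : List Spec :=
  [Spec.mk (nat_lit 47241) (nat_lit 0) [nat_lit 34119, nat_lit 42867, nat_lit 48699, nat_lit 47727, nat_lit 47079, nat_lit 47187, nat_lit 47259, nat_lit 47235, nat_lit 27559] (nat_lit 2) [] false,
   Spec.mk (nat_lit 47251) (nat_lit 1) [nat_lit 34129, nat_lit 42877, nat_lit 48709, nat_lit 47737, nat_lit 47089, nat_lit 47197, nat_lit 47305, nat_lit 47233, nat_lit 47253, nat_lit 27569] (nat_lit 0) [] false,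
   Spec.mk (nat_lit 47253) (nat_lit 0) [nat_lit 34131, nat_lit 42879, nat_lit 48711, nat_lit 47739, nat_lit 47091, nat_lit 47199, nat_lit 47307, nat_lit 47235, nat_lit 47259, nat_lit 47251, nat_lit 27571] (nat_lit 1) [] false,
   Spec.mk (nat_lit 47259) (nat_lit 0) [nat_lit 34137, nat_lit 42885, nat_lit 48717, nat_lit 47745, nat_lit 47097, nat_lit 47205, nat_lit 47313, nat_lit 47241, nat_lit 47277, nat_lit 47253, nat_lit 27577] (nat_lit 0) [] false,
   Spec.mk (nat_lit 47277) (nat_lit 0) [nat_lit 34155, nat_lit 42903, nat_lit 48735, nat_lit 47763, nat_lit 47115, nat_lit 47331, nat_lit 47259, nat_lit 27595] (nat_lit 0) [] false,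
   Spec.mk (nat_lit 47305) (nat_lit 2) [nat_lit 34183, nat_lit 42931, nat_lit 48763, nat_lit 47791, nat_lit 47251, nat_lit 47307, nat_lit 27623] (nat_lit 0) [] false,
   Spec.mk (nat_lit 47307) (nat_lit 0) [nat_lit 34185, nat_lit 42933, nat_lit 48765, nat_lit 47793, nat_lit 47253, nat_lit 47313, nat_lit 47305, nat_lit 27625] (nat_lit 0) [] false,
   Spec.mk (nat_lit 47313) (nat_lit 0) [nat_lit 34191, nat_lit 42939, nat_lit 48771, nat_lit 47799, nat_lit 47259, nat_lit 47331, nat_lit 47307, nat_lit 27631] (nat_lit 0) [] false,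
   Spec.mk (nat_lit 47331) (nat_lit 2) [nat_lit 34209, nat_lit 42957, nat_lit 48789, nat_lit 47817, nat_lit 47277, nat_lit 47313, nat_lit 27649] (nat_lit 0) [] false,
   Spec.mk (nat_lit 47393) (nat_lit 2) [nat_lit 34271, nat_lit 43019, nat_lit 48851, nat_lit 46907, nat_lit 47399] (nat_lit 0) [] false,
   Spec.mk (nat_lit 47399) (nat_lit 1) [nat_lit 34277, nat_lit 43025, nat_lit 48857, nat_lit 46913, nat_lit 47417, nat_lit 47393, nat_lit 47405, nat_lit 47401] (nat_lit 0) [] false,
   Spec.mk (nat_lit 47401) (nat_lit 0) [nat_lit 34279, nat_lit 43027, nat_lit 48859, nat_lit 46915, nat_lit 47419, nat_lit 47407, nat_lit 47399, nat_lit 27719] (nat_lit 0) [] false,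
   Spec.mk (nat_lit 47405) (nat_lit 0) [nat_lit 34283, nat_lit 43031, nat_lit 48863, nat_lit 46919, nat_lit 47423, nat_lit 47399, nat_lit 47407] (nat_lit 2) [] false,
   Spec.mk (nat_lit 47407) (nat_lit 0) [nat_lit 34285, nat_lit 43033, nat_lit 48865, nat_lit 46921, nat_lit 47425, nat_lit 47401, nat_lit 47405, nat_lit 47409, nat_lit 27725] (nat_lit 1) [] false,
   Spec.mk (nat_lit 47409) (nat_lit 0) [nat_lit 34287, nat_lit 43035, nat_lit 48867, nat_lit 46923, nat_lit 47427, nat_lit 47407, nat_lit 27727] (nat_lit 2) [] false,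
   Spec.mk (nat_lit 47417) (nat_lit 0) [nat_lit 34295, nat_lit 43043, nat_lit 48875, nat_lit 46931, nat_lit 47471, nat_lit 47399, nat_lit 47423, nat_lit 47419] (nat_lit 0) [] false,
   Spec.mk (nat_lit 47419) (nat_lit 0) [nat_lit 34297, nat_lit 43045, nat_lit 48877, nat_lit 46933, nat_lit 47473, nat_lit 47401, nat_lit 47425, nat_lit 47417, nat_lit 27737] (nat_lit 2) [] false,
   Spec.mk (nat_lit 47423) (nat_lit 0) [nat_lit 34301, nat_lit 43049, nat_lit 48881, nat_lit 46937, nat_lit 47477, nat_lit 47405, nat_lit 47441, nat_lit 47417, nat_lit 47425] (nat_lit 1) [] false,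
   Spec.mk (nat_lit 47425) (nat_lit 0) [nat_lit 34303, nat_lit 43051, nat_lit 48883, nat_lit 46939, nat_lit 47479, nat_lit 47407, nat_lit 47443, nat_lit 47419, nat_lit 47431, nat_lit 47423, nat_lit 47427, nat_lit 27743] (nat_lit 1) [] false,
   Spec.mk (nat_lit 47427) (nat_lit 0) [nat_lit 34305, nat_lit 43053, nat_lit 48885, nat_lit 46941, nat_lit 47481, nat_lit 47409, nat_lit 47445, nat_lit 47433, nat_lit 47425, nat_lit 27745] (nat_lit 3) [] false,
   Spec.mk (nat_lit 47431) (nat_lit 0) [nat_lit 34309, nat_lit 43057, nat_lit 48889, nat_lit 46945, nat_lit 47485, nat_lit 47449, nat_lit 47425, nat_lit 47433, nat_lit 27749] (nat_lit 2) [] false,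
   Spec.mk (nat_lit 47433) (nat_lit 0) [nat_lit 34311, nat_lit 43059, nat_lit 48891, nat_lit 46947, nat_lit 47487, nat_lit 47451, nat_lit 47427, nat_lit 47431, nat_lit 27751] (nat_lit 2) [] false,
   Spec.mk (nat_lit 47441) (nat_lit 0) [nat_lit 34319, nat_lit 43067, nat_lit 48899, nat_lit 46955, nat_lit 47495, nat_lit 47423, nat_lit 47443] (nat_lit 2) [] false,
   Spec.mk (nat_lit 47443) (nat_lit 0) [nat_lit 34321, nat_lit 43069, nat_lit 48901, nat_lit 46957, nat_lit 47497, nat_lit 47425, nat_lit 47449, nat_lit 47441, nat_lit 47445, nat_lit 27761] (nat_lit 3) [] false,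
   Spec.mk (nat_lit 47445) (nat_lit 0) [nat_lit 34323, nat_lit 43071, nat_lit 48903, nat_lit 46959, nat_lit 47499, nat_lit 47427, nat_lit 47451, nat_lit 47443, nat_lit 27763] (nat_lit 6) [] false,
   Spec.mk (nat_lit 47449) (nat_lit 0) [nat_lit 34327, nat_lit 43075, nat_lit 48907, nat_lit 46963, nat_lit 47503, nat_lit 47431, nat_lit 47443, nat_lit 47451, nat_lit 27767] (nat_lit 2) [] false,
   Spec.mk (nat_lit 47451) (nat_lit 0) [nat_lit 34329, nat_lit 43077, nat_lit 48909, nat_lit 46965, nat_lit 47505, nat_lit 47433, nat_lit 47445, nat_lit 47457, nat_lit 47449, nat_lit 27769] (nat_lit 3) [] false,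
   Spec.mk (nat_lit 47457) (nat_lit 0) [nat_lit 34335, nat_lit 43083, nat_lit 48915, nat_lit 46971, nat_lit 47511, nat_lit 47451, nat_lit 27775] (nat_lit 2) [] false,
   Spec.mk (nat_lit 47471) (nat_lit 0) [nat_lit 34349, nat_lit 43097, nat_lit 48929, nat_lit 46985, nat_lit 47633, nat_lit 47417, nat_lit 47477, nat_lit 47473] (nat_lit 0) [] false,
   Spec.mk (nat_lit 47473) (nat_lit 0) [nat_lit 34351, nat_lit 43099, nat_lit 48931, nat_lit 46987, nat_lit 47635, nat_lit 47419, nat_lit 47479, nat_lit 47471, nat_lit 27791] (nat_lit 2) [] false,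
   Spec.mk (nat_lit 47477) (nat_lit 0) [nat_lit 34355, nat_lit 43103, nat_lit 48935, nat_lit 46991, nat_lit 47639, nat_lit 47423, nat_lit 47495, nat_lit 47471, nat_lit 47479] (nat_lit 2) [] false,
   Spec.mk (nat_lit 47479) (nat_lit 0) [nat_lit 34357, nat_lit 43105, nat_lit 48937, nat_lit 46993, nat_lit 47641, nat_lit 47425, nat_lit 47497, nat_lit 47473, nat_lit 47485, nat_lit 47477, nat_lit 47481, nat_lit 27797] (nat_lit 2) [] false,
   Spec.mk (nat_lit 47481) (nat_lit 0) [nat_lit 34359, nat_lit 43107, nat_lit 48939, nat_lit 46995, nat_lit 47643, nat_lit 47427, nat_lit 47499, nat_lit 47487, nat_lit 47479, nat_lit 27799] (nat_lit 4) [] false,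
   Spec.mk (nat_lit 47485) (nat_lit 0) [nat_lit 34363, nat_lit 43111, nat_lit 48943, nat_lit 46999, nat_lit 47647, nat_lit 47431, nat_lit 47503, nat_lit 47479, nat_lit 47487, nat_lit 27803] (nat_lit 4) [] false,
   Spec.mk (nat_lit 47487) (nat_lit 0) [nat_lit 34365, nat_lit 43113, nat_lit 48945, nat_lit 47001, nat_lit 47649, nat_lit 47433, nat_lit 47505, nat_lit 47481, nat_lit 47485, nat_lit 27805] (nat_lit 4) [] false,
   Spec.mk (nat_lit 47495) (nat_lit 0) [nat_lit 34373, nat_lit 43121, nat_lit 48953, nat_lit 47009, nat_lit 47657, nat_lit 47441, nat_lit 47549, nat_lit 47477, nat_lit 47497] (nat_lit 1) [] false,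
   Spec.mk (nat_lit 47497) (nat_lit 0) [nat_lit 34375, nat_lit 43123, nat_lit 48955, nat_lit 47011, nat_lit 47659, nat_lit 47443, nat_lit 47551, nat_lit 47479, nat_lit 47503, nat_lit 47495, nat_lit 47499, nat_lit 27815] (nat_lit 2) [] false,
   Spec.mk (nat_lit 47499) (nat_lit 0) [nat_lit 34377, nat_lit 43125, nat_lit 48957, nat_lit 47013, nat_lit 47661, nat_lit 47445, nat_lit 47553, nat_lit 47481, nat_lit 47505, nat_lit 47497, nat_lit 27817] (nat_lit 5) [] false,
   Spec.mk (nat_lit 47503) (nat_lit 0) [nat_lit 34381, nat_lit 43129, nat_lit 48961, nat_lit 47017, nat_lit 47665, nat_lit 47449, nat_lit 47557, nat_lit 47485, nat_lit 47521, nat_lit 47497, nat_lit 47505, nat_lit 27821] (nat_lit 2) [] false,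
   Spec.mk (nat_lit 47505) (nat_lit 0) [nat_lit 34383, nat_lit 43131, nat_lit 48963, nat_lit 47019, nat_lit 47667, nat_lit 47451, nat_lit 47559, nat_lit 47487, nat_lit 47523, nat_lit 47499, nat_lit 47511, nat_lit 47503, nat_lit 27823] (nat_lit 3) [] false,
   Spec.mk (nat_lit 47511) (nat_lit 0) [nat_lit 34389, nat_lit 43137, nat_lit 48969, nat_lit 47025, nat_lit 47673, nat_lit 47457, nat_lit 47565, nat_lit 47529, nat_lit 47505, nat_lit 27829] (nat_lit 3) [] false,
   Spec.mk (nat_lit 47521) (nat_lit 0) [nat_lit 34399, nat_lit 43147, nat_lit 48979, nat_lit 47035, nat_lit 47683, nat_lit 47575, nat_lit 47503, nat_lit 47523, nat_lit 27839] (nat_lit 2) [] false,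
   Spec.mk (nat_lit 47523) (nat_lit 0) [nat_lit 34401, nat_lit 43149, nat_lit 48981, nat_lit 47037, nat_lit 47685, nat_lit 47577, nat_lit 47505, nat_lit 47529, nat_lit 47521, nat_lit 27841] (nat_lit 4) [] false,
   Spec.mk (nat_lit 47529) (nat_lit 0) [nat_lit 34407, nat_lit 43155, nat_lit 48987, nat_lit 47043, nat_lit 47691, nat_lit 47583, nat_lit 47511, nat_lit 47523, nat_lit 27847] (nat_lit 2) [] false,
   Spec.mk (nat_lit 47549) (nat_lit 0) [nat_lit 34427, nat_lit 43175, nat_lit 49007, nat_lit 47063, nat_lit 47711, nat_lit 47495, nat_lit 47551] (nat_lit 2) [] false,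
   Spec.mk (nat_lit 47551) (nat_lit 0) [nat_lit 34429, nat_lit 43177, nat_lit 49009, nat_lit 47065, nat_lit 47713, nat_lit 47497, nat_lit 47557, nat_lit 47549, nat_lit 47553, nat_lit 27869] (nat_lit 3) [] false,
   Spec.mk (nat_lit 47553) (nat_lit 0) [nat_lit 34431, nat_lit 43179, nat_lit 49011, nat_lit 47067, nat_lit 47715, nat_lit 47499, nat_lit 47559, nat_lit 47551, nat_lit 27871] (nat_lit 6) [] false,
   Spec.mk (nat_lit 47557) (nat_lit 0) [nat_lit 34435, nat_lit 43183, nat_lit 49015, nat_lit 47071, nat_lit 47719, nat_lit 47503, nat_lit 47575, nat_lit 47551, nat_lit 47559, nat_lit 27875] (nat_lit 4) [] false,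
   Spec.mk (nat_lit 47559) (nat_lit 0) [nat_lit 34437, nat_lit 43185, nat_lit 49017, nat_lit 47073, nat_lit 47721, nat_lit 47505, nat_lit 47577, nat_lit 47553, nat_lit 47565, nat_lit 47557, nat_lit 27877] (nat_lit 5) [] false,
   Spec.mk (nat_lit 47565) (nat_lit 0) [nat_lit 34443, nat_lit 43191, nat_lit 49023, nat_lit 47079, nat_lit 47727, nat_lit 47511, nat_lit 47583, nat_lit 47559, nat_lit 27883] (nat_lit 6) [] false,
   Spec.mk (nat_lit 47575) (nat_lit 0) [nat_lit 34453, nat_lit 43201, nat_lit 49033, nat_lit 47089, nat_lit 47737, nat_lit 47521, nat_lit 47557, nat_lit 47577, nat_lit 27893] (nat_lit 2) [] false,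
   Spec.mk (nat_lit 47577) (nat_lit 0) [nat_lit 34455, nat_lit 43203, nat_lit 49035, nat_lit 47091, nat_lit 47739, nat_lit 47523, nat_lit 47559, nat_lit 47583, nat_lit 47575, nat_lit 27895] (nat_lit 4) [] false,
   Spec.mk (nat_lit 47583) (nat_lit 0) [nat_lit 34461, nat_lit 43209, nat_lit 49041, nat_lit 47097, nat_lit 47745, nat_lit 47529, nat_lit 47565, nat_lit 47601, nat_lit 47577, nat_lit 27901] (nat_lit 3) [] false,
   Spec.mk (nat_lit 47601) (nat_lit 0) [nat_lit 34479, nat_lit 43227, nat_lit 49059, nat_lit 47115, nat_lit 47763, nat_lit 47583, nat_lit 27919] (nat_lit 2) [] false,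
   Spec.mk (nat_lit 47633) (nat_lit 2) [nat_lit 34511, nat_lit 43259, nat_lit 49091, nat_lit 47147, nat_lit 47471, nat_lit 47639, nat_lit 47635] (nat_lit 0) [] false,
   Spec.mk (nat_lit 47635) (nat_lit 0) [nat_lit 34513, nat_lit 43261, nat_lit 49093, nat_lit 47149, nat_lit 47473, nat_lit 47641, nat_lit 47633, nat_lit 27953] (nat_lit 0) [] false,
   Spec.mk (nat_lit 47639) (nat_lit 0) [nat_lit 34517, nat_lit 43265, nat_lit 49097, nat_lit 47153, nat_lit 47477, nat_lit 47657, nat_lit 47633, nat_lit 47641] (nat_lit 0) [] false,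
   Spec.mk (nat_lit 47641) (nat_lit 0) [nat_lit 34519, nat_lit 43267, nat_lit 49099, nat_lit 47155, nat_lit 47479, nat_lit 47659, nat_lit 47635, nat_lit 47647, nat_lit 47639, nat_lit 47643, nat_lit 27959] (nat_lit 0) [] false,
   Spec.mk (nat_lit 47643) (nat_lit 0) [nat_lit 34521, nat_lit 43269, nat_lit 49101, nat_lit 47157, nat_lit 47481, nat_lit 47661, nat_lit 47649, nat_lit 47641, nat_lit 27961] (nat_lit 2) [] false,
   Spec.mk (nat_lit 47647) (nat_lit 0) [nat_lit 34525, nat_lit 43273, nat_lit 49105, nat_lit 47161, nat_lit 47485, nat_lit 47665, nat_lit 47641, nat_lit 47649, nat_lit 27965] (nat_lit 2) [] false]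

noncomputable def sp123 : List Spec :=
  [Spec.mk (nat_lit 47649) (nat_lit 0) [nat_lit 34527, nat_lit 43275, nat_lit 49107, nat_lit 47163, nat_lit 47487, nat_lit 47667, nat_lit 47643, nat_lit 47647, nat_lit 27967] (nat_lit 2) [] false,
   Spec.mk (nat_lit 47657) (nat_lit 0) [nat_lit 34535, nat_lit 43283, nat_lit 49115, nat_lit 47171, nat_lit 47495, nat_lit 47711, nat_lit 47639, nat_lit 47659] (nat_lit 0) [] false,
   Spec.mk (nat_lit 47659) (nat_lit 0) [nat_lit 34537, nat_lit 43285, nat_lit 49117, nat_lit 47173, nat_lit 47497, nat_lit 47713, nat_lit 47641, nat_lit 47665, nat_lit 47657, nat_lit 47661, nat_lit 27977] (nat_lit 1) [] false,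
   Spec.mk (nat_lit 47661) (nat_lit 0) [nat_lit 34539, nat_lit 43287, nat_lit 49119, nat_lit 47175, nat_lit 47499, nat_lit 47715, nat_lit 47643, nat_lit 47667, nat_lit 47659, nat_lit 27979] (nat_lit 4) [] false,
   Spec.mk (nat_lit 47665) (nat_lit 0) [nat_lit 34543, nat_lit 43291, nat_lit 49123, nat_lit 47179, nat_lit 47503, nat_lit 47719, nat_lit 47647, nat_lit 47683, nat_lit 47659, nat_lit 47667, nat_lit 27983] (nat_lit 1) [] false,
   Spec.mk (nat_lit 47667) (nat_lit 0) [nat_lit 34545, nat_lit 43293, nat_lit 49125, nat_lit 47181, nat_lit 47505, nat_lit 47721, nat_lit 47649, nat_lit 47685, nat_lit 47661, nat_lit 47673, nat_lit 47665, nat_lit 27985] (nat_lit 2) [] false,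
   Spec.mk (nat_lit 47673) (nat_lit 0) [nat_lit 34551, nat_lit 43299, nat_lit 49131, nat_lit 47187, nat_lit 47511, nat_lit 47727, nat_lit 47691, nat_lit 47667, nat_lit 27991] (nat_lit 2) [] false,
   Spec.mk (nat_lit 47683) (nat_lit 0) [nat_lit 34561, nat_lit 43309, nat_lit 49141, nat_lit 47197, nat_lit 47521, nat_lit 47737, nat_lit 47665, nat_lit 47685, nat_lit 28001] (nat_lit 2) [] false,
   Spec.mk (nat_lit 47685) (nat_lit 0) [nat_lit 34563, nat_lit 43311, nat_lit 49143, nat_lit 47199, nat_lit 47523, nat_lit 47739, nat_lit 47667, nat_lit 47691, nat_lit 47683, nat_lit 28003] (nat_lit 4) [] false,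
   Spec.mk (nat_lit 47691) (nat_lit 0) [nat_lit 34569, nat_lit 43317, nat_lit 49149, nat_lit 47205, nat_lit 47529, nat_lit 47745, nat_lit 47673, nat_lit 47685, nat_lit 28009] (nat_lit 2) [] false,
   Spec.mk (nat_lit 47711) (nat_lit 1) [nat_lit 34589, nat_lit 43337, nat_lit 49169, nat_lit 47225, nat_lit 47549, nat_lit 47873, nat_lit 47657, nat_lit 47713] (nat_lit 0) [] false,
   Spec.mk (nat_lit 47713) (nat_lit 0) [nat_lit 34591, nat_lit 43339, nat_lit 49171, nat_lit 47227, nat_lit 47551, nat_lit 47875, nat_lit 47659, nat_lit 47719, nat_lit 47711, nat_lit 47715, nat_lit 28031] (nat_lit 0) [] false,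
   Spec.mk (nat_lit 47715) (nat_lit 0) [nat_lit 34593, nat_lit 43341, nat_lit 49173, nat_lit 47229, nat_lit 47553, nat_lit 47877, nat_lit 47661, nat_lit 47721, nat_lit 47713, nat_lit 28033] (nat_lit 3) [] false,
   Spec.mk (nat_lit 47719) (nat_lit 0) [nat_lit 34597, nat_lit 43345, nat_lit 49177, nat_lit 47233, nat_lit 47557, nat_lit 47881, nat_lit 47665, nat_lit 47737, nat_lit 47713, nat_lit 47721, nat_lit 28037] (nat_lit 1) [] false,
   Spec.mk (nat_lit 47721) (nat_lit 0) [nat_lit 34599, nat_lit 43347, nat_lit 49179, nat_lit 47235, nat_lit 47559, nat_lit 47883, nat_lit 47667, nat_lit 47739, nat_lit 47715, nat_lit 47727, nat_lit 47719, nat_lit 28039] (nat_lit 2) [] false,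
   Spec.mk (nat_lit 47727) (nat_lit 0) [nat_lit 34605, nat_lit 43353, nat_lit 49185, nat_lit 47241, nat_lit 47565, nat_lit 47889, nat_lit 47673, nat_lit 47745, nat_lit 47721, nat_lit 28045] (nat_lit 3) [] false,
   Spec.mk (nat_lit 47737) (nat_lit 0) [nat_lit 34615, nat_lit 43363, nat_lit 49195, nat_lit 47251, nat_lit 47575, nat_lit 47899, nat_lit 47683, nat_lit 47791, nat_lit 47719, nat_lit 47739, nat_lit 28055] (nat_lit 0) [] false,
   Spec.mk (nat_lit 47739) (nat_lit 0) [nat_lit 34617, nat_lit 43365, nat_lit 49197, nat_lit 47253, nat_lit 47577, nat_lit 47901, nat_lit 47685, nat_lit 47793, nat_lit 47721, nat_lit 47745, nat_lit 47737, nat_lit 28057] (nat_lit 2) [] false,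
   Spec.mk (nat_lit 47745) (nat_lit 0) [nat_lit 34623, nat_lit 43371, nat_lit 49203, nat_lit 47259, nat_lit 47583, nat_lit 47907, nat_lit 47691, nat_lit 47799, nat_lit 47727, nat_lit 47763, nat_lit 47739, nat_lit 28063] (nat_lit 1) [] false,
   Spec.mk (nat_lit 47763) (nat_lit 0) [nat_lit 34641, nat_lit 43389, nat_lit 49221, nat_lit 47277, nat_lit 47601, nat_lit 47925, nat_lit 47817, nat_lit 47745, nat_lit 28081] (nat_lit 1) [] false,
   Spec.mk (nat_lit 47791) (nat_lit 0) [nat_lit 34669, nat_lit 43417, nat_lit 49249, nat_lit 47305, nat_lit 47953, nat_lit 47737, nat_lit 47793, nat_lit 28109] (nat_lit 0) [] false,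
   Spec.mk (nat_lit 47793) (nat_lit 0) [nat_lit 34671, nat_lit 43419, nat_lit 49251, nat_lit 47307, nat_lit 47955, nat_lit 47739, nat_lit 47799, nat_lit 47791, nat_lit 28111] (nat_lit 2) [] false,
   Spec.mk (nat_lit 47799) (nat_lit 0) [nat_lit 34677, nat_lit 43425, nat_lit 49257, nat_lit 47313, nat_lit 47961, nat_lit 47745, nat_lit 47817, nat_lit 47793, nat_lit 28117] (nat_lit 2) [] false,
   Spec.mk (nat_lit 47817) (nat_lit 0) [nat_lit 34695, nat_lit 43443, nat_lit 49275, nat_lit 47331, nat_lit 47979, nat_lit 47763, nat_lit 47799, nat_lit 28135] (nat_lit 0) [] false,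
   Spec.mk (nat_lit 47873) (nat_lit 2) [nat_lit 34751, nat_lit 43499, nat_lit 49331, nat_lit 47711, nat_lit 47875] (nat_lit 0) [] false,
   Spec.mk (nat_lit 47875) (nat_lit 1) [nat_lit 34753, nat_lit 43501, nat_lit 49333, nat_lit 47713, nat_lit 47881, nat_lit 47873, nat_lit 47877, nat_lit 28193] (nat_lit 0) [] false,
   Spec.mk (nat_lit 47877) (nat_lit 0) [nat_lit 34755, nat_lit 43503, nat_lit 49335, nat_lit 47715, nat_lit 47883, nat_lit 47875, nat_lit 28195] (nat_lit 2) [] false,
   Spec.mk (nat_lit 47881) (nat_lit 0) [nat_lit 34759, nat_lit 43507, nat_lit 49339, nat_lit 47719, nat_lit 47899, nat_lit 47875, nat_lit 47883, nat_lit 28199] (nat_lit 0) [] false,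
   Spec.mk (nat_lit 47883) (nat_lit 0) [nat_lit 34761, nat_lit 43509, nat_lit 49341, nat_lit 47721, nat_lit 47901, nat_lit 47877, nat_lit 47889, nat_lit 47881, nat_lit 28201] (nat_lit 1) [] false,
   Spec.mk (nat_lit 47889) (nat_lit 0) [nat_lit 34767, nat_lit 43515, nat_lit 49347, nat_lit 47727, nat_lit 47907, nat_lit 47883, nat_lit 28207] (nat_lit 2) [] false,
   Spec.mk (nat_lit 47899) (nat_lit 0) [nat_lit 34777, nat_lit 43525, nat_lit 49357, nat_lit 47737, nat_lit 47953, nat_lit 47881, nat_lit 47901, nat_lit 28217] (nat_lit 0) [] false,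
   Spec.mk (nat_lit 47901) (nat_lit 0) [nat_lit 34779, nat_lit 43527, nat_lit 49359, nat_lit 47739, nat_lit 47955, nat_lit 47883, nat_lit 47907, nat_lit 47899, nat_lit 28219] (nat_lit 2) [] false,
   Spec.mk (nat_lit 47907) (nat_lit 0) [nat_lit 34785, nat_lit 43533, nat_lit 49365, nat_lit 47745, nat_lit 47961, nat_lit 47889, nat_lit 47925, nat_lit 47901, nat_lit 28225] (nat_lit 1) [] false,
   Spec.mk (nat_lit 47925) (nat_lit 0) [nat_lit 34803, nat_lit 43551, nat_lit 49383, nat_lit 47763, nat_lit 47979, nat_lit 47907, nat_lit 28243] (nat_lit 2) [] false,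
   Spec.mk (nat_lit 47953) (nat_lit 2) [nat_lit 34831, nat_lit 43579, nat_lit 49411, nat_lit 47791, nat_lit 47899, nat_lit 47955, nat_lit 28271] (nat_lit 0) [] false,
   Spec.mk (nat_lit 47955) (nat_lit 0) [nat_lit 34833, nat_lit 43581, nat_lit 49413, nat_lit 47793, nat_lit 47901, nat_lit 47961, nat_lit 47953, nat_lit 28273] (nat_lit 0) [] false,
   Spec.mk (nat_lit 47961) (nat_lit 0) [nat_lit 34839, nat_lit 43587, nat_lit 49419, nat_lit 47799, nat_lit 47907, nat_lit 47979, nat_lit 47955, nat_lit 28279] (nat_lit 0) [] false,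
   Spec.mk (nat_lit 47979) (nat_lit 1) [nat_lit 34857, nat_lit 43605, nat_lit 49437, nat_lit 47817, nat_lit 47925, nat_lit 48033, nat_lit 47961, nat_lit 28297] (nat_lit 0) [] false,
   Spec.mk (nat_lit 48033) (nat_lit 2) [nat_lit 34911, nat_lit 43659, nat_lit 49491, nat_lit 47979, nat_lit 28351] (nat_lit 0) [] false,
   Spec.mk (nat_lit 48131) (nat_lit 5) [nat_lit 35009, nat_lit 43757, nat_lit 52505, nat_lit 46673, nat_lit 48149, nat_lit 48137] (nat_lit 0) [] false,
   Spec.mk (nat_lit 48137) (nat_lit 3) [nat_lit 35015, nat_lit 43763, nat_lit 52511, nat_lit 46679, nat_lit 48155, nat_lit 48131, nat_lit 48139] (nat_lit 0) [] false,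
   Spec.mk (nat_lit 48139) (nat_lit 3) [nat_lit 35017, nat_lit 43765, nat_lit 52513, nat_lit 46681, nat_lit 48157, nat_lit 48137, nat_lit 28457] (nat_lit 0) [] false,
   Spec.mk (nat_lit 48149) (nat_lit 3) [nat_lit 35027, nat_lit 43775, nat_lit 52523, nat_lit 46691, nat_lit 48203, nat_lit 48131, nat_lit 48155] (nat_lit 0) [] false,
   Spec.mk (nat_lit 48155) (nat_lit 3) [nat_lit 35033, nat_lit 43781, nat_lit 52529, nat_lit 46697, nat_lit 48209, nat_lit 48137, nat_lit 48173, nat_lit 48149, nat_lit 48161, nat_lit 48157] (nat_lit 0) [] false,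
   Spec.mk (nat_lit 48157) (nat_lit 2) [nat_lit 35035, nat_lit 43783, nat_lit 52531, nat_lit 46699, nat_lit 48211, nat_lit 48139, nat_lit 48175, nat_lit 48163, nat_lit 48155, nat_lit 28475] (nat_lit 0) [] false,
   Spec.mk (nat_lit 48161) (nat_lit 1) [nat_lit 35039, nat_lit 43787, nat_lit 52535, nat_lit 46703, nat_lit 48215, nat_lit 48179, nat_lit 48155, nat_lit 48163] (nat_lit 0) [] false,
   Spec.mk (nat_lit 48163) (nat_lit 2) [nat_lit 35041, nat_lit 43789, nat_lit 52537, nat_lit 46705, nat_lit 48217, nat_lit 48181, nat_lit 48157, nat_lit 48161, nat_lit 48165, nat_lit 28481] (nat_lit 0) [] false,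
   Spec.mk (nat_lit 48165) (nat_lit 1) [nat_lit 35043, nat_lit 43791, nat_lit 52539, nat_lit 46707, nat_lit 48219, nat_lit 48183, nat_lit 48163, nat_lit 28483] (nat_lit 0) [] false,
   Spec.mk (nat_lit 48173) (nat_lit 1) [nat_lit 35051, nat_lit 43799, nat_lit 52547, nat_lit 46715, nat_lit 48227, nat_lit 48155, nat_lit 48179, nat_lit 48175] (nat_lit 0) [] false,
   Spec.mk (nat_lit 48175) (nat_lit 0) [nat_lit 35053, nat_lit 43801, nat_lit 52549, nat_lit 46717, nat_lit 48229, nat_lit 48157, nat_lit 48181, nat_lit 48173, nat_lit 28493] (nat_lit 1) [] false,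
   Spec.mk (nat_lit 48179) (nat_lit 1) [nat_lit 35057, nat_lit 43805, nat_lit 52553, nat_lit 46721, nat_lit 48233, nat_lit 48161, nat_lit 48173, nat_lit 48181] (nat_lit 0) [] false,
   Spec.mk (nat_lit 48181) (nat_lit 1) [nat_lit 35059, nat_lit 43807, nat_lit 52555, nat_lit 46723, nat_lit 48235, nat_lit 48163, nat_lit 48175, nat_lit 48187, nat_lit 48179, nat_lit 48183, nat_lit 28499] (nat_lit 0) [] false,
   Spec.mk (nat_lit 48183) (nat_lit 0) [nat_lit 35061, nat_lit 43809, nat_lit 52557, nat_lit 46725, nat_lit 48237, nat_lit 48165, nat_lit 48189, nat_lit 48181, nat_lit 28501] (nat_lit 1) [] false,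
   Spec.mk (nat_lit 48187) (nat_lit 1) [nat_lit 35065, nat_lit 43813, nat_lit 52561, nat_lit 46729, nat_lit 48241, nat_lit 48181, nat_lit 48189, nat_lit 28505] (nat_lit 0) [] false,
   Spec.mk (nat_lit 48189) (nat_lit 1) [nat_lit 35067, nat_lit 43815, nat_lit 52563, nat_lit 46731, nat_lit 48243, nat_lit 48183, nat_lit 48187, nat_lit 28507] (nat_lit 0) [] false,
   Spec.mk (nat_lit 48203) (nat_lit 3) [nat_lit 35081, nat_lit 43829, nat_lit 52577, nat_lit 46745, nat_lit 48365, nat_lit 48149, nat_lit 48209] (nat_lit 0) [] false,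
   Spec.mk (nat_lit 48209) (nat_lit 2) [nat_lit 35087, nat_lit 43835, nat_lit 52583, nat_lit 46751, nat_lit 48371, nat_lit 48155, nat_lit 48227, nat_lit 48203, nat_lit 48215, nat_lit 48211] (nat_lit 0) [] false,
   Spec.mk (nat_lit 48211) (nat_lit 1) [nat_lit 35089, nat_lit 43837, nat_lit 52585, nat_lit 46753, nat_lit 48373, nat_lit 48157, nat_lit 48229, nat_lit 48217, nat_lit 48209, nat_lit 28529] (nat_lit 0) [] false,
   Spec.mk (nat_lit 48215) (nat_lit 0) [nat_lit 35093, nat_lit 43841, nat_lit 52589, nat_lit 46757, nat_lit 48377, nat_lit 48161, nat_lit 48233, nat_lit 48209, nat_lit 48217] (nat_lit 1) [] false,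
   Spec.mk (nat_lit 48217) (nat_lit 0) [nat_lit 35095, nat_lit 43843, nat_lit 52591, nat_lit 46759, nat_lit 48379, nat_lit 48163, nat_lit 48235, nat_lit 48211, nat_lit 48215, nat_lit 48219, nat_lit 28535] (nat_lit 0) [] false]

noncomputable def sp124 : List Spec :=
  [Spec.mk (nat_lit 48219) (nat_lit 0) [nat_lit 35097, nat_lit 43845, nat_lit 52593, nat_lit 46761, nat_lit 48381, nat_lit 48165, nat_lit 48237, nat_lit 48217, nat_lit 28537] (nat_lit 1) [] false,
   Spec.mk (nat_lit 48227) (nat_lit 2) [nat_lit 35105, nat_lit 43853, nat_lit 52601, nat_lit 46769, nat_lit 48389, nat_lit 48173, nat_lit 48281, nat_lit 48209, nat_lit 48233, nat_lit 48229] (nat_lit 0) [] false,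
   Spec.mk (nat_lit 48229) (nat_lit 0) [nat_lit 35107, nat_lit 43855, nat_lit 52603, nat_lit 46771, nat_lit 48391, nat_lit 48175, nat_lit 48283, nat_lit 48211, nat_lit 48235, nat_lit 48227, nat_lit 28547] (nat_lit 0) [] false,
   Spec.mk (nat_lit 48233) (nat_lit 1) [nat_lit 35111, nat_lit 43859, nat_lit 52607, nat_lit 46775, nat_lit 48395, nat_lit 48179, nat_lit 48287, nat_lit 48215, nat_lit 48251, nat_lit 48227, nat_lit 48235] (nat_lit 0) [] false,
   Spec.mk (nat_lit 48235) (nat_lit 1) [nat_lit 35113, nat_lit 43861, nat_lit 52609, nat_lit 46777, nat_lit 48397, nat_lit 48181, nat_lit 48289, nat_lit 48217, nat_lit 48253, nat_lit 48229, nat_lit 48241, nat_lit 48233, nat_lit 48237, nat_lit 28553] (nat_lit 0) [] false,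
   Spec.mk (nat_lit 48237) (nat_lit 0) [nat_lit 35115, nat_lit 43863, nat_lit 52611, nat_lit 46779, nat_lit 48399, nat_lit 48183, nat_lit 48291, nat_lit 48219, nat_lit 48255, nat_lit 48243, nat_lit 48235, nat_lit 28555] (nat_lit 1) [] false,
   Spec.mk (nat_lit 48241) (nat_lit 0) [nat_lit 35119, nat_lit 43867, nat_lit 52615, nat_lit 46783, nat_lit 48403, nat_lit 48187, nat_lit 48295, nat_lit 48259, nat_lit 48235, nat_lit 48243, nat_lit 28559] (nat_lit 0) [] false,
   Spec.mk (nat_lit 48243) (nat_lit 0) [nat_lit 35121, nat_lit 43869, nat_lit 52617, nat_lit 46785, nat_lit 48405, nat_lit 48189, nat_lit 48297, nat_lit 48261, nat_lit 48237, nat_lit 48241, nat_lit 28561] (nat_lit 0) [] false,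
   Spec.mk (nat_lit 48251) (nat_lit 1) [nat_lit 35129, nat_lit 43877, nat_lit 52625, nat_lit 46793, nat_lit 48413, nat_lit 48305, nat_lit 48233, nat_lit 48253] (nat_lit 0) [] false,
   Spec.mk (nat_lit 48253) (nat_lit 0) [nat_lit 35131, nat_lit 43879, nat_lit 52627, nat_lit 46795, nat_lit 48415, nat_lit 48307, nat_lit 48235, nat_lit 48259, nat_lit 48251, nat_lit 48255, nat_lit 28571] (nat_lit 0) [] false,
   Spec.mk (nat_lit 48255) (nat_lit 0) [nat_lit 35133, nat_lit 43881, nat_lit 52629, nat_lit 46797, nat_lit 48417, nat_lit 48309, nat_lit 48237, nat_lit 48261, nat_lit 48253, nat_lit 28573] (nat_lit 3) [] false,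
   Spec.mk (nat_lit 48259) (nat_lit 1) [nat_lit 35137, nat_lit 43885, nat_lit 52633, nat_lit 46801, nat_lit 48421, nat_lit 48313, nat_lit 48241, nat_lit 48253, nat_lit 48261, nat_lit 28577] (nat_lit 0) [] false,
   Spec.mk (nat_lit 48261) (nat_lit 0) [nat_lit 35139, nat_lit 43887, nat_lit 52635, nat_lit 46803, nat_lit 48423, nat_lit 48315, nat_lit 48243, nat_lit 48255, nat_lit 48267, nat_lit 48259, nat_lit 28579] (nat_lit 0) [] false,
   Spec.mk (nat_lit 48267) (nat_lit 1) [nat_lit 35145, nat_lit 43893, nat_lit 52641, nat_lit 46809, nat_lit 48429, nat_lit 48321, nat_lit 48261, nat_lit 28585] (nat_lit 0) [] false,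
   Spec.mk (nat_lit 48281) (nat_lit 1) [nat_lit 35159, nat_lit 43907, nat_lit 52655, nat_lit 46823, nat_lit 48443, nat_lit 48227, nat_lit 48287, nat_lit 48283] (nat_lit 0) [] false,
   Spec.mk (nat_lit 48283) (nat_lit 0) [nat_lit 35161, nat_lit 43909, nat_lit 52657, nat_lit 46825, nat_lit 48445, nat_lit 48229, nat_lit 48289, nat_lit 48281, nat_lit 28601] (nat_lit 1) [] false,
   Spec.mk (nat_lit 48287) (nat_lit 0) [nat_lit 35165, nat_lit 43913, nat_lit 52661, nat_lit 46829, nat_lit 48449, nat_lit 48233, nat_lit 48305, nat_lit 48281, nat_lit 48289] (nat_lit 1) [] false,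
   Spec.mk (nat_lit 48289) (nat_lit 0) [nat_lit 35167, nat_lit 43915, nat_lit 52663, nat_lit 46831, nat_lit 48451, nat_lit 48235, nat_lit 48307, nat_lit 48283, nat_lit 48295, nat_lit 48287, nat_lit 48291, nat_lit 28607] (nat_lit 1) [] false,
   Spec.mk (nat_lit 48291) (nat_lit 0) [nat_lit 35169, nat_lit 43917, nat_lit 52665, nat_lit 46833, nat_lit 48453, nat_lit 48237, nat_lit 48309, nat_lit 48297, nat_lit 48289, nat_lit 28609] (nat_lit 3) [] false,
   Spec.mk (nat_lit 48295) (nat_lit 0) [nat_lit 35173, nat_lit 43921, nat_lit 52669, nat_lit 46837, nat_lit 48457, nat_lit 48241, nat_lit 48313, nat_lit 48289, nat_lit 48297, nat_lit 28613] (nat_lit 3) [] false,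
   Spec.mk (nat_lit 48297) (nat_lit 0) [nat_lit 35175, nat_lit 43923, nat_lit 52671, nat_lit 46839, nat_lit 48459, nat_lit 48243, nat_lit 48315, nat_lit 48291, nat_lit 48295, nat_lit 28615] (nat_lit 3) [] false,
   Spec.mk (nat_lit 48305) (nat_lit 1) [nat_lit 35183, nat_lit 43931, nat_lit 52679, nat_lit 46847, nat_lit 48467, nat_lit 48251, nat_lit 48287, nat_lit 48307] (nat_lit 0) [] false,
   Spec.mk (nat_lit 48307) (nat_lit 0) [nat_lit 35185, nat_lit 43933, nat_lit 52681, nat_lit 46849, nat_lit 48469, nat_lit 48253, nat_lit 48289, nat_lit 48313, nat_lit 48305, nat_lit 48309, nat_lit 28625] (nat_lit 0) [] false,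
   Spec.mk (nat_lit 48309) (nat_lit 0) [nat_lit 35187, nat_lit 43935, nat_lit 52683, nat_lit 46851, nat_lit 48471, nat_lit 48255, nat_lit 48291, nat_lit 48315, nat_lit 48307, nat_lit 28627] (nat_lit 3) [] false,
   Spec.mk (nat_lit 48313) (nat_lit 0) [nat_lit 35191, nat_lit 43939, nat_lit 52687, nat_lit 46855, nat_lit 48475, nat_lit 48259, nat_lit 48295, nat_lit 48331, nat_lit 48307, nat_lit 48315, nat_lit 28631] (nat_lit 0) [] false,
   Spec.mk (nat_lit 48315) (nat_lit 0) [nat_lit 35193, nat_lit 43941, nat_lit 52689, nat_lit 46857, nat_lit 48477, nat_lit 48261, nat_lit 48297, nat_lit 48333, nat_lit 48309, nat_lit 48321, nat_lit 48313, nat_lit 28633] (nat_lit 1) [] false,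
   Spec.mk (nat_lit 48321) (nat_lit 0) [nat_lit 35199, nat_lit 43947, nat_lit 52695, nat_lit 46863, nat_lit 48483, nat_lit 48267, nat_lit 48339, nat_lit 48315, nat_lit 28639] (nat_lit 1) [] false,
   Spec.mk (nat_lit 48331) (nat_lit 1) [nat_lit 35209, nat_lit 43957, nat_lit 52705, nat_lit 46873, nat_lit 48493, nat_lit 48313, nat_lit 48333, nat_lit 28649] (nat_lit 0) [] false,
   Spec.mk (nat_lit 48333) (nat_lit 0) [nat_lit 35211, nat_lit 43959, nat_lit 52707, nat_lit 46875, nat_lit 48495, nat_lit 48315, nat_lit 48339, nat_lit 48331, nat_lit 28651] (nat_lit 1) [] false,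
   Spec.mk (nat_lit 48339) (nat_lit 1) [nat_lit 35217, nat_lit 43965, nat_lit 52713, nat_lit 46881, nat_lit 48501, nat_lit 48321, nat_lit 48333, nat_lit 28657] (nat_lit 0) [] false,
   Spec.mk (nat_lit 48365) (nat_lit 3) [nat_lit 35243, nat_lit 43991, nat_lit 52739, nat_lit 46907, nat_lit 48851, nat_lit 48203, nat_lit 48371] (nat_lit 0) [] false,
   Spec.mk (nat_lit 48371) (nat_lit 2) [nat_lit 35249, nat_lit 43997, nat_lit 52745, nat_lit 46913, nat_lit 48857, nat_lit 48209, nat_lit 48389, nat_lit 48365, nat_lit 48377, nat_lit 48373] (nat_lit 0) [] false,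
   Spec.mk (nat_lit 48373) (nat_lit 1) [nat_lit 35251, nat_lit 43999, nat_lit 52747, nat_lit 46915, nat_lit 48859, nat_lit 48211, nat_lit 48391, nat_lit 48379, nat_lit 48371, nat_lit 28691] (nat_lit 0) [] false,
   Spec.mk (nat_lit 48377) (nat_lit 0) [nat_lit 35255, nat_lit 44003, nat_lit 52751, nat_lit 46919, nat_lit 48863, nat_lit 48215, nat_lit 48395, nat_lit 48371, nat_lit 48379] (nat_lit 1) [] false,
   Spec.mk (nat_lit 48379) (nat_lit 0) [nat_lit 35257, nat_lit 44005, nat_lit 52753, nat_lit 46921, nat_lit 48865, nat_lit 48217, nat_lit 48397, nat_lit 48373, nat_lit 48377, nat_lit 48381, nat_lit 28697] (nat_lit 0) [] false,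
   Spec.mk (nat_lit 48381) (nat_lit 0) [nat_lit 35259, nat_lit 44007, nat_lit 52755, nat_lit 46923, nat_lit 48867, nat_lit 48219, nat_lit 48399, nat_lit 48379, nat_lit 28699] (nat_lit 1) [] false,
   Spec.mk (nat_lit 48389) (nat_lit 1) [nat_lit 35267, nat_lit 44015, nat_lit 52763, nat_lit 46931, nat_lit 48875, nat_lit 48227, nat_lit 48443, nat_lit 48371, nat_lit 48395, nat_lit 48391] (nat_lit 0) [] false,
   Spec.mk (nat_lit 48391) (nat_lit 0) [nat_lit 35269, nat_lit 44017, nat_lit 52765, nat_lit 46933, nat_lit 48877, nat_lit 48229, nat_lit 48445, nat_lit 48373, nat_lit 48397, nat_lit 48389, nat_lit 28709] (nat_lit 1) [] false,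
   Spec.mk (nat_lit 48395) (nat_lit 0) [nat_lit 35273, nat_lit 44021, nat_lit 52769, nat_lit 46937, nat_lit 48881, nat_lit 48233, nat_lit 48449, nat_lit 48377, nat_lit 48413, nat_lit 48389, nat_lit 48397] (nat_lit 0) [] false,
   Spec.mk (nat_lit 48397) (nat_lit 0) [nat_lit 35275, nat_lit 44023, nat_lit 52771, nat_lit 46939, nat_lit 48883, nat_lit 48235, nat_lit 48451, nat_lit 48379, nat_lit 48415, nat_lit 48391, nat_lit 48403, nat_lit 48395, nat_lit 48399, nat_lit 28715] (nat_lit 0) [] false,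
   Spec.mk (nat_lit 48399) (nat_lit 0) [nat_lit 35277, nat_lit 44025, nat_lit 52773, nat_lit 46941, nat_lit 48885, nat_lit 48237, nat_lit 48453, nat_lit 48381, nat_lit 48417, nat_lit 48405, nat_lit 48397, nat_lit 28717] (nat_lit 2) [] false,
   Spec.mk (nat_lit 48403) (nat_lit 0) [nat_lit 35281, nat_lit 44029, nat_lit 52777, nat_lit 46945, nat_lit 48889, nat_lit 48241, nat_lit 48457, nat_lit 48421, nat_lit 48397, nat_lit 48405, nat_lit 28721] (nat_lit 1) [] false,
   Spec.mk (nat_lit 48405) (nat_lit 0) [nat_lit 35283, nat_lit 44031, nat_lit 52779, nat_lit 46947, nat_lit 48891, nat_lit 48243, nat_lit 48459, nat_lit 48423, nat_lit 48399, nat_lit 48403, nat_lit 28723] (nat_lit 1) [] false,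
   Spec.mk (nat_lit 48413) (nat_lit 0) [nat_lit 35291, nat_lit 44039, nat_lit 52787, nat_lit 46955, nat_lit 48899, nat_lit 48251, nat_lit 48467, nat_lit 48395, nat_lit 48415] (nat_lit 1) [] false,
   Spec.mk (nat_lit 48415) (nat_lit 0) [nat_lit 35293, nat_lit 44041, nat_lit 52789, nat_lit 46957, nat_lit 48901, nat_lit 48253, nat_lit 48469, nat_lit 48397, nat_lit 48421, nat_lit 48413, nat_lit 48417, nat_lit 28733] (nat_lit 2) [] false,
   Spec.mk (nat_lit 48417) (nat_lit 0) [nat_lit 35295, nat_lit 44043, nat_lit 52791, nat_lit 46959, nat_lit 48903, nat_lit 48255, nat_lit 48471, nat_lit 48399, nat_lit 48423, nat_lit 48415, nat_lit 28735] (nat_lit 5) [] false,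
   Spec.mk (nat_lit 48421) (nat_lit 0) [nat_lit 35299, nat_lit 44047, nat_lit 52795, nat_lit 46963, nat_lit 48907, nat_lit 48259, nat_lit 48475, nat_lit 48403, nat_lit 48415, nat_lit 48423, nat_lit 28739] (nat_lit 1) [] false,
   Spec.mk (nat_lit 48423) (nat_lit 0) [nat_lit 35301, nat_lit 44049, nat_lit 52797, nat_lit 46965, nat_lit 48909, nat_lit 48261, nat_lit 48477, nat_lit 48405, nat_lit 48417, nat_lit 48429, nat_lit 48421, nat_lit 28741] (nat_lit 2) [] false,
   Spec.mk (nat_lit 48429) (nat_lit 0) [nat_lit 35307, nat_lit 44055, nat_lit 52803, nat_lit 46971, nat_lit 48915, nat_lit 48267, nat_lit 48483, nat_lit 48423, nat_lit 28747] (nat_lit 1) [] false,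
   Spec.mk (nat_lit 48443) (nat_lit 2) [nat_lit 35321, nat_lit 44069, nat_lit 52817, nat_lit 46985, nat_lit 48929, nat_lit 48281, nat_lit 48605, nat_lit 48389, nat_lit 48449, nat_lit 48445] (nat_lit 0) [] false,
   Spec.mk (nat_lit 48445) (nat_lit 0) [nat_lit 35323, nat_lit 44071, nat_lit 52819, nat_lit 46987, nat_lit 48931, nat_lit 48283, nat_lit 48607, nat_lit 48391, nat_lit 48451, nat_lit 48443, nat_lit 28763] (nat_lit 0) [] false,
   Spec.mk (nat_lit 48449) (nat_lit 0) [nat_lit 35327, nat_lit 44075, nat_lit 52823, nat_lit 46991, nat_lit 48935, nat_lit 48287, nat_lit 48611, nat_lit 48395, nat_lit 48467, nat_lit 48443, nat_lit 48451] (nat_lit 0) [] false,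
   Spec.mk (nat_lit 48451) (nat_lit 0) [nat_lit 35329, nat_lit 44077, nat_lit 52825, nat_lit 46993, nat_lit 48937, nat_lit 48289, nat_lit 48613, nat_lit 48397, nat_lit 48469, nat_lit 48445, nat_lit 48457, nat_lit 48449, nat_lit 48453, nat_lit 28769] (nat_lit 0) [] false,
   Spec.mk (nat_lit 48453) (nat_lit 0) [nat_lit 35331, nat_lit 44079, nat_lit 52827, nat_lit 46995, nat_lit 48939, nat_lit 48291, nat_lit 48615, nat_lit 48399, nat_lit 48471, nat_lit 48459, nat_lit 48451, nat_lit 28771] (nat_lit 2) [] false,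
   Spec.mk (nat_lit 48457) (nat_lit 0) [nat_lit 35335, nat_lit 44083, nat_lit 52831, nat_lit 46999, nat_lit 48943, nat_lit 48295, nat_lit 48619, nat_lit 48403, nat_lit 48475, nat_lit 48451, nat_lit 48459, nat_lit 28775] (nat_lit 2) [] false,
   Spec.mk (nat_lit 48459) (nat_lit 0) [nat_lit 35337, nat_lit 44085, nat_lit 52833, nat_lit 47001, nat_lit 48945, nat_lit 48297, nat_lit 48621, nat_lit 48405, nat_lit 48477, nat_lit 48453, nat_lit 48457, nat_lit 28777] (nat_lit 2) [] false,
   Spec.mk (nat_lit 48467) (nat_lit 1) [nat_lit 35345, nat_lit 44093, nat_lit 52841, nat_lit 47009, nat_lit 48953, nat_lit 48305, nat_lit 48629, nat_lit 48413, nat_lit 48521, nat_lit 48449, nat_lit 48469] (nat_lit 0) [] false,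
   Spec.mk (nat_lit 48469) (nat_lit 0) [nat_lit 35347, nat_lit 44095, nat_lit 52843, nat_lit 47011, nat_lit 48955, nat_lit 48307, nat_lit 48631, nat_lit 48415, nat_lit 48523, nat_lit 48451, nat_lit 48475, nat_lit 48467, nat_lit 48471, nat_lit 28787] (nat_lit 0) [] false,
   Spec.mk (nat_lit 48471) (nat_lit 0) [nat_lit 35349, nat_lit 44097, nat_lit 52845, nat_lit 47013, nat_lit 48957, nat_lit 48309, nat_lit 48633, nat_lit 48417, nat_lit 48525, nat_lit 48453, nat_lit 48477, nat_lit 48469, nat_lit 28789] (nat_lit 3) [] false,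
   Spec.mk (nat_lit 48475) (nat_lit 0) [nat_lit 35353, nat_lit 44101, nat_lit 52849, nat_lit 47017, nat_lit 48961, nat_lit 48313, nat_lit 48637, nat_lit 48421, nat_lit 48529, nat_lit 48457, nat_lit 48493, nat_lit 48469, nat_lit 48477, nat_lit 28793] (nat_lit 0) [] false]

noncomputable def sp125 : List Spec :=
  [Spec.mk (nat_lit 48477) (nat_lit 0) [nat_lit 35355, nat_lit 44103, nat_lit 52851, nat_lit 47019, nat_lit 48963, nat_lit 48315, nat_lit 48639, nat_lit 48423, nat_lit 48531, nat_lit 48459, nat_lit 48495, nat_lit 48471, nat_lit 48483, nat_lit 48475, nat_lit 28795] (nat_lit 1) [] false,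
   Spec.mk (nat_lit 48483) (nat_lit 0) [nat_lit 35361, nat_lit 44109, nat_lit 52857, nat_lit 47025, nat_lit 48969, nat_lit 48321, nat_lit 48645, nat_lit 48429, nat_lit 48537, nat_lit 48501, nat_lit 48477, nat_lit 28801] (nat_lit 1) [] false,
   Spec.mk (nat_lit 48493) (nat_lit 0) [nat_lit 35371, nat_lit 44119, nat_lit 52867, nat_lit 47035, nat_lit 48979, nat_lit 48331, nat_lit 48655, nat_lit 48547, nat_lit 48475, nat_lit 48495, nat_lit 28811] (nat_lit 0) [] false,
   Spec.mk (nat_lit 48495) (nat_lit 0) [nat_lit 35373, nat_lit 44121, nat_lit 52869, nat_lit 47037, nat_lit 48981, nat_lit 48333, nat_lit 48657, nat_lit 48549, nat_lit 48477, nat_lit 48501, nat_lit 48493, nat_lit 28813] (nat_lit 2) [] false,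
   Spec.mk (nat_lit 48501) (nat_lit 0) [nat_lit 35379, nat_lit 44127, nat_lit 52875, nat_lit 47043, nat_lit 48987, nat_lit 48339, nat_lit 48663, nat_lit 48555, nat_lit 48483, nat_lit 48495, nat_lit 28819] (nat_lit 0) [] false,
   Spec.mk (nat_lit 48521) (nat_lit 1) [nat_lit 35399, nat_lit 44147, nat_lit 52895, nat_lit 47063, nat_lit 49007, nat_lit 48683, nat_lit 48467, nat_lit 48523] (nat_lit 0) [] false,
   Spec.mk (nat_lit 48523) (nat_lit 0) [nat_lit 35401, nat_lit 44149, nat_lit 52897, nat_lit 47065, nat_lit 49009, nat_lit 48685, nat_lit 48469, nat_lit 48529, nat_lit 48521, nat_lit 48525, nat_lit 28841] (nat_lit 0) [] false,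
   Spec.mk (nat_lit 48525) (nat_lit 0) [nat_lit 35403, nat_lit 44151, nat_lit 52899, nat_lit 47067, nat_lit 49011, nat_lit 48687, nat_lit 48471, nat_lit 48531, nat_lit 48523, nat_lit 28843] (nat_lit 3) [] false,
   Spec.mk (nat_lit 48529) (nat_lit 0) [nat_lit 35407, nat_lit 44155, nat_lit 52903, nat_lit 47071, nat_lit 49015, nat_lit 48691, nat_lit 48475, nat_lit 48547, nat_lit 48523, nat_lit 48531, nat_lit 28847] (nat_lit 1) [] false,
   Spec.mk (nat_lit 48531) (nat_lit 0) [nat_lit 35409, nat_lit 44157, nat_lit 52905, nat_lit 47073, nat_lit 49017, nat_lit 48693, nat_lit 48477, nat_lit 48549, nat_lit 48525, nat_lit 48537, nat_lit 48529, nat_lit 28849] (nat_lit 2) [] false,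
   Spec.mk (nat_lit 48537) (nat_lit 0) [nat_lit 35415, nat_lit 44163, nat_lit 52911, nat_lit 47079, nat_lit 49023, nat_lit 48699, nat_lit 48483, nat_lit 48555, nat_lit 48531, nat_lit 28855] (nat_lit 3) [] false,
   Spec.mk (nat_lit 48547) (nat_lit 1) [nat_lit 35425, nat_lit 44173, nat_lit 52921, nat_lit 47089, nat_lit 49033, nat_lit 48709, nat_lit 48493, nat_lit 48529, nat_lit 48549, nat_lit 28865] (nat_lit 0) [] false,
   Spec.mk (nat_lit 48549) (nat_lit 0) [nat_lit 35427, nat_lit 44175, nat_lit 52923, nat_lit 47091, nat_lit 49035, nat_lit 48711, nat_lit 48495, nat_lit 48531, nat_lit 48555, nat_lit 48547, nat_lit 28867] (nat_lit 1) [] false,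
   Spec.mk (nat_lit 48555) (nat_lit 0) [nat_lit 35433, nat_lit 44181, nat_lit 52929, nat_lit 47097, nat_lit 49041, nat_lit 48717, nat_lit 48501, nat_lit 48537, nat_lit 48573, nat_lit 48549, nat_lit 28873] (nat_lit 0) [] false,
   Spec.mk (nat_lit 48573) (nat_lit 1) [nat_lit 35451, nat_lit 44199, nat_lit 52947, nat_lit 47115, nat_lit 49059, nat_lit 48735, nat_lit 48555, nat_lit 28891] (nat_lit 0) [] false,
   Spec.mk (nat_lit 48605) (nat_lit 1) [nat_lit 35483, nat_lit 44231, nat_lit 52979, nat_lit 47147, nat_lit 49091, nat_lit 48443, nat_lit 48611, nat_lit 48607] (nat_lit 0) [] false,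
   Spec.mk (nat_lit 48607) (nat_lit 0) [nat_lit 35485, nat_lit 44233, nat_lit 52981, nat_lit 47149, nat_lit 49093, nat_lit 48445, nat_lit 48613, nat_lit 48605, nat_lit 28925] (nat_lit 1) [] false,
   Spec.mk (nat_lit 48611) (nat_lit 0) [nat_lit 35489, nat_lit 44237, nat_lit 52985, nat_lit 47153, nat_lit 49097, nat_lit 48449, nat_lit 48629, nat_lit 48605, nat_lit 48613] (nat_lit 1) [] false,
   Spec.mk (nat_lit 48613) (nat_lit 0) [nat_lit 35491, nat_lit 44239, nat_lit 52987, nat_lit 47155, nat_lit 49099, nat_lit 48451, nat_lit 48631, nat_lit 48607, nat_lit 48619, nat_lit 48611, nat_lit 48615, nat_lit 28931] (nat_lit 1) [] false,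
   Spec.mk (nat_lit 48615) (nat_lit 0) [nat_lit 35493, nat_lit 44241, nat_lit 52989, nat_lit 47157, nat_lit 49101, nat_lit 48453, nat_lit 48633, nat_lit 48621, nat_lit 48613, nat_lit 28933] (nat_lit 3) [] false,
   Spec.mk (nat_lit 48619) (nat_lit 0) [nat_lit 35497, nat_lit 44245, nat_lit 52993, nat_lit 47161, nat_lit 49105, nat_lit 48457, nat_lit 48637, nat_lit 48613, nat_lit 48621, nat_lit 28937] (nat_lit 3) [] false,
   Spec.mk (nat_lit 48621) (nat_lit 0) [nat_lit 35499, nat_lit 44247, nat_lit 52995, nat_lit 47163, nat_lit 49107, nat_lit 48459, nat_lit 48639, nat_lit 48615, nat_lit 48619, nat_lit 28939] (nat_lit 3) [] false,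
   Spec.mk (nat_lit 48629) (nat_lit 0) [nat_lit 35507, nat_lit 44255, nat_lit 53003, nat_lit 47171, nat_lit 49115, nat_lit 48467, nat_lit 48683, nat_lit 48611, nat_lit 48631] (nat_lit 1) [] false,
   Spec.mk (nat_lit 48631) (nat_lit 0) [nat_lit 35509, nat_lit 44257, nat_lit 53005, nat_lit 47173, nat_lit 49117, nat_lit 48469, nat_lit 48685, nat_lit 48613, nat_lit 48637, nat_lit 48629, nat_lit 48633, nat_lit 28949] (nat_lit 2) [] false,
   Spec.mk (nat_lit 48633) (nat_lit 0) [nat_lit 35511, nat_lit 44259, nat_lit 53007, nat_lit 47175, nat_lit 49119, nat_lit 48471, nat_lit 48687, nat_lit 48615, nat_lit 48639, nat_lit 48631, nat_lit 28951] (nat_lit 5) [] false,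
   Spec.mk (nat_lit 48637) (nat_lit 0) [nat_lit 35515, nat_lit 44263, nat_lit 53011, nat_lit 47179, nat_lit 49123, nat_lit 48475, nat_lit 48691, nat_lit 48619, nat_lit 48655, nat_lit 48631, nat_lit 48639, nat_lit 28955] (nat_lit 2) [] false,
   Spec.mk (nat_lit 48639) (nat_lit 0) [nat_lit 35517, nat_lit 44265, nat_lit 53013, nat_lit 47181, nat_lit 49125, nat_lit 48477, nat_lit 48693, nat_lit 48621, nat_lit 48657, nat_lit 48633, nat_lit 48645, nat_lit 48637, nat_lit 28957] (nat_lit 3) [] false,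
   Spec.mk (nat_lit 48645) (nat_lit 0) [nat_lit 35523, nat_lit 44271, nat_lit 53019, nat_lit 47187, nat_lit 49131, nat_lit 48483, nat_lit 48699, nat_lit 48663, nat_lit 48639, nat_lit 28963] (nat_lit 3) [] false,
   Spec.mk (nat_lit 48655) (nat_lit 0) [nat_lit 35533, nat_lit 44281, nat_lit 53029, nat_lit 47197, nat_lit 49141, nat_lit 48493, nat_lit 48709, nat_lit 48637, nat_lit 48657, nat_lit 28973] (nat_lit 3) [] false,
   Spec.mk (nat_lit 48657) (nat_lit 0) [nat_lit 35535, nat_lit 44283, nat_lit 53031, nat_lit 47199, nat_lit 49143, nat_lit 48495, nat_lit 48711, nat_lit 48639, nat_lit 48663, nat_lit 48655, nat_lit 28975] (nat_lit 5) [] false,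
   Spec.mk (nat_lit 48663) (nat_lit 0) [nat_lit 35541, nat_lit 44289, nat_lit 53037, nat_lit 47205, nat_lit 49149, nat_lit 48501, nat_lit 48717, nat_lit 48645, nat_lit 48657, nat_lit 28981] (nat_lit 3) [] false,
   Spec.mk (nat_lit 48683) (nat_lit 1) [nat_lit 35561, nat_lit 44309, nat_lit 53057, nat_lit 47225, nat_lit 49169, nat_lit 48521, nat_lit 48629, nat_lit 48685] (nat_lit 0) [] false,
   Spec.mk (nat_lit 48685) (nat_lit 0) [nat_lit 35563, nat_lit 44311, nat_lit 53059, nat_lit 47227, nat_lit 49171, nat_lit 48523, nat_lit 48631, nat_lit 48691, nat_lit 48683, nat_lit 48687, nat_lit 29003] (nat_lit 0) [] false,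
   Spec.mk (nat_lit 48687) (nat_lit 0) [nat_lit 35565, nat_lit 44313, nat_lit 53061, nat_lit 47229, nat_lit 49173, nat_lit 48525, nat_lit 48633, nat_lit 48693, nat_lit 48685, nat_lit 29005] (nat_lit 3) [] false,
   Spec.mk (nat_lit 48691) (nat_lit 0) [nat_lit 35569, nat_lit 44317, nat_lit 53065, nat_lit 47233, nat_lit 49177, nat_lit 48529, nat_lit 48637, nat_lit 48709, nat_lit 48685, nat_lit 48693, nat_lit 29009] (nat_lit 1) [] false,
   Spec.mk (nat_lit 48693) (nat_lit 0) [nat_lit 35571, nat_lit 44319, nat_lit 53067, nat_lit 47235, nat_lit 49179, nat_lit 48531, nat_lit 48639, nat_lit 48711, nat_lit 48687, nat_lit 48699, nat_lit 48691, nat_lit 29011] (nat_lit 2) [] false,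
   Spec.mk (nat_lit 48699) (nat_lit 0) [nat_lit 35577, nat_lit 44325, nat_lit 53073, nat_lit 47241, nat_lit 49185, nat_lit 48537, nat_lit 48645, nat_lit 48717, nat_lit 48693, nat_lit 29017] (nat_lit 3) [] false,
   Spec.mk (nat_lit 48709) (nat_lit 0) [nat_lit 35587, nat_lit 44335, nat_lit 53083, nat_lit 47251, nat_lit 49195, nat_lit 48547, nat_lit 48655, nat_lit 48763, nat_lit 48691, nat_lit 48711, nat_lit 29027] (nat_lit 0) [] false,
   Spec.mk (nat_lit 48711) (nat_lit 0) [nat_lit 35589, nat_lit 44337, nat_lit 53085, nat_lit 47253, nat_lit 49197, nat_lit 48549, nat_lit 48657, nat_lit 48765, nat_lit 48693, nat_lit 48717, nat_lit 48709, nat_lit 29029] (nat_lit 2) [] false,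
   Spec.mk (nat_lit 48717) (nat_lit 0) [nat_lit 35595, nat_lit 44343, nat_lit 53091, nat_lit 47259, nat_lit 49203, nat_lit 48555, nat_lit 48663, nat_lit 48771, nat_lit 48699, nat_lit 48735, nat_lit 48711, nat_lit 29035] (nat_lit 1) [] false,
   Spec.mk (nat_lit 48735) (nat_lit 0) [nat_lit 35613, nat_lit 44361, nat_lit 53109, nat_lit 47277, nat_lit 49221, nat_lit 48573, nat_lit 48789, nat_lit 48717, nat_lit 29053] (nat_lit 1) [] false,
   Spec.mk (nat_lit 48763) (nat_lit 1) [nat_lit 35641, nat_lit 44389, nat_lit 53137, nat_lit 47305, nat_lit 49249, nat_lit 48709, nat_lit 48765, nat_lit 29081] (nat_lit 0) [] false,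
   Spec.mk (nat_lit 48765) (nat_lit 0) [nat_lit 35643, nat_lit 44391, nat_lit 53139, nat_lit 47307, nat_lit 49251, nat_lit 48711, nat_lit 48771, nat_lit 48763, nat_lit 29083] (nat_lit 1) [] false,
   Spec.mk (nat_lit 48771) (nat_lit 0) [nat_lit 35649, nat_lit 44397, nat_lit 53145, nat_lit 47313, nat_lit 49257, nat_lit 48717, nat_lit 48789, nat_lit 48765, nat_lit 29089] (nat_lit 1) [] false,
   Spec.mk (nat_lit 48789) (nat_lit 1) [nat_lit 35667, nat_lit 44415, nat_lit 53163, nat_lit 47331, nat_lit 49275, nat_lit 48735, nat_lit 48771, nat_lit 29107] (nat_lit 0) [] false,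
   Spec.mk (nat_lit 48851) (nat_lit 4) [nat_lit 35729, nat_lit 44477, nat_lit 53225, nat_lit 47393, nat_lit 50309, nat_lit 48365, nat_lit 48857] (nat_lit 0) [] false,
   Spec.mk (nat_lit 48857) (nat_lit 3) [nat_lit 35735, nat_lit 44483, nat_lit 53231, nat_lit 47399, nat_lit 50315, nat_lit 48371, nat_lit 48875, nat_lit 48851, nat_lit 48863, nat_lit 48859] (nat_lit 0) [] false,
   Spec.mk (nat_lit 48859) (nat_lit 2) [nat_lit 35737, nat_lit 44485, nat_lit 53233, nat_lit 47401, nat_lit 50317, nat_lit 48373, nat_lit 48877, nat_lit 48865, nat_lit 48857, nat_lit 29177] (nat_lit 0) [] false,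
   Spec.mk (nat_lit 48863) (nat_lit 0) [nat_lit 35741, nat_lit 44489, nat_lit 53237, nat_lit 47405, nat_lit 50321, nat_lit 48377, nat_lit 48881, nat_lit 48857, nat_lit 48865] (nat_lit 0) [] false,
   Spec.mk (nat_lit 48865) (nat_lit 1) [nat_lit 35743, nat_lit 44491, nat_lit 53239, nat_lit 47407, nat_lit 50323, nat_lit 48379, nat_lit 48883, nat_lit 48859, nat_lit 48863, nat_lit 48867, nat_lit 29183] (nat_lit 0) [] false,
   Spec.mk (nat_lit 48867) (nat_lit 0) [nat_lit 35745, nat_lit 44493, nat_lit 53241, nat_lit 47409, nat_lit 50325, nat_lit 48381, nat_lit 48885, nat_lit 48865, nat_lit 29185] (nat_lit 0) [] false,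
   Spec.mk (nat_lit 48875) (nat_lit 2) [nat_lit 35753, nat_lit 44501, nat_lit 53249, nat_lit 47417, nat_lit 50333, nat_lit 48389, nat_lit 48929, nat_lit 48857, nat_lit 48881, nat_lit 48877] (nat_lit 0) [] false,
   Spec.mk (nat_lit 48877) (nat_lit 0) [nat_lit 35755, nat_lit 44503, nat_lit 53251, nat_lit 47419, nat_lit 50335, nat_lit 48391, nat_lit 48931, nat_lit 48859, nat_lit 48883, nat_lit 48875, nat_lit 29195] (nat_lit 0) [] false,
   Spec.mk (nat_lit 48881) (nat_lit 1) [nat_lit 35759, nat_lit 44507, nat_lit 53255, nat_lit 47423, nat_lit 50339, nat_lit 48395, nat_lit 48935, nat_lit 48863, nat_lit 48899, nat_lit 48875, nat_lit 48883] (nat_lit 0) [] false,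
   Spec.mk (nat_lit 48883) (nat_lit 1) [nat_lit 35761, nat_lit 44509, nat_lit 53257, nat_lit 47425, nat_lit 50341, nat_lit 48397, nat_lit 48937, nat_lit 48865, nat_lit 48901, nat_lit 48877, nat_lit 48889, nat_lit 48881, nat_lit 48885, nat_lit 29201] (nat_lit 0) [] false,
   Spec.mk (nat_lit 48885) (nat_lit 0) [nat_lit 35763, nat_lit 44511, nat_lit 53259, nat_lit 47427, nat_lit 50343, nat_lit 48399, nat_lit 48939, nat_lit 48867, nat_lit 48903, nat_lit 48891, nat_lit 48883, nat_lit 29203] (nat_lit 1) [] false,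
   Spec.mk (nat_lit 48889) (nat_lit 0) [nat_lit 35767, nat_lit 44515, nat_lit 53263, nat_lit 47431, nat_lit 50347, nat_lit 48403, nat_lit 48943, nat_lit 48907, nat_lit 48883, nat_lit 48891, nat_lit 29207] (nat_lit 0) [] false,
   Spec.mk (nat_lit 48891) (nat_lit 0) [nat_lit 35769, nat_lit 44517, nat_lit 53265, nat_lit 47433, nat_lit 50349, nat_lit 48405, nat_lit 48945, nat_lit 48909, nat_lit 48885, nat_lit 48889, nat_lit 29209] (nat_lit 0) [] false,
   Spec.mk (nat_lit 48899) (nat_lit 0) [nat_lit 35777, nat_lit 44525, nat_lit 53273, nat_lit 47441, nat_lit 50357, nat_lit 48413, nat_lit 48953, nat_lit 48881, nat_lit 48901] (nat_lit 0) [] false,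
   Spec.mk (nat_lit 48901) (nat_lit 0) [nat_lit 35779, nat_lit 44527, nat_lit 53275, nat_lit 47443, nat_lit 50359, nat_lit 48415, nat_lit 48955, nat_lit 48883, nat_lit 48907, nat_lit 48899, nat_lit 48903, nat_lit 29219] (nat_lit 1) [] false]

noncomputable def sp126 : List Spec :=
  [Spec.mk (nat_lit 48903) (nat_lit 0) [nat_lit 35781, nat_lit 44529, nat_lit 53277, nat_lit 47445, nat_lit 50361, nat_lit 48417, nat_lit 48957, nat_lit 48885, nat_lit 48909, nat_lit 48901, nat_lit 29221] (nat_lit 4) [] false,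
   Spec.mk (nat_lit 48907) (nat_lit 0) [nat_lit 35785, nat_lit 44533, nat_lit 53281, nat_lit 47449, nat_lit 50365, nat_lit 48421, nat_lit 48961, nat_lit 48889, nat_lit 48901, nat_lit 48909, nat_lit 29225] (nat_lit 0) [] false,
   Spec.mk (nat_lit 48909) (nat_lit 0) [nat_lit 35787, nat_lit 44535, nat_lit 53283, nat_lit 47451, nat_lit 50367, nat_lit 48423, nat_lit 48963, nat_lit 48891, nat_lit 48903, nat_lit 48915, nat_lit 48907, nat_lit 29227] (nat_lit 1) [] false,
   Spec.mk (nat_lit 48915) (nat_lit 0) [nat_lit 35793, nat_lit 44541, nat_lit 53289, nat_lit 47457, nat_lit 50373, nat_lit 48429, nat_lit 48969, nat_lit 48909, nat_lit 29233] (nat_lit 0) [] false,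
   Spec.mk (nat_lit 48929) (nat_lit 2) [nat_lit 35807, nat_lit 44555, nat_lit 53303, nat_lit 47471, nat_lit 50387, nat_lit 48443, nat_lit 49091, nat_lit 48875, nat_lit 48935, nat_lit 48931] (nat_lit 0) [] false,
   Spec.mk (nat_lit 48931) (nat_lit 0) [nat_lit 35809, nat_lit 44557, nat_lit 53305, nat_lit 47473, nat_lit 50389, nat_lit 48445, nat_lit 49093, nat_lit 48877, nat_lit 48937, nat_lit 48929, nat_lit 29249] (nat_lit 0) [] false,
   Spec.mk (nat_lit 48935) (nat_lit 0) [nat_lit 35813, nat_lit 44561, nat_lit 53309, nat_lit 47477, nat_lit 50393, nat_lit 48449, nat_lit 49097, nat_lit 48881, nat_lit 48953, nat_lit 48929, nat_lit 48937] (nat_lit 0) [] false,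
   Spec.mk (nat_lit 48937) (nat_lit 0) [nat_lit 35815, nat_lit 44563, nat_lit 53311, nat_lit 47479, nat_lit 50395, nat_lit 48451, nat_lit 49099, nat_lit 48883, nat_lit 48955, nat_lit 48931, nat_lit 48943, nat_lit 48935, nat_lit 48939, nat_lit 29255] (nat_lit 0) [] false,
   Spec.mk (nat_lit 48939) (nat_lit 0) [nat_lit 35817, nat_lit 44565, nat_lit 53313, nat_lit 47481, nat_lit 50397, nat_lit 48453, nat_lit 49101, nat_lit 48885, nat_lit 48957, nat_lit 48945, nat_lit 48937, nat_lit 29257] (nat_lit 2) [] false,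
   Spec.mk (nat_lit 48943) (nat_lit 0) [nat_lit 35821, nat_lit 44569, nat_lit 53317, nat_lit 47485, nat_lit 50401, nat_lit 48457, nat_lit 49105, nat_lit 48889, nat_lit 48961, nat_lit 48937, nat_lit 48945, nat_lit 29261] (nat_lit 2) [] false,
   Spec.mk (nat_lit 48945) (nat_lit 0) [nat_lit 35823, nat_lit 44571, nat_lit 53319, nat_lit 47487, nat_lit 50403, nat_lit 48459, nat_lit 49107, nat_lit 48891, nat_lit 48963, nat_lit 48939, nat_lit 48943, nat_lit 29263] (nat_lit 2) [] false,
   Spec.mk (nat_lit 48953) (nat_lit 1) [nat_lit 35831, nat_lit 44579, nat_lit 53327, nat_lit 47495, nat_lit 50411, nat_lit 48467, nat_lit 49115, nat_lit 48899, nat_lit 49007, nat_lit 48935, nat_lit 48955] (nat_lit 0) [] false,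
   Spec.mk (nat_lit 48955) (nat_lit 0) [nat_lit 35833, nat_lit 44581, nat_lit 53329, nat_lit 47497, nat_lit 50413, nat_lit 48469, nat_lit 49117, nat_lit 48901, nat_lit 49009, nat_lit 48937, nat_lit 48961, nat_lit 48953, nat_lit 48957, nat_lit 29273] (nat_lit 0) [] false,
   Spec.mk (nat_lit 48957) (nat_lit 0) [nat_lit 35835, nat_lit 44583, nat_lit 53331, nat_lit 47499, nat_lit 50415, nat_lit 48471, nat_lit 49119, nat_lit 48903, nat_lit 49011, nat_lit 48939, nat_lit 48963, nat_lit 48955, nat_lit 29275] (nat_lit 3) [] false,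
   Spec.mk (nat_lit 48961) (nat_lit 0) [nat_lit 35839, nat_lit 44587, nat_lit 53335, nat_lit 47503, nat_lit 50419, nat_lit 48475, nat_lit 49123, nat_lit 48907, nat_lit 49015, nat_lit 48943, nat_lit 48979, nat_lit 48955, nat_lit 48963, nat_lit 29279] (nat_lit 0) [] false,
   Spec.mk (nat_lit 48963) (nat_lit 0) [nat_lit 35841, nat_lit 44589, nat_lit 53337, nat_lit 47505, nat_lit 50421, nat_lit 48477, nat_lit 49125, nat_lit 48909, nat_lit 49017, nat_lit 48945, nat_lit 48981, nat_lit 48957, nat_lit 48969, nat_lit 48961, nat_lit 29281] (nat_lit 1) [] false,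
   Spec.mk (nat_lit 48969) (nat_lit 0) [nat_lit 35847, nat_lit 44595, nat_lit 53343, nat_lit 47511, nat_lit 50427, nat_lit 48483, nat_lit 49131, nat_lit 48915, nat_lit 49023, nat_lit 48987, nat_lit 48963, nat_lit 29287] (nat_lit 1) [] false,
   Spec.mk (nat_lit 48979) (nat_lit 0) [nat_lit 35857, nat_lit 44605, nat_lit 53353, nat_lit 47521, nat_lit 50437, nat_lit 48493, nat_lit 49141, nat_lit 49033, nat_lit 48961, nat_lit 48981, nat_lit 29297] (nat_lit 0) [] false,
   Spec.mk (nat_lit 48981) (nat_lit 0) [nat_lit 35859, nat_lit 44607, nat_lit 53355, nat_lit 47523, nat_lit 50439, nat_lit 48495, nat_lit 49143, nat_lit 49035, nat_lit 48963, nat_lit 48987, nat_lit 48979, nat_lit 29299] (nat_lit 2) [] false,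
   Spec.mk (nat_lit 48987) (nat_lit 0) [nat_lit 35865, nat_lit 44613, nat_lit 53361, nat_lit 47529, nat_lit 50445, nat_lit 48501, nat_lit 49149, nat_lit 49041, nat_lit 48969, nat_lit 48981, nat_lit 29305] (nat_lit 0) [] false,
   Spec.mk (nat_lit 49007) (nat_lit 0) [nat_lit 35885, nat_lit 44633, nat_lit 53381, nat_lit 47549, nat_lit 50465, nat_lit 48521, nat_lit 49169, nat_lit 48953, nat_lit 49009] (nat_lit 0) [] false,
   Spec.mk (nat_lit 49009) (nat_lit 0) [nat_lit 35887, nat_lit 44635, nat_lit 53383, nat_lit 47551, nat_lit 50467, nat_lit 48523, nat_lit 49171, nat_lit 48955, nat_lit 49015, nat_lit 49007, nat_lit 49011, nat_lit 29327] (nat_lit 1) [] false,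
   Spec.mk (nat_lit 49011) (nat_lit 0) [nat_lit 35889, nat_lit 44637, nat_lit 53385, nat_lit 47553, nat_lit 50469, nat_lit 48525, nat_lit 49173, nat_lit 48957, nat_lit 49017, nat_lit 49009, nat_lit 29329] (nat_lit 4) [] false,
   Spec.mk (nat_lit 49015) (nat_lit 0) [nat_lit 35893, nat_lit 44641, nat_lit 53389, nat_lit 47557, nat_lit 50473, nat_lit 48529, nat_lit 49177, nat_lit 48961, nat_lit 49033, nat_lit 49009, nat_lit 49017, nat_lit 29333] (nat_lit 2) [] false,
   Spec.mk (nat_lit 49017) (nat_lit 0) [nat_lit 35895, nat_lit 44643, nat_lit 53391, nat_lit 47559, nat_lit 50475, nat_lit 48531, nat_lit 49179, nat_lit 48963, nat_lit 49035, nat_lit 49011, nat_lit 49023, nat_lit 49015, nat_lit 29335] (nat_lit 3) [] false,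
   Spec.mk (nat_lit 49023) (nat_lit 0) [nat_lit 35901, nat_lit 44649, nat_lit 53397, nat_lit 47565, nat_lit 50481, nat_lit 48537, nat_lit 49185, nat_lit 48969, nat_lit 49041, nat_lit 49017, nat_lit 29341] (nat_lit 4) [] false,
   Spec.mk (nat_lit 49033) (nat_lit 0) [nat_lit 35911, nat_lit 44659, nat_lit 53407, nat_lit 47575, nat_lit 50491, nat_lit 48547, nat_lit 49195, nat_lit 48979, nat_lit 49015, nat_lit 49035, nat_lit 29351] (nat_lit 0) [] false,
   Spec.mk (nat_lit 49035) (nat_lit 0) [nat_lit 35913, nat_lit 44661, nat_lit 53409, nat_lit 47577, nat_lit 50493, nat_lit 48549, nat_lit 49197, nat_lit 48981, nat_lit 49017, nat_lit 49041, nat_lit 49033, nat_lit 29353] (nat_lit 2) [] false,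
   Spec.mk (nat_lit 49041) (nat_lit 0) [nat_lit 35919, nat_lit 44667, nat_lit 53415, nat_lit 47583, nat_lit 50499, nat_lit 48555, nat_lit 49203, nat_lit 48987, nat_lit 49023, nat_lit 49059, nat_lit 49035, nat_lit 29359] (nat_lit 1) [] false,
   Spec.mk (nat_lit 49059) (nat_lit 0) [nat_lit 35937, nat_lit 44685, nat_lit 53433, nat_lit 47601, nat_lit 50517, nat_lit 48573, nat_lit 49221, nat_lit 49041, nat_lit 29377] (nat_lit 0) [] false,
   Spec.mk (nat_lit 49091) (nat_lit 3) [nat_lit 35969, nat_lit 44717, nat_lit 53465, nat_lit 47633, nat_lit 50549, nat_lit 48605, nat_lit 49577, nat_lit 48929, nat_lit 49097, nat_lit 49093] (nat_lit 0) [] false,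
   Spec.mk (nat_lit 49093) (nat_lit 1) [nat_lit 35971, nat_lit 44719, nat_lit 53467, nat_lit 47635, nat_lit 50551, nat_lit 48607, nat_lit 49579, nat_lit 48931, nat_lit 49099, nat_lit 49091, nat_lit 29411] (nat_lit 0) [] false,
   Spec.mk (nat_lit 49097) (nat_lit 1) [nat_lit 35975, nat_lit 44723, nat_lit 53471, nat_lit 47639, nat_lit 50555, nat_lit 48611, nat_lit 49583, nat_lit 48935, nat_lit 49115, nat_lit 49091, nat_lit 49099] (nat_lit 0) [] false,
   Spec.mk (nat_lit 49099) (nat_lit 1) [nat_lit 35977, nat_lit 44725, nat_lit 53473, nat_lit 47641, nat_lit 50557, nat_lit 48613, nat_lit 49585, nat_lit 48937, nat_lit 49117, nat_lit 49093, nat_lit 49105, nat_lit 49097, nat_lit 49101, nat_lit 29417] (nat_lit 0) [] false,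
   Spec.mk (nat_lit 49101) (nat_lit 0) [nat_lit 35979, nat_lit 44727, nat_lit 53475, nat_lit 47643, nat_lit 50559, nat_lit 48615, nat_lit 49587, nat_lit 48939, nat_lit 49119, nat_lit 49107, nat_lit 49099, nat_lit 29419] (nat_lit 1) [] false,
   Spec.mk (nat_lit 49105) (nat_lit 0) [nat_lit 35983, nat_lit 44731, nat_lit 53479, nat_lit 47647, nat_lit 50563, nat_lit 48619, nat_lit 49591, nat_lit 48943, nat_lit 49123, nat_lit 49099, nat_lit 49107, nat_lit 29423] (nat_lit 1) [] false,
   Spec.mk (nat_lit 49107) (nat_lit 0) [nat_lit 35985, nat_lit 44733, nat_lit 53481, nat_lit 47649, nat_lit 50565, nat_lit 48621, nat_lit 49593, nat_lit 48945, nat_lit 49125, nat_lit 49101, nat_lit 49105, nat_lit 29425] (nat_lit 1) [] false,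
   Spec.mk (nat_lit 49115) (nat_lit 1) [nat_lit 35993, nat_lit 44741, nat_lit 53489, nat_lit 47657, nat_lit 50573, nat_lit 48629, nat_lit 49601, nat_lit 48953, nat_lit 49169, nat_lit 49097, nat_lit 49117] (nat_lit 0) [] false,
   Spec.mk (nat_lit 49117) (nat_lit 0) [nat_lit 35995, nat_lit 44743, nat_lit 53491, nat_lit 47659, nat_lit 50575, nat_lit 48631, nat_lit 49603, nat_lit 48955, nat_lit 49171, nat_lit 49099, nat_lit 49123, nat_lit 49115, nat_lit 49119, nat_lit 29435] (nat_lit 0) [] false,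
   Spec.mk (nat_lit 49119) (nat_lit 0) [nat_lit 35997, nat_lit 44745, nat_lit 53493, nat_lit 47661, nat_lit 50577, nat_lit 48633, nat_lit 49605, nat_lit 48957, nat_lit 49173, nat_lit 49101, nat_lit 49125, nat_lit 49117, nat_lit 29437] (nat_lit 3) [] false,
   Spec.mk (nat_lit 49123) (nat_lit 0) [nat_lit 36001, nat_lit 44749, nat_lit 53497, nat_lit 47665, nat_lit 50581, nat_lit 48637, nat_lit 49609, nat_lit 48961, nat_lit 49177, nat_lit 49105, nat_lit 49141, nat_lit 49117, nat_lit 49125, nat_lit 29441] (nat_lit 0) [] false,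
   Spec.mk (nat_lit 49125) (nat_lit 0) [nat_lit 36003, nat_lit 44751, nat_lit 53499, nat_lit 47667, nat_lit 50583, nat_lit 48639, nat_lit 49611, nat_lit 48963, nat_lit 49179, nat_lit 49107, nat_lit 49143, nat_lit 49119, nat_lit 49131, nat_lit 49123, nat_lit 29443] (nat_lit 1) [] false,
   Spec.mk (nat_lit 49131) (nat_lit 0) [nat_lit 36009, nat_lit 44757, nat_lit 53505, nat_lit 47673, nat_lit 50589, nat_lit 48645, nat_lit 49617, nat_lit 48969, nat_lit 49185, nat_lit 49149, nat_lit 49125, nat_lit 29449] (nat_lit 1) [] false,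
   Spec.mk (nat_lit 49141) (nat_lit 0) [nat_lit 36019, nat_lit 44767, nat_lit 53515, nat_lit 47683, nat_lit 50599, nat_lit 48655, nat_lit 49627, nat_lit 48979, nat_lit 49195, nat_lit 49123, nat_lit 49143, nat_lit 29459] (nat_lit 1) [] false,
   Spec.mk (nat_lit 49143) (nat_lit 0) [nat_lit 36021, nat_lit 44769, nat_lit 53517, nat_lit 47685, nat_lit 50601, nat_lit 48657, nat_lit 49629, nat_lit 48981, nat_lit 49197, nat_lit 49125, nat_lit 49149, nat_lit 49141, nat_lit 29461] (nat_lit 3) [] false,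
   Spec.mk (nat_lit 49149) (nat_lit 0) [nat_lit 36027, nat_lit 44775, nat_lit 53523, nat_lit 47691, nat_lit 50607, nat_lit 48663, nat_lit 49635, nat_lit 48987, nat_lit 49203, nat_lit 49131, nat_lit 49143, nat_lit 29467] (nat_lit 1) [] false,
   Spec.mk (nat_lit 49169) (nat_lit 2) [nat_lit 36047, nat_lit 44795, nat_lit 53543, nat_lit 47711, nat_lit 50627, nat_lit 48683, nat_lit 49655, nat_lit 49007, nat_lit 49331, nat_lit 49115, nat_lit 49171] (nat_lit 0) [] false,
   Spec.mk (nat_lit 49171) (nat_lit 1) [nat_lit 36049, nat_lit 44797, nat_lit 53545, nat_lit 47713, nat_lit 50629, nat_lit 48685, nat_lit 49657, nat_lit 49009, nat_lit 49333, nat_lit 49117, nat_lit 49177, nat_lit 49169, nat_lit 49173, nat_lit 29489] (nat_lit 0) [] false,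
   Spec.mk (nat_lit 49173) (nat_lit 0) [nat_lit 36051, nat_lit 44799, nat_lit 53547, nat_lit 47715, nat_lit 50631, nat_lit 48687, nat_lit 49659, nat_lit 49011, nat_lit 49335, nat_lit 49119, nat_lit 49179, nat_lit 49171, nat_lit 29491] (nat_lit 2) [] false,
   Spec.mk (nat_lit 49177) (nat_lit 0) [nat_lit 36055, nat_lit 44803, nat_lit 53551, nat_lit 47719, nat_lit 50635, nat_lit 48691, nat_lit 49663, nat_lit 49015, nat_lit 49339, nat_lit 49123, nat_lit 49195, nat_lit 49171, nat_lit 49179, nat_lit 29495] (nat_lit 0) [] false,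
   Spec.mk (nat_lit 49179) (nat_lit 0) [nat_lit 36057, nat_lit 44805, nat_lit 53553, nat_lit 47721, nat_lit 50637, nat_lit 48693, nat_lit 49665, nat_lit 49017, nat_lit 49341, nat_lit 49125, nat_lit 49197, nat_lit 49173, nat_lit 49185, nat_lit 49177, nat_lit 29497] (nat_lit 1) [] false,
   Spec.mk (nat_lit 49185) (nat_lit 0) [nat_lit 36063, nat_lit 44811, nat_lit 53559, nat_lit 47727, nat_lit 50643, nat_lit 48699, nat_lit 49671, nat_lit 49023, nat_lit 49347, nat_lit 49131, nat_lit 49203, nat_lit 49179, nat_lit 29503] (nat_lit 2) [] false,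
   Spec.mk (nat_lit 49195) (nat_lit 1) [nat_lit 36073, nat_lit 44821, nat_lit 53569, nat_lit 47737, nat_lit 50653, nat_lit 48709, nat_lit 49681, nat_lit 49033, nat_lit 49357, nat_lit 49141, nat_lit 49249, nat_lit 49177, nat_lit 49197, nat_lit 29513] (nat_lit 0) [] false,
   Spec.mk (nat_lit 49197) (nat_lit 0) [nat_lit 36075, nat_lit 44823, nat_lit 53571, nat_lit 47739, nat_lit 50655, nat_lit 48711, nat_lit 49683, nat_lit 49035, nat_lit 49359, nat_lit 49143, nat_lit 49251, nat_lit 49179, nat_lit 49203, nat_lit 49195, nat_lit 29515] (nat_lit 1) [] false,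
   Spec.mk (nat_lit 49203) (nat_lit 0) [nat_lit 36081, nat_lit 44829, nat_lit 53577, nat_lit 47745, nat_lit 50661, nat_lit 48717, nat_lit 49689, nat_lit 49041, nat_lit 49365, nat_lit 49149, nat_lit 49257, nat_lit 49185, nat_lit 49221, nat_lit 49197, nat_lit 29521] (nat_lit 0) [] false,
   Spec.mk (nat_lit 49221) (nat_lit 0) [nat_lit 36099, nat_lit 44847, nat_lit 53595, nat_lit 47763, nat_lit 50679, nat_lit 48735, nat_lit 49707, nat_lit 49059, nat_lit 49383, nat_lit 49275, nat_lit 49203, nat_lit 29539] (nat_lit 0) [] false,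
   Spec.mk (nat_lit 49249) (nat_lit 1) [nat_lit 36127, nat_lit 44875, nat_lit 53623, nat_lit 47791, nat_lit 50707, nat_lit 48763, nat_lit 49735, nat_lit 49411, nat_lit 49195, nat_lit 49251, nat_lit 29567] (nat_lit 0) [] false,
   Spec.mk (nat_lit 49251) (nat_lit 0) [nat_lit 36129, nat_lit 44877, nat_lit 53625, nat_lit 47793, nat_lit 50709, nat_lit 48765, nat_lit 49737, nat_lit 49413, nat_lit 49197, nat_lit 49257, nat_lit 49249, nat_lit 29569] (nat_lit 1) [] false,
   Spec.mk (nat_lit 49257) (nat_lit 0) [nat_lit 36135, nat_lit 44883, nat_lit 53631, nat_lit 47799, nat_lit 50715, nat_lit 48771, nat_lit 49743, nat_lit 49419, nat_lit 49203, nat_lit 49275, nat_lit 49251, nat_lit 29575] (nat_lit 1) [] false,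
   Spec.mk (nat_lit 49275) (nat_lit 1) [nat_lit 36153, nat_lit 44901, nat_lit 53649, nat_lit 47817, nat_lit 50733, nat_lit 48789, nat_lit 49761, nat_lit 49437, nat_lit 49221, nat_lit 49257, nat_lit 29593] (nat_lit 0) [] false]

noncomputable def sp127 : List Spec :=
  [Spec.mk (nat_lit 49331) (nat_lit 2) [nat_lit 36209, nat_lit 44957, nat_lit 53705, nat_lit 47873, nat_lit 50789, nat_lit 49817, nat_lit 49169, nat_lit 49333] (nat_lit 0) [] false,
   Spec.mk (nat_lit 49333) (nat_lit 1) [nat_lit 36211, nat_lit 44959, nat_lit 53707, nat_lit 47875, nat_lit 50791, nat_lit 49819, nat_lit 49171, nat_lit 49339, nat_lit 49331, nat_lit 49335, nat_lit 29651] (nat_lit 0) [] false,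
   Spec.mk (nat_lit 49335) (nat_lit 0) [nat_lit 36213, nat_lit 44961, nat_lit 53709, nat_lit 47877, nat_lit 50793, nat_lit 49821, nat_lit 49173, nat_lit 49341, nat_lit 49333, nat_lit 29653] (nat_lit 2) [] false,
   Spec.mk (nat_lit 49339) (nat_lit 0) [nat_lit 36217, nat_lit 44965, nat_lit 53713, nat_lit 47881, nat_lit 50797, nat_lit 49825, nat_lit 49177, nat_lit 49357, nat_lit 49333, nat_lit 49341, nat_lit 29657] (nat_lit 0) [] false,
   Spec.mk (nat_lit 49341) (nat_lit 0) [nat_lit 36219, nat_lit 44967, nat_lit 53715, nat_lit 47883, nat_lit 50799, nat_lit 49827, nat_lit 49179, nat_lit 49359, nat_lit 49335, nat_lit 49347, nat_lit 49339, nat_lit 29659] (nat_lit 1) [] false,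
   Spec.mk (nat_lit 49347) (nat_lit 0) [nat_lit 36225, nat_lit 44973, nat_lit 53721, nat_lit 47889, nat_lit 50805, nat_lit 49833, nat_lit 49185, nat_lit 49365, nat_lit 49341, nat_lit 29665] (nat_lit 2) [] false,
   Spec.mk (nat_lit 49357) (nat_lit 0) [nat_lit 36235, nat_lit 44983, nat_lit 53731, nat_lit 47899, nat_lit 50815, nat_lit 49843, nat_lit 49195, nat_lit 49411, nat_lit 49339, nat_lit 49359, nat_lit 29675] (nat_lit 0) [] false,
   Spec.mk (nat_lit 49359) (nat_lit 0) [nat_lit 36237, nat_lit 44985, nat_lit 53733, nat_lit 47901, nat_lit 50817, nat_lit 49845, nat_lit 49197, nat_lit 49413, nat_lit 49341, nat_lit 49365, nat_lit 49357, nat_lit 29677] (nat_lit 2) [] false,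
   Spec.mk (nat_lit 49365) (nat_lit 0) [nat_lit 36243, nat_lit 44991, nat_lit 53739, nat_lit 47907, nat_lit 50823, nat_lit 49851, nat_lit 49203, nat_lit 49419, nat_lit 49347, nat_lit 49383, nat_lit 49359, nat_lit 29683] (nat_lit 1) [] false,
   Spec.mk (nat_lit 49383) (nat_lit 0) [nat_lit 36261, nat_lit 45009, nat_lit 53757, nat_lit 47925, nat_lit 50841, nat_lit 49869, nat_lit 49221, nat_lit 49437, nat_lit 49365, nat_lit 29701] (nat_lit 2) [] false,
   Spec.mk (nat_lit 49411) (nat_lit 2) [nat_lit 36289, nat_lit 45037, nat_lit 53785, nat_lit 47953, nat_lit 50869, nat_lit 49897, nat_lit 49249, nat_lit 49357, nat_lit 49413, nat_lit 29729] (nat_lit 0) [] false,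
   Spec.mk (nat_lit 49413) (nat_lit 0) [nat_lit 36291, nat_lit 45039, nat_lit 53787, nat_lit 47955, nat_lit 50871, nat_lit 49899, nat_lit 49251, nat_lit 49359, nat_lit 49419, nat_lit 49411, nat_lit 29731] (nat_lit 0) [] false,
   Spec.mk (nat_lit 49419) (nat_lit 0) [nat_lit 36297, nat_lit 45045, nat_lit 53793, nat_lit 47961, nat_lit 50877, nat_lit 49905, nat_lit 49257, nat_lit 49365, nat_lit 49437, nat_lit 49413, nat_lit 29737] (nat_lit 0) [] false,
   Spec.mk (nat_lit 49437) (nat_lit 1) [nat_lit 36315, nat_lit 45063, nat_lit 53811, nat_lit 47979, nat_lit 50895, nat_lit 49923, nat_lit 49275, nat_lit 49383, nat_lit 49491, nat_lit 49419, nat_lit 29755] (nat_lit 0) [] false,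
   Spec.mk (nat_lit 49491) (nat_lit 2) [nat_lit 36369, nat_lit 45117, nat_lit 53865, nat_lit 48033, nat_lit 50949, nat_lit 49977, nat_lit 49437, nat_lit 29809] (nat_lit 0) [] false,
   Spec.mk (nat_lit 49577) (nat_lit 3) [nat_lit 36455, nat_lit 45203, nat_lit 53951, nat_lit 51035, nat_lit 49091, nat_lit 49583, nat_lit 49579] (nat_lit 0) [] false,
   Spec.mk (nat_lit 49579) (nat_lit 1) [nat_lit 36457, nat_lit 45205, nat_lit 53953, nat_lit 51037, nat_lit 49093, nat_lit 49585, nat_lit 49577, nat_lit 29897] (nat_lit 0) [] false,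
   Spec.mk (nat_lit 49583) (nat_lit 1) [nat_lit 36461, nat_lit 45209, nat_lit 53957, nat_lit 51041, nat_lit 49097, nat_lit 49601, nat_lit 49577, nat_lit 49585] (nat_lit 0) [] false,
   Spec.mk (nat_lit 49585) (nat_lit 1) [nat_lit 36463, nat_lit 45211, nat_lit 53959, nat_lit 51043, nat_lit 49099, nat_lit 49603, nat_lit 49579, nat_lit 49591, nat_lit 49583, nat_lit 49587, nat_lit 29903] (nat_lit 0) [] false,
   Spec.mk (nat_lit 49587) (nat_lit 0) [nat_lit 36465, nat_lit 45213, nat_lit 53961, nat_lit 51045, nat_lit 49101, nat_lit 49605, nat_lit 49593, nat_lit 49585, nat_lit 29905] (nat_lit 1) [] false,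
   Spec.mk (nat_lit 49591) (nat_lit 0) [nat_lit 36469, nat_lit 45217, nat_lit 53965, nat_lit 51049, nat_lit 49105, nat_lit 49609, nat_lit 49585, nat_lit 49593, nat_lit 29909] (nat_lit 1) [] false,
   Spec.mk (nat_lit 49593) (nat_lit 0) [nat_lit 36471, nat_lit 45219, nat_lit 53967, nat_lit 51051, nat_lit 49107, nat_lit 49611, nat_lit 49587, nat_lit 49591, nat_lit 29911] (nat_lit 1) [] false,
   Spec.mk (nat_lit 49601) (nat_lit 1) [nat_lit 36479, nat_lit 45227, nat_lit 53975, nat_lit 51059, nat_lit 49115, nat_lit 49655, nat_lit 49583, nat_lit 49603] (nat_lit 0) [] false,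
   Spec.mk (nat_lit 49603) (nat_lit 0) [nat_lit 36481, nat_lit 45229, nat_lit 53977, nat_lit 51061, nat_lit 49117, nat_lit 49657, nat_lit 49585, nat_lit 49609, nat_lit 49601, nat_lit 49605, nat_lit 29921] (nat_lit 0) [] false,
   Spec.mk (nat_lit 49605) (nat_lit 0) [nat_lit 36483, nat_lit 45231, nat_lit 53979, nat_lit 51063, nat_lit 49119, nat_lit 49659, nat_lit 49587, nat_lit 49611, nat_lit 49603, nat_lit 29923] (nat_lit 3) [] false,
   Spec.mk (nat_lit 49609) (nat_lit 0) [nat_lit 36487, nat_lit 45235, nat_lit 53983, nat_lit 51067, nat_lit 49123, nat_lit 49663, nat_lit 49591, nat_lit 49627, nat_lit 49603, nat_lit 49611, nat_lit 29927] (nat_lit 0) [] false,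
   Spec.mk (nat_lit 49611) (nat_lit 0) [nat_lit 36489, nat_lit 45237, nat_lit 53985, nat_lit 51069, nat_lit 49125, nat_lit 49665, nat_lit 49593, nat_lit 49629, nat_lit 49605, nat_lit 49617, nat_lit 49609, nat_lit 29929] (nat_lit 1) [] false,
   Spec.mk (nat_lit 49617) (nat_lit 0) [nat_lit 36495, nat_lit 45243, nat_lit 53991, nat_lit 51075, nat_lit 49131, nat_lit 49671, nat_lit 49635, nat_lit 49611, nat_lit 29935] (nat_lit 1) [] false,
   Spec.mk (nat_lit 49627) (nat_lit 0) [nat_lit 36505, nat_lit 45253, nat_lit 54001, nat_lit 51085, nat_lit 49141, nat_lit 49681, nat_lit 49609, nat_lit 49629, nat_lit 29945] (nat_lit 1) [] false,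
   Spec.mk (nat_lit 49629) (nat_lit 0) [nat_lit 36507, nat_lit 45255, nat_lit 54003, nat_lit 51087, nat_lit 49143, nat_lit 49683, nat_lit 49611, nat_lit 49635, nat_lit 49627, nat_lit 29947] (nat_lit 3) [] false,
   Spec.mk (nat_lit 49635) (nat_lit 0) [nat_lit 36513, nat_lit 45261, nat_lit 54009, nat_lit 51093, nat_lit 49149, nat_lit 49689, nat_lit 49617, nat_lit 49629, nat_lit 29953] (nat_lit 1) [] false,
   Spec.mk (nat_lit 49655) (nat_lit 1) [nat_lit 36533, nat_lit 45281, nat_lit 54029, nat_lit 51113, nat_lit 49169, nat_lit 49817, nat_lit 49601, nat_lit 49657] (nat_lit 0) [] false,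
   Spec.mk (nat_lit 49657) (nat_lit 0) [nat_lit 36535, nat_lit 45283, nat_lit 54031, nat_lit 51115, nat_lit 49171, nat_lit 49819, nat_lit 49603, nat_lit 49663, nat_lit 49655, nat_lit 49659, nat_lit 29975] (nat_lit 0) [] false,
   Spec.mk (nat_lit 49659) (nat_lit 0) [nat_lit 36537, nat_lit 45285, nat_lit 54033, nat_lit 51117, nat_lit 49173, nat_lit 49821, nat_lit 49605, nat_lit 49665, nat_lit 49657, nat_lit 29977] (nat_lit 3) [] false,
   Spec.mk (nat_lit 49663) (nat_lit 0) [nat_lit 36541, nat_lit 45289, nat_lit 54037, nat_lit 51121, nat_lit 49177, nat_lit 49825, nat_lit 49609, nat_lit 49681, nat_lit 49657, nat_lit 49665, nat_lit 29981] (nat_lit 1) [] false,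
   Spec.mk (nat_lit 49665) (nat_lit 0) [nat_lit 36543, nat_lit 45291, nat_lit 54039, nat_lit 51123, nat_lit 49179, nat_lit 49827, nat_lit 49611, nat_lit 49683, nat_lit 49659, nat_lit 49671, nat_lit 49663, nat_lit 29983] (nat_lit 2) [] false,
   Spec.mk (nat_lit 49671) (nat_lit 0) [nat_lit 36549, nat_lit 45297, nat_lit 54045, nat_lit 51129, nat_lit 49185, nat_lit 49833, nat_lit 49617, nat_lit 49689, nat_lit 49665, nat_lit 29989] (nat_lit 3) [] false,
   Spec.mk (nat_lit 49681) (nat_lit 0) [nat_lit 36559, nat_lit 45307, nat_lit 54055, nat_lit 51139, nat_lit 49195, nat_lit 49843, nat_lit 49627, nat_lit 49735, nat_lit 49663, nat_lit 49683, nat_lit 29999] (nat_lit 0) [] false,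
   Spec.mk (nat_lit 49683) (nat_lit 0) [nat_lit 36561, nat_lit 45309, nat_lit 54057, nat_lit 51141, nat_lit 49197, nat_lit 49845, nat_lit 49629, nat_lit 49737, nat_lit 49665, nat_lit 49689, nat_lit 49681, nat_lit 30001] (nat_lit 2) [] false,
   Spec.mk (nat_lit 49689) (nat_lit 0) [nat_lit 36567, nat_lit 45315, nat_lit 54063, nat_lit 51147, nat_lit 49203, nat_lit 49851, nat_lit 49635, nat_lit 49743, nat_lit 49671, nat_lit 49707, nat_lit 49683, nat_lit 30007] (nat_lit 1) [] false,
   Spec.mk (nat_lit 49707) (nat_lit 0) [nat_lit 36585, nat_lit 45333, nat_lit 54081, nat_lit 51165, nat_lit 49221, nat_lit 49869, nat_lit 49761, nat_lit 49689, nat_lit 30025] (nat_lit 1) [] false,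
   Spec.mk (nat_lit 49735) (nat_lit 0) [nat_lit 36613, nat_lit 45361, nat_lit 54109, nat_lit 51193, nat_lit 49249, nat_lit 49897, nat_lit 49681, nat_lit 49737, nat_lit 30053] (nat_lit 1) [] false,
   Spec.mk (nat_lit 49737) (nat_lit 0) [nat_lit 36615, nat_lit 45363, nat_lit 54111, nat_lit 51195, nat_lit 49251, nat_lit 49899, nat_lit 49683, nat_lit 49743, nat_lit 49735, nat_lit 30055] (nat_lit 3) [] false,
   Spec.mk (nat_lit 49743) (nat_lit 0) [nat_lit 36621, nat_lit 45369, nat_lit 54117, nat_lit 51201, nat_lit 49257, nat_lit 49905, nat_lit 49689, nat_lit 49761, nat_lit 49737, nat_lit 30061] (nat_lit 3) [] false,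
   Spec.mk (nat_lit 49761) (nat_lit 0) [nat_lit 36639, nat_lit 45387, nat_lit 54135, nat_lit 51219, nat_lit 49275, nat_lit 49923, nat_lit 49707, nat_lit 49743, nat_lit 30079] (nat_lit 1) [] false,
   Spec.mk (nat_lit 49817) (nat_lit 3) [nat_lit 36695, nat_lit 45443, nat_lit 54191, nat_lit 51275, nat_lit 49331, nat_lit 49655, nat_lit 49819] (nat_lit 0) [] false,
   Spec.mk (nat_lit 49819) (nat_lit 2) [nat_lit 36697, nat_lit 45445, nat_lit 54193, nat_lit 51277, nat_lit 49333, nat_lit 49657, nat_lit 49825, nat_lit 49817, nat_lit 49821, nat_lit 30137] (nat_lit 0) [] false,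
   Spec.mk (nat_lit 49821) (nat_lit 0) [nat_lit 36699, nat_lit 45447, nat_lit 54195, nat_lit 51279, nat_lit 49335, nat_lit 49659, nat_lit 49827, nat_lit 49819, nat_lit 30139] (nat_lit 1) [] false,
   Spec.mk (nat_lit 49825) (nat_lit 1) [nat_lit 36703, nat_lit 45451, nat_lit 54199, nat_lit 51283, nat_lit 49339, nat_lit 49663, nat_lit 49843, nat_lit 49819, nat_lit 49827, nat_lit 30143] (nat_lit 0) [] false,
   Spec.mk (nat_lit 49827) (nat_lit 0) [nat_lit 36705, nat_lit 45453, nat_lit 54201, nat_lit 51285, nat_lit 49341, nat_lit 49665, nat_lit 49845, nat_lit 49821, nat_lit 49833, nat_lit 49825, nat_lit 30145] (nat_lit 0) [] false,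
   Spec.mk (nat_lit 49833) (nat_lit 0) [nat_lit 36711, nat_lit 45459, nat_lit 54207, nat_lit 51291, nat_lit 49347, nat_lit 49671, nat_lit 49851, nat_lit 49827, nat_lit 30151] (nat_lit 1) [] false,
   Spec.mk (nat_lit 49843) (nat_lit 1) [nat_lit 36721, nat_lit 45469, nat_lit 54217, nat_lit 51301, nat_lit 49357, nat_lit 49681, nat_lit 49897, nat_lit 49825, nat_lit 49845, nat_lit 30161] (nat_lit 0) [] false,
   Spec.mk (nat_lit 49845) (nat_lit 0) [nat_lit 36723, nat_lit 45471, nat_lit 54219, nat_lit 51303, nat_lit 49359, nat_lit 49683, nat_lit 49899, nat_lit 49827, nat_lit 49851, nat_lit 49843, nat_lit 30163] (nat_lit 1) [] false,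
   Spec.mk (nat_lit 49851) (nat_lit 0) [nat_lit 36729, nat_lit 45477, nat_lit 54225, nat_lit 51309, nat_lit 49365, nat_lit 49689, nat_lit 49905, nat_lit 49833, nat_lit 49869, nat_lit 49845, nat_lit 30169] (nat_lit 0) [] false,
   Spec.mk (nat_lit 49869) (nat_lit 0) [nat_lit 36747, nat_lit 45495, nat_lit 54243, nat_lit 51327, nat_lit 49383, nat_lit 49707, nat_lit 49923, nat_lit 49851, nat_lit 30187] (nat_lit 1) [] false,
   Spec.mk (nat_lit 49897) (nat_lit 2) [nat_lit 36775, nat_lit 45523, nat_lit 54271, nat_lit 51355, nat_lit 49411, nat_lit 49735, nat_lit 50059, nat_lit 49843, nat_lit 49899, nat_lit 30215] (nat_lit 0) [] false,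
   Spec.mk (nat_lit 49899) (nat_lit 0) [nat_lit 36777, nat_lit 45525, nat_lit 54273, nat_lit 51357, nat_lit 49413, nat_lit 49737, nat_lit 50061, nat_lit 49845, nat_lit 49905, nat_lit 49897, nat_lit 30217] (nat_lit 0) [] false,
   Spec.mk (nat_lit 49905) (nat_lit 0) [nat_lit 36783, nat_lit 45531, nat_lit 54279, nat_lit 51363, nat_lit 49419, nat_lit 49743, nat_lit 50067, nat_lit 49851, nat_lit 49923, nat_lit 49899, nat_lit 30223] (nat_lit 0) [] false,
   Spec.mk (nat_lit 49923) (nat_lit 1) [nat_lit 36801, nat_lit 45549, nat_lit 54297, nat_lit 51381, nat_lit 49437, nat_lit 49761, nat_lit 50085, nat_lit 49869, nat_lit 49977, nat_lit 49905, nat_lit 30241] (nat_lit 0) [] false,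
   Spec.mk (nat_lit 49977) (nat_lit 1) [nat_lit 36855, nat_lit 45603, nat_lit 54351, nat_lit 51435, nat_lit 49491, nat_lit 50139, nat_lit 49923, nat_lit 30295] (nat_lit 0) [] false]

noncomputable def sp128 : List Spec :=
  [Spec.mk (nat_lit 50059) (nat_lit 3) [nat_lit 36937, nat_lit 45685, nat_lit 54433, nat_lit 51517, nat_lit 49897, nat_lit 50061, nat_lit 30377] (nat_lit 0) [] false,
   Spec.mk (nat_lit 50061) (nat_lit 1) [nat_lit 36939, nat_lit 45687, nat_lit 54435, nat_lit 51519, nat_lit 49899, nat_lit 50067, nat_lit 50059, nat_lit 30379] (nat_lit 0) [] false,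
   Spec.mk (nat_lit 50067) (nat_lit 1) [nat_lit 36945, nat_lit 45693, nat_lit 54441, nat_lit 51525, nat_lit 49905, nat_lit 50085, nat_lit 50061, nat_lit 30385] (nat_lit 0) [] false,
   Spec.mk (nat_lit 50085) (nat_lit 1) [nat_lit 36963, nat_lit 45711, nat_lit 54459, nat_lit 51543, nat_lit 49923, nat_lit 50139, nat_lit 50067, nat_lit 30403] (nat_lit 0) [] false,
   Spec.mk (nat_lit 50139) (nat_lit 3) [nat_lit 37017, nat_lit 45765, nat_lit 54513, nat_lit 51597, nat_lit 49977, nat_lit 50085, nat_lit 30457] (nat_lit 0) [] false,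
   Spec.mk (nat_lit 50309) (nat_lit 4) [nat_lit 37187, nat_lit 54683, nat_lit 48851, nat_lit 50315] (nat_lit 0) [] false,
   Spec.mk (nat_lit 50315) (nat_lit 3) [nat_lit 37193, nat_lit 54689, nat_lit 48857, nat_lit 50333, nat_lit 50309, nat_lit 50321, nat_lit 50317] (nat_lit 0) [] false,
   Spec.mk (nat_lit 50317) (nat_lit 2) [nat_lit 37195, nat_lit 54691, nat_lit 48859, nat_lit 50335, nat_lit 50323, nat_lit 50315, nat_lit 30635] (nat_lit 0) [] false,
   Spec.mk (nat_lit 50321) (nat_lit 0) [nat_lit 37199, nat_lit 54695, nat_lit 48863, nat_lit 50339, nat_lit 50315, nat_lit 50323] (nat_lit 0) [] false,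
   Spec.mk (nat_lit 50323) (nat_lit 1) [nat_lit 37201, nat_lit 54697, nat_lit 48865, nat_lit 50341, nat_lit 50317, nat_lit 50321, nat_lit 50325, nat_lit 30641] (nat_lit 0) [] false,
   Spec.mk (nat_lit 50325) (nat_lit 0) [nat_lit 37203, nat_lit 54699, nat_lit 48867, nat_lit 50343, nat_lit 50323, nat_lit 30643] (nat_lit 0) [] false,
   Spec.mk (nat_lit 50333) (nat_lit 2) [nat_lit 37211, nat_lit 54707, nat_lit 48875, nat_lit 50387, nat_lit 50315, nat_lit 50339, nat_lit 50335] (nat_lit 0) [] false,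
   Spec.mk (nat_lit 50335) (nat_lit 0) [nat_lit 37213, nat_lit 54709, nat_lit 48877, nat_lit 50389, nat_lit 50317, nat_lit 50341, nat_lit 50333, nat_lit 30653] (nat_lit 0) [] false,
   Spec.mk (nat_lit 50339) (nat_lit 1) [nat_lit 37217, nat_lit 54713, nat_lit 48881, nat_lit 50393, nat_lit 50321, nat_lit 50357, nat_lit 50333, nat_lit 50341] (nat_lit 0) [] false,
   Spec.mk (nat_lit 50341) (nat_lit 1) [nat_lit 37219, nat_lit 54715, nat_lit 48883, nat_lit 50395, nat_lit 50323, nat_lit 50359, nat_lit 50335, nat_lit 50347, nat_lit 50339, nat_lit 50343, nat_lit 30659] (nat_lit 0) [] false,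
   Spec.mk (nat_lit 50343) (nat_lit 0) [nat_lit 37221, nat_lit 54717, nat_lit 48885, nat_lit 50397, nat_lit 50325, nat_lit 50361, nat_lit 50349, nat_lit 50341, nat_lit 30661] (nat_lit 1) [] false,
   Spec.mk (nat_lit 50347) (nat_lit 0) [nat_lit 37225, nat_lit 54721, nat_lit 48889, nat_lit 50401, nat_lit 50365, nat_lit 50341, nat_lit 50349, nat_lit 30665] (nat_lit 0) [] false,
   Spec.mk (nat_lit 50349) (nat_lit 0) [nat_lit 37227, nat_lit 54723, nat_lit 48891, nat_lit 50403, nat_lit 50367, nat_lit 50343, nat_lit 50347, nat_lit 30667] (nat_lit 0) [] false,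
   Spec.mk (nat_lit 50357) (nat_lit 0) [nat_lit 37235, nat_lit 54731, nat_lit 48899, nat_lit 50411, nat_lit 50339, nat_lit 50359] (nat_lit 0) [] false,
   Spec.mk (nat_lit 50359) (nat_lit 0) [nat_lit 37237, nat_lit 54733, nat_lit 48901, nat_lit 50413, nat_lit 50341, nat_lit 50365, nat_lit 50357, nat_lit 50361, nat_lit 30677] (nat_lit 1) [] false,
   Spec.mk (nat_lit 50361) (nat_lit 0) [nat_lit 37239, nat_lit 54735, nat_lit 48903, nat_lit 50415, nat_lit 50343, nat_lit 50367, nat_lit 50359, nat_lit 30679] (nat_lit 4) [] false,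
   Spec.mk (nat_lit 50365) (nat_lit 0) [nat_lit 37243, nat_lit 54739, nat_lit 48907, nat_lit 50419, nat_lit 50347, nat_lit 50359, nat_lit 50367, nat_lit 30683] (nat_lit 0) [] false,
   Spec.mk (nat_lit 50367) (nat_lit 0) [nat_lit 37245, nat_lit 54741, nat_lit 48909, nat_lit 50421, nat_lit 50349, nat_lit 50361, nat_lit 50373, nat_lit 50365, nat_lit 30685] (nat_lit 1) [] false,
   Spec.mk (nat_lit 50373) (nat_lit 0) [nat_lit 37251, nat_lit 54747, nat_lit 48915, nat_lit 50427, nat_lit 50367, nat_lit 30691] (nat_lit 0) [] false,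
   Spec.mk (nat_lit 50387) (nat_lit 2) [nat_lit 37265, nat_lit 54761, nat_lit 48929, nat_lit 50549, nat_lit 50333, nat_lit 50393, nat_lit 50389] (nat_lit 0) [] false,
   Spec.mk (nat_lit 50389) (nat_lit 0) [nat_lit 37267, nat_lit 54763, nat_lit 48931, nat_lit 50551, nat_lit 50335, nat_lit 50395, nat_lit 50387, nat_lit 30707] (nat_lit 0) [] false,
   Spec.mk (nat_lit 50393) (nat_lit 0) [nat_lit 37271, nat_lit 54767, nat_lit 48935, nat_lit 50555, nat_lit 50339, nat_lit 50411, nat_lit 50387, nat_lit 50395] (nat_lit 0) [] false,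
   Spec.mk (nat_lit 50395) (nat_lit 0) [nat_lit 37273, nat_lit 54769, nat_lit 48937, nat_lit 50557, nat_lit 50341, nat_lit 50413, nat_lit 50389, nat_lit 50401, nat_lit 50393, nat_lit 50397, nat_lit 30713] (nat_lit 0) [] false,
   Spec.mk (nat_lit 50397) (nat_lit 0) [nat_lit 37275, nat_lit 54771, nat_lit 48939, nat_lit 50559, nat_lit 50343, nat_lit 50415, nat_lit 50403, nat_lit 50395, nat_lit 30715] (nat_lit 2) [] false,
   Spec.mk (nat_lit 50401) (nat_lit 0) [nat_lit 37279, nat_lit 54775, nat_lit 48943, nat_lit 50563, nat_lit 50347, nat_lit 50419, nat_lit 50395, nat_lit 50403, nat_lit 30719] (nat_lit 2) [] false,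
   Spec.mk (nat_lit 50403) (nat_lit 0) [nat_lit 37281, nat_lit 54777, nat_lit 48945, nat_lit 50565, nat_lit 50349, nat_lit 50421, nat_lit 50397, nat_lit 50401, nat_lit 30721] (nat_lit 2) [] false,
   Spec.mk (nat_lit 50411) (nat_lit 1) [nat_lit 37289, nat_lit 54785, nat_lit 48953, nat_lit 50573, nat_lit 50357, nat_lit 50465, nat_lit 50393, nat_lit 50413] (nat_lit 0) [] false,
   Spec.mk (nat_lit 50413) (nat_lit 0) [nat_lit 37291, nat_lit 54787, nat_lit 48955, nat_lit 50575, nat_lit 50359, nat_lit 50467, nat_lit 50395, nat_lit 50419, nat_lit 50411, nat_lit 50415, nat_lit 30731] (nat_lit 0) [] false,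
   Spec.mk (nat_lit 50415) (nat_lit 0) [nat_lit 37293, nat_lit 54789, nat_lit 48957, nat_lit 50577, nat_lit 50361, nat_lit 50469, nat_lit 50397, nat_lit 50421, nat_lit 50413, nat_lit 30733] (nat_lit 3) [] false,
   Spec.mk (nat_lit 50419) (nat_lit 0) [nat_lit 37297, nat_lit 54793, nat_lit 48961, nat_lit 50581, nat_lit 50365, nat_lit 50473, nat_lit 50401, nat_lit 50437, nat_lit 50413, nat_lit 50421, nat_lit 30737] (nat_lit 0) [] false,
   Spec.mk (nat_lit 50421) (nat_lit 0) [nat_lit 37299, nat_lit 54795, nat_lit 48963, nat_lit 50583, nat_lit 50367, nat_lit 50475, nat_lit 50403, nat_lit 50439, nat_lit 50415, nat_lit 50427, nat_lit 50419, nat_lit 30739] (nat_lit 1) [] false,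
   Spec.mk (nat_lit 50427) (nat_lit 0) [nat_lit 37305, nat_lit 54801, nat_lit 48969, nat_lit 50589, nat_lit 50373, nat_lit 50481, nat_lit 50445, nat_lit 50421, nat_lit 30745] (nat_lit 1) [] false,
   Spec.mk (nat_lit 50437) (nat_lit 0) [nat_lit 37315, nat_lit 54811, nat_lit 48979, nat_lit 50599, nat_lit 50491, nat_lit 50419, nat_lit 50439, nat_lit 30755] (nat_lit 0) [] false,
   Spec.mk (nat_lit 50439) (nat_lit 0) [nat_lit 37317, nat_lit 54813, nat_lit 48981, nat_lit 50601, nat_lit 50493, nat_lit 50421, nat_lit 50445, nat_lit 50437, nat_lit 30757] (nat_lit 2) [] false,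
   Spec.mk (nat_lit 50445) (nat_lit 0) [nat_lit 37323, nat_lit 54819, nat_lit 48987, nat_lit 50607, nat_lit 50499, nat_lit 50427, nat_lit 50439, nat_lit 30763] (nat_lit 0) [] false,
   Spec.mk (nat_lit 50465) (nat_lit 0) [nat_lit 37343, nat_lit 54839, nat_lit 49007, nat_lit 50627, nat_lit 50411, nat_lit 50467] (nat_lit 0) [] false,
   Spec.mk (nat_lit 50467) (nat_lit 0) [nat_lit 37345, nat_lit 54841, nat_lit 49009, nat_lit 50629, nat_lit 50413, nat_lit 50473, nat_lit 50465, nat_lit 50469, nat_lit 30785] (nat_lit 1) [] false,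
   Spec.mk (nat_lit 50469) (nat_lit 0) [nat_lit 37347, nat_lit 54843, nat_lit 49011, nat_lit 50631, nat_lit 50415, nat_lit 50475, nat_lit 50467, nat_lit 30787] (nat_lit 4) [] false,
   Spec.mk (nat_lit 50473) (nat_lit 0) [nat_lit 37351, nat_lit 54847, nat_lit 49015, nat_lit 50635, nat_lit 50419, nat_lit 50491, nat_lit 50467, nat_lit 50475, nat_lit 30791] (nat_lit 2) [] false,
   Spec.mk (nat_lit 50475) (nat_lit 0) [nat_lit 37353, nat_lit 54849, nat_lit 49017, nat_lit 50637, nat_lit 50421, nat_lit 50493, nat_lit 50469, nat_lit 50481, nat_lit 50473, nat_lit 30793] (nat_lit 3) [] false,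
   Spec.mk (nat_lit 50481) (nat_lit 0) [nat_lit 37359, nat_lit 54855, nat_lit 49023, nat_lit 50643, nat_lit 50427, nat_lit 50499, nat_lit 50475, nat_lit 30799] (nat_lit 4) [] false,
   Spec.mk (nat_lit 50491) (nat_lit 0) [nat_lit 37369, nat_lit 54865, nat_lit 49033, nat_lit 50653, nat_lit 50437, nat_lit 50473, nat_lit 50493, nat_lit 30809] (nat_lit 0) [] false,
   Spec.mk (nat_lit 50493) (nat_lit 0) [nat_lit 37371, nat_lit 54867, nat_lit 49035, nat_lit 50655, nat_lit 50439, nat_lit 50475, nat_lit 50499, nat_lit 50491, nat_lit 30811] (nat_lit 2) [] false,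
   Spec.mk (nat_lit 50499) (nat_lit 0) [nat_lit 37377, nat_lit 54873, nat_lit 49041, nat_lit 50661, nat_lit 50445, nat_lit 50481, nat_lit 50517, nat_lit 50493, nat_lit 30817] (nat_lit 1) [] false,
   Spec.mk (nat_lit 50517) (nat_lit 0) [nat_lit 37395, nat_lit 54891, nat_lit 49059, nat_lit 50679, nat_lit 50499, nat_lit 30835] (nat_lit 0) [] false,
   Spec.mk (nat_lit 50549) (nat_lit 2) [nat_lit 37427, nat_lit 54923, nat_lit 49091, nat_lit 51035, nat_lit 50387, nat_lit 50555, nat_lit 50551] (nat_lit 0) [] false,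
   Spec.mk (nat_lit 50551) (nat_lit 0) [nat_lit 37429, nat_lit 54925, nat_lit 49093, nat_lit 51037, nat_lit 50389, nat_lit 50557, nat_lit 50549, nat_lit 30869] (nat_lit 0) [] false,
   Spec.mk (nat_lit 50555) (nat_lit 0) [nat_lit 37433, nat_lit 54929, nat_lit 49097, nat_lit 51041, nat_lit 50393, nat_lit 50573, nat_lit 50549, nat_lit 50557] (nat_lit 0) [] false,
   Spec.mk (nat_lit 50557) (nat_lit 0) [nat_lit 37435, nat_lit 54931, nat_lit 49099, nat_lit 51043, nat_lit 50395, nat_lit 50575, nat_lit 50551, nat_lit 50563, nat_lit 50555, nat_lit 50559, nat_lit 30875] (nat_lit 0) [] false,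
   Spec.mk (nat_lit 50559) (nat_lit 0) [nat_lit 37437, nat_lit 54933, nat_lit 49101, nat_lit 51045, nat_lit 50397, nat_lit 50577, nat_lit 50565, nat_lit 50557, nat_lit 30877] (nat_lit 2) [] false,
   Spec.mk (nat_lit 50563) (nat_lit 0) [nat_lit 37441, nat_lit 54937, nat_lit 49105, nat_lit 51049, nat_lit 50401, nat_lit 50581, nat_lit 50557, nat_lit 50565, nat_lit 30881] (nat_lit 2) [] false,
   Spec.mk (nat_lit 50565) (nat_lit 0) [nat_lit 37443, nat_lit 54939, nat_lit 49107, nat_lit 51051, nat_lit 50403, nat_lit 50583, nat_lit 50559, nat_lit 50563, nat_lit 30883] (nat_lit 2) [] false,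
   Spec.mk (nat_lit 50573) (nat_lit 0) [nat_lit 37451, nat_lit 54947, nat_lit 49115, nat_lit 51059, nat_lit 50411, nat_lit 50627, nat_lit 50555, nat_lit 50575] (nat_lit 0) [] false,
   Spec.mk (nat_lit 50575) (nat_lit 0) [nat_lit 37453, nat_lit 54949, nat_lit 49117, nat_lit 51061, nat_lit 50413, nat_lit 50629, nat_lit 50557, nat_lit 50581, nat_lit 50573, nat_lit 50577, nat_lit 30893] (nat_lit 1) [] false,
   Spec.mk (nat_lit 50577) (nat_lit 0) [nat_lit 37455, nat_lit 54951, nat_lit 49119, nat_lit 51063, nat_lit 50415, nat_lit 50631, nat_lit 50559, nat_lit 50583, nat_lit 50575, nat_lit 30895] (nat_lit 4) [] false]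

noncomputable def sp129 : List Spec :=
  [Spec.mk (nat_lit 50581) (nat_lit 0) [nat_lit 37459, nat_lit 54955, nat_lit 49123, nat_lit 51067, nat_lit 50419, nat_lit 50635, nat_lit 50563, nat_lit 50599, nat_lit 50575, nat_lit 50583, nat_lit 30899] (nat_lit 1) [] false,
   Spec.mk (nat_lit 50583) (nat_lit 0) [nat_lit 37461, nat_lit 54957, nat_lit 49125, nat_lit 51069, nat_lit 50421, nat_lit 50637, nat_lit 50565, nat_lit 50601, nat_lit 50577, nat_lit 50589, nat_lit 50581, nat_lit 30901] (nat_lit 2) [] false,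
   Spec.mk (nat_lit 50589) (nat_lit 0) [nat_lit 37467, nat_lit 54963, nat_lit 49131, nat_lit 51075, nat_lit 50427, nat_lit 50643, nat_lit 50607, nat_lit 50583, nat_lit 30907] (nat_lit 2) [] false,
   Spec.mk (nat_lit 50599) (nat_lit 0) [nat_lit 37477, nat_lit 54973, nat_lit 49141, nat_lit 51085, nat_lit 50437, nat_lit 50653, nat_lit 50581, nat_lit 50601, nat_lit 30917] (nat_lit 2) [] false,
   Spec.mk (nat_lit 50601) (nat_lit 0) [nat_lit 37479, nat_lit 54975, nat_lit 49143, nat_lit 51087, nat_lit 50439, nat_lit 50655, nat_lit 50583, nat_lit 50607, nat_lit 50599, nat_lit 30919] (nat_lit 4) [] false,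
   Spec.mk (nat_lit 50607) (nat_lit 0) [nat_lit 37485, nat_lit 54981, nat_lit 49149, nat_lit 51093, nat_lit 50445, nat_lit 50661, nat_lit 50589, nat_lit 50601, nat_lit 30925] (nat_lit 2) [] false,
   Spec.mk (nat_lit 50627) (nat_lit 1) [nat_lit 37505, nat_lit 55001, nat_lit 49169, nat_lit 51113, nat_lit 50465, nat_lit 50789, nat_lit 50573, nat_lit 50629] (nat_lit 0) [] false,
   Spec.mk (nat_lit 50629) (nat_lit 0) [nat_lit 37507, nat_lit 55003, nat_lit 49171, nat_lit 51115, nat_lit 50467, nat_lit 50791, nat_lit 50575, nat_lit 50635, nat_lit 50627, nat_lit 50631, nat_lit 30947] (nat_lit 0) [] false,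
   Spec.mk (nat_lit 50631) (nat_lit 0) [nat_lit 37509, nat_lit 55005, nat_lit 49173, nat_lit 51117, nat_lit 50469, nat_lit 50793, nat_lit 50577, nat_lit 50637, nat_lit 50629, nat_lit 30949] (nat_lit 3) [] false,
   Spec.mk (nat_lit 50635) (nat_lit 0) [nat_lit 37513, nat_lit 55009, nat_lit 49177, nat_lit 51121, nat_lit 50473, nat_lit 50797, nat_lit 50581, nat_lit 50653, nat_lit 50629, nat_lit 50637, nat_lit 30953] (nat_lit 1) [] false,
   Spec.mk (nat_lit 50637) (nat_lit 0) [nat_lit 37515, nat_lit 55011, nat_lit 49179, nat_lit 51123, nat_lit 50475, nat_lit 50799, nat_lit 50583, nat_lit 50655, nat_lit 50631, nat_lit 50643, nat_lit 50635, nat_lit 30955] (nat_lit 2) [] false,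
   Spec.mk (nat_lit 50643) (nat_lit 0) [nat_lit 37521, nat_lit 55017, nat_lit 49185, nat_lit 51129, nat_lit 50481, nat_lit 50805, nat_lit 50589, nat_lit 50661, nat_lit 50637, nat_lit 30961] (nat_lit 3) [] false,
   Spec.mk (nat_lit 50653) (nat_lit 0) [nat_lit 37531, nat_lit 55027, nat_lit 49195, nat_lit 51139, nat_lit 50491, nat_lit 50815, nat_lit 50599, nat_lit 50707, nat_lit 50635, nat_lit 50655, nat_lit 30971] (nat_lit 0) [] false,
   Spec.mk (nat_lit 50655) (nat_lit 0) [nat_lit 37533, nat_lit 55029, nat_lit 49197, nat_lit 51141, nat_lit 50493, nat_lit 50817, nat_lit 50601, nat_lit 50709, nat_lit 50637, nat_lit 50661, nat_lit 50653, nat_lit 30973] (nat_lit 2) [] false,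
   Spec.mk (nat_lit 50661) (nat_lit 0) [nat_lit 37539, nat_lit 55035, nat_lit 49203, nat_lit 51147, nat_lit 50499, nat_lit 50823, nat_lit 50607, nat_lit 50715, nat_lit 50643, nat_lit 50679, nat_lit 50655, nat_lit 30979] (nat_lit 1) [] false,
   Spec.mk (nat_lit 50679) (nat_lit 0) [nat_lit 37557, nat_lit 55053, nat_lit 49221, nat_lit 51165, nat_lit 50517, nat_lit 50841, nat_lit 50733, nat_lit 50661, nat_lit 30997] (nat_lit 1) [] false,
   Spec.mk (nat_lit 50707) (nat_lit 0) [nat_lit 37585, nat_lit 55081, nat_lit 49249, nat_lit 51193, nat_lit 50869, nat_lit 50653, nat_lit 50709, nat_lit 31025] (nat_lit 0) [] false,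
   Spec.mk (nat_lit 50709) (nat_lit 0) [nat_lit 37587, nat_lit 55083, nat_lit 49251, nat_lit 51195, nat_lit 50871, nat_lit 50655, nat_lit 50715, nat_lit 50707, nat_lit 31027] (nat_lit 2) [] false,
   Spec.mk (nat_lit 50715) (nat_lit 0) [nat_lit 37593, nat_lit 55089, nat_lit 49257, nat_lit 51201, nat_lit 50877, nat_lit 50661, nat_lit 50733, nat_lit 50709, nat_lit 31033] (nat_lit 2) [] false,
   Spec.mk (nat_lit 50733) (nat_lit 0) [nat_lit 37611, nat_lit 55107, nat_lit 49275, nat_lit 51219, nat_lit 50895, nat_lit 50679, nat_lit 50715, nat_lit 31051] (nat_lit 0) [] false,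
   Spec.mk (nat_lit 50789) (nat_lit 0) [nat_lit 37667, nat_lit 55163, nat_lit 49331, nat_lit 51275, nat_lit 50627, nat_lit 50791] (nat_lit 0) [] false,
   Spec.mk (nat_lit 50791) (nat_lit 0) [nat_lit 37669, nat_lit 55165, nat_lit 49333, nat_lit 51277, nat_lit 50629, nat_lit 50797, nat_lit 50789, nat_lit 50793, nat_lit 31109] (nat_lit 1) [] false,
   Spec.mk (nat_lit 50793) (nat_lit 0) [nat_lit 37671, nat_lit 55167, nat_lit 49335, nat_lit 51279, nat_lit 50631, nat_lit 50799, nat_lit 50791, nat_lit 31111] (nat_lit 4) [] false,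
   Spec.mk (nat_lit 50797) (nat_lit 0) [nat_lit 37675, nat_lit 55171, nat_lit 49339, nat_lit 51283, nat_lit 50635, nat_lit 50815, nat_lit 50791, nat_lit 50799, nat_lit 31115] (nat_lit 2) [] false,
   Spec.mk (nat_lit 50799) (nat_lit 0) [nat_lit 37677, nat_lit 55173, nat_lit 49341, nat_lit 51285, nat_lit 50637, nat_lit 50817, nat_lit 50793, nat_lit 50805, nat_lit 50797, nat_lit 31117] (nat_lit 3) [] false,
   Spec.mk (nat_lit 50805) (nat_lit 0) [nat_lit 37683, nat_lit 55179, nat_lit 49347, nat_lit 51291, nat_lit 50643, nat_lit 50823, nat_lit 50799, nat_lit 31123] (nat_lit 4) [] false,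
   Spec.mk (nat_lit 50815) (nat_lit 0) [nat_lit 37693, nat_lit 55189, nat_lit 49357, nat_lit 51301, nat_lit 50653, nat_lit 50869, nat_lit 50797, nat_lit 50817, nat_lit 31133] (nat_lit 2) [] false,
   Spec.mk (nat_lit 50817) (nat_lit 0) [nat_lit 37695, nat_lit 55191, nat_lit 49359, nat_lit 51303, nat_lit 50655, nat_lit 50871, nat_lit 50799, nat_lit 50823, nat_lit 50815, nat_lit 31135] (nat_lit 4) [] false,
   Spec.mk (nat_lit 50823) (nat_lit 0) [nat_lit 37701, nat_lit 55197, nat_lit 49365, nat_lit 51309, nat_lit 50661, nat_lit 50877, nat_lit 50805, nat_lit 50841, nat_lit 50817, nat_lit 31141] (nat_lit 3) [] false,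
   Spec.mk (nat_lit 50841) (nat_lit 0) [nat_lit 37719, nat_lit 55215, nat_lit 49383, nat_lit 51327, nat_lit 50679, nat_lit 50895, nat_lit 50823, nat_lit 31159] (nat_lit 4) [] false,
   Spec.mk (nat_lit 50869) (nat_lit 0) [nat_lit 37747, nat_lit 55243, nat_lit 49411, nat_lit 51355, nat_lit 50707, nat_lit 50815, nat_lit 50871, nat_lit 31187] (nat_lit 0) [] false,
   Spec.mk (nat_lit 50871) (nat_lit 0) [nat_lit 37749, nat_lit 55245, nat_lit 49413, nat_lit 51357, nat_lit 50709, nat_lit 50817, nat_lit 50877, nat_lit 50869, nat_lit 31189] (nat_lit 2) [] false,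
   Spec.mk (nat_lit 50877) (nat_lit 0) [nat_lit 37755, nat_lit 55251, nat_lit 49419, nat_lit 51363, nat_lit 50715, nat_lit 50823, nat_lit 50895, nat_lit 50871, nat_lit 31195] (nat_lit 2) [] false,
   Spec.mk (nat_lit 50895) (nat_lit 0) [nat_lit 37773, nat_lit 55269, nat_lit 49437, nat_lit 51381, nat_lit 50733, nat_lit 50841, nat_lit 50949, nat_lit 50877, nat_lit 31213] (nat_lit 1) [] false,
   Spec.mk (nat_lit 50949) (nat_lit 0) [nat_lit 37827, nat_lit 55323, nat_lit 49491, nat_lit 51435, nat_lit 50895, nat_lit 31267] (nat_lit 0) [] false,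
   Spec.mk (nat_lit 51035) (nat_lit 4) [nat_lit 37913, nat_lit 55409, nat_lit 49577, nat_lit 50549, nat_lit 51041, nat_lit 51037] (nat_lit 0) [] false,
   Spec.mk (nat_lit 51037) (nat_lit 2) [nat_lit 37915, nat_lit 55411, nat_lit 49579, nat_lit 50551, nat_lit 51043, nat_lit 51035, nat_lit 31355] (nat_lit 0) [] false,
   Spec.mk (nat_lit 51041) (nat_lit 2) [nat_lit 37919, nat_lit 55415, nat_lit 49583, nat_lit 50555, nat_lit 51059, nat_lit 51035, nat_lit 51043] (nat_lit 0) [] false,
   Spec.mk (nat_lit 51043) (nat_lit 2) [nat_lit 37921, nat_lit 55417, nat_lit 49585, nat_lit 50557, nat_lit 51061, nat_lit 51037, nat_lit 51049, nat_lit 51041, nat_lit 51045, nat_lit 31361] (nat_lit 0) [] false,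
   Spec.mk (nat_lit 51045) (nat_lit 0) [nat_lit 37923, nat_lit 55419, nat_lit 49587, nat_lit 50559, nat_lit 51063, nat_lit 51051, nat_lit 51043, nat_lit 31363] (nat_lit 0) [] false,
   Spec.mk (nat_lit 51049) (nat_lit 0) [nat_lit 37927, nat_lit 55423, nat_lit 49591, nat_lit 50563, nat_lit 51067, nat_lit 51043, nat_lit 51051, nat_lit 31367] (nat_lit 0) [] false,
   Spec.mk (nat_lit 51051) (nat_lit 0) [nat_lit 37929, nat_lit 55425, nat_lit 49593, nat_lit 50565, nat_lit 51069, nat_lit 51045, nat_lit 51049, nat_lit 31369] (nat_lit 0) [] false,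
   Spec.mk (nat_lit 51059) (nat_lit 2) [nat_lit 37937, nat_lit 55433, nat_lit 49601, nat_lit 50573, nat_lit 51113, nat_lit 51041, nat_lit 51061] (nat_lit 0) [] false,
   Spec.mk (nat_lit 51061) (nat_lit 1) [nat_lit 37939, nat_lit 55435, nat_lit 49603, nat_lit 50575, nat_lit 51115, nat_lit 51043, nat_lit 51067, nat_lit 51059, nat_lit 51063, nat_lit 31379] (nat_lit 0) [] false,
   Spec.mk (nat_lit 51063) (nat_lit 0) [nat_lit 37941, nat_lit 55437, nat_lit 49605, nat_lit 50577, nat_lit 51117, nat_lit 51045, nat_lit 51069, nat_lit 51061, nat_lit 31381] (nat_lit 2) [] false,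
   Spec.mk (nat_lit 51067) (nat_lit 1) [nat_lit 37945, nat_lit 55441, nat_lit 49609, nat_lit 50581, nat_lit 51121, nat_lit 51049, nat_lit 51085, nat_lit 51061, nat_lit 51069, nat_lit 31385] (nat_lit 0) [] false,
   Spec.mk (nat_lit 51069) (nat_lit 0) [nat_lit 37947, nat_lit 55443, nat_lit 49611, nat_lit 50583, nat_lit 51123, nat_lit 51051, nat_lit 51087, nat_lit 51063, nat_lit 51075, nat_lit 51067, nat_lit 31387] (nat_lit 0) [] false,
   Spec.mk (nat_lit 51075) (nat_lit 0) [nat_lit 37953, nat_lit 55449, nat_lit 49617, nat_lit 50589, nat_lit 51129, nat_lit 51093, nat_lit 51069, nat_lit 31393] (nat_lit 0) [] false,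
   Spec.mk (nat_lit 51085) (nat_lit 0) [nat_lit 37963, nat_lit 55459, nat_lit 49627, nat_lit 50599, nat_lit 51139, nat_lit 51067, nat_lit 51087, nat_lit 31403] (nat_lit 0) [] false,
   Spec.mk (nat_lit 51087) (nat_lit 0) [nat_lit 37965, nat_lit 55461, nat_lit 49629, nat_lit 50601, nat_lit 51141, nat_lit 51069, nat_lit 51093, nat_lit 51085, nat_lit 31405] (nat_lit 2) [] false,
   Spec.mk (nat_lit 51093) (nat_lit 0) [nat_lit 37971, nat_lit 55467, nat_lit 49635, nat_lit 50607, nat_lit 51147, nat_lit 51075, nat_lit 51087, nat_lit 31411] (nat_lit 0) [] false,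
   Spec.mk (nat_lit 51113) (nat_lit 2) [nat_lit 37991, nat_lit 55487, nat_lit 49655, nat_lit 50627, nat_lit 51275, nat_lit 51059, nat_lit 51115] (nat_lit 0) [] false,
   Spec.mk (nat_lit 51115) (nat_lit 1) [nat_lit 37993, nat_lit 55489, nat_lit 49657, nat_lit 50629, nat_lit 51277, nat_lit 51061, nat_lit 51121, nat_lit 51113, nat_lit 51117, nat_lit 31433] (nat_lit 0) [] false,
   Spec.mk (nat_lit 51117) (nat_lit 0) [nat_lit 37995, nat_lit 55491, nat_lit 49659, nat_lit 50631, nat_lit 51279, nat_lit 51063, nat_lit 51123, nat_lit 51115, nat_lit 31435] (nat_lit 2) [] false,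
   Spec.mk (nat_lit 51121) (nat_lit 0) [nat_lit 37999, nat_lit 55495, nat_lit 49663, nat_lit 50635, nat_lit 51283, nat_lit 51067, nat_lit 51139, nat_lit 51115, nat_lit 51123, nat_lit 31439] (nat_lit 0) [] false,
   Spec.mk (nat_lit 51123) (nat_lit 0) [nat_lit 38001, nat_lit 55497, nat_lit 49665, nat_lit 50637, nat_lit 51285, nat_lit 51069, nat_lit 51141, nat_lit 51117, nat_lit 51129, nat_lit 51121, nat_lit 31441] (nat_lit 1) [] false,
   Spec.mk (nat_lit 51129) (nat_lit 0) [nat_lit 38007, nat_lit 55503, nat_lit 49671, nat_lit 50643, nat_lit 51291, nat_lit 51075, nat_lit 51147, nat_lit 51123, nat_lit 31447] (nat_lit 2) [] false,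
   Spec.mk (nat_lit 51139) (nat_lit 1) [nat_lit 38017, nat_lit 55513, nat_lit 49681, nat_lit 50653, nat_lit 51301, nat_lit 51085, nat_lit 51193, nat_lit 51121, nat_lit 51141, nat_lit 31457] (nat_lit 0) [] false,
   Spec.mk (nat_lit 51141) (nat_lit 0) [nat_lit 38019, nat_lit 55515, nat_lit 49683, nat_lit 50655, nat_lit 51303, nat_lit 51087, nat_lit 51195, nat_lit 51123, nat_lit 51147, nat_lit 51139, nat_lit 31459] (nat_lit 1) [] false,
   Spec.mk (nat_lit 51147) (nat_lit 0) [nat_lit 38025, nat_lit 55521, nat_lit 49689, nat_lit 50661, nat_lit 51309, nat_lit 51093, nat_lit 51201, nat_lit 51129, nat_lit 51165, nat_lit 51141, nat_lit 31465] (nat_lit 0) [] false]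

noncomputable def sp130 : List Spec :=
  [Spec.mk (nat_lit 51165) (nat_lit 0) [nat_lit 38043, nat_lit 55539, nat_lit 49707, nat_lit 50679, nat_lit 51327, nat_lit 51219, nat_lit 51147, nat_lit 31483] (nat_lit 0) [] false,
   Spec.mk (nat_lit 51193) (nat_lit 0) [nat_lit 38071, nat_lit 55567, nat_lit 49735, nat_lit 50707, nat_lit 51355, nat_lit 51139, nat_lit 51195, nat_lit 31511] (nat_lit 0) [] false,
   Spec.mk (nat_lit 51195) (nat_lit 0) [nat_lit 38073, nat_lit 55569, nat_lit 49737, nat_lit 50709, nat_lit 51357, nat_lit 51141, nat_lit 51201, nat_lit 51193, nat_lit 31513] (nat_lit 2) [] false,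
   Spec.mk (nat_lit 51201) (nat_lit 0) [nat_lit 38079, nat_lit 55575, nat_lit 49743, nat_lit 50715, nat_lit 51363, nat_lit 51147, nat_lit 51219, nat_lit 51195, nat_lit 31519] (nat_lit 2) [] false,
   Spec.mk (nat_lit 51219) (nat_lit 0) [nat_lit 38097, nat_lit 55593, nat_lit 49761, nat_lit 50733, nat_lit 51381, nat_lit 51165, nat_lit 51201, nat_lit 31537] (nat_lit 0) [] false,
   Spec.mk (nat_lit 51275) (nat_lit 3) [nat_lit 38153, nat_lit 55649, nat_lit 49817, nat_lit 50789, nat_lit 51761, nat_lit 51113, nat_lit 51277] (nat_lit 0) [] false,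
   Spec.mk (nat_lit 51277) (nat_lit 2) [nat_lit 38155, nat_lit 55651, nat_lit 49819, nat_lit 50791, nat_lit 51763, nat_lit 51115, nat_lit 51283, nat_lit 51275, nat_lit 51279, nat_lit 31595] (nat_lit 0) [] false,
   Spec.mk (nat_lit 51279) (nat_lit 0) [nat_lit 38157, nat_lit 55653, nat_lit 49821, nat_lit 50793, nat_lit 51765, nat_lit 51117, nat_lit 51285, nat_lit 51277, nat_lit 31597] (nat_lit 1) [] false,
   Spec.mk (nat_lit 51283) (nat_lit 1) [nat_lit 38161, nat_lit 55657, nat_lit 49825, nat_lit 50797, nat_lit 51769, nat_lit 51121, nat_lit 51301, nat_lit 51277, nat_lit 51285, nat_lit 31601] (nat_lit 0) [] false,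
   Spec.mk (nat_lit 51285) (nat_lit 0) [nat_lit 38163, nat_lit 55659, nat_lit 49827, nat_lit 50799, nat_lit 51771, nat_lit 51123, nat_lit 51303, nat_lit 51279, nat_lit 51291, nat_lit 51283, nat_lit 31603] (nat_lit 0) [] false,
   Spec.mk (nat_lit 51291) (nat_lit 0) [nat_lit 38169, nat_lit 55665, nat_lit 49833, nat_lit 50805, nat_lit 51777, nat_lit 51129, nat_lit 51309, nat_lit 51285, nat_lit 31609] (nat_lit 1) [] false,
   Spec.mk (nat_lit 51301) (nat_lit 1) [nat_lit 38179, nat_lit 55675, nat_lit 49843, nat_lit 50815, nat_lit 51787, nat_lit 51139, nat_lit 51355, nat_lit 51283, nat_lit 51303, nat_lit 31619] (nat_lit 0) [] false,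
   Spec.mk (nat_lit 51303) (nat_lit 0) [nat_lit 38181, nat_lit 55677, nat_lit 49845, nat_lit 50817, nat_lit 51789, nat_lit 51141, nat_lit 51357, nat_lit 51285, nat_lit 51309, nat_lit 51301, nat_lit 31621] (nat_lit 1) [] false,
   Spec.mk (nat_lit 51309) (nat_lit 0) [nat_lit 38187, nat_lit 55683, nat_lit 49851, nat_lit 50823, nat_lit 51795, nat_lit 51147, nat_lit 51363, nat_lit 51291, nat_lit 51327, nat_lit 51303, nat_lit 31627] (nat_lit 0) [] false,
   Spec.mk (nat_lit 51327) (nat_lit 0) [nat_lit 38205, nat_lit 55701, nat_lit 49869, nat_lit 50841, nat_lit 51813, nat_lit 51165, nat_lit 51381, nat_lit 51309, nat_lit 31645] (nat_lit 1) [] false,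
   Spec.mk (nat_lit 51355) (nat_lit 2) [nat_lit 38233, nat_lit 55729, nat_lit 49897, nat_lit 50869, nat_lit 51841, nat_lit 51193, nat_lit 51517, nat_lit 51301, nat_lit 51357, nat_lit 31673] (nat_lit 0) [] false,
   Spec.mk (nat_lit 51357) (nat_lit 0) [nat_lit 38235, nat_lit 55731, nat_lit 49899, nat_lit 50871, nat_lit 51843, nat_lit 51195, nat_lit 51519, nat_lit 51303, nat_lit 51363, nat_lit 51355, nat_lit 31675] (nat_lit 0) [] false,
   Spec.mk (nat_lit 51363) (nat_lit 0) [nat_lit 38241, nat_lit 55737, nat_lit 49905, nat_lit 50877, nat_lit 51849, nat_lit 51201, nat_lit 51525, nat_lit 51309, nat_lit 51381, nat_lit 51357, nat_lit 31681] (nat_lit 0) [] false,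
   Spec.mk (nat_lit 51381) (nat_lit 1) [nat_lit 38259, nat_lit 55755, nat_lit 49923, nat_lit 50895, nat_lit 51867, nat_lit 51219, nat_lit 51543, nat_lit 51327, nat_lit 51435, nat_lit 51363, nat_lit 31699] (nat_lit 0) [] false,
   Spec.mk (nat_lit 51435) (nat_lit 1) [nat_lit 38313, nat_lit 55809, nat_lit 49977, nat_lit 50949, nat_lit 51921, nat_lit 51597, nat_lit 51381, nat_lit 31753] (nat_lit 0) [] false,
   Spec.mk (nat_lit 51517) (nat_lit 2) [nat_lit 38395, nat_lit 55891, nat_lit 50059, nat_lit 52003, nat_lit 51355, nat_lit 51519, nat_lit 31835] (nat_lit 0) [] false,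
   Spec.mk (nat_lit 51519) (nat_lit 0) [nat_lit 38397, nat_lit 55893, nat_lit 50061, nat_lit 52005, nat_lit 51357, nat_lit 51525, nat_lit 51517, nat_lit 31837] (nat_lit 0) [] false,
   Spec.mk (nat_lit 51525) (nat_lit 0) [nat_lit 38403, nat_lit 55899, nat_lit 50067, nat_lit 52011, nat_lit 51363, nat_lit 51543, nat_lit 51519, nat_lit 31843] (nat_lit 0) [] false,
   Spec.mk (nat_lit 51543) (nat_lit 0) [nat_lit 38421, nat_lit 55917, nat_lit 50085, nat_lit 52029, nat_lit 51381, nat_lit 51597, nat_lit 51525, nat_lit 31861] (nat_lit 0) [] false,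
   Spec.mk (nat_lit 51597) (nat_lit 2) [nat_lit 38475, nat_lit 55971, nat_lit 50139, nat_lit 52083, nat_lit 51435, nat_lit 51543, nat_lit 31915] (nat_lit 0) [] false,
   Spec.mk (nat_lit 51761) (nat_lit 4) [nat_lit 38639, nat_lit 56135, nat_lit 51275, nat_lit 51763] (nat_lit 0) [] false,
   Spec.mk (nat_lit 51763) (nat_lit 3) [nat_lit 38641, nat_lit 56137, nat_lit 51277, nat_lit 51769, nat_lit 51761, nat_lit 51765, nat_lit 32081] (nat_lit 0) [] false,
   Spec.mk (nat_lit 51765) (nat_lit 0) [nat_lit 38643, nat_lit 56139, nat_lit 51279, nat_lit 51771, nat_lit 51763, nat_lit 32083] (nat_lit 0) [] false,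
   Spec.mk (nat_lit 51769) (nat_lit 2) [nat_lit 38647, nat_lit 56143, nat_lit 51283, nat_lit 51787, nat_lit 51763, nat_lit 51771, nat_lit 32087] (nat_lit 0) [] false,
   Spec.mk (nat_lit 51771) (nat_lit 1) [nat_lit 38649, nat_lit 56145, nat_lit 51285, nat_lit 51789, nat_lit 51765, nat_lit 51777, nat_lit 51769, nat_lit 32089] (nat_lit 0) [] false,
   Spec.mk (nat_lit 51777) (nat_lit 0) [nat_lit 38655, nat_lit 56151, nat_lit 51291, nat_lit 51795, nat_lit 51771, nat_lit 32095] (nat_lit 0) [] false,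
   Spec.mk (nat_lit 51787) (nat_lit 2) [nat_lit 38665, nat_lit 56161, nat_lit 51301, nat_lit 51841, nat_lit 51769, nat_lit 51789, nat_lit 32105] (nat_lit 0) [] false,
   Spec.mk (nat_lit 51789) (nat_lit 0) [nat_lit 38667, nat_lit 56163, nat_lit 51303, nat_lit 51843, nat_lit 51771, nat_lit 51795, nat_lit 51787, nat_lit 32107] (nat_lit 0) [] false,
   Spec.mk (nat_lit 51795) (nat_lit 1) [nat_lit 38673, nat_lit 56169, nat_lit 51309, nat_lit 51849, nat_lit 51777, nat_lit 51813, nat_lit 51789, nat_lit 32113] (nat_lit 0) [] false,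
   Spec.mk (nat_lit 51813) (nat_lit 0) [nat_lit 38691, nat_lit 56187, nat_lit 51327, nat_lit 51867, nat_lit 51795, nat_lit 32131] (nat_lit 0) [] false,
   Spec.mk (nat_lit 51841) (nat_lit 2) [nat_lit 38719, nat_lit 56215, nat_lit 51355, nat_lit 52003, nat_lit 51787, nat_lit 51843, nat_lit 32159] (nat_lit 0) [] false,
   Spec.mk (nat_lit 51843) (nat_lit 0) [nat_lit 38721, nat_lit 56217, nat_lit 51357, nat_lit 52005, nat_lit 51789, nat_lit 51849, nat_lit 51841, nat_lit 32161] (nat_lit 0) [] false,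
   Spec.mk (nat_lit 51849) (nat_lit 0) [nat_lit 38727, nat_lit 56223, nat_lit 51363, nat_lit 52011, nat_lit 51795, nat_lit 51867, nat_lit 51843, nat_lit 32167] (nat_lit 0) [] false,
   Spec.mk (nat_lit 51867) (nat_lit 1) [nat_lit 38745, nat_lit 56241, nat_lit 51381, nat_lit 52029, nat_lit 51813, nat_lit 51921, nat_lit 51849, nat_lit 32185] (nat_lit 0) [] false,
   Spec.mk (nat_lit 51921) (nat_lit 0) [nat_lit 38799, nat_lit 56295, nat_lit 51435, nat_lit 52083, nat_lit 51867, nat_lit 32239] (nat_lit 0) [] false,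
   Spec.mk (nat_lit 52003) (nat_lit 4) [nat_lit 38881, nat_lit 56377, nat_lit 51517, nat_lit 51841, nat_lit 52005, nat_lit 32321] (nat_lit 0) [] false,
   Spec.mk (nat_lit 52005) (nat_lit 2) [nat_lit 38883, nat_lit 56379, nat_lit 51519, nat_lit 51843, nat_lit 52011, nat_lit 52003, nat_lit 32323] (nat_lit 0) [] false,
   Spec.mk (nat_lit 52011) (nat_lit 2) [nat_lit 38889, nat_lit 56385, nat_lit 51525, nat_lit 51849, nat_lit 52029, nat_lit 52005, nat_lit 32329] (nat_lit 0) [] false,
   Spec.mk (nat_lit 52029) (nat_lit 2) [nat_lit 38907, nat_lit 56403, nat_lit 51543, nat_lit 51867, nat_lit 52083, nat_lit 52011, nat_lit 32347] (nat_lit 0) [] false,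
   Spec.mk (nat_lit 52083) (nat_lit 3) [nat_lit 38961, nat_lit 56457, nat_lit 51597, nat_lit 51921, nat_lit 52245, nat_lit 52029, nat_lit 32401] (nat_lit 0) [] false,
   Spec.mk (nat_lit 52245) (nat_lit 4) [nat_lit 39123, nat_lit 56619, nat_lit 52083, nat_lit 32563] (nat_lit 0) [] false,
   Spec.mk (nat_lit 52505) (nat_lit 6) [nat_lit 48131, nat_lit 52523, nat_lit 52511] (nat_lit 0) [] false,
   Spec.mk (nat_lit 52511) (nat_lit 4) [nat_lit 48137, nat_lit 52529, nat_lit 52505, nat_lit 52513] (nat_lit 0) [] false,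
   Spec.mk (nat_lit 52513) (nat_lit 4) [nat_lit 48139, nat_lit 52531, nat_lit 52511, nat_lit 32831] (nat_lit 0) [] false,
   Spec.mk (nat_lit 52523) (nat_lit 4) [nat_lit 48149, nat_lit 52577, nat_lit 52505, nat_lit 52529] (nat_lit 0) [] false,
   Spec.mk (nat_lit 52529) (nat_lit 4) [nat_lit 48155, nat_lit 52583, nat_lit 52511, nat_lit 52547, nat_lit 52523, nat_lit 52535, nat_lit 52531] (nat_lit 0) [] false,
   Spec.mk (nat_lit 52531) (nat_lit 3) [nat_lit 48157, nat_lit 52585, nat_lit 52513, nat_lit 52549, nat_lit 52537, nat_lit 52529, nat_lit 32849] (nat_lit 0) [] false,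
   Spec.mk (nat_lit 52535) (nat_lit 2) [nat_lit 48161, nat_lit 52589, nat_lit 52553, nat_lit 52529, nat_lit 52537] (nat_lit 0) [] false,
   Spec.mk (nat_lit 52537) (nat_lit 3) [nat_lit 48163, nat_lit 52591, nat_lit 52555, nat_lit 52531, nat_lit 52535, nat_lit 52539, nat_lit 32855] (nat_lit 0) [] false,
   Spec.mk (nat_lit 52539) (nat_lit 2) [nat_lit 48165, nat_lit 52593, nat_lit 52557, nat_lit 52537, nat_lit 32857] (nat_lit 0) [] false,
   Spec.mk (nat_lit 52547) (nat_lit 2) [nat_lit 48173, nat_lit 52601, nat_lit 52529, nat_lit 52553, nat_lit 52549] (nat_lit 0) [] false,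
   Spec.mk (nat_lit 52549) (nat_lit 0) [nat_lit 48175, nat_lit 52603, nat_lit 52531, nat_lit 52555, nat_lit 52547, nat_lit 32867] (nat_lit 0) [] false,
   Spec.mk (nat_lit 52553) (nat_lit 2) [nat_lit 48179, nat_lit 52607, nat_lit 52535, nat_lit 52547, nat_lit 52555] (nat_lit 0) [] false,
   Spec.mk (nat_lit 52555) (nat_lit 2) [nat_lit 48181, nat_lit 52609, nat_lit 52537, nat_lit 52549, nat_lit 52561, nat_lit 52553, nat_lit 52557, nat_lit 32873] (nat_lit 0) [] false,
   Spec.mk (nat_lit 52557) (nat_lit 0) [nat_lit 48183, nat_lit 52611, nat_lit 52539, nat_lit 52563, nat_lit 52555, nat_lit 32875] (nat_lit 0) [] false]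

noncomputable def sp131 : List Spec :=
  [Spec.mk (nat_lit 52561) (nat_lit 2) [nat_lit 48187, nat_lit 52615, nat_lit 52555, nat_lit 52563, nat_lit 32879] (nat_lit 0) [] false,
   Spec.mk (nat_lit 52563) (nat_lit 2) [nat_lit 48189, nat_lit 52617, nat_lit 52557, nat_lit 52561, nat_lit 32881] (nat_lit 0) [] false,
   Spec.mk (nat_lit 52577) (nat_lit 4) [nat_lit 48203, nat_lit 52739, nat_lit 52523, nat_lit 52583] (nat_lit 0) [] false,
   Spec.mk (nat_lit 52583) (nat_lit 3) [nat_lit 48209, nat_lit 52745, nat_lit 52529, nat_lit 52601, nat_lit 52577, nat_lit 52589, nat_lit 52585] (nat_lit 0) [] false,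
   Spec.mk (nat_lit 52585) (nat_lit 2) [nat_lit 48211, nat_lit 52747, nat_lit 52531, nat_lit 52603, nat_lit 52591, nat_lit 52583, nat_lit 32903] (nat_lit 0) [] false,
   Spec.mk (nat_lit 52589) (nat_lit 0) [nat_lit 48215, nat_lit 52751, nat_lit 52535, nat_lit 52607, nat_lit 52583, nat_lit 52591] (nat_lit 0) [] false,
   Spec.mk (nat_lit 52591) (nat_lit 1) [nat_lit 48217, nat_lit 52753, nat_lit 52537, nat_lit 52609, nat_lit 52585, nat_lit 52589, nat_lit 52593, nat_lit 32909] (nat_lit 0) [] false,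
   Spec.mk (nat_lit 52593) (nat_lit 0) [nat_lit 48219, nat_lit 52755, nat_lit 52539, nat_lit 52611, nat_lit 52591, nat_lit 32911] (nat_lit 0) [] false,
   Spec.mk (nat_lit 52601) (nat_lit 3) [nat_lit 48227, nat_lit 52763, nat_lit 52547, nat_lit 52655, nat_lit 52583, nat_lit 52607, nat_lit 52603] (nat_lit 0) [] false,
   Spec.mk (nat_lit 52603) (nat_lit 1) [nat_lit 48229, nat_lit 52765, nat_lit 52549, nat_lit 52657, nat_lit 52585, nat_lit 52609, nat_lit 52601, nat_lit 32921] (nat_lit 0) [] false,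
   Spec.mk (nat_lit 52607) (nat_lit 2) [nat_lit 48233, nat_lit 52769, nat_lit 52553, nat_lit 52661, nat_lit 52589, nat_lit 52625, nat_lit 52601, nat_lit 52609] (nat_lit 0) [] false,
   Spec.mk (nat_lit 52609) (nat_lit 2) [nat_lit 48235, nat_lit 52771, nat_lit 52555, nat_lit 52663, nat_lit 52591, nat_lit 52627, nat_lit 52603, nat_lit 52615, nat_lit 52607, nat_lit 52611, nat_lit 32927] (nat_lit 0) [] false,
   Spec.mk (nat_lit 52611) (nat_lit 0) [nat_lit 48237, nat_lit 52773, nat_lit 52557, nat_lit 52665, nat_lit 52593, nat_lit 52629, nat_lit 52617, nat_lit 52609, nat_lit 32929] (nat_lit 0) [] false,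
   Spec.mk (nat_lit 52615) (nat_lit 1) [nat_lit 48241, nat_lit 52777, nat_lit 52561, nat_lit 52669, nat_lit 52633, nat_lit 52609, nat_lit 52617, nat_lit 32933] (nat_lit 0) [] false,
   Spec.mk (nat_lit 52617) (nat_lit 1) [nat_lit 48243, nat_lit 52779, nat_lit 52563, nat_lit 52671, nat_lit 52635, nat_lit 52611, nat_lit 52615, nat_lit 32935] (nat_lit 0) [] false,
   Spec.mk (nat_lit 52625) (nat_lit 2) [nat_lit 48251, nat_lit 52787, nat_lit 52679, nat_lit 52607, nat_lit 52627] (nat_lit 0) [] false,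
   Spec.mk (nat_lit 52627) (nat_lit 1) [nat_lit 48253, nat_lit 52789, nat_lit 52681, nat_lit 52609, nat_lit 52633, nat_lit 52625, nat_lit 52629, nat_lit 32945] (nat_lit 0) [] false,
   Spec.mk (nat_lit 52629) (nat_lit 0) [nat_lit 48255, nat_lit 52791, nat_lit 52683, nat_lit 52611, nat_lit 52635, nat_lit 52627, nat_lit 32947] (nat_lit 2) [] false,
   Spec.mk (nat_lit 52633) (nat_lit 2) [nat_lit 48259, nat_lit 52795, nat_lit 52687, nat_lit 52615, nat_lit 52627, nat_lit 52635, nat_lit 32951] (nat_lit 0) [] false,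
   Spec.mk (nat_lit 52635) (nat_lit 1) [nat_lit 48261, nat_lit 52797, nat_lit 52689, nat_lit 52617, nat_lit 52629, nat_lit 52641, nat_lit 52633, nat_lit 32953] (nat_lit 0) [] false,
   Spec.mk (nat_lit 52641) (nat_lit 2) [nat_lit 48267, nat_lit 52803, nat_lit 52695, nat_lit 52635, nat_lit 32959] (nat_lit 0) [] false,
   Spec.mk (nat_lit 52655) (nat_lit 2) [nat_lit 48281, nat_lit 52817, nat_lit 52601, nat_lit 52661, nat_lit 52657] (nat_lit 0) [] false,
   Spec.mk (nat_lit 52657) (nat_lit 0) [nat_lit 48283, nat_lit 52819, nat_lit 52603, nat_lit 52663, nat_lit 52655, nat_lit 32975] (nat_lit 0) [] false,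
   Spec.mk (nat_lit 52661) (nat_lit 0) [nat_lit 48287, nat_lit 52823, nat_lit 52607, nat_lit 52679, nat_lit 52655, nat_lit 52663] (nat_lit 0) [] false,
   Spec.mk (nat_lit 52663) (nat_lit 0) [nat_lit 48289, nat_lit 52825, nat_lit 52609, nat_lit 52681, nat_lit 52657, nat_lit 52669, nat_lit 52661, nat_lit 52665, nat_lit 32981] (nat_lit 0) [] false,
   Spec.mk (nat_lit 52665) (nat_lit 0) [nat_lit 48291, nat_lit 52827, nat_lit 52611, nat_lit 52683, nat_lit 52671, nat_lit 52663, nat_lit 32983] (nat_lit 2) [] false,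
   Spec.mk (nat_lit 52669) (nat_lit 0) [nat_lit 48295, nat_lit 52831, nat_lit 52615, nat_lit 52687, nat_lit 52663, nat_lit 52671, nat_lit 32987] (nat_lit 2) [] false,
   Spec.mk (nat_lit 52671) (nat_lit 0) [nat_lit 48297, nat_lit 52833, nat_lit 52617, nat_lit 52689, nat_lit 52665, nat_lit 52669, nat_lit 32989] (nat_lit 2) [] false,
   Spec.mk (nat_lit 52679) (nat_lit 2) [nat_lit 48305, nat_lit 52841, nat_lit 52625, nat_lit 52661, nat_lit 52681] (nat_lit 0) [] false,
   Spec.mk (nat_lit 52681) (nat_lit 1) [nat_lit 48307, nat_lit 52843, nat_lit 52627, nat_lit 52663, nat_lit 52687, nat_lit 52679, nat_lit 52683, nat_lit 32999] (nat_lit 0) [] false,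
   Spec.mk (nat_lit 52683) (nat_lit 0) [nat_lit 48309, nat_lit 52845, nat_lit 52629, nat_lit 52665, nat_lit 52689, nat_lit 52681, nat_lit 33001] (nat_lit 2) [] false,
   Spec.mk (nat_lit 52687) (nat_lit 1) [nat_lit 48313, nat_lit 52849, nat_lit 52633, nat_lit 52669, nat_lit 52705, nat_lit 52681, nat_lit 52689, nat_lit 33005] (nat_lit 0) [] false,
   Spec.mk (nat_lit 52689) (nat_lit 0) [nat_lit 48315, nat_lit 52851, nat_lit 52635, nat_lit 52671, nat_lit 52707, nat_lit 52683, nat_lit 52695, nat_lit 52687, nat_lit 33007] (nat_lit 0) [] false,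
   Spec.mk (nat_lit 52695) (nat_lit 0) [nat_lit 48321, nat_lit 52857, nat_lit 52641, nat_lit 52713, nat_lit 52689, nat_lit 33013] (nat_lit 0) [] false,
   Spec.mk (nat_lit 52705) (nat_lit 2) [nat_lit 48331, nat_lit 52867, nat_lit 52687, nat_lit 52707, nat_lit 33023] (nat_lit 0) [] false,
   Spec.mk (nat_lit 52707) (nat_lit 0) [nat_lit 48333, nat_lit 52869, nat_lit 52689, nat_lit 52713, nat_lit 52705, nat_lit 33025] (nat_lit 0) [] false,
   Spec.mk (nat_lit 52713) (nat_lit 2) [nat_lit 48339, nat_lit 52875, nat_lit 52695, nat_lit 52707, nat_lit 33031] (nat_lit 0) [] false,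
   Spec.mk (nat_lit 52739) (nat_lit 4) [nat_lit 48365, nat_lit 53225, nat_lit 52577, nat_lit 52745] (nat_lit 0) [] false,
   Spec.mk (nat_lit 52745) (nat_lit 3) [nat_lit 48371, nat_lit 53231, nat_lit 52583, nat_lit 52763, nat_lit 52739, nat_lit 52751, nat_lit 52747] (nat_lit 0) [] false,
   Spec.mk (nat_lit 52747) (nat_lit 2) [nat_lit 48373, nat_lit 53233, nat_lit 52585, nat_lit 52765, nat_lit 52753, nat_lit 52745, nat_lit 33065] (nat_lit 0) [] false,
   Spec.mk (nat_lit 52751) (nat_lit 0) [nat_lit 48377, nat_lit 53237, nat_lit 52589, nat_lit 52769, nat_lit 52745, nat_lit 52753] (nat_lit 0) [] false,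
   Spec.mk (nat_lit 52753) (nat_lit 1) [nat_lit 48379, nat_lit 53239, nat_lit 52591, nat_lit 52771, nat_lit 52747, nat_lit 52751, nat_lit 52755, nat_lit 33071] (nat_lit 0) [] false,
   Spec.mk (nat_lit 52755) (nat_lit 0) [nat_lit 48381, nat_lit 53241, nat_lit 52593, nat_lit 52773, nat_lit 52753, nat_lit 33073] (nat_lit 0) [] false,
   Spec.mk (nat_lit 52763) (nat_lit 2) [nat_lit 48389, nat_lit 53249, nat_lit 52601, nat_lit 52817, nat_lit 52745, nat_lit 52769, nat_lit 52765] (nat_lit 0) [] false,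
   Spec.mk (nat_lit 52765) (nat_lit 0) [nat_lit 48391, nat_lit 53251, nat_lit 52603, nat_lit 52819, nat_lit 52747, nat_lit 52771, nat_lit 52763, nat_lit 33083] (nat_lit 0) [] false,
   Spec.mk (nat_lit 52769) (nat_lit 1) [nat_lit 48395, nat_lit 53255, nat_lit 52607, nat_lit 52823, nat_lit 52751, nat_lit 52787, nat_lit 52763, nat_lit 52771] (nat_lit 0) [] false,
   Spec.mk (nat_lit 52771) (nat_lit 1) [nat_lit 48397, nat_lit 53257, nat_lit 52609, nat_lit 52825, nat_lit 52753, nat_lit 52789, nat_lit 52765, nat_lit 52777, nat_lit 52769, nat_lit 52773, nat_lit 33089] (nat_lit 0) [] false,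
   Spec.mk (nat_lit 52773) (nat_lit 0) [nat_lit 48399, nat_lit 53259, nat_lit 52611, nat_lit 52827, nat_lit 52755, nat_lit 52791, nat_lit 52779, nat_lit 52771, nat_lit 33091] (nat_lit 1) [] false,
   Spec.mk (nat_lit 52777) (nat_lit 0) [nat_lit 48403, nat_lit 53263, nat_lit 52615, nat_lit 52831, nat_lit 52795, nat_lit 52771, nat_lit 52779, nat_lit 33095] (nat_lit 0) [] false,
   Spec.mk (nat_lit 52779) (nat_lit 0) [nat_lit 48405, nat_lit 53265, nat_lit 52617, nat_lit 52833, nat_lit 52797, nat_lit 52773, nat_lit 52777, nat_lit 33097] (nat_lit 0) [] false,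
   Spec.mk (nat_lit 52787) (nat_lit 0) [nat_lit 48413, nat_lit 53273, nat_lit 52625, nat_lit 52841, nat_lit 52769, nat_lit 52789] (nat_lit 0) [] false,
   Spec.mk (nat_lit 52789) (nat_lit 0) [nat_lit 48415, nat_lit 53275, nat_lit 52627, nat_lit 52843, nat_lit 52771, nat_lit 52795, nat_lit 52787, nat_lit 52791, nat_lit 33107] (nat_lit 1) [] false,
   Spec.mk (nat_lit 52791) (nat_lit 0) [nat_lit 48417, nat_lit 53277, nat_lit 52629, nat_lit 52845, nat_lit 52773, nat_lit 52797, nat_lit 52789, nat_lit 33109] (nat_lit 4) [] false,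
   Spec.mk (nat_lit 52795) (nat_lit 0) [nat_lit 48421, nat_lit 53281, nat_lit 52633, nat_lit 52849, nat_lit 52777, nat_lit 52789, nat_lit 52797, nat_lit 33113] (nat_lit 0) [] false,
   Spec.mk (nat_lit 52797) (nat_lit 0) [nat_lit 48423, nat_lit 53283, nat_lit 52635, nat_lit 52851, nat_lit 52779, nat_lit 52791, nat_lit 52803, nat_lit 52795, nat_lit 33115] (nat_lit 1) [] false,
   Spec.mk (nat_lit 52803) (nat_lit 0) [nat_lit 48429, nat_lit 53289, nat_lit 52641, nat_lit 52857, nat_lit 52797, nat_lit 33121] (nat_lit 0) [] false,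
   Spec.mk (nat_lit 52817) (nat_lit 3) [nat_lit 48443, nat_lit 53303, nat_lit 52655, nat_lit 52979, nat_lit 52763, nat_lit 52823, nat_lit 52819] (nat_lit 0) [] false,
   Spec.mk (nat_lit 52819) (nat_lit 1) [nat_lit 48445, nat_lit 53305, nat_lit 52657, nat_lit 52981, nat_lit 52765, nat_lit 52825, nat_lit 52817, nat_lit 33137] (nat_lit 0) [] false,
   Spec.mk (nat_lit 52823) (nat_lit 1) [nat_lit 48449, nat_lit 53309, nat_lit 52661, nat_lit 52985, nat_lit 52769, nat_lit 52841, nat_lit 52817, nat_lit 52825] (nat_lit 0) [] false,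
   Spec.mk (nat_lit 52825) (nat_lit 1) [nat_lit 48451, nat_lit 53311, nat_lit 52663, nat_lit 52987, nat_lit 52771, nat_lit 52843, nat_lit 52819, nat_lit 52831, nat_lit 52823, nat_lit 52827, nat_lit 33143] (nat_lit 0) [] false]

noncomputable def sp132 : List Spec :=
  [Spec.mk (nat_lit 52827) (nat_lit 0) [nat_lit 48453, nat_lit 53313, nat_lit 52665, nat_lit 52989, nat_lit 52773, nat_lit 52845, nat_lit 52833, nat_lit 52825, nat_lit 33145] (nat_lit 1) [] false,
   Spec.mk (nat_lit 52831) (nat_lit 0) [nat_lit 48457, nat_lit 53317, nat_lit 52669, nat_lit 52993, nat_lit 52777, nat_lit 52849, nat_lit 52825, nat_lit 52833, nat_lit 33149] (nat_lit 1) [] false,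
   Spec.mk (nat_lit 52833) (nat_lit 0) [nat_lit 48459, nat_lit 53319, nat_lit 52671, nat_lit 52995, nat_lit 52779, nat_lit 52851, nat_lit 52827, nat_lit 52831, nat_lit 33151] (nat_lit 1) [] false,
   Spec.mk (nat_lit 52841) (nat_lit 2) [nat_lit 48467, nat_lit 53327, nat_lit 52679, nat_lit 53003, nat_lit 52787, nat_lit 52895, nat_lit 52823, nat_lit 52843] (nat_lit 0) [] false,
   Spec.mk (nat_lit 52843) (nat_lit 1) [nat_lit 48469, nat_lit 53329, nat_lit 52681, nat_lit 53005, nat_lit 52789, nat_lit 52897, nat_lit 52825, nat_lit 52849, nat_lit 52841, nat_lit 52845, nat_lit 33161] (nat_lit 0) [] false,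
   Spec.mk (nat_lit 52845) (nat_lit 0) [nat_lit 48471, nat_lit 53331, nat_lit 52683, nat_lit 53007, nat_lit 52791, nat_lit 52899, nat_lit 52827, nat_lit 52851, nat_lit 52843, nat_lit 33163] (nat_lit 2) [] false,
   Spec.mk (nat_lit 52849) (nat_lit 1) [nat_lit 48475, nat_lit 53335, nat_lit 52687, nat_lit 53011, nat_lit 52795, nat_lit 52903, nat_lit 52831, nat_lit 52867, nat_lit 52843, nat_lit 52851, nat_lit 33167] (nat_lit 0) [] false,
   Spec.mk (nat_lit 52851) (nat_lit 0) [nat_lit 48477, nat_lit 53337, nat_lit 52689, nat_lit 53013, nat_lit 52797, nat_lit 52905, nat_lit 52833, nat_lit 52869, nat_lit 52845, nat_lit 52857, nat_lit 52849, nat_lit 33169] (nat_lit 0) [] false,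
   Spec.mk (nat_lit 52857) (nat_lit 0) [nat_lit 48483, nat_lit 53343, nat_lit 52695, nat_lit 53019, nat_lit 52803, nat_lit 52911, nat_lit 52875, nat_lit 52851, nat_lit 33175] (nat_lit 0) [] false,
   Spec.mk (nat_lit 52867) (nat_lit 1) [nat_lit 48493, nat_lit 53353, nat_lit 52705, nat_lit 53029, nat_lit 52921, nat_lit 52849, nat_lit 52869, nat_lit 33185] (nat_lit 0) [] false,
   Spec.mk (nat_lit 52869) (nat_lit 0) [nat_lit 48495, nat_lit 53355, nat_lit 52707, nat_lit 53031, nat_lit 52923, nat_lit 52851, nat_lit 52875, nat_lit 52867, nat_lit 33187] (nat_lit 1) [] false,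
   Spec.mk (nat_lit 52875) (nat_lit 1) [nat_lit 48501, nat_lit 53361, nat_lit 52713, nat_lit 53037, nat_lit 52929, nat_lit 52857, nat_lit 52869, nat_lit 33193] (nat_lit 0) [] false,
   Spec.mk (nat_lit 52895) (nat_lit 2) [nat_lit 48521, nat_lit 53381, nat_lit 53057, nat_lit 52841, nat_lit 52897] (nat_lit 0) [] false,
   Spec.mk (nat_lit 52897) (nat_lit 1) [nat_lit 48523, nat_lit 53383, nat_lit 53059, nat_lit 52843, nat_lit 52903, nat_lit 52895, nat_lit 52899, nat_lit 33215] (nat_lit 0) [] false,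
   Spec.mk (nat_lit 52899) (nat_lit 0) [nat_lit 48525, nat_lit 53385, nat_lit 53061, nat_lit 52845, nat_lit 52905, nat_lit 52897, nat_lit 33217] (nat_lit 2) [] false,
   Spec.mk (nat_lit 52903) (nat_lit 0) [nat_lit 48529, nat_lit 53389, nat_lit 53065, nat_lit 52849, nat_lit 52921, nat_lit 52897, nat_lit 52905, nat_lit 33221] (nat_lit 0) [] false,
   Spec.mk (nat_lit 52905) (nat_lit 0) [nat_lit 48531, nat_lit 53391, nat_lit 53067, nat_lit 52851, nat_lit 52923, nat_lit 52899, nat_lit 52911, nat_lit 52903, nat_lit 33223] (nat_lit 1) [] false,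
   Spec.mk (nat_lit 52911) (nat_lit 0) [nat_lit 48537, nat_lit 53397, nat_lit 53073, nat_lit 52857, nat_lit 52929, nat_lit 52905, nat_lit 33229] (nat_lit 2) [] false,
   Spec.mk (nat_lit 52921) (nat_lit 2) [nat_lit 48547, nat_lit 53407, nat_lit 53083, nat_lit 52867, nat_lit 52903, nat_lit 52923, nat_lit 33239] (nat_lit 0) [] false,
   Spec.mk (nat_lit 52923) (nat_lit 0) [nat_lit 48549, nat_lit 53409, nat_lit 53085, nat_lit 52869, nat_lit 52905, nat_lit 52929, nat_lit 52921, nat_lit 33241] (nat_lit 0) [] false,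
   Spec.mk (nat_lit 52929) (nat_lit 1) [nat_lit 48555, nat_lit 53415, nat_lit 53091, nat_lit 52875, nat_lit 52911, nat_lit 52947, nat_lit 52923, nat_lit 33247] (nat_lit 0) [] false,
   Spec.mk (nat_lit 52947) (nat_lit 2) [nat_lit 48573, nat_lit 53433, nat_lit 53109, nat_lit 52929, nat_lit 33265] (nat_lit 0) [] false,
   Spec.mk (nat_lit 52979) (nat_lit 2) [nat_lit 48605, nat_lit 53465, nat_lit 52817, nat_lit 52985, nat_lit 52981] (nat_lit 0) [] false,
   Spec.mk (nat_lit 52981) (nat_lit 0) [nat_lit 48607, nat_lit 53467, nat_lit 52819, nat_lit 52987, nat_lit 52979, nat_lit 33299] (nat_lit 0) [] false,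
   Spec.mk (nat_lit 52985) (nat_lit 0) [nat_lit 48611, nat_lit 53471, nat_lit 52823, nat_lit 53003, nat_lit 52979, nat_lit 52987] (nat_lit 0) [] false,
   Spec.mk (nat_lit 52987) (nat_lit 0) [nat_lit 48613, nat_lit 53473, nat_lit 52825, nat_lit 53005, nat_lit 52981, nat_lit 52993, nat_lit 52985, nat_lit 52989, nat_lit 33305] (nat_lit 0) [] false,
   Spec.mk (nat_lit 52989) (nat_lit 0) [nat_lit 48615, nat_lit 53475, nat_lit 52827, nat_lit 53007, nat_lit 52995, nat_lit 52987, nat_lit 33307] (nat_lit 2) [] false,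
   Spec.mk (nat_lit 52993) (nat_lit 0) [nat_lit 48619, nat_lit 53479, nat_lit 52831, nat_lit 53011, nat_lit 52987, nat_lit 52995, nat_lit 33311] (nat_lit 2) [] false,
   Spec.mk (nat_lit 52995) (nat_lit 0) [nat_lit 48621, nat_lit 53481, nat_lit 52833, nat_lit 53013, nat_lit 52989, nat_lit 52993, nat_lit 33313] (nat_lit 2) [] false,
   Spec.mk (nat_lit 53003) (nat_lit 0) [nat_lit 48629, nat_lit 53489, nat_lit 52841, nat_lit 53057, nat_lit 52985, nat_lit 53005] (nat_lit 0) [] false,
   Spec.mk (nat_lit 53005) (nat_lit 0) [nat_lit 48631, nat_lit 53491, nat_lit 52843, nat_lit 53059, nat_lit 52987, nat_lit 53011, nat_lit 53003, nat_lit 53007, nat_lit 33323] (nat_lit 1) [] false,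
   Spec.mk (nat_lit 53007) (nat_lit 0) [nat_lit 48633, nat_lit 53493, nat_lit 52845, nat_lit 53061, nat_lit 52989, nat_lit 53013, nat_lit 53005, nat_lit 33325] (nat_lit 4) [] false,
   Spec.mk (nat_lit 53011) (nat_lit 0) [nat_lit 48637, nat_lit 53497, nat_lit 52849, nat_lit 53065, nat_lit 52993, nat_lit 53029, nat_lit 53005, nat_lit 53013, nat_lit 33329] (nat_lit 1) [] false,
   Spec.mk (nat_lit 53013) (nat_lit 0) [nat_lit 48639, nat_lit 53499, nat_lit 52851, nat_lit 53067, nat_lit 52995, nat_lit 53031, nat_lit 53007, nat_lit 53019, nat_lit 53011, nat_lit 33331] (nat_lit 2) [] false,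
   Spec.mk (nat_lit 53019) (nat_lit 0) [nat_lit 48645, nat_lit 53505, nat_lit 52857, nat_lit 53073, nat_lit 53037, nat_lit 53013, nat_lit 33337] (nat_lit 2) [] false,
   Spec.mk (nat_lit 53029) (nat_lit 0) [nat_lit 48655, nat_lit 53515, nat_lit 52867, nat_lit 53083, nat_lit 53011, nat_lit 53031, nat_lit 33347] (nat_lit 2) [] false,
   Spec.mk (nat_lit 53031) (nat_lit 0) [nat_lit 48657, nat_lit 53517, nat_lit 52869, nat_lit 53085, nat_lit 53013, nat_lit 53037, nat_lit 53029, nat_lit 33349] (nat_lit 4) [] false,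
   Spec.mk (nat_lit 53037) (nat_lit 0) [nat_lit 48663, nat_lit 53523, nat_lit 52875, nat_lit 53091, nat_lit 53019, nat_lit 53031, nat_lit 33355] (nat_lit 2) [] false,
   Spec.mk (nat_lit 53057) (nat_lit 2) [nat_lit 48683, nat_lit 53543, nat_lit 52895, nat_lit 53003, nat_lit 53059] (nat_lit 0) [] false,
   Spec.mk (nat_lit 53059) (nat_lit 1) [nat_lit 48685, nat_lit 53545, nat_lit 52897, nat_lit 53005, nat_lit 53065, nat_lit 53057, nat_lit 53061, nat_lit 33377] (nat_lit 0) [] false,
   Spec.mk (nat_lit 53061) (nat_lit 0) [nat_lit 48687, nat_lit 53547, nat_lit 52899, nat_lit 53007, nat_lit 53067, nat_lit 53059, nat_lit 33379] (nat_lit 2) [] false,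
   Spec.mk (nat_lit 53065) (nat_lit 0) [nat_lit 48691, nat_lit 53551, nat_lit 52903, nat_lit 53011, nat_lit 53083, nat_lit 53059, nat_lit 53067, nat_lit 33383] (nat_lit 0) [] false,
   Spec.mk (nat_lit 53067) (nat_lit 0) [nat_lit 48693, nat_lit 53553, nat_lit 52905, nat_lit 53013, nat_lit 53085, nat_lit 53061, nat_lit 53073, nat_lit 53065, nat_lit 33385] (nat_lit 1) [] false,
   Spec.mk (nat_lit 53073) (nat_lit 0) [nat_lit 48699, nat_lit 53559, nat_lit 52911, nat_lit 53019, nat_lit 53091, nat_lit 53067, nat_lit 33391] (nat_lit 2) [] false,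
   Spec.mk (nat_lit 53083) (nat_lit 1) [nat_lit 48709, nat_lit 53569, nat_lit 52921, nat_lit 53029, nat_lit 53137, nat_lit 53065, nat_lit 53085, nat_lit 33401] (nat_lit 0) [] false,
   Spec.mk (nat_lit 53085) (nat_lit 0) [nat_lit 48711, nat_lit 53571, nat_lit 52923, nat_lit 53031, nat_lit 53139, nat_lit 53067, nat_lit 53091, nat_lit 53083, nat_lit 33403] (nat_lit 1) [] false,
   Spec.mk (nat_lit 53091) (nat_lit 0) [nat_lit 48717, nat_lit 53577, nat_lit 52929, nat_lit 53037, nat_lit 53145, nat_lit 53073, nat_lit 53109, nat_lit 53085, nat_lit 33409] (nat_lit 0) [] false,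
   Spec.mk (nat_lit 53109) (nat_lit 0) [nat_lit 48735, nat_lit 53595, nat_lit 52947, nat_lit 53163, nat_lit 53091, nat_lit 33427] (nat_lit 0) [] false,
   Spec.mk (nat_lit 53137) (nat_lit 2) [nat_lit 48763, nat_lit 53623, nat_lit 53083, nat_lit 53139, nat_lit 33455] (nat_lit 0) [] false,
   Spec.mk (nat_lit 53139) (nat_lit 0) [nat_lit 48765, nat_lit 53625, nat_lit 53085, nat_lit 53145, nat_lit 53137, nat_lit 33457] (nat_lit 0) [] false,
   Spec.mk (nat_lit 53145) (nat_lit 0) [nat_lit 48771, nat_lit 53631, nat_lit 53091, nat_lit 53163, nat_lit 53139, nat_lit 33463] (nat_lit 0) [] false,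
   Spec.mk (nat_lit 53163) (nat_lit 2) [nat_lit 48789, nat_lit 53649, nat_lit 53109, nat_lit 53145, nat_lit 33481] (nat_lit 0) [] false,
   Spec.mk (nat_lit 53225) (nat_lit 4) [nat_lit 48851, nat_lit 54683, nat_lit 52739, nat_lit 53231] (nat_lit 0) [] false,
   Spec.mk (nat_lit 53231) (nat_lit 3) [nat_lit 48857, nat_lit 54689, nat_lit 52745, nat_lit 53249, nat_lit 53225, nat_lit 53237, nat_lit 53233] (nat_lit 0) [] false,
   Spec.mk (nat_lit 53233) (nat_lit 2) [nat_lit 48859, nat_lit 54691, nat_lit 52747, nat_lit 53251, nat_lit 53239, nat_lit 53231, nat_lit 33551] (nat_lit 0) [] false,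
   Spec.mk (nat_lit 53237) (nat_lit 0) [nat_lit 48863, nat_lit 54695, nat_lit 52751, nat_lit 53255, nat_lit 53231, nat_lit 53239] (nat_lit 0) [] false,
   Spec.mk (nat_lit 53239) (nat_lit 1) [nat_lit 48865, nat_lit 54697, nat_lit 52753, nat_lit 53257, nat_lit 53233, nat_lit 53237, nat_lit 53241, nat_lit 33557] (nat_lit 0) [] false,
   Spec.mk (nat_lit 53241) (nat_lit 0) [nat_lit 48867, nat_lit 54699, nat_lit 52755, nat_lit 53259, nat_lit 53239, nat_lit 33559] (nat_lit 0) [] false,
   Spec.mk (nat_lit 53249) (nat_lit 2) [nat_lit 48875, nat_lit 54707, nat_lit 52763, nat_lit 53303, nat_lit 53231, nat_lit 53255, nat_lit 53251] (nat_lit 0) [] false,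
   Spec.mk (nat_lit 53251) (nat_lit 0) [nat_lit 48877, nat_lit 54709, nat_lit 52765, nat_lit 53305, nat_lit 53233, nat_lit 53257, nat_lit 53249, nat_lit 33569] (nat_lit 0) [] false]

noncomputable def sp133 : List Spec :=
  [Spec.mk (nat_lit 53255) (nat_lit 1) [nat_lit 48881, nat_lit 54713, nat_lit 52769, nat_lit 53309, nat_lit 53237, nat_lit 53273, nat_lit 53249, nat_lit 53257] (nat_lit 0) [] false,
   Spec.mk (nat_lit 53257) (nat_lit 1) [nat_lit 48883, nat_lit 54715, nat_lit 52771, nat_lit 53311, nat_lit 53239, nat_lit 53275, nat_lit 53251, nat_lit 53263, nat_lit 53255, nat_lit 53259, nat_lit 33575] (nat_lit 0) [] false,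
   Spec.mk (nat_lit 53259) (nat_lit 0) [nat_lit 48885, nat_lit 54717, nat_lit 52773, nat_lit 53313, nat_lit 53241, nat_lit 53277, nat_lit 53265, nat_lit 53257, nat_lit 33577] (nat_lit 1) [] false,
   Spec.mk (nat_lit 53263) (nat_lit 0) [nat_lit 48889, nat_lit 54721, nat_lit 52777, nat_lit 53317, nat_lit 53281, nat_lit 53257, nat_lit 53265, nat_lit 33581] (nat_lit 0) [] false,
   Spec.mk (nat_lit 53265) (nat_lit 0) [nat_lit 48891, nat_lit 54723, nat_lit 52779, nat_lit 53319, nat_lit 53283, nat_lit 53259, nat_lit 53263, nat_lit 33583] (nat_lit 0) [] false,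
   Spec.mk (nat_lit 53273) (nat_lit 0) [nat_lit 48899, nat_lit 54731, nat_lit 52787, nat_lit 53327, nat_lit 53255, nat_lit 53275] (nat_lit 0) [] false,
   Spec.mk (nat_lit 53275) (nat_lit 0) [nat_lit 48901, nat_lit 54733, nat_lit 52789, nat_lit 53329, nat_lit 53257, nat_lit 53281, nat_lit 53273, nat_lit 53277, nat_lit 33593] (nat_lit 1) [] false,
   Spec.mk (nat_lit 53277) (nat_lit 0) [nat_lit 48903, nat_lit 54735, nat_lit 52791, nat_lit 53331, nat_lit 53259, nat_lit 53283, nat_lit 53275, nat_lit 33595] (nat_lit 4) [] false,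
   Spec.mk (nat_lit 53281) (nat_lit 0) [nat_lit 48907, nat_lit 54739, nat_lit 52795, nat_lit 53335, nat_lit 53263, nat_lit 53275, nat_lit 53283, nat_lit 33599] (nat_lit 0) [] false,
   Spec.mk (nat_lit 53283) (nat_lit 0) [nat_lit 48909, nat_lit 54741, nat_lit 52797, nat_lit 53337, nat_lit 53265, nat_lit 53277, nat_lit 53289, nat_lit 53281, nat_lit 33601] (nat_lit 1) [] false,
   Spec.mk (nat_lit 53289) (nat_lit 0) [nat_lit 48915, nat_lit 54747, nat_lit 52803, nat_lit 53343, nat_lit 53283, nat_lit 33607] (nat_lit 0) [] false,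
   Spec.mk (nat_lit 53303) (nat_lit 2) [nat_lit 48929, nat_lit 54761, nat_lit 52817, nat_lit 53465, nat_lit 53249, nat_lit 53309, nat_lit 53305] (nat_lit 0) [] false,
   Spec.mk (nat_lit 53305) (nat_lit 0) [nat_lit 48931, nat_lit 54763, nat_lit 52819, nat_lit 53467, nat_lit 53251, nat_lit 53311, nat_lit 53303, nat_lit 33623] (nat_lit 0) [] false,
   Spec.mk (nat_lit 53309) (nat_lit 0) [nat_lit 48935, nat_lit 54767, nat_lit 52823, nat_lit 53471, nat_lit 53255, nat_lit 53327, nat_lit 53303, nat_lit 53311] (nat_lit 0) [] false,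
   Spec.mk (nat_lit 53311) (nat_lit 0) [nat_lit 48937, nat_lit 54769, nat_lit 52825, nat_lit 53473, nat_lit 53257, nat_lit 53329, nat_lit 53305, nat_lit 53317, nat_lit 53309, nat_lit 53313, nat_lit 33629] (nat_lit 0) [] false,
   Spec.mk (nat_lit 53313) (nat_lit 0) [nat_lit 48939, nat_lit 54771, nat_lit 52827, nat_lit 53475, nat_lit 53259, nat_lit 53331, nat_lit 53319, nat_lit 53311, nat_lit 33631] (nat_lit 2) [] false,
   Spec.mk (nat_lit 53317) (nat_lit 0) [nat_lit 48943, nat_lit 54775, nat_lit 52831, nat_lit 53479, nat_lit 53263, nat_lit 53335, nat_lit 53311, nat_lit 53319, nat_lit 33635] (nat_lit 2) [] false,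
   Spec.mk (nat_lit 53319) (nat_lit 0) [nat_lit 48945, nat_lit 54777, nat_lit 52833, nat_lit 53481, nat_lit 53265, nat_lit 53337, nat_lit 53313, nat_lit 53317, nat_lit 33637] (nat_lit 2) [] false,
   Spec.mk (nat_lit 53327) (nat_lit 1) [nat_lit 48953, nat_lit 54785, nat_lit 52841, nat_lit 53489, nat_lit 53273, nat_lit 53381, nat_lit 53309, nat_lit 53329] (nat_lit 0) [] false,
   Spec.mk (nat_lit 53329) (nat_lit 0) [nat_lit 48955, nat_lit 54787, nat_lit 52843, nat_lit 53491, nat_lit 53275, nat_lit 53383, nat_lit 53311, nat_lit 53335, nat_lit 53327, nat_lit 53331, nat_lit 33647] (nat_lit 0) [] false,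
   Spec.mk (nat_lit 53331) (nat_lit 0) [nat_lit 48957, nat_lit 54789, nat_lit 52845, nat_lit 53493, nat_lit 53277, nat_lit 53385, nat_lit 53313, nat_lit 53337, nat_lit 53329, nat_lit 33649] (nat_lit 3) [] false,
   Spec.mk (nat_lit 53335) (nat_lit 0) [nat_lit 48961, nat_lit 54793, nat_lit 52849, nat_lit 53497, nat_lit 53281, nat_lit 53389, nat_lit 53317, nat_lit 53353, nat_lit 53329, nat_lit 53337, nat_lit 33653] (nat_lit 0) [] false,
   Spec.mk (nat_lit 53337) (nat_lit 0) [nat_lit 48963, nat_lit 54795, nat_lit 52851, nat_lit 53499, nat_lit 53283, nat_lit 53391, nat_lit 53319, nat_lit 53355, nat_lit 53331, nat_lit 53343, nat_lit 53335, nat_lit 33655] (nat_lit 1) [] false,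
   Spec.mk (nat_lit 53343) (nat_lit 0) [nat_lit 48969, nat_lit 54801, nat_lit 52857, nat_lit 53505, nat_lit 53289, nat_lit 53397, nat_lit 53361, nat_lit 53337, nat_lit 33661] (nat_lit 1) [] false,
   Spec.mk (nat_lit 53353) (nat_lit 0) [nat_lit 48979, nat_lit 54811, nat_lit 52867, nat_lit 53515, nat_lit 53407, nat_lit 53335, nat_lit 53355, nat_lit 33671] (nat_lit 0) [] false,
   Spec.mk (nat_lit 53355) (nat_lit 0) [nat_lit 48981, nat_lit 54813, nat_lit 52869, nat_lit 53517, nat_lit 53409, nat_lit 53337, nat_lit 53361, nat_lit 53353, nat_lit 33673] (nat_lit 2) [] false,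
   Spec.mk (nat_lit 53361) (nat_lit 0) [nat_lit 48987, nat_lit 54819, nat_lit 52875, nat_lit 53523, nat_lit 53415, nat_lit 53343, nat_lit 53355, nat_lit 33679] (nat_lit 0) [] false,
   Spec.mk (nat_lit 53381) (nat_lit 0) [nat_lit 49007, nat_lit 54839, nat_lit 52895, nat_lit 53543, nat_lit 53327, nat_lit 53383] (nat_lit 0) [] false,
   Spec.mk (nat_lit 53383) (nat_lit 0) [nat_lit 49009, nat_lit 54841, nat_lit 52897, nat_lit 53545, nat_lit 53329, nat_lit 53389, nat_lit 53381, nat_lit 53385, nat_lit 33701] (nat_lit 1) [] false,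
   Spec.mk (nat_lit 53385) (nat_lit 0) [nat_lit 49011, nat_lit 54843, nat_lit 52899, nat_lit 53547, nat_lit 53331, nat_lit 53391, nat_lit 53383, nat_lit 33703] (nat_lit 4) [] false,
   Spec.mk (nat_lit 53389) (nat_lit 0) [nat_lit 49015, nat_lit 54847, nat_lit 52903, nat_lit 53551, nat_lit 53335, nat_lit 53407, nat_lit 53383, nat_lit 53391, nat_lit 33707] (nat_lit 2) [] false,
   Spec.mk (nat_lit 53391) (nat_lit 0) [nat_lit 49017, nat_lit 54849, nat_lit 52905, nat_lit 53553, nat_lit 53337, nat_lit 53409, nat_lit 53385, nat_lit 53397, nat_lit 53389, nat_lit 33709] (nat_lit 3) [] false,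
   Spec.mk (nat_lit 53397) (nat_lit 0) [nat_lit 49023, nat_lit 54855, nat_lit 52911, nat_lit 53559, nat_lit 53343, nat_lit 53415, nat_lit 53391, nat_lit 33715] (nat_lit 4) [] false,
   Spec.mk (nat_lit 53407) (nat_lit 0) [nat_lit 49033, nat_lit 54865, nat_lit 52921, nat_lit 53569, nat_lit 53353, nat_lit 53389, nat_lit 53409, nat_lit 33725] (nat_lit 0) [] false,
   Spec.mk (nat_lit 53409) (nat_lit 0) [nat_lit 49035, nat_lit 54867, nat_lit 52923, nat_lit 53571, nat_lit 53355, nat_lit 53391, nat_lit 53415, nat_lit 53407, nat_lit 33727] (nat_lit 2) [] false,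
   Spec.mk (nat_lit 53415) (nat_lit 0) [nat_lit 49041, nat_lit 54873, nat_lit 52929, nat_lit 53577, nat_lit 53361, nat_lit 53397, nat_lit 53433, nat_lit 53409, nat_lit 33733] (nat_lit 1) [] false,
   Spec.mk (nat_lit 53433) (nat_lit 0) [nat_lit 49059, nat_lit 54891, nat_lit 52947, nat_lit 53595, nat_lit 53415, nat_lit 33751] (nat_lit 0) [] false,
   Spec.mk (nat_lit 53465) (nat_lit 3) [nat_lit 49091, nat_lit 54923, nat_lit 52979, nat_lit 53951, nat_lit 53303, nat_lit 53471, nat_lit 53467] (nat_lit 0) [] false,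
   Spec.mk (nat_lit 53467) (nat_lit 1) [nat_lit 49093, nat_lit 54925, nat_lit 52981, nat_lit 53953, nat_lit 53305, nat_lit 53473, nat_lit 53465, nat_lit 33785] (nat_lit 0) [] false,
   Spec.mk (nat_lit 53471) (nat_lit 1) [nat_lit 49097, nat_lit 54929, nat_lit 52985, nat_lit 53957, nat_lit 53309, nat_lit 53489, nat_lit 53465, nat_lit 53473] (nat_lit 0) [] false,
   Spec.mk (nat_lit 53473) (nat_lit 1) [nat_lit 49099, nat_lit 54931, nat_lit 52987, nat_lit 53959, nat_lit 53311, nat_lit 53491, nat_lit 53467, nat_lit 53479, nat_lit 53471, nat_lit 53475, nat_lit 33791] (nat_lit 0) [] false,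
   Spec.mk (nat_lit 53475) (nat_lit 0) [nat_lit 49101, nat_lit 54933, nat_lit 52989, nat_lit 53961, nat_lit 53313, nat_lit 53493, nat_lit 53481, nat_lit 53473, nat_lit 33793] (nat_lit 1) [] false,
   Spec.mk (nat_lit 53479) (nat_lit 0) [nat_lit 49105, nat_lit 54937, nat_lit 52993, nat_lit 53965, nat_lit 53317, nat_lit 53497, nat_lit 53473, nat_lit 53481, nat_lit 33797] (nat_lit 1) [] false,
   Spec.mk (nat_lit 53481) (nat_lit 0) [nat_lit 49107, nat_lit 54939, nat_lit 52995, nat_lit 53967, nat_lit 53319, nat_lit 53499, nat_lit 53475, nat_lit 53479, nat_lit 33799] (nat_lit 1) [] false,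
   Spec.mk (nat_lit 53489) (nat_lit 1) [nat_lit 49115, nat_lit 54947, nat_lit 53003, nat_lit 53975, nat_lit 53327, nat_lit 53543, nat_lit 53471, nat_lit 53491] (nat_lit 0) [] false,
   Spec.mk (nat_lit 53491) (nat_lit 0) [nat_lit 49117, nat_lit 54949, nat_lit 53005, nat_lit 53977, nat_lit 53329, nat_lit 53545, nat_lit 53473, nat_lit 53497, nat_lit 53489, nat_lit 53493, nat_lit 33809] (nat_lit 0) [] false,
   Spec.mk (nat_lit 53493) (nat_lit 0) [nat_lit 49119, nat_lit 54951, nat_lit 53007, nat_lit 53979, nat_lit 53331, nat_lit 53547, nat_lit 53475, nat_lit 53499, nat_lit 53491, nat_lit 33811] (nat_lit 3) [] false,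
   Spec.mk (nat_lit 53497) (nat_lit 0) [nat_lit 49123, nat_lit 54955, nat_lit 53011, nat_lit 53983, nat_lit 53335, nat_lit 53551, nat_lit 53479, nat_lit 53515, nat_lit 53491, nat_lit 53499, nat_lit 33815] (nat_lit 0) [] false,
   Spec.mk (nat_lit 53499) (nat_lit 0) [nat_lit 49125, nat_lit 54957, nat_lit 53013, nat_lit 53985, nat_lit 53337, nat_lit 53553, nat_lit 53481, nat_lit 53517, nat_lit 53493, nat_lit 53505, nat_lit 53497, nat_lit 33817] (nat_lit 1) [] false,
   Spec.mk (nat_lit 53505) (nat_lit 0) [nat_lit 49131, nat_lit 54963, nat_lit 53019, nat_lit 53991, nat_lit 53343, nat_lit 53559, nat_lit 53523, nat_lit 53499, nat_lit 33823] (nat_lit 1) [] false,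
   Spec.mk (nat_lit 53515) (nat_lit 0) [nat_lit 49141, nat_lit 54973, nat_lit 53029, nat_lit 54001, nat_lit 53353, nat_lit 53569, nat_lit 53497, nat_lit 53517, nat_lit 33833] (nat_lit 1) [] false,
   Spec.mk (nat_lit 53517) (nat_lit 0) [nat_lit 49143, nat_lit 54975, nat_lit 53031, nat_lit 54003, nat_lit 53355, nat_lit 53571, nat_lit 53499, nat_lit 53523, nat_lit 53515, nat_lit 33835] (nat_lit 3) [] false,
   Spec.mk (nat_lit 53523) (nat_lit 0) [nat_lit 49149, nat_lit 54981, nat_lit 53037, nat_lit 54009, nat_lit 53361, nat_lit 53577, nat_lit 53505, nat_lit 53517, nat_lit 33841] (nat_lit 1) [] false,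
   Spec.mk (nat_lit 53543) (nat_lit 2) [nat_lit 49169, nat_lit 55001, nat_lit 53057, nat_lit 54029, nat_lit 53381, nat_lit 53705, nat_lit 53489, nat_lit 53545] (nat_lit 0) [] false,
   Spec.mk (nat_lit 53545) (nat_lit 1) [nat_lit 49171, nat_lit 55003, nat_lit 53059, nat_lit 54031, nat_lit 53383, nat_lit 53707, nat_lit 53491, nat_lit 53551, nat_lit 53543, nat_lit 53547, nat_lit 33863] (nat_lit 0) [] false,
   Spec.mk (nat_lit 53547) (nat_lit 0) [nat_lit 49173, nat_lit 55005, nat_lit 53061, nat_lit 54033, nat_lit 53385, nat_lit 53709, nat_lit 53493, nat_lit 53553, nat_lit 53545, nat_lit 33865] (nat_lit 2) [] false,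
   Spec.mk (nat_lit 53551) (nat_lit 0) [nat_lit 49177, nat_lit 55009, nat_lit 53065, nat_lit 54037, nat_lit 53389, nat_lit 53713, nat_lit 53497, nat_lit 53569, nat_lit 53545, nat_lit 53553, nat_lit 33869] (nat_lit 0) [] false,
   Spec.mk (nat_lit 53553) (nat_lit 0) [nat_lit 49179, nat_lit 55011, nat_lit 53067, nat_lit 54039, nat_lit 53391, nat_lit 53715, nat_lit 53499, nat_lit 53571, nat_lit 53547, nat_lit 53559, nat_lit 53551, nat_lit 33871] (nat_lit 1) [] false,
   Spec.mk (nat_lit 53559) (nat_lit 0) [nat_lit 49185, nat_lit 55017, nat_lit 53073, nat_lit 54045, nat_lit 53397, nat_lit 53721, nat_lit 53505, nat_lit 53577, nat_lit 53553, nat_lit 33877] (nat_lit 2) [] false,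
   Spec.mk (nat_lit 53569) (nat_lit 1) [nat_lit 49195, nat_lit 55027, nat_lit 53083, nat_lit 54055, nat_lit 53407, nat_lit 53731, nat_lit 53515, nat_lit 53623, nat_lit 53551, nat_lit 53571, nat_lit 33887] (nat_lit 0) [] false]

noncomputable def sp134 : List Spec :=
  [Spec.mk (nat_lit 53571) (nat_lit 0) [nat_lit 49197, nat_lit 55029, nat_lit 53085, nat_lit 54057, nat_lit 53409, nat_lit 53733, nat_lit 53517, nat_lit 53625, nat_lit 53553, nat_lit 53577, nat_lit 53569, nat_lit 33889] (nat_lit 1) [] false,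
   Spec.mk (nat_lit 53577) (nat_lit 0) [nat_lit 49203, nat_lit 55035, nat_lit 53091, nat_lit 54063, nat_lit 53415, nat_lit 53739, nat_lit 53523, nat_lit 53631, nat_lit 53559, nat_lit 53595, nat_lit 53571, nat_lit 33895] (nat_lit 0) [] false,
   Spec.mk (nat_lit 53595) (nat_lit 0) [nat_lit 49221, nat_lit 55053, nat_lit 53109, nat_lit 54081, nat_lit 53433, nat_lit 53757, nat_lit 53649, nat_lit 53577, nat_lit 33913] (nat_lit 0) [] false,
   Spec.mk (nat_lit 53623) (nat_lit 1) [nat_lit 49249, nat_lit 55081, nat_lit 53137, nat_lit 54109, nat_lit 53785, nat_lit 53569, nat_lit 53625, nat_lit 33941] (nat_lit 0) [] false,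
   Spec.mk (nat_lit 53625) (nat_lit 0) [nat_lit 49251, nat_lit 55083, nat_lit 53139, nat_lit 54111, nat_lit 53787, nat_lit 53571, nat_lit 53631, nat_lit 53623, nat_lit 33943] (nat_lit 1) [] false,
   Spec.mk (nat_lit 53631) (nat_lit 0) [nat_lit 49257, nat_lit 55089, nat_lit 53145, nat_lit 54117, nat_lit 53793, nat_lit 53577, nat_lit 53649, nat_lit 53625, nat_lit 33949] (nat_lit 1) [] false,
   Spec.mk (nat_lit 53649) (nat_lit 1) [nat_lit 49275, nat_lit 55107, nat_lit 53163, nat_lit 54135, nat_lit 53811, nat_lit 53595, nat_lit 53631, nat_lit 33967] (nat_lit 0) [] false,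
   Spec.mk (nat_lit 53705) (nat_lit 2) [nat_lit 49331, nat_lit 55163, nat_lit 54191, nat_lit 53543, nat_lit 53707] (nat_lit 0) [] false,
   Spec.mk (nat_lit 53707) (nat_lit 1) [nat_lit 49333, nat_lit 55165, nat_lit 54193, nat_lit 53545, nat_lit 53713, nat_lit 53705, nat_lit 53709, nat_lit 34025] (nat_lit 0) [] false,
   Spec.mk (nat_lit 53709) (nat_lit 0) [nat_lit 49335, nat_lit 55167, nat_lit 54195, nat_lit 53547, nat_lit 53715, nat_lit 53707, nat_lit 34027] (nat_lit 2) [] false,
   Spec.mk (nat_lit 53713) (nat_lit 0) [nat_lit 49339, nat_lit 55171, nat_lit 54199, nat_lit 53551, nat_lit 53731, nat_lit 53707, nat_lit 53715, nat_lit 34031] (nat_lit 0) [] false,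
   Spec.mk (nat_lit 53715) (nat_lit 0) [nat_lit 49341, nat_lit 55173, nat_lit 54201, nat_lit 53553, nat_lit 53733, nat_lit 53709, nat_lit 53721, nat_lit 53713, nat_lit 34033] (nat_lit 1) [] false,
   Spec.mk (nat_lit 53721) (nat_lit 0) [nat_lit 49347, nat_lit 55179, nat_lit 54207, nat_lit 53559, nat_lit 53739, nat_lit 53715, nat_lit 34039] (nat_lit 2) [] false,
   Spec.mk (nat_lit 53731) (nat_lit 0) [nat_lit 49357, nat_lit 55189, nat_lit 54217, nat_lit 53569, nat_lit 53785, nat_lit 53713, nat_lit 53733, nat_lit 34049] (nat_lit 0) [] false,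
   Spec.mk (nat_lit 53733) (nat_lit 0) [nat_lit 49359, nat_lit 55191, nat_lit 54219, nat_lit 53571, nat_lit 53787, nat_lit 53715, nat_lit 53739, nat_lit 53731, nat_lit 34051] (nat_lit 2) [] false,
   Spec.mk (nat_lit 53739) (nat_lit 0) [nat_lit 49365, nat_lit 55197, nat_lit 54225, nat_lit 53577, nat_lit 53793, nat_lit 53721, nat_lit 53757, nat_lit 53733, nat_lit 34057] (nat_lit 1) [] false,
   Spec.mk (nat_lit 53757) (nat_lit 0) [nat_lit 49383, nat_lit 55215, nat_lit 54243, nat_lit 53595, nat_lit 53811, nat_lit 53739, nat_lit 34075] (nat_lit 2) [] false,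
   Spec.mk (nat_lit 53785) (nat_lit 2) [nat_lit 49411, nat_lit 55243, nat_lit 54271, nat_lit 53623, nat_lit 53731, nat_lit 53787, nat_lit 34103] (nat_lit 0) [] false,
   Spec.mk (nat_lit 53787) (nat_lit 0) [nat_lit 49413, nat_lit 55245, nat_lit 54273, nat_lit 53625, nat_lit 53733, nat_lit 53793, nat_lit 53785, nat_lit 34105] (nat_lit 0) [] false,
   Spec.mk (nat_lit 53793) (nat_lit 0) [nat_lit 49419, nat_lit 55251, nat_lit 54279, nat_lit 53631, nat_lit 53739, nat_lit 53811, nat_lit 53787, nat_lit 34111] (nat_lit 0) [] false,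
   Spec.mk (nat_lit 53811) (nat_lit 1) [nat_lit 49437, nat_lit 55269, nat_lit 54297, nat_lit 53649, nat_lit 53757, nat_lit 53865, nat_lit 53793, nat_lit 34129] (nat_lit 0) [] false,
   Spec.mk (nat_lit 53865) (nat_lit 2) [nat_lit 49491, nat_lit 55323, nat_lit 54351, nat_lit 53811, nat_lit 34183] (nat_lit 0) [] false,
   Spec.mk (nat_lit 53951) (nat_lit 2) [nat_lit 49577, nat_lit 55409, nat_lit 53465, nat_lit 53957, nat_lit 53953] (nat_lit 0) [] false,
   Spec.mk (nat_lit 53953) (nat_lit 0) [nat_lit 49579, nat_lit 55411, nat_lit 53467, nat_lit 53959, nat_lit 53951, nat_lit 34271] (nat_lit 0) [] false,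
   Spec.mk (nat_lit 53957) (nat_lit 0) [nat_lit 49583, nat_lit 55415, nat_lit 53471, nat_lit 53975, nat_lit 53951, nat_lit 53959] (nat_lit 0) [] false,
   Spec.mk (nat_lit 53959) (nat_lit 0) [nat_lit 49585, nat_lit 55417, nat_lit 53473, nat_lit 53977, nat_lit 53953, nat_lit 53965, nat_lit 53957, nat_lit 53961, nat_lit 34277] (nat_lit 0) [] false,
   Spec.mk (nat_lit 53961) (nat_lit 0) [nat_lit 49587, nat_lit 55419, nat_lit 53475, nat_lit 53979, nat_lit 53967, nat_lit 53959, nat_lit 34279] (nat_lit 2) [] false,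
   Spec.mk (nat_lit 53965) (nat_lit 0) [nat_lit 49591, nat_lit 55423, nat_lit 53479, nat_lit 53983, nat_lit 53959, nat_lit 53967, nat_lit 34283] (nat_lit 2) [] false,
   Spec.mk (nat_lit 53967) (nat_lit 0) [nat_lit 49593, nat_lit 55425, nat_lit 53481, nat_lit 53985, nat_lit 53961, nat_lit 53965, nat_lit 34285] (nat_lit 2) [] false,
   Spec.mk (nat_lit 53975) (nat_lit 0) [nat_lit 49601, nat_lit 55433, nat_lit 53489, nat_lit 54029, nat_lit 53957, nat_lit 53977] (nat_lit 0) [] false,
   Spec.mk (nat_lit 53977) (nat_lit 0) [nat_lit 49603, nat_lit 55435, nat_lit 53491, nat_lit 54031, nat_lit 53959, nat_lit 53983, nat_lit 53975, nat_lit 53979, nat_lit 34295] (nat_lit 1) [] false,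
   Spec.mk (nat_lit 53979) (nat_lit 0) [nat_lit 49605, nat_lit 55437, nat_lit 53493, nat_lit 54033, nat_lit 53961, nat_lit 53985, nat_lit 53977, nat_lit 34297] (nat_lit 4) [] false,
   Spec.mk (nat_lit 53983) (nat_lit 0) [nat_lit 49609, nat_lit 55441, nat_lit 53497, nat_lit 54037, nat_lit 53965, nat_lit 54001, nat_lit 53977, nat_lit 53985, nat_lit 34301] (nat_lit 1) [] false,
   Spec.mk (nat_lit 53985) (nat_lit 0) [nat_lit 49611, nat_lit 55443, nat_lit 53499, nat_lit 54039, nat_lit 53967, nat_lit 54003, nat_lit 53979, nat_lit 53991, nat_lit 53983, nat_lit 34303] (nat_lit 2) [] false,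
   Spec.mk (nat_lit 53991) (nat_lit 0) [nat_lit 49617, nat_lit 55449, nat_lit 53505, nat_lit 54045, nat_lit 54009, nat_lit 53985, nat_lit 34309] (nat_lit 2) [] false,
   Spec.mk (nat_lit 54001) (nat_lit 0) [nat_lit 49627, nat_lit 55459, nat_lit 53515, nat_lit 54055, nat_lit 53983, nat_lit 54003, nat_lit 34319] (nat_lit 2) [] false,
   Spec.mk (nat_lit 54003) (nat_lit 0) [nat_lit 49629, nat_lit 55461, nat_lit 53517, nat_lit 54057, nat_lit 53985, nat_lit 54009, nat_lit 54001, nat_lit 34321] (nat_lit 4) [] false,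
   Spec.mk (nat_lit 54009) (nat_lit 0) [nat_lit 49635, nat_lit 55467, nat_lit 53523, nat_lit 54063, nat_lit 53991, nat_lit 54003, nat_lit 34327] (nat_lit 2) [] false,
   Spec.mk (nat_lit 54029) (nat_lit 0) [nat_lit 49655, nat_lit 55487, nat_lit 53543, nat_lit 54191, nat_lit 53975, nat_lit 54031] (nat_lit 0) [] false,
   Spec.mk (nat_lit 54031) (nat_lit 0) [nat_lit 49657, nat_lit 55489, nat_lit 53545, nat_lit 54193, nat_lit 53977, nat_lit 54037, nat_lit 54029, nat_lit 54033, nat_lit 34349] (nat_lit 1) [] false,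
   Spec.mk (nat_lit 54033) (nat_lit 0) [nat_lit 49659, nat_lit 55491, nat_lit 53547, nat_lit 54195, nat_lit 53979, nat_lit 54039, nat_lit 54031, nat_lit 34351] (nat_lit 4) [] false,
   Spec.mk (nat_lit 54037) (nat_lit 0) [nat_lit 49663, nat_lit 55495, nat_lit 53551, nat_lit 54199, nat_lit 53983, nat_lit 54055, nat_lit 54031, nat_lit 54039, nat_lit 34355] (nat_lit 2) [] false,
   Spec.mk (nat_lit 54039) (nat_lit 0) [nat_lit 49665, nat_lit 55497, nat_lit 53553, nat_lit 54201, nat_lit 53985, nat_lit 54057, nat_lit 54033, nat_lit 54045, nat_lit 54037, nat_lit 34357] (nat_lit 3) [] false,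
   Spec.mk (nat_lit 54045) (nat_lit 0) [nat_lit 49671, nat_lit 55503, nat_lit 53559, nat_lit 54207, nat_lit 53991, nat_lit 54063, nat_lit 54039, nat_lit 34363] (nat_lit 4) [] false,
   Spec.mk (nat_lit 54055) (nat_lit 0) [nat_lit 49681, nat_lit 55513, nat_lit 53569, nat_lit 54217, nat_lit 54001, nat_lit 54109, nat_lit 54037, nat_lit 54057, nat_lit 34373] (nat_lit 1) [] false,
   Spec.mk (nat_lit 54057) (nat_lit 0) [nat_lit 49683, nat_lit 55515, nat_lit 53571, nat_lit 54219, nat_lit 54003, nat_lit 54111, nat_lit 54039, nat_lit 54063, nat_lit 54055, nat_lit 34375] (nat_lit 3) [] false,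
   Spec.mk (nat_lit 54063) (nat_lit 0) [nat_lit 49689, nat_lit 55521, nat_lit 53577, nat_lit 54225, nat_lit 54009, nat_lit 54117, nat_lit 54045, nat_lit 54081, nat_lit 54057, nat_lit 34381] (nat_lit 2) [] false,
   Spec.mk (nat_lit 54081) (nat_lit 0) [nat_lit 49707, nat_lit 55539, nat_lit 53595, nat_lit 54243, nat_lit 54135, nat_lit 54063, nat_lit 34399] (nat_lit 2) [] false,
   Spec.mk (nat_lit 54109) (nat_lit 0) [nat_lit 49735, nat_lit 55567, nat_lit 53623, nat_lit 54271, nat_lit 54055, nat_lit 54111, nat_lit 34427] (nat_lit 2) [] false,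
   Spec.mk (nat_lit 54111) (nat_lit 0) [nat_lit 49737, nat_lit 55569, nat_lit 53625, nat_lit 54273, nat_lit 54057, nat_lit 54117, nat_lit 54109, nat_lit 34429] (nat_lit 4) [] false,
   Spec.mk (nat_lit 54117) (nat_lit 0) [nat_lit 49743, nat_lit 55575, nat_lit 53631, nat_lit 54279, nat_lit 54063, nat_lit 54135, nat_lit 54111, nat_lit 34435] (nat_lit 4) [] false,
   Spec.mk (nat_lit 54135) (nat_lit 0) [nat_lit 49761, nat_lit 55593, nat_lit 53649, nat_lit 54297, nat_lit 54081, nat_lit 54117, nat_lit 34453] (nat_lit 2) [] false,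
   Spec.mk (nat_lit 54191) (nat_lit 2) [nat_lit 49817, nat_lit 55649, nat_lit 53705, nat_lit 54029, nat_lit 54193] (nat_lit 0) [] false,
   Spec.mk (nat_lit 54193) (nat_lit 1) [nat_lit 49819, nat_lit 55651, nat_lit 53707, nat_lit 54031, nat_lit 54199, nat_lit 54191, nat_lit 54195, nat_lit 34511] (nat_lit 0) [] false,
   Spec.mk (nat_lit 54195) (nat_lit 0) [nat_lit 49821, nat_lit 55653, nat_lit 53709, nat_lit 54033, nat_lit 54201, nat_lit 54193, nat_lit 34513] (nat_lit 2) [] false,
   Spec.mk (nat_lit 54199) (nat_lit 0) [nat_lit 49825, nat_lit 55657, nat_lit 53713, nat_lit 54037, nat_lit 54217, nat_lit 54193, nat_lit 54201, nat_lit 34517] (nat_lit 0) [] false,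
   Spec.mk (nat_lit 54201) (nat_lit 0) [nat_lit 49827, nat_lit 55659, nat_lit 53715, nat_lit 54039, nat_lit 54219, nat_lit 54195, nat_lit 54207, nat_lit 54199, nat_lit 34519] (nat_lit 1) [] false,
   Spec.mk (nat_lit 54207) (nat_lit 0) [nat_lit 49833, nat_lit 55665, nat_lit 53721, nat_lit 54045, nat_lit 54225, nat_lit 54201, nat_lit 34525] (nat_lit 2) [] false,
   Spec.mk (nat_lit 54217) (nat_lit 0) [nat_lit 49843, nat_lit 55675, nat_lit 53731, nat_lit 54055, nat_lit 54271, nat_lit 54199, nat_lit 54219, nat_lit 34535] (nat_lit 0) [] false,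
   Spec.mk (nat_lit 54219) (nat_lit 0) [nat_lit 49845, nat_lit 55677, nat_lit 53733, nat_lit 54057, nat_lit 54273, nat_lit 54201, nat_lit 54225, nat_lit 54217, nat_lit 34537] (nat_lit 2) [] false]

noncomputable def sp135 : List Spec :=
  [Spec.mk (nat_lit 54225) (nat_lit 0) [nat_lit 49851, nat_lit 55683, nat_lit 53739, nat_lit 54063, nat_lit 54279, nat_lit 54207, nat_lit 54243, nat_lit 54219, nat_lit 34543] (nat_lit 1) [] false,
   Spec.mk (nat_lit 54243) (nat_lit 0) [nat_lit 49869, nat_lit 55701, nat_lit 53757, nat_lit 54081, nat_lit 54297, nat_lit 54225, nat_lit 34561] (nat_lit 2) [] false,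
   Spec.mk (nat_lit 54271) (nat_lit 1) [nat_lit 49897, nat_lit 55729, nat_lit 53785, nat_lit 54109, nat_lit 54433, nat_lit 54217, nat_lit 54273, nat_lit 34589] (nat_lit 0) [] false,
   Spec.mk (nat_lit 54273) (nat_lit 0) [nat_lit 49899, nat_lit 55731, nat_lit 53787, nat_lit 54111, nat_lit 54435, nat_lit 54219, nat_lit 54279, nat_lit 54271, nat_lit 34591] (nat_lit 1) [] false,
   Spec.mk (nat_lit 54279) (nat_lit 0) [nat_lit 49905, nat_lit 55737, nat_lit 53793, nat_lit 54117, nat_lit 54441, nat_lit 54225, nat_lit 54297, nat_lit 54273, nat_lit 34597] (nat_lit 1) [] false,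
   Spec.mk (nat_lit 54297) (nat_lit 0) [nat_lit 49923, nat_lit 55755, nat_lit 53811, nat_lit 54135, nat_lit 54459, nat_lit 54243, nat_lit 54351, nat_lit 54279, nat_lit 34615] (nat_lit 0) [] false,
   Spec.mk (nat_lit 54351) (nat_lit 0) [nat_lit 49977, nat_lit 55809, nat_lit 53865, nat_lit 54513, nat_lit 54297, nat_lit 34669] (nat_lit 0) [] false,
   Spec.mk (nat_lit 54433) (nat_lit 2) [nat_lit 50059, nat_lit 55891, nat_lit 54271, nat_lit 54435, nat_lit 34751] (nat_lit 0) [] false,
   Spec.mk (nat_lit 54435) (nat_lit 0) [nat_lit 50061, nat_lit 55893, nat_lit 54273, nat_lit 54441, nat_lit 54433, nat_lit 34753] (nat_lit 0) [] false,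
   Spec.mk (nat_lit 54441) (nat_lit 0) [nat_lit 50067, nat_lit 55899, nat_lit 54279, nat_lit 54459, nat_lit 54435, nat_lit 34759] (nat_lit 0) [] false,
   Spec.mk (nat_lit 54459) (nat_lit 0) [nat_lit 50085, nat_lit 55917, nat_lit 54297, nat_lit 54513, nat_lit 54441, nat_lit 34777] (nat_lit 0) [] false,
   Spec.mk (nat_lit 54513) (nat_lit 2) [nat_lit 50139, nat_lit 55971, nat_lit 54351, nat_lit 54459, nat_lit 34831] (nat_lit 0) [] false,
   Spec.mk (nat_lit 54683) (nat_lit 6) [nat_lit 50309, nat_lit 53225, nat_lit 54689] (nat_lit 0) [] false,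
   Spec.mk (nat_lit 54689) (nat_lit 5) [nat_lit 50315, nat_lit 53231, nat_lit 54707, nat_lit 54683, nat_lit 54695, nat_lit 54691] (nat_lit 0) [] false,
   Spec.mk (nat_lit 54691) (nat_lit 4) [nat_lit 50317, nat_lit 53233, nat_lit 54709, nat_lit 54697, nat_lit 54689, nat_lit 35009] (nat_lit 0) [] false,
   Spec.mk (nat_lit 54695) (nat_lit 2) [nat_lit 50321, nat_lit 53237, nat_lit 54713, nat_lit 54689, nat_lit 54697] (nat_lit 0) [] false,
   Spec.mk (nat_lit 54697) (nat_lit 3) [nat_lit 50323, nat_lit 53239, nat_lit 54715, nat_lit 54691, nat_lit 54695, nat_lit 54699, nat_lit 35015] (nat_lit 0) [] false,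
   Spec.mk (nat_lit 54699) (nat_lit 2) [nat_lit 50325, nat_lit 53241, nat_lit 54717, nat_lit 54697, nat_lit 35017] (nat_lit 0) [] false,
   Spec.mk (nat_lit 54707) (nat_lit 4) [nat_lit 50333, nat_lit 53249, nat_lit 54761, nat_lit 54689, nat_lit 54713, nat_lit 54709] (nat_lit 0) [] false,
   Spec.mk (nat_lit 54709) (nat_lit 2) [nat_lit 50335, nat_lit 53251, nat_lit 54763, nat_lit 54691, nat_lit 54715, nat_lit 54707, nat_lit 35027] (nat_lit 0) [] false,
   Spec.mk (nat_lit 54713) (nat_lit 3) [nat_lit 50339, nat_lit 53255, nat_lit 54767, nat_lit 54695, nat_lit 54731, nat_lit 54707, nat_lit 54715] (nat_lit 0) [] false,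
   Spec.mk (nat_lit 54715) (nat_lit 3) [nat_lit 50341, nat_lit 53257, nat_lit 54769, nat_lit 54697, nat_lit 54733, nat_lit 54709, nat_lit 54721, nat_lit 54713, nat_lit 54717, nat_lit 35033] (nat_lit 0) [] false,
   Spec.mk (nat_lit 54717) (nat_lit 1) [nat_lit 50343, nat_lit 53259, nat_lit 54771, nat_lit 54699, nat_lit 54735, nat_lit 54723, nat_lit 54715, nat_lit 35035] (nat_lit 0) [] false,
   Spec.mk (nat_lit 54721) (nat_lit 2) [nat_lit 50347, nat_lit 53263, nat_lit 54775, nat_lit 54739, nat_lit 54715, nat_lit 54723, nat_lit 35039] (nat_lit 0) [] false,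
   Spec.mk (nat_lit 54723) (nat_lit 2) [nat_lit 50349, nat_lit 53265, nat_lit 54777, nat_lit 54741, nat_lit 54717, nat_lit 54721, nat_lit 35041] (nat_lit 0) [] false,
   Spec.mk (nat_lit 54731) (nat_lit 2) [nat_lit 50357, nat_lit 53273, nat_lit 54785, nat_lit 54713, nat_lit 54733] (nat_lit 0) [] false,
   Spec.mk (nat_lit 54733) (nat_lit 1) [nat_lit 50359, nat_lit 53275, nat_lit 54787, nat_lit 54715, nat_lit 54739, nat_lit 54731, nat_lit 54735, nat_lit 35051] (nat_lit 0) [] false,
   Spec.mk (nat_lit 54735) (nat_lit 0) [nat_lit 50361, nat_lit 53277, nat_lit 54789, nat_lit 54717, nat_lit 54741, nat_lit 54733, nat_lit 35053] (nat_lit 2) [] false,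
   Spec.mk (nat_lit 54739) (nat_lit 2) [nat_lit 50365, nat_lit 53281, nat_lit 54793, nat_lit 54721, nat_lit 54733, nat_lit 54741, nat_lit 35057] (nat_lit 0) [] false,
   Spec.mk (nat_lit 54741) (nat_lit 1) [nat_lit 50367, nat_lit 53283, nat_lit 54795, nat_lit 54723, nat_lit 54735, nat_lit 54747, nat_lit 54739, nat_lit 35059] (nat_lit 0) [] false,
   Spec.mk (nat_lit 54747) (nat_lit 2) [nat_lit 50373, nat_lit 53289, nat_lit 54801, nat_lit 54741, nat_lit 35065] (nat_lit 0) [] false,
   Spec.mk (nat_lit 54761) (nat_lit 4) [nat_lit 50387, nat_lit 53303, nat_lit 54923, nat_lit 54707, nat_lit 54767, nat_lit 54763] (nat_lit 0) [] false,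
   Spec.mk (nat_lit 54763) (nat_lit 2) [nat_lit 50389, nat_lit 53305, nat_lit 54925, nat_lit 54709, nat_lit 54769, nat_lit 54761, nat_lit 35081] (nat_lit 0) [] false,
   Spec.mk (nat_lit 54767) (nat_lit 2) [nat_lit 50393, nat_lit 53309, nat_lit 54929, nat_lit 54713, nat_lit 54785, nat_lit 54761, nat_lit 54769] (nat_lit 0) [] false,
   Spec.mk (nat_lit 54769) (nat_lit 2) [nat_lit 50395, nat_lit 53311, nat_lit 54931, nat_lit 54715, nat_lit 54787, nat_lit 54763, nat_lit 54775, nat_lit 54767, nat_lit 54771, nat_lit 35087] (nat_lit 0) [] false,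
   Spec.mk (nat_lit 54771) (nat_lit 0) [nat_lit 50397, nat_lit 53313, nat_lit 54933, nat_lit 54717, nat_lit 54789, nat_lit 54777, nat_lit 54769, nat_lit 35089] (nat_lit 0) [] false,
   Spec.mk (nat_lit 54775) (nat_lit 0) [nat_lit 50401, nat_lit 53317, nat_lit 54937, nat_lit 54721, nat_lit 54793, nat_lit 54769, nat_lit 54777, nat_lit 35093] (nat_lit 0) [] false,
   Spec.mk (nat_lit 54777) (nat_lit 0) [nat_lit 50403, nat_lit 53319, nat_lit 54939, nat_lit 54723, nat_lit 54795, nat_lit 54771, nat_lit 54775, nat_lit 35095] (nat_lit 0) [] false,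
   Spec.mk (nat_lit 54785) (nat_lit 3) [nat_lit 50411, nat_lit 53327, nat_lit 54947, nat_lit 54731, nat_lit 54839, nat_lit 54767, nat_lit 54787] (nat_lit 0) [] false,
   Spec.mk (nat_lit 54787) (nat_lit 2) [nat_lit 50413, nat_lit 53329, nat_lit 54949, nat_lit 54733, nat_lit 54841, nat_lit 54769, nat_lit 54793, nat_lit 54785, nat_lit 54789, nat_lit 35105] (nat_lit 0) [] false,
   Spec.mk (nat_lit 54789) (nat_lit 0) [nat_lit 50415, nat_lit 53331, nat_lit 54951, nat_lit 54735, nat_lit 54843, nat_lit 54771, nat_lit 54795, nat_lit 54787, nat_lit 35107] (nat_lit 1) [] false,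
   Spec.mk (nat_lit 54793) (nat_lit 2) [nat_lit 50419, nat_lit 53335, nat_lit 54955, nat_lit 54739, nat_lit 54847, nat_lit 54775, nat_lit 54811, nat_lit 54787, nat_lit 54795, nat_lit 35111] (nat_lit 0) [] false,
   Spec.mk (nat_lit 54795) (nat_lit 1) [nat_lit 50421, nat_lit 53337, nat_lit 54957, nat_lit 54741, nat_lit 54849, nat_lit 54777, nat_lit 54813, nat_lit 54789, nat_lit 54801, nat_lit 54793, nat_lit 35113] (nat_lit 0) [] false,
   Spec.mk (nat_lit 54801) (nat_lit 1) [nat_lit 50427, nat_lit 53343, nat_lit 54963, nat_lit 54747, nat_lit 54855, nat_lit 54819, nat_lit 54795, nat_lit 35119] (nat_lit 0) [] false,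
   Spec.mk (nat_lit 54811) (nat_lit 2) [nat_lit 50437, nat_lit 53353, nat_lit 54973, nat_lit 54865, nat_lit 54793, nat_lit 54813, nat_lit 35129] (nat_lit 0) [] false,
   Spec.mk (nat_lit 54813) (nat_lit 0) [nat_lit 50439, nat_lit 53355, nat_lit 54975, nat_lit 54867, nat_lit 54795, nat_lit 54819, nat_lit 54811, nat_lit 35131] (nat_lit 0) [] false,
   Spec.mk (nat_lit 54819) (nat_lit 2) [nat_lit 50445, nat_lit 53361, nat_lit 54981, nat_lit 54873, nat_lit 54801, nat_lit 54813, nat_lit 35137] (nat_lit 0) [] false,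
   Spec.mk (nat_lit 54839) (nat_lit 2) [nat_lit 50465, nat_lit 53381, nat_lit 55001, nat_lit 54785, nat_lit 54841] (nat_lit 0) [] false,
   Spec.mk (nat_lit 54841) (nat_lit 1) [nat_lit 50467, nat_lit 53383, nat_lit 55003, nat_lit 54787, nat_lit 54847, nat_lit 54839, nat_lit 54843, nat_lit 35159] (nat_lit 0) [] false,
   Spec.mk (nat_lit 54843) (nat_lit 0) [nat_lit 50469, nat_lit 53385, nat_lit 55005, nat_lit 54789, nat_lit 54849, nat_lit 54841, nat_lit 35161] (nat_lit 2) [] false,
   Spec.mk (nat_lit 54847) (nat_lit 0) [nat_lit 50473, nat_lit 53389, nat_lit 55009, nat_lit 54793, nat_lit 54865, nat_lit 54841, nat_lit 54849, nat_lit 35165] (nat_lit 0) [] false,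
   Spec.mk (nat_lit 54849) (nat_lit 0) [nat_lit 50475, nat_lit 53391, nat_lit 55011, nat_lit 54795, nat_lit 54867, nat_lit 54843, nat_lit 54855, nat_lit 54847, nat_lit 35167] (nat_lit 1) [] false,
   Spec.mk (nat_lit 54855) (nat_lit 0) [nat_lit 50481, nat_lit 53397, nat_lit 55017, nat_lit 54801, nat_lit 54873, nat_lit 54849, nat_lit 35173] (nat_lit 2) [] false,
   Spec.mk (nat_lit 54865) (nat_lit 2) [nat_lit 50491, nat_lit 53407, nat_lit 55027, nat_lit 54811, nat_lit 54847, nat_lit 54867, nat_lit 35183] (nat_lit 0) [] false,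
   Spec.mk (nat_lit 54867) (nat_lit 0) [nat_lit 50493, nat_lit 53409, nat_lit 55029, nat_lit 54813, nat_lit 54849, nat_lit 54873, nat_lit 54865, nat_lit 35185] (nat_lit 0) [] false,
   Spec.mk (nat_lit 54873) (nat_lit 1) [nat_lit 50499, nat_lit 53415, nat_lit 55035, nat_lit 54819, nat_lit 54855, nat_lit 54891, nat_lit 54867, nat_lit 35191] (nat_lit 0) [] false,
   Spec.mk (nat_lit 54891) (nat_lit 2) [nat_lit 50517, nat_lit 53433, nat_lit 55053, nat_lit 54873, nat_lit 35209] (nat_lit 0) [] false,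
   Spec.mk (nat_lit 54923) (nat_lit 4) [nat_lit 50549, nat_lit 53465, nat_lit 55409, nat_lit 54761, nat_lit 54929, nat_lit 54925] (nat_lit 0) [] false,
   Spec.mk (nat_lit 54925) (nat_lit 2) [nat_lit 50551, nat_lit 53467, nat_lit 55411, nat_lit 54763, nat_lit 54931, nat_lit 54923, nat_lit 35243] (nat_lit 0) [] false,
   Spec.mk (nat_lit 54929) (nat_lit 2) [nat_lit 50555, nat_lit 53471, nat_lit 55415, nat_lit 54767, nat_lit 54947, nat_lit 54923, nat_lit 54931] (nat_lit 0) [] false]

noncomputable def sp136 : List Spec :=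
  [Spec.mk (nat_lit 54931) (nat_lit 2) [nat_lit 50557, nat_lit 53473, nat_lit 55417, nat_lit 54769, nat_lit 54949, nat_lit 54925, nat_lit 54937, nat_lit 54929, nat_lit 54933, nat_lit 35249] (nat_lit 0) [] false,
   Spec.mk (nat_lit 54933) (nat_lit 0) [nat_lit 50559, nat_lit 53475, nat_lit 55419, nat_lit 54771, nat_lit 54951, nat_lit 54939, nat_lit 54931, nat_lit 35251] (nat_lit 0) [] false,
   Spec.mk (nat_lit 54937) (nat_lit 0) [nat_lit 50563, nat_lit 53479, nat_lit 55423, nat_lit 54775, nat_lit 54955, nat_lit 54931, nat_lit 54939, nat_lit 35255] (nat_lit 0) [] false,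
   Spec.mk (nat_lit 54939) (nat_lit 0) [nat_lit 50565, nat_lit 53481, nat_lit 55425, nat_lit 54777, nat_lit 54957, nat_lit 54933, nat_lit 54937, nat_lit 35257] (nat_lit 0) [] false,
   Spec.mk (nat_lit 54947) (nat_lit 2) [nat_lit 50573, nat_lit 53489, nat_lit 55433, nat_lit 54785, nat_lit 55001, nat_lit 54929, nat_lit 54949] (nat_lit 0) [] false,
   Spec.mk (nat_lit 54949) (nat_lit 1) [nat_lit 50575, nat_lit 53491, nat_lit 55435, nat_lit 54787, nat_lit 55003, nat_lit 54931, nat_lit 54955, nat_lit 54947, nat_lit 54951, nat_lit 35267] (nat_lit 0) [] false,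
   Spec.mk (nat_lit 54951) (nat_lit 0) [nat_lit 50577, nat_lit 53493, nat_lit 55437, nat_lit 54789, nat_lit 55005, nat_lit 54933, nat_lit 54957, nat_lit 54949, nat_lit 35269] (nat_lit 2) [] false,
   Spec.mk (nat_lit 54955) (nat_lit 1) [nat_lit 50581, nat_lit 53497, nat_lit 55441, nat_lit 54793, nat_lit 55009, nat_lit 54937, nat_lit 54973, nat_lit 54949, nat_lit 54957, nat_lit 35273] (nat_lit 0) [] false,
   Spec.mk (nat_lit 54957) (nat_lit 0) [nat_lit 50583, nat_lit 53499, nat_lit 55443, nat_lit 54795, nat_lit 55011, nat_lit 54939, nat_lit 54975, nat_lit 54951, nat_lit 54963, nat_lit 54955, nat_lit 35275] (nat_lit 0) [] false,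
   Spec.mk (nat_lit 54963) (nat_lit 0) [nat_lit 50589, nat_lit 53505, nat_lit 55449, nat_lit 54801, nat_lit 55017, nat_lit 54981, nat_lit 54957, nat_lit 35281] (nat_lit 0) [] false,
   Spec.mk (nat_lit 54973) (nat_lit 0) [nat_lit 50599, nat_lit 53515, nat_lit 55459, nat_lit 54811, nat_lit 55027, nat_lit 54955, nat_lit 54975, nat_lit 35291] (nat_lit 0) [] false,
   Spec.mk (nat_lit 54975) (nat_lit 0) [nat_lit 50601, nat_lit 53517, nat_lit 55461, nat_lit 54813, nat_lit 55029, nat_lit 54957, nat_lit 54981, nat_lit 54973, nat_lit 35293] (nat_lit 2) [] false,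
   Spec.mk (nat_lit 54981) (nat_lit 0) [nat_lit 50607, nat_lit 53523, nat_lit 55467, nat_lit 54819, nat_lit 55035, nat_lit 54963, nat_lit 54975, nat_lit 35299] (nat_lit 0) [] false,
   Spec.mk (nat_lit 55001) (nat_lit 3) [nat_lit 50627, nat_lit 53543, nat_lit 55487, nat_lit 54839, nat_lit 55163, nat_lit 54947, nat_lit 55003] (nat_lit 0) [] false,
   Spec.mk (nat_lit 55003) (nat_lit 2) [nat_lit 50629, nat_lit 53545, nat_lit 55489, nat_lit 54841, nat_lit 55165, nat_lit 54949, nat_lit 55009, nat_lit 55001, nat_lit 55005, nat_lit 35321] (nat_lit 0) [] false,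
   Spec.mk (nat_lit 55005) (nat_lit 0) [nat_lit 50631, nat_lit 53547, nat_lit 55491, nat_lit 54843, nat_lit 55167, nat_lit 54951, nat_lit 55011, nat_lit 55003, nat_lit 35323] (nat_lit 1) [] false,
   Spec.mk (nat_lit 55009) (nat_lit 1) [nat_lit 50635, nat_lit 53551, nat_lit 55495, nat_lit 54847, nat_lit 55171, nat_lit 54955, nat_lit 55027, nat_lit 55003, nat_lit 55011, nat_lit 35327] (nat_lit 0) [] false,
   Spec.mk (nat_lit 55011) (nat_lit 0) [nat_lit 50637, nat_lit 53553, nat_lit 55497, nat_lit 54849, nat_lit 55173, nat_lit 54957, nat_lit 55029, nat_lit 55005, nat_lit 55017, nat_lit 55009, nat_lit 35329] (nat_lit 0) [] false,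
   Spec.mk (nat_lit 55017) (nat_lit 0) [nat_lit 50643, nat_lit 53559, nat_lit 55503, nat_lit 54855, nat_lit 55179, nat_lit 54963, nat_lit 55035, nat_lit 55011, nat_lit 35335] (nat_lit 1) [] false,
   Spec.mk (nat_lit 55027) (nat_lit 2) [nat_lit 50653, nat_lit 53569, nat_lit 55513, nat_lit 54865, nat_lit 55189, nat_lit 54973, nat_lit 55081, nat_lit 55009, nat_lit 55029, nat_lit 35345] (nat_lit 0) [] false,
   Spec.mk (nat_lit 55029) (nat_lit 0) [nat_lit 50655, nat_lit 53571, nat_lit 55515, nat_lit 54867, nat_lit 55191, nat_lit 54975, nat_lit 55083, nat_lit 55011, nat_lit 55035, nat_lit 55027, nat_lit 35347] (nat_lit 0) [] false,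
   Spec.mk (nat_lit 55035) (nat_lit 1) [nat_lit 50661, nat_lit 53577, nat_lit 55521, nat_lit 54873, nat_lit 55197, nat_lit 54981, nat_lit 55089, nat_lit 55017, nat_lit 55053, nat_lit 55029, nat_lit 35353] (nat_lit 0) [] false,
   Spec.mk (nat_lit 55053) (nat_lit 1) [nat_lit 50679, nat_lit 53595, nat_lit 55539, nat_lit 54891, nat_lit 55215, nat_lit 55107, nat_lit 55035, nat_lit 35371] (nat_lit 0) [] false,
   Spec.mk (nat_lit 55081) (nat_lit 2) [nat_lit 50707, nat_lit 53623, nat_lit 55567, nat_lit 55243, nat_lit 55027, nat_lit 55083, nat_lit 35399] (nat_lit 0) [] false,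
   Spec.mk (nat_lit 55083) (nat_lit 0) [nat_lit 50709, nat_lit 53625, nat_lit 55569, nat_lit 55245, nat_lit 55029, nat_lit 55089, nat_lit 55081, nat_lit 35401] (nat_lit 0) [] false,
   Spec.mk (nat_lit 55089) (nat_lit 0) [nat_lit 50715, nat_lit 53631, nat_lit 55575, nat_lit 55251, nat_lit 55035, nat_lit 55107, nat_lit 55083, nat_lit 35407] (nat_lit 0) [] false,
   Spec.mk (nat_lit 55107) (nat_lit 2) [nat_lit 50733, nat_lit 53649, nat_lit 55593, nat_lit 55269, nat_lit 55053, nat_lit 55089, nat_lit 35425] (nat_lit 0) [] false,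
   Spec.mk (nat_lit 55163) (nat_lit 2) [nat_lit 50789, nat_lit 53705, nat_lit 55649, nat_lit 55001, nat_lit 55165] (nat_lit 0) [] false,
   Spec.mk (nat_lit 55165) (nat_lit 1) [nat_lit 50791, nat_lit 53707, nat_lit 55651, nat_lit 55003, nat_lit 55171, nat_lit 55163, nat_lit 55167, nat_lit 35483] (nat_lit 0) [] false,
   Spec.mk (nat_lit 55167) (nat_lit 0) [nat_lit 50793, nat_lit 53709, nat_lit 55653, nat_lit 55005, nat_lit 55173, nat_lit 55165, nat_lit 35485] (nat_lit 2) [] false,
   Spec.mk (nat_lit 55171) (nat_lit 0) [nat_lit 50797, nat_lit 53713, nat_lit 55657, nat_lit 55009, nat_lit 55189, nat_lit 55165, nat_lit 55173, nat_lit 35489] (nat_lit 0) [] false,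
   Spec.mk (nat_lit 55173) (nat_lit 0) [nat_lit 50799, nat_lit 53715, nat_lit 55659, nat_lit 55011, nat_lit 55191, nat_lit 55167, nat_lit 55179, nat_lit 55171, nat_lit 35491] (nat_lit 1) [] false,
   Spec.mk (nat_lit 55179) (nat_lit 0) [nat_lit 50805, nat_lit 53721, nat_lit 55665, nat_lit 55017, nat_lit 55197, nat_lit 55173, nat_lit 35497] (nat_lit 2) [] false,
   Spec.mk (nat_lit 55189) (nat_lit 0) [nat_lit 50815, nat_lit 53731, nat_lit 55675, nat_lit 55027, nat_lit 55243, nat_lit 55171, nat_lit 55191, nat_lit 35507] (nat_lit 0) [] false,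
   Spec.mk (nat_lit 55191) (nat_lit 0) [nat_lit 50817, nat_lit 53733, nat_lit 55677, nat_lit 55029, nat_lit 55245, nat_lit 55173, nat_lit 55197, nat_lit 55189, nat_lit 35509] (nat_lit 2) [] false,
   Spec.mk (nat_lit 55197) (nat_lit 0) [nat_lit 50823, nat_lit 53739, nat_lit 55683, nat_lit 55035, nat_lit 55251, nat_lit 55179, nat_lit 55215, nat_lit 55191, nat_lit 35515] (nat_lit 1) [] false,
   Spec.mk (nat_lit 55215) (nat_lit 0) [nat_lit 50841, nat_lit 53757, nat_lit 55701, nat_lit 55053, nat_lit 55269, nat_lit 55197, nat_lit 35533] (nat_lit 2) [] false,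
   Spec.mk (nat_lit 55243) (nat_lit 2) [nat_lit 50869, nat_lit 53785, nat_lit 55729, nat_lit 55081, nat_lit 55189, nat_lit 55245, nat_lit 35561] (nat_lit 0) [] false,
   Spec.mk (nat_lit 55245) (nat_lit 0) [nat_lit 50871, nat_lit 53787, nat_lit 55731, nat_lit 55083, nat_lit 55191, nat_lit 55251, nat_lit 55243, nat_lit 35563] (nat_lit 0) [] false,
   Spec.mk (nat_lit 55251) (nat_lit 0) [nat_lit 50877, nat_lit 53793, nat_lit 55737, nat_lit 55089, nat_lit 55197, nat_lit 55269, nat_lit 55245, nat_lit 35569] (nat_lit 0) [] false,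
   Spec.mk (nat_lit 55269) (nat_lit 1) [nat_lit 50895, nat_lit 53811, nat_lit 55755, nat_lit 55107, nat_lit 55215, nat_lit 55323, nat_lit 55251, nat_lit 35587] (nat_lit 0) [] false,
   Spec.mk (nat_lit 55323) (nat_lit 2) [nat_lit 50949, nat_lit 53865, nat_lit 55809, nat_lit 55269, nat_lit 35641] (nat_lit 0) [] false,
   Spec.mk (nat_lit 55409) (nat_lit 5) [nat_lit 51035, nat_lit 53951, nat_lit 56867, nat_lit 54923, nat_lit 55415, nat_lit 55411] (nat_lit 0) [] false,
   Spec.mk (nat_lit 55411) (nat_lit 3) [nat_lit 51037, nat_lit 53953, nat_lit 56869, nat_lit 54925, nat_lit 55417, nat_lit 55409, nat_lit 35729] (nat_lit 0) [] false,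
   Spec.mk (nat_lit 55415) (nat_lit 3) [nat_lit 51041, nat_lit 53957, nat_lit 56873, nat_lit 54929, nat_lit 55433, nat_lit 55409, nat_lit 55417] (nat_lit 0) [] false,
   Spec.mk (nat_lit 55417) (nat_lit 3) [nat_lit 51043, nat_lit 53959, nat_lit 56875, nat_lit 54931, nat_lit 55435, nat_lit 55411, nat_lit 55423, nat_lit 55415, nat_lit 55419, nat_lit 35735] (nat_lit 0) [] false,
   Spec.mk (nat_lit 55419) (nat_lit 1) [nat_lit 51045, nat_lit 53961, nat_lit 56877, nat_lit 54933, nat_lit 55437, nat_lit 55425, nat_lit 55417, nat_lit 35737] (nat_lit 0) [] false,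
   Spec.mk (nat_lit 55423) (nat_lit 1) [nat_lit 51049, nat_lit 53965, nat_lit 56881, nat_lit 54937, nat_lit 55441, nat_lit 55417, nat_lit 55425, nat_lit 35741] (nat_lit 0) [] false,
   Spec.mk (nat_lit 55425) (nat_lit 1) [nat_lit 51051, nat_lit 53967, nat_lit 56883, nat_lit 54939, nat_lit 55443, nat_lit 55419, nat_lit 55423, nat_lit 35743] (nat_lit 0) [] false,
   Spec.mk (nat_lit 55433) (nat_lit 3) [nat_lit 51059, nat_lit 53975, nat_lit 56891, nat_lit 54947, nat_lit 55487, nat_lit 55415, nat_lit 55435] (nat_lit 0) [] false,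
   Spec.mk (nat_lit 55435) (nat_lit 2) [nat_lit 51061, nat_lit 53977, nat_lit 56893, nat_lit 54949, nat_lit 55489, nat_lit 55417, nat_lit 55441, nat_lit 55433, nat_lit 55437, nat_lit 35753] (nat_lit 0) [] false,
   Spec.mk (nat_lit 55437) (nat_lit 0) [nat_lit 51063, nat_lit 53979, nat_lit 56895, nat_lit 54951, nat_lit 55491, nat_lit 55419, nat_lit 55443, nat_lit 55435, nat_lit 35755] (nat_lit 1) [] false,
   Spec.mk (nat_lit 55441) (nat_lit 2) [nat_lit 51067, nat_lit 53983, nat_lit 56899, nat_lit 54955, nat_lit 55495, nat_lit 55423, nat_lit 55459, nat_lit 55435, nat_lit 55443, nat_lit 35759] (nat_lit 0) [] false,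
   Spec.mk (nat_lit 55443) (nat_lit 1) [nat_lit 51069, nat_lit 53985, nat_lit 56901, nat_lit 54957, nat_lit 55497, nat_lit 55425, nat_lit 55461, nat_lit 55437, nat_lit 55449, nat_lit 55441, nat_lit 35761] (nat_lit 0) [] false,
   Spec.mk (nat_lit 55449) (nat_lit 1) [nat_lit 51075, nat_lit 53991, nat_lit 56907, nat_lit 54963, nat_lit 55503, nat_lit 55467, nat_lit 55443, nat_lit 35767] (nat_lit 0) [] false,
   Spec.mk (nat_lit 55459) (nat_lit 1) [nat_lit 51085, nat_lit 54001, nat_lit 56917, nat_lit 54973, nat_lit 55513, nat_lit 55441, nat_lit 55461, nat_lit 35777] (nat_lit 0) [] false,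
   Spec.mk (nat_lit 55461) (nat_lit 0) [nat_lit 51087, nat_lit 54003, nat_lit 56919, nat_lit 54975, nat_lit 55515, nat_lit 55443, nat_lit 55467, nat_lit 55459, nat_lit 35779] (nat_lit 1) [] false,
   Spec.mk (nat_lit 55467) (nat_lit 1) [nat_lit 51093, nat_lit 54009, nat_lit 56925, nat_lit 54981, nat_lit 55521, nat_lit 55449, nat_lit 55461, nat_lit 35785] (nat_lit 0) [] false,
   Spec.mk (nat_lit 55487) (nat_lit 3) [nat_lit 51113, nat_lit 54029, nat_lit 56945, nat_lit 55001, nat_lit 55649, nat_lit 55433, nat_lit 55489] (nat_lit 0) [] false,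
   Spec.mk (nat_lit 55489) (nat_lit 2) [nat_lit 51115, nat_lit 54031, nat_lit 56947, nat_lit 55003, nat_lit 55651, nat_lit 55435, nat_lit 55495, nat_lit 55487, nat_lit 55491, nat_lit 35807] (nat_lit 0) [] false]

noncomputable def sp137 : List Spec :=
  [Spec.mk (nat_lit 55491) (nat_lit 0) [nat_lit 51117, nat_lit 54033, nat_lit 56949, nat_lit 55005, nat_lit 55653, nat_lit 55437, nat_lit 55497, nat_lit 55489, nat_lit 35809] (nat_lit 1) [] false,
   Spec.mk (nat_lit 55495) (nat_lit 1) [nat_lit 51121, nat_lit 54037, nat_lit 56953, nat_lit 55009, nat_lit 55657, nat_lit 55441, nat_lit 55513, nat_lit 55489, nat_lit 55497, nat_lit 35813] (nat_lit 0) [] false,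
   Spec.mk (nat_lit 55497) (nat_lit 0) [nat_lit 51123, nat_lit 54039, nat_lit 56955, nat_lit 55011, nat_lit 55659, nat_lit 55443, nat_lit 55515, nat_lit 55491, nat_lit 55503, nat_lit 55495, nat_lit 35815] (nat_lit 0) [] false,
   Spec.mk (nat_lit 55503) (nat_lit 0) [nat_lit 51129, nat_lit 54045, nat_lit 56961, nat_lit 55017, nat_lit 55665, nat_lit 55449, nat_lit 55521, nat_lit 55497, nat_lit 35821] (nat_lit 1) [] false,
   Spec.mk (nat_lit 55513) (nat_lit 2) [nat_lit 51139, nat_lit 54055, nat_lit 56971, nat_lit 55027, nat_lit 55675, nat_lit 55459, nat_lit 55567, nat_lit 55495, nat_lit 55515, nat_lit 35831] (nat_lit 0) [] false,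
   Spec.mk (nat_lit 55515) (nat_lit 0) [nat_lit 51141, nat_lit 54057, nat_lit 56973, nat_lit 55029, nat_lit 55677, nat_lit 55461, nat_lit 55569, nat_lit 55497, nat_lit 55521, nat_lit 55513, nat_lit 35833] (nat_lit 0) [] false,
   Spec.mk (nat_lit 55521) (nat_lit 1) [nat_lit 51147, nat_lit 54063, nat_lit 56979, nat_lit 55035, nat_lit 55683, nat_lit 55467, nat_lit 55575, nat_lit 55503, nat_lit 55539, nat_lit 55515, nat_lit 35839] (nat_lit 0) [] false,
   Spec.mk (nat_lit 55539) (nat_lit 1) [nat_lit 51165, nat_lit 54081, nat_lit 56997, nat_lit 55053, nat_lit 55701, nat_lit 55593, nat_lit 55521, nat_lit 35857] (nat_lit 0) [] false,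
   Spec.mk (nat_lit 55567) (nat_lit 1) [nat_lit 51193, nat_lit 54109, nat_lit 57025, nat_lit 55081, nat_lit 55729, nat_lit 55513, nat_lit 55569, nat_lit 35885] (nat_lit 0) [] false,
   Spec.mk (nat_lit 55569) (nat_lit 0) [nat_lit 51195, nat_lit 54111, nat_lit 57027, nat_lit 55083, nat_lit 55731, nat_lit 55515, nat_lit 55575, nat_lit 55567, nat_lit 35887] (nat_lit 1) [] false,
   Spec.mk (nat_lit 55575) (nat_lit 0) [nat_lit 51201, nat_lit 54117, nat_lit 57033, nat_lit 55089, nat_lit 55737, nat_lit 55521, nat_lit 55593, nat_lit 55569, nat_lit 35893] (nat_lit 1) [] false,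
   Spec.mk (nat_lit 55593) (nat_lit 1) [nat_lit 51219, nat_lit 54135, nat_lit 57051, nat_lit 55107, nat_lit 55755, nat_lit 55539, nat_lit 55575, nat_lit 35911] (nat_lit 0) [] false,
   Spec.mk (nat_lit 55649) (nat_lit 4) [nat_lit 51275, nat_lit 54191, nat_lit 57107, nat_lit 55163, nat_lit 56135, nat_lit 55487, nat_lit 55651] (nat_lit 0) [] false,
   Spec.mk (nat_lit 55651) (nat_lit 3) [nat_lit 51277, nat_lit 54193, nat_lit 57109, nat_lit 55165, nat_lit 56137, nat_lit 55489, nat_lit 55657, nat_lit 55649, nat_lit 55653, nat_lit 35969] (nat_lit 0) [] false,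
   Spec.mk (nat_lit 55653) (nat_lit 0) [nat_lit 51279, nat_lit 54195, nat_lit 57111, nat_lit 55167, nat_lit 56139, nat_lit 55491, nat_lit 55659, nat_lit 55651, nat_lit 35971] (nat_lit 0) [] false,
   Spec.mk (nat_lit 55657) (nat_lit 2) [nat_lit 51283, nat_lit 54199, nat_lit 57115, nat_lit 55171, nat_lit 56143, nat_lit 55495, nat_lit 55675, nat_lit 55651, nat_lit 55659, nat_lit 35975] (nat_lit 0) [] false,
   Spec.mk (nat_lit 55659) (nat_lit 1) [nat_lit 51285, nat_lit 54201, nat_lit 57117, nat_lit 55173, nat_lit 56145, nat_lit 55497, nat_lit 55677, nat_lit 55653, nat_lit 55665, nat_lit 55657, nat_lit 35977] (nat_lit 0) [] false,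
   Spec.mk (nat_lit 55665) (nat_lit 0) [nat_lit 51291, nat_lit 54207, nat_lit 57123, nat_lit 55179, nat_lit 56151, nat_lit 55503, nat_lit 55683, nat_lit 55659, nat_lit 35983] (nat_lit 0) [] false,
   Spec.mk (nat_lit 55675) (nat_lit 2) [nat_lit 51301, nat_lit 54217, nat_lit 57133, nat_lit 55189, nat_lit 56161, nat_lit 55513, nat_lit 55729, nat_lit 55657, nat_lit 55677, nat_lit 35993] (nat_lit 0) [] false,
   Spec.mk (nat_lit 55677) (nat_lit 0) [nat_lit 51303, nat_lit 54219, nat_lit 57135, nat_lit 55191, nat_lit 56163, nat_lit 55515, nat_lit 55731, nat_lit 55659, nat_lit 55683, nat_lit 55675, nat_lit 35995] (nat_lit 0) [] false,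
   Spec.mk (nat_lit 55683) (nat_lit 1) [nat_lit 51309, nat_lit 54225, nat_lit 57141, nat_lit 55197, nat_lit 56169, nat_lit 55521, nat_lit 55737, nat_lit 55665, nat_lit 55701, nat_lit 55677, nat_lit 36001] (nat_lit 0) [] false,
   Spec.mk (nat_lit 55701) (nat_lit 0) [nat_lit 51327, nat_lit 54243, nat_lit 57159, nat_lit 55215, nat_lit 56187, nat_lit 55539, nat_lit 55755, nat_lit 55683, nat_lit 36019] (nat_lit 0) [] false,
   Spec.mk (nat_lit 55729) (nat_lit 3) [nat_lit 51355, nat_lit 54271, nat_lit 57187, nat_lit 55243, nat_lit 56215, nat_lit 55567, nat_lit 55891, nat_lit 55675, nat_lit 55731, nat_lit 36047] (nat_lit 0) [] false,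
   Spec.mk (nat_lit 55731) (nat_lit 1) [nat_lit 51357, nat_lit 54273, nat_lit 57189, nat_lit 55245, nat_lit 56217, nat_lit 55569, nat_lit 55893, nat_lit 55677, nat_lit 55737, nat_lit 55729, nat_lit 36049] (nat_lit 0) [] false,
   Spec.mk (nat_lit 55737) (nat_lit 1) [nat_lit 51363, nat_lit 54279, nat_lit 57195, nat_lit 55251, nat_lit 56223, nat_lit 55575, nat_lit 55899, nat_lit 55683, nat_lit 55755, nat_lit 55731, nat_lit 36055] (nat_lit 0) [] false,
   Spec.mk (nat_lit 55755) (nat_lit 2) [nat_lit 51381, nat_lit 54297, nat_lit 57213, nat_lit 55269, nat_lit 56241, nat_lit 55593, nat_lit 55917, nat_lit 55701, nat_lit 55809, nat_lit 55737, nat_lit 36073] (nat_lit 0) [] false,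
   Spec.mk (nat_lit 55809) (nat_lit 2) [nat_lit 51435, nat_lit 54351, nat_lit 57267, nat_lit 55323, nat_lit 56295, nat_lit 55971, nat_lit 55755, nat_lit 36127] (nat_lit 0) [] false,
   Spec.mk (nat_lit 55891) (nat_lit 3) [nat_lit 51517, nat_lit 54433, nat_lit 57349, nat_lit 56377, nat_lit 55729, nat_lit 55893, nat_lit 36209] (nat_lit 0) [] false,
   Spec.mk (nat_lit 55893) (nat_lit 1) [nat_lit 51519, nat_lit 54435, nat_lit 57351, nat_lit 56379, nat_lit 55731, nat_lit 55899, nat_lit 55891, nat_lit 36211] (nat_lit 0) [] false,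
   Spec.mk (nat_lit 55899) (nat_lit 1) [nat_lit 51525, nat_lit 54441, nat_lit 57357, nat_lit 56385, nat_lit 55737, nat_lit 55917, nat_lit 55893, nat_lit 36217] (nat_lit 0) [] false,
   Spec.mk (nat_lit 55917) (nat_lit 1) [nat_lit 51543, nat_lit 54459, nat_lit 57375, nat_lit 56403, nat_lit 55755, nat_lit 55971, nat_lit 55899, nat_lit 36235] (nat_lit 0) [] false,
   Spec.mk (nat_lit 55971) (nat_lit 3) [nat_lit 51597, nat_lit 54513, nat_lit 57429, nat_lit 56457, nat_lit 55809, nat_lit 55917, nat_lit 36289] (nat_lit 0) [] false,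
   Spec.mk (nat_lit 56135) (nat_lit 4) [nat_lit 51761, nat_lit 57593, nat_lit 55649, nat_lit 56137] (nat_lit 0) [] false,
   Spec.mk (nat_lit 56137) (nat_lit 3) [nat_lit 51763, nat_lit 57595, nat_lit 55651, nat_lit 56143, nat_lit 56135, nat_lit 56139, nat_lit 36455] (nat_lit 0) [] false,
   Spec.mk (nat_lit 56139) (nat_lit 0) [nat_lit 51765, nat_lit 57597, nat_lit 55653, nat_lit 56145, nat_lit 56137, nat_lit 36457] (nat_lit 0) [] false,
   Spec.mk (nat_lit 56143) (nat_lit 2) [nat_lit 51769, nat_lit 57601, nat_lit 55657, nat_lit 56161, nat_lit 56137, nat_lit 56145, nat_lit 36461] (nat_lit 0) [] false,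
   Spec.mk (nat_lit 56145) (nat_lit 1) [nat_lit 51771, nat_lit 57603, nat_lit 55659, nat_lit 56163, nat_lit 56139, nat_lit 56151, nat_lit 56143, nat_lit 36463] (nat_lit 0) [] false,
   Spec.mk (nat_lit 56151) (nat_lit 0) [nat_lit 51777, nat_lit 57609, nat_lit 55665, nat_lit 56169, nat_lit 56145, nat_lit 36469] (nat_lit 0) [] false,
   Spec.mk (nat_lit 56161) (nat_lit 2) [nat_lit 51787, nat_lit 57619, nat_lit 55675, nat_lit 56215, nat_lit 56143, nat_lit 56163, nat_lit 36479] (nat_lit 0) [] false,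
   Spec.mk (nat_lit 56163) (nat_lit 0) [nat_lit 51789, nat_lit 57621, nat_lit 55677, nat_lit 56217, nat_lit 56145, nat_lit 56169, nat_lit 56161, nat_lit 36481] (nat_lit 0) [] false,
   Spec.mk (nat_lit 56169) (nat_lit 1) [nat_lit 51795, nat_lit 57627, nat_lit 55683, nat_lit 56223, nat_lit 56151, nat_lit 56187, nat_lit 56163, nat_lit 36487] (nat_lit 0) [] false,
   Spec.mk (nat_lit 56187) (nat_lit 0) [nat_lit 51813, nat_lit 57645, nat_lit 55701, nat_lit 56241, nat_lit 56169, nat_lit 36505] (nat_lit 0) [] false,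
   Spec.mk (nat_lit 56215) (nat_lit 2) [nat_lit 51841, nat_lit 57673, nat_lit 55729, nat_lit 56377, nat_lit 56161, nat_lit 56217, nat_lit 36533] (nat_lit 0) [] false,
   Spec.mk (nat_lit 56217) (nat_lit 0) [nat_lit 51843, nat_lit 57675, nat_lit 55731, nat_lit 56379, nat_lit 56163, nat_lit 56223, nat_lit 56215, nat_lit 36535] (nat_lit 0) [] false,
   Spec.mk (nat_lit 56223) (nat_lit 0) [nat_lit 51849, nat_lit 57681, nat_lit 55737, nat_lit 56385, nat_lit 56169, nat_lit 56241, nat_lit 56217, nat_lit 36541] (nat_lit 0) [] false,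
   Spec.mk (nat_lit 56241) (nat_lit 1) [nat_lit 51867, nat_lit 57699, nat_lit 55755, nat_lit 56403, nat_lit 56187, nat_lit 56295, nat_lit 56223, nat_lit 36559] (nat_lit 0) [] false,
   Spec.mk (nat_lit 56295) (nat_lit 0) [nat_lit 51921, nat_lit 57753, nat_lit 55809, nat_lit 56457, nat_lit 56241, nat_lit 36613] (nat_lit 0) [] false,
   Spec.mk (nat_lit 56377) (nat_lit 4) [nat_lit 52003, nat_lit 57835, nat_lit 55891, nat_lit 56215, nat_lit 56379, nat_lit 36695] (nat_lit 0) [] false,
   Spec.mk (nat_lit 56379) (nat_lit 2) [nat_lit 52005, nat_lit 57837, nat_lit 55893, nat_lit 56217, nat_lit 56385, nat_lit 56377, nat_lit 36697] (nat_lit 0) [] false,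
   Spec.mk (nat_lit 56385) (nat_lit 2) [nat_lit 52011, nat_lit 57843, nat_lit 55899, nat_lit 56223, nat_lit 56403, nat_lit 56379, nat_lit 36703] (nat_lit 0) [] false,
   Spec.mk (nat_lit 56403) (nat_lit 2) [nat_lit 52029, nat_lit 57861, nat_lit 55917, nat_lit 56241, nat_lit 56457, nat_lit 56385, nat_lit 36721] (nat_lit 0) [] false,
   Spec.mk (nat_lit 56457) (nat_lit 3) [nat_lit 52083, nat_lit 57915, nat_lit 55971, nat_lit 56295, nat_lit 56619, nat_lit 56403, nat_lit 36775] (nat_lit 0) [] false,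
   Spec.mk (nat_lit 56619) (nat_lit 4) [nat_lit 52245, nat_lit 58077, nat_lit 56457, nat_lit 36937] (nat_lit 0) [] false,
   Spec.mk (nat_lit 56867) (nat_lit 6) [nat_lit 55409, nat_lit 56873, nat_lit 56869] (nat_lit 0) [] false,
   Spec.mk (nat_lit 56869) (nat_lit 4) [nat_lit 55411, nat_lit 56875, nat_lit 56867, nat_lit 37187] (nat_lit 0) [] false,
   Spec.mk (nat_lit 56873) (nat_lit 4) [nat_lit 55415, nat_lit 56891, nat_lit 56867, nat_lit 56875] (nat_lit 0) [] false,
   Spec.mk (nat_lit 56875) (nat_lit 4) [nat_lit 55417, nat_lit 56893, nat_lit 56869, nat_lit 56881, nat_lit 56873, nat_lit 56877, nat_lit 37193] (nat_lit 0) [] false,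
   Spec.mk (nat_lit 56877) (nat_lit 2) [nat_lit 55419, nat_lit 56895, nat_lit 56883, nat_lit 56875, nat_lit 37195] (nat_lit 0) [] false,
   Spec.mk (nat_lit 56881) (nat_lit 2) [nat_lit 55423, nat_lit 56899, nat_lit 56875, nat_lit 56883, nat_lit 37199] (nat_lit 0) [] false,
   Spec.mk (nat_lit 56883) (nat_lit 2) [nat_lit 55425, nat_lit 56901, nat_lit 56877, nat_lit 56881, nat_lit 37201] (nat_lit 0) [] false]

noncomputable def sp138 : List Spec :=
  [Spec.mk (nat_lit 56891) (nat_lit 4) [nat_lit 55433, nat_lit 56945, nat_lit 56873, nat_lit 56893] (nat_lit 0) [] false,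
   Spec.mk (nat_lit 56893) (nat_lit 3) [nat_lit 55435, nat_lit 56947, nat_lit 56875, nat_lit 56899, nat_lit 56891, nat_lit 56895, nat_lit 37211] (nat_lit 0) [] false,
   Spec.mk (nat_lit 56895) (nat_lit 0) [nat_lit 55437, nat_lit 56949, nat_lit 56877, nat_lit 56901, nat_lit 56893, nat_lit 37213] (nat_lit 0) [] false,
   Spec.mk (nat_lit 56899) (nat_lit 3) [nat_lit 55441, nat_lit 56953, nat_lit 56881, nat_lit 56917, nat_lit 56893, nat_lit 56901, nat_lit 37217] (nat_lit 0) [] false,
   Spec.mk (nat_lit 56901) (nat_lit 2) [nat_lit 55443, nat_lit 56955, nat_lit 56883, nat_lit 56919, nat_lit 56895, nat_lit 56907, nat_lit 56899, nat_lit 37219] (nat_lit 0) [] false,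
   Spec.mk (nat_lit 56907) (nat_lit 2) [nat_lit 55449, nat_lit 56961, nat_lit 56925, nat_lit 56901, nat_lit 37225] (nat_lit 0) [] false,
   Spec.mk (nat_lit 56917) (nat_lit 2) [nat_lit 55459, nat_lit 56971, nat_lit 56899, nat_lit 56919, nat_lit 37235] (nat_lit 0) [] false,
   Spec.mk (nat_lit 56919) (nat_lit 0) [nat_lit 55461, nat_lit 56973, nat_lit 56901, nat_lit 56925, nat_lit 56917, nat_lit 37237] (nat_lit 0) [] false,
   Spec.mk (nat_lit 56925) (nat_lit 2) [nat_lit 55467, nat_lit 56979, nat_lit 56907, nat_lit 56919, nat_lit 37243] (nat_lit 0) [] false,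
   Spec.mk (nat_lit 56945) (nat_lit 4) [nat_lit 55487, nat_lit 57107, nat_lit 56891, nat_lit 56947] (nat_lit 0) [] false,
   Spec.mk (nat_lit 56947) (nat_lit 3) [nat_lit 55489, nat_lit 57109, nat_lit 56893, nat_lit 56953, nat_lit 56945, nat_lit 56949, nat_lit 37265] (nat_lit 0) [] false,
   Spec.mk (nat_lit 56949) (nat_lit 0) [nat_lit 55491, nat_lit 57111, nat_lit 56895, nat_lit 56955, nat_lit 56947, nat_lit 37267] (nat_lit 0) [] false,
   Spec.mk (nat_lit 56953) (nat_lit 2) [nat_lit 55495, nat_lit 57115, nat_lit 56899, nat_lit 56971, nat_lit 56947, nat_lit 56955, nat_lit 37271] (nat_lit 0) [] false,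
   Spec.mk (nat_lit 56955) (nat_lit 1) [nat_lit 55497, nat_lit 57117, nat_lit 56901, nat_lit 56973, nat_lit 56949, nat_lit 56961, nat_lit 56953, nat_lit 37273] (nat_lit 0) [] false,
   Spec.mk (nat_lit 56961) (nat_lit 0) [nat_lit 55503, nat_lit 57123, nat_lit 56907, nat_lit 56979, nat_lit 56955, nat_lit 37279] (nat_lit 0) [] false,
   Spec.mk (nat_lit 56971) (nat_lit 3) [nat_lit 55513, nat_lit 57133, nat_lit 56917, nat_lit 57025, nat_lit 56953, nat_lit 56973, nat_lit 37289] (nat_lit 0) [] false,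
   Spec.mk (nat_lit 56973) (nat_lit 1) [nat_lit 55515, nat_lit 57135, nat_lit 56919, nat_lit 57027, nat_lit 56955, nat_lit 56979, nat_lit 56971, nat_lit 37291] (nat_lit 0) [] false,
   Spec.mk (nat_lit 56979) (nat_lit 2) [nat_lit 55521, nat_lit 57141, nat_lit 56925, nat_lit 57033, nat_lit 56961, nat_lit 56997, nat_lit 56973, nat_lit 37297] (nat_lit 0) [] false,
   Spec.mk (nat_lit 56997) (nat_lit 2) [nat_lit 55539, nat_lit 57159, nat_lit 57051, nat_lit 56979, nat_lit 37315] (nat_lit 0) [] false,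
   Spec.mk (nat_lit 57025) (nat_lit 2) [nat_lit 55567, nat_lit 57187, nat_lit 56971, nat_lit 57027, nat_lit 37343] (nat_lit 0) [] false,
   Spec.mk (nat_lit 57027) (nat_lit 0) [nat_lit 55569, nat_lit 57189, nat_lit 56973, nat_lit 57033, nat_lit 57025, nat_lit 37345] (nat_lit 0) [] false,
   Spec.mk (nat_lit 57033) (nat_lit 0) [nat_lit 55575, nat_lit 57195, nat_lit 56979, nat_lit 57051, nat_lit 57027, nat_lit 37351] (nat_lit 0) [] false,
   Spec.mk (nat_lit 57051) (nat_lit 2) [nat_lit 55593, nat_lit 57213, nat_lit 56997, nat_lit 57033, nat_lit 37369] (nat_lit 0) [] false,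
   Spec.mk (nat_lit 57107) (nat_lit 4) [nat_lit 55649, nat_lit 57593, nat_lit 56945, nat_lit 57109] (nat_lit 0) [] false,
   Spec.mk (nat_lit 57109) (nat_lit 3) [nat_lit 55651, nat_lit 57595, nat_lit 56947, nat_lit 57115, nat_lit 57107, nat_lit 57111, nat_lit 37427] (nat_lit 0) [] false,
   Spec.mk (nat_lit 57111) (nat_lit 0) [nat_lit 55653, nat_lit 57597, nat_lit 56949, nat_lit 57117, nat_lit 57109, nat_lit 37429] (nat_lit 0) [] false,
   Spec.mk (nat_lit 57115) (nat_lit 2) [nat_lit 55657, nat_lit 57601, nat_lit 56953, nat_lit 57133, nat_lit 57109, nat_lit 57117, nat_lit 37433] (nat_lit 0) [] false,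
   Spec.mk (nat_lit 57117) (nat_lit 1) [nat_lit 55659, nat_lit 57603, nat_lit 56955, nat_lit 57135, nat_lit 57111, nat_lit 57123, nat_lit 57115, nat_lit 37435] (nat_lit 0) [] false,
   Spec.mk (nat_lit 57123) (nat_lit 0) [nat_lit 55665, nat_lit 57609, nat_lit 56961, nat_lit 57141, nat_lit 57117, nat_lit 37441] (nat_lit 0) [] false,
   Spec.mk (nat_lit 57133) (nat_lit 2) [nat_lit 55675, nat_lit 57619, nat_lit 56971, nat_lit 57187, nat_lit 57115, nat_lit 57135, nat_lit 37451] (nat_lit 0) [] false,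
   Spec.mk (nat_lit 57135) (nat_lit 0) [nat_lit 55677, nat_lit 57621, nat_lit 56973, nat_lit 57189, nat_lit 57117, nat_lit 57141, nat_lit 57133, nat_lit 37453] (nat_lit 0) [] false,
   Spec.mk (nat_lit 57141) (nat_lit 1) [nat_lit 55683, nat_lit 57627, nat_lit 56979, nat_lit 57195, nat_lit 57123, nat_lit 57159, nat_lit 57135, nat_lit 37459] (nat_lit 0) [] false,
   Spec.mk (nat_lit 57159) (nat_lit 0) [nat_lit 55701, nat_lit 57645, nat_lit 56997, nat_lit 57213, nat_lit 57141, nat_lit 37477] (nat_lit 0) [] false,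
   Spec.mk (nat_lit 57187) (nat_lit 3) [nat_lit 55729, nat_lit 57673, nat_lit 57025, nat_lit 57349, nat_lit 57133, nat_lit 57189, nat_lit 37505] (nat_lit 0) [] false,
   Spec.mk (nat_lit 57189) (nat_lit 1) [nat_lit 55731, nat_lit 57675, nat_lit 57027, nat_lit 57351, nat_lit 57135, nat_lit 57195, nat_lit 57187, nat_lit 37507] (nat_lit 0) [] false,
   Spec.mk (nat_lit 57195) (nat_lit 1) [nat_lit 55737, nat_lit 57681, nat_lit 57033, nat_lit 57357, nat_lit 57141, nat_lit 57213, nat_lit 57189, nat_lit 37513] (nat_lit 0) [] false,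
   Spec.mk (nat_lit 57213) (nat_lit 2) [nat_lit 55755, nat_lit 57699, nat_lit 57051, nat_lit 57375, nat_lit 57159, nat_lit 57267, nat_lit 57195, nat_lit 37531] (nat_lit 0) [] false,
   Spec.mk (nat_lit 57267) (nat_lit 2) [nat_lit 55809, nat_lit 57753, nat_lit 57429, nat_lit 57213, nat_lit 37585] (nat_lit 0) [] false,
   Spec.mk (nat_lit 57349) (nat_lit 2) [nat_lit 55891, nat_lit 57835, nat_lit 57187, nat_lit 57351, nat_lit 37667] (nat_lit 0) [] false,
   Spec.mk (nat_lit 57351) (nat_lit 0) [nat_lit 55893, nat_lit 57837, nat_lit 57189, nat_lit 57357, nat_lit 57349, nat_lit 37669] (nat_lit 0) [] false,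
   Spec.mk (nat_lit 57357) (nat_lit 0) [nat_lit 55899, nat_lit 57843, nat_lit 57195, nat_lit 57375, nat_lit 57351, nat_lit 37675] (nat_lit 0) [] false,
   Spec.mk (nat_lit 57375) (nat_lit 0) [nat_lit 55917, nat_lit 57861, nat_lit 57213, nat_lit 57429, nat_lit 57357, nat_lit 37693] (nat_lit 0) [] false,
   Spec.mk (nat_lit 57429) (nat_lit 2) [nat_lit 55971, nat_lit 57915, nat_lit 57267, nat_lit 57375, nat_lit 37747] (nat_lit 0) [] false,
   Spec.mk (nat_lit 57593) (nat_lit 6) [nat_lit 56135, nat_lit 57107, nat_lit 57595] (nat_lit 0) [] false,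
   Spec.mk (nat_lit 57595) (nat_lit 5) [nat_lit 56137, nat_lit 57109, nat_lit 57601, nat_lit 57593, nat_lit 57597, nat_lit 37913] (nat_lit 0) [] false,
   Spec.mk (nat_lit 57597) (nat_lit 2) [nat_lit 56139, nat_lit 57111, nat_lit 57603, nat_lit 57595, nat_lit 37915] (nat_lit 0) [] false,
   Spec.mk (nat_lit 57601) (nat_lit 4) [nat_lit 56143, nat_lit 57115, nat_lit 57619, nat_lit 57595, nat_lit 57603, nat_lit 37919] (nat_lit 0) [] false,
   Spec.mk (nat_lit 57603) (nat_lit 3) [nat_lit 56145, nat_lit 57117, nat_lit 57621, nat_lit 57597, nat_lit 57609, nat_lit 57601, nat_lit 37921] (nat_lit 0) [] false,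
   Spec.mk (nat_lit 57609) (nat_lit 2) [nat_lit 56151, nat_lit 57123, nat_lit 57627, nat_lit 57603, nat_lit 37927] (nat_lit 0) [] false,
   Spec.mk (nat_lit 57619) (nat_lit 4) [nat_lit 56161, nat_lit 57133, nat_lit 57673, nat_lit 57601, nat_lit 57621, nat_lit 37937] (nat_lit 0) [] false,
   Spec.mk (nat_lit 57621) (nat_lit 2) [nat_lit 56163, nat_lit 57135, nat_lit 57675, nat_lit 57603, nat_lit 57627, nat_lit 57619, nat_lit 37939] (nat_lit 0) [] false,
   Spec.mk (nat_lit 57627) (nat_lit 3) [nat_lit 56169, nat_lit 57141, nat_lit 57681, nat_lit 57609, nat_lit 57645, nat_lit 57621, nat_lit 37945] (nat_lit 0) [] false,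
   Spec.mk (nat_lit 57645) (nat_lit 2) [nat_lit 56187, nat_lit 57159, nat_lit 57699, nat_lit 57627, nat_lit 37963] (nat_lit 0) [] false,
   Spec.mk (nat_lit 57673) (nat_lit 4) [nat_lit 56215, nat_lit 57187, nat_lit 57835, nat_lit 57619, nat_lit 57675, nat_lit 37991] (nat_lit 0) [] false,
   Spec.mk (nat_lit 57675) (nat_lit 2) [nat_lit 56217, nat_lit 57189, nat_lit 57837, nat_lit 57621, nat_lit 57681, nat_lit 57673, nat_lit 37993] (nat_lit 0) [] false,
   Spec.mk (nat_lit 57681) (nat_lit 2) [nat_lit 56223, nat_lit 57195, nat_lit 57843, nat_lit 57627, nat_lit 57699, nat_lit 57675, nat_lit 37999] (nat_lit 0) [] false,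
   Spec.mk (nat_lit 57699) (nat_lit 3) [nat_lit 56241, nat_lit 57213, nat_lit 57861, nat_lit 57645, nat_lit 57753, nat_lit 57681, nat_lit 38017] (nat_lit 0) [] false,
   Spec.mk (nat_lit 57753) (nat_lit 2) [nat_lit 56295, nat_lit 57267, nat_lit 57915, nat_lit 57699, nat_lit 38071] (nat_lit 0) [] false,
   Spec.mk (nat_lit 57835) (nat_lit 5) [nat_lit 56377, nat_lit 57349, nat_lit 58321, nat_lit 57673, nat_lit 57837, nat_lit 38153] (nat_lit 0) [] false,
   Spec.mk (nat_lit 57837) (nat_lit 3) [nat_lit 56379, nat_lit 57351, nat_lit 58323, nat_lit 57675, nat_lit 57843, nat_lit 57835, nat_lit 38155] (nat_lit 0) [] false]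

noncomputable def sp139 : List Spec :=
  [Spec.mk (nat_lit 57843) (nat_lit 3) [nat_lit 56385, nat_lit 57357, nat_lit 58329, nat_lit 57681, nat_lit 57861, nat_lit 57837, nat_lit 38161] (nat_lit 0) [] false,
   Spec.mk (nat_lit 57861) (nat_lit 3) [nat_lit 56403, nat_lit 57375, nat_lit 58347, nat_lit 57699, nat_lit 57915, nat_lit 57843, nat_lit 38179] (nat_lit 0) [] false,
   Spec.mk (nat_lit 57915) (nat_lit 4) [nat_lit 56457, nat_lit 57429, nat_lit 58401, nat_lit 57753, nat_lit 58077, nat_lit 57861, nat_lit 38233] (nat_lit 0) [] false,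
   Spec.mk (nat_lit 58077) (nat_lit 4) [nat_lit 56619, nat_lit 58563, nat_lit 57915, nat_lit 38395] (nat_lit 0) [] false,
   Spec.mk (nat_lit 58321) (nat_lit 6) [nat_lit 57835, nat_lit 58323, nat_lit 38639] (nat_lit 0) [] false,
   Spec.mk (nat_lit 58323) (nat_lit 4) [nat_lit 57837, nat_lit 58329, nat_lit 58321, nat_lit 38641] (nat_lit 0) [] false,
   Spec.mk (nat_lit 58329) (nat_lit 4) [nat_lit 57843, nat_lit 58347, nat_lit 58323, nat_lit 38647] (nat_lit 0) [] false,
   Spec.mk (nat_lit 58347) (nat_lit 4) [nat_lit 57861, nat_lit 58401, nat_lit 58329, nat_lit 38665] (nat_lit 0) [] false,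
   Spec.mk (nat_lit 58401) (nat_lit 4) [nat_lit 57915, nat_lit 58563, nat_lit 58347, nat_lit 38719] (nat_lit 0) [] false,
   Spec.mk (nat_lit 58563) (nat_lit 6) [nat_lit 58077, nat_lit 58401, nat_lit 38881] (nat_lit 0) [] false]

noncomputable def specs : List (List Spec) :=
    sp0 :: sp1 :: sp2 :: sp3 :: sp4 :: sp5 :: sp6 :: sp7 :: sp8 :: sp9 :: sp10 :: sp11 :: sp12 ::
    sp13 :: sp14 :: sp15 :: sp16 :: sp17 :: sp18 :: sp19 :: sp20 :: sp21 :: sp22 :: sp23 :: sp24 ::
    sp25 :: sp26 :: sp27 :: sp28 :: sp29 :: sp30 :: sp31 :: sp32 :: sp33 :: sp34 :: sp35 :: sp36 ::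
    sp37 :: sp38 :: sp39 :: sp40 :: sp41 :: sp42 :: sp43 :: sp44 :: sp45 :: sp46 :: sp47 :: sp48 ::
    sp49 :: sp50 :: sp51 :: sp52 :: sp53 :: sp54 :: sp55 :: sp56 :: sp57 :: sp58 :: sp59 :: sp60 ::
    sp61 :: sp62 :: sp63 :: sp64 :: sp65 :: sp66 :: sp67 :: sp68 :: sp69 :: sp70 :: sp71 :: sp72 ::
    sp73 :: sp74 :: sp75 :: sp76 :: sp77 :: sp78 :: sp79 :: sp80 :: sp81 :: sp82 :: sp83 :: sp84 ::
    sp85 :: sp86 :: sp87 :: sp88 :: sp89 :: sp90 :: sp91 :: sp92 :: sp93 :: sp94 :: sp95 :: sp96 ::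
    sp97 :: sp98 :: sp99 :: sp100 :: sp101 :: sp102 :: sp103 :: sp104 :: sp105 :: sp106 :: sp107 ::
    sp108 :: sp109 :: sp110 :: sp111 :: sp112 :: sp113 :: sp114 :: sp115 :: sp116 :: sp117 :: sp118
    :: sp119 :: sp120 :: sp121 :: sp122 :: sp123 :: sp124 :: sp125 :: sp126 :: sp127 :: sp128 ::
    sp129 :: sp130 :: sp131 :: sp132 :: sp133 :: sp134 :: sp135 :: sp136 :: sp137 :: sp138 :: sp139
    :: []

noncomputable def step (e : Nat → Nat) (C ap an : Nat) (k :
    Nat → Nat → Nat → Nat → Nat → Nat → Nat → Nat → Nat → Nat → Nat → Nat → Nat → Nat → Nat → Nat →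
    Nat → Nat → Nat → Nat → Nat → Nat → Nat → Nat → Nat → Nat → Nat → Nat → Nat → Nat → Nat → Nat →
    Nat → Nat → Nat → Nat → Nat → Nat → Nat → Nat → Nat → Nat → Nat → Nat → Nat → Nat → Nat → Nat →
    Nat → Nat → Nat → Nat → Nat → Nat → Nat → Nat → Nat → Nat → Nat → Nat → Nat → Nat → Nat → Nat →
    Nat → Nat → Nat → Nat → Nat → Nat → Nat → Nat → Nat → Nat → Nat → Nat → Nat → Nat → Nat → Nat →
    Nat → Nat → Nat → Nat → Nat → Nat → Nat → Nat → Nat → Nat → Nat → Nat → Nat → Nat → Nat → Nat →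
    Nat → Nat → Nat → Nat → Nat → Nat → Nat → Nat → Nat → Nat → Nat → Nat → Nat → Nat → Nat → Nat →
    Nat → Nat → Nat → Nat → Nat → Nat → Nat → Nat → Nat → Nat → Nat → Nat → Nat → Nat → Nat → Nat →
    Nat → Nat → Nat → Nat → Nat → Nat → Nat → Nat → Nat → Nat → Nat → Nat → Nat → Nat → Nat → Nat →
    Nat → Nat → Nat → Nat → Nat → Nat → Nat → Nat → Nat → Nat → Nat → Nat → Nat → Nat → Nat → Nat →
    Nat → Nat → Nat → Nat → Nat → Nat → Nat → Nat → Nat → Nat → Nat → Nat → Nat → Nat → Nat → Nat →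
    Nat → Nat → Nat → Nat → Nat → Nat → Nat → Nat → Nat → Nat → Nat → Nat → Nat → Nat → Nat → Nat →
    Nat → Nat → Nat → Nat → Nat → Nat → Nat → Nat → Nat → Nat → Nat → Nat → Nat → Nat → Nat → Nat →
    Nat → Nat → Nat → Nat → Nat → Nat → Nat → Nat → Nat → Nat → Nat → Nat → Nat → Nat → Nat → Nat →
    Nat → Nat → Nat → Nat → Nat → Nat → Nat → Nat → Nat → Nat → Nat → Nat → Nat → Nat → Nat → Nat →
    Nat → Nat → Nat → Nat → Nat → Nat → Nat → Nat → Nat → Nat → Nat → Nat → Nat → Nat → Nat → Nat →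
    Nat → Nat → Nat → Nat → Nat → Nat → Nat → Nat → Nat → Nat → Nat → Nat → Nat → Nat → Nat → Nat →
    Nat → Nat → Nat → Nat → Nat → Nat → Nat → Nat → Nat → Nat → Nat → Nat → Nat → Nat → Nat → Nat →
    Nat → Nat → Nat → Nat → Nat → Nat → Nat → Nat → Nat → Nat → Nat → Nat → Nat → Nat → Nat → Nat →
    Nat → Nat → Nat → Nat → Nat → Nat → Nat → Nat → Nat → Nat → Nat → Nat → Nat → Nat → Nat → Nat →
    Nat → Nat → Nat → Nat → Nat → Nat → Nat → Nat → Nat → Nat → Nat → Nat → Nat → Nat → Nat → Nat →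
    Nat → Nat → Nat → Nat → Nat → Nat → Nat → Nat → Nat → Nat → Nat → Nat → Nat → Nat → Nat → Nat →
    Nat → Nat → Nat → Nat → Nat → Nat → Nat → Nat → Nat → Nat → Nat → Nat → Nat → Nat → Nat → Nat →
    Nat → Nat → Nat → Nat → Nat → Nat → Nat → Nat → Nat → Nat → Nat → Nat → Nat → Nat → Nat → Nat →
    Nat → Nat → Nat → Nat → Nat → Nat → Nat → Nat → Nat → Nat → Nat → Nat → Nat → Nat → Nat → Nat →
    Nat → Nat → Nat → Nat → Nat → Nat → Nat → Nat → Nat → Nat → Nat → Nat → Nat → Nat → Nat → Nat →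
    Nat → Nat → Nat → Nat → Nat → Nat → Nat → Nat → Nat → Nat → Nat → Nat → Nat → Nat → Nat → Nat →
    Nat → Nat → Nat → Nat → Nat → Nat → Nat → Nat → Nat → Nat → Nat → Nat → Nat → Nat → Nat → Nat →
    Nat → Nat → Nat → Nat → Nat → Nat → Nat → Nat → Nat → Nat → Nat → Nat → Nat → Nat → Nat → Nat →
    Nat → Nat → Nat → Nat → Nat → Nat → Nat → Nat → Nat → Nat → Nat → Nat → Nat → Nat → Nat → Nat →
    Nat → Nat → Nat → Nat → Nat → Nat → Nat → Nat → Nat → Nat → Nat → Nat → Nat → Nat → Nat → Nat →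
    Nat → Nat → Nat → Nat → Nat → Nat → Nat → Nat → Nat → Nat → Nat → Nat → Nat → Nat → Nat → Nat →
    Nat → Nat → Nat → Nat → Nat → Nat → Nat → Nat → Nat → Nat → Nat → Nat → Nat → Nat → Nat → Nat →
    Nat → Nat → Nat → Nat → Nat → Nat → Nat → Nat → Nat → Nat → Nat → Nat → Nat → Nat → Nat → Nat →
    Nat → Nat → Nat → Nat → Nat → Nat → Nat → Nat → Nat → Nat → Nat → Nat → Nat → Nat → Nat → Nat →
    Nat → Nat → Nat → Nat → Nat → Nat → Nat → Nat → Nat → Nat → Nat → Nat → Nat → Nat → Nat → Nat →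
    Nat → Nat → Nat → Nat → Nat → Nat → Nat → Nat → Nat → Nat → Nat → Nat → Nat → Nat → Nat → Nat →
    Nat → Nat → Nat → Nat → Nat → Nat → Nat → Nat → Nat → Nat → Nat → Nat → Nat → Nat → Nat → Nat →
    Nat → Nat → Nat → Nat → Nat → Nat → Nat → Nat → Nat → Nat → Nat → Nat → Nat → Nat → Nat → Nat →
    Nat → Nat → Nat → Nat → Nat → Nat → Nat → Nat → Nat → Nat → Nat → Nat → Nat → Nat → Nat → Nat →
    Nat → Nat → Nat → Nat → Nat → Nat → Nat → Nat → Nat → Nat → Nat → Nat → Nat → Nat → Nat → Nat →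
    Nat → Nat → Nat → Nat → Nat → Nat → Nat → Nat → Nat → Nat → Nat → Nat → Nat → Nat → Nat → Nat →
    Nat → Nat → Nat → Nat → Nat → Nat → Nat → Nat → Nat → Nat → Nat → Nat → Nat → Nat → Nat → Nat →
    Nat → Nat → Nat → Nat → Nat → Nat → Nat → Nat → Nat → Nat → Nat → Nat → Nat → Nat → Nat → Nat →
    Nat → Nat → Nat → Nat → Nat → Nat → Nat → Nat → Nat → Nat → Nat → Nat → Nat → Nat → Nat → Nat →
    Nat → Nat → Nat → Nat → Nat → Nat → Nat → Nat → Nat → Nat → Nat → Nat → Nat → Nat → Nat → Nat →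
    Nat → Nat → Nat → Nat → Nat → Nat → Nat → Nat → Nat → Nat → Nat → Nat → Nat → Nat → Nat → Nat →
    Nat → Nat → Nat → Nat → Nat → Nat → Nat → Nat → Nat → Nat → Nat → Nat → Nat → Nat → Nat → Nat →
    Nat → Nat → Nat → Nat → Nat → Nat → Nat → Nat → Nat → Nat → Nat → Nat → Nat → Nat → Nat → Nat →
    Nat → Nat → Nat → Nat → Nat → Nat → Nat → Nat → Nat → Nat → Nat → Nat → Nat → Nat → Nat → Nat →
    Nat → Nat → Nat → Nat → Nat → Nat → Nat → Nat → Nat → Nat → Nat → Nat → Nat → Nat → Nat → Nat →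
    Nat → Nat → Nat → Nat → Nat → Nat → Nat → Nat → Nat → Nat → Nat → Nat → Nat → Nat → Nat → Nat →
    Nat → Nat → Nat → Nat → Nat → Nat → Nat → Nat → Nat → Nat → Nat → Nat → Nat → Nat → Nat → Nat →
    Nat → Nat → Nat → Nat → Nat → Nat → Nat → Nat → Nat → Nat → Nat → Nat → Nat → Nat → Nat → Nat →
    Nat → Nat → Nat → Nat → Nat → Nat → Nat → Nat → Nat → Nat → Nat → Nat → Nat → Nat → Nat → Nat →
    Nat → Nat → Nat → Nat → Nat → Nat → Nat → Nat → Nat → Nat → Nat → Nat → Nat → Nat → Nat → Nat →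
    Nat → Nat → Nat → Nat → Nat → Nat → Nat → Nat → Nat → Nat → Nat → Nat → Nat → Nat → Nat → Nat →
    Nat → Nat → Nat → Nat → Nat → Nat → Nat → Nat → Nat → Nat → Nat → Nat → Nat → Nat → Nat → Nat →
    Nat → Nat → Nat → Nat → Nat → Nat → Nat → Nat → Nat → Nat → Nat → Nat → Nat → Nat → Nat → Nat →
    Nat → Nat → Nat → Nat → Nat → Nat → Nat → Nat → Nat → Nat → Nat → Nat → Nat → Nat → Nat → Nat →
    Nat → Nat → Nat → Nat → Nat → Nat → Nat → Nat → Nat → Nat → Nat → Nat → Nat → Nat → Nat → Nat →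
    Nat → Nat → Nat → Nat → Nat → Nat → Nat → Nat → Nat → Nat → Nat → Nat → Nat → Nat → Nat → Nat →
    Nat → Nat → Nat → Nat → Nat → Nat → Nat → Nat → Nat → Nat → Nat → Nat → Nat → Nat → Nat → Nat →
    Nat → Nat → Nat → Nat → Nat → Nat → Nat → Nat → Nat → Nat → Nat → Nat → Nat → Nat → Nat → Nat →
    Nat → Nat → Nat → Nat → Nat → Nat → Nat → Nat → Nat → Nat → Nat → Nat → Nat → Nat → Nat → Nat →
    Nat → Nat → Nat → Nat → Nat → Nat → Nat → Nat → Nat → Nat → Nat → Nat → Nat → Nat → Nat → Nat →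
    Nat → Nat → Nat → Nat → Nat → Nat → Nat → Nat → Nat → Nat → Nat → Nat → Nat → Nat → Nat → Nat →
    Nat → Nat → Nat → Nat → Nat → Nat → Nat → Nat → Nat → Nat → Nat → Nat → Nat → Nat → Nat → Nat →
    Nat → Nat → Nat → Nat → Nat → Nat → Nat → Nat → Nat → Nat → Nat → Nat → Nat → Nat → Nat → Nat →
    Nat → Nat → Nat → Nat → Nat → Nat → Nat → Nat → Nat → Nat → Nat → Nat → Nat → Nat → Nat → Nat →
    Nat → Nat → Nat → Nat → Nat → Nat → Nat → Nat → Nat → Nat → Nat → Nat → Nat → Nat → Nat → Nat →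
    Nat → Nat → Nat → Nat → Nat → Nat → Nat → Nat → Nat → Nat → Nat → Nat → Nat → Nat → Nat → Nat →
    Nat → Nat → Nat → Nat → Nat → Nat → Nat → Nat → Nat → Nat → Nat → Nat → Nat → Nat → Nat → Nat →
    Nat → Nat → Nat → Nat → Nat → Nat → Nat → Nat → Nat → Nat → Nat → Nat → Nat → Nat → Nat → Nat →
    Nat → Nat → Nat → Nat → Nat → Nat → Nat → Nat → Nat → Nat → Nat → Nat → Nat → Nat → Nat → Nat →
    Nat → Nat → Nat → Nat → Nat → Nat → Nat → Nat → Nat → Nat → Nat → Nat → Nat → Nat → Nat → Nat →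
    Nat → Nat → Nat → Nat → Nat → Nat → Nat → Nat → Nat → Nat → Nat → Nat → Nat → Nat → Nat → Nat →
    Nat → Nat → Nat → Nat → Nat → Nat → Nat → Nat → Nat → Nat → Nat → Nat → Nat → Nat → Nat → Nat →
    Nat → Nat → Nat → Nat → Nat → Nat → Nat → Nat → Nat → Nat → Nat → Nat → Nat → Nat → Nat → Nat →
    Nat → Nat → Nat → Nat → Nat → Nat → Nat → Nat → Nat → Nat → Nat → Nat → Nat → Nat → Nat → Nat →
    Nat → Nat → Nat → Nat → Nat → Nat → Nat → Nat → Nat → Nat → Nat → Nat → Nat → Nat → Nat → Nat →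
    Nat → Nat → Nat → Nat → Nat → Nat → Nat → Nat → Nat → Nat → Nat → Nat → Nat → Nat → Nat → Nat →
    Nat → Nat → Nat → Nat → Nat → Nat → Nat → Nat → Nat → Nat → Nat → Nat → Nat → Nat → Nat → Nat →
    Nat → Nat → Nat → Nat → Nat → Nat → Nat → Nat → Nat → Nat → Nat → Nat → Nat → Nat → Nat → Nat →
    Nat → Nat → Nat → Nat → Nat → Nat → Nat → Nat → Nat → Nat → Nat → Nat → Nat → Nat → Nat → Nat →
    Nat → Nat → Nat → Nat → Nat → Nat → Nat → Nat → Nat → Nat → Nat → Nat → Nat → Nat → Nat → Nat →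
    Nat → Nat → Nat → Nat → Nat → Nat → Nat → Nat → Nat → Nat → Nat → Nat → Nat → Nat → Nat → Nat →
    Nat → Nat → Nat → Nat → Nat → Nat → Nat → Nat → Nat → Nat → Nat → Nat → Nat → Nat → Nat → Nat →
    Nat → Nat → Nat → Nat → Nat → Nat → Nat → Nat → Nat → Nat → Nat → Nat → Nat → Nat → Nat → Nat →
    Nat → Nat → Nat → Nat → Nat → Nat → Nat → Nat → Nat → Nat → Nat → Nat → Nat → Nat → Nat → Nat →
    Nat → Nat → Nat → Nat → Nat → Nat → Nat → Nat → Nat → Nat → Nat → Nat → Nat → Nat → Nat → Nat →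
    Nat → Nat → Nat → Nat → Nat → Nat → Nat → Nat → Nat → Nat → Nat → Nat → Nat → Nat → Nat → Nat →
    Nat → Nat → Nat → Nat → Nat → Nat → Nat → Nat → Nat → Nat → Nat → Nat → Nat → Nat → Nat → Nat →
    Nat → Nat → Nat → Nat → Nat → Nat → Nat → Nat → Nat → Nat → Nat → Nat → Nat → Nat → Nat → Nat →
    Nat → Nat → Nat → Nat → Nat → Nat → Nat → Nat → Nat → Nat → Nat → Nat → Nat → Nat → Nat → Nat →
    Nat → Nat → Nat → Nat → Nat → Nat → Nat → Nat → Nat → Nat → Nat → Nat → Nat → Nat → Nat → Nat →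
    Nat → Nat → Nat → Nat → Nat → Nat → Nat → Nat → Nat → Nat → Nat → Nat → Nat → Nat → Nat → Nat →
    Nat → Nat → Nat → Nat → Nat → Nat → Nat → Nat → Nat → Nat → Nat → Nat → Nat → Nat → Nat → Nat →
    Nat → Nat → Nat → Nat → Nat → Nat → Nat → Nat → Nat → Nat → Nat → Nat → Nat → Nat → Nat → Nat →
    Nat → Nat → Nat → Nat → Nat → Nat → Nat → Nat → Nat → Nat → Nat → Nat → Nat → Nat → Nat → Nat →
    Nat → Nat → Nat → Nat → Nat → Nat → Nat → Nat → Nat → Nat → Nat → Nat → Nat → Nat → Nat → Nat →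
    Nat → Nat → Nat → Nat → Nat → Nat → Nat → Nat → Nat → Nat → Nat → Nat → Nat → Nat → Nat → Nat →
    Nat → Nat → Nat → Nat → Nat → Nat → Nat → Nat → Nat → Nat → Nat → Nat → Nat → Nat → Nat → Nat →
    Nat → Nat → Nat → Nat → Nat → Nat → Nat → Nat → Nat → Nat → Nat → Nat → Nat → Nat → Nat → Nat →
    Nat → Nat → Nat → Nat → Nat → Nat → Nat → Nat → Nat → Nat → Nat → Nat → Nat → Nat → Nat → Nat →
    Nat → Nat → Nat → Nat → Nat → Nat → Nat → Nat → Nat → Nat → Nat → Nat → Nat → Nat → Nat → Nat →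
    Nat → Nat → Nat → Nat → Nat → Nat → Nat → Nat → Nat → Nat → Nat → Nat → Nat → Nat → Nat → Nat →
    Nat → Nat → Nat → Nat → Nat → Nat → Nat → Nat → Nat → Nat → Nat → Nat → Nat → Nat → Nat → Nat →
    Nat → Nat → Nat → Nat → Nat → Nat → Nat → Nat → Nat → Nat → Nat → Nat → Nat → Nat → Nat → Nat →
    Nat → Nat → Nat → Nat → Nat → Nat → Nat → Nat → Nat → Nat → Nat → Nat → Nat → Nat → Nat → Nat →
    Nat → Nat → Nat → Nat → Nat → Nat → Nat → Nat → Nat → Nat → Nat → Nat → Nat → Nat → Nat → Nat →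
    Nat → Nat → Nat → Nat → Nat → Nat → Nat → Nat → Nat → Nat → Nat → Nat → Nat → Nat → Nat → Nat →
    Nat → Nat → Nat → Nat → Nat → Nat → Nat → Nat → Nat → Nat → Nat → Nat → Nat → Nat → Nat → Nat →
    Nat → Nat → Nat → Nat → Nat → Nat → Nat → Nat → Nat → Nat → Nat → Nat → Nat → Nat → Nat → Nat →
    Nat → Nat → Nat → Nat → Nat → Nat → Nat → Nat → Nat → Nat → Nat → Nat → Nat → Nat → Nat → Nat →
    Nat → Nat → Nat → Nat → Nat → Nat → Nat → Nat → Nat → Nat → Nat → Nat → Nat → Nat → Nat → Nat →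
    Nat → Nat → Nat → Nat → Nat → Nat → Nat → Nat → Nat → Nat → Nat → Nat → Nat → Nat → Nat → Nat →
    Nat → Nat → Nat → Nat → Nat → Nat → Nat → Nat → Nat → Nat → Nat → Nat → Nat → Nat → Nat → Nat →
    Nat → Nat → Nat → Nat → Nat → Nat → Nat → Nat → Nat → Nat → Nat → Nat → Nat → Nat → Nat → Nat →
    Nat → Nat → Nat → Nat → Nat → Nat → Nat → Nat → Nat → Nat → Nat → Nat → Nat → Nat → Nat → Nat →
    Nat → Nat → Nat → Nat → Nat → Nat → Nat → Nat → Nat → Nat → Nat → Nat → Nat → Nat → Nat → Nat →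
    Nat → Nat → Nat → Nat → Nat → Nat → Nat → Nat → Nat → Nat → Nat → Nat → Nat → Nat → Nat → Nat →
    Nat → Nat → Nat → Nat → Nat → Nat → Nat → Nat → Nat → Nat → Nat → Nat → Nat → Nat → Nat → Nat →
    Nat → Nat → Nat → Nat → Nat → Nat → Nat → Nat → Nat → Nat → Nat → Nat → Nat → Nat → Nat → Nat →
    Nat → Nat → Nat → Nat → Nat → Nat → Nat → Nat → Nat → Nat → Nat → Nat → Nat → Nat → Nat → Nat →
    Nat → Nat → Nat → Nat → Nat → Nat → Nat → Nat → Nat → Nat → Nat → Nat → Nat → Nat → Nat → Nat →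
    Nat → Nat → Nat → Nat → Nat → Nat → Nat → Nat → Nat → Nat → Nat → Nat → Nat → Nat → Nat → Nat →
    Nat → Nat → Nat → Nat → Nat → Nat → Nat → Nat → Nat → Nat → Nat → Nat → Nat → Nat → Nat → Nat →
    Nat → Nat → Nat → Nat → Nat → Nat → Nat → Nat → Nat → Nat → Nat → Nat → Nat → Nat → Nat → Nat →
    Nat → Nat → Nat → Nat → Nat → Nat → Nat → Nat → Nat → Nat → Nat → Nat → Nat → Nat → Nat → Nat →
    Nat → Nat → Nat → Nat → Nat → Nat → Nat → Nat → Nat → Nat → Nat → Nat → Nat → Nat → Nat → Nat →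
    Nat → Nat → Nat → Nat → Nat → Nat → Nat → Nat → Nat → Nat → Nat → Nat → Nat → Nat → Nat → Nat →
    Nat → Nat → Nat → Nat → Nat → Nat → Nat → Nat → Nat → Nat → Nat → Nat → Nat → Nat → Nat → Nat →
    Nat → Nat → Nat → Nat → Nat → Nat → Nat → Nat → Nat → Nat → Nat → Nat → Nat → Nat → Nat → Nat →
    Nat → Nat → Nat → Nat → Nat → Nat → Nat → Nat → Nat → Nat → Nat → Nat → Nat → Nat → Nat → Nat →
    Nat → Nat → Nat → Nat → Nat → Nat → Nat → Nat → Nat → Nat → Nat → Nat → Nat → Nat → Nat → Nat →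
    Nat → Nat → Nat → Nat → Nat → Nat → Nat → Nat → Nat → Nat → Nat → Nat → Nat → Nat → Nat → Nat →
    Nat → Nat → Nat → Nat → Nat → Nat → Nat → Nat → Nat → Nat → Nat → Nat → Nat → Nat → Nat → Nat →
    Nat → Nat → Nat → Nat → Nat → Nat → Nat → Nat → Nat → Nat → Nat → Nat → Nat → Nat → Nat → Nat →
    Nat → Nat → Nat → Nat → Nat → Nat → Nat → Nat → Nat → Nat → Nat → Nat → Nat → Nat → Nat → Nat →
    Nat → Nat → Nat → Nat → Nat → Nat → Nat → Nat → Nat → Nat → Nat → Nat → Nat → Nat → Nat → Nat →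
    Nat → Nat → Nat → Nat → Nat → Nat → Nat → Nat → Nat → Nat → Nat → Nat → Nat → Nat → Nat → Nat →
    Nat → Nat → Nat → Nat → Nat → Nat → Nat → Nat → Nat → Nat → Nat → Nat → Nat → Nat → Nat → Nat →
    Nat → Nat → Nat → Nat → Nat → Nat → Nat → Nat → Nat → Nat → Nat → Nat → Nat → Nat → Nat → Nat →
    Nat → Nat → Nat → Nat → Nat → Nat → Nat → Nat → Nat → Nat → Nat → Nat → Nat → Nat → Nat → Nat →
    Nat → Nat → Nat → Nat → Nat → Nat → Nat → Nat → Nat → Nat → Nat → Nat → Nat → Nat → Nat → Nat →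
    Nat → Nat → Nat → Nat → Nat → Nat → Nat → Nat → Nat → Nat → Nat → Nat → Nat → Nat → Nat → Nat →
    Nat → Nat → Nat → Nat → Nat → Nat → Nat → Nat → Nat → Nat → Nat → Nat → Nat → Nat → Nat → Nat →
    Nat → Nat → Nat → Nat → Nat → Nat → Nat → Nat → Nat → Nat → Nat → Nat → Nat → Nat → Nat → Nat →
    Nat → Nat → Nat → Nat → Nat → Nat → Nat → Nat → Nat → Nat → Nat → Nat → Nat → Nat → Nat → Nat →
    Nat → Nat → Nat → Nat → Nat → Nat → Nat → Nat → Nat → Nat → Nat → Nat → Nat → Nat → Nat → Nat →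
    Nat → Nat → Nat → Nat → Nat → Nat → Nat → Nat → Nat → Nat → Nat → Nat → Nat → Nat → Nat → Nat →
    Nat → Nat → Nat → Nat → Nat → Nat → Nat → Nat → Nat → Nat → Nat → Nat → Nat → Nat → Nat → Nat →
    Nat → Nat → Nat → Nat → Nat → Nat → Nat → Nat → Nat → Nat → Nat → Nat → Nat → Nat → Nat → Nat →
    Nat → Nat → Nat → Nat → Nat → Nat → Nat → Nat → Nat → Nat → Nat → Nat → Nat → Nat → Nat → Nat →
    Nat → Nat → Nat → Nat → Nat → Nat → Nat → Nat → Nat → Nat → Nat → Nat → Nat → Nat → Nat → Nat →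
    Nat → Nat → Nat → Nat → Nat → Nat → Nat → Nat → Nat → Nat → Nat → Nat → Nat → Nat → Nat → Nat →
    Nat → Nat → Nat → Nat → Nat → Nat → Nat → Nat → Nat → Nat → Nat → Nat → Nat → Nat → Nat → Nat →
    Nat → Nat → Nat → Nat → Nat → Nat → Nat → Nat → Nat → Nat → Nat → Nat → Nat → Nat → Nat → Nat →
    Nat → Nat → Nat → Nat → Nat → Nat → Nat → Nat → Nat → Nat → Nat → Nat → Nat → Nat → Nat → Nat →
    Nat → Nat → Nat → Nat → Nat → Nat → Nat → Nat → Nat → Nat → Nat → Nat → Nat → Nat → Nat → Nat →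
    Nat → Nat → Nat → Nat → Nat → Nat → Nat → Nat → Nat → Nat → Nat → Nat → Nat → Nat → Nat → Nat →
    Nat → Nat → Nat → Nat → Nat → Nat → Nat → Nat → Nat → Nat → Nat → Nat → Nat → Nat → Nat → Nat →
    Nat → Nat → Nat → Nat → Nat → Nat → Nat → Nat → Nat → Nat → Nat → Nat → Nat → Nat → Nat → Nat →
    Nat → Nat → Nat → Nat → Nat → Nat → Nat → Nat → Nat → Nat → Nat → Nat → Nat → Nat → Nat → Nat →
    Nat → Nat → Nat → Nat → Nat → Nat → Nat → Nat → Nat → Nat → Nat → Nat → Nat → Nat → Nat → Nat →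
    Nat → Nat → Nat → Nat → Nat → Nat → Nat → Nat → Nat → Nat → Nat → Nat → Nat → Nat → Nat → Nat →
    Nat → Nat → Nat → Nat → Nat → Nat → Nat → Nat → Nat → Nat → Nat → Nat → Nat → Nat → Nat → Nat →
    Nat → Nat → Nat → Nat → Nat → Nat → Nat → Nat → Nat → Nat → Nat → Nat → Nat → Nat → Nat → Nat →
    Nat → Nat → Nat → Nat → Nat → Nat → Nat → Nat → Nat → Nat → Nat → Nat → Nat → Nat → Nat → Nat →
    Nat → Nat → Nat → Nat → Nat → Nat → Nat → Nat → Nat → Nat → Nat → Nat → Nat → Nat → Nat → Nat →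
    Nat → Nat → Nat → Nat → Nat → Nat → Nat → Nat → Nat → Nat → Nat → Nat → Nat → Nat → Nat → Nat →
    Nat → Nat → Nat → Nat → Nat → Nat → Nat → Nat → Nat → Nat → Nat → Nat → Nat → Nat → Nat → Nat →
    Nat → Nat → Nat → Nat → Nat → Nat → Nat → Nat → Nat → Nat → Nat → Nat → Nat → Nat → Nat → Nat →
    Nat → Nat → Nat → Nat → Nat → Nat → Nat → Nat → Nat → Nat → Nat → Nat → Nat → Nat → Nat → Nat →
    Nat → Nat → Nat → Nat → Nat → Nat → Nat → Nat → Nat → Nat → Nat → Nat → Nat → Nat → Nat → Nat →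
    Nat → Nat → Nat → Nat → Nat → Nat → Nat → Nat → Nat → Nat → Nat → Nat → Nat → Nat → Nat → Nat →
    Nat → Nat → Nat → Nat → Nat → Nat → Nat → Nat → Nat → Nat → Nat → Nat → Nat → Nat → Nat → Nat →
    Nat → Nat → Nat → Nat → Nat → Nat → Nat → Nat → Nat → Nat → Nat → Nat → Nat → Nat → Nat → Nat →
    Nat → Nat → Nat → Nat → Nat → Nat → Nat → Nat → Nat → Nat → Nat → Nat → Nat → Nat → Nat → Nat →
    Nat → Nat → Nat → Nat → Nat → Nat → Nat → Nat → Nat → Nat → Nat → Nat → Nat → Nat → Nat → Nat →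
    Nat → Nat → Nat → Nat → Nat → Nat → Nat → Nat → Nat → Nat → Nat → Nat → Nat → Nat → Nat → Nat →
    Nat → Nat → Nat → Nat → Nat → Nat → Nat → Nat → Nat → Nat → Nat → Nat → Nat → Nat → Nat → Nat →
    Nat → Nat → Nat → Nat → Nat → Nat → Nat → Nat → Nat → Nat → Nat → Nat → Nat → Nat → Nat → Nat →
    Nat → Nat → Nat → Nat → Nat → Nat → Nat → Nat → Nat → Nat → Nat → Nat → Nat → Nat → Nat → Nat →
    Nat → Nat → Nat → Nat → Nat → Nat → Nat → Nat → Nat → Nat → Nat → Nat → Nat → Nat → Nat → Nat →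
    Nat → Nat → Nat → Nat → Nat → Nat → Nat → Nat → Nat → Nat → Nat → Nat → Nat → Nat → Nat → Nat →
    Nat → Nat → Nat → Nat → Nat → Nat → Nat → Nat → Nat → Nat → Nat → Nat → Nat → Nat → Nat → Nat →
    Nat → Nat → Nat → Nat → Nat → Nat → Nat → Nat → Nat → Nat → Nat → Nat → Nat → Nat → Nat → Nat →
    Nat → Nat → Nat → Nat → Nat → Nat → Nat → Nat → Nat → Nat → Nat → Nat → Nat → Nat → Nat → Nat →
    Nat → Nat → Nat → Nat → Nat → Nat → Nat → Nat → Nat → Nat → Nat → Nat → Nat → Nat → Nat → Nat →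
    Nat → Nat → Nat → Nat → Nat → Nat → Nat → Nat → Nat → Nat → Nat → Nat → Nat → Nat → Nat → Nat →
    Nat → Nat → Nat → Nat → Nat → Nat → Nat → Nat → Nat → Nat → Nat → Nat → Nat → Nat → Nat → Nat →
    Nat → Nat → Nat → Nat → Nat → Nat → Nat → Nat → Nat → Nat → Nat → Nat → Nat → Nat → Nat → Nat →
    Nat → Nat → Nat → Nat → Nat → Nat → Nat → Nat → Nat → Nat → Nat → Nat → Nat → Nat → Nat → Nat →
    Nat → Nat → Nat → Nat → Nat → Nat → Nat → Nat → Nat → Nat → Nat → Nat → Nat → Nat → Nat → Nat →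
    Nat → Nat → Nat → Nat → Nat → Nat → Nat → Nat → Nat → Nat → Nat → Nat → Nat → Nat → Nat → Nat →
    Nat → Nat → Nat → Nat → Nat → Nat → Nat → Nat → Nat → Nat → Nat → Nat → Nat → Nat → Nat → Nat →
    Nat → Nat → Nat → Nat → Nat → Nat → Nat → Nat → Nat → Nat → Nat → Nat → Nat → Nat → Nat → Nat →
    Nat → Nat → Nat → Nat → Nat → Nat → Nat → Nat → Nat → Nat → Nat → Nat → Nat → Nat → Nat → Nat →
    Nat → Nat → Nat → Nat → Nat → Nat → Nat → Nat → Nat → Nat → Nat → Nat → Nat → Nat → Nat → Nat →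
    Nat → Nat → Nat → Nat → Nat → Nat → Nat → Nat → Nat → Nat → Nat → Nat → Nat → Nat → Nat → Nat →
    Nat → Nat → Nat → Nat → Nat → Nat → Nat → Nat → Nat → Nat → Nat → Nat → Nat → Nat → Nat → Nat →
    Nat → Nat → Nat → Nat → Nat → Nat → Nat → Nat → Nat → Nat → Nat → Nat → Nat → Nat → Nat → Nat →
    Nat → Nat → Nat → Nat → Nat → Nat → Nat → Nat → Nat → Nat → Nat → Nat → Nat → Nat → Nat → Nat →
    Nat → Nat → Nat → Nat → Nat → Nat → Nat → Nat → Nat → Nat → Nat → Nat → Nat → Nat → Nat → Nat →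
    Nat → Nat → Nat → Nat → Nat → Nat → Nat → Nat → Nat → Nat → Nat → Nat → Nat → Nat → Nat → Nat →
    Nat → Nat → Nat → Nat → Nat → Nat → Nat → Nat → Nat → Nat → Nat → Nat → Nat → Nat → Nat → Nat →
    Nat → Nat → Nat → Nat → Nat → Nat → Nat → Nat → Nat → Nat → Nat → Nat → Nat → Nat → Nat → Nat →
    Nat → Nat → Nat → Nat → Nat → Nat → Nat → Nat → Nat → Nat → Nat → Nat → Nat → Nat → Nat → Nat →
    Nat → Nat → Nat → Nat → Nat → Nat → Nat → Nat → Nat → Nat → Nat → Nat → Nat → Nat → Nat → Nat →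
    Nat → Nat → Nat → Nat → Nat → Nat → Nat → Nat → Nat → Nat → Nat → Nat → Nat → Nat → Nat → Nat →
    Nat → Nat → Nat → Nat → Nat → Nat → Nat → Nat → Nat → Nat → Nat → Nat → Nat → Nat → Nat → Nat →
    Nat → Nat → Nat → Nat → Nat → Nat → Nat → Nat → Nat → Nat → Nat → Nat → Nat → Nat → Nat → Nat →
    Nat → Nat → Nat → Nat → Nat → Nat → Nat → Nat → Nat → Nat → Nat → Nat → Nat → Nat → Nat → Nat →
    Nat → Nat → Nat → Nat → Nat → Nat → Nat → Nat → Nat → Nat → Nat → Nat → Nat → Nat → Nat → Nat →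
    Nat → Nat → Nat → Nat → Nat → Nat → Nat → Nat → Nat → Nat → Nat → Nat → Nat → Nat → Nat → Nat →
    Nat → Nat → Nat → Nat → Nat → Nat → Nat → Nat → Nat → Nat → Nat → Nat → Nat → Nat → Nat → Nat →
    Nat → Nat → Nat → Nat → Nat → Nat → Nat → Nat → Nat → Nat → Nat → Nat → Nat → Nat → Nat → Nat →
    Nat → Nat → Nat → Nat → Nat → Nat → Nat → Nat → Nat → Nat → Nat → Nat → Nat → Nat → Nat → Nat →
    Nat → Nat → Nat → Nat → Nat → Nat → Nat → Nat → Nat → Nat → Nat → Nat → Nat → Nat → Nat → Nat →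
    Nat → Nat → Nat → Nat → Nat → Nat → Nat → Nat → Nat → Nat → Nat → Nat → Nat → Nat → Nat → Nat →
    Nat → Nat → Nat → Nat → Nat → Nat → Nat → Nat → Nat → Nat → Nat → Nat → Nat → Nat → Nat → Nat →
    Nat → Nat → Nat → Nat → Nat → Nat → Nat → Nat → Nat → Nat → Nat → Nat → Nat → Nat → Nat → Nat →
    Nat → Nat → Nat → Nat → Nat → Nat → Nat → Nat → Nat → Nat → Nat → Nat → Nat → Nat → Nat → Nat →
    Nat → Nat → Nat → Nat → Nat → Nat → Nat → Nat → Nat → Nat → Nat → Nat → Nat → Nat → Nat → Nat →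
    Nat → Nat → Nat → Nat → Nat → Nat → Nat → Nat → Nat → Nat → Nat → Nat → Nat → Nat → Nat → Nat →
    Nat → Nat → Nat → Nat → Nat → Nat → Nat → Nat → Nat → Nat → Nat → Nat → Nat → Nat → Nat → Nat →
    Nat → Nat → Nat → Nat → Nat → Nat → Nat → Nat → Nat → Nat → Nat → Nat → Nat → Nat → Nat → Nat →
    Nat → Nat → Nat → Nat → Nat → Nat → Nat → Nat → Nat → Nat → Nat → Nat → Nat → Nat → Nat → Nat →
    Nat → Nat → Nat → Nat → Nat → Nat → Nat → Nat → Nat → Nat → Nat → Nat → Nat → Nat → Nat → Nat →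
    Nat → Nat → Nat → Nat → Nat → Nat → Nat → Nat → Nat → Nat → Nat → Nat → Nat → Nat → Nat → Nat →
    Nat → Nat → Nat → Nat → Nat → Nat → Nat → Nat → Nat → Nat → Nat → Nat → Nat → Nat → Nat → Nat →
    Nat → Nat → Nat → Nat → Nat → Nat → Nat → Nat → Nat → Nat → Nat → Nat → Nat → Nat → Nat → Nat →
    Nat → Nat → Nat → Nat → Nat → Nat → Nat → Nat → Nat → Nat → Nat → Nat → Nat → Nat → Nat → Nat →
    Nat → Nat → Nat → Nat → Nat → Nat → Nat → Nat → Nat → Nat → Nat → Nat → Nat → Nat → Nat → Nat →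
    Nat → Nat → Nat → Nat → Nat → Nat → Nat → Nat → Nat → Nat → Nat → Nat → Nat → Nat → Nat → Nat →
    Nat → Nat → Nat → Nat → Nat → Nat → Nat → Nat → Nat → Nat → Nat → Nat → Nat → Nat → Nat → Nat →
    Nat → Nat → Nat → Nat → Nat → Nat → Nat → Nat → Nat → Nat → Nat → Nat → Nat → Nat → Nat → Nat →
    Nat → Nat → Nat → Nat → Nat → Nat → Nat → Nat → Nat → Nat → Nat → Nat → Nat → Nat → Nat → Nat →
    Nat → Nat → Nat → Nat → Nat → Nat → Nat → Nat → Nat → Nat → Nat → Nat → Nat → Nat → Nat → Nat →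
    Nat → Nat → Nat → Nat → Nat → Nat → Nat → Nat → Nat → Nat → Nat → Nat → Nat → Nat → Nat → Nat →
    Nat → Nat → Nat → Nat → Nat → Nat → Nat → Nat → Nat → Nat → Nat → Nat → Nat → Nat → Nat → Nat →
    Nat → Nat → Nat → Nat → Nat → Nat → Nat → Nat → Nat → Nat → Nat → Nat → Nat → Nat → Nat → Nat →
    Nat → Nat → Nat → Nat → Nat → Nat → Nat → Nat → Nat → Nat → Nat → Nat → Nat → Nat → Nat → Nat →
    Nat → Nat → Nat → Nat → Nat → Nat → Nat → Nat → Nat → Nat → Nat → Nat → Nat → Nat → Nat → Nat →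
    Nat → Nat → Nat → Nat → Nat → Nat → Nat → Nat → Nat → Nat → Nat → Nat → Nat → Nat → Nat → Nat →
    Nat → Nat → Nat → Nat → Nat → Nat → Nat → Nat → Nat → Nat → Nat → Nat → Nat → Nat → Nat → Nat →
    Nat → Nat → Nat → Nat → Nat → Nat → Nat → Nat → Nat → Nat → Nat → Nat → Nat → Nat → Nat → Nat →
    Nat → Nat → Nat → Nat → Nat → Nat → Nat → Nat → Nat → Nat → Nat → Nat → Nat → Nat → Nat → Nat →
    Nat → Nat → Nat → Nat → Nat → Nat → Nat → Nat → Nat → Nat → Nat → Nat → Nat → Nat → Nat → Nat →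
    Nat → Nat → Nat → Nat → Nat → Nat → Nat → Nat → Nat → Nat → Nat → Nat → Nat → Nat → Nat → Nat →
    Nat → Nat → Nat → Nat → Nat → Nat → Nat → Nat → Nat → Nat → Nat → Nat → Nat → Nat → Nat → Nat →
    Nat → Nat → Nat → Nat → Nat → Nat → Nat → Nat → Nat → Nat → Nat → Nat → Nat → Nat → Nat → Nat →
    Nat → Nat → Nat → Nat → Nat → Nat → Nat → Nat → Nat → Nat → Nat → Nat → Nat → Nat → Nat → Nat →
    Nat → Nat → Nat → Nat → Nat → Nat → Nat → Nat → Nat → Nat → Nat → Nat → Nat → Nat → Nat → Nat →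
    Nat → Nat → Nat → Nat → Nat → Nat → Nat → Nat → Nat → Nat → Nat → Nat → Nat → Nat → Nat → Nat →
    Nat → Nat → Nat → Nat → Nat → Nat → Nat → Nat → Nat → Nat → Nat → Nat → Nat → Nat → Nat → Nat →
    Nat → Nat → Nat → Nat → Nat → Nat → Nat → Nat → Nat → Nat → Nat → Nat → Nat → Nat → Nat → Nat →
    Nat → Nat → Nat → Nat → Nat → Nat → Nat → Nat → Nat → Nat → Nat → Nat → Nat → Nat → Nat → Nat →
    Nat → Nat → Nat → Nat → Nat → Nat → Nat → Nat → Nat → Nat → Nat → Nat → Nat → Nat → Nat → Nat →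
    Nat → Nat → Nat → Nat → Nat → Nat → Nat → Nat → Nat → Nat → Nat → Nat → Nat → Nat → Nat → Nat →
    Nat → Nat → Nat → Nat → Nat → Nat → Nat → Nat → Nat → Nat → Nat → Nat → Nat → Nat → Nat → Nat →
    Nat → Nat → Nat → Nat → Nat → Nat → Nat → Nat → Nat → Nat → Nat → Nat → Nat → Nat → Nat → Nat →
    Nat → Nat → Nat → Nat → Nat → Nat → Nat → Nat → Nat → Nat → Nat → Nat → Nat → Nat → Nat → Nat →
    Nat → Nat → Nat → Nat → Nat → Nat → Nat → Nat → Nat → Nat → Nat → Nat → Nat → Nat → Nat → Nat →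
    Nat → Nat → Nat → Nat → Nat → Nat → Nat → Nat → Nat → Nat → Nat → Nat → Nat → Nat → Nat → Nat →
    Nat → Nat → Nat → Nat → Nat → Nat → Nat → Nat → Nat → Nat → Nat → Nat → Nat → Nat → Nat → Nat →
    Nat → Nat → Nat → Nat → Nat → Nat → Nat → Nat → Nat → Nat → Nat → Nat → Nat → Nat → Nat → Nat →
    Nat → Nat → Nat → Nat → Nat → Nat → Nat → Nat → Nat → Nat → Nat → Nat → Nat → Nat → Nat → Nat →
    Nat → Nat → Nat → Nat → Nat → Nat → Nat → Nat → Nat → Nat → Nat → Nat → Nat → Nat → Nat → Nat →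
    Nat → Nat → Nat → Nat → Nat → Nat → Nat → Nat → Nat → Nat → Nat → Nat → Nat → Nat → Nat → Nat →
    Nat → Nat → Nat → Nat → Nat → Nat → Nat → Nat → Nat → Nat → Nat → Nat → Nat → Nat → Nat → Nat →
    Nat → Nat → Nat → Nat → Nat → Nat → Nat → Nat → Nat → Nat → Nat → Nat → Nat → Nat → Nat → Nat →
    Nat → Nat → Nat → Nat → Nat → Nat → Nat → Nat → Nat → Nat → Nat → Nat → Nat → Nat → Nat → Nat →
    Nat → Nat → Nat → Nat → Nat → Nat → Nat → Nat → Nat → Nat → Nat → Nat → Nat → Nat → Nat → Nat →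
    Nat → Nat → Nat → Nat → Nat → Nat → Nat → Nat → Nat → Nat → Nat → Nat → Nat → Nat → Nat → Nat →
    Nat → Nat → Nat → Nat → Nat → Nat → Nat → Nat → Nat → Nat → Nat → Nat → Nat → Nat → Nat → Nat →
    Nat → Nat → Nat → Nat → Nat → Nat → Nat → Nat → Nat → Nat → Nat → Nat → Nat → Nat → Nat → Nat →
    Nat → Nat → Nat → Nat → Nat → Nat → Nat → Nat → Nat → Nat → Nat → Nat → Nat → Nat → Nat → Nat →
    Nat → Nat → Nat → Nat → Nat → Nat → Nat → Nat → Nat → Nat → Nat → Nat → Nat → Nat → Nat → Nat →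
    Nat → Nat → Nat → Nat → Nat → Nat → Nat → Nat → Nat → Nat → Nat → Nat → Nat → Nat → Nat → Nat →
    Nat → Nat → Nat → Nat → Nat → Nat → Nat → Nat → Nat → Nat → Nat → Nat → Nat → Nat → Nat → Nat →
    Nat → Nat → Nat → Nat → Nat → Nat → Nat → Nat → Nat → Nat → Nat → Nat → Nat → Nat → Nat → Nat →
    Nat → Nat → Nat → Nat → Nat → Nat → Nat → Nat → Nat → Nat → Nat → Nat → Nat → Nat → Nat → Nat →
    Nat → Nat → Nat → Nat → Nat → Nat → Nat → Nat → Nat → Nat → Nat → Nat → Nat → Nat → Nat → Nat →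
    Nat → Nat → Nat → Nat → Nat → Nat → Nat → Nat → Nat → Nat → Nat → Nat → Nat → Nat → Nat → Nat →
    Nat → Nat → Nat → Nat → Nat → Nat → Nat → Nat → Nat → Nat → Nat → Nat → Nat → Nat → Nat → Nat →
    Nat → Nat → Nat → Nat → Nat → Nat → Nat → Nat → Nat → Nat → Nat → Nat → Nat → Nat → Nat → Nat →
    Nat → Nat → Nat → Nat → Nat → Nat → Nat → Nat → Nat → Nat → Nat → Nat → Nat → Nat → Nat → Nat →
    Nat → Nat → Nat → Nat → Nat → Nat → Nat → Nat → Nat → Nat → Nat → Nat → Nat → Nat → Nat → Nat →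
    Nat → Nat → Nat → Nat → Nat → Nat → Nat → Nat → Nat → Nat → Nat → Nat → Nat → Nat → Nat → Nat →
    Nat → Nat → Nat → Nat → Nat → Nat → Nat → Nat → Nat → Nat → Nat → Nat → Nat → Nat → Nat → Nat →
    Nat → Nat → Nat → Nat → Nat → Nat → Nat → Nat → Nat → Nat → Nat → Nat → Nat → Nat → Nat → Nat →
    Nat → Nat → Nat → Nat → Nat → Nat → Nat → Nat → Nat → Nat → Nat → Nat → Nat → Nat → Nat → Nat →
    Nat → Nat → Nat → Nat → Nat → Nat → Nat → Nat → Nat → Nat → Nat → Nat → Nat → Nat → Nat → Nat →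
    Nat → Nat → Nat → Nat → Nat → Nat → Nat → Nat → Nat → Nat → Nat → Nat → Nat → Nat → Nat → Nat →
    Nat → Nat → Nat → Nat → Nat → Nat → Nat → Nat → Nat → Nat → Nat → Nat → Nat → Nat → Nat → Nat →
    Nat → Nat → Nat → Nat → Nat → Nat → Nat → Nat → Nat → Nat → Nat → Nat → Nat → Nat → Nat → Nat →
    Nat → Nat → Nat → Nat → Nat → Nat → Nat → Nat → Nat → Nat → Nat → Nat → Nat → Nat → Nat → Nat →
    Nat → Nat → Nat → Nat → Nat → Nat → Nat → Nat → Nat → Nat → Nat → Nat → Nat → Nat → Nat → Nat →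
    Nat → Nat → Nat → Nat → Nat → Nat → Nat → Nat → Nat → Nat → Nat → Nat → Nat → Nat → Nat → Nat →
    Nat → Nat → Nat → Nat → Nat → Nat → Nat → Nat → Nat → Nat → Nat → Nat → Nat → Nat → Nat → Nat →
    Nat → Nat → Nat → Nat → Nat → Nat → Nat → Nat → Nat → Nat → Nat → Nat → Nat → Nat → Nat → Nat →
    Nat → Nat → Nat → Nat → Nat → Nat → Nat → Nat → Nat → Nat → Nat → Nat → Nat → Nat → Nat → Nat →
    Nat → Nat → Nat → Nat → Nat → Nat → Nat → Nat → Nat → Nat → Nat → Nat → Nat → Nat → Nat → Nat →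
    Nat → Nat → Nat → Nat → Nat → Nat → Nat → Nat → Nat → Nat → Nat → Nat → Nat → Nat → Nat → Nat →
    Nat → Nat → Nat → Nat → Nat → Nat → Nat → Nat → Nat → Nat → Nat → Nat → Nat → Nat → Nat → Nat →
    Nat → Nat → Nat → Nat → Nat → Nat → Nat → Nat → Nat → Nat → Nat → Nat → Nat → Nat → Nat → Nat →
    Nat → Nat → Nat → Nat → Nat → Nat → Nat → Nat → Nat → Nat → Nat → Nat → Nat → Nat → Nat → Nat →
    Nat → Nat → Nat → Nat → Nat → Nat → Nat → Nat → Nat → Nat → Nat → Nat → Nat → Nat → Nat → Nat →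
    Nat → Nat → Nat → Nat → Nat → Nat → Nat → Nat → Nat → Nat → Nat → Nat → Nat → Nat → Nat → Nat →
    Nat → Nat → Nat → Nat → Nat → Nat → Nat → Nat → Nat → Nat → Nat → Nat → Nat → Nat → Nat → Nat →
    Nat → Nat → Nat → Nat → Nat → Nat → Nat → Nat → Nat → Nat → Nat → Nat → Nat → Nat → Nat → Nat →
    Nat → Nat → Nat → Nat → Nat → Nat → Nat → Nat → Nat → Nat → Nat → Nat → Nat → Nat → Nat → Nat →
    Nat → Nat → Nat → Nat → Nat → Nat → Nat → Nat → Nat → Nat → Nat → Nat → Nat → Nat → Nat → Nat →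
    Nat → Nat → Nat → Nat → Nat → Nat → Nat → Nat → Nat → Nat → Nat → Nat → Nat → Nat → Nat → Nat →
    Nat → Nat → Nat → Nat → Nat → Nat → Nat → Nat → Nat → Nat → Nat → Nat → Nat → Nat → Nat → Nat →
    Nat → Nat → Nat → Nat → Nat → Nat → Nat → Nat → Nat → Nat → Nat → Nat → Nat → Nat → Nat → Nat →
    Nat → Nat → Nat → Nat → Nat → Nat → Nat → Nat → Nat → Nat → Nat → Nat → Nat → Nat → Nat → Nat →
    Nat → Nat → Nat → Nat → Nat → Nat → Nat → Nat → Nat → Nat → Nat → Nat → Nat → Nat → Nat → Nat →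
    Nat → Nat → Nat → Nat → Nat → Nat → Nat → Nat → Nat → Nat → Nat → Nat → Nat → Nat → Nat → Nat →
    Nat → Nat → Nat → Nat → Nat → Nat → Nat → Nat → Nat → Nat → Nat → Nat → Nat → Nat → Nat → Nat →
    Nat → Nat → Nat → Nat → Nat → Nat → Nat → Nat → Nat → Nat → Nat → Nat → Nat → Nat → Nat → Nat →
    Nat → Nat → Nat → Nat → Nat → Nat → Nat → Nat → Nat → Nat → Nat → Nat → Nat → Nat → Nat → Nat →
    Nat → Nat → Nat → Nat → Nat → Nat → Nat → Nat → Nat → Nat → Nat → Nat → Nat → Nat → Nat → Nat →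
    Nat → Nat → Nat → Nat → Nat → Nat → Nat → Nat → Nat → Nat → Nat → Nat → Nat → Nat → Nat → Nat →
    Nat → Nat → Nat → Nat → Nat → Nat → Nat → Nat → Nat → Nat → Nat → Nat → Nat → Nat → Nat → Nat →
    Nat → Nat → Nat → Nat → Nat → Nat → Nat → Nat → Nat → Nat → Nat → Nat → Nat → Nat → Nat → Nat →
    Nat → Nat → Nat → Nat → Nat → Nat → Nat → Nat → Nat → Nat → Nat → Nat → Nat → Nat → Nat → Nat →
    Nat → Nat → Nat → Nat → Nat → Nat → Nat → Nat → Nat → Nat → Nat → Nat → Nat → Nat → Nat → Nat →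
    Nat → Nat → Nat → Nat → Nat → Nat → Nat → Nat → Nat → Nat → Nat → Nat → Nat → Nat → Nat → Nat →
    Nat → Nat → Nat → Nat → Nat → Nat → Nat → Nat → Nat → Nat → Nat → Nat → Nat → Nat → Nat → Nat →
    Nat → Nat → Nat → Nat → Nat → Nat → Nat → Nat → Nat → Nat → Nat → Nat → Nat → Nat → Nat → Nat →
    Nat → Nat → Nat → Nat → Nat → Nat → Nat → Nat → Nat → Nat → Nat → Nat → Nat → Nat → Nat → Nat →
    Nat → Nat → Nat → Nat → Nat → Nat → Nat → Nat → Nat → Nat → Nat → Nat → Nat → Nat → Nat → Nat →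
    Nat → Nat → Nat → Nat → Nat → Nat → Nat → Nat → Nat → Nat → Nat → Nat → Nat → Nat → Nat → Nat →
    Nat → Nat → Nat → Nat → Nat → Nat → Nat → Nat → Nat → Nat → Nat → Nat → Nat → Nat → Nat → Nat →
    Nat → Nat → Nat → Nat → Nat → Nat → Nat → Nat → Nat → Nat → Nat → Nat → Nat → Nat → Nat → Nat →
    Nat → Nat → Nat → Nat → Nat → Nat → Nat → Nat → Nat → Nat → Nat → Nat → Nat → Nat → Nat → Nat →
    Nat → Nat → Nat → Nat → Nat → Nat → Nat → Nat → Nat → Nat → Nat → Nat → Nat → Nat → Nat → Nat →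
    Nat → Nat → Nat → Nat → Nat → Nat → Nat → Nat → Nat → Nat → Nat → Nat → Nat → Nat → Nat → Nat →
    Nat → Nat → Nat → Nat → Nat → Nat → Nat → Nat → Nat → Nat → Nat → Nat → Nat → Nat → Nat → Nat →
    Nat → Nat → Nat → Nat → Nat → Nat → Nat → Nat → Nat → Nat → Nat → Nat → Nat → Nat → Nat → Nat →
    Nat → Nat → Nat → Nat → Nat → Nat → Nat → Nat → Nat → Nat → Nat → Nat → Nat → Nat → Nat → Nat →
    Nat → Nat → Nat → Nat → Nat → Nat → Nat → Nat → Nat → Nat → Nat → Nat → Nat → Nat → Nat → Nat →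
    Nat → Nat → Nat → Nat → Nat → Nat → Nat → Nat → Nat → Nat → Nat → Nat → Nat → Nat → Nat → Nat →
    Nat → Nat → Nat → Nat → Nat → Nat → Nat → Nat → Nat → Nat → Nat → Nat → Nat → Nat → Nat → Nat →
    Nat → Nat → Nat → Nat → Nat → Nat → Nat → Nat → Nat → Nat → Nat → Nat → Nat → Nat → Nat → Nat →
    Nat → Nat → Nat → Nat → Nat → Nat → Nat → Nat → Nat → Nat → Nat → Nat → Nat → Nat → Nat → Nat →
    Nat → Nat → Nat → Nat → Nat → Nat → Nat → Nat → Nat → Nat → Nat → Nat → Nat → Nat → Nat → Nat →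
    Nat → Nat → Nat → Nat → Nat → Nat → Nat → Nat → Nat → Nat → Nat → Nat → Nat → Nat → Nat → Nat →
    Nat → Nat → Nat → Nat → Nat → Nat → Nat → Nat → Nat → Nat → Nat → Nat → Nat → Nat → Nat → Nat →
    Nat → Nat → Nat → Nat → Nat → Nat → Nat → Nat → Nat → Nat → Nat → Nat → Nat → Nat → Nat → Nat →
    Nat → Nat → Nat → Nat → Nat → Nat → Nat → Nat → Nat → Nat → Nat → Nat → Nat → Nat → Nat → Nat →
    Nat → Nat → Nat → Nat → Nat → Nat → Nat → Nat → Nat → Nat → Nat → Nat → Nat → Nat → Nat → Nat →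
    Nat → Nat → Nat → Nat → Nat → Nat → Nat → Nat → Nat → Nat → Nat → Nat → Nat → Nat → Nat → Nat →
    Nat → Nat → Nat → Nat → Nat → Nat → Nat → Nat → Nat → Nat → Nat → Nat → Nat → Nat → Nat → Nat →
    Nat → Nat → Nat → Nat → Nat → Nat → Nat → Nat → Nat → Nat → Nat → Nat → Nat → Nat → Nat → Nat →
    Nat → Nat → Nat → Nat → Nat → Nat → Nat → Nat → Nat → Nat → Nat → Nat → Nat → Nat → Nat → Nat →
    Nat → Nat → Nat → Nat → Nat → Nat → Nat → Nat → Nat → Nat → Nat → Nat → Nat → Nat → Nat → Nat →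
    Nat → Nat → Nat → Nat → Nat → Nat → Nat → Nat → Nat → Nat → Nat → Nat → Nat → Nat → Nat → Nat →
    Nat → Nat → Nat → Nat → Nat → Nat → Nat → Nat → Nat → Nat → Nat → Nat → Nat → Nat → Nat → Nat →
    Nat → Nat → Nat → Nat → Nat → Nat → Nat → Nat → Nat → Nat → Nat → Nat → Nat → Nat → Nat → Nat →
    Nat → Nat → Nat → Nat → Nat → Nat → Nat → Nat → Nat → Nat → Nat → Nat → Nat → Nat → Nat → Nat →
    Nat → Nat → Nat → Nat → Nat → Nat → Nat → Nat → Nat → Nat → Nat → Nat → Nat → Nat → Nat → Nat →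
    Nat → Nat → Nat → Nat → Nat → Nat → Nat → Nat → Nat → Nat → Nat → Nat → Nat → Nat → Nat → Nat →
    Nat → Nat → Nat → Nat → Nat → Nat → Nat → Nat → Nat → Nat → Nat → Nat → Nat → Nat → Nat → Nat →
    Nat → Nat → Nat → Nat → Nat → Nat → Nat → Nat → Nat → Nat → Nat → Nat → Nat → Nat → Nat → Nat →
    Nat → Nat → Nat → Nat → Nat → Nat → Nat → Nat → Nat → Nat → Nat → Nat → Nat → Nat → Nat → Nat →
    Nat → Nat → Nat → Nat → Nat → Nat → Nat → Nat → Nat → Nat → Nat → Nat → Nat → Nat → Nat → Nat →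
    Nat → Nat → Nat → Nat → Nat → Nat → Nat → Nat → Nat → Nat → Nat → Nat → Nat → Nat → Nat → Nat →
    Nat → Nat → Nat → Nat → Nat → Nat → Nat → Nat → Nat → Nat → Nat → Nat → Nat → Nat → Nat → Nat →
    Nat → Nat → Nat → Nat → Nat → Nat → Nat → Nat → Nat → Nat → Nat → Nat → Nat → Nat → Nat → Nat →
    Nat → Nat → Nat → Nat → Nat → Nat → Nat → Nat → Nat → Nat → Nat → Nat → Nat → Nat → Nat → Nat →
    Nat → Nat → Nat → Nat → Nat → Nat → Nat → Nat → Nat → Nat → Nat → Nat → Nat → Nat → Nat → Nat →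
    Nat → Nat → Nat → Nat → Nat → Nat → Nat → Nat → Nat → Nat → Nat → Nat → Nat → Nat → Nat → Nat →
    Nat → Nat → Nat → Nat → Nat → Nat → Nat → Nat → Nat → Nat → Nat → Nat → Nat → Nat → Nat → Nat →
    Nat → Nat → Nat → Nat → Nat → Nat → Nat → Nat → Nat → Nat → Nat → Nat → Nat → Nat → Nat → Nat →
    Nat → Nat → Nat → Nat → Nat → Nat → Nat → Nat → Nat → Nat → Nat → Nat → Nat → Nat → Nat → Nat →
    Nat → Nat → Nat → Nat → Nat → Nat → Nat → Nat → Nat → Nat → Nat → Nat → Nat → Nat → Nat → Nat →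
    Nat → Nat → Nat → Nat → Nat → Nat → Nat → Nat → Nat → Nat → Nat → Nat → Nat → Nat → Nat → Nat →
    Nat → Nat → Nat → Nat → Nat → Nat → Nat → Nat → Nat → Nat → Nat → Nat → Nat → Nat → Nat → Nat →
    Nat → Nat → Nat → Nat → Nat → Nat → Nat → Nat → Nat → Nat → Nat → Nat → Nat → Nat → Nat → Nat →
    Nat → Nat → Nat → Nat → Nat → Nat → Nat → Nat → Nat → Nat → Nat → Nat → Nat → Nat → Nat → Nat →
    Nat → Nat → Nat → Nat → Nat → Nat → Nat → Nat → Nat → Nat → Nat → Nat → Nat → Nat → Nat → Nat →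
    Nat → Nat → Nat → Nat → Nat → Nat → Nat → Nat → Nat → Nat → Nat → Nat → Nat → Nat → Nat → Nat →
    Nat → Nat → Nat → Nat → Nat → Nat → Nat → Nat → Nat → Nat → Nat → Nat → Nat → Nat → Nat → Nat →
    Nat → Nat → Nat → Nat → Nat → Nat → Nat → Nat → Nat → Nat → Nat → Nat → Nat → Nat → Nat → Nat →
    Nat → Nat → Nat → Nat → Nat → Nat → Nat → Nat → Nat → Nat → Nat → Nat → Nat → Nat → Nat → Nat →
    Nat → Nat → Nat → Nat → Nat → Nat → Nat → Nat → Nat → Nat → Nat → Nat → Nat → Nat → Nat → Nat →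
    Nat → Nat → Nat → Nat → Nat → Nat → Nat → Nat → Nat → Nat → Nat → Nat → Nat → Nat → Nat → Nat →
    Nat → Nat → Nat → Nat → Nat → Nat → Nat → Nat → Nat → Nat → Nat → Nat → Nat → Nat → Nat → Nat →
    Nat → Nat → Nat → Nat → Nat → Nat → Nat → Nat → Nat → Nat → Nat → Nat → Nat → Nat → Nat → Nat →
    Nat → Nat → Nat → Nat → Nat → Nat → Nat → Nat → Nat → Nat → Nat → Nat → Nat → Nat → Nat → Nat →
    Nat → Nat → Nat → Nat → Nat → Nat → Nat → Nat → Nat → Nat → Nat → Nat → Nat → Nat → Nat → Nat →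
    Nat → Nat → Nat → Nat → Nat → Nat → Nat → Nat → Nat → Nat → Nat → Nat → Nat → Nat → Nat → Nat →
    Nat → Nat → Nat → Nat → Nat → Nat → Nat → Nat → Nat → Nat → Nat → Nat → Nat → Nat → Nat → Nat →
    Nat → Nat → Nat → Nat → Nat → Nat → Nat → Nat → Nat → Nat → Nat → Nat → Nat → Nat → Nat → Nat →
    Nat → Nat → Nat → Nat → Nat → Nat → Nat → Nat → Nat → Nat → Nat → Nat → Nat → Nat → Nat → Nat →
    Nat → Nat → Nat → Nat → Nat → Nat → Nat → Nat → Nat → Nat → Nat → Nat → Nat → Nat → Nat → Nat →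
    Nat → Nat → Nat → Nat → Nat → Nat → Nat → Nat → Nat → Nat → Nat → Nat → Nat → Nat → Nat → Nat →
    Nat → Nat → Nat → Nat → Nat → Nat → Nat → Nat → Nat → Nat → Nat → Nat → Nat → Nat → Nat → Nat →
    Nat → Nat → Nat → Nat → Nat → Nat → Nat → Nat → Nat → Nat → Nat → Nat → Nat → Nat → Nat → Nat →
    Nat → Nat → Nat → Nat → Nat → Nat → Nat → Nat → Nat → Nat → Nat → Nat → Nat → Nat → Nat → Nat →
    Nat → Nat → Nat → Nat → Nat → Nat → Nat → Nat → Nat → Nat → Nat → Nat → Nat → Nat → Nat → Nat →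
    Nat → Nat → Nat → Nat → Nat → Nat → Nat → Nat → Nat → Nat → Nat → Nat → Nat → Nat → Nat → Nat →
    Nat → Nat → Nat → Nat → Nat → Nat → Nat → Nat → Nat → Nat → Nat → Nat → Nat → Nat → Nat → Nat →
    Nat → Nat → Nat → Nat → Nat → Nat → Nat → Nat → Nat → Nat → Nat → Nat → Nat → Nat → Nat → Nat →
    Nat → Nat → Nat → Nat → Nat → Nat → Nat → Nat → Nat → Nat → Nat → Nat → Nat → Nat → Nat → Nat →
    Nat → Nat → Nat → Nat → Nat → Nat → Nat → Nat → Nat → Nat → Nat → Nat → Nat → Nat → Nat → Nat →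
    Nat → Nat → Nat → Nat → Nat → Nat → Nat → Nat → Nat → Nat → Nat → Nat → Nat → Nat → Nat → Nat →
    Nat → Nat → Nat → Nat → Nat → Nat → Nat → Nat → Nat → Nat → Nat → Nat → Nat → Nat → Nat → Nat →
    Nat → Nat → Nat → Nat → Nat → Nat → Nat → Nat → Nat → Nat → Nat → Nat → Nat → Nat → Nat → Nat →
    Nat → Nat → Nat → Nat → Nat → Nat → Nat → Nat → Nat → Nat → Nat → Nat → Nat → Nat → Nat → Nat →
    Nat → Nat → Nat → Nat → Nat → Nat → Nat → Nat → Nat → Nat → Nat → Nat → Nat → Nat → Nat → Nat →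
    Nat → Nat → Nat → Nat → Nat → Nat → Nat → Nat → Nat → Nat → Nat → Nat → Nat → Nat → Nat → Nat →
    Nat → Nat → Nat → Nat → Nat → Nat → Nat → Nat → Nat → Nat → Nat → Nat → Nat → Nat → Nat → Nat →
    Nat → Nat → Nat → Nat → Nat → Nat → Nat → Nat → Nat → Nat → Nat → Nat → Nat → Nat → Nat → Nat →
    Nat → Nat → Nat → Nat → Nat → Nat → Nat → Nat → Nat → Nat → Nat → Nat → Nat → Nat → Nat → Nat →
    Nat → Nat → Nat → Nat → Nat → Nat → Nat → Nat → Nat → Nat → Nat → Nat → Nat → Nat → Nat → Nat →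
    Nat → Nat → Nat → Nat → Nat → Nat → Nat → Nat → Nat → Nat → Nat → Nat → Nat → Nat → Nat → Nat →
    Nat → Nat → Nat → Nat → Nat → Nat → Nat → Nat → Nat → Nat → Nat → Nat → Nat → Nat → Nat → Nat →
    Nat → Nat → Nat → Nat → Nat → Nat → Nat → Nat → Nat → Nat → Nat → Nat → Nat → Nat → Nat → Nat →
    Nat → Nat → Nat → Nat → Nat → Nat → Nat → Nat → Nat → Nat → Nat → Nat → Nat → Nat → Nat → Nat →
    Nat → Nat → Nat → Nat → Nat → Nat → Nat → Nat → Nat → Nat → Nat → Nat → Nat → Nat → Nat → Nat →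
    Nat → Nat → Nat → Nat → Nat → Nat → Nat → Nat → Nat → Nat → Nat → Nat → Nat → Nat → Nat → Nat →
    Nat → Nat → Nat → Nat → Nat → Nat → Nat → Nat → Nat → Nat → Nat → Nat → Nat → Nat → Nat → Nat →
    Nat → Nat → Nat → Nat → Nat → Nat → Nat → Nat → Nat → Nat → Nat → Nat → Nat → Nat → Nat → Nat →
    Nat → Nat → Nat → Nat → Nat → Nat → Nat → Nat → Nat → Nat → Nat → Nat → Nat → Nat → Nat → Nat →
    Nat → Nat → Nat → Nat → Nat → Nat → Nat → Nat → Nat → Nat → Nat → Nat → Nat → Nat → Nat → Nat →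
    Nat → Nat → Nat → Nat → Nat → Nat → Nat → Nat → Nat → Nat → Nat → Nat → Nat → Nat → Nat → Nat →
    Nat → Nat → Nat → Nat → Nat → Nat → Nat → Nat → Nat → Nat → Nat → Nat → Nat → Nat → Nat → Nat →
    Nat → Nat → Nat → Nat → Nat → Nat → Nat → Nat → Nat → Nat → Nat → Nat → Nat → Nat → Nat → Nat →
    Nat → Nat → Nat → Nat → Nat → Nat → Nat → Nat → Nat → Nat → Nat → Nat → Nat → Nat → Nat → Nat →
    Nat → Nat → Nat → Nat → Nat → Nat → Nat → Nat → Nat → Nat → Nat → Nat → Nat → Nat → Nat → Nat →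
    Nat → Nat → Nat → Nat → Nat → Nat → Nat → Nat → Nat → Nat → Nat → Nat → Nat → Nat → Nat → Nat →
    Nat → Nat → Nat → Nat → Nat → Nat → Nat → Nat → Nat → Nat → Nat → Nat → Nat → Nat → Nat → Nat →
    Nat → Nat → Nat → Nat → Nat → Nat → Nat → Nat → Nat → Nat → Nat → Nat → Nat → Nat → Nat → Nat →
    Nat → Nat → Nat → Nat → Nat → Nat → Nat → Nat → Nat → Nat → Nat → Nat → Nat → Nat → Nat → Nat →
    Nat → Nat → Nat → Nat → Nat → Nat → Nat → Nat → Nat → Nat → Nat → Nat → Nat → Nat → Nat → Nat →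
    Nat → Nat → Nat → Nat → Nat → Nat → Nat → Nat → Nat → Nat → Nat → Nat → Nat → Nat → Nat → Nat →
    Nat → Nat → Nat → Nat → Nat → Nat → Nat → Nat → Nat → Nat → Nat → Nat → Nat → Nat → Nat → Nat →
    Nat → Nat → Nat → Nat → Nat → Nat → Nat → Nat → Nat → Nat → Nat → Nat → Nat → Nat → Nat → Nat →
    Nat → Nat → Nat → Nat → Nat → Nat → Nat → Nat → Nat → Nat → Nat → Nat → Nat → Nat → Nat → Nat →
    Nat → Nat → Nat → Nat → Nat → Nat → Nat → Nat → Nat → Nat → Nat → Nat → Nat → Nat → Nat → Nat →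
    Nat → Nat → Nat → Nat → Nat → Nat → Nat → Nat → Nat → Nat → Nat → Nat → Nat → Nat → Nat → Nat →
    Nat → Nat → Nat → Nat → Nat → Nat → Nat → Nat → Nat → Nat → Nat → Nat → Nat → Nat → Nat → Nat →
    Nat → Nat → Nat → Nat → Nat → Nat → Nat → Nat → Nat → Nat → Nat → Nat → Nat → Nat → Nat → Nat →
    Nat → Nat → Nat → Nat → Nat → Nat → Nat → Nat → Nat → Nat → Nat → Nat → Nat → Nat → Nat → Nat →
    Nat → Nat → Nat → Nat → Nat → Nat → Nat → Nat → Nat → Nat → Nat → Nat → Nat → Nat → Nat → Nat →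
    Nat → Nat → Nat → Nat → Nat → Nat → Nat → Nat → Nat → Nat → Nat → Nat → Nat → Nat → Nat → Nat →
    Nat → Nat → Nat → Nat → Nat → Nat → Nat → Nat → Nat → Nat → Nat → Nat → Nat → Nat → Nat → Nat →
    Nat → Nat → Nat → Nat → Nat → Nat → Nat → Nat → Nat → Nat → Nat → Nat → Nat → Nat → Nat → Nat →
    Nat → Nat → Nat → Nat → Nat → Nat → Nat → Nat → Nat → Nat → Nat → Nat → Nat → Nat → Nat → Nat →
    Nat → Nat → Nat → Nat → Nat → Nat → Nat → Nat → Nat → Nat → Nat → Nat → Nat → Nat → Nat → Nat →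
    Nat → Nat → Nat → Nat → Nat → Nat → Nat → Nat → Nat → Nat → Nat → Nat → Nat → Nat → Nat → Nat →
    Nat → Nat → Nat → Nat → Nat → Nat → Nat → Nat → Nat → Nat → Nat → Nat → Nat → Nat → Nat → Nat →
    Nat → Nat → Nat → Nat → Nat → Nat → Nat → Nat → Nat → Nat → Nat → Nat → Nat → Nat → Nat → Nat →
    Nat → Nat → Nat → Nat → Nat → Nat → Nat → Nat → Nat → Nat → Nat → Nat → Nat → Nat → Nat → Nat →
    Nat → Nat → Nat → Nat → Nat → Nat → Nat → Nat → Nat → Nat → Nat → Nat → Nat → Nat → Nat → Nat →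
    Nat → Nat → Nat → Nat → Nat → Nat → Nat → Nat → Nat → Nat → Nat → Nat → Nat → Nat → Nat → Nat →
    Nat → Nat → Nat → Nat → Nat → Nat → Nat → Nat → Nat → Nat → Nat → Nat → Nat → Nat → Nat → Nat →
    Nat → Nat → Nat → Nat → Nat → Nat → Nat → Nat → Nat → Nat → Nat → Nat → Nat → Nat → Nat → Nat →
    Nat → Nat → Nat → Nat → Nat → Nat → Nat → Nat → Nat → Nat → Nat → Nat → Nat → Nat → Nat → Nat →
    Nat → Nat → Nat → Nat → Nat → Nat → Nat → Nat → Nat → Nat → Nat → Nat → Nat → Nat → Nat → Nat →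
    Nat → Nat → Nat → Nat → Nat → Nat → Nat → Nat → Nat → Nat → Nat → Nat → Nat → Nat → Nat → Nat →
    Nat → Nat → Nat → Nat → Nat → Nat → Nat → Nat → Nat → Nat → Nat → Nat → Nat → Nat → Nat → Nat →
    Nat → Nat → Nat → Nat → Nat → Nat → Nat → Nat → Nat → Nat → Nat → Nat → Nat → Nat → Nat → Nat →
    Nat → Nat → Nat → Nat → Nat → Nat → Nat → Nat → Nat → Nat → Nat → Nat → Nat → Nat → Nat → Nat →
    Nat → Nat → Nat → Nat → Nat → Nat → Nat → Nat → Nat → Nat → Nat → Nat → Nat → Nat → Nat → Nat →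
    Nat → Nat → Nat → Nat → Nat → Nat → Nat → Nat → Nat → Nat → Nat → Nat → Nat → Nat → Nat → Nat →
    Nat → Nat → Nat → Nat → Nat → Nat → Nat → Nat → Nat → Nat → Nat → Nat → Nat → Nat → Nat → Nat →
    Nat → Nat → Nat → Nat → Nat → Nat → Nat → Nat → Nat → Nat → Nat → Nat → Nat → Nat → Nat → Nat →
    Nat → Nat → Nat → Nat → Nat → Nat → Nat → Nat → Nat → Nat → Nat → Nat → Nat → Nat → Nat → Nat →
    Nat → Nat → Nat → Nat → Nat → Nat → Nat → Nat → Nat → Nat → Nat → Nat → Nat → Nat → Nat → Nat →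
    Nat → Nat → Nat → Nat → Nat → Nat → Nat → Nat → Nat → Nat → Nat → Nat → Nat → Nat → Nat → Nat →
    Nat → Nat → Nat → Nat → Nat → Nat → Nat → Nat → Nat → Nat → Nat → Nat → Nat → Nat → Nat → Nat →
    Nat → Nat → Nat → Nat → Nat → Nat → Nat → Nat → Nat → Nat → Nat → Nat → Nat → Nat → Nat → Nat →
    Nat → Nat → Nat → Nat → Nat → Nat → Nat → Nat → Nat → Nat → Nat → Nat → Nat → Nat → Nat → Nat →
    Nat → Nat → Nat → Nat → Nat → Nat → Nat → Nat → Nat → Nat → Nat → Nat → Nat → Nat → Nat → Nat →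
    Nat → Nat → Nat → Nat → Nat → Nat → Nat → Nat → Nat → Nat → Nat → Nat → Nat → Nat → Nat → Nat →
    Nat → Nat → Nat → Nat → Nat → Nat → Nat → Nat → Nat → Nat → Nat → Nat → Nat → Nat → Nat → Nat →
    Nat → Nat → Nat → Nat → Nat → Nat → Nat → Nat → Nat → Nat → Nat → Nat → Nat → Nat → Nat → Nat →
    Nat → Nat → Nat → Nat → Nat → Nat → Nat → Nat → Nat → Nat → Nat → Nat → Nat → Nat → Nat → Nat →
    Nat → Nat → Nat → Nat → Nat → Nat → Nat → Nat → Nat → Nat → Nat → Nat → Nat → Nat → Nat → Nat →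
    Nat → Nat → Nat → Nat → Nat → Nat → Nat → Nat → Nat → Nat → Nat → Nat → Nat → Nat → Nat → Nat →
    Nat → Nat → Nat → Nat → Nat → Nat → Nat → Nat → Nat → Nat → Nat → Nat → Nat → Nat → Nat → Nat →
    Nat → Nat → Nat → Nat → Nat → Nat → Nat → Nat → Nat → Nat → Nat → Nat → Nat → Nat → Nat → Nat →
    Nat → Nat → Nat → Nat → Nat → Nat → Nat → Nat → Nat → Nat → Nat → Nat → Nat → Nat → Nat → Nat →
    Nat → Nat → Nat → Nat → Nat → Nat → Nat → Nat → Nat → Nat → Nat → Nat → Nat → Nat → Nat → Nat →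
    Nat → Nat → Nat → Nat → Nat → Nat → Nat → Nat → Nat → Nat → Nat → Nat → Nat → Nat → Nat → Nat →
    Nat → Nat → Nat → Nat → Nat → Nat → Nat → Nat → Nat → Nat → Nat → Nat → Nat → Nat → Nat → Nat →
    Nat → Nat → Nat → Nat → Nat → Nat → Nat → Nat → Nat → Nat → Nat → Nat → Nat → Nat → Nat → Nat →
    Nat → Nat → Nat → Nat → Nat → Nat → Nat → Nat → Nat → Nat → Nat → Nat → Nat → Nat → Nat → Nat →
    Nat → Nat → Nat → Nat → Nat → Nat → Nat → Nat → Nat → Nat → Nat → Nat → Nat → Nat → Nat → Nat →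
    Nat → Nat → Nat → Nat → Nat → Nat → Nat → Nat → Nat → Nat → Nat → Nat → Nat → Nat → Nat → Nat →
    Nat → Nat → Nat → Nat → Nat → Nat → Nat → Nat → Nat → Nat → Nat → Nat → Nat → Nat → Nat → Nat →
    Nat → Nat → Nat → Nat → Nat → Nat → Nat → Nat → Nat → Nat → Nat → Nat → Nat → Nat → Nat → Nat →
    Nat → Nat → Nat → Nat → Nat → Nat → Nat → Nat → Nat → Nat → Nat → Nat → Nat → Nat → Nat → Nat →
    Nat → Nat → Nat → Nat → Nat → Nat → Nat → Nat → Nat → Nat → Nat → Nat → Nat → Nat → Nat → Nat →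
    Nat → Nat → Nat → Nat → Nat → Nat → Nat → Nat → Nat → Nat → Nat → Nat → Nat → Nat → Nat → Nat →
    Nat → Nat → Nat → Nat → Nat → Nat → Nat → Nat → Nat → Nat → Nat → Nat → Nat → Nat → Nat → Nat →
    Nat → Nat → Nat → Nat → Nat → Nat → Nat → Nat → Nat → Nat → Nat → Nat → Nat → Nat → Nat → Nat →
    Nat → Nat → Nat → Nat → Nat → Nat → Nat → Nat → Nat → Nat → Nat → Nat → Nat → Nat → Nat → Nat →
    Nat → Nat → Nat → Nat → Nat → Nat → Nat → Nat → Nat → Nat → Nat → Nat → Nat → Nat → Nat → Nat →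
    Nat → Nat → Nat → Nat → Nat → Nat → Nat → Nat → Nat → Nat → Nat → Nat → Nat → Nat → Nat → Nat →
    Nat → Nat → Nat → Nat → Nat → Nat → Nat → Nat → Nat → Nat → Nat → Nat → Nat → Nat → Nat → Nat →
    Nat → Nat → Nat → Nat → Nat → Nat → Nat → Nat → Nat → Nat → Nat → Nat → Nat → Nat → Nat → Nat →
    Nat → Nat → Nat → Nat → Nat → Nat → Nat → Nat → Nat → Nat → Nat → Nat → Nat → Nat → Nat → Nat →
    Nat → Nat → Nat → Nat → Nat → Nat → Nat → Nat → Nat → Nat → Nat → Nat → Nat → Nat → Nat → Nat →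
    Nat → Nat → Nat → Nat → Nat → Nat → Nat → Nat → Nat → Nat → Nat → Nat → Nat → Nat → Nat → Nat →
    Nat → Nat → Nat → Nat → Nat → Nat → Nat → Nat → Nat → Nat → Nat → Nat → Nat → Nat → Nat → Nat →
    Nat → Nat → Nat → Nat → Nat → Nat → Nat → Nat → Nat → Nat → Nat → Nat → Nat → Nat → Nat → Nat →
    Nat → Nat → Nat → Nat → Nat → Nat → Nat → Nat → Nat → Nat → Nat → Nat → Nat → Nat → Nat → Nat →
    Nat → Nat → Nat → Nat → Nat → Nat → Nat → Nat → Nat → Nat → Nat → Nat → Nat → Nat → Nat → Nat →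
    Nat → Nat → Nat → Nat → Nat → Nat → Nat → Nat → Nat → Nat → Nat → Nat → Nat → Nat → Nat → Nat →
    Nat → Nat → Nat → Nat → Nat → Nat → Nat → Nat → Nat → Nat → Nat → Nat → Nat → Nat → Nat → Nat →
    Nat → Nat → Nat → Nat → Nat → Nat → Nat → Nat → Nat → Nat → Nat → Nat → Nat → Nat → Nat → Nat →
    Nat → Nat → Nat → Nat → Nat → Nat → Nat → Nat → Nat → Nat → Nat → Nat → Nat → Nat → Nat → Nat →
    Nat → Nat → Nat → Nat → Nat → Nat → Nat → Nat → Nat → Nat → Nat → Nat → Nat → Nat → Nat → Nat →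
    Nat → Nat → Nat → Nat → Nat → Nat → Nat → Nat → Nat → Nat → Nat → Nat → Nat → Nat → Bool)
  (
    x161 x215 x233 x239 x241 x323 x377 x395 x401 x403 x431 x449 x455 x457 x467 x473 x475 x479 x481
    x483 x539 x557 x563 x565 x593 x611 x617 x619 x629 x635 x637 x641 x643 x645 x665 x671 x673 x683
    x689 x691 x695 x697 x699 x707 x709 x713 x715 x717 x721 x723 x809 x863 x881 x887 x889 x917 x935
    x941 x943 x953 x959 x961 x965 x967 x969 x1025 x1043 x1049 x1051 x1079 x1097 x1103 x1105 x1115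
    x1121 x1123 x1127 x1129 x1131 x1151 x1157 x1159 x1169 x1175 x1177 x1181 x1183 x1185 x1193 x1195
    x1199 x1201 x1203 x1207 x1209 x1241 x1259 x1265 x1267 x1277 x1283 x1285 x1289 x1291 x1293 x1313
    x1319 x1321 x1331 x1337 x1339 x1343 x1345 x1347 x1355 x1357 x1361 x1363 x1365 x1369 x1371 x1385
    x1391 x1393 x1397 x1399 x1401 x1409 x1411 x1415 x1417 x1419 x1423 x1425 x1433 x1435 x1437 x1441
    x1443 x1449 x1511 x1529 x1535 x1537 x1565 x1583 x1589 x1591 x1601 x1607 x1609 x1613 x1615 x1617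
    x1637 x1643 x1645 x1655 x1661 x1663 x1667 x1669 x1671 x1679 x1681 x1685 x1687 x1689 x1693 x1695
    x1727 x1745 x1751 x1753 x1763 x1769 x1771 x1775 x1777 x1779 x1799 x1805 x1807 x1817 x1823 x1825
    x1829 x1831 x1833 x1841 x1843 x1847 x1849 x1851 x1855 x1857 x1871 x1877 x1879 x1883 x1885 x1887
    x1895 x1897 x1901 x1903 x1905 x1909 x1911 x1919 x1921 x1923 x1927 x1929 x1935 x1961 x1967 x1969
    x1979 x1985 x1987 x1991 x1993 x1995 x2003 x2005 x2009 x2011 x2013 x2017 x2019 x2033 x2039 x2041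
    x2045 x2047 x2049 x2057 x2059 x2063 x2065 x2067 x2071 x2073 x2081 x2083 x2085 x2089 x2091 x2097
    x2111 x2113 x2117 x2119 x2121 x2125 x2127 x2135 x2137 x2139 x2143 x2145 x2151 x2161 x2163 x2169
    x2267 x2321 x2339 x2345 x2347 x2375 x2393 x2399 x2401 x2411 x2417 x2419 x2423 x2425 x2427 x2483
    x2501 x2507 x2509 x2537 x2555 x2561 x2563 x2573 x2579 x2581 x2585 x2587 x2589 x2609 x2615 x2617
    x2627 x2633 x2635 x2639 x2641 x2643 x2651 x2653 x2657 x2659 x2661 x2665 x2667 x2699 x2717 x2723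
    x2725 x2735 x2741 x2743 x2747 x2749 x2751 x2771 x2777 x2779 x2789 x2795 x2797 x2801 x2803 x2805
    x2813 x2815 x2819 x2821 x2823 x2827 x2829 x2843 x2849 x2851 x2855 x2857 x2859 x2867 x2869 x2873
    x2875 x2877 x2881 x2883 x2891 x2893 x2895 x2899 x2901 x2907 x2969 x2987 x2993 x2995 x3023 x3041
    x3047 x3049 x3059 x3065 x3067 x3071 x3073 x3075 x3095 x3101 x3103 x3113 x3119 x3121 x3125 x3127
    x3129 x3137 x3139 x3143 x3145 x3147 x3151 x3153 x3185 x3203 x3209 x3211 x3221 x3227 x3229 x3233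
    x3235 x3237 x3257 x3263 x3265 x3275 x3281 x3283 x3287 x3289 x3291 x3299 x3301 x3305 x3307 x3309
    x3313 x3315 x3329 x3335 x3337 x3341 x3343 x3345 x3353 x3355 x3359 x3361 x3363 x3367 x3369 x3377
    x3379 x3381 x3385 x3387 x3393 x3419 x3425 x3427 x3437 x3443 x3445 x3449 x3451 x3453 x3461 x3463
    x3467 x3469 x3471 x3475 x3477 x3491 x3497 x3499 x3503 x3505 x3507 x3515 x3517 x3521 x3523 x3525
    x3529 x3531 x3539 x3541 x3543 x3547 x3549 x3555 x3569 x3571 x3575 x3577 x3579 x3583 x3585 x3593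
    x3595 x3597 x3601 x3603 x3609 x3619 x3621 x3627 x3671 x3689 x3695 x3697 x3707 x3713 x3715 x3719
    x3721 x3723 x3743 x3749 x3751 x3761 x3767 x3769 x3773 x3775 x3777 x3785 x3787 x3791 x3793 x3795
    x3799 x3801 x3815 x3821 x3823 x3827 x3829 x3831 x3839 x3841 x3845 x3847 x3849 x3853 x3855 x3863
    x3865 x3867 x3871 x3873 x3879 x3905 x3911 x3913 x3923 x3929 x3931 x3935 x3937 x3939 x3947 x3949
    x3953 x3955 x3957 x3961 x3963 x3977 x3983 x3985 x3989 x3991 x3993 x4001 x4003 x4007 x4009 x4011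
    x4015 x4017 x4025 x4027 x4029 x4033 x4035 x4041 x4055 x4057 x4061 x4063 x4065 x4069 x4071 x4079
    x4081 x4083 x4087 x4089 x4095 x4105 x4107 x4113 x4139 x4145 x4147 x4151 x4153 x4155 x4163 x4165
    x4169 x4171 x4173 x4177 x4179 x4187 x4189 x4191 x4195 x4197 x4203 x4217 x4219 x4223 x4225 x4227
    x4231 x4233 x4241 x4243 x4245 x4249 x4251 x4257 x4267 x4269 x4275 x4295 x4297 x4299 x4303 x4305
    x4311 x4321 x4323 x4329 x4347 x4427 x4445 x4451 x4453 x4481 x4499 x4505 x4507 x4517 x4523 x4525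
    x4529 x4531 x4533 x4553 x4559 x4561 x4571 x4577 x4579 x4583 x4585 x4587 x4595 x4597 x4601 x4603
    x4605 x4609 x4611 x4643 x4661 x4667 x4669 x4679 x4685 x4687 x4691 x4693 x4695 x4715 x4721 x4723
    x4733 x4739 x4741 x4745 x4747 x4749 x4757 x4759 x4763 x4765 x4767 x4771 x4773 x4787 x4793 x4795
    x4799 x4801 x4803 x4811 x4813 x4817 x4819 x4821 x4825 x4827 x4835 x4837 x4839 x4843 x4845 x4851
    x4877 x4883 x4885 x4895 x4901 x4903 x4907 x4909 x4911 x4919 x4921 x4925 x4927 x4929 x4933 x4935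
    x4949 x4955 x4957 x4961 x4963 x4965 x4973 x4975 x4979 x4981 x4983 x4987 x4989 x4997 x4999 x5001
    x5005 x5007 x5013 x5027 x5029 x5033 x5035 x5037 x5041 x5043 x5051 x5053 x5055 x5059 x5061 x5067
    x5077 x5079 x5085 x5129 x5147 x5153 x5155 x5165 x5171 x5173 x5177 x5179 x5181 x5201 x5207 x5209
    x5219 x5225 x5227 x5231 x5233 x5235 x5243 x5245 x5249 x5251 x5253 x5257 x5259 x5273 x5279 x5281
    x5285 x5287 x5289 x5297 x5299 x5303 x5305 x5307 x5311 x5313 x5321 x5323 x5325 x5329 x5331 x5337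
    x5363 x5369 x5371 x5381 x5387 x5389 x5393 x5395 x5397 x5405 x5407 x5411 x5413 x5415 x5419 x5421
    x5435 x5441 x5443 x5447 x5449 x5451 x5459 x5461 x5465 x5467 x5469 x5473 x5475 x5483 x5485 x5487
    x5491 x5493 x5499 x5513 x5515 x5519 x5521 x5523 x5527 x5529 x5537 x5539 x5541 x5545 x5547 x5553
    x5563 x5565 x5571 x5597 x5603 x5605 x5609 x5611 x5613 x5621 x5623 x5627 x5629 x5631 x5635 x5637
    x5645 x5647 x5649 x5653 x5655 x5661 x5675 x5677 x5681 x5683 x5685 x5689 x5691 x5699 x5701 x5703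
    x5707 x5709 x5715 x5725 x5727 x5733 x5753 x5755 x5757 x5761 x5763 x5769 x5779 x5781 x5787 x5805
    x5849 x5855 x5857 x5867 x5873 x5875 x5879 x5881 x5883 x5891 x5893 x5897 x5899 x5901 x5905 x5907
    x5921 x5927 x5929 x5933 x5935 x5937 x5945 x5947 x5951 x5953 x5955 x5959 x5961 x5969 x5971 x5973
    x5977 x5979 x5985 x5999 x6001 x6005 x6007 x6009 x6013 x6015 x6023 x6025 x6027 x6031 x6033 x6039
    x6049 x6051 x6057 x6083 x6089 x6091 x6095 x6097 x6099 x6107 x6109 x6113 x6115 x6117 x6121 x6123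
    x6131 x6133 x6135 x6139 x6141 x6147 x6161 x6163 x6167 x6169 x6171 x6175 x6177 x6185 x6187 x6189
    x6193 x6195 x6201 x6211 x6213 x6219 x6239 x6241 x6243 x6247 x6249 x6255 x6265 x6267 x6273 x6291
    x6323 x6325 x6329 x6331 x6333 x6337 x6339 x6347 x6349 x6351 x6355 x6357 x6363 x6373 x6375 x6381
    x6401 x6403 x6405 x6409 x6411 x6417 x6427 x6429 x6435 x6453 x6481 x6483 x6489 x6507 x6641 x6695
    x6713 x6719 x6721 x6749 x6767 x6773 x6775 x6785 x6791 x6793 x6797 x6799 x6801 x6857 x6875 x6881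
    x6883 x6911 x6929 x6935 x6937 x6947 x6953 x6955 x6959 x6961 x6963 x6983 x6989 x6991 x7001 x7007
    x7009 x7013 x7015 x7017 x7025 x7027 x7031 x7033 x7035 x7039 x7041 x7073 x7091 x7097 x7099 x7109
    x7115 x7117 x7121 x7123 x7125 x7145 x7151 x7153 x7163 x7169 x7171 x7175 x7177 x7179 x7187 x7189
    x7193 x7195 x7197 x7201 x7203 x7217 x7223 x7225 x7229 x7231 x7233 x7241 x7243 x7247 x7249 x7251
    x7255 x7257 x7265 x7267 x7269 x7273 x7275 x7281 x7343 x7361 x7367 x7369 x7397 x7415 x7421 x7423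
    x7433 x7439 x7441 x7445 x7447 x7449 x7469 x7475 x7477 x7487 x7493 x7495 x7499 x7501 x7503 x7511
    x7513 x7517 x7519 x7521 x7525 x7527 x7559 x7577 x7583 x7585 x7595 x7601 x7603 x7607 x7609 x7611
    x7631 x7637 x7639 x7649 x7655 x7657 x7661 x7663 x7665 x7673 x7675 x7679 x7681 x7683 x7687 x7689
    x7703 x7709 x7711 x7715 x7717 x7719 x7727 x7729 x7733 x7735 x7737 x7741 x7743 x7751 x7753 x7755
    x7759 x7761 x7767 x7793 x7799 x7801 x7811 x7817 x7819 x7823 x7825 x7827 x7835 x7837 x7841 x7843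
    x7845 x7849 x7851 x7865 x7871 x7873 x7877 x7879 x7881 x7889 x7891 x7895 x7897 x7899 x7903 x7905
    x7913 x7915 x7917 x7921 x7923 x7929 x7943 x7945 x7949 x7951 x7953 x7957 x7959 x7967 x7969 x7971
    x7975 x7977 x7983 x7993 x7995 x8001 x8045 x8063 x8069 x8071 x8081 x8087 x8089 x8093 x8095 x8097
    x8117 x8123 x8125 x8135 x8141 x8143 x8147 x8149 x8151 x8159 x8161 x8165 x8167 x8169 x8173 x8175
    x8189 x8195 x8197 x8201 x8203 x8205 x8213 x8215 x8219 x8221 x8223 x8227 x8229 x8237 x8239 x8241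
    x8245 x8247 x8253 x8279 x8285 x8287 x8297 x8303 x8305 x8309 x8311 x8313 x8321 x8323 x8327 x8329
    x8331 x8335 x8337 x8351 x8357 x8359 x8363 x8365 x8367 x8375 x8377 x8381 x8383 x8385 x8389 x8391
    x8399 x8401 x8403 x8407 x8409 x8415 x8429 x8431 x8435 x8437 x8439 x8443 x8445 x8453 x8455 x8457
    x8461 x8463 x8469 x8479 x8481 x8487 x8513 x8519 x8521 x8525 x8527 x8529 x8537 x8539 x8543 x8545
    x8547 x8551 x8553 x8561 x8563 x8565 x8569 x8571 x8577 x8591 x8593 x8597 x8599 x8601 x8605 x8607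
    x8615 x8617 x8619 x8623 x8625 x8631 x8641 x8643 x8649 x8669 x8671 x8673 x8677 x8679 x8685 x8695
    x8697 x8703 x8721 x8801 x8819 x8825 x8827 x8855 x8873 x8879 x8881 x8891 x8897 x8899 x8903 x8905
    x8907 x8927 x8933 x8935 x8945 x8951 x8953 x8957 x8959 x8961 x8969 x8971 x8975 x8977 x8979 x8983
    x8985 x9017 x9035 x9041 x9043 x9053 x9059 x9061 x9065 x9067 x9069 x9089 x9095 x9097 x9107 x9113
    x9115 x9119 x9121 x9123 x9131 x9133 x9137 x9139 x9141 x9145 x9147 x9161 x9167 x9169 x9173 x9175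
    x9177 x9185 x9187 x9191 x9193 x9195 x9199 x9201 x9209 x9211 x9213 x9217 x9219 x9225 x9251 x9257
    x9259 x9269 x9275 x9277 x9281 x9283 x9285 x9293 x9295 x9299 x9301 x9303 x9307 x9309 x9323 x9329
    x9331 x9335 x9337 x9339 x9347 x9349 x9353 x9355 x9357 x9361 x9363 x9371 x9373 x9375 x9379 x9381
    x9387 x9401 x9403 x9407 x9409 x9411 x9415 x9417 x9425 x9427 x9429 x9433 x9435 x9441 x9451 x9453
    x9459 x9503 x9521 x9527 x9529 x9539 x9545 x9547 x9551 x9553 x9555 x9575 x9581 x9583 x9593 x9599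
    x9601 x9605 x9607 x9609 x9617 x9619 x9623 x9625 x9627 x9631 x9633 x9647 x9653 x9655 x9659 x9661
    x9663 x9671 x9673 x9677 x9679 x9681 x9685 x9687 x9695 x9697 x9699 x9703 x9705 x9711 x9737 x9743
    x9745 x9755 x9761 x9763 x9767 x9769 x9771 x9779 x9781 x9785 x9787 x9789 x9793 x9795 x9809 x9815
    x9817 x9821 x9823 x9825 x9833 x9835 x9839 x9841 x9843 x9847 x9849 x9857 x9859 x9861 x9865 x9867
    x9873 x9887 x9889 x9893 x9895 x9897 x9901 x9903 x9911 x9913 x9915 x9919 x9921 x9927 x9937 x9939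
    x9945 x9971 x9977 x9979 x9983 x9985 x9987 x9995 x9997 x10001 x10003 x10005 x10009 x10011 x10019
    x10021 x10023 x10027 x10029 x10035 x10049 x10051 x10055 x10057 x10059 x10063 x10065 x10073
    x10075 x10077 x10081 x10083 x10089 x10099 x10101 x10107 x10127 x10129 x10131 x10135 x10137
    x10143 x10153 x10155 x10161 x10179 x10223 x10229 x10231 x10241 x10247 x10249 x10253 x10255
    x10257 x10265 x10267 x10271 x10273 x10275 x10279 x10281 x10295 x10301 x10303 x10307 x10309
    x10311 x10319 x10321 x10325 x10327 x10329 x10333 x10335 x10343 x10345 x10347 x10351 x10353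
    x10359 x10373 x10375 x10379 x10381 x10383 x10387 x10389 x10397 x10399 x10401 x10405 x10407
    x10413 x10423 x10425 x10431 x10457 x10463 x10465 x10469 x10471 x10473 x10481 x10483 x10487
    x10489 x10491 x10495 x10497 x10505 x10507 x10509 x10513 x10515 x10521 x10535 x10537 x10541
    x10543 x10545 x10549 x10551 x10559 x10561 x10563 x10567 x10569 x10575 x10585 x10587 x10593
    x10613 x10615 x10617 x10621 x10623 x10629 x10639 x10641 x10647 x10665 x10697 x10699 x10703
    x10705 x10707 x10711 x10713 x10721 x10723 x10725 x10729 x10731 x10737 x10747 x10749 x10755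
    x10775 x10777 x10779 x10783 x10785 x10791 x10801 x10803 x10809 x10827 x10855 x10857 x10863
    x10881 x10961 x10979 x10985 x10987 x10997 x11003 x11005 x11009 x11011 x11013 x11033 x11039
    x11041 x11051 x11057 x11059 x11063 x11065 x11067 x11075 x11077 x11081 x11083 x11085 x11089
    x11091 x11105 x11111 x11113 x11117 x11119 x11121 x11129 x11131 x11135 x11137 x11139 x11143
    x11145 x11153 x11155 x11157 x11161 x11163 x11169 x11195 x11201 x11203 x11213 x11219 x11221
    x11225 x11227 x11229 x11237 x11239 x11243 x11245 x11247 x11251 x11253 x11267 x11273 x11275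
    x11279 x11281 x11283 x11291 x11293 x11297 x11299 x11301 x11305 x11307 x11315 x11317 x11319
    x11323 x11325 x11331 x11345 x11347 x11351 x11353 x11355 x11359 x11361 x11369 x11371 x11373
    x11377 x11379 x11385 x11395 x11397 x11403 x11429 x11435 x11437 x11441 x11443 x11445 x11453
    x11455 x11459 x11461 x11463 x11467 x11469 x11477 x11479 x11481 x11485 x11487 x11493 x11507
    x11509 x11513 x11515 x11517 x11521 x11523 x11531 x11533 x11535 x11539 x11541 x11547 x11557
    x11559 x11565 x11585 x11587 x11589 x11593 x11595 x11601 x11611 x11613 x11619 x11637 x11681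
    x11687 x11689 x11699 x11705 x11707 x11711 x11713 x11715 x11723 x11725 x11729 x11731 x11733
    x11737 x11739 x11753 x11759 x11761 x11765 x11767 x11769 x11777 x11779 x11783 x11785 x11787
    x11791 x11793 x11801 x11803 x11805 x11809 x11811 x11817 x11831 x11833 x11837 x11839 x11841
    x11845 x11847 x11855 x11857 x11859 x11863 x11865 x11871 x11881 x11883 x11889 x11915 x11921
    x11923 x11927 x11929 x11931 x11939 x11941 x11945 x11947 x11949 x11953 x11955 x11963 x11965
    x11967 x11971 x11973 x11979 x11993 x11995 x11999 x12001 x12003 x12007 x12009 x12017 x12019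
    x12021 x12025 x12027 x12033 x12043 x12045 x12051 x12071 x12073 x12075 x12079 x12081 x12087
    x12097 x12099 x12105 x12123 x12155 x12157 x12161 x12163 x12165 x12169 x12171 x12179 x12181
    x12183 x12187 x12189 x12195 x12205 x12207 x12213 x12233 x12235 x12237 x12241 x12243 x12249
    x12259 x12261 x12267 x12285 x12313 x12315 x12321 x12339 x12401 x12407 x12409 x12413 x12415
    x12417 x12425 x12427 x12431 x12433 x12435 x12439 x12441 x12449 x12451 x12453 x12457 x12459
    x12465 x12479 x12481 x12485 x12487 x12489 x12493 x12495 x12503 x12505 x12507 x12511 x12513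
    x12519 x12529 x12531 x12537 x12557 x12559 x12561 x12565 x12567 x12573 x12583 x12585 x12591
    x12609 x12641 x12643 x12647 x12649 x12651 x12655 x12657 x12665 x12667 x12669 x12673 x12675
    x12681 x12691 x12693 x12699 x12719 x12721 x12723 x12727 x12729 x12735 x12745 x12747 x12753
    x12771 x12799 x12801 x12807 x12825 x12881 x12883 x12885 x12889 x12891 x12897 x12907 x12909
    x12915 x12933 x12961 x12963 x12969 x12987 x13041 x13175 x13193 x13199 x13201 x13229 x13247
    x13253 x13255 x13265 x13271 x13273 x13277 x13279 x13281 x13301 x13307 x13309 x13319 x13325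
    x13327 x13331 x13333 x13335 x13343 x13345 x13349 x13351 x13353 x13357 x13359 x13391 x13409
    x13415 x13417 x13427 x13433 x13435 x13439 x13441 x13443 x13463 x13469 x13471 x13481 x13487
    x13489 x13493 x13495 x13497 x13505 x13507 x13511 x13513 x13515 x13519 x13521 x13535 x13541
    x13543 x13547 x13549 x13551 x13559 x13561 x13565 x13567 x13569 x13573 x13575 x13583 x13585
    x13587 x13591 x13593 x13599 x13625 x13631 x13633 x13643 x13649 x13651 x13655 x13657 x13659
    x13667 x13669 x13673 x13675 x13677 x13681 x13683 x13697 x13703 x13705 x13709 x13711 x13713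
    x13721 x13723 x13727 x13729 x13731 x13735 x13737 x13745 x13747 x13749 x13753 x13755 x13761
    x13775 x13777 x13781 x13783 x13785 x13789 x13791 x13799 x13801 x13803 x13807 x13809 x13815
    x13825 x13827 x13833 x13877 x13895 x13901 x13903 x13913 x13919 x13921 x13925 x13927 x13929
    x13949 x13955 x13957 x13967 x13973 x13975 x13979 x13981 x13983 x13991 x13993 x13997 x13999
    x14001 x14005 x14007 x14021 x14027 x14029 x14033 x14035 x14037 x14045 x14047 x14051 x14053
    x14055 x14059 x14061 x14069 x14071 x14073 x14077 x14079 x14085 x14111 x14117 x14119 x14129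
    x14135 x14137 x14141 x14143 x14145 x14153 x14155 x14159 x14161 x14163 x14167 x14169 x14183
    x14189 x14191 x14195 x14197 x14199 x14207 x14209 x14213 x14215 x14217 x14221 x14223 x14231
    x14233 x14235 x14239 x14241 x14247 x14261 x14263 x14267 x14269 x14271 x14275 x14277 x14285
    x14287 x14289 x14293 x14295 x14301 x14311 x14313 x14319 x14345 x14351 x14353 x14357 x14359
    x14361 x14369 x14371 x14375 x14377 x14379 x14383 x14385 x14393 x14395 x14397 x14401 x14403
    x14409 x14423 x14425 x14429 x14431 x14433 x14437 x14439 x14447 x14449 x14451 x14455 x14457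
    x14463 x14473 x14475 x14481 x14501 x14503 x14505 x14509 x14511 x14517 x14527 x14529 x14535
    x14553 x14597 x14603 x14605 x14615 x14621 x14623 x14627 x14629 x14631 x14639 x14641 x14645
    x14647 x14649 x14653 x14655 x14669 x14675 x14677 x14681 x14683 x14685 x14693 x14695 x14699
    x14701 x14703 x14707 x14709 x14717 x14719 x14721 x14725 x14727 x14733 x14747 x14749 x14753
    x14755 x14757 x14761 x14763 x14771 x14773 x14775 x14779 x14781 x14787 x14797 x14799 x14805
    x14831 x14837 x14839 x14843 x14845 x14847 x14855 x14857 x14861 x14863 x14865 x14869 x14871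
    x14879 x14881 x14883 x14887 x14889 x14895 x14909 x14911 x14915 x14917 x14919 x14923 x14925
    x14933 x14935 x14937 x14941 x14943 x14949 x14959 x14961 x14967 x14987 x14989 x14991 x14995
    x14997 x15003 x15013 x15015 x15021 x15039 x15071 x15073 x15077 x15079 x15081 x15085 x15087
    x15095 x15097 x15099 x15103 x15105 x15111 x15121 x15123 x15129 x15149 x15151 x15153 x15157
    x15159 x15165 x15175 x15177 x15183 x15201 x15229 x15231 x15237 x15255 x15335 x15353 x15359
    x15361 x15371 x15377 x15379 x15383 x15385 x15387 x15407 x15413 x15415 x15425 x15431 x15433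
    x15437 x15439 x15441 x15449 x15451 x15455 x15457 x15459 x15463 x15465 x15479 x15485 x15487
    x15491 x15493 x15495 x15503 x15505 x15509 x15511 x15513 x15517 x15519 x15527 x15529 x15531
    x15535 x15537 x15543 x15569 x15575 x15577 x15587 x15593 x15595 x15599 x15601 x15603 x15611
    x15613 x15617 x15619 x15621 x15625 x15627 x15641 x15647 x15649 x15653 x15655 x15657 x15665
    x15667 x15671 x15673 x15675 x15679 x15681 x15689 x15691 x15693 x15697 x15699 x15705 x15719
    x15721 x15725 x15727 x15729 x15733 x15735 x15743 x15745 x15747 x15751 x15753 x15759 x15769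
    x15771 x15777 x15803 x15809 x15811 x15815 x15817 x15819 x15827 x15829 x15833 x15835 x15837
    x15841 x15843 x15851 x15853 x15855 x15859 x15861 x15867 x15881 x15883 x15887 x15889 x15891
    x15895 x15897 x15905 x15907 x15909 x15913 x15915 x15921 x15931 x15933 x15939 x15959 x15961
    x15963 x15967 x15969 x15975 x15985 x15987 x15993 x16011 x16055 x16061 x16063 x16073 x16079
    x16081 x16085 x16087 x16089 x16097 x16099 x16103 x16105 x16107 x16111 x16113 x16127 x16133
    x16135 x16139 x16141 x16143 x16151 x16153 x16157 x16159 x16161 x16165 x16167 x16175 x16177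
    x16179 x16183 x16185 x16191 x16205 x16207 x16211 x16213 x16215 x16219 x16221 x16229 x16231
    x16233 x16237 x16239 x16245 x16255 x16257 x16263 x16289 x16295 x16297 x16301 x16303 x16305
    x16313 x16315 x16319 x16321 x16323 x16327 x16329 x16337 x16339 x16341 x16345 x16347 x16353
    x16367 x16369 x16373 x16375 x16377 x16381 x16383 x16391 x16393 x16395 x16399 x16401 x16407
    x16417 x16419 x16425 x16445 x16447 x16449 x16453 x16455 x16461 x16471 x16473 x16479 x16497
    x16529 x16531 x16535 x16537 x16539 x16543 x16545 x16553 x16555 x16557 x16561 x16563 x16569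
    x16579 x16581 x16587 x16607 x16609 x16611 x16615 x16617 x16623 x16633 x16635 x16641 x16659
    x16687 x16689 x16695 x16713 x16775 x16781 x16783 x16787 x16789 x16791 x16799 x16801 x16805
    x16807 x16809 x16813 x16815 x16823 x16825 x16827 x16831 x16833 x16839 x16853 x16855 x16859
    x16861 x16863 x16867 x16869 x16877 x16879 x16881 x16885 x16887 x16893 x16903 x16905 x16911
    x16931 x16933 x16935 x16939 x16941 x16947 x16957 x16959 x16965 x16983 x17015 x17017 x17021
    x17023 x17025 x17029 x17031 x17039 x17041 x17043 x17047 x17049 x17055 x17065 x17067 x17073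
    x17093 x17095 x17097 x17101 x17103 x17109 x17119 x17121 x17127 x17145 x17173 x17175 x17181
    x17199 x17255 x17257 x17259 x17263 x17265 x17271 x17281 x17283 x17289 x17307 x17335 x17337
    x17343 x17361 x17415 x17513 x17519 x17521 x17531 x17537 x17539 x17543 x17545 x17547 x17555
    x17557 x17561 x17563 x17565 x17569 x17571 x17585 x17591 x17593 x17597 x17599 x17601 x17609
    x17611 x17615 x17617 x17619 x17623 x17625 x17633 x17635 x17637 x17641 x17643 x17649 x17663
    x17665 x17669 x17671 x17673 x17677 x17679 x17687 x17689 x17691 x17695 x17697 x17703 x17713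
    x17715 x17721 x17747 x17753 x17755 x17759 x17761 x17763 x17771 x17773 x17777 x17779 x17781
    x17785 x17787 x17795 x17797 x17799 x17803 x17805 x17811 x17825 x17827 x17831 x17833 x17835
    x17839 x17841 x17849 x17851 x17853 x17857 x17859 x17865 x17875 x17877 x17883 x17903 x17905
    x17907 x17911 x17913 x17919 x17929 x17931 x17937 x17955 x17987 x17989 x17993 x17995 x17997
    x18001 x18003 x18011 x18013 x18015 x18019 x18021 x18027 x18037 x18039 x18045 x18065 x18067
    x18069 x18073 x18075 x18081 x18091 x18093 x18099 x18117 x18145 x18147 x18153 x18171 x18233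
    x18239 x18241 x18245 x18247 x18249 x18257 x18259 x18263 x18265 x18267 x18271 x18273 x18281
    x18283 x18285 x18289 x18291 x18297 x18311 x18313 x18317 x18319 x18321 x18325 x18327 x18335
    x18337 x18339 x18343 x18345 x18351 x18361 x18363 x18369 x18389 x18391 x18393 x18397 x18399
    x18405 x18415 x18417 x18423 x18441 x18473 x18475 x18479 x18481 x18483 x18487 x18489 x18497
    x18499 x18501 x18505 x18507 x18513 x18523 x18525 x18531 x18551 x18553 x18555 x18559 x18561
    x18567 x18577 x18579 x18585 x18603 x18631 x18633 x18639 x18657 x18713 x18715 x18717 x18721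
    x18723 x18729 x18739 x18741 x18747 x18765 x18793 x18795 x18801 x18819 x18873 x18959 x18961
    x18965 x18967 x18969 x18973 x18975 x18983 x18985 x18987 x18991 x18993 x18999 x19009 x19011
    x19017 x19037 x19039 x19041 x19045 x19047 x19053 x19063 x19065 x19071 x19089 x19117 x19119
    x19125 x19143 x19199 x19201 x19203 x19207 x19209 x19215 x19225 x19227 x19233 x19251 x19279
    x19281 x19287 x19305 x19359 x19441 x19443 x19449 x19467 x19521 x19763 x19817 x19835 x19841
    x19843 x19871 x19889 x19895 x19897 x19907 x19913 x19915 x19919 x19921 x19923 x19979 x19997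
    x20003 x20005 x20033 x20051 x20057 x20059 x20069 x20075 x20077 x20081 x20083 x20085 x20105
    x20111 x20113 x20123 x20129 x20131 x20135 x20137 x20139 x20147 x20149 x20153 x20155 x20157
    x20161 x20163 x20195 x20213 x20219 x20221 x20231 x20237 x20239 x20243 x20245 x20247 x20267
    x20273 x20275 x20285 x20291 x20293 x20297 x20299 x20301 x20309 x20311 x20315 x20317 x20319
    x20323 x20325 x20339 x20345 x20347 x20351 x20353 x20355 x20363 x20365 x20369 x20371 x20373
    x20377 x20379 x20387 x20389 x20391 x20395 x20397 x20403 x20465 x20483 x20489 x20491 x20519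
    x20537 x20543 x20545 x20555 x20561 x20563 x20567 x20569 x20571 x20591 x20597 x20599 x20609
    x20615 x20617 x20621 x20623 x20625 x20633 x20635 x20639 x20641 x20643 x20647 x20649 x20681
    x20699 x20705 x20707 x20717 x20723 x20725 x20729 x20731 x20733 x20753 x20759 x20761 x20771
    x20777 x20779 x20783 x20785 x20787 x20795 x20797 x20801 x20803 x20805 x20809 x20811 x20825
    x20831 x20833 x20837 x20839 x20841 x20849 x20851 x20855 x20857 x20859 x20863 x20865 x20873
    x20875 x20877 x20881 x20883 x20889 x20915 x20921 x20923 x20933 x20939 x20941 x20945 x20947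
    x20949 x20957 x20959 x20963 x20965 x20967 x20971 x20973 x20987 x20993 x20995 x20999 x21001
    x21003 x21011 x21013 x21017 x21019 x21021 x21025 x21027 x21035 x21037 x21039 x21043 x21045
    x21051 x21065 x21067 x21071 x21073 x21075 x21079 x21081 x21089 x21091 x21093 x21097 x21099
    x21105 x21115 x21117 x21123 x21167 x21185 x21191 x21193 x21203 x21209 x21211 x21215 x21217
    x21219 x21239 x21245 x21247 x21257 x21263 x21265 x21269 x21271 x21273 x21281 x21283 x21287
    x21289 x21291 x21295 x21297 x21311 x21317 x21319 x21323 x21325 x21327 x21335 x21337 x21341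
    x21343 x21345 x21349 x21351 x21359 x21361 x21363 x21367 x21369 x21375 x21401 x21407 x21409
    x21419 x21425 x21427 x21431 x21433 x21435 x21443 x21445 x21449 x21451 x21453 x21457 x21459
    x21473 x21479 x21481 x21485 x21487 x21489 x21497 x21499 x21503 x21505 x21507 x21511 x21513
    x21521 x21523 x21525 x21529 x21531 x21537 x21551 x21553 x21557 x21559 x21561 x21565 x21567
    x21575 x21577 x21579 x21583 x21585 x21591 x21601 x21603 x21609 x21635 x21641 x21643 x21647
    x21649 x21651 x21659 x21661 x21665 x21667 x21669 x21673 x21675 x21683 x21685 x21687 x21691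
    x21693 x21699 x21713 x21715 x21719 x21721 x21723 x21727 x21729 x21737 x21739 x21741 x21745
    x21747 x21753 x21763 x21765 x21771 x21791 x21793 x21795 x21799 x21801 x21807 x21817 x21819
    x21825 x21843 x21923 x21941 x21947 x21949 x21977 x21995 x22001 x22003 x22013 x22019 x22021
    x22025 x22027 x22029 x22049 x22055 x22057 x22067 x22073 x22075 x22079 x22081 x22083 x22091
    x22093 x22097 x22099 x22101 x22105 x22107 x22139 x22157 x22163 x22165 x22175 x22181 x22183
    x22187 x22189 x22191 x22211 x22217 x22219 x22229 x22235 x22237 x22241 x22243 x22245 x22253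
    x22255 x22259 x22261 x22263 x22267 x22269 x22283 x22289 x22291 x22295 x22297 x22299 x22307
    x22309 x22313 x22315 x22317 x22321 x22323 x22331 x22333 x22335 x22339 x22341 x22347 x22373
    x22379 x22381 x22391 x22397 x22399 x22403 x22405 x22407 x22415 x22417 x22421 x22423 x22425
    x22429 x22431 x22445 x22451 x22453 x22457 x22459 x22461 x22469 x22471 x22475 x22477 x22479
    x22483 x22485 x22493 x22495 x22497 x22501 x22503 x22509 x22523 x22525 x22529 x22531 x22533
    x22537 x22539 x22547 x22549 x22551 x22555 x22557 x22563 x22573 x22575 x22581 x22625 x22643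
    x22649 x22651 x22661 x22667 x22669 x22673 x22675 x22677 x22697 x22703 x22705 x22715 x22721
    x22723 x22727 x22729 x22731 x22739 x22741 x22745 x22747 x22749 x22753 x22755 x22769 x22775
    x22777 x22781 x22783 x22785 x22793 x22795 x22799 x22801 x22803 x22807 x22809 x22817 x22819
    x22821 x22825 x22827 x22833 x22859 x22865 x22867 x22877 x22883 x22885 x22889 x22891 x22893
    x22901 x22903 x22907 x22909 x22911 x22915 x22917 x22931 x22937 x22939 x22943 x22945 x22947
    x22955 x22957 x22961 x22963 x22965 x22969 x22971 x22979 x22981 x22983 x22987 x22989 x22995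
    x23009 x23011 x23015 x23017 x23019 x23023 x23025 x23033 x23035 x23037 x23041 x23043 x23049
    x23059 x23061 x23067 x23093 x23099 x23101 x23105 x23107 x23109 x23117 x23119 x23123 x23125
    x23127 x23131 x23133 x23141 x23143 x23145 x23149 x23151 x23157 x23171 x23173 x23177 x23179
    x23181 x23185 x23187 x23195 x23197 x23199 x23203 x23205 x23211 x23221 x23223 x23229 x23249
    x23251 x23253 x23257 x23259 x23265 x23275 x23277 x23283 x23301 x23345 x23351 x23353 x23363
    x23369 x23371 x23375 x23377 x23379 x23387 x23389 x23393 x23395 x23397 x23401 x23403 x23417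
    x23423 x23425 x23429 x23431 x23433 x23441 x23443 x23447 x23449 x23451 x23455 x23457 x23465
    x23467 x23469 x23473 x23475 x23481 x23495 x23497 x23501 x23503 x23505 x23509 x23511 x23519
    x23521 x23523 x23527 x23529 x23535 x23545 x23547 x23553 x23579 x23585 x23587 x23591 x23593
    x23595 x23603 x23605 x23609 x23611 x23613 x23617 x23619 x23627 x23629 x23631 x23635 x23637
    x23643 x23657 x23659 x23663 x23665 x23667 x23671 x23673 x23681 x23683 x23685 x23689 x23691
    x23697 x23707 x23709 x23715 x23735 x23737 x23739 x23743 x23745 x23751 x23761 x23763 x23769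
    x23787 x23819 x23821 x23825 x23827 x23829 x23833 x23835 x23843 x23845 x23847 x23851 x23853
    x23859 x23869 x23871 x23877 x23897 x23899 x23901 x23905 x23907 x23913 x23923 x23925 x23931
    x23949 x23977 x23979 x23985 x24003 x24083 x24101 x24107 x24109 x24119 x24125 x24127 x24131
    x24133 x24135 x24155 x24161 x24163 x24173 x24179 x24181 x24185 x24187 x24189 x24197 x24199
    x24203 x24205 x24207 x24211 x24213 x24227 x24233 x24235 x24239 x24241 x24243 x24251 x24253
    x24257 x24259 x24261 x24265 x24267 x24275 x24277 x24279 x24283 x24285 x24291 x24317 x24323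
    x24325 x24335 x24341 x24343 x24347 x24349 x24351 x24359 x24361 x24365 x24367 x24369 x24373
    x24375 x24389 x24395 x24397 x24401 x24403 x24405 x24413 x24415 x24419 x24421 x24423 x24427
    x24429 x24437 x24439 x24441 x24445 x24447 x24453 x24467 x24469 x24473 x24475 x24477 x24481
    x24483 x24491 x24493 x24495 x24499 x24501 x24507 x24517 x24519 x24525 x24551 x24557 x24559
    x24563 x24565 x24567 x24575 x24577 x24581 x24583 x24585 x24589 x24591 x24599 x24601 x24603
    x24607 x24609 x24615 x24629 x24631 x24635 x24637 x24639 x24643 x24645 x24653 x24655 x24657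
    x24661 x24663 x24669 x24679 x24681 x24687 x24707 x24709 x24711 x24715 x24717 x24723 x24733
    x24735 x24741 x24759 x24803 x24809 x24811 x24821 x24827 x24829 x24833 x24835 x24837 x24845
    x24847 x24851 x24853 x24855 x24859 x24861 x24875 x24881 x24883 x24887 x24889 x24891 x24899
    x24901 x24905 x24907 x24909 x24913 x24915 x24923 x24925 x24927 x24931 x24933 x24939 x24953
    x24955 x24959 x24961 x24963 x24967 x24969 x24977 x24979 x24981 x24985 x24987 x24993 x25003
    x25005 x25011 x25037 x25043 x25045 x25049 x25051 x25053 x25061 x25063 x25067 x25069 x25071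
    x25075 x25077 x25085 x25087 x25089 x25093 x25095 x25101 x25115 x25117 x25121 x25123 x25125
    x25129 x25131 x25139 x25141 x25143 x25147 x25149 x25155 x25165 x25167 x25173 x25193 x25195
    x25197 x25201 x25203 x25209 x25219 x25221 x25227 x25245 x25277 x25279 x25283 x25285 x25287
    x25291 x25293 x25301 x25303 x25305 x25309 x25311 x25317 x25327 x25329 x25335 x25355 x25357
    x25359 x25363 x25365 x25371 x25381 x25383 x25389 x25407 x25435 x25437 x25443 x25461 x25523
    x25529 x25531 x25535 x25537 x25539 x25547 x25549 x25553 x25555 x25557 x25561 x25563 x25571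
    x25573 x25575 x25579 x25581 x25587 x25601 x25603 x25607 x25609 x25611 x25615 x25617 x25625
    x25627 x25629 x25633 x25635 x25641 x25651 x25653 x25659 x25679 x25681 x25683 x25687 x25689
    x25695 x25705 x25707 x25713 x25731 x25763 x25765 x25769 x25771 x25773 x25777 x25779 x25787
    x25789 x25791 x25795 x25797 x25803 x25813 x25815 x25821 x25841 x25843 x25845 x25849 x25851
    x25857 x25867 x25869 x25875 x25893 x25921 x25923 x25929 x25947 x26003 x26005 x26007 x26011
    x26013 x26019 x26029 x26031 x26037 x26055 x26083 x26085 x26091 x26109 x26163 x26297 x26315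
    x26321 x26323 x26351 x26369 x26375 x26377 x26387 x26393 x26395 x26399 x26401 x26403 x26423
    x26429 x26431 x26441 x26447 x26449 x26453 x26455 x26457 x26465 x26467 x26471 x26473 x26475
    x26479 x26481 x26513 x26531 x26537 x26539 x26549 x26555 x26557 x26561 x26563 x26565 x26585
    x26591 x26593 x26603 x26609 x26611 x26615 x26617 x26619 x26627 x26629 x26633 x26635 x26637
    x26641 x26643 x26657 x26663 x26665 x26669 x26671 x26673 x26681 x26683 x26687 x26689 x26691
    x26695 x26697 x26705 x26707 x26709 x26713 x26715 x26721 x26747 x26753 x26755 x26765 x26771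
    x26773 x26777 x26779 x26781 x26789 x26791 x26795 x26797 x26799 x26803 x26805 x26819 x26825
    x26827 x26831 x26833 x26835 x26843 x26845 x26849 x26851 x26853 x26857 x26859 x26867 x26869
    x26871 x26875 x26877 x26883 x26897 x26899 x26903 x26905 x26907 x26911 x26913 x26921 x26923
    x26925 x26929 x26931 x26937 x26947 x26949 x26955 x26999 x27017 x27023 x27025 x27035 x27041
    x27043 x27047 x27049 x27051 x27071 x27077 x27079 x27089 x27095 x27097 x27101 x27103 x27105
    x27113 x27115 x27119 x27121 x27123 x27127 x27129 x27143 x27149 x27151 x27155 x27157 x27159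
    x27167 x27169 x27173 x27175 x27177 x27181 x27183 x27191 x27193 x27195 x27199 x27201 x27207
    x27233 x27239 x27241 x27251 x27257 x27259 x27263 x27265 x27267 x27275 x27277 x27281 x27283
    x27285 x27289 x27291 x27305 x27311 x27313 x27317 x27319 x27321 x27329 x27331 x27335 x27337
    x27339 x27343 x27345 x27353 x27355 x27357 x27361 x27363 x27369 x27383 x27385 x27389 x27391
    x27393 x27397 x27399 x27407 x27409 x27411 x27415 x27417 x27423 x27433 x27435 x27441 x27467
    x27473 x27475 x27479 x27481 x27483 x27491 x27493 x27497 x27499 x27501 x27505 x27507 x27515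
    x27517 x27519 x27523 x27525 x27531 x27545 x27547 x27551 x27553 x27555 x27559 x27561 x27569
    x27571 x27573 x27577 x27579 x27585 x27595 x27597 x27603 x27623 x27625 x27627 x27631 x27633
    x27639 x27649 x27651 x27657 x27675 x27719 x27725 x27727 x27737 x27743 x27745 x27749 x27751
    x27753 x27761 x27763 x27767 x27769 x27771 x27775 x27777 x27791 x27797 x27799 x27803 x27805
    x27807 x27815 x27817 x27821 x27823 x27825 x27829 x27831 x27839 x27841 x27843 x27847 x27849
    x27855 x27869 x27871 x27875 x27877 x27879 x27883 x27885 x27893 x27895 x27897 x27901 x27903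
    x27909 x27919 x27921 x27927 x27953 x27959 x27961 x27965 x27967 x27969 x27977 x27979 x27983
    x27985 x27987 x27991 x27993 x28001 x28003 x28005 x28009 x28011 x28017 x28031 x28033 x28037
    x28039 x28041 x28045 x28047 x28055 x28057 x28059 x28063 x28065 x28071 x28081 x28083 x28089
    x28109 x28111 x28113 x28117 x28119 x28125 x28135 x28137 x28143 x28161 x28193 x28195 x28199
    x28201 x28203 x28207 x28209 x28217 x28219 x28221 x28225 x28227 x28233 x28243 x28245 x28251
    x28271 x28273 x28275 x28279 x28281 x28287 x28297 x28299 x28305 x28323 x28351 x28353 x28359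
    x28377 x28457 x28475 x28481 x28483 x28493 x28499 x28501 x28505 x28507 x28509 x28529 x28535
    x28537 x28547 x28553 x28555 x28559 x28561 x28563 x28571 x28573 x28577 x28579 x28581 x28585
    x28587 x28601 x28607 x28609 x28613 x28615 x28617 x28625 x28627 x28631 x28633 x28635 x28639
    x28641 x28649 x28651 x28653 x28657 x28659 x28665 x28691 x28697 x28699 x28709 x28715 x28717
    x28721 x28723 x28725 x28733 x28735 x28739 x28741 x28743 x28747 x28749 x28763 x28769 x28771
    x28775 x28777 x28779 x28787 x28789 x28793 x28795 x28797 x28801 x28803 x28811 x28813 x28815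
    x28819 x28821 x28827 x28841 x28843 x28847 x28849 x28851 x28855 x28857 x28865 x28867 x28869
    x28873 x28875 x28881 x28891 x28893 x28899 x28925 x28931 x28933 x28937 x28939 x28941 x28949
    x28951 x28955 x28957 x28959 x28963 x28965 x28973 x28975 x28977 x28981 x28983 x28989 x29003
    x29005 x29009 x29011 x29013 x29017 x29019 x29027 x29029 x29031 x29035 x29037 x29043 x29053
    x29055 x29061 x29081 x29083 x29085 x29089 x29091 x29097 x29107 x29109 x29115 x29133 x29177
    x29183 x29185 x29195 x29201 x29203 x29207 x29209 x29211 x29219 x29221 x29225 x29227 x29229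
    x29233 x29235 x29249 x29255 x29257 x29261 x29263 x29265 x29273 x29275 x29279 x29281 x29283
    x29287 x29289 x29297 x29299 x29301 x29305 x29307 x29313 x29327 x29329 x29333 x29335 x29337
    x29341 x29343 x29351 x29353 x29355 x29359 x29361 x29367 x29377 x29379 x29385 x29411 x29417
    x29419 x29423 x29425 x29427 x29435 x29437 x29441 x29443 x29445 x29449 x29451 x29459 x29461
    x29463 x29467 x29469 x29475 x29489 x29491 x29495 x29497 x29499 x29503 x29505 x29513 x29515
    x29517 x29521 x29523 x29529 x29539 x29541 x29547 x29567 x29569 x29571 x29575 x29577 x29583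
    x29593 x29595 x29601 x29619 x29651 x29653 x29657 x29659 x29661 x29665 x29667 x29675 x29677
    x29679 x29683 x29685 x29691 x29701 x29703 x29709 x29729 x29731 x29733 x29737 x29739 x29745
    x29755 x29757 x29763 x29781 x29809 x29811 x29817 x29835 x29897 x29903 x29905 x29909 x29911
    x29913 x29921 x29923 x29927 x29929 x29931 x29935 x29937 x29945 x29947 x29949 x29953 x29955
    x29961 x29975 x29977 x29981 x29983 x29985 x29989 x29991 x29999 x30001 x30003 x30007 x30009
    x30015 x30025 x30027 x30033 x30053 x30055 x30057 x30061 x30063 x30069 x30079 x30081 x30087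
    x30105 x30137 x30139 x30143 x30145 x30147 x30151 x30153 x30161 x30163 x30165 x30169 x30171
    x30177 x30187 x30189 x30195 x30215 x30217 x30219 x30223 x30225 x30231 x30241 x30243 x30249
    x30267 x30295 x30297 x30303 x30321 x30377 x30379 x30381 x30385 x30387 x30393 x30403 x30405
    x30411 x30429 x30457 x30459 x30465 x30483 x30537 x30635 x30641 x30643 x30653 x30659 x30661
    x30665 x30667 x30669 x30677 x30679 x30683 x30685 x30687 x30691 x30693 x30707 x30713 x30715
    x30719 x30721 x30723 x30731 x30733 x30737 x30739 x30741 x30745 x30747 x30755 x30757 x30759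
    x30763 x30765 x30771 x30785 x30787 x30791 x30793 x30795 x30799 x30801 x30809 x30811 x30813
    x30817 x30819 x30825 x30835 x30837 x30843 x30869 x30875 x30877 x30881 x30883 x30885 x30893
    x30895 x30899 x30901 x30903 x30907 x30909 x30917 x30919 x30921 x30925 x30927 x30933 x30947
    x30949 x30953 x30955 x30957 x30961 x30963 x30971 x30973 x30975 x30979 x30981 x30987 x30997
    x30999 x31005 x31025 x31027 x31029 x31033 x31035 x31041 x31051 x31053 x31059 x31077 x31109
    x31111 x31115 x31117 x31119 x31123 x31125 x31133 x31135 x31137 x31141 x31143 x31149 x31159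
    x31161 x31167 x31187 x31189 x31191 x31195 x31197 x31203 x31213 x31215 x31221 x31239 x31267
    x31269 x31275 x31293 x31355 x31361 x31363 x31367 x31369 x31371 x31379 x31381 x31385 x31387
    x31389 x31393 x31395 x31403 x31405 x31407 x31411 x31413 x31419 x31433 x31435 x31439 x31441
    x31443 x31447 x31449 x31457 x31459 x31461 x31465 x31467 x31473 x31483 x31485 x31491 x31511
    x31513 x31515 x31519 x31521 x31527 x31537 x31539 x31545 x31563 x31595 x31597 x31601 x31603
    x31605 x31609 x31611 x31619 x31621 x31623 x31627 x31629 x31635 x31645 x31647 x31653 x31673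
    x31675 x31677 x31681 x31683 x31689 x31699 x31701 x31707 x31725 x31753 x31755 x31761 x31779
    x31835 x31837 x31839 x31843 x31845 x31851 x31861 x31863 x31869 x31887 x31915 x31917 x31923
    x31941 x31995 x32081 x32083 x32087 x32089 x32091 x32095 x32097 x32105 x32107 x32109 x32113
    x32115 x32121 x32131 x32133 x32139 x32159 x32161 x32163 x32167 x32169 x32175 x32185 x32187
    x32193 x32211 x32239 x32241 x32247 x32265 x32321 x32323 x32325 x32329 x32331 x32337 x32347
    x32349 x32355 x32373 x32401 x32403 x32409 x32427 x32481 x32563 x32565 x32571 x32589 x32643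
    x32831 x32849 x32855 x32857 x32867 x32873 x32875 x32879 x32881 x32883 x32903 x32909 x32911
    x32921 x32927 x32929 x32933 x32935 x32937 x32945 x32947 x32951 x32953 x32955 x32959 x32961
    x32975 x32981 x32983 x32987 x32989 x32991 x32999 x33001 x33005 x33007 x33009 x33013 x33015
    x33023 x33025 x33027 x33031 x33033 x33039 x33065 x33071 x33073 x33083 x33089 x33091 x33095
    x33097 x33099 x33107 x33109 x33113 x33115 x33117 x33121 x33123 x33137 x33143 x33145 x33149
    x33151 x33153 x33161 x33163 x33167 x33169 x33171 x33175 x33177 x33185 x33187 x33189 x33193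
    x33195 x33201 x33215 x33217 x33221 x33223 x33225 x33229 x33231 x33239 x33241 x33243 x33247
    x33249 x33255 x33265 x33267 x33273 x33299 x33305 x33307 x33311 x33313 x33315 x33323 x33325
    x33329 x33331 x33333 x33337 x33339 x33347 x33349 x33351 x33355 x33357 x33363 x33377 x33379
    x33383 x33385 x33387 x33391 x33393 x33401 x33403 x33405 x33409 x33411 x33417 x33427 x33429
    x33435 x33455 x33457 x33459 x33463 x33465 x33471 x33481 x33483 x33489 x33507 x33551 x33557
    x33559 x33569 x33575 x33577 x33581 x33583 x33585 x33593 x33595 x33599 x33601 x33603 x33607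
    x33609 x33623 x33629 x33631 x33635 x33637 x33639 x33647 x33649 x33653 x33655 x33657 x33661
    x33663 x33671 x33673 x33675 x33679 x33681 x33687 x33701 x33703 x33707 x33709 x33711 x33715
    x33717 x33725 x33727 x33729 x33733 x33735 x33741 x33751 x33753 x33759 x33785 x33791 x33793
    x33797 x33799 x33801 x33809 x33811 x33815 x33817 x33819 x33823 x33825 x33833 x33835 x33837
    x33841 x33843 x33849 x33863 x33865 x33869 x33871 x33873 x33877 x33879 x33887 x33889 x33891
    x33895 x33897 x33903 x33913 x33915 x33921 x33941 x33943 x33945 x33949 x33951 x33957 x33967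
    x33969 x33975 x33993 x34025 x34027 x34031 x34033 x34035 x34039 x34041 x34049 x34051 x34053
    x34057 x34059 x34065 x34075 x34077 x34083 x34103 x34105 x34107 x34111 x34113 x34119 x34129
    x34131 x34137 x34155 x34183 x34185 x34191 x34209 x34271 x34277 x34279 x34283 x34285 x34287
    x34295 x34297 x34301 x34303 x34305 x34309 x34311 x34319 x34321 x34323 x34327 x34329 x34335
    x34349 x34351 x34355 x34357 x34359 x34363 x34365 x34373 x34375 x34377 x34381 x34383 x34389
    x34399 x34401 x34407 x34427 x34429 x34431 x34435 x34437 x34443 x34453 x34455 x34461 x34479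
    x34511 x34513 x34517 x34519 x34521 x34525 x34527 x34535 x34537 x34539 x34543 x34545 x34551
    x34561 x34563 x34569 x34589 x34591 x34593 x34597 x34599 x34605 x34615 x34617 x34623 x34641
    x34669 x34671 x34677 x34695 x34751 x34753 x34755 x34759 x34761 x34767 x34777 x34779 x34785
    x34803 x34831 x34833 x34839 x34857 x34911 x35009 x35015 x35017 x35027 x35033 x35035 x35039
    x35041 x35043 x35051 x35053 x35057 x35059 x35061 x35065 x35067 x35081 x35087 x35089 x35093
    x35095 x35097 x35105 x35107 x35111 x35113 x35115 x35119 x35121 x35129 x35131 x35133 x35137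
    x35139 x35145 x35159 x35161 x35165 x35167 x35169 x35173 x35175 x35183 x35185 x35187 x35191
    x35193 x35199 x35209 x35211 x35217 x35243 x35249 x35251 x35255 x35257 x35259 x35267 x35269
    x35273 x35275 x35277 x35281 x35283 x35291 x35293 x35295 x35299 x35301 x35307 x35321 x35323
    x35327 x35329 x35331 x35335 x35337 x35345 x35347 x35349 x35353 x35355 x35361 x35371 x35373
    x35379 x35399 x35401 x35403 x35407 x35409 x35415 x35425 x35427 x35433 x35451 x35483 x35485
    x35489 x35491 x35493 x35497 x35499 x35507 x35509 x35511 x35515 x35517 x35523 x35533 x35535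
    x35541 x35561 x35563 x35565 x35569 x35571 x35577 x35587 x35589 x35595 x35613 x35641 x35643
    x35649 x35667 x35729 x35735 x35737 x35741 x35743 x35745 x35753 x35755 x35759 x35761 x35763
    x35767 x35769 x35777 x35779 x35781 x35785 x35787 x35793 x35807 x35809 x35813 x35815 x35817
    x35821 x35823 x35831 x35833 x35835 x35839 x35841 x35847 x35857 x35859 x35865 x35885 x35887
    x35889 x35893 x35895 x35901 x35911 x35913 x35919 x35937 x35969 x35971 x35975 x35977 x35979
    x35983 x35985 x35993 x35995 x35997 x36001 x36003 x36009 x36019 x36021 x36027 x36047 x36049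
    x36051 x36055 x36057 x36063 x36073 x36075 x36081 x36099 x36127 x36129 x36135 x36153 x36209
    x36211 x36213 x36217 x36219 x36225 x36235 x36237 x36243 x36261 x36289 x36291 x36297 x36315
    x36369 x36455 x36457 x36461 x36463 x36465 x36469 x36471 x36479 x36481 x36483 x36487 x36489
    x36495 x36505 x36507 x36513 x36533 x36535 x36537 x36541 x36543 x36549 x36559 x36561 x36567
    x36585 x36613 x36615 x36621 x36639 x36695 x36697 x36699 x36703 x36705 x36711 x36721 x36723
    x36729 x36747 x36775 x36777 x36783 x36801 x36855 x36937 x36939 x36945 x36963 x37017 x37187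
    x37193 x37195 x37199 x37201 x37203 x37211 x37213 x37217 x37219 x37221 x37225 x37227 x37235
    x37237 x37239 x37243 x37245 x37251 x37265 x37267 x37271 x37273 x37275 x37279 x37281 x37289
    x37291 x37293 x37297 x37299 x37305 x37315 x37317 x37323 x37343 x37345 x37347 x37351 x37353
    x37359 x37369 x37371 x37377 x37395 x37427 x37429 x37433 x37435 x37437 x37441 x37443 x37451
    x37453 x37455 x37459 x37461 x37467 x37477 x37479 x37485 x37505 x37507 x37509 x37513 x37515
    x37521 x37531 x37533 x37539 x37557 x37585 x37587 x37593 x37611 x37667 x37669 x37671 x37675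
    x37677 x37683 x37693 x37695 x37701 x37719 x37747 x37749 x37755 x37773 x37827 x37913 x37915
    x37919 x37921 x37923 x37927 x37929 x37937 x37939 x37941 x37945 x37947 x37953 x37963 x37965
    x37971 x37991 x37993 x37995 x37999 x38001 x38007 x38017 x38019 x38025 x38043 x38071 x38073
    x38079 x38097 x38153 x38155 x38157 x38161 x38163 x38169 x38179 x38181 x38187 x38205 x38233
    x38235 x38241 x38259 x38313 x38395 x38397 x38403 x38421 x38475 x38639 x38641 x38643 x38647
    x38649 x38655 x38665 x38667 x38673 x38691 x38719 x38721 x38727 x38745 x38799 x38881 x38883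
    x38889 x38907 x38961 x39123 x39419 x39437 x39443 x39445 x39473 x39491 x39497 x39499 x39509
    x39515 x39517 x39521 x39523 x39525 x39545 x39551 x39553 x39563 x39569 x39571 x39575 x39577
    x39579 x39587 x39589 x39593 x39595 x39597 x39601 x39603 x39635 x39653 x39659 x39661 x39671
    x39677 x39679 x39683 x39685 x39687 x39707 x39713 x39715 x39725 x39731 x39733 x39737 x39739
    x39741 x39749 x39751 x39755 x39757 x39759 x39763 x39765 x39779 x39785 x39787 x39791 x39793
    x39795 x39803 x39805 x39809 x39811 x39813 x39817 x39819 x39827 x39829 x39831 x39835 x39837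
    x39843 x39869 x39875 x39877 x39887 x39893 x39895 x39899 x39901 x39903 x39911 x39913 x39917
    x39919 x39921 x39925 x39927 x39941 x39947 x39949 x39953 x39955 x39957 x39965 x39967 x39971
    x39973 x39975 x39979 x39981 x39989 x39991 x39993 x39997 x39999 x40005 x40019 x40021 x40025
    x40027 x40029 x40033 x40035 x40043 x40045 x40047 x40051 x40053 x40059 x40069 x40071 x40077
    x40121 x40139 x40145 x40147 x40157 x40163 x40165 x40169 x40171 x40173 x40193 x40199 x40201
    x40211 x40217 x40219 x40223 x40225 x40227 x40235 x40237 x40241 x40243 x40245 x40249 x40251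
    x40265 x40271 x40273 x40277 x40279 x40281 x40289 x40291 x40295 x40297 x40299 x40303 x40305
    x40313 x40315 x40317 x40321 x40323 x40329 x40355 x40361 x40363 x40373 x40379 x40381 x40385
    x40387 x40389 x40397 x40399 x40403 x40405 x40407 x40411 x40413 x40427 x40433 x40435 x40439
    x40441 x40443 x40451 x40453 x40457 x40459 x40461 x40465 x40467 x40475 x40477 x40479 x40483
    x40485 x40491 x40505 x40507 x40511 x40513 x40515 x40519 x40521 x40529 x40531 x40533 x40537
    x40539 x40545 x40555 x40557 x40563 x40589 x40595 x40597 x40601 x40603 x40605 x40613 x40615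
    x40619 x40621 x40623 x40627 x40629 x40637 x40639 x40641 x40645 x40647 x40653 x40667 x40669
    x40673 x40675 x40677 x40681 x40683 x40691 x40693 x40695 x40699 x40701 x40707 x40717 x40719
    x40725 x40745 x40747 x40749 x40753 x40755 x40761 x40771 x40773 x40779 x40797 x40841 x40847
    x40849 x40859 x40865 x40867 x40871 x40873 x40875 x40883 x40885 x40889 x40891 x40893 x40897
    x40899 x40913 x40919 x40921 x40925 x40927 x40929 x40937 x40939 x40943 x40945 x40947 x40951
    x40953 x40961 x40963 x40965 x40969 x40971 x40977 x40991 x40993 x40997 x40999 x41001 x41005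
    x41007 x41015 x41017 x41019 x41023 x41025 x41031 x41041 x41043 x41049 x41075 x41081 x41083
    x41087 x41089 x41091 x41099 x41101 x41105 x41107 x41109 x41113 x41115 x41123 x41125 x41127
    x41131 x41133 x41139 x41153 x41155 x41159 x41161 x41163 x41167 x41169 x41177 x41179 x41181
    x41185 x41187 x41193 x41203 x41205 x41211 x41231 x41233 x41235 x41239 x41241 x41247 x41257
    x41259 x41265 x41283 x41315 x41317 x41321 x41323 x41325 x41329 x41331 x41339 x41341 x41343
    x41347 x41349 x41355 x41365 x41367 x41373 x41393 x41395 x41397 x41401 x41403 x41409 x41419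
    x41421 x41427 x41445 x41473 x41475 x41481 x41499 x41579 x41597 x41603 x41605 x41615 x41621
    x41623 x41627 x41629 x41631 x41651 x41657 x41659 x41669 x41675 x41677 x41681 x41683 x41685
    x41693 x41695 x41699 x41701 x41703 x41707 x41709 x41723 x41729 x41731 x41735 x41737 x41739
    x41747 x41749 x41753 x41755 x41757 x41761 x41763 x41771 x41773 x41775 x41779 x41781 x41787
    x41813 x41819 x41821 x41831 x41837 x41839 x41843 x41845 x41847 x41855 x41857 x41861 x41863
    x41865 x41869 x41871 x41885 x41891 x41893 x41897 x41899 x41901 x41909 x41911 x41915 x41917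
    x41919 x41923 x41925 x41933 x41935 x41937 x41941 x41943 x41949 x41963 x41965 x41969 x41971
    x41973 x41977 x41979 x41987 x41989 x41991 x41995 x41997 x42003 x42013 x42015 x42021 x42047
    x42053 x42055 x42059 x42061 x42063 x42071 x42073 x42077 x42079 x42081 x42085 x42087 x42095
    x42097 x42099 x42103 x42105 x42111 x42125 x42127 x42131 x42133 x42135 x42139 x42141 x42149
    x42151 x42153 x42157 x42159 x42165 x42175 x42177 x42183 x42203 x42205 x42207 x42211 x42213
    x42219 x42229 x42231 x42237 x42255 x42299 x42305 x42307 x42317 x42323 x42325 x42329 x42331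
    x42333 x42341 x42343 x42347 x42349 x42351 x42355 x42357 x42371 x42377 x42379 x42383 x42385
    x42387 x42395 x42397 x42401 x42403 x42405 x42409 x42411 x42419 x42421 x42423 x42427 x42429
    x42435 x42449 x42451 x42455 x42457 x42459 x42463 x42465 x42473 x42475 x42477 x42481 x42483
    x42489 x42499 x42501 x42507 x42533 x42539 x42541 x42545 x42547 x42549 x42557 x42559 x42563
    x42565 x42567 x42571 x42573 x42581 x42583 x42585 x42589 x42591 x42597 x42611 x42613 x42617
    x42619 x42621 x42625 x42627 x42635 x42637 x42639 x42643 x42645 x42651 x42661 x42663 x42669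
    x42689 x42691 x42693 x42697 x42699 x42705 x42715 x42717 x42723 x42741 x42773 x42775 x42779
    x42781 x42783 x42787 x42789 x42797 x42799 x42801 x42805 x42807 x42813 x42823 x42825 x42831
    x42851 x42853 x42855 x42859 x42861 x42867 x42877 x42879 x42885 x42903 x42931 x42933 x42939
    x42957 x43019 x43025 x43027 x43031 x43033 x43035 x43043 x43045 x43049 x43051 x43053 x43057
    x43059 x43067 x43069 x43071 x43075 x43077 x43083 x43097 x43099 x43103 x43105 x43107 x43111
    x43113 x43121 x43123 x43125 x43129 x43131 x43137 x43147 x43149 x43155 x43175 x43177 x43179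
    x43183 x43185 x43191 x43201 x43203 x43209 x43227 x43259 x43261 x43265 x43267 x43269 x43273
    x43275 x43283 x43285 x43287 x43291 x43293 x43299 x43309 x43311 x43317 x43337 x43339 x43341
    x43345 x43347 x43353 x43363 x43365 x43371 x43389 x43417 x43419 x43425 x43443 x43499 x43501
    x43503 x43507 x43509 x43515 x43525 x43527 x43533 x43551 x43579 x43581 x43587 x43605 x43659
    x43757 x43763 x43765 x43775 x43781 x43783 x43787 x43789 x43791 x43799 x43801 x43805 x43807
    x43809 x43813 x43815 x43829 x43835 x43837 x43841 x43843 x43845 x43853 x43855 x43859 x43861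
    x43863 x43867 x43869 x43877 x43879 x43881 x43885 x43887 x43893 x43907 x43909 x43913 x43915
    x43917 x43921 x43923 x43931 x43933 x43935 x43939 x43941 x43947 x43957 x43959 x43965 x43991
    x43997 x43999 x44003 x44005 x44007 x44015 x44017 x44021 x44023 x44025 x44029 x44031 x44039
    x44041 x44043 x44047 x44049 x44055 x44069 x44071 x44075 x44077 x44079 x44083 x44085 x44093
    x44095 x44097 x44101 x44103 x44109 x44119 x44121 x44127 x44147 x44149 x44151 x44155 x44157
    x44163 x44173 x44175 x44181 x44199 x44231 x44233 x44237 x44239 x44241 x44245 x44247 x44255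
    x44257 x44259 x44263 x44265 x44271 x44281 x44283 x44289 x44309 x44311 x44313 x44317 x44319
    x44325 x44335 x44337 x44343 x44361 x44389 x44391 x44397 x44415 x44477 x44483 x44485 x44489
    x44491 x44493 x44501 x44503 x44507 x44509 x44511 x44515 x44517 x44525 x44527 x44529 x44533
    x44535 x44541 x44555 x44557 x44561 x44563 x44565 x44569 x44571 x44579 x44581 x44583 x44587
    x44589 x44595 x44605 x44607 x44613 x44633 x44635 x44637 x44641 x44643 x44649 x44659 x44661
    x44667 x44685 x44717 x44719 x44723 x44725 x44727 x44731 x44733 x44741 x44743 x44745 x44749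
    x44751 x44757 x44767 x44769 x44775 x44795 x44797 x44799 x44803 x44805 x44811 x44821 x44823
    x44829 x44847 x44875 x44877 x44883 x44901 x44957 x44959 x44961 x44965 x44967 x44973 x44983
    x44985 x44991 x45009 x45037 x45039 x45045 x45063 x45117 x45203 x45205 x45209 x45211 x45213
    x45217 x45219 x45227 x45229 x45231 x45235 x45237 x45243 x45253 x45255 x45261 x45281 x45283
    x45285 x45289 x45291 x45297 x45307 x45309 x45315 x45333 x45361 x45363 x45369 x45387 x45443
    x45445 x45447 x45451 x45453 x45459 x45469 x45471 x45477 x45495 x45523 x45525 x45531 x45549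
    x45603 x45685 x45687 x45693 x45711 x45765 x45953 x45971 x45977 x45979 x45989 x45995 x45997
    x46001 x46003 x46005 x46025 x46031 x46033 x46043 x46049 x46051 x46055 x46057 x46059 x46067
    x46069 x46073 x46075 x46077 x46081 x46083 x46097 x46103 x46105 x46109 x46111 x46113 x46121
    x46123 x46127 x46129 x46131 x46135 x46137 x46145 x46147 x46149 x46153 x46155 x46161 x46187
    x46193 x46195 x46205 x46211 x46213 x46217 x46219 x46221 x46229 x46231 x46235 x46237 x46239
    x46243 x46245 x46259 x46265 x46267 x46271 x46273 x46275 x46283 x46285 x46289 x46291 x46293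
    x46297 x46299 x46307 x46309 x46311 x46315 x46317 x46323 x46337 x46339 x46343 x46345 x46347
    x46351 x46353 x46361 x46363 x46365 x46369 x46371 x46377 x46387 x46389 x46395 x46421 x46427
    x46429 x46433 x46435 x46437 x46445 x46447 x46451 x46453 x46455 x46459 x46461 x46469 x46471
    x46473 x46477 x46479 x46485 x46499 x46501 x46505 x46507 x46509 x46513 x46515 x46523 x46525
    x46527 x46531 x46533 x46539 x46549 x46551 x46557 x46577 x46579 x46581 x46585 x46587 x46593
    x46603 x46605 x46611 x46629 x46673 x46679 x46681 x46691 x46697 x46699 x46703 x46705 x46707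
    x46715 x46717 x46721 x46723 x46725 x46729 x46731 x46745 x46751 x46753 x46757 x46759 x46761
    x46769 x46771 x46775 x46777 x46779 x46783 x46785 x46793 x46795 x46797 x46801 x46803 x46809
    x46823 x46825 x46829 x46831 x46833 x46837 x46839 x46847 x46849 x46851 x46855 x46857 x46863
    x46873 x46875 x46881 x46907 x46913 x46915 x46919 x46921 x46923 x46931 x46933 x46937 x46939
    x46941 x46945 x46947 x46955 x46957 x46959 x46963 x46965 x46971 x46985 x46987 x46991 x46993
    x46995 x46999 x47001 x47009 x47011 x47013 x47017 x47019 x47025 x47035 x47037 x47043 x47063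
    x47065 x47067 x47071 x47073 x47079 x47089 x47091 x47097 x47115 x47147 x47149 x47153 x47155
    x47157 x47161 x47163 x47171 x47173 x47175 x47179 x47181 x47187 x47197 x47199 x47205 x47225
    x47227 x47229 x47233 x47235 x47241 x47251 x47253 x47259 x47277 x47305 x47307 x47313 x47331
    x47393 x47399 x47401 x47405 x47407 x47409 x47417 x47419 x47423 x47425 x47427 x47431 x47433
    x47441 x47443 x47445 x47449 x47451 x47457 x47471 x47473 x47477 x47479 x47481 x47485 x47487
    x47495 x47497 x47499 x47503 x47505 x47511 x47521 x47523 x47529 x47549 x47551 x47553 x47557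
    x47559 x47565 x47575 x47577 x47583 x47601 x47633 x47635 x47639 x47641 x47643 x47647 x47649
    x47657 x47659 x47661 x47665 x47667 x47673 x47683 x47685 x47691 x47711 x47713 x47715 x47719
    x47721 x47727 x47737 x47739 x47745 x47763 x47791 x47793 x47799 x47817 x47873 x47875 x47877
    x47881 x47883 x47889 x47899 x47901 x47907 x47925 x47953 x47955 x47961 x47979 x48033 x48131
    x48137 x48139 x48149 x48155 x48157 x48161 x48163 x48165 x48173 x48175 x48179 x48181 x48183
    x48187 x48189 x48203 x48209 x48211 x48215 x48217 x48219 x48227 x48229 x48233 x48235 x48237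
    x48241 x48243 x48251 x48253 x48255 x48259 x48261 x48267 x48281 x48283 x48287 x48289 x48291
    x48295 x48297 x48305 x48307 x48309 x48313 x48315 x48321 x48331 x48333 x48339 x48365 x48371
    x48373 x48377 x48379 x48381 x48389 x48391 x48395 x48397 x48399 x48403 x48405 x48413 x48415
    x48417 x48421 x48423 x48429 x48443 x48445 x48449 x48451 x48453 x48457 x48459 x48467 x48469
    x48471 x48475 x48477 x48483 x48493 x48495 x48501 x48521 x48523 x48525 x48529 x48531 x48537
    x48547 x48549 x48555 x48573 x48605 x48607 x48611 x48613 x48615 x48619 x48621 x48629 x48631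
    x48633 x48637 x48639 x48645 x48655 x48657 x48663 x48683 x48685 x48687 x48691 x48693 x48699
    x48709 x48711 x48717 x48735 x48763 x48765 x48771 x48789 x48851 x48857 x48859 x48863 x48865
    x48867 x48875 x48877 x48881 x48883 x48885 x48889 x48891 x48899 x48901 x48903 x48907 x48909
    x48915 x48929 x48931 x48935 x48937 x48939 x48943 x48945 x48953 x48955 x48957 x48961 x48963
    x48969 x48979 x48981 x48987 x49007 x49009 x49011 x49015 x49017 x49023 x49033 x49035 x49041
    x49059 x49091 x49093 x49097 x49099 x49101 x49105 x49107 x49115 x49117 x49119 x49123 x49125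
    x49131 x49141 x49143 x49149 x49169 x49171 x49173 x49177 x49179 x49185 x49195 x49197 x49203
    x49221 x49249 x49251 x49257 x49275 x49331 x49333 x49335 x49339 x49341 x49347 x49357 x49359
    x49365 x49383 x49411 x49413 x49419 x49437 x49491 x49577 x49579 x49583 x49585 x49587 x49591
    x49593 x49601 x49603 x49605 x49609 x49611 x49617 x49627 x49629 x49635 x49655 x49657 x49659
    x49663 x49665 x49671 x49681 x49683 x49689 x49707 x49735 x49737 x49743 x49761 x49817 x49819
    x49821 x49825 x49827 x49833 x49843 x49845 x49851 x49869 x49897 x49899 x49905 x49923 x49977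
    x50059 x50061 x50067 x50085 x50139 x50309 x50315 x50317 x50321 x50323 x50325 x50333 x50335
    x50339 x50341 x50343 x50347 x50349 x50357 x50359 x50361 x50365 x50367 x50373 x50387 x50389
    x50393 x50395 x50397 x50401 x50403 x50411 x50413 x50415 x50419 x50421 x50427 x50437 x50439
    x50445 x50465 x50467 x50469 x50473 x50475 x50481 x50491 x50493 x50499 x50517 x50549 x50551
    x50555 x50557 x50559 x50563 x50565 x50573 x50575 x50577 x50581 x50583 x50589 x50599 x50601
    x50607 x50627 x50629 x50631 x50635 x50637 x50643 x50653 x50655 x50661 x50679 x50707 x50709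
    x50715 x50733 x50789 x50791 x50793 x50797 x50799 x50805 x50815 x50817 x50823 x50841 x50869
    x50871 x50877 x50895 x50949 x51035 x51037 x51041 x51043 x51045 x51049 x51051 x51059 x51061
    x51063 x51067 x51069 x51075 x51085 x51087 x51093 x51113 x51115 x51117 x51121 x51123 x51129
    x51139 x51141 x51147 x51165 x51193 x51195 x51201 x51219 x51275 x51277 x51279 x51283 x51285
    x51291 x51301 x51303 x51309 x51327 x51355 x51357 x51363 x51381 x51435 x51517 x51519 x51525
    x51543 x51597 x51761 x51763 x51765 x51769 x51771 x51777 x51787 x51789 x51795 x51813 x51841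
    x51843 x51849 x51867 x51921 x52003 x52005 x52011 x52029 x52083 x52245 x52505 x52511 x52513
    x52523 x52529 x52531 x52535 x52537 x52539 x52547 x52549 x52553 x52555 x52557 x52561 x52563
    x52577 x52583 x52585 x52589 x52591 x52593 x52601 x52603 x52607 x52609 x52611 x52615 x52617
    x52625 x52627 x52629 x52633 x52635 x52641 x52655 x52657 x52661 x52663 x52665 x52669 x52671
    x52679 x52681 x52683 x52687 x52689 x52695 x52705 x52707 x52713 x52739 x52745 x52747 x52751
    x52753 x52755 x52763 x52765 x52769 x52771 x52773 x52777 x52779 x52787 x52789 x52791 x52795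
    x52797 x52803 x52817 x52819 x52823 x52825 x52827 x52831 x52833 x52841 x52843 x52845 x52849
    x52851 x52857 x52867 x52869 x52875 x52895 x52897 x52899 x52903 x52905 x52911 x52921 x52923
    x52929 x52947 x52979 x52981 x52985 x52987 x52989 x52993 x52995 x53003 x53005 x53007 x53011
    x53013 x53019 x53029 x53031 x53037 x53057 x53059 x53061 x53065 x53067 x53073 x53083 x53085
    x53091 x53109 x53137 x53139 x53145 x53163 x53225 x53231 x53233 x53237 x53239 x53241 x53249
    x53251 x53255 x53257 x53259 x53263 x53265 x53273 x53275 x53277 x53281 x53283 x53289 x53303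
    x53305 x53309 x53311 x53313 x53317 x53319 x53327 x53329 x53331 x53335 x53337 x53343 x53353
    x53355 x53361 x53381 x53383 x53385 x53389 x53391 x53397 x53407 x53409 x53415 x53433 x53465
    x53467 x53471 x53473 x53475 x53479 x53481 x53489 x53491 x53493 x53497 x53499 x53505 x53515
    x53517 x53523 x53543 x53545 x53547 x53551 x53553 x53559 x53569 x53571 x53577 x53595 x53623
    x53625 x53631 x53649 x53705 x53707 x53709 x53713 x53715 x53721 x53731 x53733 x53739 x53757
    x53785 x53787 x53793 x53811 x53865 x53951 x53953 x53957 x53959 x53961 x53965 x53967 x53975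
    x53977 x53979 x53983 x53985 x53991 x54001 x54003 x54009 x54029 x54031 x54033 x54037 x54039
    x54045 x54055 x54057 x54063 x54081 x54109 x54111 x54117 x54135 x54191 x54193 x54195 x54199
    x54201 x54207 x54217 x54219 x54225 x54243 x54271 x54273 x54279 x54297 x54351 x54433 x54435
    x54441 x54459 x54513 x54683 x54689 x54691 x54695 x54697 x54699 x54707 x54709 x54713 x54715
    x54717 x54721 x54723 x54731 x54733 x54735 x54739 x54741 x54747 x54761 x54763 x54767 x54769
    x54771 x54775 x54777 x54785 x54787 x54789 x54793 x54795 x54801 x54811 x54813 x54819 x54839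
    x54841 x54843 x54847 x54849 x54855 x54865 x54867 x54873 x54891 x54923 x54925 x54929 x54931
    x54933 x54937 x54939 x54947 x54949 x54951 x54955 x54957 x54963 x54973 x54975 x54981 x55001
    x55003 x55005 x55009 x55011 x55017 x55027 x55029 x55035 x55053 x55081 x55083 x55089 x55107
    x55163 x55165 x55167 x55171 x55173 x55179 x55189 x55191 x55197 x55215 x55243 x55245 x55251
    x55269 x55323 x55409 x55411 x55415 x55417 x55419 x55423 x55425 x55433 x55435 x55437 x55441
    x55443 x55449 x55459 x55461 x55467 x55487 x55489 x55491 x55495 x55497 x55503 x55513 x55515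
    x55521 x55539 x55567 x55569 x55575 x55593 x55649 x55651 x55653 x55657 x55659 x55665 x55675
    x55677 x55683 x55701 x55729 x55731 x55737 x55755 x55809 x55891 x55893 x55899 x55917 x55971
    x56135 x56137 x56139 x56143 x56145 x56151 x56161 x56163 x56169 x56187 x56215 x56217 x56223
    x56241 x56295 x56377 x56379 x56385 x56403 x56457 x56619 x56867 x56869 x56873 x56875 x56877
    x56881 x56883 x56891 x56893 x56895 x56899 x56901 x56907 x56917 x56919 x56925 x56945 x56947
    x56949 x56953 x56955 x56961 x56971 x56973 x56979 x56997 x57025 x57027 x57033 x57051 x57107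
    x57109 x57111 x57115 x57117 x57123 x57133 x57135 x57141 x57159 x57187 x57189 x57195 x57213
    x57267 x57349 x57351 x57357 x57375 x57429 x57593 x57595 x57597 x57601 x57603 x57609 x57619
    x57621 x57627 x57645 x57673 x57675 x57681 x57699 x57753 x57835 x57837 x57843 x57861 x57915
    x58077 x58321 x58323 x58329 x58347 x58401 x58563 : Nat) : Bool :=
  k
    (Nat.sub (Nat.add (Nat.add (Nat.add (Nat.add (Nat.add C (Nat.mul x161 (nat_lit 6))) x323) x215) x19843) (Nat.mul (e (nat_lit 161)) ap)) (Nat.mul (e (nat_lit 161)) an))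
    (Nat.sub (Nat.add (Nat.add (Nat.add (Nat.add (Nat.add (Nat.add C (Nat.mul x215 (nat_lit 4))) x377) x161) x233) x19897) (Nat.mul (e (nat_lit 215)) ap)) (Nat.mul (e (nat_lit 215)) an))
    (Nat.sub (Nat.add (Nat.add (Nat.add (Nat.add (Nat.add (Nat.add C (Nat.mul x233 (nat_lit 4))) x395) x215) x239) x19915) (Nat.mul (e (nat_lit 233)) ap)) (Nat.mul (e (nat_lit 233)) an))
    (Nat.add (Nat.add (Nat.add (Nat.add (Nat.add C (Nat.mul x239 (nat_lit 4))) x401) x233) x241) x19921)
    (Nat.add (Nat.add (Nat.add (Nat.add C (Nat.mul x241 (nat_lit 6))) x403) x239) x19923)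
    (Nat.sub (Nat.add (Nat.add (Nat.add (Nat.add (Nat.add (Nat.add C (Nat.mul x323 (nat_lit 4))) x809) x161) x377) x20005) (Nat.mul (e (nat_lit 323)) ap)) (Nat.mul (e (nat_lit 323)) an))
    (Nat.sub (Nat.add (Nat.add (Nat.add (Nat.add (Nat.add (Nat.add (Nat.add (Nat.add (Nat.add C (Nat.mul x377 (nat_lit 4))) x863) x215) x539) x323) x431) x395) x20059) (Nat.mul (e (nat_lit 377)) ap)) (Nat.mul (e (nat_lit 377)) an))
    (Nat.sub (Nat.add (Nat.add (Nat.add (Nat.add (Nat.add (Nat.add (Nat.add (Nat.add (Nat.add C (Nat.mul x395 (nat_lit 3))) x881) x233) x557) x449) x377) x401) x20077) (Nat.mul (e (nat_lit 395)) ap)) (Nat.mul (e (nat_lit 395)) an))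
    (Nat.sub (Nat.add (Nat.add (Nat.add (Nat.add (Nat.add (Nat.add (Nat.add (Nat.add (Nat.add C (Nat.mul x401 (nat_lit 3))) x887) x239) x563) x455) x395) x403) x20083) (Nat.mul (e (nat_lit 401)) ap)) (Nat.mul (e (nat_lit 401)) an))
    (Nat.sub (Nat.add (Nat.add (Nat.add (Nat.add (Nat.add (Nat.add (Nat.add (Nat.add C (Nat.mul x403 (nat_lit 5))) x889) x241) x565) x457) x401) x20085) (Nat.mul (e (nat_lit 403)) ap)) (Nat.mul (e (nat_lit 403)) an))
    (Nat.sub (Nat.add (Nat.add (Nat.add (Nat.add (Nat.add (Nat.add (Nat.add C (Nat.mul x431 (nat_lit 2))) x917) x593) x377) x449) x20113) (Nat.mul (e (nat_lit 431)) ap)) (Nat.mul (e (nat_lit 431)) an))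
    (Nat.sub (Nat.add (Nat.add (Nat.add (Nat.add (Nat.add (Nat.add (Nat.add (Nat.add (Nat.add C (Nat.mul x449 (nat_lit 3))) x935) x611) x395) x431) x467) x455) x20131) (Nat.mul (e (nat_lit 449)) ap)) (Nat.mul (e (nat_lit 449)) an))
    (Nat.sub (Nat.add (Nat.add (Nat.add (Nat.add (Nat.add (Nat.add (Nat.add (Nat.add (Nat.add C (Nat.mul x455 (nat_lit 2))) x941) x617) x401) x473) x449) x457) x20137) (Nat.mul (e (nat_lit 455)) ap)) (Nat.mul (e (nat_lit 455)) an))
    (Nat.sub (Nat.add (Nat.add (Nat.add (Nat.add (Nat.add (Nat.add (Nat.add (Nat.add C (Nat.mul x457 (nat_lit 4))) x943) x619) x403) x475) x455) x20139) (Nat.mul (e (nat_lit 457)) ap)) (Nat.mul (e (nat_lit 457)) an))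
    (Nat.sub (Nat.add (Nat.add (Nat.add (Nat.add (Nat.add (Nat.add (Nat.add C (Nat.mul x467 (nat_lit 2))) x953) x629) x449) x473) x20149) (Nat.mul (e (nat_lit 467)) ap)) (Nat.mul (e (nat_lit 467)) an))
    (Nat.sub (Nat.add (Nat.add (Nat.add (Nat.add (Nat.add (Nat.add (Nat.add (Nat.add (Nat.add C (Nat.mul x473 (nat_lit 3))) x959) x635) x455) x467) x479) x475) x20155) (Nat.mul (e (nat_lit 473)) ap)) (Nat.mul (e (nat_lit 473)) an))
    (Nat.add (Nat.add (Nat.add (Nat.add (Nat.add (Nat.add (Nat.add C (Nat.mul x475 (nat_lit 4))) x961) x637) x457) x481) x473) x20157)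
    (Nat.sub (Nat.add (Nat.add (Nat.add (Nat.add (Nat.add (Nat.add (Nat.add C (Nat.mul x479 (nat_lit 2))) x965) x641) x473) x481) x20161) (Nat.mul (e (nat_lit 479)) ap)) (Nat.mul (e (nat_lit 479)) an))
    (Nat.add (Nat.add (Nat.add (Nat.add (Nat.add (Nat.add (Nat.add C (Nat.mul x481 (nat_lit 5))) x967) x643) x475) x479) x483) x20163)
    (Nat.add (Nat.add (Nat.add (Nat.add C (Nat.mul x483 (nat_lit 6))) x969) x645) x481)
    (Nat.sub (Nat.add (Nat.add (Nat.add (Nat.add (Nat.add (Nat.add (Nat.add C (Nat.mul x539 (nat_lit 2))) x1025) x377) x593) x557) x20221) (Nat.mul (e (nat_lit 539)) ap)) (Nat.mul (e (nat_lit 539)) an))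
    (Nat.sub (Nat.add (Nat.add (Nat.add (Nat.add (Nat.add (Nat.add (Nat.add C x1043) x395) x611) x539) x563) x20239) (Nat.mul (e (nat_lit 557)) ap)) (Nat.mul (e (nat_lit 557)) an))
    (Nat.sub (Nat.add (Nat.add (Nat.add (Nat.add (Nat.add (Nat.add (Nat.add C x1049) x401) x617) x557) x565) x20245) (Nat.mul (e (nat_lit 563)) ap)) (Nat.mul (e (nat_lit 563)) an))
    (Nat.add (Nat.add (Nat.add (Nat.add (Nat.add (Nat.add C (Nat.mul x565 (nat_lit 2))) x1051) x403) x619) x563) x20247)
    (Nat.sub (Nat.add (Nat.add (Nat.add (Nat.add (Nat.add (Nat.add (Nat.add C (Nat.mul x593 (nat_lit 2))) x1079) x431) x539) x611) x20275) (Nat.mul (e (nat_lit 593)) ap)) (Nat.mul (e (nat_lit 593)) an))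
    (Nat.sub (Nat.add (Nat.add (Nat.add (Nat.add (Nat.add (Nat.add (Nat.add (Nat.add (Nat.add (Nat.add C (Nat.mul x611 (nat_lit 2))) x1097) x449) x557) x665) x593) x629) x617) x20293) (Nat.mul (e (nat_lit 611)) ap)) (Nat.mul (e (nat_lit 611)) an))
    (Nat.sub (Nat.add (Nat.add (Nat.add (Nat.add (Nat.add (Nat.add (Nat.add (Nat.add (Nat.add (Nat.add C x617) x1103) x455) x563) x671) x635) x611) x619) x20299) (Nat.mul (e (nat_lit 617)) ap)) (Nat.mul (e (nat_lit 617)) an))
    (Nat.add (Nat.add (Nat.add (Nat.add (Nat.add (Nat.add (Nat.add (Nat.add C (Nat.mul x619 (nat_lit 3))) x1105) x457) x565) x673) x637) x617) x20301)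
    (Nat.sub (Nat.add (Nat.add (Nat.add (Nat.add (Nat.add (Nat.add (Nat.add C x1115) x467) x683) x611) x635) x20311) (Nat.mul (e (nat_lit 629)) ap)) (Nat.mul (e (nat_lit 629)) an))
    (Nat.add (Nat.add (Nat.add (Nat.add (Nat.add (Nat.add (Nat.add (Nat.add (Nat.add C x635) x1121) x473) x689) x617) x629) x641) x637) x20317)
    (Nat.add (Nat.add (Nat.add (Nat.add (Nat.add (Nat.add (Nat.add (Nat.add C (Nat.mul x637 (nat_lit 2))) x1123) x475) x691) x619) x643) x635) x20319)
    (Nat.add (Nat.add (Nat.add (Nat.add (Nat.add (Nat.add C x1127) x479) x695) x635) x643) x20323)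
    (Nat.add (Nat.add (Nat.add (Nat.add (Nat.add (Nat.add (Nat.add (Nat.add C (Nat.mul x643 (nat_lit 3))) x1129) x481) x697) x637) x641) x645) x20325)
    (Nat.add (Nat.add (Nat.add (Nat.add (Nat.add C (Nat.mul x645 (nat_lit 4))) x1131) x483) x699) x643)
    (Nat.sub (Nat.add (Nat.add (Nat.add (Nat.add (Nat.add (Nat.add (Nat.add C (Nat.mul x665 (nat_lit 2))) x1151) x611) x683) x671) x20347) (Nat.mul (e (nat_lit 665)) ap)) (Nat.mul (e (nat_lit 665)) an))
    (Nat.add (Nat.add (Nat.add (Nat.add (Nat.add (Nat.add C x1157) x617) x689) x665) x673) x20353)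
    (Nat.add (Nat.add (Nat.add (Nat.add (Nat.add (Nat.add C (Nat.mul x673 (nat_lit 2))) x1159) x619) x691) x671) x20355)
    (Nat.add (Nat.add (Nat.add (Nat.add (Nat.add (Nat.add C (Nat.mul x683 (nat_lit 2))) x1169) x629) x665) x689) x20365)
    (Nat.add (Nat.add (Nat.add (Nat.add (Nat.add (Nat.add (Nat.add (Nat.add (Nat.add C (Nat.mul x689 (nat_lit 2))) x1175) x635) x671) x707) x683) x695) x691) x20371)
    (Nat.add (Nat.add (Nat.add (Nat.add (Nat.add (Nat.add (Nat.add (Nat.add C (Nat.mul x691 (nat_lit 3))) x1177) x637) x673) x709) x697) x689) x20373)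
    (Nat.add (Nat.add (Nat.add (Nat.add (Nat.add (Nat.add C x1181) x641) x713) x689) x697) x20377)
    (Nat.add (Nat.add (Nat.add (Nat.add (Nat.add (Nat.add (Nat.add (Nat.add C (Nat.mul x697 (nat_lit 3))) x1183) x643) x715) x691) x695) x699) x20379)
    (Nat.add (Nat.add (Nat.add (Nat.add (Nat.add C (Nat.mul x699 (nat_lit 4))) x1185) x645) x717) x697)
    (Nat.add (Nat.add (Nat.add (Nat.add (Nat.add (Nat.add C (Nat.mul x707 (nat_lit 2))) x1193) x689) x713) x709) x20389)
    (Nat.add (Nat.add (Nat.add (Nat.add (Nat.add (Nat.add C (Nat.mul x709 (nat_lit 2))) x1195) x691) x715) x707) x20391)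
    (Nat.add (Nat.add (Nat.add (Nat.add (Nat.add (Nat.add C (Nat.mul x713 (nat_lit 2))) x1199) x695) x707) x715) x20395)
    (Nat.add (Nat.add (Nat.add (Nat.add (Nat.add (Nat.add (Nat.add (Nat.add C (Nat.mul x715 (nat_lit 4))) x1201) x697) x709) x721) x713) x717) x20397)
    (Nat.add (Nat.add (Nat.add (Nat.add (Nat.add C (Nat.mul x717 (nat_lit 4))) x1203) x699) x723) x715)
    (Nat.add (Nat.add (Nat.add (Nat.add (Nat.add C (Nat.mul x721 (nat_lit 4))) x1207) x715) x723) x20403)
    (Nat.add (Nat.add (Nat.add (Nat.add C (Nat.mul x723 (nat_lit 6))) x1209) x717) x721)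
    (Nat.sub (Nat.add (Nat.add (Nat.add (Nat.add (Nat.add (Nat.add C (Nat.mul x809 (nat_lit 4))) x2267) x323) x863) x20491) (Nat.mul (e (nat_lit 809)) ap)) (Nat.mul (e (nat_lit 809)) an))
    (Nat.sub (Nat.add (Nat.add (Nat.add (Nat.add (Nat.add (Nat.add (Nat.add (Nat.add (Nat.add C (Nat.mul x863 (nat_lit 3))) x2321) x377) x1025) x809) x917) x881) x20545) (Nat.mul (e (nat_lit 863)) ap)) (Nat.mul (e (nat_lit 863)) an))
    (Nat.sub (Nat.add (Nat.add (Nat.add (Nat.add (Nat.add (Nat.add (Nat.add (Nat.add (Nat.add C (Nat.mul x881 (nat_lit 2))) x2339) x395) x1043) x935) x863) x887) x20563) (Nat.mul (e (nat_lit 881)) ap)) (Nat.mul (e (nat_lit 881)) an))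
    (Nat.sub (Nat.add (Nat.add (Nat.add (Nat.add (Nat.add (Nat.add (Nat.add (Nat.add (Nat.add C (Nat.mul x887 (nat_lit 2))) x2345) x401) x1049) x941) x881) x889) x20569) (Nat.mul (e (nat_lit 887)) ap)) (Nat.mul (e (nat_lit 887)) an))
    (Nat.sub (Nat.add (Nat.add (Nat.add (Nat.add (Nat.add (Nat.add (Nat.add (Nat.add C (Nat.mul x889 (nat_lit 4))) x2347) x403) x1051) x943) x887) x20571) (Nat.mul (e (nat_lit 889)) ap)) (Nat.mul (e (nat_lit 889)) an))
    (Nat.sub (Nat.add (Nat.add (Nat.add (Nat.add (Nat.add (Nat.add (Nat.add C x2375) x431) x1079) x863) x935) x20599) (Nat.mul (e (nat_lit 917)) ap)) (Nat.mul (e (nat_lit 917)) an))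
    (Nat.sub (Nat.add (Nat.add (Nat.add (Nat.add (Nat.add (Nat.add (Nat.add (Nat.add (Nat.add (Nat.add C x935) x2393) x449) x1097) x881) x917) x953) x941) x20617) (Nat.mul (e (nat_lit 935)) ap)) (Nat.mul (e (nat_lit 935)) an))
    (Nat.sub (Nat.add (Nat.add (Nat.add (Nat.add (Nat.add (Nat.add (Nat.add (Nat.add (Nat.add C x2399) x455) x1103) x887) x959) x935) x943) x20623) (Nat.mul (e (nat_lit 941)) ap)) (Nat.mul (e (nat_lit 941)) an))
    (Nat.sub (Nat.add (Nat.add (Nat.add (Nat.add (Nat.add (Nat.add (Nat.add (Nat.add (Nat.add C (Nat.mul x943 (nat_lit 2))) x2401) x457) x1105) x889) x961) x941) x20625) (Nat.mul (e (nat_lit 943)) ap)) (Nat.mul (e (nat_lit 943)) an))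
    (Nat.sub (Nat.add (Nat.add (Nat.add (Nat.add (Nat.add (Nat.add (Nat.add C x2411) x467) x1115) x935) x959) x20635) (Nat.mul (e (nat_lit 953)) ap)) (Nat.mul (e (nat_lit 953)) an))
    (Nat.sub (Nat.add (Nat.add (Nat.add (Nat.add (Nat.add (Nat.add (Nat.add (Nat.add (Nat.add (Nat.add C x959) x2417) x473) x1121) x941) x953) x965) x961) x20641) (Nat.mul (e (nat_lit 959)) ap)) (Nat.mul (e (nat_lit 959)) an))
    (Nat.sub (Nat.add (Nat.add (Nat.add (Nat.add (Nat.add (Nat.add (Nat.add (Nat.add (Nat.add C (Nat.mul x961 (nat_lit 2))) x2419) x475) x1123) x943) x967) x959) x20643) (Nat.mul (e (nat_lit 961)) ap)) (Nat.mul (e (nat_lit 961)) an))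
    (Nat.sub (Nat.add (Nat.add (Nat.add (Nat.add (Nat.add (Nat.add (Nat.add C x2423) x479) x1127) x959) x967) x20647) (Nat.mul (e (nat_lit 965)) ap)) (Nat.mul (e (nat_lit 965)) an))
    (Nat.sub (Nat.add (Nat.add (Nat.add (Nat.add (Nat.add (Nat.add (Nat.add (Nat.add (Nat.add C (Nat.mul x967 (nat_lit 3))) x2425) x481) x1129) x961) x965) x969) x20649) (Nat.mul (e (nat_lit 967)) ap)) (Nat.mul (e (nat_lit 967)) an))
    (Nat.add (Nat.add (Nat.add (Nat.add (Nat.add C (Nat.mul x969 (nat_lit 4))) x2427) x483) x1131) x967)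
    (Nat.sub (Nat.add (Nat.add (Nat.add (Nat.add (Nat.add (Nat.add (Nat.add (Nat.add (Nat.add C (Nat.mul x1025 (nat_lit 3))) x2483) x539) x1511) x863) x1079) x1043) x20707) (Nat.mul (e (nat_lit 1025)) ap)) (Nat.mul (e (nat_lit 1025)) an))
    (Nat.sub (Nat.add (Nat.add (Nat.add (Nat.add (Nat.add (Nat.add (Nat.add (Nat.add (Nat.add (Nat.add C x1043) x2501) x557) x1529) x881) x1097) x1025) x1049) x20725) (Nat.mul (e (nat_lit 1043)) ap)) (Nat.mul (e (nat_lit 1043)) an))
    (Nat.sub (Nat.add (Nat.add (Nat.add (Nat.add (Nat.add (Nat.add (Nat.add (Nat.add (Nat.add (Nat.add C x1049) x2507) x563) x1535) x887) x1103) x1043) x1051) x20731) (Nat.mul (e (nat_lit 1049)) ap)) (Nat.mul (e (nat_lit 1049)) an))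
    (Nat.sub (Nat.add (Nat.add (Nat.add (Nat.add (Nat.add (Nat.add (Nat.add (Nat.add (Nat.add C (Nat.mul x1051 (nat_lit 3))) x2509) x565) x1537) x889) x1105) x1049) x20733) (Nat.mul (e (nat_lit 1051)) ap)) (Nat.mul (e (nat_lit 1051)) an))
    (Nat.sub (Nat.add (Nat.add (Nat.add (Nat.add (Nat.add (Nat.add (Nat.add (Nat.add (Nat.add (Nat.add C (Nat.mul x1079 (nat_lit 2))) x2537) x593) x1565) x917) x1241) x1025) x1097) x20761) (Nat.mul (e (nat_lit 1079)) ap)) (Nat.mul (e (nat_lit 1079)) an))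
    (Nat.sub (Nat.add (Nat.add (Nat.add (Nat.add (Nat.add (Nat.add (Nat.add (Nat.add (Nat.add (Nat.add (Nat.add (Nat.add (Nat.add C (Nat.mul x1097 (nat_lit 2))) x2555) x611) x1583) x935) x1259) x1043) x1151) x1079) x1115) x1103) x20779) (Nat.mul (e (nat_lit 1097)) ap)) (Nat.mul (e (nat_lit 1097)) an))
    (Nat.sub (Nat.add (Nat.add (Nat.add (Nat.add (Nat.add (Nat.add (Nat.add (Nat.add (Nat.add (Nat.add (Nat.add (Nat.add (Nat.add C x1103) x2561) x617) x1589) x941) x1265) x1049) x1157) x1121) x1097) x1105) x20785) (Nat.mul (e (nat_lit 1103)) ap)) (Nat.mul (e (nat_lit 1103)) an))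
    (Nat.sub (Nat.add (Nat.add (Nat.add (Nat.add (Nat.add (Nat.add (Nat.add (Nat.add (Nat.add (Nat.add (Nat.add (Nat.add C (Nat.mul x1105 (nat_lit 3))) x2563) x619) x1591) x943) x1267) x1051) x1159) x1123) x1103) x20787) (Nat.mul (e (nat_lit 1105)) ap)) (Nat.mul (e (nat_lit 1105)) an))
    (Nat.sub (Nat.add (Nat.add (Nat.add (Nat.add (Nat.add (Nat.add (Nat.add (Nat.add (Nat.add (Nat.add C x2573) x629) x1601) x953) x1277) x1169) x1097) x1121) x20797) (Nat.mul (e (nat_lit 1115)) ap)) (Nat.mul (e (nat_lit 1115)) an))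
    (Nat.sub (Nat.add (Nat.add (Nat.add (Nat.add (Nat.add (Nat.add (Nat.add (Nat.add (Nat.add (Nat.add (Nat.add (Nat.add (Nat.add C x1121) x2579) x635) x1607) x959) x1283) x1175) x1103) x1115) x1127) x1123) x20803) (Nat.mul (e (nat_lit 1121)) ap)) (Nat.mul (e (nat_lit 1121)) an))
    (Nat.sub (Nat.add (Nat.add (Nat.add (Nat.add (Nat.add (Nat.add (Nat.add (Nat.add (Nat.add (Nat.add (Nat.add (Nat.add C (Nat.mul x1123 (nat_lit 2))) x2581) x637) x1609) x961) x1285) x1177) x1105) x1129) x1121) x20805) (Nat.mul (e (nat_lit 1123)) ap)) (Nat.mul (e (nat_lit 1123)) an))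
    (Nat.sub (Nat.add (Nat.add (Nat.add (Nat.add (Nat.add (Nat.add (Nat.add (Nat.add (Nat.add (Nat.add C x2585) x641) x1613) x965) x1289) x1181) x1121) x1129) x20809) (Nat.mul (e (nat_lit 1127)) ap)) (Nat.mul (e (nat_lit 1127)) an))
    (Nat.sub (Nat.add (Nat.add (Nat.add (Nat.add (Nat.add (Nat.add (Nat.add (Nat.add (Nat.add (Nat.add (Nat.add (Nat.add C (Nat.mul x1129 (nat_lit 3))) x2587) x643) x1615) x967) x1291) x1183) x1123) x1127) x1131) x20811) (Nat.mul (e (nat_lit 1129)) ap)) (Nat.mul (e (nat_lit 1129)) an))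
    (Nat.add (Nat.add (Nat.add (Nat.add (Nat.add (Nat.add (Nat.add (Nat.add C (Nat.mul x1131 (nat_lit 4))) x2589) x645) x1617) x969) x1293) x1185) x1129)
    (Nat.sub (Nat.add (Nat.add (Nat.add (Nat.add (Nat.add (Nat.add (Nat.add (Nat.add (Nat.add (Nat.add C x1151) x2609) x665) x1637) x1313) x1097) x1169) x1157) x20833) (Nat.mul (e (nat_lit 1151)) ap)) (Nat.mul (e (nat_lit 1151)) an))
    (Nat.sub (Nat.sub (Nat.add (Nat.add (Nat.add (Nat.add (Nat.add (Nat.add (Nat.add (Nat.add (Nat.add (Nat.add C x2615) x671) x1643) x1319) x1103) x1175) x1151) x1159) x20839) (Nat.mul (e (nat_lit 1157)) ap)) x1157) (Nat.mul (e (nat_lit 1157)) an))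
    (Nat.sub (Nat.add (Nat.add (Nat.add (Nat.add (Nat.add (Nat.add (Nat.add (Nat.add (Nat.add (Nat.add C x1159) x2617) x673) x1645) x1321) x1105) x1177) x1157) x20841) (Nat.mul (e (nat_lit 1159)) ap)) (Nat.mul (e (nat_lit 1159)) an))
    (Nat.sub (Nat.add (Nat.add (Nat.add (Nat.add (Nat.add (Nat.add (Nat.add (Nat.add (Nat.add (Nat.add C x1169) x2627) x683) x1655) x1331) x1115) x1151) x1175) x20851) (Nat.mul (e (nat_lit 1169)) ap)) (Nat.mul (e (nat_lit 1169)) an))
    (Nat.sub (Nat.add (Nat.add (Nat.add (Nat.add (Nat.add (Nat.add (Nat.add (Nat.add (Nat.add (Nat.add (Nat.add (Nat.add (Nat.add C x1175) x2633) x689) x1661) x1337) x1121) x1157) x1193) x1169) x1181) x1177) x20857) (Nat.mul (e (nat_lit 1175)) ap)) (Nat.mul (e (nat_lit 1175)) an))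
    (Nat.sub (Nat.add (Nat.add (Nat.add (Nat.add (Nat.add (Nat.add (Nat.add (Nat.add (Nat.add (Nat.add (Nat.add (Nat.add C (Nat.mul x1177 (nat_lit 2))) x2635) x691) x1663) x1339) x1123) x1159) x1195) x1183) x1175) x20859) (Nat.mul (e (nat_lit 1177)) ap)) (Nat.mul (e (nat_lit 1177)) an))
    (Nat.sub (Nat.sub (Nat.add (Nat.add (Nat.add (Nat.add (Nat.add (Nat.add (Nat.add (Nat.add (Nat.add (Nat.add C x2639) x695) x1667) x1343) x1127) x1199) x1175) x1183) x20863) (Nat.mul (e (nat_lit 1181)) ap)) x1181) (Nat.mul (e (nat_lit 1181)) an))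
    (Nat.sub (Nat.add (Nat.add (Nat.add (Nat.add (Nat.add (Nat.add (Nat.add (Nat.add (Nat.add (Nat.add (Nat.add (Nat.add C (Nat.mul x1183 (nat_lit 2))) x2641) x697) x1669) x1345) x1129) x1201) x1177) x1181) x1185) x20865) (Nat.mul (e (nat_lit 1183)) ap)) (Nat.mul (e (nat_lit 1183)) an))
    (Nat.add (Nat.add (Nat.add (Nat.add (Nat.add (Nat.add (Nat.add (Nat.add C (Nat.mul x1185 (nat_lit 3))) x2643) x699) x1671) x1347) x1131) x1203) x1183)
    (Nat.sub (Nat.add (Nat.add (Nat.add (Nat.add (Nat.add (Nat.add (Nat.add (Nat.add (Nat.add (Nat.add C x1193) x2651) x707) x1679) x1355) x1175) x1199) x1195) x20875) (Nat.mul (e (nat_lit 1193)) ap)) (Nat.mul (e (nat_lit 1193)) an))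
    (Nat.sub (Nat.add (Nat.add (Nat.add (Nat.add (Nat.add (Nat.add (Nat.add (Nat.add (Nat.add (Nat.add C x1195) x2653) x709) x1681) x1357) x1177) x1201) x1193) x20877) (Nat.mul (e (nat_lit 1195)) ap)) (Nat.mul (e (nat_lit 1195)) an))
    (Nat.sub (Nat.add (Nat.add (Nat.add (Nat.add (Nat.add (Nat.add (Nat.add (Nat.add (Nat.add (Nat.add C x1199) x2657) x713) x1685) x1361) x1181) x1193) x1201) x20881) (Nat.mul (e (nat_lit 1199)) ap)) (Nat.mul (e (nat_lit 1199)) an))
    (Nat.add (Nat.add (Nat.add (Nat.add (Nat.add (Nat.add (Nat.add (Nat.add (Nat.add (Nat.add (Nat.add C (Nat.mul x1201 (nat_lit 3))) x2659) x715) x1687) x1363) x1183) x1195) x1207) x1199) x1203) x20883)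
    (Nat.add (Nat.add (Nat.add (Nat.add (Nat.add (Nat.add (Nat.add (Nat.add C (Nat.mul x1203 (nat_lit 3))) x2661) x717) x1689) x1365) x1185) x1209) x1201)
    (Nat.add (Nat.add (Nat.add (Nat.add (Nat.add (Nat.add (Nat.add (Nat.add C (Nat.mul x1207 (nat_lit 3))) x2665) x721) x1693) x1369) x1201) x1209) x20889)
    (Nat.add (Nat.add (Nat.add (Nat.add (Nat.add (Nat.add (Nat.add C (Nat.mul x1209 (nat_lit 5))) x2667) x723) x1695) x1371) x1203) x1207)
    (Nat.sub (Nat.add (Nat.add (Nat.add (Nat.add (Nat.add (Nat.add (Nat.add C (Nat.mul x1241 (nat_lit 2))) x2699) x1727) x1079) x1259) x20923) (Nat.mul (e (nat_lit 1241)) ap)) (Nat.mul (e (nat_lit 1241)) an))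
    (Nat.sub (Nat.add (Nat.add (Nat.add (Nat.add (Nat.add (Nat.add (Nat.add (Nat.add (Nat.add (Nat.add C x1259) x2717) x1745) x1097) x1313) x1241) x1277) x1265) x20941) (Nat.mul (e (nat_lit 1259)) ap)) (Nat.mul (e (nat_lit 1259)) an))
    (Nat.sub (Nat.add (Nat.add (Nat.add (Nat.add (Nat.add (Nat.add (Nat.add (Nat.add (Nat.add C x2723) x1751) x1103) x1319) x1283) x1259) x1267) x20947) (Nat.mul (e (nat_lit 1265)) ap)) (Nat.mul (e (nat_lit 1265)) an))
    (Nat.sub (Nat.add (Nat.add (Nat.add (Nat.add (Nat.add (Nat.add (Nat.add (Nat.add (Nat.add C (Nat.mul x1267 (nat_lit 2))) x2725) x1753) x1105) x1321) x1285) x1265) x20949) (Nat.mul (e (nat_lit 1267)) ap)) (Nat.mul (e (nat_lit 1267)) an))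
    (Nat.sub (Nat.sub (Nat.add (Nat.add (Nat.add (Nat.add (Nat.add (Nat.add (Nat.add (Nat.add C x2735) x1763) x1115) x1331) x1259) x1283) x20959) (Nat.mul (e (nat_lit 1277)) ap)) (Nat.mul x1277 (nat_lit 2))) (Nat.mul (e (nat_lit 1277)) an))
    (Nat.sub (Nat.sub (Nat.add (Nat.add (Nat.add (Nat.add (Nat.add (Nat.add (Nat.add (Nat.add (Nat.add (Nat.add C x2741) x1769) x1121) x1337) x1265) x1277) x1289) x1285) x20965) (Nat.mul (e (nat_lit 1283)) ap)) x1283) (Nat.mul (e (nat_lit 1283)) an))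
    (Nat.sub (Nat.add (Nat.add (Nat.add (Nat.add (Nat.add (Nat.add (Nat.add (Nat.add (Nat.add C x2743) x1771) x1123) x1339) x1267) x1291) x1283) x20967) (Nat.mul (e (nat_lit 1285)) ap)) (Nat.mul (e (nat_lit 1285)) an))
    (Nat.sub (Nat.sub (Nat.add (Nat.add (Nat.add (Nat.add (Nat.add (Nat.add (Nat.add (Nat.add C x2747) x1775) x1127) x1343) x1283) x1291) x20971) (Nat.mul (e (nat_lit 1289)) ap)) (Nat.mul x1289 (nat_lit 2))) (Nat.mul (e (nat_lit 1289)) an))
    (Nat.add (Nat.add (Nat.add (Nat.add (Nat.add (Nat.add (Nat.add (Nat.add (Nat.add C x1291) x2749) x1777) x1129) x1345) x1285) x1289) x1293) x20973)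
    (Nat.add (Nat.add (Nat.add (Nat.add (Nat.add (Nat.add C (Nat.mul x1293 (nat_lit 2))) x2751) x1779) x1131) x1347) x1291)
    (Nat.sub (Nat.add (Nat.add (Nat.add (Nat.add (Nat.add (Nat.add (Nat.add (Nat.add (Nat.add C (Nat.mul x1313 (nat_lit 2))) x2771) x1799) x1151) x1259) x1331) x1319) x20995) (Nat.mul (e (nat_lit 1313)) ap)) (Nat.mul (e (nat_lit 1313)) an))
    (Nat.sub (Nat.add (Nat.add (Nat.add (Nat.add (Nat.add (Nat.add (Nat.add (Nat.add (Nat.add C x2777) x1805) x1157) x1265) x1337) x1313) x1321) x21001) (Nat.mul (e (nat_lit 1319)) ap)) (Nat.mul (e (nat_lit 1319)) an))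
    (Nat.sub (Nat.add (Nat.add (Nat.add (Nat.add (Nat.add (Nat.add (Nat.add (Nat.add (Nat.add C (Nat.mul x1321 (nat_lit 2))) x2779) x1807) x1159) x1267) x1339) x1319) x21003) (Nat.mul (e (nat_lit 1321)) ap)) (Nat.mul (e (nat_lit 1321)) an))
    (Nat.sub (Nat.add (Nat.add (Nat.add (Nat.add (Nat.add (Nat.add (Nat.add (Nat.add (Nat.add (Nat.add C x1331) x2789) x1817) x1169) x1277) x1385) x1313) x1337) x21013) (Nat.mul (e (nat_lit 1331)) ap)) (Nat.mul (e (nat_lit 1331)) an))
    (Nat.sub (Nat.add (Nat.add (Nat.add (Nat.add (Nat.add (Nat.add (Nat.add (Nat.add (Nat.add (Nat.add (Nat.add (Nat.add (Nat.add C x1337) x2795) x1823) x1175) x1283) x1391) x1319) x1355) x1331) x1343) x1339) x21019) (Nat.mul (e (nat_lit 1337)) ap)) (Nat.mul (e (nat_lit 1337)) an))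
    (Nat.sub (Nat.add (Nat.add (Nat.add (Nat.add (Nat.add (Nat.add (Nat.add (Nat.add (Nat.add (Nat.add (Nat.add (Nat.add C (Nat.mul x1339 (nat_lit 2))) x2797) x1825) x1177) x1285) x1393) x1321) x1357) x1345) x1337) x21021) (Nat.mul (e (nat_lit 1339)) ap)) (Nat.mul (e (nat_lit 1339)) an))
    (Nat.sub (Nat.sub (Nat.add (Nat.add (Nat.add (Nat.add (Nat.add (Nat.add (Nat.add (Nat.add (Nat.add (Nat.add C x2801) x1829) x1181) x1289) x1397) x1361) x1337) x1345) x21025) (Nat.mul (e (nat_lit 1343)) ap)) x1343) (Nat.mul (e (nat_lit 1343)) an))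
    (Nat.add (Nat.add (Nat.add (Nat.add (Nat.add (Nat.add (Nat.add (Nat.add (Nat.add (Nat.add (Nat.add C (Nat.mul x1345 (nat_lit 2))) x2803) x1831) x1183) x1291) x1399) x1363) x1339) x1343) x1347) x21027)
    (Nat.add (Nat.add (Nat.add (Nat.add (Nat.add (Nat.add (Nat.add (Nat.add C (Nat.mul x1347 (nat_lit 3))) x2805) x1833) x1185) x1293) x1401) x1365) x1345)
    (Nat.sub (Nat.add (Nat.add (Nat.add (Nat.add (Nat.add (Nat.add (Nat.add (Nat.add (Nat.add C x2813) x1841) x1193) x1409) x1337) x1361) x1357) x21037) (Nat.mul (e (nat_lit 1355)) ap)) (Nat.mul (e (nat_lit 1355)) an))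
    (Nat.add (Nat.add (Nat.add (Nat.add (Nat.add (Nat.add (Nat.add (Nat.add C x2815) x1843) x1195) x1411) x1339) x1363) x1355) x21039)
    (Nat.sub (Nat.add (Nat.add (Nat.add (Nat.add (Nat.add (Nat.add (Nat.add (Nat.add (Nat.add C x2819) x1847) x1199) x1415) x1343) x1355) x1363) x21043) (Nat.mul (e (nat_lit 1361)) ap)) (Nat.mul (e (nat_lit 1361)) an))
    (Nat.add (Nat.add (Nat.add (Nat.add (Nat.add (Nat.add (Nat.add (Nat.add (Nat.add (Nat.add (Nat.add C (Nat.mul x1363 (nat_lit 2))) x2821) x1849) x1201) x1417) x1345) x1357) x1369) x1361) x1365) x21045)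
    (Nat.add (Nat.add (Nat.add (Nat.add (Nat.add (Nat.add (Nat.add (Nat.add C (Nat.mul x1365 (nat_lit 2))) x2823) x1851) x1203) x1419) x1347) x1371) x1363)
    (Nat.add (Nat.add (Nat.add (Nat.add (Nat.add (Nat.add (Nat.add (Nat.add C (Nat.mul x1369 (nat_lit 2))) x2827) x1855) x1207) x1423) x1363) x1371) x21051)
    (Nat.add (Nat.add (Nat.add (Nat.add (Nat.add (Nat.add (Nat.add C (Nat.mul x1371 (nat_lit 4))) x2829) x1857) x1209) x1425) x1365) x1369)
    (Nat.sub (Nat.add (Nat.add (Nat.add (Nat.add (Nat.add (Nat.add (Nat.add C (Nat.mul x1385 (nat_lit 2))) x2843) x1871) x1331) x1391) x21067) (Nat.mul (e (nat_lit 1385)) ap)) (Nat.mul (e (nat_lit 1385)) an))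
    (Nat.sub (Nat.add (Nat.add (Nat.add (Nat.add (Nat.add (Nat.add (Nat.add (Nat.add (Nat.add (Nat.add C x1391) x2849) x1877) x1337) x1409) x1385) x1397) x1393) x21073) (Nat.mul (e (nat_lit 1391)) ap)) (Nat.mul (e (nat_lit 1391)) an))
    (Nat.add (Nat.add (Nat.add (Nat.add (Nat.add (Nat.add (Nat.add (Nat.add C (Nat.mul x1393 (nat_lit 2))) x2851) x1879) x1339) x1411) x1399) x1391) x21075)
    (Nat.sub (Nat.sub (Nat.add (Nat.add (Nat.add (Nat.add (Nat.add (Nat.add (Nat.add (Nat.add C x2855) x1883) x1343) x1415) x1391) x1399) x21079) (Nat.mul (e (nat_lit 1397)) ap)) (Nat.mul x1397 (nat_lit 2))) (Nat.mul (e (nat_lit 1397)) an))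
    (Nat.add (Nat.add (Nat.add (Nat.add (Nat.add (Nat.add (Nat.add (Nat.add (Nat.add C x1399) x2857) x1885) x1345) x1417) x1393) x1397) x1401) x21081)
    (Nat.add (Nat.add (Nat.add (Nat.add (Nat.add (Nat.add C (Nat.mul x1401 (nat_lit 2))) x2859) x1887) x1347) x1419) x1399)
    (Nat.sub (Nat.add (Nat.add (Nat.add (Nat.add (Nat.add (Nat.add (Nat.add (Nat.add (Nat.add C (Nat.mul x1409 (nat_lit 2))) x2867) x1895) x1355) x1391) x1415) x1411) x21091) (Nat.mul (e (nat_lit 1409)) ap)) (Nat.mul (e (nat_lit 1409)) an))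
    (Nat.add (Nat.add (Nat.add (Nat.add (Nat.add (Nat.add (Nat.add (Nat.add C (Nat.mul x1411 (nat_lit 2))) x2869) x1897) x1357) x1393) x1417) x1409) x21093)
    (Nat.sub (Nat.add (Nat.add (Nat.add (Nat.add (Nat.add (Nat.add (Nat.add (Nat.add (Nat.add (Nat.add C x1415) x2873) x1901) x1361) x1397) x1433) x1409) x1417) x21097) (Nat.mul (e (nat_lit 1415)) ap)) (Nat.mul (e (nat_lit 1415)) an))
    (Nat.add (Nat.add (Nat.add (Nat.add (Nat.add (Nat.add (Nat.add (Nat.add (Nat.add (Nat.add (Nat.add C (Nat.mul x1417 (nat_lit 3))) x2875) x1903) x1363) x1399) x1435) x1411) x1423) x1415) x1419) x21099)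
    (Nat.add (Nat.add (Nat.add (Nat.add (Nat.add (Nat.add (Nat.add (Nat.add C (Nat.mul x1419 (nat_lit 3))) x2877) x1905) x1365) x1401) x1437) x1425) x1417)
    (Nat.add (Nat.add (Nat.add (Nat.add (Nat.add (Nat.add (Nat.add (Nat.add C (Nat.mul x1423 (nat_lit 2))) x2881) x1909) x1369) x1441) x1417) x1425) x21105)
    (Nat.add (Nat.add (Nat.add (Nat.add (Nat.add (Nat.add (Nat.add C (Nat.mul x1425 (nat_lit 4))) x2883) x1911) x1371) x1443) x1419) x1423)
    (Nat.sub (Nat.add (Nat.add (Nat.add (Nat.add (Nat.add (Nat.add (Nat.add C (Nat.mul x1433 (nat_lit 2))) x2891) x1919) x1415) x1435) x21115) (Nat.mul (e (nat_lit 1433)) ap)) (Nat.mul (e (nat_lit 1433)) an))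
    (Nat.add (Nat.add (Nat.add (Nat.add (Nat.add (Nat.add (Nat.add (Nat.add C (Nat.mul x1435 (nat_lit 3))) x2893) x1921) x1417) x1441) x1433) x1437) x21117)
    (Nat.add (Nat.add (Nat.add (Nat.add (Nat.add (Nat.add C (Nat.mul x1437 (nat_lit 2))) x2895) x1923) x1419) x1443) x1435)
    (Nat.add (Nat.add (Nat.add (Nat.add (Nat.add (Nat.add (Nat.add C (Nat.mul x1441 (nat_lit 4))) x2899) x1927) x1423) x1435) x1443) x21123)
    (Nat.add (Nat.add (Nat.add (Nat.add (Nat.add (Nat.add (Nat.add C (Nat.mul x1443 (nat_lit 5))) x2901) x1929) x1425) x1437) x1449) x1441)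
    (Nat.add (Nat.add (Nat.add (Nat.add C (Nat.mul x1449 (nat_lit 6))) x2907) x1935) x1443)
    (Nat.sub (Nat.add (Nat.add (Nat.add (Nat.add (Nat.add (Nat.add (Nat.add C (Nat.mul x1511 (nat_lit 2))) x2969) x1025) x1565) x1529) x21193) (Nat.mul (e (nat_lit 1511)) ap)) (Nat.mul (e (nat_lit 1511)) an))
    (Nat.sub (Nat.add (Nat.add (Nat.add (Nat.add (Nat.add (Nat.add (Nat.add C x2987) x1043) x1583) x1511) x1535) x21211) (Nat.mul (e (nat_lit 1529)) ap)) (Nat.mul (e (nat_lit 1529)) an))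
    (Nat.sub (Nat.add (Nat.add (Nat.add (Nat.add (Nat.add (Nat.add (Nat.add C x2993) x1049) x1589) x1529) x1537) x21217) (Nat.mul (e (nat_lit 1535)) ap)) (Nat.mul (e (nat_lit 1535)) an))
    (Nat.add (Nat.add (Nat.add (Nat.add (Nat.add (Nat.add C (Nat.mul x1537 (nat_lit 2))) x2995) x1051) x1591) x1535) x21219)
    (Nat.sub (Nat.add (Nat.add (Nat.add (Nat.add (Nat.add (Nat.add (Nat.add C x3023) x1079) x1727) x1511) x1583) x21247) (Nat.mul (e (nat_lit 1565)) ap)) (Nat.mul (e (nat_lit 1565)) an))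
    (Nat.sub (Nat.add (Nat.add (Nat.add (Nat.add (Nat.add (Nat.add (Nat.add (Nat.add (Nat.add (Nat.add C x3041) x1097) x1745) x1529) x1637) x1565) x1601) x1589) x21265) (Nat.mul (e (nat_lit 1583)) ap)) (Nat.mul (e (nat_lit 1583)) an))
    (Nat.sub (Nat.sub (Nat.add (Nat.add (Nat.add (Nat.add (Nat.add (Nat.add (Nat.add (Nat.add (Nat.add (Nat.add C x3047) x1103) x1751) x1535) x1643) x1607) x1583) x1591) x21271) (Nat.mul (e (nat_lit 1589)) ap)) x1589) (Nat.mul (e (nat_lit 1589)) an))
    (Nat.add (Nat.add (Nat.add (Nat.add (Nat.add (Nat.add (Nat.add (Nat.add (Nat.add C x1591) x3049) x1105) x1753) x1537) x1645) x1609) x1589) x21273)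
    (Nat.sub (Nat.sub (Nat.add (Nat.add (Nat.add (Nat.add (Nat.add (Nat.add (Nat.add (Nat.add C x3059) x1115) x1763) x1655) x1583) x1607) x21283) (Nat.mul (e (nat_lit 1601)) ap)) (Nat.mul x1601 (nat_lit 2))) (Nat.mul (e (nat_lit 1601)) an))
    (Nat.sub (Nat.sub (Nat.add (Nat.add (Nat.add (Nat.add (Nat.add (Nat.add (Nat.add (Nat.add (Nat.add (Nat.add C x3065) x1121) x1769) x1661) x1589) x1601) x1613) x1609) x21289) (Nat.mul (e (nat_lit 1607)) ap)) x1607) (Nat.mul (e (nat_lit 1607)) an))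
    (Nat.add (Nat.add (Nat.add (Nat.add (Nat.add (Nat.add (Nat.add (Nat.add C x3067) x1123) x1771) x1663) x1591) x1615) x1607) x21291)
    (Nat.sub (Nat.sub (Nat.add (Nat.add (Nat.add (Nat.add (Nat.add (Nat.add (Nat.add (Nat.add C x3071) x1127) x1775) x1667) x1607) x1615) x21295) (Nat.mul (e (nat_lit 1613)) ap)) (Nat.mul x1613 (nat_lit 2))) (Nat.mul (e (nat_lit 1613)) an))
    (Nat.add (Nat.add (Nat.add (Nat.add (Nat.add (Nat.add (Nat.add (Nat.add (Nat.add C x1615) x3073) x1129) x1777) x1669) x1609) x1613) x1617) x21297)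
    (Nat.add (Nat.add (Nat.add (Nat.add (Nat.add (Nat.add C (Nat.mul x1617 (nat_lit 2))) x3075) x1131) x1779) x1671) x1615)
    (Nat.sub (Nat.sub (Nat.add (Nat.add (Nat.add (Nat.add (Nat.add (Nat.add (Nat.add (Nat.add C x3095) x1151) x1799) x1583) x1655) x1643) x21319) (Nat.mul (e (nat_lit 1637)) ap)) (Nat.mul x1637 (nat_lit 2))) (Nat.mul (e (nat_lit 1637)) an))
    (Nat.sub (Nat.sub (Nat.add (Nat.add (Nat.add (Nat.add (Nat.add (Nat.add (Nat.add (Nat.add (Nat.add C x3101) x1157) x1805) x1589) x1661) x1637) x1645) x21325) (Nat.mul (e (nat_lit 1643)) ap)) (Nat.mul x1643 (nat_lit 4))) (Nat.mul (e (nat_lit 1643)) an))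
    (Nat.sub (Nat.add (Nat.add (Nat.add (Nat.add (Nat.add (Nat.add (Nat.add C x3103) x1159) x1807) x1591) x1663) x1643) x21327) (Nat.mul x1645 (nat_lit 2)))
    (Nat.sub (Nat.sub (Nat.add (Nat.add (Nat.add (Nat.add (Nat.add (Nat.add (Nat.add (Nat.add C x3113) x1169) x1817) x1601) x1637) x1661) x21337) (Nat.mul (e (nat_lit 1655)) ap)) (Nat.mul x1655 (nat_lit 2))) (Nat.mul (e (nat_lit 1655)) an))
    (Nat.sub (Nat.sub (Nat.add (Nat.add (Nat.add (Nat.add (Nat.add (Nat.add (Nat.add (Nat.add (Nat.add (Nat.add (Nat.add C x3119) x1175) x1823) x1607) x1643) x1679) x1655) x1667) x1663) x21343) (Nat.mul (e (nat_lit 1661)) ap)) (Nat.mul x1661 (nat_lit 2))) (Nat.mul (e (nat_lit 1661)) an))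
    (Nat.sub (Nat.add (Nat.add (Nat.add (Nat.add (Nat.add (Nat.add (Nat.add (Nat.add (Nat.add C x3121) x1177) x1825) x1609) x1645) x1681) x1669) x1661) x21345) x1663)
    (Nat.sub (Nat.sub (Nat.add (Nat.add (Nat.add (Nat.add (Nat.add (Nat.add (Nat.add (Nat.add (Nat.add C x3125) x1181) x1829) x1613) x1685) x1661) x1669) x21349) (Nat.mul (e (nat_lit 1667)) ap)) (Nat.mul x1667 (nat_lit 4))) (Nat.mul (e (nat_lit 1667)) an))
    (Nat.sub (Nat.add (Nat.add (Nat.add (Nat.add (Nat.add (Nat.add (Nat.add (Nat.add (Nat.add C x3127) x1183) x1831) x1615) x1687) x1663) x1667) x1671) x21351) x1669)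
    (Nat.add (Nat.add (Nat.add (Nat.add (Nat.add (Nat.add C x3129) x1185) x1833) x1617) x1689) x1669)
    (Nat.sub (Nat.sub (Nat.add (Nat.add (Nat.add (Nat.add (Nat.add (Nat.add (Nat.add (Nat.add C x3137) x1193) x1841) x1661) x1685) x1681) x21361) (Nat.mul (e (nat_lit 1679)) ap)) (Nat.mul x1679 (nat_lit 2))) (Nat.mul (e (nat_lit 1679)) an))
    (Nat.sub (Nat.add (Nat.add (Nat.add (Nat.add (Nat.add (Nat.add (Nat.add C x3139) x1195) x1843) x1663) x1687) x1679) x21363) (Nat.mul x1681 (nat_lit 2)))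
    (Nat.sub (Nat.add (Nat.add (Nat.add (Nat.add (Nat.add (Nat.add (Nat.add C x3143) x1199) x1847) x1667) x1679) x1687) x21367) (Nat.mul x1685 (nat_lit 2)))
    (Nat.add (Nat.add (Nat.add (Nat.add (Nat.add (Nat.add (Nat.add (Nat.add (Nat.add C x3145) x1201) x1849) x1669) x1681) x1693) x1685) x1689) x21369)
    (Nat.add (Nat.add (Nat.add (Nat.add (Nat.add (Nat.add C x3147) x1203) x1851) x1671) x1695) x1687)
    (Nat.add (Nat.add (Nat.add (Nat.add (Nat.add (Nat.add C x3151) x1207) x1855) x1687) x1695) x21375)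
    (Nat.add (Nat.add (Nat.add (Nat.add (Nat.add (Nat.add C (Nat.mul x1695 (nat_lit 2))) x3153) x1209) x1857) x1689) x1693)
    (Nat.sub (Nat.add (Nat.add (Nat.add (Nat.add (Nat.add (Nat.add (Nat.add C (Nat.mul x1727 (nat_lit 2))) x3185) x1241) x1565) x1745) x21409) (Nat.mul (e (nat_lit 1727)) ap)) (Nat.mul (e (nat_lit 1727)) an))
    (Nat.sub (Nat.add (Nat.add (Nat.add (Nat.add (Nat.add (Nat.add (Nat.add (Nat.add (Nat.add (Nat.add C x1745) x3203) x1259) x1583) x1799) x1727) x1763) x1751) x21427) (Nat.mul (e (nat_lit 1745)) ap)) (Nat.mul (e (nat_lit 1745)) an))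
    (Nat.sub (Nat.add (Nat.add (Nat.add (Nat.add (Nat.add (Nat.add (Nat.add (Nat.add (Nat.add C x3209) x1265) x1589) x1805) x1769) x1745) x1753) x21433) (Nat.mul (e (nat_lit 1751)) ap)) (Nat.mul (e (nat_lit 1751)) an))
    (Nat.add (Nat.add (Nat.add (Nat.add (Nat.add (Nat.add (Nat.add (Nat.add C (Nat.mul x1753 (nat_lit 2))) x3211) x1267) x1591) x1807) x1771) x1751) x21435)
    (Nat.sub (Nat.sub (Nat.add (Nat.add (Nat.add (Nat.add (Nat.add (Nat.add (Nat.add (Nat.add C x3221) x1277) x1601) x1817) x1745) x1769) x21445) (Nat.mul (e (nat_lit 1763)) ap)) (Nat.mul x1763 (nat_lit 2))) (Nat.mul (e (nat_lit 1763)) an))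
    (Nat.sub (Nat.sub (Nat.add (Nat.add (Nat.add (Nat.add (Nat.add (Nat.add (Nat.add (Nat.add (Nat.add (Nat.add C x3227) x1283) x1607) x1823) x1751) x1763) x1775) x1771) x21451) (Nat.mul (e (nat_lit 1769)) ap)) x1769) (Nat.mul (e (nat_lit 1769)) an))
    (Nat.add (Nat.add (Nat.add (Nat.add (Nat.add (Nat.add (Nat.add (Nat.add C x3229) x1285) x1609) x1825) x1753) x1777) x1769) x21453)
    (Nat.sub (Nat.add (Nat.add (Nat.add (Nat.add (Nat.add (Nat.add (Nat.add C x3233) x1289) x1613) x1829) x1769) x1777) x21457) (Nat.mul x1775 (nat_lit 2)))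
    (Nat.add (Nat.add (Nat.add (Nat.add (Nat.add (Nat.add (Nat.add (Nat.add (Nat.add C x1777) x3235) x1291) x1615) x1831) x1771) x1775) x1779) x21459)
    (Nat.add (Nat.add (Nat.add (Nat.add (Nat.add (Nat.add C (Nat.mul x1779 (nat_lit 2))) x3237) x1293) x1617) x1833) x1777)
    (Nat.sub (Nat.add (Nat.add (Nat.add (Nat.add (Nat.add (Nat.add (Nat.add (Nat.add (Nat.add (Nat.add C x1799) x3257) x1313) x1637) x1961) x1745) x1817) x1805) x21481) (Nat.mul (e (nat_lit 1799)) ap)) (Nat.mul (e (nat_lit 1799)) an))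
    (Nat.sub (Nat.sub (Nat.add (Nat.add (Nat.add (Nat.add (Nat.add (Nat.add (Nat.add (Nat.add (Nat.add (Nat.add C x3263) x1319) x1643) x1967) x1751) x1823) x1799) x1807) x21487) (Nat.mul (e (nat_lit 1805)) ap)) x1805) (Nat.mul (e (nat_lit 1805)) an))
    (Nat.add (Nat.add (Nat.add (Nat.add (Nat.add (Nat.add (Nat.add (Nat.add (Nat.add C x1807) x3265) x1321) x1645) x1969) x1753) x1825) x1805) x21489)
    (Nat.sub (Nat.add (Nat.add (Nat.add (Nat.add (Nat.add (Nat.add (Nat.add (Nat.add (Nat.add (Nat.add C x3275) x1331) x1655) x1979) x1763) x1871) x1799) x1823) x21499) (Nat.mul (e (nat_lit 1817)) ap)) (Nat.mul (e (nat_lit 1817)) an))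
    (Nat.sub (Nat.add (Nat.add (Nat.add (Nat.add (Nat.add (Nat.add (Nat.add (Nat.add (Nat.add (Nat.add (Nat.add (Nat.add (Nat.add C x3281) x1337) x1661) x1985) x1769) x1877) x1805) x1841) x1817) x1829) x1825) x21505) (Nat.mul (e (nat_lit 1823)) ap)) (Nat.mul (e (nat_lit 1823)) an))
    (Nat.add (Nat.add (Nat.add (Nat.add (Nat.add (Nat.add (Nat.add (Nat.add (Nat.add (Nat.add (Nat.add (Nat.add C x1825) x3283) x1339) x1663) x1987) x1771) x1879) x1807) x1843) x1831) x1823) x21507)
    (Nat.sub (Nat.add (Nat.add (Nat.add (Nat.add (Nat.add (Nat.add (Nat.add (Nat.add (Nat.add (Nat.add C x3287) x1343) x1667) x1991) x1775) x1883) x1847) x1823) x1831) x21511) (Nat.mul x1829 (nat_lit 2)))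
    (Nat.add (Nat.add (Nat.add (Nat.add (Nat.add (Nat.add (Nat.add (Nat.add (Nat.add (Nat.add (Nat.add (Nat.add C x1831) x3289) x1345) x1669) x1993) x1777) x1885) x1849) x1825) x1829) x1833) x21513)
    (Nat.add (Nat.add (Nat.add (Nat.add (Nat.add (Nat.add (Nat.add (Nat.add (Nat.add C (Nat.mul x1833 (nat_lit 2))) x3291) x1347) x1671) x1995) x1779) x1887) x1851) x1831)
    (Nat.sub (Nat.add (Nat.add (Nat.add (Nat.add (Nat.add (Nat.add (Nat.add (Nat.add (Nat.add C x3299) x1355) x1679) x2003) x1895) x1823) x1847) x1843) x21523) x1841)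
    (Nat.sub (Nat.add (Nat.add (Nat.add (Nat.add (Nat.add (Nat.add (Nat.add (Nat.add (Nat.add C x3301) x1357) x1681) x2005) x1897) x1825) x1849) x1841) x21525) x1843)
    (Nat.sub (Nat.add (Nat.add (Nat.add (Nat.add (Nat.add (Nat.add (Nat.add (Nat.add (Nat.add C x3305) x1361) x1685) x2009) x1901) x1829) x1841) x1849) x21529) x1847)
    (Nat.add (Nat.add (Nat.add (Nat.add (Nat.add (Nat.add (Nat.add (Nat.add (Nat.add (Nat.add (Nat.add (Nat.add C x1849) x3307) x1363) x1687) x2011) x1903) x1831) x1843) x1855) x1847) x1851) x21531)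
    (Nat.add (Nat.add (Nat.add (Nat.add (Nat.add (Nat.add (Nat.add (Nat.add (Nat.add C x1851) x3309) x1365) x1689) x2013) x1905) x1833) x1857) x1849)
    (Nat.add (Nat.add (Nat.add (Nat.add (Nat.add (Nat.add (Nat.add (Nat.add (Nat.add C x1855) x3313) x1369) x1693) x2017) x1909) x1849) x1857) x21537)
    (Nat.add (Nat.add (Nat.add (Nat.add (Nat.add (Nat.add (Nat.add (Nat.add C (Nat.mul x1857 (nat_lit 3))) x3315) x1371) x1695) x2019) x1911) x1851) x1855)
    (Nat.sub (Nat.add (Nat.add (Nat.add (Nat.add (Nat.add (Nat.add (Nat.add C x3329) x1385) x2033) x1817) x1877) x21553) (Nat.mul (e (nat_lit 1871)) ap)) (Nat.mul (e (nat_lit 1871)) an))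
    (Nat.sub (Nat.add (Nat.add (Nat.add (Nat.add (Nat.add (Nat.add (Nat.add (Nat.add (Nat.add C x3335) x1391) x2039) x1823) x1895) x1871) x1883) x1879) x21559) x1877)
    (Nat.add (Nat.add (Nat.add (Nat.add (Nat.add (Nat.add (Nat.add (Nat.add C x3337) x1393) x2041) x1825) x1897) x1885) x1877) x21561)
    (Nat.sub (Nat.add (Nat.add (Nat.add (Nat.add (Nat.add (Nat.add (Nat.add (Nat.add C x3341) x1397) x2045) x1829) x1901) x1877) x1885) x21565) (Nat.mul x1883 (nat_lit 4)))
    (Nat.sub (Nat.add (Nat.add (Nat.add (Nat.add (Nat.add (Nat.add (Nat.add (Nat.add (Nat.add C x3343) x1399) x2047) x1831) x1903) x1879) x1883) x1887) x21567) x1885)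
    (Nat.add (Nat.add (Nat.add (Nat.add (Nat.add (Nat.add C x3345) x1401) x2049) x1833) x1905) x1885)
    (Nat.add (Nat.add (Nat.add (Nat.add (Nat.add (Nat.add (Nat.add (Nat.add C x3353) x1409) x2057) x1841) x1877) x1901) x1897) x21577)
    (Nat.add (Nat.add (Nat.add (Nat.add (Nat.add (Nat.add (Nat.add (Nat.add C x3355) x1411) x2059) x1843) x1879) x1903) x1895) x21579)
    (Nat.sub (Nat.add (Nat.add (Nat.add (Nat.add (Nat.add (Nat.add (Nat.add (Nat.add (Nat.add C x3359) x1415) x2063) x1847) x1883) x1919) x1895) x1903) x21583) x1901)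
    (Nat.add (Nat.add (Nat.add (Nat.add (Nat.add (Nat.add (Nat.add (Nat.add (Nat.add (Nat.add (Nat.add (Nat.add C x1903) x3361) x1417) x2065) x1849) x1885) x1921) x1897) x1909) x1901) x1905) x21585)
    (Nat.add (Nat.add (Nat.add (Nat.add (Nat.add (Nat.add (Nat.add (Nat.add (Nat.add C x1905) x3363) x1419) x2067) x1851) x1887) x1923) x1911) x1903)
    (Nat.add (Nat.add (Nat.add (Nat.add (Nat.add (Nat.add (Nat.add (Nat.add C x3367) x1423) x2071) x1855) x1927) x1903) x1911) x21591)
    (Nat.add (Nat.add (Nat.add (Nat.add (Nat.add (Nat.add (Nat.add (Nat.add C (Nat.mul x1911 (nat_lit 2))) x3369) x1425) x2073) x1857) x1929) x1905) x1909)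
    (Nat.add (Nat.add (Nat.add (Nat.add (Nat.add (Nat.add C x3377) x1433) x2081) x1901) x1921) x21601)
    (Nat.add (Nat.add (Nat.add (Nat.add (Nat.add (Nat.add (Nat.add (Nat.add (Nat.add C x1921) x3379) x1435) x2083) x1903) x1927) x1919) x1923) x21603)
    (Nat.add (Nat.add (Nat.add (Nat.add (Nat.add (Nat.add C x3381) x1437) x2085) x1905) x1929) x1921)
    (Nat.add (Nat.add (Nat.add (Nat.add (Nat.add (Nat.add (Nat.add (Nat.add C (Nat.mul x1927 (nat_lit 2))) x3385) x1441) x2089) x1909) x1921) x1929) x21609)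
    (Nat.add (Nat.add (Nat.add (Nat.add (Nat.add (Nat.add (Nat.add (Nat.add C (Nat.mul x1929 (nat_lit 3))) x3387) x1443) x2091) x1911) x1923) x1935) x1927)
    (Nat.add (Nat.add (Nat.add (Nat.add (Nat.add C (Nat.mul x1935 (nat_lit 4))) x3393) x1449) x2097) x1929)
    (Nat.sub (Nat.add (Nat.add (Nat.add (Nat.add (Nat.add (Nat.add (Nat.add C (Nat.mul x1961 (nat_lit 2))) x3419) x1799) x1979) x1967) x21643) (Nat.mul (e (nat_lit 1961)) ap)) (Nat.mul (e (nat_lit 1961)) an))
    (Nat.add (Nat.add (Nat.add (Nat.add (Nat.add (Nat.add C x3425) x1805) x1985) x1961) x1969) x21649)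
    (Nat.add (Nat.add (Nat.add (Nat.add (Nat.add (Nat.add C (Nat.mul x1969 (nat_lit 2))) x3427) x1807) x1987) x1967) x21651)
    (Nat.sub (Nat.add (Nat.add (Nat.add (Nat.add (Nat.add (Nat.add (Nat.add C x3437) x1817) x2033) x1961) x1985) x21661) (Nat.mul (e (nat_lit 1979)) ap)) (Nat.mul (e (nat_lit 1979)) an))
    (Nat.add (Nat.add (Nat.add (Nat.add (Nat.add (Nat.add (Nat.add (Nat.add (Nat.add C x3443) x1823) x2039) x1967) x2003) x1979) x1991) x1987) x21667)
    (Nat.add (Nat.add (Nat.add (Nat.add (Nat.add (Nat.add (Nat.add (Nat.add (Nat.add C x1987) x3445) x1825) x2041) x1969) x2005) x1993) x1985) x21669)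
    (Nat.sub (Nat.add (Nat.add (Nat.add (Nat.add (Nat.add (Nat.add (Nat.add C x3449) x1829) x2045) x2009) x1985) x1993) x21673) (Nat.mul x1991 (nat_lit 2)))
    (Nat.add (Nat.add (Nat.add (Nat.add (Nat.add (Nat.add (Nat.add (Nat.add (Nat.add C x1993) x3451) x1831) x2047) x2011) x1987) x1991) x1995) x21675)
    (Nat.add (Nat.add (Nat.add (Nat.add (Nat.add (Nat.add C (Nat.mul x1995 (nat_lit 2))) x3453) x1833) x2049) x2013) x1993)
    (Nat.sub (Nat.add (Nat.add (Nat.add (Nat.add (Nat.add (Nat.add (Nat.add C x3461) x1841) x2057) x1985) x2009) x2005) x21685) (Nat.mul x2003 (nat_lit 2)))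
    (Nat.sub (Nat.add (Nat.add (Nat.add (Nat.add (Nat.add (Nat.add (Nat.add C x3463) x1843) x2059) x1987) x2011) x2003) x21687) (Nat.mul x2005 (nat_lit 2)))
    (Nat.sub (Nat.add (Nat.add (Nat.add (Nat.add (Nat.add (Nat.add (Nat.add C x3467) x1847) x2063) x1991) x2003) x2011) x21691) (Nat.mul x2009 (nat_lit 2)))
    (Nat.add (Nat.add (Nat.add (Nat.add (Nat.add (Nat.add (Nat.add (Nat.add (Nat.add C x3469) x1849) x2065) x1993) x2005) x2017) x2009) x2013) x21693)
    (Nat.add (Nat.add (Nat.add (Nat.add (Nat.add (Nat.add C x3471) x1851) x2067) x1995) x2019) x2011)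
    (Nat.add (Nat.add (Nat.add (Nat.add (Nat.add (Nat.add C x3475) x1855) x2071) x2011) x2019) x21699)
    (Nat.add (Nat.add (Nat.add (Nat.add (Nat.add (Nat.add C (Nat.mul x2019 (nat_lit 2))) x3477) x1857) x2073) x2013) x2017)
    (Nat.add (Nat.add (Nat.add (Nat.add (Nat.add (Nat.add C (Nat.mul x2033 (nat_lit 2))) x3491) x1871) x1979) x2039) x21715)
    (Nat.add (Nat.add (Nat.add (Nat.add (Nat.add (Nat.add (Nat.add (Nat.add (Nat.add C x2039) x3497) x1877) x1985) x2057) x2033) x2045) x2041) x21721)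
    (Nat.add (Nat.add (Nat.add (Nat.add (Nat.add (Nat.add (Nat.add (Nat.add C (Nat.mul x2041 (nat_lit 2))) x3499) x1879) x1987) x2059) x2047) x2039) x21723)
    (Nat.sub (Nat.add (Nat.add (Nat.add (Nat.add (Nat.add (Nat.add (Nat.add C x3503) x1883) x1991) x2063) x2039) x2047) x21727) (Nat.mul x2045 (nat_lit 2)))
    (Nat.add (Nat.add (Nat.add (Nat.add (Nat.add (Nat.add (Nat.add (Nat.add (Nat.add C x2047) x3505) x1885) x1993) x2065) x2041) x2045) x2049) x21729)
    (Nat.add (Nat.add (Nat.add (Nat.add (Nat.add (Nat.add C (Nat.mul x2049 (nat_lit 2))) x3507) x1887) x1995) x2067) x2047)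
    (Nat.add (Nat.add (Nat.add (Nat.add (Nat.add (Nat.add (Nat.add (Nat.add (Nat.add C x2057) x3515) x1895) x2003) x2111) x2039) x2063) x2059) x21739)
    (Nat.add (Nat.add (Nat.add (Nat.add (Nat.add (Nat.add (Nat.add (Nat.add (Nat.add C x2059) x3517) x1897) x2005) x2113) x2041) x2065) x2057) x21741)
    (Nat.add (Nat.add (Nat.add (Nat.add (Nat.add (Nat.add (Nat.add (Nat.add (Nat.add C x3521) x1901) x2009) x2117) x2045) x2081) x2057) x2065) x21745)
    (Nat.add (Nat.add (Nat.add (Nat.add (Nat.add (Nat.add (Nat.add (Nat.add (Nat.add (Nat.add (Nat.add (Nat.add C (Nat.mul x2065 (nat_lit 2))) x3523) x1903) x2011) x2119) x2047) x2083) x2059) x2071) x2063) x2067) x21747)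
    (Nat.add (Nat.add (Nat.add (Nat.add (Nat.add (Nat.add (Nat.add (Nat.add (Nat.add C (Nat.mul x2067 (nat_lit 2))) x3525) x1905) x2013) x2121) x2049) x2085) x2073) x2065)
    (Nat.add (Nat.add (Nat.add (Nat.add (Nat.add (Nat.add (Nat.add (Nat.add (Nat.add C x2071) x3529) x1909) x2017) x2125) x2089) x2065) x2073) x21753)
    (Nat.add (Nat.add (Nat.add (Nat.add (Nat.add (Nat.add (Nat.add (Nat.add C (Nat.mul x2073 (nat_lit 3))) x3531) x1911) x2019) x2127) x2091) x2067) x2071)
    (Nat.add (Nat.add (Nat.add (Nat.add (Nat.add (Nat.add C x3539) x1919) x2135) x2063) x2083) x21763)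
    (Nat.add (Nat.add (Nat.add (Nat.add (Nat.add (Nat.add (Nat.add (Nat.add (Nat.add C x2083) x3541) x1921) x2137) x2065) x2089) x2081) x2085) x21765)
    (Nat.add (Nat.add (Nat.add (Nat.add (Nat.add (Nat.add C x3543) x1923) x2139) x2067) x2091) x2083)
    (Nat.add (Nat.add (Nat.add (Nat.add (Nat.add (Nat.add (Nat.add (Nat.add C (Nat.mul x2089 (nat_lit 2))) x3547) x1927) x2143) x2071) x2083) x2091) x21771)
    (Nat.add (Nat.add (Nat.add (Nat.add (Nat.add (Nat.add (Nat.add (Nat.add C (Nat.mul x2091 (nat_lit 3))) x3549) x1929) x2145) x2073) x2085) x2097) x2089)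
    (Nat.add (Nat.add (Nat.add (Nat.add (Nat.add C (Nat.mul x2097 (nat_lit 4))) x3555) x1935) x2151) x2091)
    (Nat.add (Nat.add (Nat.add (Nat.add (Nat.add (Nat.add C (Nat.mul x2111 (nat_lit 2))) x3569) x2057) x2117) x2113) x21793)
    (Nat.add (Nat.add (Nat.add (Nat.add (Nat.add (Nat.add C (Nat.mul x2113 (nat_lit 2))) x3571) x2059) x2119) x2111) x21795)
    (Nat.add (Nat.add (Nat.add (Nat.add (Nat.add (Nat.add C x3575) x2063) x2135) x2111) x2119) x21799)
    (Nat.add (Nat.add (Nat.add (Nat.add (Nat.add (Nat.add (Nat.add (Nat.add (Nat.add C (Nat.mul x2119 (nat_lit 2))) x3577) x2065) x2137) x2113) x2125) x2117) x2121) x21801)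
    (Nat.add (Nat.add (Nat.add (Nat.add (Nat.add (Nat.add C (Nat.mul x2121 (nat_lit 2))) x3579) x2067) x2139) x2127) x2119)
    (Nat.add (Nat.add (Nat.add (Nat.add (Nat.add (Nat.add C x3583) x2071) x2143) x2119) x2127) x21807)
    (Nat.add (Nat.add (Nat.add (Nat.add (Nat.add (Nat.add C (Nat.mul x2127 (nat_lit 2))) x3585) x2073) x2145) x2121) x2125)
    (Nat.add (Nat.add (Nat.add (Nat.add (Nat.add (Nat.add C (Nat.mul x2135 (nat_lit 2))) x3593) x2081) x2117) x2137) x21817)
    (Nat.add (Nat.add (Nat.add (Nat.add (Nat.add (Nat.add (Nat.add (Nat.add C (Nat.mul x2137 (nat_lit 3))) x3595) x2083) x2119) x2143) x2135) x2139) x21819)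
    (Nat.add (Nat.add (Nat.add (Nat.add (Nat.add (Nat.add C (Nat.mul x2139 (nat_lit 2))) x3597) x2085) x2121) x2145) x2137)
    (Nat.add (Nat.add (Nat.add (Nat.add (Nat.add (Nat.add (Nat.add (Nat.add C (Nat.mul x2143 (nat_lit 3))) x3601) x2089) x2125) x2161) x2137) x2145) x21825)
    (Nat.add (Nat.add (Nat.add (Nat.add (Nat.add (Nat.add (Nat.add (Nat.add C (Nat.mul x2145 (nat_lit 4))) x3603) x2091) x2127) x2163) x2139) x2151) x2143)
    (Nat.add (Nat.add (Nat.add (Nat.add (Nat.add C (Nat.mul x2151 (nat_lit 4))) x3609) x2097) x2169) x2145)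
    (Nat.add (Nat.add (Nat.add (Nat.add (Nat.add C (Nat.mul x2161 (nat_lit 4))) x3619) x2143) x2163) x21843)
    (Nat.add (Nat.add (Nat.add (Nat.add (Nat.add C (Nat.mul x2163 (nat_lit 4))) x3621) x2145) x2169) x2161)
    (Nat.add (Nat.add (Nat.add (Nat.add C (Nat.mul x2169 (nat_lit 6))) x3627) x2151) x2163)
    (Nat.add (Nat.add (Nat.add (Nat.add (Nat.add C (Nat.mul x2267 (nat_lit 4))) x6641) x809) x2321) x21949)
    (Nat.sub (Nat.add (Nat.add (Nat.add (Nat.add (Nat.add (Nat.add (Nat.add (Nat.add (Nat.add C (Nat.mul x2321 (nat_lit 3))) x6695) x863) x2483) x2267) x2375) x2339) x22003) (Nat.mul (e (nat_lit 2321)) ap)) (Nat.mul (e (nat_lit 2321)) an))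
    (Nat.sub (Nat.add (Nat.add (Nat.add (Nat.add (Nat.add (Nat.add (Nat.add (Nat.add (Nat.add C (Nat.mul x2339 (nat_lit 2))) x6713) x881) x2501) x2393) x2321) x2345) x22021) (Nat.mul (e (nat_lit 2339)) ap)) (Nat.mul (e (nat_lit 2339)) an))
    (Nat.sub (Nat.add (Nat.add (Nat.add (Nat.add (Nat.add (Nat.add (Nat.add (Nat.add (Nat.add C (Nat.mul x2345 (nat_lit 2))) x6719) x887) x2507) x2399) x2339) x2347) x22027) (Nat.mul (e (nat_lit 2345)) ap)) (Nat.mul (e (nat_lit 2345)) an))
    (Nat.sub (Nat.add (Nat.add (Nat.add (Nat.add (Nat.add (Nat.add (Nat.add (Nat.add C (Nat.mul x2347 (nat_lit 4))) x6721) x889) x2509) x2401) x2345) x22029) (Nat.mul (e (nat_lit 2347)) ap)) (Nat.mul (e (nat_lit 2347)) an))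
    (Nat.sub (Nat.add (Nat.add (Nat.add (Nat.add (Nat.add (Nat.add (Nat.add C x6749) x917) x2537) x2321) x2393) x22057) (Nat.mul (e (nat_lit 2375)) ap)) (Nat.mul (e (nat_lit 2375)) an))
    (Nat.sub (Nat.add (Nat.add (Nat.add (Nat.add (Nat.add (Nat.add (Nat.add (Nat.add (Nat.add (Nat.add C x2393) x6767) x935) x2555) x2339) x2375) x2411) x2399) x22075) (Nat.mul (e (nat_lit 2393)) ap)) (Nat.mul (e (nat_lit 2393)) an))
    (Nat.sub (Nat.add (Nat.add (Nat.add (Nat.add (Nat.add (Nat.add (Nat.add (Nat.add (Nat.add C x6773) x941) x2561) x2345) x2417) x2393) x2401) x22081) (Nat.mul (e (nat_lit 2399)) ap)) (Nat.mul (e (nat_lit 2399)) an))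
    (Nat.add (Nat.add (Nat.add (Nat.add (Nat.add (Nat.add (Nat.add (Nat.add C (Nat.mul x2401 (nat_lit 2))) x6775) x943) x2563) x2347) x2419) x2399) x22083)
    (Nat.sub (Nat.add (Nat.add (Nat.add (Nat.add (Nat.add (Nat.add (Nat.add C x6785) x953) x2573) x2393) x2417) x22093) (Nat.mul (e (nat_lit 2411)) ap)) (Nat.mul (e (nat_lit 2411)) an))
    (Nat.add (Nat.add (Nat.add (Nat.add (Nat.add (Nat.add (Nat.add (Nat.add (Nat.add C x2417) x6791) x959) x2579) x2399) x2411) x2423) x2419) x22099)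
    (Nat.add (Nat.add (Nat.add (Nat.add (Nat.add (Nat.add (Nat.add (Nat.add C (Nat.mul x2419 (nat_lit 2))) x6793) x961) x2581) x2401) x2425) x2417) x22101)
    (Nat.add (Nat.add (Nat.add (Nat.add (Nat.add (Nat.add C x6797) x965) x2585) x2417) x2425) x22105)
    (Nat.add (Nat.add (Nat.add (Nat.add (Nat.add (Nat.add (Nat.add (Nat.add C (Nat.mul x2425 (nat_lit 3))) x6799) x967) x2587) x2419) x2423) x2427) x22107)
    (Nat.add (Nat.add (Nat.add (Nat.add (Nat.add C (Nat.mul x2427 (nat_lit 4))) x6801) x969) x2589) x2425)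
    (Nat.sub (Nat.add (Nat.add (Nat.add (Nat.add (Nat.add (Nat.add (Nat.add (Nat.add (Nat.add C (Nat.mul x2483 (nat_lit 2))) x6857) x1025) x2969) x2321) x2537) x2501) x22165) (Nat.mul (e (nat_lit 2483)) ap)) (Nat.mul (e (nat_lit 2483)) an))
    (Nat.sub (Nat.add (Nat.add (Nat.add (Nat.add (Nat.add (Nat.add (Nat.add (Nat.add (Nat.add C x6875) x1043) x2987) x2339) x2555) x2483) x2507) x22183) (Nat.mul (e (nat_lit 2501)) ap)) (Nat.mul (e (nat_lit 2501)) an))
    (Nat.sub (Nat.add (Nat.add (Nat.add (Nat.add (Nat.add (Nat.add (Nat.add (Nat.add (Nat.add C x6881) x1049) x2993) x2345) x2561) x2501) x2509) x22189) (Nat.mul (e (nat_lit 2507)) ap)) (Nat.mul (e (nat_lit 2507)) an))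
    (Nat.sub (Nat.add (Nat.add (Nat.add (Nat.add (Nat.add (Nat.add (Nat.add (Nat.add (Nat.add C (Nat.mul x2509 (nat_lit 2))) x6883) x1051) x2995) x2347) x2563) x2507) x22191) (Nat.mul (e (nat_lit 2509)) ap)) (Nat.mul (e (nat_lit 2509)) an))
    (Nat.sub (Nat.add (Nat.add (Nat.add (Nat.add (Nat.add (Nat.add (Nat.add (Nat.add (Nat.add (Nat.add C x2537) x6911) x1079) x3023) x2375) x2699) x2483) x2555) x22219) (Nat.mul (e (nat_lit 2537)) ap)) (Nat.mul (e (nat_lit 2537)) an))
    (Nat.sub (Nat.add (Nat.add (Nat.add (Nat.add (Nat.add (Nat.add (Nat.add (Nat.add (Nat.add (Nat.add (Nat.add (Nat.add (Nat.add C x2555) x6929) x1097) x3041) x2393) x2717) x2501) x2609) x2537) x2573) x2561) x22237) (Nat.mul (e (nat_lit 2555)) ap)) (Nat.mul (e (nat_lit 2555)) an))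
    (Nat.sub (Nat.add (Nat.add (Nat.add (Nat.add (Nat.add (Nat.add (Nat.add (Nat.add (Nat.add (Nat.add (Nat.add (Nat.add C x6935) x1103) x3047) x2399) x2723) x2507) x2615) x2579) x2555) x2563) x22243) (Nat.mul (e (nat_lit 2561)) ap)) (Nat.mul (e (nat_lit 2561)) an))
    (Nat.sub (Nat.add (Nat.add (Nat.add (Nat.add (Nat.add (Nat.add (Nat.add (Nat.add (Nat.add (Nat.add (Nat.add (Nat.add C (Nat.mul x2563 (nat_lit 2))) x6937) x1105) x3049) x2401) x2725) x2509) x2617) x2581) x2561) x22245) (Nat.mul (e (nat_lit 2563)) ap)) (Nat.mul (e (nat_lit 2563)) an))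
    (Nat.sub (Nat.sub (Nat.add (Nat.add (Nat.add (Nat.add (Nat.add (Nat.add (Nat.add (Nat.add (Nat.add (Nat.add C x6947) x1115) x3059) x2411) x2735) x2627) x2555) x2579) x22255) (Nat.mul (e (nat_lit 2573)) ap)) x2573) (Nat.mul (e (nat_lit 2573)) an))
    (Nat.sub (Nat.add (Nat.add (Nat.add (Nat.add (Nat.add (Nat.add (Nat.add (Nat.add (Nat.add (Nat.add (Nat.add (Nat.add C x6953) x1121) x3065) x2417) x2741) x2633) x2561) x2573) x2585) x2581) x22261) (Nat.mul (e (nat_lit 2579)) ap)) (Nat.mul (e (nat_lit 2579)) an))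
    (Nat.sub (Nat.add (Nat.add (Nat.add (Nat.add (Nat.add (Nat.add (Nat.add (Nat.add (Nat.add (Nat.add (Nat.add (Nat.add C x2581) x6955) x1123) x3067) x2419) x2743) x2635) x2563) x2587) x2579) x22263) (Nat.mul (e (nat_lit 2581)) ap)) (Nat.mul (e (nat_lit 2581)) an))
    (Nat.sub (Nat.sub (Nat.add (Nat.add (Nat.add (Nat.add (Nat.add (Nat.add (Nat.add (Nat.add (Nat.add (Nat.add C x6959) x1127) x3071) x2423) x2747) x2639) x2579) x2587) x22267) (Nat.mul (e (nat_lit 2585)) ap)) x2585) (Nat.mul (e (nat_lit 2585)) an))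
    (Nat.sub (Nat.add (Nat.add (Nat.add (Nat.add (Nat.add (Nat.add (Nat.add (Nat.add (Nat.add (Nat.add (Nat.add (Nat.add C (Nat.mul x2587 (nat_lit 2))) x6961) x1129) x3073) x2425) x2749) x2641) x2581) x2585) x2589) x22269) (Nat.mul (e (nat_lit 2587)) ap)) (Nat.mul (e (nat_lit 2587)) an))
    (Nat.add (Nat.add (Nat.add (Nat.add (Nat.add (Nat.add (Nat.add (Nat.add C (Nat.mul x2589 (nat_lit 3))) x6963) x1131) x3075) x2427) x2751) x2643) x2587)
    (Nat.sub (Nat.add (Nat.add (Nat.add (Nat.add (Nat.add (Nat.add (Nat.add (Nat.add (Nat.add C x6983) x1151) x3095) x2771) x2555) x2627) x2615) x22291) (Nat.mul (e (nat_lit 2609)) ap)) (Nat.mul (e (nat_lit 2609)) an))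
    (Nat.sub (Nat.sub (Nat.add (Nat.add (Nat.add (Nat.add (Nat.add (Nat.add (Nat.add (Nat.add (Nat.add (Nat.add C x6989) x1157) x3101) x2777) x2561) x2633) x2609) x2617) x22297) (Nat.mul (e (nat_lit 2615)) ap)) (Nat.mul x2615 (nat_lit 2))) (Nat.mul (e (nat_lit 2615)) an))
    (Nat.sub (Nat.add (Nat.add (Nat.add (Nat.add (Nat.add (Nat.add (Nat.add (Nat.add (Nat.add C x6991) x1159) x3103) x2779) x2563) x2635) x2615) x22299) (Nat.mul (e (nat_lit 2617)) ap)) (Nat.mul (e (nat_lit 2617)) an))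
    (Nat.sub (Nat.add (Nat.add (Nat.add (Nat.add (Nat.add (Nat.add (Nat.add (Nat.add (Nat.add C x7001) x1169) x3113) x2789) x2573) x2609) x2633) x22309) (Nat.mul (e (nat_lit 2627)) ap)) (Nat.mul (e (nat_lit 2627)) an))
    (Nat.sub (Nat.add (Nat.add (Nat.add (Nat.add (Nat.add (Nat.add (Nat.add (Nat.add (Nat.add (Nat.add (Nat.add (Nat.add C x7007) x1175) x3119) x2795) x2579) x2615) x2651) x2627) x2639) x2635) x22315) (Nat.mul (e (nat_lit 2633)) ap)) (Nat.mul (e (nat_lit 2633)) an))
    (Nat.sub (Nat.add (Nat.add (Nat.add (Nat.add (Nat.add (Nat.add (Nat.add (Nat.add (Nat.add (Nat.add (Nat.add (Nat.add C x2635) x7009) x1177) x3121) x2797) x2581) x2617) x2653) x2641) x2633) x22317) (Nat.mul (e (nat_lit 2635)) ap)) (Nat.mul (e (nat_lit 2635)) an))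
    (Nat.sub (Nat.sub (Nat.add (Nat.add (Nat.add (Nat.add (Nat.add (Nat.add (Nat.add (Nat.add (Nat.add (Nat.add C x7013) x1181) x3125) x2801) x2585) x2657) x2633) x2641) x22321) (Nat.mul (e (nat_lit 2639)) ap)) (Nat.mul x2639 (nat_lit 2))) (Nat.mul (e (nat_lit 2639)) an))
    (Nat.sub (Nat.add (Nat.add (Nat.add (Nat.add (Nat.add (Nat.add (Nat.add (Nat.add (Nat.add (Nat.add (Nat.add (Nat.add C x2641) x7015) x1183) x3127) x2803) x2587) x2659) x2635) x2639) x2643) x22323) (Nat.mul (e (nat_lit 2641)) ap)) (Nat.mul (e (nat_lit 2641)) an))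
    (Nat.add (Nat.add (Nat.add (Nat.add (Nat.add (Nat.add (Nat.add (Nat.add C (Nat.mul x2643 (nat_lit 2))) x7017) x1185) x3129) x2805) x2589) x2661) x2641)
    (Nat.sub (Nat.add (Nat.add (Nat.add (Nat.add (Nat.add (Nat.add (Nat.add (Nat.add (Nat.add C x7025) x1193) x3137) x2813) x2633) x2657) x2653) x22333) (Nat.mul (e (nat_lit 2651)) ap)) (Nat.mul (e (nat_lit 2651)) an))
    (Nat.sub (Nat.add (Nat.add (Nat.add (Nat.add (Nat.add (Nat.add (Nat.add (Nat.add (Nat.add C x7027) x1195) x3139) x2815) x2635) x2659) x2651) x22335) (Nat.mul (e (nat_lit 2653)) ap)) (Nat.mul (e (nat_lit 2653)) an))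
    (Nat.sub (Nat.add (Nat.add (Nat.add (Nat.add (Nat.add (Nat.add (Nat.add (Nat.add (Nat.add C x7031) x1199) x3143) x2819) x2639) x2651) x2659) x22339) (Nat.mul (e (nat_lit 2657)) ap)) (Nat.mul (e (nat_lit 2657)) an))
    (Nat.sub (Nat.add (Nat.add (Nat.add (Nat.add (Nat.add (Nat.add (Nat.add (Nat.add (Nat.add (Nat.add (Nat.add (Nat.add C (Nat.mul x2659 (nat_lit 2))) x7033) x1201) x3145) x2821) x2641) x2653) x2665) x2657) x2661) x22341) (Nat.mul (e (nat_lit 2659)) ap)) (Nat.mul (e (nat_lit 2659)) an))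
    (Nat.add (Nat.add (Nat.add (Nat.add (Nat.add (Nat.add (Nat.add (Nat.add C (Nat.mul x2661 (nat_lit 2))) x7035) x1203) x3147) x2823) x2643) x2667) x2659)
    (Nat.sub (Nat.add (Nat.add (Nat.add (Nat.add (Nat.add (Nat.add (Nat.add (Nat.add (Nat.add C (Nat.mul x2665 (nat_lit 2))) x7039) x1207) x3151) x2827) x2659) x2667) x22347) (Nat.mul (e (nat_lit 2665)) ap)) (Nat.mul (e (nat_lit 2665)) an))
    (Nat.add (Nat.add (Nat.add (Nat.add (Nat.add (Nat.add (Nat.add C (Nat.mul x2667 (nat_lit 4))) x7041) x1209) x3153) x2829) x2661) x2665)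
    (Nat.sub (Nat.add (Nat.add (Nat.add (Nat.add (Nat.add (Nat.add (Nat.add C x7073) x1241) x3185) x2537) x2717) x22381) (Nat.mul (e (nat_lit 2699)) ap)) (Nat.mul (e (nat_lit 2699)) an))
    (Nat.sub (Nat.sub (Nat.add (Nat.add (Nat.add (Nat.add (Nat.add (Nat.add (Nat.add (Nat.add (Nat.add (Nat.add C x7091) x1259) x3203) x2555) x2771) x2699) x2735) x2723) x22399) (Nat.mul (e (nat_lit 2717)) ap)) x2717) (Nat.mul (e (nat_lit 2717)) an))
    (Nat.sub (Nat.sub (Nat.add (Nat.add (Nat.add (Nat.add (Nat.add (Nat.add (Nat.add (Nat.add (Nat.add (Nat.add C x7097) x1265) x3209) x2561) x2777) x2741) x2717) x2725) x22405) (Nat.mul (e (nat_lit 2723)) ap)) (Nat.mul x2723 (nat_lit 2))) (Nat.mul (e (nat_lit 2723)) an))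
    (Nat.sub (Nat.add (Nat.add (Nat.add (Nat.add (Nat.add (Nat.add (Nat.add (Nat.add (Nat.add C x7099) x1267) x3211) x2563) x2779) x2743) x2723) x22407) (Nat.mul (e (nat_lit 2725)) ap)) (Nat.mul (e (nat_lit 2725)) an))
    (Nat.sub (Nat.sub (Nat.add (Nat.add (Nat.add (Nat.add (Nat.add (Nat.add (Nat.add (Nat.add (Nat.add C x7109) x1277) x3221) x2573) x2789) x2717) x2741) x22417) (Nat.mul (e (nat_lit 2735)) ap)) (Nat.mul x2735 (nat_lit 4))) (Nat.mul (e (nat_lit 2735)) an))
    (Nat.sub (Nat.sub (Nat.add (Nat.add (Nat.add (Nat.add (Nat.add (Nat.add (Nat.add (Nat.add (Nat.add (Nat.add (Nat.add C x7115) x1283) x3227) x2579) x2795) x2723) x2735) x2747) x2743) x22423) (Nat.mul (e (nat_lit 2741)) ap)) (Nat.mul x2741 (nat_lit 3))) (Nat.mul (e (nat_lit 2741)) an))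
    (Nat.sub (Nat.sub (Nat.add (Nat.add (Nat.add (Nat.add (Nat.add (Nat.add (Nat.add (Nat.add (Nat.add (Nat.add C x7117) x1285) x3229) x2581) x2797) x2725) x2749) x2741) x22425) (Nat.mul (e (nat_lit 2743)) ap)) (Nat.mul x2743 (nat_lit 2))) (Nat.mul (e (nat_lit 2743)) an))
    (Nat.sub (Nat.sub (Nat.add (Nat.add (Nat.add (Nat.add (Nat.add (Nat.add (Nat.add (Nat.add (Nat.add C x7121) x1289) x3233) x2585) x2801) x2741) x2749) x22429) (Nat.mul (e (nat_lit 2747)) ap)) (Nat.mul x2747 (nat_lit 4))) (Nat.mul (e (nat_lit 2747)) an))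
    (Nat.sub (Nat.sub (Nat.add (Nat.add (Nat.add (Nat.add (Nat.add (Nat.add (Nat.add (Nat.add (Nat.add (Nat.add C x7123) x1291) x3235) x2587) x2803) x2743) x2747) x2751) x22431) (Nat.mul (e (nat_lit 2749)) ap)) x2749) (Nat.mul (e (nat_lit 2749)) an))
    (Nat.add (Nat.add (Nat.add (Nat.add (Nat.add (Nat.add C x7125) x1293) x3237) x2589) x2805) x2749)
    (Nat.sub (Nat.add (Nat.add (Nat.add (Nat.add (Nat.add (Nat.add (Nat.add (Nat.add (Nat.add C x7145) x1313) x3257) x2609) x2717) x2789) x2777) x22453) (Nat.mul (e (nat_lit 2771)) ap)) (Nat.mul (e (nat_lit 2771)) an))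
    (Nat.sub (Nat.sub (Nat.add (Nat.add (Nat.add (Nat.add (Nat.add (Nat.add (Nat.add (Nat.add (Nat.add (Nat.add C x7151) x1319) x3263) x2615) x2723) x2795) x2771) x2779) x22459) (Nat.mul (e (nat_lit 2777)) ap)) (Nat.mul x2777 (nat_lit 2))) (Nat.mul (e (nat_lit 2777)) an))
    (Nat.sub (Nat.add (Nat.add (Nat.add (Nat.add (Nat.add (Nat.add (Nat.add (Nat.add (Nat.add C x7153) x1321) x3265) x2617) x2725) x2797) x2777) x22461) (Nat.mul (e (nat_lit 2779)) ap)) (Nat.mul (e (nat_lit 2779)) an))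
    (Nat.sub (Nat.sub (Nat.add (Nat.add (Nat.add (Nat.add (Nat.add (Nat.add (Nat.add (Nat.add (Nat.add (Nat.add C x7163) x1331) x3275) x2627) x2735) x2843) x2771) x2795) x22471) (Nat.mul (e (nat_lit 2789)) ap)) x2789) (Nat.mul (e (nat_lit 2789)) an))
    (Nat.sub (Nat.sub (Nat.add (Nat.add (Nat.add (Nat.add (Nat.add (Nat.add (Nat.add (Nat.add (Nat.add (Nat.add (Nat.add (Nat.add (Nat.add C x7169) x1337) x3281) x2633) x2741) x2849) x2777) x2813) x2789) x2801) x2797) x22477) (Nat.mul (e (nat_lit 2795)) ap)) x2795) (Nat.mul (e (nat_lit 2795)) an))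
    (Nat.sub (Nat.add (Nat.add (Nat.add (Nat.add (Nat.add (Nat.add (Nat.add (Nat.add (Nat.add (Nat.add (Nat.add (Nat.add C x7171) x1339) x3283) x2635) x2743) x2851) x2779) x2815) x2803) x2795) x22479) (Nat.mul (e (nat_lit 2797)) ap)) (Nat.mul (e (nat_lit 2797)) an))
    (Nat.sub (Nat.sub (Nat.add (Nat.add (Nat.add (Nat.add (Nat.add (Nat.add (Nat.add (Nat.add (Nat.add (Nat.add (Nat.add C x7175) x1343) x3287) x2639) x2747) x2855) x2819) x2795) x2803) x22483) (Nat.mul (e (nat_lit 2801)) ap)) (Nat.mul x2801 (nat_lit 3))) (Nat.mul (e (nat_lit 2801)) an))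
    (Nat.sub (Nat.add (Nat.add (Nat.add (Nat.add (Nat.add (Nat.add (Nat.add (Nat.add (Nat.add (Nat.add (Nat.add (Nat.add C x7177) x1345) x3289) x2641) x2749) x2857) x2821) x2797) x2801) x2805) x22485) (Nat.mul (e (nat_lit 2803)) ap)) (Nat.mul (e (nat_lit 2803)) an))
    (Nat.add (Nat.add (Nat.add (Nat.add (Nat.add (Nat.add (Nat.add (Nat.add (Nat.add C x2805) x7179) x1347) x3291) x2643) x2751) x2859) x2823) x2803)
    (Nat.sub (Nat.sub (Nat.add (Nat.add (Nat.add (Nat.add (Nat.add (Nat.add (Nat.add (Nat.add (Nat.add (Nat.add C x7187) x1355) x3299) x2651) x2867) x2795) x2819) x2815) x22495) (Nat.mul (e (nat_lit 2813)) ap)) (Nat.mul x2813 (nat_lit 2))) (Nat.mul (e (nat_lit 2813)) an))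
    (Nat.sub (Nat.sub (Nat.add (Nat.add (Nat.add (Nat.add (Nat.add (Nat.add (Nat.add (Nat.add (Nat.add (Nat.add C x7189) x1357) x3301) x2653) x2869) x2797) x2821) x2813) x22497) (Nat.mul (e (nat_lit 2815)) ap)) (Nat.mul x2815 (nat_lit 2))) (Nat.mul (e (nat_lit 2815)) an))
    (Nat.sub (Nat.sub (Nat.add (Nat.add (Nat.add (Nat.add (Nat.add (Nat.add (Nat.add (Nat.add (Nat.add (Nat.add C x7193) x1361) x3305) x2657) x2873) x2801) x2813) x2821) x22501) (Nat.mul (e (nat_lit 2819)) ap)) (Nat.mul x2819 (nat_lit 2))) (Nat.mul (e (nat_lit 2819)) an))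
    (Nat.sub (Nat.add (Nat.add (Nat.add (Nat.add (Nat.add (Nat.add (Nat.add (Nat.add (Nat.add (Nat.add (Nat.add (Nat.add C x7195) x1363) x3307) x2659) x2875) x2803) x2815) x2827) x2819) x2823) x22503) (Nat.mul (e (nat_lit 2821)) ap)) (Nat.mul (e (nat_lit 2821)) an))
    (Nat.add (Nat.add (Nat.add (Nat.add (Nat.add (Nat.add (Nat.add (Nat.add C x7197) x1365) x3309) x2661) x2877) x2805) x2829) x2821)
    (Nat.sub (Nat.add (Nat.add (Nat.add (Nat.add (Nat.add (Nat.add (Nat.add (Nat.add (Nat.add C x7201) x1369) x3313) x2665) x2881) x2821) x2829) x22509) (Nat.mul (e (nat_lit 2827)) ap)) (Nat.mul (e (nat_lit 2827)) an))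
    (Nat.add (Nat.add (Nat.add (Nat.add (Nat.add (Nat.add (Nat.add (Nat.add C (Nat.mul x2829 (nat_lit 2))) x7203) x1371) x3315) x2667) x2883) x2823) x2827)
    (Nat.sub (Nat.add (Nat.add (Nat.add (Nat.add (Nat.add (Nat.add (Nat.add C x7217) x1385) x3329) x2789) x2849) x22525) (Nat.mul (e (nat_lit 2843)) ap)) (Nat.mul (e (nat_lit 2843)) an))
    (Nat.sub (Nat.sub (Nat.add (Nat.add (Nat.add (Nat.add (Nat.add (Nat.add (Nat.add (Nat.add (Nat.add (Nat.add C x7223) x1391) x3335) x2795) x2867) x2843) x2855) x2851) x22531) (Nat.mul (e (nat_lit 2849)) ap)) x2849) (Nat.mul (e (nat_lit 2849)) an))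
    (Nat.sub (Nat.add (Nat.add (Nat.add (Nat.add (Nat.add (Nat.add (Nat.add (Nat.add (Nat.add C x7225) x1393) x3337) x2797) x2869) x2857) x2849) x22533) (Nat.mul (e (nat_lit 2851)) ap)) (Nat.mul (e (nat_lit 2851)) an))
    (Nat.sub (Nat.sub (Nat.add (Nat.add (Nat.add (Nat.add (Nat.add (Nat.add (Nat.add (Nat.add (Nat.add C x7229) x1397) x3341) x2801) x2873) x2849) x2857) x22537) (Nat.mul (e (nat_lit 2855)) ap)) (Nat.mul x2855 (nat_lit 4))) (Nat.mul (e (nat_lit 2855)) an))
    (Nat.sub (Nat.sub (Nat.add (Nat.add (Nat.add (Nat.add (Nat.add (Nat.add (Nat.add (Nat.add (Nat.add (Nat.add C x7231) x1399) x3343) x2803) x2875) x2851) x2855) x2859) x22539) (Nat.mul (e (nat_lit 2857)) ap)) x2857) (Nat.mul (e (nat_lit 2857)) an))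
    (Nat.add (Nat.add (Nat.add (Nat.add (Nat.add (Nat.add C x7233) x1401) x3345) x2805) x2877) x2857)
    (Nat.sub (Nat.add (Nat.add (Nat.add (Nat.add (Nat.add (Nat.add (Nat.add (Nat.add (Nat.add C x7241) x1409) x3353) x2813) x2849) x2873) x2869) x22549) (Nat.mul (e (nat_lit 2867)) ap)) (Nat.mul (e (nat_lit 2867)) an))
    (Nat.sub (Nat.add (Nat.add (Nat.add (Nat.add (Nat.add (Nat.add (Nat.add (Nat.add (Nat.add C x7243) x1411) x3355) x2815) x2851) x2875) x2867) x22551) (Nat.mul (e (nat_lit 2869)) ap)) (Nat.mul (e (nat_lit 2869)) an))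
    (Nat.sub (Nat.sub (Nat.add (Nat.add (Nat.add (Nat.add (Nat.add (Nat.add (Nat.add (Nat.add (Nat.add (Nat.add C x7247) x1415) x3359) x2819) x2855) x2891) x2867) x2875) x22555) (Nat.mul (e (nat_lit 2873)) ap)) x2873) (Nat.mul (e (nat_lit 2873)) an))
    (Nat.sub (Nat.add (Nat.add (Nat.add (Nat.add (Nat.add (Nat.add (Nat.add (Nat.add (Nat.add (Nat.add (Nat.add (Nat.add (Nat.add C x2875) x7249) x1417) x3361) x2821) x2857) x2893) x2869) x2881) x2873) x2877) x22557) (Nat.mul (e (nat_lit 2875)) ap)) (Nat.mul (e (nat_lit 2875)) an))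
    (Nat.add (Nat.add (Nat.add (Nat.add (Nat.add (Nat.add (Nat.add (Nat.add (Nat.add C x2877) x7251) x1419) x3363) x2823) x2859) x2895) x2883) x2875)
    (Nat.add (Nat.add (Nat.add (Nat.add (Nat.add (Nat.add (Nat.add (Nat.add C x7255) x1423) x3367) x2827) x2899) x2875) x2883) x22563)
    (Nat.add (Nat.add (Nat.add (Nat.add (Nat.add (Nat.add (Nat.add (Nat.add C (Nat.mul x2883 (nat_lit 2))) x7257) x1425) x3369) x2829) x2901) x2877) x2881)
    (Nat.sub (Nat.add (Nat.add (Nat.add (Nat.add (Nat.add (Nat.add (Nat.add C x7265) x1433) x3377) x2873) x2893) x22573) (Nat.mul (e (nat_lit 2891)) ap)) (Nat.mul (e (nat_lit 2891)) an))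
    (Nat.sub (Nat.add (Nat.add (Nat.add (Nat.add (Nat.add (Nat.add (Nat.add (Nat.add (Nat.add (Nat.add C x2893) x7267) x1435) x3379) x2875) x2899) x2891) x2895) x22575) (Nat.mul (e (nat_lit 2893)) ap)) (Nat.mul (e (nat_lit 2893)) an))
    (Nat.add (Nat.add (Nat.add (Nat.add (Nat.add (Nat.add C x7269) x1437) x3381) x2877) x2901) x2893)
    (Nat.add (Nat.add (Nat.add (Nat.add (Nat.add (Nat.add (Nat.add (Nat.add C (Nat.mul x2899 (nat_lit 2))) x7273) x1441) x3385) x2881) x2893) x2901) x22581)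
    (Nat.add (Nat.add (Nat.add (Nat.add (Nat.add (Nat.add (Nat.add (Nat.add C (Nat.mul x2901 (nat_lit 3))) x7275) x1443) x3387) x2883) x2895) x2907) x2899)
    (Nat.add (Nat.add (Nat.add (Nat.add (Nat.add C (Nat.mul x2907 (nat_lit 4))) x7281) x1449) x3393) x2901)
    (Nat.sub (Nat.add (Nat.add (Nat.add (Nat.add (Nat.add (Nat.add (Nat.add (Nat.add (Nat.add C (Nat.mul x2969 (nat_lit 3))) x7343) x1511) x4427) x2483) x3023) x2987) x22651) (Nat.mul (e (nat_lit 2969)) ap)) (Nat.mul (e (nat_lit 2969)) an))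
    (Nat.sub (Nat.add (Nat.add (Nat.add (Nat.add (Nat.add (Nat.add (Nat.add (Nat.add (Nat.add (Nat.add C x2987) x7361) x1529) x4445) x2501) x3041) x2969) x2993) x22669) (Nat.mul (e (nat_lit 2987)) ap)) (Nat.mul (e (nat_lit 2987)) an))
    (Nat.add (Nat.add (Nat.add (Nat.add (Nat.add (Nat.add (Nat.add (Nat.add (Nat.add C x2993) x7367) x1535) x4451) x2507) x3047) x2987) x2995) x22675)
    (Nat.add (Nat.add (Nat.add (Nat.add (Nat.add (Nat.add (Nat.add (Nat.add C (Nat.mul x2995 (nat_lit 3))) x7369) x1537) x4453) x2509) x3049) x2993) x22677)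
    (Nat.sub (Nat.add (Nat.add (Nat.add (Nat.add (Nat.add (Nat.add (Nat.add (Nat.add (Nat.add (Nat.add C x3023) x7397) x1565) x4481) x2537) x3185) x2969) x3041) x22705) (Nat.mul (e (nat_lit 3023)) ap)) (Nat.mul (e (nat_lit 3023)) an))
    (Nat.sub (Nat.add (Nat.add (Nat.add (Nat.add (Nat.add (Nat.add (Nat.add (Nat.add (Nat.add (Nat.add (Nat.add (Nat.add (Nat.add C x3041) x7415) x1583) x4499) x2555) x3203) x2987) x3095) x3023) x3059) x3047) x22723) (Nat.mul (e (nat_lit 3041)) ap)) (Nat.mul (e (nat_lit 3041)) an))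
    (Nat.sub (Nat.add (Nat.add (Nat.add (Nat.add (Nat.add (Nat.add (Nat.add (Nat.add (Nat.add (Nat.add (Nat.add (Nat.add C x7421) x1589) x4505) x2561) x3209) x2993) x3101) x3065) x3041) x3049) x22729) (Nat.mul (e (nat_lit 3047)) ap)) (Nat.mul (e (nat_lit 3047)) an))
    (Nat.sub (Nat.add (Nat.add (Nat.add (Nat.add (Nat.add (Nat.add (Nat.add (Nat.add (Nat.add (Nat.add (Nat.add (Nat.add C (Nat.mul x3049 (nat_lit 2))) x7423) x1591) x4507) x2563) x3211) x2995) x3103) x3067) x3047) x22731) (Nat.mul (e (nat_lit 3049)) ap)) (Nat.mul (e (nat_lit 3049)) an))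
    (Nat.sub (Nat.sub (Nat.add (Nat.add (Nat.add (Nat.add (Nat.add (Nat.add (Nat.add (Nat.add (Nat.add (Nat.add C x7433) x1601) x4517) x2573) x3221) x3113) x3041) x3065) x22741) (Nat.mul (e (nat_lit 3059)) ap)) x3059) (Nat.mul (e (nat_lit 3059)) an))
    (Nat.sub (Nat.add (Nat.add (Nat.add (Nat.add (Nat.add (Nat.add (Nat.add (Nat.add (Nat.add (Nat.add (Nat.add (Nat.add C x7439) x1607) x4523) x2579) x3227) x3119) x3047) x3059) x3071) x3067) x22747) (Nat.mul (e (nat_lit 3065)) ap)) (Nat.mul (e (nat_lit 3065)) an))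
    (Nat.sub (Nat.add (Nat.add (Nat.add (Nat.add (Nat.add (Nat.add (Nat.add (Nat.add (Nat.add (Nat.add (Nat.add (Nat.add C x3067) x7441) x1609) x4525) x2581) x3229) x3121) x3049) x3073) x3065) x22749) (Nat.mul (e (nat_lit 3067)) ap)) (Nat.mul (e (nat_lit 3067)) an))
    (Nat.sub (Nat.sub (Nat.add (Nat.add (Nat.add (Nat.add (Nat.add (Nat.add (Nat.add (Nat.add (Nat.add (Nat.add C x7445) x1613) x4529) x2585) x3233) x3125) x3065) x3073) x22753) (Nat.mul (e (nat_lit 3071)) ap)) x3071) (Nat.mul (e (nat_lit 3071)) an))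
    (Nat.sub (Nat.add (Nat.add (Nat.add (Nat.add (Nat.add (Nat.add (Nat.add (Nat.add (Nat.add (Nat.add (Nat.add (Nat.add C (Nat.mul x3073 (nat_lit 2))) x7447) x1615) x4531) x2587) x3235) x3127) x3067) x3071) x3075) x22755) (Nat.mul (e (nat_lit 3073)) ap)) (Nat.mul (e (nat_lit 3073)) an))
    (Nat.add (Nat.add (Nat.add (Nat.add (Nat.add (Nat.add (Nat.add (Nat.add C (Nat.mul x3075 (nat_lit 3))) x7449) x1617) x4533) x2589) x3237) x3129) x3073)
    (Nat.sub (Nat.sub (Nat.add (Nat.add (Nat.add (Nat.add (Nat.add (Nat.add (Nat.add (Nat.add (Nat.add (Nat.add C x7469) x1637) x4553) x2609) x3257) x3041) x3113) x3101) x22777) (Nat.mul (e (nat_lit 3095)) ap)) x3095) (Nat.mul (e (nat_lit 3095)) an))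
    (Nat.sub (Nat.sub (Nat.add (Nat.add (Nat.add (Nat.add (Nat.add (Nat.add (Nat.add (Nat.add (Nat.add (Nat.add (Nat.add C x7475) x1643) x4559) x2615) x3263) x3047) x3119) x3095) x3103) x22783) (Nat.mul (e (nat_lit 3101)) ap)) (Nat.mul x3101 (nat_lit 3))) (Nat.mul (e (nat_lit 3101)) an))
    (Nat.sub (Nat.sub (Nat.add (Nat.add (Nat.add (Nat.add (Nat.add (Nat.add (Nat.add (Nat.add (Nat.add (Nat.add C x7477) x1645) x4561) x2617) x3265) x3049) x3121) x3101) x22785) (Nat.mul (e (nat_lit 3103)) ap)) x3103) (Nat.mul (e (nat_lit 3103)) an))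
    (Nat.sub (Nat.sub (Nat.add (Nat.add (Nat.add (Nat.add (Nat.add (Nat.add (Nat.add (Nat.add (Nat.add (Nat.add C x7487) x1655) x4571) x2627) x3275) x3059) x3095) x3119) x22795) (Nat.mul (e (nat_lit 3113)) ap)) x3113) (Nat.mul (e (nat_lit 3113)) an))
    (Nat.sub (Nat.sub (Nat.add (Nat.add (Nat.add (Nat.add (Nat.add (Nat.add (Nat.add (Nat.add (Nat.add (Nat.add (Nat.add (Nat.add (Nat.add C x7493) x1661) x4577) x2633) x3281) x3065) x3101) x3137) x3113) x3125) x3121) x22801) (Nat.mul (e (nat_lit 3119)) ap)) x3119) (Nat.mul (e (nat_lit 3119)) an))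
    (Nat.sub (Nat.add (Nat.add (Nat.add (Nat.add (Nat.add (Nat.add (Nat.add (Nat.add (Nat.add (Nat.add (Nat.add (Nat.add C x7495) x1663) x4579) x2635) x3283) x3067) x3103) x3139) x3127) x3119) x22803) (Nat.mul (e (nat_lit 3121)) ap)) (Nat.mul (e (nat_lit 3121)) an))
    (Nat.sub (Nat.sub (Nat.add (Nat.add (Nat.add (Nat.add (Nat.add (Nat.add (Nat.add (Nat.add (Nat.add (Nat.add (Nat.add C x7499) x1667) x4583) x2639) x3287) x3071) x3143) x3119) x3127) x22807) (Nat.mul (e (nat_lit 3125)) ap)) (Nat.mul x3125 (nat_lit 3))) (Nat.mul (e (nat_lit 3125)) an))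
    (Nat.sub (Nat.add (Nat.add (Nat.add (Nat.add (Nat.add (Nat.add (Nat.add (Nat.add (Nat.add (Nat.add (Nat.add (Nat.add C x7501) x1669) x4585) x2641) x3289) x3073) x3145) x3121) x3125) x3129) x22809) (Nat.mul (e (nat_lit 3127)) ap)) (Nat.mul (e (nat_lit 3127)) an))
    (Nat.add (Nat.add (Nat.add (Nat.add (Nat.add (Nat.add (Nat.add (Nat.add (Nat.add C x3129) x7503) x1671) x4587) x2643) x3291) x3075) x3147) x3127)
    (Nat.sub (Nat.sub (Nat.add (Nat.add (Nat.add (Nat.add (Nat.add (Nat.add (Nat.add (Nat.add (Nat.add (Nat.add C x7511) x1679) x4595) x2651) x3299) x3119) x3143) x3139) x22819) (Nat.mul (e (nat_lit 3137)) ap)) x3137) (Nat.mul (e (nat_lit 3137)) an))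
    (Nat.sub (Nat.sub (Nat.add (Nat.add (Nat.add (Nat.add (Nat.add (Nat.add (Nat.add (Nat.add (Nat.add (Nat.add C x7513) x1681) x4597) x2653) x3301) x3121) x3145) x3137) x22821) (Nat.mul (e (nat_lit 3139)) ap)) x3139) (Nat.mul (e (nat_lit 3139)) an))
    (Nat.sub (Nat.sub (Nat.add (Nat.add (Nat.add (Nat.add (Nat.add (Nat.add (Nat.add (Nat.add (Nat.add (Nat.add C x7517) x1685) x4601) x2657) x3305) x3125) x3137) x3145) x22825) (Nat.mul (e (nat_lit 3143)) ap)) x3143) (Nat.mul (e (nat_lit 3143)) an))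
    (Nat.sub (Nat.add (Nat.add (Nat.add (Nat.add (Nat.add (Nat.add (Nat.add (Nat.add (Nat.add (Nat.add (Nat.add (Nat.add (Nat.add C x3145) x7519) x1687) x4603) x2659) x3307) x3127) x3139) x3151) x3143) x3147) x22827) (Nat.mul (e (nat_lit 3145)) ap)) (Nat.mul (e (nat_lit 3145)) an))
    (Nat.add (Nat.add (Nat.add (Nat.add (Nat.add (Nat.add (Nat.add (Nat.add (Nat.add C x3147) x7521) x1689) x4605) x2661) x3309) x3129) x3153) x3145)
    (Nat.add (Nat.add (Nat.add (Nat.add (Nat.add (Nat.add (Nat.add (Nat.add (Nat.add C x3151) x7525) x1693) x4609) x2665) x3313) x3145) x3153) x22833)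
    (Nat.add (Nat.add (Nat.add (Nat.add (Nat.add (Nat.add (Nat.add (Nat.add C (Nat.mul x3153 (nat_lit 3))) x7527) x1695) x4611) x2667) x3315) x3147) x3151)
    (Nat.sub (Nat.add (Nat.add (Nat.add (Nat.add (Nat.add (Nat.add (Nat.add (Nat.add (Nat.add (Nat.add C (Nat.mul x3185 (nat_lit 2))) x7559) x1727) x4643) x2699) x3671) x3023) x3203) x22867) (Nat.mul (e (nat_lit 3185)) ap)) (Nat.mul (e (nat_lit 3185)) an))
    (Nat.sub (Nat.add (Nat.add (Nat.add (Nat.add (Nat.add (Nat.add (Nat.add (Nat.add (Nat.add (Nat.add (Nat.add (Nat.add (Nat.add C x3203) x7577) x1745) x4661) x2717) x3689) x3041) x3257) x3185) x3221) x3209) x22885) (Nat.mul (e (nat_lit 3203)) ap)) (Nat.mul (e (nat_lit 3203)) an))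
    (Nat.sub (Nat.add (Nat.add (Nat.add (Nat.add (Nat.add (Nat.add (Nat.add (Nat.add (Nat.add (Nat.add (Nat.add (Nat.add C x7583) x1751) x4667) x2723) x3695) x3047) x3263) x3227) x3203) x3211) x22891) (Nat.mul (e (nat_lit 3209)) ap)) (Nat.mul (e (nat_lit 3209)) an))
    (Nat.sub (Nat.add (Nat.add (Nat.add (Nat.add (Nat.add (Nat.add (Nat.add (Nat.add (Nat.add (Nat.add (Nat.add (Nat.add C (Nat.mul x3211 (nat_lit 2))) x7585) x1753) x4669) x2725) x3697) x3049) x3265) x3229) x3209) x22893) (Nat.mul (e (nat_lit 3211)) ap)) (Nat.mul (e (nat_lit 3211)) an))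
    (Nat.sub (Nat.sub (Nat.add (Nat.add (Nat.add (Nat.add (Nat.add (Nat.add (Nat.add (Nat.add (Nat.add (Nat.add (Nat.add C x7595) x1763) x4679) x2735) x3707) x3059) x3275) x3203) x3227) x22903) (Nat.mul (e (nat_lit 3221)) ap)) (Nat.mul x3221 (nat_lit 2))) (Nat.mul (e (nat_lit 3221)) an))
    (Nat.sub (Nat.sub (Nat.add (Nat.add (Nat.add (Nat.add (Nat.add (Nat.add (Nat.add (Nat.add (Nat.add (Nat.add (Nat.add (Nat.add (Nat.add C x7601) x1769) x4685) x2741) x3713) x3065) x3281) x3209) x3221) x3233) x3229) x22909) (Nat.mul (e (nat_lit 3227)) ap)) x3227) (Nat.mul (e (nat_lit 3227)) an))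
    (Nat.sub (Nat.add (Nat.add (Nat.add (Nat.add (Nat.add (Nat.add (Nat.add (Nat.add (Nat.add (Nat.add (Nat.add (Nat.add C x7603) x1771) x4687) x2743) x3715) x3067) x3283) x3211) x3235) x3227) x22911) (Nat.mul (e (nat_lit 3229)) ap)) (Nat.mul (e (nat_lit 3229)) an))
    (Nat.sub (Nat.sub (Nat.add (Nat.add (Nat.add (Nat.add (Nat.add (Nat.add (Nat.add (Nat.add (Nat.add (Nat.add (Nat.add C x7607) x1775) x4691) x2747) x3719) x3071) x3287) x3227) x3235) x22915) (Nat.mul (e (nat_lit 3233)) ap)) (Nat.mul x3233 (nat_lit 2))) (Nat.mul (e (nat_lit 3233)) an))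
    (Nat.sub (Nat.add (Nat.add (Nat.add (Nat.add (Nat.add (Nat.add (Nat.add (Nat.add (Nat.add (Nat.add (Nat.add (Nat.add (Nat.add C x3235) x7609) x1777) x4693) x2749) x3721) x3073) x3289) x3229) x3233) x3237) x22917) (Nat.mul (e (nat_lit 3235)) ap)) (Nat.mul (e (nat_lit 3235)) an))
    (Nat.add (Nat.add (Nat.add (Nat.add (Nat.add (Nat.add (Nat.add (Nat.add (Nat.add C (Nat.mul x3237 (nat_lit 2))) x7611) x1779) x4695) x2751) x3723) x3075) x3291) x3235)
    (Nat.sub (Nat.add (Nat.add (Nat.add (Nat.add (Nat.add (Nat.add (Nat.add (Nat.add (Nat.add (Nat.add (Nat.add (Nat.add (Nat.add C x3257) x7631) x1799) x4715) x2771) x3743) x3095) x3419) x3203) x3275) x3263) x22939) (Nat.mul (e (nat_lit 3257)) ap)) (Nat.mul (e (nat_lit 3257)) an))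
    (Nat.sub (Nat.sub (Nat.add (Nat.add (Nat.add (Nat.add (Nat.add (Nat.add (Nat.add (Nat.add (Nat.add (Nat.add (Nat.add (Nat.add (Nat.add C x7637) x1805) x4721) x2777) x3749) x3101) x3425) x3209) x3281) x3257) x3265) x22945) (Nat.mul (e (nat_lit 3263)) ap)) x3263) (Nat.mul (e (nat_lit 3263)) an))
    (Nat.sub (Nat.add (Nat.add (Nat.add (Nat.add (Nat.add (Nat.add (Nat.add (Nat.add (Nat.add (Nat.add (Nat.add (Nat.add (Nat.add C x3265) x7639) x1807) x4723) x2779) x3751) x3103) x3427) x3211) x3283) x3263) x22947) (Nat.mul (e (nat_lit 3265)) ap)) (Nat.mul (e (nat_lit 3265)) an))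
    (Nat.sub (Nat.add (Nat.add (Nat.add (Nat.add (Nat.add (Nat.add (Nat.add (Nat.add (Nat.add (Nat.add (Nat.add (Nat.add (Nat.add C x7649) x1817) x4733) x2789) x3761) x3113) x3437) x3221) x3329) x3257) x3281) x22957) (Nat.mul (e (nat_lit 3275)) ap)) (Nat.mul (e (nat_lit 3275)) an))
    (Nat.sub (Nat.add (Nat.add (Nat.add (Nat.add (Nat.add (Nat.add (Nat.add (Nat.add (Nat.add (Nat.add (Nat.add (Nat.add (Nat.add (Nat.add (Nat.add (Nat.add C x7655) x1823) x4739) x2795) x3767) x3119) x3443) x3227) x3335) x3263) x3299) x3275) x3287) x3283) x22963) (Nat.mul (e (nat_lit 3281)) ap)) (Nat.mul (e (nat_lit 3281)) an))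
    (Nat.sub (Nat.add (Nat.add (Nat.add (Nat.add (Nat.add (Nat.add (Nat.add (Nat.add (Nat.add (Nat.add (Nat.add (Nat.add (Nat.add (Nat.add (Nat.add (Nat.add C x3283) x7657) x1825) x4741) x2797) x3769) x3121) x3445) x3229) x3337) x3265) x3301) x3289) x3281) x22965) (Nat.mul (e (nat_lit 3283)) ap)) (Nat.mul (e (nat_lit 3283)) an))
    (Nat.sub (Nat.sub (Nat.add (Nat.add (Nat.add (Nat.add (Nat.add (Nat.add (Nat.add (Nat.add (Nat.add (Nat.add (Nat.add (Nat.add (Nat.add (Nat.add C x7661) x1829) x4745) x2801) x3773) x3125) x3449) x3233) x3341) x3305) x3281) x3289) x22969) (Nat.mul (e (nat_lit 3287)) ap)) (Nat.mul x3287 (nat_lit 2))) (Nat.mul (e (nat_lit 3287)) an))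
    (Nat.sub (Nat.add (Nat.add (Nat.add (Nat.add (Nat.add (Nat.add (Nat.add (Nat.add (Nat.add (Nat.add (Nat.add (Nat.add (Nat.add (Nat.add (Nat.add (Nat.add C x3289) x7663) x1831) x4747) x2803) x3775) x3127) x3451) x3235) x3343) x3307) x3283) x3287) x3291) x22971) (Nat.mul (e (nat_lit 3289)) ap)) (Nat.mul (e (nat_lit 3289)) an))
    (Nat.add (Nat.add (Nat.add (Nat.add (Nat.add (Nat.add (Nat.add (Nat.add (Nat.add (Nat.add (Nat.add (Nat.add C (Nat.mul x3291 (nat_lit 2))) x7665) x1833) x4749) x2805) x3777) x3129) x3453) x3237) x3345) x3309) x3289)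
    (Nat.sub (Nat.sub (Nat.add (Nat.add (Nat.add (Nat.add (Nat.add (Nat.add (Nat.add (Nat.add (Nat.add (Nat.add (Nat.add (Nat.add (Nat.add C x7673) x1841) x4757) x2813) x3785) x3137) x3461) x3353) x3281) x3305) x3301) x22981) (Nat.mul (e (nat_lit 3299)) ap)) x3299) (Nat.mul (e (nat_lit 3299)) an))
    (Nat.sub (Nat.sub (Nat.add (Nat.add (Nat.add (Nat.add (Nat.add (Nat.add (Nat.add (Nat.add (Nat.add (Nat.add (Nat.add (Nat.add (Nat.add C x7675) x1843) x4759) x2815) x3787) x3139) x3463) x3355) x3283) x3307) x3299) x22983) (Nat.mul (e (nat_lit 3301)) ap)) x3301) (Nat.mul (e (nat_lit 3301)) an))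
    (Nat.sub (Nat.sub (Nat.add (Nat.add (Nat.add (Nat.add (Nat.add (Nat.add (Nat.add (Nat.add (Nat.add (Nat.add (Nat.add (Nat.add (Nat.add C x7679) x1847) x4763) x2819) x3791) x3143) x3467) x3359) x3287) x3299) x3307) x22987) (Nat.mul (e (nat_lit 3305)) ap)) x3305) (Nat.mul (e (nat_lit 3305)) an))
    (Nat.sub (Nat.add (Nat.add (Nat.add (Nat.add (Nat.add (Nat.add (Nat.add (Nat.add (Nat.add (Nat.add (Nat.add (Nat.add (Nat.add (Nat.add (Nat.add (Nat.add C x3307) x7681) x1849) x4765) x2821) x3793) x3145) x3469) x3361) x3289) x3301) x3313) x3305) x3309) x22989) (Nat.mul (e (nat_lit 3307)) ap)) (Nat.mul (e (nat_lit 3307)) an))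
    (Nat.add (Nat.add (Nat.add (Nat.add (Nat.add (Nat.add (Nat.add (Nat.add (Nat.add (Nat.add (Nat.add (Nat.add C x3309) x7683) x1851) x4767) x2823) x3795) x3147) x3471) x3363) x3291) x3315) x3307)
    (Nat.add (Nat.add (Nat.add (Nat.add (Nat.add (Nat.add (Nat.add (Nat.add (Nat.add (Nat.add (Nat.add (Nat.add C x3313) x7687) x1855) x4771) x2827) x3799) x3151) x3475) x3367) x3307) x3315) x22995)
    (Nat.add (Nat.add (Nat.add (Nat.add (Nat.add (Nat.add (Nat.add (Nat.add (Nat.add (Nat.add (Nat.add C (Nat.mul x3315 (nat_lit 3))) x7689) x1857) x4773) x2829) x3801) x3153) x3477) x3369) x3309) x3313)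
    (Nat.sub (Nat.add (Nat.add (Nat.add (Nat.add (Nat.add (Nat.add (Nat.add (Nat.add (Nat.add (Nat.add C x7703) x1871) x4787) x2843) x3815) x3491) x3275) x3335) x23011) (Nat.mul (e (nat_lit 3329)) ap)) (Nat.mul (e (nat_lit 3329)) an))
    (Nat.sub (Nat.sub (Nat.add (Nat.add (Nat.add (Nat.add (Nat.add (Nat.add (Nat.add (Nat.add (Nat.add (Nat.add (Nat.add (Nat.add (Nat.add C x7709) x1877) x4793) x2849) x3821) x3497) x3281) x3353) x3329) x3341) x3337) x23017) (Nat.mul (e (nat_lit 3335)) ap)) x3335) (Nat.mul (e (nat_lit 3335)) an))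
    (Nat.sub (Nat.add (Nat.add (Nat.add (Nat.add (Nat.add (Nat.add (Nat.add (Nat.add (Nat.add (Nat.add (Nat.add (Nat.add C x7711) x1879) x4795) x2851) x3823) x3499) x3283) x3355) x3343) x3335) x23019) (Nat.mul (e (nat_lit 3337)) ap)) (Nat.mul (e (nat_lit 3337)) an))
    (Nat.sub (Nat.sub (Nat.add (Nat.add (Nat.add (Nat.add (Nat.add (Nat.add (Nat.add (Nat.add (Nat.add (Nat.add (Nat.add (Nat.add C x7715) x1883) x4799) x2855) x3827) x3503) x3287) x3359) x3335) x3343) x23023) (Nat.mul (e (nat_lit 3341)) ap)) (Nat.mul x3341 (nat_lit 4))) (Nat.mul (e (nat_lit 3341)) an))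
    (Nat.sub (Nat.sub (Nat.add (Nat.add (Nat.add (Nat.add (Nat.add (Nat.add (Nat.add (Nat.add (Nat.add (Nat.add (Nat.add (Nat.add (Nat.add C x7717) x1885) x4801) x2857) x3829) x3505) x3289) x3361) x3337) x3341) x3345) x23025) (Nat.mul (e (nat_lit 3343)) ap)) x3343) (Nat.mul (e (nat_lit 3343)) an))
    (Nat.add (Nat.add (Nat.add (Nat.add (Nat.add (Nat.add (Nat.add (Nat.add (Nat.add C x7719) x1887) x4803) x2859) x3831) x3507) x3291) x3363) x3343)
    (Nat.sub (Nat.add (Nat.add (Nat.add (Nat.add (Nat.add (Nat.add (Nat.add (Nat.add (Nat.add (Nat.add (Nat.add (Nat.add C x7727) x1895) x4811) x2867) x3839) x3515) x3299) x3335) x3359) x3355) x23035) (Nat.mul (e (nat_lit 3353)) ap)) (Nat.mul (e (nat_lit 3353)) an))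
    (Nat.sub (Nat.add (Nat.add (Nat.add (Nat.add (Nat.add (Nat.add (Nat.add (Nat.add (Nat.add (Nat.add (Nat.add (Nat.add C x7729) x1897) x4813) x2869) x3841) x3517) x3301) x3337) x3361) x3353) x23037) (Nat.mul (e (nat_lit 3355)) ap)) (Nat.mul (e (nat_lit 3355)) an))
    (Nat.sub (Nat.sub (Nat.add (Nat.add (Nat.add (Nat.add (Nat.add (Nat.add (Nat.add (Nat.add (Nat.add (Nat.add (Nat.add (Nat.add (Nat.add C x7733) x1901) x4817) x2873) x3845) x3521) x3305) x3341) x3377) x3353) x3361) x23041) (Nat.mul (e (nat_lit 3359)) ap)) x3359) (Nat.mul (e (nat_lit 3359)) an))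
    (Nat.add (Nat.add (Nat.add (Nat.add (Nat.add (Nat.add (Nat.add (Nat.add (Nat.add (Nat.add (Nat.add (Nat.add (Nat.add (Nat.add (Nat.add C x3361) x7735) x1903) x4819) x2875) x3847) x3523) x3307) x3343) x3379) x3355) x3367) x3359) x3363) x23043)
    (Nat.add (Nat.add (Nat.add (Nat.add (Nat.add (Nat.add (Nat.add (Nat.add (Nat.add (Nat.add (Nat.add (Nat.add C x3363) x7737) x1905) x4821) x2877) x3849) x3525) x3309) x3345) x3381) x3369) x3361)
    (Nat.add (Nat.add (Nat.add (Nat.add (Nat.add (Nat.add (Nat.add (Nat.add (Nat.add (Nat.add (Nat.add C x7741) x1909) x4825) x2881) x3853) x3529) x3313) x3385) x3361) x3369) x23049)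
    (Nat.add (Nat.add (Nat.add (Nat.add (Nat.add (Nat.add (Nat.add (Nat.add (Nat.add (Nat.add (Nat.add C (Nat.mul x3369 (nat_lit 2))) x7743) x1911) x4827) x2883) x3855) x3531) x3315) x3387) x3363) x3367)
    (Nat.sub (Nat.add (Nat.add (Nat.add (Nat.add (Nat.add (Nat.add (Nat.add (Nat.add (Nat.add (Nat.add C x7751) x1919) x4835) x2891) x3863) x3539) x3359) x3379) x23059) (Nat.mul (e (nat_lit 3377)) ap)) (Nat.mul (e (nat_lit 3377)) an))
    (Nat.add (Nat.add (Nat.add (Nat.add (Nat.add (Nat.add (Nat.add (Nat.add (Nat.add (Nat.add (Nat.add (Nat.add C x3379) x7753) x1921) x4837) x2893) x3865) x3541) x3361) x3385) x3377) x3381) x23061)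
    (Nat.add (Nat.add (Nat.add (Nat.add (Nat.add (Nat.add (Nat.add (Nat.add (Nat.add C x7755) x1923) x4839) x2895) x3867) x3543) x3363) x3387) x3379)
    (Nat.add (Nat.add (Nat.add (Nat.add (Nat.add (Nat.add (Nat.add (Nat.add (Nat.add (Nat.add (Nat.add C (Nat.mul x3385 (nat_lit 2))) x7759) x1927) x4843) x2899) x3871) x3547) x3367) x3379) x3387) x23067)
    (Nat.add (Nat.add (Nat.add (Nat.add (Nat.add (Nat.add (Nat.add (Nat.add (Nat.add (Nat.add (Nat.add C (Nat.mul x3387 (nat_lit 3))) x7761) x1929) x4845) x2901) x3873) x3549) x3369) x3381) x3393) x3385)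
    (Nat.add (Nat.add (Nat.add (Nat.add (Nat.add (Nat.add (Nat.add (Nat.add C (Nat.mul x3393 (nat_lit 4))) x7767) x1935) x4851) x2907) x3879) x3555) x3387)
    (Nat.sub (Nat.add (Nat.add (Nat.add (Nat.add (Nat.add (Nat.add (Nat.add (Nat.add (Nat.add (Nat.add C x3419) x7793) x1961) x4877) x3905) x3257) x3437) x3425) x23101) (Nat.mul (e (nat_lit 3419)) ap)) (Nat.mul (e (nat_lit 3419)) an))
    (Nat.sub (Nat.sub (Nat.add (Nat.add (Nat.add (Nat.add (Nat.add (Nat.add (Nat.add (Nat.add (Nat.add (Nat.add C x7799) x1967) x4883) x3911) x3263) x3443) x3419) x3427) x23107) (Nat.mul (e (nat_lit 3425)) ap)) x3425) (Nat.mul (e (nat_lit 3425)) an))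
    (Nat.sub (Nat.add (Nat.add (Nat.add (Nat.add (Nat.add (Nat.add (Nat.add (Nat.add (Nat.add (Nat.add C x3427) x7801) x1969) x4885) x3913) x3265) x3445) x3425) x23109) (Nat.mul (e (nat_lit 3427)) ap)) (Nat.mul (e (nat_lit 3427)) an))
    (Nat.sub (Nat.sub (Nat.add (Nat.add (Nat.add (Nat.add (Nat.add (Nat.add (Nat.add (Nat.add (Nat.add (Nat.add C x7811) x1979) x4895) x3923) x3275) x3491) x3419) x3443) x23119) (Nat.mul (e (nat_lit 3437)) ap)) x3437) (Nat.mul (e (nat_lit 3437)) an))
    (Nat.sub (Nat.sub (Nat.add (Nat.add (Nat.add (Nat.add (Nat.add (Nat.add (Nat.add (Nat.add (Nat.add (Nat.add (Nat.add (Nat.add (Nat.add C x7817) x1985) x4901) x3929) x3281) x3497) x3425) x3461) x3437) x3449) x3445) x23125) (Nat.mul (e (nat_lit 3443)) ap)) x3443) (Nat.mul (e (nat_lit 3443)) an))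
    (Nat.sub (Nat.add (Nat.add (Nat.add (Nat.add (Nat.add (Nat.add (Nat.add (Nat.add (Nat.add (Nat.add (Nat.add (Nat.add C x7819) x1987) x4903) x3931) x3283) x3499) x3427) x3463) x3451) x3443) x23127) (Nat.mul (e (nat_lit 3445)) ap)) (Nat.mul (e (nat_lit 3445)) an))
    (Nat.sub (Nat.sub (Nat.add (Nat.add (Nat.add (Nat.add (Nat.add (Nat.add (Nat.add (Nat.add (Nat.add (Nat.add (Nat.add C x7823) x1991) x4907) x3935) x3287) x3503) x3467) x3443) x3451) x23131) (Nat.mul (e (nat_lit 3449)) ap)) (Nat.mul x3449 (nat_lit 3))) (Nat.mul (e (nat_lit 3449)) an))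
    (Nat.sub (Nat.add (Nat.add (Nat.add (Nat.add (Nat.add (Nat.add (Nat.add (Nat.add (Nat.add (Nat.add (Nat.add (Nat.add C x7825) x1993) x4909) x3937) x3289) x3505) x3469) x3445) x3449) x3453) x23133) (Nat.mul (e (nat_lit 3451)) ap)) (Nat.mul (e (nat_lit 3451)) an))
    (Nat.add (Nat.add (Nat.add (Nat.add (Nat.add (Nat.add (Nat.add (Nat.add (Nat.add C x3453) x7827) x1995) x4911) x3939) x3291) x3507) x3471) x3451)
    (Nat.sub (Nat.sub (Nat.add (Nat.add (Nat.add (Nat.add (Nat.add (Nat.add (Nat.add (Nat.add (Nat.add (Nat.add (Nat.add C x7835) x2003) x4919) x3947) x3299) x3515) x3443) x3467) x3463) x23143) (Nat.mul (e (nat_lit 3461)) ap)) (Nat.mul x3461 (nat_lit 3))) (Nat.mul (e (nat_lit 3461)) an))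
    (Nat.sub (Nat.sub (Nat.add (Nat.add (Nat.add (Nat.add (Nat.add (Nat.add (Nat.add (Nat.add (Nat.add (Nat.add (Nat.add C x7837) x2005) x4921) x3949) x3301) x3517) x3445) x3469) x3461) x23145) (Nat.mul (e (nat_lit 3463)) ap)) (Nat.mul x3463 (nat_lit 3))) (Nat.mul (e (nat_lit 3463)) an))
    (Nat.sub (Nat.sub (Nat.add (Nat.add (Nat.add (Nat.add (Nat.add (Nat.add (Nat.add (Nat.add (Nat.add (Nat.add (Nat.add C x7841) x2009) x4925) x3953) x3305) x3521) x3449) x3461) x3469) x23149) (Nat.mul (e (nat_lit 3467)) ap)) (Nat.mul x3467 (nat_lit 3))) (Nat.mul (e (nat_lit 3467)) an))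
    (Nat.sub (Nat.add (Nat.add (Nat.add (Nat.add (Nat.add (Nat.add (Nat.add (Nat.add (Nat.add (Nat.add (Nat.add (Nat.add C x7843) x2011) x4927) x3955) x3307) x3523) x3451) x3463) x3475) x3467) x3471) x23151) x3469)
    (Nat.sub (Nat.add (Nat.add (Nat.add (Nat.add (Nat.add (Nat.add (Nat.add (Nat.add (Nat.add C x7845) x2013) x4929) x3957) x3309) x3525) x3453) x3477) x3469) x3471)
    (Nat.sub (Nat.add (Nat.add (Nat.add (Nat.add (Nat.add (Nat.add (Nat.add (Nat.add (Nat.add C x7849) x2017) x4933) x3961) x3313) x3529) x3469) x3477) x23157) x3475)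
    (Nat.add (Nat.add (Nat.add (Nat.add (Nat.add (Nat.add (Nat.add (Nat.add (Nat.add C x3477) x7851) x2019) x4935) x3963) x3315) x3531) x3471) x3475)
    (Nat.sub (Nat.add (Nat.add (Nat.add (Nat.add (Nat.add (Nat.add (Nat.add (Nat.add (Nat.add (Nat.add C x3491) x7865) x2033) x4949) x3977) x3329) x3437) x3497) x23173) (Nat.mul (e (nat_lit 3491)) ap)) (Nat.mul (e (nat_lit 3491)) an))
    (Nat.sub (Nat.add (Nat.add (Nat.add (Nat.add (Nat.add (Nat.add (Nat.add (Nat.add (Nat.add (Nat.add (Nat.add (Nat.add C x7871) x2039) x4955) x3983) x3335) x3443) x3515) x3491) x3503) x3499) x23179) (Nat.mul (e (nat_lit 3497)) ap)) (Nat.mul (e (nat_lit 3497)) an))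
    (Nat.sub (Nat.add (Nat.add (Nat.add (Nat.add (Nat.add (Nat.add (Nat.add (Nat.add (Nat.add (Nat.add (Nat.add (Nat.add C x3499) x7873) x2041) x4957) x3985) x3337) x3445) x3517) x3505) x3497) x23181) (Nat.mul (e (nat_lit 3499)) ap)) (Nat.mul (e (nat_lit 3499)) an))
    (Nat.sub (Nat.sub (Nat.add (Nat.add (Nat.add (Nat.add (Nat.add (Nat.add (Nat.add (Nat.add (Nat.add (Nat.add (Nat.add C x7877) x2045) x4961) x3989) x3341) x3449) x3521) x3497) x3505) x23185) (Nat.mul (e (nat_lit 3503)) ap)) (Nat.mul x3503 (nat_lit 3))) (Nat.mul (e (nat_lit 3503)) an))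
    (Nat.add (Nat.add (Nat.add (Nat.add (Nat.add (Nat.add (Nat.add (Nat.add (Nat.add (Nat.add (Nat.add C x7879) x2047) x4963) x3991) x3343) x3451) x3523) x3499) x3503) x3507) x23187)
    (Nat.add (Nat.add (Nat.add (Nat.add (Nat.add (Nat.add (Nat.add (Nat.add (Nat.add C x3507) x7881) x2049) x4965) x3993) x3345) x3453) x3525) x3505)
    (Nat.sub (Nat.add (Nat.add (Nat.add (Nat.add (Nat.add (Nat.add (Nat.add (Nat.add (Nat.add (Nat.add (Nat.add (Nat.add C x7889) x2057) x4973) x4001) x3353) x3461) x3569) x3497) x3521) x3517) x23197) (Nat.mul (e (nat_lit 3515)) ap)) (Nat.mul (e (nat_lit 3515)) an))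
    (Nat.sub (Nat.add (Nat.add (Nat.add (Nat.add (Nat.add (Nat.add (Nat.add (Nat.add (Nat.add (Nat.add (Nat.add (Nat.add C x7891) x2059) x4975) x4003) x3355) x3463) x3571) x3499) x3523) x3515) x23199) (Nat.mul (e (nat_lit 3517)) ap)) (Nat.mul (e (nat_lit 3517)) an))
    (Nat.sub (Nat.sub (Nat.add (Nat.add (Nat.add (Nat.add (Nat.add (Nat.add (Nat.add (Nat.add (Nat.add (Nat.add (Nat.add (Nat.add (Nat.add C x7895) x2063) x4979) x4007) x3359) x3467) x3575) x3503) x3539) x3515) x3523) x23203) (Nat.mul (e (nat_lit 3521)) ap)) x3521) (Nat.mul (e (nat_lit 3521)) an))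
    (Nat.add (Nat.add (Nat.add (Nat.add (Nat.add (Nat.add (Nat.add (Nat.add (Nat.add (Nat.add (Nat.add (Nat.add (Nat.add (Nat.add (Nat.add C x3523) x7897) x2065) x4981) x4009) x3361) x3469) x3577) x3505) x3541) x3517) x3529) x3521) x3525) x23205)
    (Nat.add (Nat.add (Nat.add (Nat.add (Nat.add (Nat.add (Nat.add (Nat.add (Nat.add (Nat.add (Nat.add (Nat.add C x3525) x7899) x2067) x4983) x4011) x3363) x3471) x3579) x3507) x3543) x3531) x3523)
    (Nat.add (Nat.add (Nat.add (Nat.add (Nat.add (Nat.add (Nat.add (Nat.add (Nat.add (Nat.add (Nat.add C x7903) x2071) x4987) x4015) x3367) x3475) x3583) x3547) x3523) x3531) x23211)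
    (Nat.add (Nat.add (Nat.add (Nat.add (Nat.add (Nat.add (Nat.add (Nat.add (Nat.add (Nat.add (Nat.add C (Nat.mul x3531 (nat_lit 2))) x7905) x2073) x4989) x4017) x3369) x3477) x3585) x3549) x3525) x3529)
    (Nat.sub (Nat.sub (Nat.add (Nat.add (Nat.add (Nat.add (Nat.add (Nat.add (Nat.add (Nat.add (Nat.add (Nat.add C x7913) x2081) x4997) x4025) x3377) x3593) x3521) x3541) x23221) (Nat.mul (e (nat_lit 3539)) ap)) x3539) (Nat.mul (e (nat_lit 3539)) an))
    (Nat.add (Nat.add (Nat.add (Nat.add (Nat.add (Nat.add (Nat.add (Nat.add (Nat.add (Nat.add (Nat.add C x7915) x2083) x4999) x4027) x3379) x3595) x3523) x3547) x3539) x3543) x23223)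
    (Nat.sub (Nat.add (Nat.add (Nat.add (Nat.add (Nat.add (Nat.add (Nat.add (Nat.add (Nat.add C x7917) x2085) x5001) x4029) x3381) x3597) x3525) x3549) x3541) x3543)
    (Nat.add (Nat.add (Nat.add (Nat.add (Nat.add (Nat.add (Nat.add (Nat.add (Nat.add (Nat.add (Nat.add C x3547) x7921) x2089) x5005) x4033) x3385) x3601) x3529) x3541) x3549) x23229)
    (Nat.add (Nat.add (Nat.add (Nat.add (Nat.add (Nat.add (Nat.add (Nat.add (Nat.add (Nat.add (Nat.add C (Nat.mul x3549 (nat_lit 2))) x7923) x2091) x5007) x4035) x3387) x3603) x3531) x3543) x3555) x3547)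
    (Nat.add (Nat.add (Nat.add (Nat.add (Nat.add (Nat.add (Nat.add (Nat.add C (Nat.mul x3555 (nat_lit 3))) x7929) x2097) x5013) x4041) x3393) x3609) x3549)
    (Nat.sub (Nat.add (Nat.add (Nat.add (Nat.add (Nat.add (Nat.add (Nat.add (Nat.add (Nat.add (Nat.add C x3569) x7943) x2111) x5027) x4055) x3515) x3575) x3571) x23251) (Nat.mul (e (nat_lit 3569)) ap)) (Nat.mul (e (nat_lit 3569)) an))
    (Nat.sub (Nat.add (Nat.add (Nat.add (Nat.add (Nat.add (Nat.add (Nat.add (Nat.add (Nat.add (Nat.add C x3571) x7945) x2113) x5029) x4057) x3517) x3577) x3569) x23253) (Nat.mul (e (nat_lit 3571)) ap)) (Nat.mul (e (nat_lit 3571)) an))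
    (Nat.sub (Nat.sub (Nat.add (Nat.add (Nat.add (Nat.add (Nat.add (Nat.add (Nat.add (Nat.add (Nat.add (Nat.add C x7949) x2117) x5033) x4061) x3521) x3593) x3569) x3577) x23257) (Nat.mul (e (nat_lit 3575)) ap)) x3575) (Nat.mul (e (nat_lit 3575)) an))
    (Nat.add (Nat.add (Nat.add (Nat.add (Nat.add (Nat.add (Nat.add (Nat.add (Nat.add (Nat.add (Nat.add (Nat.add C x3577) x7951) x2119) x5035) x4063) x3523) x3595) x3571) x3583) x3575) x3579) x23259)
    (Nat.add (Nat.add (Nat.add (Nat.add (Nat.add (Nat.add (Nat.add (Nat.add (Nat.add C x3579) x7953) x2121) x5037) x4065) x3525) x3597) x3585) x3577)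
    (Nat.sub (Nat.add (Nat.add (Nat.add (Nat.add (Nat.add (Nat.add (Nat.add (Nat.add (Nat.add C x7957) x2125) x5041) x4069) x3529) x3601) x3577) x3585) x23265) x3583)
    (Nat.add (Nat.add (Nat.add (Nat.add (Nat.add (Nat.add (Nat.add (Nat.add (Nat.add C x3585) x7959) x2127) x5043) x4071) x3531) x3603) x3579) x3583)
    (Nat.sub (Nat.add (Nat.add (Nat.add (Nat.add (Nat.add (Nat.add (Nat.add (Nat.add (Nat.add (Nat.add C x3593) x7967) x2135) x5051) x4079) x3539) x3575) x3595) x23275) (Nat.mul (e (nat_lit 3593)) ap)) (Nat.mul (e (nat_lit 3593)) an))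
    (Nat.add (Nat.add (Nat.add (Nat.add (Nat.add (Nat.add (Nat.add (Nat.add (Nat.add (Nat.add (Nat.add C (Nat.mul x3595 (nat_lit 2))) x7969) x2137) x5053) x4081) x3541) x3577) x3601) x3593) x3597) x23277)
    (Nat.add (Nat.add (Nat.add (Nat.add (Nat.add (Nat.add (Nat.add (Nat.add (Nat.add C x3597) x7971) x2139) x5055) x4083) x3543) x3579) x3603) x3595)
    (Nat.add (Nat.add (Nat.add (Nat.add (Nat.add (Nat.add (Nat.add (Nat.add (Nat.add (Nat.add (Nat.add C (Nat.mul x3601 (nat_lit 2))) x7975) x2143) x5059) x4087) x3547) x3583) x3619) x3595) x3603) x23283)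
    (Nat.add (Nat.add (Nat.add (Nat.add (Nat.add (Nat.add (Nat.add (Nat.add (Nat.add (Nat.add (Nat.add C (Nat.mul x3603 (nat_lit 3))) x7977) x2145) x5061) x4089) x3549) x3585) x3621) x3597) x3609) x3601)
    (Nat.add (Nat.add (Nat.add (Nat.add (Nat.add (Nat.add (Nat.add (Nat.add C (Nat.mul x3609 (nat_lit 3))) x7983) x2151) x5067) x4095) x3555) x3627) x3603)
    (Nat.add (Nat.add (Nat.add (Nat.add (Nat.add (Nat.add (Nat.add (Nat.add C (Nat.mul x3619 (nat_lit 3))) x7993) x2161) x5077) x4105) x3601) x3621) x23301)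
    (Nat.add (Nat.add (Nat.add (Nat.add (Nat.add (Nat.add (Nat.add (Nat.add C (Nat.mul x3621 (nat_lit 3))) x7995) x2163) x5079) x4107) x3603) x3627) x3619)
    (Nat.add (Nat.add (Nat.add (Nat.add (Nat.add (Nat.add (Nat.add C (Nat.mul x3627 (nat_lit 5))) x8001) x2169) x5085) x4113) x3609) x3621)
    (Nat.add (Nat.add (Nat.add (Nat.add (Nat.add (Nat.add C (Nat.mul x3671 (nat_lit 2))) x8045) x5129) x3185) x3689) x23353)
    (Nat.add (Nat.add (Nat.add (Nat.add (Nat.add (Nat.add (Nat.add (Nat.add (Nat.add C x3689) x8063) x5147) x3203) x3743) x3671) x3707) x3695) x23371)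
    (Nat.sub (Nat.add (Nat.add (Nat.add (Nat.add (Nat.add (Nat.add (Nat.add (Nat.add (Nat.add C x8069) x5153) x3209) x3749) x3713) x3689) x3697) x23377) (Nat.mul (e (nat_lit 3695)) ap)) (Nat.mul (e (nat_lit 3695)) an))
    (Nat.sub (Nat.add (Nat.add (Nat.add (Nat.add (Nat.add (Nat.add (Nat.add (Nat.add (Nat.add C (Nat.mul x3697 (nat_lit 2))) x8071) x5155) x3211) x3751) x3715) x3695) x23379) (Nat.mul (e (nat_lit 3697)) ap)) (Nat.mul (e (nat_lit 3697)) an))
    (Nat.sub (Nat.sub (Nat.add (Nat.add (Nat.add (Nat.add (Nat.add (Nat.add (Nat.add (Nat.add C x8081) x5165) x3221) x3761) x3689) x3713) x23389) (Nat.mul (e (nat_lit 3707)) ap)) (Nat.mul x3707 (nat_lit 2))) (Nat.mul (e (nat_lit 3707)) an))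
    (Nat.sub (Nat.sub (Nat.add (Nat.add (Nat.add (Nat.add (Nat.add (Nat.add (Nat.add (Nat.add (Nat.add (Nat.add C x8087) x5171) x3227) x3767) x3695) x3707) x3719) x3715) x23395) (Nat.mul (e (nat_lit 3713)) ap)) x3713) (Nat.mul (e (nat_lit 3713)) an))
    (Nat.sub (Nat.add (Nat.add (Nat.add (Nat.add (Nat.add (Nat.add (Nat.add (Nat.add (Nat.add C x8089) x5173) x3229) x3769) x3697) x3721) x3713) x23397) (Nat.mul (e (nat_lit 3715)) ap)) (Nat.mul (e (nat_lit 3715)) an))
    (Nat.sub (Nat.sub (Nat.add (Nat.add (Nat.add (Nat.add (Nat.add (Nat.add (Nat.add (Nat.add C x8093) x5177) x3233) x3773) x3713) x3721) x23401) (Nat.mul (e (nat_lit 3719)) ap)) (Nat.mul x3719 (nat_lit 2))) (Nat.mul (e (nat_lit 3719)) an))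
    (Nat.add (Nat.add (Nat.add (Nat.add (Nat.add (Nat.add (Nat.add (Nat.add (Nat.add C x3721) x8095) x5179) x3235) x3775) x3715) x3719) x3723) x23403)
    (Nat.add (Nat.add (Nat.add (Nat.add (Nat.add (Nat.add C (Nat.mul x3723 (nat_lit 2))) x8097) x5181) x3237) x3777) x3721)
    (Nat.sub (Nat.add (Nat.add (Nat.add (Nat.add (Nat.add (Nat.add (Nat.add (Nat.add (Nat.add C x8117) x5201) x3257) x3905) x3689) x3761) x3749) x23425) (Nat.mul (e (nat_lit 3743)) ap)) (Nat.mul (e (nat_lit 3743)) an))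
    (Nat.sub (Nat.sub (Nat.add (Nat.add (Nat.add (Nat.add (Nat.add (Nat.add (Nat.add (Nat.add (Nat.add (Nat.add C x8123) x5207) x3263) x3911) x3695) x3767) x3743) x3751) x23431) (Nat.mul (e (nat_lit 3749)) ap)) (Nat.mul x3749 (nat_lit 2))) (Nat.mul (e (nat_lit 3749)) an))
    (Nat.sub (Nat.add (Nat.add (Nat.add (Nat.add (Nat.add (Nat.add (Nat.add (Nat.add (Nat.add C x8125) x5209) x3265) x3913) x3697) x3769) x3749) x23433) (Nat.mul (e (nat_lit 3751)) ap)) (Nat.mul (e (nat_lit 3751)) an))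
    (Nat.sub (Nat.sub (Nat.add (Nat.add (Nat.add (Nat.add (Nat.add (Nat.add (Nat.add (Nat.add (Nat.add (Nat.add C x8135) x5219) x3275) x3923) x3707) x3815) x3743) x3767) x23443) (Nat.mul (e (nat_lit 3761)) ap)) x3761) (Nat.mul (e (nat_lit 3761)) an))
    (Nat.sub (Nat.sub (Nat.add (Nat.add (Nat.add (Nat.add (Nat.add (Nat.add (Nat.add (Nat.add (Nat.add (Nat.add (Nat.add (Nat.add (Nat.add C x8141) x5225) x3281) x3929) x3713) x3821) x3749) x3785) x3761) x3773) x3769) x23449) (Nat.mul (e (nat_lit 3767)) ap)) x3767) (Nat.mul (e (nat_lit 3767)) an))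
    (Nat.sub (Nat.add (Nat.add (Nat.add (Nat.add (Nat.add (Nat.add (Nat.add (Nat.add (Nat.add (Nat.add (Nat.add (Nat.add C x8143) x5227) x3283) x3931) x3715) x3823) x3751) x3787) x3775) x3767) x23451) (Nat.mul (e (nat_lit 3769)) ap)) (Nat.mul (e (nat_lit 3769)) an))
    (Nat.sub (Nat.sub (Nat.add (Nat.add (Nat.add (Nat.add (Nat.add (Nat.add (Nat.add (Nat.add (Nat.add (Nat.add (Nat.add C x8147) x5231) x3287) x3935) x3719) x3827) x3791) x3767) x3775) x23455) (Nat.mul (e (nat_lit 3773)) ap)) (Nat.mul x3773 (nat_lit 3))) (Nat.mul (e (nat_lit 3773)) an))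
    (Nat.add (Nat.add (Nat.add (Nat.add (Nat.add (Nat.add (Nat.add (Nat.add (Nat.add (Nat.add (Nat.add C x8149) x5233) x3289) x3937) x3721) x3829) x3793) x3769) x3773) x3777) x23457)
    (Nat.add (Nat.add (Nat.add (Nat.add (Nat.add (Nat.add (Nat.add (Nat.add (Nat.add C x3777) x8151) x5235) x3291) x3939) x3723) x3831) x3795) x3775)
    (Nat.sub (Nat.sub (Nat.add (Nat.add (Nat.add (Nat.add (Nat.add (Nat.add (Nat.add (Nat.add (Nat.add (Nat.add C x8159) x5243) x3299) x3947) x3839) x3767) x3791) x3787) x23467) (Nat.mul (e (nat_lit 3785)) ap)) (Nat.mul x3785 (nat_lit 2))) (Nat.mul (e (nat_lit 3785)) an))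
    (Nat.sub (Nat.sub (Nat.add (Nat.add (Nat.add (Nat.add (Nat.add (Nat.add (Nat.add (Nat.add (Nat.add (Nat.add C x8161) x5245) x3301) x3949) x3841) x3769) x3793) x3785) x23469) (Nat.mul (e (nat_lit 3787)) ap)) (Nat.mul x3787 (nat_lit 2))) (Nat.mul (e (nat_lit 3787)) an))
    (Nat.sub (Nat.sub (Nat.add (Nat.add (Nat.add (Nat.add (Nat.add (Nat.add (Nat.add (Nat.add (Nat.add (Nat.add C x8165) x5249) x3305) x3953) x3845) x3773) x3785) x3793) x23473) (Nat.mul (e (nat_lit 3791)) ap)) (Nat.mul x3791 (nat_lit 2))) (Nat.mul (e (nat_lit 3791)) an))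
    (Nat.add (Nat.add (Nat.add (Nat.add (Nat.add (Nat.add (Nat.add (Nat.add (Nat.add (Nat.add (Nat.add C x8167) x5251) x3307) x3955) x3847) x3775) x3787) x3799) x3791) x3795) x23475)
    (Nat.add (Nat.add (Nat.add (Nat.add (Nat.add (Nat.add (Nat.add (Nat.add C x8169) x5253) x3309) x3957) x3849) x3777) x3801) x3793)
    (Nat.add (Nat.add (Nat.add (Nat.add (Nat.add (Nat.add (Nat.add (Nat.add C x8173) x5257) x3313) x3961) x3853) x3793) x3801) x23481)
    (Nat.add (Nat.add (Nat.add (Nat.add (Nat.add (Nat.add (Nat.add (Nat.add C (Nat.mul x3801 (nat_lit 2))) x8175) x5259) x3315) x3963) x3855) x3795) x3799)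
    (Nat.sub (Nat.sub (Nat.add (Nat.add (Nat.add (Nat.add (Nat.add (Nat.add (Nat.add (Nat.add C x8189) x5273) x3329) x3977) x3761) x3821) x23497) (Nat.mul (e (nat_lit 3815)) ap)) (Nat.mul x3815 (nat_lit 2))) (Nat.mul (e (nat_lit 3815)) an))
    (Nat.sub (Nat.sub (Nat.add (Nat.add (Nat.add (Nat.add (Nat.add (Nat.add (Nat.add (Nat.add (Nat.add (Nat.add (Nat.add C x8195) x5279) x3335) x3983) x3767) x3839) x3815) x3827) x3823) x23503) (Nat.mul (e (nat_lit 3821)) ap)) (Nat.mul x3821 (nat_lit 3))) (Nat.mul (e (nat_lit 3821)) an))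
    (Nat.sub (Nat.sub (Nat.add (Nat.add (Nat.add (Nat.add (Nat.add (Nat.add (Nat.add (Nat.add (Nat.add (Nat.add C x8197) x5281) x3337) x3985) x3769) x3841) x3829) x3821) x23505) (Nat.mul (e (nat_lit 3823)) ap)) (Nat.mul x3823 (nat_lit 2))) (Nat.mul (e (nat_lit 3823)) an))
    (Nat.sub (Nat.sub (Nat.add (Nat.add (Nat.add (Nat.add (Nat.add (Nat.add (Nat.add (Nat.add (Nat.add (Nat.add C x8201) x5285) x3341) x3989) x3773) x3845) x3821) x3829) x23509) (Nat.mul (e (nat_lit 3827)) ap)) (Nat.mul x3827 (nat_lit 6))) (Nat.mul (e (nat_lit 3827)) an))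
    (Nat.sub (Nat.add (Nat.add (Nat.add (Nat.add (Nat.add (Nat.add (Nat.add (Nat.add (Nat.add (Nat.add C x8203) x5287) x3343) x3991) x3775) x3847) x3823) x3827) x3831) x23511) (Nat.mul x3829 (nat_lit 3)))
    (Nat.sub (Nat.add (Nat.add (Nat.add (Nat.add (Nat.add (Nat.add (Nat.add C x8205) x5289) x3345) x3993) x3777) x3849) x3829) (Nat.mul x3831 (nat_lit 2)))
    (Nat.sub (Nat.sub (Nat.add (Nat.add (Nat.add (Nat.add (Nat.add (Nat.add (Nat.add (Nat.add (Nat.add (Nat.add C x8213) x5297) x3353) x4001) x3785) x3821) x3845) x3841) x23521) (Nat.mul (e (nat_lit 3839)) ap)) (Nat.mul x3839 (nat_lit 2))) (Nat.mul (e (nat_lit 3839)) an))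
    (Nat.sub (Nat.add (Nat.add (Nat.add (Nat.add (Nat.add (Nat.add (Nat.add (Nat.add (Nat.add C x8215) x5299) x3355) x4003) x3787) x3823) x3847) x3839) x23523) (Nat.mul x3841 (nat_lit 2)))
    (Nat.sub (Nat.sub (Nat.add (Nat.add (Nat.add (Nat.add (Nat.add (Nat.add (Nat.add (Nat.add (Nat.add (Nat.add (Nat.add C x8219) x5303) x3359) x4007) x3791) x3827) x3863) x3839) x3847) x23527) (Nat.mul (e (nat_lit 3845)) ap)) (Nat.mul x3845 (nat_lit 3))) (Nat.mul (e (nat_lit 3845)) an))
    (Nat.sub (Nat.add (Nat.add (Nat.add (Nat.add (Nat.add (Nat.add (Nat.add (Nat.add (Nat.add (Nat.add (Nat.add (Nat.add C x8221) x5305) x3361) x4009) x3793) x3829) x3865) x3841) x3853) x3845) x3849) x23529) x3847)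
    (Nat.sub (Nat.add (Nat.add (Nat.add (Nat.add (Nat.add (Nat.add (Nat.add (Nat.add (Nat.add C x8223) x5307) x3363) x4011) x3795) x3831) x3867) x3855) x3847) x3849)
    (Nat.sub (Nat.add (Nat.add (Nat.add (Nat.add (Nat.add (Nat.add (Nat.add (Nat.add (Nat.add C x8227) x5311) x3367) x4015) x3799) x3871) x3847) x3855) x23535) (Nat.mul x3853 (nat_lit 2)))
    (Nat.add (Nat.add (Nat.add (Nat.add (Nat.add (Nat.add (Nat.add (Nat.add C x8229) x5313) x3369) x4017) x3801) x3873) x3849) x3853)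
    (Nat.sub (Nat.sub (Nat.add (Nat.add (Nat.add (Nat.add (Nat.add (Nat.add (Nat.add (Nat.add C x8237) x5321) x3377) x4025) x3845) x3865) x23545) (Nat.mul (e (nat_lit 3863)) ap)) (Nat.mul x3863 (nat_lit 2))) (Nat.mul (e (nat_lit 3863)) an))
    (Nat.sub (Nat.add (Nat.add (Nat.add (Nat.add (Nat.add (Nat.add (Nat.add (Nat.add (Nat.add C x8239) x5323) x3379) x4027) x3847) x3871) x3863) x3867) x23547) x3865)
    (Nat.sub (Nat.add (Nat.add (Nat.add (Nat.add (Nat.add (Nat.add (Nat.add C x8241) x5325) x3381) x4029) x3849) x3873) x3865) (Nat.mul x3867 (nat_lit 2)))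
    (Nat.add (Nat.add (Nat.add (Nat.add (Nat.add (Nat.add (Nat.add (Nat.add C x8245) x5329) x3385) x4033) x3853) x3865) x3873) x23553)
    (Nat.add (Nat.add (Nat.add (Nat.add (Nat.add (Nat.add (Nat.add (Nat.add (Nat.add C x3873) x8247) x5331) x3387) x4035) x3855) x3867) x3879) x3871)
    (Nat.add (Nat.add (Nat.add (Nat.add (Nat.add (Nat.add C (Nat.mul x3879 (nat_lit 2))) x8253) x5337) x3393) x4041) x3873)
    (Nat.sub (Nat.add (Nat.add (Nat.add (Nat.add (Nat.add (Nat.add (Nat.add (Nat.add (Nat.add C (Nat.mul x3905 (nat_lit 2))) x8279) x5363) x3419) x3743) x3923) x3911) x23587) (Nat.mul (e (nat_lit 3905)) ap)) (Nat.mul (e (nat_lit 3905)) an))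
    (Nat.sub (Nat.add (Nat.add (Nat.add (Nat.add (Nat.add (Nat.add (Nat.add (Nat.add (Nat.add C x8285) x5369) x3425) x3749) x3929) x3905) x3913) x23593) (Nat.mul (e (nat_lit 3911)) ap)) (Nat.mul (e (nat_lit 3911)) an))
    (Nat.add (Nat.add (Nat.add (Nat.add (Nat.add (Nat.add (Nat.add (Nat.add C (Nat.mul x3913 (nat_lit 2))) x8287) x5371) x3427) x3751) x3931) x3911) x23595)
    (Nat.sub (Nat.add (Nat.add (Nat.add (Nat.add (Nat.add (Nat.add (Nat.add (Nat.add (Nat.add C x8297) x5381) x3437) x3761) x3977) x3905) x3929) x23605) (Nat.mul (e (nat_lit 3923)) ap)) (Nat.mul (e (nat_lit 3923)) an))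
    (Nat.sub (Nat.add (Nat.add (Nat.add (Nat.add (Nat.add (Nat.add (Nat.add (Nat.add (Nat.add (Nat.add (Nat.add (Nat.add C x8303) x5387) x3443) x3767) x3983) x3911) x3947) x3923) x3935) x3931) x23611) (Nat.mul (e (nat_lit 3929)) ap)) (Nat.mul (e (nat_lit 3929)) an))
    (Nat.sub (Nat.add (Nat.add (Nat.add (Nat.add (Nat.add (Nat.add (Nat.add (Nat.add (Nat.add (Nat.add (Nat.add (Nat.add C x3931) x8305) x5389) x3445) x3769) x3985) x3913) x3949) x3937) x3929) x23613) (Nat.mul (e (nat_lit 3931)) ap)) (Nat.mul (e (nat_lit 3931)) an))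
    (Nat.sub (Nat.sub (Nat.add (Nat.add (Nat.add (Nat.add (Nat.add (Nat.add (Nat.add (Nat.add (Nat.add (Nat.add C x8309) x5393) x3449) x3773) x3989) x3953) x3929) x3937) x23617) (Nat.mul (e (nat_lit 3935)) ap)) (Nat.mul x3935 (nat_lit 2))) (Nat.mul (e (nat_lit 3935)) an))
    (Nat.add (Nat.add (Nat.add (Nat.add (Nat.add (Nat.add (Nat.add (Nat.add (Nat.add (Nat.add (Nat.add C x3937) x8311) x5395) x3451) x3775) x3991) x3955) x3931) x3935) x3939) x23619)
    (Nat.add (Nat.add (Nat.add (Nat.add (Nat.add (Nat.add (Nat.add (Nat.add C (Nat.mul x3939 (nat_lit 2))) x8313) x5397) x3453) x3777) x3993) x3957) x3937)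
    (Nat.sub (Nat.sub (Nat.add (Nat.add (Nat.add (Nat.add (Nat.add (Nat.add (Nat.add (Nat.add (Nat.add (Nat.add C x8321) x5405) x3461) x3785) x4001) x3929) x3953) x3949) x23629) (Nat.mul (e (nat_lit 3947)) ap)) (Nat.mul x3947 (nat_lit 2))) (Nat.mul (e (nat_lit 3947)) an))
    (Nat.sub (Nat.add (Nat.add (Nat.add (Nat.add (Nat.add (Nat.add (Nat.add (Nat.add (Nat.add C x8323) x5407) x3463) x3787) x4003) x3931) x3955) x3947) x23631) (Nat.mul x3949 (nat_lit 2)))
    (Nat.sub (Nat.sub (Nat.add (Nat.add (Nat.add (Nat.add (Nat.add (Nat.add (Nat.add (Nat.add (Nat.add (Nat.add C x8327) x5411) x3467) x3791) x4007) x3935) x3947) x3955) x23635) (Nat.mul (e (nat_lit 3953)) ap)) (Nat.mul x3953 (nat_lit 2))) (Nat.mul (e (nat_lit 3953)) an))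
    (Nat.add (Nat.add (Nat.add (Nat.add (Nat.add (Nat.add (Nat.add (Nat.add (Nat.add (Nat.add (Nat.add C x8329) x5413) x3469) x3793) x4009) x3937) x3949) x3961) x3953) x3957) x23637)
    (Nat.add (Nat.add (Nat.add (Nat.add (Nat.add (Nat.add (Nat.add (Nat.add C x8331) x5415) x3471) x3795) x4011) x3939) x3963) x3955)
    (Nat.add (Nat.add (Nat.add (Nat.add (Nat.add (Nat.add (Nat.add (Nat.add C x8335) x5419) x3475) x3799) x4015) x3955) x3963) x23643)
    (Nat.add (Nat.add (Nat.add (Nat.add (Nat.add (Nat.add (Nat.add (Nat.add C (Nat.mul x3963 (nat_lit 2))) x8337) x5421) x3477) x3801) x4017) x3957) x3961)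
    (Nat.add (Nat.add (Nat.add (Nat.add (Nat.add (Nat.add (Nat.add (Nat.add (Nat.add C x3977) x8351) x5435) x3491) x3815) x4139) x3923) x3983) x23659)
    (Nat.sub (Nat.add (Nat.add (Nat.add (Nat.add (Nat.add (Nat.add (Nat.add (Nat.add (Nat.add (Nat.add (Nat.add (Nat.add C x8357) x5441) x3497) x3821) x4145) x3929) x4001) x3977) x3989) x3985) x23665) (Nat.mul (e (nat_lit 3983)) ap)) (Nat.mul (e (nat_lit 3983)) an))
    (Nat.add (Nat.add (Nat.add (Nat.add (Nat.add (Nat.add (Nat.add (Nat.add (Nat.add (Nat.add (Nat.add C x3985) x8359) x5443) x3499) x3823) x4147) x3931) x4003) x3991) x3983) x23667)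
    (Nat.sub (Nat.sub (Nat.add (Nat.add (Nat.add (Nat.add (Nat.add (Nat.add (Nat.add (Nat.add (Nat.add (Nat.add (Nat.add C x8363) x5447) x3503) x3827) x4151) x3935) x4007) x3983) x3991) x23671) (Nat.mul (e (nat_lit 3989)) ap)) (Nat.mul x3989 (nat_lit 3))) (Nat.mul (e (nat_lit 3989)) an))
    (Nat.add (Nat.add (Nat.add (Nat.add (Nat.add (Nat.add (Nat.add (Nat.add (Nat.add (Nat.add (Nat.add C x8365) x5449) x3505) x3829) x4153) x3937) x4009) x3985) x3989) x3993) x23673)
    (Nat.add (Nat.add (Nat.add (Nat.add (Nat.add (Nat.add (Nat.add (Nat.add (Nat.add C x3993) x8367) x5451) x3507) x3831) x4155) x3939) x4011) x3991)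
    (Nat.sub (Nat.add (Nat.add (Nat.add (Nat.add (Nat.add (Nat.add (Nat.add (Nat.add (Nat.add (Nat.add (Nat.add (Nat.add C x8375) x5459) x3515) x3839) x4163) x3947) x4055) x3983) x4007) x4003) x23683) (Nat.mul (e (nat_lit 4001)) ap)) (Nat.mul (e (nat_lit 4001)) an))
    (Nat.add (Nat.add (Nat.add (Nat.add (Nat.add (Nat.add (Nat.add (Nat.add (Nat.add (Nat.add (Nat.add C x8377) x5461) x3517) x3841) x4165) x3949) x4057) x3985) x4009) x4001) x23685)
    (Nat.sub (Nat.sub (Nat.add (Nat.add (Nat.add (Nat.add (Nat.add (Nat.add (Nat.add (Nat.add (Nat.add (Nat.add (Nat.add (Nat.add (Nat.add C x8381) x5465) x3521) x3845) x4169) x3953) x4061) x3989) x4025) x4001) x4009) x23689) (Nat.mul (e (nat_lit 4007)) ap)) x4007) (Nat.mul (e (nat_lit 4007)) an))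
    (Nat.add (Nat.add (Nat.add (Nat.add (Nat.add (Nat.add (Nat.add (Nat.add (Nat.add (Nat.add (Nat.add (Nat.add (Nat.add (Nat.add (Nat.add C x4009) x8383) x5467) x3523) x3847) x4171) x3955) x4063) x3991) x4027) x4003) x4015) x4007) x4011) x23691)
    (Nat.add (Nat.add (Nat.add (Nat.add (Nat.add (Nat.add (Nat.add (Nat.add (Nat.add (Nat.add (Nat.add (Nat.add C x4011) x8385) x5469) x3525) x3849) x4173) x3957) x4065) x3993) x4029) x4017) x4009)
    (Nat.add (Nat.add (Nat.add (Nat.add (Nat.add (Nat.add (Nat.add (Nat.add (Nat.add (Nat.add (Nat.add C x8389) x5473) x3529) x3853) x4177) x3961) x4069) x4033) x4009) x4017) x23697)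
    (Nat.add (Nat.add (Nat.add (Nat.add (Nat.add (Nat.add (Nat.add (Nat.add (Nat.add (Nat.add (Nat.add C (Nat.mul x4017 (nat_lit 2))) x8391) x5475) x3531) x3855) x4179) x3963) x4071) x4035) x4011) x4015)
    (Nat.sub (Nat.sub (Nat.add (Nat.add (Nat.add (Nat.add (Nat.add (Nat.add (Nat.add (Nat.add (Nat.add (Nat.add C x8399) x5483) x3539) x3863) x4187) x4079) x4007) x4027) x23707) (Nat.mul (e (nat_lit 4025)) ap)) x4025) (Nat.mul (e (nat_lit 4025)) an))
    (Nat.add (Nat.add (Nat.add (Nat.add (Nat.add (Nat.add (Nat.add (Nat.add (Nat.add (Nat.add (Nat.add C x8401) x5485) x3541) x3865) x4189) x4081) x4009) x4033) x4025) x4029) x23709)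
    (Nat.sub (Nat.add (Nat.add (Nat.add (Nat.add (Nat.add (Nat.add (Nat.add (Nat.add (Nat.add C x8403) x5487) x3543) x3867) x4191) x4083) x4011) x4035) x4027) x4029)
    (Nat.add (Nat.add (Nat.add (Nat.add (Nat.add (Nat.add (Nat.add (Nat.add (Nat.add (Nat.add (Nat.add C x4033) x8407) x5491) x3547) x3871) x4195) x4087) x4015) x4027) x4035) x23715)
    (Nat.add (Nat.add (Nat.add (Nat.add (Nat.add (Nat.add (Nat.add (Nat.add (Nat.add (Nat.add (Nat.add C (Nat.mul x4035 (nat_lit 2))) x8409) x5493) x3549) x3873) x4197) x4089) x4017) x4029) x4041) x4033)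
    (Nat.add (Nat.add (Nat.add (Nat.add (Nat.add (Nat.add (Nat.add (Nat.add C (Nat.mul x4041 (nat_lit 3))) x8415) x5499) x3555) x3879) x4203) x4095) x4035)
    (Nat.add (Nat.add (Nat.add (Nat.add (Nat.add (Nat.add (Nat.add (Nat.add C x8429) x5513) x3569) x4217) x4001) x4061) x4057) x23737)
    (Nat.add (Nat.add (Nat.add (Nat.add (Nat.add (Nat.add (Nat.add (Nat.add C x8431) x5515) x3571) x4219) x4003) x4063) x4055) x23739)
    (Nat.sub (Nat.sub (Nat.add (Nat.add (Nat.add (Nat.add (Nat.add (Nat.add (Nat.add (Nat.add (Nat.add (Nat.add C x8435) x5519) x3575) x4223) x4007) x4079) x4055) x4063) x23743) (Nat.mul (e (nat_lit 4061)) ap)) (Nat.mul x4061 (nat_lit 2))) (Nat.mul (e (nat_lit 4061)) an))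
    (Nat.add (Nat.add (Nat.add (Nat.add (Nat.add (Nat.add (Nat.add (Nat.add (Nat.add (Nat.add (Nat.add C x8437) x5521) x3577) x4225) x4009) x4081) x4057) x4069) x4061) x4065) x23745)
    (Nat.add (Nat.add (Nat.add (Nat.add (Nat.add (Nat.add (Nat.add (Nat.add C x8439) x5523) x3579) x4227) x4011) x4083) x4071) x4063)
    (Nat.sub (Nat.add (Nat.add (Nat.add (Nat.add (Nat.add (Nat.add (Nat.add (Nat.add (Nat.add C x8443) x5527) x3583) x4231) x4015) x4087) x4063) x4071) x23751) (Nat.mul x4069 (nat_lit 2)))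
    (Nat.add (Nat.add (Nat.add (Nat.add (Nat.add (Nat.add (Nat.add (Nat.add C x8445) x5529) x3585) x4233) x4017) x4089) x4065) x4069)
    (Nat.sub (Nat.add (Nat.add (Nat.add (Nat.add (Nat.add (Nat.add (Nat.add (Nat.add (Nat.add C x8453) x5537) x3593) x4241) x4025) x4061) x4081) x23761) (Nat.mul (e (nat_lit 4079)) ap)) (Nat.mul (e (nat_lit 4079)) an))
    (Nat.add (Nat.add (Nat.add (Nat.add (Nat.add (Nat.add (Nat.add (Nat.add (Nat.add (Nat.add (Nat.add C x4081) x8455) x5539) x3595) x4243) x4027) x4063) x4087) x4079) x4083) x23763)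
    (Nat.add (Nat.add (Nat.add (Nat.add (Nat.add (Nat.add (Nat.add (Nat.add C x8457) x5541) x3597) x4245) x4029) x4065) x4089) x4081)
    (Nat.add (Nat.add (Nat.add (Nat.add (Nat.add (Nat.add (Nat.add (Nat.add (Nat.add (Nat.add (Nat.add C x4087) x8461) x5545) x3601) x4249) x4033) x4069) x4105) x4081) x4089) x23769)
    (Nat.add (Nat.add (Nat.add (Nat.add (Nat.add (Nat.add (Nat.add (Nat.add (Nat.add (Nat.add (Nat.add C (Nat.mul x4089 (nat_lit 2))) x8463) x5547) x3603) x4251) x4035) x4071) x4107) x4083) x4095) x4087)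
    (Nat.add (Nat.add (Nat.add (Nat.add (Nat.add (Nat.add (Nat.add (Nat.add C (Nat.mul x4095 (nat_lit 2))) x8469) x5553) x3609) x4257) x4041) x4113) x4089)
    (Nat.add (Nat.add (Nat.add (Nat.add (Nat.add (Nat.add (Nat.add (Nat.add C (Nat.mul x4105 (nat_lit 2))) x8479) x5563) x3619) x4267) x4087) x4107) x23787)
    (Nat.add (Nat.add (Nat.add (Nat.add (Nat.add (Nat.add (Nat.add (Nat.add C (Nat.mul x4107 (nat_lit 2))) x8481) x5565) x3621) x4269) x4089) x4113) x4105)
    (Nat.add (Nat.add (Nat.add (Nat.add (Nat.add (Nat.add (Nat.add C (Nat.mul x4113 (nat_lit 4))) x8487) x5571) x3627) x4275) x4095) x4107)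
    (Nat.add (Nat.add (Nat.add (Nat.add (Nat.add (Nat.add C (Nat.mul x4139 (nat_lit 2))) x8513) x5597) x3977) x4145) x23821)
    (Nat.add (Nat.add (Nat.add (Nat.add (Nat.add (Nat.add (Nat.add (Nat.add (Nat.add C x4145) x8519) x5603) x3983) x4163) x4139) x4151) x4147) x23827)
    (Nat.add (Nat.add (Nat.add (Nat.add (Nat.add (Nat.add (Nat.add (Nat.add C (Nat.mul x4147 (nat_lit 2))) x8521) x5605) x3985) x4165) x4153) x4145) x23829)
    (Nat.sub (Nat.sub (Nat.add (Nat.add (Nat.add (Nat.add (Nat.add (Nat.add (Nat.add (Nat.add C x8525) x5609) x3989) x4169) x4145) x4153) x23833) (Nat.mul (e (nat_lit 4151)) ap)) (Nat.mul x4151 (nat_lit 2))) (Nat.mul (e (nat_lit 4151)) an))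
    (Nat.add (Nat.add (Nat.add (Nat.add (Nat.add (Nat.add (Nat.add (Nat.add (Nat.add C x4153) x8527) x5611) x3991) x4171) x4147) x4151) x4155) x23835)
    (Nat.add (Nat.add (Nat.add (Nat.add (Nat.add (Nat.add C (Nat.mul x4155 (nat_lit 2))) x8529) x5613) x3993) x4173) x4153)
    (Nat.sub (Nat.add (Nat.add (Nat.add (Nat.add (Nat.add (Nat.add (Nat.add (Nat.add (Nat.add C x8537) x5621) x4001) x4217) x4145) x4169) x4165) x23845) (Nat.mul (e (nat_lit 4163)) ap)) (Nat.mul (e (nat_lit 4163)) an))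
    (Nat.add (Nat.add (Nat.add (Nat.add (Nat.add (Nat.add (Nat.add (Nat.add C x8539) x5623) x4003) x4219) x4147) x4171) x4163) x23847)
    (Nat.sub (Nat.sub (Nat.add (Nat.add (Nat.add (Nat.add (Nat.add (Nat.add (Nat.add (Nat.add (Nat.add (Nat.add C x8543) x5627) x4007) x4223) x4151) x4187) x4163) x4171) x23851) (Nat.mul (e (nat_lit 4169)) ap)) x4169) (Nat.mul (e (nat_lit 4169)) an))
    (Nat.add (Nat.add (Nat.add (Nat.add (Nat.add (Nat.add (Nat.add (Nat.add (Nat.add (Nat.add (Nat.add (Nat.add C x4171) x8545) x5629) x4009) x4225) x4153) x4189) x4165) x4177) x4169) x4173) x23853)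
    (Nat.add (Nat.add (Nat.add (Nat.add (Nat.add (Nat.add (Nat.add (Nat.add (Nat.add C x4173) x8547) x5631) x4011) x4227) x4155) x4191) x4179) x4171)
    (Nat.add (Nat.add (Nat.add (Nat.add (Nat.add (Nat.add (Nat.add (Nat.add C x8551) x5635) x4015) x4231) x4195) x4171) x4179) x23859)
    (Nat.add (Nat.add (Nat.add (Nat.add (Nat.add (Nat.add (Nat.add (Nat.add C (Nat.mul x4179 (nat_lit 2))) x8553) x5637) x4017) x4233) x4197) x4173) x4177)
    (Nat.sub (Nat.sub (Nat.add (Nat.add (Nat.add (Nat.add (Nat.add (Nat.add (Nat.add (Nat.add C x8561) x5645) x4025) x4241) x4169) x4189) x23869) (Nat.mul (e (nat_lit 4187)) ap)) (Nat.mul x4187 (nat_lit 2))) (Nat.mul (e (nat_lit 4187)) an))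
    (Nat.sub (Nat.add (Nat.add (Nat.add (Nat.add (Nat.add (Nat.add (Nat.add (Nat.add (Nat.add C x8563) x5647) x4027) x4243) x4171) x4195) x4187) x4191) x23871) x4189)
    (Nat.sub (Nat.add (Nat.add (Nat.add (Nat.add (Nat.add (Nat.add (Nat.add C x8565) x5649) x4029) x4245) x4173) x4197) x4189) (Nat.mul x4191 (nat_lit 2)))
    (Nat.add (Nat.add (Nat.add (Nat.add (Nat.add (Nat.add (Nat.add (Nat.add C x8569) x5653) x4033) x4249) x4177) x4189) x4197) x23877)
    (Nat.add (Nat.add (Nat.add (Nat.add (Nat.add (Nat.add (Nat.add (Nat.add (Nat.add C x4197) x8571) x5655) x4035) x4251) x4179) x4191) x4203) x4195)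
    (Nat.add (Nat.add (Nat.add (Nat.add (Nat.add (Nat.add C (Nat.mul x4203 (nat_lit 2))) x8577) x5661) x4041) x4257) x4197)
    (Nat.add (Nat.add (Nat.add (Nat.add (Nat.add (Nat.add (Nat.add (Nat.add C (Nat.mul x4217 (nat_lit 2))) x8591) x5675) x4055) x4163) x4223) x4219) x23899)
    (Nat.add (Nat.add (Nat.add (Nat.add (Nat.add (Nat.add (Nat.add (Nat.add C (Nat.mul x4219 (nat_lit 2))) x8593) x5677) x4057) x4165) x4225) x4217) x23901)
    (Nat.sub (Nat.add (Nat.add (Nat.add (Nat.add (Nat.add (Nat.add (Nat.add (Nat.add (Nat.add C x8597) x5681) x4061) x4169) x4241) x4217) x4225) x23905) (Nat.mul (e (nat_lit 4223)) ap)) (Nat.mul (e (nat_lit 4223)) an))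
    (Nat.add (Nat.add (Nat.add (Nat.add (Nat.add (Nat.add (Nat.add (Nat.add (Nat.add (Nat.add (Nat.add C (Nat.mul x4225 (nat_lit 2))) x8599) x5683) x4063) x4171) x4243) x4219) x4231) x4223) x4227) x23907)
    (Nat.add (Nat.add (Nat.add (Nat.add (Nat.add (Nat.add (Nat.add (Nat.add C (Nat.mul x4227 (nat_lit 2))) x8601) x5685) x4065) x4173) x4245) x4233) x4225)
    (Nat.add (Nat.add (Nat.add (Nat.add (Nat.add (Nat.add (Nat.add (Nat.add C x8605) x5689) x4069) x4177) x4249) x4225) x4233) x23913)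
    (Nat.add (Nat.add (Nat.add (Nat.add (Nat.add (Nat.add (Nat.add (Nat.add C (Nat.mul x4233 (nat_lit 2))) x8607) x5691) x4071) x4179) x4251) x4227) x4231)
    (Nat.add (Nat.add (Nat.add (Nat.add (Nat.add (Nat.add (Nat.add (Nat.add (Nat.add C x4241) x8615) x5699) x4079) x4187) x4295) x4223) x4243) x23923)
    (Nat.add (Nat.add (Nat.add (Nat.add (Nat.add (Nat.add (Nat.add (Nat.add (Nat.add (Nat.add (Nat.add C (Nat.mul x4243 (nat_lit 2))) x8617) x5701) x4081) x4189) x4297) x4225) x4249) x4241) x4245) x23925)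
    (Nat.add (Nat.add (Nat.add (Nat.add (Nat.add (Nat.add (Nat.add (Nat.add (Nat.add C x4245) x8619) x5703) x4083) x4191) x4299) x4227) x4251) x4243)
    (Nat.add (Nat.add (Nat.add (Nat.add (Nat.add (Nat.add (Nat.add (Nat.add (Nat.add (Nat.add (Nat.add C (Nat.mul x4249 (nat_lit 2))) x8623) x5707) x4087) x4195) x4303) x4231) x4267) x4243) x4251) x23931)
    (Nat.add (Nat.add (Nat.add (Nat.add (Nat.add (Nat.add (Nat.add (Nat.add (Nat.add (Nat.add (Nat.add C (Nat.mul x4251 (nat_lit 3))) x8625) x5709) x4089) x4197) x4305) x4233) x4269) x4245) x4257) x4249)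
    (Nat.add (Nat.add (Nat.add (Nat.add (Nat.add (Nat.add (Nat.add (Nat.add C (Nat.mul x4257 (nat_lit 3))) x8631) x5715) x4095) x4203) x4311) x4275) x4251)
    (Nat.add (Nat.add (Nat.add (Nat.add (Nat.add (Nat.add (Nat.add (Nat.add C (Nat.mul x4267 (nat_lit 2))) x8641) x5725) x4105) x4321) x4249) x4269) x23949)
    (Nat.add (Nat.add (Nat.add (Nat.add (Nat.add (Nat.add (Nat.add (Nat.add C (Nat.mul x4269 (nat_lit 2))) x8643) x5727) x4107) x4323) x4251) x4275) x4267)
    (Nat.add (Nat.add (Nat.add (Nat.add (Nat.add (Nat.add (Nat.add C (Nat.mul x4275 (nat_lit 4))) x8649) x5733) x4113) x4329) x4257) x4269)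
    (Nat.add (Nat.add (Nat.add (Nat.add (Nat.add (Nat.add C (Nat.mul x4295 (nat_lit 2))) x8669) x5753) x4241) x4297) x23977)
    (Nat.add (Nat.add (Nat.add (Nat.add (Nat.add (Nat.add (Nat.add (Nat.add C (Nat.mul x4297 (nat_lit 3))) x8671) x5755) x4243) x4303) x4295) x4299) x23979)
    (Nat.add (Nat.add (Nat.add (Nat.add (Nat.add (Nat.add C (Nat.mul x4299 (nat_lit 2))) x8673) x5757) x4245) x4305) x4297)
    (Nat.add (Nat.add (Nat.add (Nat.add (Nat.add (Nat.add (Nat.add (Nat.add C (Nat.mul x4303 (nat_lit 2))) x8677) x5761) x4249) x4321) x4297) x4305) x23985)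
    (Nat.add (Nat.add (Nat.add (Nat.add (Nat.add (Nat.add (Nat.add (Nat.add C (Nat.mul x4305 (nat_lit 3))) x8679) x5763) x4251) x4323) x4299) x4311) x4303)
    (Nat.add (Nat.add (Nat.add (Nat.add (Nat.add (Nat.add C (Nat.mul x4311 (nat_lit 2))) x8685) x5769) x4257) x4329) x4305)
    (Nat.add (Nat.add (Nat.add (Nat.add (Nat.add (Nat.add (Nat.add C (Nat.mul x4321 (nat_lit 4))) x8695) x5779) x4267) x4303) x4323) x24003)
    (Nat.add (Nat.add (Nat.add (Nat.add (Nat.add (Nat.add (Nat.add C (Nat.mul x4323 (nat_lit 4))) x8697) x5781) x4269) x4305) x4329) x4321)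
    (Nat.add (Nat.add (Nat.add (Nat.add (Nat.add (Nat.add (Nat.add C (Nat.mul x4329 (nat_lit 5))) x8703) x5787) x4275) x4311) x4347) x4323)
    (Nat.add (Nat.add (Nat.add (Nat.add C (Nat.mul x4347 (nat_lit 6))) x8721) x5805) x4329)
    (Nat.add (Nat.add (Nat.add (Nat.add (Nat.add (Nat.add C (Nat.mul x4427 (nat_lit 2))) x8801) x2969) x4481) x4445) x24109)
    (Nat.add (Nat.add (Nat.add (Nat.add (Nat.add (Nat.add C x8819) x2987) x4499) x4427) x4451) x24127)
    (Nat.add (Nat.add (Nat.add (Nat.add (Nat.add (Nat.add C x8825) x2993) x4505) x4445) x4453) x24133)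
    (Nat.add (Nat.add (Nat.add (Nat.add (Nat.add (Nat.add C (Nat.mul x4453 (nat_lit 2))) x8827) x2995) x4507) x4451) x24135)
    (Nat.add (Nat.add (Nat.add (Nat.add (Nat.add (Nat.add C x8855) x3023) x4643) x4427) x4499) x24163)
    (Nat.add (Nat.add (Nat.add (Nat.add (Nat.add (Nat.add (Nat.add (Nat.add (Nat.add C x8873) x3041) x4661) x4445) x4553) x4481) x4517) x4505) x24181)
    (Nat.sub (Nat.add (Nat.add (Nat.add (Nat.add (Nat.add (Nat.add (Nat.add (Nat.add (Nat.add C x8879) x3047) x4667) x4451) x4559) x4523) x4499) x4507) x24187) x4505)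
    (Nat.add (Nat.add (Nat.add (Nat.add (Nat.add (Nat.add (Nat.add (Nat.add (Nat.add C x4507) x8881) x3049) x4669) x4453) x4561) x4525) x4505) x24189)
    (Nat.sub (Nat.add (Nat.add (Nat.add (Nat.add (Nat.add (Nat.add (Nat.add C x8891) x3059) x4679) x4571) x4499) x4523) x24199) (Nat.mul x4517 (nat_lit 2)))
    (Nat.sub (Nat.add (Nat.add (Nat.add (Nat.add (Nat.add (Nat.add (Nat.add (Nat.add (Nat.add C x8897) x3065) x4685) x4577) x4505) x4517) x4529) x4525) x24205) x4523)
    (Nat.add (Nat.add (Nat.add (Nat.add (Nat.add (Nat.add (Nat.add (Nat.add C x8899) x3067) x4687) x4579) x4507) x4531) x4523) x24207)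
    (Nat.sub (Nat.add (Nat.add (Nat.add (Nat.add (Nat.add (Nat.add (Nat.add C x8903) x3071) x4691) x4583) x4523) x4531) x24211) (Nat.mul x4529 (nat_lit 2)))
    (Nat.add (Nat.add (Nat.add (Nat.add (Nat.add (Nat.add (Nat.add (Nat.add (Nat.add C x4531) x8905) x3073) x4693) x4585) x4525) x4529) x4533) x24213)
    (Nat.add (Nat.add (Nat.add (Nat.add (Nat.add (Nat.add C (Nat.mul x4533 (nat_lit 2))) x8907) x3075) x4695) x4587) x4531)
    (Nat.sub (Nat.sub (Nat.add (Nat.add (Nat.add (Nat.add (Nat.add (Nat.add (Nat.add (Nat.add C x8927) x3095) x4715) x4499) x4571) x4559) x24235) (Nat.mul (e (nat_lit 4553)) ap)) (Nat.mul x4553 (nat_lit 2))) (Nat.mul (e (nat_lit 4553)) an))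
    (Nat.sub (Nat.sub (Nat.add (Nat.add (Nat.add (Nat.add (Nat.add (Nat.add (Nat.add (Nat.add (Nat.add C x8933) x3101) x4721) x4505) x4577) x4553) x4561) x24241) (Nat.mul (e (nat_lit 4559)) ap)) (Nat.mul x4559 (nat_lit 4))) (Nat.mul (e (nat_lit 4559)) an))
    (Nat.sub (Nat.add (Nat.add (Nat.add (Nat.add (Nat.add (Nat.add (Nat.add C x8935) x3103) x4723) x4507) x4579) x4559) x24243) (Nat.mul x4561 (nat_lit 2)))
    (Nat.sub (Nat.sub (Nat.add (Nat.add (Nat.add (Nat.add (Nat.add (Nat.add (Nat.add (Nat.add C x8945) x3113) x4733) x4517) x4553) x4577) x24253) (Nat.mul (e (nat_lit 4571)) ap)) (Nat.mul x4571 (nat_lit 2))) (Nat.mul (e (nat_lit 4571)) an))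
    (Nat.sub (Nat.sub (Nat.add (Nat.add (Nat.add (Nat.add (Nat.add (Nat.add (Nat.add (Nat.add (Nat.add (Nat.add (Nat.add C x8951) x3119) x4739) x4523) x4559) x4595) x4571) x4583) x4579) x24259) (Nat.mul (e (nat_lit 4577)) ap)) (Nat.mul x4577 (nat_lit 2))) (Nat.mul (e (nat_lit 4577)) an))
    (Nat.sub (Nat.add (Nat.add (Nat.add (Nat.add (Nat.add (Nat.add (Nat.add (Nat.add (Nat.add C x8953) x3121) x4741) x4525) x4561) x4597) x4585) x4577) x24261) x4579)
    (Nat.sub (Nat.add (Nat.add (Nat.add (Nat.add (Nat.add (Nat.add (Nat.add (Nat.add C x8957) x3125) x4745) x4529) x4601) x4577) x4585) x24265) (Nat.mul x4583 (nat_lit 4)))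
    (Nat.sub (Nat.add (Nat.add (Nat.add (Nat.add (Nat.add (Nat.add (Nat.add (Nat.add (Nat.add C x8959) x3127) x4747) x4531) x4603) x4579) x4583) x4587) x24267) x4585)
    (Nat.add (Nat.add (Nat.add (Nat.add (Nat.add (Nat.add C x8961) x3129) x4749) x4533) x4605) x4585)
    (Nat.sub (Nat.add (Nat.add (Nat.add (Nat.add (Nat.add (Nat.add (Nat.add C x8969) x3137) x4757) x4577) x4601) x4597) x24277) (Nat.mul x4595 (nat_lit 2)))
    (Nat.sub (Nat.add (Nat.add (Nat.add (Nat.add (Nat.add (Nat.add (Nat.add C x8971) x3139) x4759) x4579) x4603) x4595) x24279) (Nat.mul x4597 (nat_lit 2)))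
    (Nat.sub (Nat.add (Nat.add (Nat.add (Nat.add (Nat.add (Nat.add (Nat.add C x8975) x3143) x4763) x4583) x4595) x4603) x24283) (Nat.mul x4601 (nat_lit 2)))
    (Nat.add (Nat.add (Nat.add (Nat.add (Nat.add (Nat.add (Nat.add (Nat.add (Nat.add C x8977) x3145) x4765) x4585) x4597) x4609) x4601) x4605) x24285)
    (Nat.add (Nat.add (Nat.add (Nat.add (Nat.add (Nat.add C x8979) x3147) x4767) x4587) x4611) x4603)
    (Nat.add (Nat.add (Nat.add (Nat.add (Nat.add (Nat.add C x8983) x3151) x4771) x4603) x4611) x24291)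
    (Nat.add (Nat.add (Nat.add (Nat.add (Nat.add (Nat.add C (Nat.mul x4611 (nat_lit 2))) x8985) x3153) x4773) x4605) x4609)
    (Nat.add (Nat.add (Nat.add (Nat.add (Nat.add (Nat.add C x9017) x3185) x5129) x4481) x4661) x24325)
    (Nat.sub (Nat.sub (Nat.add (Nat.add (Nat.add (Nat.add (Nat.add (Nat.add (Nat.add (Nat.add (Nat.add (Nat.add C x9035) x3203) x5147) x4499) x4715) x4643) x4679) x4667) x24343) (Nat.mul (e (nat_lit 4661)) ap)) x4661) (Nat.mul (e (nat_lit 4661)) an))
    (Nat.sub (Nat.sub (Nat.add (Nat.add (Nat.add (Nat.add (Nat.add (Nat.add (Nat.add (Nat.add (Nat.add (Nat.add C x9041) x3209) x5153) x4505) x4721) x4685) x4661) x4669) x24349) (Nat.mul (e (nat_lit 4667)) ap)) (Nat.mul x4667 (nat_lit 2))) (Nat.mul (e (nat_lit 4667)) an))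
    (Nat.add (Nat.add (Nat.add (Nat.add (Nat.add (Nat.add (Nat.add (Nat.add C x9043) x3211) x5155) x4507) x4723) x4687) x4667) x24351)
    (Nat.sub (Nat.sub (Nat.add (Nat.add (Nat.add (Nat.add (Nat.add (Nat.add (Nat.add (Nat.add (Nat.add C x9053) x3221) x5165) x4517) x4733) x4661) x4685) x24361) (Nat.mul (e (nat_lit 4679)) ap)) (Nat.mul x4679 (nat_lit 4))) (Nat.mul (e (nat_lit 4679)) an))
    (Nat.sub (Nat.sub (Nat.add (Nat.add (Nat.add (Nat.add (Nat.add (Nat.add (Nat.add (Nat.add (Nat.add (Nat.add (Nat.add C x9059) x3227) x5171) x4523) x4739) x4667) x4679) x4691) x4687) x24367) (Nat.mul (e (nat_lit 4685)) ap)) (Nat.mul x4685 (nat_lit 3))) (Nat.mul (e (nat_lit 4685)) an))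
    (Nat.sub (Nat.add (Nat.add (Nat.add (Nat.add (Nat.add (Nat.add (Nat.add (Nat.add (Nat.add C x9061) x3229) x5173) x4525) x4741) x4669) x4693) x4685) x24369) (Nat.mul x4687 (nat_lit 2)))
    (Nat.sub (Nat.sub (Nat.add (Nat.add (Nat.add (Nat.add (Nat.add (Nat.add (Nat.add (Nat.add (Nat.add C x9065) x3233) x5177) x4529) x4745) x4685) x4693) x24373) (Nat.mul (e (nat_lit 4691)) ap)) (Nat.mul x4691 (nat_lit 4))) (Nat.mul (e (nat_lit 4691)) an))
    (Nat.sub (Nat.add (Nat.add (Nat.add (Nat.add (Nat.add (Nat.add (Nat.add (Nat.add (Nat.add C x9067) x3235) x5179) x4531) x4747) x4687) x4691) x4695) x24375) x4693)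
    (Nat.add (Nat.add (Nat.add (Nat.add (Nat.add (Nat.add C x9069) x3237) x5181) x4533) x4749) x4693)
    (Nat.sub (Nat.sub (Nat.add (Nat.add (Nat.add (Nat.add (Nat.add (Nat.add (Nat.add (Nat.add (Nat.add (Nat.add C x9089) x3257) x5201) x4553) x4877) x4661) x4733) x4721) x24397) (Nat.mul (e (nat_lit 4715)) ap)) x4715) (Nat.mul (e (nat_lit 4715)) an))
    (Nat.sub (Nat.sub (Nat.add (Nat.add (Nat.add (Nat.add (Nat.add (Nat.add (Nat.add (Nat.add (Nat.add (Nat.add (Nat.add C x9095) x3263) x5207) x4559) x4883) x4667) x4739) x4715) x4723) x24403) (Nat.mul (e (nat_lit 4721)) ap)) (Nat.mul x4721 (nat_lit 3))) (Nat.mul (e (nat_lit 4721)) an))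
    (Nat.sub (Nat.add (Nat.add (Nat.add (Nat.add (Nat.add (Nat.add (Nat.add (Nat.add (Nat.add C x9097) x3265) x5209) x4561) x4885) x4669) x4741) x4721) x24405) x4723)
    (Nat.sub (Nat.sub (Nat.add (Nat.add (Nat.add (Nat.add (Nat.add (Nat.add (Nat.add (Nat.add (Nat.add (Nat.add (Nat.add C x9107) x3275) x5219) x4571) x4895) x4679) x4787) x4715) x4739) x24415) (Nat.mul (e (nat_lit 4733)) ap)) (Nat.mul x4733 (nat_lit 2))) (Nat.mul (e (nat_lit 4733)) an))
    (Nat.sub (Nat.sub (Nat.add (Nat.add (Nat.add (Nat.add (Nat.add (Nat.add (Nat.add (Nat.add (Nat.add (Nat.add (Nat.add (Nat.add (Nat.add (Nat.add C x9113) x3281) x5225) x4577) x4901) x4685) x4793) x4721) x4757) x4733) x4745) x4741) x24421) (Nat.mul (e (nat_lit 4739)) ap)) (Nat.mul x4739 (nat_lit 2))) (Nat.mul (e (nat_lit 4739)) an))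
    (Nat.sub (Nat.add (Nat.add (Nat.add (Nat.add (Nat.add (Nat.add (Nat.add (Nat.add (Nat.add (Nat.add (Nat.add (Nat.add C x9115) x3283) x5227) x4579) x4903) x4687) x4795) x4723) x4759) x4747) x4739) x24423) x4741)
    (Nat.sub (Nat.sub (Nat.add (Nat.add (Nat.add (Nat.add (Nat.add (Nat.add (Nat.add (Nat.add (Nat.add (Nat.add (Nat.add (Nat.add C x9119) x3287) x5231) x4583) x4907) x4691) x4799) x4763) x4739) x4747) x24427) (Nat.mul (e (nat_lit 4745)) ap)) (Nat.mul x4745 (nat_lit 4))) (Nat.mul (e (nat_lit 4745)) an))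
    (Nat.sub (Nat.add (Nat.add (Nat.add (Nat.add (Nat.add (Nat.add (Nat.add (Nat.add (Nat.add (Nat.add (Nat.add (Nat.add C x9121) x3289) x5233) x4585) x4909) x4693) x4801) x4765) x4741) x4745) x4749) x24429) x4747)
    (Nat.add (Nat.add (Nat.add (Nat.add (Nat.add (Nat.add (Nat.add (Nat.add (Nat.add C x9123) x3291) x5235) x4587) x4911) x4695) x4803) x4767) x4747)
    (Nat.sub (Nat.sub (Nat.add (Nat.add (Nat.add (Nat.add (Nat.add (Nat.add (Nat.add (Nat.add (Nat.add (Nat.add (Nat.add C x9131) x3299) x5243) x4595) x4919) x4811) x4739) x4763) x4759) x24439) (Nat.mul (e (nat_lit 4757)) ap)) (Nat.mul x4757 (nat_lit 3))) (Nat.mul (e (nat_lit 4757)) an))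
    (Nat.sub (Nat.add (Nat.add (Nat.add (Nat.add (Nat.add (Nat.add (Nat.add (Nat.add (Nat.add (Nat.add C x9133) x3301) x5245) x4597) x4921) x4813) x4741) x4765) x4757) x24441) (Nat.mul x4759 (nat_lit 3)))
    (Nat.sub (Nat.sub (Nat.add (Nat.add (Nat.add (Nat.add (Nat.add (Nat.add (Nat.add (Nat.add (Nat.add (Nat.add (Nat.add C x9137) x3305) x5249) x4601) x4925) x4817) x4745) x4757) x4765) x24445) (Nat.mul (e (nat_lit 4763)) ap)) (Nat.mul x4763 (nat_lit 3))) (Nat.mul (e (nat_lit 4763)) an))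
    (Nat.sub (Nat.add (Nat.add (Nat.add (Nat.add (Nat.add (Nat.add (Nat.add (Nat.add (Nat.add (Nat.add (Nat.add (Nat.add C x9139) x3307) x5251) x4603) x4927) x4819) x4747) x4759) x4771) x4763) x4767) x24447) x4765)
    (Nat.sub (Nat.add (Nat.add (Nat.add (Nat.add (Nat.add (Nat.add (Nat.add (Nat.add (Nat.add C x9141) x3309) x5253) x4605) x4929) x4821) x4749) x4773) x4765) x4767)
    (Nat.sub (Nat.add (Nat.add (Nat.add (Nat.add (Nat.add (Nat.add (Nat.add (Nat.add (Nat.add C x9145) x3313) x5257) x4609) x4933) x4825) x4765) x4773) x24453) x4771)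
    (Nat.add (Nat.add (Nat.add (Nat.add (Nat.add (Nat.add (Nat.add (Nat.add (Nat.add C x4773) x9147) x3315) x5259) x4611) x4935) x4827) x4767) x4771)
    (Nat.sub (Nat.sub (Nat.add (Nat.add (Nat.add (Nat.add (Nat.add (Nat.add (Nat.add (Nat.add C x9161) x3329) x5273) x4949) x4733) x4793) x24469) (Nat.mul (e (nat_lit 4787)) ap)) (Nat.mul x4787 (nat_lit 2))) (Nat.mul (e (nat_lit 4787)) an))
    (Nat.sub (Nat.sub (Nat.add (Nat.add (Nat.add (Nat.add (Nat.add (Nat.add (Nat.add (Nat.add (Nat.add (Nat.add (Nat.add C x9167) x3335) x5279) x4955) x4739) x4811) x4787) x4799) x4795) x24475) (Nat.mul (e (nat_lit 4793)) ap)) (Nat.mul x4793 (nat_lit 3))) (Nat.mul (e (nat_lit 4793)) an))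
    (Nat.sub (Nat.add (Nat.add (Nat.add (Nat.add (Nat.add (Nat.add (Nat.add (Nat.add (Nat.add C x9169) x3337) x5281) x4957) x4741) x4813) x4801) x4793) x24477) (Nat.mul x4795 (nat_lit 2)))
    (Nat.sub (Nat.sub (Nat.add (Nat.add (Nat.add (Nat.add (Nat.add (Nat.add (Nat.add (Nat.add (Nat.add (Nat.add C x9173) x3341) x5285) x4961) x4745) x4817) x4793) x4801) x24481) (Nat.mul (e (nat_lit 4799)) ap)) (Nat.mul x4799 (nat_lit 6))) (Nat.mul (e (nat_lit 4799)) an))
    (Nat.sub (Nat.add (Nat.add (Nat.add (Nat.add (Nat.add (Nat.add (Nat.add (Nat.add (Nat.add (Nat.add C x9175) x3343) x5287) x4963) x4747) x4819) x4795) x4799) x4803) x24483) (Nat.mul x4801 (nat_lit 3)))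
    (Nat.sub (Nat.add (Nat.add (Nat.add (Nat.add (Nat.add (Nat.add (Nat.add C x9177) x3345) x5289) x4965) x4749) x4821) x4801) (Nat.mul x4803 (nat_lit 2)))
    (Nat.sub (Nat.sub (Nat.add (Nat.add (Nat.add (Nat.add (Nat.add (Nat.add (Nat.add (Nat.add (Nat.add (Nat.add C x9185) x3353) x5297) x4973) x4757) x4793) x4817) x4813) x24493) (Nat.mul (e (nat_lit 4811)) ap)) (Nat.mul x4811 (nat_lit 2))) (Nat.mul (e (nat_lit 4811)) an))
    (Nat.sub (Nat.add (Nat.add (Nat.add (Nat.add (Nat.add (Nat.add (Nat.add (Nat.add (Nat.add C x9187) x3355) x5299) x4975) x4759) x4795) x4819) x4811) x24495) (Nat.mul x4813 (nat_lit 2)))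
    (Nat.sub (Nat.add (Nat.add (Nat.add (Nat.add (Nat.add (Nat.add (Nat.add (Nat.add (Nat.add (Nat.add C x9191) x3359) x5303) x4979) x4763) x4799) x4835) x4811) x4819) x24499) (Nat.mul x4817 (nat_lit 3)))
    (Nat.sub (Nat.add (Nat.add (Nat.add (Nat.add (Nat.add (Nat.add (Nat.add (Nat.add (Nat.add (Nat.add (Nat.add (Nat.add C x9193) x3361) x5305) x4981) x4765) x4801) x4837) x4813) x4825) x4817) x4821) x24501) x4819)
    (Nat.sub (Nat.add (Nat.add (Nat.add (Nat.add (Nat.add (Nat.add (Nat.add (Nat.add (Nat.add C x9195) x3363) x5307) x4983) x4767) x4803) x4839) x4827) x4819) x4821)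
    (Nat.sub (Nat.add (Nat.add (Nat.add (Nat.add (Nat.add (Nat.add (Nat.add (Nat.add (Nat.add C x9199) x3367) x5311) x4987) x4771) x4843) x4819) x4827) x24507) (Nat.mul x4825 (nat_lit 2)))
    (Nat.add (Nat.add (Nat.add (Nat.add (Nat.add (Nat.add (Nat.add (Nat.add C x9201) x3369) x5313) x4989) x4773) x4845) x4821) x4825)
    (Nat.sub (Nat.add (Nat.add (Nat.add (Nat.add (Nat.add (Nat.add (Nat.add C x9209) x3377) x5321) x4997) x4817) x4837) x24517) (Nat.mul x4835 (nat_lit 2)))
    (Nat.sub (Nat.add (Nat.add (Nat.add (Nat.add (Nat.add (Nat.add (Nat.add (Nat.add (Nat.add C x9211) x3379) x5323) x4999) x4819) x4843) x4835) x4839) x24519) x4837)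
    (Nat.sub (Nat.add (Nat.add (Nat.add (Nat.add (Nat.add (Nat.add (Nat.add C x9213) x3381) x5325) x5001) x4821) x4845) x4837) (Nat.mul x4839 (nat_lit 2)))
    (Nat.add (Nat.add (Nat.add (Nat.add (Nat.add (Nat.add (Nat.add (Nat.add C x9217) x3385) x5329) x5005) x4825) x4837) x4845) x24525)
    (Nat.add (Nat.add (Nat.add (Nat.add (Nat.add (Nat.add (Nat.add (Nat.add (Nat.add C x4845) x9219) x3387) x5331) x5007) x4827) x4839) x4851) x4843)
    (Nat.add (Nat.add (Nat.add (Nat.add (Nat.add (Nat.add C (Nat.mul x4851 (nat_lit 2))) x9225) x3393) x5337) x5013) x4845)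
    (Nat.sub (Nat.add (Nat.add (Nat.add (Nat.add (Nat.add (Nat.add (Nat.add C x9251) x3419) x5363) x4715) x4895) x4883) x24559) (Nat.mul x4877 (nat_lit 2)))
    (Nat.sub (Nat.sub (Nat.add (Nat.add (Nat.add (Nat.add (Nat.add (Nat.add (Nat.add (Nat.add (Nat.add C x9257) x3425) x5369) x4721) x4901) x4877) x4885) x24565) (Nat.mul (e (nat_lit 4883)) ap)) (Nat.mul x4883 (nat_lit 4))) (Nat.mul (e (nat_lit 4883)) an))
    (Nat.sub (Nat.add (Nat.add (Nat.add (Nat.add (Nat.add (Nat.add (Nat.add C x9259) x3427) x5371) x4723) x4903) x4883) x24567) (Nat.mul x4885 (nat_lit 2)))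
    (Nat.sub (Nat.sub (Nat.add (Nat.add (Nat.add (Nat.add (Nat.add (Nat.add (Nat.add (Nat.add (Nat.add C x9269) x3437) x5381) x4733) x4949) x4877) x4901) x24577) (Nat.mul (e (nat_lit 4895)) ap)) (Nat.mul x4895 (nat_lit 4))) (Nat.mul (e (nat_lit 4895)) an))
    (Nat.sub (Nat.sub (Nat.add (Nat.add (Nat.add (Nat.add (Nat.add (Nat.add (Nat.add (Nat.add (Nat.add (Nat.add (Nat.add (Nat.add C x9275) x3443) x5387) x4739) x4955) x4883) x4919) x4895) x4907) x4903) x24583) (Nat.mul (e (nat_lit 4901)) ap)) (Nat.mul x4901 (nat_lit 4))) (Nat.mul (e (nat_lit 4901)) an))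
    (Nat.sub (Nat.add (Nat.add (Nat.add (Nat.add (Nat.add (Nat.add (Nat.add (Nat.add (Nat.add (Nat.add C x9277) x3445) x5389) x4741) x4957) x4885) x4921) x4909) x4901) x24585) (Nat.mul x4903 (nat_lit 3)))
    (Nat.sub (Nat.sub (Nat.add (Nat.add (Nat.add (Nat.add (Nat.add (Nat.add (Nat.add (Nat.add (Nat.add (Nat.add C x9281) x3449) x5393) x4745) x4961) x4925) x4901) x4909) x24589) (Nat.mul (e (nat_lit 4907)) ap)) (Nat.mul x4907 (nat_lit 6))) (Nat.mul (e (nat_lit 4907)) an))
    (Nat.sub (Nat.add (Nat.add (Nat.add (Nat.add (Nat.add (Nat.add (Nat.add (Nat.add (Nat.add (Nat.add C x9283) x3451) x5395) x4747) x4963) x4927) x4903) x4907) x4911) x24591) (Nat.mul x4909 (nat_lit 3)))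
    (Nat.sub (Nat.add (Nat.add (Nat.add (Nat.add (Nat.add (Nat.add (Nat.add C x9285) x3453) x5397) x4749) x4965) x4929) x4909) (Nat.mul x4911 (nat_lit 2)))
    (Nat.sub (Nat.sub (Nat.add (Nat.add (Nat.add (Nat.add (Nat.add (Nat.add (Nat.add (Nat.add (Nat.add (Nat.add C x9293) x3461) x5405) x4757) x4973) x4901) x4925) x4921) x24601) (Nat.mul (e (nat_lit 4919)) ap)) (Nat.mul x4919 (nat_lit 6))) (Nat.mul (e (nat_lit 4919)) an))
    (Nat.sub (Nat.add (Nat.add (Nat.add (Nat.add (Nat.add (Nat.add (Nat.add (Nat.add (Nat.add C x9295) x3463) x5407) x4759) x4975) x4903) x4927) x4919) x24603) (Nat.mul x4921 (nat_lit 6)))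
    (Nat.sub (Nat.add (Nat.add (Nat.add (Nat.add (Nat.add (Nat.add (Nat.add (Nat.add (Nat.add C x9299) x3467) x5411) x4763) x4979) x4907) x4919) x4927) x24607) (Nat.mul x4925 (nat_lit 6)))
    (Nat.sub (Nat.add (Nat.add (Nat.add (Nat.add (Nat.add (Nat.add (Nat.add (Nat.add (Nat.add (Nat.add (Nat.add C x9301) x3469) x5413) x4765) x4981) x4909) x4921) x4933) x4925) x4929) x24609) (Nat.mul x4927 (nat_lit 4)))
    (Nat.sub (Nat.add (Nat.add (Nat.add (Nat.add (Nat.add (Nat.add (Nat.add (Nat.add C x9303) x3471) x5415) x4767) x4983) x4911) x4935) x4927) (Nat.mul x4929 (nat_lit 4)))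
    (Nat.sub (Nat.add (Nat.add (Nat.add (Nat.add (Nat.add (Nat.add (Nat.add (Nat.add C x9307) x3475) x5419) x4771) x4987) x4927) x4935) x24615) (Nat.mul x4933 (nat_lit 4)))
    (Nat.sub (Nat.add (Nat.add (Nat.add (Nat.add (Nat.add (Nat.add (Nat.add C x9309) x3477) x5421) x4773) x4989) x4929) x4933) (Nat.mul x4935 (nat_lit 2)))
    (Nat.sub (Nat.add (Nat.add (Nat.add (Nat.add (Nat.add (Nat.add (Nat.add C x9323) x3491) x5435) x4787) x4895) x4955) x24631) (Nat.mul x4949 (nat_lit 2)))
    (Nat.sub (Nat.sub (Nat.add (Nat.add (Nat.add (Nat.add (Nat.add (Nat.add (Nat.add (Nat.add (Nat.add (Nat.add (Nat.add C x9329) x3497) x5441) x4793) x4901) x4973) x4949) x4961) x4957) x24637) (Nat.mul (e (nat_lit 4955)) ap)) (Nat.mul x4955 (nat_lit 3))) (Nat.mul (e (nat_lit 4955)) an))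
    (Nat.sub (Nat.add (Nat.add (Nat.add (Nat.add (Nat.add (Nat.add (Nat.add (Nat.add (Nat.add C x9331) x3499) x5443) x4795) x4903) x4975) x4963) x4955) x24639) (Nat.mul x4957 (nat_lit 2)))
    (Nat.sub (Nat.add (Nat.add (Nat.add (Nat.add (Nat.add (Nat.add (Nat.add (Nat.add (Nat.add C x9335) x3503) x5447) x4799) x4907) x4979) x4955) x4963) x24643) (Nat.mul x4961 (nat_lit 6)))
    (Nat.sub (Nat.add (Nat.add (Nat.add (Nat.add (Nat.add (Nat.add (Nat.add (Nat.add (Nat.add (Nat.add C x9337) x3505) x5449) x4801) x4909) x4981) x4957) x4961) x4965) x24645) (Nat.mul x4963 (nat_lit 3)))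
    (Nat.sub (Nat.add (Nat.add (Nat.add (Nat.add (Nat.add (Nat.add (Nat.add C x9339) x3507) x5451) x4803) x4911) x4983) x4963) (Nat.mul x4965 (nat_lit 2)))
    (Nat.sub (Nat.sub (Nat.add (Nat.add (Nat.add (Nat.add (Nat.add (Nat.add (Nat.add (Nat.add (Nat.add (Nat.add (Nat.add C x9347) x3515) x5459) x4811) x4919) x5027) x4955) x4979) x4975) x24655) (Nat.mul (e (nat_lit 4973)) ap)) (Nat.mul x4973 (nat_lit 3))) (Nat.mul (e (nat_lit 4973)) an))
    (Nat.sub (Nat.add (Nat.add (Nat.add (Nat.add (Nat.add (Nat.add (Nat.add (Nat.add (Nat.add (Nat.add C x9349) x3517) x5461) x4813) x4921) x5029) x4957) x4981) x4973) x24657) (Nat.mul x4975 (nat_lit 3)))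
    (Nat.sub (Nat.add (Nat.add (Nat.add (Nat.add (Nat.add (Nat.add (Nat.add (Nat.add (Nat.add (Nat.add (Nat.add C x9353) x3521) x5465) x4817) x4925) x5033) x4961) x4997) x4973) x4981) x24661) (Nat.mul x4979 (nat_lit 4)))
    (Nat.sub (Nat.add (Nat.add (Nat.add (Nat.add (Nat.add (Nat.add (Nat.add (Nat.add (Nat.add (Nat.add (Nat.add (Nat.add (Nat.add C x9355) x3523) x5467) x4819) x4927) x5035) x4963) x4999) x4975) x4987) x4979) x4983) x24663) (Nat.mul x4981 (nat_lit 2)))
    (Nat.sub (Nat.add (Nat.add (Nat.add (Nat.add (Nat.add (Nat.add (Nat.add (Nat.add (Nat.add (Nat.add C x9357) x3525) x5469) x4821) x4929) x5037) x4965) x5001) x4989) x4981) (Nat.mul x4983 (nat_lit 2)))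
    (Nat.sub (Nat.add (Nat.add (Nat.add (Nat.add (Nat.add (Nat.add (Nat.add (Nat.add (Nat.add (Nat.add C x9361) x3529) x5473) x4825) x4933) x5041) x5005) x4981) x4989) x24669) (Nat.mul x4987 (nat_lit 3)))
    (Nat.sub (Nat.add (Nat.add (Nat.add (Nat.add (Nat.add (Nat.add (Nat.add (Nat.add (Nat.add C x9363) x3531) x5475) x4827) x4935) x5043) x5007) x4983) x4987) x4989)
    (Nat.sub (Nat.add (Nat.add (Nat.add (Nat.add (Nat.add (Nat.add (Nat.add (Nat.add C x9371) x3539) x5483) x4835) x5051) x4979) x4999) x24679) (Nat.mul x4997 (nat_lit 4)))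
    (Nat.sub (Nat.add (Nat.add (Nat.add (Nat.add (Nat.add (Nat.add (Nat.add (Nat.add (Nat.add (Nat.add C x9373) x3541) x5485) x4837) x5053) x4981) x5005) x4997) x5001) x24681) (Nat.mul x4999 (nat_lit 3)))
    (Nat.sub (Nat.add (Nat.add (Nat.add (Nat.add (Nat.add (Nat.add (Nat.add (Nat.add C x9375) x3543) x5487) x4839) x5055) x4983) x5007) x4999) (Nat.mul x5001 (nat_lit 4)))
    (Nat.sub (Nat.add (Nat.add (Nat.add (Nat.add (Nat.add (Nat.add (Nat.add (Nat.add (Nat.add C x9379) x3547) x5491) x4843) x5059) x4987) x4999) x5007) x24687) (Nat.mul x5005 (nat_lit 2)))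
    (Nat.sub (Nat.add (Nat.add (Nat.add (Nat.add (Nat.add (Nat.add (Nat.add (Nat.add (Nat.add C x9381) x3549) x5493) x4845) x5061) x4989) x5001) x5013) x5005) x5007)
    (Nat.add (Nat.add (Nat.add (Nat.add (Nat.add (Nat.add C x9387) x3555) x5499) x4851) x5067) x5007)
    (Nat.sub (Nat.add (Nat.add (Nat.add (Nat.add (Nat.add (Nat.add (Nat.add C x9401) x3569) x5513) x4973) x5033) x5029) x24709) (Nat.mul x5027 (nat_lit 2)))
    (Nat.sub (Nat.add (Nat.add (Nat.add (Nat.add (Nat.add (Nat.add (Nat.add C x9403) x3571) x5515) x4975) x5035) x5027) x24711) (Nat.mul x5029 (nat_lit 2)))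
    (Nat.sub (Nat.add (Nat.add (Nat.add (Nat.add (Nat.add (Nat.add (Nat.add (Nat.add C x9407) x3575) x5519) x4979) x5051) x5027) x5035) x24715) (Nat.mul x5033 (nat_lit 4)))
    (Nat.sub (Nat.add (Nat.add (Nat.add (Nat.add (Nat.add (Nat.add (Nat.add (Nat.add (Nat.add (Nat.add C x9409) x3577) x5521) x4981) x5053) x5029) x5041) x5033) x5037) x24717) (Nat.mul x5035 (nat_lit 2)))
    (Nat.sub (Nat.add (Nat.add (Nat.add (Nat.add (Nat.add (Nat.add (Nat.add C x9411) x3579) x5523) x4983) x5055) x5043) x5035) (Nat.mul x5037 (nat_lit 2)))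
    (Nat.sub (Nat.add (Nat.add (Nat.add (Nat.add (Nat.add (Nat.add (Nat.add (Nat.add C x9415) x3583) x5527) x4987) x5059) x5035) x5043) x24723) (Nat.mul x5041 (nat_lit 4)))
    (Nat.sub (Nat.add (Nat.add (Nat.add (Nat.add (Nat.add (Nat.add (Nat.add C x9417) x3585) x5529) x4989) x5061) x5037) x5041) (Nat.mul x5043 (nat_lit 2)))
    (Nat.sub (Nat.add (Nat.add (Nat.add (Nat.add (Nat.add (Nat.add (Nat.add C x9425) x3593) x5537) x4997) x5033) x5053) x24733) (Nat.mul x5051 (nat_lit 2)))
    (Nat.sub (Nat.add (Nat.add (Nat.add (Nat.add (Nat.add (Nat.add (Nat.add (Nat.add (Nat.add C x9427) x3595) x5539) x4999) x5035) x5059) x5051) x5055) x24735) x5053)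
    (Nat.sub (Nat.add (Nat.add (Nat.add (Nat.add (Nat.add (Nat.add (Nat.add C x9429) x3597) x5541) x5001) x5037) x5061) x5053) (Nat.mul x5055 (nat_lit 2)))
    (Nat.sub (Nat.add (Nat.add (Nat.add (Nat.add (Nat.add (Nat.add (Nat.add (Nat.add (Nat.add C x9433) x3601) x5545) x5005) x5041) x5077) x5053) x5061) x24741) x5059)
    (Nat.add (Nat.add (Nat.add (Nat.add (Nat.add (Nat.add (Nat.add (Nat.add (Nat.add C x9435) x3603) x5547) x5007) x5043) x5079) x5055) x5067) x5059)
    (Nat.add (Nat.add (Nat.add (Nat.add (Nat.add (Nat.add C x9441) x3609) x5553) x5013) x5085) x5061)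
    (Nat.add (Nat.add (Nat.add (Nat.add (Nat.add (Nat.add C x9451) x3619) x5563) x5059) x5079) x24759)
    (Nat.add (Nat.add (Nat.add (Nat.add (Nat.add (Nat.add C x9453) x3621) x5565) x5061) x5085) x5077)
    (Nat.add (Nat.add (Nat.add (Nat.add (Nat.add (Nat.add C (Nat.mul x5085 (nat_lit 2))) x9459) x3627) x5571) x5067) x5079)
    (Nat.add (Nat.add (Nat.add (Nat.add (Nat.add (Nat.add C (Nat.mul x5129 (nat_lit 2))) x9503) x3671) x4643) x5147) x24811)
    (Nat.add (Nat.add (Nat.add (Nat.add (Nat.add (Nat.add (Nat.add (Nat.add (Nat.add C x5147) x9521) x3689) x4661) x5201) x5129) x5165) x5153) x24829)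
    (Nat.add (Nat.add (Nat.add (Nat.add (Nat.add (Nat.add (Nat.add (Nat.add C x9527) x3695) x4667) x5207) x5171) x5147) x5155) x24835)
    (Nat.add (Nat.add (Nat.add (Nat.add (Nat.add (Nat.add (Nat.add (Nat.add C (Nat.mul x5155 (nat_lit 2))) x9529) x3697) x4669) x5209) x5173) x5153) x24837)
    (Nat.sub (Nat.add (Nat.add (Nat.add (Nat.add (Nat.add (Nat.add (Nat.add C x9539) x3707) x4679) x5219) x5147) x5171) x24847) (Nat.mul x5165 (nat_lit 2)))
    (Nat.sub (Nat.add (Nat.add (Nat.add (Nat.add (Nat.add (Nat.add (Nat.add (Nat.add (Nat.add C x9545) x3713) x4685) x5225) x5153) x5165) x5177) x5173) x24853) x5171)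
    (Nat.add (Nat.add (Nat.add (Nat.add (Nat.add (Nat.add (Nat.add (Nat.add C x9547) x3715) x4687) x5227) x5155) x5179) x5171) x24855)
    (Nat.sub (Nat.add (Nat.add (Nat.add (Nat.add (Nat.add (Nat.add (Nat.add C x9551) x3719) x4691) x5231) x5171) x5179) x24859) (Nat.mul x5177 (nat_lit 2)))
    (Nat.add (Nat.add (Nat.add (Nat.add (Nat.add (Nat.add (Nat.add (Nat.add (Nat.add C x5179) x9553) x3721) x4693) x5233) x5173) x5177) x5181) x24861)
    (Nat.add (Nat.add (Nat.add (Nat.add (Nat.add (Nat.add C (Nat.mul x5181 (nat_lit 2))) x9555) x3723) x4695) x5235) x5179)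
    (Nat.sub (Nat.add (Nat.add (Nat.add (Nat.add (Nat.add (Nat.add (Nat.add (Nat.add (Nat.add C x9575) x3743) x4715) x5363) x5147) x5219) x5207) x24883) (Nat.mul (e (nat_lit 5201)) ap)) (Nat.mul (e (nat_lit 5201)) an))
    (Nat.sub (Nat.sub (Nat.add (Nat.add (Nat.add (Nat.add (Nat.add (Nat.add (Nat.add (Nat.add (Nat.add (Nat.add C x9581) x3749) x4721) x5369) x5153) x5225) x5201) x5209) x24889) (Nat.mul (e (nat_lit 5207)) ap)) (Nat.mul x5207 (nat_lit 2))) (Nat.mul (e (nat_lit 5207)) an))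
    (Nat.add (Nat.add (Nat.add (Nat.add (Nat.add (Nat.add (Nat.add (Nat.add C x9583) x3751) x4723) x5371) x5155) x5227) x5207) x24891)
    (Nat.sub (Nat.sub (Nat.add (Nat.add (Nat.add (Nat.add (Nat.add (Nat.add (Nat.add (Nat.add (Nat.add (Nat.add C x9593) x3761) x4733) x5381) x5165) x5273) x5201) x5225) x24901) (Nat.mul (e (nat_lit 5219)) ap)) x5219) (Nat.mul (e (nat_lit 5219)) an))
    (Nat.sub (Nat.sub (Nat.add (Nat.add (Nat.add (Nat.add (Nat.add (Nat.add (Nat.add (Nat.add (Nat.add (Nat.add (Nat.add (Nat.add (Nat.add C x9599) x3767) x4739) x5387) x5171) x5279) x5207) x5243) x5219) x5231) x5227) x24907) (Nat.mul (e (nat_lit 5225)) ap)) x5225) (Nat.mul (e (nat_lit 5225)) an))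
    (Nat.add (Nat.add (Nat.add (Nat.add (Nat.add (Nat.add (Nat.add (Nat.add (Nat.add (Nat.add (Nat.add C x9601) x3769) x4741) x5389) x5173) x5281) x5209) x5245) x5233) x5225) x24909)
    (Nat.sub (Nat.add (Nat.add (Nat.add (Nat.add (Nat.add (Nat.add (Nat.add (Nat.add (Nat.add (Nat.add C x9605) x3773) x4745) x5393) x5177) x5285) x5249) x5225) x5233) x24913) (Nat.mul x5231 (nat_lit 3)))
    (Nat.add (Nat.add (Nat.add (Nat.add (Nat.add (Nat.add (Nat.add (Nat.add (Nat.add (Nat.add (Nat.add C x9607) x3775) x4747) x5395) x5179) x5287) x5251) x5227) x5231) x5235) x24915)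
    (Nat.add (Nat.add (Nat.add (Nat.add (Nat.add (Nat.add (Nat.add (Nat.add (Nat.add C x5235) x9609) x3777) x4749) x5397) x5181) x5289) x5253) x5233)
    (Nat.sub (Nat.sub (Nat.add (Nat.add (Nat.add (Nat.add (Nat.add (Nat.add (Nat.add (Nat.add (Nat.add (Nat.add C x9617) x3785) x4757) x5405) x5297) x5225) x5249) x5245) x24925) (Nat.mul (e (nat_lit 5243)) ap)) (Nat.mul x5243 (nat_lit 2))) (Nat.mul (e (nat_lit 5243)) an))
    (Nat.sub (Nat.add (Nat.add (Nat.add (Nat.add (Nat.add (Nat.add (Nat.add (Nat.add (Nat.add C x9619) x3787) x4759) x5407) x5299) x5227) x5251) x5243) x24927) (Nat.mul x5245 (nat_lit 2)))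
    (Nat.sub (Nat.add (Nat.add (Nat.add (Nat.add (Nat.add (Nat.add (Nat.add (Nat.add (Nat.add C x9623) x3791) x4763) x5411) x5303) x5231) x5243) x5251) x24931) (Nat.mul x5249 (nat_lit 2)))
    (Nat.add (Nat.add (Nat.add (Nat.add (Nat.add (Nat.add (Nat.add (Nat.add (Nat.add (Nat.add (Nat.add C x9625) x3793) x4765) x5413) x5305) x5233) x5245) x5257) x5249) x5253) x24933)
    (Nat.add (Nat.add (Nat.add (Nat.add (Nat.add (Nat.add (Nat.add (Nat.add C x9627) x3795) x4767) x5415) x5307) x5235) x5259) x5251)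
    (Nat.add (Nat.add (Nat.add (Nat.add (Nat.add (Nat.add (Nat.add (Nat.add C x9631) x3799) x4771) x5419) x5311) x5251) x5259) x24939)
    (Nat.add (Nat.add (Nat.add (Nat.add (Nat.add (Nat.add (Nat.add (Nat.add C (Nat.mul x5259 (nat_lit 2))) x9633) x3801) x4773) x5421) x5313) x5253) x5257)
    (Nat.sub (Nat.add (Nat.add (Nat.add (Nat.add (Nat.add (Nat.add (Nat.add C x9647) x3815) x4787) x5435) x5219) x5279) x24955) (Nat.mul x5273 (nat_lit 2)))
    (Nat.sub (Nat.sub (Nat.add (Nat.add (Nat.add (Nat.add (Nat.add (Nat.add (Nat.add (Nat.add (Nat.add (Nat.add (Nat.add C x9653) x3821) x4793) x5441) x5225) x5297) x5273) x5285) x5281) x24961) (Nat.mul (e (nat_lit 5279)) ap)) (Nat.mul x5279 (nat_lit 3))) (Nat.mul (e (nat_lit 5279)) an))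
    (Nat.sub (Nat.add (Nat.add (Nat.add (Nat.add (Nat.add (Nat.add (Nat.add (Nat.add (Nat.add C x9655) x3823) x4795) x5443) x5227) x5299) x5287) x5279) x24963) (Nat.mul x5281 (nat_lit 2)))
    (Nat.sub (Nat.add (Nat.add (Nat.add (Nat.add (Nat.add (Nat.add (Nat.add (Nat.add (Nat.add C x9659) x3827) x4799) x5447) x5231) x5303) x5279) x5287) x24967) (Nat.mul x5285 (nat_lit 6)))
    (Nat.sub (Nat.add (Nat.add (Nat.add (Nat.add (Nat.add (Nat.add (Nat.add (Nat.add (Nat.add (Nat.add C x9661) x3829) x4801) x5449) x5233) x5305) x5281) x5285) x5289) x24969) (Nat.mul x5287 (nat_lit 3)))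
    (Nat.sub (Nat.add (Nat.add (Nat.add (Nat.add (Nat.add (Nat.add (Nat.add C x9663) x3831) x4803) x5451) x5235) x5307) x5287) (Nat.mul x5289 (nat_lit 2)))
    (Nat.sub (Nat.add (Nat.add (Nat.add (Nat.add (Nat.add (Nat.add (Nat.add (Nat.add (Nat.add C x9671) x3839) x4811) x5459) x5243) x5279) x5303) x5299) x24979) (Nat.mul x5297 (nat_lit 2)))
    (Nat.sub (Nat.add (Nat.add (Nat.add (Nat.add (Nat.add (Nat.add (Nat.add (Nat.add (Nat.add C x9673) x3841) x4813) x5461) x5245) x5281) x5305) x5297) x24981) (Nat.mul x5299 (nat_lit 2)))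
    (Nat.sub (Nat.add (Nat.add (Nat.add (Nat.add (Nat.add (Nat.add (Nat.add (Nat.add (Nat.add (Nat.add C x9677) x3845) x4817) x5465) x5249) x5285) x5321) x5297) x5305) x24985) (Nat.mul x5303 (nat_lit 3)))
    (Nat.sub (Nat.add (Nat.add (Nat.add (Nat.add (Nat.add (Nat.add (Nat.add (Nat.add (Nat.add (Nat.add (Nat.add (Nat.add C x9679) x3847) x4819) x5467) x5251) x5287) x5323) x5299) x5311) x5303) x5307) x24987) x5305)
    (Nat.sub (Nat.add (Nat.add (Nat.add (Nat.add (Nat.add (Nat.add (Nat.add (Nat.add (Nat.add C x9681) x3849) x4821) x5469) x5253) x5289) x5325) x5313) x5305) x5307)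
    (Nat.sub (Nat.add (Nat.add (Nat.add (Nat.add (Nat.add (Nat.add (Nat.add (Nat.add (Nat.add C x9685) x3853) x4825) x5473) x5257) x5329) x5305) x5313) x24993) (Nat.mul x5311 (nat_lit 2)))
    (Nat.add (Nat.add (Nat.add (Nat.add (Nat.add (Nat.add (Nat.add (Nat.add C x9687) x3855) x4827) x5475) x5259) x5331) x5307) x5311)
    (Nat.sub (Nat.add (Nat.add (Nat.add (Nat.add (Nat.add (Nat.add (Nat.add C x9695) x3863) x4835) x5483) x5303) x5323) x25003) (Nat.mul x5321 (nat_lit 2)))
    (Nat.sub (Nat.add (Nat.add (Nat.add (Nat.add (Nat.add (Nat.add (Nat.add (Nat.add (Nat.add C x9697) x3865) x4837) x5485) x5305) x5329) x5321) x5325) x25005) x5323)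
    (Nat.sub (Nat.add (Nat.add (Nat.add (Nat.add (Nat.add (Nat.add (Nat.add C x9699) x3867) x4839) x5487) x5307) x5331) x5323) (Nat.mul x5325 (nat_lit 2)))
    (Nat.add (Nat.add (Nat.add (Nat.add (Nat.add (Nat.add (Nat.add (Nat.add C x9703) x3871) x4843) x5491) x5311) x5323) x5331) x25011)
    (Nat.add (Nat.add (Nat.add (Nat.add (Nat.add (Nat.add (Nat.add (Nat.add (Nat.add C x5331) x9705) x3873) x4845) x5493) x5313) x5325) x5337) x5329)
    (Nat.add (Nat.add (Nat.add (Nat.add (Nat.add (Nat.add C (Nat.mul x5337 (nat_lit 2))) x9711) x3879) x4851) x5499) x5331)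
    (Nat.add (Nat.add (Nat.add (Nat.add (Nat.add (Nat.add (Nat.add (Nat.add (Nat.add C x5363) x9737) x3905) x4877) x5849) x5201) x5381) x5369) x25045)
    (Nat.sub (Nat.add (Nat.add (Nat.add (Nat.add (Nat.add (Nat.add (Nat.add (Nat.add (Nat.add C x9743) x3911) x4883) x5855) x5207) x5387) x5363) x5371) x25051) x5369)
    (Nat.add (Nat.add (Nat.add (Nat.add (Nat.add (Nat.add (Nat.add (Nat.add (Nat.add C x5371) x9745) x3913) x4885) x5857) x5209) x5389) x5369) x25053)
    (Nat.sub (Nat.sub (Nat.add (Nat.add (Nat.add (Nat.add (Nat.add (Nat.add (Nat.add (Nat.add (Nat.add (Nat.add C x9755) x3923) x4895) x5867) x5219) x5435) x5363) x5387) x25063) (Nat.mul (e (nat_lit 5381)) ap)) x5381) (Nat.mul (e (nat_lit 5381)) an))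
    (Nat.sub (Nat.sub (Nat.add (Nat.add (Nat.add (Nat.add (Nat.add (Nat.add (Nat.add (Nat.add (Nat.add (Nat.add (Nat.add (Nat.add (Nat.add C x9761) x3929) x4901) x5873) x5225) x5441) x5369) x5405) x5381) x5393) x5389) x25069) (Nat.mul (e (nat_lit 5387)) ap)) x5387) (Nat.mul (e (nat_lit 5387)) an))
    (Nat.add (Nat.add (Nat.add (Nat.add (Nat.add (Nat.add (Nat.add (Nat.add (Nat.add (Nat.add (Nat.add C x9763) x3931) x4903) x5875) x5227) x5443) x5371) x5407) x5395) x5387) x25071)
    (Nat.sub (Nat.add (Nat.add (Nat.add (Nat.add (Nat.add (Nat.add (Nat.add (Nat.add (Nat.add (Nat.add C x9767) x3935) x4907) x5879) x5231) x5447) x5411) x5387) x5395) x25075) (Nat.mul x5393 (nat_lit 3)))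
    (Nat.add (Nat.add (Nat.add (Nat.add (Nat.add (Nat.add (Nat.add (Nat.add (Nat.add (Nat.add (Nat.add C x9769) x3937) x4909) x5881) x5233) x5449) x5413) x5389) x5393) x5397) x25077)
    (Nat.add (Nat.add (Nat.add (Nat.add (Nat.add (Nat.add (Nat.add (Nat.add (Nat.add C x5397) x9771) x3939) x4911) x5883) x5235) x5451) x5415) x5395)
    (Nat.sub (Nat.add (Nat.add (Nat.add (Nat.add (Nat.add (Nat.add (Nat.add (Nat.add (Nat.add (Nat.add C x9779) x3947) x4919) x5891) x5243) x5459) x5387) x5411) x5407) x25087) (Nat.mul x5405 (nat_lit 3)))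
    (Nat.sub (Nat.add (Nat.add (Nat.add (Nat.add (Nat.add (Nat.add (Nat.add (Nat.add (Nat.add (Nat.add C x9781) x3949) x4921) x5893) x5245) x5461) x5389) x5413) x5405) x25089) (Nat.mul x5407 (nat_lit 3)))
    (Nat.sub (Nat.add (Nat.add (Nat.add (Nat.add (Nat.add (Nat.add (Nat.add (Nat.add (Nat.add (Nat.add C x9785) x3953) x4925) x5897) x5249) x5465) x5393) x5405) x5413) x25093) (Nat.mul x5411 (nat_lit 3)))
    (Nat.sub (Nat.add (Nat.add (Nat.add (Nat.add (Nat.add (Nat.add (Nat.add (Nat.add (Nat.add (Nat.add (Nat.add (Nat.add C x9787) x3955) x4927) x5899) x5251) x5467) x5395) x5407) x5419) x5411) x5415) x25095) x5413)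
    (Nat.sub (Nat.add (Nat.add (Nat.add (Nat.add (Nat.add (Nat.add (Nat.add (Nat.add (Nat.add C x9789) x3957) x4929) x5901) x5253) x5469) x5397) x5421) x5413) x5415)
    (Nat.sub (Nat.add (Nat.add (Nat.add (Nat.add (Nat.add (Nat.add (Nat.add (Nat.add (Nat.add C x9793) x3961) x4933) x5905) x5257) x5473) x5413) x5421) x25101) x5419)
    (Nat.add (Nat.add (Nat.add (Nat.add (Nat.add (Nat.add (Nat.add (Nat.add (Nat.add C x5421) x9795) x3963) x4935) x5907) x5259) x5475) x5415) x5419)
    (Nat.add (Nat.add (Nat.add (Nat.add (Nat.add (Nat.add (Nat.add (Nat.add (Nat.add C x9809) x3977) x4949) x5921) x5273) x5597) x5381) x5441) x25117)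
    (Nat.sub (Nat.add (Nat.add (Nat.add (Nat.add (Nat.add (Nat.add (Nat.add (Nat.add (Nat.add (Nat.add (Nat.add (Nat.add C x9815) x3983) x4955) x5927) x5279) x5603) x5387) x5459) x5435) x5447) x5443) x25123) x5441)
    (Nat.add (Nat.add (Nat.add (Nat.add (Nat.add (Nat.add (Nat.add (Nat.add (Nat.add (Nat.add (Nat.add C x9817) x3985) x4957) x5929) x5281) x5605) x5389) x5461) x5449) x5441) x25125)
    (Nat.sub (Nat.add (Nat.add (Nat.add (Nat.add (Nat.add (Nat.add (Nat.add (Nat.add (Nat.add (Nat.add (Nat.add C x9821) x3989) x4961) x5933) x5285) x5609) x5393) x5465) x5441) x5449) x25129) (Nat.mul x5447 (nat_lit 4)))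
    (Nat.sub (Nat.add (Nat.add (Nat.add (Nat.add (Nat.add (Nat.add (Nat.add (Nat.add (Nat.add (Nat.add (Nat.add (Nat.add C x9823) x3991) x4963) x5935) x5287) x5611) x5395) x5467) x5443) x5447) x5451) x25131) x5449)
    (Nat.add (Nat.add (Nat.add (Nat.add (Nat.add (Nat.add (Nat.add (Nat.add (Nat.add C x9825) x3993) x4965) x5937) x5289) x5613) x5397) x5469) x5449)
    (Nat.sub (Nat.add (Nat.add (Nat.add (Nat.add (Nat.add (Nat.add (Nat.add (Nat.add (Nat.add (Nat.add (Nat.add (Nat.add C x9833) x4001) x4973) x5945) x5297) x5621) x5405) x5513) x5441) x5465) x5461) x25141) x5459)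
    (Nat.sub (Nat.add (Nat.add (Nat.add (Nat.add (Nat.add (Nat.add (Nat.add (Nat.add (Nat.add (Nat.add (Nat.add (Nat.add C x9835) x4003) x4975) x5947) x5299) x5623) x5407) x5515) x5443) x5467) x5459) x25143) x5461)
    (Nat.sub (Nat.add (Nat.add (Nat.add (Nat.add (Nat.add (Nat.add (Nat.add (Nat.add (Nat.add (Nat.add (Nat.add (Nat.add (Nat.add C x9839) x4007) x4979) x5951) x5303) x5627) x5411) x5519) x5447) x5483) x5459) x5467) x25147) (Nat.mul x5465 (nat_lit 2)))
    (Nat.add (Nat.add (Nat.add (Nat.add (Nat.add (Nat.add (Nat.add (Nat.add (Nat.add (Nat.add (Nat.add (Nat.add (Nat.add (Nat.add (Nat.add C x9841) x4009) x4981) x5953) x5305) x5629) x5413) x5521) x5449) x5485) x5461) x5473) x5465) x5469) x25149)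
    (Nat.add (Nat.add (Nat.add (Nat.add (Nat.add (Nat.add (Nat.add (Nat.add (Nat.add (Nat.add (Nat.add (Nat.add C x9843) x4011) x4983) x5955) x5307) x5631) x5415) x5523) x5451) x5487) x5475) x5467)
    (Nat.sub (Nat.add (Nat.add (Nat.add (Nat.add (Nat.add (Nat.add (Nat.add (Nat.add (Nat.add (Nat.add (Nat.add (Nat.add C x9847) x4015) x4987) x5959) x5311) x5635) x5419) x5527) x5491) x5467) x5475) x25155) x5473)
    (Nat.add (Nat.add (Nat.add (Nat.add (Nat.add (Nat.add (Nat.add (Nat.add (Nat.add (Nat.add (Nat.add (Nat.add C x5475) x9849) x4017) x4989) x5961) x5313) x5637) x5421) x5529) x5493) x5469) x5473)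
    (Nat.sub (Nat.add (Nat.add (Nat.add (Nat.add (Nat.add (Nat.add (Nat.add (Nat.add (Nat.add (Nat.add C x9857) x4025) x4997) x5969) x5321) x5645) x5537) x5465) x5485) x25165) (Nat.mul x5483 (nat_lit 2)))
    (Nat.sub (Nat.add (Nat.add (Nat.add (Nat.add (Nat.add (Nat.add (Nat.add (Nat.add (Nat.add (Nat.add (Nat.add (Nat.add C x9859) x4027) x4999) x5971) x5323) x5647) x5539) x5467) x5491) x5483) x5487) x25167) x5485)
    (Nat.sub (Nat.add (Nat.add (Nat.add (Nat.add (Nat.add (Nat.add (Nat.add (Nat.add (Nat.add (Nat.add C x9861) x4029) x5001) x5973) x5325) x5649) x5541) x5469) x5493) x5485) (Nat.mul x5487 (nat_lit 2)))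
    (Nat.add (Nat.add (Nat.add (Nat.add (Nat.add (Nat.add (Nat.add (Nat.add (Nat.add (Nat.add (Nat.add C x9865) x4033) x5005) x5977) x5329) x5653) x5545) x5473) x5485) x5493) x25173)
    (Nat.add (Nat.add (Nat.add (Nat.add (Nat.add (Nat.add (Nat.add (Nat.add (Nat.add (Nat.add (Nat.add (Nat.add C x5493) x9867) x4035) x5007) x5979) x5331) x5655) x5547) x5475) x5487) x5499) x5491)
    (Nat.add (Nat.add (Nat.add (Nat.add (Nat.add (Nat.add (Nat.add (Nat.add (Nat.add C (Nat.mul x5499 (nat_lit 2))) x9873) x4041) x5013) x5985) x5337) x5661) x5553) x5493)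
    (Nat.sub (Nat.add (Nat.add (Nat.add (Nat.add (Nat.add (Nat.add (Nat.add (Nat.add (Nat.add C x9887) x4055) x5027) x5999) x5675) x5459) x5519) x5515) x25195) x5513)
    (Nat.sub (Nat.add (Nat.add (Nat.add (Nat.add (Nat.add (Nat.add (Nat.add (Nat.add (Nat.add C x9889) x4057) x5029) x6001) x5677) x5461) x5521) x5513) x25197) x5515)
    (Nat.sub (Nat.add (Nat.add (Nat.add (Nat.add (Nat.add (Nat.add (Nat.add (Nat.add (Nat.add (Nat.add C x9893) x4061) x5033) x6005) x5681) x5465) x5537) x5513) x5521) x25201) (Nat.mul x5519 (nat_lit 3)))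
    (Nat.sub (Nat.add (Nat.add (Nat.add (Nat.add (Nat.add (Nat.add (Nat.add (Nat.add (Nat.add (Nat.add (Nat.add (Nat.add C x9895) x4063) x5035) x6007) x5683) x5467) x5539) x5515) x5527) x5519) x5523) x25203) x5521)
    (Nat.sub (Nat.add (Nat.add (Nat.add (Nat.add (Nat.add (Nat.add (Nat.add (Nat.add (Nat.add C x9897) x4065) x5037) x6009) x5685) x5469) x5541) x5529) x5521) x5523)
    (Nat.sub (Nat.add (Nat.add (Nat.add (Nat.add (Nat.add (Nat.add (Nat.add (Nat.add (Nat.add (Nat.add C x9901) x4069) x5041) x6013) x5689) x5473) x5545) x5521) x5529) x25209) (Nat.mul x5527 (nat_lit 3)))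
    (Nat.sub (Nat.add (Nat.add (Nat.add (Nat.add (Nat.add (Nat.add (Nat.add (Nat.add (Nat.add C x9903) x4071) x5043) x6015) x5691) x5475) x5547) x5523) x5527) x5529)
    (Nat.sub (Nat.add (Nat.add (Nat.add (Nat.add (Nat.add (Nat.add (Nat.add (Nat.add (Nat.add C x9911) x4079) x5051) x6023) x5699) x5483) x5519) x5539) x25219) x5537)
    (Nat.add (Nat.add (Nat.add (Nat.add (Nat.add (Nat.add (Nat.add (Nat.add (Nat.add (Nat.add (Nat.add C x9913) x4081) x5053) x6025) x5701) x5485) x5521) x5545) x5537) x5541) x25221)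
    (Nat.sub (Nat.add (Nat.add (Nat.add (Nat.add (Nat.add (Nat.add (Nat.add (Nat.add (Nat.add C x9915) x4083) x5055) x6027) x5703) x5487) x5523) x5547) x5539) x5541)
    (Nat.add (Nat.add (Nat.add (Nat.add (Nat.add (Nat.add (Nat.add (Nat.add (Nat.add (Nat.add (Nat.add C x9919) x4087) x5059) x6031) x5707) x5491) x5527) x5563) x5539) x5547) x25227)
    (Nat.add (Nat.add (Nat.add (Nat.add (Nat.add (Nat.add (Nat.add (Nat.add (Nat.add (Nat.add (Nat.add (Nat.add C x5547) x9921) x4089) x5061) x6033) x5709) x5493) x5529) x5565) x5541) x5553) x5545)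
    (Nat.add (Nat.add (Nat.add (Nat.add (Nat.add (Nat.add (Nat.add (Nat.add (Nat.add C x5553) x9927) x4095) x5067) x6039) x5715) x5499) x5571) x5547)
    (Nat.add (Nat.add (Nat.add (Nat.add (Nat.add (Nat.add (Nat.add (Nat.add (Nat.add C x5563) x9937) x4105) x5077) x6049) x5725) x5545) x5565) x25245)
    (Nat.add (Nat.add (Nat.add (Nat.add (Nat.add (Nat.add (Nat.add (Nat.add (Nat.add C x5565) x9939) x4107) x5079) x6051) x5727) x5547) x5571) x5563)
    (Nat.add (Nat.add (Nat.add (Nat.add (Nat.add (Nat.add (Nat.add (Nat.add C (Nat.mul x5571 (nat_lit 3))) x9945) x4113) x5085) x6057) x5733) x5553) x5565)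
    (Nat.add (Nat.add (Nat.add (Nat.add (Nat.add (Nat.add C x9971) x4139) x6083) x5435) x5603) x25279)
    (Nat.sub (Nat.add (Nat.add (Nat.add (Nat.add (Nat.add (Nat.add (Nat.add (Nat.add (Nat.add C x9977) x4145) x6089) x5441) x5621) x5597) x5609) x5605) x25285) x5603)
    (Nat.add (Nat.add (Nat.add (Nat.add (Nat.add (Nat.add (Nat.add (Nat.add C x9979) x4147) x6091) x5443) x5623) x5611) x5603) x25287)
    (Nat.sub (Nat.add (Nat.add (Nat.add (Nat.add (Nat.add (Nat.add (Nat.add (Nat.add C x9983) x4151) x6095) x5447) x5627) x5603) x5611) x25291) (Nat.mul x5609 (nat_lit 4)))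
    (Nat.sub (Nat.add (Nat.add (Nat.add (Nat.add (Nat.add (Nat.add (Nat.add (Nat.add (Nat.add C x9985) x4153) x6097) x5449) x5629) x5605) x5609) x5613) x25293) x5611)
    (Nat.add (Nat.add (Nat.add (Nat.add (Nat.add (Nat.add C x9987) x4155) x6099) x5451) x5631) x5611)
    (Nat.sub (Nat.add (Nat.add (Nat.add (Nat.add (Nat.add (Nat.add (Nat.add (Nat.add (Nat.add C x9995) x4163) x6107) x5459) x5675) x5603) x5627) x5623) x25303) (Nat.mul x5621 (nat_lit 2)))
    (Nat.sub (Nat.add (Nat.add (Nat.add (Nat.add (Nat.add (Nat.add (Nat.add (Nat.add (Nat.add C x9997) x4165) x6109) x5461) x5677) x5605) x5629) x5621) x25305) (Nat.mul x5623 (nat_lit 2)))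
    (Nat.sub (Nat.add (Nat.add (Nat.add (Nat.add (Nat.add (Nat.add (Nat.add (Nat.add (Nat.add (Nat.add C x10001) x4169) x6113) x5465) x5681) x5609) x5645) x5621) x5629) x25309) (Nat.mul x5627 (nat_lit 3)))
    (Nat.sub (Nat.add (Nat.add (Nat.add (Nat.add (Nat.add (Nat.add (Nat.add (Nat.add (Nat.add (Nat.add (Nat.add (Nat.add C x10003) x4171) x6115) x5467) x5683) x5611) x5647) x5623) x5635) x5627) x5631) x25311) x5629)
    (Nat.sub (Nat.add (Nat.add (Nat.add (Nat.add (Nat.add (Nat.add (Nat.add (Nat.add (Nat.add C x10005) x4173) x6117) x5469) x5685) x5613) x5649) x5637) x5629) x5631)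
    (Nat.sub (Nat.add (Nat.add (Nat.add (Nat.add (Nat.add (Nat.add (Nat.add (Nat.add (Nat.add C x10009) x4177) x6121) x5473) x5689) x5653) x5629) x5637) x25317) (Nat.mul x5635 (nat_lit 2)))
    (Nat.add (Nat.add (Nat.add (Nat.add (Nat.add (Nat.add (Nat.add (Nat.add C x10011) x4179) x6123) x5475) x5691) x5655) x5631) x5635)
    (Nat.sub (Nat.add (Nat.add (Nat.add (Nat.add (Nat.add (Nat.add (Nat.add (Nat.add C x10019) x4187) x6131) x5483) x5699) x5627) x5647) x25327) (Nat.mul x5645 (nat_lit 4)))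
    (Nat.sub (Nat.add (Nat.add (Nat.add (Nat.add (Nat.add (Nat.add (Nat.add (Nat.add (Nat.add (Nat.add C x10021) x4189) x6133) x5485) x5701) x5629) x5653) x5645) x5649) x25329) (Nat.mul x5647 (nat_lit 3)))
    (Nat.sub (Nat.add (Nat.add (Nat.add (Nat.add (Nat.add (Nat.add (Nat.add (Nat.add C x10023) x4191) x6135) x5487) x5703) x5631) x5655) x5647) (Nat.mul x5649 (nat_lit 4)))
    (Nat.sub (Nat.add (Nat.add (Nat.add (Nat.add (Nat.add (Nat.add (Nat.add (Nat.add (Nat.add C x10027) x4195) x6139) x5491) x5707) x5635) x5647) x5655) x25335) (Nat.mul x5653 (nat_lit 2)))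
    (Nat.sub (Nat.add (Nat.add (Nat.add (Nat.add (Nat.add (Nat.add (Nat.add (Nat.add (Nat.add C x10029) x4197) x6141) x5493) x5709) x5637) x5649) x5661) x5653) x5655)
    (Nat.add (Nat.add (Nat.add (Nat.add (Nat.add (Nat.add C x10035) x4203) x6147) x5499) x5715) x5655)
    (Nat.add (Nat.add (Nat.add (Nat.add (Nat.add (Nat.add (Nat.add (Nat.add C x10049) x4217) x6161) x5513) x5621) x5681) x5677) x25357)
    (Nat.add (Nat.add (Nat.add (Nat.add (Nat.add (Nat.add (Nat.add (Nat.add C x10051) x4219) x6163) x5515) x5623) x5683) x5675) x25359)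
    (Nat.sub (Nat.add (Nat.add (Nat.add (Nat.add (Nat.add (Nat.add (Nat.add (Nat.add (Nat.add C x10055) x4223) x6167) x5519) x5627) x5699) x5675) x5683) x25363) (Nat.mul x5681 (nat_lit 2)))
    (Nat.add (Nat.add (Nat.add (Nat.add (Nat.add (Nat.add (Nat.add (Nat.add (Nat.add (Nat.add (Nat.add C x10057) x4225) x6169) x5521) x5629) x5701) x5677) x5689) x5681) x5685) x25365)
    (Nat.add (Nat.add (Nat.add (Nat.add (Nat.add (Nat.add (Nat.add (Nat.add C x10059) x4227) x6171) x5523) x5631) x5703) x5691) x5683)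
    (Nat.sub (Nat.add (Nat.add (Nat.add (Nat.add (Nat.add (Nat.add (Nat.add (Nat.add (Nat.add C x10063) x4231) x6175) x5527) x5635) x5707) x5683) x5691) x25371) (Nat.mul x5689 (nat_lit 2)))
    (Nat.add (Nat.add (Nat.add (Nat.add (Nat.add (Nat.add (Nat.add (Nat.add C x10065) x4233) x6177) x5529) x5637) x5709) x5685) x5689)
    (Nat.sub (Nat.add (Nat.add (Nat.add (Nat.add (Nat.add (Nat.add (Nat.add (Nat.add (Nat.add C x10073) x4241) x6185) x5537) x5645) x5753) x5681) x5701) x25381) x5699)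
    (Nat.add (Nat.add (Nat.add (Nat.add (Nat.add (Nat.add (Nat.add (Nat.add (Nat.add (Nat.add (Nat.add C x10075) x4243) x6187) x5539) x5647) x5755) x5683) x5707) x5699) x5703) x25383)
    (Nat.sub (Nat.add (Nat.add (Nat.add (Nat.add (Nat.add (Nat.add (Nat.add (Nat.add (Nat.add C x10077) x4245) x6189) x5541) x5649) x5757) x5685) x5709) x5701) x5703)
    (Nat.add (Nat.add (Nat.add (Nat.add (Nat.add (Nat.add (Nat.add (Nat.add (Nat.add (Nat.add (Nat.add C x10081) x4249) x6193) x5545) x5653) x5761) x5689) x5725) x5701) x5709) x25389)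
    (Nat.add (Nat.add (Nat.add (Nat.add (Nat.add (Nat.add (Nat.add (Nat.add (Nat.add (Nat.add (Nat.add (Nat.add C x5709) x10083) x4251) x6195) x5547) x5655) x5763) x5691) x5727) x5703) x5715) x5707)
    (Nat.add (Nat.add (Nat.add (Nat.add (Nat.add (Nat.add (Nat.add (Nat.add (Nat.add C x5715) x10089) x4257) x6201) x5553) x5661) x5769) x5733) x5709)
    (Nat.add (Nat.add (Nat.add (Nat.add (Nat.add (Nat.add (Nat.add (Nat.add C x10099) x4267) x6211) x5563) x5779) x5707) x5727) x25407)
    (Nat.add (Nat.add (Nat.add (Nat.add (Nat.add (Nat.add (Nat.add (Nat.add C x10101) x4269) x6213) x5565) x5781) x5709) x5733) x5725)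
    (Nat.add (Nat.add (Nat.add (Nat.add (Nat.add (Nat.add (Nat.add (Nat.add C (Nat.mul x5733 (nat_lit 2))) x10107) x4275) x6219) x5571) x5787) x5715) x5727)
    (Nat.add (Nat.add (Nat.add (Nat.add (Nat.add (Nat.add C x10127) x4295) x6239) x5699) x5755) x25435)
    (Nat.add (Nat.add (Nat.add (Nat.add (Nat.add (Nat.add (Nat.add (Nat.add (Nat.add C x5755) x10129) x4297) x6241) x5701) x5761) x5753) x5757) x25437)
    (Nat.add (Nat.add (Nat.add (Nat.add (Nat.add (Nat.add C x10131) x4299) x6243) x5703) x5763) x5755)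
    (Nat.add (Nat.add (Nat.add (Nat.add (Nat.add (Nat.add (Nat.add (Nat.add C x10135) x4303) x6247) x5707) x5779) x5755) x5763) x25443)
    (Nat.add (Nat.add (Nat.add (Nat.add (Nat.add (Nat.add (Nat.add (Nat.add (Nat.add C x5763) x10137) x4305) x6249) x5709) x5781) x5757) x5769) x5761)
    (Nat.add (Nat.add (Nat.add (Nat.add (Nat.add (Nat.add C x10143) x4311) x6255) x5715) x5787) x5763)
    (Nat.add (Nat.add (Nat.add (Nat.add (Nat.add (Nat.add (Nat.add (Nat.add C (Nat.mul x5779 (nat_lit 2))) x10153) x4321) x6265) x5725) x5761) x5781) x25461)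
    (Nat.add (Nat.add (Nat.add (Nat.add (Nat.add (Nat.add (Nat.add (Nat.add C (Nat.mul x5781 (nat_lit 2))) x10155) x4323) x6267) x5727) x5763) x5787) x5779)
    (Nat.add (Nat.add (Nat.add (Nat.add (Nat.add (Nat.add (Nat.add (Nat.add C (Nat.mul x5787 (nat_lit 3))) x10161) x4329) x6273) x5733) x5769) x5805) x5781)
    (Nat.add (Nat.add (Nat.add (Nat.add (Nat.add C (Nat.mul x5805 (nat_lit 4))) x10179) x4347) x6291) x5787)
    (Nat.add (Nat.add (Nat.add (Nat.add (Nat.add (Nat.add C (Nat.mul x5849 (nat_lit 2))) x10223) x5363) x5867) x5855) x25531)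
    (Nat.add (Nat.add (Nat.add (Nat.add (Nat.add (Nat.add C x10229) x5369) x5873) x5849) x5857) x25537)
    (Nat.add (Nat.add (Nat.add (Nat.add (Nat.add (Nat.add C (Nat.mul x5857 (nat_lit 2))) x10231) x5371) x5875) x5855) x25539)
    (Nat.add (Nat.add (Nat.add (Nat.add (Nat.add (Nat.add C x10241) x5381) x5921) x5849) x5873) x25549)
    (Nat.add (Nat.add (Nat.add (Nat.add (Nat.add (Nat.add (Nat.add (Nat.add (Nat.add C x10247) x5387) x5927) x5855) x5891) x5867) x5879) x5875) x25555)
    (Nat.add (Nat.add (Nat.add (Nat.add (Nat.add (Nat.add (Nat.add (Nat.add (Nat.add C x5875) x10249) x5389) x5929) x5857) x5893) x5881) x5873) x25557)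
    (Nat.sub (Nat.add (Nat.add (Nat.add (Nat.add (Nat.add (Nat.add (Nat.add C x10253) x5393) x5933) x5897) x5873) x5881) x25561) (Nat.mul x5879 (nat_lit 2)))
    (Nat.add (Nat.add (Nat.add (Nat.add (Nat.add (Nat.add (Nat.add (Nat.add (Nat.add C x5881) x10255) x5395) x5935) x5899) x5875) x5879) x5883) x25563)
    (Nat.add (Nat.add (Nat.add (Nat.add (Nat.add (Nat.add C (Nat.mul x5883 (nat_lit 2))) x10257) x5397) x5937) x5901) x5881)
    (Nat.sub (Nat.add (Nat.add (Nat.add (Nat.add (Nat.add (Nat.add (Nat.add C x10265) x5405) x5945) x5873) x5897) x5893) x25573) (Nat.mul x5891 (nat_lit 2)))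
    (Nat.sub (Nat.add (Nat.add (Nat.add (Nat.add (Nat.add (Nat.add (Nat.add C x10267) x5407) x5947) x5875) x5899) x5891) x25575) (Nat.mul x5893 (nat_lit 2)))
    (Nat.sub (Nat.add (Nat.add (Nat.add (Nat.add (Nat.add (Nat.add (Nat.add C x10271) x5411) x5951) x5879) x5891) x5899) x25579) (Nat.mul x5897 (nat_lit 2)))
    (Nat.add (Nat.add (Nat.add (Nat.add (Nat.add (Nat.add (Nat.add (Nat.add (Nat.add C x10273) x5413) x5953) x5881) x5893) x5905) x5897) x5901) x25581)
    (Nat.add (Nat.add (Nat.add (Nat.add (Nat.add (Nat.add C x10275) x5415) x5955) x5883) x5907) x5899)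
    (Nat.add (Nat.add (Nat.add (Nat.add (Nat.add (Nat.add C x10279) x5419) x5959) x5899) x5907) x25587)
    (Nat.add (Nat.add (Nat.add (Nat.add (Nat.add (Nat.add C (Nat.mul x5907 (nat_lit 2))) x10281) x5421) x5961) x5901) x5905)
    (Nat.add (Nat.add (Nat.add (Nat.add (Nat.add (Nat.add C x10295) x5435) x6083) x5867) x5927) x25603)
    (Nat.sub (Nat.add (Nat.add (Nat.add (Nat.add (Nat.add (Nat.add (Nat.add (Nat.add (Nat.add C x10301) x5441) x6089) x5873) x5945) x5921) x5933) x5929) x25609) x5927)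
    (Nat.add (Nat.add (Nat.add (Nat.add (Nat.add (Nat.add (Nat.add (Nat.add C x10303) x5443) x6091) x5875) x5947) x5935) x5927) x25611)
    (Nat.sub (Nat.add (Nat.add (Nat.add (Nat.add (Nat.add (Nat.add (Nat.add (Nat.add C x10307) x5447) x6095) x5879) x5951) x5927) x5935) x25615) (Nat.mul x5933 (nat_lit 4)))
    (Nat.sub (Nat.add (Nat.add (Nat.add (Nat.add (Nat.add (Nat.add (Nat.add (Nat.add (Nat.add C x10309) x5449) x6097) x5881) x5953) x5929) x5933) x5937) x25617) x5935)
    (Nat.add (Nat.add (Nat.add (Nat.add (Nat.add (Nat.add C x10311) x5451) x6099) x5883) x5955) x5935)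
    (Nat.sub (Nat.add (Nat.add (Nat.add (Nat.add (Nat.add (Nat.add (Nat.add (Nat.add (Nat.add C x10319) x5459) x6107) x5891) x5999) x5927) x5951) x5947) x25627) x5945)
    (Nat.sub (Nat.add (Nat.add (Nat.add (Nat.add (Nat.add (Nat.add (Nat.add (Nat.add (Nat.add C x10321) x5461) x6109) x5893) x6001) x5929) x5953) x5945) x25629) x5947)
    (Nat.sub (Nat.add (Nat.add (Nat.add (Nat.add (Nat.add (Nat.add (Nat.add (Nat.add (Nat.add (Nat.add C x10325) x5465) x6113) x5897) x6005) x5933) x5969) x5945) x5953) x25633) (Nat.mul x5951 (nat_lit 2)))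
    (Nat.add (Nat.add (Nat.add (Nat.add (Nat.add (Nat.add (Nat.add (Nat.add (Nat.add (Nat.add (Nat.add (Nat.add C x10327) x5467) x6115) x5899) x6007) x5935) x5971) x5947) x5959) x5951) x5955) x25635)
    (Nat.add (Nat.add (Nat.add (Nat.add (Nat.add (Nat.add (Nat.add (Nat.add (Nat.add C x10329) x5469) x6117) x5901) x6009) x5937) x5973) x5961) x5953)
    (Nat.sub (Nat.add (Nat.add (Nat.add (Nat.add (Nat.add (Nat.add (Nat.add (Nat.add (Nat.add C x10333) x5473) x6121) x5905) x6013) x5977) x5953) x5961) x25641) x5959)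
    (Nat.add (Nat.add (Nat.add (Nat.add (Nat.add (Nat.add (Nat.add (Nat.add (Nat.add C x5961) x10335) x5475) x6123) x5907) x6015) x5979) x5955) x5959)
    (Nat.sub (Nat.add (Nat.add (Nat.add (Nat.add (Nat.add (Nat.add (Nat.add C x10343) x5483) x6131) x6023) x5951) x5971) x25651) (Nat.mul x5969 (nat_lit 2)))
    (Nat.sub (Nat.add (Nat.add (Nat.add (Nat.add (Nat.add (Nat.add (Nat.add (Nat.add (Nat.add C x10345) x5485) x6133) x6025) x5953) x5977) x5969) x5973) x25653) x5971)
    (Nat.sub (Nat.add (Nat.add (Nat.add (Nat.add (Nat.add (Nat.add (Nat.add C x10347) x5487) x6135) x6027) x5955) x5979) x5971) (Nat.mul x5973 (nat_lit 2)))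
    (Nat.add (Nat.add (Nat.add (Nat.add (Nat.add (Nat.add (Nat.add (Nat.add C x10351) x5491) x6139) x6031) x5959) x5971) x5979) x25659)
    (Nat.add (Nat.add (Nat.add (Nat.add (Nat.add (Nat.add (Nat.add (Nat.add (Nat.add C x5979) x10353) x5493) x6141) x6033) x5961) x5973) x5985) x5977)
    (Nat.add (Nat.add (Nat.add (Nat.add (Nat.add (Nat.add C (Nat.mul x5985 (nat_lit 2))) x10359) x5499) x6147) x6039) x5979)
    (Nat.sub (Nat.add (Nat.add (Nat.add (Nat.add (Nat.add (Nat.add (Nat.add C x10373) x5513) x6161) x5945) x6005) x6001) x25681) (Nat.mul x5999 (nat_lit 2)))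
    (Nat.sub (Nat.add (Nat.add (Nat.add (Nat.add (Nat.add (Nat.add (Nat.add C x10375) x5515) x6163) x5947) x6007) x5999) x25683) (Nat.mul x6001 (nat_lit 2)))
    (Nat.sub (Nat.add (Nat.add (Nat.add (Nat.add (Nat.add (Nat.add (Nat.add (Nat.add C x10379) x5519) x6167) x5951) x6023) x5999) x6007) x25687) (Nat.mul x6005 (nat_lit 4)))
    (Nat.sub (Nat.add (Nat.add (Nat.add (Nat.add (Nat.add (Nat.add (Nat.add (Nat.add (Nat.add (Nat.add C x10381) x5521) x6169) x5953) x6025) x6001) x6013) x6005) x6009) x25689) (Nat.mul x6007 (nat_lit 2)))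
    (Nat.sub (Nat.add (Nat.add (Nat.add (Nat.add (Nat.add (Nat.add (Nat.add C x10383) x5523) x6171) x5955) x6027) x6015) x6007) (Nat.mul x6009 (nat_lit 2)))
    (Nat.sub (Nat.add (Nat.add (Nat.add (Nat.add (Nat.add (Nat.add (Nat.add (Nat.add C x10387) x5527) x6175) x5959) x6031) x6007) x6015) x25695) (Nat.mul x6013 (nat_lit 4)))
    (Nat.sub (Nat.add (Nat.add (Nat.add (Nat.add (Nat.add (Nat.add (Nat.add C x10389) x5529) x6177) x5961) x6033) x6009) x6013) (Nat.mul x6015 (nat_lit 2)))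
    (Nat.sub (Nat.add (Nat.add (Nat.add (Nat.add (Nat.add (Nat.add (Nat.add C x10397) x5537) x6185) x5969) x6005) x6025) x25705) (Nat.mul x6023 (nat_lit 2)))
    (Nat.sub (Nat.add (Nat.add (Nat.add (Nat.add (Nat.add (Nat.add (Nat.add (Nat.add (Nat.add C x10399) x5539) x6187) x5971) x6007) x6031) x6023) x6027) x25707) x6025)
    (Nat.sub (Nat.add (Nat.add (Nat.add (Nat.add (Nat.add (Nat.add (Nat.add C x10401) x5541) x6189) x5973) x6009) x6033) x6025) (Nat.mul x6027 (nat_lit 2)))
    (Nat.sub (Nat.add (Nat.add (Nat.add (Nat.add (Nat.add (Nat.add (Nat.add (Nat.add (Nat.add C x10405) x5545) x6193) x5977) x6013) x6049) x6025) x6033) x25713) x6031)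
    (Nat.add (Nat.add (Nat.add (Nat.add (Nat.add (Nat.add (Nat.add (Nat.add (Nat.add C x10407) x5547) x6195) x5979) x6015) x6051) x6027) x6039) x6031)
    (Nat.add (Nat.add (Nat.add (Nat.add (Nat.add (Nat.add C x10413) x5553) x6201) x5985) x6057) x6033)
    (Nat.add (Nat.add (Nat.add (Nat.add (Nat.add (Nat.add C x10423) x5563) x6211) x6031) x6051) x25731)
    (Nat.add (Nat.add (Nat.add (Nat.add (Nat.add (Nat.add C x10425) x5565) x6213) x6033) x6057) x6049)
    (Nat.add (Nat.add (Nat.add (Nat.add (Nat.add (Nat.add C (Nat.mul x6057 (nat_lit 2))) x10431) x5571) x6219) x6039) x6051)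
    (Nat.add (Nat.add (Nat.add (Nat.add (Nat.add (Nat.add C (Nat.mul x6083 (nat_lit 2))) x10457) x5597) x5921) x6089) x25765)
    (Nat.add (Nat.add (Nat.add (Nat.add (Nat.add (Nat.add (Nat.add (Nat.add (Nat.add C x6089) x10463) x5603) x5927) x6107) x6083) x6095) x6091) x25771)
    (Nat.add (Nat.add (Nat.add (Nat.add (Nat.add (Nat.add (Nat.add (Nat.add C (Nat.mul x6091 (nat_lit 2))) x10465) x5605) x5929) x6109) x6097) x6089) x25773)
    (Nat.sub (Nat.add (Nat.add (Nat.add (Nat.add (Nat.add (Nat.add (Nat.add C x10469) x5609) x5933) x6113) x6089) x6097) x25777) (Nat.mul x6095 (nat_lit 2)))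
    (Nat.add (Nat.add (Nat.add (Nat.add (Nat.add (Nat.add (Nat.add (Nat.add (Nat.add C x6097) x10471) x5611) x5935) x6115) x6091) x6095) x6099) x25779)
    (Nat.add (Nat.add (Nat.add (Nat.add (Nat.add (Nat.add C (Nat.mul x6099 (nat_lit 2))) x10473) x5613) x5937) x6117) x6097)
    (Nat.add (Nat.add (Nat.add (Nat.add (Nat.add (Nat.add (Nat.add (Nat.add C x10481) x5621) x5945) x6161) x6089) x6113) x6109) x25789)
    (Nat.add (Nat.add (Nat.add (Nat.add (Nat.add (Nat.add (Nat.add (Nat.add C x10483) x5623) x5947) x6163) x6091) x6115) x6107) x25791)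
    (Nat.sub (Nat.add (Nat.add (Nat.add (Nat.add (Nat.add (Nat.add (Nat.add (Nat.add (Nat.add C x10487) x5627) x5951) x6167) x6095) x6131) x6107) x6115) x25795) x6113)
    (Nat.add (Nat.add (Nat.add (Nat.add (Nat.add (Nat.add (Nat.add (Nat.add (Nat.add (Nat.add (Nat.add (Nat.add C x6115) x10489) x5629) x5953) x6169) x6097) x6133) x6109) x6121) x6113) x6117) x25797)
    (Nat.add (Nat.add (Nat.add (Nat.add (Nat.add (Nat.add (Nat.add (Nat.add (Nat.add C x6117) x10491) x5631) x5955) x6171) x6099) x6135) x6123) x6115)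
    (Nat.add (Nat.add (Nat.add (Nat.add (Nat.add (Nat.add (Nat.add (Nat.add C x10495) x5635) x5959) x6175) x6139) x6115) x6123) x25803)
    (Nat.add (Nat.add (Nat.add (Nat.add (Nat.add (Nat.add (Nat.add (Nat.add C (Nat.mul x6123 (nat_lit 2))) x10497) x5637) x5961) x6177) x6141) x6117) x6121)
    (Nat.sub (Nat.add (Nat.add (Nat.add (Nat.add (Nat.add (Nat.add (Nat.add C x10505) x5645) x5969) x6185) x6113) x6133) x25813) (Nat.mul x6131 (nat_lit 2)))
    (Nat.sub (Nat.add (Nat.add (Nat.add (Nat.add (Nat.add (Nat.add (Nat.add (Nat.add (Nat.add C x10507) x5647) x5971) x6187) x6115) x6139) x6131) x6135) x25815) x6133)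
    (Nat.sub (Nat.add (Nat.add (Nat.add (Nat.add (Nat.add (Nat.add (Nat.add C x10509) x5649) x5973) x6189) x6117) x6141) x6133) (Nat.mul x6135 (nat_lit 2)))
    (Nat.add (Nat.add (Nat.add (Nat.add (Nat.add (Nat.add (Nat.add (Nat.add C x10513) x5653) x5977) x6193) x6121) x6133) x6141) x25821)
    (Nat.add (Nat.add (Nat.add (Nat.add (Nat.add (Nat.add (Nat.add (Nat.add (Nat.add C x6141) x10515) x5655) x5979) x6195) x6123) x6135) x6147) x6139)
    (Nat.add (Nat.add (Nat.add (Nat.add (Nat.add (Nat.add C (Nat.mul x6147 (nat_lit 2))) x10521) x5661) x5985) x6201) x6141)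
    (Nat.add (Nat.add (Nat.add (Nat.add (Nat.add (Nat.add (Nat.add (Nat.add (Nat.add C x6161) x10535) x5675) x5999) x6323) x6107) x6167) x6163) x25843)
    (Nat.add (Nat.add (Nat.add (Nat.add (Nat.add (Nat.add (Nat.add (Nat.add (Nat.add C x6163) x10537) x5677) x6001) x6325) x6109) x6169) x6161) x25845)
    (Nat.sub (Nat.add (Nat.add (Nat.add (Nat.add (Nat.add (Nat.add (Nat.add (Nat.add (Nat.add C x10541) x5681) x6005) x6329) x6113) x6185) x6161) x6169) x25849) x6167)
    (Nat.add (Nat.add (Nat.add (Nat.add (Nat.add (Nat.add (Nat.add (Nat.add (Nat.add (Nat.add (Nat.add (Nat.add C x6169) x10543) x5683) x6007) x6331) x6115) x6187) x6163) x6175) x6167) x6171) x25851)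
    (Nat.add (Nat.add (Nat.add (Nat.add (Nat.add (Nat.add (Nat.add (Nat.add (Nat.add C x6171) x10545) x5685) x6009) x6333) x6117) x6189) x6177) x6169)
    (Nat.sub (Nat.add (Nat.add (Nat.add (Nat.add (Nat.add (Nat.add (Nat.add (Nat.add (Nat.add C x10549) x5689) x6013) x6337) x6121) x6193) x6169) x6177) x25857) x6175)
    (Nat.add (Nat.add (Nat.add (Nat.add (Nat.add (Nat.add (Nat.add (Nat.add (Nat.add C x6177) x10551) x5691) x6015) x6339) x6123) x6195) x6171) x6175)
    (Nat.add (Nat.add (Nat.add (Nat.add (Nat.add (Nat.add (Nat.add (Nat.add (Nat.add C x10559) x5699) x6023) x6347) x6131) x6239) x6167) x6187) x25867)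
    (Nat.add (Nat.add (Nat.add (Nat.add (Nat.add (Nat.add (Nat.add (Nat.add (Nat.add (Nat.add (Nat.add (Nat.add C x6187) x10561) x5701) x6025) x6349) x6133) x6241) x6169) x6193) x6185) x6189) x25869)
    (Nat.add (Nat.add (Nat.add (Nat.add (Nat.add (Nat.add (Nat.add (Nat.add (Nat.add C x10563) x5703) x6027) x6351) x6135) x6243) x6171) x6195) x6187)
    (Nat.add (Nat.add (Nat.add (Nat.add (Nat.add (Nat.add (Nat.add (Nat.add (Nat.add (Nat.add (Nat.add (Nat.add C x6193) x10567) x5707) x6031) x6355) x6139) x6247) x6175) x6211) x6187) x6195) x25875)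
    (Nat.add (Nat.add (Nat.add (Nat.add (Nat.add (Nat.add (Nat.add (Nat.add (Nat.add (Nat.add (Nat.add (Nat.add C (Nat.mul x6195 (nat_lit 2))) x10569) x5709) x6033) x6357) x6141) x6249) x6177) x6213) x6189) x6201) x6193)
    (Nat.add (Nat.add (Nat.add (Nat.add (Nat.add (Nat.add (Nat.add (Nat.add (Nat.add C (Nat.mul x6201 (nat_lit 2))) x10575) x5715) x6039) x6363) x6147) x6255) x6219) x6195)
    (Nat.add (Nat.add (Nat.add (Nat.add (Nat.add (Nat.add (Nat.add (Nat.add (Nat.add C x6211) x10585) x5725) x6049) x6373) x6265) x6193) x6213) x25893)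
    (Nat.add (Nat.add (Nat.add (Nat.add (Nat.add (Nat.add (Nat.add (Nat.add (Nat.add C x6213) x10587) x5727) x6051) x6375) x6267) x6195) x6219) x6211)
    (Nat.add (Nat.add (Nat.add (Nat.add (Nat.add (Nat.add (Nat.add (Nat.add C (Nat.mul x6219 (nat_lit 3))) x10593) x5733) x6057) x6381) x6273) x6201) x6213)
    (Nat.add (Nat.add (Nat.add (Nat.add (Nat.add (Nat.add C x10613) x5753) x6401) x6185) x6241) x25921)
    (Nat.add (Nat.add (Nat.add (Nat.add (Nat.add (Nat.add (Nat.add (Nat.add (Nat.add C x6241) x10615) x5755) x6403) x6187) x6247) x6239) x6243) x25923)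
    (Nat.add (Nat.add (Nat.add (Nat.add (Nat.add (Nat.add C x10617) x5757) x6405) x6189) x6249) x6241)
    (Nat.add (Nat.add (Nat.add (Nat.add (Nat.add (Nat.add (Nat.add (Nat.add C x10621) x5761) x6409) x6193) x6265) x6241) x6249) x25929)
    (Nat.add (Nat.add (Nat.add (Nat.add (Nat.add (Nat.add (Nat.add (Nat.add (Nat.add C x6249) x10623) x5763) x6411) x6195) x6267) x6243) x6255) x6247)
    (Nat.add (Nat.add (Nat.add (Nat.add (Nat.add (Nat.add C x10629) x5769) x6417) x6201) x6273) x6249)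
    (Nat.add (Nat.add (Nat.add (Nat.add (Nat.add (Nat.add (Nat.add (Nat.add C (Nat.mul x6265 (nat_lit 2))) x10639) x5779) x6427) x6211) x6247) x6267) x25947)
    (Nat.add (Nat.add (Nat.add (Nat.add (Nat.add (Nat.add (Nat.add (Nat.add C (Nat.mul x6267 (nat_lit 2))) x10641) x5781) x6429) x6213) x6249) x6273) x6265)
    (Nat.add (Nat.add (Nat.add (Nat.add (Nat.add (Nat.add (Nat.add (Nat.add C (Nat.mul x6273 (nat_lit 3))) x10647) x5787) x6435) x6219) x6255) x6291) x6267)
    (Nat.add (Nat.add (Nat.add (Nat.add (Nat.add C (Nat.mul x6291 (nat_lit 4))) x10665) x5805) x6453) x6273)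
    (Nat.add (Nat.add (Nat.add (Nat.add (Nat.add (Nat.add C (Nat.mul x6323 (nat_lit 2))) x10697) x6161) x6329) x6325) x26005)
    (Nat.add (Nat.add (Nat.add (Nat.add (Nat.add (Nat.add C (Nat.mul x6325 (nat_lit 2))) x10699) x6163) x6331) x6323) x26007)
    (Nat.add (Nat.add (Nat.add (Nat.add (Nat.add (Nat.add C x10703) x6167) x6347) x6323) x6331) x26011)
    (Nat.add (Nat.add (Nat.add (Nat.add (Nat.add (Nat.add (Nat.add (Nat.add (Nat.add C (Nat.mul x6331 (nat_lit 2))) x10705) x6169) x6349) x6325) x6337) x6329) x6333) x26013)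
    (Nat.add (Nat.add (Nat.add (Nat.add (Nat.add (Nat.add C (Nat.mul x6333 (nat_lit 2))) x10707) x6171) x6351) x6339) x6331)
    (Nat.add (Nat.add (Nat.add (Nat.add (Nat.add (Nat.add C x10711) x6175) x6355) x6331) x6339) x26019)
    (Nat.add (Nat.add (Nat.add (Nat.add (Nat.add (Nat.add C (Nat.mul x6339 (nat_lit 2))) x10713) x6177) x6357) x6333) x6337)
    (Nat.add (Nat.add (Nat.add (Nat.add (Nat.add (Nat.add C x10721) x6185) x6401) x6329) x6349) x26029)
    (Nat.add (Nat.add (Nat.add (Nat.add (Nat.add (Nat.add (Nat.add (Nat.add (Nat.add C x6349) x10723) x6187) x6403) x6331) x6355) x6347) x6351) x26031)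
    (Nat.add (Nat.add (Nat.add (Nat.add (Nat.add (Nat.add C x10725) x6189) x6405) x6333) x6357) x6349)
    (Nat.add (Nat.add (Nat.add (Nat.add (Nat.add (Nat.add (Nat.add (Nat.add (Nat.add C x6355) x10729) x6193) x6409) x6337) x6373) x6349) x6357) x26037)
    (Nat.add (Nat.add (Nat.add (Nat.add (Nat.add (Nat.add (Nat.add (Nat.add (Nat.add C (Nat.mul x6357 (nat_lit 2))) x10731) x6195) x6411) x6339) x6375) x6351) x6363) x6355)
    (Nat.add (Nat.add (Nat.add (Nat.add (Nat.add (Nat.add C (Nat.mul x6363 (nat_lit 2))) x10737) x6201) x6417) x6381) x6357)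
    (Nat.add (Nat.add (Nat.add (Nat.add (Nat.add (Nat.add C x10747) x6211) x6427) x6355) x6375) x26055)
    (Nat.add (Nat.add (Nat.add (Nat.add (Nat.add (Nat.add C x10749) x6213) x6429) x6357) x6381) x6373)
    (Nat.add (Nat.add (Nat.add (Nat.add (Nat.add (Nat.add C (Nat.mul x6381 (nat_lit 2))) x10755) x6219) x6435) x6363) x6375)
    (Nat.add (Nat.add (Nat.add (Nat.add (Nat.add (Nat.add C (Nat.mul x6401 (nat_lit 2))) x10775) x6239) x6347) x6403) x26083)
    (Nat.add (Nat.add (Nat.add (Nat.add (Nat.add (Nat.add (Nat.add (Nat.add C (Nat.mul x6403 (nat_lit 3))) x10777) x6241) x6349) x6409) x6401) x6405) x26085)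
    (Nat.add (Nat.add (Nat.add (Nat.add (Nat.add (Nat.add C (Nat.mul x6405 (nat_lit 2))) x10779) x6243) x6351) x6411) x6403)
    (Nat.add (Nat.add (Nat.add (Nat.add (Nat.add (Nat.add (Nat.add (Nat.add C (Nat.mul x6409 (nat_lit 2))) x10783) x6247) x6355) x6427) x6403) x6411) x26091)
    (Nat.add (Nat.add (Nat.add (Nat.add (Nat.add (Nat.add (Nat.add (Nat.add C (Nat.mul x6411 (nat_lit 3))) x10785) x6249) x6357) x6429) x6405) x6417) x6409)
    (Nat.add (Nat.add (Nat.add (Nat.add (Nat.add (Nat.add C (Nat.mul x6417 (nat_lit 2))) x10791) x6255) x6363) x6435) x6411)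
    (Nat.add (Nat.add (Nat.add (Nat.add (Nat.add (Nat.add (Nat.add (Nat.add C (Nat.mul x6427 (nat_lit 3))) x10801) x6265) x6373) x6481) x6409) x6429) x26109)
    (Nat.add (Nat.add (Nat.add (Nat.add (Nat.add (Nat.add (Nat.add (Nat.add C (Nat.mul x6429 (nat_lit 3))) x10803) x6267) x6375) x6483) x6411) x6435) x6427)
    (Nat.add (Nat.add (Nat.add (Nat.add (Nat.add (Nat.add (Nat.add (Nat.add C (Nat.mul x6435 (nat_lit 4))) x10809) x6273) x6381) x6489) x6417) x6453) x6429)
    (Nat.add (Nat.add (Nat.add (Nat.add (Nat.add C (Nat.mul x6453 (nat_lit 4))) x10827) x6291) x6507) x6435)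
    (Nat.add (Nat.add (Nat.add (Nat.add (Nat.add C (Nat.mul x6481 (nat_lit 4))) x10855) x6427) x6483) x26163)
    (Nat.add (Nat.add (Nat.add (Nat.add (Nat.add C (Nat.mul x6483 (nat_lit 4))) x10857) x6429) x6489) x6481)
    (Nat.add (Nat.add (Nat.add (Nat.add (Nat.add C (Nat.mul x6489 (nat_lit 4))) x10863) x6435) x6507) x6483)
    (Nat.add (Nat.add (Nat.add (Nat.add C (Nat.mul x6507 (nat_lit 6))) x10881) x6453) x6489)
    (Nat.add (Nat.add (Nat.add (Nat.add (Nat.add C (Nat.mul x6641 (nat_lit 4))) x19763) x2267) x6695) x26323)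
    (Nat.add (Nat.add (Nat.add (Nat.add (Nat.add (Nat.add (Nat.add (Nat.add C (Nat.mul x6695 (nat_lit 3))) x19817) x2321) x6857) x6641) x6749) x6713) x26377)
    (Nat.add (Nat.add (Nat.add (Nat.add (Nat.add (Nat.add (Nat.add (Nat.add C (Nat.mul x6713 (nat_lit 2))) x19835) x2339) x6875) x6767) x6695) x6719) x26395)
    (Nat.add (Nat.add (Nat.add (Nat.add (Nat.add (Nat.add (Nat.add (Nat.add C (Nat.mul x6719 (nat_lit 2))) x19841) x2345) x6881) x6773) x6713) x6721) x26401)
    (Nat.add (Nat.add (Nat.add (Nat.add (Nat.add (Nat.add (Nat.add C (Nat.mul x6721 (nat_lit 4))) x19843) x2347) x6883) x6775) x6719) x26403)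
    (Nat.add (Nat.add (Nat.add (Nat.add (Nat.add (Nat.add C x19871) x2375) x6911) x6695) x6767) x26431)
    (Nat.add (Nat.add (Nat.add (Nat.add (Nat.add (Nat.add (Nat.add (Nat.add (Nat.add C x6767) x19889) x2393) x6929) x6713) x6749) x6785) x6773) x26449)
    (Nat.add (Nat.add (Nat.add (Nat.add (Nat.add (Nat.add (Nat.add (Nat.add C x19895) x2399) x6935) x6719) x6791) x6767) x6775) x26455)
    (Nat.add (Nat.add (Nat.add (Nat.add (Nat.add (Nat.add (Nat.add (Nat.add C (Nat.mul x6775 (nat_lit 2))) x19897) x2401) x6937) x6721) x6793) x6773) x26457)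
    (Nat.add (Nat.add (Nat.add (Nat.add (Nat.add (Nat.add C x19907) x2411) x6947) x6767) x6791) x26467)
    (Nat.add (Nat.add (Nat.add (Nat.add (Nat.add (Nat.add (Nat.add (Nat.add (Nat.add C x6791) x19913) x2417) x6953) x6773) x6785) x6797) x6793) x26473)
    (Nat.add (Nat.add (Nat.add (Nat.add (Nat.add (Nat.add (Nat.add (Nat.add C (Nat.mul x6793 (nat_lit 2))) x19915) x2419) x6955) x6775) x6799) x6791) x26475)
    (Nat.add (Nat.add (Nat.add (Nat.add (Nat.add (Nat.add C x19919) x2423) x6959) x6791) x6799) x26479)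
    (Nat.add (Nat.add (Nat.add (Nat.add (Nat.add (Nat.add (Nat.add (Nat.add C (Nat.mul x6799 (nat_lit 3))) x19921) x2425) x6961) x6793) x6797) x6801) x26481)
    (Nat.add (Nat.add (Nat.add (Nat.add (Nat.add C (Nat.mul x6801 (nat_lit 4))) x19923) x2427) x6963) x6799)
    (Nat.add (Nat.add (Nat.add (Nat.add (Nat.add (Nat.add (Nat.add (Nat.add C (Nat.mul x6857 (nat_lit 2))) x19979) x2483) x7343) x6695) x6911) x6875) x26539)
    (Nat.add (Nat.add (Nat.add (Nat.add (Nat.add (Nat.add (Nat.add (Nat.add C x19997) x2501) x7361) x6713) x6929) x6857) x6881) x26557)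
    (Nat.add (Nat.add (Nat.add (Nat.add (Nat.add (Nat.add (Nat.add (Nat.add C x20003) x2507) x7367) x6719) x6935) x6875) x6883) x26563)
    (Nat.add (Nat.add (Nat.add (Nat.add (Nat.add (Nat.add (Nat.add (Nat.add C (Nat.mul x6883 (nat_lit 2))) x20005) x2509) x7369) x6721) x6937) x6881) x26565)
    (Nat.add (Nat.add (Nat.add (Nat.add (Nat.add (Nat.add (Nat.add (Nat.add (Nat.add C x6911) x20033) x2537) x7397) x6749) x7073) x6857) x6929) x26593)
    (Nat.add (Nat.add (Nat.add (Nat.add (Nat.add (Nat.add (Nat.add (Nat.add (Nat.add (Nat.add (Nat.add (Nat.add C x6929) x20051) x2555) x7415) x6767) x7091) x6875) x6983) x6911) x6947) x6935) x26611)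
    (Nat.add (Nat.add (Nat.add (Nat.add (Nat.add (Nat.add (Nat.add (Nat.add (Nat.add (Nat.add (Nat.add C x20057) x2561) x7421) x6773) x7097) x6881) x6989) x6953) x6929) x6937) x26617)
    (Nat.add (Nat.add (Nat.add (Nat.add (Nat.add (Nat.add (Nat.add (Nat.add (Nat.add (Nat.add (Nat.add C (Nat.mul x6937 (nat_lit 2))) x20059) x2563) x7423) x6775) x7099) x6883) x6991) x6955) x6935) x26619)
    (Nat.sub (Nat.add (Nat.add (Nat.add (Nat.add (Nat.add (Nat.add (Nat.add (Nat.add (Nat.add C x20069) x2573) x7433) x6785) x7109) x7001) x6929) x6953) x26629) x6947)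
    (Nat.add (Nat.add (Nat.add (Nat.add (Nat.add (Nat.add (Nat.add (Nat.add (Nat.add (Nat.add (Nat.add C x20075) x2579) x7439) x6791) x7115) x7007) x6935) x6947) x6959) x6955) x26635)
    (Nat.add (Nat.add (Nat.add (Nat.add (Nat.add (Nat.add (Nat.add (Nat.add (Nat.add (Nat.add (Nat.add C x6955) x20077) x2581) x7441) x6793) x7117) x7009) x6937) x6961) x6953) x26637)
    (Nat.sub (Nat.add (Nat.add (Nat.add (Nat.add (Nat.add (Nat.add (Nat.add (Nat.add (Nat.add C x20081) x2585) x7445) x6797) x7121) x7013) x6953) x6961) x26641) x6959)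
    (Nat.add (Nat.add (Nat.add (Nat.add (Nat.add (Nat.add (Nat.add (Nat.add (Nat.add (Nat.add (Nat.add C (Nat.mul x6961 (nat_lit 2))) x20083) x2587) x7447) x6799) x7123) x7015) x6955) x6959) x6963) x26643)
    (Nat.add (Nat.add (Nat.add (Nat.add (Nat.add (Nat.add (Nat.add (Nat.add C (Nat.mul x6963 (nat_lit 3))) x20085) x2589) x7449) x6801) x7125) x7017) x6961)
    (Nat.add (Nat.add (Nat.add (Nat.add (Nat.add (Nat.add (Nat.add (Nat.add C x20105) x2609) x7469) x7145) x6929) x7001) x6989) x26665)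
    (Nat.sub (Nat.add (Nat.add (Nat.add (Nat.add (Nat.add (Nat.add (Nat.add (Nat.add (Nat.add C x20111) x2615) x7475) x7151) x6935) x7007) x6983) x6991) x26671) (Nat.mul x6989 (nat_lit 2)))
    (Nat.add (Nat.add (Nat.add (Nat.add (Nat.add (Nat.add (Nat.add (Nat.add C x20113) x2617) x7477) x7153) x6937) x7009) x6989) x26673)
    (Nat.add (Nat.add (Nat.add (Nat.add (Nat.add (Nat.add (Nat.add (Nat.add C x20123) x2627) x7487) x7163) x6947) x6983) x7007) x26683)
    (Nat.add (Nat.add (Nat.add (Nat.add (Nat.add (Nat.add (Nat.add (Nat.add (Nat.add (Nat.add (Nat.add C x20129) x2633) x7493) x7169) x6953) x6989) x7025) x7001) x7013) x7009) x26689)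
    (Nat.add (Nat.add (Nat.add (Nat.add (Nat.add (Nat.add (Nat.add (Nat.add (Nat.add (Nat.add (Nat.add C x7009) x20131) x2635) x7495) x7171) x6955) x6991) x7027) x7015) x7007) x26691)
    (Nat.sub (Nat.add (Nat.add (Nat.add (Nat.add (Nat.add (Nat.add (Nat.add (Nat.add (Nat.add C x20135) x2639) x7499) x7175) x6959) x7031) x7007) x7015) x26695) (Nat.mul x7013 (nat_lit 2)))
    (Nat.add (Nat.add (Nat.add (Nat.add (Nat.add (Nat.add (Nat.add (Nat.add (Nat.add (Nat.add (Nat.add C x7015) x20137) x2641) x7501) x7177) x6961) x7033) x7009) x7013) x7017) x26697)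
    (Nat.add (Nat.add (Nat.add (Nat.add (Nat.add (Nat.add (Nat.add (Nat.add C (Nat.mul x7017 (nat_lit 2))) x20139) x2643) x7503) x7179) x6963) x7035) x7015)
    (Nat.add (Nat.add (Nat.add (Nat.add (Nat.add (Nat.add (Nat.add (Nat.add C x20147) x2651) x7511) x7187) x7007) x7031) x7027) x26707)
    (Nat.add (Nat.add (Nat.add (Nat.add (Nat.add (Nat.add (Nat.add (Nat.add C x20149) x2653) x7513) x7189) x7009) x7033) x7025) x26709)
    (Nat.add (Nat.add (Nat.add (Nat.add (Nat.add (Nat.add (Nat.add (Nat.add C x20153) x2657) x7517) x7193) x7013) x7025) x7033) x26713)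
    (Nat.add (Nat.add (Nat.add (Nat.add (Nat.add (Nat.add (Nat.add (Nat.add (Nat.add (Nat.add (Nat.add C (Nat.mul x7033 (nat_lit 2))) x20155) x2659) x7519) x7195) x7015) x7027) x7039) x7031) x7035) x26715)
    (Nat.add (Nat.add (Nat.add (Nat.add (Nat.add (Nat.add (Nat.add (Nat.add C (Nat.mul x7035 (nat_lit 2))) x20157) x2661) x7521) x7197) x7017) x7041) x7033)
    (Nat.add (Nat.add (Nat.add (Nat.add (Nat.add (Nat.add (Nat.add (Nat.add C (Nat.mul x7039 (nat_lit 2))) x20161) x2665) x7525) x7201) x7033) x7041) x26721)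
    (Nat.add (Nat.add (Nat.add (Nat.add (Nat.add (Nat.add (Nat.add C (Nat.mul x7041 (nat_lit 4))) x20163) x2667) x7527) x7203) x7035) x7039)
    (Nat.add (Nat.add (Nat.add (Nat.add (Nat.add (Nat.add C x20195) x2699) x7559) x6911) x7091) x26755)
    (Nat.sub (Nat.add (Nat.add (Nat.add (Nat.add (Nat.add (Nat.add (Nat.add (Nat.add (Nat.add C x20213) x2717) x7577) x6929) x7145) x7073) x7109) x7097) x26773) x7091)
    (Nat.sub (Nat.add (Nat.add (Nat.add (Nat.add (Nat.add (Nat.add (Nat.add (Nat.add (Nat.add C x20219) x2723) x7583) x6935) x7151) x7115) x7091) x7099) x26779) (Nat.mul x7097 (nat_lit 2)))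
    (Nat.add (Nat.add (Nat.add (Nat.add (Nat.add (Nat.add (Nat.add (Nat.add C x20221) x2725) x7585) x6937) x7153) x7117) x7097) x26781)
    (Nat.sub (Nat.add (Nat.add (Nat.add (Nat.add (Nat.add (Nat.add (Nat.add (Nat.add C x20231) x2735) x7595) x6947) x7163) x7091) x7115) x26791) (Nat.mul x7109 (nat_lit 4)))
    (Nat.sub (Nat.add (Nat.add (Nat.add (Nat.add (Nat.add (Nat.add (Nat.add (Nat.add (Nat.add (Nat.add C x20237) x2741) x7601) x6953) x7169) x7097) x7109) x7121) x7117) x26797) (Nat.mul x7115 (nat_lit 3)))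
    (Nat.sub (Nat.add (Nat.add (Nat.add (Nat.add (Nat.add (Nat.add (Nat.add (Nat.add (Nat.add C x20239) x2743) x7603) x6955) x7171) x7099) x7123) x7115) x26799) (Nat.mul x7117 (nat_lit 2)))
    (Nat.sub (Nat.add (Nat.add (Nat.add (Nat.add (Nat.add (Nat.add (Nat.add (Nat.add C x20243) x2747) x7607) x6959) x7175) x7115) x7123) x26803) (Nat.mul x7121 (nat_lit 4)))
    (Nat.sub (Nat.add (Nat.add (Nat.add (Nat.add (Nat.add (Nat.add (Nat.add (Nat.add (Nat.add C x20245) x2749) x7609) x6961) x7177) x7117) x7121) x7125) x26805) x7123)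
    (Nat.add (Nat.add (Nat.add (Nat.add (Nat.add (Nat.add C x20247) x2751) x7611) x6963) x7179) x7123)
    (Nat.add (Nat.add (Nat.add (Nat.add (Nat.add (Nat.add (Nat.add (Nat.add C x20267) x2771) x7631) x6983) x7091) x7163) x7151) x26827)
    (Nat.sub (Nat.add (Nat.add (Nat.add (Nat.add (Nat.add (Nat.add (Nat.add (Nat.add (Nat.add C x20273) x2777) x7637) x6989) x7097) x7169) x7145) x7153) x26833) (Nat.mul x7151 (nat_lit 2)))
    (Nat.add (Nat.add (Nat.add (Nat.add (Nat.add (Nat.add (Nat.add (Nat.add C x20275) x2779) x7639) x6991) x7099) x7171) x7151) x26835)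
    (Nat.sub (Nat.add (Nat.add (Nat.add (Nat.add (Nat.add (Nat.add (Nat.add (Nat.add (Nat.add C x20285) x2789) x7649) x7001) x7109) x7217) x7145) x7169) x26845) x7163)
    (Nat.sub (Nat.add (Nat.add (Nat.add (Nat.add (Nat.add (Nat.add (Nat.add (Nat.add (Nat.add (Nat.add (Nat.add (Nat.add C x20291) x2795) x7655) x7007) x7115) x7223) x7151) x7187) x7163) x7175) x7171) x26851) x7169)
    (Nat.add (Nat.add (Nat.add (Nat.add (Nat.add (Nat.add (Nat.add (Nat.add (Nat.add (Nat.add (Nat.add C x20293) x2797) x7657) x7009) x7117) x7225) x7153) x7189) x7177) x7169) x26853)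
    (Nat.sub (Nat.add (Nat.add (Nat.add (Nat.add (Nat.add (Nat.add (Nat.add (Nat.add (Nat.add (Nat.add C x20297) x2801) x7661) x7013) x7121) x7229) x7193) x7169) x7177) x26857) (Nat.mul x7175 (nat_lit 3)))
    (Nat.add (Nat.add (Nat.add (Nat.add (Nat.add (Nat.add (Nat.add (Nat.add (Nat.add (Nat.add (Nat.add C x20299) x2803) x7663) x7015) x7123) x7231) x7195) x7171) x7175) x7179) x26859)
    (Nat.add (Nat.add (Nat.add (Nat.add (Nat.add (Nat.add (Nat.add (Nat.add (Nat.add C x7179) x20301) x2805) x7665) x7017) x7125) x7233) x7197) x7177)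
    (Nat.sub (Nat.add (Nat.add (Nat.add (Nat.add (Nat.add (Nat.add (Nat.add (Nat.add (Nat.add C x20309) x2813) x7673) x7025) x7241) x7169) x7193) x7189) x26869) (Nat.mul x7187 (nat_lit 2)))
    (Nat.sub (Nat.add (Nat.add (Nat.add (Nat.add (Nat.add (Nat.add (Nat.add (Nat.add (Nat.add C x20311) x2815) x7675) x7027) x7243) x7171) x7195) x7187) x26871) (Nat.mul x7189 (nat_lit 2)))
    (Nat.sub (Nat.add (Nat.add (Nat.add (Nat.add (Nat.add (Nat.add (Nat.add (Nat.add (Nat.add C x20315) x2819) x7679) x7031) x7247) x7175) x7187) x7195) x26875) (Nat.mul x7193 (nat_lit 2)))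
    (Nat.add (Nat.add (Nat.add (Nat.add (Nat.add (Nat.add (Nat.add (Nat.add (Nat.add (Nat.add (Nat.add C x20317) x2821) x7681) x7033) x7249) x7177) x7189) x7201) x7193) x7197) x26877)
    (Nat.add (Nat.add (Nat.add (Nat.add (Nat.add (Nat.add (Nat.add (Nat.add C x20319) x2823) x7683) x7035) x7251) x7179) x7203) x7195)
    (Nat.add (Nat.add (Nat.add (Nat.add (Nat.add (Nat.add (Nat.add (Nat.add C x20323) x2827) x7687) x7039) x7255) x7195) x7203) x26883)
    (Nat.add (Nat.add (Nat.add (Nat.add (Nat.add (Nat.add (Nat.add (Nat.add C (Nat.mul x7203 (nat_lit 2))) x20325) x2829) x7689) x7041) x7257) x7197) x7201)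
    (Nat.add (Nat.add (Nat.add (Nat.add (Nat.add (Nat.add C x20339) x2843) x7703) x7163) x7223) x26899)
    (Nat.sub (Nat.add (Nat.add (Nat.add (Nat.add (Nat.add (Nat.add (Nat.add (Nat.add (Nat.add C x20345) x2849) x7709) x7169) x7241) x7217) x7229) x7225) x26905) x7223)
    (Nat.add (Nat.add (Nat.add (Nat.add (Nat.add (Nat.add (Nat.add (Nat.add C x20347) x2851) x7711) x7171) x7243) x7231) x7223) x26907)
    (Nat.sub (Nat.add (Nat.add (Nat.add (Nat.add (Nat.add (Nat.add (Nat.add (Nat.add C x20351) x2855) x7715) x7175) x7247) x7223) x7231) x26911) (Nat.mul x7229 (nat_lit 4)))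
    (Nat.sub (Nat.add (Nat.add (Nat.add (Nat.add (Nat.add (Nat.add (Nat.add (Nat.add (Nat.add C x20353) x2857) x7717) x7177) x7249) x7225) x7229) x7233) x26913) x7231)
    (Nat.add (Nat.add (Nat.add (Nat.add (Nat.add (Nat.add C x20355) x2859) x7719) x7179) x7251) x7231)
    (Nat.add (Nat.add (Nat.add (Nat.add (Nat.add (Nat.add (Nat.add (Nat.add C x20363) x2867) x7727) x7187) x7223) x7247) x7243) x26923)
    (Nat.add (Nat.add (Nat.add (Nat.add (Nat.add (Nat.add (Nat.add (Nat.add C x20365) x2869) x7729) x7189) x7225) x7249) x7241) x26925)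
    (Nat.sub (Nat.add (Nat.add (Nat.add (Nat.add (Nat.add (Nat.add (Nat.add (Nat.add (Nat.add C x20369) x2873) x7733) x7193) x7229) x7265) x7241) x7249) x26929) x7247)
    (Nat.add (Nat.add (Nat.add (Nat.add (Nat.add (Nat.add (Nat.add (Nat.add (Nat.add (Nat.add (Nat.add (Nat.add C x7249) x20371) x2875) x7735) x7195) x7231) x7267) x7243) x7255) x7247) x7251) x26931)
    (Nat.add (Nat.add (Nat.add (Nat.add (Nat.add (Nat.add (Nat.add (Nat.add (Nat.add C x7251) x20373) x2877) x7737) x7197) x7233) x7269) x7257) x7249)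
    (Nat.add (Nat.add (Nat.add (Nat.add (Nat.add (Nat.add (Nat.add (Nat.add C x20377) x2881) x7741) x7201) x7273) x7249) x7257) x26937)
    (Nat.add (Nat.add (Nat.add (Nat.add (Nat.add (Nat.add (Nat.add (Nat.add C (Nat.mul x7257 (nat_lit 2))) x20379) x2883) x7743) x7203) x7275) x7251) x7255)
    (Nat.add (Nat.add (Nat.add (Nat.add (Nat.add (Nat.add C x20387) x2891) x7751) x7247) x7267) x26947)
    (Nat.add (Nat.add (Nat.add (Nat.add (Nat.add (Nat.add (Nat.add (Nat.add (Nat.add C x7267) x20389) x2893) x7753) x7249) x7273) x7265) x7269) x26949)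
    (Nat.add (Nat.add (Nat.add (Nat.add (Nat.add (Nat.add C x20391) x2895) x7755) x7251) x7275) x7267)
    (Nat.add (Nat.add (Nat.add (Nat.add (Nat.add (Nat.add (Nat.add (Nat.add C (Nat.mul x7273 (nat_lit 2))) x20395) x2899) x7759) x7255) x7267) x7275) x26955)
    (Nat.add (Nat.add (Nat.add (Nat.add (Nat.add (Nat.add (Nat.add (Nat.add C (Nat.mul x7275 (nat_lit 3))) x20397) x2901) x7761) x7257) x7269) x7281) x7273)
    (Nat.add (Nat.add (Nat.add (Nat.add (Nat.add C (Nat.mul x7281 (nat_lit 4))) x20403) x2907) x7767) x7275)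
    (Nat.add (Nat.add (Nat.add (Nat.add (Nat.add (Nat.add (Nat.add (Nat.add C (Nat.mul x7343 (nat_lit 2))) x20465) x2969) x8801) x6857) x7397) x7361) x27025)
    (Nat.add (Nat.add (Nat.add (Nat.add (Nat.add (Nat.add (Nat.add (Nat.add C x20483) x2987) x8819) x6875) x7415) x7343) x7367) x27043)
    (Nat.add (Nat.add (Nat.add (Nat.add (Nat.add (Nat.add (Nat.add (Nat.add C x20489) x2993) x8825) x6881) x7421) x7361) x7369) x27049)
    (Nat.add (Nat.add (Nat.add (Nat.add (Nat.add (Nat.add (Nat.add (Nat.add C (Nat.mul x7369 (nat_lit 2))) x20491) x2995) x8827) x6883) x7423) x7367) x27051)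
    (Nat.sub (Nat.add (Nat.add (Nat.add (Nat.add (Nat.add (Nat.add (Nat.add (Nat.add (Nat.add C x20519) x3023) x8855) x6911) x7559) x7343) x7415) x27079) (Nat.mul (e (nat_lit 7397)) ap)) (Nat.mul (e (nat_lit 7397)) an))
    (Nat.sub (Nat.add (Nat.add (Nat.add (Nat.add (Nat.add (Nat.add (Nat.add (Nat.add (Nat.add (Nat.add (Nat.add (Nat.add C x20537) x3041) x8873) x6929) x7577) x7361) x7469) x7397) x7433) x7421) x27097) (Nat.mul (e (nat_lit 7415)) ap)) (Nat.mul (e (nat_lit 7415)) an))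
    (Nat.sub (Nat.sub (Nat.add (Nat.add (Nat.add (Nat.add (Nat.add (Nat.add (Nat.add (Nat.add (Nat.add (Nat.add (Nat.add (Nat.add C x20543) x3047) x8879) x6935) x7583) x7367) x7475) x7439) x7415) x7423) x27103) (Nat.mul (e (nat_lit 7421)) ap)) x7421) (Nat.mul (e (nat_lit 7421)) an))
    (Nat.sub (Nat.add (Nat.add (Nat.add (Nat.add (Nat.add (Nat.add (Nat.add (Nat.add (Nat.add (Nat.add (Nat.add (Nat.add C x7423) x20545) x3049) x8881) x6937) x7585) x7369) x7477) x7441) x7421) x27105) (Nat.mul (e (nat_lit 7423)) ap)) (Nat.mul (e (nat_lit 7423)) an))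
    (Nat.sub (Nat.sub (Nat.add (Nat.add (Nat.add (Nat.add (Nat.add (Nat.add (Nat.add (Nat.add (Nat.add (Nat.add C x20555) x3059) x8891) x6947) x7595) x7487) x7415) x7439) x27115) (Nat.mul (e (nat_lit 7433)) ap)) (Nat.mul x7433 (nat_lit 2))) (Nat.mul (e (nat_lit 7433)) an))
    (Nat.sub (Nat.sub (Nat.add (Nat.add (Nat.add (Nat.add (Nat.add (Nat.add (Nat.add (Nat.add (Nat.add (Nat.add (Nat.add (Nat.add C x20561) x3065) x8897) x6953) x7601) x7493) x7421) x7433) x7445) x7441) x27121) (Nat.mul (e (nat_lit 7439)) ap)) x7439) (Nat.mul (e (nat_lit 7439)) an))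
    (Nat.sub (Nat.add (Nat.add (Nat.add (Nat.add (Nat.add (Nat.add (Nat.add (Nat.add (Nat.add (Nat.add (Nat.add C x20563) x3067) x8899) x6955) x7603) x7495) x7423) x7447) x7439) x27123) (Nat.mul (e (nat_lit 7441)) ap)) (Nat.mul (e (nat_lit 7441)) an))
    (Nat.sub (Nat.sub (Nat.add (Nat.add (Nat.add (Nat.add (Nat.add (Nat.add (Nat.add (Nat.add (Nat.add (Nat.add C x20567) x3071) x8903) x6959) x7607) x7499) x7439) x7447) x27127) (Nat.mul (e (nat_lit 7445)) ap)) (Nat.mul x7445 (nat_lit 2))) (Nat.mul (e (nat_lit 7445)) an))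
    (Nat.add (Nat.add (Nat.add (Nat.add (Nat.add (Nat.add (Nat.add (Nat.add (Nat.add (Nat.add (Nat.add C x7447) x20569) x3073) x8905) x6961) x7609) x7501) x7441) x7445) x7449) x27129)
    (Nat.add (Nat.add (Nat.add (Nat.add (Nat.add (Nat.add (Nat.add (Nat.add C (Nat.mul x7449 (nat_lit 2))) x20571) x3075) x8907) x6963) x7611) x7503) x7447)
    (Nat.sub (Nat.sub (Nat.add (Nat.add (Nat.add (Nat.add (Nat.add (Nat.add (Nat.add (Nat.add (Nat.add (Nat.add C x20591) x3095) x8927) x6983) x7631) x7415) x7487) x7475) x27151) (Nat.mul (e (nat_lit 7469)) ap)) (Nat.mul x7469 (nat_lit 2))) (Nat.mul (e (nat_lit 7469)) an))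
    (Nat.sub (Nat.sub (Nat.add (Nat.add (Nat.add (Nat.add (Nat.add (Nat.add (Nat.add (Nat.add (Nat.add (Nat.add (Nat.add C x20597) x3101) x8933) x6989) x7637) x7421) x7493) x7469) x7477) x27157) (Nat.mul (e (nat_lit 7475)) ap)) (Nat.mul x7475 (nat_lit 4))) (Nat.mul (e (nat_lit 7475)) an))
    (Nat.sub (Nat.add (Nat.add (Nat.add (Nat.add (Nat.add (Nat.add (Nat.add (Nat.add (Nat.add C x20599) x3103) x8935) x6991) x7639) x7423) x7495) x7475) x27159) (Nat.mul x7477 (nat_lit 2)))
    (Nat.sub (Nat.sub (Nat.add (Nat.add (Nat.add (Nat.add (Nat.add (Nat.add (Nat.add (Nat.add (Nat.add (Nat.add C x20609) x3113) x8945) x7001) x7649) x7433) x7469) x7493) x27169) (Nat.mul (e (nat_lit 7487)) ap)) (Nat.mul x7487 (nat_lit 2))) (Nat.mul (e (nat_lit 7487)) an))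
    (Nat.sub (Nat.sub (Nat.add (Nat.add (Nat.add (Nat.add (Nat.add (Nat.add (Nat.add (Nat.add (Nat.add (Nat.add (Nat.add (Nat.add (Nat.add C x20615) x3119) x8951) x7007) x7655) x7439) x7475) x7511) x7487) x7499) x7495) x27175) (Nat.mul (e (nat_lit 7493)) ap)) (Nat.mul x7493 (nat_lit 2))) (Nat.mul (e (nat_lit 7493)) an))
    (Nat.sub (Nat.add (Nat.add (Nat.add (Nat.add (Nat.add (Nat.add (Nat.add (Nat.add (Nat.add (Nat.add (Nat.add C x20617) x3121) x8953) x7009) x7657) x7441) x7477) x7513) x7501) x7493) x27177) x7495)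
    (Nat.sub (Nat.add (Nat.add (Nat.add (Nat.add (Nat.add (Nat.add (Nat.add (Nat.add (Nat.add (Nat.add C x20621) x3125) x8957) x7013) x7661) x7445) x7517) x7493) x7501) x27181) (Nat.mul x7499 (nat_lit 4)))
    (Nat.sub (Nat.add (Nat.add (Nat.add (Nat.add (Nat.add (Nat.add (Nat.add (Nat.add (Nat.add (Nat.add (Nat.add C x20623) x3127) x8959) x7015) x7663) x7447) x7519) x7495) x7499) x7503) x27183) x7501)
    (Nat.add (Nat.add (Nat.add (Nat.add (Nat.add (Nat.add (Nat.add (Nat.add C x20625) x3129) x8961) x7017) x7665) x7449) x7521) x7501)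
    (Nat.sub (Nat.add (Nat.add (Nat.add (Nat.add (Nat.add (Nat.add (Nat.add (Nat.add (Nat.add C x20633) x3137) x8969) x7025) x7673) x7493) x7517) x7513) x27193) (Nat.mul x7511 (nat_lit 2)))
    (Nat.sub (Nat.add (Nat.add (Nat.add (Nat.add (Nat.add (Nat.add (Nat.add (Nat.add (Nat.add C x20635) x3139) x8971) x7027) x7675) x7495) x7519) x7511) x27195) (Nat.mul x7513 (nat_lit 2)))
    (Nat.sub (Nat.add (Nat.add (Nat.add (Nat.add (Nat.add (Nat.add (Nat.add (Nat.add (Nat.add C x20639) x3143) x8975) x7031) x7679) x7499) x7511) x7519) x27199) (Nat.mul x7517 (nat_lit 2)))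
    (Nat.add (Nat.add (Nat.add (Nat.add (Nat.add (Nat.add (Nat.add (Nat.add (Nat.add (Nat.add (Nat.add C x20641) x3145) x8977) x7033) x7681) x7501) x7513) x7525) x7517) x7521) x27201)
    (Nat.add (Nat.add (Nat.add (Nat.add (Nat.add (Nat.add (Nat.add (Nat.add C x20643) x3147) x8979) x7035) x7683) x7503) x7527) x7519)
    (Nat.add (Nat.add (Nat.add (Nat.add (Nat.add (Nat.add (Nat.add (Nat.add C x20647) x3151) x8983) x7039) x7687) x7519) x7527) x27207)
    (Nat.add (Nat.add (Nat.add (Nat.add (Nat.add (Nat.add (Nat.add (Nat.add C (Nat.mul x7527 (nat_lit 2))) x20649) x3153) x8985) x7041) x7689) x7521) x7525)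
    (Nat.add (Nat.add (Nat.add (Nat.add (Nat.add (Nat.add (Nat.add (Nat.add (Nat.add C x7559) x20681) x3185) x9017) x7073) x8045) x7397) x7577) x27241)
    (Nat.sub (Nat.add (Nat.add (Nat.add (Nat.add (Nat.add (Nat.add (Nat.add (Nat.add (Nat.add (Nat.add (Nat.add (Nat.add C x20699) x3203) x9035) x7091) x8063) x7415) x7631) x7559) x7595) x7583) x27259) (Nat.mul (e (nat_lit 7577)) ap)) (Nat.mul (e (nat_lit 7577)) an))
    (Nat.sub (Nat.sub (Nat.add (Nat.add (Nat.add (Nat.add (Nat.add (Nat.add (Nat.add (Nat.add (Nat.add (Nat.add (Nat.add (Nat.add C x20705) x3209) x9041) x7097) x8069) x7421) x7637) x7601) x7577) x7585) x27265) (Nat.mul (e (nat_lit 7583)) ap)) x7583) (Nat.mul (e (nat_lit 7583)) an))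
    (Nat.sub (Nat.add (Nat.add (Nat.add (Nat.add (Nat.add (Nat.add (Nat.add (Nat.add (Nat.add (Nat.add (Nat.add (Nat.add C x7585) x20707) x3211) x9043) x7099) x8071) x7423) x7639) x7603) x7583) x27267) (Nat.mul (e (nat_lit 7585)) ap)) (Nat.mul (e (nat_lit 7585)) an))
    (Nat.sub (Nat.sub (Nat.add (Nat.add (Nat.add (Nat.add (Nat.add (Nat.add (Nat.add (Nat.add (Nat.add (Nat.add (Nat.add C x20717) x3221) x9053) x7109) x8081) x7433) x7649) x7577) x7601) x27277) (Nat.mul (e (nat_lit 7595)) ap)) (Nat.mul x7595 (nat_lit 3))) (Nat.mul (e (nat_lit 7595)) an))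
    (Nat.sub (Nat.sub (Nat.add (Nat.add (Nat.add (Nat.add (Nat.add (Nat.add (Nat.add (Nat.add (Nat.add (Nat.add (Nat.add (Nat.add (Nat.add C x20723) x3227) x9059) x7115) x8087) x7439) x7655) x7583) x7595) x7607) x7603) x27283) (Nat.mul (e (nat_lit 7601)) ap)) (Nat.mul x7601 (nat_lit 2))) (Nat.mul (e (nat_lit 7601)) an))
    (Nat.sub (Nat.sub (Nat.add (Nat.add (Nat.add (Nat.add (Nat.add (Nat.add (Nat.add (Nat.add (Nat.add (Nat.add (Nat.add (Nat.add C x20725) x3229) x9061) x7117) x8089) x7441) x7657) x7585) x7609) x7601) x27285) (Nat.mul (e (nat_lit 7603)) ap)) x7603) (Nat.mul (e (nat_lit 7603)) an))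
    (Nat.sub (Nat.sub (Nat.add (Nat.add (Nat.add (Nat.add (Nat.add (Nat.add (Nat.add (Nat.add (Nat.add (Nat.add (Nat.add C x20729) x3233) x9065) x7121) x8093) x7445) x7661) x7601) x7609) x27289) (Nat.mul (e (nat_lit 7607)) ap)) (Nat.mul x7607 (nat_lit 3))) (Nat.mul (e (nat_lit 7607)) an))
    (Nat.sub (Nat.add (Nat.add (Nat.add (Nat.add (Nat.add (Nat.add (Nat.add (Nat.add (Nat.add (Nat.add (Nat.add (Nat.add C x20731) x3235) x9067) x7123) x8095) x7447) x7663) x7603) x7607) x7611) x27291) (Nat.mul (e (nat_lit 7609)) ap)) (Nat.mul (e (nat_lit 7609)) an))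
    (Nat.add (Nat.add (Nat.add (Nat.add (Nat.add (Nat.add (Nat.add (Nat.add (Nat.add C x7611) x20733) x3237) x9069) x7125) x8097) x7449) x7665) x7609)
    (Nat.sub (Nat.add (Nat.add (Nat.add (Nat.add (Nat.add (Nat.add (Nat.add (Nat.add (Nat.add (Nat.add (Nat.add (Nat.add C x20753) x3257) x9089) x7145) x8117) x7469) x7793) x7577) x7649) x7637) x27313) (Nat.mul (e (nat_lit 7631)) ap)) (Nat.mul (e (nat_lit 7631)) an))
    (Nat.sub (Nat.sub (Nat.add (Nat.add (Nat.add (Nat.add (Nat.add (Nat.add (Nat.add (Nat.add (Nat.add (Nat.add (Nat.add (Nat.add (Nat.add C x20759) x3263) x9095) x7151) x8123) x7475) x7799) x7583) x7655) x7631) x7639) x27319) (Nat.mul (e (nat_lit 7637)) ap)) (Nat.mul x7637 (nat_lit 2))) (Nat.mul (e (nat_lit 7637)) an))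
    (Nat.sub (Nat.add (Nat.add (Nat.add (Nat.add (Nat.add (Nat.add (Nat.add (Nat.add (Nat.add (Nat.add (Nat.add (Nat.add C x20761) x3265) x9097) x7153) x8125) x7477) x7801) x7585) x7657) x7637) x27321) (Nat.mul (e (nat_lit 7639)) ap)) (Nat.mul (e (nat_lit 7639)) an))
    (Nat.sub (Nat.sub (Nat.add (Nat.add (Nat.add (Nat.add (Nat.add (Nat.add (Nat.add (Nat.add (Nat.add (Nat.add (Nat.add (Nat.add (Nat.add C x20771) x3275) x9107) x7163) x8135) x7487) x7811) x7595) x7703) x7631) x7655) x27331) (Nat.mul (e (nat_lit 7649)) ap)) x7649) (Nat.mul (e (nat_lit 7649)) an))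
    (Nat.sub (Nat.sub (Nat.add (Nat.add (Nat.add (Nat.add (Nat.add (Nat.add (Nat.add (Nat.add (Nat.add (Nat.add (Nat.add (Nat.add (Nat.add (Nat.add (Nat.add (Nat.add C x20777) x3281) x9113) x7169) x8141) x7493) x7817) x7601) x7709) x7637) x7673) x7649) x7661) x7657) x27337) (Nat.mul (e (nat_lit 7655)) ap)) x7655) (Nat.mul (e (nat_lit 7655)) an))
    (Nat.sub (Nat.add (Nat.add (Nat.add (Nat.add (Nat.add (Nat.add (Nat.add (Nat.add (Nat.add (Nat.add (Nat.add (Nat.add (Nat.add (Nat.add (Nat.add C x20779) x3283) x9115) x7171) x8143) x7495) x7819) x7603) x7711) x7639) x7675) x7663) x7655) x27339) (Nat.mul (e (nat_lit 7657)) ap)) (Nat.mul (e (nat_lit 7657)) an))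
    (Nat.sub (Nat.sub (Nat.add (Nat.add (Nat.add (Nat.add (Nat.add (Nat.add (Nat.add (Nat.add (Nat.add (Nat.add (Nat.add (Nat.add (Nat.add (Nat.add C x20783) x3287) x9119) x7175) x8147) x7499) x7823) x7607) x7715) x7679) x7655) x7663) x27343) (Nat.mul (e (nat_lit 7661)) ap)) (Nat.mul x7661 (nat_lit 3))) (Nat.mul (e (nat_lit 7661)) an))
    (Nat.sub (Nat.add (Nat.add (Nat.add (Nat.add (Nat.add (Nat.add (Nat.add (Nat.add (Nat.add (Nat.add (Nat.add (Nat.add (Nat.add (Nat.add (Nat.add C x20785) x3289) x9121) x7177) x8149) x7501) x7825) x7609) x7717) x7681) x7657) x7661) x7665) x27345) (Nat.mul (e (nat_lit 7663)) ap)) (Nat.mul (e (nat_lit 7663)) an))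
    (Nat.add (Nat.add (Nat.add (Nat.add (Nat.add (Nat.add (Nat.add (Nat.add (Nat.add (Nat.add (Nat.add (Nat.add C x7665) x20787) x3291) x9123) x7179) x8151) x7503) x7827) x7611) x7719) x7683) x7663)
    (Nat.sub (Nat.sub (Nat.add (Nat.add (Nat.add (Nat.add (Nat.add (Nat.add (Nat.add (Nat.add (Nat.add (Nat.add (Nat.add (Nat.add (Nat.add C x20795) x3299) x9131) x7187) x8159) x7511) x7835) x7727) x7655) x7679) x7675) x27355) (Nat.mul (e (nat_lit 7673)) ap)) (Nat.mul x7673 (nat_lit 2))) (Nat.mul (e (nat_lit 7673)) an))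
    (Nat.sub (Nat.sub (Nat.add (Nat.add (Nat.add (Nat.add (Nat.add (Nat.add (Nat.add (Nat.add (Nat.add (Nat.add (Nat.add (Nat.add (Nat.add C x20797) x3301) x9133) x7189) x8161) x7513) x7837) x7729) x7657) x7681) x7673) x27357) (Nat.mul (e (nat_lit 7675)) ap)) (Nat.mul x7675 (nat_lit 2))) (Nat.mul (e (nat_lit 7675)) an))
    (Nat.sub (Nat.sub (Nat.add (Nat.add (Nat.add (Nat.add (Nat.add (Nat.add (Nat.add (Nat.add (Nat.add (Nat.add (Nat.add (Nat.add (Nat.add C x20801) x3305) x9137) x7193) x8165) x7517) x7841) x7733) x7661) x7673) x7681) x27361) (Nat.mul (e (nat_lit 7679)) ap)) (Nat.mul x7679 (nat_lit 2))) (Nat.mul (e (nat_lit 7679)) an))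
    (Nat.sub (Nat.add (Nat.add (Nat.add (Nat.add (Nat.add (Nat.add (Nat.add (Nat.add (Nat.add (Nat.add (Nat.add (Nat.add (Nat.add (Nat.add (Nat.add C x20803) x3307) x9139) x7195) x8167) x7519) x7843) x7735) x7663) x7675) x7687) x7679) x7683) x27363) (Nat.mul (e (nat_lit 7681)) ap)) (Nat.mul (e (nat_lit 7681)) an))
    (Nat.add (Nat.add (Nat.add (Nat.add (Nat.add (Nat.add (Nat.add (Nat.add (Nat.add (Nat.add (Nat.add C x20805) x3309) x9141) x7197) x8169) x7521) x7845) x7737) x7665) x7689) x7681)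
    (Nat.add (Nat.add (Nat.add (Nat.add (Nat.add (Nat.add (Nat.add (Nat.add (Nat.add (Nat.add (Nat.add C x20809) x3313) x9145) x7201) x8173) x7525) x7849) x7741) x7681) x7689) x27369)
    (Nat.add (Nat.add (Nat.add (Nat.add (Nat.add (Nat.add (Nat.add (Nat.add (Nat.add (Nat.add (Nat.add C (Nat.mul x7689 (nat_lit 2))) x20811) x3315) x9147) x7203) x8175) x7527) x7851) x7743) x7683) x7687)
    (Nat.sub (Nat.add (Nat.add (Nat.add (Nat.add (Nat.add (Nat.add (Nat.add (Nat.add (Nat.add C x20825) x3329) x9161) x7217) x8189) x7865) x7649) x7709) x27385) x7703)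
    (Nat.sub (Nat.sub (Nat.add (Nat.add (Nat.add (Nat.add (Nat.add (Nat.add (Nat.add (Nat.add (Nat.add (Nat.add (Nat.add (Nat.add (Nat.add C x20831) x3335) x9167) x7223) x8195) x7871) x7655) x7727) x7703) x7715) x7711) x27391) (Nat.mul (e (nat_lit 7709)) ap)) (Nat.mul x7709 (nat_lit 2))) (Nat.mul (e (nat_lit 7709)) an))
    (Nat.sub (Nat.sub (Nat.add (Nat.add (Nat.add (Nat.add (Nat.add (Nat.add (Nat.add (Nat.add (Nat.add (Nat.add (Nat.add (Nat.add C x20833) x3337) x9169) x7225) x8197) x7873) x7657) x7729) x7717) x7709) x27393) (Nat.mul (e (nat_lit 7711)) ap)) x7711) (Nat.mul (e (nat_lit 7711)) an))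
    (Nat.sub (Nat.sub (Nat.add (Nat.add (Nat.add (Nat.add (Nat.add (Nat.add (Nat.add (Nat.add (Nat.add (Nat.add (Nat.add (Nat.add C x20837) x3341) x9173) x7229) x8201) x7877) x7661) x7733) x7709) x7717) x27397) (Nat.mul (e (nat_lit 7715)) ap)) (Nat.mul x7715 (nat_lit 5))) (Nat.mul (e (nat_lit 7715)) an))
    (Nat.sub (Nat.sub (Nat.add (Nat.add (Nat.add (Nat.add (Nat.add (Nat.add (Nat.add (Nat.add (Nat.add (Nat.add (Nat.add (Nat.add (Nat.add C x20839) x3343) x9175) x7231) x8203) x7879) x7663) x7735) x7711) x7715) x7719) x27399) (Nat.mul (e (nat_lit 7717)) ap)) (Nat.mul x7717 (nat_lit 2))) (Nat.mul (e (nat_lit 7717)) an))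
    (Nat.sub (Nat.add (Nat.add (Nat.add (Nat.add (Nat.add (Nat.add (Nat.add (Nat.add (Nat.add C x20841) x3345) x9177) x7233) x8205) x7881) x7665) x7737) x7717) x7719)
    (Nat.sub (Nat.sub (Nat.add (Nat.add (Nat.add (Nat.add (Nat.add (Nat.add (Nat.add (Nat.add (Nat.add (Nat.add (Nat.add (Nat.add C x20849) x3353) x9185) x7241) x8213) x7889) x7673) x7709) x7733) x7729) x27409) (Nat.mul (e (nat_lit 7727)) ap)) x7727) (Nat.mul (e (nat_lit 7727)) an))
    (Nat.sub (Nat.sub (Nat.add (Nat.add (Nat.add (Nat.add (Nat.add (Nat.add (Nat.add (Nat.add (Nat.add (Nat.add (Nat.add (Nat.add C x20851) x3355) x9187) x7243) x8215) x7891) x7675) x7711) x7735) x7727) x27411) (Nat.mul (e (nat_lit 7729)) ap)) x7729) (Nat.mul (e (nat_lit 7729)) an))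
    (Nat.sub (Nat.sub (Nat.add (Nat.add (Nat.add (Nat.add (Nat.add (Nat.add (Nat.add (Nat.add (Nat.add (Nat.add (Nat.add (Nat.add (Nat.add C x20855) x3359) x9191) x7247) x8219) x7895) x7679) x7715) x7751) x7727) x7735) x27415) (Nat.mul (e (nat_lit 7733)) ap)) (Nat.mul x7733 (nat_lit 2))) (Nat.mul (e (nat_lit 7733)) an))
    (Nat.add (Nat.add (Nat.add (Nat.add (Nat.add (Nat.add (Nat.add (Nat.add (Nat.add (Nat.add (Nat.add (Nat.add (Nat.add (Nat.add C x20857) x3361) x9193) x7249) x8221) x7897) x7681) x7717) x7753) x7729) x7741) x7733) x7737) x27417)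
    (Nat.add (Nat.add (Nat.add (Nat.add (Nat.add (Nat.add (Nat.add (Nat.add (Nat.add (Nat.add (Nat.add C x20859) x3363) x9195) x7251) x8223) x7899) x7683) x7719) x7755) x7743) x7735)
    (Nat.sub (Nat.add (Nat.add (Nat.add (Nat.add (Nat.add (Nat.add (Nat.add (Nat.add (Nat.add (Nat.add (Nat.add C x20863) x3367) x9199) x7255) x8227) x7903) x7687) x7759) x7735) x7743) x27423) x7741)
    (Nat.add (Nat.add (Nat.add (Nat.add (Nat.add (Nat.add (Nat.add (Nat.add (Nat.add (Nat.add (Nat.add C x7743) x20865) x3369) x9201) x7257) x8229) x7905) x7689) x7761) x7737) x7741)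
    (Nat.sub (Nat.add (Nat.add (Nat.add (Nat.add (Nat.add (Nat.add (Nat.add (Nat.add (Nat.add C x20873) x3377) x9209) x7265) x8237) x7913) x7733) x7753) x27433) x7751)
    (Nat.add (Nat.add (Nat.add (Nat.add (Nat.add (Nat.add (Nat.add (Nat.add (Nat.add (Nat.add (Nat.add C x20875) x3379) x9211) x7267) x8239) x7915) x7735) x7759) x7751) x7755) x27435)
    (Nat.sub (Nat.add (Nat.add (Nat.add (Nat.add (Nat.add (Nat.add (Nat.add (Nat.add (Nat.add C x20877) x3381) x9213) x7269) x8241) x7917) x7737) x7761) x7753) x7755)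
    (Nat.add (Nat.add (Nat.add (Nat.add (Nat.add (Nat.add (Nat.add (Nat.add (Nat.add (Nat.add (Nat.add C x7759) x20881) x3385) x9217) x7273) x8245) x7921) x7741) x7753) x7761) x27441)
    (Nat.add (Nat.add (Nat.add (Nat.add (Nat.add (Nat.add (Nat.add (Nat.add (Nat.add (Nat.add (Nat.add C (Nat.mul x7761 (nat_lit 2))) x20883) x3387) x9219) x7275) x8247) x7923) x7743) x7755) x7767) x7759)
    (Nat.add (Nat.add (Nat.add (Nat.add (Nat.add (Nat.add (Nat.add (Nat.add C (Nat.mul x7767 (nat_lit 3))) x20889) x3393) x9225) x7281) x8253) x7929) x7761)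
    (Nat.add (Nat.add (Nat.add (Nat.add (Nat.add (Nat.add (Nat.add (Nat.add C x20915) x3419) x9251) x8279) x7631) x7811) x7799) x27475)
    (Nat.sub (Nat.add (Nat.add (Nat.add (Nat.add (Nat.add (Nat.add (Nat.add (Nat.add (Nat.add C x20921) x3425) x9257) x8285) x7637) x7817) x7793) x7801) x27481) (Nat.mul x7799 (nat_lit 2)))
    (Nat.add (Nat.add (Nat.add (Nat.add (Nat.add (Nat.add (Nat.add (Nat.add C x20923) x3427) x9259) x8287) x7639) x7819) x7799) x27483)
    (Nat.sub (Nat.sub (Nat.add (Nat.add (Nat.add (Nat.add (Nat.add (Nat.add (Nat.add (Nat.add (Nat.add (Nat.add C x20933) x3437) x9269) x8297) x7649) x7865) x7793) x7817) x27493) (Nat.mul (e (nat_lit 7811)) ap)) (Nat.mul x7811 (nat_lit 2))) (Nat.mul (e (nat_lit 7811)) an))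
    (Nat.sub (Nat.sub (Nat.add (Nat.add (Nat.add (Nat.add (Nat.add (Nat.add (Nat.add (Nat.add (Nat.add (Nat.add (Nat.add (Nat.add (Nat.add C x20939) x3443) x9275) x8303) x7655) x7871) x7799) x7835) x7811) x7823) x7819) x27499) (Nat.mul (e (nat_lit 7817)) ap)) (Nat.mul x7817 (nat_lit 2))) (Nat.mul (e (nat_lit 7817)) an))
    (Nat.sub (Nat.sub (Nat.add (Nat.add (Nat.add (Nat.add (Nat.add (Nat.add (Nat.add (Nat.add (Nat.add (Nat.add (Nat.add (Nat.add C x20941) x3445) x9277) x8305) x7657) x7873) x7801) x7837) x7825) x7817) x27501) (Nat.mul (e (nat_lit 7819)) ap)) x7819) (Nat.mul (e (nat_lit 7819)) an))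
    (Nat.sub (Nat.sub (Nat.add (Nat.add (Nat.add (Nat.add (Nat.add (Nat.add (Nat.add (Nat.add (Nat.add (Nat.add (Nat.add C x20945) x3449) x9281) x8309) x7661) x7877) x7841) x7817) x7825) x27505) (Nat.mul (e (nat_lit 7823)) ap)) (Nat.mul x7823 (nat_lit 4))) (Nat.mul (e (nat_lit 7823)) an))
    (Nat.sub (Nat.add (Nat.add (Nat.add (Nat.add (Nat.add (Nat.add (Nat.add (Nat.add (Nat.add (Nat.add (Nat.add C x20947) x3451) x9283) x8311) x7663) x7879) x7843) x7819) x7823) x7827) x27507) x7825)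
    (Nat.add (Nat.add (Nat.add (Nat.add (Nat.add (Nat.add (Nat.add (Nat.add C x20949) x3453) x9285) x8313) x7665) x7881) x7845) x7825)
    (Nat.sub (Nat.sub (Nat.add (Nat.add (Nat.add (Nat.add (Nat.add (Nat.add (Nat.add (Nat.add (Nat.add (Nat.add (Nat.add C x20957) x3461) x9293) x8321) x7673) x7889) x7817) x7841) x7837) x27517) (Nat.mul (e (nat_lit 7835)) ap)) (Nat.mul x7835 (nat_lit 4))) (Nat.mul (e (nat_lit 7835)) an))
    (Nat.sub (Nat.sub (Nat.add (Nat.add (Nat.add (Nat.add (Nat.add (Nat.add (Nat.add (Nat.add (Nat.add (Nat.add (Nat.add C x20959) x3463) x9295) x8323) x7675) x7891) x7819) x7843) x7835) x27519) (Nat.mul (e (nat_lit 7837)) ap)) (Nat.mul x7837 (nat_lit 4))) (Nat.mul (e (nat_lit 7837)) an))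
    (Nat.sub (Nat.sub (Nat.add (Nat.add (Nat.add (Nat.add (Nat.add (Nat.add (Nat.add (Nat.add (Nat.add (Nat.add (Nat.add C x20963) x3467) x9299) x8327) x7679) x7895) x7823) x7835) x7843) x27523) (Nat.mul (e (nat_lit 7841)) ap)) (Nat.mul x7841 (nat_lit 4))) (Nat.mul (e (nat_lit 7841)) an))
    (Nat.sub (Nat.add (Nat.add (Nat.add (Nat.add (Nat.add (Nat.add (Nat.add (Nat.add (Nat.add (Nat.add (Nat.add (Nat.add C x20965) x3469) x9301) x8329) x7681) x7897) x7825) x7837) x7849) x7841) x7845) x27525) (Nat.mul x7843 (nat_lit 2)))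
    (Nat.sub (Nat.add (Nat.add (Nat.add (Nat.add (Nat.add (Nat.add (Nat.add (Nat.add (Nat.add C x20967) x3471) x9303) x8331) x7683) x7899) x7827) x7851) x7843) (Nat.mul x7845 (nat_lit 2)))
    (Nat.sub (Nat.add (Nat.add (Nat.add (Nat.add (Nat.add (Nat.add (Nat.add (Nat.add (Nat.add C x20971) x3475) x9307) x8335) x7687) x7903) x7843) x7851) x27531) (Nat.mul x7849 (nat_lit 2)))
    (Nat.add (Nat.add (Nat.add (Nat.add (Nat.add (Nat.add (Nat.add (Nat.add C x20973) x3477) x9309) x8337) x7689) x7905) x7845) x7849)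
    (Nat.add (Nat.add (Nat.add (Nat.add (Nat.add (Nat.add (Nat.add (Nat.add C x20987) x3491) x9323) x8351) x7703) x7811) x7871) x27547)
    (Nat.sub (Nat.sub (Nat.add (Nat.add (Nat.add (Nat.add (Nat.add (Nat.add (Nat.add (Nat.add (Nat.add (Nat.add (Nat.add (Nat.add C x20993) x3497) x9329) x8357) x7709) x7817) x7889) x7865) x7877) x7873) x27553) (Nat.mul (e (nat_lit 7871)) ap)) x7871) (Nat.mul (e (nat_lit 7871)) an))
    (Nat.sub (Nat.add (Nat.add (Nat.add (Nat.add (Nat.add (Nat.add (Nat.add (Nat.add (Nat.add (Nat.add (Nat.add C x20995) x3499) x9331) x8359) x7711) x7819) x7891) x7879) x7871) x27555) (Nat.mul (e (nat_lit 7873)) ap)) (Nat.mul (e (nat_lit 7873)) an))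
    (Nat.sub (Nat.sub (Nat.add (Nat.add (Nat.add (Nat.add (Nat.add (Nat.add (Nat.add (Nat.add (Nat.add (Nat.add (Nat.add C x20999) x3503) x9335) x8363) x7715) x7823) x7895) x7871) x7879) x27559) (Nat.mul (e (nat_lit 7877)) ap)) (Nat.mul x7877 (nat_lit 4))) (Nat.mul (e (nat_lit 7877)) an))
    (Nat.sub (Nat.add (Nat.add (Nat.add (Nat.add (Nat.add (Nat.add (Nat.add (Nat.add (Nat.add (Nat.add (Nat.add C x21001) x3505) x9337) x8365) x7717) x7825) x7897) x7873) x7877) x7881) x27561) x7879)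
    (Nat.add (Nat.add (Nat.add (Nat.add (Nat.add (Nat.add (Nat.add (Nat.add C x21003) x3507) x9339) x8367) x7719) x7827) x7899) x7879)
    (Nat.sub (Nat.sub (Nat.add (Nat.add (Nat.add (Nat.add (Nat.add (Nat.add (Nat.add (Nat.add (Nat.add (Nat.add (Nat.add (Nat.add C x21011) x3515) x9347) x8375) x7727) x7835) x7943) x7871) x7895) x7891) x27571) (Nat.mul (e (nat_lit 7889)) ap)) x7889) (Nat.mul (e (nat_lit 7889)) an))
    (Nat.sub (Nat.add (Nat.add (Nat.add (Nat.add (Nat.add (Nat.add (Nat.add (Nat.add (Nat.add (Nat.add (Nat.add C x21013) x3517) x9349) x8377) x7729) x7837) x7945) x7873) x7897) x7889) x27573) x7891)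
    (Nat.sub (Nat.sub (Nat.add (Nat.add (Nat.add (Nat.add (Nat.add (Nat.add (Nat.add (Nat.add (Nat.add (Nat.add (Nat.add (Nat.add (Nat.add C x21017) x3521) x9353) x8381) x7733) x7841) x7949) x7877) x7913) x7889) x7897) x27577) (Nat.mul (e (nat_lit 7895)) ap)) (Nat.mul x7895 (nat_lit 2))) (Nat.mul (e (nat_lit 7895)) an))
    (Nat.add (Nat.add (Nat.add (Nat.add (Nat.add (Nat.add (Nat.add (Nat.add (Nat.add (Nat.add (Nat.add (Nat.add (Nat.add (Nat.add C x21019) x3523) x9355) x8383) x7735) x7843) x7951) x7879) x7915) x7891) x7903) x7895) x7899) x27579)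
    (Nat.add (Nat.add (Nat.add (Nat.add (Nat.add (Nat.add (Nat.add (Nat.add (Nat.add (Nat.add (Nat.add C x21021) x3525) x9357) x8385) x7737) x7845) x7953) x7881) x7917) x7905) x7897)
    (Nat.sub (Nat.add (Nat.add (Nat.add (Nat.add (Nat.add (Nat.add (Nat.add (Nat.add (Nat.add (Nat.add (Nat.add C x21025) x3529) x9361) x8389) x7741) x7849) x7957) x7921) x7897) x7905) x27585) x7903)
    (Nat.add (Nat.add (Nat.add (Nat.add (Nat.add (Nat.add (Nat.add (Nat.add (Nat.add (Nat.add (Nat.add C x7905) x21027) x3531) x9363) x8391) x7743) x7851) x7959) x7923) x7899) x7903)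
    (Nat.sub (Nat.add (Nat.add (Nat.add (Nat.add (Nat.add (Nat.add (Nat.add (Nat.add (Nat.add C x21035) x3539) x9371) x8399) x7751) x7967) x7895) x7915) x27595) (Nat.mul x7913 (nat_lit 2)))
    (Nat.sub (Nat.add (Nat.add (Nat.add (Nat.add (Nat.add (Nat.add (Nat.add (Nat.add (Nat.add (Nat.add (Nat.add C x21037) x3541) x9373) x8401) x7753) x7969) x7897) x7921) x7913) x7917) x27597) x7915)
    (Nat.sub (Nat.add (Nat.add (Nat.add (Nat.add (Nat.add (Nat.add (Nat.add (Nat.add (Nat.add C x21039) x3543) x9375) x8403) x7755) x7971) x7899) x7923) x7915) (Nat.mul x7917 (nat_lit 2)))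
    (Nat.add (Nat.add (Nat.add (Nat.add (Nat.add (Nat.add (Nat.add (Nat.add (Nat.add (Nat.add C x21043) x3547) x9379) x8407) x7759) x7975) x7903) x7915) x7923) x27603)
    (Nat.add (Nat.add (Nat.add (Nat.add (Nat.add (Nat.add (Nat.add (Nat.add (Nat.add (Nat.add (Nat.add C x7923) x21045) x3549) x9381) x8409) x7761) x7977) x7905) x7917) x7929) x7921)
    (Nat.add (Nat.add (Nat.add (Nat.add (Nat.add (Nat.add (Nat.add (Nat.add C (Nat.mul x7929 (nat_lit 2))) x21051) x3555) x9387) x8415) x7767) x7983) x7923)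
    (Nat.add (Nat.add (Nat.add (Nat.add (Nat.add (Nat.add (Nat.add (Nat.add C x21065) x3569) x9401) x8429) x7889) x7949) x7945) x27625)
    (Nat.add (Nat.add (Nat.add (Nat.add (Nat.add (Nat.add (Nat.add (Nat.add C x21067) x3571) x9403) x8431) x7891) x7951) x7943) x27627)
    (Nat.sub (Nat.sub (Nat.add (Nat.add (Nat.add (Nat.add (Nat.add (Nat.add (Nat.add (Nat.add (Nat.add (Nat.add C x21071) x3575) x9407) x8435) x7895) x7967) x7943) x7951) x27631) (Nat.mul (e (nat_lit 7949)) ap)) (Nat.mul x7949 (nat_lit 2))) (Nat.mul (e (nat_lit 7949)) an))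
    (Nat.add (Nat.add (Nat.add (Nat.add (Nat.add (Nat.add (Nat.add (Nat.add (Nat.add (Nat.add (Nat.add C x21073) x3577) x9409) x8437) x7897) x7969) x7945) x7957) x7949) x7953) x27633)
    (Nat.add (Nat.add (Nat.add (Nat.add (Nat.add (Nat.add (Nat.add (Nat.add C x21075) x3579) x9411) x8439) x7899) x7971) x7959) x7951)
    (Nat.sub (Nat.add (Nat.add (Nat.add (Nat.add (Nat.add (Nat.add (Nat.add (Nat.add (Nat.add C x21079) x3583) x9415) x8443) x7903) x7975) x7951) x7959) x27639) (Nat.mul x7957 (nat_lit 2)))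
    (Nat.add (Nat.add (Nat.add (Nat.add (Nat.add (Nat.add (Nat.add (Nat.add C x21081) x3585) x9417) x8445) x7905) x7977) x7953) x7957)
    (Nat.add (Nat.add (Nat.add (Nat.add (Nat.add (Nat.add (Nat.add (Nat.add C x21089) x3593) x9425) x8453) x7913) x7949) x7969) x27649)
    (Nat.add (Nat.add (Nat.add (Nat.add (Nat.add (Nat.add (Nat.add (Nat.add (Nat.add (Nat.add (Nat.add C x7969) x21091) x3595) x9427) x8455) x7915) x7951) x7975) x7967) x7971) x27651)
    (Nat.add (Nat.add (Nat.add (Nat.add (Nat.add (Nat.add (Nat.add (Nat.add C x21093) x3597) x9429) x8457) x7917) x7953) x7977) x7969)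
    (Nat.add (Nat.add (Nat.add (Nat.add (Nat.add (Nat.add (Nat.add (Nat.add (Nat.add (Nat.add (Nat.add C x7975) x21097) x3601) x9433) x8461) x7921) x7957) x7993) x7969) x7977) x27657)
    (Nat.add (Nat.add (Nat.add (Nat.add (Nat.add (Nat.add (Nat.add (Nat.add (Nat.add (Nat.add (Nat.add C (Nat.mul x7977 (nat_lit 2))) x21099) x3603) x9435) x8463) x7923) x7959) x7995) x7971) x7983) x7975)
    (Nat.add (Nat.add (Nat.add (Nat.add (Nat.add (Nat.add (Nat.add (Nat.add C (Nat.mul x7983 (nat_lit 2))) x21105) x3609) x9441) x8469) x7929) x8001) x7977)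
    (Nat.add (Nat.add (Nat.add (Nat.add (Nat.add (Nat.add (Nat.add (Nat.add C (Nat.mul x7993 (nat_lit 2))) x21115) x3619) x9451) x8479) x7975) x7995) x27675)
    (Nat.add (Nat.add (Nat.add (Nat.add (Nat.add (Nat.add (Nat.add (Nat.add C (Nat.mul x7995 (nat_lit 2))) x21117) x3621) x9453) x8481) x7977) x8001) x7993)
    (Nat.add (Nat.add (Nat.add (Nat.add (Nat.add (Nat.add (Nat.add C (Nat.mul x8001 (nat_lit 4))) x21123) x3627) x9459) x8487) x7983) x7995)
    (Nat.add (Nat.add (Nat.add (Nat.add (Nat.add (Nat.add C x21167) x3671) x9503) x7559) x8063) x27727)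
    (Nat.sub (Nat.add (Nat.add (Nat.add (Nat.add (Nat.add (Nat.add (Nat.add (Nat.add (Nat.add C x21185) x3689) x9521) x7577) x8117) x8045) x8081) x8069) x27745) x8063)
    (Nat.sub (Nat.add (Nat.add (Nat.add (Nat.add (Nat.add (Nat.add (Nat.add (Nat.add (Nat.add C x21191) x3695) x9527) x7583) x8123) x8087) x8063) x8071) x27751) (Nat.mul x8069 (nat_lit 2)))
    (Nat.add (Nat.add (Nat.add (Nat.add (Nat.add (Nat.add (Nat.add (Nat.add C x21193) x3697) x9529) x7585) x8125) x8089) x8069) x27753)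
    (Nat.sub (Nat.add (Nat.add (Nat.add (Nat.add (Nat.add (Nat.add (Nat.add (Nat.add C x21203) x3707) x9539) x7595) x8135) x8063) x8087) x27763) (Nat.mul x8081 (nat_lit 4)))
    (Nat.sub (Nat.add (Nat.add (Nat.add (Nat.add (Nat.add (Nat.add (Nat.add (Nat.add (Nat.add (Nat.add C x21209) x3713) x9545) x7601) x8141) x8069) x8081) x8093) x8089) x27769) (Nat.mul x8087 (nat_lit 3)))
    (Nat.sub (Nat.add (Nat.add (Nat.add (Nat.add (Nat.add (Nat.add (Nat.add (Nat.add (Nat.add C x21211) x3715) x9547) x7603) x8143) x8071) x8095) x8087) x27771) (Nat.mul x8089 (nat_lit 2)))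
    (Nat.sub (Nat.add (Nat.add (Nat.add (Nat.add (Nat.add (Nat.add (Nat.add (Nat.add C x21215) x3719) x9551) x7607) x8147) x8087) x8095) x27775) (Nat.mul x8093 (nat_lit 4)))
    (Nat.sub (Nat.add (Nat.add (Nat.add (Nat.add (Nat.add (Nat.add (Nat.add (Nat.add (Nat.add C x21217) x3721) x9553) x7609) x8149) x8089) x8093) x8097) x27777) x8095)
    (Nat.add (Nat.add (Nat.add (Nat.add (Nat.add (Nat.add C x21219) x3723) x9555) x7611) x8151) x8095)
    (Nat.sub (Nat.add (Nat.add (Nat.add (Nat.add (Nat.add (Nat.add (Nat.add (Nat.add (Nat.add C x21239) x3743) x9575) x7631) x8279) x8063) x8135) x8123) x27799) (Nat.mul x8117 (nat_lit 2)))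
    (Nat.sub (Nat.sub (Nat.add (Nat.add (Nat.add (Nat.add (Nat.add (Nat.add (Nat.add (Nat.add (Nat.add (Nat.add (Nat.add C x21245) x3749) x9581) x7637) x8285) x8069) x8141) x8117) x8125) x27805) (Nat.mul (e (nat_lit 8123)) ap)) (Nat.mul x8123 (nat_lit 4))) (Nat.mul (e (nat_lit 8123)) an))
    (Nat.sub (Nat.add (Nat.add (Nat.add (Nat.add (Nat.add (Nat.add (Nat.add (Nat.add (Nat.add C x21247) x3751) x9583) x7639) x8287) x8071) x8143) x8123) x27807) (Nat.mul x8125 (nat_lit 2)))
    (Nat.sub (Nat.sub (Nat.add (Nat.add (Nat.add (Nat.add (Nat.add (Nat.add (Nat.add (Nat.add (Nat.add (Nat.add (Nat.add C x21257) x3761) x9593) x7649) x8297) x8081) x8189) x8117) x8141) x27817) (Nat.mul (e (nat_lit 8135)) ap)) (Nat.mul x8135 (nat_lit 3))) (Nat.mul (e (nat_lit 8135)) an))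
    (Nat.sub (Nat.sub (Nat.add (Nat.add (Nat.add (Nat.add (Nat.add (Nat.add (Nat.add (Nat.add (Nat.add (Nat.add (Nat.add (Nat.add (Nat.add (Nat.add C x21263) x3767) x9599) x7655) x8303) x8087) x8195) x8123) x8159) x8135) x8147) x8143) x27823) (Nat.mul (e (nat_lit 8141)) ap)) (Nat.mul x8141 (nat_lit 3))) (Nat.mul (e (nat_lit 8141)) an))
    (Nat.sub (Nat.add (Nat.add (Nat.add (Nat.add (Nat.add (Nat.add (Nat.add (Nat.add (Nat.add (Nat.add (Nat.add (Nat.add C x21265) x3769) x9601) x7657) x8305) x8089) x8197) x8125) x8161) x8149) x8141) x27825) (Nat.mul x8143 (nat_lit 2)))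
    (Nat.sub (Nat.sub (Nat.add (Nat.add (Nat.add (Nat.add (Nat.add (Nat.add (Nat.add (Nat.add (Nat.add (Nat.add (Nat.add (Nat.add C x21269) x3773) x9605) x7661) x8309) x8093) x8201) x8165) x8141) x8149) x27829) (Nat.mul (e (nat_lit 8147)) ap)) (Nat.mul x8147 (nat_lit 5))) (Nat.mul (e (nat_lit 8147)) an))
    (Nat.sub (Nat.add (Nat.add (Nat.add (Nat.add (Nat.add (Nat.add (Nat.add (Nat.add (Nat.add (Nat.add (Nat.add (Nat.add C x21271) x3775) x9607) x7663) x8311) x8095) x8203) x8167) x8143) x8147) x8151) x27831) (Nat.mul x8149 (nat_lit 2)))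
    (Nat.sub (Nat.add (Nat.add (Nat.add (Nat.add (Nat.add (Nat.add (Nat.add (Nat.add (Nat.add C x21273) x3777) x9609) x7665) x8313) x8097) x8205) x8169) x8149) x8151)
    (Nat.sub (Nat.sub (Nat.add (Nat.add (Nat.add (Nat.add (Nat.add (Nat.add (Nat.add (Nat.add (Nat.add (Nat.add (Nat.add C x21281) x3785) x9617) x7673) x8321) x8213) x8141) x8165) x8161) x27841) (Nat.mul (e (nat_lit 8159)) ap)) (Nat.mul x8159 (nat_lit 4))) (Nat.mul (e (nat_lit 8159)) an))
    (Nat.sub (Nat.add (Nat.add (Nat.add (Nat.add (Nat.add (Nat.add (Nat.add (Nat.add (Nat.add (Nat.add C x21283) x3787) x9619) x7675) x8323) x8215) x8143) x8167) x8159) x27843) (Nat.mul x8161 (nat_lit 4)))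
    (Nat.sub (Nat.sub (Nat.add (Nat.add (Nat.add (Nat.add (Nat.add (Nat.add (Nat.add (Nat.add (Nat.add (Nat.add (Nat.add C x21287) x3791) x9623) x7679) x8327) x8219) x8147) x8159) x8167) x27847) (Nat.mul (e (nat_lit 8165)) ap)) (Nat.mul x8165 (nat_lit 4))) (Nat.mul (e (nat_lit 8165)) an))
    (Nat.sub (Nat.add (Nat.add (Nat.add (Nat.add (Nat.add (Nat.add (Nat.add (Nat.add (Nat.add (Nat.add (Nat.add (Nat.add C x21289) x3793) x9625) x7681) x8329) x8221) x8149) x8161) x8173) x8165) x8169) x27849) (Nat.mul x8167 (nat_lit 2)))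
    (Nat.sub (Nat.add (Nat.add (Nat.add (Nat.add (Nat.add (Nat.add (Nat.add (Nat.add (Nat.add C x21291) x3795) x9627) x7683) x8331) x8223) x8151) x8175) x8167) (Nat.mul x8169 (nat_lit 2)))
    (Nat.sub (Nat.add (Nat.add (Nat.add (Nat.add (Nat.add (Nat.add (Nat.add (Nat.add (Nat.add C x21295) x3799) x9631) x7687) x8335) x8227) x8167) x8175) x27855) (Nat.mul x8173 (nat_lit 2)))
    (Nat.add (Nat.add (Nat.add (Nat.add (Nat.add (Nat.add (Nat.add (Nat.add C x21297) x3801) x9633) x7689) x8337) x8229) x8169) x8173)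
    (Nat.sub (Nat.add (Nat.add (Nat.add (Nat.add (Nat.add (Nat.add (Nat.add (Nat.add C x21311) x3815) x9647) x7703) x8351) x8135) x8195) x27871) (Nat.mul x8189 (nat_lit 4)))
    (Nat.sub (Nat.sub (Nat.add (Nat.add (Nat.add (Nat.add (Nat.add (Nat.add (Nat.add (Nat.add (Nat.add (Nat.add (Nat.add (Nat.add C x21317) x3821) x9653) x7709) x8357) x8141) x8213) x8189) x8201) x8197) x27877) (Nat.mul (e (nat_lit 8195)) ap)) (Nat.mul x8195 (nat_lit 5))) (Nat.mul (e (nat_lit 8195)) an))
    (Nat.sub (Nat.add (Nat.add (Nat.add (Nat.add (Nat.add (Nat.add (Nat.add (Nat.add (Nat.add (Nat.add C x21319) x3823) x9655) x7711) x8359) x8143) x8215) x8203) x8195) x27879) (Nat.mul x8197 (nat_lit 4)))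
    (Nat.sub (Nat.sub (Nat.add (Nat.add (Nat.add (Nat.add (Nat.add (Nat.add (Nat.add (Nat.add (Nat.add (Nat.add (Nat.add C x21323) x3827) x9659) x7715) x8363) x8147) x8219) x8195) x8203) x27883) (Nat.mul (e (nat_lit 8201)) ap)) (Nat.mul x8201 (nat_lit 8))) (Nat.mul (e (nat_lit 8201)) an))
    (Nat.sub (Nat.add (Nat.add (Nat.add (Nat.add (Nat.add (Nat.add (Nat.add (Nat.add (Nat.add (Nat.add (Nat.add C x21325) x3829) x9661) x7717) x8365) x8149) x8221) x8197) x8201) x8205) x27885) (Nat.mul x8203 (nat_lit 5)))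
    (Nat.sub (Nat.add (Nat.add (Nat.add (Nat.add (Nat.add (Nat.add (Nat.add (Nat.add C x21327) x3831) x9663) x7719) x8367) x8151) x8223) x8203) (Nat.mul x8205 (nat_lit 4)))
    (Nat.sub (Nat.sub (Nat.add (Nat.add (Nat.add (Nat.add (Nat.add (Nat.add (Nat.add (Nat.add (Nat.add (Nat.add (Nat.add C x21335) x3839) x9671) x7727) x8375) x8159) x8195) x8219) x8215) x27895) (Nat.mul (e (nat_lit 8213)) ap)) (Nat.mul x8213 (nat_lit 4))) (Nat.mul (e (nat_lit 8213)) an))
    (Nat.sub (Nat.add (Nat.add (Nat.add (Nat.add (Nat.add (Nat.add (Nat.add (Nat.add (Nat.add (Nat.add C x21337) x3841) x9673) x7729) x8377) x8161) x8197) x8221) x8213) x27897) (Nat.mul x8215 (nat_lit 4)))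
    (Nat.sub (Nat.add (Nat.add (Nat.add (Nat.add (Nat.add (Nat.add (Nat.add (Nat.add (Nat.add (Nat.add (Nat.add C x21341) x3845) x9677) x7733) x8381) x8165) x8201) x8237) x8213) x8221) x27901) (Nat.mul x8219 (nat_lit 5)))
    (Nat.sub (Nat.add (Nat.add (Nat.add (Nat.add (Nat.add (Nat.add (Nat.add (Nat.add (Nat.add (Nat.add (Nat.add (Nat.add (Nat.add C x21343) x3847) x9679) x7735) x8383) x8167) x8203) x8239) x8215) x8227) x8219) x8223) x27903) (Nat.mul x8221 (nat_lit 3)))
    (Nat.sub (Nat.add (Nat.add (Nat.add (Nat.add (Nat.add (Nat.add (Nat.add (Nat.add (Nat.add (Nat.add C x21345) x3849) x9681) x7737) x8385) x8169) x8205) x8241) x8229) x8221) (Nat.mul x8223 (nat_lit 3)))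
    (Nat.sub (Nat.add (Nat.add (Nat.add (Nat.add (Nat.add (Nat.add (Nat.add (Nat.add (Nat.add (Nat.add C x21349) x3853) x9685) x7741) x8389) x8173) x8245) x8221) x8229) x27909) (Nat.mul x8227 (nat_lit 4)))
    (Nat.sub (Nat.add (Nat.add (Nat.add (Nat.add (Nat.add (Nat.add (Nat.add (Nat.add (Nat.add C x21351) x3855) x9687) x7743) x8391) x8175) x8247) x8223) x8227) (Nat.mul x8229 (nat_lit 2)))
    (Nat.sub (Nat.add (Nat.add (Nat.add (Nat.add (Nat.add (Nat.add (Nat.add (Nat.add C x21359) x3863) x9695) x7751) x8399) x8219) x8239) x27919) (Nat.mul x8237 (nat_lit 4)))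
    (Nat.sub (Nat.add (Nat.add (Nat.add (Nat.add (Nat.add (Nat.add (Nat.add (Nat.add (Nat.add (Nat.add C x21361) x3865) x9697) x7753) x8401) x8221) x8245) x8237) x8241) x27921) (Nat.mul x8239 (nat_lit 3)))
    (Nat.sub (Nat.add (Nat.add (Nat.add (Nat.add (Nat.add (Nat.add (Nat.add (Nat.add C x21363) x3867) x9699) x7755) x8403) x8223) x8247) x8239) (Nat.mul x8241 (nat_lit 4)))
    (Nat.sub (Nat.add (Nat.add (Nat.add (Nat.add (Nat.add (Nat.add (Nat.add (Nat.add (Nat.add C x21367) x3871) x9703) x7759) x8407) x8227) x8239) x8247) x27927) (Nat.mul x8245 (nat_lit 2)))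
    (Nat.sub (Nat.add (Nat.add (Nat.add (Nat.add (Nat.add (Nat.add (Nat.add (Nat.add (Nat.add C x21369) x3873) x9705) x7761) x8409) x8229) x8241) x8253) x8245) x8247)
    (Nat.add (Nat.add (Nat.add (Nat.add (Nat.add (Nat.add C x21375) x3879) x9711) x7767) x8415) x8247)
    (Nat.add (Nat.add (Nat.add (Nat.add (Nat.add (Nat.add (Nat.add (Nat.add C x21401) x3905) x9737) x7793) x8117) x8297) x8285) x27961)
    (Nat.sub (Nat.add (Nat.add (Nat.add (Nat.add (Nat.add (Nat.add (Nat.add (Nat.add (Nat.add C x21407) x3911) x9743) x7799) x8123) x8303) x8279) x8287) x27967) (Nat.mul x8285 (nat_lit 2)))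
    (Nat.add (Nat.add (Nat.add (Nat.add (Nat.add (Nat.add (Nat.add (Nat.add C x21409) x3913) x9745) x7801) x8125) x8305) x8285) x27969)
    (Nat.sub (Nat.add (Nat.add (Nat.add (Nat.add (Nat.add (Nat.add (Nat.add (Nat.add (Nat.add C x21419) x3923) x9755) x7811) x8135) x8351) x8279) x8303) x27979) (Nat.mul x8297 (nat_lit 2)))
    (Nat.sub (Nat.sub (Nat.add (Nat.add (Nat.add (Nat.add (Nat.add (Nat.add (Nat.add (Nat.add (Nat.add (Nat.add (Nat.add (Nat.add (Nat.add C x21425) x3929) x9761) x7817) x8141) x8357) x8285) x8321) x8297) x8309) x8305) x27985) (Nat.mul (e (nat_lit 8303)) ap)) (Nat.mul x8303 (nat_lit 2))) (Nat.mul (e (nat_lit 8303)) an))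
    (Nat.sub (Nat.add (Nat.add (Nat.add (Nat.add (Nat.add (Nat.add (Nat.add (Nat.add (Nat.add (Nat.add (Nat.add C x21427) x3931) x9763) x7819) x8143) x8359) x8287) x8323) x8311) x8303) x27987) x8305)
    (Nat.sub (Nat.add (Nat.add (Nat.add (Nat.add (Nat.add (Nat.add (Nat.add (Nat.add (Nat.add (Nat.add C x21431) x3935) x9767) x7823) x8147) x8363) x8327) x8303) x8311) x27991) (Nat.mul x8309 (nat_lit 4)))
    (Nat.sub (Nat.add (Nat.add (Nat.add (Nat.add (Nat.add (Nat.add (Nat.add (Nat.add (Nat.add (Nat.add (Nat.add C x21433) x3937) x9769) x7825) x8149) x8365) x8329) x8305) x8309) x8313) x27993) x8311)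
    (Nat.add (Nat.add (Nat.add (Nat.add (Nat.add (Nat.add (Nat.add (Nat.add C x21435) x3939) x9771) x7827) x8151) x8367) x8331) x8311)
    (Nat.sub (Nat.sub (Nat.add (Nat.add (Nat.add (Nat.add (Nat.add (Nat.add (Nat.add (Nat.add (Nat.add (Nat.add (Nat.add C x21443) x3947) x9779) x7835) x8159) x8375) x8303) x8327) x8323) x28003) (Nat.mul (e (nat_lit 8321)) ap)) (Nat.mul x8321 (nat_lit 4))) (Nat.mul (e (nat_lit 8321)) an))
    (Nat.sub (Nat.add (Nat.add (Nat.add (Nat.add (Nat.add (Nat.add (Nat.add (Nat.add (Nat.add (Nat.add C x21445) x3949) x9781) x7837) x8161) x8377) x8305) x8329) x8321) x28005) (Nat.mul x8323 (nat_lit 4)))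
    (Nat.sub (Nat.add (Nat.add (Nat.add (Nat.add (Nat.add (Nat.add (Nat.add (Nat.add (Nat.add (Nat.add C x21449) x3953) x9785) x7841) x8165) x8381) x8309) x8321) x8329) x28009) (Nat.mul x8327 (nat_lit 4)))
    (Nat.sub (Nat.add (Nat.add (Nat.add (Nat.add (Nat.add (Nat.add (Nat.add (Nat.add (Nat.add (Nat.add (Nat.add (Nat.add C x21451) x3955) x9787) x7843) x8167) x8383) x8311) x8323) x8335) x8327) x8331) x28011) (Nat.mul x8329 (nat_lit 2)))
    (Nat.sub (Nat.add (Nat.add (Nat.add (Nat.add (Nat.add (Nat.add (Nat.add (Nat.add (Nat.add C x21453) x3957) x9789) x7845) x8169) x8385) x8313) x8337) x8329) (Nat.mul x8331 (nat_lit 2)))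
    (Nat.sub (Nat.add (Nat.add (Nat.add (Nat.add (Nat.add (Nat.add (Nat.add (Nat.add (Nat.add C x21457) x3961) x9793) x7849) x8173) x8389) x8329) x8337) x28017) (Nat.mul x8335 (nat_lit 2)))
    (Nat.add (Nat.add (Nat.add (Nat.add (Nat.add (Nat.add (Nat.add (Nat.add C x21459) x3963) x9795) x7851) x8175) x8391) x8331) x8335)
    (Nat.sub (Nat.add (Nat.add (Nat.add (Nat.add (Nat.add (Nat.add (Nat.add (Nat.add (Nat.add C x21473) x3977) x9809) x7865) x8189) x8513) x8297) x8357) x28033) x8351)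
    (Nat.sub (Nat.sub (Nat.add (Nat.add (Nat.add (Nat.add (Nat.add (Nat.add (Nat.add (Nat.add (Nat.add (Nat.add (Nat.add (Nat.add (Nat.add C x21479) x3983) x9815) x7871) x8195) x8519) x8303) x8375) x8351) x8363) x8359) x28039) (Nat.mul (e (nat_lit 8357)) ap)) (Nat.mul x8357 (nat_lit 2))) (Nat.mul (e (nat_lit 8357)) an))
    (Nat.sub (Nat.add (Nat.add (Nat.add (Nat.add (Nat.add (Nat.add (Nat.add (Nat.add (Nat.add (Nat.add (Nat.add C x21481) x3985) x9817) x7873) x8197) x8521) x8305) x8377) x8365) x8357) x28041) x8359)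
    (Nat.sub (Nat.add (Nat.add (Nat.add (Nat.add (Nat.add (Nat.add (Nat.add (Nat.add (Nat.add (Nat.add (Nat.add C x21485) x3989) x9821) x7877) x8201) x8525) x8309) x8381) x8357) x8365) x28045) (Nat.mul x8363 (nat_lit 5)))
    (Nat.sub (Nat.add (Nat.add (Nat.add (Nat.add (Nat.add (Nat.add (Nat.add (Nat.add (Nat.add (Nat.add (Nat.add (Nat.add C x21487) x3991) x9823) x7879) x8203) x8527) x8311) x8383) x8359) x8363) x8367) x28047) (Nat.mul x8365 (nat_lit 2)))
    (Nat.sub (Nat.add (Nat.add (Nat.add (Nat.add (Nat.add (Nat.add (Nat.add (Nat.add (Nat.add C x21489) x3993) x9825) x7881) x8205) x8529) x8313) x8385) x8365) x8367)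
    (Nat.sub (Nat.add (Nat.add (Nat.add (Nat.add (Nat.add (Nat.add (Nat.add (Nat.add (Nat.add (Nat.add (Nat.add (Nat.add C x21497) x4001) x9833) x7889) x8213) x8537) x8321) x8429) x8357) x8381) x8377) x28057) (Nat.mul x8375 (nat_lit 2)))
    (Nat.sub (Nat.add (Nat.add (Nat.add (Nat.add (Nat.add (Nat.add (Nat.add (Nat.add (Nat.add (Nat.add (Nat.add (Nat.add C x21499) x4003) x9835) x7891) x8215) x8539) x8323) x8431) x8359) x8383) x8375) x28059) (Nat.mul x8377 (nat_lit 2)))
    (Nat.sub (Nat.add (Nat.add (Nat.add (Nat.add (Nat.add (Nat.add (Nat.add (Nat.add (Nat.add (Nat.add (Nat.add (Nat.add (Nat.add C x21503) x4007) x9839) x7895) x8219) x8543) x8327) x8435) x8363) x8399) x8375) x8383) x28063) (Nat.mul x8381 (nat_lit 3)))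
    (Nat.sub (Nat.add (Nat.add (Nat.add (Nat.add (Nat.add (Nat.add (Nat.add (Nat.add (Nat.add (Nat.add (Nat.add (Nat.add (Nat.add (Nat.add (Nat.add C x21505) x4009) x9841) x7897) x8221) x8545) x8329) x8437) x8365) x8401) x8377) x8389) x8381) x8385) x28065) x8383)
    (Nat.sub (Nat.add (Nat.add (Nat.add (Nat.add (Nat.add (Nat.add (Nat.add (Nat.add (Nat.add (Nat.add (Nat.add (Nat.add C x21507) x4011) x9843) x7899) x8223) x8547) x8331) x8439) x8367) x8403) x8391) x8383) x8385)
    (Nat.sub (Nat.add (Nat.add (Nat.add (Nat.add (Nat.add (Nat.add (Nat.add (Nat.add (Nat.add (Nat.add (Nat.add (Nat.add C x21511) x4015) x9847) x7903) x8227) x8551) x8335) x8443) x8407) x8383) x8391) x28071) (Nat.mul x8389 (nat_lit 2)))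
    (Nat.add (Nat.add (Nat.add (Nat.add (Nat.add (Nat.add (Nat.add (Nat.add (Nat.add (Nat.add (Nat.add C x21513) x4017) x9849) x7905) x8229) x8553) x8337) x8445) x8409) x8385) x8389)
    (Nat.sub (Nat.add (Nat.add (Nat.add (Nat.add (Nat.add (Nat.add (Nat.add (Nat.add (Nat.add (Nat.add C x21521) x4025) x9857) x7913) x8237) x8561) x8453) x8381) x8401) x28081) (Nat.mul x8399 (nat_lit 3)))
    (Nat.sub (Nat.add (Nat.add (Nat.add (Nat.add (Nat.add (Nat.add (Nat.add (Nat.add (Nat.add (Nat.add (Nat.add (Nat.add C x21523) x4027) x9859) x7915) x8239) x8563) x8455) x8383) x8407) x8399) x8403) x28083) (Nat.mul x8401 (nat_lit 2)))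
    (Nat.sub (Nat.add (Nat.add (Nat.add (Nat.add (Nat.add (Nat.add (Nat.add (Nat.add (Nat.add (Nat.add C x21525) x4029) x9861) x7917) x8241) x8565) x8457) x8385) x8409) x8401) (Nat.mul x8403 (nat_lit 3)))
    (Nat.sub (Nat.add (Nat.add (Nat.add (Nat.add (Nat.add (Nat.add (Nat.add (Nat.add (Nat.add (Nat.add (Nat.add C x21529) x4033) x9865) x7921) x8245) x8569) x8461) x8389) x8401) x8409) x28089) x8407)
    (Nat.add (Nat.add (Nat.add (Nat.add (Nat.add (Nat.add (Nat.add (Nat.add (Nat.add (Nat.add (Nat.add C x21531) x4035) x9867) x7923) x8247) x8571) x8463) x8391) x8403) x8415) x8407)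
    (Nat.add (Nat.add (Nat.add (Nat.add (Nat.add (Nat.add (Nat.add (Nat.add (Nat.add C x8415) x21537) x4041) x9873) x7929) x8253) x8577) x8469) x8409)
    (Nat.sub (Nat.add (Nat.add (Nat.add (Nat.add (Nat.add (Nat.add (Nat.add (Nat.add (Nat.add C x21551) x4055) x9887) x7943) x8591) x8375) x8435) x8431) x28111) (Nat.mul x8429 (nat_lit 2)))
    (Nat.sub (Nat.add (Nat.add (Nat.add (Nat.add (Nat.add (Nat.add (Nat.add (Nat.add (Nat.add C x21553) x4057) x9889) x7945) x8593) x8377) x8437) x8429) x28113) (Nat.mul x8431 (nat_lit 2)))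
    (Nat.sub (Nat.add (Nat.add (Nat.add (Nat.add (Nat.add (Nat.add (Nat.add (Nat.add (Nat.add (Nat.add C x21557) x4061) x9893) x7949) x8597) x8381) x8453) x8429) x8437) x28117) (Nat.mul x8435 (nat_lit 4)))
    (Nat.sub (Nat.add (Nat.add (Nat.add (Nat.add (Nat.add (Nat.add (Nat.add (Nat.add (Nat.add (Nat.add (Nat.add (Nat.add C x21559) x4063) x9895) x7951) x8599) x8383) x8455) x8431) x8443) x8435) x8439) x28119) (Nat.mul x8437 (nat_lit 2)))
    (Nat.sub (Nat.add (Nat.add (Nat.add (Nat.add (Nat.add (Nat.add (Nat.add (Nat.add (Nat.add C x21561) x4065) x9897) x7953) x8601) x8385) x8457) x8445) x8437) (Nat.mul x8439 (nat_lit 2)))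
    (Nat.sub (Nat.add (Nat.add (Nat.add (Nat.add (Nat.add (Nat.add (Nat.add (Nat.add (Nat.add (Nat.add C x21565) x4069) x9901) x7957) x8605) x8389) x8461) x8437) x8445) x28125) (Nat.mul x8443 (nat_lit 4)))
    (Nat.sub (Nat.add (Nat.add (Nat.add (Nat.add (Nat.add (Nat.add (Nat.add (Nat.add (Nat.add C x21567) x4071) x9903) x7959) x8607) x8391) x8463) x8439) x8443) (Nat.mul x8445 (nat_lit 2)))
    (Nat.sub (Nat.add (Nat.add (Nat.add (Nat.add (Nat.add (Nat.add (Nat.add (Nat.add (Nat.add C x21575) x4079) x9911) x7967) x8615) x8399) x8435) x8455) x28135) (Nat.mul x8453 (nat_lit 2)))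
    (Nat.sub (Nat.add (Nat.add (Nat.add (Nat.add (Nat.add (Nat.add (Nat.add (Nat.add (Nat.add (Nat.add (Nat.add C x21577) x4081) x9913) x7969) x8617) x8401) x8437) x8461) x8453) x8457) x28137) x8455)
    (Nat.sub (Nat.add (Nat.add (Nat.add (Nat.add (Nat.add (Nat.add (Nat.add (Nat.add (Nat.add C x21579) x4083) x9915) x7971) x8619) x8403) x8439) x8463) x8455) (Nat.mul x8457 (nat_lit 2)))
    (Nat.sub (Nat.add (Nat.add (Nat.add (Nat.add (Nat.add (Nat.add (Nat.add (Nat.add (Nat.add (Nat.add (Nat.add C x21583) x4087) x9919) x7975) x8623) x8407) x8443) x8479) x8455) x8463) x28143) x8461)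
    (Nat.add (Nat.add (Nat.add (Nat.add (Nat.add (Nat.add (Nat.add (Nat.add (Nat.add (Nat.add (Nat.add C x21585) x4089) x9921) x7977) x8625) x8409) x8445) x8481) x8457) x8469) x8461)
    (Nat.add (Nat.add (Nat.add (Nat.add (Nat.add (Nat.add (Nat.add (Nat.add C x21591) x4095) x9927) x7983) x8631) x8415) x8487) x8463)
    (Nat.add (Nat.add (Nat.add (Nat.add (Nat.add (Nat.add (Nat.add (Nat.add C x21601) x4105) x9937) x7993) x8641) x8461) x8481) x28161)
    (Nat.add (Nat.add (Nat.add (Nat.add (Nat.add (Nat.add (Nat.add (Nat.add C x21603) x4107) x9939) x7995) x8643) x8463) x8487) x8479)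
    (Nat.add (Nat.add (Nat.add (Nat.add (Nat.add (Nat.add (Nat.add (Nat.add C (Nat.mul x8487 (nat_lit 2))) x21609) x4113) x9945) x8001) x8649) x8469) x8481)
    (Nat.add (Nat.add (Nat.add (Nat.add (Nat.add (Nat.add C x21635) x4139) x9971) x8351) x8519) x28195)
    (Nat.sub (Nat.add (Nat.add (Nat.add (Nat.add (Nat.add (Nat.add (Nat.add (Nat.add (Nat.add C x21641) x4145) x9977) x8357) x8537) x8513) x8525) x8521) x28201) x8519)
    (Nat.add (Nat.add (Nat.add (Nat.add (Nat.add (Nat.add (Nat.add (Nat.add C x21643) x4147) x9979) x8359) x8539) x8527) x8519) x28203)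
    (Nat.sub (Nat.add (Nat.add (Nat.add (Nat.add (Nat.add (Nat.add (Nat.add (Nat.add C x21647) x4151) x9983) x8363) x8543) x8519) x8527) x28207) (Nat.mul x8525 (nat_lit 4)))
    (Nat.sub (Nat.add (Nat.add (Nat.add (Nat.add (Nat.add (Nat.add (Nat.add (Nat.add (Nat.add C x21649) x4153) x9985) x8365) x8545) x8521) x8525) x8529) x28209) x8527)
    (Nat.add (Nat.add (Nat.add (Nat.add (Nat.add (Nat.add C x21651) x4155) x9987) x8367) x8547) x8527)
    (Nat.sub (Nat.add (Nat.add (Nat.add (Nat.add (Nat.add (Nat.add (Nat.add (Nat.add (Nat.add C x21659) x4163) x9995) x8375) x8591) x8519) x8543) x8539) x28219) (Nat.mul x8537 (nat_lit 2)))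
    (Nat.sub (Nat.add (Nat.add (Nat.add (Nat.add (Nat.add (Nat.add (Nat.add (Nat.add (Nat.add C x21661) x4165) x9997) x8377) x8593) x8521) x8545) x8537) x28221) (Nat.mul x8539 (nat_lit 2)))
    (Nat.sub (Nat.add (Nat.add (Nat.add (Nat.add (Nat.add (Nat.add (Nat.add (Nat.add (Nat.add (Nat.add C x21665) x4169) x10001) x8381) x8597) x8525) x8561) x8537) x8545) x28225) (Nat.mul x8543 (nat_lit 3)))
    (Nat.sub (Nat.add (Nat.add (Nat.add (Nat.add (Nat.add (Nat.add (Nat.add (Nat.add (Nat.add (Nat.add (Nat.add (Nat.add C x21667) x4171) x10003) x8383) x8599) x8527) x8563) x8539) x8551) x8543) x8547) x28227) x8545)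
    (Nat.sub (Nat.add (Nat.add (Nat.add (Nat.add (Nat.add (Nat.add (Nat.add (Nat.add (Nat.add C x21669) x4173) x10005) x8385) x8601) x8529) x8565) x8553) x8545) x8547)
    (Nat.sub (Nat.add (Nat.add (Nat.add (Nat.add (Nat.add (Nat.add (Nat.add (Nat.add (Nat.add C x21673) x4177) x10009) x8389) x8605) x8569) x8545) x8553) x28233) (Nat.mul x8551 (nat_lit 2)))
    (Nat.add (Nat.add (Nat.add (Nat.add (Nat.add (Nat.add (Nat.add (Nat.add C x21675) x4179) x10011) x8391) x8607) x8571) x8547) x8551)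
    (Nat.sub (Nat.add (Nat.add (Nat.add (Nat.add (Nat.add (Nat.add (Nat.add (Nat.add C x21683) x4187) x10019) x8399) x8615) x8543) x8563) x28243) (Nat.mul x8561 (nat_lit 4)))
    (Nat.sub (Nat.add (Nat.add (Nat.add (Nat.add (Nat.add (Nat.add (Nat.add (Nat.add (Nat.add (Nat.add C x21685) x4189) x10021) x8401) x8617) x8545) x8569) x8561) x8565) x28245) (Nat.mul x8563 (nat_lit 3)))
    (Nat.sub (Nat.add (Nat.add (Nat.add (Nat.add (Nat.add (Nat.add (Nat.add (Nat.add C x21687) x4191) x10023) x8403) x8619) x8547) x8571) x8563) (Nat.mul x8565 (nat_lit 4)))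
    (Nat.sub (Nat.add (Nat.add (Nat.add (Nat.add (Nat.add (Nat.add (Nat.add (Nat.add (Nat.add C x21691) x4195) x10027) x8407) x8623) x8551) x8563) x8571) x28251) (Nat.mul x8569 (nat_lit 2)))
    (Nat.sub (Nat.add (Nat.add (Nat.add (Nat.add (Nat.add (Nat.add (Nat.add (Nat.add (Nat.add C x21693) x4197) x10029) x8409) x8625) x8553) x8565) x8577) x8569) x8571)
    (Nat.add (Nat.add (Nat.add (Nat.add (Nat.add (Nat.add C x21699) x4203) x10035) x8415) x8631) x8571)
    (Nat.add (Nat.add (Nat.add (Nat.add (Nat.add (Nat.add (Nat.add (Nat.add C x21713) x4217) x10049) x8429) x8537) x8597) x8593) x28273)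
    (Nat.add (Nat.add (Nat.add (Nat.add (Nat.add (Nat.add (Nat.add (Nat.add C x21715) x4219) x10051) x8431) x8539) x8599) x8591) x28275)
    (Nat.sub (Nat.add (Nat.add (Nat.add (Nat.add (Nat.add (Nat.add (Nat.add (Nat.add (Nat.add C x21719) x4223) x10055) x8435) x8543) x8615) x8591) x8599) x28279) (Nat.mul x8597 (nat_lit 2)))
    (Nat.add (Nat.add (Nat.add (Nat.add (Nat.add (Nat.add (Nat.add (Nat.add (Nat.add (Nat.add (Nat.add C x21721) x4225) x10057) x8437) x8545) x8617) x8593) x8605) x8597) x8601) x28281)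
    (Nat.add (Nat.add (Nat.add (Nat.add (Nat.add (Nat.add (Nat.add (Nat.add C x21723) x4227) x10059) x8439) x8547) x8619) x8607) x8599)
    (Nat.sub (Nat.add (Nat.add (Nat.add (Nat.add (Nat.add (Nat.add (Nat.add (Nat.add (Nat.add C x21727) x4231) x10063) x8443) x8551) x8623) x8599) x8607) x28287) (Nat.mul x8605 (nat_lit 2)))
    (Nat.add (Nat.add (Nat.add (Nat.add (Nat.add (Nat.add (Nat.add (Nat.add C x21729) x4233) x10065) x8445) x8553) x8625) x8601) x8605)
    (Nat.sub (Nat.add (Nat.add (Nat.add (Nat.add (Nat.add (Nat.add (Nat.add (Nat.add (Nat.add C x21737) x4241) x10073) x8453) x8561) x8669) x8597) x8617) x28297) x8615)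
    (Nat.add (Nat.add (Nat.add (Nat.add (Nat.add (Nat.add (Nat.add (Nat.add (Nat.add (Nat.add (Nat.add C x21739) x4243) x10075) x8455) x8563) x8671) x8599) x8623) x8615) x8619) x28299)
    (Nat.sub (Nat.add (Nat.add (Nat.add (Nat.add (Nat.add (Nat.add (Nat.add (Nat.add (Nat.add C x21741) x4245) x10077) x8457) x8565) x8673) x8601) x8625) x8617) x8619)
    (Nat.add (Nat.add (Nat.add (Nat.add (Nat.add (Nat.add (Nat.add (Nat.add (Nat.add (Nat.add (Nat.add C x21745) x4249) x10081) x8461) x8569) x8677) x8605) x8641) x8617) x8625) x28305)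
    (Nat.add (Nat.add (Nat.add (Nat.add (Nat.add (Nat.add (Nat.add (Nat.add (Nat.add (Nat.add (Nat.add (Nat.add C x8625) x21747) x4251) x10083) x8463) x8571) x8679) x8607) x8643) x8619) x8631) x8623)
    (Nat.add (Nat.add (Nat.add (Nat.add (Nat.add (Nat.add (Nat.add (Nat.add (Nat.add C x8631) x21753) x4257) x10089) x8469) x8577) x8685) x8649) x8625)
    (Nat.add (Nat.add (Nat.add (Nat.add (Nat.add (Nat.add (Nat.add (Nat.add C x21763) x4267) x10099) x8479) x8695) x8623) x8643) x28323)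
    (Nat.add (Nat.add (Nat.add (Nat.add (Nat.add (Nat.add (Nat.add (Nat.add C x21765) x4269) x10101) x8481) x8697) x8625) x8649) x8641)
    (Nat.add (Nat.add (Nat.add (Nat.add (Nat.add (Nat.add (Nat.add (Nat.add C (Nat.mul x8649 (nat_lit 2))) x21771) x4275) x10107) x8487) x8703) x8631) x8643)
    (Nat.add (Nat.add (Nat.add (Nat.add (Nat.add (Nat.add C x21791) x4295) x10127) x8615) x8671) x28351)
    (Nat.add (Nat.add (Nat.add (Nat.add (Nat.add (Nat.add (Nat.add (Nat.add (Nat.add C x8671) x21793) x4297) x10129) x8617) x8677) x8669) x8673) x28353)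
    (Nat.add (Nat.add (Nat.add (Nat.add (Nat.add (Nat.add C x21795) x4299) x10131) x8619) x8679) x8671)
    (Nat.add (Nat.add (Nat.add (Nat.add (Nat.add (Nat.add (Nat.add (Nat.add C x21799) x4303) x10135) x8623) x8695) x8671) x8679) x28359)
    (Nat.add (Nat.add (Nat.add (Nat.add (Nat.add (Nat.add (Nat.add (Nat.add (Nat.add C x8679) x21801) x4305) x10137) x8625) x8697) x8673) x8685) x8677)
    (Nat.add (Nat.add (Nat.add (Nat.add (Nat.add (Nat.add C x21807) x4311) x10143) x8631) x8703) x8679)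
    (Nat.add (Nat.add (Nat.add (Nat.add (Nat.add (Nat.add (Nat.add (Nat.add C (Nat.mul x8695 (nat_lit 2))) x21817) x4321) x10153) x8641) x8677) x8697) x28377)
    (Nat.add (Nat.add (Nat.add (Nat.add (Nat.add (Nat.add (Nat.add (Nat.add C (Nat.mul x8697 (nat_lit 2))) x21819) x4323) x10155) x8643) x8679) x8703) x8695)
    (Nat.add (Nat.add (Nat.add (Nat.add (Nat.add (Nat.add (Nat.add (Nat.add C (Nat.mul x8703 (nat_lit 3))) x21825) x4329) x10161) x8649) x8685) x8721) x8697)
    (Nat.add (Nat.add (Nat.add (Nat.add (Nat.add C (Nat.mul x8721 (nat_lit 4))) x21843) x4347) x10179) x8703)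
    (Nat.add (Nat.add (Nat.add (Nat.add (Nat.add (Nat.add (Nat.add (Nat.add C (Nat.mul x8801 (nat_lit 3))) x21923) x4427) x13175) x7343) x8855) x8819) x28483)
    (Nat.add (Nat.add (Nat.add (Nat.add (Nat.add (Nat.add (Nat.add (Nat.add (Nat.add C x8819) x21941) x4445) x13193) x7361) x8873) x8801) x8825) x28501)
    (Nat.add (Nat.add (Nat.add (Nat.add (Nat.add (Nat.add (Nat.add (Nat.add (Nat.add C x8825) x21947) x4451) x13199) x7367) x8879) x8819) x8827) x28507)
    (Nat.add (Nat.add (Nat.add (Nat.add (Nat.add (Nat.add (Nat.add (Nat.add C (Nat.mul x8827 (nat_lit 3))) x21949) x4453) x13201) x7369) x8881) x8825) x28509)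
    (Nat.add (Nat.add (Nat.add (Nat.add (Nat.add (Nat.add (Nat.add (Nat.add (Nat.add C x8855) x21977) x4481) x13229) x7397) x9017) x8801) x8873) x28537)
    (Nat.add (Nat.add (Nat.add (Nat.add (Nat.add (Nat.add (Nat.add (Nat.add (Nat.add (Nat.add (Nat.add (Nat.add C x8873) x21995) x4499) x13247) x7415) x9035) x8819) x8927) x8855) x8891) x8879) x28555)
    (Nat.add (Nat.add (Nat.add (Nat.add (Nat.add (Nat.add (Nat.add (Nat.add (Nat.add (Nat.add (Nat.add C x22001) x4505) x13253) x7421) x9041) x8825) x8933) x8897) x8873) x8881) x28561)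
    (Nat.add (Nat.add (Nat.add (Nat.add (Nat.add (Nat.add (Nat.add (Nat.add (Nat.add (Nat.add (Nat.add C (Nat.mul x8881 (nat_lit 2))) x22003) x4507) x13255) x7423) x9043) x8827) x8935) x8899) x8879) x28563)
    (Nat.sub (Nat.add (Nat.add (Nat.add (Nat.add (Nat.add (Nat.add (Nat.add (Nat.add (Nat.add C x22013) x4517) x13265) x7433) x9053) x8945) x8873) x8897) x28573) x8891)
    (Nat.add (Nat.add (Nat.add (Nat.add (Nat.add (Nat.add (Nat.add (Nat.add (Nat.add (Nat.add (Nat.add C x22019) x4523) x13271) x7439) x9059) x8951) x8879) x8891) x8903) x8899) x28579)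
    (Nat.add (Nat.add (Nat.add (Nat.add (Nat.add (Nat.add (Nat.add (Nat.add (Nat.add (Nat.add (Nat.add C x8899) x22021) x4525) x13273) x7441) x9061) x8953) x8881) x8905) x8897) x28581)
    (Nat.sub (Nat.add (Nat.add (Nat.add (Nat.add (Nat.add (Nat.add (Nat.add (Nat.add (Nat.add C x22025) x4529) x13277) x7445) x9065) x8957) x8897) x8905) x28585) x8903)
    (Nat.add (Nat.add (Nat.add (Nat.add (Nat.add (Nat.add (Nat.add (Nat.add (Nat.add (Nat.add (Nat.add C (Nat.mul x8905 (nat_lit 2))) x22027) x4531) x13279) x7447) x9067) x8959) x8899) x8903) x8907) x28587)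
    (Nat.add (Nat.add (Nat.add (Nat.add (Nat.add (Nat.add (Nat.add (Nat.add C (Nat.mul x8907 (nat_lit 3))) x22029) x4533) x13281) x7449) x9069) x8961) x8905)
    (Nat.sub (Nat.add (Nat.add (Nat.add (Nat.add (Nat.add (Nat.add (Nat.add (Nat.add (Nat.add C x22049) x4553) x13301) x7469) x9089) x8873) x8945) x8933) x28609) x8927)
    (Nat.sub (Nat.add (Nat.add (Nat.add (Nat.add (Nat.add (Nat.add (Nat.add (Nat.add (Nat.add (Nat.add C x22055) x4559) x13307) x7475) x9095) x8879) x8951) x8927) x8935) x28615) (Nat.mul x8933 (nat_lit 3)))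
    (Nat.sub (Nat.add (Nat.add (Nat.add (Nat.add (Nat.add (Nat.add (Nat.add (Nat.add (Nat.add C x22057) x4561) x13309) x7477) x9097) x8881) x8953) x8933) x28617) x8935)
    (Nat.sub (Nat.add (Nat.add (Nat.add (Nat.add (Nat.add (Nat.add (Nat.add (Nat.add (Nat.add C x22067) x4571) x13319) x7487) x9107) x8891) x8927) x8951) x28627) x8945)
    (Nat.sub (Nat.add (Nat.add (Nat.add (Nat.add (Nat.add (Nat.add (Nat.add (Nat.add (Nat.add (Nat.add (Nat.add (Nat.add C x22073) x4577) x13325) x7493) x9113) x8897) x8933) x8969) x8945) x8957) x8953) x28633) x8951)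
    (Nat.add (Nat.add (Nat.add (Nat.add (Nat.add (Nat.add (Nat.add (Nat.add (Nat.add (Nat.add (Nat.add C x22075) x4579) x13327) x7495) x9115) x8899) x8935) x8971) x8959) x8951) x28635)
    (Nat.sub (Nat.add (Nat.add (Nat.add (Nat.add (Nat.add (Nat.add (Nat.add (Nat.add (Nat.add (Nat.add C x22079) x4583) x13331) x7499) x9119) x8903) x8975) x8951) x8959) x28639) (Nat.mul x8957 (nat_lit 3)))
    (Nat.add (Nat.add (Nat.add (Nat.add (Nat.add (Nat.add (Nat.add (Nat.add (Nat.add (Nat.add (Nat.add C x22081) x4585) x13333) x7501) x9121) x8905) x8977) x8953) x8957) x8961) x28641)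
    (Nat.add (Nat.add (Nat.add (Nat.add (Nat.add (Nat.add (Nat.add (Nat.add (Nat.add C x8961) x22083) x4587) x13335) x7503) x9123) x8907) x8979) x8959)
    (Nat.sub (Nat.add (Nat.add (Nat.add (Nat.add (Nat.add (Nat.add (Nat.add (Nat.add (Nat.add C x22091) x4595) x13343) x7511) x9131) x8951) x8975) x8971) x28651) x8969)
    (Nat.sub (Nat.add (Nat.add (Nat.add (Nat.add (Nat.add (Nat.add (Nat.add (Nat.add (Nat.add C x22093) x4597) x13345) x7513) x9133) x8953) x8977) x8969) x28653) x8971)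
    (Nat.sub (Nat.add (Nat.add (Nat.add (Nat.add (Nat.add (Nat.add (Nat.add (Nat.add (Nat.add C x22097) x4601) x13349) x7517) x9137) x8957) x8969) x8977) x28657) x8975)
    (Nat.add (Nat.add (Nat.add (Nat.add (Nat.add (Nat.add (Nat.add (Nat.add (Nat.add (Nat.add (Nat.add (Nat.add C x8977) x22099) x4603) x13351) x7519) x9139) x8959) x8971) x8983) x8975) x8979) x28659)
    (Nat.add (Nat.add (Nat.add (Nat.add (Nat.add (Nat.add (Nat.add (Nat.add (Nat.add C x8979) x22101) x4605) x13353) x7521) x9141) x8961) x8985) x8977)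
    (Nat.add (Nat.add (Nat.add (Nat.add (Nat.add (Nat.add (Nat.add (Nat.add (Nat.add C x8983) x22105) x4609) x13357) x7525) x9145) x8977) x8985) x28665)
    (Nat.add (Nat.add (Nat.add (Nat.add (Nat.add (Nat.add (Nat.add (Nat.add C (Nat.mul x8985 (nat_lit 3))) x22107) x4611) x13359) x7527) x9147) x8979) x8983)
    (Nat.add (Nat.add (Nat.add (Nat.add (Nat.add (Nat.add (Nat.add (Nat.add (Nat.add C x9017) x22139) x4643) x13391) x7559) x9503) x8855) x9035) x28699)
    (Nat.add (Nat.add (Nat.add (Nat.add (Nat.add (Nat.add (Nat.add (Nat.add (Nat.add (Nat.add (Nat.add C x22157) x4661) x13409) x7577) x9521) x8873) x9089) x9017) x9053) x9041) x28717)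
    (Nat.sub (Nat.add (Nat.add (Nat.add (Nat.add (Nat.add (Nat.add (Nat.add (Nat.add (Nat.add (Nat.add (Nat.add C x22163) x4667) x13415) x7583) x9527) x8879) x9095) x9059) x9035) x9043) x28723) x9041)
    (Nat.add (Nat.add (Nat.add (Nat.add (Nat.add (Nat.add (Nat.add (Nat.add (Nat.add (Nat.add (Nat.add C x9043) x22165) x4669) x13417) x7585) x9529) x8881) x9097) x9061) x9041) x28725)
    (Nat.sub (Nat.add (Nat.add (Nat.add (Nat.add (Nat.add (Nat.add (Nat.add (Nat.add (Nat.add (Nat.add C x22175) x4679) x13427) x7595) x9539) x8891) x9107) x9035) x9059) x28735) (Nat.mul x9053 (nat_lit 3)))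
    (Nat.sub (Nat.add (Nat.add (Nat.add (Nat.add (Nat.add (Nat.add (Nat.add (Nat.add (Nat.add (Nat.add (Nat.add (Nat.add C x22181) x4685) x13433) x7601) x9545) x8897) x9113) x9041) x9053) x9065) x9061) x28741) (Nat.mul x9059 (nat_lit 2)))
    (Nat.sub (Nat.add (Nat.add (Nat.add (Nat.add (Nat.add (Nat.add (Nat.add (Nat.add (Nat.add (Nat.add (Nat.add C x22183) x4687) x13435) x7603) x9547) x8899) x9115) x9043) x9067) x9059) x28743) x9061)
    (Nat.sub (Nat.add (Nat.add (Nat.add (Nat.add (Nat.add (Nat.add (Nat.add (Nat.add (Nat.add (Nat.add C x22187) x4691) x13439) x7607) x9551) x8903) x9119) x9059) x9067) x28747) (Nat.mul x9065 (nat_lit 3)))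
    (Nat.add (Nat.add (Nat.add (Nat.add (Nat.add (Nat.add (Nat.add (Nat.add (Nat.add (Nat.add (Nat.add C x22189) x4693) x13441) x7609) x9553) x8905) x9121) x9061) x9065) x9069) x28749)
    (Nat.add (Nat.add (Nat.add (Nat.add (Nat.add (Nat.add (Nat.add (Nat.add (Nat.add C x9069) x22191) x4695) x13443) x7611) x9555) x8907) x9123) x9067)
    (Nat.sub (Nat.add (Nat.add (Nat.add (Nat.add (Nat.add (Nat.add (Nat.add (Nat.add (Nat.add (Nat.add (Nat.add (Nat.add C x22211) x4715) x13463) x7631) x9575) x8927) x9251) x9035) x9107) x9095) x28771) (Nat.mul (e (nat_lit 9089)) ap)) (Nat.mul (e (nat_lit 9089)) an))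
    (Nat.sub (Nat.sub (Nat.add (Nat.add (Nat.add (Nat.add (Nat.add (Nat.add (Nat.add (Nat.add (Nat.add (Nat.add (Nat.add (Nat.add (Nat.add C x22217) x4721) x13469) x7637) x9581) x8933) x9257) x9041) x9113) x9089) x9097) x28777) (Nat.mul (e (nat_lit 9095)) ap)) (Nat.mul x9095 (nat_lit 2))) (Nat.mul (e (nat_lit 9095)) an))
    (Nat.add (Nat.add (Nat.add (Nat.add (Nat.add (Nat.add (Nat.add (Nat.add (Nat.add (Nat.add (Nat.add C x22219) x4723) x13471) x7639) x9583) x8935) x9259) x9043) x9115) x9095) x28779)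
    (Nat.sub (Nat.sub (Nat.add (Nat.add (Nat.add (Nat.add (Nat.add (Nat.add (Nat.add (Nat.add (Nat.add (Nat.add (Nat.add (Nat.add (Nat.add C x22229) x4733) x13481) x7649) x9593) x8945) x9269) x9053) x9161) x9089) x9113) x28789) (Nat.mul (e (nat_lit 9107)) ap)) x9107) (Nat.mul (e (nat_lit 9107)) an))
    (Nat.sub (Nat.sub (Nat.add (Nat.add (Nat.add (Nat.add (Nat.add (Nat.add (Nat.add (Nat.add (Nat.add (Nat.add (Nat.add (Nat.add (Nat.add (Nat.add (Nat.add (Nat.add C x22235) x4739) x13487) x7655) x9599) x8951) x9275) x9059) x9167) x9095) x9131) x9107) x9119) x9115) x28795) (Nat.mul (e (nat_lit 9113)) ap)) x9113) (Nat.mul (e (nat_lit 9113)) an))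
    (Nat.sub (Nat.add (Nat.add (Nat.add (Nat.add (Nat.add (Nat.add (Nat.add (Nat.add (Nat.add (Nat.add (Nat.add (Nat.add (Nat.add (Nat.add (Nat.add C x22237) x4741) x13489) x7657) x9601) x8953) x9277) x9061) x9169) x9097) x9133) x9121) x9113) x28797) (Nat.mul (e (nat_lit 9115)) ap)) (Nat.mul (e (nat_lit 9115)) an))
    (Nat.sub (Nat.sub (Nat.add (Nat.add (Nat.add (Nat.add (Nat.add (Nat.add (Nat.add (Nat.add (Nat.add (Nat.add (Nat.add (Nat.add (Nat.add (Nat.add C x22241) x4745) x13493) x7661) x9605) x8957) x9281) x9065) x9173) x9137) x9113) x9121) x28801) (Nat.mul (e (nat_lit 9119)) ap)) (Nat.mul x9119 (nat_lit 3))) (Nat.mul (e (nat_lit 9119)) an))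
    (Nat.sub (Nat.add (Nat.add (Nat.add (Nat.add (Nat.add (Nat.add (Nat.add (Nat.add (Nat.add (Nat.add (Nat.add (Nat.add (Nat.add (Nat.add (Nat.add C x22243) x4747) x13495) x7663) x9607) x8959) x9283) x9067) x9175) x9139) x9115) x9119) x9123) x28803) (Nat.mul (e (nat_lit 9121)) ap)) (Nat.mul (e (nat_lit 9121)) an))
    (Nat.add (Nat.add (Nat.add (Nat.add (Nat.add (Nat.add (Nat.add (Nat.add (Nat.add (Nat.add (Nat.add (Nat.add C x9123) x22245) x4749) x13497) x7665) x9609) x8961) x9285) x9069) x9177) x9141) x9121)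
    (Nat.sub (Nat.sub (Nat.add (Nat.add (Nat.add (Nat.add (Nat.add (Nat.add (Nat.add (Nat.add (Nat.add (Nat.add (Nat.add (Nat.add (Nat.add C x22253) x4757) x13505) x7673) x9617) x8969) x9293) x9185) x9113) x9137) x9133) x28813) (Nat.mul (e (nat_lit 9131)) ap)) (Nat.mul x9131 (nat_lit 2))) (Nat.mul (e (nat_lit 9131)) an))
    (Nat.sub (Nat.sub (Nat.add (Nat.add (Nat.add (Nat.add (Nat.add (Nat.add (Nat.add (Nat.add (Nat.add (Nat.add (Nat.add (Nat.add (Nat.add C x22255) x4759) x13507) x7675) x9619) x8971) x9295) x9187) x9115) x9139) x9131) x28815) (Nat.mul (e (nat_lit 9133)) ap)) (Nat.mul x9133 (nat_lit 2))) (Nat.mul (e (nat_lit 9133)) an))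
    (Nat.sub (Nat.sub (Nat.add (Nat.add (Nat.add (Nat.add (Nat.add (Nat.add (Nat.add (Nat.add (Nat.add (Nat.add (Nat.add (Nat.add (Nat.add C x22259) x4763) x13511) x7679) x9623) x8975) x9299) x9191) x9119) x9131) x9139) x28819) (Nat.mul (e (nat_lit 9137)) ap)) (Nat.mul x9137 (nat_lit 2))) (Nat.mul (e (nat_lit 9137)) an))
    (Nat.add (Nat.add (Nat.add (Nat.add (Nat.add (Nat.add (Nat.add (Nat.add (Nat.add (Nat.add (Nat.add (Nat.add (Nat.add (Nat.add C x22261) x4765) x13513) x7681) x9625) x8977) x9301) x9193) x9121) x9133) x9145) x9137) x9141) x28821)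
    (Nat.add (Nat.add (Nat.add (Nat.add (Nat.add (Nat.add (Nat.add (Nat.add (Nat.add (Nat.add (Nat.add C x22263) x4767) x13515) x7683) x9627) x8979) x9303) x9195) x9123) x9147) x9139)
    (Nat.add (Nat.add (Nat.add (Nat.add (Nat.add (Nat.add (Nat.add (Nat.add (Nat.add (Nat.add (Nat.add C x22267) x4771) x13519) x7687) x9631) x8983) x9307) x9199) x9139) x9147) x28827)
    (Nat.add (Nat.add (Nat.add (Nat.add (Nat.add (Nat.add (Nat.add (Nat.add (Nat.add (Nat.add (Nat.add C (Nat.mul x9147 (nat_lit 2))) x22269) x4773) x13521) x7689) x9633) x8985) x9309) x9201) x9141) x9145)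
    (Nat.sub (Nat.add (Nat.add (Nat.add (Nat.add (Nat.add (Nat.add (Nat.add (Nat.add (Nat.add C x22283) x4787) x13535) x7703) x9647) x9323) x9107) x9167) x28843) x9161)
    (Nat.sub (Nat.sub (Nat.add (Nat.add (Nat.add (Nat.add (Nat.add (Nat.add (Nat.add (Nat.add (Nat.add (Nat.add (Nat.add (Nat.add (Nat.add C x22289) x4793) x13541) x7709) x9653) x9329) x9113) x9185) x9161) x9173) x9169) x28849) (Nat.mul (e (nat_lit 9167)) ap)) (Nat.mul x9167 (nat_lit 2))) (Nat.mul (e (nat_lit 9167)) an))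
    (Nat.sub (Nat.sub (Nat.add (Nat.add (Nat.add (Nat.add (Nat.add (Nat.add (Nat.add (Nat.add (Nat.add (Nat.add (Nat.add (Nat.add C x22291) x4795) x13543) x7711) x9655) x9331) x9115) x9187) x9175) x9167) x28851) (Nat.mul (e (nat_lit 9169)) ap)) x9169) (Nat.mul (e (nat_lit 9169)) an))
    (Nat.sub (Nat.sub (Nat.add (Nat.add (Nat.add (Nat.add (Nat.add (Nat.add (Nat.add (Nat.add (Nat.add (Nat.add (Nat.add (Nat.add C x22295) x4799) x13547) x7715) x9659) x9335) x9119) x9191) x9167) x9175) x28855) (Nat.mul (e (nat_lit 9173)) ap)) (Nat.mul x9173 (nat_lit 5))) (Nat.mul (e (nat_lit 9173)) an))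
    (Nat.sub (Nat.add (Nat.add (Nat.add (Nat.add (Nat.add (Nat.add (Nat.add (Nat.add (Nat.add (Nat.add (Nat.add (Nat.add C x22297) x4801) x13549) x7717) x9661) x9337) x9121) x9193) x9169) x9173) x9177) x28857) (Nat.mul x9175 (nat_lit 2)))
    (Nat.sub (Nat.add (Nat.add (Nat.add (Nat.add (Nat.add (Nat.add (Nat.add (Nat.add (Nat.add C x22299) x4803) x13551) x7719) x9663) x9339) x9123) x9195) x9175) x9177)
    (Nat.sub (Nat.sub (Nat.add (Nat.add (Nat.add (Nat.add (Nat.add (Nat.add (Nat.add (Nat.add (Nat.add (Nat.add (Nat.add (Nat.add C x22307) x4811) x13559) x7727) x9671) x9347) x9131) x9167) x9191) x9187) x28867) (Nat.mul (e (nat_lit 9185)) ap)) x9185) (Nat.mul (e (nat_lit 9185)) an))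
    (Nat.sub (Nat.add (Nat.add (Nat.add (Nat.add (Nat.add (Nat.add (Nat.add (Nat.add (Nat.add (Nat.add (Nat.add C x22309) x4813) x13561) x7729) x9673) x9349) x9133) x9169) x9193) x9185) x28869) x9187)
    (Nat.sub (Nat.sub (Nat.add (Nat.add (Nat.add (Nat.add (Nat.add (Nat.add (Nat.add (Nat.add (Nat.add (Nat.add (Nat.add (Nat.add (Nat.add C x22313) x4817) x13565) x7733) x9677) x9353) x9137) x9173) x9209) x9185) x9193) x28873) (Nat.mul (e (nat_lit 9191)) ap)) (Nat.mul x9191 (nat_lit 2))) (Nat.mul (e (nat_lit 9191)) an))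
    (Nat.add (Nat.add (Nat.add (Nat.add (Nat.add (Nat.add (Nat.add (Nat.add (Nat.add (Nat.add (Nat.add (Nat.add (Nat.add (Nat.add C x22315) x4819) x13567) x7735) x9679) x9355) x9139) x9175) x9211) x9187) x9199) x9191) x9195) x28875)
    (Nat.add (Nat.add (Nat.add (Nat.add (Nat.add (Nat.add (Nat.add (Nat.add (Nat.add (Nat.add (Nat.add C x22317) x4821) x13569) x7737) x9681) x9357) x9141) x9177) x9213) x9201) x9193)
    (Nat.sub (Nat.add (Nat.add (Nat.add (Nat.add (Nat.add (Nat.add (Nat.add (Nat.add (Nat.add (Nat.add (Nat.add C x22321) x4825) x13573) x7741) x9685) x9361) x9145) x9217) x9193) x9201) x28881) x9199)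
    (Nat.add (Nat.add (Nat.add (Nat.add (Nat.add (Nat.add (Nat.add (Nat.add (Nat.add (Nat.add (Nat.add C x9201) x22323) x4827) x13575) x7743) x9687) x9363) x9147) x9219) x9195) x9199)
    (Nat.sub (Nat.add (Nat.add (Nat.add (Nat.add (Nat.add (Nat.add (Nat.add (Nat.add (Nat.add C x22331) x4835) x13583) x7751) x9695) x9371) x9191) x9211) x28891) x9209)
    (Nat.add (Nat.add (Nat.add (Nat.add (Nat.add (Nat.add (Nat.add (Nat.add (Nat.add (Nat.add (Nat.add C x22333) x4837) x13585) x7753) x9697) x9373) x9193) x9217) x9209) x9213) x28893)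
    (Nat.sub (Nat.add (Nat.add (Nat.add (Nat.add (Nat.add (Nat.add (Nat.add (Nat.add (Nat.add C x22335) x4839) x13587) x7755) x9699) x9375) x9195) x9219) x9211) x9213)
    (Nat.add (Nat.add (Nat.add (Nat.add (Nat.add (Nat.add (Nat.add (Nat.add (Nat.add (Nat.add (Nat.add C x9217) x22339) x4843) x13591) x7759) x9703) x9379) x9199) x9211) x9219) x28899)
    (Nat.add (Nat.add (Nat.add (Nat.add (Nat.add (Nat.add (Nat.add (Nat.add (Nat.add (Nat.add (Nat.add C (Nat.mul x9219 (nat_lit 2))) x22341) x4845) x13593) x7761) x9705) x9381) x9201) x9213) x9225) x9217)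
    (Nat.add (Nat.add (Nat.add (Nat.add (Nat.add (Nat.add (Nat.add (Nat.add C (Nat.mul x9225 (nat_lit 3))) x22347) x4851) x13599) x7767) x9711) x9387) x9219)
    (Nat.sub (Nat.add (Nat.add (Nat.add (Nat.add (Nat.add (Nat.add (Nat.add (Nat.add (Nat.add C x22373) x4877) x13625) x7793) x9737) x9089) x9269) x9257) x28933) x9251)
    (Nat.sub (Nat.add (Nat.add (Nat.add (Nat.add (Nat.add (Nat.add (Nat.add (Nat.add (Nat.add (Nat.add C x22379) x4883) x13631) x7799) x9743) x9095) x9275) x9251) x9259) x28939) (Nat.mul x9257 (nat_lit 3)))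
    (Nat.sub (Nat.add (Nat.add (Nat.add (Nat.add (Nat.add (Nat.add (Nat.add (Nat.add (Nat.add C x22381) x4885) x13633) x7801) x9745) x9097) x9277) x9257) x28941) x9259)
    (Nat.sub (Nat.add (Nat.add (Nat.add (Nat.add (Nat.add (Nat.add (Nat.add (Nat.add (Nat.add (Nat.add C x22391) x4895) x13643) x7811) x9755) x9107) x9323) x9251) x9275) x28951) (Nat.mul x9269 (nat_lit 3)))
    (Nat.sub (Nat.sub (Nat.add (Nat.add (Nat.add (Nat.add (Nat.add (Nat.add (Nat.add (Nat.add (Nat.add (Nat.add (Nat.add (Nat.add (Nat.add (Nat.add C x22397) x4901) x13649) x7817) x9761) x9113) x9329) x9257) x9293) x9269) x9281) x9277) x28957) (Nat.mul (e (nat_lit 9275)) ap)) (Nat.mul x9275 (nat_lit 3))) (Nat.mul (e (nat_lit 9275)) an))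
    (Nat.sub (Nat.add (Nat.add (Nat.add (Nat.add (Nat.add (Nat.add (Nat.add (Nat.add (Nat.add (Nat.add (Nat.add (Nat.add C x22399) x4903) x13651) x7819) x9763) x9115) x9331) x9259) x9295) x9283) x9275) x28959) (Nat.mul x9277 (nat_lit 2)))
    (Nat.sub (Nat.sub (Nat.add (Nat.add (Nat.add (Nat.add (Nat.add (Nat.add (Nat.add (Nat.add (Nat.add (Nat.add (Nat.add (Nat.add C x22403) x4907) x13655) x7823) x9767) x9119) x9335) x9299) x9275) x9283) x28963) (Nat.mul (e (nat_lit 9281)) ap)) (Nat.mul x9281 (nat_lit 5))) (Nat.mul (e (nat_lit 9281)) an))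
    (Nat.sub (Nat.add (Nat.add (Nat.add (Nat.add (Nat.add (Nat.add (Nat.add (Nat.add (Nat.add (Nat.add (Nat.add (Nat.add C x22405) x4909) x13657) x7825) x9769) x9121) x9337) x9301) x9277) x9281) x9285) x28965) (Nat.mul x9283 (nat_lit 2)))
    (Nat.sub (Nat.add (Nat.add (Nat.add (Nat.add (Nat.add (Nat.add (Nat.add (Nat.add (Nat.add C x22407) x4911) x13659) x7827) x9771) x9123) x9339) x9303) x9283) x9285)
    (Nat.sub (Nat.sub (Nat.add (Nat.add (Nat.add (Nat.add (Nat.add (Nat.add (Nat.add (Nat.add (Nat.add (Nat.add (Nat.add (Nat.add C x22415) x4919) x13667) x7835) x9779) x9131) x9347) x9275) x9299) x9295) x28975) (Nat.mul (e (nat_lit 9293)) ap)) (Nat.mul x9293 (nat_lit 5))) (Nat.mul (e (nat_lit 9293)) an))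
    (Nat.sub (Nat.add (Nat.add (Nat.add (Nat.add (Nat.add (Nat.add (Nat.add (Nat.add (Nat.add (Nat.add (Nat.add C x22417) x4921) x13669) x7837) x9781) x9133) x9349) x9277) x9301) x9293) x28977) (Nat.mul x9295 (nat_lit 5)))
    (Nat.sub (Nat.add (Nat.add (Nat.add (Nat.add (Nat.add (Nat.add (Nat.add (Nat.add (Nat.add (Nat.add (Nat.add C x22421) x4925) x13673) x7841) x9785) x9137) x9353) x9281) x9293) x9301) x28981) (Nat.mul x9299 (nat_lit 5)))
    (Nat.sub (Nat.add (Nat.add (Nat.add (Nat.add (Nat.add (Nat.add (Nat.add (Nat.add (Nat.add (Nat.add (Nat.add (Nat.add (Nat.add C x22423) x4927) x13675) x7843) x9787) x9139) x9355) x9283) x9295) x9307) x9299) x9303) x28983) (Nat.mul x9301 (nat_lit 3)))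
    (Nat.sub (Nat.add (Nat.add (Nat.add (Nat.add (Nat.add (Nat.add (Nat.add (Nat.add (Nat.add (Nat.add C x22425) x4929) x13677) x7845) x9789) x9141) x9357) x9285) x9309) x9301) (Nat.mul x9303 (nat_lit 3)))
    (Nat.sub (Nat.add (Nat.add (Nat.add (Nat.add (Nat.add (Nat.add (Nat.add (Nat.add (Nat.add (Nat.add C x22429) x4933) x13681) x7849) x9793) x9145) x9361) x9301) x9309) x28989) (Nat.mul x9307 (nat_lit 3)))
    (Nat.sub (Nat.add (Nat.add (Nat.add (Nat.add (Nat.add (Nat.add (Nat.add (Nat.add (Nat.add C x22431) x4935) x13683) x7851) x9795) x9147) x9363) x9303) x9307) x9309)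
    (Nat.sub (Nat.add (Nat.add (Nat.add (Nat.add (Nat.add (Nat.add (Nat.add (Nat.add (Nat.add C x22445) x4949) x13697) x7865) x9809) x9161) x9269) x9329) x29005) x9323)
    (Nat.sub (Nat.sub (Nat.add (Nat.add (Nat.add (Nat.add (Nat.add (Nat.add (Nat.add (Nat.add (Nat.add (Nat.add (Nat.add (Nat.add (Nat.add C x22451) x4955) x13703) x7871) x9815) x9167) x9275) x9347) x9323) x9335) x9331) x29011) (Nat.mul (e (nat_lit 9329)) ap)) (Nat.mul x9329 (nat_lit 2))) (Nat.mul (e (nat_lit 9329)) an))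
    (Nat.sub (Nat.add (Nat.add (Nat.add (Nat.add (Nat.add (Nat.add (Nat.add (Nat.add (Nat.add (Nat.add (Nat.add C x22453) x4957) x13705) x7873) x9817) x9169) x9277) x9349) x9337) x9329) x29013) x9331)
    (Nat.sub (Nat.add (Nat.add (Nat.add (Nat.add (Nat.add (Nat.add (Nat.add (Nat.add (Nat.add (Nat.add (Nat.add C x22457) x4961) x13709) x7877) x9821) x9173) x9281) x9353) x9329) x9337) x29017) (Nat.mul x9335 (nat_lit 5)))
    (Nat.sub (Nat.add (Nat.add (Nat.add (Nat.add (Nat.add (Nat.add (Nat.add (Nat.add (Nat.add (Nat.add (Nat.add (Nat.add C x22459) x4963) x13711) x7879) x9823) x9175) x9283) x9355) x9331) x9335) x9339) x29019) (Nat.mul x9337 (nat_lit 2)))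
    (Nat.sub (Nat.add (Nat.add (Nat.add (Nat.add (Nat.add (Nat.add (Nat.add (Nat.add (Nat.add C x22461) x4965) x13713) x7881) x9825) x9177) x9285) x9357) x9337) x9339)
    (Nat.sub (Nat.add (Nat.add (Nat.add (Nat.add (Nat.add (Nat.add (Nat.add (Nat.add (Nat.add (Nat.add (Nat.add (Nat.add C x22469) x4973) x13721) x7889) x9833) x9185) x9293) x9401) x9329) x9353) x9349) x29029) (Nat.mul x9347 (nat_lit 2)))
    (Nat.sub (Nat.add (Nat.add (Nat.add (Nat.add (Nat.add (Nat.add (Nat.add (Nat.add (Nat.add (Nat.add (Nat.add (Nat.add C x22471) x4975) x13723) x7891) x9835) x9187) x9295) x9403) x9331) x9355) x9347) x29031) (Nat.mul x9349 (nat_lit 2)))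
    (Nat.sub (Nat.add (Nat.add (Nat.add (Nat.add (Nat.add (Nat.add (Nat.add (Nat.add (Nat.add (Nat.add (Nat.add (Nat.add (Nat.add C x22475) x4979) x13727) x7895) x9839) x9191) x9299) x9407) x9335) x9371) x9347) x9355) x29035) (Nat.mul x9353 (nat_lit 3)))
    (Nat.sub (Nat.add (Nat.add (Nat.add (Nat.add (Nat.add (Nat.add (Nat.add (Nat.add (Nat.add (Nat.add (Nat.add (Nat.add (Nat.add (Nat.add (Nat.add C x22477) x4981) x13729) x7897) x9841) x9193) x9301) x9409) x9337) x9373) x9349) x9361) x9353) x9357) x29037) x9355)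
    (Nat.sub (Nat.add (Nat.add (Nat.add (Nat.add (Nat.add (Nat.add (Nat.add (Nat.add (Nat.add (Nat.add (Nat.add (Nat.add C x22479) x4983) x13731) x7899) x9843) x9195) x9303) x9411) x9339) x9375) x9363) x9355) x9357)
    (Nat.sub (Nat.add (Nat.add (Nat.add (Nat.add (Nat.add (Nat.add (Nat.add (Nat.add (Nat.add (Nat.add (Nat.add (Nat.add C x22483) x4987) x13735) x7903) x9847) x9199) x9307) x9415) x9379) x9355) x9363) x29043) (Nat.mul x9361 (nat_lit 2)))
    (Nat.add (Nat.add (Nat.add (Nat.add (Nat.add (Nat.add (Nat.add (Nat.add (Nat.add (Nat.add (Nat.add C x22485) x4989) x13737) x7905) x9849) x9201) x9309) x9417) x9381) x9357) x9361)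
    (Nat.sub (Nat.add (Nat.add (Nat.add (Nat.add (Nat.add (Nat.add (Nat.add (Nat.add (Nat.add (Nat.add C x22493) x4997) x13745) x7913) x9857) x9209) x9425) x9353) x9373) x29053) (Nat.mul x9371 (nat_lit 3)))
    (Nat.sub (Nat.add (Nat.add (Nat.add (Nat.add (Nat.add (Nat.add (Nat.add (Nat.add (Nat.add (Nat.add (Nat.add (Nat.add C x22495) x4999) x13747) x7915) x9859) x9211) x9427) x9355) x9379) x9371) x9375) x29055) (Nat.mul x9373 (nat_lit 2)))
    (Nat.sub (Nat.add (Nat.add (Nat.add (Nat.add (Nat.add (Nat.add (Nat.add (Nat.add (Nat.add (Nat.add C x22497) x5001) x13749) x7917) x9861) x9213) x9429) x9357) x9381) x9373) (Nat.mul x9375 (nat_lit 3)))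
    (Nat.sub (Nat.add (Nat.add (Nat.add (Nat.add (Nat.add (Nat.add (Nat.add (Nat.add (Nat.add (Nat.add (Nat.add C x22501) x5005) x13753) x7921) x9865) x9217) x9433) x9361) x9373) x9381) x29061) x9379)
    (Nat.add (Nat.add (Nat.add (Nat.add (Nat.add (Nat.add (Nat.add (Nat.add (Nat.add (Nat.add (Nat.add C x22503) x5007) x13755) x7923) x9867) x9219) x9435) x9363) x9375) x9387) x9379)
    (Nat.add (Nat.add (Nat.add (Nat.add (Nat.add (Nat.add (Nat.add (Nat.add (Nat.add C x9387) x22509) x5013) x13761) x7929) x9873) x9225) x9441) x9381)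
    (Nat.sub (Nat.add (Nat.add (Nat.add (Nat.add (Nat.add (Nat.add (Nat.add (Nat.add (Nat.add C x22523) x5027) x13775) x7943) x9887) x9347) x9407) x9403) x29083) x9401)
    (Nat.sub (Nat.add (Nat.add (Nat.add (Nat.add (Nat.add (Nat.add (Nat.add (Nat.add (Nat.add C x22525) x5029) x13777) x7945) x9889) x9349) x9409) x9401) x29085) x9403)
    (Nat.sub (Nat.add (Nat.add (Nat.add (Nat.add (Nat.add (Nat.add (Nat.add (Nat.add (Nat.add (Nat.add C x22529) x5033) x13781) x7949) x9893) x9353) x9425) x9401) x9409) x29089) (Nat.mul x9407 (nat_lit 3)))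
    (Nat.sub (Nat.add (Nat.add (Nat.add (Nat.add (Nat.add (Nat.add (Nat.add (Nat.add (Nat.add (Nat.add (Nat.add (Nat.add C x22531) x5035) x13783) x7951) x9895) x9355) x9427) x9403) x9415) x9407) x9411) x29091) x9409)
    (Nat.sub (Nat.add (Nat.add (Nat.add (Nat.add (Nat.add (Nat.add (Nat.add (Nat.add (Nat.add C x22533) x5037) x13785) x7953) x9897) x9357) x9429) x9417) x9409) x9411)
    (Nat.sub (Nat.add (Nat.add (Nat.add (Nat.add (Nat.add (Nat.add (Nat.add (Nat.add (Nat.add (Nat.add C x22537) x5041) x13789) x7957) x9901) x9361) x9433) x9409) x9417) x29097) (Nat.mul x9415 (nat_lit 3)))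
    (Nat.sub (Nat.add (Nat.add (Nat.add (Nat.add (Nat.add (Nat.add (Nat.add (Nat.add (Nat.add C x22539) x5043) x13791) x7959) x9903) x9363) x9435) x9411) x9415) x9417)
    (Nat.sub (Nat.add (Nat.add (Nat.add (Nat.add (Nat.add (Nat.add (Nat.add (Nat.add (Nat.add C x22547) x5051) x13799) x7967) x9911) x9371) x9407) x9427) x29107) x9425)
    (Nat.add (Nat.add (Nat.add (Nat.add (Nat.add (Nat.add (Nat.add (Nat.add (Nat.add (Nat.add (Nat.add C x22549) x5053) x13801) x7969) x9913) x9373) x9409) x9433) x9425) x9429) x29109)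
    (Nat.sub (Nat.add (Nat.add (Nat.add (Nat.add (Nat.add (Nat.add (Nat.add (Nat.add (Nat.add C x22551) x5055) x13803) x7971) x9915) x9375) x9411) x9435) x9427) x9429)
    (Nat.add (Nat.add (Nat.add (Nat.add (Nat.add (Nat.add (Nat.add (Nat.add (Nat.add (Nat.add (Nat.add C x22555) x5059) x13807) x7975) x9919) x9379) x9415) x9451) x9427) x9435) x29115)
    (Nat.add (Nat.add (Nat.add (Nat.add (Nat.add (Nat.add (Nat.add (Nat.add (Nat.add (Nat.add (Nat.add (Nat.add C x9435) x22557) x5061) x13809) x7977) x9921) x9381) x9417) x9453) x9429) x9441) x9433)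
    (Nat.add (Nat.add (Nat.add (Nat.add (Nat.add (Nat.add (Nat.add (Nat.add (Nat.add C x9441) x22563) x5067) x13815) x7983) x9927) x9387) x9459) x9435)
    (Nat.add (Nat.add (Nat.add (Nat.add (Nat.add (Nat.add (Nat.add (Nat.add (Nat.add C x9451) x22573) x5077) x13825) x7993) x9937) x9433) x9453) x29133)
    (Nat.add (Nat.add (Nat.add (Nat.add (Nat.add (Nat.add (Nat.add (Nat.add (Nat.add C x9453) x22575) x5079) x13827) x7995) x9939) x9435) x9459) x9451)
    (Nat.add (Nat.add (Nat.add (Nat.add (Nat.add (Nat.add (Nat.add (Nat.add C (Nat.mul x9459 (nat_lit 3))) x22581) x5085) x13833) x8001) x9945) x9441) x9453)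
    (Nat.add (Nat.add (Nat.add (Nat.add (Nat.add (Nat.add (Nat.add (Nat.add (Nat.add C (Nat.mul x9503 (nat_lit 2))) x22625) x5129) x13877) x8045) x10961) x9017) x9521) x29185)
    (Nat.add (Nat.add (Nat.add (Nat.add (Nat.add (Nat.add (Nat.add (Nat.add (Nat.add (Nat.add (Nat.add (Nat.add C x9521) x22643) x5147) x13895) x8063) x10979) x9035) x9575) x9503) x9539) x9527) x29203)
    (Nat.add (Nat.add (Nat.add (Nat.add (Nat.add (Nat.add (Nat.add (Nat.add (Nat.add (Nat.add (Nat.add C x22649) x5153) x13901) x8069) x10985) x9041) x9581) x9545) x9521) x9529) x29209)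
    (Nat.add (Nat.add (Nat.add (Nat.add (Nat.add (Nat.add (Nat.add (Nat.add (Nat.add (Nat.add (Nat.add C (Nat.mul x9529 (nat_lit 2))) x22651) x5155) x13903) x8071) x10987) x9043) x9583) x9547) x9527) x29211)
    (Nat.sub (Nat.add (Nat.add (Nat.add (Nat.add (Nat.add (Nat.add (Nat.add (Nat.add (Nat.add (Nat.add C x22661) x5165) x13913) x8081) x10997) x9053) x9593) x9521) x9545) x29221) (Nat.mul x9539 (nat_lit 2)))
    (Nat.sub (Nat.add (Nat.add (Nat.add (Nat.add (Nat.add (Nat.add (Nat.add (Nat.add (Nat.add (Nat.add (Nat.add (Nat.add C x22667) x5171) x13919) x8087) x11003) x9059) x9599) x9527) x9539) x9551) x9547) x29227) x9545)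
    (Nat.add (Nat.add (Nat.add (Nat.add (Nat.add (Nat.add (Nat.add (Nat.add (Nat.add (Nat.add (Nat.add C x22669) x5173) x13921) x8089) x11005) x9061) x9601) x9529) x9553) x9545) x29229)
    (Nat.sub (Nat.add (Nat.add (Nat.add (Nat.add (Nat.add (Nat.add (Nat.add (Nat.add (Nat.add (Nat.add C x22673) x5177) x13925) x8093) x11009) x9065) x9605) x9545) x9553) x29233) (Nat.mul x9551 (nat_lit 2)))
    (Nat.add (Nat.add (Nat.add (Nat.add (Nat.add (Nat.add (Nat.add (Nat.add (Nat.add (Nat.add (Nat.add (Nat.add C x9553) x22675) x5179) x13927) x8095) x11011) x9067) x9607) x9547) x9551) x9555) x29235)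
    (Nat.add (Nat.add (Nat.add (Nat.add (Nat.add (Nat.add (Nat.add (Nat.add (Nat.add C (Nat.mul x9555 (nat_lit 2))) x22677) x5181) x13929) x8097) x11013) x9069) x9609) x9553)
    (Nat.add (Nat.add (Nat.add (Nat.add (Nat.add (Nat.add (Nat.add (Nat.add (Nat.add (Nat.add (Nat.add C x22697) x5201) x13949) x8117) x11033) x9089) x9737) x9521) x9593) x9581) x29257)
    (Nat.sub (Nat.add (Nat.add (Nat.add (Nat.add (Nat.add (Nat.add (Nat.add (Nat.add (Nat.add (Nat.add (Nat.add (Nat.add C x22703) x5207) x13955) x8123) x11039) x9095) x9743) x9527) x9599) x9575) x9583) x29263) (Nat.mul x9581 (nat_lit 2)))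
    (Nat.add (Nat.add (Nat.add (Nat.add (Nat.add (Nat.add (Nat.add (Nat.add (Nat.add (Nat.add (Nat.add C x22705) x5209) x13957) x8125) x11041) x9097) x9745) x9529) x9601) x9581) x29265)
    (Nat.sub (Nat.add (Nat.add (Nat.add (Nat.add (Nat.add (Nat.add (Nat.add (Nat.add (Nat.add (Nat.add (Nat.add (Nat.add C x22715) x5219) x13967) x8135) x11051) x9107) x9755) x9539) x9647) x9575) x9599) x29275) x9593)
    (Nat.sub (Nat.sub (Nat.add (Nat.add (Nat.add (Nat.add (Nat.add (Nat.add (Nat.add (Nat.add (Nat.add (Nat.add (Nat.add (Nat.add (Nat.add (Nat.add (Nat.add (Nat.add C x22721) x5225) x13973) x8141) x11057) x9113) x9761) x9545) x9653) x9581) x9617) x9593) x9605) x9601) x29281) (Nat.mul (e (nat_lit 9599)) ap)) x9599) (Nat.mul (e (nat_lit 9599)) an))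
    (Nat.sub (Nat.add (Nat.add (Nat.add (Nat.add (Nat.add (Nat.add (Nat.add (Nat.add (Nat.add (Nat.add (Nat.add (Nat.add (Nat.add (Nat.add (Nat.add C x22723) x5227) x13975) x8143) x11059) x9115) x9763) x9547) x9655) x9583) x9619) x9607) x9599) x29283) (Nat.mul (e (nat_lit 9601)) ap)) (Nat.mul (e (nat_lit 9601)) an))
    (Nat.sub (Nat.sub (Nat.add (Nat.add (Nat.add (Nat.add (Nat.add (Nat.add (Nat.add (Nat.add (Nat.add (Nat.add (Nat.add (Nat.add (Nat.add (Nat.add C x22727) x5231) x13979) x8147) x11063) x9119) x9767) x9551) x9659) x9623) x9599) x9607) x29287) (Nat.mul (e (nat_lit 9605)) ap)) (Nat.mul x9605 (nat_lit 3))) (Nat.mul (e (nat_lit 9605)) an))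
    (Nat.sub (Nat.add (Nat.add (Nat.add (Nat.add (Nat.add (Nat.add (Nat.add (Nat.add (Nat.add (Nat.add (Nat.add (Nat.add (Nat.add (Nat.add (Nat.add C x22729) x5233) x13981) x8149) x11065) x9121) x9769) x9553) x9661) x9625) x9601) x9605) x9609) x29289) (Nat.mul (e (nat_lit 9607)) ap)) (Nat.mul (e (nat_lit 9607)) an))
    (Nat.add (Nat.add (Nat.add (Nat.add (Nat.add (Nat.add (Nat.add (Nat.add (Nat.add (Nat.add (Nat.add (Nat.add C x9609) x22731) x5235) x13983) x8151) x11067) x9123) x9771) x9555) x9663) x9627) x9607)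
    (Nat.sub (Nat.sub (Nat.add (Nat.add (Nat.add (Nat.add (Nat.add (Nat.add (Nat.add (Nat.add (Nat.add (Nat.add (Nat.add (Nat.add (Nat.add C x22739) x5243) x13991) x8159) x11075) x9131) x9779) x9671) x9599) x9623) x9619) x29299) (Nat.mul (e (nat_lit 9617)) ap)) (Nat.mul x9617 (nat_lit 2))) (Nat.mul (e (nat_lit 9617)) an))
    (Nat.sub (Nat.sub (Nat.add (Nat.add (Nat.add (Nat.add (Nat.add (Nat.add (Nat.add (Nat.add (Nat.add (Nat.add (Nat.add (Nat.add (Nat.add C x22741) x5245) x13993) x8161) x11077) x9133) x9781) x9673) x9601) x9625) x9617) x29301) (Nat.mul (e (nat_lit 9619)) ap)) (Nat.mul x9619 (nat_lit 2))) (Nat.mul (e (nat_lit 9619)) an))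
    (Nat.sub (Nat.sub (Nat.add (Nat.add (Nat.add (Nat.add (Nat.add (Nat.add (Nat.add (Nat.add (Nat.add (Nat.add (Nat.add (Nat.add (Nat.add C x22745) x5249) x13997) x8165) x11081) x9137) x9785) x9677) x9605) x9617) x9625) x29305) (Nat.mul (e (nat_lit 9623)) ap)) (Nat.mul x9623 (nat_lit 2))) (Nat.mul (e (nat_lit 9623)) an))
    (Nat.add (Nat.add (Nat.add (Nat.add (Nat.add (Nat.add (Nat.add (Nat.add (Nat.add (Nat.add (Nat.add (Nat.add (Nat.add (Nat.add C x22747) x5251) x13999) x8167) x11083) x9139) x9787) x9679) x9607) x9619) x9631) x9623) x9627) x29307)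
    (Nat.add (Nat.add (Nat.add (Nat.add (Nat.add (Nat.add (Nat.add (Nat.add (Nat.add (Nat.add (Nat.add C x22749) x5253) x14001) x8169) x11085) x9141) x9789) x9681) x9609) x9633) x9625)
    (Nat.add (Nat.add (Nat.add (Nat.add (Nat.add (Nat.add (Nat.add (Nat.add (Nat.add (Nat.add (Nat.add C x22753) x5257) x14005) x8173) x11089) x9145) x9793) x9685) x9625) x9633) x29313)
    (Nat.add (Nat.add (Nat.add (Nat.add (Nat.add (Nat.add (Nat.add (Nat.add (Nat.add (Nat.add (Nat.add C (Nat.mul x9633 (nat_lit 2))) x22755) x5259) x14007) x8175) x11091) x9147) x9795) x9687) x9627) x9631)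
    (Nat.sub (Nat.add (Nat.add (Nat.add (Nat.add (Nat.add (Nat.add (Nat.add (Nat.add (Nat.add (Nat.add C x22769) x5273) x14021) x8189) x11105) x9161) x9809) x9593) x9653) x29329) (Nat.mul x9647 (nat_lit 2)))
    (Nat.sub (Nat.sub (Nat.add (Nat.add (Nat.add (Nat.add (Nat.add (Nat.add (Nat.add (Nat.add (Nat.add (Nat.add (Nat.add (Nat.add (Nat.add (Nat.add C x22775) x5279) x14027) x8195) x11111) x9167) x9815) x9599) x9671) x9647) x9659) x9655) x29335) (Nat.mul (e (nat_lit 9653)) ap)) (Nat.mul x9653 (nat_lit 3))) (Nat.mul (e (nat_lit 9653)) an))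
    (Nat.sub (Nat.add (Nat.add (Nat.add (Nat.add (Nat.add (Nat.add (Nat.add (Nat.add (Nat.add (Nat.add (Nat.add (Nat.add C x22777) x5281) x14029) x8197) x11113) x9169) x9817) x9601) x9673) x9661) x9653) x29337) (Nat.mul x9655 (nat_lit 2)))
    (Nat.sub (Nat.sub (Nat.add (Nat.add (Nat.add (Nat.add (Nat.add (Nat.add (Nat.add (Nat.add (Nat.add (Nat.add (Nat.add (Nat.add (Nat.add C x22781) x5285) x14033) x8201) x11117) x9173) x9821) x9605) x9677) x9653) x9661) x29341) (Nat.mul (e (nat_lit 9659)) ap)) (Nat.mul x9659 (nat_lit 6))) (Nat.mul (e (nat_lit 9659)) an))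
    (Nat.sub (Nat.add (Nat.add (Nat.add (Nat.add (Nat.add (Nat.add (Nat.add (Nat.add (Nat.add (Nat.add (Nat.add (Nat.add (Nat.add C x22783) x5287) x14035) x8203) x11119) x9175) x9823) x9607) x9679) x9655) x9659) x9663) x29343) (Nat.mul x9661 (nat_lit 3)))
    (Nat.sub (Nat.add (Nat.add (Nat.add (Nat.add (Nat.add (Nat.add (Nat.add (Nat.add (Nat.add (Nat.add C x22785) x5289) x14037) x8205) x11121) x9177) x9825) x9609) x9681) x9661) (Nat.mul x9663 (nat_lit 2)))
    (Nat.sub (Nat.sub (Nat.add (Nat.add (Nat.add (Nat.add (Nat.add (Nat.add (Nat.add (Nat.add (Nat.add (Nat.add (Nat.add (Nat.add (Nat.add C x22793) x5297) x14045) x8213) x11129) x9185) x9833) x9617) x9653) x9677) x9673) x29353) (Nat.mul (e (nat_lit 9671)) ap)) (Nat.mul x9671 (nat_lit 2))) (Nat.mul (e (nat_lit 9671)) an))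
    (Nat.sub (Nat.add (Nat.add (Nat.add (Nat.add (Nat.add (Nat.add (Nat.add (Nat.add (Nat.add (Nat.add (Nat.add (Nat.add C x22795) x5299) x14047) x8215) x11131) x9187) x9835) x9619) x9655) x9679) x9671) x29355) (Nat.mul x9673 (nat_lit 2)))
    (Nat.sub (Nat.add (Nat.add (Nat.add (Nat.add (Nat.add (Nat.add (Nat.add (Nat.add (Nat.add (Nat.add (Nat.add (Nat.add (Nat.add C x22799) x5303) x14051) x8219) x11135) x9191) x9839) x9623) x9659) x9695) x9671) x9679) x29359) (Nat.mul x9677 (nat_lit 3)))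
    (Nat.sub (Nat.add (Nat.add (Nat.add (Nat.add (Nat.add (Nat.add (Nat.add (Nat.add (Nat.add (Nat.add (Nat.add (Nat.add (Nat.add (Nat.add (Nat.add C x22801) x5305) x14053) x8221) x11137) x9193) x9841) x9625) x9661) x9697) x9673) x9685) x9677) x9681) x29361) x9679)
    (Nat.sub (Nat.add (Nat.add (Nat.add (Nat.add (Nat.add (Nat.add (Nat.add (Nat.add (Nat.add (Nat.add (Nat.add (Nat.add C x22803) x5307) x14055) x8223) x11139) x9195) x9843) x9627) x9663) x9699) x9687) x9679) x9681)
    (Nat.sub (Nat.add (Nat.add (Nat.add (Nat.add (Nat.add (Nat.add (Nat.add (Nat.add (Nat.add (Nat.add (Nat.add (Nat.add C x22807) x5311) x14059) x8227) x11143) x9199) x9847) x9631) x9703) x9679) x9687) x29367) (Nat.mul x9685 (nat_lit 2)))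
    (Nat.add (Nat.add (Nat.add (Nat.add (Nat.add (Nat.add (Nat.add (Nat.add (Nat.add (Nat.add (Nat.add C x22809) x5313) x14061) x8229) x11145) x9201) x9849) x9633) x9705) x9681) x9685)
    (Nat.sub (Nat.add (Nat.add (Nat.add (Nat.add (Nat.add (Nat.add (Nat.add (Nat.add (Nat.add (Nat.add C x22817) x5321) x14069) x8237) x11153) x9209) x9857) x9677) x9697) x29377) (Nat.mul x9695 (nat_lit 2)))
    (Nat.sub (Nat.add (Nat.add (Nat.add (Nat.add (Nat.add (Nat.add (Nat.add (Nat.add (Nat.add (Nat.add (Nat.add (Nat.add C x22819) x5323) x14071) x8239) x11155) x9211) x9859) x9679) x9703) x9695) x9699) x29379) x9697)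
    (Nat.sub (Nat.add (Nat.add (Nat.add (Nat.add (Nat.add (Nat.add (Nat.add (Nat.add (Nat.add (Nat.add C x22821) x5325) x14073) x8241) x11157) x9213) x9861) x9681) x9705) x9697) (Nat.mul x9699 (nat_lit 2)))
    (Nat.add (Nat.add (Nat.add (Nat.add (Nat.add (Nat.add (Nat.add (Nat.add (Nat.add (Nat.add (Nat.add C x22825) x5329) x14077) x8245) x11161) x9217) x9865) x9685) x9697) x9705) x29385)
    (Nat.add (Nat.add (Nat.add (Nat.add (Nat.add (Nat.add (Nat.add (Nat.add (Nat.add (Nat.add (Nat.add (Nat.add C x9705) x22827) x5331) x14079) x8247) x11163) x9219) x9867) x9687) x9699) x9711) x9703)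
    (Nat.add (Nat.add (Nat.add (Nat.add (Nat.add (Nat.add (Nat.add (Nat.add (Nat.add C (Nat.mul x9711 (nat_lit 2))) x22833) x5337) x14085) x8253) x11169) x9225) x9873) x9705)
    (Nat.add (Nat.add (Nat.add (Nat.add (Nat.add (Nat.add (Nat.add (Nat.add (Nat.add (Nat.add (Nat.add (Nat.add C x9737) x22859) x5363) x14111) x8279) x11195) x9251) x10223) x9575) x9755) x9743) x29419)
    (Nat.sub (Nat.add (Nat.add (Nat.add (Nat.add (Nat.add (Nat.add (Nat.add (Nat.add (Nat.add (Nat.add (Nat.add (Nat.add C x22865) x5369) x14117) x8285) x11201) x9257) x10229) x9581) x9761) x9737) x9745) x29425) x9743)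
    (Nat.add (Nat.add (Nat.add (Nat.add (Nat.add (Nat.add (Nat.add (Nat.add (Nat.add (Nat.add (Nat.add (Nat.add C x9745) x22867) x5371) x14119) x8287) x11203) x9259) x10231) x9583) x9763) x9743) x29427)
    (Nat.sub (Nat.add (Nat.add (Nat.add (Nat.add (Nat.add (Nat.add (Nat.add (Nat.add (Nat.add (Nat.add (Nat.add (Nat.add C x22877) x5381) x14129) x8297) x11213) x9269) x10241) x9593) x9809) x9737) x9761) x29437) x9755)
    (Nat.sub (Nat.sub (Nat.add (Nat.add (Nat.add (Nat.add (Nat.add (Nat.add (Nat.add (Nat.add (Nat.add (Nat.add (Nat.add (Nat.add (Nat.add (Nat.add (Nat.add (Nat.add C x22883) x5387) x14135) x8303) x11219) x9275) x10247) x9599) x9815) x9743) x9779) x9755) x9767) x9763) x29443) (Nat.mul (e (nat_lit 9761)) ap)) x9761) (Nat.mul (e (nat_lit 9761)) an))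
    (Nat.sub (Nat.add (Nat.add (Nat.add (Nat.add (Nat.add (Nat.add (Nat.add (Nat.add (Nat.add (Nat.add (Nat.add (Nat.add (Nat.add (Nat.add (Nat.add C x22885) x5389) x14137) x8305) x11221) x9277) x10249) x9601) x9817) x9745) x9781) x9769) x9761) x29445) (Nat.mul (e (nat_lit 9763)) ap)) (Nat.mul (e (nat_lit 9763)) an))
    (Nat.sub (Nat.sub (Nat.add (Nat.add (Nat.add (Nat.add (Nat.add (Nat.add (Nat.add (Nat.add (Nat.add (Nat.add (Nat.add (Nat.add (Nat.add (Nat.add C x22889) x5393) x14141) x8309) x11225) x9281) x10253) x9605) x9821) x9785) x9761) x9769) x29449) (Nat.mul (e (nat_lit 9767)) ap)) (Nat.mul x9767 (nat_lit 3))) (Nat.mul (e (nat_lit 9767)) an))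
    (Nat.add (Nat.add (Nat.add (Nat.add (Nat.add (Nat.add (Nat.add (Nat.add (Nat.add (Nat.add (Nat.add (Nat.add (Nat.add (Nat.add C x22891) x5395) x14143) x8311) x11227) x9283) x10255) x9607) x9823) x9787) x9763) x9767) x9771) x29451)
    (Nat.add (Nat.add (Nat.add (Nat.add (Nat.add (Nat.add (Nat.add (Nat.add (Nat.add (Nat.add (Nat.add (Nat.add C x9771) x22893) x5397) x14145) x8313) x11229) x9285) x10257) x9609) x9825) x9789) x9769)
    (Nat.sub (Nat.sub (Nat.add (Nat.add (Nat.add (Nat.add (Nat.add (Nat.add (Nat.add (Nat.add (Nat.add (Nat.add (Nat.add (Nat.add (Nat.add (Nat.add C x22901) x5405) x14153) x8321) x11237) x9293) x10265) x9617) x9833) x9761) x9785) x9781) x29461) (Nat.mul (e (nat_lit 9779)) ap)) (Nat.mul x9779 (nat_lit 3))) (Nat.mul (e (nat_lit 9779)) an))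
    (Nat.sub (Nat.add (Nat.add (Nat.add (Nat.add (Nat.add (Nat.add (Nat.add (Nat.add (Nat.add (Nat.add (Nat.add (Nat.add (Nat.add C x22903) x5407) x14155) x8323) x11239) x9295) x10267) x9619) x9835) x9763) x9787) x9779) x29463) (Nat.mul x9781 (nat_lit 3)))
    (Nat.sub (Nat.add (Nat.add (Nat.add (Nat.add (Nat.add (Nat.add (Nat.add (Nat.add (Nat.add (Nat.add (Nat.add (Nat.add (Nat.add C x22907) x5411) x14159) x8327) x11243) x9299) x10271) x9623) x9839) x9767) x9779) x9787) x29467) (Nat.mul x9785 (nat_lit 3)))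
    (Nat.sub (Nat.add (Nat.add (Nat.add (Nat.add (Nat.add (Nat.add (Nat.add (Nat.add (Nat.add (Nat.add (Nat.add (Nat.add (Nat.add (Nat.add (Nat.add C x22909) x5413) x14161) x8329) x11245) x9301) x10273) x9625) x9841) x9769) x9781) x9793) x9785) x9789) x29469) x9787)
    (Nat.sub (Nat.add (Nat.add (Nat.add (Nat.add (Nat.add (Nat.add (Nat.add (Nat.add (Nat.add (Nat.add (Nat.add (Nat.add C x22911) x5415) x14163) x8331) x11247) x9303) x10275) x9627) x9843) x9771) x9795) x9787) x9789)
    (Nat.sub (Nat.add (Nat.add (Nat.add (Nat.add (Nat.add (Nat.add (Nat.add (Nat.add (Nat.add (Nat.add (Nat.add (Nat.add C x22915) x5419) x14167) x8335) x11251) x9307) x10279) x9631) x9847) x9787) x9795) x29475) x9793)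
    (Nat.add (Nat.add (Nat.add (Nat.add (Nat.add (Nat.add (Nat.add (Nat.add (Nat.add (Nat.add (Nat.add (Nat.add C x9795) x22917) x5421) x14169) x8337) x11253) x9309) x10281) x9633) x9849) x9789) x9793)
    (Nat.add (Nat.add (Nat.add (Nat.add (Nat.add (Nat.add (Nat.add (Nat.add (Nat.add (Nat.add (Nat.add (Nat.add C x22931) x5435) x14183) x8351) x11267) x9323) x10295) x9647) x9971) x9755) x9815) x29491)
    (Nat.sub (Nat.sub (Nat.add (Nat.add (Nat.add (Nat.add (Nat.add (Nat.add (Nat.add (Nat.add (Nat.add (Nat.add (Nat.add (Nat.add (Nat.add (Nat.add (Nat.add (Nat.add C x22937) x5441) x14189) x8357) x11273) x9329) x10301) x9653) x9977) x9761) x9833) x9809) x9821) x9817) x29497) (Nat.mul (e (nat_lit 9815)) ap)) x9815) (Nat.mul (e (nat_lit 9815)) an))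
    (Nat.sub (Nat.add (Nat.add (Nat.add (Nat.add (Nat.add (Nat.add (Nat.add (Nat.add (Nat.add (Nat.add (Nat.add (Nat.add (Nat.add (Nat.add (Nat.add C x22939) x5443) x14191) x8359) x11275) x9331) x10303) x9655) x9979) x9763) x9835) x9823) x9815) x29499) (Nat.mul (e (nat_lit 9817)) ap)) (Nat.mul (e (nat_lit 9817)) an))
    (Nat.sub (Nat.sub (Nat.add (Nat.add (Nat.add (Nat.add (Nat.add (Nat.add (Nat.add (Nat.add (Nat.add (Nat.add (Nat.add (Nat.add (Nat.add (Nat.add (Nat.add C x22943) x5447) x14195) x8363) x11279) x9335) x10307) x9659) x9983) x9767) x9839) x9815) x9823) x29503) (Nat.mul (e (nat_lit 9821)) ap)) (Nat.mul x9821 (nat_lit 4))) (Nat.mul (e (nat_lit 9821)) an))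
    (Nat.sub (Nat.add (Nat.add (Nat.add (Nat.add (Nat.add (Nat.add (Nat.add (Nat.add (Nat.add (Nat.add (Nat.add (Nat.add (Nat.add (Nat.add (Nat.add C x22945) x5449) x14197) x8365) x11281) x9337) x10309) x9661) x9985) x9769) x9841) x9817) x9821) x9825) x29505) x9823)
    (Nat.add (Nat.add (Nat.add (Nat.add (Nat.add (Nat.add (Nat.add (Nat.add (Nat.add (Nat.add (Nat.add (Nat.add C x22947) x5451) x14199) x8367) x11283) x9339) x10311) x9663) x9987) x9771) x9843) x9823)
    (Nat.sub (Nat.sub (Nat.add (Nat.add (Nat.add (Nat.add (Nat.add (Nat.add (Nat.add (Nat.add (Nat.add (Nat.add (Nat.add (Nat.add (Nat.add (Nat.add (Nat.add (Nat.add C x22955) x5459) x14207) x8375) x11291) x9347) x10319) x9671) x9995) x9779) x9887) x9815) x9839) x9835) x29515) (Nat.mul (e (nat_lit 9833)) ap)) x9833) (Nat.mul (e (nat_lit 9833)) an))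
    (Nat.sub (Nat.add (Nat.add (Nat.add (Nat.add (Nat.add (Nat.add (Nat.add (Nat.add (Nat.add (Nat.add (Nat.add (Nat.add (Nat.add (Nat.add (Nat.add C x22957) x5461) x14209) x8377) x11293) x9349) x10321) x9673) x9997) x9781) x9889) x9817) x9841) x9833) x29517) x9835)
    (Nat.sub (Nat.sub (Nat.add (Nat.add (Nat.add (Nat.add (Nat.add (Nat.add (Nat.add (Nat.add (Nat.add (Nat.add (Nat.add (Nat.add (Nat.add (Nat.add (Nat.add (Nat.add (Nat.add C x22961) x5465) x14213) x8381) x11297) x9353) x10325) x9677) x10001) x9785) x9893) x9821) x9857) x9833) x9841) x29521) (Nat.mul (e (nat_lit 9839)) ap)) (Nat.mul x9839 (nat_lit 2))) (Nat.mul (e (nat_lit 9839)) an))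
    (Nat.sub (Nat.add (Nat.add (Nat.add (Nat.add (Nat.add (Nat.add (Nat.add (Nat.add (Nat.add (Nat.add (Nat.add (Nat.add (Nat.add (Nat.add (Nat.add (Nat.add (Nat.add (Nat.add (Nat.add C x22963) x5467) x14215) x8383) x11299) x9355) x10327) x9679) x10003) x9787) x9895) x9823) x9859) x9835) x9847) x9839) x9843) x29523) (Nat.mul (e (nat_lit 9841)) ap)) (Nat.mul (e (nat_lit 9841)) an))
    (Nat.add (Nat.add (Nat.add (Nat.add (Nat.add (Nat.add (Nat.add (Nat.add (Nat.add (Nat.add (Nat.add (Nat.add (Nat.add (Nat.add (Nat.add C x22965) x5469) x14217) x8385) x11301) x9357) x10329) x9681) x10005) x9789) x9897) x9825) x9861) x9849) x9841)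
    (Nat.sub (Nat.add (Nat.add (Nat.add (Nat.add (Nat.add (Nat.add (Nat.add (Nat.add (Nat.add (Nat.add (Nat.add (Nat.add (Nat.add (Nat.add (Nat.add C x22969) x5473) x14221) x8389) x11305) x9361) x10333) x9685) x10009) x9793) x9901) x9865) x9841) x9849) x29529) x9847)
    (Nat.add (Nat.add (Nat.add (Nat.add (Nat.add (Nat.add (Nat.add (Nat.add (Nat.add (Nat.add (Nat.add (Nat.add (Nat.add (Nat.add (Nat.add C x9849) x22971) x5475) x14223) x8391) x11307) x9363) x10335) x9687) x10011) x9795) x9903) x9867) x9843) x9847)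
    (Nat.sub (Nat.add (Nat.add (Nat.add (Nat.add (Nat.add (Nat.add (Nat.add (Nat.add (Nat.add (Nat.add (Nat.add (Nat.add (Nat.add C x22979) x5483) x14231) x8399) x11315) x9371) x10343) x9695) x10019) x9911) x9839) x9859) x29539) (Nat.mul x9857 (nat_lit 2)))
    (Nat.sub (Nat.add (Nat.add (Nat.add (Nat.add (Nat.add (Nat.add (Nat.add (Nat.add (Nat.add (Nat.add (Nat.add (Nat.add (Nat.add (Nat.add (Nat.add C x22981) x5485) x14233) x8401) x11317) x9373) x10345) x9697) x10021) x9913) x9841) x9865) x9857) x9861) x29541) x9859)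
    (Nat.sub (Nat.add (Nat.add (Nat.add (Nat.add (Nat.add (Nat.add (Nat.add (Nat.add (Nat.add (Nat.add (Nat.add (Nat.add (Nat.add C x22983) x5487) x14235) x8403) x11319) x9375) x10347) x9699) x10023) x9915) x9843) x9867) x9859) (Nat.mul x9861 (nat_lit 2)))
    (Nat.add (Nat.add (Nat.add (Nat.add (Nat.add (Nat.add (Nat.add (Nat.add (Nat.add (Nat.add (Nat.add (Nat.add (Nat.add (Nat.add C x22987) x5491) x14239) x8407) x11323) x9379) x10351) x9703) x10027) x9919) x9847) x9859) x9867) x29547)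
    (Nat.add (Nat.add (Nat.add (Nat.add (Nat.add (Nat.add (Nat.add (Nat.add (Nat.add (Nat.add (Nat.add (Nat.add (Nat.add (Nat.add (Nat.add C x9867) x22989) x5493) x14241) x8409) x11325) x9381) x10353) x9705) x10029) x9921) x9849) x9861) x9873) x9865)
    (Nat.add (Nat.add (Nat.add (Nat.add (Nat.add (Nat.add (Nat.add (Nat.add (Nat.add (Nat.add (Nat.add (Nat.add C (Nat.mul x9873 (nat_lit 2))) x22995) x5499) x14247) x8415) x11331) x9387) x10359) x9711) x10035) x9927) x9867)
    (Nat.sub (Nat.add (Nat.add (Nat.add (Nat.add (Nat.add (Nat.add (Nat.add (Nat.add (Nat.add (Nat.add (Nat.add (Nat.add C x23009) x5513) x14261) x8429) x11345) x9401) x10373) x10049) x9833) x9893) x9889) x29569) x9887)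
    (Nat.sub (Nat.add (Nat.add (Nat.add (Nat.add (Nat.add (Nat.add (Nat.add (Nat.add (Nat.add (Nat.add (Nat.add (Nat.add C x23011) x5515) x14263) x8431) x11347) x9403) x10375) x10051) x9835) x9895) x9887) x29571) x9889)
    (Nat.sub (Nat.add (Nat.add (Nat.add (Nat.add (Nat.add (Nat.add (Nat.add (Nat.add (Nat.add (Nat.add (Nat.add (Nat.add (Nat.add C x23015) x5519) x14267) x8435) x11351) x9407) x10379) x10055) x9839) x9911) x9887) x9895) x29575) (Nat.mul x9893 (nat_lit 3)))
    (Nat.sub (Nat.add (Nat.add (Nat.add (Nat.add (Nat.add (Nat.add (Nat.add (Nat.add (Nat.add (Nat.add (Nat.add (Nat.add (Nat.add (Nat.add (Nat.add C x23017) x5521) x14269) x8437) x11353) x9409) x10381) x10057) x9841) x9913) x9889) x9901) x9893) x9897) x29577) x9895)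
    (Nat.sub (Nat.add (Nat.add (Nat.add (Nat.add (Nat.add (Nat.add (Nat.add (Nat.add (Nat.add (Nat.add (Nat.add (Nat.add C x23019) x5523) x14271) x8439) x11355) x9411) x10383) x10059) x9843) x9915) x9903) x9895) x9897)
    (Nat.sub (Nat.add (Nat.add (Nat.add (Nat.add (Nat.add (Nat.add (Nat.add (Nat.add (Nat.add (Nat.add (Nat.add (Nat.add (Nat.add C x23023) x5527) x14275) x8443) x11359) x9415) x10387) x10063) x9847) x9919) x9895) x9903) x29583) (Nat.mul x9901 (nat_lit 3)))
    (Nat.sub (Nat.add (Nat.add (Nat.add (Nat.add (Nat.add (Nat.add (Nat.add (Nat.add (Nat.add (Nat.add (Nat.add (Nat.add C x23025) x5529) x14277) x8445) x11361) x9417) x10389) x10065) x9849) x9921) x9897) x9901) x9903)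
    (Nat.sub (Nat.add (Nat.add (Nat.add (Nat.add (Nat.add (Nat.add (Nat.add (Nat.add (Nat.add (Nat.add (Nat.add (Nat.add C x23033) x5537) x14285) x8453) x11369) x9425) x10397) x10073) x9857) x9893) x9913) x29593) x9911)
    (Nat.add (Nat.add (Nat.add (Nat.add (Nat.add (Nat.add (Nat.add (Nat.add (Nat.add (Nat.add (Nat.add (Nat.add (Nat.add (Nat.add C x23035) x5539) x14287) x8455) x11371) x9427) x10399) x10075) x9859) x9895) x9919) x9911) x9915) x29595)
    (Nat.sub (Nat.add (Nat.add (Nat.add (Nat.add (Nat.add (Nat.add (Nat.add (Nat.add (Nat.add (Nat.add (Nat.add (Nat.add C x23037) x5541) x14289) x8457) x11373) x9429) x10401) x10077) x9861) x9897) x9921) x9913) x9915)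
    (Nat.add (Nat.add (Nat.add (Nat.add (Nat.add (Nat.add (Nat.add (Nat.add (Nat.add (Nat.add (Nat.add (Nat.add (Nat.add (Nat.add C x23041) x5545) x14293) x8461) x11377) x9433) x10405) x10081) x9865) x9901) x9937) x9913) x9921) x29601)
    (Nat.add (Nat.add (Nat.add (Nat.add (Nat.add (Nat.add (Nat.add (Nat.add (Nat.add (Nat.add (Nat.add (Nat.add (Nat.add (Nat.add (Nat.add C x9921) x23043) x5547) x14295) x8463) x11379) x9435) x10407) x10083) x9867) x9903) x9939) x9915) x9927) x9919)
    (Nat.add (Nat.add (Nat.add (Nat.add (Nat.add (Nat.add (Nat.add (Nat.add (Nat.add (Nat.add (Nat.add (Nat.add C x9927) x23049) x5553) x14301) x8469) x11385) x9441) x10413) x10089) x9873) x9945) x9921)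
    (Nat.add (Nat.add (Nat.add (Nat.add (Nat.add (Nat.add (Nat.add (Nat.add (Nat.add (Nat.add (Nat.add (Nat.add C x9937) x23059) x5563) x14311) x8479) x11395) x9451) x10423) x10099) x9919) x9939) x29619)
    (Nat.add (Nat.add (Nat.add (Nat.add (Nat.add (Nat.add (Nat.add (Nat.add (Nat.add (Nat.add (Nat.add (Nat.add C x9939) x23061) x5565) x14313) x8481) x11397) x9453) x10425) x10101) x9921) x9945) x9937)
    (Nat.add (Nat.add (Nat.add (Nat.add (Nat.add (Nat.add (Nat.add (Nat.add (Nat.add (Nat.add (Nat.add C (Nat.mul x9945 (nat_lit 3))) x23067) x5571) x14319) x8487) x11403) x9459) x10431) x10107) x9927) x9939)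
    (Nat.add (Nat.add (Nat.add (Nat.add (Nat.add (Nat.add (Nat.add (Nat.add (Nat.add C x23093) x5597) x14345) x8513) x11429) x10457) x9809) x9977) x29653)
    (Nat.sub (Nat.add (Nat.add (Nat.add (Nat.add (Nat.add (Nat.add (Nat.add (Nat.add (Nat.add (Nat.add (Nat.add (Nat.add C x23099) x5603) x14351) x8519) x11435) x10463) x9815) x9995) x9971) x9983) x9979) x29659) x9977)
    (Nat.add (Nat.add (Nat.add (Nat.add (Nat.add (Nat.add (Nat.add (Nat.add (Nat.add (Nat.add (Nat.add C x23101) x5605) x14353) x8521) x11437) x10465) x9817) x9997) x9985) x9977) x29661)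
    (Nat.sub (Nat.add (Nat.add (Nat.add (Nat.add (Nat.add (Nat.add (Nat.add (Nat.add (Nat.add (Nat.add (Nat.add C x23105) x5609) x14357) x8525) x11441) x10469) x9821) x10001) x9977) x9985) x29665) (Nat.mul x9983 (nat_lit 4)))
    (Nat.sub (Nat.add (Nat.add (Nat.add (Nat.add (Nat.add (Nat.add (Nat.add (Nat.add (Nat.add (Nat.add (Nat.add (Nat.add C x23107) x5611) x14359) x8527) x11443) x10471) x9823) x10003) x9979) x9983) x9987) x29667) x9985)
    (Nat.add (Nat.add (Nat.add (Nat.add (Nat.add (Nat.add (Nat.add (Nat.add (Nat.add C x23109) x5613) x14361) x8529) x11445) x10473) x9825) x10005) x9985)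
    (Nat.sub (Nat.add (Nat.add (Nat.add (Nat.add (Nat.add (Nat.add (Nat.add (Nat.add (Nat.add (Nat.add (Nat.add (Nat.add C x23117) x5621) x14369) x8537) x11453) x10481) x9833) x10049) x9977) x10001) x9997) x29677) (Nat.mul x9995 (nat_lit 2)))
    (Nat.sub (Nat.add (Nat.add (Nat.add (Nat.add (Nat.add (Nat.add (Nat.add (Nat.add (Nat.add (Nat.add (Nat.add (Nat.add C x23119) x5623) x14371) x8539) x11455) x10483) x9835) x10051) x9979) x10003) x9995) x29679) (Nat.mul x9997 (nat_lit 2)))
    (Nat.sub (Nat.add (Nat.add (Nat.add (Nat.add (Nat.add (Nat.add (Nat.add (Nat.add (Nat.add (Nat.add (Nat.add (Nat.add (Nat.add C x23123) x5627) x14375) x8543) x11459) x10487) x9839) x10055) x9983) x10019) x9995) x10003) x29683) (Nat.mul x10001 (nat_lit 3)))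
    (Nat.sub (Nat.add (Nat.add (Nat.add (Nat.add (Nat.add (Nat.add (Nat.add (Nat.add (Nat.add (Nat.add (Nat.add (Nat.add (Nat.add (Nat.add (Nat.add C x23125) x5629) x14377) x8545) x11461) x10489) x9841) x10057) x9985) x10021) x9997) x10009) x10001) x10005) x29685) x10003)
    (Nat.sub (Nat.add (Nat.add (Nat.add (Nat.add (Nat.add (Nat.add (Nat.add (Nat.add (Nat.add (Nat.add (Nat.add (Nat.add C x23127) x5631) x14379) x8547) x11463) x10491) x9843) x10059) x9987) x10023) x10011) x10003) x10005)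
    (Nat.sub (Nat.add (Nat.add (Nat.add (Nat.add (Nat.add (Nat.add (Nat.add (Nat.add (Nat.add (Nat.add (Nat.add (Nat.add C x23131) x5635) x14383) x8551) x11467) x10495) x9847) x10063) x10027) x10003) x10011) x29691) (Nat.mul x10009 (nat_lit 2)))
    (Nat.add (Nat.add (Nat.add (Nat.add (Nat.add (Nat.add (Nat.add (Nat.add (Nat.add (Nat.add (Nat.add C x23133) x5637) x14385) x8553) x11469) x10497) x9849) x10065) x10029) x10005) x10009)
    (Nat.sub (Nat.add (Nat.add (Nat.add (Nat.add (Nat.add (Nat.add (Nat.add (Nat.add (Nat.add (Nat.add (Nat.add C x23141) x5645) x14393) x8561) x11477) x10505) x9857) x10073) x10001) x10021) x29701) (Nat.mul x10019 (nat_lit 4)))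
    (Nat.sub (Nat.add (Nat.add (Nat.add (Nat.add (Nat.add (Nat.add (Nat.add (Nat.add (Nat.add (Nat.add (Nat.add (Nat.add (Nat.add C x23143) x5647) x14395) x8563) x11479) x10507) x9859) x10075) x10003) x10027) x10019) x10023) x29703) (Nat.mul x10021 (nat_lit 3)))
    (Nat.sub (Nat.add (Nat.add (Nat.add (Nat.add (Nat.add (Nat.add (Nat.add (Nat.add (Nat.add (Nat.add (Nat.add C x23145) x5649) x14397) x8565) x11481) x10509) x9861) x10077) x10005) x10029) x10021) (Nat.mul x10023 (nat_lit 4)))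
    (Nat.sub (Nat.add (Nat.add (Nat.add (Nat.add (Nat.add (Nat.add (Nat.add (Nat.add (Nat.add (Nat.add (Nat.add (Nat.add C x23149) x5653) x14401) x8569) x11485) x10513) x9865) x10081) x10009) x10021) x10029) x29709) (Nat.mul x10027 (nat_lit 2)))
    (Nat.sub (Nat.add (Nat.add (Nat.add (Nat.add (Nat.add (Nat.add (Nat.add (Nat.add (Nat.add (Nat.add (Nat.add (Nat.add C x23151) x5655) x14403) x8571) x11487) x10515) x9867) x10083) x10011) x10023) x10035) x10027) x10029)
    (Nat.add (Nat.add (Nat.add (Nat.add (Nat.add (Nat.add (Nat.add (Nat.add (Nat.add C x23157) x5661) x14409) x8577) x11493) x10521) x9873) x10089) x10029)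
    (Nat.add (Nat.add (Nat.add (Nat.add (Nat.add (Nat.add (Nat.add (Nat.add (Nat.add (Nat.add (Nat.add C x23171) x5675) x14423) x8591) x11507) x10535) x9887) x9995) x10055) x10051) x29731)
    (Nat.add (Nat.add (Nat.add (Nat.add (Nat.add (Nat.add (Nat.add (Nat.add (Nat.add (Nat.add (Nat.add C x23173) x5677) x14425) x8593) x11509) x10537) x9889) x9997) x10057) x10049) x29733)
    (Nat.sub (Nat.add (Nat.add (Nat.add (Nat.add (Nat.add (Nat.add (Nat.add (Nat.add (Nat.add (Nat.add (Nat.add (Nat.add C x23177) x5681) x14429) x8597) x11513) x10541) x9893) x10001) x10073) x10049) x10057) x29737) (Nat.mul x10055 (nat_lit 2)))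
    (Nat.add (Nat.add (Nat.add (Nat.add (Nat.add (Nat.add (Nat.add (Nat.add (Nat.add (Nat.add (Nat.add (Nat.add (Nat.add (Nat.add C x23179) x5683) x14431) x8599) x11515) x10543) x9895) x10003) x10075) x10051) x10063) x10055) x10059) x29739)
    (Nat.add (Nat.add (Nat.add (Nat.add (Nat.add (Nat.add (Nat.add (Nat.add (Nat.add (Nat.add (Nat.add C x23181) x5685) x14433) x8601) x11517) x10545) x9897) x10005) x10077) x10065) x10057)
    (Nat.sub (Nat.add (Nat.add (Nat.add (Nat.add (Nat.add (Nat.add (Nat.add (Nat.add (Nat.add (Nat.add (Nat.add (Nat.add C x23185) x5689) x14437) x8605) x11521) x10549) x9901) x10009) x10081) x10057) x10065) x29745) (Nat.mul x10063 (nat_lit 2)))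
    (Nat.add (Nat.add (Nat.add (Nat.add (Nat.add (Nat.add (Nat.add (Nat.add (Nat.add (Nat.add (Nat.add C x23187) x5691) x14439) x8607) x11523) x10551) x9903) x10011) x10083) x10059) x10063)
    (Nat.sub (Nat.add (Nat.add (Nat.add (Nat.add (Nat.add (Nat.add (Nat.add (Nat.add (Nat.add (Nat.add (Nat.add (Nat.add C x23195) x5699) x14447) x8615) x11531) x10559) x9911) x10019) x10127) x10055) x10075) x29755) x10073)
    (Nat.add (Nat.add (Nat.add (Nat.add (Nat.add (Nat.add (Nat.add (Nat.add (Nat.add (Nat.add (Nat.add (Nat.add (Nat.add (Nat.add C x23197) x5701) x14449) x8617) x11533) x10561) x9913) x10021) x10129) x10057) x10081) x10073) x10077) x29757)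
    (Nat.sub (Nat.add (Nat.add (Nat.add (Nat.add (Nat.add (Nat.add (Nat.add (Nat.add (Nat.add (Nat.add (Nat.add (Nat.add C x23199) x5703) x14451) x8619) x11535) x10563) x9915) x10023) x10131) x10059) x10083) x10075) x10077)
    (Nat.add (Nat.add (Nat.add (Nat.add (Nat.add (Nat.add (Nat.add (Nat.add (Nat.add (Nat.add (Nat.add (Nat.add (Nat.add (Nat.add C x23203) x5707) x14455) x8623) x11539) x10567) x9919) x10027) x10135) x10063) x10099) x10075) x10083) x29763)
    (Nat.add (Nat.add (Nat.add (Nat.add (Nat.add (Nat.add (Nat.add (Nat.add (Nat.add (Nat.add (Nat.add (Nat.add (Nat.add (Nat.add (Nat.add C x10083) x23205) x5709) x14457) x8625) x11541) x10569) x9921) x10029) x10137) x10065) x10101) x10077) x10089) x10081)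
    (Nat.add (Nat.add (Nat.add (Nat.add (Nat.add (Nat.add (Nat.add (Nat.add (Nat.add (Nat.add (Nat.add (Nat.add C x10089) x23211) x5715) x14463) x8631) x11547) x10575) x9927) x10035) x10143) x10107) x10083)
    (Nat.add (Nat.add (Nat.add (Nat.add (Nat.add (Nat.add (Nat.add (Nat.add (Nat.add (Nat.add (Nat.add C x23221) x5725) x14473) x8641) x11557) x10585) x9937) x10153) x10081) x10101) x29781)
    (Nat.add (Nat.add (Nat.add (Nat.add (Nat.add (Nat.add (Nat.add (Nat.add (Nat.add (Nat.add (Nat.add C x23223) x5727) x14475) x8643) x11559) x10587) x9939) x10155) x10083) x10107) x10099)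
    (Nat.add (Nat.add (Nat.add (Nat.add (Nat.add (Nat.add (Nat.add (Nat.add (Nat.add (Nat.add (Nat.add C (Nat.mul x10107 (nat_lit 2))) x23229) x5733) x14481) x8649) x11565) x10593) x9945) x10161) x10089) x10101)
    (Nat.add (Nat.add (Nat.add (Nat.add (Nat.add (Nat.add (Nat.add (Nat.add (Nat.add C x23249) x5753) x14501) x8669) x11585) x10613) x10073) x10129) x29809)
    (Nat.add (Nat.add (Nat.add (Nat.add (Nat.add (Nat.add (Nat.add (Nat.add (Nat.add (Nat.add (Nat.add (Nat.add C x10129) x23251) x5755) x14503) x8671) x11587) x10615) x10075) x10135) x10127) x10131) x29811)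
    (Nat.add (Nat.add (Nat.add (Nat.add (Nat.add (Nat.add (Nat.add (Nat.add (Nat.add C x23253) x5757) x14505) x8673) x11589) x10617) x10077) x10137) x10129)
    (Nat.add (Nat.add (Nat.add (Nat.add (Nat.add (Nat.add (Nat.add (Nat.add (Nat.add (Nat.add (Nat.add C x23257) x5761) x14509) x8677) x11593) x10621) x10081) x10153) x10129) x10137) x29817)
    (Nat.add (Nat.add (Nat.add (Nat.add (Nat.add (Nat.add (Nat.add (Nat.add (Nat.add (Nat.add (Nat.add (Nat.add C x10137) x23259) x5763) x14511) x8679) x11595) x10623) x10083) x10155) x10131) x10143) x10135)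
    (Nat.add (Nat.add (Nat.add (Nat.add (Nat.add (Nat.add (Nat.add (Nat.add (Nat.add C x23265) x5769) x14517) x8685) x11601) x10629) x10089) x10161) x10137)
    (Nat.add (Nat.add (Nat.add (Nat.add (Nat.add (Nat.add (Nat.add (Nat.add (Nat.add (Nat.add (Nat.add C (Nat.mul x10153 (nat_lit 2))) x23275) x5779) x14527) x8695) x11611) x10639) x10099) x10135) x10155) x29835)
    (Nat.add (Nat.add (Nat.add (Nat.add (Nat.add (Nat.add (Nat.add (Nat.add (Nat.add (Nat.add (Nat.add C (Nat.mul x10155 (nat_lit 2))) x23277) x5781) x14529) x8697) x11613) x10641) x10101) x10137) x10161) x10153)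
    (Nat.add (Nat.add (Nat.add (Nat.add (Nat.add (Nat.add (Nat.add (Nat.add (Nat.add (Nat.add (Nat.add C (Nat.mul x10161 (nat_lit 3))) x23283) x5787) x14535) x8703) x11619) x10647) x10107) x10143) x10179) x10155)
    (Nat.add (Nat.add (Nat.add (Nat.add (Nat.add (Nat.add (Nat.add (Nat.add C (Nat.mul x10179 (nat_lit 4))) x23301) x5805) x14553) x8721) x11637) x10665) x10161)
    (Nat.add (Nat.add (Nat.add (Nat.add (Nat.add (Nat.add (Nat.add (Nat.add (Nat.add C x10223) x23345) x5849) x14597) x11681) x9737) x10241) x10229) x29905)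
    (Nat.sub (Nat.add (Nat.add (Nat.add (Nat.add (Nat.add (Nat.add (Nat.add (Nat.add (Nat.add C x23351) x5855) x14603) x11687) x9743) x10247) x10223) x10231) x29911) x10229)
    (Nat.add (Nat.add (Nat.add (Nat.add (Nat.add (Nat.add (Nat.add (Nat.add (Nat.add C x10231) x23353) x5857) x14605) x11689) x9745) x10249) x10229) x29913)
    (Nat.sub (Nat.add (Nat.add (Nat.add (Nat.add (Nat.add (Nat.add (Nat.add (Nat.add (Nat.add C x23363) x5867) x14615) x11699) x9755) x10295) x10223) x10247) x29923) x10241)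
    (Nat.sub (Nat.add (Nat.add (Nat.add (Nat.add (Nat.add (Nat.add (Nat.add (Nat.add (Nat.add (Nat.add (Nat.add (Nat.add C x23369) x5873) x14621) x11705) x9761) x10301) x10229) x10265) x10241) x10253) x10249) x29929) x10247)
    (Nat.add (Nat.add (Nat.add (Nat.add (Nat.add (Nat.add (Nat.add (Nat.add (Nat.add (Nat.add (Nat.add C x23371) x5875) x14623) x11707) x9763) x10303) x10231) x10267) x10255) x10247) x29931)
    (Nat.sub (Nat.add (Nat.add (Nat.add (Nat.add (Nat.add (Nat.add (Nat.add (Nat.add (Nat.add (Nat.add C x23375) x5879) x14627) x11711) x9767) x10307) x10271) x10247) x10255) x29935) (Nat.mul x10253 (nat_lit 3)))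
    (Nat.add (Nat.add (Nat.add (Nat.add (Nat.add (Nat.add (Nat.add (Nat.add (Nat.add (Nat.add (Nat.add C x23377) x5881) x14629) x11713) x9769) x10309) x10273) x10249) x10253) x10257) x29937)
    (Nat.add (Nat.add (Nat.add (Nat.add (Nat.add (Nat.add (Nat.add (Nat.add (Nat.add C x10257) x23379) x5883) x14631) x11715) x9771) x10311) x10275) x10255)
    (Nat.sub (Nat.add (Nat.add (Nat.add (Nat.add (Nat.add (Nat.add (Nat.add (Nat.add (Nat.add (Nat.add C x23387) x5891) x14639) x11723) x9779) x10319) x10247) x10271) x10267) x29947) (Nat.mul x10265 (nat_lit 3)))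
    (Nat.sub (Nat.add (Nat.add (Nat.add (Nat.add (Nat.add (Nat.add (Nat.add (Nat.add (Nat.add (Nat.add C x23389) x5893) x14641) x11725) x9781) x10321) x10249) x10273) x10265) x29949) (Nat.mul x10267 (nat_lit 3)))
    (Nat.sub (Nat.add (Nat.add (Nat.add (Nat.add (Nat.add (Nat.add (Nat.add (Nat.add (Nat.add (Nat.add C x23393) x5897) x14645) x11729) x9785) x10325) x10253) x10265) x10273) x29953) (Nat.mul x10271 (nat_lit 3)))
    (Nat.sub (Nat.add (Nat.add (Nat.add (Nat.add (Nat.add (Nat.add (Nat.add (Nat.add (Nat.add (Nat.add (Nat.add (Nat.add C x23395) x5899) x14647) x11731) x9787) x10327) x10255) x10267) x10279) x10271) x10275) x29955) x10273)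
    (Nat.sub (Nat.add (Nat.add (Nat.add (Nat.add (Nat.add (Nat.add (Nat.add (Nat.add (Nat.add C x23397) x5901) x14649) x11733) x9789) x10329) x10257) x10281) x10273) x10275)
    (Nat.sub (Nat.add (Nat.add (Nat.add (Nat.add (Nat.add (Nat.add (Nat.add (Nat.add (Nat.add C x23401) x5905) x14653) x11737) x9793) x10333) x10273) x10281) x29961) x10279)
    (Nat.add (Nat.add (Nat.add (Nat.add (Nat.add (Nat.add (Nat.add (Nat.add (Nat.add C x10281) x23403) x5907) x14655) x11739) x9795) x10335) x10275) x10279)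
    (Nat.sub (Nat.add (Nat.add (Nat.add (Nat.add (Nat.add (Nat.add (Nat.add (Nat.add (Nat.add C x23417) x5921) x14669) x11753) x9809) x10457) x10241) x10301) x29977) x10295)
    (Nat.sub (Nat.add (Nat.add (Nat.add (Nat.add (Nat.add (Nat.add (Nat.add (Nat.add (Nat.add (Nat.add (Nat.add (Nat.add C x23423) x5927) x14675) x11759) x9815) x10463) x10247) x10319) x10295) x10307) x10303) x29983) (Nat.mul x10301 (nat_lit 2)))
    (Nat.sub (Nat.add (Nat.add (Nat.add (Nat.add (Nat.add (Nat.add (Nat.add (Nat.add (Nat.add (Nat.add (Nat.add C x23425) x5929) x14677) x11761) x9817) x10465) x10249) x10321) x10309) x10301) x29985) x10303)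
    (Nat.sub (Nat.add (Nat.add (Nat.add (Nat.add (Nat.add (Nat.add (Nat.add (Nat.add (Nat.add (Nat.add (Nat.add C x23429) x5933) x14681) x11765) x9821) x10469) x10253) x10325) x10301) x10309) x29989) (Nat.mul x10307 (nat_lit 5)))
    (Nat.sub (Nat.add (Nat.add (Nat.add (Nat.add (Nat.add (Nat.add (Nat.add (Nat.add (Nat.add (Nat.add (Nat.add (Nat.add C x23431) x5935) x14683) x11767) x9823) x10471) x10255) x10327) x10303) x10307) x10311) x29991) (Nat.mul x10309 (nat_lit 2)))
    (Nat.sub (Nat.add (Nat.add (Nat.add (Nat.add (Nat.add (Nat.add (Nat.add (Nat.add (Nat.add C x23433) x5937) x14685) x11769) x9825) x10473) x10257) x10329) x10309) x10311)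
    (Nat.sub (Nat.add (Nat.add (Nat.add (Nat.add (Nat.add (Nat.add (Nat.add (Nat.add (Nat.add (Nat.add (Nat.add (Nat.add C x23441) x5945) x14693) x11777) x9833) x10481) x10265) x10373) x10301) x10325) x10321) x30001) (Nat.mul x10319 (nat_lit 2)))
    (Nat.sub (Nat.add (Nat.add (Nat.add (Nat.add (Nat.add (Nat.add (Nat.add (Nat.add (Nat.add (Nat.add (Nat.add (Nat.add C x23443) x5947) x14695) x11779) x9835) x10483) x10267) x10375) x10303) x10327) x10319) x30003) (Nat.mul x10321 (nat_lit 2)))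
    (Nat.sub (Nat.add (Nat.add (Nat.add (Nat.add (Nat.add (Nat.add (Nat.add (Nat.add (Nat.add (Nat.add (Nat.add (Nat.add (Nat.add C x23447) x5951) x14699) x11783) x9839) x10487) x10271) x10379) x10307) x10343) x10319) x10327) x30007) (Nat.mul x10325 (nat_lit 3)))
    (Nat.sub (Nat.add (Nat.add (Nat.add (Nat.add (Nat.add (Nat.add (Nat.add (Nat.add (Nat.add (Nat.add (Nat.add (Nat.add (Nat.add (Nat.add (Nat.add C x23449) x5953) x14701) x11785) x9841) x10489) x10273) x10381) x10309) x10345) x10321) x10333) x10325) x10329) x30009) x10327)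
    (Nat.sub (Nat.add (Nat.add (Nat.add (Nat.add (Nat.add (Nat.add (Nat.add (Nat.add (Nat.add (Nat.add (Nat.add (Nat.add C x23451) x5955) x14703) x11787) x9843) x10491) x10275) x10383) x10311) x10347) x10335) x10327) x10329)
    (Nat.sub (Nat.add (Nat.add (Nat.add (Nat.add (Nat.add (Nat.add (Nat.add (Nat.add (Nat.add (Nat.add (Nat.add (Nat.add C x23455) x5959) x14707) x11791) x9847) x10495) x10279) x10387) x10351) x10327) x10335) x30015) (Nat.mul x10333 (nat_lit 2)))
    (Nat.add (Nat.add (Nat.add (Nat.add (Nat.add (Nat.add (Nat.add (Nat.add (Nat.add (Nat.add (Nat.add C x23457) x5961) x14709) x11793) x9849) x10497) x10281) x10389) x10353) x10329) x10333)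
    (Nat.sub (Nat.add (Nat.add (Nat.add (Nat.add (Nat.add (Nat.add (Nat.add (Nat.add (Nat.add (Nat.add C x23465) x5969) x14717) x11801) x9857) x10505) x10397) x10325) x10345) x30025) (Nat.mul x10343 (nat_lit 3)))
    (Nat.sub (Nat.add (Nat.add (Nat.add (Nat.add (Nat.add (Nat.add (Nat.add (Nat.add (Nat.add (Nat.add (Nat.add (Nat.add C x23467) x5971) x14719) x11803) x9859) x10507) x10399) x10327) x10351) x10343) x10347) x30027) (Nat.mul x10345 (nat_lit 2)))
    (Nat.sub (Nat.add (Nat.add (Nat.add (Nat.add (Nat.add (Nat.add (Nat.add (Nat.add (Nat.add (Nat.add C x23469) x5973) x14721) x11805) x9861) x10509) x10401) x10329) x10353) x10345) (Nat.mul x10347 (nat_lit 3)))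
    (Nat.sub (Nat.add (Nat.add (Nat.add (Nat.add (Nat.add (Nat.add (Nat.add (Nat.add (Nat.add (Nat.add (Nat.add C x23473) x5977) x14725) x11809) x9865) x10513) x10405) x10333) x10345) x10353) x30033) x10351)
    (Nat.add (Nat.add (Nat.add (Nat.add (Nat.add (Nat.add (Nat.add (Nat.add (Nat.add (Nat.add (Nat.add C x23475) x5979) x14727) x11811) x9867) x10515) x10407) x10335) x10347) x10359) x10351)
    (Nat.add (Nat.add (Nat.add (Nat.add (Nat.add (Nat.add (Nat.add (Nat.add (Nat.add C x10359) x23481) x5985) x14733) x11817) x9873) x10521) x10413) x10353)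
    (Nat.sub (Nat.add (Nat.add (Nat.add (Nat.add (Nat.add (Nat.add (Nat.add (Nat.add (Nat.add (Nat.add C x23495) x5999) x14747) x11831) x9887) x10535) x10319) x10379) x10375) x30055) (Nat.mul x10373 (nat_lit 3)))
    (Nat.sub (Nat.add (Nat.add (Nat.add (Nat.add (Nat.add (Nat.add (Nat.add (Nat.add (Nat.add (Nat.add C x23497) x6001) x14749) x11833) x9889) x10537) x10321) x10381) x10373) x30057) (Nat.mul x10375 (nat_lit 3)))
    (Nat.sub (Nat.add (Nat.add (Nat.add (Nat.add (Nat.add (Nat.add (Nat.add (Nat.add (Nat.add (Nat.add (Nat.add C x23501) x6005) x14753) x11837) x9893) x10541) x10325) x10397) x10373) x10381) x30061) (Nat.mul x10379 (nat_lit 5)))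
    (Nat.sub (Nat.add (Nat.add (Nat.add (Nat.add (Nat.add (Nat.add (Nat.add (Nat.add (Nat.add (Nat.add (Nat.add (Nat.add (Nat.add C x23503) x6007) x14755) x11839) x9895) x10543) x10327) x10399) x10375) x10387) x10379) x10383) x30063) (Nat.mul x10381 (nat_lit 3)))
    (Nat.sub (Nat.add (Nat.add (Nat.add (Nat.add (Nat.add (Nat.add (Nat.add (Nat.add (Nat.add (Nat.add C x23505) x6009) x14757) x11841) x9897) x10545) x10329) x10401) x10389) x10381) (Nat.mul x10383 (nat_lit 3)))
    (Nat.sub (Nat.add (Nat.add (Nat.add (Nat.add (Nat.add (Nat.add (Nat.add (Nat.add (Nat.add (Nat.add (Nat.add C x23509) x6013) x14761) x11845) x9901) x10549) x10333) x10405) x10381) x10389) x30069) (Nat.mul x10387 (nat_lit 5)))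
    (Nat.sub (Nat.add (Nat.add (Nat.add (Nat.add (Nat.add (Nat.add (Nat.add (Nat.add (Nat.add (Nat.add C x23511) x6015) x14763) x11847) x9903) x10551) x10335) x10407) x10383) x10387) (Nat.mul x10389 (nat_lit 3)))
    (Nat.sub (Nat.add (Nat.add (Nat.add (Nat.add (Nat.add (Nat.add (Nat.add (Nat.add (Nat.add (Nat.add C x23519) x6023) x14771) x11855) x9911) x10559) x10343) x10379) x10399) x30079) (Nat.mul x10397 (nat_lit 3)))
    (Nat.sub (Nat.add (Nat.add (Nat.add (Nat.add (Nat.add (Nat.add (Nat.add (Nat.add (Nat.add (Nat.add (Nat.add (Nat.add C x23521) x6025) x14773) x11857) x9913) x10561) x10345) x10381) x10405) x10397) x10401) x30081) (Nat.mul x10399 (nat_lit 2)))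
    (Nat.sub (Nat.add (Nat.add (Nat.add (Nat.add (Nat.add (Nat.add (Nat.add (Nat.add (Nat.add (Nat.add C x23523) x6027) x14775) x11859) x9915) x10563) x10347) x10383) x10407) x10399) (Nat.mul x10401 (nat_lit 3)))
    (Nat.sub (Nat.add (Nat.add (Nat.add (Nat.add (Nat.add (Nat.add (Nat.add (Nat.add (Nat.add (Nat.add (Nat.add (Nat.add C x23527) x6031) x14779) x11863) x9919) x10567) x10351) x10387) x10423) x10399) x10407) x30087) (Nat.mul x10405 (nat_lit 2)))
    (Nat.sub (Nat.add (Nat.add (Nat.add (Nat.add (Nat.add (Nat.add (Nat.add (Nat.add (Nat.add (Nat.add (Nat.add (Nat.add C x23529) x6033) x14781) x11865) x9921) x10569) x10353) x10389) x10425) x10401) x10413) x10405) x10407)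
    (Nat.sub (Nat.add (Nat.add (Nat.add (Nat.add (Nat.add (Nat.add (Nat.add (Nat.add (Nat.add C x23535) x6039) x14787) x11871) x9927) x10575) x10359) x10431) x10407) x10413)
    (Nat.sub (Nat.add (Nat.add (Nat.add (Nat.add (Nat.add (Nat.add (Nat.add (Nat.add (Nat.add C x23545) x6049) x14797) x11881) x9937) x10585) x10405) x10425) x30105) x10423)
    (Nat.sub (Nat.add (Nat.add (Nat.add (Nat.add (Nat.add (Nat.add (Nat.add (Nat.add (Nat.add C x23547) x6051) x14799) x11883) x9939) x10587) x10407) x10431) x10423) x10425)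
    (Nat.add (Nat.add (Nat.add (Nat.add (Nat.add (Nat.add (Nat.add (Nat.add (Nat.add C x10431) x23553) x6057) x14805) x11889) x9945) x10593) x10413) x10425)
    (Nat.add (Nat.add (Nat.add (Nat.add (Nat.add (Nat.add (Nat.add (Nat.add (Nat.add C x10457) x23579) x6083) x14831) x11915) x9971) x10295) x10463) x30139)
    (Nat.add (Nat.add (Nat.add (Nat.add (Nat.add (Nat.add (Nat.add (Nat.add (Nat.add (Nat.add (Nat.add C x23585) x6089) x14837) x11921) x9977) x10301) x10481) x10457) x10469) x10465) x30145)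
    (Nat.add (Nat.add (Nat.add (Nat.add (Nat.add (Nat.add (Nat.add (Nat.add (Nat.add (Nat.add (Nat.add C x10465) x23587) x6091) x14839) x11923) x9979) x10303) x10483) x10471) x10463) x30147)
    (Nat.sub (Nat.add (Nat.add (Nat.add (Nat.add (Nat.add (Nat.add (Nat.add (Nat.add (Nat.add (Nat.add C x23591) x6095) x14843) x11927) x9983) x10307) x10487) x10463) x10471) x30151) (Nat.mul x10469 (nat_lit 3)))
    (Nat.add (Nat.add (Nat.add (Nat.add (Nat.add (Nat.add (Nat.add (Nat.add (Nat.add (Nat.add (Nat.add C x23593) x6097) x14845) x11929) x9985) x10309) x10489) x10465) x10469) x10473) x30153)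
    (Nat.add (Nat.add (Nat.add (Nat.add (Nat.add (Nat.add (Nat.add (Nat.add (Nat.add C x10473) x23595) x6099) x14847) x11931) x9987) x10311) x10491) x10471)
    (Nat.sub (Nat.add (Nat.add (Nat.add (Nat.add (Nat.add (Nat.add (Nat.add (Nat.add (Nat.add (Nat.add (Nat.add C x23603) x6107) x14855) x11939) x9995) x10319) x10535) x10463) x10487) x10483) x30163) x10481)
    (Nat.sub (Nat.add (Nat.add (Nat.add (Nat.add (Nat.add (Nat.add (Nat.add (Nat.add (Nat.add (Nat.add (Nat.add C x23605) x6109) x14857) x11941) x9997) x10321) x10537) x10465) x10489) x10481) x30165) x10483)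
    (Nat.sub (Nat.add (Nat.add (Nat.add (Nat.add (Nat.add (Nat.add (Nat.add (Nat.add (Nat.add (Nat.add (Nat.add (Nat.add C x23609) x6113) x14861) x11945) x10001) x10325) x10541) x10469) x10505) x10481) x10489) x30169) (Nat.mul x10487 (nat_lit 2)))
    (Nat.add (Nat.add (Nat.add (Nat.add (Nat.add (Nat.add (Nat.add (Nat.add (Nat.add (Nat.add (Nat.add (Nat.add (Nat.add (Nat.add C x23611) x6115) x14863) x11947) x10003) x10327) x10543) x10471) x10507) x10483) x10495) x10487) x10491) x30171)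
    (Nat.add (Nat.add (Nat.add (Nat.add (Nat.add (Nat.add (Nat.add (Nat.add (Nat.add (Nat.add (Nat.add C x23613) x6117) x14865) x11949) x10005) x10329) x10545) x10473) x10509) x10497) x10489)
    (Nat.sub (Nat.add (Nat.add (Nat.add (Nat.add (Nat.add (Nat.add (Nat.add (Nat.add (Nat.add (Nat.add (Nat.add C x23617) x6121) x14869) x11953) x10009) x10333) x10549) x10513) x10489) x10497) x30177) x10495)
    (Nat.add (Nat.add (Nat.add (Nat.add (Nat.add (Nat.add (Nat.add (Nat.add (Nat.add (Nat.add (Nat.add C x10497) x23619) x6123) x14871) x11955) x10011) x10335) x10551) x10515) x10491) x10495)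
    (Nat.sub (Nat.add (Nat.add (Nat.add (Nat.add (Nat.add (Nat.add (Nat.add (Nat.add (Nat.add (Nat.add C x23627) x6131) x14879) x11963) x10019) x10343) x10559) x10487) x10507) x30187) (Nat.mul x10505 (nat_lit 3)))
    (Nat.sub (Nat.add (Nat.add (Nat.add (Nat.add (Nat.add (Nat.add (Nat.add (Nat.add (Nat.add (Nat.add (Nat.add (Nat.add C x23629) x6133) x14881) x11965) x10021) x10345) x10561) x10489) x10513) x10505) x10509) x30189) (Nat.mul x10507 (nat_lit 2)))
    (Nat.sub (Nat.add (Nat.add (Nat.add (Nat.add (Nat.add (Nat.add (Nat.add (Nat.add (Nat.add (Nat.add C x23631) x6135) x14883) x11967) x10023) x10347) x10563) x10491) x10515) x10507) (Nat.mul x10509 (nat_lit 3)))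
    (Nat.sub (Nat.add (Nat.add (Nat.add (Nat.add (Nat.add (Nat.add (Nat.add (Nat.add (Nat.add (Nat.add (Nat.add C x23635) x6139) x14887) x11971) x10027) x10351) x10567) x10495) x10507) x10515) x30195) x10513)
    (Nat.add (Nat.add (Nat.add (Nat.add (Nat.add (Nat.add (Nat.add (Nat.add (Nat.add (Nat.add (Nat.add C x23637) x6141) x14889) x11973) x10029) x10353) x10569) x10497) x10509) x10521) x10513)
    (Nat.add (Nat.add (Nat.add (Nat.add (Nat.add (Nat.add (Nat.add (Nat.add (Nat.add C x10521) x23643) x6147) x14895) x11979) x10035) x10359) x10575) x10515)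
    (Nat.add (Nat.add (Nat.add (Nat.add (Nat.add (Nat.add (Nat.add (Nat.add (Nat.add (Nat.add (Nat.add C x23657) x6161) x14909) x11993) x10049) x10373) x10697) x10481) x10541) x10537) x30217)
    (Nat.add (Nat.add (Nat.add (Nat.add (Nat.add (Nat.add (Nat.add (Nat.add (Nat.add (Nat.add (Nat.add C x23659) x6163) x14911) x11995) x10051) x10375) x10699) x10483) x10543) x10535) x30219)
    (Nat.sub (Nat.add (Nat.add (Nat.add (Nat.add (Nat.add (Nat.add (Nat.add (Nat.add (Nat.add (Nat.add (Nat.add (Nat.add C x23663) x6167) x14915) x11999) x10055) x10379) x10703) x10487) x10559) x10535) x10543) x30223) (Nat.mul x10541 (nat_lit 2)))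
    (Nat.add (Nat.add (Nat.add (Nat.add (Nat.add (Nat.add (Nat.add (Nat.add (Nat.add (Nat.add (Nat.add (Nat.add (Nat.add (Nat.add C x23665) x6169) x14917) x12001) x10057) x10381) x10705) x10489) x10561) x10537) x10549) x10541) x10545) x30225)
    (Nat.add (Nat.add (Nat.add (Nat.add (Nat.add (Nat.add (Nat.add (Nat.add (Nat.add (Nat.add (Nat.add C x23667) x6171) x14919) x12003) x10059) x10383) x10707) x10491) x10563) x10551) x10543)
    (Nat.sub (Nat.add (Nat.add (Nat.add (Nat.add (Nat.add (Nat.add (Nat.add (Nat.add (Nat.add (Nat.add (Nat.add (Nat.add C x23671) x6175) x14923) x12007) x10063) x10387) x10711) x10495) x10567) x10543) x10551) x30231) (Nat.mul x10549 (nat_lit 2)))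
    (Nat.add (Nat.add (Nat.add (Nat.add (Nat.add (Nat.add (Nat.add (Nat.add (Nat.add (Nat.add (Nat.add C x23673) x6177) x14925) x12009) x10065) x10389) x10713) x10497) x10569) x10545) x10549)
    (Nat.sub (Nat.add (Nat.add (Nat.add (Nat.add (Nat.add (Nat.add (Nat.add (Nat.add (Nat.add (Nat.add (Nat.add (Nat.add C x23681) x6185) x14933) x12017) x10073) x10397) x10721) x10505) x10613) x10541) x10561) x30241) x10559)
    (Nat.add (Nat.add (Nat.add (Nat.add (Nat.add (Nat.add (Nat.add (Nat.add (Nat.add (Nat.add (Nat.add (Nat.add (Nat.add (Nat.add C x23683) x6187) x14935) x12019) x10075) x10399) x10723) x10507) x10615) x10543) x10567) x10559) x10563) x30243)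
    (Nat.sub (Nat.add (Nat.add (Nat.add (Nat.add (Nat.add (Nat.add (Nat.add (Nat.add (Nat.add (Nat.add (Nat.add (Nat.add C x23685) x6189) x14937) x12021) x10077) x10401) x10725) x10509) x10617) x10545) x10569) x10561) x10563)
    (Nat.add (Nat.add (Nat.add (Nat.add (Nat.add (Nat.add (Nat.add (Nat.add (Nat.add (Nat.add (Nat.add (Nat.add (Nat.add (Nat.add C x23689) x6193) x14941) x12025) x10081) x10405) x10729) x10513) x10621) x10549) x10585) x10561) x10569) x30249)
    (Nat.add (Nat.add (Nat.add (Nat.add (Nat.add (Nat.add (Nat.add (Nat.add (Nat.add (Nat.add (Nat.add (Nat.add (Nat.add (Nat.add (Nat.add C x10569) x23691) x6195) x14943) x12027) x10083) x10407) x10731) x10515) x10623) x10551) x10587) x10563) x10575) x10567)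
    (Nat.add (Nat.add (Nat.add (Nat.add (Nat.add (Nat.add (Nat.add (Nat.add (Nat.add (Nat.add (Nat.add (Nat.add C x10575) x23697) x6201) x14949) x12033) x10089) x10413) x10737) x10521) x10629) x10593) x10569)
    (Nat.add (Nat.add (Nat.add (Nat.add (Nat.add (Nat.add (Nat.add (Nat.add (Nat.add (Nat.add (Nat.add C x23707) x6211) x14959) x12043) x10099) x10423) x10747) x10639) x10567) x10587) x30267)
    (Nat.add (Nat.add (Nat.add (Nat.add (Nat.add (Nat.add (Nat.add (Nat.add (Nat.add (Nat.add (Nat.add C x23709) x6213) x14961) x12045) x10101) x10425) x10749) x10641) x10569) x10593) x10585)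
    (Nat.add (Nat.add (Nat.add (Nat.add (Nat.add (Nat.add (Nat.add (Nat.add (Nat.add (Nat.add (Nat.add C (Nat.mul x10593 (nat_lit 2))) x23715) x6219) x14967) x12051) x10107) x10431) x10755) x10647) x10575) x10587)
    (Nat.sub (Nat.add (Nat.add (Nat.add (Nat.add (Nat.add (Nat.add (Nat.add (Nat.add (Nat.add C x23735) x6239) x14987) x12071) x10127) x10775) x10559) x10615) x30295) x10613)
    (Nat.add (Nat.add (Nat.add (Nat.add (Nat.add (Nat.add (Nat.add (Nat.add (Nat.add (Nat.add (Nat.add C x23737) x6241) x14989) x12073) x10129) x10777) x10561) x10621) x10613) x10617) x30297)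
    (Nat.sub (Nat.add (Nat.add (Nat.add (Nat.add (Nat.add (Nat.add (Nat.add (Nat.add (Nat.add C x23739) x6243) x14991) x12075) x10131) x10779) x10563) x10623) x10615) x10617)
    (Nat.sub (Nat.add (Nat.add (Nat.add (Nat.add (Nat.add (Nat.add (Nat.add (Nat.add (Nat.add (Nat.add (Nat.add C x23743) x6247) x14995) x12079) x10135) x10783) x10567) x10639) x10615) x10623) x30303) x10621)
    (Nat.add (Nat.add (Nat.add (Nat.add (Nat.add (Nat.add (Nat.add (Nat.add (Nat.add (Nat.add (Nat.add C x23745) x6249) x14997) x12081) x10137) x10785) x10569) x10641) x10617) x10629) x10621)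
    (Nat.sub (Nat.add (Nat.add (Nat.add (Nat.add (Nat.add (Nat.add (Nat.add (Nat.add (Nat.add C x23751) x6255) x15003) x12087) x10143) x10791) x10575) x10647) x10623) x10629)
    (Nat.add (Nat.add (Nat.add (Nat.add (Nat.add (Nat.add (Nat.add (Nat.add (Nat.add (Nat.add (Nat.add C x10639) x23761) x6265) x15013) x12097) x10153) x10801) x10585) x10621) x10641) x30321)
    (Nat.add (Nat.add (Nat.add (Nat.add (Nat.add (Nat.add (Nat.add (Nat.add (Nat.add (Nat.add (Nat.add C x10641) x23763) x6267) x15015) x12099) x10155) x10803) x10587) x10623) x10647) x10639)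
    (Nat.add (Nat.add (Nat.add (Nat.add (Nat.add (Nat.add (Nat.add (Nat.add (Nat.add (Nat.add (Nat.add C (Nat.mul x10647 (nat_lit 2))) x23769) x6273) x15021) x12105) x10161) x10809) x10593) x10629) x10665) x10641)
    (Nat.add (Nat.add (Nat.add (Nat.add (Nat.add (Nat.add (Nat.add (Nat.add C (Nat.mul x10665 (nat_lit 3))) x23787) x6291) x15039) x12123) x10179) x10827) x10647)
    (Nat.add (Nat.add (Nat.add (Nat.add (Nat.add (Nat.add (Nat.add (Nat.add (Nat.add C x10697) x23819) x6323) x15071) x12155) x10535) x10703) x10699) x30379)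
    (Nat.add (Nat.add (Nat.add (Nat.add (Nat.add (Nat.add (Nat.add (Nat.add (Nat.add C x10699) x23821) x6325) x15073) x12157) x10537) x10705) x10697) x30381)
    (Nat.sub (Nat.add (Nat.add (Nat.add (Nat.add (Nat.add (Nat.add (Nat.add (Nat.add (Nat.add C x23825) x6329) x15077) x12161) x10541) x10721) x10697) x10705) x30385) x10703)
    (Nat.add (Nat.add (Nat.add (Nat.add (Nat.add (Nat.add (Nat.add (Nat.add (Nat.add (Nat.add (Nat.add (Nat.add C x10705) x23827) x6331) x15079) x12163) x10543) x10723) x10699) x10711) x10703) x10707) x30387)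
    (Nat.add (Nat.add (Nat.add (Nat.add (Nat.add (Nat.add (Nat.add (Nat.add (Nat.add C x10707) x23829) x6333) x15081) x12165) x10545) x10725) x10713) x10705)
    (Nat.sub (Nat.add (Nat.add (Nat.add (Nat.add (Nat.add (Nat.add (Nat.add (Nat.add (Nat.add C x23833) x6337) x15085) x12169) x10549) x10729) x10705) x10713) x30393) x10711)
    (Nat.add (Nat.add (Nat.add (Nat.add (Nat.add (Nat.add (Nat.add (Nat.add (Nat.add C x10713) x23835) x6339) x15087) x12171) x10551) x10731) x10707) x10711)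
    (Nat.sub (Nat.add (Nat.add (Nat.add (Nat.add (Nat.add (Nat.add (Nat.add (Nat.add (Nat.add C x23843) x6347) x15095) x12179) x10559) x10775) x10703) x10723) x30403) x10721)
    (Nat.add (Nat.add (Nat.add (Nat.add (Nat.add (Nat.add (Nat.add (Nat.add (Nat.add (Nat.add (Nat.add C x23845) x6349) x15097) x12181) x10561) x10777) x10705) x10729) x10721) x10725) x30405)
    (Nat.sub (Nat.add (Nat.add (Nat.add (Nat.add (Nat.add (Nat.add (Nat.add (Nat.add (Nat.add C x23847) x6351) x15099) x12183) x10563) x10779) x10707) x10731) x10723) x10725)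
    (Nat.add (Nat.add (Nat.add (Nat.add (Nat.add (Nat.add (Nat.add (Nat.add (Nat.add (Nat.add (Nat.add C x23851) x6355) x15103) x12187) x10567) x10783) x10711) x10747) x10723) x10731) x30411)
    (Nat.add (Nat.add (Nat.add (Nat.add (Nat.add (Nat.add (Nat.add (Nat.add (Nat.add (Nat.add (Nat.add (Nat.add C x10731) x23853) x6357) x15105) x12189) x10569) x10785) x10713) x10749) x10725) x10737) x10729)
    (Nat.add (Nat.add (Nat.add (Nat.add (Nat.add (Nat.add (Nat.add (Nat.add (Nat.add C x10737) x23859) x6363) x15111) x12195) x10575) x10791) x10755) x10731)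
    (Nat.sub (Nat.add (Nat.add (Nat.add (Nat.add (Nat.add (Nat.add (Nat.add (Nat.add (Nat.add C x23869) x6373) x15121) x12205) x10585) x10801) x10729) x10749) x30429) x10747)
    (Nat.sub (Nat.add (Nat.add (Nat.add (Nat.add (Nat.add (Nat.add (Nat.add (Nat.add (Nat.add C x23871) x6375) x15123) x12207) x10587) x10803) x10731) x10755) x10747) x10749)
    (Nat.add (Nat.add (Nat.add (Nat.add (Nat.add (Nat.add (Nat.add (Nat.add (Nat.add C x10755) x23877) x6381) x15129) x12213) x10593) x10809) x10737) x10749)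
    (Nat.add (Nat.add (Nat.add (Nat.add (Nat.add (Nat.add (Nat.add (Nat.add (Nat.add C x10775) x23897) x6401) x15149) x12233) x10613) x10721) x10777) x30457)
    (Nat.add (Nat.add (Nat.add (Nat.add (Nat.add (Nat.add (Nat.add (Nat.add (Nat.add (Nat.add (Nat.add C (Nat.mul x10777 (nat_lit 2))) x23899) x6403) x15151) x12235) x10615) x10723) x10783) x10775) x10779) x30459)
    (Nat.add (Nat.add (Nat.add (Nat.add (Nat.add (Nat.add (Nat.add (Nat.add (Nat.add C x10779) x23901) x6405) x15153) x12237) x10617) x10725) x10785) x10777)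
    (Nat.add (Nat.add (Nat.add (Nat.add (Nat.add (Nat.add (Nat.add (Nat.add (Nat.add (Nat.add (Nat.add C x10783) x23905) x6409) x15157) x12241) x10621) x10729) x10801) x10777) x10785) x30465)
    (Nat.add (Nat.add (Nat.add (Nat.add (Nat.add (Nat.add (Nat.add (Nat.add (Nat.add (Nat.add (Nat.add C (Nat.mul x10785 (nat_lit 2))) x23907) x6411) x15159) x12243) x10623) x10731) x10803) x10779) x10791) x10783)
    (Nat.add (Nat.add (Nat.add (Nat.add (Nat.add (Nat.add (Nat.add (Nat.add (Nat.add C x10791) x23913) x6417) x15165) x12249) x10629) x10737) x10809) x10785)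
    (Nat.add (Nat.add (Nat.add (Nat.add (Nat.add (Nat.add (Nat.add (Nat.add (Nat.add (Nat.add (Nat.add C (Nat.mul x10801 (nat_lit 2))) x23923) x6427) x15175) x12259) x10639) x10747) x10855) x10783) x10803) x30483)
    (Nat.add (Nat.add (Nat.add (Nat.add (Nat.add (Nat.add (Nat.add (Nat.add (Nat.add (Nat.add (Nat.add C (Nat.mul x10803 (nat_lit 2))) x23925) x6429) x15177) x12261) x10641) x10749) x10857) x10785) x10809) x10801)
    (Nat.add (Nat.add (Nat.add (Nat.add (Nat.add (Nat.add (Nat.add (Nat.add (Nat.add (Nat.add (Nat.add C (Nat.mul x10809 (nat_lit 3))) x23931) x6435) x15183) x12267) x10647) x10755) x10863) x10791) x10827) x10803)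
    (Nat.add (Nat.add (Nat.add (Nat.add (Nat.add (Nat.add (Nat.add (Nat.add C (Nat.mul x10827 (nat_lit 3))) x23949) x6453) x15201) x12285) x10665) x10881) x10809)
    (Nat.add (Nat.add (Nat.add (Nat.add (Nat.add (Nat.add (Nat.add (Nat.add C (Nat.mul x10855 (nat_lit 3))) x23977) x6481) x15229) x12313) x10801) x10857) x30537)
    (Nat.add (Nat.add (Nat.add (Nat.add (Nat.add (Nat.add (Nat.add (Nat.add C (Nat.mul x10857 (nat_lit 3))) x23979) x6483) x15231) x12315) x10803) x10863) x10855)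
    (Nat.add (Nat.add (Nat.add (Nat.add (Nat.add (Nat.add (Nat.add (Nat.add C (Nat.mul x10863 (nat_lit 3))) x23985) x6489) x15237) x12321) x10809) x10881) x10857)
    (Nat.add (Nat.add (Nat.add (Nat.add (Nat.add (Nat.add (Nat.add C (Nat.mul x10881 (nat_lit 5))) x24003) x6507) x15255) x12339) x10827) x10863)
    (Nat.add (Nat.add (Nat.add (Nat.add (Nat.add (Nat.add C (Nat.mul x10961 (nat_lit 2))) x24083) x15335) x9503) x10979) x30643)
    (Nat.add (Nat.add (Nat.add (Nat.add (Nat.add (Nat.add (Nat.add (Nat.add (Nat.add C x10979) x24101) x15353) x9521) x11033) x10961) x10997) x10985) x30661)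
    (Nat.add (Nat.add (Nat.add (Nat.add (Nat.add (Nat.add (Nat.add (Nat.add C x24107) x15359) x9527) x11039) x11003) x10979) x10987) x30667)
    (Nat.add (Nat.add (Nat.add (Nat.add (Nat.add (Nat.add (Nat.add (Nat.add C (Nat.mul x10987 (nat_lit 2))) x24109) x15361) x9529) x11041) x11005) x10985) x30669)
    (Nat.sub (Nat.add (Nat.add (Nat.add (Nat.add (Nat.add (Nat.add (Nat.add C x24119) x15371) x9539) x11051) x10979) x11003) x30679) (Nat.mul x10997 (nat_lit 2)))
    (Nat.sub (Nat.add (Nat.add (Nat.add (Nat.add (Nat.add (Nat.add (Nat.add (Nat.add (Nat.add C x24125) x15377) x9545) x11057) x10985) x10997) x11009) x11005) x30685) x11003)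
    (Nat.add (Nat.add (Nat.add (Nat.add (Nat.add (Nat.add (Nat.add (Nat.add C x24127) x15379) x9547) x11059) x10987) x11011) x11003) x30687)
    (Nat.sub (Nat.add (Nat.add (Nat.add (Nat.add (Nat.add (Nat.add (Nat.add C x24131) x15383) x9551) x11063) x11003) x11011) x30691) (Nat.mul x11009 (nat_lit 2)))
    (Nat.add (Nat.add (Nat.add (Nat.add (Nat.add (Nat.add (Nat.add (Nat.add (Nat.add C x11011) x24133) x15385) x9553) x11065) x11005) x11009) x11013) x30693)
    (Nat.add (Nat.add (Nat.add (Nat.add (Nat.add (Nat.add C (Nat.mul x11013 (nat_lit 2))) x24135) x15387) x9555) x11067) x11011)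
    (Nat.add (Nat.add (Nat.add (Nat.add (Nat.add (Nat.add (Nat.add (Nat.add C x24155) x15407) x9575) x11195) x10979) x11051) x11039) x30715)
    (Nat.sub (Nat.add (Nat.add (Nat.add (Nat.add (Nat.add (Nat.add (Nat.add (Nat.add (Nat.add C x24161) x15413) x9581) x11201) x10985) x11057) x11033) x11041) x30721) (Nat.mul x11039 (nat_lit 2)))
    (Nat.add (Nat.add (Nat.add (Nat.add (Nat.add (Nat.add (Nat.add (Nat.add C x24163) x15415) x9583) x11203) x10987) x11059) x11039) x30723)
    (Nat.sub (Nat.add (Nat.add (Nat.add (Nat.add (Nat.add (Nat.add (Nat.add (Nat.add (Nat.add C x24173) x15425) x9593) x11213) x10997) x11105) x11033) x11057) x30733) x11051)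
    (Nat.sub (Nat.add (Nat.add (Nat.add (Nat.add (Nat.add (Nat.add (Nat.add (Nat.add (Nat.add (Nat.add (Nat.add (Nat.add C x24179) x15431) x9599) x11219) x11003) x11111) x11039) x11075) x11051) x11063) x11059) x30739) x11057)
    (Nat.add (Nat.add (Nat.add (Nat.add (Nat.add (Nat.add (Nat.add (Nat.add (Nat.add (Nat.add (Nat.add C x24181) x15433) x9601) x11221) x11005) x11113) x11041) x11077) x11065) x11057) x30741)
    (Nat.sub (Nat.add (Nat.add (Nat.add (Nat.add (Nat.add (Nat.add (Nat.add (Nat.add (Nat.add (Nat.add C x24185) x15437) x9605) x11225) x11009) x11117) x11081) x11057) x11065) x30745) (Nat.mul x11063 (nat_lit 3)))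
    (Nat.add (Nat.add (Nat.add (Nat.add (Nat.add (Nat.add (Nat.add (Nat.add (Nat.add (Nat.add (Nat.add C x24187) x15439) x9607) x11227) x11011) x11119) x11083) x11059) x11063) x11067) x30747)
    (Nat.add (Nat.add (Nat.add (Nat.add (Nat.add (Nat.add (Nat.add (Nat.add (Nat.add C x11067) x24189) x15441) x9609) x11229) x11013) x11121) x11085) x11065)
    (Nat.sub (Nat.add (Nat.add (Nat.add (Nat.add (Nat.add (Nat.add (Nat.add (Nat.add (Nat.add C x24197) x15449) x9617) x11237) x11129) x11057) x11081) x11077) x30757) (Nat.mul x11075 (nat_lit 2)))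
    (Nat.sub (Nat.add (Nat.add (Nat.add (Nat.add (Nat.add (Nat.add (Nat.add (Nat.add (Nat.add C x24199) x15451) x9619) x11239) x11131) x11059) x11083) x11075) x30759) (Nat.mul x11077 (nat_lit 2)))
    (Nat.sub (Nat.add (Nat.add (Nat.add (Nat.add (Nat.add (Nat.add (Nat.add (Nat.add (Nat.add C x24203) x15455) x9623) x11243) x11135) x11063) x11075) x11083) x30763) (Nat.mul x11081 (nat_lit 2)))
    (Nat.add (Nat.add (Nat.add (Nat.add (Nat.add (Nat.add (Nat.add (Nat.add (Nat.add (Nat.add (Nat.add C x24205) x15457) x9625) x11245) x11137) x11065) x11077) x11089) x11081) x11085) x30765)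
    (Nat.add (Nat.add (Nat.add (Nat.add (Nat.add (Nat.add (Nat.add (Nat.add C x24207) x15459) x9627) x11247) x11139) x11067) x11091) x11083)
    (Nat.add (Nat.add (Nat.add (Nat.add (Nat.add (Nat.add (Nat.add (Nat.add C x24211) x15463) x9631) x11251) x11143) x11083) x11091) x30771)
    (Nat.add (Nat.add (Nat.add (Nat.add (Nat.add (Nat.add (Nat.add (Nat.add C (Nat.mul x11091 (nat_lit 2))) x24213) x15465) x9633) x11253) x11145) x11085) x11089)
    (Nat.sub (Nat.add (Nat.add (Nat.add (Nat.add (Nat.add (Nat.add (Nat.add C x24227) x15479) x9647) x11267) x11051) x11111) x30787) (Nat.mul x11105 (nat_lit 2)))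
    (Nat.sub (Nat.add (Nat.add (Nat.add (Nat.add (Nat.add (Nat.add (Nat.add (Nat.add (Nat.add (Nat.add C x24233) x15485) x9653) x11273) x11057) x11129) x11105) x11117) x11113) x30793) (Nat.mul x11111 (nat_lit 3)))
    (Nat.sub (Nat.add (Nat.add (Nat.add (Nat.add (Nat.add (Nat.add (Nat.add (Nat.add (Nat.add C x24235) x15487) x9655) x11275) x11059) x11131) x11119) x11111) x30795) (Nat.mul x11113 (nat_lit 2)))
    (Nat.sub (Nat.add (Nat.add (Nat.add (Nat.add (Nat.add (Nat.add (Nat.add (Nat.add (Nat.add C x24239) x15491) x9659) x11279) x11063) x11135) x11111) x11119) x30799) (Nat.mul x11117 (nat_lit 6)))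
    (Nat.sub (Nat.add (Nat.add (Nat.add (Nat.add (Nat.add (Nat.add (Nat.add (Nat.add (Nat.add (Nat.add C x24241) x15493) x9661) x11281) x11065) x11137) x11113) x11117) x11121) x30801) (Nat.mul x11119 (nat_lit 3)))
    (Nat.sub (Nat.add (Nat.add (Nat.add (Nat.add (Nat.add (Nat.add (Nat.add C x24243) x15495) x9663) x11283) x11067) x11139) x11119) (Nat.mul x11121 (nat_lit 2)))
    (Nat.sub (Nat.add (Nat.add (Nat.add (Nat.add (Nat.add (Nat.add (Nat.add (Nat.add (Nat.add C x24251) x15503) x9671) x11291) x11075) x11111) x11135) x11131) x30811) (Nat.mul x11129 (nat_lit 2)))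
    (Nat.sub (Nat.add (Nat.add (Nat.add (Nat.add (Nat.add (Nat.add (Nat.add (Nat.add (Nat.add C x24253) x15505) x9673) x11293) x11077) x11113) x11137) x11129) x30813) (Nat.mul x11131 (nat_lit 2)))
    (Nat.sub (Nat.add (Nat.add (Nat.add (Nat.add (Nat.add (Nat.add (Nat.add (Nat.add (Nat.add (Nat.add C x24257) x15509) x9677) x11297) x11081) x11117) x11153) x11129) x11137) x30817) (Nat.mul x11135 (nat_lit 3)))
    (Nat.sub (Nat.add (Nat.add (Nat.add (Nat.add (Nat.add (Nat.add (Nat.add (Nat.add (Nat.add (Nat.add (Nat.add (Nat.add C x24259) x15511) x9679) x11299) x11083) x11119) x11155) x11131) x11143) x11135) x11139) x30819) x11137)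
    (Nat.sub (Nat.add (Nat.add (Nat.add (Nat.add (Nat.add (Nat.add (Nat.add (Nat.add (Nat.add C x24261) x15513) x9681) x11301) x11085) x11121) x11157) x11145) x11137) x11139)
    (Nat.sub (Nat.add (Nat.add (Nat.add (Nat.add (Nat.add (Nat.add (Nat.add (Nat.add (Nat.add C x24265) x15517) x9685) x11305) x11089) x11161) x11137) x11145) x30825) (Nat.mul x11143 (nat_lit 2)))
    (Nat.add (Nat.add (Nat.add (Nat.add (Nat.add (Nat.add (Nat.add (Nat.add C x24267) x15519) x9687) x11307) x11091) x11163) x11139) x11143)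
    (Nat.sub (Nat.add (Nat.add (Nat.add (Nat.add (Nat.add (Nat.add (Nat.add C x24275) x15527) x9695) x11315) x11135) x11155) x30835) (Nat.mul x11153 (nat_lit 2)))
    (Nat.sub (Nat.add (Nat.add (Nat.add (Nat.add (Nat.add (Nat.add (Nat.add (Nat.add (Nat.add C x24277) x15529) x9697) x11317) x11137) x11161) x11153) x11157) x30837) x11155)
    (Nat.sub (Nat.add (Nat.add (Nat.add (Nat.add (Nat.add (Nat.add (Nat.add C x24279) x15531) x9699) x11319) x11139) x11163) x11155) (Nat.mul x11157 (nat_lit 2)))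
    (Nat.add (Nat.add (Nat.add (Nat.add (Nat.add (Nat.add (Nat.add (Nat.add C x24283) x15535) x9703) x11323) x11143) x11155) x11163) x30843)
    (Nat.add (Nat.add (Nat.add (Nat.add (Nat.add (Nat.add (Nat.add (Nat.add (Nat.add C x11163) x24285) x15537) x9705) x11325) x11145) x11157) x11169) x11161)
    (Nat.add (Nat.add (Nat.add (Nat.add (Nat.add (Nat.add C (Nat.mul x11169 (nat_lit 2))) x24291) x15543) x9711) x11331) x11163)
    (Nat.add (Nat.add (Nat.add (Nat.add (Nat.add (Nat.add (Nat.add (Nat.add C x24317) x15569) x9737) x11681) x11033) x11213) x11201) x30877)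
    (Nat.sub (Nat.add (Nat.add (Nat.add (Nat.add (Nat.add (Nat.add (Nat.add (Nat.add (Nat.add C x24323) x15575) x9743) x11687) x11039) x11219) x11195) x11203) x30883) (Nat.mul x11201 (nat_lit 2)))
    (Nat.add (Nat.add (Nat.add (Nat.add (Nat.add (Nat.add (Nat.add (Nat.add C x24325) x15577) x9745) x11689) x11041) x11221) x11201) x30885)
    (Nat.sub (Nat.add (Nat.add (Nat.add (Nat.add (Nat.add (Nat.add (Nat.add (Nat.add (Nat.add C x24335) x15587) x9755) x11699) x11051) x11267) x11195) x11219) x30895) (Nat.mul x11213 (nat_lit 2)))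
    (Nat.sub (Nat.add (Nat.add (Nat.add (Nat.add (Nat.add (Nat.add (Nat.add (Nat.add (Nat.add (Nat.add (Nat.add (Nat.add C x24341) x15593) x9761) x11705) x11057) x11273) x11201) x11237) x11213) x11225) x11221) x30901) (Nat.mul x11219 (nat_lit 2)))
    (Nat.sub (Nat.add (Nat.add (Nat.add (Nat.add (Nat.add (Nat.add (Nat.add (Nat.add (Nat.add (Nat.add (Nat.add C x24343) x15595) x9763) x11707) x11059) x11275) x11203) x11239) x11227) x11219) x30903) x11221)
    (Nat.sub (Nat.add (Nat.add (Nat.add (Nat.add (Nat.add (Nat.add (Nat.add (Nat.add (Nat.add (Nat.add C x24347) x15599) x9767) x11711) x11063) x11279) x11243) x11219) x11227) x30907) (Nat.mul x11225 (nat_lit 4)))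
    (Nat.sub (Nat.add (Nat.add (Nat.add (Nat.add (Nat.add (Nat.add (Nat.add (Nat.add (Nat.add (Nat.add (Nat.add C x24349) x15601) x9769) x11713) x11065) x11281) x11245) x11221) x11225) x11229) x30909) x11227)
    (Nat.add (Nat.add (Nat.add (Nat.add (Nat.add (Nat.add (Nat.add (Nat.add C x24351) x15603) x9771) x11715) x11067) x11283) x11247) x11227)
    (Nat.sub (Nat.add (Nat.add (Nat.add (Nat.add (Nat.add (Nat.add (Nat.add (Nat.add (Nat.add (Nat.add C x24359) x15611) x9779) x11723) x11075) x11291) x11219) x11243) x11239) x30919) (Nat.mul x11237 (nat_lit 4)))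
    (Nat.sub (Nat.add (Nat.add (Nat.add (Nat.add (Nat.add (Nat.add (Nat.add (Nat.add (Nat.add (Nat.add C x24361) x15613) x9781) x11725) x11077) x11293) x11221) x11245) x11237) x30921) (Nat.mul x11239 (nat_lit 4)))
    (Nat.sub (Nat.add (Nat.add (Nat.add (Nat.add (Nat.add (Nat.add (Nat.add (Nat.add (Nat.add (Nat.add C x24365) x15617) x9785) x11729) x11081) x11297) x11225) x11237) x11245) x30925) (Nat.mul x11243 (nat_lit 4)))
    (Nat.sub (Nat.add (Nat.add (Nat.add (Nat.add (Nat.add (Nat.add (Nat.add (Nat.add (Nat.add (Nat.add (Nat.add (Nat.add C x24367) x15619) x9787) x11731) x11083) x11299) x11227) x11239) x11251) x11243) x11247) x30927) (Nat.mul x11245 (nat_lit 2)))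
    (Nat.sub (Nat.add (Nat.add (Nat.add (Nat.add (Nat.add (Nat.add (Nat.add (Nat.add (Nat.add C x24369) x15621) x9789) x11733) x11085) x11301) x11229) x11253) x11245) (Nat.mul x11247 (nat_lit 2)))
    (Nat.sub (Nat.add (Nat.add (Nat.add (Nat.add (Nat.add (Nat.add (Nat.add (Nat.add (Nat.add C x24373) x15625) x9793) x11737) x11089) x11305) x11245) x11253) x30933) (Nat.mul x11251 (nat_lit 2)))
    (Nat.add (Nat.add (Nat.add (Nat.add (Nat.add (Nat.add (Nat.add (Nat.add C x24375) x15627) x9795) x11739) x11091) x11307) x11247) x11251)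
    (Nat.sub (Nat.add (Nat.add (Nat.add (Nat.add (Nat.add (Nat.add (Nat.add (Nat.add (Nat.add C x24389) x15641) x9809) x11753) x11105) x11429) x11213) x11273) x30949) x11267)
    (Nat.sub (Nat.add (Nat.add (Nat.add (Nat.add (Nat.add (Nat.add (Nat.add (Nat.add (Nat.add (Nat.add (Nat.add (Nat.add C x24395) x15647) x9815) x11759) x11111) x11435) x11219) x11291) x11267) x11279) x11275) x30955) (Nat.mul x11273 (nat_lit 2)))
    (Nat.sub (Nat.add (Nat.add (Nat.add (Nat.add (Nat.add (Nat.add (Nat.add (Nat.add (Nat.add (Nat.add (Nat.add C x24397) x15649) x9817) x11761) x11113) x11437) x11221) x11293) x11281) x11273) x30957) x11275)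
    (Nat.sub (Nat.add (Nat.add (Nat.add (Nat.add (Nat.add (Nat.add (Nat.add (Nat.add (Nat.add (Nat.add (Nat.add C x24401) x15653) x9821) x11765) x11117) x11441) x11225) x11297) x11273) x11281) x30961) (Nat.mul x11279 (nat_lit 5)))
    (Nat.sub (Nat.add (Nat.add (Nat.add (Nat.add (Nat.add (Nat.add (Nat.add (Nat.add (Nat.add (Nat.add (Nat.add (Nat.add C x24403) x15655) x9823) x11767) x11119) x11443) x11227) x11299) x11275) x11279) x11283) x30963) (Nat.mul x11281 (nat_lit 2)))
    (Nat.sub (Nat.add (Nat.add (Nat.add (Nat.add (Nat.add (Nat.add (Nat.add (Nat.add (Nat.add C x24405) x15657) x9825) x11769) x11121) x11445) x11229) x11301) x11281) x11283)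
    (Nat.sub (Nat.add (Nat.add (Nat.add (Nat.add (Nat.add (Nat.add (Nat.add (Nat.add (Nat.add (Nat.add (Nat.add (Nat.add C x24413) x15665) x9833) x11777) x11129) x11453) x11237) x11345) x11273) x11297) x11293) x30973) (Nat.mul x11291 (nat_lit 2)))
    (Nat.sub (Nat.add (Nat.add (Nat.add (Nat.add (Nat.add (Nat.add (Nat.add (Nat.add (Nat.add (Nat.add (Nat.add (Nat.add C x24415) x15667) x9835) x11779) x11131) x11455) x11239) x11347) x11275) x11299) x11291) x30975) (Nat.mul x11293 (nat_lit 2)))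
    (Nat.sub (Nat.add (Nat.add (Nat.add (Nat.add (Nat.add (Nat.add (Nat.add (Nat.add (Nat.add (Nat.add (Nat.add (Nat.add (Nat.add C x24419) x15671) x9839) x11783) x11135) x11459) x11243) x11351) x11279) x11315) x11291) x11299) x30979) (Nat.mul x11297 (nat_lit 3)))
    (Nat.sub (Nat.add (Nat.add (Nat.add (Nat.add (Nat.add (Nat.add (Nat.add (Nat.add (Nat.add (Nat.add (Nat.add (Nat.add (Nat.add (Nat.add (Nat.add C x24421) x15673) x9841) x11785) x11137) x11461) x11245) x11353) x11281) x11317) x11293) x11305) x11297) x11301) x30981) x11299)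
    (Nat.sub (Nat.add (Nat.add (Nat.add (Nat.add (Nat.add (Nat.add (Nat.add (Nat.add (Nat.add (Nat.add (Nat.add (Nat.add C x24423) x15675) x9843) x11787) x11139) x11463) x11247) x11355) x11283) x11319) x11307) x11299) x11301)
    (Nat.sub (Nat.add (Nat.add (Nat.add (Nat.add (Nat.add (Nat.add (Nat.add (Nat.add (Nat.add (Nat.add (Nat.add (Nat.add C x24427) x15679) x9847) x11791) x11143) x11467) x11251) x11359) x11323) x11299) x11307) x30987) (Nat.mul x11305 (nat_lit 2)))
    (Nat.add (Nat.add (Nat.add (Nat.add (Nat.add (Nat.add (Nat.add (Nat.add (Nat.add (Nat.add (Nat.add C x24429) x15681) x9849) x11793) x11145) x11469) x11253) x11361) x11325) x11301) x11305)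
    (Nat.sub (Nat.add (Nat.add (Nat.add (Nat.add (Nat.add (Nat.add (Nat.add (Nat.add (Nat.add (Nat.add C x24437) x15689) x9857) x11801) x11153) x11477) x11369) x11297) x11317) x30997) (Nat.mul x11315 (nat_lit 3)))
    (Nat.sub (Nat.add (Nat.add (Nat.add (Nat.add (Nat.add (Nat.add (Nat.add (Nat.add (Nat.add (Nat.add (Nat.add (Nat.add C x24439) x15691) x9859) x11803) x11155) x11479) x11371) x11299) x11323) x11315) x11319) x30999) (Nat.mul x11317 (nat_lit 2)))
    (Nat.sub (Nat.add (Nat.add (Nat.add (Nat.add (Nat.add (Nat.add (Nat.add (Nat.add (Nat.add (Nat.add C x24441) x15693) x9861) x11805) x11157) x11481) x11373) x11301) x11325) x11317) (Nat.mul x11319 (nat_lit 3)))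
    (Nat.sub (Nat.add (Nat.add (Nat.add (Nat.add (Nat.add (Nat.add (Nat.add (Nat.add (Nat.add (Nat.add (Nat.add C x24445) x15697) x9865) x11809) x11161) x11485) x11377) x11305) x11317) x11325) x31005) x11323)
    (Nat.add (Nat.add (Nat.add (Nat.add (Nat.add (Nat.add (Nat.add (Nat.add (Nat.add (Nat.add (Nat.add C x24447) x15699) x9867) x11811) x11163) x11487) x11379) x11307) x11319) x11331) x11323)
    (Nat.add (Nat.add (Nat.add (Nat.add (Nat.add (Nat.add (Nat.add (Nat.add (Nat.add C x11331) x24453) x15705) x9873) x11817) x11169) x11493) x11385) x11325)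
    (Nat.sub (Nat.add (Nat.add (Nat.add (Nat.add (Nat.add (Nat.add (Nat.add (Nat.add (Nat.add C x24467) x15719) x9887) x11831) x11507) x11291) x11351) x11347) x31027) (Nat.mul x11345 (nat_lit 2)))
    (Nat.sub (Nat.add (Nat.add (Nat.add (Nat.add (Nat.add (Nat.add (Nat.add (Nat.add (Nat.add C x24469) x15721) x9889) x11833) x11509) x11293) x11353) x11345) x31029) (Nat.mul x11347 (nat_lit 2)))
    (Nat.sub (Nat.add (Nat.add (Nat.add (Nat.add (Nat.add (Nat.add (Nat.add (Nat.add (Nat.add (Nat.add C x24473) x15725) x9893) x11837) x11513) x11297) x11369) x11345) x11353) x31033) (Nat.mul x11351 (nat_lit 4)))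
    (Nat.sub (Nat.add (Nat.add (Nat.add (Nat.add (Nat.add (Nat.add (Nat.add (Nat.add (Nat.add (Nat.add (Nat.add (Nat.add C x24475) x15727) x9895) x11839) x11515) x11299) x11371) x11347) x11359) x11351) x11355) x31035) (Nat.mul x11353 (nat_lit 2)))
    (Nat.sub (Nat.add (Nat.add (Nat.add (Nat.add (Nat.add (Nat.add (Nat.add (Nat.add (Nat.add C x24477) x15729) x9897) x11841) x11517) x11301) x11373) x11361) x11353) (Nat.mul x11355 (nat_lit 2)))
    (Nat.sub (Nat.add (Nat.add (Nat.add (Nat.add (Nat.add (Nat.add (Nat.add (Nat.add (Nat.add (Nat.add C x24481) x15733) x9901) x11845) x11521) x11305) x11377) x11353) x11361) x31041) (Nat.mul x11359 (nat_lit 4)))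
    (Nat.sub (Nat.add (Nat.add (Nat.add (Nat.add (Nat.add (Nat.add (Nat.add (Nat.add (Nat.add C x24483) x15735) x9903) x11847) x11523) x11307) x11379) x11355) x11359) (Nat.mul x11361 (nat_lit 2)))
    (Nat.sub (Nat.add (Nat.add (Nat.add (Nat.add (Nat.add (Nat.add (Nat.add (Nat.add (Nat.add C x24491) x15743) x9911) x11855) x11531) x11315) x11351) x11371) x31051) (Nat.mul x11369 (nat_lit 2)))
    (Nat.sub (Nat.add (Nat.add (Nat.add (Nat.add (Nat.add (Nat.add (Nat.add (Nat.add (Nat.add (Nat.add (Nat.add C x24493) x15745) x9913) x11857) x11533) x11317) x11353) x11377) x11369) x11373) x31053) x11371)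
    (Nat.sub (Nat.add (Nat.add (Nat.add (Nat.add (Nat.add (Nat.add (Nat.add (Nat.add (Nat.add C x24495) x15747) x9915) x11859) x11535) x11319) x11355) x11379) x11371) (Nat.mul x11373 (nat_lit 2)))
    (Nat.sub (Nat.add (Nat.add (Nat.add (Nat.add (Nat.add (Nat.add (Nat.add (Nat.add (Nat.add (Nat.add (Nat.add C x24499) x15751) x9919) x11863) x11539) x11323) x11359) x11395) x11371) x11379) x31059) x11377)
    (Nat.add (Nat.add (Nat.add (Nat.add (Nat.add (Nat.add (Nat.add (Nat.add (Nat.add (Nat.add (Nat.add C x24501) x15753) x9921) x11865) x11541) x11325) x11361) x11397) x11373) x11385) x11377)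
    (Nat.add (Nat.add (Nat.add (Nat.add (Nat.add (Nat.add (Nat.add (Nat.add C x24507) x15759) x9927) x11871) x11547) x11331) x11403) x11379)
    (Nat.add (Nat.add (Nat.add (Nat.add (Nat.add (Nat.add (Nat.add (Nat.add C x24517) x15769) x9937) x11881) x11557) x11377) x11397) x31077)
    (Nat.add (Nat.add (Nat.add (Nat.add (Nat.add (Nat.add (Nat.add (Nat.add C x24519) x15771) x9939) x11883) x11559) x11379) x11403) x11395)
    (Nat.add (Nat.add (Nat.add (Nat.add (Nat.add (Nat.add (Nat.add (Nat.add C (Nat.mul x11403 (nat_lit 2))) x24525) x15777) x9945) x11889) x11565) x11385) x11397)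
    (Nat.sub (Nat.add (Nat.add (Nat.add (Nat.add (Nat.add (Nat.add (Nat.add C x24551) x15803) x9971) x11915) x11267) x11435) x31111) (Nat.mul x11429 (nat_lit 2)))
    (Nat.sub (Nat.add (Nat.add (Nat.add (Nat.add (Nat.add (Nat.add (Nat.add (Nat.add (Nat.add (Nat.add C x24557) x15809) x9977) x11921) x11273) x11453) x11429) x11441) x11437) x31117) (Nat.mul x11435 (nat_lit 3)))
    (Nat.sub (Nat.add (Nat.add (Nat.add (Nat.add (Nat.add (Nat.add (Nat.add (Nat.add (Nat.add C x24559) x15811) x9979) x11923) x11275) x11455) x11443) x11435) x31119) (Nat.mul x11437 (nat_lit 2)))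
    (Nat.sub (Nat.add (Nat.add (Nat.add (Nat.add (Nat.add (Nat.add (Nat.add (Nat.add (Nat.add C x24563) x15815) x9983) x11927) x11279) x11459) x11435) x11443) x31123) (Nat.mul x11441 (nat_lit 6)))
    (Nat.sub (Nat.add (Nat.add (Nat.add (Nat.add (Nat.add (Nat.add (Nat.add (Nat.add (Nat.add (Nat.add C x24565) x15817) x9985) x11929) x11281) x11461) x11437) x11441) x11445) x31125) (Nat.mul x11443 (nat_lit 3)))
    (Nat.sub (Nat.add (Nat.add (Nat.add (Nat.add (Nat.add (Nat.add (Nat.add C x24567) x15819) x9987) x11931) x11283) x11463) x11443) (Nat.mul x11445 (nat_lit 2)))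
    (Nat.sub (Nat.add (Nat.add (Nat.add (Nat.add (Nat.add (Nat.add (Nat.add (Nat.add (Nat.add (Nat.add C x24575) x15827) x9995) x11939) x11291) x11507) x11435) x11459) x11455) x31135) (Nat.mul x11453 (nat_lit 4)))
    (Nat.sub (Nat.add (Nat.add (Nat.add (Nat.add (Nat.add (Nat.add (Nat.add (Nat.add (Nat.add (Nat.add C x24577) x15829) x9997) x11941) x11293) x11509) x11437) x11461) x11453) x31137) (Nat.mul x11455 (nat_lit 4)))
    (Nat.sub (Nat.add (Nat.add (Nat.add (Nat.add (Nat.add (Nat.add (Nat.add (Nat.add (Nat.add (Nat.add (Nat.add C x24581) x15833) x10001) x11945) x11297) x11513) x11441) x11477) x11453) x11461) x31141) (Nat.mul x11459 (nat_lit 5)))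
    (Nat.sub (Nat.add (Nat.add (Nat.add (Nat.add (Nat.add (Nat.add (Nat.add (Nat.add (Nat.add (Nat.add (Nat.add (Nat.add (Nat.add C x24583) x15835) x10003) x11947) x11299) x11515) x11443) x11479) x11455) x11467) x11459) x11463) x31143) (Nat.mul x11461 (nat_lit 3)))
    (Nat.sub (Nat.add (Nat.add (Nat.add (Nat.add (Nat.add (Nat.add (Nat.add (Nat.add (Nat.add (Nat.add C x24585) x15837) x10005) x11949) x11301) x11517) x11445) x11481) x11469) x11461) (Nat.mul x11463 (nat_lit 3)))
    (Nat.sub (Nat.add (Nat.add (Nat.add (Nat.add (Nat.add (Nat.add (Nat.add (Nat.add (Nat.add (Nat.add C x24589) x15841) x10009) x11953) x11305) x11521) x11485) x11461) x11469) x31149) (Nat.mul x11467 (nat_lit 4)))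
    (Nat.sub (Nat.add (Nat.add (Nat.add (Nat.add (Nat.add (Nat.add (Nat.add (Nat.add (Nat.add C x24591) x15843) x10011) x11955) x11307) x11523) x11487) x11463) x11467) (Nat.mul x11469 (nat_lit 2)))
    (Nat.sub (Nat.add (Nat.add (Nat.add (Nat.add (Nat.add (Nat.add (Nat.add (Nat.add (Nat.add C x24599) x15851) x10019) x11963) x11315) x11531) x11459) x11479) x31159) (Nat.mul x11477 (nat_lit 6)))
    (Nat.sub (Nat.add (Nat.add (Nat.add (Nat.add (Nat.add (Nat.add (Nat.add (Nat.add (Nat.add (Nat.add (Nat.add C x24601) x15853) x10021) x11965) x11317) x11533) x11461) x11485) x11477) x11481) x31161) (Nat.mul x11479 (nat_lit 5)))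
    (Nat.sub (Nat.add (Nat.add (Nat.add (Nat.add (Nat.add (Nat.add (Nat.add (Nat.add (Nat.add C x24603) x15855) x10023) x11967) x11319) x11535) x11463) x11487) x11479) (Nat.mul x11481 (nat_lit 6)))
    (Nat.sub (Nat.add (Nat.add (Nat.add (Nat.add (Nat.add (Nat.add (Nat.add (Nat.add (Nat.add (Nat.add C x24607) x15859) x10027) x11971) x11323) x11539) x11467) x11479) x11487) x31167) (Nat.mul x11485 (nat_lit 4)))
    (Nat.sub (Nat.add (Nat.add (Nat.add (Nat.add (Nat.add (Nat.add (Nat.add (Nat.add (Nat.add (Nat.add C x24609) x15861) x10029) x11973) x11325) x11541) x11469) x11481) x11493) x11485) (Nat.mul x11487 (nat_lit 3)))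
    (Nat.sub (Nat.add (Nat.add (Nat.add (Nat.add (Nat.add (Nat.add (Nat.add C x24615) x15867) x10035) x11979) x11331) x11547) x11487) (Nat.mul x11493 (nat_lit 2)))
    (Nat.sub (Nat.add (Nat.add (Nat.add (Nat.add (Nat.add (Nat.add (Nat.add (Nat.add (Nat.add C x24629) x15881) x10049) x11993) x11345) x11453) x11513) x11509) x31189) (Nat.mul x11507 (nat_lit 2)))
    (Nat.sub (Nat.add (Nat.add (Nat.add (Nat.add (Nat.add (Nat.add (Nat.add (Nat.add (Nat.add C x24631) x15883) x10051) x11995) x11347) x11455) x11515) x11507) x31191) (Nat.mul x11509 (nat_lit 2)))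
    (Nat.sub (Nat.add (Nat.add (Nat.add (Nat.add (Nat.add (Nat.add (Nat.add (Nat.add (Nat.add (Nat.add C x24635) x15887) x10055) x11999) x11351) x11459) x11531) x11507) x11515) x31195) (Nat.mul x11513 (nat_lit 4)))
    (Nat.sub (Nat.add (Nat.add (Nat.add (Nat.add (Nat.add (Nat.add (Nat.add (Nat.add (Nat.add (Nat.add (Nat.add (Nat.add C x24637) x15889) x10057) x12001) x11353) x11461) x11533) x11509) x11521) x11513) x11517) x31197) (Nat.mul x11515 (nat_lit 2)))
    (Nat.sub (Nat.add (Nat.add (Nat.add (Nat.add (Nat.add (Nat.add (Nat.add (Nat.add (Nat.add C x24639) x15891) x10059) x12003) x11355) x11463) x11535) x11523) x11515) (Nat.mul x11517 (nat_lit 2)))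
    (Nat.sub (Nat.add (Nat.add (Nat.add (Nat.add (Nat.add (Nat.add (Nat.add (Nat.add (Nat.add (Nat.add C x24643) x15895) x10063) x12007) x11359) x11467) x11539) x11515) x11523) x31203) (Nat.mul x11521 (nat_lit 4)))
    (Nat.sub (Nat.add (Nat.add (Nat.add (Nat.add (Nat.add (Nat.add (Nat.add (Nat.add (Nat.add C x24645) x15897) x10065) x12009) x11361) x11469) x11541) x11517) x11521) (Nat.mul x11523 (nat_lit 2)))
    (Nat.sub (Nat.add (Nat.add (Nat.add (Nat.add (Nat.add (Nat.add (Nat.add (Nat.add (Nat.add (Nat.add C x24653) x15905) x10073) x12017) x11369) x11477) x11585) x11513) x11533) x31213) (Nat.mul x11531 (nat_lit 3)))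
    (Nat.sub (Nat.add (Nat.add (Nat.add (Nat.add (Nat.add (Nat.add (Nat.add (Nat.add (Nat.add (Nat.add (Nat.add (Nat.add C x24655) x15907) x10075) x12019) x11371) x11479) x11587) x11515) x11539) x11531) x11535) x31215) (Nat.mul x11533 (nat_lit 2)))
    (Nat.sub (Nat.add (Nat.add (Nat.add (Nat.add (Nat.add (Nat.add (Nat.add (Nat.add (Nat.add (Nat.add C x24657) x15909) x10077) x12021) x11373) x11481) x11589) x11517) x11541) x11533) (Nat.mul x11535 (nat_lit 3)))
    (Nat.sub (Nat.add (Nat.add (Nat.add (Nat.add (Nat.add (Nat.add (Nat.add (Nat.add (Nat.add (Nat.add (Nat.add (Nat.add C x24661) x15913) x10081) x12025) x11377) x11485) x11593) x11521) x11557) x11533) x11541) x31221) (Nat.mul x11539 (nat_lit 2)))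
    (Nat.sub (Nat.add (Nat.add (Nat.add (Nat.add (Nat.add (Nat.add (Nat.add (Nat.add (Nat.add (Nat.add (Nat.add (Nat.add C x24663) x15915) x10083) x12027) x11379) x11487) x11595) x11523) x11559) x11535) x11547) x11539) x11541)
    (Nat.sub (Nat.add (Nat.add (Nat.add (Nat.add (Nat.add (Nat.add (Nat.add (Nat.add (Nat.add C x24669) x15921) x10089) x12033) x11385) x11493) x11601) x11565) x11541) x11547)
    (Nat.sub (Nat.add (Nat.add (Nat.add (Nat.add (Nat.add (Nat.add (Nat.add (Nat.add (Nat.add C x24679) x15931) x10099) x12043) x11395) x11611) x11539) x11559) x31239) (Nat.mul x11557 (nat_lit 2)))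
    (Nat.sub (Nat.add (Nat.add (Nat.add (Nat.add (Nat.add (Nat.add (Nat.add (Nat.add (Nat.add C x24681) x15933) x10101) x12045) x11397) x11613) x11541) x11565) x11557) (Nat.mul x11559 (nat_lit 2)))
    (Nat.add (Nat.add (Nat.add (Nat.add (Nat.add (Nat.add (Nat.add (Nat.add C x24687) x15939) x10107) x12051) x11403) x11619) x11547) x11559)
    (Nat.sub (Nat.add (Nat.add (Nat.add (Nat.add (Nat.add (Nat.add (Nat.add C x24707) x15959) x10127) x12071) x11531) x11587) x31267) (Nat.mul x11585 (nat_lit 2)))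
    (Nat.sub (Nat.add (Nat.add (Nat.add (Nat.add (Nat.add (Nat.add (Nat.add (Nat.add (Nat.add C x24709) x15961) x10129) x12073) x11533) x11593) x11585) x11589) x31269) x11587)
    (Nat.sub (Nat.add (Nat.add (Nat.add (Nat.add (Nat.add (Nat.add (Nat.add C x24711) x15963) x10131) x12075) x11535) x11595) x11587) (Nat.mul x11589 (nat_lit 2)))
    (Nat.sub (Nat.add (Nat.add (Nat.add (Nat.add (Nat.add (Nat.add (Nat.add (Nat.add (Nat.add C x24715) x15967) x10135) x12079) x11539) x11611) x11587) x11595) x31275) (Nat.mul x11593 (nat_lit 2)))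
    (Nat.sub (Nat.add (Nat.add (Nat.add (Nat.add (Nat.add (Nat.add (Nat.add (Nat.add (Nat.add C x24717) x15969) x10137) x12081) x11541) x11613) x11589) x11601) x11593) x11595)
    (Nat.sub (Nat.add (Nat.add (Nat.add (Nat.add (Nat.add (Nat.add (Nat.add C x24723) x15975) x10143) x12087) x11547) x11619) x11595) (Nat.mul x11601 (nat_lit 2)))
    (Nat.add (Nat.add (Nat.add (Nat.add (Nat.add (Nat.add (Nat.add (Nat.add C x24733) x15985) x10153) x12097) x11557) x11593) x11613) x31293)
    (Nat.add (Nat.add (Nat.add (Nat.add (Nat.add (Nat.add (Nat.add (Nat.add C x24735) x15987) x10155) x12099) x11559) x11595) x11619) x11611)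
    (Nat.add (Nat.add (Nat.add (Nat.add (Nat.add (Nat.add (Nat.add (Nat.add (Nat.add C x11619) x24741) x15993) x10161) x12105) x11565) x11601) x11637) x11613)
    (Nat.add (Nat.add (Nat.add (Nat.add (Nat.add (Nat.add C (Nat.mul x11637 (nat_lit 2))) x24759) x16011) x10179) x12123) x11619)
    (Nat.add (Nat.add (Nat.add (Nat.add (Nat.add (Nat.add (Nat.add (Nat.add C (Nat.mul x11681 (nat_lit 2))) x24803) x16055) x10223) x11195) x11699) x11687) x31363)
    (Nat.add (Nat.add (Nat.add (Nat.add (Nat.add (Nat.add (Nat.add (Nat.add C x24809) x16061) x10229) x11201) x11705) x11681) x11689) x31369)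
    (Nat.add (Nat.add (Nat.add (Nat.add (Nat.add (Nat.add (Nat.add (Nat.add C (Nat.mul x11689 (nat_lit 2))) x24811) x16063) x10231) x11203) x11707) x11687) x31371)
    (Nat.add (Nat.add (Nat.add (Nat.add (Nat.add (Nat.add (Nat.add (Nat.add C x24821) x16073) x10241) x11213) x11753) x11681) x11705) x31381)
    (Nat.add (Nat.add (Nat.add (Nat.add (Nat.add (Nat.add (Nat.add (Nat.add (Nat.add (Nat.add (Nat.add C x24827) x16079) x10247) x11219) x11759) x11687) x11723) x11699) x11711) x11707) x31387)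
    (Nat.add (Nat.add (Nat.add (Nat.add (Nat.add (Nat.add (Nat.add (Nat.add (Nat.add (Nat.add (Nat.add C x11707) x24829) x16081) x10249) x11221) x11761) x11689) x11725) x11713) x11705) x31389)
    (Nat.sub (Nat.add (Nat.add (Nat.add (Nat.add (Nat.add (Nat.add (Nat.add (Nat.add (Nat.add C x24833) x16085) x10253) x11225) x11765) x11729) x11705) x11713) x31393) (Nat.mul x11711 (nat_lit 2)))
    (Nat.add (Nat.add (Nat.add (Nat.add (Nat.add (Nat.add (Nat.add (Nat.add (Nat.add (Nat.add (Nat.add C x11713) x24835) x16087) x10255) x11227) x11767) x11731) x11707) x11711) x11715) x31395)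
    (Nat.add (Nat.add (Nat.add (Nat.add (Nat.add (Nat.add (Nat.add (Nat.add C (Nat.mul x11715 (nat_lit 2))) x24837) x16089) x10257) x11229) x11769) x11733) x11713)
    (Nat.sub (Nat.add (Nat.add (Nat.add (Nat.add (Nat.add (Nat.add (Nat.add (Nat.add (Nat.add C x24845) x16097) x10265) x11237) x11777) x11705) x11729) x11725) x31405) (Nat.mul x11723 (nat_lit 2)))
    (Nat.sub (Nat.add (Nat.add (Nat.add (Nat.add (Nat.add (Nat.add (Nat.add (Nat.add (Nat.add C x24847) x16099) x10267) x11239) x11779) x11707) x11731) x11723) x31407) (Nat.mul x11725 (nat_lit 2)))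
    (Nat.sub (Nat.add (Nat.add (Nat.add (Nat.add (Nat.add (Nat.add (Nat.add (Nat.add (Nat.add C x24851) x16103) x10271) x11243) x11783) x11711) x11723) x11731) x31411) (Nat.mul x11729 (nat_lit 2)))
    (Nat.add (Nat.add (Nat.add (Nat.add (Nat.add (Nat.add (Nat.add (Nat.add (Nat.add (Nat.add (Nat.add C x24853) x16105) x10273) x11245) x11785) x11713) x11725) x11737) x11729) x11733) x31413)
    (Nat.add (Nat.add (Nat.add (Nat.add (Nat.add (Nat.add (Nat.add (Nat.add C x24855) x16107) x10275) x11247) x11787) x11715) x11739) x11731)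
    (Nat.add (Nat.add (Nat.add (Nat.add (Nat.add (Nat.add (Nat.add (Nat.add C x24859) x16111) x10279) x11251) x11791) x11731) x11739) x31419)
    (Nat.add (Nat.add (Nat.add (Nat.add (Nat.add (Nat.add (Nat.add (Nat.add C (Nat.mul x11739 (nat_lit 2))) x24861) x16113) x10281) x11253) x11793) x11733) x11737)
    (Nat.add (Nat.add (Nat.add (Nat.add (Nat.add (Nat.add (Nat.add (Nat.add C x24875) x16127) x10295) x11267) x11915) x11699) x11759) x31435)
    (Nat.sub (Nat.add (Nat.add (Nat.add (Nat.add (Nat.add (Nat.add (Nat.add (Nat.add (Nat.add (Nat.add (Nat.add C x24881) x16133) x10301) x11273) x11921) x11705) x11777) x11753) x11765) x11761) x31441) x11759)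
    (Nat.add (Nat.add (Nat.add (Nat.add (Nat.add (Nat.add (Nat.add (Nat.add (Nat.add (Nat.add C x24883) x16135) x10303) x11275) x11923) x11707) x11779) x11767) x11759) x31443)
    (Nat.sub (Nat.add (Nat.add (Nat.add (Nat.add (Nat.add (Nat.add (Nat.add (Nat.add (Nat.add (Nat.add C x24887) x16139) x10307) x11279) x11927) x11711) x11783) x11759) x11767) x31447) (Nat.mul x11765 (nat_lit 4)))
    (Nat.sub (Nat.add (Nat.add (Nat.add (Nat.add (Nat.add (Nat.add (Nat.add (Nat.add (Nat.add (Nat.add (Nat.add C x24889) x16141) x10309) x11281) x11929) x11713) x11785) x11761) x11765) x11769) x31449) x11767)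
    (Nat.add (Nat.add (Nat.add (Nat.add (Nat.add (Nat.add (Nat.add (Nat.add C x24891) x16143) x10311) x11283) x11931) x11715) x11787) x11767)
    (Nat.sub (Nat.add (Nat.add (Nat.add (Nat.add (Nat.add (Nat.add (Nat.add (Nat.add (Nat.add (Nat.add (Nat.add C x24899) x16151) x10319) x11291) x11939) x11723) x11831) x11759) x11783) x11779) x31459) x11777)
    (Nat.sub (Nat.add (Nat.add (Nat.add (Nat.add (Nat.add (Nat.add (Nat.add (Nat.add (Nat.add (Nat.add (Nat.add C x24901) x16153) x10321) x11293) x11941) x11725) x11833) x11761) x11785) x11777) x31461) x11779)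
    (Nat.sub (Nat.add (Nat.add (Nat.add (Nat.add (Nat.add (Nat.add (Nat.add (Nat.add (Nat.add (Nat.add (Nat.add (Nat.add C x24905) x16157) x10325) x11297) x11945) x11729) x11837) x11765) x11801) x11777) x11785) x31465) (Nat.mul x11783 (nat_lit 2)))
    (Nat.add (Nat.add (Nat.add (Nat.add (Nat.add (Nat.add (Nat.add (Nat.add (Nat.add (Nat.add (Nat.add (Nat.add (Nat.add (Nat.add C x24907) x16159) x10327) x11299) x11947) x11731) x11839) x11767) x11803) x11779) x11791) x11783) x11787) x31467)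
    (Nat.add (Nat.add (Nat.add (Nat.add (Nat.add (Nat.add (Nat.add (Nat.add (Nat.add (Nat.add (Nat.add C x24909) x16161) x10329) x11301) x11949) x11733) x11841) x11769) x11805) x11793) x11785)
    (Nat.sub (Nat.add (Nat.add (Nat.add (Nat.add (Nat.add (Nat.add (Nat.add (Nat.add (Nat.add (Nat.add (Nat.add C x24913) x16165) x10333) x11305) x11953) x11737) x11845) x11809) x11785) x11793) x31473) x11791)
    (Nat.add (Nat.add (Nat.add (Nat.add (Nat.add (Nat.add (Nat.add (Nat.add (Nat.add (Nat.add (Nat.add C x11793) x24915) x16167) x10335) x11307) x11955) x11739) x11847) x11811) x11787) x11791)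
    (Nat.sub (Nat.add (Nat.add (Nat.add (Nat.add (Nat.add (Nat.add (Nat.add (Nat.add (Nat.add C x24923) x16175) x10343) x11315) x11963) x11855) x11783) x11803) x31483) (Nat.mul x11801 (nat_lit 2)))
    (Nat.sub (Nat.add (Nat.add (Nat.add (Nat.add (Nat.add (Nat.add (Nat.add (Nat.add (Nat.add (Nat.add (Nat.add C x24925) x16177) x10345) x11317) x11965) x11857) x11785) x11809) x11801) x11805) x31485) x11803)
    (Nat.sub (Nat.add (Nat.add (Nat.add (Nat.add (Nat.add (Nat.add (Nat.add (Nat.add (Nat.add C x24927) x16179) x10347) x11319) x11967) x11859) x11787) x11811) x11803) (Nat.mul x11805 (nat_lit 2)))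
    (Nat.add (Nat.add (Nat.add (Nat.add (Nat.add (Nat.add (Nat.add (Nat.add (Nat.add (Nat.add C x24931) x16183) x10351) x11323) x11971) x11863) x11791) x11803) x11811) x31491)
    (Nat.add (Nat.add (Nat.add (Nat.add (Nat.add (Nat.add (Nat.add (Nat.add (Nat.add (Nat.add (Nat.add C x11811) x24933) x16185) x10353) x11325) x11973) x11865) x11793) x11805) x11817) x11809)
    (Nat.add (Nat.add (Nat.add (Nat.add (Nat.add (Nat.add (Nat.add (Nat.add C (Nat.mul x11817 (nat_lit 2))) x24939) x16191) x10359) x11331) x11979) x11871) x11811)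
    (Nat.sub (Nat.add (Nat.add (Nat.add (Nat.add (Nat.add (Nat.add (Nat.add (Nat.add (Nat.add C x24953) x16205) x10373) x11345) x11993) x11777) x11837) x11833) x31513) (Nat.mul x11831 (nat_lit 2)))
    (Nat.sub (Nat.add (Nat.add (Nat.add (Nat.add (Nat.add (Nat.add (Nat.add (Nat.add (Nat.add C x24955) x16207) x10375) x11347) x11995) x11779) x11839) x11831) x31515) (Nat.mul x11833 (nat_lit 2)))
    (Nat.sub (Nat.add (Nat.add (Nat.add (Nat.add (Nat.add (Nat.add (Nat.add (Nat.add (Nat.add (Nat.add C x24959) x16211) x10379) x11351) x11999) x11783) x11855) x11831) x11839) x31519) (Nat.mul x11837 (nat_lit 4)))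
    (Nat.sub (Nat.add (Nat.add (Nat.add (Nat.add (Nat.add (Nat.add (Nat.add (Nat.add (Nat.add (Nat.add (Nat.add (Nat.add C x24961) x16213) x10381) x11353) x12001) x11785) x11857) x11833) x11845) x11837) x11841) x31521) (Nat.mul x11839 (nat_lit 2)))
    (Nat.sub (Nat.add (Nat.add (Nat.add (Nat.add (Nat.add (Nat.add (Nat.add (Nat.add (Nat.add C x24963) x16215) x10383) x11355) x12003) x11787) x11859) x11847) x11839) (Nat.mul x11841 (nat_lit 2)))
    (Nat.sub (Nat.add (Nat.add (Nat.add (Nat.add (Nat.add (Nat.add (Nat.add (Nat.add (Nat.add (Nat.add C x24967) x16219) x10387) x11359) x12007) x11791) x11863) x11839) x11847) x31527) (Nat.mul x11845 (nat_lit 4)))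
    (Nat.sub (Nat.add (Nat.add (Nat.add (Nat.add (Nat.add (Nat.add (Nat.add (Nat.add (Nat.add C x24969) x16221) x10389) x11361) x12009) x11793) x11865) x11841) x11845) (Nat.mul x11847 (nat_lit 2)))
    (Nat.sub (Nat.add (Nat.add (Nat.add (Nat.add (Nat.add (Nat.add (Nat.add (Nat.add (Nat.add C x24977) x16229) x10397) x11369) x12017) x11801) x11837) x11857) x31537) (Nat.mul x11855 (nat_lit 2)))
    (Nat.sub (Nat.add (Nat.add (Nat.add (Nat.add (Nat.add (Nat.add (Nat.add (Nat.add (Nat.add (Nat.add (Nat.add C x24979) x16231) x10399) x11371) x12019) x11803) x11839) x11863) x11855) x11859) x31539) x11857)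
    (Nat.sub (Nat.add (Nat.add (Nat.add (Nat.add (Nat.add (Nat.add (Nat.add (Nat.add (Nat.add C x24981) x16233) x10401) x11373) x12021) x11805) x11841) x11865) x11857) (Nat.mul x11859 (nat_lit 2)))
    (Nat.sub (Nat.add (Nat.add (Nat.add (Nat.add (Nat.add (Nat.add (Nat.add (Nat.add (Nat.add (Nat.add (Nat.add C x24985) x16237) x10405) x11377) x12025) x11809) x11845) x11881) x11857) x11865) x31545) x11863)
    (Nat.add (Nat.add (Nat.add (Nat.add (Nat.add (Nat.add (Nat.add (Nat.add (Nat.add (Nat.add (Nat.add C x24987) x16239) x10407) x11379) x12027) x11811) x11847) x11883) x11859) x11871) x11863)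
    (Nat.add (Nat.add (Nat.add (Nat.add (Nat.add (Nat.add (Nat.add (Nat.add C x24993) x16245) x10413) x11385) x12033) x11817) x11889) x11865)
    (Nat.add (Nat.add (Nat.add (Nat.add (Nat.add (Nat.add (Nat.add (Nat.add C x25003) x16255) x10423) x11395) x12043) x11863) x11883) x31563)
    (Nat.add (Nat.add (Nat.add (Nat.add (Nat.add (Nat.add (Nat.add (Nat.add C x25005) x16257) x10425) x11397) x12045) x11865) x11889) x11881)
    (Nat.add (Nat.add (Nat.add (Nat.add (Nat.add (Nat.add (Nat.add (Nat.add C (Nat.mul x11889 (nat_lit 2))) x25011) x16263) x10431) x11403) x12051) x11871) x11883)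
    (Nat.add (Nat.add (Nat.add (Nat.add (Nat.add (Nat.add (Nat.add (Nat.add (Nat.add C x11915) x25037) x16289) x10457) x11429) x12401) x11753) x11921) x31597)
    (Nat.add (Nat.add (Nat.add (Nat.add (Nat.add (Nat.add (Nat.add (Nat.add (Nat.add (Nat.add (Nat.add C x25043) x16295) x10463) x11435) x12407) x11759) x11939) x11915) x11927) x11923) x31603)
    (Nat.add (Nat.add (Nat.add (Nat.add (Nat.add (Nat.add (Nat.add (Nat.add (Nat.add (Nat.add (Nat.add C x11923) x25045) x16297) x10465) x11437) x12409) x11761) x11941) x11929) x11921) x31605)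
    (Nat.sub (Nat.add (Nat.add (Nat.add (Nat.add (Nat.add (Nat.add (Nat.add (Nat.add (Nat.add (Nat.add C x25049) x16301) x10469) x11441) x12413) x11765) x11945) x11921) x11929) x31609) (Nat.mul x11927 (nat_lit 3)))
    (Nat.add (Nat.add (Nat.add (Nat.add (Nat.add (Nat.add (Nat.add (Nat.add (Nat.add (Nat.add (Nat.add C x25051) x16303) x10471) x11443) x12415) x11767) x11947) x11923) x11927) x11931) x31611)
    (Nat.add (Nat.add (Nat.add (Nat.add (Nat.add (Nat.add (Nat.add (Nat.add (Nat.add C x11931) x25053) x16305) x10473) x11445) x12417) x11769) x11949) x11929)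
    (Nat.sub (Nat.add (Nat.add (Nat.add (Nat.add (Nat.add (Nat.add (Nat.add (Nat.add (Nat.add (Nat.add (Nat.add C x25061) x16313) x10481) x11453) x12425) x11777) x11993) x11921) x11945) x11941) x31621) x11939)
    (Nat.sub (Nat.add (Nat.add (Nat.add (Nat.add (Nat.add (Nat.add (Nat.add (Nat.add (Nat.add (Nat.add (Nat.add C x25063) x16315) x10483) x11455) x12427) x11779) x11995) x11923) x11947) x11939) x31623) x11941)
    (Nat.sub (Nat.add (Nat.add (Nat.add (Nat.add (Nat.add (Nat.add (Nat.add (Nat.add (Nat.add (Nat.add (Nat.add (Nat.add C x25067) x16319) x10487) x11459) x12431) x11783) x11999) x11927) x11963) x11939) x11947) x31627) (Nat.mul x11945 (nat_lit 2)))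
    (Nat.add (Nat.add (Nat.add (Nat.add (Nat.add (Nat.add (Nat.add (Nat.add (Nat.add (Nat.add (Nat.add (Nat.add (Nat.add (Nat.add C x25069) x16321) x10489) x11461) x12433) x11785) x12001) x11929) x11965) x11941) x11953) x11945) x11949) x31629)
    (Nat.add (Nat.add (Nat.add (Nat.add (Nat.add (Nat.add (Nat.add (Nat.add (Nat.add (Nat.add (Nat.add C x25071) x16323) x10491) x11463) x12435) x11787) x12003) x11931) x11967) x11955) x11947)
    (Nat.sub (Nat.add (Nat.add (Nat.add (Nat.add (Nat.add (Nat.add (Nat.add (Nat.add (Nat.add (Nat.add (Nat.add C x25075) x16327) x10495) x11467) x12439) x11791) x12007) x11971) x11947) x11955) x31635) x11953)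
    (Nat.add (Nat.add (Nat.add (Nat.add (Nat.add (Nat.add (Nat.add (Nat.add (Nat.add (Nat.add (Nat.add C x11955) x25077) x16329) x10497) x11469) x12441) x11793) x12009) x11973) x11949) x11953)
    (Nat.sub (Nat.add (Nat.add (Nat.add (Nat.add (Nat.add (Nat.add (Nat.add (Nat.add (Nat.add (Nat.add C x25085) x16337) x10505) x11477) x12449) x11801) x12017) x11945) x11965) x31645) (Nat.mul x11963 (nat_lit 3)))
    (Nat.sub (Nat.add (Nat.add (Nat.add (Nat.add (Nat.add (Nat.add (Nat.add (Nat.add (Nat.add (Nat.add (Nat.add (Nat.add C x25087) x16339) x10507) x11479) x12451) x11803) x12019) x11947) x11971) x11963) x11967) x31647) (Nat.mul x11965 (nat_lit 2)))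
    (Nat.sub (Nat.add (Nat.add (Nat.add (Nat.add (Nat.add (Nat.add (Nat.add (Nat.add (Nat.add (Nat.add C x25089) x16341) x10509) x11481) x12453) x11805) x12021) x11949) x11973) x11965) (Nat.mul x11967 (nat_lit 3)))
    (Nat.sub (Nat.add (Nat.add (Nat.add (Nat.add (Nat.add (Nat.add (Nat.add (Nat.add (Nat.add (Nat.add (Nat.add C x25093) x16345) x10513) x11485) x12457) x11809) x12025) x11953) x11965) x11973) x31653) x11971)
    (Nat.add (Nat.add (Nat.add (Nat.add (Nat.add (Nat.add (Nat.add (Nat.add (Nat.add (Nat.add (Nat.add C x25095) x16347) x10515) x11487) x12459) x11811) x12027) x11955) x11967) x11979) x11971)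
    (Nat.add (Nat.add (Nat.add (Nat.add (Nat.add (Nat.add (Nat.add (Nat.add (Nat.add C x11979) x25101) x16353) x10521) x11493) x12465) x11817) x12033) x11973)
    (Nat.add (Nat.add (Nat.add (Nat.add (Nat.add (Nat.add (Nat.add (Nat.add (Nat.add (Nat.add (Nat.add C x25115) x16367) x10535) x11507) x12479) x11831) x12155) x11939) x11999) x11995) x31675)
    (Nat.add (Nat.add (Nat.add (Nat.add (Nat.add (Nat.add (Nat.add (Nat.add (Nat.add (Nat.add (Nat.add C x25117) x16369) x10537) x11509) x12481) x11833) x12157) x11941) x12001) x11993) x31677)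
    (Nat.sub (Nat.add (Nat.add (Nat.add (Nat.add (Nat.add (Nat.add (Nat.add (Nat.add (Nat.add (Nat.add (Nat.add (Nat.add C x25121) x16373) x10541) x11513) x12485) x11837) x12161) x11945) x12017) x11993) x12001) x31681) (Nat.mul x11999 (nat_lit 2)))
    (Nat.add (Nat.add (Nat.add (Nat.add (Nat.add (Nat.add (Nat.add (Nat.add (Nat.add (Nat.add (Nat.add (Nat.add (Nat.add (Nat.add C x25123) x16375) x10543) x11515) x12487) x11839) x12163) x11947) x12019) x11995) x12007) x11999) x12003) x31683)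
    (Nat.add (Nat.add (Nat.add (Nat.add (Nat.add (Nat.add (Nat.add (Nat.add (Nat.add (Nat.add (Nat.add C x25125) x16377) x10545) x11517) x12489) x11841) x12165) x11949) x12021) x12009) x12001)
    (Nat.sub (Nat.add (Nat.add (Nat.add (Nat.add (Nat.add (Nat.add (Nat.add (Nat.add (Nat.add (Nat.add (Nat.add (Nat.add C x25129) x16381) x10549) x11521) x12493) x11845) x12169) x11953) x12025) x12001) x12009) x31689) (Nat.mul x12007 (nat_lit 2)))
    (Nat.add (Nat.add (Nat.add (Nat.add (Nat.add (Nat.add (Nat.add (Nat.add (Nat.add (Nat.add (Nat.add C x25131) x16383) x10551) x11523) x12495) x11847) x12171) x11955) x12027) x12003) x12007)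
    (Nat.sub (Nat.add (Nat.add (Nat.add (Nat.add (Nat.add (Nat.add (Nat.add (Nat.add (Nat.add (Nat.add (Nat.add (Nat.add C x25139) x16391) x10559) x11531) x12503) x11855) x12179) x11963) x12071) x11999) x12019) x31699) x12017)
    (Nat.add (Nat.add (Nat.add (Nat.add (Nat.add (Nat.add (Nat.add (Nat.add (Nat.add (Nat.add (Nat.add (Nat.add (Nat.add (Nat.add C x25141) x16393) x10561) x11533) x12505) x11857) x12181) x11965) x12073) x12001) x12025) x12017) x12021) x31701)
    (Nat.sub (Nat.add (Nat.add (Nat.add (Nat.add (Nat.add (Nat.add (Nat.add (Nat.add (Nat.add (Nat.add (Nat.add (Nat.add C x25143) x16395) x10563) x11535) x12507) x11859) x12183) x11967) x12075) x12003) x12027) x12019) x12021)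
    (Nat.add (Nat.add (Nat.add (Nat.add (Nat.add (Nat.add (Nat.add (Nat.add (Nat.add (Nat.add (Nat.add (Nat.add (Nat.add (Nat.add C x25147) x16399) x10567) x11539) x12511) x11863) x12187) x11971) x12079) x12007) x12043) x12019) x12027) x31707)
    (Nat.add (Nat.add (Nat.add (Nat.add (Nat.add (Nat.add (Nat.add (Nat.add (Nat.add (Nat.add (Nat.add (Nat.add (Nat.add (Nat.add (Nat.add C x12027) x25149) x16401) x10569) x11541) x12513) x11865) x12189) x11973) x12081) x12009) x12045) x12021) x12033) x12025)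
    (Nat.add (Nat.add (Nat.add (Nat.add (Nat.add (Nat.add (Nat.add (Nat.add (Nat.add (Nat.add (Nat.add (Nat.add C x12033) x25155) x16407) x10575) x11547) x12519) x11871) x12195) x11979) x12087) x12051) x12027)
    (Nat.add (Nat.add (Nat.add (Nat.add (Nat.add (Nat.add (Nat.add (Nat.add (Nat.add (Nat.add (Nat.add C x25165) x16417) x10585) x11557) x12529) x11881) x12205) x12097) x12025) x12045) x31725)
    (Nat.add (Nat.add (Nat.add (Nat.add (Nat.add (Nat.add (Nat.add (Nat.add (Nat.add (Nat.add (Nat.add C x25167) x16419) x10587) x11559) x12531) x11883) x12207) x12099) x12027) x12051) x12043)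
    (Nat.add (Nat.add (Nat.add (Nat.add (Nat.add (Nat.add (Nat.add (Nat.add (Nat.add (Nat.add (Nat.add C (Nat.mul x12051 (nat_lit 2))) x25173) x16425) x10593) x11565) x12537) x11889) x12213) x12105) x12033) x12045)
    (Nat.sub (Nat.add (Nat.add (Nat.add (Nat.add (Nat.add (Nat.add (Nat.add (Nat.add (Nat.add C x25193) x16445) x10613) x11585) x12557) x12233) x12017) x12073) x31753) x12071)
    (Nat.add (Nat.add (Nat.add (Nat.add (Nat.add (Nat.add (Nat.add (Nat.add (Nat.add (Nat.add (Nat.add C x25195) x16447) x10615) x11587) x12559) x12235) x12019) x12079) x12071) x12075) x31755)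
    (Nat.sub (Nat.add (Nat.add (Nat.add (Nat.add (Nat.add (Nat.add (Nat.add (Nat.add (Nat.add C x25197) x16449) x10617) x11589) x12561) x12237) x12021) x12081) x12073) x12075)
    (Nat.sub (Nat.add (Nat.add (Nat.add (Nat.add (Nat.add (Nat.add (Nat.add (Nat.add (Nat.add (Nat.add (Nat.add C x25201) x16453) x10621) x11593) x12565) x12241) x12025) x12097) x12073) x12081) x31761) x12079)
    (Nat.add (Nat.add (Nat.add (Nat.add (Nat.add (Nat.add (Nat.add (Nat.add (Nat.add (Nat.add (Nat.add C x25203) x16455) x10623) x11595) x12567) x12243) x12027) x12099) x12075) x12087) x12079)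
    (Nat.sub (Nat.add (Nat.add (Nat.add (Nat.add (Nat.add (Nat.add (Nat.add (Nat.add (Nat.add C x25209) x16461) x10629) x11601) x12573) x12249) x12033) x12105) x12081) x12087)
    (Nat.add (Nat.add (Nat.add (Nat.add (Nat.add (Nat.add (Nat.add (Nat.add (Nat.add (Nat.add (Nat.add C x12097) x25219) x16471) x10639) x11611) x12583) x12259) x12043) x12079) x12099) x31779)
    (Nat.add (Nat.add (Nat.add (Nat.add (Nat.add (Nat.add (Nat.add (Nat.add (Nat.add (Nat.add (Nat.add C x12099) x25221) x16473) x10641) x11613) x12585) x12261) x12045) x12081) x12105) x12097)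
    (Nat.add (Nat.add (Nat.add (Nat.add (Nat.add (Nat.add (Nat.add (Nat.add (Nat.add (Nat.add (Nat.add C (Nat.mul x12105 (nat_lit 2))) x25227) x16479) x10647) x11619) x12591) x12267) x12051) x12087) x12123) x12099)
    (Nat.add (Nat.add (Nat.add (Nat.add (Nat.add (Nat.add (Nat.add (Nat.add C (Nat.mul x12123 (nat_lit 3))) x25245) x16497) x10665) x11637) x12609) x12285) x12105)
    (Nat.add (Nat.add (Nat.add (Nat.add (Nat.add (Nat.add (Nat.add (Nat.add C x25277) x16529) x10697) x12641) x11993) x12161) x12157) x31837)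
    (Nat.add (Nat.add (Nat.add (Nat.add (Nat.add (Nat.add (Nat.add (Nat.add C x25279) x16531) x10699) x12643) x11995) x12163) x12155) x31839)
    (Nat.sub (Nat.add (Nat.add (Nat.add (Nat.add (Nat.add (Nat.add (Nat.add (Nat.add (Nat.add C x25283) x16535) x10703) x12647) x11999) x12179) x12155) x12163) x31843) (Nat.mul x12161 (nat_lit 2)))
    (Nat.add (Nat.add (Nat.add (Nat.add (Nat.add (Nat.add (Nat.add (Nat.add (Nat.add (Nat.add (Nat.add C x25285) x16537) x10705) x12649) x12001) x12181) x12157) x12169) x12161) x12165) x31845)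
    (Nat.add (Nat.add (Nat.add (Nat.add (Nat.add (Nat.add (Nat.add (Nat.add C x25287) x16539) x10707) x12651) x12003) x12183) x12171) x12163)
    (Nat.sub (Nat.add (Nat.add (Nat.add (Nat.add (Nat.add (Nat.add (Nat.add (Nat.add (Nat.add C x25291) x16543) x10711) x12655) x12007) x12187) x12163) x12171) x31851) (Nat.mul x12169 (nat_lit 2)))
    (Nat.add (Nat.add (Nat.add (Nat.add (Nat.add (Nat.add (Nat.add (Nat.add C x25293) x16545) x10713) x12657) x12009) x12189) x12165) x12169)
    (Nat.sub (Nat.add (Nat.add (Nat.add (Nat.add (Nat.add (Nat.add (Nat.add (Nat.add (Nat.add C x25301) x16553) x10721) x12665) x12017) x12233) x12161) x12181) x31861) (Nat.mul x12179 (nat_lit 2)))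
    (Nat.sub (Nat.add (Nat.add (Nat.add (Nat.add (Nat.add (Nat.add (Nat.add (Nat.add (Nat.add (Nat.add (Nat.add C x25303) x16555) x10723) x12667) x12019) x12235) x12163) x12187) x12179) x12183) x31863) x12181)
    (Nat.sub (Nat.add (Nat.add (Nat.add (Nat.add (Nat.add (Nat.add (Nat.add (Nat.add (Nat.add C x25305) x16557) x10725) x12669) x12021) x12237) x12165) x12189) x12181) (Nat.mul x12183 (nat_lit 2)))
    (Nat.sub (Nat.add (Nat.add (Nat.add (Nat.add (Nat.add (Nat.add (Nat.add (Nat.add (Nat.add (Nat.add (Nat.add C x25309) x16561) x10729) x12673) x12025) x12241) x12169) x12205) x12181) x12189) x31869) x12187)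
    (Nat.add (Nat.add (Nat.add (Nat.add (Nat.add (Nat.add (Nat.add (Nat.add (Nat.add (Nat.add (Nat.add C x25311) x16563) x10731) x12675) x12027) x12243) x12171) x12207) x12183) x12195) x12187)
    (Nat.add (Nat.add (Nat.add (Nat.add (Nat.add (Nat.add (Nat.add (Nat.add C x25317) x16569) x10737) x12681) x12033) x12249) x12213) x12189)
    (Nat.sub (Nat.add (Nat.add (Nat.add (Nat.add (Nat.add (Nat.add (Nat.add (Nat.add (Nat.add C x25327) x16579) x10747) x12691) x12043) x12259) x12187) x12207) x31887) (Nat.mul x12205 (nat_lit 2)))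
    (Nat.sub (Nat.add (Nat.add (Nat.add (Nat.add (Nat.add (Nat.add (Nat.add (Nat.add (Nat.add C x25329) x16581) x10749) x12693) x12045) x12261) x12189) x12213) x12205) (Nat.mul x12207 (nat_lit 2)))
    (Nat.add (Nat.add (Nat.add (Nat.add (Nat.add (Nat.add (Nat.add (Nat.add C x25335) x16587) x10755) x12699) x12051) x12267) x12195) x12207)
    (Nat.add (Nat.add (Nat.add (Nat.add (Nat.add (Nat.add (Nat.add (Nat.add C x25355) x16607) x10775) x12719) x12071) x12179) x12235) x31915)
    (Nat.add (Nat.add (Nat.add (Nat.add (Nat.add (Nat.add (Nat.add (Nat.add (Nat.add (Nat.add (Nat.add C x12235) x25357) x16609) x10777) x12721) x12073) x12181) x12241) x12233) x12237) x31917)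
    (Nat.add (Nat.add (Nat.add (Nat.add (Nat.add (Nat.add (Nat.add (Nat.add C x25359) x16611) x10779) x12723) x12075) x12183) x12243) x12235)
    (Nat.add (Nat.add (Nat.add (Nat.add (Nat.add (Nat.add (Nat.add (Nat.add (Nat.add (Nat.add C x25363) x16615) x10783) x12727) x12079) x12187) x12259) x12235) x12243) x31923)
    (Nat.add (Nat.add (Nat.add (Nat.add (Nat.add (Nat.add (Nat.add (Nat.add (Nat.add (Nat.add (Nat.add C x12243) x25365) x16617) x10785) x12729) x12081) x12189) x12261) x12237) x12249) x12241)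
    (Nat.add (Nat.add (Nat.add (Nat.add (Nat.add (Nat.add (Nat.add (Nat.add C x25371) x16623) x10791) x12735) x12087) x12195) x12267) x12243)
    (Nat.add (Nat.add (Nat.add (Nat.add (Nat.add (Nat.add (Nat.add (Nat.add (Nat.add (Nat.add (Nat.add C x12259) x25381) x16633) x10801) x12745) x12097) x12205) x12313) x12241) x12261) x31941)
    (Nat.add (Nat.add (Nat.add (Nat.add (Nat.add (Nat.add (Nat.add (Nat.add (Nat.add (Nat.add (Nat.add C x12261) x25383) x16635) x10803) x12747) x12099) x12207) x12315) x12243) x12267) x12259)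
    (Nat.add (Nat.add (Nat.add (Nat.add (Nat.add (Nat.add (Nat.add (Nat.add (Nat.add (Nat.add (Nat.add C (Nat.mul x12267 (nat_lit 2))) x25389) x16641) x10809) x12753) x12105) x12213) x12321) x12249) x12285) x12261)
    (Nat.add (Nat.add (Nat.add (Nat.add (Nat.add (Nat.add (Nat.add (Nat.add C (Nat.mul x12285 (nat_lit 2))) x25407) x16659) x10827) x12771) x12123) x12339) x12267)
    (Nat.add (Nat.add (Nat.add (Nat.add (Nat.add (Nat.add (Nat.add (Nat.add C (Nat.mul x12313 (nat_lit 2))) x25435) x16687) x10855) x12799) x12259) x12315) x31995)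
    (Nat.add (Nat.add (Nat.add (Nat.add (Nat.add (Nat.add (Nat.add (Nat.add C (Nat.mul x12315 (nat_lit 2))) x25437) x16689) x10857) x12801) x12261) x12321) x12313)
    (Nat.add (Nat.add (Nat.add (Nat.add (Nat.add (Nat.add (Nat.add (Nat.add C (Nat.mul x12321 (nat_lit 2))) x25443) x16695) x10863) x12807) x12267) x12339) x12315)
    (Nat.add (Nat.add (Nat.add (Nat.add (Nat.add (Nat.add (Nat.add C (Nat.mul x12339 (nat_lit 4))) x25461) x16713) x10881) x12825) x12285) x12321)
    (Nat.add (Nat.add (Nat.add (Nat.add (Nat.add (Nat.add C (Nat.mul x12401 (nat_lit 2))) x25523) x16775) x11915) x12407) x32083)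
    (Nat.add (Nat.add (Nat.add (Nat.add (Nat.add (Nat.add (Nat.add (Nat.add (Nat.add C x12407) x25529) x16781) x11921) x12425) x12401) x12413) x12409) x32089)
    (Nat.add (Nat.add (Nat.add (Nat.add (Nat.add (Nat.add (Nat.add (Nat.add C (Nat.mul x12409 (nat_lit 2))) x25531) x16783) x11923) x12427) x12415) x12407) x32091)
    (Nat.sub (Nat.add (Nat.add (Nat.add (Nat.add (Nat.add (Nat.add (Nat.add C x25535) x16787) x11927) x12431) x12407) x12415) x32095) (Nat.mul x12413 (nat_lit 2)))
    (Nat.add (Nat.add (Nat.add (Nat.add (Nat.add (Nat.add (Nat.add (Nat.add (Nat.add C x12415) x25537) x16789) x11929) x12433) x12409) x12413) x12417) x32097)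
    (Nat.add (Nat.add (Nat.add (Nat.add (Nat.add (Nat.add C (Nat.mul x12417 (nat_lit 2))) x25539) x16791) x11931) x12435) x12415)
    (Nat.add (Nat.add (Nat.add (Nat.add (Nat.add (Nat.add (Nat.add (Nat.add C x25547) x16799) x11939) x12479) x12407) x12431) x12427) x32107)
    (Nat.add (Nat.add (Nat.add (Nat.add (Nat.add (Nat.add (Nat.add (Nat.add C x25549) x16801) x11941) x12481) x12409) x12433) x12425) x32109)
    (Nat.sub (Nat.add (Nat.add (Nat.add (Nat.add (Nat.add (Nat.add (Nat.add (Nat.add (Nat.add C x25553) x16805) x11945) x12485) x12413) x12449) x12425) x12433) x32113) x12431)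
    (Nat.add (Nat.add (Nat.add (Nat.add (Nat.add (Nat.add (Nat.add (Nat.add (Nat.add (Nat.add (Nat.add (Nat.add C x12433) x25555) x16807) x11947) x12487) x12415) x12451) x12427) x12439) x12431) x12435) x32115)
    (Nat.add (Nat.add (Nat.add (Nat.add (Nat.add (Nat.add (Nat.add (Nat.add (Nat.add C x12435) x25557) x16809) x11949) x12489) x12417) x12453) x12441) x12433)
    (Nat.add (Nat.add (Nat.add (Nat.add (Nat.add (Nat.add (Nat.add (Nat.add C x25561) x16813) x11953) x12493) x12457) x12433) x12441) x32121)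
    (Nat.add (Nat.add (Nat.add (Nat.add (Nat.add (Nat.add (Nat.add (Nat.add C (Nat.mul x12441 (nat_lit 2))) x25563) x16815) x11955) x12495) x12459) x12435) x12439)
    (Nat.sub (Nat.add (Nat.add (Nat.add (Nat.add (Nat.add (Nat.add (Nat.add C x25571) x16823) x11963) x12503) x12431) x12451) x32131) (Nat.mul x12449 (nat_lit 2)))
    (Nat.sub (Nat.add (Nat.add (Nat.add (Nat.add (Nat.add (Nat.add (Nat.add (Nat.add (Nat.add C x25573) x16825) x11965) x12505) x12433) x12457) x12449) x12453) x32133) x12451)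
    (Nat.sub (Nat.add (Nat.add (Nat.add (Nat.add (Nat.add (Nat.add (Nat.add C x25575) x16827) x11967) x12507) x12435) x12459) x12451) (Nat.mul x12453 (nat_lit 2)))
    (Nat.add (Nat.add (Nat.add (Nat.add (Nat.add (Nat.add (Nat.add (Nat.add C x25579) x16831) x11971) x12511) x12439) x12451) x12459) x32139)
    (Nat.add (Nat.add (Nat.add (Nat.add (Nat.add (Nat.add (Nat.add (Nat.add (Nat.add C x12459) x25581) x16833) x11973) x12513) x12441) x12453) x12465) x12457)
    (Nat.add (Nat.add (Nat.add (Nat.add (Nat.add (Nat.add C (Nat.mul x12465 (nat_lit 2))) x25587) x16839) x11979) x12519) x12459)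
    (Nat.add (Nat.add (Nat.add (Nat.add (Nat.add (Nat.add (Nat.add (Nat.add C x25601) x16853) x11993) x12641) x12425) x12485) x12481) x32161)
    (Nat.add (Nat.add (Nat.add (Nat.add (Nat.add (Nat.add (Nat.add (Nat.add C x25603) x16855) x11995) x12643) x12427) x12487) x12479) x32163)
    (Nat.sub (Nat.add (Nat.add (Nat.add (Nat.add (Nat.add (Nat.add (Nat.add (Nat.add (Nat.add C x25607) x16859) x11999) x12647) x12431) x12503) x12479) x12487) x32167) (Nat.mul x12485 (nat_lit 2)))
    (Nat.add (Nat.add (Nat.add (Nat.add (Nat.add (Nat.add (Nat.add (Nat.add (Nat.add (Nat.add (Nat.add C x25609) x16861) x12001) x12649) x12433) x12505) x12481) x12493) x12485) x12489) x32169)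
    (Nat.add (Nat.add (Nat.add (Nat.add (Nat.add (Nat.add (Nat.add (Nat.add C x25611) x16863) x12003) x12651) x12435) x12507) x12495) x12487)
    (Nat.sub (Nat.add (Nat.add (Nat.add (Nat.add (Nat.add (Nat.add (Nat.add (Nat.add (Nat.add C x25615) x16867) x12007) x12655) x12439) x12511) x12487) x12495) x32175) (Nat.mul x12493 (nat_lit 2)))
    (Nat.add (Nat.add (Nat.add (Nat.add (Nat.add (Nat.add (Nat.add (Nat.add C x25617) x16869) x12009) x12657) x12441) x12513) x12489) x12493)
    (Nat.sub (Nat.add (Nat.add (Nat.add (Nat.add (Nat.add (Nat.add (Nat.add (Nat.add (Nat.add C x25625) x16877) x12017) x12665) x12449) x12557) x12485) x12505) x32185) x12503)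
    (Nat.add (Nat.add (Nat.add (Nat.add (Nat.add (Nat.add (Nat.add (Nat.add (Nat.add (Nat.add (Nat.add C x25627) x16879) x12019) x12667) x12451) x12559) x12487) x12511) x12503) x12507) x32187)
    (Nat.sub (Nat.add (Nat.add (Nat.add (Nat.add (Nat.add (Nat.add (Nat.add (Nat.add (Nat.add C x25629) x16881) x12021) x12669) x12453) x12561) x12489) x12513) x12505) x12507)
    (Nat.add (Nat.add (Nat.add (Nat.add (Nat.add (Nat.add (Nat.add (Nat.add (Nat.add (Nat.add (Nat.add C x25633) x16885) x12025) x12673) x12457) x12565) x12493) x12529) x12505) x12513) x32193)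
    (Nat.add (Nat.add (Nat.add (Nat.add (Nat.add (Nat.add (Nat.add (Nat.add (Nat.add (Nat.add (Nat.add (Nat.add C x12513) x25635) x16887) x12027) x12675) x12459) x12567) x12495) x12531) x12507) x12519) x12511)
    (Nat.add (Nat.add (Nat.add (Nat.add (Nat.add (Nat.add (Nat.add (Nat.add (Nat.add C x12519) x25641) x16893) x12033) x12681) x12465) x12573) x12537) x12513)
    (Nat.add (Nat.add (Nat.add (Nat.add (Nat.add (Nat.add (Nat.add (Nat.add C x25651) x16903) x12043) x12691) x12583) x12511) x12531) x32211)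
    (Nat.add (Nat.add (Nat.add (Nat.add (Nat.add (Nat.add (Nat.add (Nat.add C x25653) x16905) x12045) x12693) x12585) x12513) x12537) x12529)
    (Nat.add (Nat.add (Nat.add (Nat.add (Nat.add (Nat.add (Nat.add (Nat.add C (Nat.mul x12537 (nat_lit 2))) x25659) x16911) x12051) x12699) x12591) x12519) x12531)
    (Nat.sub (Nat.add (Nat.add (Nat.add (Nat.add (Nat.add (Nat.add (Nat.add C x25679) x16931) x12071) x12719) x12503) x12559) x32239) (Nat.mul x12557 (nat_lit 2)))
    (Nat.sub (Nat.add (Nat.add (Nat.add (Nat.add (Nat.add (Nat.add (Nat.add (Nat.add (Nat.add C x25681) x16933) x12073) x12721) x12505) x12565) x12557) x12561) x32241) x12559)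
    (Nat.sub (Nat.add (Nat.add (Nat.add (Nat.add (Nat.add (Nat.add (Nat.add C x25683) x16935) x12075) x12723) x12507) x12567) x12559) (Nat.mul x12561 (nat_lit 2)))
    (Nat.sub (Nat.add (Nat.add (Nat.add (Nat.add (Nat.add (Nat.add (Nat.add (Nat.add (Nat.add C x25687) x16939) x12079) x12727) x12511) x12583) x12559) x12567) x32247) (Nat.mul x12565 (nat_lit 2)))
    (Nat.sub (Nat.add (Nat.add (Nat.add (Nat.add (Nat.add (Nat.add (Nat.add (Nat.add (Nat.add C x25689) x16941) x12081) x12729) x12513) x12585) x12561) x12573) x12565) x12567)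
    (Nat.sub (Nat.add (Nat.add (Nat.add (Nat.add (Nat.add (Nat.add (Nat.add C x25695) x16947) x12087) x12735) x12519) x12591) x12567) (Nat.mul x12573 (nat_lit 2)))
    (Nat.add (Nat.add (Nat.add (Nat.add (Nat.add (Nat.add (Nat.add (Nat.add C x25705) x16957) x12097) x12745) x12529) x12565) x12585) x32265)
    (Nat.add (Nat.add (Nat.add (Nat.add (Nat.add (Nat.add (Nat.add (Nat.add C x25707) x16959) x12099) x12747) x12531) x12567) x12591) x12583)
    (Nat.add (Nat.add (Nat.add (Nat.add (Nat.add (Nat.add (Nat.add (Nat.add (Nat.add C x12591) x25713) x16965) x12105) x12753) x12537) x12573) x12609) x12585)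
    (Nat.add (Nat.add (Nat.add (Nat.add (Nat.add (Nat.add C (Nat.mul x12609 (nat_lit 2))) x25731) x16983) x12123) x12771) x12591)
    (Nat.add (Nat.add (Nat.add (Nat.add (Nat.add (Nat.add (Nat.add (Nat.add C (Nat.mul x12641 (nat_lit 2))) x25763) x17015) x12155) x12479) x12647) x12643) x32323)
    (Nat.add (Nat.add (Nat.add (Nat.add (Nat.add (Nat.add (Nat.add (Nat.add C (Nat.mul x12643 (nat_lit 2))) x25765) x17017) x12157) x12481) x12649) x12641) x32325)
    (Nat.add (Nat.add (Nat.add (Nat.add (Nat.add (Nat.add (Nat.add (Nat.add C x25769) x17021) x12161) x12485) x12665) x12641) x12649) x32329)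
    (Nat.add (Nat.add (Nat.add (Nat.add (Nat.add (Nat.add (Nat.add (Nat.add (Nat.add (Nat.add (Nat.add C (Nat.mul x12649 (nat_lit 2))) x25771) x17023) x12163) x12487) x12667) x12643) x12655) x12647) x12651) x32331)
    (Nat.add (Nat.add (Nat.add (Nat.add (Nat.add (Nat.add (Nat.add (Nat.add C (Nat.mul x12651 (nat_lit 2))) x25773) x17025) x12165) x12489) x12669) x12657) x12649)
    (Nat.add (Nat.add (Nat.add (Nat.add (Nat.add (Nat.add (Nat.add (Nat.add C x25777) x17029) x12169) x12493) x12673) x12649) x12657) x32337)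
    (Nat.add (Nat.add (Nat.add (Nat.add (Nat.add (Nat.add (Nat.add (Nat.add C (Nat.mul x12657 (nat_lit 2))) x25779) x17031) x12171) x12495) x12675) x12651) x12655)
    (Nat.add (Nat.add (Nat.add (Nat.add (Nat.add (Nat.add (Nat.add (Nat.add C x25787) x17039) x12179) x12503) x12719) x12647) x12667) x32347)
    (Nat.add (Nat.add (Nat.add (Nat.add (Nat.add (Nat.add (Nat.add (Nat.add (Nat.add (Nat.add (Nat.add C x12667) x25789) x17041) x12181) x12505) x12721) x12649) x12673) x12665) x12669) x32349)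
    (Nat.add (Nat.add (Nat.add (Nat.add (Nat.add (Nat.add (Nat.add (Nat.add C x25791) x17043) x12183) x12507) x12723) x12651) x12675) x12667)
    (Nat.add (Nat.add (Nat.add (Nat.add (Nat.add (Nat.add (Nat.add (Nat.add (Nat.add (Nat.add (Nat.add C x12673) x25795) x17047) x12187) x12511) x12727) x12655) x12691) x12667) x12675) x32355)
    (Nat.add (Nat.add (Nat.add (Nat.add (Nat.add (Nat.add (Nat.add (Nat.add (Nat.add (Nat.add (Nat.add C (Nat.mul x12675 (nat_lit 2))) x25797) x17049) x12189) x12513) x12729) x12657) x12693) x12669) x12681) x12673)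
    (Nat.add (Nat.add (Nat.add (Nat.add (Nat.add (Nat.add (Nat.add (Nat.add C (Nat.mul x12681 (nat_lit 2))) x25803) x17055) x12195) x12519) x12735) x12699) x12675)
    (Nat.add (Nat.add (Nat.add (Nat.add (Nat.add (Nat.add (Nat.add (Nat.add C x25813) x17065) x12205) x12529) x12745) x12673) x12693) x32373)
    (Nat.add (Nat.add (Nat.add (Nat.add (Nat.add (Nat.add (Nat.add (Nat.add C x25815) x17067) x12207) x12531) x12747) x12675) x12699) x12691)
    (Nat.add (Nat.add (Nat.add (Nat.add (Nat.add (Nat.add (Nat.add (Nat.add C (Nat.mul x12699 (nat_lit 2))) x25821) x17073) x12213) x12537) x12753) x12681) x12693)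
    (Nat.add (Nat.add (Nat.add (Nat.add (Nat.add (Nat.add (Nat.add (Nat.add (Nat.add C x12719) x25841) x17093) x12233) x12557) x12881) x12665) x12721) x32401)
    (Nat.add (Nat.add (Nat.add (Nat.add (Nat.add (Nat.add (Nat.add (Nat.add (Nat.add (Nat.add (Nat.add C (Nat.mul x12721 (nat_lit 2))) x25843) x17095) x12235) x12559) x12883) x12667) x12727) x12719) x12723) x32403)
    (Nat.add (Nat.add (Nat.add (Nat.add (Nat.add (Nat.add (Nat.add (Nat.add (Nat.add C x12723) x25845) x17097) x12237) x12561) x12885) x12669) x12729) x12721)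
    (Nat.add (Nat.add (Nat.add (Nat.add (Nat.add (Nat.add (Nat.add (Nat.add (Nat.add (Nat.add (Nat.add C x12727) x25849) x17101) x12241) x12565) x12889) x12673) x12745) x12721) x12729) x32409)
    (Nat.add (Nat.add (Nat.add (Nat.add (Nat.add (Nat.add (Nat.add (Nat.add (Nat.add (Nat.add (Nat.add C (Nat.mul x12729 (nat_lit 2))) x25851) x17103) x12243) x12567) x12891) x12675) x12747) x12723) x12735) x12727)
    (Nat.add (Nat.add (Nat.add (Nat.add (Nat.add (Nat.add (Nat.add (Nat.add (Nat.add C x12735) x25857) x17109) x12249) x12573) x12897) x12681) x12753) x12729)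
    (Nat.add (Nat.add (Nat.add (Nat.add (Nat.add (Nat.add (Nat.add (Nat.add (Nat.add (Nat.add (Nat.add C (Nat.mul x12745 (nat_lit 2))) x25867) x17119) x12259) x12583) x12907) x12691) x12799) x12727) x12747) x32427)
    (Nat.add (Nat.add (Nat.add (Nat.add (Nat.add (Nat.add (Nat.add (Nat.add (Nat.add (Nat.add (Nat.add C (Nat.mul x12747 (nat_lit 2))) x25869) x17121) x12261) x12585) x12909) x12693) x12801) x12729) x12753) x12745)
    (Nat.add (Nat.add (Nat.add (Nat.add (Nat.add (Nat.add (Nat.add (Nat.add (Nat.add (Nat.add (Nat.add C (Nat.mul x12753 (nat_lit 3))) x25875) x17127) x12267) x12591) x12915) x12699) x12807) x12735) x12771) x12747)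
    (Nat.add (Nat.add (Nat.add (Nat.add (Nat.add (Nat.add (Nat.add (Nat.add C (Nat.mul x12771 (nat_lit 3))) x25893) x17145) x12285) x12609) x12933) x12825) x12753)
    (Nat.add (Nat.add (Nat.add (Nat.add (Nat.add (Nat.add (Nat.add (Nat.add C (Nat.mul x12799 (nat_lit 2))) x25921) x17173) x12313) x12961) x12745) x12801) x32481)
    (Nat.add (Nat.add (Nat.add (Nat.add (Nat.add (Nat.add (Nat.add (Nat.add C (Nat.mul x12801 (nat_lit 2))) x25923) x17175) x12315) x12963) x12747) x12807) x12799)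
    (Nat.add (Nat.add (Nat.add (Nat.add (Nat.add (Nat.add (Nat.add (Nat.add C (Nat.mul x12807 (nat_lit 2))) x25929) x17181) x12321) x12969) x12753) x12825) x12801)
    (Nat.add (Nat.add (Nat.add (Nat.add (Nat.add (Nat.add (Nat.add C (Nat.mul x12825 (nat_lit 4))) x25947) x17199) x12339) x12987) x12771) x12807)
    (Nat.add (Nat.add (Nat.add (Nat.add (Nat.add (Nat.add C (Nat.mul x12881 (nat_lit 2))) x26003) x17255) x12719) x12883) x32563)
    (Nat.add (Nat.add (Nat.add (Nat.add (Nat.add (Nat.add (Nat.add (Nat.add C (Nat.mul x12883 (nat_lit 3))) x26005) x17257) x12721) x12889) x12881) x12885) x32565)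
    (Nat.add (Nat.add (Nat.add (Nat.add (Nat.add (Nat.add C (Nat.mul x12885 (nat_lit 2))) x26007) x17259) x12723) x12891) x12883)
    (Nat.add (Nat.add (Nat.add (Nat.add (Nat.add (Nat.add (Nat.add (Nat.add C (Nat.mul x12889 (nat_lit 2))) x26011) x17263) x12727) x12907) x12883) x12891) x32571)
    (Nat.add (Nat.add (Nat.add (Nat.add (Nat.add (Nat.add (Nat.add (Nat.add C (Nat.mul x12891 (nat_lit 3))) x26013) x17265) x12729) x12909) x12885) x12897) x12889)
    (Nat.add (Nat.add (Nat.add (Nat.add (Nat.add (Nat.add C (Nat.mul x12897 (nat_lit 2))) x26019) x17271) x12735) x12915) x12891)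
    (Nat.add (Nat.add (Nat.add (Nat.add (Nat.add (Nat.add (Nat.add (Nat.add C (Nat.mul x12907 (nat_lit 2))) x26029) x17281) x12745) x12961) x12889) x12909) x32589)
    (Nat.add (Nat.add (Nat.add (Nat.add (Nat.add (Nat.add (Nat.add (Nat.add C (Nat.mul x12909 (nat_lit 2))) x26031) x17283) x12747) x12963) x12891) x12915) x12907)
    (Nat.add (Nat.add (Nat.add (Nat.add (Nat.add (Nat.add (Nat.add (Nat.add C (Nat.mul x12915 (nat_lit 3))) x26037) x17289) x12753) x12969) x12897) x12933) x12909)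
    (Nat.add (Nat.add (Nat.add (Nat.add (Nat.add (Nat.add C (Nat.mul x12933 (nat_lit 2))) x26055) x17307) x12771) x12987) x12915)
    (Nat.add (Nat.add (Nat.add (Nat.add (Nat.add (Nat.add (Nat.add C (Nat.mul x12961 (nat_lit 4))) x26083) x17335) x12799) x12907) x12963) x32643)
    (Nat.add (Nat.add (Nat.add (Nat.add (Nat.add (Nat.add (Nat.add C (Nat.mul x12963 (nat_lit 4))) x26085) x17337) x12801) x12909) x12969) x12961)
    (Nat.add (Nat.add (Nat.add (Nat.add (Nat.add (Nat.add (Nat.add C (Nat.mul x12969 (nat_lit 4))) x26091) x17343) x12807) x12915) x12987) x12963)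
    (Nat.add (Nat.add (Nat.add (Nat.add (Nat.add (Nat.add (Nat.add C (Nat.mul x12987 (nat_lit 5))) x26109) x17361) x12825) x12933) x13041) x12969)
    (Nat.add (Nat.add (Nat.add (Nat.add C (Nat.mul x13041 (nat_lit 6))) x26163) x17415) x12987)
    (Nat.add (Nat.add (Nat.add (Nat.add (Nat.add (Nat.add C (Nat.mul x13175 (nat_lit 2))) x26297) x8801) x13229) x13193) x32857)
    (Nat.add (Nat.add (Nat.add (Nat.add (Nat.add (Nat.add C x26315) x8819) x13247) x13175) x13199) x32875)
    (Nat.add (Nat.add (Nat.add (Nat.add (Nat.add (Nat.add C x26321) x8825) x13253) x13193) x13201) x32881)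
    (Nat.add (Nat.add (Nat.add (Nat.add (Nat.add (Nat.add C (Nat.mul x13201 (nat_lit 2))) x26323) x8827) x13255) x13199) x32883)
    (Nat.add (Nat.add (Nat.add (Nat.add (Nat.add (Nat.add C x26351) x8855) x13391) x13175) x13247) x32911)
    (Nat.add (Nat.add (Nat.add (Nat.add (Nat.add (Nat.add (Nat.add (Nat.add (Nat.add C x26369) x8873) x13409) x13193) x13301) x13229) x13265) x13253) x32929)
    (Nat.sub (Nat.add (Nat.add (Nat.add (Nat.add (Nat.add (Nat.add (Nat.add (Nat.add (Nat.add C x26375) x8879) x13415) x13199) x13307) x13271) x13247) x13255) x32935) x13253)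
    (Nat.add (Nat.add (Nat.add (Nat.add (Nat.add (Nat.add (Nat.add (Nat.add (Nat.add C x13255) x26377) x8881) x13417) x13201) x13309) x13273) x13253) x32937)
    (Nat.sub (Nat.add (Nat.add (Nat.add (Nat.add (Nat.add (Nat.add (Nat.add C x26387) x8891) x13427) x13319) x13247) x13271) x32947) (Nat.mul x13265 (nat_lit 2)))
    (Nat.sub (Nat.add (Nat.add (Nat.add (Nat.add (Nat.add (Nat.add (Nat.add (Nat.add (Nat.add C x26393) x8897) x13433) x13325) x13253) x13265) x13277) x13273) x32953) x13271)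
    (Nat.add (Nat.add (Nat.add (Nat.add (Nat.add (Nat.add (Nat.add (Nat.add C x26395) x8899) x13435) x13327) x13255) x13279) x13271) x32955)
    (Nat.sub (Nat.add (Nat.add (Nat.add (Nat.add (Nat.add (Nat.add (Nat.add C x26399) x8903) x13439) x13331) x13271) x13279) x32959) (Nat.mul x13277 (nat_lit 2)))
    (Nat.add (Nat.add (Nat.add (Nat.add (Nat.add (Nat.add (Nat.add (Nat.add (Nat.add C x13279) x26401) x8905) x13441) x13333) x13273) x13277) x13281) x32961)
    (Nat.add (Nat.add (Nat.add (Nat.add (Nat.add (Nat.add C (Nat.mul x13281 (nat_lit 2))) x26403) x8907) x13443) x13335) x13279)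
    (Nat.sub (Nat.add (Nat.add (Nat.add (Nat.add (Nat.add (Nat.add (Nat.add C x26423) x8927) x13463) x13247) x13319) x13307) x32983) (Nat.mul x13301 (nat_lit 2)))
    (Nat.sub (Nat.add (Nat.add (Nat.add (Nat.add (Nat.add (Nat.add (Nat.add (Nat.add C x26429) x8933) x13469) x13253) x13325) x13301) x13309) x32989) (Nat.mul x13307 (nat_lit 4)))
    (Nat.sub (Nat.add (Nat.add (Nat.add (Nat.add (Nat.add (Nat.add (Nat.add C x26431) x8935) x13471) x13255) x13327) x13307) x32991) (Nat.mul x13309 (nat_lit 2)))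
    (Nat.sub (Nat.add (Nat.add (Nat.add (Nat.add (Nat.add (Nat.add (Nat.add C x26441) x8945) x13481) x13265) x13301) x13325) x33001) (Nat.mul x13319 (nat_lit 2)))
    (Nat.sub (Nat.add (Nat.add (Nat.add (Nat.add (Nat.add (Nat.add (Nat.add (Nat.add (Nat.add (Nat.add C x26447) x8951) x13487) x13271) x13307) x13343) x13319) x13331) x13327) x33007) (Nat.mul x13325 (nat_lit 2)))
    (Nat.sub (Nat.add (Nat.add (Nat.add (Nat.add (Nat.add (Nat.add (Nat.add (Nat.add (Nat.add C x26449) x8953) x13489) x13273) x13309) x13345) x13333) x13325) x33009) x13327)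
    (Nat.sub (Nat.add (Nat.add (Nat.add (Nat.add (Nat.add (Nat.add (Nat.add (Nat.add C x26453) x8957) x13493) x13277) x13349) x13325) x13333) x33013) (Nat.mul x13331 (nat_lit 4)))
    (Nat.sub (Nat.add (Nat.add (Nat.add (Nat.add (Nat.add (Nat.add (Nat.add (Nat.add (Nat.add C x26455) x8959) x13495) x13279) x13351) x13327) x13331) x13335) x33015) x13333)
    (Nat.add (Nat.add (Nat.add (Nat.add (Nat.add (Nat.add C x26457) x8961) x13497) x13281) x13353) x13333)
    (Nat.sub (Nat.add (Nat.add (Nat.add (Nat.add (Nat.add (Nat.add (Nat.add C x26465) x8969) x13505) x13325) x13349) x13345) x33025) (Nat.mul x13343 (nat_lit 2)))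
    (Nat.sub (Nat.add (Nat.add (Nat.add (Nat.add (Nat.add (Nat.add (Nat.add C x26467) x8971) x13507) x13327) x13351) x13343) x33027) (Nat.mul x13345 (nat_lit 2)))
    (Nat.sub (Nat.add (Nat.add (Nat.add (Nat.add (Nat.add (Nat.add (Nat.add C x26471) x8975) x13511) x13331) x13343) x13351) x33031) (Nat.mul x13349 (nat_lit 2)))
    (Nat.add (Nat.add (Nat.add (Nat.add (Nat.add (Nat.add (Nat.add (Nat.add (Nat.add C x26473) x8977) x13513) x13333) x13345) x13357) x13349) x13353) x33033)
    (Nat.add (Nat.add (Nat.add (Nat.add (Nat.add (Nat.add C x26475) x8979) x13515) x13335) x13359) x13351)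
    (Nat.add (Nat.add (Nat.add (Nat.add (Nat.add (Nat.add C x26479) x8983) x13519) x13351) x13359) x33039)
    (Nat.add (Nat.add (Nat.add (Nat.add (Nat.add (Nat.add C (Nat.mul x13359 (nat_lit 2))) x26481) x8985) x13521) x13353) x13357)
    (Nat.add (Nat.add (Nat.add (Nat.add (Nat.add (Nat.add C x26513) x9017) x13877) x13229) x13409) x33073)
    (Nat.sub (Nat.add (Nat.add (Nat.add (Nat.add (Nat.add (Nat.add (Nat.add (Nat.add (Nat.add C x26531) x9035) x13895) x13247) x13463) x13391) x13427) x13415) x33091) x13409)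
    (Nat.sub (Nat.add (Nat.add (Nat.add (Nat.add (Nat.add (Nat.add (Nat.add (Nat.add (Nat.add C x26537) x9041) x13901) x13253) x13469) x13433) x13409) x13417) x33097) (Nat.mul x13415 (nat_lit 2)))
    (Nat.add (Nat.add (Nat.add (Nat.add (Nat.add (Nat.add (Nat.add (Nat.add C x26539) x9043) x13903) x13255) x13471) x13435) x13415) x33099)
    (Nat.sub (Nat.add (Nat.add (Nat.add (Nat.add (Nat.add (Nat.add (Nat.add (Nat.add C x26549) x9053) x13913) x13265) x13481) x13409) x13433) x33109) (Nat.mul x13427 (nat_lit 4)))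
    (Nat.sub (Nat.add (Nat.add (Nat.add (Nat.add (Nat.add (Nat.add (Nat.add (Nat.add (Nat.add (Nat.add C x26555) x9059) x13919) x13271) x13487) x13415) x13427) x13439) x13435) x33115) (Nat.mul x13433 (nat_lit 3)))
    (Nat.sub (Nat.add (Nat.add (Nat.add (Nat.add (Nat.add (Nat.add (Nat.add (Nat.add (Nat.add C x26557) x9061) x13921) x13273) x13489) x13417) x13441) x13433) x33117) (Nat.mul x13435 (nat_lit 2)))
    (Nat.sub (Nat.add (Nat.add (Nat.add (Nat.add (Nat.add (Nat.add (Nat.add (Nat.add C x26561) x9065) x13925) x13277) x13493) x13433) x13441) x33121) (Nat.mul x13439 (nat_lit 4)))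
    (Nat.sub (Nat.add (Nat.add (Nat.add (Nat.add (Nat.add (Nat.add (Nat.add (Nat.add (Nat.add C x26563) x9067) x13927) x13279) x13495) x13435) x13439) x13443) x33123) x13441)
    (Nat.add (Nat.add (Nat.add (Nat.add (Nat.add (Nat.add C x26565) x9069) x13929) x13281) x13497) x13441)
    (Nat.sub (Nat.add (Nat.add (Nat.add (Nat.add (Nat.add (Nat.add (Nat.add (Nat.add (Nat.add C x26585) x9089) x13949) x13301) x13625) x13409) x13481) x13469) x33145) x13463)
    (Nat.sub (Nat.add (Nat.add (Nat.add (Nat.add (Nat.add (Nat.add (Nat.add (Nat.add (Nat.add (Nat.add C x26591) x9095) x13955) x13307) x13631) x13415) x13487) x13463) x13471) x33151) (Nat.mul x13469 (nat_lit 3)))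
    (Nat.sub (Nat.add (Nat.add (Nat.add (Nat.add (Nat.add (Nat.add (Nat.add (Nat.add (Nat.add C x26593) x9097) x13957) x13309) x13633) x13417) x13489) x13469) x33153) x13471)
    (Nat.sub (Nat.add (Nat.add (Nat.add (Nat.add (Nat.add (Nat.add (Nat.add (Nat.add (Nat.add (Nat.add C x26603) x9107) x13967) x13319) x13643) x13427) x13535) x13463) x13487) x33163) (Nat.mul x13481 (nat_lit 2)))
    (Nat.sub (Nat.add (Nat.add (Nat.add (Nat.add (Nat.add (Nat.add (Nat.add (Nat.add (Nat.add (Nat.add (Nat.add (Nat.add (Nat.add C x26609) x9113) x13973) x13325) x13649) x13433) x13541) x13469) x13505) x13481) x13493) x13489) x33169) (Nat.mul x13487 (nat_lit 2)))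
    (Nat.sub (Nat.add (Nat.add (Nat.add (Nat.add (Nat.add (Nat.add (Nat.add (Nat.add (Nat.add (Nat.add (Nat.add (Nat.add C x26611) x9115) x13975) x13327) x13651) x13435) x13543) x13471) x13507) x13495) x13487) x33171) x13489)
    (Nat.sub (Nat.add (Nat.add (Nat.add (Nat.add (Nat.add (Nat.add (Nat.add (Nat.add (Nat.add (Nat.add (Nat.add C x26615) x9119) x13979) x13331) x13655) x13439) x13547) x13511) x13487) x13495) x33175) (Nat.mul x13493 (nat_lit 4)))
    (Nat.sub (Nat.add (Nat.add (Nat.add (Nat.add (Nat.add (Nat.add (Nat.add (Nat.add (Nat.add (Nat.add (Nat.add (Nat.add C x26617) x9121) x13981) x13333) x13657) x13441) x13549) x13513) x13489) x13493) x13497) x33177) x13495)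
    (Nat.add (Nat.add (Nat.add (Nat.add (Nat.add (Nat.add (Nat.add (Nat.add (Nat.add C x26619) x9123) x13983) x13335) x13659) x13443) x13551) x13515) x13495)
    (Nat.sub (Nat.add (Nat.add (Nat.add (Nat.add (Nat.add (Nat.add (Nat.add (Nat.add (Nat.add (Nat.add C x26627) x9131) x13991) x13343) x13667) x13559) x13487) x13511) x13507) x33187) (Nat.mul x13505 (nat_lit 3)))
    (Nat.sub (Nat.add (Nat.add (Nat.add (Nat.add (Nat.add (Nat.add (Nat.add (Nat.add (Nat.add (Nat.add C x26629) x9133) x13993) x13345) x13669) x13561) x13489) x13513) x13505) x33189) (Nat.mul x13507 (nat_lit 3)))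
    (Nat.sub (Nat.add (Nat.add (Nat.add (Nat.add (Nat.add (Nat.add (Nat.add (Nat.add (Nat.add (Nat.add C x26633) x9137) x13997) x13349) x13673) x13565) x13493) x13505) x13513) x33193) (Nat.mul x13511 (nat_lit 3)))
    (Nat.sub (Nat.add (Nat.add (Nat.add (Nat.add (Nat.add (Nat.add (Nat.add (Nat.add (Nat.add (Nat.add (Nat.add (Nat.add C x26635) x9139) x13999) x13351) x13675) x13567) x13495) x13507) x13519) x13511) x13515) x33195) x13513)
    (Nat.sub (Nat.add (Nat.add (Nat.add (Nat.add (Nat.add (Nat.add (Nat.add (Nat.add (Nat.add C x26637) x9141) x14001) x13353) x13677) x13569) x13497) x13521) x13513) x13515)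
    (Nat.sub (Nat.add (Nat.add (Nat.add (Nat.add (Nat.add (Nat.add (Nat.add (Nat.add (Nat.add C x26641) x9145) x14005) x13357) x13681) x13573) x13513) x13521) x33201) x13519)
    (Nat.add (Nat.add (Nat.add (Nat.add (Nat.add (Nat.add (Nat.add (Nat.add (Nat.add C x13521) x26643) x9147) x14007) x13359) x13683) x13575) x13515) x13519)
    (Nat.sub (Nat.add (Nat.add (Nat.add (Nat.add (Nat.add (Nat.add (Nat.add C x26657) x9161) x14021) x13697) x13481) x13541) x33217) (Nat.mul x13535 (nat_lit 2)))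
    (Nat.sub (Nat.add (Nat.add (Nat.add (Nat.add (Nat.add (Nat.add (Nat.add (Nat.add (Nat.add (Nat.add C x26663) x9167) x14027) x13703) x13487) x13559) x13535) x13547) x13543) x33223) (Nat.mul x13541 (nat_lit 3)))
    (Nat.sub (Nat.add (Nat.add (Nat.add (Nat.add (Nat.add (Nat.add (Nat.add (Nat.add (Nat.add C x26665) x9169) x14029) x13705) x13489) x13561) x13549) x13541) x33225) (Nat.mul x13543 (nat_lit 2)))
    (Nat.sub (Nat.add (Nat.add (Nat.add (Nat.add (Nat.add (Nat.add (Nat.add (Nat.add (Nat.add C x26669) x9173) x14033) x13709) x13493) x13565) x13541) x13549) x33229) (Nat.mul x13547 (nat_lit 6)))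
    (Nat.sub (Nat.add (Nat.add (Nat.add (Nat.add (Nat.add (Nat.add (Nat.add (Nat.add (Nat.add (Nat.add C x26671) x9175) x14035) x13711) x13495) x13567) x13543) x13547) x13551) x33231) (Nat.mul x13549 (nat_lit 3)))
    (Nat.sub (Nat.add (Nat.add (Nat.add (Nat.add (Nat.add (Nat.add (Nat.add C x26673) x9177) x14037) x13713) x13497) x13569) x13549) (Nat.mul x13551 (nat_lit 2)))
    (Nat.sub (Nat.add (Nat.add (Nat.add (Nat.add (Nat.add (Nat.add (Nat.add (Nat.add (Nat.add C x26681) x9185) x14045) x13721) x13505) x13541) x13565) x13561) x33241) (Nat.mul x13559 (nat_lit 2)))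
    (Nat.sub (Nat.add (Nat.add (Nat.add (Nat.add (Nat.add (Nat.add (Nat.add (Nat.add (Nat.add C x26683) x9187) x14047) x13723) x13507) x13543) x13567) x13559) x33243) (Nat.mul x13561 (nat_lit 2)))
    (Nat.sub (Nat.add (Nat.add (Nat.add (Nat.add (Nat.add (Nat.add (Nat.add (Nat.add (Nat.add (Nat.add C x26687) x9191) x14051) x13727) x13511) x13547) x13583) x13559) x13567) x33247) (Nat.mul x13565 (nat_lit 3)))
    (Nat.sub (Nat.add (Nat.add (Nat.add (Nat.add (Nat.add (Nat.add (Nat.add (Nat.add (Nat.add (Nat.add (Nat.add (Nat.add C x26689) x9193) x14053) x13729) x13513) x13549) x13585) x13561) x13573) x13565) x13569) x33249) x13567)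
    (Nat.sub (Nat.add (Nat.add (Nat.add (Nat.add (Nat.add (Nat.add (Nat.add (Nat.add (Nat.add C x26691) x9195) x14055) x13731) x13515) x13551) x13587) x13575) x13567) x13569)
    (Nat.sub (Nat.add (Nat.add (Nat.add (Nat.add (Nat.add (Nat.add (Nat.add (Nat.add (Nat.add C x26695) x9199) x14059) x13735) x13519) x13591) x13567) x13575) x33255) (Nat.mul x13573 (nat_lit 2)))
    (Nat.add (Nat.add (Nat.add (Nat.add (Nat.add (Nat.add (Nat.add (Nat.add C x26697) x9201) x14061) x13737) x13521) x13593) x13569) x13573)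
    (Nat.sub (Nat.add (Nat.add (Nat.add (Nat.add (Nat.add (Nat.add (Nat.add C x26705) x9209) x14069) x13745) x13565) x13585) x33265) (Nat.mul x13583 (nat_lit 2)))
    (Nat.sub (Nat.add (Nat.add (Nat.add (Nat.add (Nat.add (Nat.add (Nat.add (Nat.add (Nat.add C x26707) x9211) x14071) x13747) x13567) x13591) x13583) x13587) x33267) x13585)
    (Nat.sub (Nat.add (Nat.add (Nat.add (Nat.add (Nat.add (Nat.add (Nat.add C x26709) x9213) x14073) x13749) x13569) x13593) x13585) (Nat.mul x13587 (nat_lit 2)))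
    (Nat.add (Nat.add (Nat.add (Nat.add (Nat.add (Nat.add (Nat.add (Nat.add C x26713) x9217) x14077) x13753) x13573) x13585) x13593) x33273)
    (Nat.add (Nat.add (Nat.add (Nat.add (Nat.add (Nat.add (Nat.add (Nat.add (Nat.add C x13593) x26715) x9219) x14079) x13755) x13575) x13587) x13599) x13591)
    (Nat.add (Nat.add (Nat.add (Nat.add (Nat.add (Nat.add C (Nat.mul x13599 (nat_lit 2))) x26721) x9225) x14085) x13761) x13593)
    (Nat.sub (Nat.add (Nat.add (Nat.add (Nat.add (Nat.add (Nat.add (Nat.add C x26747) x9251) x14111) x13463) x13643) x13631) x33307) (Nat.mul x13625 (nat_lit 2)))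
    (Nat.sub (Nat.add (Nat.add (Nat.add (Nat.add (Nat.add (Nat.add (Nat.add (Nat.add C x26753) x9257) x14117) x13469) x13649) x13625) x13633) x33313) (Nat.mul x13631 (nat_lit 4)))
    (Nat.sub (Nat.add (Nat.add (Nat.add (Nat.add (Nat.add (Nat.add (Nat.add C x26755) x9259) x14119) x13471) x13651) x13631) x33315) (Nat.mul x13633 (nat_lit 2)))
    (Nat.sub (Nat.add (Nat.add (Nat.add (Nat.add (Nat.add (Nat.add (Nat.add (Nat.add C x26765) x9269) x14129) x13481) x13697) x13625) x13649) x33325) (Nat.mul x13643 (nat_lit 4)))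
    (Nat.sub (Nat.add (Nat.add (Nat.add (Nat.add (Nat.add (Nat.add (Nat.add (Nat.add (Nat.add (Nat.add (Nat.add C x26771) x9275) x14135) x13487) x13703) x13631) x13667) x13643) x13655) x13651) x33331) (Nat.mul x13649 (nat_lit 4)))
    (Nat.sub (Nat.add (Nat.add (Nat.add (Nat.add (Nat.add (Nat.add (Nat.add (Nat.add (Nat.add (Nat.add C x26773) x9277) x14137) x13489) x13705) x13633) x13669) x13657) x13649) x33333) (Nat.mul x13651 (nat_lit 3)))
    (Nat.sub (Nat.add (Nat.add (Nat.add (Nat.add (Nat.add (Nat.add (Nat.add (Nat.add (Nat.add C x26777) x9281) x14141) x13493) x13709) x13673) x13649) x13657) x33337) (Nat.mul x13655 (nat_lit 6)))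
    (Nat.sub (Nat.add (Nat.add (Nat.add (Nat.add (Nat.add (Nat.add (Nat.add (Nat.add (Nat.add (Nat.add C x26779) x9283) x14143) x13495) x13711) x13675) x13651) x13655) x13659) x33339) (Nat.mul x13657 (nat_lit 3)))
    (Nat.sub (Nat.add (Nat.add (Nat.add (Nat.add (Nat.add (Nat.add (Nat.add C x26781) x9285) x14145) x13497) x13713) x13677) x13657) (Nat.mul x13659 (nat_lit 2)))
    (Nat.sub (Nat.add (Nat.add (Nat.add (Nat.add (Nat.add (Nat.add (Nat.add (Nat.add (Nat.add C x26789) x9293) x14153) x13505) x13721) x13649) x13673) x13669) x33349) (Nat.mul x13667 (nat_lit 6)))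
    (Nat.sub (Nat.add (Nat.add (Nat.add (Nat.add (Nat.add (Nat.add (Nat.add (Nat.add (Nat.add C x26791) x9295) x14155) x13507) x13723) x13651) x13675) x13667) x33351) (Nat.mul x13669 (nat_lit 6)))
    (Nat.sub (Nat.add (Nat.add (Nat.add (Nat.add (Nat.add (Nat.add (Nat.add (Nat.add (Nat.add C x26795) x9299) x14159) x13511) x13727) x13655) x13667) x13675) x33355) (Nat.mul x13673 (nat_lit 6)))
    (Nat.sub (Nat.add (Nat.add (Nat.add (Nat.add (Nat.add (Nat.add (Nat.add (Nat.add (Nat.add (Nat.add (Nat.add C x26797) x9301) x14161) x13513) x13729) x13657) x13669) x13681) x13673) x13677) x33357) (Nat.mul x13675 (nat_lit 4)))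
    (Nat.sub (Nat.add (Nat.add (Nat.add (Nat.add (Nat.add (Nat.add (Nat.add (Nat.add C x26799) x9303) x14163) x13515) x13731) x13659) x13683) x13675) (Nat.mul x13677 (nat_lit 4)))
    (Nat.sub (Nat.add (Nat.add (Nat.add (Nat.add (Nat.add (Nat.add (Nat.add (Nat.add C x26803) x9307) x14167) x13519) x13735) x13675) x13683) x33363) (Nat.mul x13681 (nat_lit 4)))
    (Nat.sub (Nat.add (Nat.add (Nat.add (Nat.add (Nat.add (Nat.add (Nat.add C x26805) x9309) x14169) x13521) x13737) x13677) x13681) (Nat.mul x13683 (nat_lit 2)))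
    (Nat.sub (Nat.add (Nat.add (Nat.add (Nat.add (Nat.add (Nat.add (Nat.add C x26819) x9323) x14183) x13535) x13643) x13703) x33379) (Nat.mul x13697 (nat_lit 2)))
    (Nat.sub (Nat.add (Nat.add (Nat.add (Nat.add (Nat.add (Nat.add (Nat.add (Nat.add (Nat.add (Nat.add C x26825) x9329) x14189) x13541) x13649) x13721) x13697) x13709) x13705) x33385) (Nat.mul x13703 (nat_lit 3)))
    (Nat.sub (Nat.add (Nat.add (Nat.add (Nat.add (Nat.add (Nat.add (Nat.add (Nat.add (Nat.add C x26827) x9331) x14191) x13543) x13651) x13723) x13711) x13703) x33387) (Nat.mul x13705 (nat_lit 2)))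
    (Nat.sub (Nat.add (Nat.add (Nat.add (Nat.add (Nat.add (Nat.add (Nat.add (Nat.add (Nat.add C x26831) x9335) x14195) x13547) x13655) x13727) x13703) x13711) x33391) (Nat.mul x13709 (nat_lit 6)))
    (Nat.sub (Nat.add (Nat.add (Nat.add (Nat.add (Nat.add (Nat.add (Nat.add (Nat.add (Nat.add (Nat.add C x26833) x9337) x14197) x13549) x13657) x13729) x13705) x13709) x13713) x33393) (Nat.mul x13711 (nat_lit 3)))
    (Nat.sub (Nat.add (Nat.add (Nat.add (Nat.add (Nat.add (Nat.add (Nat.add C x26835) x9339) x14199) x13551) x13659) x13731) x13711) (Nat.mul x13713 (nat_lit 2)))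
    (Nat.sub (Nat.add (Nat.add (Nat.add (Nat.add (Nat.add (Nat.add (Nat.add (Nat.add (Nat.add (Nat.add C x26843) x9347) x14207) x13559) x13667) x13775) x13703) x13727) x13723) x33403) (Nat.mul x13721 (nat_lit 3)))
    (Nat.sub (Nat.add (Nat.add (Nat.add (Nat.add (Nat.add (Nat.add (Nat.add (Nat.add (Nat.add (Nat.add C x26845) x9349) x14209) x13561) x13669) x13777) x13705) x13729) x13721) x33405) (Nat.mul x13723 (nat_lit 3)))
    (Nat.sub (Nat.add (Nat.add (Nat.add (Nat.add (Nat.add (Nat.add (Nat.add (Nat.add (Nat.add (Nat.add (Nat.add C x26849) x9353) x14213) x13565) x13673) x13781) x13709) x13745) x13721) x13729) x33409) (Nat.mul x13727 (nat_lit 4)))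
    (Nat.sub (Nat.add (Nat.add (Nat.add (Nat.add (Nat.add (Nat.add (Nat.add (Nat.add (Nat.add (Nat.add (Nat.add (Nat.add (Nat.add C x26851) x9355) x14215) x13567) x13675) x13783) x13711) x13747) x13723) x13735) x13727) x13731) x33411) (Nat.mul x13729 (nat_lit 2)))
    (Nat.sub (Nat.add (Nat.add (Nat.add (Nat.add (Nat.add (Nat.add (Nat.add (Nat.add (Nat.add (Nat.add C x26853) x9357) x14217) x13569) x13677) x13785) x13713) x13749) x13737) x13729) (Nat.mul x13731 (nat_lit 2)))
    (Nat.sub (Nat.add (Nat.add (Nat.add (Nat.add (Nat.add (Nat.add (Nat.add (Nat.add (Nat.add (Nat.add C x26857) x9361) x14221) x13573) x13681) x13789) x13753) x13729) x13737) x33417) (Nat.mul x13735 (nat_lit 3)))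
    (Nat.sub (Nat.add (Nat.add (Nat.add (Nat.add (Nat.add (Nat.add (Nat.add (Nat.add (Nat.add C x26859) x9363) x14223) x13575) x13683) x13791) x13755) x13731) x13735) x13737)
    (Nat.sub (Nat.add (Nat.add (Nat.add (Nat.add (Nat.add (Nat.add (Nat.add (Nat.add C x26867) x9371) x14231) x13583) x13799) x13727) x13747) x33427) (Nat.mul x13745 (nat_lit 4)))
    (Nat.sub (Nat.add (Nat.add (Nat.add (Nat.add (Nat.add (Nat.add (Nat.add (Nat.add (Nat.add (Nat.add C x26869) x9373) x14233) x13585) x13801) x13729) x13753) x13745) x13749) x33429) (Nat.mul x13747 (nat_lit 3)))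
    (Nat.sub (Nat.add (Nat.add (Nat.add (Nat.add (Nat.add (Nat.add (Nat.add (Nat.add C x26871) x9375) x14235) x13587) x13803) x13731) x13755) x13747) (Nat.mul x13749 (nat_lit 4)))
    (Nat.sub (Nat.add (Nat.add (Nat.add (Nat.add (Nat.add (Nat.add (Nat.add (Nat.add (Nat.add C x26875) x9379) x14239) x13591) x13807) x13735) x13747) x13755) x33435) (Nat.mul x13753 (nat_lit 2)))
    (Nat.sub (Nat.add (Nat.add (Nat.add (Nat.add (Nat.add (Nat.add (Nat.add (Nat.add (Nat.add C x26877) x9381) x14241) x13593) x13809) x13737) x13749) x13761) x13753) x13755)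
    (Nat.add (Nat.add (Nat.add (Nat.add (Nat.add (Nat.add C x26883) x9387) x14247) x13599) x13815) x13755)
    (Nat.sub (Nat.add (Nat.add (Nat.add (Nat.add (Nat.add (Nat.add (Nat.add C x26897) x9401) x14261) x13721) x13781) x13777) x33457) (Nat.mul x13775 (nat_lit 2)))
    (Nat.sub (Nat.add (Nat.add (Nat.add (Nat.add (Nat.add (Nat.add (Nat.add C x26899) x9403) x14263) x13723) x13783) x13775) x33459) (Nat.mul x13777 (nat_lit 2)))
    (Nat.sub (Nat.add (Nat.add (Nat.add (Nat.add (Nat.add (Nat.add (Nat.add (Nat.add C x26903) x9407) x14267) x13727) x13799) x13775) x13783) x33463) (Nat.mul x13781 (nat_lit 4)))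
    (Nat.sub (Nat.add (Nat.add (Nat.add (Nat.add (Nat.add (Nat.add (Nat.add (Nat.add (Nat.add (Nat.add C x26905) x9409) x14269) x13729) x13801) x13777) x13789) x13781) x13785) x33465) (Nat.mul x13783 (nat_lit 2)))
    (Nat.sub (Nat.add (Nat.add (Nat.add (Nat.add (Nat.add (Nat.add (Nat.add C x26907) x9411) x14271) x13731) x13803) x13791) x13783) (Nat.mul x13785 (nat_lit 2)))
    (Nat.sub (Nat.add (Nat.add (Nat.add (Nat.add (Nat.add (Nat.add (Nat.add (Nat.add C x26911) x9415) x14275) x13735) x13807) x13783) x13791) x33471) (Nat.mul x13789 (nat_lit 4)))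
    (Nat.sub (Nat.add (Nat.add (Nat.add (Nat.add (Nat.add (Nat.add (Nat.add C x26913) x9417) x14277) x13737) x13809) x13785) x13789) (Nat.mul x13791 (nat_lit 2)))
    (Nat.sub (Nat.add (Nat.add (Nat.add (Nat.add (Nat.add (Nat.add (Nat.add C x26921) x9425) x14285) x13745) x13781) x13801) x33481) (Nat.mul x13799 (nat_lit 2)))
    (Nat.sub (Nat.add (Nat.add (Nat.add (Nat.add (Nat.add (Nat.add (Nat.add (Nat.add (Nat.add C x26923) x9427) x14287) x13747) x13783) x13807) x13799) x13803) x33483) x13801)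
    (Nat.sub (Nat.add (Nat.add (Nat.add (Nat.add (Nat.add (Nat.add (Nat.add C x26925) x9429) x14289) x13749) x13785) x13809) x13801) (Nat.mul x13803 (nat_lit 2)))
    (Nat.sub (Nat.add (Nat.add (Nat.add (Nat.add (Nat.add (Nat.add (Nat.add (Nat.add (Nat.add C x26929) x9433) x14293) x13753) x13789) x13825) x13801) x13809) x33489) x13807)
    (Nat.add (Nat.add (Nat.add (Nat.add (Nat.add (Nat.add (Nat.add (Nat.add (Nat.add C x26931) x9435) x14295) x13755) x13791) x13827) x13803) x13815) x13807)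
    (Nat.add (Nat.add (Nat.add (Nat.add (Nat.add (Nat.add C x26937) x9441) x14301) x13761) x13833) x13809)
    (Nat.add (Nat.add (Nat.add (Nat.add (Nat.add (Nat.add C x26947) x9451) x14311) x13807) x13827) x33507)
    (Nat.add (Nat.add (Nat.add (Nat.add (Nat.add (Nat.add C x26949) x9453) x14313) x13809) x13833) x13825)
    (Nat.add (Nat.add (Nat.add (Nat.add (Nat.add (Nat.add C (Nat.mul x13833 (nat_lit 2))) x26955) x9459) x14319) x13815) x13827)
    (Nat.add (Nat.add (Nat.add (Nat.add (Nat.add (Nat.add C x26999) x9503) x15335) x13391) x13895) x33559)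
    (Nat.sub (Nat.add (Nat.add (Nat.add (Nat.add (Nat.add (Nat.add (Nat.add (Nat.add (Nat.add C x27017) x9521) x15353) x13409) x13949) x13877) x13913) x13901) x33577) x13895)
    (Nat.sub (Nat.add (Nat.add (Nat.add (Nat.add (Nat.add (Nat.add (Nat.add (Nat.add (Nat.add C x27023) x9527) x15359) x13415) x13955) x13919) x13895) x13903) x33583) (Nat.mul x13901 (nat_lit 2)))
    (Nat.add (Nat.add (Nat.add (Nat.add (Nat.add (Nat.add (Nat.add (Nat.add C x27025) x9529) x15361) x13417) x13957) x13921) x13901) x33585)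
    (Nat.sub (Nat.add (Nat.add (Nat.add (Nat.add (Nat.add (Nat.add (Nat.add (Nat.add C x27035) x9539) x15371) x13427) x13967) x13895) x13919) x33595) (Nat.mul x13913 (nat_lit 4)))
    (Nat.sub (Nat.add (Nat.add (Nat.add (Nat.add (Nat.add (Nat.add (Nat.add (Nat.add (Nat.add (Nat.add C x27041) x9545) x15377) x13433) x13973) x13901) x13913) x13925) x13921) x33601) (Nat.mul x13919 (nat_lit 3)))
    (Nat.sub (Nat.add (Nat.add (Nat.add (Nat.add (Nat.add (Nat.add (Nat.add (Nat.add (Nat.add C x27043) x9547) x15379) x13435) x13975) x13903) x13927) x13919) x33603) (Nat.mul x13921 (nat_lit 2)))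
    (Nat.sub (Nat.add (Nat.add (Nat.add (Nat.add (Nat.add (Nat.add (Nat.add (Nat.add C x27047) x9551) x15383) x13439) x13979) x13919) x13927) x33607) (Nat.mul x13925 (nat_lit 4)))
    (Nat.sub (Nat.add (Nat.add (Nat.add (Nat.add (Nat.add (Nat.add (Nat.add (Nat.add (Nat.add C x27049) x9553) x15385) x13441) x13981) x13921) x13925) x13929) x33609) x13927)
    (Nat.add (Nat.add (Nat.add (Nat.add (Nat.add (Nat.add C x27051) x9555) x15387) x13443) x13983) x13927)
    (Nat.sub (Nat.add (Nat.add (Nat.add (Nat.add (Nat.add (Nat.add (Nat.add (Nat.add (Nat.add C x27071) x9575) x15407) x13463) x14111) x13895) x13967) x13955) x33631) (Nat.mul x13949 (nat_lit 2)))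
    (Nat.sub (Nat.add (Nat.add (Nat.add (Nat.add (Nat.add (Nat.add (Nat.add (Nat.add (Nat.add (Nat.add C x27077) x9581) x15413) x13469) x14117) x13901) x13973) x13949) x13957) x33637) (Nat.mul x13955 (nat_lit 4)))
    (Nat.sub (Nat.add (Nat.add (Nat.add (Nat.add (Nat.add (Nat.add (Nat.add (Nat.add (Nat.add C x27079) x9583) x15415) x13471) x14119) x13903) x13975) x13955) x33639) (Nat.mul x13957 (nat_lit 2)))
    (Nat.sub (Nat.add (Nat.add (Nat.add (Nat.add (Nat.add (Nat.add (Nat.add (Nat.add (Nat.add (Nat.add C x27089) x9593) x15425) x13481) x14129) x13913) x14021) x13949) x13973) x33649) (Nat.mul x13967 (nat_lit 3)))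
    (Nat.sub (Nat.add (Nat.add (Nat.add (Nat.add (Nat.add (Nat.add (Nat.add (Nat.add (Nat.add (Nat.add (Nat.add (Nat.add (Nat.add C x27095) x9599) x15431) x13487) x14135) x13919) x14027) x13955) x13991) x13967) x13979) x13975) x33655) (Nat.mul x13973 (nat_lit 3)))
    (Nat.sub (Nat.add (Nat.add (Nat.add (Nat.add (Nat.add (Nat.add (Nat.add (Nat.add (Nat.add (Nat.add (Nat.add (Nat.add C x27097) x9601) x15433) x13489) x14137) x13921) x14029) x13957) x13993) x13981) x13973) x33657) (Nat.mul x13975 (nat_lit 2)))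
    (Nat.sub (Nat.add (Nat.add (Nat.add (Nat.add (Nat.add (Nat.add (Nat.add (Nat.add (Nat.add (Nat.add (Nat.add C x27101) x9605) x15437) x13493) x14141) x13925) x14033) x13997) x13973) x13981) x33661) (Nat.mul x13979 (nat_lit 5)))
    (Nat.sub (Nat.add (Nat.add (Nat.add (Nat.add (Nat.add (Nat.add (Nat.add (Nat.add (Nat.add (Nat.add (Nat.add (Nat.add C x27103) x9607) x15439) x13495) x14143) x13927) x14035) x13999) x13975) x13979) x13983) x33663) (Nat.mul x13981 (nat_lit 2)))
    (Nat.sub (Nat.add (Nat.add (Nat.add (Nat.add (Nat.add (Nat.add (Nat.add (Nat.add (Nat.add C x27105) x9609) x15441) x13497) x14145) x13929) x14037) x14001) x13981) x13983)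
    (Nat.sub (Nat.add (Nat.add (Nat.add (Nat.add (Nat.add (Nat.add (Nat.add (Nat.add (Nat.add (Nat.add C x27113) x9617) x15449) x13505) x14153) x14045) x13973) x13997) x13993) x33673) (Nat.mul x13991 (nat_lit 4)))
    (Nat.sub (Nat.add (Nat.add (Nat.add (Nat.add (Nat.add (Nat.add (Nat.add (Nat.add (Nat.add (Nat.add C x27115) x9619) x15451) x13507) x14155) x14047) x13975) x13999) x13991) x33675) (Nat.mul x13993 (nat_lit 4)))
    (Nat.sub (Nat.add (Nat.add (Nat.add (Nat.add (Nat.add (Nat.add (Nat.add (Nat.add (Nat.add (Nat.add C x27119) x9623) x15455) x13511) x14159) x14051) x13979) x13991) x13999) x33679) (Nat.mul x13997 (nat_lit 4)))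
    (Nat.sub (Nat.add (Nat.add (Nat.add (Nat.add (Nat.add (Nat.add (Nat.add (Nat.add (Nat.add (Nat.add (Nat.add (Nat.add C x27121) x9625) x15457) x13513) x14161) x14053) x13981) x13993) x14005) x13997) x14001) x33681) (Nat.mul x13999 (nat_lit 2)))
    (Nat.sub (Nat.add (Nat.add (Nat.add (Nat.add (Nat.add (Nat.add (Nat.add (Nat.add (Nat.add C x27123) x9627) x15459) x13515) x14163) x14055) x13983) x14007) x13999) (Nat.mul x14001 (nat_lit 2)))
    (Nat.sub (Nat.add (Nat.add (Nat.add (Nat.add (Nat.add (Nat.add (Nat.add (Nat.add (Nat.add C x27127) x9631) x15463) x13519) x14167) x14059) x13999) x14007) x33687) (Nat.mul x14005 (nat_lit 2)))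
    (Nat.add (Nat.add (Nat.add (Nat.add (Nat.add (Nat.add (Nat.add (Nat.add C x27129) x9633) x15465) x13521) x14169) x14061) x14001) x14005)
    (Nat.sub (Nat.add (Nat.add (Nat.add (Nat.add (Nat.add (Nat.add (Nat.add (Nat.add C x27143) x9647) x15479) x13535) x14183) x13967) x14027) x33703) (Nat.mul x14021 (nat_lit 4)))
    (Nat.sub (Nat.add (Nat.add (Nat.add (Nat.add (Nat.add (Nat.add (Nat.add (Nat.add (Nat.add (Nat.add (Nat.add C x27149) x9653) x15485) x13541) x14189) x13973) x14045) x14021) x14033) x14029) x33709) (Nat.mul x14027 (nat_lit 5)))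
    (Nat.sub (Nat.add (Nat.add (Nat.add (Nat.add (Nat.add (Nat.add (Nat.add (Nat.add (Nat.add (Nat.add C x27151) x9655) x15487) x13543) x14191) x13975) x14047) x14035) x14027) x33711) (Nat.mul x14029 (nat_lit 4)))
    (Nat.sub (Nat.add (Nat.add (Nat.add (Nat.add (Nat.add (Nat.add (Nat.add (Nat.add (Nat.add (Nat.add C x27155) x9659) x15491) x13547) x14195) x13979) x14051) x14027) x14035) x33715) (Nat.mul x14033 (nat_lit 8)))
    (Nat.sub (Nat.add (Nat.add (Nat.add (Nat.add (Nat.add (Nat.add (Nat.add (Nat.add (Nat.add (Nat.add (Nat.add C x27157) x9661) x15493) x13549) x14197) x13981) x14053) x14029) x14033) x14037) x33717) (Nat.mul x14035 (nat_lit 5)))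
    (Nat.sub (Nat.add (Nat.add (Nat.add (Nat.add (Nat.add (Nat.add (Nat.add (Nat.add C x27159) x9663) x15495) x13551) x14199) x13983) x14055) x14035) (Nat.mul x14037 (nat_lit 4)))
    (Nat.sub (Nat.add (Nat.add (Nat.add (Nat.add (Nat.add (Nat.add (Nat.add (Nat.add (Nat.add (Nat.add C x27167) x9671) x15503) x13559) x14207) x13991) x14027) x14051) x14047) x33727) (Nat.mul x14045 (nat_lit 4)))
    (Nat.sub (Nat.add (Nat.add (Nat.add (Nat.add (Nat.add (Nat.add (Nat.add (Nat.add (Nat.add (Nat.add C x27169) x9673) x15505) x13561) x14209) x13993) x14029) x14053) x14045) x33729) (Nat.mul x14047 (nat_lit 4)))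
    (Nat.sub (Nat.add (Nat.add (Nat.add (Nat.add (Nat.add (Nat.add (Nat.add (Nat.add (Nat.add (Nat.add (Nat.add C x27173) x9677) x15509) x13565) x14213) x13997) x14033) x14069) x14045) x14053) x33733) (Nat.mul x14051 (nat_lit 5)))
    (Nat.sub (Nat.add (Nat.add (Nat.add (Nat.add (Nat.add (Nat.add (Nat.add (Nat.add (Nat.add (Nat.add (Nat.add (Nat.add (Nat.add C x27175) x9679) x15511) x13567) x14215) x13999) x14035) x14071) x14047) x14059) x14051) x14055) x33735) (Nat.mul x14053 (nat_lit 3)))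
    (Nat.sub (Nat.add (Nat.add (Nat.add (Nat.add (Nat.add (Nat.add (Nat.add (Nat.add (Nat.add (Nat.add C x27177) x9681) x15513) x13569) x14217) x14001) x14037) x14073) x14061) x14053) (Nat.mul x14055 (nat_lit 3)))
    (Nat.sub (Nat.add (Nat.add (Nat.add (Nat.add (Nat.add (Nat.add (Nat.add (Nat.add (Nat.add (Nat.add C x27181) x9685) x15517) x13573) x14221) x14005) x14077) x14053) x14061) x33741) (Nat.mul x14059 (nat_lit 4)))
    (Nat.sub (Nat.add (Nat.add (Nat.add (Nat.add (Nat.add (Nat.add (Nat.add (Nat.add (Nat.add C x27183) x9687) x15519) x13575) x14223) x14007) x14079) x14055) x14059) (Nat.mul x14061 (nat_lit 2)))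
    (Nat.sub (Nat.add (Nat.add (Nat.add (Nat.add (Nat.add (Nat.add (Nat.add (Nat.add C x27191) x9695) x15527) x13583) x14231) x14051) x14071) x33751) (Nat.mul x14069 (nat_lit 4)))
    (Nat.sub (Nat.add (Nat.add (Nat.add (Nat.add (Nat.add (Nat.add (Nat.add (Nat.add (Nat.add (Nat.add C x27193) x9697) x15529) x13585) x14233) x14053) x14077) x14069) x14073) x33753) (Nat.mul x14071 (nat_lit 3)))
    (Nat.sub (Nat.add (Nat.add (Nat.add (Nat.add (Nat.add (Nat.add (Nat.add (Nat.add C x27195) x9699) x15531) x13587) x14235) x14055) x14079) x14071) (Nat.mul x14073 (nat_lit 4)))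
    (Nat.sub (Nat.add (Nat.add (Nat.add (Nat.add (Nat.add (Nat.add (Nat.add (Nat.add (Nat.add C x27199) x9703) x15535) x13591) x14239) x14059) x14071) x14079) x33759) (Nat.mul x14077 (nat_lit 2)))
    (Nat.sub (Nat.add (Nat.add (Nat.add (Nat.add (Nat.add (Nat.add (Nat.add (Nat.add (Nat.add C x27201) x9705) x15537) x13593) x14241) x14061) x14073) x14085) x14077) x14079)
    (Nat.add (Nat.add (Nat.add (Nat.add (Nat.add (Nat.add C x27207) x9711) x15543) x13599) x14247) x14079)
    (Nat.sub (Nat.add (Nat.add (Nat.add (Nat.add (Nat.add (Nat.add (Nat.add (Nat.add (Nat.add C x27233) x9737) x15569) x13625) x14597) x13949) x14129) x14117) x33793) x14111)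
    (Nat.sub (Nat.add (Nat.add (Nat.add (Nat.add (Nat.add (Nat.add (Nat.add (Nat.add (Nat.add (Nat.add C x27239) x9743) x15575) x13631) x14603) x13955) x14135) x14111) x14119) x33799) (Nat.mul x14117 (nat_lit 3)))
    (Nat.sub (Nat.add (Nat.add (Nat.add (Nat.add (Nat.add (Nat.add (Nat.add (Nat.add (Nat.add C x27241) x9745) x15577) x13633) x14605) x13957) x14137) x14117) x33801) x14119)
    (Nat.sub (Nat.add (Nat.add (Nat.add (Nat.add (Nat.add (Nat.add (Nat.add (Nat.add (Nat.add (Nat.add C x27251) x9755) x15587) x13643) x14615) x13967) x14183) x14111) x14135) x33811) (Nat.mul x14129 (nat_lit 3)))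
    (Nat.sub (Nat.add (Nat.add (Nat.add (Nat.add (Nat.add (Nat.add (Nat.add (Nat.add (Nat.add (Nat.add (Nat.add (Nat.add (Nat.add C x27257) x9761) x15593) x13649) x14621) x13973) x14189) x14117) x14153) x14129) x14141) x14137) x33817) (Nat.mul x14135 (nat_lit 3)))
    (Nat.sub (Nat.add (Nat.add (Nat.add (Nat.add (Nat.add (Nat.add (Nat.add (Nat.add (Nat.add (Nat.add (Nat.add (Nat.add C x27259) x9763) x15595) x13651) x14623) x13975) x14191) x14119) x14155) x14143) x14135) x33819) (Nat.mul x14137 (nat_lit 2)))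
    (Nat.sub (Nat.add (Nat.add (Nat.add (Nat.add (Nat.add (Nat.add (Nat.add (Nat.add (Nat.add (Nat.add (Nat.add C x27263) x9767) x15599) x13655) x14627) x13979) x14195) x14159) x14135) x14143) x33823) (Nat.mul x14141 (nat_lit 5)))
    (Nat.sub (Nat.add (Nat.add (Nat.add (Nat.add (Nat.add (Nat.add (Nat.add (Nat.add (Nat.add (Nat.add (Nat.add (Nat.add C x27265) x9769) x15601) x13657) x14629) x13981) x14197) x14161) x14137) x14141) x14145) x33825) (Nat.mul x14143 (nat_lit 2)))
    (Nat.sub (Nat.add (Nat.add (Nat.add (Nat.add (Nat.add (Nat.add (Nat.add (Nat.add (Nat.add C x27267) x9771) x15603) x13659) x14631) x13983) x14199) x14163) x14143) x14145)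
    (Nat.sub (Nat.add (Nat.add (Nat.add (Nat.add (Nat.add (Nat.add (Nat.add (Nat.add (Nat.add (Nat.add (Nat.add C x27275) x9779) x15611) x13667) x14639) x13991) x14207) x14135) x14159) x14155) x33835) (Nat.mul x14153 (nat_lit 5)))
    (Nat.sub (Nat.add (Nat.add (Nat.add (Nat.add (Nat.add (Nat.add (Nat.add (Nat.add (Nat.add (Nat.add (Nat.add C x27277) x9781) x15613) x13669) x14641) x13993) x14209) x14137) x14161) x14153) x33837) (Nat.mul x14155 (nat_lit 5)))
    (Nat.sub (Nat.add (Nat.add (Nat.add (Nat.add (Nat.add (Nat.add (Nat.add (Nat.add (Nat.add (Nat.add (Nat.add C x27281) x9785) x15617) x13673) x14645) x13997) x14213) x14141) x14153) x14161) x33841) (Nat.mul x14159 (nat_lit 5)))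
    (Nat.sub (Nat.add (Nat.add (Nat.add (Nat.add (Nat.add (Nat.add (Nat.add (Nat.add (Nat.add (Nat.add (Nat.add (Nat.add (Nat.add C x27283) x9787) x15619) x13675) x14647) x13999) x14215) x14143) x14155) x14167) x14159) x14163) x33843) (Nat.mul x14161 (nat_lit 3)))
    (Nat.sub (Nat.add (Nat.add (Nat.add (Nat.add (Nat.add (Nat.add (Nat.add (Nat.add (Nat.add (Nat.add C x27285) x9789) x15621) x13677) x14649) x14001) x14217) x14145) x14169) x14161) (Nat.mul x14163 (nat_lit 3)))
    (Nat.sub (Nat.add (Nat.add (Nat.add (Nat.add (Nat.add (Nat.add (Nat.add (Nat.add (Nat.add (Nat.add C x27289) x9793) x15625) x13681) x14653) x14005) x14221) x14161) x14169) x33849) (Nat.mul x14167 (nat_lit 3)))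
    (Nat.sub (Nat.add (Nat.add (Nat.add (Nat.add (Nat.add (Nat.add (Nat.add (Nat.add (Nat.add C x27291) x9795) x15627) x13683) x14655) x14007) x14223) x14163) x14167) x14169)
    (Nat.sub (Nat.add (Nat.add (Nat.add (Nat.add (Nat.add (Nat.add (Nat.add (Nat.add (Nat.add (Nat.add C x27305) x9809) x15641) x13697) x14669) x14021) x14345) x14129) x14189) x33865) (Nat.mul x14183 (nat_lit 2)))
    (Nat.sub (Nat.add (Nat.add (Nat.add (Nat.add (Nat.add (Nat.add (Nat.add (Nat.add (Nat.add (Nat.add (Nat.add (Nat.add (Nat.add C x27311) x9815) x15647) x13703) x14675) x14027) x14351) x14135) x14207) x14183) x14195) x14191) x33871) (Nat.mul x14189 (nat_lit 3)))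
    (Nat.sub (Nat.add (Nat.add (Nat.add (Nat.add (Nat.add (Nat.add (Nat.add (Nat.add (Nat.add (Nat.add (Nat.add (Nat.add C x27313) x9817) x15649) x13705) x14677) x14029) x14353) x14137) x14209) x14197) x14189) x33873) (Nat.mul x14191 (nat_lit 2)))
    (Nat.sub (Nat.add (Nat.add (Nat.add (Nat.add (Nat.add (Nat.add (Nat.add (Nat.add (Nat.add (Nat.add (Nat.add (Nat.add C x27317) x9821) x15653) x13709) x14681) x14033) x14357) x14141) x14213) x14189) x14197) x33877) (Nat.mul x14195 (nat_lit 6)))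
    (Nat.sub (Nat.add (Nat.add (Nat.add (Nat.add (Nat.add (Nat.add (Nat.add (Nat.add (Nat.add (Nat.add (Nat.add (Nat.add (Nat.add C x27319) x9823) x15655) x13711) x14683) x14035) x14359) x14143) x14215) x14191) x14195) x14199) x33879) (Nat.mul x14197 (nat_lit 3)))
    (Nat.sub (Nat.add (Nat.add (Nat.add (Nat.add (Nat.add (Nat.add (Nat.add (Nat.add (Nat.add (Nat.add C x27321) x9825) x15657) x13713) x14685) x14037) x14361) x14145) x14217) x14197) (Nat.mul x14199 (nat_lit 2)))
    (Nat.sub (Nat.add (Nat.add (Nat.add (Nat.add (Nat.add (Nat.add (Nat.add (Nat.add (Nat.add (Nat.add (Nat.add (Nat.add (Nat.add C x27329) x9833) x15665) x13721) x14693) x14045) x14369) x14153) x14261) x14189) x14213) x14209) x33889) (Nat.mul x14207 (nat_lit 3)))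
    (Nat.sub (Nat.add (Nat.add (Nat.add (Nat.add (Nat.add (Nat.add (Nat.add (Nat.add (Nat.add (Nat.add (Nat.add (Nat.add (Nat.add C x27331) x9835) x15667) x13723) x14695) x14047) x14371) x14155) x14263) x14191) x14215) x14207) x33891) (Nat.mul x14209 (nat_lit 3)))
    (Nat.sub (Nat.add (Nat.add (Nat.add (Nat.add (Nat.add (Nat.add (Nat.add (Nat.add (Nat.add (Nat.add (Nat.add (Nat.add (Nat.add (Nat.add C x27335) x9839) x15671) x13727) x14699) x14051) x14375) x14159) x14267) x14195) x14231) x14207) x14215) x33895) (Nat.mul x14213 (nat_lit 4)))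
    (Nat.sub (Nat.add (Nat.add (Nat.add (Nat.add (Nat.add (Nat.add (Nat.add (Nat.add (Nat.add (Nat.add (Nat.add (Nat.add (Nat.add (Nat.add (Nat.add (Nat.add C x27337) x9841) x15673) x13729) x14701) x14053) x14377) x14161) x14269) x14197) x14233) x14209) x14221) x14213) x14217) x33897) (Nat.mul x14215 (nat_lit 2)))
    (Nat.sub (Nat.add (Nat.add (Nat.add (Nat.add (Nat.add (Nat.add (Nat.add (Nat.add (Nat.add (Nat.add (Nat.add (Nat.add (Nat.add C x27339) x9843) x15675) x13731) x14703) x14055) x14379) x14163) x14271) x14199) x14235) x14223) x14215) (Nat.mul x14217 (nat_lit 2)))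
    (Nat.sub (Nat.add (Nat.add (Nat.add (Nat.add (Nat.add (Nat.add (Nat.add (Nat.add (Nat.add (Nat.add (Nat.add (Nat.add (Nat.add C x27343) x9847) x15679) x13735) x14707) x14059) x14383) x14167) x14275) x14239) x14215) x14223) x33903) (Nat.mul x14221 (nat_lit 3)))
    (Nat.sub (Nat.add (Nat.add (Nat.add (Nat.add (Nat.add (Nat.add (Nat.add (Nat.add (Nat.add (Nat.add (Nat.add (Nat.add C x27345) x9849) x15681) x13737) x14709) x14061) x14385) x14169) x14277) x14241) x14217) x14221) x14223)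
    (Nat.sub (Nat.add (Nat.add (Nat.add (Nat.add (Nat.add (Nat.add (Nat.add (Nat.add (Nat.add (Nat.add (Nat.add C x27353) x9857) x15689) x13745) x14717) x14069) x14393) x14285) x14213) x14233) x33913) (Nat.mul x14231 (nat_lit 4)))
    (Nat.sub (Nat.add (Nat.add (Nat.add (Nat.add (Nat.add (Nat.add (Nat.add (Nat.add (Nat.add (Nat.add (Nat.add (Nat.add (Nat.add C x27355) x9859) x15691) x13747) x14719) x14071) x14395) x14287) x14215) x14239) x14231) x14235) x33915) (Nat.mul x14233 (nat_lit 3)))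
    (Nat.sub (Nat.add (Nat.add (Nat.add (Nat.add (Nat.add (Nat.add (Nat.add (Nat.add (Nat.add (Nat.add (Nat.add C x27357) x9861) x15693) x13749) x14721) x14073) x14397) x14289) x14217) x14241) x14233) (Nat.mul x14235 (nat_lit 4)))
    (Nat.sub (Nat.add (Nat.add (Nat.add (Nat.add (Nat.add (Nat.add (Nat.add (Nat.add (Nat.add (Nat.add (Nat.add (Nat.add C x27361) x9865) x15697) x13753) x14725) x14077) x14401) x14293) x14221) x14233) x14241) x33921) (Nat.mul x14239 (nat_lit 2)))
    (Nat.sub (Nat.add (Nat.add (Nat.add (Nat.add (Nat.add (Nat.add (Nat.add (Nat.add (Nat.add (Nat.add (Nat.add (Nat.add C x27363) x9867) x15699) x13755) x14727) x14079) x14403) x14295) x14223) x14235) x14247) x14239) x14241)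
    (Nat.add (Nat.add (Nat.add (Nat.add (Nat.add (Nat.add (Nat.add (Nat.add (Nat.add C x27369) x9873) x15705) x13761) x14733) x14085) x14409) x14301) x14241)
    (Nat.sub (Nat.add (Nat.add (Nat.add (Nat.add (Nat.add (Nat.add (Nat.add (Nat.add (Nat.add (Nat.add C x27383) x9887) x15719) x13775) x14747) x14423) x14207) x14267) x14263) x33943) (Nat.mul x14261 (nat_lit 3)))
    (Nat.sub (Nat.add (Nat.add (Nat.add (Nat.add (Nat.add (Nat.add (Nat.add (Nat.add (Nat.add (Nat.add C x27385) x9889) x15721) x13777) x14749) x14425) x14209) x14269) x14261) x33945) (Nat.mul x14263 (nat_lit 3)))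
    (Nat.sub (Nat.add (Nat.add (Nat.add (Nat.add (Nat.add (Nat.add (Nat.add (Nat.add (Nat.add (Nat.add (Nat.add C x27389) x9893) x15725) x13781) x14753) x14429) x14213) x14285) x14261) x14269) x33949) (Nat.mul x14267 (nat_lit 5)))
    (Nat.sub (Nat.add (Nat.add (Nat.add (Nat.add (Nat.add (Nat.add (Nat.add (Nat.add (Nat.add (Nat.add (Nat.add (Nat.add (Nat.add C x27391) x9895) x15727) x13783) x14755) x14431) x14215) x14287) x14263) x14275) x14267) x14271) x33951) (Nat.mul x14269 (nat_lit 3)))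
    (Nat.sub (Nat.add (Nat.add (Nat.add (Nat.add (Nat.add (Nat.add (Nat.add (Nat.add (Nat.add (Nat.add C x27393) x9897) x15729) x13785) x14757) x14433) x14217) x14289) x14277) x14269) (Nat.mul x14271 (nat_lit 3)))
    (Nat.sub (Nat.add (Nat.add (Nat.add (Nat.add (Nat.add (Nat.add (Nat.add (Nat.add (Nat.add (Nat.add (Nat.add C x27397) x9901) x15733) x13789) x14761) x14437) x14221) x14293) x14269) x14277) x33957) (Nat.mul x14275 (nat_lit 5)))
    (Nat.sub (Nat.add (Nat.add (Nat.add (Nat.add (Nat.add (Nat.add (Nat.add (Nat.add (Nat.add (Nat.add C x27399) x9903) x15735) x13791) x14763) x14439) x14223) x14295) x14271) x14275) (Nat.mul x14277 (nat_lit 3)))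
    (Nat.sub (Nat.add (Nat.add (Nat.add (Nat.add (Nat.add (Nat.add (Nat.add (Nat.add (Nat.add (Nat.add C x27407) x9911) x15743) x13799) x14771) x14447) x14231) x14267) x14287) x33967) (Nat.mul x14285 (nat_lit 3)))
    (Nat.sub (Nat.add (Nat.add (Nat.add (Nat.add (Nat.add (Nat.add (Nat.add (Nat.add (Nat.add (Nat.add (Nat.add (Nat.add C x27409) x9913) x15745) x13801) x14773) x14449) x14233) x14269) x14293) x14285) x14289) x33969) (Nat.mul x14287 (nat_lit 2)))
    (Nat.sub (Nat.add (Nat.add (Nat.add (Nat.add (Nat.add (Nat.add (Nat.add (Nat.add (Nat.add (Nat.add C x27411) x9915) x15747) x13803) x14775) x14451) x14235) x14271) x14295) x14287) (Nat.mul x14289 (nat_lit 3)))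
    (Nat.sub (Nat.add (Nat.add (Nat.add (Nat.add (Nat.add (Nat.add (Nat.add (Nat.add (Nat.add (Nat.add (Nat.add (Nat.add C x27415) x9919) x15751) x13807) x14779) x14455) x14239) x14275) x14311) x14287) x14295) x33975) (Nat.mul x14293 (nat_lit 2)))
    (Nat.sub (Nat.add (Nat.add (Nat.add (Nat.add (Nat.add (Nat.add (Nat.add (Nat.add (Nat.add (Nat.add (Nat.add (Nat.add C x27417) x9921) x15753) x13809) x14781) x14457) x14241) x14277) x14313) x14289) x14301) x14293) x14295)
    (Nat.sub (Nat.add (Nat.add (Nat.add (Nat.add (Nat.add (Nat.add (Nat.add (Nat.add (Nat.add C x27423) x9927) x15759) x13815) x14787) x14463) x14247) x14319) x14295) x14301)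
    (Nat.sub (Nat.add (Nat.add (Nat.add (Nat.add (Nat.add (Nat.add (Nat.add (Nat.add (Nat.add C x27433) x9937) x15769) x13825) x14797) x14473) x14293) x14313) x33993) x14311)
    (Nat.sub (Nat.add (Nat.add (Nat.add (Nat.add (Nat.add (Nat.add (Nat.add (Nat.add (Nat.add C x27435) x9939) x15771) x13827) x14799) x14475) x14295) x14319) x14311) x14313)
    (Nat.add (Nat.add (Nat.add (Nat.add (Nat.add (Nat.add (Nat.add (Nat.add (Nat.add C x14319) x27441) x9945) x15777) x13833) x14805) x14481) x14301) x14313)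
    (Nat.sub (Nat.add (Nat.add (Nat.add (Nat.add (Nat.add (Nat.add (Nat.add C x27467) x9971) x15803) x14831) x14183) x14351) x34027) (Nat.mul x14345 (nat_lit 2)))
    (Nat.sub (Nat.add (Nat.add (Nat.add (Nat.add (Nat.add (Nat.add (Nat.add (Nat.add (Nat.add (Nat.add C x27473) x9977) x15809) x14837) x14189) x14369) x14345) x14357) x14353) x34033) (Nat.mul x14351 (nat_lit 3)))
    (Nat.sub (Nat.add (Nat.add (Nat.add (Nat.add (Nat.add (Nat.add (Nat.add (Nat.add (Nat.add C x27475) x9979) x15811) x14839) x14191) x14371) x14359) x14351) x34035) (Nat.mul x14353 (nat_lit 2)))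
    (Nat.sub (Nat.add (Nat.add (Nat.add (Nat.add (Nat.add (Nat.add (Nat.add (Nat.add (Nat.add C x27479) x9983) x15815) x14843) x14195) x14375) x14351) x14359) x34039) (Nat.mul x14357 (nat_lit 6)))
    (Nat.sub (Nat.add (Nat.add (Nat.add (Nat.add (Nat.add (Nat.add (Nat.add (Nat.add (Nat.add (Nat.add C x27481) x9985) x15817) x14845) x14197) x14377) x14353) x14357) x14361) x34041) (Nat.mul x14359 (nat_lit 3)))
    (Nat.sub (Nat.add (Nat.add (Nat.add (Nat.add (Nat.add (Nat.add (Nat.add C x27483) x9987) x15819) x14847) x14199) x14379) x14359) (Nat.mul x14361 (nat_lit 2)))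
    (Nat.sub (Nat.add (Nat.add (Nat.add (Nat.add (Nat.add (Nat.add (Nat.add (Nat.add (Nat.add (Nat.add C x27491) x9995) x15827) x14855) x14207) x14423) x14351) x14375) x14371) x34051) (Nat.mul x14369 (nat_lit 4)))
    (Nat.sub (Nat.add (Nat.add (Nat.add (Nat.add (Nat.add (Nat.add (Nat.add (Nat.add (Nat.add (Nat.add C x27493) x9997) x15829) x14857) x14209) x14425) x14353) x14377) x14369) x34053) (Nat.mul x14371 (nat_lit 4)))
    (Nat.sub (Nat.add (Nat.add (Nat.add (Nat.add (Nat.add (Nat.add (Nat.add (Nat.add (Nat.add (Nat.add (Nat.add C x27497) x10001) x15833) x14861) x14213) x14429) x14357) x14393) x14369) x14377) x34057) (Nat.mul x14375 (nat_lit 5)))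
    (Nat.sub (Nat.add (Nat.add (Nat.add (Nat.add (Nat.add (Nat.add (Nat.add (Nat.add (Nat.add (Nat.add (Nat.add (Nat.add (Nat.add C x27499) x10003) x15835) x14863) x14215) x14431) x14359) x14395) x14371) x14383) x14375) x14379) x34059) (Nat.mul x14377 (nat_lit 3)))
    (Nat.sub (Nat.add (Nat.add (Nat.add (Nat.add (Nat.add (Nat.add (Nat.add (Nat.add (Nat.add (Nat.add C x27501) x10005) x15837) x14865) x14217) x14433) x14361) x14397) x14385) x14377) (Nat.mul x14379 (nat_lit 3)))
    (Nat.sub (Nat.add (Nat.add (Nat.add (Nat.add (Nat.add (Nat.add (Nat.add (Nat.add (Nat.add (Nat.add C x27505) x10009) x15841) x14869) x14221) x14437) x14401) x14377) x14385) x34065) (Nat.mul x14383 (nat_lit 4)))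
    (Nat.sub (Nat.add (Nat.add (Nat.add (Nat.add (Nat.add (Nat.add (Nat.add (Nat.add (Nat.add C x27507) x10011) x15843) x14871) x14223) x14439) x14403) x14379) x14383) (Nat.mul x14385 (nat_lit 2)))
    (Nat.sub (Nat.add (Nat.add (Nat.add (Nat.add (Nat.add (Nat.add (Nat.add (Nat.add (Nat.add C x27515) x10019) x15851) x14879) x14231) x14447) x14375) x14395) x34075) (Nat.mul x14393 (nat_lit 6)))
    (Nat.sub (Nat.add (Nat.add (Nat.add (Nat.add (Nat.add (Nat.add (Nat.add (Nat.add (Nat.add (Nat.add (Nat.add C x27517) x10021) x15853) x14881) x14233) x14449) x14377) x14401) x14393) x14397) x34077) (Nat.mul x14395 (nat_lit 5)))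
    (Nat.sub (Nat.add (Nat.add (Nat.add (Nat.add (Nat.add (Nat.add (Nat.add (Nat.add (Nat.add C x27519) x10023) x15855) x14883) x14235) x14451) x14379) x14403) x14395) (Nat.mul x14397 (nat_lit 6)))
    (Nat.sub (Nat.add (Nat.add (Nat.add (Nat.add (Nat.add (Nat.add (Nat.add (Nat.add (Nat.add (Nat.add C x27523) x10027) x15859) x14887) x14239) x14455) x14383) x14395) x14403) x34083) (Nat.mul x14401 (nat_lit 4)))
    (Nat.sub (Nat.add (Nat.add (Nat.add (Nat.add (Nat.add (Nat.add (Nat.add (Nat.add (Nat.add (Nat.add C x27525) x10029) x15861) x14889) x14241) x14457) x14385) x14397) x14409) x14401) (Nat.mul x14403 (nat_lit 3)))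
    (Nat.sub (Nat.add (Nat.add (Nat.add (Nat.add (Nat.add (Nat.add (Nat.add C x27531) x10035) x15867) x14895) x14247) x14463) x14403) (Nat.mul x14409 (nat_lit 2)))
    (Nat.sub (Nat.add (Nat.add (Nat.add (Nat.add (Nat.add (Nat.add (Nat.add (Nat.add (Nat.add C x27545) x10049) x15881) x14909) x14261) x14369) x14429) x14425) x34105) (Nat.mul x14423 (nat_lit 2)))
    (Nat.sub (Nat.add (Nat.add (Nat.add (Nat.add (Nat.add (Nat.add (Nat.add (Nat.add (Nat.add C x27547) x10051) x15883) x14911) x14263) x14371) x14431) x14423) x34107) (Nat.mul x14425 (nat_lit 2)))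
    (Nat.sub (Nat.add (Nat.add (Nat.add (Nat.add (Nat.add (Nat.add (Nat.add (Nat.add (Nat.add (Nat.add C x27551) x10055) x15887) x14915) x14267) x14375) x14447) x14423) x14431) x34111) (Nat.mul x14429 (nat_lit 4)))
    (Nat.sub (Nat.add (Nat.add (Nat.add (Nat.add (Nat.add (Nat.add (Nat.add (Nat.add (Nat.add (Nat.add (Nat.add (Nat.add C x27553) x10057) x15889) x14917) x14269) x14377) x14449) x14425) x14437) x14429) x14433) x34113) (Nat.mul x14431 (nat_lit 2)))
    (Nat.sub (Nat.add (Nat.add (Nat.add (Nat.add (Nat.add (Nat.add (Nat.add (Nat.add (Nat.add C x27555) x10059) x15891) x14919) x14271) x14379) x14451) x14439) x14431) (Nat.mul x14433 (nat_lit 2)))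
    (Nat.sub (Nat.add (Nat.add (Nat.add (Nat.add (Nat.add (Nat.add (Nat.add (Nat.add (Nat.add (Nat.add C x27559) x10063) x15895) x14923) x14275) x14383) x14455) x14431) x14439) x34119) (Nat.mul x14437 (nat_lit 4)))
    (Nat.sub (Nat.add (Nat.add (Nat.add (Nat.add (Nat.add (Nat.add (Nat.add (Nat.add (Nat.add C x27561) x10065) x15897) x14925) x14277) x14385) x14457) x14433) x14437) (Nat.mul x14439 (nat_lit 2)))
    (Nat.sub (Nat.add (Nat.add (Nat.add (Nat.add (Nat.add (Nat.add (Nat.add (Nat.add (Nat.add (Nat.add C x27569) x10073) x15905) x14933) x14285) x14393) x14501) x14429) x14449) x34129) (Nat.mul x14447 (nat_lit 3)))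
    (Nat.sub (Nat.add (Nat.add (Nat.add (Nat.add (Nat.add (Nat.add (Nat.add (Nat.add (Nat.add (Nat.add (Nat.add (Nat.add C x27571) x10075) x15907) x14935) x14287) x14395) x14503) x14431) x14455) x14447) x14451) x34131) (Nat.mul x14449 (nat_lit 2)))
    (Nat.sub (Nat.add (Nat.add (Nat.add (Nat.add (Nat.add (Nat.add (Nat.add (Nat.add (Nat.add (Nat.add C x27573) x10077) x15909) x14937) x14289) x14397) x14505) x14433) x14457) x14449) (Nat.mul x14451 (nat_lit 3)))
    (Nat.sub (Nat.add (Nat.add (Nat.add (Nat.add (Nat.add (Nat.add (Nat.add (Nat.add (Nat.add (Nat.add (Nat.add (Nat.add C x27577) x10081) x15913) x14941) x14293) x14401) x14509) x14437) x14473) x14449) x14457) x34137) (Nat.mul x14455 (nat_lit 2)))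
    (Nat.sub (Nat.add (Nat.add (Nat.add (Nat.add (Nat.add (Nat.add (Nat.add (Nat.add (Nat.add (Nat.add (Nat.add (Nat.add C x27579) x10083) x15915) x14943) x14295) x14403) x14511) x14439) x14475) x14451) x14463) x14455) x14457)
    (Nat.sub (Nat.add (Nat.add (Nat.add (Nat.add (Nat.add (Nat.add (Nat.add (Nat.add (Nat.add C x27585) x10089) x15921) x14949) x14301) x14409) x14517) x14481) x14457) x14463)
    (Nat.sub (Nat.add (Nat.add (Nat.add (Nat.add (Nat.add (Nat.add (Nat.add (Nat.add (Nat.add C x27595) x10099) x15931) x14959) x14311) x14527) x14455) x14475) x34155) (Nat.mul x14473 (nat_lit 2)))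
    (Nat.sub (Nat.add (Nat.add (Nat.add (Nat.add (Nat.add (Nat.add (Nat.add (Nat.add (Nat.add C x27597) x10101) x15933) x14961) x14313) x14529) x14457) x14481) x14473) (Nat.mul x14475 (nat_lit 2)))
    (Nat.add (Nat.add (Nat.add (Nat.add (Nat.add (Nat.add (Nat.add (Nat.add C x27603) x10107) x15939) x14967) x14319) x14535) x14463) x14475)
    (Nat.sub (Nat.add (Nat.add (Nat.add (Nat.add (Nat.add (Nat.add (Nat.add C x27623) x10127) x15959) x14987) x14447) x14503) x34183) (Nat.mul x14501 (nat_lit 2)))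
    (Nat.sub (Nat.add (Nat.add (Nat.add (Nat.add (Nat.add (Nat.add (Nat.add (Nat.add (Nat.add C x27625) x10129) x15961) x14989) x14449) x14509) x14501) x14505) x34185) x14503)
    (Nat.sub (Nat.add (Nat.add (Nat.add (Nat.add (Nat.add (Nat.add (Nat.add C x27627) x10131) x15963) x14991) x14451) x14511) x14503) (Nat.mul x14505 (nat_lit 2)))
    (Nat.sub (Nat.add (Nat.add (Nat.add (Nat.add (Nat.add (Nat.add (Nat.add (Nat.add (Nat.add C x27631) x10135) x15967) x14995) x14455) x14527) x14503) x14511) x34191) (Nat.mul x14509 (nat_lit 2)))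
    (Nat.sub (Nat.add (Nat.add (Nat.add (Nat.add (Nat.add (Nat.add (Nat.add (Nat.add (Nat.add C x27633) x10137) x15969) x14997) x14457) x14529) x14505) x14517) x14509) x14511)
    (Nat.sub (Nat.add (Nat.add (Nat.add (Nat.add (Nat.add (Nat.add (Nat.add C x27639) x10143) x15975) x15003) x14463) x14535) x14511) (Nat.mul x14517 (nat_lit 2)))
    (Nat.add (Nat.add (Nat.add (Nat.add (Nat.add (Nat.add (Nat.add (Nat.add C x27649) x10153) x15985) x15013) x14473) x14509) x14529) x34209)
    (Nat.add (Nat.add (Nat.add (Nat.add (Nat.add (Nat.add (Nat.add (Nat.add C x27651) x10155) x15987) x15015) x14475) x14511) x14535) x14527)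
    (Nat.add (Nat.add (Nat.add (Nat.add (Nat.add (Nat.add (Nat.add (Nat.add (Nat.add C x14535) x27657) x10161) x15993) x15021) x14481) x14517) x14553) x14529)
    (Nat.add (Nat.add (Nat.add (Nat.add (Nat.add (Nat.add C (Nat.mul x14553 (nat_lit 2))) x27675) x10179) x16011) x15039) x14535)
    (Nat.sub (Nat.add (Nat.add (Nat.add (Nat.add (Nat.add (Nat.add (Nat.add C x27719) x10223) x16055) x14111) x14615) x14603) x34279) (Nat.mul x14597 (nat_lit 2)))
    (Nat.sub (Nat.add (Nat.add (Nat.add (Nat.add (Nat.add (Nat.add (Nat.add (Nat.add C x27725) x10229) x16061) x14117) x14621) x14597) x14605) x34285) (Nat.mul x14603 (nat_lit 4)))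
    (Nat.sub (Nat.add (Nat.add (Nat.add (Nat.add (Nat.add (Nat.add (Nat.add C x27727) x10231) x16063) x14119) x14623) x14603) x34287) (Nat.mul x14605 (nat_lit 2)))
    (Nat.sub (Nat.add (Nat.add (Nat.add (Nat.add (Nat.add (Nat.add (Nat.add (Nat.add C x27737) x10241) x16073) x14129) x14669) x14597) x14621) x34297) (Nat.mul x14615 (nat_lit 4)))
    (Nat.sub (Nat.add (Nat.add (Nat.add (Nat.add (Nat.add (Nat.add (Nat.add (Nat.add (Nat.add (Nat.add (Nat.add C x27743) x10247) x16079) x14135) x14675) x14603) x14639) x14615) x14627) x14623) x34303) (Nat.mul x14621 (nat_lit 4)))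
    (Nat.sub (Nat.add (Nat.add (Nat.add (Nat.add (Nat.add (Nat.add (Nat.add (Nat.add (Nat.add (Nat.add C x27745) x10249) x16081) x14137) x14677) x14605) x14641) x14629) x14621) x34305) (Nat.mul x14623 (nat_lit 3)))
    (Nat.sub (Nat.add (Nat.add (Nat.add (Nat.add (Nat.add (Nat.add (Nat.add (Nat.add (Nat.add C x27749) x10253) x16085) x14141) x14681) x14645) x14621) x14629) x34309) (Nat.mul x14627 (nat_lit 6)))
    (Nat.sub (Nat.add (Nat.add (Nat.add (Nat.add (Nat.add (Nat.add (Nat.add (Nat.add (Nat.add (Nat.add C x27751) x10255) x16087) x14143) x14683) x14647) x14623) x14627) x14631) x34311) (Nat.mul x14629 (nat_lit 3)))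
    (Nat.sub (Nat.add (Nat.add (Nat.add (Nat.add (Nat.add (Nat.add (Nat.add C x27753) x10257) x16089) x14145) x14685) x14649) x14629) (Nat.mul x14631 (nat_lit 2)))
    (Nat.sub (Nat.add (Nat.add (Nat.add (Nat.add (Nat.add (Nat.add (Nat.add (Nat.add (Nat.add C x27761) x10265) x16097) x14153) x14693) x14621) x14645) x14641) x34321) (Nat.mul x14639 (nat_lit 6)))
    (Nat.sub (Nat.add (Nat.add (Nat.add (Nat.add (Nat.add (Nat.add (Nat.add (Nat.add (Nat.add C x27763) x10267) x16099) x14155) x14695) x14623) x14647) x14639) x34323) (Nat.mul x14641 (nat_lit 6)))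
    (Nat.sub (Nat.add (Nat.add (Nat.add (Nat.add (Nat.add (Nat.add (Nat.add (Nat.add (Nat.add C x27767) x10271) x16103) x14159) x14699) x14627) x14639) x14647) x34327) (Nat.mul x14645 (nat_lit 6)))
    (Nat.sub (Nat.add (Nat.add (Nat.add (Nat.add (Nat.add (Nat.add (Nat.add (Nat.add (Nat.add (Nat.add (Nat.add C x27769) x10273) x16105) x14161) x14701) x14629) x14641) x14653) x14645) x14649) x34329) (Nat.mul x14647 (nat_lit 4)))
    (Nat.sub (Nat.add (Nat.add (Nat.add (Nat.add (Nat.add (Nat.add (Nat.add (Nat.add C x27771) x10275) x16107) x14163) x14703) x14631) x14655) x14647) (Nat.mul x14649 (nat_lit 4)))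
    (Nat.sub (Nat.add (Nat.add (Nat.add (Nat.add (Nat.add (Nat.add (Nat.add (Nat.add C x27775) x10279) x16111) x14167) x14707) x14647) x14655) x34335) (Nat.mul x14653 (nat_lit 4)))
    (Nat.sub (Nat.add (Nat.add (Nat.add (Nat.add (Nat.add (Nat.add (Nat.add C x27777) x10281) x16113) x14169) x14709) x14649) x14653) (Nat.mul x14655 (nat_lit 2)))
    (Nat.sub (Nat.add (Nat.add (Nat.add (Nat.add (Nat.add (Nat.add (Nat.add (Nat.add C x27791) x10295) x16127) x14183) x14831) x14615) x14675) x34351) (Nat.mul x14669 (nat_lit 4)))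
    (Nat.sub (Nat.add (Nat.add (Nat.add (Nat.add (Nat.add (Nat.add (Nat.add (Nat.add (Nat.add (Nat.add (Nat.add C x27797) x10301) x16133) x14189) x14837) x14621) x14693) x14669) x14681) x14677) x34357) (Nat.mul x14675 (nat_lit 5)))
    (Nat.sub (Nat.add (Nat.add (Nat.add (Nat.add (Nat.add (Nat.add (Nat.add (Nat.add (Nat.add (Nat.add C x27799) x10303) x16135) x14191) x14839) x14623) x14695) x14683) x14675) x34359) (Nat.mul x14677 (nat_lit 4)))
    (Nat.sub (Nat.add (Nat.add (Nat.add (Nat.add (Nat.add (Nat.add (Nat.add (Nat.add (Nat.add (Nat.add C x27803) x10307) x16139) x14195) x14843) x14627) x14699) x14675) x14683) x34363) (Nat.mul x14681 (nat_lit 8)))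
    (Nat.sub (Nat.add (Nat.add (Nat.add (Nat.add (Nat.add (Nat.add (Nat.add (Nat.add (Nat.add (Nat.add (Nat.add C x27805) x10309) x16141) x14197) x14845) x14629) x14701) x14677) x14681) x14685) x34365) (Nat.mul x14683 (nat_lit 5)))
    (Nat.sub (Nat.add (Nat.add (Nat.add (Nat.add (Nat.add (Nat.add (Nat.add (Nat.add C x27807) x10311) x16143) x14199) x14847) x14631) x14703) x14683) (Nat.mul x14685 (nat_lit 4)))
    (Nat.sub (Nat.add (Nat.add (Nat.add (Nat.add (Nat.add (Nat.add (Nat.add (Nat.add (Nat.add (Nat.add (Nat.add C x27815) x10319) x16151) x14207) x14855) x14639) x14747) x14675) x14699) x14695) x34375) (Nat.mul x14693 (nat_lit 5)))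
    (Nat.sub (Nat.add (Nat.add (Nat.add (Nat.add (Nat.add (Nat.add (Nat.add (Nat.add (Nat.add (Nat.add (Nat.add C x27817) x10321) x16153) x14209) x14857) x14641) x14749) x14677) x14701) x14693) x34377) (Nat.mul x14695 (nat_lit 5)))
    (Nat.sub (Nat.add (Nat.add (Nat.add (Nat.add (Nat.add (Nat.add (Nat.add (Nat.add (Nat.add (Nat.add (Nat.add (Nat.add C x27821) x10325) x16157) x14213) x14861) x14645) x14753) x14681) x14717) x14693) x14701) x34381) (Nat.mul x14699 (nat_lit 6)))
    (Nat.sub (Nat.add (Nat.add (Nat.add (Nat.add (Nat.add (Nat.add (Nat.add (Nat.add (Nat.add (Nat.add (Nat.add (Nat.add (Nat.add (Nat.add C x27823) x10327) x16159) x14215) x14863) x14647) x14755) x14683) x14719) x14695) x14707) x14699) x14703) x34383) (Nat.mul x14701 (nat_lit 4)))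
    (Nat.sub (Nat.add (Nat.add (Nat.add (Nat.add (Nat.add (Nat.add (Nat.add (Nat.add (Nat.add (Nat.add (Nat.add C x27825) x10329) x16161) x14217) x14865) x14649) x14757) x14685) x14721) x14709) x14701) (Nat.mul x14703 (nat_lit 4)))
    (Nat.sub (Nat.add (Nat.add (Nat.add (Nat.add (Nat.add (Nat.add (Nat.add (Nat.add (Nat.add (Nat.add (Nat.add C x27829) x10333) x16165) x14221) x14869) x14653) x14761) x14725) x14701) x14709) x34389) (Nat.mul x14707 (nat_lit 5)))
    (Nat.sub (Nat.add (Nat.add (Nat.add (Nat.add (Nat.add (Nat.add (Nat.add (Nat.add (Nat.add (Nat.add C x27831) x10335) x16167) x14223) x14871) x14655) x14763) x14727) x14703) x14707) (Nat.mul x14709 (nat_lit 3)))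
    (Nat.sub (Nat.add (Nat.add (Nat.add (Nat.add (Nat.add (Nat.add (Nat.add (Nat.add (Nat.add C x27839) x10343) x16175) x14231) x14879) x14771) x14699) x14719) x34399) (Nat.mul x14717 (nat_lit 6)))
    (Nat.sub (Nat.add (Nat.add (Nat.add (Nat.add (Nat.add (Nat.add (Nat.add (Nat.add (Nat.add (Nat.add (Nat.add C x27841) x10345) x16177) x14233) x14881) x14773) x14701) x14725) x14717) x14721) x34401) (Nat.mul x14719 (nat_lit 5)))
    (Nat.sub (Nat.add (Nat.add (Nat.add (Nat.add (Nat.add (Nat.add (Nat.add (Nat.add (Nat.add C x27843) x10347) x16179) x14235) x14883) x14775) x14703) x14727) x14719) (Nat.mul x14721 (nat_lit 6)))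
    (Nat.sub (Nat.add (Nat.add (Nat.add (Nat.add (Nat.add (Nat.add (Nat.add (Nat.add (Nat.add (Nat.add C x27847) x10351) x16183) x14239) x14887) x14779) x14707) x14719) x14727) x34407) (Nat.mul x14725 (nat_lit 4)))
    (Nat.sub (Nat.add (Nat.add (Nat.add (Nat.add (Nat.add (Nat.add (Nat.add (Nat.add (Nat.add (Nat.add C x27849) x10353) x16185) x14241) x14889) x14781) x14709) x14721) x14733) x14725) (Nat.mul x14727 (nat_lit 3)))
    (Nat.sub (Nat.add (Nat.add (Nat.add (Nat.add (Nat.add (Nat.add (Nat.add C x27855) x10359) x16191) x14247) x14895) x14787) x14727) (Nat.mul x14733 (nat_lit 2)))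
    (Nat.sub (Nat.add (Nat.add (Nat.add (Nat.add (Nat.add (Nat.add (Nat.add (Nat.add (Nat.add C x27869) x10373) x16205) x14261) x14909) x14693) x14753) x14749) x34429) (Nat.mul x14747 (nat_lit 6)))
    (Nat.sub (Nat.add (Nat.add (Nat.add (Nat.add (Nat.add (Nat.add (Nat.add (Nat.add (Nat.add C x27871) x10375) x16207) x14263) x14911) x14695) x14755) x14747) x34431) (Nat.mul x14749 (nat_lit 6)))
    (Nat.sub (Nat.add (Nat.add (Nat.add (Nat.add (Nat.add (Nat.add (Nat.add (Nat.add (Nat.add (Nat.add C x27875) x10379) x16211) x14267) x14915) x14699) x14771) x14747) x14755) x34435) (Nat.mul x14753 (nat_lit 8)))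
    (Nat.sub (Nat.add (Nat.add (Nat.add (Nat.add (Nat.add (Nat.add (Nat.add (Nat.add (Nat.add (Nat.add (Nat.add (Nat.add C x27877) x10381) x16213) x14269) x14917) x14701) x14773) x14749) x14761) x14753) x14757) x34437) (Nat.mul x14755 (nat_lit 6)))
    (Nat.sub (Nat.add (Nat.add (Nat.add (Nat.add (Nat.add (Nat.add (Nat.add (Nat.add (Nat.add C x27879) x10383) x16215) x14271) x14919) x14703) x14775) x14763) x14755) (Nat.mul x14757 (nat_lit 6)))
    (Nat.sub (Nat.add (Nat.add (Nat.add (Nat.add (Nat.add (Nat.add (Nat.add (Nat.add (Nat.add (Nat.add C x27883) x10387) x16219) x14275) x14923) x14707) x14779) x14755) x14763) x34443) (Nat.mul x14761 (nat_lit 8)))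
    (Nat.sub (Nat.add (Nat.add (Nat.add (Nat.add (Nat.add (Nat.add (Nat.add (Nat.add (Nat.add C x27885) x10389) x16221) x14277) x14925) x14709) x14781) x14757) x14761) (Nat.mul x14763 (nat_lit 6)))
    (Nat.sub (Nat.add (Nat.add (Nat.add (Nat.add (Nat.add (Nat.add (Nat.add (Nat.add (Nat.add C x27893) x10397) x16229) x14285) x14933) x14717) x14753) x14773) x34453) (Nat.mul x14771 (nat_lit 6)))
    (Nat.sub (Nat.add (Nat.add (Nat.add (Nat.add (Nat.add (Nat.add (Nat.add (Nat.add (Nat.add (Nat.add (Nat.add C x27895) x10399) x16231) x14287) x14935) x14719) x14755) x14779) x14771) x14775) x34455) (Nat.mul x14773 (nat_lit 5)))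
    (Nat.sub (Nat.add (Nat.add (Nat.add (Nat.add (Nat.add (Nat.add (Nat.add (Nat.add (Nat.add C x27897) x10401) x16233) x14289) x14937) x14721) x14757) x14781) x14773) (Nat.mul x14775 (nat_lit 6)))
    (Nat.sub (Nat.add (Nat.add (Nat.add (Nat.add (Nat.add (Nat.add (Nat.add (Nat.add (Nat.add (Nat.add (Nat.add C x27901) x10405) x16237) x14293) x14941) x14725) x14761) x14797) x14773) x14781) x34461) (Nat.mul x14779 (nat_lit 5)))
    (Nat.sub (Nat.add (Nat.add (Nat.add (Nat.add (Nat.add (Nat.add (Nat.add (Nat.add (Nat.add (Nat.add (Nat.add C x27903) x10407) x16239) x14295) x14943) x14727) x14763) x14799) x14775) x14787) x14779) (Nat.mul x14781 (nat_lit 4)))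
    (Nat.sub (Nat.add (Nat.add (Nat.add (Nat.add (Nat.add (Nat.add (Nat.add (Nat.add C x27909) x10413) x16245) x14301) x14949) x14733) x14805) x14781) (Nat.mul x14787 (nat_lit 4)))
    (Nat.sub (Nat.add (Nat.add (Nat.add (Nat.add (Nat.add (Nat.add (Nat.add (Nat.add C x27919) x10423) x16255) x14311) x14959) x14779) x14799) x34479) (Nat.mul x14797 (nat_lit 4)))
    (Nat.sub (Nat.add (Nat.add (Nat.add (Nat.add (Nat.add (Nat.add (Nat.add (Nat.add C x27921) x10425) x16257) x14313) x14961) x14781) x14805) x14797) (Nat.mul x14799 (nat_lit 4)))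
    (Nat.sub (Nat.add (Nat.add (Nat.add (Nat.add (Nat.add (Nat.add (Nat.add C x27927) x10431) x16263) x14319) x14967) x14787) x14799) (Nat.mul x14805 (nat_lit 2)))
    (Nat.sub (Nat.add (Nat.add (Nat.add (Nat.add (Nat.add (Nat.add (Nat.add C x27953) x10457) x16289) x14345) x14669) x14837) x34513) (Nat.mul x14831 (nat_lit 2)))
    (Nat.sub (Nat.add (Nat.add (Nat.add (Nat.add (Nat.add (Nat.add (Nat.add (Nat.add (Nat.add (Nat.add C x27959) x10463) x16295) x14351) x14675) x14855) x14831) x14843) x14839) x34519) (Nat.mul x14837 (nat_lit 3)))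
    (Nat.sub (Nat.add (Nat.add (Nat.add (Nat.add (Nat.add (Nat.add (Nat.add (Nat.add (Nat.add C x27961) x10465) x16297) x14353) x14677) x14857) x14845) x14837) x34521) (Nat.mul x14839 (nat_lit 2)))
    (Nat.sub (Nat.add (Nat.add (Nat.add (Nat.add (Nat.add (Nat.add (Nat.add (Nat.add (Nat.add C x27965) x10469) x16301) x14357) x14681) x14861) x14837) x14845) x34525) (Nat.mul x14843 (nat_lit 6)))
    (Nat.sub (Nat.add (Nat.add (Nat.add (Nat.add (Nat.add (Nat.add (Nat.add (Nat.add (Nat.add (Nat.add C x27967) x10471) x16303) x14359) x14683) x14863) x14839) x14843) x14847) x34527) (Nat.mul x14845 (nat_lit 3)))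
    (Nat.sub (Nat.add (Nat.add (Nat.add (Nat.add (Nat.add (Nat.add (Nat.add C x27969) x10473) x16305) x14361) x14685) x14865) x14845) (Nat.mul x14847 (nat_lit 2)))
    (Nat.sub (Nat.add (Nat.add (Nat.add (Nat.add (Nat.add (Nat.add (Nat.add (Nat.add (Nat.add (Nat.add C x27977) x10481) x16313) x14369) x14693) x14909) x14837) x14861) x14857) x34537) (Nat.mul x14855 (nat_lit 4)))
    (Nat.sub (Nat.add (Nat.add (Nat.add (Nat.add (Nat.add (Nat.add (Nat.add (Nat.add (Nat.add (Nat.add C x27979) x10483) x16315) x14371) x14695) x14911) x14839) x14863) x14855) x34539) (Nat.mul x14857 (nat_lit 4)))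
    (Nat.sub (Nat.add (Nat.add (Nat.add (Nat.add (Nat.add (Nat.add (Nat.add (Nat.add (Nat.add (Nat.add (Nat.add C x27983) x10487) x16319) x14375) x14699) x14915) x14843) x14879) x14855) x14863) x34543) (Nat.mul x14861 (nat_lit 5)))
    (Nat.sub (Nat.add (Nat.add (Nat.add (Nat.add (Nat.add (Nat.add (Nat.add (Nat.add (Nat.add (Nat.add (Nat.add (Nat.add (Nat.add C x27985) x10489) x16321) x14377) x14701) x14917) x14845) x14881) x14857) x14869) x14861) x14865) x34545) (Nat.mul x14863 (nat_lit 3)))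
    (Nat.sub (Nat.add (Nat.add (Nat.add (Nat.add (Nat.add (Nat.add (Nat.add (Nat.add (Nat.add (Nat.add C x27987) x10491) x16323) x14379) x14703) x14919) x14847) x14883) x14871) x14863) (Nat.mul x14865 (nat_lit 3)))
    (Nat.sub (Nat.add (Nat.add (Nat.add (Nat.add (Nat.add (Nat.add (Nat.add (Nat.add (Nat.add (Nat.add C x27991) x10495) x16327) x14383) x14707) x14923) x14887) x14863) x14871) x34551) (Nat.mul x14869 (nat_lit 4)))
    (Nat.sub (Nat.add (Nat.add (Nat.add (Nat.add (Nat.add (Nat.add (Nat.add (Nat.add (Nat.add C x27993) x10497) x16329) x14385) x14709) x14925) x14889) x14865) x14869) (Nat.mul x14871 (nat_lit 2)))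
    (Nat.sub (Nat.add (Nat.add (Nat.add (Nat.add (Nat.add (Nat.add (Nat.add (Nat.add (Nat.add C x28001) x10505) x16337) x14393) x14717) x14933) x14861) x14881) x34561) (Nat.mul x14879 (nat_lit 6)))
    (Nat.sub (Nat.add (Nat.add (Nat.add (Nat.add (Nat.add (Nat.add (Nat.add (Nat.add (Nat.add (Nat.add (Nat.add C x28003) x10507) x16339) x14395) x14719) x14935) x14863) x14887) x14879) x14883) x34563) (Nat.mul x14881 (nat_lit 5)))
    (Nat.sub (Nat.add (Nat.add (Nat.add (Nat.add (Nat.add (Nat.add (Nat.add (Nat.add (Nat.add C x28005) x10509) x16341) x14397) x14721) x14937) x14865) x14889) x14881) (Nat.mul x14883 (nat_lit 6)))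
    (Nat.sub (Nat.add (Nat.add (Nat.add (Nat.add (Nat.add (Nat.add (Nat.add (Nat.add (Nat.add (Nat.add C x28009) x10513) x16345) x14401) x14725) x14941) x14869) x14881) x14889) x34569) (Nat.mul x14887 (nat_lit 4)))
    (Nat.sub (Nat.add (Nat.add (Nat.add (Nat.add (Nat.add (Nat.add (Nat.add (Nat.add (Nat.add (Nat.add C x28011) x10515) x16347) x14403) x14727) x14943) x14871) x14883) x14895) x14887) (Nat.mul x14889 (nat_lit 3)))
    (Nat.sub (Nat.add (Nat.add (Nat.add (Nat.add (Nat.add (Nat.add (Nat.add C x28017) x10521) x16353) x14409) x14733) x14949) x14889) (Nat.mul x14895 (nat_lit 2)))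
    (Nat.sub (Nat.add (Nat.add (Nat.add (Nat.add (Nat.add (Nat.add (Nat.add (Nat.add (Nat.add (Nat.add C x28031) x10535) x16367) x14423) x14747) x15071) x14855) x14915) x14911) x34591) (Nat.mul x14909 (nat_lit 3)))
    (Nat.sub (Nat.add (Nat.add (Nat.add (Nat.add (Nat.add (Nat.add (Nat.add (Nat.add (Nat.add (Nat.add C x28033) x10537) x16369) x14425) x14749) x15073) x14857) x14917) x14909) x34593) (Nat.mul x14911 (nat_lit 3)))
    (Nat.sub (Nat.add (Nat.add (Nat.add (Nat.add (Nat.add (Nat.add (Nat.add (Nat.add (Nat.add (Nat.add (Nat.add C x28037) x10541) x16373) x14429) x14753) x15077) x14861) x14933) x14909) x14917) x34597) (Nat.mul x14915 (nat_lit 5)))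
    (Nat.sub (Nat.add (Nat.add (Nat.add (Nat.add (Nat.add (Nat.add (Nat.add (Nat.add (Nat.add (Nat.add (Nat.add (Nat.add (Nat.add C x28039) x10543) x16375) x14431) x14755) x15079) x14863) x14935) x14911) x14923) x14915) x14919) x34599) (Nat.mul x14917 (nat_lit 3)))
    (Nat.sub (Nat.add (Nat.add (Nat.add (Nat.add (Nat.add (Nat.add (Nat.add (Nat.add (Nat.add (Nat.add C x28041) x10545) x16377) x14433) x14757) x15081) x14865) x14937) x14925) x14917) (Nat.mul x14919 (nat_lit 3)))
    (Nat.sub (Nat.add (Nat.add (Nat.add (Nat.add (Nat.add (Nat.add (Nat.add (Nat.add (Nat.add (Nat.add (Nat.add C x28045) x10549) x16381) x14437) x14761) x15085) x14869) x14941) x14917) x14925) x34605) (Nat.mul x14923 (nat_lit 5)))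
    (Nat.sub (Nat.add (Nat.add (Nat.add (Nat.add (Nat.add (Nat.add (Nat.add (Nat.add (Nat.add (Nat.add C x28047) x10551) x16383) x14439) x14763) x15087) x14871) x14943) x14919) x14923) (Nat.mul x14925 (nat_lit 3)))
    (Nat.sub (Nat.add (Nat.add (Nat.add (Nat.add (Nat.add (Nat.add (Nat.add (Nat.add (Nat.add (Nat.add (Nat.add C x28055) x10559) x16391) x14447) x14771) x15095) x14879) x14987) x14915) x14935) x34615) (Nat.mul x14933 (nat_lit 4)))
    (Nat.sub (Nat.add (Nat.add (Nat.add (Nat.add (Nat.add (Nat.add (Nat.add (Nat.add (Nat.add (Nat.add (Nat.add (Nat.add (Nat.add C x28057) x10561) x16393) x14449) x14773) x15097) x14881) x14989) x14917) x14941) x14933) x14937) x34617) (Nat.mul x14935 (nat_lit 3)))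
    (Nat.sub (Nat.add (Nat.add (Nat.add (Nat.add (Nat.add (Nat.add (Nat.add (Nat.add (Nat.add (Nat.add (Nat.add C x28059) x10563) x16395) x14451) x14775) x15099) x14883) x14991) x14919) x14943) x14935) (Nat.mul x14937 (nat_lit 4)))
    (Nat.sub (Nat.add (Nat.add (Nat.add (Nat.add (Nat.add (Nat.add (Nat.add (Nat.add (Nat.add (Nat.add (Nat.add (Nat.add (Nat.add C x28063) x10567) x16399) x14455) x14779) x15103) x14887) x14995) x14923) x14959) x14935) x14943) x34623) (Nat.mul x14941 (nat_lit 3)))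
    (Nat.sub (Nat.add (Nat.add (Nat.add (Nat.add (Nat.add (Nat.add (Nat.add (Nat.add (Nat.add (Nat.add (Nat.add (Nat.add (Nat.add C x28065) x10569) x16401) x14457) x14781) x15105) x14889) x14997) x14925) x14961) x14937) x14949) x14941) (Nat.mul x14943 (nat_lit 2)))
    (Nat.sub (Nat.add (Nat.add (Nat.add (Nat.add (Nat.add (Nat.add (Nat.add (Nat.add (Nat.add (Nat.add C x28071) x10575) x16407) x14463) x14787) x15111) x14895) x15003) x14967) x14943) (Nat.mul x14949 (nat_lit 2)))
    (Nat.sub (Nat.add (Nat.add (Nat.add (Nat.add (Nat.add (Nat.add (Nat.add (Nat.add (Nat.add (Nat.add C x28081) x10585) x16417) x14473) x14797) x15121) x15013) x14941) x14961) x34641) (Nat.mul x14959 (nat_lit 3)))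
    (Nat.sub (Nat.add (Nat.add (Nat.add (Nat.add (Nat.add (Nat.add (Nat.add (Nat.add (Nat.add (Nat.add C x28083) x10587) x16419) x14475) x14799) x15123) x15015) x14943) x14967) x14959) (Nat.mul x14961 (nat_lit 3)))
    (Nat.sub (Nat.add (Nat.add (Nat.add (Nat.add (Nat.add (Nat.add (Nat.add (Nat.add (Nat.add C x28089) x10593) x16425) x14481) x14805) x15129) x15021) x14949) x14961) x14967)
    (Nat.sub (Nat.add (Nat.add (Nat.add (Nat.add (Nat.add (Nat.add (Nat.add (Nat.add C x28109) x10613) x16445) x14501) x15149) x14933) x14989) x34669) (Nat.mul x14987 (nat_lit 4)))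
    (Nat.sub (Nat.add (Nat.add (Nat.add (Nat.add (Nat.add (Nat.add (Nat.add (Nat.add (Nat.add (Nat.add C x28111) x10615) x16447) x14503) x15151) x14935) x14995) x14987) x14991) x34671) (Nat.mul x14989 (nat_lit 3)))
    (Nat.sub (Nat.add (Nat.add (Nat.add (Nat.add (Nat.add (Nat.add (Nat.add (Nat.add C x28113) x10617) x16449) x14505) x15153) x14937) x14997) x14989) (Nat.mul x14991 (nat_lit 4)))
    (Nat.sub (Nat.add (Nat.add (Nat.add (Nat.add (Nat.add (Nat.add (Nat.add (Nat.add (Nat.add (Nat.add C x28117) x10621) x16453) x14509) x15157) x14941) x15013) x14989) x14997) x34677) (Nat.mul x14995 (nat_lit 4)))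
    (Nat.sub (Nat.add (Nat.add (Nat.add (Nat.add (Nat.add (Nat.add (Nat.add (Nat.add (Nat.add (Nat.add C x28119) x10623) x16455) x14511) x15159) x14943) x15015) x14991) x15003) x14995) (Nat.mul x14997 (nat_lit 3)))
    (Nat.sub (Nat.add (Nat.add (Nat.add (Nat.add (Nat.add (Nat.add (Nat.add (Nat.add C x28125) x10629) x16461) x14517) x15165) x14949) x15021) x14997) (Nat.mul x15003 (nat_lit 4)))
    (Nat.sub (Nat.add (Nat.add (Nat.add (Nat.add (Nat.add (Nat.add (Nat.add (Nat.add (Nat.add C x28135) x10639) x16471) x14527) x15175) x14959) x14995) x15015) x34695) (Nat.mul x15013 (nat_lit 2)))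
    (Nat.sub (Nat.add (Nat.add (Nat.add (Nat.add (Nat.add (Nat.add (Nat.add (Nat.add (Nat.add C x28137) x10641) x16473) x14529) x15177) x14961) x14997) x15021) x15013) (Nat.mul x15015 (nat_lit 2)))
    (Nat.sub (Nat.add (Nat.add (Nat.add (Nat.add (Nat.add (Nat.add (Nat.add (Nat.add (Nat.add C x28143) x10647) x16479) x14535) x15183) x14967) x15003) x15039) x15015) x15021)
    (Nat.add (Nat.add (Nat.add (Nat.add (Nat.add (Nat.add C x28161) x10665) x16497) x14553) x15201) x15021)
    (Nat.sub (Nat.add (Nat.add (Nat.add (Nat.add (Nat.add (Nat.add (Nat.add C x28193) x10697) x16529) x14909) x15077) x15073) x34753) (Nat.mul x15071 (nat_lit 2)))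
    (Nat.sub (Nat.add (Nat.add (Nat.add (Nat.add (Nat.add (Nat.add (Nat.add C x28195) x10699) x16531) x14911) x15079) x15071) x34755) (Nat.mul x15073 (nat_lit 2)))
    (Nat.sub (Nat.add (Nat.add (Nat.add (Nat.add (Nat.add (Nat.add (Nat.add (Nat.add C x28199) x10703) x16535) x14915) x15095) x15071) x15079) x34759) (Nat.mul x15077 (nat_lit 4)))
    (Nat.sub (Nat.add (Nat.add (Nat.add (Nat.add (Nat.add (Nat.add (Nat.add (Nat.add (Nat.add (Nat.add C x28201) x10705) x16537) x14917) x15097) x15073) x15085) x15077) x15081) x34761) (Nat.mul x15079 (nat_lit 2)))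
    (Nat.sub (Nat.add (Nat.add (Nat.add (Nat.add (Nat.add (Nat.add (Nat.add C x28203) x10707) x16539) x14919) x15099) x15087) x15079) (Nat.mul x15081 (nat_lit 2)))
    (Nat.sub (Nat.add (Nat.add (Nat.add (Nat.add (Nat.add (Nat.add (Nat.add (Nat.add C x28207) x10711) x16543) x14923) x15103) x15079) x15087) x34767) (Nat.mul x15085 (nat_lit 4)))
    (Nat.sub (Nat.add (Nat.add (Nat.add (Nat.add (Nat.add (Nat.add (Nat.add C x28209) x10713) x16545) x14925) x15105) x15081) x15085) (Nat.mul x15087 (nat_lit 2)))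
    (Nat.sub (Nat.add (Nat.add (Nat.add (Nat.add (Nat.add (Nat.add (Nat.add (Nat.add C x28217) x10721) x16553) x14933) x15149) x15077) x15097) x34777) (Nat.mul x15095 (nat_lit 4)))
    (Nat.sub (Nat.add (Nat.add (Nat.add (Nat.add (Nat.add (Nat.add (Nat.add (Nat.add (Nat.add (Nat.add C x28219) x10723) x16555) x14935) x15151) x15079) x15103) x15095) x15099) x34779) (Nat.mul x15097 (nat_lit 3)))
    (Nat.sub (Nat.add (Nat.add (Nat.add (Nat.add (Nat.add (Nat.add (Nat.add (Nat.add C x28221) x10725) x16557) x14937) x15153) x15081) x15105) x15097) (Nat.mul x15099 (nat_lit 4)))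
    (Nat.sub (Nat.add (Nat.add (Nat.add (Nat.add (Nat.add (Nat.add (Nat.add (Nat.add (Nat.add (Nat.add C x28225) x10729) x16561) x14941) x15157) x15085) x15121) x15097) x15105) x34785) (Nat.mul x15103 (nat_lit 3)))
    (Nat.sub (Nat.add (Nat.add (Nat.add (Nat.add (Nat.add (Nat.add (Nat.add (Nat.add (Nat.add (Nat.add C x28227) x10731) x16563) x14943) x15159) x15087) x15123) x15099) x15111) x15103) (Nat.mul x15105 (nat_lit 2)))
    (Nat.sub (Nat.add (Nat.add (Nat.add (Nat.add (Nat.add (Nat.add (Nat.add C x28233) x10737) x16569) x14949) x15165) x15129) x15105) (Nat.mul x15111 (nat_lit 2)))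
    (Nat.sub (Nat.add (Nat.add (Nat.add (Nat.add (Nat.add (Nat.add (Nat.add (Nat.add C x28243) x10747) x16579) x14959) x15175) x15103) x15123) x34803) (Nat.mul x15121 (nat_lit 4)))
    (Nat.sub (Nat.add (Nat.add (Nat.add (Nat.add (Nat.add (Nat.add (Nat.add (Nat.add C x28245) x10749) x16581) x14961) x15177) x15105) x15129) x15121) (Nat.mul x15123 (nat_lit 4)))
    (Nat.sub (Nat.add (Nat.add (Nat.add (Nat.add (Nat.add (Nat.add (Nat.add C x28251) x10755) x16587) x14967) x15183) x15111) x15123) (Nat.mul x15129 (nat_lit 2)))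
    (Nat.sub (Nat.add (Nat.add (Nat.add (Nat.add (Nat.add (Nat.add (Nat.add C x28271) x10775) x16607) x14987) x15095) x15151) x34831) (Nat.mul x15149 (nat_lit 2)))
    (Nat.sub (Nat.add (Nat.add (Nat.add (Nat.add (Nat.add (Nat.add (Nat.add (Nat.add (Nat.add C x28273) x10777) x16609) x14989) x15097) x15157) x15149) x15153) x34833) x15151)
    (Nat.sub (Nat.add (Nat.add (Nat.add (Nat.add (Nat.add (Nat.add (Nat.add C x28275) x10779) x16611) x14991) x15099) x15159) x15151) (Nat.mul x15153 (nat_lit 2)))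
    (Nat.sub (Nat.add (Nat.add (Nat.add (Nat.add (Nat.add (Nat.add (Nat.add (Nat.add (Nat.add C x28279) x10783) x16615) x14995) x15103) x15175) x15151) x15159) x34839) (Nat.mul x15157 (nat_lit 2)))
    (Nat.sub (Nat.add (Nat.add (Nat.add (Nat.add (Nat.add (Nat.add (Nat.add (Nat.add (Nat.add C x28281) x10785) x16617) x14997) x15105) x15177) x15153) x15165) x15157) x15159)
    (Nat.sub (Nat.add (Nat.add (Nat.add (Nat.add (Nat.add (Nat.add (Nat.add C x28287) x10791) x16623) x15003) x15111) x15183) x15159) (Nat.mul x15165 (nat_lit 2)))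
    (Nat.sub (Nat.add (Nat.add (Nat.add (Nat.add (Nat.add (Nat.add (Nat.add (Nat.add (Nat.add C x28297) x10801) x16633) x15013) x15121) x15229) x15157) x15177) x34857) x15175)
    (Nat.sub (Nat.add (Nat.add (Nat.add (Nat.add (Nat.add (Nat.add (Nat.add (Nat.add (Nat.add C x28299) x10803) x16635) x15015) x15123) x15231) x15159) x15183) x15175) x15177)
    (Nat.add (Nat.add (Nat.add (Nat.add (Nat.add (Nat.add (Nat.add (Nat.add (Nat.add C x28305) x10809) x16641) x15021) x15129) x15237) x15165) x15201) x15177)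
    (Nat.add (Nat.add (Nat.add (Nat.add (Nat.add (Nat.add C x28323) x10827) x16659) x15039) x15255) x15183)
    (Nat.add (Nat.add (Nat.add (Nat.add (Nat.add (Nat.add C x28351) x10855) x16687) x15175) x15231) x34911)
    (Nat.add (Nat.add (Nat.add (Nat.add (Nat.add (Nat.add C x28353) x10857) x16689) x15177) x15237) x15229)
    (Nat.add (Nat.add (Nat.add (Nat.add (Nat.add (Nat.add C x28359) x10863) x16695) x15183) x15255) x15231)
    (Nat.add (Nat.add (Nat.add (Nat.add (Nat.add (Nat.add C (Nat.mul x15255 (nat_lit 2))) x28377) x10881) x16713) x15201) x15237)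
    (Nat.add (Nat.add (Nat.add (Nat.add (Nat.add (Nat.add C (Nat.mul x15335 (nat_lit 2))) x28457) x10961) x13877) x15353) x35017)
    (Nat.add (Nat.add (Nat.add (Nat.add (Nat.add (Nat.add (Nat.add (Nat.add (Nat.add C x15353) x28475) x10979) x13895) x15407) x15335) x15371) x15359) x35035)
    (Nat.add (Nat.add (Nat.add (Nat.add (Nat.add (Nat.add (Nat.add (Nat.add C x28481) x10985) x13901) x15413) x15377) x15353) x15361) x35041)
    (Nat.add (Nat.add (Nat.add (Nat.add (Nat.add (Nat.add (Nat.add (Nat.add C (Nat.mul x15361 (nat_lit 2))) x28483) x10987) x13903) x15415) x15379) x15359) x35043)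
    (Nat.sub (Nat.add (Nat.add (Nat.add (Nat.add (Nat.add (Nat.add (Nat.add C x28493) x10997) x13913) x15425) x15353) x15377) x35053) (Nat.mul x15371 (nat_lit 2)))
    (Nat.sub (Nat.add (Nat.add (Nat.add (Nat.add (Nat.add (Nat.add (Nat.add (Nat.add (Nat.add C x28499) x11003) x13919) x15431) x15359) x15371) x15383) x15379) x35059) x15377)
    (Nat.add (Nat.add (Nat.add (Nat.add (Nat.add (Nat.add (Nat.add (Nat.add C x28501) x11005) x13921) x15433) x15361) x15385) x15377) x35061)
    (Nat.sub (Nat.add (Nat.add (Nat.add (Nat.add (Nat.add (Nat.add (Nat.add C x28505) x11009) x13925) x15437) x15377) x15385) x35065) (Nat.mul x15383 (nat_lit 2)))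
    (Nat.add (Nat.add (Nat.add (Nat.add (Nat.add (Nat.add (Nat.add (Nat.add (Nat.add C x15385) x28507) x11011) x13927) x15439) x15379) x15383) x15387) x35067)
    (Nat.add (Nat.add (Nat.add (Nat.add (Nat.add (Nat.add C (Nat.mul x15387 (nat_lit 2))) x28509) x11013) x13929) x15441) x15385)
    (Nat.add (Nat.add (Nat.add (Nat.add (Nat.add (Nat.add (Nat.add (Nat.add C x28529) x11033) x13949) x15569) x15353) x15425) x15413) x35089)
    (Nat.sub (Nat.add (Nat.add (Nat.add (Nat.add (Nat.add (Nat.add (Nat.add (Nat.add (Nat.add C x28535) x11039) x13955) x15575) x15359) x15431) x15407) x15415) x35095) (Nat.mul x15413 (nat_lit 2)))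
    (Nat.add (Nat.add (Nat.add (Nat.add (Nat.add (Nat.add (Nat.add (Nat.add C x28537) x11041) x13957) x15577) x15361) x15433) x15413) x35097)
    (Nat.sub (Nat.add (Nat.add (Nat.add (Nat.add (Nat.add (Nat.add (Nat.add (Nat.add (Nat.add C x28547) x11051) x13967) x15587) x15371) x15479) x15407) x15431) x35107) x15425)
    (Nat.sub (Nat.add (Nat.add (Nat.add (Nat.add (Nat.add (Nat.add (Nat.add (Nat.add (Nat.add (Nat.add (Nat.add (Nat.add C x28553) x11057) x13973) x15593) x15377) x15485) x15413) x15449) x15425) x15437) x15433) x35113) x15431)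
    (Nat.add (Nat.add (Nat.add (Nat.add (Nat.add (Nat.add (Nat.add (Nat.add (Nat.add (Nat.add (Nat.add C x28555) x11059) x13975) x15595) x15379) x15487) x15415) x15451) x15439) x15431) x35115)
    (Nat.sub (Nat.add (Nat.add (Nat.add (Nat.add (Nat.add (Nat.add (Nat.add (Nat.add (Nat.add (Nat.add C x28559) x11063) x13979) x15599) x15383) x15491) x15455) x15431) x15439) x35119) (Nat.mul x15437 (nat_lit 3)))
    (Nat.add (Nat.add (Nat.add (Nat.add (Nat.add (Nat.add (Nat.add (Nat.add (Nat.add (Nat.add (Nat.add C x28561) x11065) x13981) x15601) x15385) x15493) x15457) x15433) x15437) x15441) x35121)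
    (Nat.add (Nat.add (Nat.add (Nat.add (Nat.add (Nat.add (Nat.add (Nat.add (Nat.add C x15441) x28563) x11067) x13983) x15603) x15387) x15495) x15459) x15439)
    (Nat.sub (Nat.add (Nat.add (Nat.add (Nat.add (Nat.add (Nat.add (Nat.add (Nat.add (Nat.add C x28571) x11075) x13991) x15611) x15503) x15431) x15455) x15451) x35131) (Nat.mul x15449 (nat_lit 2)))
    (Nat.sub (Nat.add (Nat.add (Nat.add (Nat.add (Nat.add (Nat.add (Nat.add (Nat.add (Nat.add C x28573) x11077) x13993) x15613) x15505) x15433) x15457) x15449) x35133) (Nat.mul x15451 (nat_lit 2)))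
    (Nat.sub (Nat.add (Nat.add (Nat.add (Nat.add (Nat.add (Nat.add (Nat.add (Nat.add (Nat.add C x28577) x11081) x13997) x15617) x15509) x15437) x15449) x15457) x35137) (Nat.mul x15455 (nat_lit 2)))
    (Nat.add (Nat.add (Nat.add (Nat.add (Nat.add (Nat.add (Nat.add (Nat.add (Nat.add (Nat.add (Nat.add C x28579) x11083) x13999) x15619) x15511) x15439) x15451) x15463) x15455) x15459) x35139)
    (Nat.add (Nat.add (Nat.add (Nat.add (Nat.add (Nat.add (Nat.add (Nat.add C x28581) x11085) x14001) x15621) x15513) x15441) x15465) x15457)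
    (Nat.add (Nat.add (Nat.add (Nat.add (Nat.add (Nat.add (Nat.add (Nat.add C x28585) x11089) x14005) x15625) x15517) x15457) x15465) x35145)
    (Nat.add (Nat.add (Nat.add (Nat.add (Nat.add (Nat.add (Nat.add (Nat.add C (Nat.mul x15465 (nat_lit 2))) x28587) x11091) x14007) x15627) x15519) x15459) x15463)
    (Nat.sub (Nat.add (Nat.add (Nat.add (Nat.add (Nat.add (Nat.add (Nat.add C x28601) x11105) x14021) x15641) x15425) x15485) x35161) (Nat.mul x15479 (nat_lit 2)))
    (Nat.sub (Nat.add (Nat.add (Nat.add (Nat.add (Nat.add (Nat.add (Nat.add (Nat.add (Nat.add (Nat.add C x28607) x11111) x14027) x15647) x15431) x15503) x15479) x15491) x15487) x35167) (Nat.mul x15485 (nat_lit 3)))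
    (Nat.sub (Nat.add (Nat.add (Nat.add (Nat.add (Nat.add (Nat.add (Nat.add (Nat.add (Nat.add C x28609) x11113) x14029) x15649) x15433) x15505) x15493) x15485) x35169) (Nat.mul x15487 (nat_lit 2)))
    (Nat.sub (Nat.add (Nat.add (Nat.add (Nat.add (Nat.add (Nat.add (Nat.add (Nat.add (Nat.add C x28613) x11117) x14033) x15653) x15437) x15509) x15485) x15493) x35173) (Nat.mul x15491 (nat_lit 6)))
    (Nat.sub (Nat.add (Nat.add (Nat.add (Nat.add (Nat.add (Nat.add (Nat.add (Nat.add (Nat.add (Nat.add C x28615) x11119) x14035) x15655) x15439) x15511) x15487) x15491) x15495) x35175) (Nat.mul x15493 (nat_lit 3)))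
    (Nat.sub (Nat.add (Nat.add (Nat.add (Nat.add (Nat.add (Nat.add (Nat.add C x28617) x11121) x14037) x15657) x15441) x15513) x15493) (Nat.mul x15495 (nat_lit 2)))
    (Nat.sub (Nat.add (Nat.add (Nat.add (Nat.add (Nat.add (Nat.add (Nat.add (Nat.add (Nat.add C x28625) x11129) x14045) x15665) x15449) x15485) x15509) x15505) x35185) (Nat.mul x15503 (nat_lit 2)))
    (Nat.sub (Nat.add (Nat.add (Nat.add (Nat.add (Nat.add (Nat.add (Nat.add (Nat.add (Nat.add C x28627) x11131) x14047) x15667) x15451) x15487) x15511) x15503) x35187) (Nat.mul x15505 (nat_lit 2)))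
    (Nat.sub (Nat.add (Nat.add (Nat.add (Nat.add (Nat.add (Nat.add (Nat.add (Nat.add (Nat.add (Nat.add C x28631) x11135) x14051) x15671) x15455) x15491) x15527) x15503) x15511) x35191) (Nat.mul x15509 (nat_lit 3)))
    (Nat.sub (Nat.add (Nat.add (Nat.add (Nat.add (Nat.add (Nat.add (Nat.add (Nat.add (Nat.add (Nat.add (Nat.add (Nat.add C x28633) x11137) x14053) x15673) x15457) x15493) x15529) x15505) x15517) x15509) x15513) x35193) x15511)
    (Nat.sub (Nat.add (Nat.add (Nat.add (Nat.add (Nat.add (Nat.add (Nat.add (Nat.add (Nat.add C x28635) x11139) x14055) x15675) x15459) x15495) x15531) x15519) x15511) x15513)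
    (Nat.sub (Nat.add (Nat.add (Nat.add (Nat.add (Nat.add (Nat.add (Nat.add (Nat.add (Nat.add C x28639) x11143) x14059) x15679) x15463) x15535) x15511) x15519) x35199) (Nat.mul x15517 (nat_lit 2)))
    (Nat.add (Nat.add (Nat.add (Nat.add (Nat.add (Nat.add (Nat.add (Nat.add C x28641) x11145) x14061) x15681) x15465) x15537) x15513) x15517)
    (Nat.sub (Nat.add (Nat.add (Nat.add (Nat.add (Nat.add (Nat.add (Nat.add C x28649) x11153) x14069) x15689) x15509) x15529) x35209) (Nat.mul x15527 (nat_lit 2)))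
    (Nat.sub (Nat.add (Nat.add (Nat.add (Nat.add (Nat.add (Nat.add (Nat.add (Nat.add (Nat.add C x28651) x11155) x14071) x15691) x15511) x15535) x15527) x15531) x35211) x15529)
    (Nat.sub (Nat.add (Nat.add (Nat.add (Nat.add (Nat.add (Nat.add (Nat.add C x28653) x11157) x14073) x15693) x15513) x15537) x15529) (Nat.mul x15531 (nat_lit 2)))
    (Nat.add (Nat.add (Nat.add (Nat.add (Nat.add (Nat.add (Nat.add (Nat.add C x28657) x11161) x14077) x15697) x15517) x15529) x15537) x35217)
    (Nat.add (Nat.add (Nat.add (Nat.add (Nat.add (Nat.add (Nat.add (Nat.add (Nat.add C x15537) x28659) x11163) x14079) x15699) x15519) x15531) x15543) x15535)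
    (Nat.add (Nat.add (Nat.add (Nat.add (Nat.add (Nat.add C (Nat.mul x15543 (nat_lit 2))) x28665) x11169) x14085) x15705) x15537)
    (Nat.add (Nat.add (Nat.add (Nat.add (Nat.add (Nat.add (Nat.add (Nat.add C x28691) x11195) x14111) x16055) x15407) x15587) x15575) x35251)
    (Nat.sub (Nat.add (Nat.add (Nat.add (Nat.add (Nat.add (Nat.add (Nat.add (Nat.add (Nat.add C x28697) x11201) x14117) x16061) x15413) x15593) x15569) x15577) x35257) (Nat.mul x15575 (nat_lit 2)))
    (Nat.add (Nat.add (Nat.add (Nat.add (Nat.add (Nat.add (Nat.add (Nat.add C x28699) x11203) x14119) x16063) x15415) x15595) x15575) x35259)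
    (Nat.sub (Nat.add (Nat.add (Nat.add (Nat.add (Nat.add (Nat.add (Nat.add (Nat.add (Nat.add C x28709) x11213) x14129) x16073) x15425) x15641) x15569) x15593) x35269) (Nat.mul x15587 (nat_lit 2)))
    (Nat.sub (Nat.add (Nat.add (Nat.add (Nat.add (Nat.add (Nat.add (Nat.add (Nat.add (Nat.add (Nat.add (Nat.add (Nat.add C x28715) x11219) x14135) x16079) x15431) x15647) x15575) x15611) x15587) x15599) x15595) x35275) (Nat.mul x15593 (nat_lit 2)))
    (Nat.sub (Nat.add (Nat.add (Nat.add (Nat.add (Nat.add (Nat.add (Nat.add (Nat.add (Nat.add (Nat.add (Nat.add C x28717) x11221) x14137) x16081) x15433) x15649) x15577) x15613) x15601) x15593) x35277) x15595)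
    (Nat.sub (Nat.add (Nat.add (Nat.add (Nat.add (Nat.add (Nat.add (Nat.add (Nat.add (Nat.add (Nat.add C x28721) x11225) x14141) x16085) x15437) x15653) x15617) x15593) x15601) x35281) (Nat.mul x15599 (nat_lit 4)))
    (Nat.sub (Nat.add (Nat.add (Nat.add (Nat.add (Nat.add (Nat.add (Nat.add (Nat.add (Nat.add (Nat.add (Nat.add C x28723) x11227) x14143) x16087) x15439) x15655) x15619) x15595) x15599) x15603) x35283) x15601)
    (Nat.add (Nat.add (Nat.add (Nat.add (Nat.add (Nat.add (Nat.add (Nat.add C x28725) x11229) x14145) x16089) x15441) x15657) x15621) x15601)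
    (Nat.sub (Nat.add (Nat.add (Nat.add (Nat.add (Nat.add (Nat.add (Nat.add (Nat.add (Nat.add (Nat.add C x28733) x11237) x14153) x16097) x15449) x15665) x15593) x15617) x15613) x35293) (Nat.mul x15611 (nat_lit 4)))
    (Nat.sub (Nat.add (Nat.add (Nat.add (Nat.add (Nat.add (Nat.add (Nat.add (Nat.add (Nat.add (Nat.add C x28735) x11239) x14155) x16099) x15451) x15667) x15595) x15619) x15611) x35295) (Nat.mul x15613 (nat_lit 4)))
    (Nat.sub (Nat.add (Nat.add (Nat.add (Nat.add (Nat.add (Nat.add (Nat.add (Nat.add (Nat.add (Nat.add C x28739) x11243) x14159) x16103) x15455) x15671) x15599) x15611) x15619) x35299) (Nat.mul x15617 (nat_lit 4)))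
    (Nat.sub (Nat.add (Nat.add (Nat.add (Nat.add (Nat.add (Nat.add (Nat.add (Nat.add (Nat.add (Nat.add (Nat.add (Nat.add C x28741) x11245) x14161) x16105) x15457) x15673) x15601) x15613) x15625) x15617) x15621) x35301) (Nat.mul x15619 (nat_lit 2)))
    (Nat.sub (Nat.add (Nat.add (Nat.add (Nat.add (Nat.add (Nat.add (Nat.add (Nat.add (Nat.add C x28743) x11247) x14163) x16107) x15459) x15675) x15603) x15627) x15619) (Nat.mul x15621 (nat_lit 2)))
    (Nat.sub (Nat.add (Nat.add (Nat.add (Nat.add (Nat.add (Nat.add (Nat.add (Nat.add (Nat.add C x28747) x11251) x14167) x16111) x15463) x15679) x15619) x15627) x35307) (Nat.mul x15625 (nat_lit 2)))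
    (Nat.add (Nat.add (Nat.add (Nat.add (Nat.add (Nat.add (Nat.add (Nat.add C x28749) x11253) x14169) x16113) x15465) x15681) x15621) x15625)
    (Nat.sub (Nat.add (Nat.add (Nat.add (Nat.add (Nat.add (Nat.add (Nat.add (Nat.add (Nat.add C x28763) x11267) x14183) x16127) x15479) x15803) x15587) x15647) x35323) x15641)
    (Nat.sub (Nat.add (Nat.add (Nat.add (Nat.add (Nat.add (Nat.add (Nat.add (Nat.add (Nat.add (Nat.add (Nat.add (Nat.add C x28769) x11273) x14189) x16133) x15485) x15809) x15593) x15665) x15641) x15653) x15649) x35329) (Nat.mul x15647 (nat_lit 2)))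
    (Nat.sub (Nat.add (Nat.add (Nat.add (Nat.add (Nat.add (Nat.add (Nat.add (Nat.add (Nat.add (Nat.add (Nat.add C x28771) x11275) x14191) x16135) x15487) x15811) x15595) x15667) x15655) x15647) x35331) x15649)
    (Nat.sub (Nat.add (Nat.add (Nat.add (Nat.add (Nat.add (Nat.add (Nat.add (Nat.add (Nat.add (Nat.add (Nat.add C x28775) x11279) x14195) x16139) x15491) x15815) x15599) x15671) x15647) x15655) x35335) (Nat.mul x15653 (nat_lit 5)))
    (Nat.sub (Nat.add (Nat.add (Nat.add (Nat.add (Nat.add (Nat.add (Nat.add (Nat.add (Nat.add (Nat.add (Nat.add (Nat.add C x28777) x11281) x14197) x16141) x15493) x15817) x15601) x15673) x15649) x15653) x15657) x35337) (Nat.mul x15655 (nat_lit 2)))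
    (Nat.sub (Nat.add (Nat.add (Nat.add (Nat.add (Nat.add (Nat.add (Nat.add (Nat.add (Nat.add C x28779) x11283) x14199) x16143) x15495) x15819) x15603) x15675) x15655) x15657)
    (Nat.sub (Nat.add (Nat.add (Nat.add (Nat.add (Nat.add (Nat.add (Nat.add (Nat.add (Nat.add (Nat.add (Nat.add (Nat.add C x28787) x11291) x14207) x16151) x15503) x15827) x15611) x15719) x15647) x15671) x15667) x35347) (Nat.mul x15665 (nat_lit 2)))
    (Nat.sub (Nat.add (Nat.add (Nat.add (Nat.add (Nat.add (Nat.add (Nat.add (Nat.add (Nat.add (Nat.add (Nat.add (Nat.add C x28789) x11293) x14209) x16153) x15505) x15829) x15613) x15721) x15649) x15673) x15665) x35349) (Nat.mul x15667 (nat_lit 2)))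
    (Nat.sub (Nat.add (Nat.add (Nat.add (Nat.add (Nat.add (Nat.add (Nat.add (Nat.add (Nat.add (Nat.add (Nat.add (Nat.add (Nat.add C x28793) x11297) x14213) x16157) x15509) x15833) x15617) x15725) x15653) x15689) x15665) x15673) x35353) (Nat.mul x15671 (nat_lit 3)))
    (Nat.sub (Nat.add (Nat.add (Nat.add (Nat.add (Nat.add (Nat.add (Nat.add (Nat.add (Nat.add (Nat.add (Nat.add (Nat.add (Nat.add (Nat.add (Nat.add C x28795) x11299) x14215) x16159) x15511) x15835) x15619) x15727) x15655) x15691) x15667) x15679) x15671) x15675) x35355) x15673)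
    (Nat.sub (Nat.add (Nat.add (Nat.add (Nat.add (Nat.add (Nat.add (Nat.add (Nat.add (Nat.add (Nat.add (Nat.add (Nat.add C x28797) x11301) x14217) x16161) x15513) x15837) x15621) x15729) x15657) x15693) x15681) x15673) x15675)
    (Nat.sub (Nat.add (Nat.add (Nat.add (Nat.add (Nat.add (Nat.add (Nat.add (Nat.add (Nat.add (Nat.add (Nat.add (Nat.add C x28801) x11305) x14221) x16165) x15517) x15841) x15625) x15733) x15697) x15673) x15681) x35361) (Nat.mul x15679 (nat_lit 2)))
    (Nat.add (Nat.add (Nat.add (Nat.add (Nat.add (Nat.add (Nat.add (Nat.add (Nat.add (Nat.add (Nat.add C x28803) x11307) x14223) x16167) x15519) x15843) x15627) x15735) x15699) x15675) x15679)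
    (Nat.sub (Nat.add (Nat.add (Nat.add (Nat.add (Nat.add (Nat.add (Nat.add (Nat.add (Nat.add (Nat.add C x28811) x11315) x14231) x16175) x15527) x15851) x15743) x15671) x15691) x35371) (Nat.mul x15689 (nat_lit 3)))
    (Nat.sub (Nat.add (Nat.add (Nat.add (Nat.add (Nat.add (Nat.add (Nat.add (Nat.add (Nat.add (Nat.add (Nat.add (Nat.add C x28813) x11317) x14233) x16177) x15529) x15853) x15745) x15673) x15697) x15689) x15693) x35373) (Nat.mul x15691 (nat_lit 2)))
    (Nat.sub (Nat.add (Nat.add (Nat.add (Nat.add (Nat.add (Nat.add (Nat.add (Nat.add (Nat.add (Nat.add C x28815) x11319) x14235) x16179) x15531) x15855) x15747) x15675) x15699) x15691) (Nat.mul x15693 (nat_lit 3)))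
    (Nat.sub (Nat.add (Nat.add (Nat.add (Nat.add (Nat.add (Nat.add (Nat.add (Nat.add (Nat.add (Nat.add (Nat.add C x28819) x11323) x14239) x16183) x15535) x15859) x15751) x15679) x15691) x15699) x35379) x15697)
    (Nat.add (Nat.add (Nat.add (Nat.add (Nat.add (Nat.add (Nat.add (Nat.add (Nat.add (Nat.add (Nat.add C x28821) x11325) x14241) x16185) x15537) x15861) x15753) x15681) x15693) x15705) x15697)
    (Nat.add (Nat.add (Nat.add (Nat.add (Nat.add (Nat.add (Nat.add (Nat.add (Nat.add C x15705) x28827) x11331) x14247) x16191) x15543) x15867) x15759) x15699)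
    (Nat.sub (Nat.add (Nat.add (Nat.add (Nat.add (Nat.add (Nat.add (Nat.add (Nat.add (Nat.add C x28841) x11345) x14261) x16205) x15881) x15665) x15725) x15721) x35401) (Nat.mul x15719 (nat_lit 2)))
    (Nat.sub (Nat.add (Nat.add (Nat.add (Nat.add (Nat.add (Nat.add (Nat.add (Nat.add (Nat.add C x28843) x11347) x14263) x16207) x15883) x15667) x15727) x15719) x35403) (Nat.mul x15721 (nat_lit 2)))
    (Nat.sub (Nat.add (Nat.add (Nat.add (Nat.add (Nat.add (Nat.add (Nat.add (Nat.add (Nat.add (Nat.add C x28847) x11351) x14267) x16211) x15887) x15671) x15743) x15719) x15727) x35407) (Nat.mul x15725 (nat_lit 4)))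
    (Nat.sub (Nat.add (Nat.add (Nat.add (Nat.add (Nat.add (Nat.add (Nat.add (Nat.add (Nat.add (Nat.add (Nat.add (Nat.add C x28849) x11353) x14269) x16213) x15889) x15673) x15745) x15721) x15733) x15725) x15729) x35409) (Nat.mul x15727 (nat_lit 2)))
    (Nat.sub (Nat.add (Nat.add (Nat.add (Nat.add (Nat.add (Nat.add (Nat.add (Nat.add (Nat.add C x28851) x11355) x14271) x16215) x15891) x15675) x15747) x15735) x15727) (Nat.mul x15729 (nat_lit 2)))
    (Nat.sub (Nat.add (Nat.add (Nat.add (Nat.add (Nat.add (Nat.add (Nat.add (Nat.add (Nat.add (Nat.add C x28855) x11359) x14275) x16219) x15895) x15679) x15751) x15727) x15735) x35415) (Nat.mul x15733 (nat_lit 4)))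
    (Nat.sub (Nat.add (Nat.add (Nat.add (Nat.add (Nat.add (Nat.add (Nat.add (Nat.add (Nat.add C x28857) x11361) x14277) x16221) x15897) x15681) x15753) x15729) x15733) (Nat.mul x15735 (nat_lit 2)))
    (Nat.sub (Nat.add (Nat.add (Nat.add (Nat.add (Nat.add (Nat.add (Nat.add (Nat.add (Nat.add C x28865) x11369) x14285) x16229) x15905) x15689) x15725) x15745) x35425) (Nat.mul x15743 (nat_lit 2)))
    (Nat.sub (Nat.add (Nat.add (Nat.add (Nat.add (Nat.add (Nat.add (Nat.add (Nat.add (Nat.add (Nat.add (Nat.add C x28867) x11371) x14287) x16231) x15907) x15691) x15727) x15751) x15743) x15747) x35427) x15745)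
    (Nat.sub (Nat.add (Nat.add (Nat.add (Nat.add (Nat.add (Nat.add (Nat.add (Nat.add (Nat.add C x28869) x11373) x14289) x16233) x15909) x15693) x15729) x15753) x15745) (Nat.mul x15747 (nat_lit 2)))
    (Nat.sub (Nat.add (Nat.add (Nat.add (Nat.add (Nat.add (Nat.add (Nat.add (Nat.add (Nat.add (Nat.add (Nat.add C x28873) x11377) x14293) x16237) x15913) x15697) x15733) x15769) x15745) x15753) x35433) x15751)
    (Nat.add (Nat.add (Nat.add (Nat.add (Nat.add (Nat.add (Nat.add (Nat.add (Nat.add (Nat.add (Nat.add C x28875) x11379) x14295) x16239) x15915) x15699) x15735) x15771) x15747) x15759) x15751)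
    (Nat.add (Nat.add (Nat.add (Nat.add (Nat.add (Nat.add (Nat.add (Nat.add C x28881) x11385) x14301) x16245) x15921) x15705) x15777) x15753)
    (Nat.add (Nat.add (Nat.add (Nat.add (Nat.add (Nat.add (Nat.add (Nat.add C x28891) x11395) x14311) x16255) x15931) x15751) x15771) x35451)
    (Nat.add (Nat.add (Nat.add (Nat.add (Nat.add (Nat.add (Nat.add (Nat.add C x28893) x11397) x14313) x16257) x15933) x15753) x15777) x15769)
    (Nat.add (Nat.add (Nat.add (Nat.add (Nat.add (Nat.add (Nat.add (Nat.add C (Nat.mul x15777 (nat_lit 2))) x28899) x11403) x14319) x16263) x15939) x15759) x15771)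
    (Nat.sub (Nat.add (Nat.add (Nat.add (Nat.add (Nat.add (Nat.add (Nat.add C x28925) x11429) x14345) x16289) x15641) x15809) x35485) (Nat.mul x15803 (nat_lit 2)))
    (Nat.sub (Nat.add (Nat.add (Nat.add (Nat.add (Nat.add (Nat.add (Nat.add (Nat.add (Nat.add (Nat.add C x28931) x11435) x14351) x16295) x15647) x15827) x15803) x15815) x15811) x35491) (Nat.mul x15809 (nat_lit 3)))
    (Nat.sub (Nat.add (Nat.add (Nat.add (Nat.add (Nat.add (Nat.add (Nat.add (Nat.add (Nat.add C x28933) x11437) x14353) x16297) x15649) x15829) x15817) x15809) x35493) (Nat.mul x15811 (nat_lit 2)))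
    (Nat.sub (Nat.add (Nat.add (Nat.add (Nat.add (Nat.add (Nat.add (Nat.add (Nat.add (Nat.add C x28937) x11441) x14357) x16301) x15653) x15833) x15809) x15817) x35497) (Nat.mul x15815 (nat_lit 6)))
    (Nat.sub (Nat.add (Nat.add (Nat.add (Nat.add (Nat.add (Nat.add (Nat.add (Nat.add (Nat.add (Nat.add C x28939) x11443) x14359) x16303) x15655) x15835) x15811) x15815) x15819) x35499) (Nat.mul x15817 (nat_lit 3)))
    (Nat.sub (Nat.add (Nat.add (Nat.add (Nat.add (Nat.add (Nat.add (Nat.add C x28941) x11445) x14361) x16305) x15657) x15837) x15817) (Nat.mul x15819 (nat_lit 2)))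
    (Nat.sub (Nat.add (Nat.add (Nat.add (Nat.add (Nat.add (Nat.add (Nat.add (Nat.add (Nat.add (Nat.add C x28949) x11453) x14369) x16313) x15665) x15881) x15809) x15833) x15829) x35509) (Nat.mul x15827 (nat_lit 4)))
    (Nat.sub (Nat.add (Nat.add (Nat.add (Nat.add (Nat.add (Nat.add (Nat.add (Nat.add (Nat.add (Nat.add C x28951) x11455) x14371) x16315) x15667) x15883) x15811) x15835) x15827) x35511) (Nat.mul x15829 (nat_lit 4)))
    (Nat.sub (Nat.add (Nat.add (Nat.add (Nat.add (Nat.add (Nat.add (Nat.add (Nat.add (Nat.add (Nat.add (Nat.add C x28955) x11459) x14375) x16319) x15671) x15887) x15815) x15851) x15827) x15835) x35515) (Nat.mul x15833 (nat_lit 5)))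
    (Nat.sub (Nat.add (Nat.add (Nat.add (Nat.add (Nat.add (Nat.add (Nat.add (Nat.add (Nat.add (Nat.add (Nat.add (Nat.add (Nat.add C x28957) x11461) x14377) x16321) x15673) x15889) x15817) x15853) x15829) x15841) x15833) x15837) x35517) (Nat.mul x15835 (nat_lit 3)))
    (Nat.sub (Nat.add (Nat.add (Nat.add (Nat.add (Nat.add (Nat.add (Nat.add (Nat.add (Nat.add (Nat.add C x28959) x11463) x14379) x16323) x15675) x15891) x15819) x15855) x15843) x15835) (Nat.mul x15837 (nat_lit 3)))
    (Nat.sub (Nat.add (Nat.add (Nat.add (Nat.add (Nat.add (Nat.add (Nat.add (Nat.add (Nat.add (Nat.add C x28963) x11467) x14383) x16327) x15679) x15895) x15859) x15835) x15843) x35523) (Nat.mul x15841 (nat_lit 4)))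
    (Nat.sub (Nat.add (Nat.add (Nat.add (Nat.add (Nat.add (Nat.add (Nat.add (Nat.add (Nat.add C x28965) x11469) x14385) x16329) x15681) x15897) x15861) x15837) x15841) (Nat.mul x15843 (nat_lit 2)))
    (Nat.sub (Nat.add (Nat.add (Nat.add (Nat.add (Nat.add (Nat.add (Nat.add (Nat.add (Nat.add C x28973) x11477) x14393) x16337) x15689) x15905) x15833) x15853) x35533) (Nat.mul x15851 (nat_lit 6)))
    (Nat.sub (Nat.add (Nat.add (Nat.add (Nat.add (Nat.add (Nat.add (Nat.add (Nat.add (Nat.add (Nat.add (Nat.add C x28975) x11479) x14395) x16339) x15691) x15907) x15835) x15859) x15851) x15855) x35535) (Nat.mul x15853 (nat_lit 5)))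
    (Nat.sub (Nat.add (Nat.add (Nat.add (Nat.add (Nat.add (Nat.add (Nat.add (Nat.add (Nat.add C x28977) x11481) x14397) x16341) x15693) x15909) x15837) x15861) x15853) (Nat.mul x15855 (nat_lit 6)))
    (Nat.sub (Nat.add (Nat.add (Nat.add (Nat.add (Nat.add (Nat.add (Nat.add (Nat.add (Nat.add (Nat.add C x28981) x11485) x14401) x16345) x15697) x15913) x15841) x15853) x15861) x35541) (Nat.mul x15859 (nat_lit 4)))
    (Nat.sub (Nat.add (Nat.add (Nat.add (Nat.add (Nat.add (Nat.add (Nat.add (Nat.add (Nat.add (Nat.add C x28983) x11487) x14403) x16347) x15699) x15915) x15843) x15855) x15867) x15859) (Nat.mul x15861 (nat_lit 3)))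
    (Nat.sub (Nat.add (Nat.add (Nat.add (Nat.add (Nat.add (Nat.add (Nat.add C x28989) x11493) x14409) x16353) x15705) x15921) x15861) (Nat.mul x15867 (nat_lit 2)))
    (Nat.sub (Nat.add (Nat.add (Nat.add (Nat.add (Nat.add (Nat.add (Nat.add (Nat.add (Nat.add C x29003) x11507) x14423) x16367) x15719) x15827) x15887) x15883) x35563) (Nat.mul x15881 (nat_lit 2)))
    (Nat.sub (Nat.add (Nat.add (Nat.add (Nat.add (Nat.add (Nat.add (Nat.add (Nat.add (Nat.add C x29005) x11509) x14425) x16369) x15721) x15829) x15889) x15881) x35565) (Nat.mul x15883 (nat_lit 2)))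
    (Nat.sub (Nat.add (Nat.add (Nat.add (Nat.add (Nat.add (Nat.add (Nat.add (Nat.add (Nat.add (Nat.add C x29009) x11513) x14429) x16373) x15725) x15833) x15905) x15881) x15889) x35569) (Nat.mul x15887 (nat_lit 4)))
    (Nat.sub (Nat.add (Nat.add (Nat.add (Nat.add (Nat.add (Nat.add (Nat.add (Nat.add (Nat.add (Nat.add (Nat.add (Nat.add C x29011) x11515) x14431) x16375) x15727) x15835) x15907) x15883) x15895) x15887) x15891) x35571) (Nat.mul x15889 (nat_lit 2)))
    (Nat.sub (Nat.add (Nat.add (Nat.add (Nat.add (Nat.add (Nat.add (Nat.add (Nat.add (Nat.add C x29013) x11517) x14433) x16377) x15729) x15837) x15909) x15897) x15889) (Nat.mul x15891 (nat_lit 2)))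
    (Nat.sub (Nat.add (Nat.add (Nat.add (Nat.add (Nat.add (Nat.add (Nat.add (Nat.add (Nat.add (Nat.add C x29017) x11521) x14437) x16381) x15733) x15841) x15913) x15889) x15897) x35577) (Nat.mul x15895 (nat_lit 4)))
    (Nat.sub (Nat.add (Nat.add (Nat.add (Nat.add (Nat.add (Nat.add (Nat.add (Nat.add (Nat.add C x29019) x11523) x14439) x16383) x15735) x15843) x15915) x15891) x15895) (Nat.mul x15897 (nat_lit 2)))
    (Nat.sub (Nat.add (Nat.add (Nat.add (Nat.add (Nat.add (Nat.add (Nat.add (Nat.add (Nat.add (Nat.add C x29027) x11531) x14447) x16391) x15743) x15851) x15959) x15887) x15907) x35587) (Nat.mul x15905 (nat_lit 3)))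
    (Nat.sub (Nat.add (Nat.add (Nat.add (Nat.add (Nat.add (Nat.add (Nat.add (Nat.add (Nat.add (Nat.add (Nat.add (Nat.add C x29029) x11533) x14449) x16393) x15745) x15853) x15961) x15889) x15913) x15905) x15909) x35589) (Nat.mul x15907 (nat_lit 2)))
    (Nat.sub (Nat.add (Nat.add (Nat.add (Nat.add (Nat.add (Nat.add (Nat.add (Nat.add (Nat.add (Nat.add C x29031) x11535) x14451) x16395) x15747) x15855) x15963) x15891) x15915) x15907) (Nat.mul x15909 (nat_lit 3)))
    (Nat.sub (Nat.add (Nat.add (Nat.add (Nat.add (Nat.add (Nat.add (Nat.add (Nat.add (Nat.add (Nat.add (Nat.add (Nat.add C x29035) x11539) x14455) x16399) x15751) x15859) x15967) x15895) x15931) x15907) x15915) x35595) (Nat.mul x15913 (nat_lit 2)))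
    (Nat.sub (Nat.add (Nat.add (Nat.add (Nat.add (Nat.add (Nat.add (Nat.add (Nat.add (Nat.add (Nat.add (Nat.add (Nat.add C x29037) x11541) x14457) x16401) x15753) x15861) x15969) x15897) x15933) x15909) x15921) x15913) x15915)
    (Nat.sub (Nat.add (Nat.add (Nat.add (Nat.add (Nat.add (Nat.add (Nat.add (Nat.add (Nat.add C x29043) x11547) x14463) x16407) x15759) x15867) x15975) x15939) x15915) x15921)
    (Nat.sub (Nat.add (Nat.add (Nat.add (Nat.add (Nat.add (Nat.add (Nat.add (Nat.add (Nat.add C x29053) x11557) x14473) x16417) x15769) x15985) x15913) x15933) x35613) (Nat.mul x15931 (nat_lit 2)))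
    (Nat.sub (Nat.add (Nat.add (Nat.add (Nat.add (Nat.add (Nat.add (Nat.add (Nat.add (Nat.add C x29055) x11559) x14475) x16419) x15771) x15987) x15915) x15939) x15931) (Nat.mul x15933 (nat_lit 2)))
    (Nat.add (Nat.add (Nat.add (Nat.add (Nat.add (Nat.add (Nat.add (Nat.add C x29061) x11565) x14481) x16425) x15777) x15993) x15921) x15933)
    (Nat.sub (Nat.add (Nat.add (Nat.add (Nat.add (Nat.add (Nat.add (Nat.add C x29081) x11585) x14501) x16445) x15905) x15961) x35641) (Nat.mul x15959 (nat_lit 2)))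
    (Nat.sub (Nat.add (Nat.add (Nat.add (Nat.add (Nat.add (Nat.add (Nat.add (Nat.add (Nat.add C x29083) x11587) x14503) x16447) x15907) x15967) x15959) x15963) x35643) x15961)
    (Nat.sub (Nat.add (Nat.add (Nat.add (Nat.add (Nat.add (Nat.add (Nat.add C x29085) x11589) x14505) x16449) x15909) x15969) x15961) (Nat.mul x15963 (nat_lit 2)))
    (Nat.sub (Nat.add (Nat.add (Nat.add (Nat.add (Nat.add (Nat.add (Nat.add (Nat.add (Nat.add C x29089) x11593) x14509) x16453) x15913) x15985) x15961) x15969) x35649) (Nat.mul x15967 (nat_lit 2)))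
    (Nat.sub (Nat.add (Nat.add (Nat.add (Nat.add (Nat.add (Nat.add (Nat.add (Nat.add (Nat.add C x29091) x11595) x14511) x16455) x15915) x15987) x15963) x15975) x15967) x15969)
    (Nat.sub (Nat.add (Nat.add (Nat.add (Nat.add (Nat.add (Nat.add (Nat.add C x29097) x11601) x14517) x16461) x15921) x15993) x15969) (Nat.mul x15975 (nat_lit 2)))
    (Nat.add (Nat.add (Nat.add (Nat.add (Nat.add (Nat.add (Nat.add (Nat.add C x29107) x11611) x14527) x16471) x15931) x15967) x15987) x35667)
    (Nat.add (Nat.add (Nat.add (Nat.add (Nat.add (Nat.add (Nat.add (Nat.add C x29109) x11613) x14529) x16473) x15933) x15969) x15993) x15985)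
    (Nat.add (Nat.add (Nat.add (Nat.add (Nat.add (Nat.add (Nat.add (Nat.add (Nat.add C x15993) x29115) x11619) x14535) x16479) x15939) x15975) x16011) x15987)
    (Nat.add (Nat.add (Nat.add (Nat.add (Nat.add (Nat.add C (Nat.mul x16011 (nat_lit 2))) x29133) x11637) x14553) x16497) x15993)
    (Nat.add (Nat.add (Nat.add (Nat.add (Nat.add (Nat.add (Nat.add (Nat.add (Nat.add C x16055) x29177) x11681) x14597) x17513) x15569) x16073) x16061) x35737)
    (Nat.sub (Nat.add (Nat.add (Nat.add (Nat.add (Nat.add (Nat.add (Nat.add (Nat.add (Nat.add C x29183) x11687) x14603) x17519) x15575) x16079) x16055) x16063) x35743) x16061)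
    (Nat.add (Nat.add (Nat.add (Nat.add (Nat.add (Nat.add (Nat.add (Nat.add (Nat.add C x16063) x29185) x11689) x14605) x17521) x15577) x16081) x16061) x35745)
    (Nat.sub (Nat.add (Nat.add (Nat.add (Nat.add (Nat.add (Nat.add (Nat.add (Nat.add (Nat.add C x29195) x11699) x14615) x17531) x15587) x16127) x16055) x16079) x35755) x16073)
    (Nat.sub (Nat.add (Nat.add (Nat.add (Nat.add (Nat.add (Nat.add (Nat.add (Nat.add (Nat.add (Nat.add (Nat.add (Nat.add C x29201) x11705) x14621) x17537) x15593) x16133) x16061) x16097) x16073) x16085) x16081) x35761) x16079)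
    (Nat.add (Nat.add (Nat.add (Nat.add (Nat.add (Nat.add (Nat.add (Nat.add (Nat.add (Nat.add (Nat.add C x29203) x11707) x14623) x17539) x15595) x16135) x16063) x16099) x16087) x16079) x35763)
    (Nat.sub (Nat.add (Nat.add (Nat.add (Nat.add (Nat.add (Nat.add (Nat.add (Nat.add (Nat.add (Nat.add C x29207) x11711) x14627) x17543) x15599) x16139) x16103) x16079) x16087) x35767) (Nat.mul x16085 (nat_lit 3)))
    (Nat.add (Nat.add (Nat.add (Nat.add (Nat.add (Nat.add (Nat.add (Nat.add (Nat.add (Nat.add (Nat.add C x29209) x11713) x14629) x17545) x15601) x16141) x16105) x16081) x16085) x16089) x35769)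
    (Nat.add (Nat.add (Nat.add (Nat.add (Nat.add (Nat.add (Nat.add (Nat.add (Nat.add C x16089) x29211) x11715) x14631) x17547) x15603) x16143) x16107) x16087)
    (Nat.sub (Nat.add (Nat.add (Nat.add (Nat.add (Nat.add (Nat.add (Nat.add (Nat.add (Nat.add (Nat.add C x29219) x11723) x14639) x17555) x15611) x16151) x16079) x16103) x16099) x35779) (Nat.mul x16097 (nat_lit 3)))
    (Nat.sub (Nat.add (Nat.add (Nat.add (Nat.add (Nat.add (Nat.add (Nat.add (Nat.add (Nat.add (Nat.add C x29221) x11725) x14641) x17557) x15613) x16153) x16081) x16105) x16097) x35781) (Nat.mul x16099 (nat_lit 3)))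
    (Nat.sub (Nat.add (Nat.add (Nat.add (Nat.add (Nat.add (Nat.add (Nat.add (Nat.add (Nat.add (Nat.add C x29225) x11729) x14645) x17561) x15617) x16157) x16085) x16097) x16105) x35785) (Nat.mul x16103 (nat_lit 3)))
    (Nat.sub (Nat.add (Nat.add (Nat.add (Nat.add (Nat.add (Nat.add (Nat.add (Nat.add (Nat.add (Nat.add (Nat.add (Nat.add C x29227) x11731) x14647) x17563) x15619) x16159) x16087) x16099) x16111) x16103) x16107) x35787) x16105)
    (Nat.sub (Nat.add (Nat.add (Nat.add (Nat.add (Nat.add (Nat.add (Nat.add (Nat.add (Nat.add C x29229) x11733) x14649) x17565) x15621) x16161) x16089) x16113) x16105) x16107)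
    (Nat.sub (Nat.add (Nat.add (Nat.add (Nat.add (Nat.add (Nat.add (Nat.add (Nat.add (Nat.add C x29233) x11737) x14653) x17569) x15625) x16165) x16105) x16113) x35793) x16111)
    (Nat.add (Nat.add (Nat.add (Nat.add (Nat.add (Nat.add (Nat.add (Nat.add (Nat.add C x16113) x29235) x11739) x14655) x17571) x15627) x16167) x16107) x16111)
    (Nat.sub (Nat.add (Nat.add (Nat.add (Nat.add (Nat.add (Nat.add (Nat.add (Nat.add (Nat.add C x29249) x11753) x14669) x17585) x15641) x16289) x16073) x16133) x35809) x16127)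
    (Nat.sub (Nat.add (Nat.add (Nat.add (Nat.add (Nat.add (Nat.add (Nat.add (Nat.add (Nat.add (Nat.add (Nat.add (Nat.add C x29255) x11759) x14675) x17591) x15647) x16295) x16079) x16151) x16127) x16139) x16135) x35815) (Nat.mul x16133 (nat_lit 2)))
    (Nat.sub (Nat.add (Nat.add (Nat.add (Nat.add (Nat.add (Nat.add (Nat.add (Nat.add (Nat.add (Nat.add (Nat.add C x29257) x11761) x14677) x17593) x15649) x16297) x16081) x16153) x16141) x16133) x35817) x16135)
    (Nat.sub (Nat.add (Nat.add (Nat.add (Nat.add (Nat.add (Nat.add (Nat.add (Nat.add (Nat.add (Nat.add (Nat.add C x29261) x11765) x14681) x17597) x15653) x16301) x16085) x16157) x16133) x16141) x35821) (Nat.mul x16139 (nat_lit 5)))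
    (Nat.sub (Nat.add (Nat.add (Nat.add (Nat.add (Nat.add (Nat.add (Nat.add (Nat.add (Nat.add (Nat.add (Nat.add (Nat.add C x29263) x11767) x14683) x17599) x15655) x16303) x16087) x16159) x16135) x16139) x16143) x35823) (Nat.mul x16141 (nat_lit 2)))
    (Nat.sub (Nat.add (Nat.add (Nat.add (Nat.add (Nat.add (Nat.add (Nat.add (Nat.add (Nat.add C x29265) x11769) x14685) x17601) x15657) x16305) x16089) x16161) x16141) x16143)
    (Nat.sub (Nat.add (Nat.add (Nat.add (Nat.add (Nat.add (Nat.add (Nat.add (Nat.add (Nat.add (Nat.add (Nat.add (Nat.add C x29273) x11777) x14693) x17609) x15665) x16313) x16097) x16205) x16133) x16157) x16153) x35833) (Nat.mul x16151 (nat_lit 2)))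
    (Nat.sub (Nat.add (Nat.add (Nat.add (Nat.add (Nat.add (Nat.add (Nat.add (Nat.add (Nat.add (Nat.add (Nat.add (Nat.add C x29275) x11779) x14695) x17611) x15667) x16315) x16099) x16207) x16135) x16159) x16151) x35835) (Nat.mul x16153 (nat_lit 2)))
    (Nat.sub (Nat.add (Nat.add (Nat.add (Nat.add (Nat.add (Nat.add (Nat.add (Nat.add (Nat.add (Nat.add (Nat.add (Nat.add (Nat.add C x29279) x11783) x14699) x17615) x15671) x16319) x16103) x16211) x16139) x16175) x16151) x16159) x35839) (Nat.mul x16157 (nat_lit 3)))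
    (Nat.sub (Nat.add (Nat.add (Nat.add (Nat.add (Nat.add (Nat.add (Nat.add (Nat.add (Nat.add (Nat.add (Nat.add (Nat.add (Nat.add (Nat.add (Nat.add C x29281) x11785) x14701) x17617) x15673) x16321) x16105) x16213) x16141) x16177) x16153) x16165) x16157) x16161) x35841) x16159)
    (Nat.sub (Nat.add (Nat.add (Nat.add (Nat.add (Nat.add (Nat.add (Nat.add (Nat.add (Nat.add (Nat.add (Nat.add (Nat.add C x29283) x11787) x14703) x17619) x15675) x16323) x16107) x16215) x16143) x16179) x16167) x16159) x16161)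
    (Nat.sub (Nat.add (Nat.add (Nat.add (Nat.add (Nat.add (Nat.add (Nat.add (Nat.add (Nat.add (Nat.add (Nat.add (Nat.add C x29287) x11791) x14707) x17623) x15679) x16327) x16111) x16219) x16183) x16159) x16167) x35847) (Nat.mul x16165 (nat_lit 2)))
    (Nat.add (Nat.add (Nat.add (Nat.add (Nat.add (Nat.add (Nat.add (Nat.add (Nat.add (Nat.add (Nat.add C x29289) x11793) x14709) x17625) x15681) x16329) x16113) x16221) x16185) x16161) x16165)
    (Nat.sub (Nat.add (Nat.add (Nat.add (Nat.add (Nat.add (Nat.add (Nat.add (Nat.add (Nat.add (Nat.add C x29297) x11801) x14717) x17633) x15689) x16337) x16229) x16157) x16177) x35857) (Nat.mul x16175 (nat_lit 3)))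
    (Nat.sub (Nat.add (Nat.add (Nat.add (Nat.add (Nat.add (Nat.add (Nat.add (Nat.add (Nat.add (Nat.add (Nat.add (Nat.add C x29299) x11803) x14719) x17635) x15691) x16339) x16231) x16159) x16183) x16175) x16179) x35859) (Nat.mul x16177 (nat_lit 2)))
    (Nat.sub (Nat.add (Nat.add (Nat.add (Nat.add (Nat.add (Nat.add (Nat.add (Nat.add (Nat.add (Nat.add C x29301) x11805) x14721) x17637) x15693) x16341) x16233) x16161) x16185) x16177) (Nat.mul x16179 (nat_lit 3)))
    (Nat.sub (Nat.add (Nat.add (Nat.add (Nat.add (Nat.add (Nat.add (Nat.add (Nat.add (Nat.add (Nat.add (Nat.add C x29305) x11809) x14725) x17641) x15697) x16345) x16237) x16165) x16177) x16185) x35865) x16183)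
    (Nat.add (Nat.add (Nat.add (Nat.add (Nat.add (Nat.add (Nat.add (Nat.add (Nat.add (Nat.add (Nat.add C x29307) x11811) x14727) x17643) x15699) x16347) x16239) x16167) x16179) x16191) x16183)
    (Nat.add (Nat.add (Nat.add (Nat.add (Nat.add (Nat.add (Nat.add (Nat.add (Nat.add C x16191) x29313) x11817) x14733) x17649) x15705) x16353) x16245) x16185)
    (Nat.sub (Nat.add (Nat.add (Nat.add (Nat.add (Nat.add (Nat.add (Nat.add (Nat.add (Nat.add (Nat.add C x29327) x11831) x14747) x17663) x15719) x16367) x16151) x16211) x16207) x35887) (Nat.mul x16205 (nat_lit 3)))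
    (Nat.sub (Nat.add (Nat.add (Nat.add (Nat.add (Nat.add (Nat.add (Nat.add (Nat.add (Nat.add (Nat.add C x29329) x11833) x14749) x17665) x15721) x16369) x16153) x16213) x16205) x35889) (Nat.mul x16207 (nat_lit 3)))
    (Nat.sub (Nat.add (Nat.add (Nat.add (Nat.add (Nat.add (Nat.add (Nat.add (Nat.add (Nat.add (Nat.add (Nat.add C x29333) x11837) x14753) x17669) x15725) x16373) x16157) x16229) x16205) x16213) x35893) (Nat.mul x16211 (nat_lit 5)))
    (Nat.sub (Nat.add (Nat.add (Nat.add (Nat.add (Nat.add (Nat.add (Nat.add (Nat.add (Nat.add (Nat.add (Nat.add (Nat.add (Nat.add C x29335) x11839) x14755) x17671) x15727) x16375) x16159) x16231) x16207) x16219) x16211) x16215) x35895) (Nat.mul x16213 (nat_lit 3)))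
    (Nat.sub (Nat.add (Nat.add (Nat.add (Nat.add (Nat.add (Nat.add (Nat.add (Nat.add (Nat.add (Nat.add C x29337) x11841) x14757) x17673) x15729) x16377) x16161) x16233) x16221) x16213) (Nat.mul x16215 (nat_lit 3)))
    (Nat.sub (Nat.add (Nat.add (Nat.add (Nat.add (Nat.add (Nat.add (Nat.add (Nat.add (Nat.add (Nat.add (Nat.add C x29341) x11845) x14761) x17677) x15733) x16381) x16165) x16237) x16213) x16221) x35901) (Nat.mul x16219 (nat_lit 5)))
    (Nat.sub (Nat.add (Nat.add (Nat.add (Nat.add (Nat.add (Nat.add (Nat.add (Nat.add (Nat.add (Nat.add C x29343) x11847) x14763) x17679) x15735) x16383) x16167) x16239) x16215) x16219) (Nat.mul x16221 (nat_lit 3)))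
    (Nat.sub (Nat.add (Nat.add (Nat.add (Nat.add (Nat.add (Nat.add (Nat.add (Nat.add (Nat.add (Nat.add C x29351) x11855) x14771) x17687) x15743) x16391) x16175) x16211) x16231) x35911) (Nat.mul x16229 (nat_lit 3)))
    (Nat.sub (Nat.add (Nat.add (Nat.add (Nat.add (Nat.add (Nat.add (Nat.add (Nat.add (Nat.add (Nat.add (Nat.add (Nat.add C x29353) x11857) x14773) x17689) x15745) x16393) x16177) x16213) x16237) x16229) x16233) x35913) (Nat.mul x16231 (nat_lit 2)))
    (Nat.sub (Nat.add (Nat.add (Nat.add (Nat.add (Nat.add (Nat.add (Nat.add (Nat.add (Nat.add (Nat.add C x29355) x11859) x14775) x17691) x15747) x16395) x16179) x16215) x16239) x16231) (Nat.mul x16233 (nat_lit 3)))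
    (Nat.sub (Nat.add (Nat.add (Nat.add (Nat.add (Nat.add (Nat.add (Nat.add (Nat.add (Nat.add (Nat.add (Nat.add (Nat.add C x29359) x11863) x14779) x17695) x15751) x16399) x16183) x16219) x16255) x16231) x16239) x35919) (Nat.mul x16237 (nat_lit 2)))
    (Nat.sub (Nat.add (Nat.add (Nat.add (Nat.add (Nat.add (Nat.add (Nat.add (Nat.add (Nat.add (Nat.add (Nat.add (Nat.add C x29361) x11865) x14781) x17697) x15753) x16401) x16185) x16221) x16257) x16233) x16245) x16237) x16239)
    (Nat.sub (Nat.add (Nat.add (Nat.add (Nat.add (Nat.add (Nat.add (Nat.add (Nat.add (Nat.add C x29367) x11871) x14787) x17703) x15759) x16407) x16191) x16263) x16239) x16245)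
    (Nat.sub (Nat.add (Nat.add (Nat.add (Nat.add (Nat.add (Nat.add (Nat.add (Nat.add (Nat.add C x29377) x11881) x14797) x17713) x15769) x16417) x16237) x16257) x35937) x16255)
    (Nat.sub (Nat.add (Nat.add (Nat.add (Nat.add (Nat.add (Nat.add (Nat.add (Nat.add (Nat.add C x29379) x11883) x14799) x17715) x15771) x16419) x16239) x16263) x16255) x16257)
    (Nat.add (Nat.add (Nat.add (Nat.add (Nat.add (Nat.add (Nat.add (Nat.add (Nat.add C x16263) x29385) x11889) x14805) x17721) x15777) x16425) x16245) x16257)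
    (Nat.add (Nat.add (Nat.add (Nat.add (Nat.add (Nat.add (Nat.add (Nat.add (Nat.add C x29411) x11915) x14831) x17747) x15803) x16775) x16127) x16295) x35971)
    (Nat.sub (Nat.add (Nat.add (Nat.add (Nat.add (Nat.add (Nat.add (Nat.add (Nat.add (Nat.add (Nat.add (Nat.add (Nat.add C x29417) x11921) x14837) x17753) x15809) x16781) x16133) x16313) x16289) x16301) x16297) x35977) x16295)
    (Nat.add (Nat.add (Nat.add (Nat.add (Nat.add (Nat.add (Nat.add (Nat.add (Nat.add (Nat.add (Nat.add C x29419) x11923) x14839) x17755) x15811) x16783) x16135) x16315) x16303) x16295) x35979)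
    (Nat.sub (Nat.add (Nat.add (Nat.add (Nat.add (Nat.add (Nat.add (Nat.add (Nat.add (Nat.add (Nat.add (Nat.add C x29423) x11927) x14843) x17759) x15815) x16787) x16139) x16319) x16295) x16303) x35983) (Nat.mul x16301 (nat_lit 4)))
    (Nat.sub (Nat.add (Nat.add (Nat.add (Nat.add (Nat.add (Nat.add (Nat.add (Nat.add (Nat.add (Nat.add (Nat.add (Nat.add C x29425) x11929) x14845) x17761) x15817) x16789) x16141) x16321) x16297) x16301) x16305) x35985) x16303)
    (Nat.add (Nat.add (Nat.add (Nat.add (Nat.add (Nat.add (Nat.add (Nat.add (Nat.add C x29427) x11931) x14847) x17763) x15819) x16791) x16143) x16323) x16303)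
    (Nat.sub (Nat.add (Nat.add (Nat.add (Nat.add (Nat.add (Nat.add (Nat.add (Nat.add (Nat.add (Nat.add (Nat.add (Nat.add C x29435) x11939) x14855) x17771) x15827) x16799) x16151) x16367) x16295) x16319) x16315) x35995) (Nat.mul x16313 (nat_lit 2)))
    (Nat.sub (Nat.add (Nat.add (Nat.add (Nat.add (Nat.add (Nat.add (Nat.add (Nat.add (Nat.add (Nat.add (Nat.add (Nat.add C x29437) x11941) x14857) x17773) x15829) x16801) x16153) x16369) x16297) x16321) x16313) x35997) (Nat.mul x16315 (nat_lit 2)))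
    (Nat.sub (Nat.add (Nat.add (Nat.add (Nat.add (Nat.add (Nat.add (Nat.add (Nat.add (Nat.add (Nat.add (Nat.add (Nat.add (Nat.add C x29441) x11945) x14861) x17777) x15833) x16805) x16157) x16373) x16301) x16337) x16313) x16321) x36001) (Nat.mul x16319 (nat_lit 3)))
    (Nat.sub (Nat.add (Nat.add (Nat.add (Nat.add (Nat.add (Nat.add (Nat.add (Nat.add (Nat.add (Nat.add (Nat.add (Nat.add (Nat.add (Nat.add (Nat.add C x29443) x11947) x14863) x17779) x15835) x16807) x16159) x16375) x16303) x16339) x16315) x16327) x16319) x16323) x36003) x16321)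
    (Nat.sub (Nat.add (Nat.add (Nat.add (Nat.add (Nat.add (Nat.add (Nat.add (Nat.add (Nat.add (Nat.add (Nat.add (Nat.add C x29445) x11949) x14865) x17781) x15837) x16809) x16161) x16377) x16305) x16341) x16329) x16321) x16323)
    (Nat.sub (Nat.add (Nat.add (Nat.add (Nat.add (Nat.add (Nat.add (Nat.add (Nat.add (Nat.add (Nat.add (Nat.add (Nat.add C x29449) x11953) x14869) x17785) x15841) x16813) x16165) x16381) x16345) x16321) x16329) x36009) (Nat.mul x16327 (nat_lit 2)))
    (Nat.add (Nat.add (Nat.add (Nat.add (Nat.add (Nat.add (Nat.add (Nat.add (Nat.add (Nat.add (Nat.add C x29451) x11955) x14871) x17787) x15843) x16815) x16167) x16383) x16347) x16323) x16327)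
    (Nat.sub (Nat.add (Nat.add (Nat.add (Nat.add (Nat.add (Nat.add (Nat.add (Nat.add (Nat.add (Nat.add (Nat.add C x29459) x11963) x14879) x17795) x15851) x16823) x16175) x16391) x16319) x16339) x36019) (Nat.mul x16337 (nat_lit 4)))
    (Nat.sub (Nat.add (Nat.add (Nat.add (Nat.add (Nat.add (Nat.add (Nat.add (Nat.add (Nat.add (Nat.add (Nat.add (Nat.add (Nat.add C x29461) x11965) x14881) x17797) x15853) x16825) x16177) x16393) x16321) x16345) x16337) x16341) x36021) (Nat.mul x16339 (nat_lit 3)))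
    (Nat.sub (Nat.add (Nat.add (Nat.add (Nat.add (Nat.add (Nat.add (Nat.add (Nat.add (Nat.add (Nat.add (Nat.add C x29463) x11967) x14883) x17799) x15855) x16827) x16179) x16395) x16323) x16347) x16339) (Nat.mul x16341 (nat_lit 4)))
    (Nat.sub (Nat.add (Nat.add (Nat.add (Nat.add (Nat.add (Nat.add (Nat.add (Nat.add (Nat.add (Nat.add (Nat.add (Nat.add C x29467) x11971) x14887) x17803) x15859) x16831) x16183) x16399) x16327) x16339) x16347) x36027) (Nat.mul x16345 (nat_lit 2)))
    (Nat.sub (Nat.add (Nat.add (Nat.add (Nat.add (Nat.add (Nat.add (Nat.add (Nat.add (Nat.add (Nat.add (Nat.add (Nat.add C x29469) x11973) x14889) x17805) x15861) x16833) x16185) x16401) x16329) x16341) x16353) x16345) x16347)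
    (Nat.add (Nat.add (Nat.add (Nat.add (Nat.add (Nat.add (Nat.add (Nat.add (Nat.add C x29475) x11979) x14895) x17811) x15867) x16839) x16191) x16407) x16347)
    (Nat.sub (Nat.add (Nat.add (Nat.add (Nat.add (Nat.add (Nat.add (Nat.add (Nat.add (Nat.add (Nat.add (Nat.add (Nat.add C x29489) x11993) x14909) x17825) x15881) x16853) x16205) x16529) x16313) x16373) x16369) x36049) x16367)
    (Nat.sub (Nat.add (Nat.add (Nat.add (Nat.add (Nat.add (Nat.add (Nat.add (Nat.add (Nat.add (Nat.add (Nat.add (Nat.add C x29491) x11995) x14911) x17827) x15883) x16855) x16207) x16531) x16315) x16375) x16367) x36051) x16369)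
    (Nat.sub (Nat.add (Nat.add (Nat.add (Nat.add (Nat.add (Nat.add (Nat.add (Nat.add (Nat.add (Nat.add (Nat.add (Nat.add (Nat.add C x29495) x11999) x14915) x17831) x15887) x16859) x16211) x16535) x16319) x16391) x16367) x16375) x36055) (Nat.mul x16373 (nat_lit 3)))
    (Nat.sub (Nat.add (Nat.add (Nat.add (Nat.add (Nat.add (Nat.add (Nat.add (Nat.add (Nat.add (Nat.add (Nat.add (Nat.add (Nat.add (Nat.add (Nat.add C x29497) x12001) x14917) x17833) x15889) x16861) x16213) x16537) x16321) x16393) x16369) x16381) x16373) x16377) x36057) x16375)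
    (Nat.sub (Nat.add (Nat.add (Nat.add (Nat.add (Nat.add (Nat.add (Nat.add (Nat.add (Nat.add (Nat.add (Nat.add (Nat.add C x29499) x12003) x14919) x17835) x15891) x16863) x16215) x16539) x16323) x16395) x16383) x16375) x16377)
    (Nat.sub (Nat.add (Nat.add (Nat.add (Nat.add (Nat.add (Nat.add (Nat.add (Nat.add (Nat.add (Nat.add (Nat.add (Nat.add (Nat.add C x29503) x12007) x14923) x17839) x15895) x16867) x16219) x16543) x16327) x16399) x16375) x16383) x36063) (Nat.mul x16381 (nat_lit 3)))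
    (Nat.sub (Nat.add (Nat.add (Nat.add (Nat.add (Nat.add (Nat.add (Nat.add (Nat.add (Nat.add (Nat.add (Nat.add (Nat.add C x29505) x12009) x14925) x17841) x15897) x16869) x16221) x16545) x16329) x16401) x16377) x16381) x16383)
    (Nat.sub (Nat.add (Nat.add (Nat.add (Nat.add (Nat.add (Nat.add (Nat.add (Nat.add (Nat.add (Nat.add (Nat.add (Nat.add (Nat.add C x29513) x12017) x14933) x17849) x15905) x16877) x16229) x16553) x16337) x16445) x16373) x16393) x36073) (Nat.mul x16391 (nat_lit 2)))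
    (Nat.sub (Nat.add (Nat.add (Nat.add (Nat.add (Nat.add (Nat.add (Nat.add (Nat.add (Nat.add (Nat.add (Nat.add (Nat.add (Nat.add (Nat.add (Nat.add C x29515) x12019) x14935) x17851) x15907) x16879) x16231) x16555) x16339) x16447) x16375) x16399) x16391) x16395) x36075) x16393)
    (Nat.sub (Nat.add (Nat.add (Nat.add (Nat.add (Nat.add (Nat.add (Nat.add (Nat.add (Nat.add (Nat.add (Nat.add (Nat.add (Nat.add C x29517) x12021) x14937) x17853) x15909) x16881) x16233) x16557) x16341) x16449) x16377) x16401) x16393) (Nat.mul x16395 (nat_lit 2)))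
    (Nat.sub (Nat.add (Nat.add (Nat.add (Nat.add (Nat.add (Nat.add (Nat.add (Nat.add (Nat.add (Nat.add (Nat.add (Nat.add (Nat.add (Nat.add (Nat.add C x29521) x12025) x14941) x17857) x15913) x16885) x16237) x16561) x16345) x16453) x16381) x16417) x16393) x16401) x36081) x16399)
    (Nat.add (Nat.add (Nat.add (Nat.add (Nat.add (Nat.add (Nat.add (Nat.add (Nat.add (Nat.add (Nat.add (Nat.add (Nat.add (Nat.add (Nat.add C x29523) x12027) x14943) x17859) x15915) x16887) x16239) x16563) x16347) x16455) x16383) x16419) x16395) x16407) x16399)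
    (Nat.add (Nat.add (Nat.add (Nat.add (Nat.add (Nat.add (Nat.add (Nat.add (Nat.add (Nat.add (Nat.add (Nat.add C x29529) x12033) x14949) x17865) x15921) x16893) x16245) x16569) x16353) x16461) x16425) x16401)
    (Nat.sub (Nat.add (Nat.add (Nat.add (Nat.add (Nat.add (Nat.add (Nat.add (Nat.add (Nat.add (Nat.add (Nat.add (Nat.add C x29539) x12043) x14959) x17875) x15931) x16903) x16255) x16579) x16471) x16399) x16419) x36099) x16417)
    (Nat.sub (Nat.add (Nat.add (Nat.add (Nat.add (Nat.add (Nat.add (Nat.add (Nat.add (Nat.add (Nat.add (Nat.add (Nat.add C x29541) x12045) x14961) x17877) x15933) x16905) x16257) x16581) x16473) x16401) x16425) x16417) x16419)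
    (Nat.add (Nat.add (Nat.add (Nat.add (Nat.add (Nat.add (Nat.add (Nat.add (Nat.add (Nat.add (Nat.add (Nat.add C x16425) x29547) x12051) x14967) x17883) x15939) x16911) x16263) x16587) x16479) x16407) x16419)
    (Nat.sub (Nat.add (Nat.add (Nat.add (Nat.add (Nat.add (Nat.add (Nat.add (Nat.add (Nat.add (Nat.add C x29567) x12071) x14987) x17903) x15959) x16931) x16607) x16391) x16447) x36127) (Nat.mul x16445 (nat_lit 2)))
    (Nat.sub (Nat.add (Nat.add (Nat.add (Nat.add (Nat.add (Nat.add (Nat.add (Nat.add (Nat.add (Nat.add (Nat.add (Nat.add C x29569) x12073) x14989) x17905) x15961) x16933) x16609) x16393) x16453) x16445) x16449) x36129) x16447)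
    (Nat.sub (Nat.add (Nat.add (Nat.add (Nat.add (Nat.add (Nat.add (Nat.add (Nat.add (Nat.add (Nat.add C x29571) x12075) x14991) x17907) x15963) x16935) x16611) x16395) x16455) x16447) (Nat.mul x16449 (nat_lit 2)))
    (Nat.sub (Nat.add (Nat.add (Nat.add (Nat.add (Nat.add (Nat.add (Nat.add (Nat.add (Nat.add (Nat.add (Nat.add (Nat.add C x29575) x12079) x14995) x17911) x15967) x16939) x16615) x16399) x16471) x16447) x16455) x36135) (Nat.mul x16453 (nat_lit 2)))
    (Nat.sub (Nat.add (Nat.add (Nat.add (Nat.add (Nat.add (Nat.add (Nat.add (Nat.add (Nat.add (Nat.add (Nat.add (Nat.add C x29577) x12081) x14997) x17913) x15969) x16941) x16617) x16401) x16473) x16449) x16461) x16453) x16455)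
    (Nat.sub (Nat.add (Nat.add (Nat.add (Nat.add (Nat.add (Nat.add (Nat.add (Nat.add (Nat.add (Nat.add C x29583) x12087) x15003) x17919) x15975) x16947) x16623) x16407) x16479) x16455) (Nat.mul x16461 (nat_lit 2)))
    (Nat.add (Nat.add (Nat.add (Nat.add (Nat.add (Nat.add (Nat.add (Nat.add (Nat.add (Nat.add (Nat.add C x29593) x12097) x15013) x17929) x15985) x16957) x16633) x16417) x16453) x16473) x36153)
    (Nat.add (Nat.add (Nat.add (Nat.add (Nat.add (Nat.add (Nat.add (Nat.add (Nat.add (Nat.add (Nat.add C x29595) x12099) x15015) x17931) x15987) x16959) x16635) x16419) x16455) x16479) x16471)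
    (Nat.add (Nat.add (Nat.add (Nat.add (Nat.add (Nat.add (Nat.add (Nat.add (Nat.add (Nat.add (Nat.add (Nat.add C x16479) x29601) x12105) x15021) x17937) x15993) x16965) x16641) x16425) x16461) x16497) x16473)
    (Nat.add (Nat.add (Nat.add (Nat.add (Nat.add (Nat.add (Nat.add (Nat.add (Nat.add C (Nat.mul x16497 (nat_lit 2))) x29619) x12123) x15039) x17955) x16011) x16983) x16659) x16479)
    (Nat.sub (Nat.add (Nat.add (Nat.add (Nat.add (Nat.add (Nat.add (Nat.add (Nat.add (Nat.add C x29651) x12155) x15071) x17987) x17015) x16367) x16535) x16531) x36211) x16529)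
    (Nat.sub (Nat.add (Nat.add (Nat.add (Nat.add (Nat.add (Nat.add (Nat.add (Nat.add (Nat.add C x29653) x12157) x15073) x17989) x17017) x16369) x16537) x16529) x36213) x16531)
    (Nat.sub (Nat.add (Nat.add (Nat.add (Nat.add (Nat.add (Nat.add (Nat.add (Nat.add (Nat.add (Nat.add C x29657) x12161) x15077) x17993) x17021) x16373) x16553) x16529) x16537) x36217) (Nat.mul x16535 (nat_lit 3)))
    (Nat.sub (Nat.add (Nat.add (Nat.add (Nat.add (Nat.add (Nat.add (Nat.add (Nat.add (Nat.add (Nat.add (Nat.add (Nat.add C x29659) x12163) x15079) x17995) x17023) x16375) x16555) x16531) x16543) x16535) x16539) x36219) x16537)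
    (Nat.sub (Nat.add (Nat.add (Nat.add (Nat.add (Nat.add (Nat.add (Nat.add (Nat.add (Nat.add C x29661) x12165) x15081) x17997) x17025) x16377) x16557) x16545) x16537) x16539)
    (Nat.sub (Nat.add (Nat.add (Nat.add (Nat.add (Nat.add (Nat.add (Nat.add (Nat.add (Nat.add (Nat.add C x29665) x12169) x15085) x18001) x17029) x16381) x16561) x16537) x16545) x36225) (Nat.mul x16543 (nat_lit 3)))
    (Nat.sub (Nat.add (Nat.add (Nat.add (Nat.add (Nat.add (Nat.add (Nat.add (Nat.add (Nat.add C x29667) x12171) x15087) x18003) x17031) x16383) x16563) x16539) x16543) x16545)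
    (Nat.sub (Nat.add (Nat.add (Nat.add (Nat.add (Nat.add (Nat.add (Nat.add (Nat.add (Nat.add (Nat.add C x29675) x12179) x15095) x18011) x17039) x16391) x16607) x16535) x16555) x36235) (Nat.mul x16553 (nat_lit 3)))
    (Nat.sub (Nat.add (Nat.add (Nat.add (Nat.add (Nat.add (Nat.add (Nat.add (Nat.add (Nat.add (Nat.add (Nat.add (Nat.add C x29677) x12181) x15097) x18013) x17041) x16393) x16609) x16537) x16561) x16553) x16557) x36237) (Nat.mul x16555 (nat_lit 2)))
    (Nat.sub (Nat.add (Nat.add (Nat.add (Nat.add (Nat.add (Nat.add (Nat.add (Nat.add (Nat.add (Nat.add C x29679) x12183) x15099) x18015) x17043) x16395) x16611) x16539) x16563) x16555) (Nat.mul x16557 (nat_lit 3)))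
    (Nat.sub (Nat.add (Nat.add (Nat.add (Nat.add (Nat.add (Nat.add (Nat.add (Nat.add (Nat.add (Nat.add (Nat.add (Nat.add C x29683) x12187) x15103) x18019) x17047) x16399) x16615) x16543) x16579) x16555) x16563) x36243) (Nat.mul x16561 (nat_lit 2)))
    (Nat.sub (Nat.add (Nat.add (Nat.add (Nat.add (Nat.add (Nat.add (Nat.add (Nat.add (Nat.add (Nat.add (Nat.add (Nat.add C x29685) x12189) x15105) x18021) x17049) x16401) x16617) x16545) x16581) x16557) x16569) x16561) x16563)
    (Nat.sub (Nat.add (Nat.add (Nat.add (Nat.add (Nat.add (Nat.add (Nat.add (Nat.add (Nat.add C x29691) x12195) x15111) x18027) x17055) x16407) x16623) x16587) x16563) x16569)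
    (Nat.sub (Nat.add (Nat.add (Nat.add (Nat.add (Nat.add (Nat.add (Nat.add (Nat.add (Nat.add (Nat.add C x29701) x12205) x15121) x18037) x17065) x16417) x16633) x16561) x16581) x36261) (Nat.mul x16579 (nat_lit 3)))
    (Nat.sub (Nat.add (Nat.add (Nat.add (Nat.add (Nat.add (Nat.add (Nat.add (Nat.add (Nat.add (Nat.add C x29703) x12207) x15123) x18039) x17067) x16419) x16635) x16563) x16587) x16579) (Nat.mul x16581 (nat_lit 3)))
    (Nat.sub (Nat.add (Nat.add (Nat.add (Nat.add (Nat.add (Nat.add (Nat.add (Nat.add (Nat.add C x29709) x12213) x15129) x18045) x17073) x16425) x16641) x16569) x16581) x16587)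
    (Nat.sub (Nat.add (Nat.add (Nat.add (Nat.add (Nat.add (Nat.add (Nat.add (Nat.add (Nat.add C x29729) x12233) x15149) x18065) x17093) x16445) x16553) x16609) x36289) x16607)
    (Nat.add (Nat.add (Nat.add (Nat.add (Nat.add (Nat.add (Nat.add (Nat.add (Nat.add (Nat.add (Nat.add C x29731) x12235) x15151) x18067) x17095) x16447) x16555) x16615) x16607) x16611) x36291)
    (Nat.sub (Nat.add (Nat.add (Nat.add (Nat.add (Nat.add (Nat.add (Nat.add (Nat.add (Nat.add C x29733) x12237) x15153) x18069) x17097) x16449) x16557) x16617) x16609) x16611)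
    (Nat.sub (Nat.add (Nat.add (Nat.add (Nat.add (Nat.add (Nat.add (Nat.add (Nat.add (Nat.add (Nat.add (Nat.add C x29737) x12241) x15157) x18073) x17101) x16453) x16561) x16633) x16609) x16617) x36297) x16615)
    (Nat.add (Nat.add (Nat.add (Nat.add (Nat.add (Nat.add (Nat.add (Nat.add (Nat.add (Nat.add (Nat.add C x29739) x12243) x15159) x18075) x17103) x16455) x16563) x16635) x16611) x16623) x16615)
    (Nat.sub (Nat.add (Nat.add (Nat.add (Nat.add (Nat.add (Nat.add (Nat.add (Nat.add (Nat.add C x29745) x12249) x15165) x18081) x17109) x16461) x16569) x16641) x16617) x16623)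
    (Nat.add (Nat.add (Nat.add (Nat.add (Nat.add (Nat.add (Nat.add (Nat.add (Nat.add (Nat.add (Nat.add C x29755) x12259) x15175) x18091) x17119) x16471) x16579) x16687) x16615) x16635) x36315)
    (Nat.add (Nat.add (Nat.add (Nat.add (Nat.add (Nat.add (Nat.add (Nat.add (Nat.add (Nat.add (Nat.add C x29757) x12261) x15177) x18093) x17121) x16473) x16581) x16689) x16617) x16641) x16633)
    (Nat.add (Nat.add (Nat.add (Nat.add (Nat.add (Nat.add (Nat.add (Nat.add (Nat.add (Nat.add (Nat.add (Nat.add C x16641) x29763) x12267) x15183) x18099) x17127) x16479) x16587) x16695) x16623) x16659) x16635)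
    (Nat.add (Nat.add (Nat.add (Nat.add (Nat.add (Nat.add (Nat.add (Nat.add (Nat.add C x16659) x29781) x12285) x15201) x18117) x17145) x16497) x16713) x16641)
    (Nat.add (Nat.add (Nat.add (Nat.add (Nat.add (Nat.add (Nat.add (Nat.add (Nat.add C x16687) x29809) x12313) x15229) x18145) x17173) x16633) x16689) x36369)
    (Nat.add (Nat.add (Nat.add (Nat.add (Nat.add (Nat.add (Nat.add (Nat.add (Nat.add C x16689) x29811) x12315) x15231) x18147) x17175) x16635) x16695) x16687)
    (Nat.add (Nat.add (Nat.add (Nat.add (Nat.add (Nat.add (Nat.add (Nat.add (Nat.add C x16695) x29817) x12321) x15237) x18153) x17181) x16641) x16713) x16689)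
    (Nat.add (Nat.add (Nat.add (Nat.add (Nat.add (Nat.add (Nat.add (Nat.add C (Nat.mul x16713 (nat_lit 3))) x29835) x12339) x15255) x18171) x17199) x16659) x16695)
    (Nat.add (Nat.add (Nat.add (Nat.add (Nat.add (Nat.add C x29897) x12401) x18233) x16289) x16781) x36457)
    (Nat.sub (Nat.add (Nat.add (Nat.add (Nat.add (Nat.add (Nat.add (Nat.add (Nat.add (Nat.add C x29903) x12407) x18239) x16295) x16799) x16775) x16787) x16783) x36463) x16781)
    (Nat.add (Nat.add (Nat.add (Nat.add (Nat.add (Nat.add (Nat.add (Nat.add C x29905) x12409) x18241) x16297) x16801) x16789) x16781) x36465)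
    (Nat.sub (Nat.add (Nat.add (Nat.add (Nat.add (Nat.add (Nat.add (Nat.add (Nat.add C x29909) x12413) x18245) x16301) x16805) x16781) x16789) x36469) (Nat.mul x16787 (nat_lit 4)))
    (Nat.sub (Nat.add (Nat.add (Nat.add (Nat.add (Nat.add (Nat.add (Nat.add (Nat.add (Nat.add C x29911) x12415) x18247) x16303) x16807) x16783) x16787) x16791) x36471) x16789)
    (Nat.add (Nat.add (Nat.add (Nat.add (Nat.add (Nat.add C x29913) x12417) x18249) x16305) x16809) x16789)
    (Nat.sub (Nat.add (Nat.add (Nat.add (Nat.add (Nat.add (Nat.add (Nat.add (Nat.add (Nat.add C x29921) x12425) x18257) x16313) x16853) x16781) x16805) x16801) x36481) (Nat.mul x16799 (nat_lit 2)))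
    (Nat.sub (Nat.add (Nat.add (Nat.add (Nat.add (Nat.add (Nat.add (Nat.add (Nat.add (Nat.add C x29923) x12427) x18259) x16315) x16855) x16783) x16807) x16799) x36483) (Nat.mul x16801 (nat_lit 2)))
    (Nat.sub (Nat.add (Nat.add (Nat.add (Nat.add (Nat.add (Nat.add (Nat.add (Nat.add (Nat.add (Nat.add C x29927) x12431) x18263) x16319) x16859) x16787) x16823) x16799) x16807) x36487) (Nat.mul x16805 (nat_lit 3)))
    (Nat.sub (Nat.add (Nat.add (Nat.add (Nat.add (Nat.add (Nat.add (Nat.add (Nat.add (Nat.add (Nat.add (Nat.add (Nat.add C x29929) x12433) x18265) x16321) x16861) x16789) x16825) x16801) x16813) x16805) x16809) x36489) x16807)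
    (Nat.sub (Nat.add (Nat.add (Nat.add (Nat.add (Nat.add (Nat.add (Nat.add (Nat.add (Nat.add C x29931) x12435) x18267) x16323) x16863) x16791) x16827) x16815) x16807) x16809)
    (Nat.sub (Nat.add (Nat.add (Nat.add (Nat.add (Nat.add (Nat.add (Nat.add (Nat.add (Nat.add C x29935) x12439) x18271) x16327) x16867) x16831) x16807) x16815) x36495) (Nat.mul x16813 (nat_lit 2)))
    (Nat.add (Nat.add (Nat.add (Nat.add (Nat.add (Nat.add (Nat.add (Nat.add C x29937) x12441) x18273) x16329) x16869) x16833) x16809) x16813)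
    (Nat.sub (Nat.add (Nat.add (Nat.add (Nat.add (Nat.add (Nat.add (Nat.add (Nat.add C x29945) x12449) x18281) x16337) x16877) x16805) x16825) x36505) (Nat.mul x16823 (nat_lit 4)))
    (Nat.sub (Nat.add (Nat.add (Nat.add (Nat.add (Nat.add (Nat.add (Nat.add (Nat.add (Nat.add (Nat.add C x29947) x12451) x18283) x16339) x16879) x16807) x16831) x16823) x16827) x36507) (Nat.mul x16825 (nat_lit 3)))
    (Nat.sub (Nat.add (Nat.add (Nat.add (Nat.add (Nat.add (Nat.add (Nat.add (Nat.add C x29949) x12453) x18285) x16341) x16881) x16809) x16833) x16825) (Nat.mul x16827 (nat_lit 4)))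
    (Nat.sub (Nat.add (Nat.add (Nat.add (Nat.add (Nat.add (Nat.add (Nat.add (Nat.add (Nat.add C x29953) x12457) x18289) x16345) x16885) x16813) x16825) x16833) x36513) (Nat.mul x16831 (nat_lit 2)))
    (Nat.sub (Nat.add (Nat.add (Nat.add (Nat.add (Nat.add (Nat.add (Nat.add (Nat.add (Nat.add C x29955) x12459) x18291) x16347) x16887) x16815) x16827) x16839) x16831) x16833)
    (Nat.add (Nat.add (Nat.add (Nat.add (Nat.add (Nat.add C x29961) x12465) x18297) x16353) x16893) x16833)
    (Nat.sub (Nat.add (Nat.add (Nat.add (Nat.add (Nat.add (Nat.add (Nat.add (Nat.add (Nat.add C x29975) x12479) x18311) x16367) x17015) x16799) x16859) x16855) x36535) (Nat.mul x16853 (nat_lit 2)))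
    (Nat.sub (Nat.add (Nat.add (Nat.add (Nat.add (Nat.add (Nat.add (Nat.add (Nat.add (Nat.add C x29977) x12481) x18313) x16369) x17017) x16801) x16861) x16853) x36537) (Nat.mul x16855 (nat_lit 2)))
    (Nat.sub (Nat.add (Nat.add (Nat.add (Nat.add (Nat.add (Nat.add (Nat.add (Nat.add (Nat.add (Nat.add C x29981) x12485) x18317) x16373) x17021) x16805) x16877) x16853) x16861) x36541) (Nat.mul x16859 (nat_lit 4)))
    (Nat.sub (Nat.add (Nat.add (Nat.add (Nat.add (Nat.add (Nat.add (Nat.add (Nat.add (Nat.add (Nat.add (Nat.add (Nat.add C x29983) x12487) x18319) x16375) x17023) x16807) x16879) x16855) x16867) x16859) x16863) x36543) (Nat.mul x16861 (nat_lit 2)))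
    (Nat.sub (Nat.add (Nat.add (Nat.add (Nat.add (Nat.add (Nat.add (Nat.add (Nat.add (Nat.add C x29985) x12489) x18321) x16377) x17025) x16809) x16881) x16869) x16861) (Nat.mul x16863 (nat_lit 2)))
    (Nat.sub (Nat.add (Nat.add (Nat.add (Nat.add (Nat.add (Nat.add (Nat.add (Nat.add (Nat.add (Nat.add C x29989) x12493) x18325) x16381) x17029) x16813) x16885) x16861) x16869) x36549) (Nat.mul x16867 (nat_lit 4)))
    (Nat.sub (Nat.add (Nat.add (Nat.add (Nat.add (Nat.add (Nat.add (Nat.add (Nat.add (Nat.add C x29991) x12495) x18327) x16383) x17031) x16815) x16887) x16863) x16867) (Nat.mul x16869 (nat_lit 2)))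
    (Nat.sub (Nat.add (Nat.add (Nat.add (Nat.add (Nat.add (Nat.add (Nat.add (Nat.add (Nat.add (Nat.add C x29999) x12503) x18335) x16391) x17039) x16823) x16931) x16859) x16879) x36559) (Nat.mul x16877 (nat_lit 3)))
    (Nat.sub (Nat.add (Nat.add (Nat.add (Nat.add (Nat.add (Nat.add (Nat.add (Nat.add (Nat.add (Nat.add (Nat.add (Nat.add C x30001) x12505) x18337) x16393) x17041) x16825) x16933) x16861) x16885) x16877) x16881) x36561) (Nat.mul x16879 (nat_lit 2)))
    (Nat.sub (Nat.add (Nat.add (Nat.add (Nat.add (Nat.add (Nat.add (Nat.add (Nat.add (Nat.add (Nat.add C x30003) x12507) x18339) x16395) x17043) x16827) x16935) x16863) x16887) x16879) (Nat.mul x16881 (nat_lit 3)))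
    (Nat.sub (Nat.add (Nat.add (Nat.add (Nat.add (Nat.add (Nat.add (Nat.add (Nat.add (Nat.add (Nat.add (Nat.add (Nat.add C x30007) x12511) x18343) x16399) x17047) x16831) x16939) x16867) x16903) x16879) x16887) x36567) (Nat.mul x16885 (nat_lit 2)))
    (Nat.sub (Nat.add (Nat.add (Nat.add (Nat.add (Nat.add (Nat.add (Nat.add (Nat.add (Nat.add (Nat.add (Nat.add (Nat.add C x30009) x12513) x18345) x16401) x17049) x16833) x16941) x16869) x16905) x16881) x16893) x16885) x16887)
    (Nat.sub (Nat.add (Nat.add (Nat.add (Nat.add (Nat.add (Nat.add (Nat.add (Nat.add (Nat.add C x30015) x12519) x18351) x16407) x17055) x16839) x16947) x16911) x16887) x16893)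
    (Nat.sub (Nat.add (Nat.add (Nat.add (Nat.add (Nat.add (Nat.add (Nat.add (Nat.add (Nat.add C x30025) x12529) x18361) x16417) x17065) x16957) x16885) x16905) x36585) (Nat.mul x16903 (nat_lit 2)))
    (Nat.sub (Nat.add (Nat.add (Nat.add (Nat.add (Nat.add (Nat.add (Nat.add (Nat.add (Nat.add C x30027) x12531) x18363) x16419) x17067) x16959) x16887) x16911) x16903) (Nat.mul x16905 (nat_lit 2)))
    (Nat.add (Nat.add (Nat.add (Nat.add (Nat.add (Nat.add (Nat.add (Nat.add C x30033) x12537) x18369) x16425) x17073) x16965) x16893) x16905)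
    (Nat.sub (Nat.add (Nat.add (Nat.add (Nat.add (Nat.add (Nat.add (Nat.add (Nat.add C x30053) x12557) x18389) x16445) x17093) x16877) x16933) x36613) (Nat.mul x16931 (nat_lit 4)))
    (Nat.sub (Nat.add (Nat.add (Nat.add (Nat.add (Nat.add (Nat.add (Nat.add (Nat.add (Nat.add (Nat.add C x30055) x12559) x18391) x16447) x17095) x16879) x16939) x16931) x16935) x36615) (Nat.mul x16933 (nat_lit 3)))
    (Nat.sub (Nat.add (Nat.add (Nat.add (Nat.add (Nat.add (Nat.add (Nat.add (Nat.add C x30057) x12561) x18393) x16449) x17097) x16881) x16941) x16933) (Nat.mul x16935 (nat_lit 4)))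
    (Nat.sub (Nat.add (Nat.add (Nat.add (Nat.add (Nat.add (Nat.add (Nat.add (Nat.add (Nat.add (Nat.add C x30061) x12565) x18397) x16453) x17101) x16885) x16957) x16933) x16941) x36621) (Nat.mul x16939 (nat_lit 4)))
    (Nat.sub (Nat.add (Nat.add (Nat.add (Nat.add (Nat.add (Nat.add (Nat.add (Nat.add (Nat.add (Nat.add C x30063) x12567) x18399) x16455) x17103) x16887) x16959) x16935) x16947) x16939) (Nat.mul x16941 (nat_lit 3)))
    (Nat.sub (Nat.add (Nat.add (Nat.add (Nat.add (Nat.add (Nat.add (Nat.add (Nat.add C x30069) x12573) x18405) x16461) x17109) x16893) x16965) x16941) (Nat.mul x16947 (nat_lit 4)))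
    (Nat.sub (Nat.add (Nat.add (Nat.add (Nat.add (Nat.add (Nat.add (Nat.add (Nat.add (Nat.add C x30079) x12583) x18415) x16471) x17119) x16903) x16939) x16959) x36639) (Nat.mul x16957 (nat_lit 2)))
    (Nat.sub (Nat.add (Nat.add (Nat.add (Nat.add (Nat.add (Nat.add (Nat.add (Nat.add (Nat.add C x30081) x12585) x18417) x16473) x17121) x16905) x16941) x16965) x16957) (Nat.mul x16959 (nat_lit 2)))
    (Nat.sub (Nat.add (Nat.add (Nat.add (Nat.add (Nat.add (Nat.add (Nat.add (Nat.add (Nat.add C x30087) x12591) x18423) x16479) x17127) x16911) x16947) x16983) x16959) x16965)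
    (Nat.add (Nat.add (Nat.add (Nat.add (Nat.add (Nat.add C x30105) x12609) x18441) x16497) x17145) x16965)
    (Nat.add (Nat.add (Nat.add (Nat.add (Nat.add (Nat.add (Nat.add (Nat.add C x30137) x12641) x18473) x16529) x16853) x17021) x17017) x36697)
    (Nat.add (Nat.add (Nat.add (Nat.add (Nat.add (Nat.add (Nat.add (Nat.add C x30139) x12643) x18475) x16531) x16855) x17023) x17015) x36699)
    (Nat.sub (Nat.add (Nat.add (Nat.add (Nat.add (Nat.add (Nat.add (Nat.add (Nat.add (Nat.add C x30143) x12647) x18479) x16535) x16859) x17039) x17015) x17023) x36703) (Nat.mul x17021 (nat_lit 2)))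
    (Nat.add (Nat.add (Nat.add (Nat.add (Nat.add (Nat.add (Nat.add (Nat.add (Nat.add (Nat.add (Nat.add C x30145) x12649) x18481) x16537) x16861) x17041) x17017) x17029) x17021) x17025) x36705)
    (Nat.add (Nat.add (Nat.add (Nat.add (Nat.add (Nat.add (Nat.add (Nat.add C x30147) x12651) x18483) x16539) x16863) x17043) x17031) x17023)
    (Nat.sub (Nat.add (Nat.add (Nat.add (Nat.add (Nat.add (Nat.add (Nat.add (Nat.add (Nat.add C x30151) x12655) x18487) x16543) x16867) x17047) x17023) x17031) x36711) (Nat.mul x17029 (nat_lit 2)))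
    (Nat.add (Nat.add (Nat.add (Nat.add (Nat.add (Nat.add (Nat.add (Nat.add C x30153) x12657) x18489) x16545) x16869) x17049) x17025) x17029)
    (Nat.sub (Nat.add (Nat.add (Nat.add (Nat.add (Nat.add (Nat.add (Nat.add (Nat.add (Nat.add C x30161) x12665) x18497) x16553) x16877) x17093) x17021) x17041) x36721) (Nat.mul x17039 (nat_lit 2)))
    (Nat.sub (Nat.add (Nat.add (Nat.add (Nat.add (Nat.add (Nat.add (Nat.add (Nat.add (Nat.add (Nat.add (Nat.add C x30163) x12667) x18499) x16555) x16879) x17095) x17023) x17047) x17039) x17043) x36723) x17041)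
    (Nat.sub (Nat.add (Nat.add (Nat.add (Nat.add (Nat.add (Nat.add (Nat.add (Nat.add (Nat.add C x30165) x12669) x18501) x16557) x16881) x17097) x17025) x17049) x17041) (Nat.mul x17043 (nat_lit 2)))
    (Nat.sub (Nat.add (Nat.add (Nat.add (Nat.add (Nat.add (Nat.add (Nat.add (Nat.add (Nat.add (Nat.add (Nat.add C x30169) x12673) x18505) x16561) x16885) x17101) x17029) x17065) x17041) x17049) x36729) x17047)
    (Nat.add (Nat.add (Nat.add (Nat.add (Nat.add (Nat.add (Nat.add (Nat.add (Nat.add (Nat.add (Nat.add C x30171) x12675) x18507) x16563) x16887) x17103) x17031) x17067) x17043) x17055) x17047)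
    (Nat.add (Nat.add (Nat.add (Nat.add (Nat.add (Nat.add (Nat.add (Nat.add C x30177) x12681) x18513) x16569) x16893) x17109) x17073) x17049)
    (Nat.sub (Nat.add (Nat.add (Nat.add (Nat.add (Nat.add (Nat.add (Nat.add (Nat.add (Nat.add C x30187) x12691) x18523) x16579) x16903) x17119) x17047) x17067) x36747) (Nat.mul x17065 (nat_lit 2)))
    (Nat.sub (Nat.add (Nat.add (Nat.add (Nat.add (Nat.add (Nat.add (Nat.add (Nat.add (Nat.add C x30189) x12693) x18525) x16581) x16905) x17121) x17049) x17073) x17065) (Nat.mul x17067 (nat_lit 2)))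
    (Nat.add (Nat.add (Nat.add (Nat.add (Nat.add (Nat.add (Nat.add (Nat.add C x30195) x12699) x18531) x16587) x16911) x17127) x17055) x17067)
    (Nat.sub (Nat.add (Nat.add (Nat.add (Nat.add (Nat.add (Nat.add (Nat.add (Nat.add (Nat.add C x30215) x12719) x18551) x16607) x16931) x17255) x17039) x17095) x36775) x17093)
    (Nat.add (Nat.add (Nat.add (Nat.add (Nat.add (Nat.add (Nat.add (Nat.add (Nat.add (Nat.add (Nat.add C x30217) x12721) x18553) x16609) x16933) x17257) x17041) x17101) x17093) x17097) x36777)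
    (Nat.sub (Nat.add (Nat.add (Nat.add (Nat.add (Nat.add (Nat.add (Nat.add (Nat.add (Nat.add C x30219) x12723) x18555) x16611) x16935) x17259) x17043) x17103) x17095) x17097)
    (Nat.sub (Nat.add (Nat.add (Nat.add (Nat.add (Nat.add (Nat.add (Nat.add (Nat.add (Nat.add (Nat.add (Nat.add C x30223) x12727) x18559) x16615) x16939) x17263) x17047) x17119) x17095) x17103) x36783) x17101)
    (Nat.add (Nat.add (Nat.add (Nat.add (Nat.add (Nat.add (Nat.add (Nat.add (Nat.add (Nat.add (Nat.add C x30225) x12729) x18561) x16617) x16941) x17265) x17049) x17121) x17097) x17109) x17101)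
    (Nat.sub (Nat.add (Nat.add (Nat.add (Nat.add (Nat.add (Nat.add (Nat.add (Nat.add (Nat.add C x30231) x12735) x18567) x16623) x16947) x17271) x17055) x17127) x17103) x17109)
    (Nat.add (Nat.add (Nat.add (Nat.add (Nat.add (Nat.add (Nat.add (Nat.add (Nat.add (Nat.add (Nat.add C x30241) x12745) x18577) x16633) x16957) x17281) x17065) x17173) x17101) x17121) x36801)
    (Nat.add (Nat.add (Nat.add (Nat.add (Nat.add (Nat.add (Nat.add (Nat.add (Nat.add (Nat.add (Nat.add C x30243) x12747) x18579) x16635) x16959) x17283) x17067) x17175) x17103) x17127) x17119)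
    (Nat.add (Nat.add (Nat.add (Nat.add (Nat.add (Nat.add (Nat.add (Nat.add (Nat.add (Nat.add (Nat.add (Nat.add C x17127) x30249) x12753) x18585) x16641) x16965) x17289) x17073) x17181) x17109) x17145) x17121)
    (Nat.add (Nat.add (Nat.add (Nat.add (Nat.add (Nat.add (Nat.add (Nat.add (Nat.add C x17145) x30267) x12771) x18603) x16659) x16983) x17307) x17199) x17127)
    (Nat.add (Nat.add (Nat.add (Nat.add (Nat.add (Nat.add (Nat.add (Nat.add C x30295) x12799) x18631) x16687) x17335) x17119) x17175) x36855)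
    (Nat.add (Nat.add (Nat.add (Nat.add (Nat.add (Nat.add (Nat.add (Nat.add C x30297) x12801) x18633) x16689) x17337) x17121) x17181) x17173)
    (Nat.add (Nat.add (Nat.add (Nat.add (Nat.add (Nat.add (Nat.add (Nat.add C x30303) x12807) x18639) x16695) x17343) x17127) x17199) x17175)
    (Nat.add (Nat.add (Nat.add (Nat.add (Nat.add (Nat.add (Nat.add (Nat.add C (Nat.mul x17199 (nat_lit 2))) x30321) x12825) x18657) x16713) x17361) x17145) x17181)
    (Nat.add (Nat.add (Nat.add (Nat.add (Nat.add (Nat.add C x30377) x12881) x18713) x17093) x17257) x36937)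
    (Nat.add (Nat.add (Nat.add (Nat.add (Nat.add (Nat.add (Nat.add (Nat.add (Nat.add C x17257) x30379) x12883) x18715) x17095) x17263) x17255) x17259) x36939)
    (Nat.add (Nat.add (Nat.add (Nat.add (Nat.add (Nat.add C x30381) x12885) x18717) x17097) x17265) x17257)
    (Nat.add (Nat.add (Nat.add (Nat.add (Nat.add (Nat.add (Nat.add (Nat.add C x30385) x12889) x18721) x17101) x17281) x17257) x17265) x36945)
    (Nat.add (Nat.add (Nat.add (Nat.add (Nat.add (Nat.add (Nat.add (Nat.add (Nat.add C x17265) x30387) x12891) x18723) x17103) x17283) x17259) x17271) x17263)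
    (Nat.add (Nat.add (Nat.add (Nat.add (Nat.add (Nat.add C x30393) x12897) x18729) x17109) x17289) x17265)
    (Nat.add (Nat.add (Nat.add (Nat.add (Nat.add (Nat.add (Nat.add (Nat.add C x30403) x12907) x18739) x17119) x17335) x17263) x17283) x36963)
    (Nat.add (Nat.add (Nat.add (Nat.add (Nat.add (Nat.add (Nat.add (Nat.add C x30405) x12909) x18741) x17121) x17337) x17265) x17289) x17281)
    (Nat.add (Nat.add (Nat.add (Nat.add (Nat.add (Nat.add (Nat.add (Nat.add (Nat.add C x17289) x30411) x12915) x18747) x17127) x17343) x17271) x17307) x17283)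
    (Nat.add (Nat.add (Nat.add (Nat.add (Nat.add (Nat.add C x30429) x12933) x18765) x17145) x17361) x17289)
    (Nat.add (Nat.add (Nat.add (Nat.add (Nat.add (Nat.add (Nat.add (Nat.add C (Nat.mul x17335 (nat_lit 2))) x30457) x12961) x18793) x17173) x17281) x17337) x37017)
    (Nat.add (Nat.add (Nat.add (Nat.add (Nat.add (Nat.add (Nat.add (Nat.add C (Nat.mul x17337 (nat_lit 2))) x30459) x12963) x18795) x17175) x17283) x17343) x17335)
    (Nat.add (Nat.add (Nat.add (Nat.add (Nat.add (Nat.add (Nat.add (Nat.add C (Nat.mul x17343 (nat_lit 2))) x30465) x12969) x18801) x17181) x17289) x17361) x17337)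
    (Nat.add (Nat.add (Nat.add (Nat.add (Nat.add (Nat.add (Nat.add (Nat.add C (Nat.mul x17361 (nat_lit 3))) x30483) x12987) x18819) x17199) x17307) x17415) x17343)
    (Nat.add (Nat.add (Nat.add (Nat.add (Nat.add C (Nat.mul x17415 (nat_lit 4))) x30537) x13041) x18873) x17361)
    (Nat.add (Nat.add (Nat.add (Nat.add (Nat.add (Nat.add C (Nat.mul x17513 (nat_lit 2))) x30635) x16055) x17531) x17519) x37195)
    (Nat.add (Nat.add (Nat.add (Nat.add (Nat.add (Nat.add C x30641) x16061) x17537) x17513) x17521) x37201)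
    (Nat.add (Nat.add (Nat.add (Nat.add (Nat.add (Nat.add C (Nat.mul x17521 (nat_lit 2))) x30643) x16063) x17539) x17519) x37203)
    (Nat.add (Nat.add (Nat.add (Nat.add (Nat.add (Nat.add C x30653) x16073) x17585) x17513) x17537) x37213)
    (Nat.add (Nat.add (Nat.add (Nat.add (Nat.add (Nat.add (Nat.add (Nat.add (Nat.add C x30659) x16079) x17591) x17519) x17555) x17531) x17543) x17539) x37219)
    (Nat.add (Nat.add (Nat.add (Nat.add (Nat.add (Nat.add (Nat.add (Nat.add (Nat.add C x17539) x30661) x16081) x17593) x17521) x17557) x17545) x17537) x37221)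
    (Nat.sub (Nat.add (Nat.add (Nat.add (Nat.add (Nat.add (Nat.add (Nat.add C x30665) x16085) x17597) x17561) x17537) x17545) x37225) (Nat.mul x17543 (nat_lit 2)))
    (Nat.add (Nat.add (Nat.add (Nat.add (Nat.add (Nat.add (Nat.add (Nat.add (Nat.add C x17545) x30667) x16087) x17599) x17563) x17539) x17543) x17547) x37227)
    (Nat.add (Nat.add (Nat.add (Nat.add (Nat.add (Nat.add C (Nat.mul x17547 (nat_lit 2))) x30669) x16089) x17601) x17565) x17545)
    (Nat.sub (Nat.add (Nat.add (Nat.add (Nat.add (Nat.add (Nat.add (Nat.add C x30677) x16097) x17609) x17537) x17561) x17557) x37237) (Nat.mul x17555 (nat_lit 2)))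
    (Nat.sub (Nat.add (Nat.add (Nat.add (Nat.add (Nat.add (Nat.add (Nat.add C x30679) x16099) x17611) x17539) x17563) x17555) x37239) (Nat.mul x17557 (nat_lit 2)))
    (Nat.sub (Nat.add (Nat.add (Nat.add (Nat.add (Nat.add (Nat.add (Nat.add C x30683) x16103) x17615) x17543) x17555) x17563) x37243) (Nat.mul x17561 (nat_lit 2)))
    (Nat.add (Nat.add (Nat.add (Nat.add (Nat.add (Nat.add (Nat.add (Nat.add (Nat.add C x30685) x16105) x17617) x17545) x17557) x17569) x17561) x17565) x37245)
    (Nat.add (Nat.add (Nat.add (Nat.add (Nat.add (Nat.add C x30687) x16107) x17619) x17547) x17571) x17563)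
    (Nat.add (Nat.add (Nat.add (Nat.add (Nat.add (Nat.add C x30691) x16111) x17623) x17563) x17571) x37251)
    (Nat.add (Nat.add (Nat.add (Nat.add (Nat.add (Nat.add C (Nat.mul x17571 (nat_lit 2))) x30693) x16113) x17625) x17565) x17569)
    (Nat.add (Nat.add (Nat.add (Nat.add (Nat.add (Nat.add C x30707) x16127) x17747) x17531) x17591) x37267)
    (Nat.sub (Nat.add (Nat.add (Nat.add (Nat.add (Nat.add (Nat.add (Nat.add (Nat.add (Nat.add C x30713) x16133) x17753) x17537) x17609) x17585) x17597) x17593) x37273) x17591)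
    (Nat.add (Nat.add (Nat.add (Nat.add (Nat.add (Nat.add (Nat.add (Nat.add C x30715) x16135) x17755) x17539) x17611) x17599) x17591) x37275)
    (Nat.sub (Nat.add (Nat.add (Nat.add (Nat.add (Nat.add (Nat.add (Nat.add (Nat.add C x30719) x16139) x17759) x17543) x17615) x17591) x17599) x37279) (Nat.mul x17597 (nat_lit 4)))
    (Nat.sub (Nat.add (Nat.add (Nat.add (Nat.add (Nat.add (Nat.add (Nat.add (Nat.add (Nat.add C x30721) x16141) x17761) x17545) x17617) x17593) x17597) x17601) x37281) x17599)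
    (Nat.add (Nat.add (Nat.add (Nat.add (Nat.add (Nat.add C x30723) x16143) x17763) x17547) x17619) x17599)
    (Nat.sub (Nat.add (Nat.add (Nat.add (Nat.add (Nat.add (Nat.add (Nat.add (Nat.add (Nat.add C x30731) x16151) x17771) x17555) x17663) x17591) x17615) x17611) x37291) x17609)
    (Nat.sub (Nat.add (Nat.add (Nat.add (Nat.add (Nat.add (Nat.add (Nat.add (Nat.add (Nat.add C x30733) x16153) x17773) x17557) x17665) x17593) x17617) x17609) x37293) x17611)
    (Nat.sub (Nat.add (Nat.add (Nat.add (Nat.add (Nat.add (Nat.add (Nat.add (Nat.add (Nat.add (Nat.add C x30737) x16157) x17777) x17561) x17669) x17597) x17633) x17609) x17617) x37297) (Nat.mul x17615 (nat_lit 2)))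
    (Nat.add (Nat.add (Nat.add (Nat.add (Nat.add (Nat.add (Nat.add (Nat.add (Nat.add (Nat.add (Nat.add (Nat.add C x30739) x16159) x17779) x17563) x17671) x17599) x17635) x17611) x17623) x17615) x17619) x37299)
    (Nat.add (Nat.add (Nat.add (Nat.add (Nat.add (Nat.add (Nat.add (Nat.add (Nat.add C x30741) x16161) x17781) x17565) x17673) x17601) x17637) x17625) x17617)
    (Nat.sub (Nat.add (Nat.add (Nat.add (Nat.add (Nat.add (Nat.add (Nat.add (Nat.add (Nat.add C x30745) x16165) x17785) x17569) x17677) x17641) x17617) x17625) x37305) x17623)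
    (Nat.add (Nat.add (Nat.add (Nat.add (Nat.add (Nat.add (Nat.add (Nat.add (Nat.add C x17625) x30747) x16167) x17787) x17571) x17679) x17643) x17619) x17623)
    (Nat.sub (Nat.add (Nat.add (Nat.add (Nat.add (Nat.add (Nat.add (Nat.add C x30755) x16175) x17795) x17687) x17615) x17635) x37315) (Nat.mul x17633 (nat_lit 2)))
    (Nat.sub (Nat.add (Nat.add (Nat.add (Nat.add (Nat.add (Nat.add (Nat.add (Nat.add (Nat.add C x30757) x16177) x17797) x17689) x17617) x17641) x17633) x17637) x37317) x17635)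
    (Nat.sub (Nat.add (Nat.add (Nat.add (Nat.add (Nat.add (Nat.add (Nat.add C x30759) x16179) x17799) x17691) x17619) x17643) x17635) (Nat.mul x17637 (nat_lit 2)))
    (Nat.add (Nat.add (Nat.add (Nat.add (Nat.add (Nat.add (Nat.add (Nat.add C x30763) x16183) x17803) x17695) x17623) x17635) x17643) x37323)
    (Nat.add (Nat.add (Nat.add (Nat.add (Nat.add (Nat.add (Nat.add (Nat.add (Nat.add C x17643) x30765) x16185) x17805) x17697) x17625) x17637) x17649) x17641)
    (Nat.add (Nat.add (Nat.add (Nat.add (Nat.add (Nat.add C (Nat.mul x17649 (nat_lit 2))) x30771) x16191) x17811) x17703) x17643)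
    (Nat.sub (Nat.add (Nat.add (Nat.add (Nat.add (Nat.add (Nat.add (Nat.add C x30785) x16205) x17825) x17609) x17669) x17665) x37345) (Nat.mul x17663 (nat_lit 2)))
    (Nat.sub (Nat.add (Nat.add (Nat.add (Nat.add (Nat.add (Nat.add (Nat.add C x30787) x16207) x17827) x17611) x17671) x17663) x37347) (Nat.mul x17665 (nat_lit 2)))
    (Nat.sub (Nat.add (Nat.add (Nat.add (Nat.add (Nat.add (Nat.add (Nat.add (Nat.add C x30791) x16211) x17831) x17615) x17687) x17663) x17671) x37351) (Nat.mul x17669 (nat_lit 4)))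
    (Nat.sub (Nat.add (Nat.add (Nat.add (Nat.add (Nat.add (Nat.add (Nat.add (Nat.add (Nat.add (Nat.add C x30793) x16213) x17833) x17617) x17689) x17665) x17677) x17669) x17673) x37353) (Nat.mul x17671 (nat_lit 2)))
    (Nat.sub (Nat.add (Nat.add (Nat.add (Nat.add (Nat.add (Nat.add (Nat.add C x30795) x16215) x17835) x17619) x17691) x17679) x17671) (Nat.mul x17673 (nat_lit 2)))
    (Nat.sub (Nat.add (Nat.add (Nat.add (Nat.add (Nat.add (Nat.add (Nat.add (Nat.add C x30799) x16219) x17839) x17623) x17695) x17671) x17679) x37359) (Nat.mul x17677 (nat_lit 4)))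
    (Nat.sub (Nat.add (Nat.add (Nat.add (Nat.add (Nat.add (Nat.add (Nat.add C x30801) x16221) x17841) x17625) x17697) x17673) x17677) (Nat.mul x17679 (nat_lit 2)))
    (Nat.sub (Nat.add (Nat.add (Nat.add (Nat.add (Nat.add (Nat.add (Nat.add C x30809) x16229) x17849) x17633) x17669) x17689) x37369) (Nat.mul x17687 (nat_lit 2)))
    (Nat.sub (Nat.add (Nat.add (Nat.add (Nat.add (Nat.add (Nat.add (Nat.add (Nat.add (Nat.add C x30811) x16231) x17851) x17635) x17671) x17695) x17687) x17691) x37371) x17689)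
    (Nat.sub (Nat.add (Nat.add (Nat.add (Nat.add (Nat.add (Nat.add (Nat.add C x30813) x16233) x17853) x17637) x17673) x17697) x17689) (Nat.mul x17691 (nat_lit 2)))
    (Nat.sub (Nat.add (Nat.add (Nat.add (Nat.add (Nat.add (Nat.add (Nat.add (Nat.add (Nat.add C x30817) x16237) x17857) x17641) x17677) x17713) x17689) x17697) x37377) x17695)
    (Nat.add (Nat.add (Nat.add (Nat.add (Nat.add (Nat.add (Nat.add (Nat.add (Nat.add C x30819) x16239) x17859) x17643) x17679) x17715) x17691) x17703) x17695)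
    (Nat.add (Nat.add (Nat.add (Nat.add (Nat.add (Nat.add C x30825) x16245) x17865) x17649) x17721) x17697)
    (Nat.add (Nat.add (Nat.add (Nat.add (Nat.add (Nat.add C x30835) x16255) x17875) x17695) x17715) x37395)
    (Nat.add (Nat.add (Nat.add (Nat.add (Nat.add (Nat.add C x30837) x16257) x17877) x17697) x17721) x17713)
    (Nat.add (Nat.add (Nat.add (Nat.add (Nat.add (Nat.add C (Nat.mul x17721 (nat_lit 2))) x30843) x16263) x17883) x17703) x17715)
    (Nat.add (Nat.add (Nat.add (Nat.add (Nat.add (Nat.add C x30869) x16289) x18233) x17585) x17753) x37429)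
    (Nat.sub (Nat.add (Nat.add (Nat.add (Nat.add (Nat.add (Nat.add (Nat.add (Nat.add (Nat.add C x30875) x16295) x18239) x17591) x17771) x17747) x17759) x17755) x37435) x17753)
    (Nat.add (Nat.add (Nat.add (Nat.add (Nat.add (Nat.add (Nat.add (Nat.add C x30877) x16297) x18241) x17593) x17773) x17761) x17753) x37437)
    (Nat.sub (Nat.add (Nat.add (Nat.add (Nat.add (Nat.add (Nat.add (Nat.add (Nat.add C x30881) x16301) x18245) x17597) x17777) x17753) x17761) x37441) (Nat.mul x17759 (nat_lit 4)))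
    (Nat.sub (Nat.add (Nat.add (Nat.add (Nat.add (Nat.add (Nat.add (Nat.add (Nat.add (Nat.add C x30883) x16303) x18247) x17599) x17779) x17755) x17759) x17763) x37443) x17761)
    (Nat.add (Nat.add (Nat.add (Nat.add (Nat.add (Nat.add C x30885) x16305) x18249) x17601) x17781) x17761)
    (Nat.sub (Nat.add (Nat.add (Nat.add (Nat.add (Nat.add (Nat.add (Nat.add (Nat.add (Nat.add C x30893) x16313) x18257) x17609) x17825) x17753) x17777) x17773) x37453) (Nat.mul x17771 (nat_lit 2)))
    (Nat.sub (Nat.add (Nat.add (Nat.add (Nat.add (Nat.add (Nat.add (Nat.add (Nat.add (Nat.add C x30895) x16315) x18259) x17611) x17827) x17755) x17779) x17771) x37455) (Nat.mul x17773 (nat_lit 2)))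
    (Nat.sub (Nat.add (Nat.add (Nat.add (Nat.add (Nat.add (Nat.add (Nat.add (Nat.add (Nat.add (Nat.add C x30899) x16319) x18263) x17615) x17831) x17759) x17795) x17771) x17779) x37459) (Nat.mul x17777 (nat_lit 3)))
    (Nat.sub (Nat.add (Nat.add (Nat.add (Nat.add (Nat.add (Nat.add (Nat.add (Nat.add (Nat.add (Nat.add (Nat.add (Nat.add C x30901) x16321) x18265) x17617) x17833) x17761) x17797) x17773) x17785) x17777) x17781) x37461) x17779)
    (Nat.sub (Nat.add (Nat.add (Nat.add (Nat.add (Nat.add (Nat.add (Nat.add (Nat.add (Nat.add C x30903) x16323) x18267) x17619) x17835) x17763) x17799) x17787) x17779) x17781)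
    (Nat.sub (Nat.add (Nat.add (Nat.add (Nat.add (Nat.add (Nat.add (Nat.add (Nat.add (Nat.add C x30907) x16327) x18271) x17623) x17839) x17803) x17779) x17787) x37467) (Nat.mul x17785 (nat_lit 2)))
    (Nat.add (Nat.add (Nat.add (Nat.add (Nat.add (Nat.add (Nat.add (Nat.add C x30909) x16329) x18273) x17625) x17841) x17805) x17781) x17785)
    (Nat.sub (Nat.add (Nat.add (Nat.add (Nat.add (Nat.add (Nat.add (Nat.add (Nat.add C x30917) x16337) x18281) x17633) x17849) x17777) x17797) x37477) (Nat.mul x17795 (nat_lit 4)))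
    (Nat.sub (Nat.add (Nat.add (Nat.add (Nat.add (Nat.add (Nat.add (Nat.add (Nat.add (Nat.add (Nat.add C x30919) x16339) x18283) x17635) x17851) x17779) x17803) x17795) x17799) x37479) (Nat.mul x17797 (nat_lit 3)))
    (Nat.sub (Nat.add (Nat.add (Nat.add (Nat.add (Nat.add (Nat.add (Nat.add (Nat.add C x30921) x16341) x18285) x17637) x17853) x17781) x17805) x17797) (Nat.mul x17799 (nat_lit 4)))
    (Nat.sub (Nat.add (Nat.add (Nat.add (Nat.add (Nat.add (Nat.add (Nat.add (Nat.add (Nat.add C x30925) x16345) x18289) x17641) x17857) x17785) x17797) x17805) x37485) (Nat.mul x17803 (nat_lit 2)))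
    (Nat.sub (Nat.add (Nat.add (Nat.add (Nat.add (Nat.add (Nat.add (Nat.add (Nat.add (Nat.add C x30927) x16347) x18291) x17643) x17859) x17787) x17799) x17811) x17803) x17805)
    (Nat.add (Nat.add (Nat.add (Nat.add (Nat.add (Nat.add C x30933) x16353) x18297) x17649) x17865) x17805)
    (Nat.sub (Nat.add (Nat.add (Nat.add (Nat.add (Nat.add (Nat.add (Nat.add (Nat.add (Nat.add C x30947) x16367) x18311) x17663) x17987) x17771) x17831) x17827) x37507) x17825)
    (Nat.sub (Nat.add (Nat.add (Nat.add (Nat.add (Nat.add (Nat.add (Nat.add (Nat.add (Nat.add C x30949) x16369) x18313) x17665) x17989) x17773) x17833) x17825) x37509) x17827)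
    (Nat.sub (Nat.add (Nat.add (Nat.add (Nat.add (Nat.add (Nat.add (Nat.add (Nat.add (Nat.add (Nat.add C x30953) x16373) x18317) x17669) x17993) x17777) x17849) x17825) x17833) x37513) (Nat.mul x17831 (nat_lit 3)))
    (Nat.sub (Nat.add (Nat.add (Nat.add (Nat.add (Nat.add (Nat.add (Nat.add (Nat.add (Nat.add (Nat.add (Nat.add (Nat.add C x30955) x16375) x18319) x17671) x17995) x17779) x17851) x17827) x17839) x17831) x17835) x37515) x17833)
    (Nat.sub (Nat.add (Nat.add (Nat.add (Nat.add (Nat.add (Nat.add (Nat.add (Nat.add (Nat.add C x30957) x16377) x18321) x17673) x17997) x17781) x17853) x17841) x17833) x17835)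
    (Nat.sub (Nat.add (Nat.add (Nat.add (Nat.add (Nat.add (Nat.add (Nat.add (Nat.add (Nat.add (Nat.add C x30961) x16381) x18325) x17677) x18001) x17785) x17857) x17833) x17841) x37521) (Nat.mul x17839 (nat_lit 3)))
    (Nat.sub (Nat.add (Nat.add (Nat.add (Nat.add (Nat.add (Nat.add (Nat.add (Nat.add (Nat.add C x30963) x16383) x18327) x17679) x18003) x17787) x17859) x17835) x17839) x17841)
    (Nat.sub (Nat.add (Nat.add (Nat.add (Nat.add (Nat.add (Nat.add (Nat.add (Nat.add (Nat.add (Nat.add C x30971) x16391) x18335) x17687) x18011) x17795) x17903) x17831) x17851) x37531) (Nat.mul x17849 (nat_lit 2)))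
    (Nat.sub (Nat.add (Nat.add (Nat.add (Nat.add (Nat.add (Nat.add (Nat.add (Nat.add (Nat.add (Nat.add (Nat.add (Nat.add C x30973) x16393) x18337) x17689) x18013) x17797) x17905) x17833) x17857) x17849) x17853) x37533) x17851)
    (Nat.sub (Nat.add (Nat.add (Nat.add (Nat.add (Nat.add (Nat.add (Nat.add (Nat.add (Nat.add (Nat.add C x30975) x16395) x18339) x17691) x18015) x17799) x17907) x17835) x17859) x17851) (Nat.mul x17853 (nat_lit 2)))
    (Nat.sub (Nat.add (Nat.add (Nat.add (Nat.add (Nat.add (Nat.add (Nat.add (Nat.add (Nat.add (Nat.add (Nat.add (Nat.add C x30979) x16399) x18343) x17695) x18019) x17803) x17911) x17839) x17875) x17851) x17859) x37539) x17857)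
    (Nat.add (Nat.add (Nat.add (Nat.add (Nat.add (Nat.add (Nat.add (Nat.add (Nat.add (Nat.add (Nat.add (Nat.add C x30981) x16401) x18345) x17697) x18021) x17805) x17913) x17841) x17877) x17853) x17865) x17857)
    (Nat.add (Nat.add (Nat.add (Nat.add (Nat.add (Nat.add (Nat.add (Nat.add (Nat.add C x30987) x16407) x18351) x17703) x18027) x17811) x17919) x17883) x17859)
    (Nat.sub (Nat.add (Nat.add (Nat.add (Nat.add (Nat.add (Nat.add (Nat.add (Nat.add (Nat.add C x30997) x16417) x18361) x17713) x18037) x17929) x17857) x17877) x37557) x17875)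
    (Nat.sub (Nat.add (Nat.add (Nat.add (Nat.add (Nat.add (Nat.add (Nat.add (Nat.add (Nat.add C x30999) x16419) x18363) x17715) x18039) x17931) x17859) x17883) x17875) x17877)
    (Nat.add (Nat.add (Nat.add (Nat.add (Nat.add (Nat.add (Nat.add (Nat.add (Nat.add C x17883) x31005) x16425) x18369) x17721) x18045) x17937) x17865) x17877)
    (Nat.sub (Nat.add (Nat.add (Nat.add (Nat.add (Nat.add (Nat.add (Nat.add C x31025) x16445) x18389) x18065) x17849) x17905) x37585) (Nat.mul x17903 (nat_lit 2)))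
    (Nat.sub (Nat.add (Nat.add (Nat.add (Nat.add (Nat.add (Nat.add (Nat.add (Nat.add (Nat.add C x31027) x16447) x18391) x18067) x17851) x17911) x17903) x17907) x37587) x17905)
    (Nat.sub (Nat.add (Nat.add (Nat.add (Nat.add (Nat.add (Nat.add (Nat.add C x31029) x16449) x18393) x18069) x17853) x17913) x17905) (Nat.mul x17907 (nat_lit 2)))
    (Nat.sub (Nat.add (Nat.add (Nat.add (Nat.add (Nat.add (Nat.add (Nat.add (Nat.add (Nat.add C x31033) x16453) x18397) x18073) x17857) x17929) x17905) x17913) x37593) (Nat.mul x17911 (nat_lit 2)))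
    (Nat.sub (Nat.add (Nat.add (Nat.add (Nat.add (Nat.add (Nat.add (Nat.add (Nat.add (Nat.add C x31035) x16455) x18399) x18075) x17859) x17931) x17907) x17919) x17911) x17913)
    (Nat.sub (Nat.add (Nat.add (Nat.add (Nat.add (Nat.add (Nat.add (Nat.add C x31041) x16461) x18405) x18081) x17865) x17937) x17913) (Nat.mul x17919 (nat_lit 2)))
    (Nat.add (Nat.add (Nat.add (Nat.add (Nat.add (Nat.add (Nat.add (Nat.add C x31051) x16471) x18415) x18091) x17875) x17911) x17931) x37611)
    (Nat.add (Nat.add (Nat.add (Nat.add (Nat.add (Nat.add (Nat.add (Nat.add C x31053) x16473) x18417) x18093) x17877) x17913) x17937) x17929)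
    (Nat.add (Nat.add (Nat.add (Nat.add (Nat.add (Nat.add (Nat.add (Nat.add (Nat.add C x17937) x31059) x16479) x18423) x18099) x17883) x17919) x17955) x17931)
    (Nat.add (Nat.add (Nat.add (Nat.add (Nat.add (Nat.add C (Nat.mul x17955 (nat_lit 2))) x31077) x16497) x18441) x18117) x17937)
    (Nat.sub (Nat.add (Nat.add (Nat.add (Nat.add (Nat.add (Nat.add (Nat.add C x31109) x16529) x18473) x17825) x17993) x17989) x37669) (Nat.mul x17987 (nat_lit 2)))
    (Nat.sub (Nat.add (Nat.add (Nat.add (Nat.add (Nat.add (Nat.add (Nat.add C x31111) x16531) x18475) x17827) x17995) x17987) x37671) (Nat.mul x17989 (nat_lit 2)))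
    (Nat.sub (Nat.add (Nat.add (Nat.add (Nat.add (Nat.add (Nat.add (Nat.add (Nat.add C x31115) x16535) x18479) x17831) x18011) x17987) x17995) x37675) (Nat.mul x17993 (nat_lit 4)))
    (Nat.sub (Nat.add (Nat.add (Nat.add (Nat.add (Nat.add (Nat.add (Nat.add (Nat.add (Nat.add (Nat.add C x31117) x16537) x18481) x17833) x18013) x17989) x18001) x17993) x17997) x37677) (Nat.mul x17995 (nat_lit 2)))
    (Nat.sub (Nat.add (Nat.add (Nat.add (Nat.add (Nat.add (Nat.add (Nat.add C x31119) x16539) x18483) x17835) x18015) x18003) x17995) (Nat.mul x17997 (nat_lit 2)))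
    (Nat.sub (Nat.add (Nat.add (Nat.add (Nat.add (Nat.add (Nat.add (Nat.add (Nat.add C x31123) x16543) x18487) x17839) x18019) x17995) x18003) x37683) (Nat.mul x18001 (nat_lit 4)))
    (Nat.sub (Nat.add (Nat.add (Nat.add (Nat.add (Nat.add (Nat.add (Nat.add C x31125) x16545) x18489) x17841) x18021) x17997) x18001) (Nat.mul x18003 (nat_lit 2)))
    (Nat.sub (Nat.add (Nat.add (Nat.add (Nat.add (Nat.add (Nat.add (Nat.add (Nat.add C x31133) x16553) x18497) x17849) x18065) x17993) x18013) x37693) (Nat.mul x18011 (nat_lit 4)))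
    (Nat.sub (Nat.add (Nat.add (Nat.add (Nat.add (Nat.add (Nat.add (Nat.add (Nat.add (Nat.add (Nat.add C x31135) x16555) x18499) x17851) x18067) x17995) x18019) x18011) x18015) x37695) (Nat.mul x18013 (nat_lit 3)))
    (Nat.sub (Nat.add (Nat.add (Nat.add (Nat.add (Nat.add (Nat.add (Nat.add (Nat.add C x31137) x16557) x18501) x17853) x18069) x17997) x18021) x18013) (Nat.mul x18015 (nat_lit 4)))
    (Nat.sub (Nat.add (Nat.add (Nat.add (Nat.add (Nat.add (Nat.add (Nat.add (Nat.add (Nat.add (Nat.add C x31141) x16561) x18505) x17857) x18073) x18001) x18037) x18013) x18021) x37701) (Nat.mul x18019 (nat_lit 3)))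
    (Nat.sub (Nat.add (Nat.add (Nat.add (Nat.add (Nat.add (Nat.add (Nat.add (Nat.add (Nat.add (Nat.add C x31143) x16563) x18507) x17859) x18075) x18003) x18039) x18015) x18027) x18019) (Nat.mul x18021 (nat_lit 2)))
    (Nat.sub (Nat.add (Nat.add (Nat.add (Nat.add (Nat.add (Nat.add (Nat.add C x31149) x16569) x18513) x17865) x18081) x18045) x18021) (Nat.mul x18027 (nat_lit 2)))
    (Nat.sub (Nat.add (Nat.add (Nat.add (Nat.add (Nat.add (Nat.add (Nat.add (Nat.add C x31159) x16579) x18523) x17875) x18091) x18019) x18039) x37719) (Nat.mul x18037 (nat_lit 4)))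
    (Nat.sub (Nat.add (Nat.add (Nat.add (Nat.add (Nat.add (Nat.add (Nat.add (Nat.add C x31161) x16581) x18525) x17877) x18093) x18021) x18045) x18037) (Nat.mul x18039 (nat_lit 4)))
    (Nat.sub (Nat.add (Nat.add (Nat.add (Nat.add (Nat.add (Nat.add (Nat.add C x31167) x16587) x18531) x17883) x18099) x18027) x18039) (Nat.mul x18045 (nat_lit 2)))
    (Nat.sub (Nat.add (Nat.add (Nat.add (Nat.add (Nat.add (Nat.add (Nat.add C x31187) x16607) x18551) x17903) x18011) x18067) x37747) (Nat.mul x18065 (nat_lit 2)))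
    (Nat.sub (Nat.add (Nat.add (Nat.add (Nat.add (Nat.add (Nat.add (Nat.add (Nat.add (Nat.add C x31189) x16609) x18553) x17905) x18013) x18073) x18065) x18069) x37749) x18067)
    (Nat.sub (Nat.add (Nat.add (Nat.add (Nat.add (Nat.add (Nat.add (Nat.add C x31191) x16611) x18555) x17907) x18015) x18075) x18067) (Nat.mul x18069 (nat_lit 2)))
    (Nat.sub (Nat.add (Nat.add (Nat.add (Nat.add (Nat.add (Nat.add (Nat.add (Nat.add (Nat.add C x31195) x16615) x18559) x17911) x18019) x18091) x18067) x18075) x37755) (Nat.mul x18073 (nat_lit 2)))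
    (Nat.sub (Nat.add (Nat.add (Nat.add (Nat.add (Nat.add (Nat.add (Nat.add (Nat.add (Nat.add C x31197) x16617) x18561) x17913) x18021) x18093) x18069) x18081) x18073) x18075)
    (Nat.sub (Nat.add (Nat.add (Nat.add (Nat.add (Nat.add (Nat.add (Nat.add C x31203) x16623) x18567) x17919) x18027) x18099) x18075) (Nat.mul x18081 (nat_lit 2)))
    (Nat.sub (Nat.add (Nat.add (Nat.add (Nat.add (Nat.add (Nat.add (Nat.add (Nat.add (Nat.add C x31213) x16633) x18577) x17929) x18037) x18145) x18073) x18093) x37773) x18091)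
    (Nat.sub (Nat.add (Nat.add (Nat.add (Nat.add (Nat.add (Nat.add (Nat.add (Nat.add (Nat.add C x31215) x16635) x18579) x17931) x18039) x18147) x18075) x18099) x18091) x18093)
    (Nat.add (Nat.add (Nat.add (Nat.add (Nat.add (Nat.add (Nat.add (Nat.add (Nat.add C x31221) x16641) x18585) x17937) x18045) x18153) x18081) x18117) x18093)
    (Nat.add (Nat.add (Nat.add (Nat.add (Nat.add (Nat.add C x31239) x16659) x18603) x17955) x18171) x18099)
    (Nat.add (Nat.add (Nat.add (Nat.add (Nat.add (Nat.add C x31267) x16687) x18631) x18091) x18147) x37827)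
    (Nat.add (Nat.add (Nat.add (Nat.add (Nat.add (Nat.add C x31269) x16689) x18633) x18093) x18153) x18145)
    (Nat.add (Nat.add (Nat.add (Nat.add (Nat.add (Nat.add C x31275) x16695) x18639) x18099) x18171) x18147)
    (Nat.add (Nat.add (Nat.add (Nat.add (Nat.add (Nat.add C (Nat.mul x18171 (nat_lit 2))) x31293) x16713) x18657) x18117) x18153)
    (Nat.add (Nat.add (Nat.add (Nat.add (Nat.add (Nat.add C (Nat.mul x18233 (nat_lit 2))) x31355) x16775) x17747) x18239) x37915)
    (Nat.add (Nat.add (Nat.add (Nat.add (Nat.add (Nat.add (Nat.add (Nat.add (Nat.add C x18239) x31361) x16781) x17753) x18257) x18233) x18245) x18241) x37921)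
    (Nat.add (Nat.add (Nat.add (Nat.add (Nat.add (Nat.add (Nat.add (Nat.add C (Nat.mul x18241 (nat_lit 2))) x31363) x16783) x17755) x18259) x18247) x18239) x37923)
    (Nat.sub (Nat.add (Nat.add (Nat.add (Nat.add (Nat.add (Nat.add (Nat.add C x31367) x16787) x17759) x18263) x18239) x18247) x37927) (Nat.mul x18245 (nat_lit 2)))
    (Nat.add (Nat.add (Nat.add (Nat.add (Nat.add (Nat.add (Nat.add (Nat.add (Nat.add C x18247) x31369) x16789) x17761) x18265) x18241) x18245) x18249) x37929)
    (Nat.add (Nat.add (Nat.add (Nat.add (Nat.add (Nat.add C (Nat.mul x18249 (nat_lit 2))) x31371) x16791) x17763) x18267) x18247)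
    (Nat.add (Nat.add (Nat.add (Nat.add (Nat.add (Nat.add (Nat.add (Nat.add C x31379) x16799) x17771) x18311) x18239) x18263) x18259) x37939)
    (Nat.add (Nat.add (Nat.add (Nat.add (Nat.add (Nat.add (Nat.add (Nat.add C x31381) x16801) x17773) x18313) x18241) x18265) x18257) x37941)
    (Nat.sub (Nat.add (Nat.add (Nat.add (Nat.add (Nat.add (Nat.add (Nat.add (Nat.add (Nat.add C x31385) x16805) x17777) x18317) x18245) x18281) x18257) x18265) x37945) x18263)
    (Nat.add (Nat.add (Nat.add (Nat.add (Nat.add (Nat.add (Nat.add (Nat.add (Nat.add (Nat.add (Nat.add (Nat.add C x18265) x31387) x16807) x17779) x18319) x18247) x18283) x18259) x18271) x18263) x18267) x37947)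
    (Nat.add (Nat.add (Nat.add (Nat.add (Nat.add (Nat.add (Nat.add (Nat.add (Nat.add C x18267) x31389) x16809) x17781) x18321) x18249) x18285) x18273) x18265)
    (Nat.add (Nat.add (Nat.add (Nat.add (Nat.add (Nat.add (Nat.add (Nat.add C x31393) x16813) x17785) x18325) x18289) x18265) x18273) x37953)
    (Nat.add (Nat.add (Nat.add (Nat.add (Nat.add (Nat.add (Nat.add (Nat.add C (Nat.mul x18273 (nat_lit 2))) x31395) x16815) x17787) x18327) x18291) x18267) x18271)
    (Nat.sub (Nat.add (Nat.add (Nat.add (Nat.add (Nat.add (Nat.add (Nat.add C x31403) x16823) x17795) x18335) x18263) x18283) x37963) (Nat.mul x18281 (nat_lit 2)))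
    (Nat.sub (Nat.add (Nat.add (Nat.add (Nat.add (Nat.add (Nat.add (Nat.add (Nat.add (Nat.add C x31405) x16825) x17797) x18337) x18265) x18289) x18281) x18285) x37965) x18283)
    (Nat.sub (Nat.add (Nat.add (Nat.add (Nat.add (Nat.add (Nat.add (Nat.add C x31407) x16827) x17799) x18339) x18267) x18291) x18283) (Nat.mul x18285 (nat_lit 2)))
    (Nat.add (Nat.add (Nat.add (Nat.add (Nat.add (Nat.add (Nat.add (Nat.add C x31411) x16831) x17803) x18343) x18271) x18283) x18291) x37971)
    (Nat.add (Nat.add (Nat.add (Nat.add (Nat.add (Nat.add (Nat.add (Nat.add (Nat.add C x18291) x31413) x16833) x17805) x18345) x18273) x18285) x18297) x18289)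
    (Nat.add (Nat.add (Nat.add (Nat.add (Nat.add (Nat.add C (Nat.mul x18297 (nat_lit 2))) x31419) x16839) x17811) x18351) x18291)
    (Nat.add (Nat.add (Nat.add (Nat.add (Nat.add (Nat.add (Nat.add (Nat.add C x31433) x16853) x17825) x18473) x18257) x18317) x18313) x37993)
    (Nat.add (Nat.add (Nat.add (Nat.add (Nat.add (Nat.add (Nat.add (Nat.add C x31435) x16855) x17827) x18475) x18259) x18319) x18311) x37995)
    (Nat.sub (Nat.add (Nat.add (Nat.add (Nat.add (Nat.add (Nat.add (Nat.add (Nat.add (Nat.add C x31439) x16859) x17831) x18479) x18263) x18335) x18311) x18319) x37999) (Nat.mul x18317 (nat_lit 2)))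
    (Nat.add (Nat.add (Nat.add (Nat.add (Nat.add (Nat.add (Nat.add (Nat.add (Nat.add (Nat.add (Nat.add C x31441) x16861) x17833) x18481) x18265) x18337) x18313) x18325) x18317) x18321) x38001)
    (Nat.add (Nat.add (Nat.add (Nat.add (Nat.add (Nat.add (Nat.add (Nat.add C x31443) x16863) x17835) x18483) x18267) x18339) x18327) x18319)
    (Nat.sub (Nat.add (Nat.add (Nat.add (Nat.add (Nat.add (Nat.add (Nat.add (Nat.add (Nat.add C x31447) x16867) x17839) x18487) x18271) x18343) x18319) x18327) x38007) (Nat.mul x18325 (nat_lit 2)))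
    (Nat.add (Nat.add (Nat.add (Nat.add (Nat.add (Nat.add (Nat.add (Nat.add C x31449) x16869) x17841) x18489) x18273) x18345) x18321) x18325)
    (Nat.sub (Nat.add (Nat.add (Nat.add (Nat.add (Nat.add (Nat.add (Nat.add (Nat.add (Nat.add C x31457) x16877) x17849) x18497) x18281) x18389) x18317) x18337) x38017) x18335)
    (Nat.add (Nat.add (Nat.add (Nat.add (Nat.add (Nat.add (Nat.add (Nat.add (Nat.add (Nat.add (Nat.add C x31459) x16879) x17851) x18499) x18283) x18391) x18319) x18343) x18335) x18339) x38019)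
    (Nat.sub (Nat.add (Nat.add (Nat.add (Nat.add (Nat.add (Nat.add (Nat.add (Nat.add (Nat.add C x31461) x16881) x17853) x18501) x18285) x18393) x18321) x18345) x18337) x18339)
    (Nat.add (Nat.add (Nat.add (Nat.add (Nat.add (Nat.add (Nat.add (Nat.add (Nat.add (Nat.add (Nat.add C x31465) x16885) x17857) x18505) x18289) x18397) x18325) x18361) x18337) x18345) x38025)
    (Nat.add (Nat.add (Nat.add (Nat.add (Nat.add (Nat.add (Nat.add (Nat.add (Nat.add (Nat.add (Nat.add (Nat.add C x18345) x31467) x16887) x17859) x18507) x18291) x18399) x18327) x18363) x18339) x18351) x18343)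
    (Nat.add (Nat.add (Nat.add (Nat.add (Nat.add (Nat.add (Nat.add (Nat.add (Nat.add C x18351) x31473) x16893) x17865) x18513) x18297) x18405) x18369) x18345)
    (Nat.add (Nat.add (Nat.add (Nat.add (Nat.add (Nat.add (Nat.add (Nat.add C x31483) x16903) x17875) x18523) x18415) x18343) x18363) x38043)
    (Nat.add (Nat.add (Nat.add (Nat.add (Nat.add (Nat.add (Nat.add (Nat.add C x31485) x16905) x17877) x18525) x18417) x18345) x18369) x18361)
    (Nat.add (Nat.add (Nat.add (Nat.add (Nat.add (Nat.add (Nat.add (Nat.add C (Nat.mul x18369 (nat_lit 2))) x31491) x16911) x17883) x18531) x18423) x18351) x18363)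
    (Nat.sub (Nat.add (Nat.add (Nat.add (Nat.add (Nat.add (Nat.add (Nat.add C x31511) x16931) x17903) x18551) x18335) x18391) x38071) (Nat.mul x18389 (nat_lit 2)))
    (Nat.sub (Nat.add (Nat.add (Nat.add (Nat.add (Nat.add (Nat.add (Nat.add (Nat.add (Nat.add C x31513) x16933) x17905) x18553) x18337) x18397) x18389) x18393) x38073) x18391)
    (Nat.sub (Nat.add (Nat.add (Nat.add (Nat.add (Nat.add (Nat.add (Nat.add C x31515) x16935) x17907) x18555) x18339) x18399) x18391) (Nat.mul x18393 (nat_lit 2)))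
    (Nat.sub (Nat.add (Nat.add (Nat.add (Nat.add (Nat.add (Nat.add (Nat.add (Nat.add (Nat.add C x31519) x16939) x17911) x18559) x18343) x18415) x18391) x18399) x38079) (Nat.mul x18397 (nat_lit 2)))
    (Nat.sub (Nat.add (Nat.add (Nat.add (Nat.add (Nat.add (Nat.add (Nat.add (Nat.add (Nat.add C x31521) x16941) x17913) x18561) x18345) x18417) x18393) x18405) x18397) x18399)
    (Nat.sub (Nat.add (Nat.add (Nat.add (Nat.add (Nat.add (Nat.add (Nat.add C x31527) x16947) x17919) x18567) x18351) x18423) x18399) (Nat.mul x18405 (nat_lit 2)))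
    (Nat.add (Nat.add (Nat.add (Nat.add (Nat.add (Nat.add (Nat.add (Nat.add C x31537) x16957) x17929) x18577) x18361) x18397) x18417) x38097)
    (Nat.add (Nat.add (Nat.add (Nat.add (Nat.add (Nat.add (Nat.add (Nat.add C x31539) x16959) x17931) x18579) x18363) x18399) x18423) x18415)
    (Nat.add (Nat.add (Nat.add (Nat.add (Nat.add (Nat.add (Nat.add (Nat.add (Nat.add C x18423) x31545) x16965) x17937) x18585) x18369) x18405) x18441) x18417)
    (Nat.add (Nat.add (Nat.add (Nat.add (Nat.add (Nat.add C (Nat.mul x18441 (nat_lit 2))) x31563) x16983) x17955) x18603) x18423)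
    (Nat.add (Nat.add (Nat.add (Nat.add (Nat.add (Nat.add (Nat.add (Nat.add (Nat.add C x18473) x31595) x17015) x17987) x18959) x18311) x18479) x18475) x38155)
    (Nat.add (Nat.add (Nat.add (Nat.add (Nat.add (Nat.add (Nat.add (Nat.add (Nat.add C x18475) x31597) x17017) x17989) x18961) x18313) x18481) x18473) x38157)
    (Nat.sub (Nat.add (Nat.add (Nat.add (Nat.add (Nat.add (Nat.add (Nat.add (Nat.add (Nat.add C x31601) x17021) x17993) x18965) x18317) x18497) x18473) x18481) x38161) x18479)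
    (Nat.add (Nat.add (Nat.add (Nat.add (Nat.add (Nat.add (Nat.add (Nat.add (Nat.add (Nat.add (Nat.add (Nat.add C x18481) x31603) x17023) x17995) x18967) x18319) x18499) x18475) x18487) x18479) x18483) x38163)
    (Nat.add (Nat.add (Nat.add (Nat.add (Nat.add (Nat.add (Nat.add (Nat.add (Nat.add C x18483) x31605) x17025) x17997) x18969) x18321) x18501) x18489) x18481)
    (Nat.sub (Nat.add (Nat.add (Nat.add (Nat.add (Nat.add (Nat.add (Nat.add (Nat.add (Nat.add C x31609) x17029) x18001) x18973) x18325) x18505) x18481) x18489) x38169) x18487)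
    (Nat.add (Nat.add (Nat.add (Nat.add (Nat.add (Nat.add (Nat.add (Nat.add (Nat.add C x18489) x31611) x17031) x18003) x18975) x18327) x18507) x18483) x18487)
    (Nat.sub (Nat.add (Nat.add (Nat.add (Nat.add (Nat.add (Nat.add (Nat.add (Nat.add (Nat.add C x31619) x17039) x18011) x18983) x18335) x18551) x18479) x18499) x38179) x18497)
    (Nat.add (Nat.add (Nat.add (Nat.add (Nat.add (Nat.add (Nat.add (Nat.add (Nat.add (Nat.add (Nat.add C x31621) x17041) x18013) x18985) x18337) x18553) x18481) x18505) x18497) x18501) x38181)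
    (Nat.sub (Nat.add (Nat.add (Nat.add (Nat.add (Nat.add (Nat.add (Nat.add (Nat.add (Nat.add C x31623) x17043) x18015) x18987) x18339) x18555) x18483) x18507) x18499) x18501)
    (Nat.add (Nat.add (Nat.add (Nat.add (Nat.add (Nat.add (Nat.add (Nat.add (Nat.add (Nat.add (Nat.add C x31627) x17047) x18019) x18991) x18343) x18559) x18487) x18523) x18499) x18507) x38187)
    (Nat.add (Nat.add (Nat.add (Nat.add (Nat.add (Nat.add (Nat.add (Nat.add (Nat.add (Nat.add (Nat.add (Nat.add C x18507) x31629) x17049) x18021) x18993) x18345) x18561) x18489) x18525) x18501) x18513) x18505)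
    (Nat.add (Nat.add (Nat.add (Nat.add (Nat.add (Nat.add (Nat.add (Nat.add (Nat.add C x18513) x31635) x17055) x18027) x18999) x18351) x18567) x18531) x18507)
    (Nat.sub (Nat.add (Nat.add (Nat.add (Nat.add (Nat.add (Nat.add (Nat.add (Nat.add (Nat.add C x31645) x17065) x18037) x19009) x18361) x18577) x18505) x18525) x38205) x18523)
    (Nat.sub (Nat.add (Nat.add (Nat.add (Nat.add (Nat.add (Nat.add (Nat.add (Nat.add (Nat.add C x31647) x17067) x18039) x19011) x18363) x18579) x18507) x18531) x18523) x18525)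
    (Nat.add (Nat.add (Nat.add (Nat.add (Nat.add (Nat.add (Nat.add (Nat.add (Nat.add C x18531) x31653) x17073) x18045) x19017) x18369) x18585) x18513) x18525)
    (Nat.add (Nat.add (Nat.add (Nat.add (Nat.add (Nat.add (Nat.add (Nat.add (Nat.add C x31673) x17093) x18065) x19037) x18389) x18713) x18497) x18553) x38233)
    (Nat.add (Nat.add (Nat.add (Nat.add (Nat.add (Nat.add (Nat.add (Nat.add (Nat.add (Nat.add (Nat.add (Nat.add C x18553) x31675) x17095) x18067) x19039) x18391) x18715) x18499) x18559) x18551) x18555) x38235)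
    (Nat.add (Nat.add (Nat.add (Nat.add (Nat.add (Nat.add (Nat.add (Nat.add (Nat.add C x31677) x17097) x18069) x19041) x18393) x18717) x18501) x18561) x18553)
    (Nat.add (Nat.add (Nat.add (Nat.add (Nat.add (Nat.add (Nat.add (Nat.add (Nat.add (Nat.add (Nat.add C x31681) x17101) x18073) x19045) x18397) x18721) x18505) x18577) x18553) x18561) x38241)
    (Nat.add (Nat.add (Nat.add (Nat.add (Nat.add (Nat.add (Nat.add (Nat.add (Nat.add (Nat.add (Nat.add (Nat.add C x18561) x31683) x17103) x18075) x19047) x18399) x18723) x18507) x18579) x18555) x18567) x18559)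
    (Nat.add (Nat.add (Nat.add (Nat.add (Nat.add (Nat.add (Nat.add (Nat.add (Nat.add C x31689) x17109) x18081) x19053) x18405) x18729) x18513) x18585) x18561)
    (Nat.add (Nat.add (Nat.add (Nat.add (Nat.add (Nat.add (Nat.add (Nat.add (Nat.add (Nat.add (Nat.add (Nat.add C x18577) x31699) x17119) x18091) x19063) x18415) x18739) x18523) x18631) x18559) x18579) x38259)
    (Nat.add (Nat.add (Nat.add (Nat.add (Nat.add (Nat.add (Nat.add (Nat.add (Nat.add (Nat.add (Nat.add (Nat.add C x18579) x31701) x17121) x18093) x19065) x18417) x18741) x18525) x18633) x18561) x18585) x18577)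
    (Nat.add (Nat.add (Nat.add (Nat.add (Nat.add (Nat.add (Nat.add (Nat.add (Nat.add (Nat.add (Nat.add (Nat.add C (Nat.mul x18585 (nat_lit 2))) x31707) x17127) x18099) x19071) x18423) x18747) x18531) x18639) x18567) x18603) x18579)
    (Nat.add (Nat.add (Nat.add (Nat.add (Nat.add (Nat.add (Nat.add (Nat.add (Nat.add C (Nat.mul x18603 (nat_lit 2))) x31725) x17145) x18117) x19089) x18441) x18765) x18657) x18585)
    (Nat.add (Nat.add (Nat.add (Nat.add (Nat.add (Nat.add (Nat.add (Nat.add (Nat.add C x18631) x31753) x17173) x18145) x19117) x18793) x18577) x18633) x38313)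
    (Nat.add (Nat.add (Nat.add (Nat.add (Nat.add (Nat.add (Nat.add (Nat.add (Nat.add C x18633) x31755) x17175) x18147) x19119) x18795) x18579) x18639) x18631)
    (Nat.add (Nat.add (Nat.add (Nat.add (Nat.add (Nat.add (Nat.add (Nat.add (Nat.add C x18639) x31761) x17181) x18153) x19125) x18801) x18585) x18657) x18633)
    (Nat.add (Nat.add (Nat.add (Nat.add (Nat.add (Nat.add (Nat.add (Nat.add C (Nat.mul x18657 (nat_lit 3))) x31779) x17199) x18171) x19143) x18819) x18603) x18639)
    (Nat.add (Nat.add (Nat.add (Nat.add (Nat.add (Nat.add C x31835) x17255) x19199) x18551) x18715) x38395)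
    (Nat.add (Nat.add (Nat.add (Nat.add (Nat.add (Nat.add (Nat.add (Nat.add (Nat.add C x18715) x31837) x17257) x19201) x18553) x18721) x18713) x18717) x38397)
    (Nat.add (Nat.add (Nat.add (Nat.add (Nat.add (Nat.add C x31839) x17259) x19203) x18555) x18723) x18715)
    (Nat.add (Nat.add (Nat.add (Nat.add (Nat.add (Nat.add (Nat.add (Nat.add C x31843) x17263) x19207) x18559) x18739) x18715) x18723) x38403)
    (Nat.add (Nat.add (Nat.add (Nat.add (Nat.add (Nat.add (Nat.add (Nat.add (Nat.add C x18723) x31845) x17265) x19209) x18561) x18741) x18717) x18729) x18721)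
    (Nat.add (Nat.add (Nat.add (Nat.add (Nat.add (Nat.add C x31851) x17271) x19215) x18567) x18747) x18723)
    (Nat.add (Nat.add (Nat.add (Nat.add (Nat.add (Nat.add (Nat.add (Nat.add C x31861) x17281) x19225) x18577) x18793) x18721) x18741) x38421)
    (Nat.add (Nat.add (Nat.add (Nat.add (Nat.add (Nat.add (Nat.add (Nat.add C x31863) x17283) x19227) x18579) x18795) x18723) x18747) x18739)
    (Nat.add (Nat.add (Nat.add (Nat.add (Nat.add (Nat.add (Nat.add (Nat.add (Nat.add C x18747) x31869) x17289) x19233) x18585) x18801) x18729) x18765) x18741)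
    (Nat.add (Nat.add (Nat.add (Nat.add (Nat.add (Nat.add C x31887) x17307) x19251) x18603) x18819) x18747)
    (Nat.add (Nat.add (Nat.add (Nat.add (Nat.add (Nat.add (Nat.add (Nat.add C (Nat.mul x18793 (nat_lit 2))) x31915) x17335) x19279) x18631) x18739) x18795) x38475)
    (Nat.add (Nat.add (Nat.add (Nat.add (Nat.add (Nat.add (Nat.add (Nat.add C (Nat.mul x18795 (nat_lit 2))) x31917) x17337) x19281) x18633) x18741) x18801) x18793)
    (Nat.add (Nat.add (Nat.add (Nat.add (Nat.add (Nat.add (Nat.add (Nat.add C (Nat.mul x18801 (nat_lit 2))) x31923) x17343) x19287) x18639) x18747) x18819) x18795)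
    (Nat.add (Nat.add (Nat.add (Nat.add (Nat.add (Nat.add (Nat.add (Nat.add C (Nat.mul x18819 (nat_lit 3))) x31941) x17361) x19305) x18657) x18765) x18873) x18801)
    (Nat.add (Nat.add (Nat.add (Nat.add (Nat.add C (Nat.mul x18873 (nat_lit 4))) x31995) x17415) x19359) x18819)
    (Nat.add (Nat.add (Nat.add (Nat.add (Nat.add (Nat.add C (Nat.mul x18959 (nat_lit 2))) x32081) x18473) x18965) x18961) x38641)
    (Nat.add (Nat.add (Nat.add (Nat.add (Nat.add (Nat.add C (Nat.mul x18961 (nat_lit 2))) x32083) x18475) x18967) x18959) x38643)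
    (Nat.add (Nat.add (Nat.add (Nat.add (Nat.add (Nat.add C x32087) x18479) x18983) x18959) x18967) x38647)
    (Nat.add (Nat.add (Nat.add (Nat.add (Nat.add (Nat.add (Nat.add (Nat.add (Nat.add C (Nat.mul x18967 (nat_lit 2))) x32089) x18481) x18985) x18961) x18973) x18965) x18969) x38649)
    (Nat.add (Nat.add (Nat.add (Nat.add (Nat.add (Nat.add C (Nat.mul x18969 (nat_lit 2))) x32091) x18483) x18987) x18975) x18967)
    (Nat.add (Nat.add (Nat.add (Nat.add (Nat.add (Nat.add C x32095) x18487) x18991) x18967) x18975) x38655)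
    (Nat.add (Nat.add (Nat.add (Nat.add (Nat.add (Nat.add C (Nat.mul x18975 (nat_lit 2))) x32097) x18489) x18993) x18969) x18973)
    (Nat.add (Nat.add (Nat.add (Nat.add (Nat.add (Nat.add C x32105) x18497) x19037) x18965) x18985) x38665)
    (Nat.add (Nat.add (Nat.add (Nat.add (Nat.add (Nat.add (Nat.add (Nat.add (Nat.add C x18985) x32107) x18499) x19039) x18967) x18991) x18983) x18987) x38667)
    (Nat.add (Nat.add (Nat.add (Nat.add (Nat.add (Nat.add C x32109) x18501) x19041) x18969) x18993) x18985)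
    (Nat.add (Nat.add (Nat.add (Nat.add (Nat.add (Nat.add (Nat.add (Nat.add (Nat.add C x18991) x32113) x18505) x19045) x18973) x19009) x18985) x18993) x38673)
    (Nat.add (Nat.add (Nat.add (Nat.add (Nat.add (Nat.add (Nat.add (Nat.add (Nat.add C (Nat.mul x18993 (nat_lit 2))) x32115) x18507) x19047) x18975) x19011) x18987) x18999) x18991)
    (Nat.add (Nat.add (Nat.add (Nat.add (Nat.add (Nat.add C (Nat.mul x18999 (nat_lit 2))) x32121) x18513) x19053) x19017) x18993)
    (Nat.add (Nat.add (Nat.add (Nat.add (Nat.add (Nat.add C x32131) x18523) x19063) x18991) x19011) x38691)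
    (Nat.add (Nat.add (Nat.add (Nat.add (Nat.add (Nat.add C x32133) x18525) x19065) x18993) x19017) x19009)
    (Nat.add (Nat.add (Nat.add (Nat.add (Nat.add (Nat.add C (Nat.mul x19017 (nat_lit 2))) x32139) x18531) x19071) x18999) x19011)
    (Nat.add (Nat.add (Nat.add (Nat.add (Nat.add (Nat.add C x32159) x18551) x19199) x18983) x19039) x38719)
    (Nat.add (Nat.add (Nat.add (Nat.add (Nat.add (Nat.add (Nat.add (Nat.add (Nat.add C x19039) x32161) x18553) x19201) x18985) x19045) x19037) x19041) x38721)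
    (Nat.add (Nat.add (Nat.add (Nat.add (Nat.add (Nat.add C x32163) x18555) x19203) x18987) x19047) x19039)
    (Nat.add (Nat.add (Nat.add (Nat.add (Nat.add (Nat.add (Nat.add (Nat.add C x32167) x18559) x19207) x18991) x19063) x19039) x19047) x38727)
    (Nat.add (Nat.add (Nat.add (Nat.add (Nat.add (Nat.add (Nat.add (Nat.add (Nat.add C x19047) x32169) x18561) x19209) x18993) x19065) x19041) x19053) x19045)
    (Nat.add (Nat.add (Nat.add (Nat.add (Nat.add (Nat.add C x32175) x18567) x19215) x18999) x19071) x19047)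
    (Nat.add (Nat.add (Nat.add (Nat.add (Nat.add (Nat.add (Nat.add (Nat.add (Nat.add C x19063) x32185) x18577) x19225) x19009) x19117) x19045) x19065) x38745)
    (Nat.add (Nat.add (Nat.add (Nat.add (Nat.add (Nat.add (Nat.add (Nat.add (Nat.add C x19065) x32187) x18579) x19227) x19011) x19119) x19047) x19071) x19063)
    (Nat.add (Nat.add (Nat.add (Nat.add (Nat.add (Nat.add (Nat.add (Nat.add (Nat.add C (Nat.mul x19071 (nat_lit 2))) x32193) x18585) x19233) x19017) x19125) x19053) x19089) x19065)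
    (Nat.add (Nat.add (Nat.add (Nat.add (Nat.add (Nat.add C (Nat.mul x19089 (nat_lit 2))) x32211) x18603) x19251) x19143) x19071)
    (Nat.add (Nat.add (Nat.add (Nat.add (Nat.add (Nat.add C x32239) x18631) x19279) x19063) x19119) x38799)
    (Nat.add (Nat.add (Nat.add (Nat.add (Nat.add (Nat.add C x32241) x18633) x19281) x19065) x19125) x19117)
    (Nat.add (Nat.add (Nat.add (Nat.add (Nat.add (Nat.add C x32247) x18639) x19287) x19071) x19143) x19119)
    (Nat.add (Nat.add (Nat.add (Nat.add (Nat.add (Nat.add C (Nat.mul x19143 (nat_lit 2))) x32265) x18657) x19305) x19089) x19125)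
    (Nat.add (Nat.add (Nat.add (Nat.add (Nat.add (Nat.add C (Nat.mul x19199 (nat_lit 2))) x32321) x18713) x19037) x19201) x38881)
    (Nat.add (Nat.add (Nat.add (Nat.add (Nat.add (Nat.add (Nat.add (Nat.add C (Nat.mul x19201 (nat_lit 3))) x32323) x18715) x19039) x19207) x19199) x19203) x38883)
    (Nat.add (Nat.add (Nat.add (Nat.add (Nat.add (Nat.add C (Nat.mul x19203 (nat_lit 2))) x32325) x18717) x19041) x19209) x19201)
    (Nat.add (Nat.add (Nat.add (Nat.add (Nat.add (Nat.add (Nat.add (Nat.add C (Nat.mul x19207 (nat_lit 2))) x32329) x18721) x19045) x19225) x19201) x19209) x38889)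
    (Nat.add (Nat.add (Nat.add (Nat.add (Nat.add (Nat.add (Nat.add (Nat.add C (Nat.mul x19209 (nat_lit 3))) x32331) x18723) x19047) x19227) x19203) x19215) x19207)
    (Nat.add (Nat.add (Nat.add (Nat.add (Nat.add (Nat.add C (Nat.mul x19215 (nat_lit 2))) x32337) x18729) x19053) x19233) x19209)
    (Nat.add (Nat.add (Nat.add (Nat.add (Nat.add (Nat.add (Nat.add (Nat.add C (Nat.mul x19225 (nat_lit 2))) x32347) x18739) x19063) x19279) x19207) x19227) x38907)
    (Nat.add (Nat.add (Nat.add (Nat.add (Nat.add (Nat.add (Nat.add (Nat.add C (Nat.mul x19227 (nat_lit 2))) x32349) x18741) x19065) x19281) x19209) x19233) x19225)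
    (Nat.add (Nat.add (Nat.add (Nat.add (Nat.add (Nat.add (Nat.add (Nat.add C (Nat.mul x19233 (nat_lit 3))) x32355) x18747) x19071) x19287) x19215) x19251) x19227)
    (Nat.add (Nat.add (Nat.add (Nat.add (Nat.add (Nat.add C (Nat.mul x19251 (nat_lit 2))) x32373) x18765) x19089) x19305) x19233)
    (Nat.add (Nat.add (Nat.add (Nat.add (Nat.add (Nat.add (Nat.add (Nat.add C (Nat.mul x19279 (nat_lit 3))) x32401) x18793) x19117) x19441) x19225) x19281) x38961)
    (Nat.add (Nat.add (Nat.add (Nat.add (Nat.add (Nat.add (Nat.add (Nat.add C (Nat.mul x19281 (nat_lit 3))) x32403) x18795) x19119) x19443) x19227) x19287) x19279)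
    (Nat.add (Nat.add (Nat.add (Nat.add (Nat.add (Nat.add (Nat.add (Nat.add C (Nat.mul x19287 (nat_lit 3))) x32409) x18801) x19125) x19449) x19233) x19305) x19281)
    (Nat.add (Nat.add (Nat.add (Nat.add (Nat.add (Nat.add (Nat.add (Nat.add C (Nat.mul x19305 (nat_lit 4))) x32427) x18819) x19143) x19467) x19251) x19359) x19287)
    (Nat.add (Nat.add (Nat.add (Nat.add (Nat.add C (Nat.mul x19359 (nat_lit 4))) x32481) x18873) x19521) x19305)
    (Nat.add (Nat.add (Nat.add (Nat.add (Nat.add C (Nat.mul x19441 (nat_lit 4))) x32563) x19279) x19443) x39123)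
    (Nat.add (Nat.add (Nat.add (Nat.add (Nat.add C (Nat.mul x19443 (nat_lit 4))) x32565) x19281) x19449) x19441)
    (Nat.add (Nat.add (Nat.add (Nat.add (Nat.add C (Nat.mul x19449 (nat_lit 4))) x32571) x19287) x19467) x19443)
    (Nat.add (Nat.add (Nat.add (Nat.add (Nat.add C (Nat.mul x19467 (nat_lit 4))) x32589) x19305) x19521) x19449)
    (Nat.add (Nat.add (Nat.add (Nat.add C (Nat.mul x19521 (nat_lit 6))) x32643) x19359) x19467)
    (Nat.add (Nat.add (Nat.add (Nat.add C (Nat.mul x19763 (nat_lit 6))) x6641) x19817) x39445)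
    (Nat.add (Nat.add (Nat.add (Nat.add (Nat.add (Nat.add (Nat.add C (Nat.mul x19817 (nat_lit 5))) x6695) x19979) x19763) x19871) x19835) x39499)
    (Nat.add (Nat.add (Nat.add (Nat.add (Nat.add (Nat.add (Nat.add C (Nat.mul x19835 (nat_lit 4))) x6713) x19997) x19889) x19817) x19841) x39517)
    (Nat.add (Nat.add (Nat.add (Nat.add (Nat.add (Nat.add (Nat.add C (Nat.mul x19841 (nat_lit 4))) x6719) x20003) x19895) x19835) x19843) x39523)
    (Nat.add (Nat.add (Nat.add (Nat.add (Nat.add (Nat.add (Nat.add C (Nat.mul x19843 (nat_lit 5))) x6721) x20005) x19897) x19841) x39525) x161)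
    (Nat.add (Nat.add (Nat.add (Nat.add (Nat.add (Nat.add C (Nat.mul x19871 (nat_lit 2))) x6749) x20033) x19817) x19889) x39553)
    (Nat.add (Nat.add (Nat.add (Nat.add (Nat.add (Nat.add (Nat.add (Nat.add C (Nat.mul x19889 (nat_lit 3))) x6767) x20051) x19835) x19871) x19907) x19895) x39571)
    (Nat.add (Nat.add (Nat.add (Nat.add (Nat.add (Nat.add (Nat.add (Nat.add C (Nat.mul x19895 (nat_lit 2))) x6773) x20057) x19841) x19913) x19889) x19897) x39577)
    (Nat.add (Nat.add (Nat.add (Nat.add (Nat.add (Nat.add (Nat.add (Nat.add C (Nat.mul x19897 (nat_lit 3))) x6775) x20059) x19843) x19915) x19895) x39579) x215)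
    (Nat.add (Nat.add (Nat.add (Nat.add (Nat.add (Nat.add C (Nat.mul x19907 (nat_lit 2))) x6785) x20069) x19889) x19913) x39589)
    (Nat.add (Nat.add (Nat.add (Nat.add (Nat.add (Nat.add (Nat.add (Nat.add C (Nat.mul x19913 (nat_lit 3))) x6791) x20075) x19895) x19907) x19919) x19915) x39595)
    (Nat.add (Nat.add (Nat.add (Nat.add (Nat.add (Nat.add (Nat.add (Nat.add C (Nat.mul x19915 (nat_lit 3))) x6793) x20077) x19897) x19921) x19913) x39597) x233)
    (Nat.add (Nat.add (Nat.add (Nat.add (Nat.add (Nat.add C (Nat.mul x19919 (nat_lit 2))) x6797) x20081) x19913) x19921) x39601)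
    (Nat.add (Nat.add (Nat.add (Nat.add (Nat.add (Nat.add (Nat.add (Nat.add C (Nat.mul x19921 (nat_lit 4))) x6799) x20083) x19915) x19919) x19923) x39603) x239)
    (Nat.add (Nat.add (Nat.add (Nat.add (Nat.add C (Nat.mul x19923 (nat_lit 4))) x6801) x20085) x19921) x241)
    (Nat.add (Nat.add (Nat.add (Nat.add (Nat.add (Nat.add (Nat.add C (Nat.mul x19979 (nat_lit 4))) x6857) x20465) x19817) x20033) x19997) x39661)
    (Nat.add (Nat.add (Nat.add (Nat.add (Nat.add (Nat.add (Nat.add (Nat.add C (Nat.mul x19997 (nat_lit 2))) x6875) x20483) x19835) x20051) x19979) x20003) x39679)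
    (Nat.add (Nat.add (Nat.add (Nat.add (Nat.add (Nat.add (Nat.add (Nat.add C (Nat.mul x20003 (nat_lit 2))) x6881) x20489) x19841) x20057) x19997) x20005) x39685)
    (Nat.add (Nat.add (Nat.add (Nat.add (Nat.add (Nat.add (Nat.add (Nat.add C (Nat.mul x20005 (nat_lit 3))) x6883) x20491) x19843) x20059) x20003) x39687) x323)
    (Nat.add (Nat.add (Nat.add (Nat.add (Nat.add (Nat.add (Nat.add (Nat.add C (Nat.mul x20033 (nat_lit 3))) x6911) x20519) x19871) x20195) x19979) x20051) x39715)
    (Nat.add (Nat.add (Nat.add (Nat.add (Nat.add (Nat.add (Nat.add (Nat.add (Nat.add (Nat.add (Nat.add C (Nat.mul x20051 (nat_lit 3))) x6929) x20537) x19889) x20213) x19997) x20105) x20033) x20069) x20057) x39733)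
    (Nat.add (Nat.add (Nat.add (Nat.add (Nat.add (Nat.add (Nat.add (Nat.add (Nat.add (Nat.add (Nat.add C (Nat.mul x20057 (nat_lit 2))) x6935) x20543) x19895) x20219) x20003) x20111) x20075) x20051) x20059) x39739)
    (Nat.add (Nat.add (Nat.add (Nat.add (Nat.add (Nat.add (Nat.add (Nat.add (Nat.add (Nat.add (Nat.add C (Nat.mul x20059 (nat_lit 3))) x6937) x20545) x19897) x20221) x20005) x20113) x20077) x20057) x39741) x377)
    (Nat.add (Nat.add (Nat.add (Nat.add (Nat.add (Nat.add (Nat.add (Nat.add (Nat.add C x20069) x6947) x20555) x19907) x20231) x20123) x20051) x20075) x39751)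
    (Nat.add (Nat.add (Nat.add (Nat.add (Nat.add (Nat.add (Nat.add (Nat.add (Nat.add (Nat.add (Nat.add C (Nat.mul x20075 (nat_lit 2))) x6953) x20561) x19913) x20237) x20129) x20057) x20069) x20081) x20077) x39757)
    (Nat.add (Nat.add (Nat.add (Nat.add (Nat.add (Nat.add (Nat.add (Nat.add (Nat.add (Nat.add (Nat.add C (Nat.mul x20077 (nat_lit 2))) x6955) x20563) x19915) x20239) x20131) x20059) x20083) x20075) x39759) x395)
    (Nat.add (Nat.add (Nat.add (Nat.add (Nat.add (Nat.add (Nat.add (Nat.add (Nat.add C x20081) x6959) x20567) x19919) x20243) x20135) x20075) x20083) x39763)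
    (Nat.add (Nat.add (Nat.add (Nat.add (Nat.add (Nat.add (Nat.add (Nat.add (Nat.add (Nat.add (Nat.add C (Nat.mul x20083 (nat_lit 3))) x6961) x20569) x19921) x20245) x20137) x20077) x20081) x20085) x39765) x401)
    (Nat.add (Nat.add (Nat.add (Nat.add (Nat.add (Nat.add (Nat.add (Nat.add C (Nat.mul x20085 (nat_lit 3))) x6963) x20571) x19923) x20247) x20139) x20083) x403)
    (Nat.add (Nat.add (Nat.add (Nat.add (Nat.add (Nat.add (Nat.add (Nat.add C (Nat.mul x20105 (nat_lit 2))) x6983) x20591) x20267) x20051) x20123) x20111) x39787)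
    (Nat.add (Nat.add (Nat.add (Nat.add (Nat.add (Nat.add (Nat.add (Nat.add C x6989) x20597) x20273) x20057) x20129) x20105) x20113) x39793)
    (Nat.add (Nat.add (Nat.add (Nat.add (Nat.add (Nat.add (Nat.add (Nat.add (Nat.add C x20113) x6991) x20599) x20275) x20059) x20131) x20111) x39795) x431)
    (Nat.add (Nat.add (Nat.add (Nat.add (Nat.add (Nat.add (Nat.add (Nat.add C (Nat.mul x20123 (nat_lit 2))) x7001) x20609) x20285) x20069) x20105) x20129) x39805)
    (Nat.add (Nat.add (Nat.add (Nat.add (Nat.add (Nat.add (Nat.add (Nat.add (Nat.add (Nat.add (Nat.add C (Nat.mul x20129 (nat_lit 2))) x7007) x20615) x20291) x20075) x20111) x20147) x20123) x20135) x20131) x39811)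
    (Nat.add (Nat.add (Nat.add (Nat.add (Nat.add (Nat.add (Nat.add (Nat.add (Nat.add (Nat.add (Nat.add C (Nat.mul x20131 (nat_lit 2))) x7009) x20617) x20293) x20077) x20113) x20149) x20137) x20129) x39813) x449)
    (Nat.add (Nat.add (Nat.add (Nat.add (Nat.add (Nat.add (Nat.add (Nat.add C x7013) x20621) x20297) x20081) x20153) x20129) x20137) x39817)
    (Nat.add (Nat.add (Nat.add (Nat.add (Nat.add (Nat.add (Nat.add (Nat.add (Nat.add (Nat.add (Nat.add C (Nat.mul x20137 (nat_lit 2))) x7015) x20623) x20299) x20083) x20155) x20131) x20135) x20139) x39819) x455)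
    (Nat.add (Nat.add (Nat.add (Nat.add (Nat.add (Nat.add (Nat.add (Nat.add C (Nat.mul x20139 (nat_lit 2))) x7017) x20625) x20301) x20085) x20157) x20137) x457)
    (Nat.add (Nat.add (Nat.add (Nat.add (Nat.add (Nat.add (Nat.add (Nat.add C (Nat.mul x20147 (nat_lit 2))) x7025) x20633) x20309) x20129) x20153) x20149) x39829)
    (Nat.add (Nat.add (Nat.add (Nat.add (Nat.add (Nat.add (Nat.add (Nat.add (Nat.add C x20149) x7027) x20635) x20311) x20131) x20155) x20147) x39831) x467)
    (Nat.add (Nat.add (Nat.add (Nat.add (Nat.add (Nat.add (Nat.add (Nat.add C (Nat.mul x20153 (nat_lit 2))) x7031) x20639) x20315) x20135) x20147) x20155) x39835)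
    (Nat.add (Nat.add (Nat.add (Nat.add (Nat.add (Nat.add (Nat.add (Nat.add (Nat.add (Nat.add (Nat.add C (Nat.mul x20155 (nat_lit 3))) x7033) x20641) x20317) x20137) x20149) x20161) x20153) x20157) x39837) x473)
    (Nat.add (Nat.add (Nat.add (Nat.add (Nat.add (Nat.add (Nat.add (Nat.add C (Nat.mul x20157 (nat_lit 2))) x7035) x20643) x20319) x20139) x20163) x20155) x475)
    (Nat.add (Nat.add (Nat.add (Nat.add (Nat.add (Nat.add (Nat.add (Nat.add C (Nat.mul x20161 (nat_lit 3))) x7039) x20647) x20323) x20155) x20163) x39843) x479)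
    (Nat.add (Nat.add (Nat.add (Nat.add (Nat.add (Nat.add (Nat.add C (Nat.mul x20163 (nat_lit 4))) x7041) x20649) x20325) x20157) x20161) x481)
    (Nat.add (Nat.add (Nat.add (Nat.add (Nat.add (Nat.add C (Nat.mul x20195 (nat_lit 2))) x7073) x20681) x20033) x20213) x39877)
    (Nat.add (Nat.add (Nat.add (Nat.add (Nat.add (Nat.add (Nat.add (Nat.add (Nat.add C x20213) x7091) x20699) x20051) x20267) x20195) x20231) x20219) x39895)
    (Nat.add (Nat.add (Nat.add (Nat.add (Nat.add (Nat.add (Nat.add (Nat.add C x7097) x20705) x20057) x20273) x20237) x20213) x20221) x39901)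
    (Nat.add (Nat.add (Nat.add (Nat.add (Nat.add (Nat.add (Nat.add (Nat.add (Nat.add C x20221) x7099) x20707) x20059) x20275) x20239) x20219) x39903) x539)
    (Nat.sub (Nat.add (Nat.add (Nat.add (Nat.add (Nat.add (Nat.add (Nat.add C x7109) x20717) x20069) x20285) x20213) x20237) x39913) (Nat.mul x20231 (nat_lit 2)))
    (Nat.sub (Nat.add (Nat.add (Nat.add (Nat.add (Nat.add (Nat.add (Nat.add (Nat.add (Nat.add C x7115) x20723) x20075) x20291) x20219) x20231) x20243) x20239) x39919) x20237)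
    (Nat.sub (Nat.add (Nat.add (Nat.add (Nat.add (Nat.add (Nat.add (Nat.add (Nat.add (Nat.add C x7117) x20725) x20077) x20293) x20221) x20245) x20237) x39921) x557) x20239)
    (Nat.sub (Nat.add (Nat.add (Nat.add (Nat.add (Nat.add (Nat.add (Nat.add C x7121) x20729) x20081) x20297) x20237) x20245) x39925) (Nat.mul x20243 (nat_lit 2)))
    (Nat.add (Nat.add (Nat.add (Nat.add (Nat.add (Nat.add (Nat.add (Nat.add (Nat.add C x7123) x20731) x20083) x20299) x20239) x20243) x20247) x39927) x563)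
    (Nat.add (Nat.add (Nat.add (Nat.add (Nat.add (Nat.add C x7125) x20733) x20085) x20301) x20245) x565)
    (Nat.add (Nat.add (Nat.add (Nat.add (Nat.add (Nat.add (Nat.add (Nat.add C (Nat.mul x20267 (nat_lit 2))) x7145) x20753) x20105) x20213) x20285) x20273) x39949)
    (Nat.add (Nat.add (Nat.add (Nat.add (Nat.add (Nat.add (Nat.add (Nat.add C x7151) x20759) x20111) x20219) x20291) x20267) x20275) x39955)
    (Nat.add (Nat.add (Nat.add (Nat.add (Nat.add (Nat.add (Nat.add (Nat.add (Nat.add C x20275) x7153) x20761) x20113) x20221) x20293) x20273) x39957) x593)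
    (Nat.add (Nat.add (Nat.add (Nat.add (Nat.add (Nat.add (Nat.add (Nat.add (Nat.add C x20285) x7163) x20771) x20123) x20231) x20339) x20267) x20291) x39967)
    (Nat.add (Nat.add (Nat.add (Nat.add (Nat.add (Nat.add (Nat.add (Nat.add (Nat.add (Nat.add (Nat.add (Nat.add C x20291) x7169) x20777) x20129) x20237) x20345) x20273) x20309) x20285) x20297) x20293) x39973)
    (Nat.add (Nat.add (Nat.add (Nat.add (Nat.add (Nat.add (Nat.add (Nat.add (Nat.add (Nat.add (Nat.add (Nat.add C x20293) x7171) x20779) x20131) x20239) x20347) x20275) x20311) x20299) x20291) x39975) x611)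
    (Nat.sub (Nat.add (Nat.add (Nat.add (Nat.add (Nat.add (Nat.add (Nat.add (Nat.add (Nat.add C x7175) x20783) x20135) x20243) x20351) x20315) x20291) x20299) x39979) x20297)
    (Nat.add (Nat.add (Nat.add (Nat.add (Nat.add (Nat.add (Nat.add (Nat.add (Nat.add (Nat.add (Nat.add (Nat.add C x20299) x7177) x20785) x20137) x20245) x20353) x20317) x20293) x20297) x20301) x39981) x617)
    (Nat.add (Nat.add (Nat.add (Nat.add (Nat.add (Nat.add (Nat.add (Nat.add (Nat.add C x20301) x7179) x20787) x20139) x20247) x20355) x20319) x20299) x619)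
    (Nat.add (Nat.add (Nat.add (Nat.add (Nat.add (Nat.add (Nat.add (Nat.add C x7187) x20795) x20147) x20363) x20291) x20315) x20311) x39991)
    (Nat.sub (Nat.add (Nat.add (Nat.add (Nat.add (Nat.add (Nat.add (Nat.add (Nat.add (Nat.add C x7189) x20797) x20149) x20365) x20293) x20317) x20309) x39993) x629) x20311)
    (Nat.add (Nat.add (Nat.add (Nat.add (Nat.add (Nat.add (Nat.add (Nat.add C x7193) x20801) x20153) x20369) x20297) x20309) x20317) x39997)
    (Nat.add (Nat.add (Nat.add (Nat.add (Nat.add (Nat.add (Nat.add (Nat.add (Nat.add (Nat.add (Nat.add (Nat.add C x20317) x7195) x20803) x20155) x20371) x20299) x20311) x20323) x20315) x20319) x39999) x635)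
    (Nat.add (Nat.add (Nat.add (Nat.add (Nat.add (Nat.add (Nat.add (Nat.add C x7197) x20805) x20157) x20373) x20301) x20325) x20317) x637)
    (Nat.add (Nat.add (Nat.add (Nat.add (Nat.add (Nat.add (Nat.add (Nat.add (Nat.add C x20323) x7201) x20809) x20161) x20377) x20317) x20325) x40005) x641)
    (Nat.add (Nat.add (Nat.add (Nat.add (Nat.add (Nat.add (Nat.add (Nat.add C (Nat.mul x20325 (nat_lit 2))) x7203) x20811) x20163) x20379) x20319) x20323) x643)
    (Nat.add (Nat.add (Nat.add (Nat.add (Nat.add (Nat.add C (Nat.mul x20339 (nat_lit 2))) x7217) x20825) x20285) x20345) x40021)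
    (Nat.add (Nat.add (Nat.add (Nat.add (Nat.add (Nat.add (Nat.add (Nat.add (Nat.add C x20345) x7223) x20831) x20291) x20363) x20339) x20351) x20347) x40027)
    (Nat.add (Nat.add (Nat.add (Nat.add (Nat.add (Nat.add (Nat.add (Nat.add (Nat.add C x20347) x7225) x20833) x20293) x20365) x20353) x20345) x40029) x665)
    (Nat.sub (Nat.add (Nat.add (Nat.add (Nat.add (Nat.add (Nat.add (Nat.add C x7229) x20837) x20297) x20369) x20345) x20353) x40033) (Nat.mul x20351 (nat_lit 2)))
    (Nat.add (Nat.add (Nat.add (Nat.add (Nat.add (Nat.add (Nat.add (Nat.add (Nat.add C x7231) x20839) x20299) x20371) x20347) x20351) x20355) x40035) x671)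
    (Nat.add (Nat.add (Nat.add (Nat.add (Nat.add (Nat.add C x7233) x20841) x20301) x20373) x20353) x673)
    (Nat.add (Nat.add (Nat.add (Nat.add (Nat.add (Nat.add (Nat.add (Nat.add C (Nat.mul x20363 (nat_lit 2))) x7241) x20849) x20309) x20345) x20369) x20365) x40045)
    (Nat.add (Nat.add (Nat.add (Nat.add (Nat.add (Nat.add (Nat.add (Nat.add (Nat.add C x20365) x7243) x20851) x20311) x20347) x20371) x20363) x40047) x683)
    (Nat.add (Nat.add (Nat.add (Nat.add (Nat.add (Nat.add (Nat.add (Nat.add (Nat.add C x20369) x7247) x20855) x20315) x20351) x20387) x20363) x20371) x40051)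
    (Nat.add (Nat.add (Nat.add (Nat.add (Nat.add (Nat.add (Nat.add (Nat.add (Nat.add (Nat.add (Nat.add (Nat.add C (Nat.mul x20371 (nat_lit 2))) x7249) x20857) x20317) x20353) x20389) x20365) x20377) x20369) x20373) x40053) x689)
    (Nat.add (Nat.add (Nat.add (Nat.add (Nat.add (Nat.add (Nat.add (Nat.add (Nat.add C x20373) x7251) x20859) x20319) x20355) x20391) x20379) x20371) x691)
    (Nat.add (Nat.add (Nat.add (Nat.add (Nat.add (Nat.add (Nat.add (Nat.add (Nat.add C x20377) x7255) x20863) x20323) x20395) x20371) x20379) x40059) x695)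
    (Nat.add (Nat.add (Nat.add (Nat.add (Nat.add (Nat.add (Nat.add (Nat.add C (Nat.mul x20379 (nat_lit 2))) x7257) x20865) x20325) x20397) x20373) x20377) x697)
    (Nat.add (Nat.add (Nat.add (Nat.add (Nat.add (Nat.add C (Nat.mul x20387 (nat_lit 2))) x7265) x20873) x20369) x20389) x40069)
    (Nat.add (Nat.add (Nat.add (Nat.add (Nat.add (Nat.add (Nat.add (Nat.add (Nat.add C (Nat.mul x20389 (nat_lit 2))) x7267) x20875) x20371) x20395) x20387) x20391) x40071) x707)
    (Nat.add (Nat.add (Nat.add (Nat.add (Nat.add (Nat.add C x7269) x20877) x20373) x20397) x20389) x709)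
    (Nat.add (Nat.add (Nat.add (Nat.add (Nat.add (Nat.add (Nat.add (Nat.add C (Nat.mul x20395 (nat_lit 3))) x7273) x20881) x20377) x20389) x20397) x40077) x713)
    (Nat.add (Nat.add (Nat.add (Nat.add (Nat.add (Nat.add (Nat.add (Nat.add C (Nat.mul x20397 (nat_lit 3))) x7275) x20883) x20379) x20391) x20403) x20395) x715)
    (Nat.add (Nat.add (Nat.add (Nat.add (Nat.add C (Nat.mul x20403 (nat_lit 4))) x7281) x20889) x20397) x721)
    (Nat.add (Nat.add (Nat.add (Nat.add (Nat.add (Nat.add (Nat.add C (Nat.mul x20465 (nat_lit 4))) x7343) x21923) x19979) x20519) x20483) x40147)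
    (Nat.add (Nat.add (Nat.add (Nat.add (Nat.add (Nat.add (Nat.add (Nat.add C (Nat.mul x20483 (nat_lit 2))) x7361) x21941) x19997) x20537) x20465) x20489) x40165)
    (Nat.add (Nat.add (Nat.add (Nat.add (Nat.add (Nat.add (Nat.add (Nat.add C (Nat.mul x20489 (nat_lit 2))) x7367) x21947) x20003) x20543) x20483) x20491) x40171)
    (Nat.add (Nat.add (Nat.add (Nat.add (Nat.add (Nat.add (Nat.add (Nat.add C (Nat.mul x20491 (nat_lit 3))) x7369) x21949) x20005) x20545) x20489) x40173) x809)
    (Nat.add (Nat.add (Nat.add (Nat.add (Nat.add (Nat.add (Nat.add (Nat.add C (Nat.mul x20519 (nat_lit 2))) x7397) x21977) x20033) x20681) x20465) x20537) x40201)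
    (Nat.add (Nat.add (Nat.add (Nat.add (Nat.add (Nat.add (Nat.add (Nat.add (Nat.add (Nat.add (Nat.add C (Nat.mul x20537 (nat_lit 2))) x7415) x21995) x20051) x20699) x20483) x20591) x20519) x20555) x20543) x40219)
    (Nat.add (Nat.add (Nat.add (Nat.add (Nat.add (Nat.add (Nat.add (Nat.add (Nat.add (Nat.add (Nat.add C x20543) x7421) x22001) x20057) x20705) x20489) x20597) x20561) x20537) x20545) x40225)
    (Nat.add (Nat.add (Nat.add (Nat.add (Nat.add (Nat.add (Nat.add (Nat.add (Nat.add (Nat.add (Nat.add C (Nat.mul x20545 (nat_lit 2))) x7423) x22003) x20059) x20707) x20491) x20599) x20563) x20543) x40227) x863)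
    (Nat.add (Nat.add (Nat.add (Nat.add (Nat.add (Nat.add (Nat.add (Nat.add C x7433) x22013) x20069) x20717) x20609) x20537) x20561) x40237)
    (Nat.add (Nat.add (Nat.add (Nat.add (Nat.add (Nat.add (Nat.add (Nat.add (Nat.add (Nat.add (Nat.add C x20561) x7439) x22019) x20075) x20723) x20615) x20543) x20555) x20567) x20563) x40243)
    (Nat.add (Nat.add (Nat.add (Nat.add (Nat.add (Nat.add (Nat.add (Nat.add (Nat.add (Nat.add (Nat.add C x20563) x7441) x22021) x20077) x20725) x20617) x20545) x20569) x20561) x40245) x881)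
    (Nat.add (Nat.add (Nat.add (Nat.add (Nat.add (Nat.add (Nat.add (Nat.add C x7445) x22025) x20081) x20729) x20621) x20561) x20569) x40249)
    (Nat.add (Nat.add (Nat.add (Nat.add (Nat.add (Nat.add (Nat.add (Nat.add (Nat.add (Nat.add (Nat.add C (Nat.mul x20569 (nat_lit 2))) x7447) x22027) x20083) x20731) x20623) x20563) x20567) x20571) x40251) x887)
    (Nat.add (Nat.add (Nat.add (Nat.add (Nat.add (Nat.add (Nat.add (Nat.add C (Nat.mul x20571 (nat_lit 2))) x7449) x22029) x20085) x20733) x20625) x20569) x889)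
    (Nat.add (Nat.add (Nat.add (Nat.add (Nat.add (Nat.add (Nat.add (Nat.add C x7469) x22049) x20105) x20753) x20537) x20609) x20597) x40273)
    (Nat.sub (Nat.add (Nat.add (Nat.add (Nat.add (Nat.add (Nat.add (Nat.add (Nat.add (Nat.add C x7475) x22055) x20111) x20759) x20543) x20615) x20591) x20599) x40279) (Nat.mul x20597 (nat_lit 2)))
    (Nat.sub (Nat.add (Nat.add (Nat.add (Nat.add (Nat.add (Nat.add (Nat.add (Nat.add (Nat.add C x7477) x22057) x20113) x20761) x20545) x20617) x20597) x40281) x917) x20599)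
    (Nat.add (Nat.add (Nat.add (Nat.add (Nat.add (Nat.add (Nat.add (Nat.add C x7487) x22067) x20123) x20771) x20555) x20591) x20615) x40291)
    (Nat.add (Nat.add (Nat.add (Nat.add (Nat.add (Nat.add (Nat.add (Nat.add (Nat.add (Nat.add (Nat.add C x7493) x22073) x20129) x20777) x20561) x20597) x20633) x20609) x20621) x20617) x40297)
    (Nat.add (Nat.add (Nat.add (Nat.add (Nat.add (Nat.add (Nat.add (Nat.add (Nat.add (Nat.add (Nat.add C x7495) x22075) x20131) x20779) x20563) x20599) x20635) x20623) x20615) x40299) x935)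
    (Nat.sub (Nat.add (Nat.add (Nat.add (Nat.add (Nat.add (Nat.add (Nat.add (Nat.add (Nat.add C x7499) x22079) x20135) x20783) x20567) x20639) x20615) x20623) x40303) (Nat.mul x20621 (nat_lit 2)))
    (Nat.add (Nat.add (Nat.add (Nat.add (Nat.add (Nat.add (Nat.add (Nat.add (Nat.add (Nat.add (Nat.add C x7501) x22081) x20137) x20785) x20569) x20641) x20617) x20621) x20625) x40305) x941)
    (Nat.add (Nat.add (Nat.add (Nat.add (Nat.add (Nat.add (Nat.add (Nat.add C x7503) x22083) x20139) x20787) x20571) x20643) x20623) x943)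
    (Nat.add (Nat.add (Nat.add (Nat.add (Nat.add (Nat.add (Nat.add (Nat.add C x7511) x22091) x20147) x20795) x20615) x20639) x20635) x40315)
    (Nat.sub (Nat.add (Nat.add (Nat.add (Nat.add (Nat.add (Nat.add (Nat.add (Nat.add (Nat.add C x7513) x22093) x20149) x20797) x20617) x20641) x20633) x40317) x953) x20635)
    (Nat.add (Nat.add (Nat.add (Nat.add (Nat.add (Nat.add (Nat.add (Nat.add C x7517) x22097) x20153) x20801) x20621) x20633) x20641) x40321)
    (Nat.add (Nat.add (Nat.add (Nat.add (Nat.add (Nat.add (Nat.add (Nat.add (Nat.add (Nat.add (Nat.add (Nat.add C x20641) x7519) x22099) x20155) x20803) x20623) x20635) x20647) x20639) x20643) x40323) x959)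
    (Nat.add (Nat.add (Nat.add (Nat.add (Nat.add (Nat.add (Nat.add (Nat.add C x7521) x22101) x20157) x20805) x20625) x20649) x20641) x961)
    (Nat.add (Nat.add (Nat.add (Nat.add (Nat.add (Nat.add (Nat.add (Nat.add (Nat.add C x20647) x7525) x22105) x20161) x20809) x20641) x20649) x40329) x965)
    (Nat.add (Nat.add (Nat.add (Nat.add (Nat.add (Nat.add (Nat.add (Nat.add C (Nat.mul x20649 (nat_lit 2))) x7527) x22107) x20163) x20811) x20643) x20647) x967)
    (Nat.add (Nat.add (Nat.add (Nat.add (Nat.add (Nat.add (Nat.add (Nat.add C (Nat.mul x20681 (nat_lit 3))) x7559) x22139) x20195) x21167) x20519) x20699) x40363)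
    (Nat.add (Nat.add (Nat.add (Nat.add (Nat.add (Nat.add (Nat.add (Nat.add (Nat.add (Nat.add (Nat.add C (Nat.mul x20699 (nat_lit 2))) x7577) x22157) x20213) x21185) x20537) x20753) x20681) x20717) x20705) x40381)
    (Nat.add (Nat.add (Nat.add (Nat.add (Nat.add (Nat.add (Nat.add (Nat.add (Nat.add (Nat.add (Nat.add C x20705) x7583) x22163) x20219) x21191) x20543) x20759) x20723) x20699) x20707) x40387)
    (Nat.add (Nat.add (Nat.add (Nat.add (Nat.add (Nat.add (Nat.add (Nat.add (Nat.add (Nat.add (Nat.add C (Nat.mul x20707 (nat_lit 2))) x7585) x22165) x20221) x21193) x20545) x20761) x20725) x20705) x40389) x1025)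
    (Nat.sub (Nat.add (Nat.add (Nat.add (Nat.add (Nat.add (Nat.add (Nat.add (Nat.add (Nat.add C x7595) x22175) x20231) x21203) x20555) x20771) x20699) x20723) x40399) x20717)
    (Nat.add (Nat.add (Nat.add (Nat.add (Nat.add (Nat.add (Nat.add (Nat.add (Nat.add (Nat.add (Nat.add C x7601) x22181) x20237) x21209) x20561) x20777) x20705) x20717) x20729) x20725) x40405)
    (Nat.add (Nat.add (Nat.add (Nat.add (Nat.add (Nat.add (Nat.add (Nat.add (Nat.add (Nat.add (Nat.add C x7603) x22183) x20239) x21211) x20563) x20779) x20707) x20731) x20723) x40407) x1043)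
    (Nat.sub (Nat.add (Nat.add (Nat.add (Nat.add (Nat.add (Nat.add (Nat.add (Nat.add (Nat.add C x7607) x22187) x20243) x21215) x20567) x20783) x20723) x20731) x40411) x20729)
    (Nat.add (Nat.add (Nat.add (Nat.add (Nat.add (Nat.add (Nat.add (Nat.add (Nat.add (Nat.add (Nat.add (Nat.add C x20731) x7609) x22189) x20245) x21217) x20569) x20785) x20725) x20729) x20733) x40413) x1049)
    (Nat.add (Nat.add (Nat.add (Nat.add (Nat.add (Nat.add (Nat.add (Nat.add (Nat.add C x20733) x7611) x22191) x20247) x21219) x20571) x20787) x20731) x1051)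
    (Nat.add (Nat.add (Nat.add (Nat.add (Nat.add (Nat.add (Nat.add (Nat.add (Nat.add (Nat.add (Nat.add C (Nat.mul x20753 (nat_lit 2))) x7631) x22211) x20267) x21239) x20591) x20915) x20699) x20771) x20759) x40435)
    (Nat.add (Nat.add (Nat.add (Nat.add (Nat.add (Nat.add (Nat.add (Nat.add (Nat.add (Nat.add (Nat.add C x7637) x22217) x20273) x21245) x20597) x20921) x20705) x20777) x20753) x20761) x40441)
    (Nat.add (Nat.add (Nat.add (Nat.add (Nat.add (Nat.add (Nat.add (Nat.add (Nat.add (Nat.add (Nat.add (Nat.add C x20761) x7639) x22219) x20275) x21247) x20599) x20923) x20707) x20779) x20759) x40443) x1079)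
    (Nat.add (Nat.add (Nat.add (Nat.add (Nat.add (Nat.add (Nat.add (Nat.add (Nat.add (Nat.add (Nat.add (Nat.add C x20771) x7649) x22229) x20285) x21257) x20609) x20933) x20717) x20825) x20753) x20777) x40453)
    (Nat.add (Nat.add (Nat.add (Nat.add (Nat.add (Nat.add (Nat.add (Nat.add (Nat.add (Nat.add (Nat.add (Nat.add (Nat.add (Nat.add (Nat.add C x20777) x7655) x22235) x20291) x21263) x20615) x20939) x20723) x20831) x20759) x20795) x20771) x20783) x20779) x40459)
    (Nat.add (Nat.add (Nat.add (Nat.add (Nat.add (Nat.add (Nat.add (Nat.add (Nat.add (Nat.add (Nat.add (Nat.add (Nat.add (Nat.add (Nat.add C x20779) x7657) x22237) x20293) x21265) x20617) x20941) x20725) x20833) x20761) x20797) x20785) x20777) x40461) x1097)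
    (Nat.sub (Nat.add (Nat.add (Nat.add (Nat.add (Nat.add (Nat.add (Nat.add (Nat.add (Nat.add (Nat.add (Nat.add (Nat.add C x7661) x22241) x20297) x21269) x20621) x20945) x20729) x20837) x20801) x20777) x20785) x40465) x20783)
    (Nat.add (Nat.add (Nat.add (Nat.add (Nat.add (Nat.add (Nat.add (Nat.add (Nat.add (Nat.add (Nat.add (Nat.add (Nat.add (Nat.add (Nat.add C x20785) x7663) x22243) x20299) x21271) x20623) x20947) x20731) x20839) x20803) x20779) x20783) x20787) x40467) x1103)
    (Nat.add (Nat.add (Nat.add (Nat.add (Nat.add (Nat.add (Nat.add (Nat.add (Nat.add (Nat.add (Nat.add (Nat.add C x20787) x7665) x22245) x20301) x21273) x20625) x20949) x20733) x20841) x20805) x20785) x1105)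
    (Nat.add (Nat.add (Nat.add (Nat.add (Nat.add (Nat.add (Nat.add (Nat.add (Nat.add (Nat.add (Nat.add C x7673) x22253) x20309) x21281) x20633) x20957) x20849) x20777) x20801) x20797) x40477)
    (Nat.sub (Nat.add (Nat.add (Nat.add (Nat.add (Nat.add (Nat.add (Nat.add (Nat.add (Nat.add (Nat.add (Nat.add (Nat.add C x7675) x22255) x20311) x21283) x20635) x20959) x20851) x20779) x20803) x20795) x40479) x1115) x20797)
    (Nat.add (Nat.add (Nat.add (Nat.add (Nat.add (Nat.add (Nat.add (Nat.add (Nat.add (Nat.add (Nat.add C x7679) x22259) x20315) x21287) x20639) x20963) x20855) x20783) x20795) x20803) x40483)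
    (Nat.add (Nat.add (Nat.add (Nat.add (Nat.add (Nat.add (Nat.add (Nat.add (Nat.add (Nat.add (Nat.add (Nat.add (Nat.add (Nat.add (Nat.add C x20803) x7681) x22261) x20317) x21289) x20641) x20965) x20857) x20785) x20797) x20809) x20801) x20805) x40485) x1121)
    (Nat.add (Nat.add (Nat.add (Nat.add (Nat.add (Nat.add (Nat.add (Nat.add (Nat.add (Nat.add (Nat.add C x7683) x22263) x20319) x21291) x20643) x20967) x20859) x20787) x20811) x20803) x1123)
    (Nat.add (Nat.add (Nat.add (Nat.add (Nat.add (Nat.add (Nat.add (Nat.add (Nat.add (Nat.add (Nat.add (Nat.add C x20809) x7687) x22267) x20323) x21295) x20647) x20971) x20863) x20803) x20811) x40491) x1127)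
    (Nat.add (Nat.add (Nat.add (Nat.add (Nat.add (Nat.add (Nat.add (Nat.add (Nat.add (Nat.add (Nat.add C (Nat.mul x20811 (nat_lit 2))) x7689) x22269) x20325) x21297) x20649) x20973) x20865) x20805) x20809) x1129)
    (Nat.add (Nat.add (Nat.add (Nat.add (Nat.add (Nat.add (Nat.add (Nat.add (Nat.add C x20825) x7703) x22283) x20339) x21311) x20987) x20771) x20831) x40507)
    (Nat.add (Nat.add (Nat.add (Nat.add (Nat.add (Nat.add (Nat.add (Nat.add (Nat.add (Nat.add (Nat.add C x7709) x22289) x20345) x21317) x20993) x20777) x20849) x20825) x20837) x20833) x40513)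
    (Nat.add (Nat.add (Nat.add (Nat.add (Nat.add (Nat.add (Nat.add (Nat.add (Nat.add (Nat.add (Nat.add C x7711) x22291) x20347) x21319) x20995) x20779) x20851) x20839) x20831) x40515) x1151)
    (Nat.sub (Nat.add (Nat.add (Nat.add (Nat.add (Nat.add (Nat.add (Nat.add (Nat.add (Nat.add (Nat.add C x7715) x22295) x20351) x21323) x20999) x20783) x20855) x20831) x20839) x40519) (Nat.mul x20837 (nat_lit 3)))
    (Nat.sub (Nat.add (Nat.add (Nat.add (Nat.add (Nat.add (Nat.add (Nat.add (Nat.add (Nat.add (Nat.add (Nat.add (Nat.add C x7717) x22297) x20353) x21325) x21001) x20785) x20857) x20833) x20837) x20841) x40521) x1157) x20839)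
    (Nat.sub (Nat.add (Nat.add (Nat.add (Nat.add (Nat.add (Nat.add (Nat.add (Nat.add (Nat.add C x7719) x22299) x20355) x21327) x21003) x20787) x20859) x20839) x1159) x20841)
    (Nat.add (Nat.add (Nat.add (Nat.add (Nat.add (Nat.add (Nat.add (Nat.add (Nat.add (Nat.add (Nat.add C x20849) x7727) x22307) x20363) x21335) x21011) x20795) x20831) x20855) x20851) x40531)
    (Nat.add (Nat.add (Nat.add (Nat.add (Nat.add (Nat.add (Nat.add (Nat.add (Nat.add (Nat.add (Nat.add C x7729) x22309) x20365) x21337) x21013) x20797) x20833) x20857) x20849) x40533) x1169)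
    (Nat.add (Nat.add (Nat.add (Nat.add (Nat.add (Nat.add (Nat.add (Nat.add (Nat.add (Nat.add (Nat.add C x7733) x22313) x20369) x21341) x21017) x20801) x20837) x20873) x20849) x20857) x40537)
    (Nat.add (Nat.add (Nat.add (Nat.add (Nat.add (Nat.add (Nat.add (Nat.add (Nat.add (Nat.add (Nat.add (Nat.add (Nat.add (Nat.add (Nat.add C x20857) x7735) x22315) x20371) x21343) x21019) x20803) x20839) x20875) x20851) x20863) x20855) x20859) x40539) x1175)
    (Nat.add (Nat.add (Nat.add (Nat.add (Nat.add (Nat.add (Nat.add (Nat.add (Nat.add (Nat.add (Nat.add C x7737) x22317) x20373) x21345) x21021) x20805) x20841) x20877) x20865) x20857) x1177)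
    (Nat.add (Nat.add (Nat.add (Nat.add (Nat.add (Nat.add (Nat.add (Nat.add (Nat.add (Nat.add (Nat.add C x7741) x22321) x20377) x21349) x21025) x20809) x20881) x20857) x20865) x40545) x1181)
    (Nat.add (Nat.add (Nat.add (Nat.add (Nat.add (Nat.add (Nat.add (Nat.add (Nat.add (Nat.add (Nat.add C x20865) x7743) x22323) x20379) x21351) x21027) x20811) x20883) x20859) x20863) x1183)
    (Nat.add (Nat.add (Nat.add (Nat.add (Nat.add (Nat.add (Nat.add (Nat.add (Nat.add C x20873) x7751) x22331) x20387) x21359) x21035) x20855) x20875) x40555)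
    (Nat.add (Nat.add (Nat.add (Nat.add (Nat.add (Nat.add (Nat.add (Nat.add (Nat.add (Nat.add (Nat.add (Nat.add C x20875) x7753) x22333) x20389) x21361) x21037) x20857) x20881) x20873) x20877) x40557) x1193)
    (Nat.sub (Nat.add (Nat.add (Nat.add (Nat.add (Nat.add (Nat.add (Nat.add (Nat.add (Nat.add C x7755) x22335) x20391) x21363) x21039) x20859) x20883) x20875) x1195) x20877)
    (Nat.add (Nat.add (Nat.add (Nat.add (Nat.add (Nat.add (Nat.add (Nat.add (Nat.add (Nat.add (Nat.add C (Nat.mul x20881 (nat_lit 2))) x7759) x22339) x20395) x21367) x21043) x20863) x20875) x20883) x40563) x1199)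
    (Nat.add (Nat.add (Nat.add (Nat.add (Nat.add (Nat.add (Nat.add (Nat.add (Nat.add (Nat.add (Nat.add C (Nat.mul x20883 (nat_lit 2))) x7761) x22341) x20397) x21369) x21045) x20865) x20877) x20889) x20881) x1201)
    (Nat.add (Nat.add (Nat.add (Nat.add (Nat.add (Nat.add (Nat.add (Nat.add C (Nat.mul x20889 (nat_lit 3))) x7767) x22347) x20403) x21375) x21051) x20883) x1207)
    (Nat.add (Nat.add (Nat.add (Nat.add (Nat.add (Nat.add (Nat.add (Nat.add C (Nat.mul x20915 (nat_lit 2))) x7793) x22373) x21401) x20753) x20933) x20921) x40597)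
    (Nat.add (Nat.add (Nat.add (Nat.add (Nat.add (Nat.add (Nat.add (Nat.add C x7799) x22379) x21407) x20759) x20939) x20915) x20923) x40603)
    (Nat.add (Nat.add (Nat.add (Nat.add (Nat.add (Nat.add (Nat.add (Nat.add (Nat.add C x20923) x7801) x22381) x21409) x20761) x20941) x20921) x40605) x1241)
    (Nat.add (Nat.add (Nat.add (Nat.add (Nat.add (Nat.add (Nat.add (Nat.add C x7811) x22391) x21419) x20771) x20987) x20915) x20939) x40615)
    (Nat.add (Nat.add (Nat.add (Nat.add (Nat.add (Nat.add (Nat.add (Nat.add (Nat.add (Nat.add (Nat.add C x7817) x22397) x21425) x20777) x20993) x20921) x20957) x20933) x20945) x20941) x40621)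
    (Nat.add (Nat.add (Nat.add (Nat.add (Nat.add (Nat.add (Nat.add (Nat.add (Nat.add (Nat.add (Nat.add C x7819) x22399) x21427) x20779) x20995) x20923) x20959) x20947) x20939) x40623) x1259)
    (Nat.sub (Nat.add (Nat.add (Nat.add (Nat.add (Nat.add (Nat.add (Nat.add (Nat.add (Nat.add C x7823) x22403) x21431) x20783) x20999) x20963) x20939) x20947) x40627) (Nat.mul x20945 (nat_lit 2)))
    (Nat.add (Nat.add (Nat.add (Nat.add (Nat.add (Nat.add (Nat.add (Nat.add (Nat.add (Nat.add (Nat.add C x7825) x22405) x21433) x20785) x21001) x20965) x20941) x20945) x20949) x40629) x1265)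
    (Nat.add (Nat.add (Nat.add (Nat.add (Nat.add (Nat.add (Nat.add (Nat.add C x7827) x22407) x21435) x20787) x21003) x20967) x20947) x1267)
    (Nat.sub (Nat.add (Nat.add (Nat.add (Nat.add (Nat.add (Nat.add (Nat.add (Nat.add (Nat.add C x7835) x22415) x21443) x20795) x21011) x20939) x20963) x20959) x40639) (Nat.mul x20957 (nat_lit 2)))
    (Nat.sub (Nat.add (Nat.add (Nat.add (Nat.add (Nat.add (Nat.add (Nat.add (Nat.add (Nat.add (Nat.add C x7837) x22417) x21445) x20797) x21013) x20941) x20965) x20957) x40641) x1277) (Nat.mul x20959 (nat_lit 3)))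
    (Nat.sub (Nat.add (Nat.add (Nat.add (Nat.add (Nat.add (Nat.add (Nat.add (Nat.add (Nat.add C x7841) x22421) x21449) x20801) x21017) x20945) x20957) x20965) x40645) (Nat.mul x20963 (nat_lit 2)))
    (Nat.sub (Nat.add (Nat.add (Nat.add (Nat.add (Nat.add (Nat.add (Nat.add (Nat.add (Nat.add (Nat.add (Nat.add (Nat.add C x7843) x22423) x21451) x20803) x21019) x20947) x20959) x20971) x20963) x20967) x40647) x1283) x20965)
    (Nat.sub (Nat.add (Nat.add (Nat.add (Nat.add (Nat.add (Nat.add (Nat.add (Nat.add (Nat.add C x7845) x22425) x21453) x20805) x21021) x20949) x20973) x20965) x1285) (Nat.mul x20967 (nat_lit 2)))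
    (Nat.sub (Nat.add (Nat.add (Nat.add (Nat.add (Nat.add (Nat.add (Nat.add (Nat.add (Nat.add C x7849) x22429) x21457) x20809) x21025) x20965) x20973) x40653) x1289) x20971)
    (Nat.add (Nat.add (Nat.add (Nat.add (Nat.add (Nat.add (Nat.add (Nat.add C x7851) x22431) x21459) x20811) x21027) x20967) x20971) x1291)
    (Nat.add (Nat.add (Nat.add (Nat.add (Nat.add (Nat.add (Nat.add (Nat.add C (Nat.mul x20987 (nat_lit 2))) x7865) x22445) x21473) x20825) x20933) x20993) x40669)
    (Nat.add (Nat.add (Nat.add (Nat.add (Nat.add (Nat.add (Nat.add (Nat.add (Nat.add (Nat.add (Nat.add C x20993) x7871) x22451) x21479) x20831) x20939) x21011) x20987) x20999) x20995) x40675)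
    (Nat.add (Nat.add (Nat.add (Nat.add (Nat.add (Nat.add (Nat.add (Nat.add (Nat.add (Nat.add (Nat.add C x20995) x7873) x22453) x21481) x20833) x20941) x21013) x21001) x20993) x40677) x1313)
    (Nat.sub (Nat.add (Nat.add (Nat.add (Nat.add (Nat.add (Nat.add (Nat.add (Nat.add (Nat.add C x7877) x22457) x21485) x20837) x20945) x21017) x20993) x21001) x40681) (Nat.mul x20999 (nat_lit 2)))
    (Nat.add (Nat.add (Nat.add (Nat.add (Nat.add (Nat.add (Nat.add (Nat.add (Nat.add (Nat.add (Nat.add C x7879) x22459) x21487) x20839) x20947) x21019) x20995) x20999) x21003) x40683) x1319)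
    (Nat.add (Nat.add (Nat.add (Nat.add (Nat.add (Nat.add (Nat.add (Nat.add C x7881) x22461) x21489) x20841) x20949) x21021) x21001) x1321)
    (Nat.add (Nat.add (Nat.add (Nat.add (Nat.add (Nat.add (Nat.add (Nat.add (Nat.add (Nat.add (Nat.add C x21011) x7889) x22469) x21497) x20849) x20957) x21065) x20993) x21017) x21013) x40693)
    (Nat.add (Nat.add (Nat.add (Nat.add (Nat.add (Nat.add (Nat.add (Nat.add (Nat.add (Nat.add (Nat.add C x7891) x22471) x21499) x20851) x20959) x21067) x20995) x21019) x21011) x40695) x1331)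
    (Nat.add (Nat.add (Nat.add (Nat.add (Nat.add (Nat.add (Nat.add (Nat.add (Nat.add (Nat.add (Nat.add C x7895) x22475) x21503) x20855) x20963) x21071) x20999) x21035) x21011) x21019) x40699)
    (Nat.add (Nat.add (Nat.add (Nat.add (Nat.add (Nat.add (Nat.add (Nat.add (Nat.add (Nat.add (Nat.add (Nat.add (Nat.add (Nat.add (Nat.add C x21019) x7897) x22477) x21505) x20857) x20965) x21073) x21001) x21037) x21013) x21025) x21017) x21021) x40701) x1337)
    (Nat.add (Nat.add (Nat.add (Nat.add (Nat.add (Nat.add (Nat.add (Nat.add (Nat.add (Nat.add (Nat.add C x7899) x22479) x21507) x20859) x20967) x21075) x21003) x21039) x21027) x21019) x1339)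
    (Nat.add (Nat.add (Nat.add (Nat.add (Nat.add (Nat.add (Nat.add (Nat.add (Nat.add (Nat.add (Nat.add C x7903) x22483) x21511) x20863) x20971) x21079) x21043) x21019) x21027) x40707) x1343)
    (Nat.add (Nat.add (Nat.add (Nat.add (Nat.add (Nat.add (Nat.add (Nat.add (Nat.add (Nat.add (Nat.add C x21027) x7905) x22485) x21513) x20865) x20973) x21081) x21045) x21021) x21025) x1345)
    (Nat.add (Nat.add (Nat.add (Nat.add (Nat.add (Nat.add (Nat.add (Nat.add C x7913) x22493) x21521) x20873) x21089) x21017) x21037) x40717)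
    (Nat.add (Nat.add (Nat.add (Nat.add (Nat.add (Nat.add (Nat.add (Nat.add (Nat.add (Nat.add (Nat.add C x7915) x22495) x21523) x20875) x21091) x21019) x21043) x21035) x21039) x40719) x1355)
    (Nat.sub (Nat.add (Nat.add (Nat.add (Nat.add (Nat.add (Nat.add (Nat.add (Nat.add (Nat.add C x7917) x22497) x21525) x20877) x21093) x21021) x21045) x21037) x1357) (Nat.mul x21039 (nat_lit 2)))
    (Nat.add (Nat.add (Nat.add (Nat.add (Nat.add (Nat.add (Nat.add (Nat.add (Nat.add (Nat.add (Nat.add C x21043) x7921) x22501) x21529) x20881) x21097) x21025) x21037) x21045) x40725) x1361)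
    (Nat.add (Nat.add (Nat.add (Nat.add (Nat.add (Nat.add (Nat.add (Nat.add (Nat.add (Nat.add (Nat.add C x21045) x7923) x22503) x21531) x20883) x21099) x21027) x21039) x21051) x21043) x1363)
    (Nat.add (Nat.add (Nat.add (Nat.add (Nat.add (Nat.add (Nat.add (Nat.add C (Nat.mul x21051 (nat_lit 2))) x7929) x22509) x21537) x20889) x21105) x21045) x1369)
    (Nat.add (Nat.add (Nat.add (Nat.add (Nat.add (Nat.add (Nat.add (Nat.add C (Nat.mul x21065 (nat_lit 2))) x7943) x22523) x21551) x21011) x21071) x21067) x40747)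
    (Nat.add (Nat.add (Nat.add (Nat.add (Nat.add (Nat.add (Nat.add (Nat.add (Nat.add C x21067) x7945) x22525) x21553) x21013) x21073) x21065) x40749) x1385)
    (Nat.add (Nat.add (Nat.add (Nat.add (Nat.add (Nat.add (Nat.add (Nat.add C x7949) x22529) x21557) x21017) x21089) x21065) x21073) x40753)
    (Nat.add (Nat.add (Nat.add (Nat.add (Nat.add (Nat.add (Nat.add (Nat.add (Nat.add (Nat.add (Nat.add (Nat.add C x21073) x7951) x22531) x21559) x21019) x21091) x21067) x21079) x21071) x21075) x40755) x1391)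
    (Nat.add (Nat.add (Nat.add (Nat.add (Nat.add (Nat.add (Nat.add (Nat.add C x7953) x22533) x21561) x21021) x21093) x21081) x21073) x1393)
    (Nat.sub (Nat.add (Nat.add (Nat.add (Nat.add (Nat.add (Nat.add (Nat.add (Nat.add (Nat.add C x7957) x22537) x21565) x21025) x21097) x21073) x21081) x40761) x1397) x21079)
    (Nat.add (Nat.add (Nat.add (Nat.add (Nat.add (Nat.add (Nat.add (Nat.add C x7959) x22539) x21567) x21027) x21099) x21075) x21079) x1399)
    (Nat.add (Nat.add (Nat.add (Nat.add (Nat.add (Nat.add (Nat.add (Nat.add C (Nat.mul x21089 (nat_lit 2))) x7967) x22547) x21575) x21035) x21071) x21091) x40771)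
    (Nat.add (Nat.add (Nat.add (Nat.add (Nat.add (Nat.add (Nat.add (Nat.add (Nat.add (Nat.add (Nat.add C (Nat.mul x21091 (nat_lit 2))) x7969) x22549) x21577) x21037) x21073) x21097) x21089) x21093) x40773) x1409)
    (Nat.add (Nat.add (Nat.add (Nat.add (Nat.add (Nat.add (Nat.add (Nat.add C x7971) x22551) x21579) x21039) x21075) x21099) x21091) x1411)
    (Nat.add (Nat.add (Nat.add (Nat.add (Nat.add (Nat.add (Nat.add (Nat.add (Nat.add (Nat.add (Nat.add C (Nat.mul x21097 (nat_lit 2))) x7975) x22555) x21583) x21043) x21079) x21115) x21091) x21099) x40779) x1415)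
    (Nat.add (Nat.add (Nat.add (Nat.add (Nat.add (Nat.add (Nat.add (Nat.add (Nat.add (Nat.add (Nat.add C (Nat.mul x21099 (nat_lit 2))) x7977) x22557) x21585) x21045) x21081) x21117) x21093) x21105) x21097) x1417)
    (Nat.add (Nat.add (Nat.add (Nat.add (Nat.add (Nat.add (Nat.add (Nat.add C (Nat.mul x21105 (nat_lit 2))) x7983) x22563) x21591) x21051) x21123) x21099) x1423)
    (Nat.add (Nat.add (Nat.add (Nat.add (Nat.add (Nat.add (Nat.add (Nat.add C (Nat.mul x21115 (nat_lit 3))) x7993) x22573) x21601) x21097) x21117) x40797) x1433)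
    (Nat.add (Nat.add (Nat.add (Nat.add (Nat.add (Nat.add (Nat.add (Nat.add C (Nat.mul x21117 (nat_lit 2))) x7995) x22575) x21603) x21099) x21123) x21115) x1435)
    (Nat.add (Nat.add (Nat.add (Nat.add (Nat.add (Nat.add (Nat.add C (Nat.mul x21123 (nat_lit 4))) x8001) x22581) x21609) x21105) x21117) x1441)
    (Nat.add (Nat.add (Nat.add (Nat.add (Nat.add (Nat.add C (Nat.mul x21167 (nat_lit 2))) x8045) x22625) x20681) x21185) x40849)
    (Nat.add (Nat.add (Nat.add (Nat.add (Nat.add (Nat.add (Nat.add (Nat.add (Nat.add C x21185) x8063) x22643) x20699) x21239) x21167) x21203) x21191) x40867)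
    (Nat.add (Nat.add (Nat.add (Nat.add (Nat.add (Nat.add (Nat.add (Nat.add C x8069) x22649) x20705) x21245) x21209) x21185) x21193) x40873)
    (Nat.add (Nat.add (Nat.add (Nat.add (Nat.add (Nat.add (Nat.add (Nat.add (Nat.add C x21193) x8071) x22651) x20707) x21247) x21211) x21191) x40875) x1511)
    (Nat.sub (Nat.add (Nat.add (Nat.add (Nat.add (Nat.add (Nat.add (Nat.add C x8081) x22661) x20717) x21257) x21185) x21209) x40885) (Nat.mul x21203 (nat_lit 2)))
    (Nat.sub (Nat.add (Nat.add (Nat.add (Nat.add (Nat.add (Nat.add (Nat.add (Nat.add (Nat.add C x8087) x22667) x20723) x21263) x21191) x21203) x21215) x21211) x40891) x21209)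
    (Nat.sub (Nat.add (Nat.add (Nat.add (Nat.add (Nat.add (Nat.add (Nat.add (Nat.add (Nat.add C x8089) x22669) x20725) x21265) x21193) x21217) x21209) x40893) x1529) x21211)
    (Nat.sub (Nat.add (Nat.add (Nat.add (Nat.add (Nat.add (Nat.add (Nat.add C x8093) x22673) x20729) x21269) x21209) x21217) x40897) (Nat.mul x21215 (nat_lit 2)))
    (Nat.add (Nat.add (Nat.add (Nat.add (Nat.add (Nat.add (Nat.add (Nat.add (Nat.add C x8095) x22675) x20731) x21271) x21211) x21215) x21219) x40899) x1535)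
    (Nat.add (Nat.add (Nat.add (Nat.add (Nat.add (Nat.add C x8097) x22677) x20733) x21273) x21217) x1537)
    (Nat.add (Nat.add (Nat.add (Nat.add (Nat.add (Nat.add (Nat.add (Nat.add C x8117) x22697) x20753) x21401) x21185) x21257) x21245) x40921)
    (Nat.sub (Nat.add (Nat.add (Nat.add (Nat.add (Nat.add (Nat.add (Nat.add (Nat.add (Nat.add C x8123) x22703) x20759) x21407) x21191) x21263) x21239) x21247) x40927) (Nat.mul x21245 (nat_lit 2)))
    (Nat.sub (Nat.add (Nat.add (Nat.add (Nat.add (Nat.add (Nat.add (Nat.add (Nat.add (Nat.add C x8125) x22705) x20761) x21409) x21193) x21265) x21245) x40929) x1565) x21247)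
    (Nat.sub (Nat.add (Nat.add (Nat.add (Nat.add (Nat.add (Nat.add (Nat.add (Nat.add (Nat.add C x8135) x22715) x20771) x21419) x21203) x21311) x21239) x21263) x40939) x21257)
    (Nat.sub (Nat.add (Nat.add (Nat.add (Nat.add (Nat.add (Nat.add (Nat.add (Nat.add (Nat.add (Nat.add (Nat.add (Nat.add C x8141) x22721) x20777) x21425) x21209) x21317) x21245) x21281) x21257) x21269) x21265) x40945) x21263)
    (Nat.sub (Nat.add (Nat.add (Nat.add (Nat.add (Nat.add (Nat.add (Nat.add (Nat.add (Nat.add (Nat.add (Nat.add (Nat.add C x8143) x22723) x20779) x21427) x21211) x21319) x21247) x21283) x21271) x21263) x40947) x1583) x21265)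
    (Nat.sub (Nat.add (Nat.add (Nat.add (Nat.add (Nat.add (Nat.add (Nat.add (Nat.add (Nat.add (Nat.add C x8147) x22727) x20783) x21431) x21215) x21323) x21287) x21263) x21271) x40951) (Nat.mul x21269 (nat_lit 3)))
    (Nat.sub (Nat.add (Nat.add (Nat.add (Nat.add (Nat.add (Nat.add (Nat.add (Nat.add (Nat.add (Nat.add (Nat.add (Nat.add C x8149) x22729) x20785) x21433) x21217) x21325) x21289) x21265) x21269) x21273) x40953) x1589) x21271)
    (Nat.sub (Nat.add (Nat.add (Nat.add (Nat.add (Nat.add (Nat.add (Nat.add (Nat.add (Nat.add C x8151) x22731) x20787) x21435) x21219) x21327) x21291) x21271) x1591) x21273)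
    (Nat.sub (Nat.add (Nat.add (Nat.add (Nat.add (Nat.add (Nat.add (Nat.add (Nat.add (Nat.add C x8159) x22739) x20795) x21443) x21335) x21263) x21287) x21283) x40963) (Nat.mul x21281 (nat_lit 2)))
    (Nat.sub (Nat.add (Nat.add (Nat.add (Nat.add (Nat.add (Nat.add (Nat.add (Nat.add (Nat.add (Nat.add C x8161) x22741) x20797) x21445) x21337) x21265) x21289) x21281) x40965) x1601) (Nat.mul x21283 (nat_lit 3)))
    (Nat.sub (Nat.add (Nat.add (Nat.add (Nat.add (Nat.add (Nat.add (Nat.add (Nat.add (Nat.add C x8165) x22745) x20801) x21449) x21341) x21269) x21281) x21289) x40969) (Nat.mul x21287 (nat_lit 2)))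
    (Nat.sub (Nat.add (Nat.add (Nat.add (Nat.add (Nat.add (Nat.add (Nat.add (Nat.add (Nat.add (Nat.add (Nat.add (Nat.add C x8167) x22747) x20803) x21451) x21343) x21271) x21283) x21295) x21287) x21291) x40971) x1607) x21289)
    (Nat.sub (Nat.add (Nat.add (Nat.add (Nat.add (Nat.add (Nat.add (Nat.add (Nat.add (Nat.add C x8169) x22749) x20805) x21453) x21345) x21273) x21297) x21289) x1609) (Nat.mul x21291 (nat_lit 2)))
    (Nat.sub (Nat.add (Nat.add (Nat.add (Nat.add (Nat.add (Nat.add (Nat.add (Nat.add (Nat.add C x8173) x22753) x20809) x21457) x21349) x21289) x21297) x40977) x1613) x21295)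
    (Nat.add (Nat.add (Nat.add (Nat.add (Nat.add (Nat.add (Nat.add (Nat.add C x8175) x22755) x20811) x21459) x21351) x21291) x21295) x1615)
    (Nat.sub (Nat.add (Nat.add (Nat.add (Nat.add (Nat.add (Nat.add (Nat.add C x8189) x22769) x20825) x21473) x21257) x21317) x40993) (Nat.mul x21311 (nat_lit 2)))
    (Nat.sub (Nat.add (Nat.add (Nat.add (Nat.add (Nat.add (Nat.add (Nat.add (Nat.add (Nat.add (Nat.add C x8195) x22775) x20831) x21479) x21263) x21335) x21311) x21323) x21319) x40999) (Nat.mul x21317 (nat_lit 3)))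
    (Nat.sub (Nat.add (Nat.add (Nat.add (Nat.add (Nat.add (Nat.add (Nat.add (Nat.add (Nat.add (Nat.add C x8197) x22777) x20833) x21481) x21265) x21337) x21325) x21317) x41001) x1637) (Nat.mul x21319 (nat_lit 3)))
    (Nat.sub (Nat.add (Nat.add (Nat.add (Nat.add (Nat.add (Nat.add (Nat.add (Nat.add (Nat.add C x8201) x22781) x20837) x21485) x21269) x21341) x21317) x21325) x41005) (Nat.mul x21323 (nat_lit 6)))
    (Nat.sub (Nat.add (Nat.add (Nat.add (Nat.add (Nat.add (Nat.add (Nat.add (Nat.add (Nat.add (Nat.add (Nat.add C x8203) x22783) x20839) x21487) x21271) x21343) x21319) x21323) x21327) x41007) x1643) (Nat.mul x21325 (nat_lit 4)))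
    (Nat.sub (Nat.add (Nat.add (Nat.add (Nat.add (Nat.add (Nat.add (Nat.add (Nat.add C x8205) x22785) x20841) x21489) x21273) x21345) x21325) x1645) (Nat.mul x21327 (nat_lit 4)))
    (Nat.sub (Nat.add (Nat.add (Nat.add (Nat.add (Nat.add (Nat.add (Nat.add (Nat.add (Nat.add C x8213) x22793) x20849) x21497) x21281) x21317) x21341) x21337) x41017) (Nat.mul x21335 (nat_lit 2)))
    (Nat.sub (Nat.add (Nat.add (Nat.add (Nat.add (Nat.add (Nat.add (Nat.add (Nat.add (Nat.add (Nat.add C x8215) x22795) x20851) x21499) x21283) x21319) x21343) x21335) x41019) x1655) (Nat.mul x21337 (nat_lit 3)))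
    (Nat.sub (Nat.add (Nat.add (Nat.add (Nat.add (Nat.add (Nat.add (Nat.add (Nat.add (Nat.add (Nat.add C x8219) x22799) x20855) x21503) x21287) x21323) x21359) x21335) x21343) x41023) (Nat.mul x21341 (nat_lit 3)))
    (Nat.sub (Nat.add (Nat.add (Nat.add (Nat.add (Nat.add (Nat.add (Nat.add (Nat.add (Nat.add (Nat.add (Nat.add (Nat.add (Nat.add C x8221) x22801) x20857) x21505) x21289) x21325) x21361) x21337) x21349) x21341) x21345) x41025) x1661) (Nat.mul x21343 (nat_lit 2)))
    (Nat.sub (Nat.add (Nat.add (Nat.add (Nat.add (Nat.add (Nat.add (Nat.add (Nat.add (Nat.add (Nat.add C x8223) x22803) x20859) x21507) x21291) x21327) x21363) x21351) x21343) x1663) (Nat.mul x21345 (nat_lit 3)))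
    (Nat.sub (Nat.add (Nat.add (Nat.add (Nat.add (Nat.add (Nat.add (Nat.add (Nat.add (Nat.add (Nat.add C x8227) x22807) x20863) x21511) x21295) x21367) x21343) x21351) x41031) x1667) (Nat.mul x21349 (nat_lit 3)))
    (Nat.sub (Nat.add (Nat.add (Nat.add (Nat.add (Nat.add (Nat.add (Nat.add (Nat.add (Nat.add C x8229) x22809) x20865) x21513) x21297) x21369) x21345) x21349) x1669) (Nat.mul x21351 (nat_lit 2)))
    (Nat.sub (Nat.add (Nat.add (Nat.add (Nat.add (Nat.add (Nat.add (Nat.add C x8237) x22817) x20873) x21521) x21341) x21361) x41041) (Nat.mul x21359 (nat_lit 2)))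
    (Nat.sub (Nat.add (Nat.add (Nat.add (Nat.add (Nat.add (Nat.add (Nat.add (Nat.add (Nat.add (Nat.add C x8239) x22819) x20875) x21523) x21343) x21367) x21359) x21363) x41043) x1679) (Nat.mul x21361 (nat_lit 2)))
    (Nat.sub (Nat.add (Nat.add (Nat.add (Nat.add (Nat.add (Nat.add (Nat.add (Nat.add C x8241) x22821) x20877) x21525) x21345) x21369) x21361) x1681) (Nat.mul x21363 (nat_lit 4)))
    (Nat.sub (Nat.add (Nat.add (Nat.add (Nat.add (Nat.add (Nat.add (Nat.add (Nat.add (Nat.add C x8245) x22825) x20881) x21529) x21349) x21361) x21369) x41049) x1685) x21367)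
    (Nat.sub (Nat.add (Nat.add (Nat.add (Nat.add (Nat.add (Nat.add (Nat.add (Nat.add (Nat.add C x8247) x22827) x20883) x21531) x21351) x21363) x21375) x21367) x1687) x21369)
    (Nat.add (Nat.add (Nat.add (Nat.add (Nat.add (Nat.add C x8253) x22833) x20889) x21537) x21369) x1693)
    (Nat.add (Nat.add (Nat.add (Nat.add (Nat.add (Nat.add (Nat.add (Nat.add C (Nat.mul x21401 (nat_lit 2))) x8279) x22859) x20915) x21239) x21419) x21407) x41083)
    (Nat.add (Nat.add (Nat.add (Nat.add (Nat.add (Nat.add (Nat.add (Nat.add C x8285) x22865) x20921) x21245) x21425) x21401) x21409) x41089)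
    (Nat.add (Nat.add (Nat.add (Nat.add (Nat.add (Nat.add (Nat.add (Nat.add (Nat.add C x21409) x8287) x22867) x20923) x21247) x21427) x21407) x41091) x1727)
    (Nat.add (Nat.add (Nat.add (Nat.add (Nat.add (Nat.add (Nat.add (Nat.add C x8297) x22877) x20933) x21257) x21473) x21401) x21425) x41101)
    (Nat.add (Nat.add (Nat.add (Nat.add (Nat.add (Nat.add (Nat.add (Nat.add (Nat.add (Nat.add (Nat.add C x8303) x22883) x20939) x21263) x21479) x21407) x21443) x21419) x21431) x21427) x41107)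
    (Nat.add (Nat.add (Nat.add (Nat.add (Nat.add (Nat.add (Nat.add (Nat.add (Nat.add (Nat.add (Nat.add C x8305) x22885) x20941) x21265) x21481) x21409) x21445) x21433) x21425) x41109) x1745)
    (Nat.sub (Nat.add (Nat.add (Nat.add (Nat.add (Nat.add (Nat.add (Nat.add (Nat.add (Nat.add C x8309) x22889) x20945) x21269) x21485) x21449) x21425) x21433) x41113) (Nat.mul x21431 (nat_lit 2)))
    (Nat.add (Nat.add (Nat.add (Nat.add (Nat.add (Nat.add (Nat.add (Nat.add (Nat.add (Nat.add (Nat.add C x8311) x22891) x20947) x21271) x21487) x21451) x21427) x21431) x21435) x41115) x1751)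
    (Nat.add (Nat.add (Nat.add (Nat.add (Nat.add (Nat.add (Nat.add (Nat.add C x8313) x22893) x20949) x21273) x21489) x21453) x21433) x1753)
    (Nat.sub (Nat.add (Nat.add (Nat.add (Nat.add (Nat.add (Nat.add (Nat.add (Nat.add (Nat.add C x8321) x22901) x20957) x21281) x21497) x21425) x21449) x21445) x41125) (Nat.mul x21443 (nat_lit 2)))
    (Nat.sub (Nat.add (Nat.add (Nat.add (Nat.add (Nat.add (Nat.add (Nat.add (Nat.add (Nat.add (Nat.add C x8323) x22903) x20959) x21283) x21499) x21427) x21451) x21443) x41127) x1763) (Nat.mul x21445 (nat_lit 3)))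
    (Nat.sub (Nat.add (Nat.add (Nat.add (Nat.add (Nat.add (Nat.add (Nat.add (Nat.add (Nat.add C x8327) x22907) x20963) x21287) x21503) x21431) x21443) x21451) x41131) (Nat.mul x21449 (nat_lit 2)))
    (Nat.sub (Nat.add (Nat.add (Nat.add (Nat.add (Nat.add (Nat.add (Nat.add (Nat.add (Nat.add (Nat.add (Nat.add (Nat.add C x8329) x22909) x20965) x21289) x21505) x21433) x21445) x21457) x21449) x21453) x41133) x1769) x21451)
    (Nat.sub (Nat.add (Nat.add (Nat.add (Nat.add (Nat.add (Nat.add (Nat.add (Nat.add (Nat.add C x8331) x22911) x20967) x21291) x21507) x21435) x21459) x21451) x1771) (Nat.mul x21453 (nat_lit 2)))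
    (Nat.sub (Nat.add (Nat.add (Nat.add (Nat.add (Nat.add (Nat.add (Nat.add (Nat.add (Nat.add C x8335) x22915) x20971) x21295) x21511) x21451) x21459) x41139) x1775) x21457)
    (Nat.add (Nat.add (Nat.add (Nat.add (Nat.add (Nat.add (Nat.add (Nat.add C x8337) x22917) x20973) x21297) x21513) x21453) x21457) x1777)
    (Nat.add (Nat.add (Nat.add (Nat.add (Nat.add (Nat.add (Nat.add (Nat.add (Nat.add C x21473) x8351) x22931) x20987) x21311) x21635) x21419) x21479) x41155)
    (Nat.add (Nat.add (Nat.add (Nat.add (Nat.add (Nat.add (Nat.add (Nat.add (Nat.add (Nat.add (Nat.add C x8357) x22937) x20993) x21317) x21641) x21425) x21497) x21473) x21485) x21481) x41161)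
    (Nat.add (Nat.add (Nat.add (Nat.add (Nat.add (Nat.add (Nat.add (Nat.add (Nat.add (Nat.add (Nat.add C x8359) x22939) x20995) x21319) x21643) x21427) x21499) x21487) x21479) x41163) x1799)
    (Nat.sub (Nat.add (Nat.add (Nat.add (Nat.add (Nat.add (Nat.add (Nat.add (Nat.add (Nat.add (Nat.add C x8363) x22943) x20999) x21323) x21647) x21431) x21503) x21479) x21487) x41167) (Nat.mul x21485 (nat_lit 3)))
    (Nat.sub (Nat.add (Nat.add (Nat.add (Nat.add (Nat.add (Nat.add (Nat.add (Nat.add (Nat.add (Nat.add (Nat.add (Nat.add C x8365) x22945) x21001) x21325) x21649) x21433) x21505) x21481) x21485) x21489) x41169) x1805) x21487)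
    (Nat.sub (Nat.add (Nat.add (Nat.add (Nat.add (Nat.add (Nat.add (Nat.add (Nat.add (Nat.add C x8367) x22947) x21003) x21327) x21651) x21435) x21507) x21487) x1807) x21489)
    (Nat.add (Nat.add (Nat.add (Nat.add (Nat.add (Nat.add (Nat.add (Nat.add (Nat.add (Nat.add (Nat.add C x8375) x22955) x21011) x21335) x21659) x21443) x21551) x21479) x21503) x21499) x41179)
    (Nat.sub (Nat.add (Nat.add (Nat.add (Nat.add (Nat.add (Nat.add (Nat.add (Nat.add (Nat.add (Nat.add (Nat.add (Nat.add C x8377) x22957) x21013) x21337) x21661) x21445) x21553) x21481) x21505) x21497) x41181) x1817) x21499)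
    (Nat.sub (Nat.add (Nat.add (Nat.add (Nat.add (Nat.add (Nat.add (Nat.add (Nat.add (Nat.add (Nat.add (Nat.add (Nat.add C x8381) x22961) x21017) x21341) x21665) x21449) x21557) x21485) x21521) x21497) x21505) x41185) x21503)
    (Nat.add (Nat.add (Nat.add (Nat.add (Nat.add (Nat.add (Nat.add (Nat.add (Nat.add (Nat.add (Nat.add (Nat.add (Nat.add (Nat.add (Nat.add C x8383) x22963) x21019) x21343) x21667) x21451) x21559) x21487) x21523) x21499) x21511) x21503) x21507) x41187) x1823)
    (Nat.sub (Nat.add (Nat.add (Nat.add (Nat.add (Nat.add (Nat.add (Nat.add (Nat.add (Nat.add (Nat.add (Nat.add (Nat.add C x8385) x22965) x21021) x21345) x21669) x21453) x21561) x21489) x21525) x21513) x21505) x1825) x21507)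
    (Nat.sub (Nat.add (Nat.add (Nat.add (Nat.add (Nat.add (Nat.add (Nat.add (Nat.add (Nat.add (Nat.add (Nat.add (Nat.add C x8389) x22969) x21025) x21349) x21673) x21457) x21565) x21529) x21505) x21513) x41193) x1829) x21511)
    (Nat.add (Nat.add (Nat.add (Nat.add (Nat.add (Nat.add (Nat.add (Nat.add (Nat.add (Nat.add (Nat.add C x8391) x22971) x21027) x21351) x21675) x21459) x21567) x21531) x21507) x21511) x1831)
    (Nat.sub (Nat.add (Nat.add (Nat.add (Nat.add (Nat.add (Nat.add (Nat.add (Nat.add (Nat.add C x8399) x22979) x21035) x21359) x21683) x21575) x21503) x21523) x41203) x21521)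
    (Nat.sub (Nat.add (Nat.add (Nat.add (Nat.add (Nat.add (Nat.add (Nat.add (Nat.add (Nat.add (Nat.add (Nat.add (Nat.add C x8401) x22981) x21037) x21361) x21685) x21577) x21505) x21529) x21521) x21525) x41205) x1841) x21523)
    (Nat.sub (Nat.add (Nat.add (Nat.add (Nat.add (Nat.add (Nat.add (Nat.add (Nat.add (Nat.add (Nat.add C x8403) x22983) x21039) x21363) x21687) x21579) x21507) x21531) x21523) x1843) (Nat.mul x21525 (nat_lit 3)))
    (Nat.add (Nat.add (Nat.add (Nat.add (Nat.add (Nat.add (Nat.add (Nat.add (Nat.add (Nat.add (Nat.add C x8407) x22987) x21043) x21367) x21691) x21583) x21511) x21523) x21531) x41211) x1847)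
    (Nat.add (Nat.add (Nat.add (Nat.add (Nat.add (Nat.add (Nat.add (Nat.add (Nat.add (Nat.add (Nat.add C x8409) x22989) x21045) x21369) x21693) x21585) x21513) x21525) x21537) x21529) x1849)
    (Nat.add (Nat.add (Nat.add (Nat.add (Nat.add (Nat.add (Nat.add (Nat.add (Nat.add C x21537) x8415) x22995) x21051) x21375) x21699) x21591) x21531) x1855)
    (Nat.add (Nat.add (Nat.add (Nat.add (Nat.add (Nat.add (Nat.add (Nat.add C x8429) x23009) x21065) x21713) x21497) x21557) x21553) x41233)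
    (Nat.sub (Nat.add (Nat.add (Nat.add (Nat.add (Nat.add (Nat.add (Nat.add (Nat.add (Nat.add C x8431) x23011) x21067) x21715) x21499) x21559) x21551) x41235) x1871) x21553)
    (Nat.sub (Nat.add (Nat.add (Nat.add (Nat.add (Nat.add (Nat.add (Nat.add (Nat.add (Nat.add C x8435) x23015) x21071) x21719) x21503) x21575) x21551) x21559) x41239) (Nat.mul x21557 (nat_lit 2)))
    (Nat.sub (Nat.add (Nat.add (Nat.add (Nat.add (Nat.add (Nat.add (Nat.add (Nat.add (Nat.add (Nat.add (Nat.add (Nat.add C x8437) x23017) x21073) x21721) x21505) x21577) x21553) x21565) x21557) x21561) x41241) x1877) x21559)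
    (Nat.sub (Nat.add (Nat.add (Nat.add (Nat.add (Nat.add (Nat.add (Nat.add (Nat.add (Nat.add C x8439) x23019) x21075) x21723) x21507) x21579) x21567) x21559) x1879) (Nat.mul x21561 (nat_lit 2)))
    (Nat.sub (Nat.add (Nat.add (Nat.add (Nat.add (Nat.add (Nat.add (Nat.add (Nat.add (Nat.add (Nat.add C x8443) x23023) x21079) x21727) x21511) x21583) x21559) x21567) x41247) x1883) (Nat.mul x21565 (nat_lit 3)))
    (Nat.sub (Nat.add (Nat.add (Nat.add (Nat.add (Nat.add (Nat.add (Nat.add (Nat.add (Nat.add C x8445) x23025) x21081) x21729) x21513) x21585) x21561) x21565) x1885) (Nat.mul x21567 (nat_lit 2)))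
    (Nat.add (Nat.add (Nat.add (Nat.add (Nat.add (Nat.add (Nat.add (Nat.add C x8453) x23033) x21089) x21737) x21521) x21557) x21577) x41257)
    (Nat.add (Nat.add (Nat.add (Nat.add (Nat.add (Nat.add (Nat.add (Nat.add (Nat.add (Nat.add (Nat.add C x8455) x23035) x21091) x21739) x21523) x21559) x21583) x21575) x21579) x41259) x1895)
    (Nat.sub (Nat.add (Nat.add (Nat.add (Nat.add (Nat.add (Nat.add (Nat.add (Nat.add (Nat.add C x8457) x23037) x21093) x21741) x21525) x21561) x21585) x21577) x1897) (Nat.mul x21579 (nat_lit 2)))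
    (Nat.add (Nat.add (Nat.add (Nat.add (Nat.add (Nat.add (Nat.add (Nat.add (Nat.add (Nat.add (Nat.add C x8461) x23041) x21097) x21745) x21529) x21565) x21601) x21577) x21585) x41265) x1901)
    (Nat.add (Nat.add (Nat.add (Nat.add (Nat.add (Nat.add (Nat.add (Nat.add (Nat.add (Nat.add (Nat.add C x8463) x23043) x21099) x21747) x21531) x21567) x21603) x21579) x21591) x21583) x1903)
    (Nat.add (Nat.add (Nat.add (Nat.add (Nat.add (Nat.add (Nat.add (Nat.add C x8469) x23049) x21105) x21753) x21537) x21609) x21585) x1909)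
    (Nat.add (Nat.add (Nat.add (Nat.add (Nat.add (Nat.add (Nat.add (Nat.add (Nat.add C x21601) x8479) x23059) x21115) x21763) x21583) x21603) x41283) x1919)
    (Nat.add (Nat.add (Nat.add (Nat.add (Nat.add (Nat.add (Nat.add (Nat.add C x8481) x23061) x21117) x21765) x21585) x21609) x21601) x1921)
    (Nat.add (Nat.add (Nat.add (Nat.add (Nat.add (Nat.add (Nat.add (Nat.add C (Nat.mul x21609 (nat_lit 2))) x8487) x23067) x21123) x21771) x21591) x21603) x1927)
    (Nat.add (Nat.add (Nat.add (Nat.add (Nat.add (Nat.add C (Nat.mul x21635 (nat_lit 2))) x8513) x23093) x21473) x21641) x41317)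
    (Nat.add (Nat.add (Nat.add (Nat.add (Nat.add (Nat.add (Nat.add (Nat.add (Nat.add C x21641) x8519) x23099) x21479) x21659) x21635) x21647) x21643) x41323)
    (Nat.add (Nat.add (Nat.add (Nat.add (Nat.add (Nat.add (Nat.add (Nat.add (Nat.add C x21643) x8521) x23101) x21481) x21661) x21649) x21641) x41325) x1961)
    (Nat.sub (Nat.add (Nat.add (Nat.add (Nat.add (Nat.add (Nat.add (Nat.add C x8525) x23105) x21485) x21665) x21641) x21649) x41329) (Nat.mul x21647 (nat_lit 2)))
    (Nat.add (Nat.add (Nat.add (Nat.add (Nat.add (Nat.add (Nat.add (Nat.add (Nat.add C x8527) x23107) x21487) x21667) x21643) x21647) x21651) x41331) x1967)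
    (Nat.add (Nat.add (Nat.add (Nat.add (Nat.add (Nat.add C x8529) x23109) x21489) x21669) x21649) x1969)
    (Nat.add (Nat.add (Nat.add (Nat.add (Nat.add (Nat.add (Nat.add (Nat.add C x8537) x23117) x21497) x21713) x21641) x21665) x21661) x41341)
    (Nat.sub (Nat.add (Nat.add (Nat.add (Nat.add (Nat.add (Nat.add (Nat.add (Nat.add (Nat.add C x8539) x23119) x21499) x21715) x21643) x21667) x21659) x41343) x1979) x21661)
    (Nat.sub (Nat.add (Nat.add (Nat.add (Nat.add (Nat.add (Nat.add (Nat.add (Nat.add (Nat.add C x8543) x23123) x21503) x21719) x21647) x21683) x21659) x21667) x41347) x21665)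
    (Nat.add (Nat.add (Nat.add (Nat.add (Nat.add (Nat.add (Nat.add (Nat.add (Nat.add (Nat.add (Nat.add (Nat.add C x8545) x23125) x21505) x21721) x21649) x21685) x21661) x21673) x21665) x21669) x41349) x1985)
    (Nat.sub (Nat.add (Nat.add (Nat.add (Nat.add (Nat.add (Nat.add (Nat.add (Nat.add (Nat.add C x8547) x23127) x21507) x21723) x21651) x21687) x21675) x21667) x1987) x21669)
    (Nat.sub (Nat.add (Nat.add (Nat.add (Nat.add (Nat.add (Nat.add (Nat.add (Nat.add (Nat.add C x8551) x23131) x21511) x21727) x21691) x21667) x21675) x41355) x1991) x21673)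
    (Nat.add (Nat.add (Nat.add (Nat.add (Nat.add (Nat.add (Nat.add (Nat.add C x8553) x23133) x21513) x21729) x21693) x21669) x21673) x1993)
    (Nat.sub (Nat.add (Nat.add (Nat.add (Nat.add (Nat.add (Nat.add (Nat.add C x8561) x23141) x21521) x21737) x21665) x21685) x41365) (Nat.mul x21683 (nat_lit 2)))
    (Nat.sub (Nat.add (Nat.add (Nat.add (Nat.add (Nat.add (Nat.add (Nat.add (Nat.add (Nat.add (Nat.add C x8563) x23143) x21523) x21739) x21667) x21691) x21683) x21687) x41367) x2003) (Nat.mul x21685 (nat_lit 2)))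
    (Nat.sub (Nat.add (Nat.add (Nat.add (Nat.add (Nat.add (Nat.add (Nat.add (Nat.add C x8565) x23145) x21525) x21741) x21669) x21693) x21685) x2005) (Nat.mul x21687 (nat_lit 4)))
    (Nat.sub (Nat.add (Nat.add (Nat.add (Nat.add (Nat.add (Nat.add (Nat.add (Nat.add (Nat.add C x8569) x23149) x21529) x21745) x21673) x21685) x21693) x41373) x2009) x21691)
    (Nat.sub (Nat.add (Nat.add (Nat.add (Nat.add (Nat.add (Nat.add (Nat.add (Nat.add (Nat.add C x8571) x23151) x21531) x21747) x21675) x21687) x21699) x21691) x2011) x21693)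
    (Nat.add (Nat.add (Nat.add (Nat.add (Nat.add (Nat.add C x8577) x23157) x21537) x21753) x21693) x2017)
    (Nat.add (Nat.add (Nat.add (Nat.add (Nat.add (Nat.add (Nat.add (Nat.add C (Nat.mul x21713 (nat_lit 2))) x8591) x23171) x21551) x21659) x21719) x21715) x41395)
    (Nat.add (Nat.add (Nat.add (Nat.add (Nat.add (Nat.add (Nat.add (Nat.add (Nat.add C x21715) x8593) x23173) x21553) x21661) x21721) x21713) x41397) x2033)
    (Nat.add (Nat.add (Nat.add (Nat.add (Nat.add (Nat.add (Nat.add (Nat.add C x8597) x23177) x21557) x21665) x21737) x21713) x21721) x41401)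
    (Nat.add (Nat.add (Nat.add (Nat.add (Nat.add (Nat.add (Nat.add (Nat.add (Nat.add (Nat.add (Nat.add (Nat.add C x21721) x8599) x23179) x21559) x21667) x21739) x21715) x21727) x21719) x21723) x41403) x2039)
    (Nat.add (Nat.add (Nat.add (Nat.add (Nat.add (Nat.add (Nat.add (Nat.add C x8601) x23181) x21561) x21669) x21741) x21729) x21721) x2041)
    (Nat.sub (Nat.add (Nat.add (Nat.add (Nat.add (Nat.add (Nat.add (Nat.add (Nat.add (Nat.add C x8605) x23185) x21565) x21673) x21745) x21721) x21729) x41409) x2045) x21727)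
    (Nat.add (Nat.add (Nat.add (Nat.add (Nat.add (Nat.add (Nat.add (Nat.add C x8607) x23187) x21567) x21675) x21747) x21723) x21727) x2047)
    (Nat.add (Nat.add (Nat.add (Nat.add (Nat.add (Nat.add (Nat.add (Nat.add (Nat.add C x21737) x8615) x23195) x21575) x21683) x21791) x21719) x21739) x41419)
    (Nat.add (Nat.add (Nat.add (Nat.add (Nat.add (Nat.add (Nat.add (Nat.add (Nat.add (Nat.add (Nat.add (Nat.add C x21739) x8617) x23197) x21577) x21685) x21793) x21721) x21745) x21737) x21741) x41421) x2057)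
    (Nat.sub (Nat.add (Nat.add (Nat.add (Nat.add (Nat.add (Nat.add (Nat.add (Nat.add (Nat.add C x8619) x23199) x21579) x21687) x21795) x21723) x21747) x21739) x2059) x21741)
    (Nat.add (Nat.add (Nat.add (Nat.add (Nat.add (Nat.add (Nat.add (Nat.add (Nat.add (Nat.add (Nat.add (Nat.add C x21745) x8623) x23203) x21583) x21691) x21799) x21727) x21763) x21739) x21747) x41427) x2063)
    (Nat.add (Nat.add (Nat.add (Nat.add (Nat.add (Nat.add (Nat.add (Nat.add (Nat.add (Nat.add (Nat.add (Nat.add C x21747) x8625) x23205) x21585) x21693) x21801) x21729) x21765) x21741) x21753) x21745) x2065)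
    (Nat.add (Nat.add (Nat.add (Nat.add (Nat.add (Nat.add (Nat.add (Nat.add (Nat.add C x21753) x8631) x23211) x21591) x21699) x21807) x21771) x21747) x2071)
    (Nat.add (Nat.add (Nat.add (Nat.add (Nat.add (Nat.add (Nat.add (Nat.add (Nat.add C x21763) x8641) x23221) x21601) x21817) x21745) x21765) x41445) x2081)
    (Nat.add (Nat.add (Nat.add (Nat.add (Nat.add (Nat.add (Nat.add (Nat.add C x8643) x23223) x21603) x21819) x21747) x21771) x21763) x2083)
    (Nat.add (Nat.add (Nat.add (Nat.add (Nat.add (Nat.add (Nat.add (Nat.add C (Nat.mul x21771 (nat_lit 2))) x8649) x23229) x21609) x21825) x21753) x21765) x2089)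
    (Nat.add (Nat.add (Nat.add (Nat.add (Nat.add (Nat.add C (Nat.mul x21791 (nat_lit 2))) x8669) x23249) x21737) x21793) x41473)
    (Nat.add (Nat.add (Nat.add (Nat.add (Nat.add (Nat.add (Nat.add (Nat.add (Nat.add C (Nat.mul x21793 (nat_lit 2))) x8671) x23251) x21739) x21799) x21791) x21795) x41475) x2111)
    (Nat.add (Nat.add (Nat.add (Nat.add (Nat.add (Nat.add C x8673) x23253) x21741) x21801) x21793) x2113)
    (Nat.add (Nat.add (Nat.add (Nat.add (Nat.add (Nat.add (Nat.add (Nat.add (Nat.add C x21799) x8677) x23257) x21745) x21817) x21793) x21801) x41481) x2117)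
    (Nat.add (Nat.add (Nat.add (Nat.add (Nat.add (Nat.add (Nat.add (Nat.add (Nat.add C x21801) x8679) x23259) x21747) x21819) x21795) x21807) x21799) x2119)
    (Nat.add (Nat.add (Nat.add (Nat.add (Nat.add (Nat.add C x8685) x23265) x21753) x21825) x21801) x2125)
    (Nat.add (Nat.add (Nat.add (Nat.add (Nat.add (Nat.add (Nat.add (Nat.add C (Nat.mul x21817 (nat_lit 3))) x8695) x23275) x21763) x21799) x21819) x41499) x2135)
    (Nat.add (Nat.add (Nat.add (Nat.add (Nat.add (Nat.add (Nat.add (Nat.add C (Nat.mul x21819 (nat_lit 2))) x8697) x23277) x21765) x21801) x21825) x21817) x2137)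
    (Nat.add (Nat.add (Nat.add (Nat.add (Nat.add (Nat.add (Nat.add (Nat.add C (Nat.mul x21825 (nat_lit 3))) x8703) x23283) x21771) x21807) x21843) x21819) x2143)
    (Nat.add (Nat.add (Nat.add (Nat.add (Nat.add C (Nat.mul x21843 (nat_lit 4))) x8721) x23301) x21825) x2161)
    (Nat.add (Nat.add (Nat.add (Nat.add (Nat.add (Nat.add (Nat.add C (Nat.mul x21923 (nat_lit 4))) x8801) x26297) x20465) x21977) x21941) x41605)
    (Nat.add (Nat.add (Nat.add (Nat.add (Nat.add (Nat.add (Nat.add (Nat.add C (Nat.mul x21941 (nat_lit 2))) x8819) x26315) x20483) x21995) x21923) x21947) x41623)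
    (Nat.add (Nat.add (Nat.add (Nat.add (Nat.add (Nat.add (Nat.add (Nat.add C (Nat.mul x21947 (nat_lit 2))) x8825) x26321) x20489) x22001) x21941) x21949) x41629)
    (Nat.add (Nat.add (Nat.add (Nat.add (Nat.add (Nat.add (Nat.add (Nat.add C (Nat.mul x21949 (nat_lit 3))) x8827) x26323) x20491) x22003) x21947) x41631) x2267)
    (Nat.add (Nat.add (Nat.add (Nat.add (Nat.add (Nat.add (Nat.add (Nat.add C (Nat.mul x21977 (nat_lit 2))) x8855) x26351) x20519) x22139) x21923) x21995) x41659)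
    (Nat.add (Nat.add (Nat.add (Nat.add (Nat.add (Nat.add (Nat.add (Nat.add (Nat.add (Nat.add (Nat.add C (Nat.mul x21995 (nat_lit 2))) x8873) x26369) x20537) x22157) x21941) x22049) x21977) x22013) x22001) x41677)
    (Nat.add (Nat.add (Nat.add (Nat.add (Nat.add (Nat.add (Nat.add (Nat.add (Nat.add (Nat.add (Nat.add C x22001) x8879) x26375) x20543) x22163) x21947) x22055) x22019) x21995) x22003) x41683)
    (Nat.add (Nat.add (Nat.add (Nat.add (Nat.add (Nat.add (Nat.add (Nat.add (Nat.add (Nat.add (Nat.add C (Nat.mul x22003 (nat_lit 2))) x8881) x26377) x20545) x22165) x21949) x22057) x22021) x22001) x41685) x2321)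
    (Nat.add (Nat.add (Nat.add (Nat.add (Nat.add (Nat.add (Nat.add (Nat.add C x8891) x26387) x20555) x22175) x22067) x21995) x22019) x41695)
    (Nat.add (Nat.add (Nat.add (Nat.add (Nat.add (Nat.add (Nat.add (Nat.add (Nat.add (Nat.add (Nat.add C x22019) x8897) x26393) x20561) x22181) x22073) x22001) x22013) x22025) x22021) x41701)
    (Nat.add (Nat.add (Nat.add (Nat.add (Nat.add (Nat.add (Nat.add (Nat.add (Nat.add (Nat.add (Nat.add C x22021) x8899) x26395) x20563) x22183) x22075) x22003) x22027) x22019) x41703) x2339)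
    (Nat.add (Nat.add (Nat.add (Nat.add (Nat.add (Nat.add (Nat.add (Nat.add C x8903) x26399) x20567) x22187) x22079) x22019) x22027) x41707)
    (Nat.add (Nat.add (Nat.add (Nat.add (Nat.add (Nat.add (Nat.add (Nat.add (Nat.add (Nat.add (Nat.add C (Nat.mul x22027 (nat_lit 2))) x8905) x26401) x20569) x22189) x22081) x22021) x22025) x22029) x41709) x2345)
    (Nat.add (Nat.add (Nat.add (Nat.add (Nat.add (Nat.add (Nat.add (Nat.add C (Nat.mul x22029 (nat_lit 2))) x8907) x26403) x20571) x22191) x22083) x22027) x2347)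
    (Nat.add (Nat.add (Nat.add (Nat.add (Nat.add (Nat.add (Nat.add (Nat.add C x8927) x26423) x20591) x22211) x21995) x22067) x22055) x41731)
    (Nat.sub (Nat.add (Nat.add (Nat.add (Nat.add (Nat.add (Nat.add (Nat.add (Nat.add (Nat.add C x8933) x26429) x20597) x22217) x22001) x22073) x22049) x22057) x41737) (Nat.mul x22055 (nat_lit 2)))
    (Nat.sub (Nat.add (Nat.add (Nat.add (Nat.add (Nat.add (Nat.add (Nat.add (Nat.add (Nat.add C x8935) x26431) x20599) x22219) x22003) x22075) x22055) x41739) x2375) x22057)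
    (Nat.add (Nat.add (Nat.add (Nat.add (Nat.add (Nat.add (Nat.add (Nat.add C x8945) x26441) x20609) x22229) x22013) x22049) x22073) x41749)
    (Nat.add (Nat.add (Nat.add (Nat.add (Nat.add (Nat.add (Nat.add (Nat.add (Nat.add (Nat.add (Nat.add C x8951) x26447) x20615) x22235) x22019) x22055) x22091) x22067) x22079) x22075) x41755)
    (Nat.add (Nat.add (Nat.add (Nat.add (Nat.add (Nat.add (Nat.add (Nat.add (Nat.add (Nat.add (Nat.add C x8953) x26449) x20617) x22237) x22021) x22057) x22093) x22081) x22073) x41757) x2393)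
    (Nat.sub (Nat.add (Nat.add (Nat.add (Nat.add (Nat.add (Nat.add (Nat.add (Nat.add (Nat.add C x8957) x26453) x20621) x22241) x22025) x22097) x22073) x22081) x41761) (Nat.mul x22079 (nat_lit 2)))
    (Nat.add (Nat.add (Nat.add (Nat.add (Nat.add (Nat.add (Nat.add (Nat.add (Nat.add (Nat.add (Nat.add C x8959) x26455) x20623) x22243) x22027) x22099) x22075) x22079) x22083) x41763) x2399)
    (Nat.add (Nat.add (Nat.add (Nat.add (Nat.add (Nat.add (Nat.add (Nat.add C x8961) x26457) x20625) x22245) x22029) x22101) x22081) x2401)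
    (Nat.add (Nat.add (Nat.add (Nat.add (Nat.add (Nat.add (Nat.add (Nat.add C x8969) x26465) x20633) x22253) x22073) x22097) x22093) x41773)
    (Nat.sub (Nat.add (Nat.add (Nat.add (Nat.add (Nat.add (Nat.add (Nat.add (Nat.add (Nat.add C x8971) x26467) x20635) x22255) x22075) x22099) x22091) x41775) x2411) x22093)
    (Nat.add (Nat.add (Nat.add (Nat.add (Nat.add (Nat.add (Nat.add (Nat.add C x8975) x26471) x20639) x22259) x22079) x22091) x22099) x41779)
    (Nat.add (Nat.add (Nat.add (Nat.add (Nat.add (Nat.add (Nat.add (Nat.add (Nat.add (Nat.add (Nat.add (Nat.add C x22099) x8977) x26473) x20641) x22261) x22081) x22093) x22105) x22097) x22101) x41781) x2417)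
    (Nat.add (Nat.add (Nat.add (Nat.add (Nat.add (Nat.add (Nat.add (Nat.add C x8979) x26475) x20643) x22263) x22083) x22107) x22099) x2419)
    (Nat.add (Nat.add (Nat.add (Nat.add (Nat.add (Nat.add (Nat.add (Nat.add (Nat.add C x22105) x8983) x26479) x20647) x22267) x22099) x22107) x41787) x2423)
    (Nat.add (Nat.add (Nat.add (Nat.add (Nat.add (Nat.add (Nat.add (Nat.add C (Nat.mul x22107 (nat_lit 2))) x8985) x26481) x20649) x22269) x22101) x22105) x2425)
    (Nat.add (Nat.add (Nat.add (Nat.add (Nat.add (Nat.add (Nat.add (Nat.add C (Nat.mul x22139 (nat_lit 2))) x9017) x26513) x20681) x22625) x21977) x22157) x41821)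
    (Nat.add (Nat.add (Nat.add (Nat.add (Nat.add (Nat.add (Nat.add (Nat.add (Nat.add (Nat.add (Nat.add C x22157) x9035) x26531) x20699) x22643) x21995) x22211) x22139) x22175) x22163) x41839)
    (Nat.add (Nat.add (Nat.add (Nat.add (Nat.add (Nat.add (Nat.add (Nat.add (Nat.add (Nat.add C x9041) x26537) x20705) x22649) x22001) x22217) x22181) x22157) x22165) x41845)
    (Nat.add (Nat.add (Nat.add (Nat.add (Nat.add (Nat.add (Nat.add (Nat.add (Nat.add (Nat.add (Nat.add C x22165) x9043) x26539) x20707) x22651) x22003) x22219) x22183) x22163) x41847) x2483)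
    (Nat.sub (Nat.add (Nat.add (Nat.add (Nat.add (Nat.add (Nat.add (Nat.add (Nat.add (Nat.add C x9053) x26549) x20717) x22661) x22013) x22229) x22157) x22181) x41857) (Nat.mul x22175 (nat_lit 2)))
    (Nat.sub (Nat.add (Nat.add (Nat.add (Nat.add (Nat.add (Nat.add (Nat.add (Nat.add (Nat.add (Nat.add (Nat.add C x9059) x26555) x20723) x22667) x22019) x22235) x22163) x22175) x22187) x22183) x41863) x22181)
    (Nat.sub (Nat.add (Nat.add (Nat.add (Nat.add (Nat.add (Nat.add (Nat.add (Nat.add (Nat.add (Nat.add (Nat.add C x9061) x26557) x20725) x22669) x22021) x22237) x22165) x22189) x22181) x41865) x2501) x22183)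
    (Nat.sub (Nat.add (Nat.add (Nat.add (Nat.add (Nat.add (Nat.add (Nat.add (Nat.add (Nat.add C x9065) x26561) x20729) x22673) x22025) x22241) x22181) x22189) x41869) (Nat.mul x22187 (nat_lit 2)))
    (Nat.add (Nat.add (Nat.add (Nat.add (Nat.add (Nat.add (Nat.add (Nat.add (Nat.add (Nat.add (Nat.add C x9067) x26563) x20731) x22675) x22027) x22243) x22183) x22187) x22191) x41871) x2507)
    (Nat.add (Nat.add (Nat.add (Nat.add (Nat.add (Nat.add (Nat.add (Nat.add C x9069) x26565) x20733) x22677) x22029) x22245) x22189) x2509)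
    (Nat.add (Nat.add (Nat.add (Nat.add (Nat.add (Nat.add (Nat.add (Nat.add (Nat.add (Nat.add (Nat.add C x22211) x9089) x26585) x20753) x22697) x22049) x22373) x22157) x22229) x22217) x41893)
    (Nat.sub (Nat.add (Nat.add (Nat.add (Nat.add (Nat.add (Nat.add (Nat.add (Nat.add (Nat.add (Nat.add (Nat.add C x9095) x26591) x20759) x22703) x22055) x22379) x22163) x22235) x22211) x22219) x41899) x22217)
    (Nat.add (Nat.add (Nat.add (Nat.add (Nat.add (Nat.add (Nat.add (Nat.add (Nat.add (Nat.add (Nat.add C x9097) x26593) x20761) x22705) x22057) x22381) x22165) x22237) x22217) x41901) x2537)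
    (Nat.add (Nat.add (Nat.add (Nat.add (Nat.add (Nat.add (Nat.add (Nat.add (Nat.add (Nat.add (Nat.add C x9107) x26603) x20771) x22715) x22067) x22391) x22175) x22283) x22211) x22235) x41911)
    (Nat.add (Nat.add (Nat.add (Nat.add (Nat.add (Nat.add (Nat.add (Nat.add (Nat.add (Nat.add (Nat.add (Nat.add (Nat.add (Nat.add C x9113) x26609) x20777) x22721) x22073) x22397) x22181) x22289) x22217) x22253) x22229) x22241) x22237) x41917)
    (Nat.add (Nat.add (Nat.add (Nat.add (Nat.add (Nat.add (Nat.add (Nat.add (Nat.add (Nat.add (Nat.add (Nat.add (Nat.add (Nat.add C x9115) x26611) x20779) x22723) x22075) x22399) x22183) x22291) x22219) x22255) x22243) x22235) x41919) x2555)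
    (Nat.sub (Nat.add (Nat.add (Nat.add (Nat.add (Nat.add (Nat.add (Nat.add (Nat.add (Nat.add (Nat.add (Nat.add (Nat.add C x9119) x26615) x20783) x22727) x22079) x22403) x22187) x22295) x22259) x22235) x22243) x41923) (Nat.mul x22241 (nat_lit 2)))
    (Nat.add (Nat.add (Nat.add (Nat.add (Nat.add (Nat.add (Nat.add (Nat.add (Nat.add (Nat.add (Nat.add (Nat.add (Nat.add (Nat.add C x9121) x26617) x20785) x22729) x22081) x22405) x22189) x22297) x22261) x22237) x22241) x22245) x41925) x2561)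
    (Nat.add (Nat.add (Nat.add (Nat.add (Nat.add (Nat.add (Nat.add (Nat.add (Nat.add (Nat.add (Nat.add C x9123) x26619) x20787) x22731) x22083) x22407) x22191) x22299) x22263) x22243) x2563)
    (Nat.sub (Nat.add (Nat.add (Nat.add (Nat.add (Nat.add (Nat.add (Nat.add (Nat.add (Nat.add (Nat.add (Nat.add C x9131) x26627) x20795) x22739) x22091) x22415) x22307) x22235) x22259) x22255) x41935) x22253)
    (Nat.sub (Nat.add (Nat.add (Nat.add (Nat.add (Nat.add (Nat.add (Nat.add (Nat.add (Nat.add (Nat.add (Nat.add (Nat.add C x9133) x26629) x20797) x22741) x22093) x22417) x22309) x22237) x22261) x22253) x41937) x2573) (Nat.mul x22255 (nat_lit 2)))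
    (Nat.sub (Nat.add (Nat.add (Nat.add (Nat.add (Nat.add (Nat.add (Nat.add (Nat.add (Nat.add (Nat.add (Nat.add C x9137) x26633) x20801) x22745) x22097) x22421) x22313) x22241) x22253) x22261) x41941) x22259)
    (Nat.add (Nat.add (Nat.add (Nat.add (Nat.add (Nat.add (Nat.add (Nat.add (Nat.add (Nat.add (Nat.add (Nat.add (Nat.add (Nat.add C x9139) x26635) x20803) x22747) x22099) x22423) x22315) x22243) x22255) x22267) x22259) x22263) x41943) x2579)
    (Nat.sub (Nat.add (Nat.add (Nat.add (Nat.add (Nat.add (Nat.add (Nat.add (Nat.add (Nat.add (Nat.add (Nat.add C x9141) x26637) x20805) x22749) x22101) x22425) x22317) x22245) x22269) x22261) x2581) x22263)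
    (Nat.add (Nat.add (Nat.add (Nat.add (Nat.add (Nat.add (Nat.add (Nat.add (Nat.add (Nat.add (Nat.add C x9145) x26641) x20809) x22753) x22105) x22429) x22321) x22261) x22269) x41949) x2585)
    (Nat.add (Nat.add (Nat.add (Nat.add (Nat.add (Nat.add (Nat.add (Nat.add (Nat.add (Nat.add (Nat.add C x22269) x9147) x26643) x20811) x22755) x22107) x22431) x22323) x22263) x22267) x2587)
    (Nat.add (Nat.add (Nat.add (Nat.add (Nat.add (Nat.add (Nat.add (Nat.add C x9161) x26657) x20825) x22769) x22445) x22229) x22289) x41965)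
    (Nat.sub (Nat.add (Nat.add (Nat.add (Nat.add (Nat.add (Nat.add (Nat.add (Nat.add (Nat.add (Nat.add (Nat.add C x9167) x26663) x20831) x22775) x22451) x22235) x22307) x22283) x22295) x22291) x41971) x22289)
    (Nat.sub (Nat.add (Nat.add (Nat.add (Nat.add (Nat.add (Nat.add (Nat.add (Nat.add (Nat.add (Nat.add (Nat.add C x9169) x26665) x20833) x22777) x22453) x22237) x22309) x22297) x22289) x41973) x2609) x22291)
    (Nat.sub (Nat.add (Nat.add (Nat.add (Nat.add (Nat.add (Nat.add (Nat.add (Nat.add (Nat.add (Nat.add C x9173) x26669) x20837) x22781) x22457) x22241) x22313) x22289) x22297) x41977) (Nat.mul x22295 (nat_lit 4)))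
    (Nat.sub (Nat.add (Nat.add (Nat.add (Nat.add (Nat.add (Nat.add (Nat.add (Nat.add (Nat.add (Nat.add (Nat.add (Nat.add C x9175) x26671) x20839) x22783) x22459) x22243) x22315) x22291) x22295) x22299) x41979) x2615) (Nat.mul x22297 (nat_lit 2)))
    (Nat.sub (Nat.add (Nat.add (Nat.add (Nat.add (Nat.add (Nat.add (Nat.add (Nat.add (Nat.add C x9177) x26673) x20841) x22785) x22461) x22245) x22317) x22297) x2617) (Nat.mul x22299 (nat_lit 2)))
    (Nat.add (Nat.add (Nat.add (Nat.add (Nat.add (Nat.add (Nat.add (Nat.add (Nat.add (Nat.add C x9185) x26681) x20849) x22793) x22469) x22253) x22289) x22313) x22309) x41989)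
    (Nat.sub (Nat.add (Nat.add (Nat.add (Nat.add (Nat.add (Nat.add (Nat.add (Nat.add (Nat.add (Nat.add (Nat.add C x9187) x26683) x20851) x22795) x22471) x22255) x22291) x22315) x22307) x41991) x2627) x22309)
    (Nat.sub (Nat.add (Nat.add (Nat.add (Nat.add (Nat.add (Nat.add (Nat.add (Nat.add (Nat.add (Nat.add (Nat.add C x9191) x26687) x20855) x22799) x22475) x22259) x22295) x22331) x22307) x22315) x41995) x22313)
    (Nat.add (Nat.add (Nat.add (Nat.add (Nat.add (Nat.add (Nat.add (Nat.add (Nat.add (Nat.add (Nat.add (Nat.add (Nat.add (Nat.add C x9193) x26689) x20857) x22801) x22477) x22261) x22297) x22333) x22309) x22321) x22313) x22317) x41997) x2633)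
    (Nat.sub (Nat.add (Nat.add (Nat.add (Nat.add (Nat.add (Nat.add (Nat.add (Nat.add (Nat.add (Nat.add (Nat.add C x9195) x26691) x20859) x22803) x22479) x22263) x22299) x22335) x22323) x22315) x2635) x22317)
    (Nat.sub (Nat.add (Nat.add (Nat.add (Nat.add (Nat.add (Nat.add (Nat.add (Nat.add (Nat.add (Nat.add (Nat.add C x9199) x26695) x20863) x22807) x22483) x22267) x22339) x22315) x22323) x42003) x2639) x22321)
    (Nat.add (Nat.add (Nat.add (Nat.add (Nat.add (Nat.add (Nat.add (Nat.add (Nat.add (Nat.add C x9201) x26697) x20865) x22809) x22485) x22269) x22341) x22317) x22321) x2641)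
    (Nat.add (Nat.add (Nat.add (Nat.add (Nat.add (Nat.add (Nat.add (Nat.add C x9209) x26705) x20873) x22817) x22493) x22313) x22333) x42013)
    (Nat.add (Nat.add (Nat.add (Nat.add (Nat.add (Nat.add (Nat.add (Nat.add (Nat.add (Nat.add (Nat.add C x9211) x26707) x20875) x22819) x22495) x22315) x22339) x22331) x22335) x42015) x2651)
    (Nat.sub (Nat.add (Nat.add (Nat.add (Nat.add (Nat.add (Nat.add (Nat.add (Nat.add (Nat.add C x9213) x26709) x20877) x22821) x22497) x22317) x22341) x22333) x2653) (Nat.mul x22335 (nat_lit 2)))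
    (Nat.add (Nat.add (Nat.add (Nat.add (Nat.add (Nat.add (Nat.add (Nat.add (Nat.add (Nat.add (Nat.add C x22339) x9217) x26713) x20881) x22825) x22501) x22321) x22333) x22341) x42021) x2657)
    (Nat.add (Nat.add (Nat.add (Nat.add (Nat.add (Nat.add (Nat.add (Nat.add (Nat.add (Nat.add (Nat.add C x22341) x9219) x26715) x20883) x22827) x22503) x22323) x22335) x22347) x22339) x2659)
    (Nat.add (Nat.add (Nat.add (Nat.add (Nat.add (Nat.add (Nat.add (Nat.add C (Nat.mul x22347 (nat_lit 2))) x9225) x26721) x20889) x22833) x22509) x22341) x2665)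
    (Nat.add (Nat.add (Nat.add (Nat.add (Nat.add (Nat.add (Nat.add (Nat.add C x9251) x26747) x20915) x22859) x22211) x22391) x22379) x42055)
    (Nat.sub (Nat.add (Nat.add (Nat.add (Nat.add (Nat.add (Nat.add (Nat.add (Nat.add (Nat.add C x9257) x26753) x20921) x22865) x22217) x22397) x22373) x22381) x42061) (Nat.mul x22379 (nat_lit 2)))
    (Nat.sub (Nat.add (Nat.add (Nat.add (Nat.add (Nat.add (Nat.add (Nat.add (Nat.add (Nat.add C x9259) x26755) x20923) x22867) x22219) x22399) x22379) x42063) x2699) x22381)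
    (Nat.sub (Nat.add (Nat.add (Nat.add (Nat.add (Nat.add (Nat.add (Nat.add (Nat.add (Nat.add C x9269) x26765) x20933) x22877) x22229) x22445) x22373) x22397) x42073) (Nat.mul x22391 (nat_lit 2)))
    (Nat.sub (Nat.add (Nat.add (Nat.add (Nat.add (Nat.add (Nat.add (Nat.add (Nat.add (Nat.add (Nat.add (Nat.add (Nat.add C x9275) x26771) x20939) x22883) x22235) x22451) x22379) x22415) x22391) x22403) x22399) x42079) (Nat.mul x22397 (nat_lit 2)))
    (Nat.sub (Nat.add (Nat.add (Nat.add (Nat.add (Nat.add (Nat.add (Nat.add (Nat.add (Nat.add (Nat.add (Nat.add (Nat.add C x9277) x26773) x20941) x22885) x22237) x22453) x22381) x22417) x22405) x22397) x42081) x2717) (Nat.mul x22399 (nat_lit 2)))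
    (Nat.sub (Nat.add (Nat.add (Nat.add (Nat.add (Nat.add (Nat.add (Nat.add (Nat.add (Nat.add (Nat.add C x9281) x26777) x20945) x22889) x22241) x22457) x22421) x22397) x22405) x42085) (Nat.mul x22403 (nat_lit 4)))
    (Nat.sub (Nat.add (Nat.add (Nat.add (Nat.add (Nat.add (Nat.add (Nat.add (Nat.add (Nat.add (Nat.add (Nat.add (Nat.add C x9283) x26779) x20947) x22891) x22243) x22459) x22423) x22399) x22403) x22407) x42087) x2723) (Nat.mul x22405 (nat_lit 2)))
    (Nat.sub (Nat.add (Nat.add (Nat.add (Nat.add (Nat.add (Nat.add (Nat.add (Nat.add (Nat.add C x9285) x26781) x20949) x22893) x22245) x22461) x22425) x22405) x2725) (Nat.mul x22407 (nat_lit 2)))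
    (Nat.sub (Nat.add (Nat.add (Nat.add (Nat.add (Nat.add (Nat.add (Nat.add (Nat.add (Nat.add (Nat.add C x9293) x26789) x20957) x22901) x22253) x22469) x22397) x22421) x22417) x42097) (Nat.mul x22415 (nat_lit 4)))
    (Nat.sub (Nat.add (Nat.add (Nat.add (Nat.add (Nat.add (Nat.add (Nat.add (Nat.add (Nat.add (Nat.add (Nat.add C x9295) x26791) x20959) x22903) x22255) x22471) x22399) x22423) x22415) x42099) x2735) (Nat.mul x22417 (nat_lit 5)))
    (Nat.sub (Nat.add (Nat.add (Nat.add (Nat.add (Nat.add (Nat.add (Nat.add (Nat.add (Nat.add (Nat.add C x9299) x26795) x20963) x22907) x22259) x22475) x22403) x22415) x22423) x42103) (Nat.mul x22421 (nat_lit 4)))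
    (Nat.sub (Nat.add (Nat.add (Nat.add (Nat.add (Nat.add (Nat.add (Nat.add (Nat.add (Nat.add (Nat.add (Nat.add (Nat.add (Nat.add C x9301) x26797) x20965) x22909) x22261) x22477) x22405) x22417) x22429) x22421) x22425) x42105) x2741) (Nat.mul x22423 (nat_lit 3)))
    (Nat.sub (Nat.add (Nat.add (Nat.add (Nat.add (Nat.add (Nat.add (Nat.add (Nat.add (Nat.add (Nat.add C x9303) x26799) x20967) x22911) x22263) x22479) x22407) x22431) x22423) x2743) (Nat.mul x22425 (nat_lit 4)))
    (Nat.sub (Nat.add (Nat.add (Nat.add (Nat.add (Nat.add (Nat.add (Nat.add (Nat.add (Nat.add (Nat.add C x9307) x26803) x20971) x22915) x22267) x22483) x22423) x22431) x42111) x2747) (Nat.mul x22429 (nat_lit 3)))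
    (Nat.sub (Nat.add (Nat.add (Nat.add (Nat.add (Nat.add (Nat.add (Nat.add (Nat.add (Nat.add C x9309) x26805) x20973) x22917) x22269) x22485) x22425) x22429) x2749) (Nat.mul x22431 (nat_lit 2)))
    (Nat.add (Nat.add (Nat.add (Nat.add (Nat.add (Nat.add (Nat.add (Nat.add C x9323) x26819) x20987) x22931) x22283) x22391) x22451) x42127)
    (Nat.sub (Nat.add (Nat.add (Nat.add (Nat.add (Nat.add (Nat.add (Nat.add (Nat.add (Nat.add (Nat.add (Nat.add C x9329) x26825) x20993) x22937) x22289) x22397) x22469) x22445) x22457) x22453) x42133) x22451)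
    (Nat.sub (Nat.add (Nat.add (Nat.add (Nat.add (Nat.add (Nat.add (Nat.add (Nat.add (Nat.add (Nat.add (Nat.add C x9331) x26827) x20995) x22939) x22291) x22399) x22471) x22459) x22451) x42135) x2771) x22453)
    (Nat.sub (Nat.add (Nat.add (Nat.add (Nat.add (Nat.add (Nat.add (Nat.add (Nat.add (Nat.add (Nat.add C x9335) x26831) x20999) x22943) x22295) x22403) x22475) x22451) x22459) x42139) (Nat.mul x22457 (nat_lit 4)))
    (Nat.sub (Nat.add (Nat.add (Nat.add (Nat.add (Nat.add (Nat.add (Nat.add (Nat.add (Nat.add (Nat.add (Nat.add (Nat.add C x9337) x26833) x21001) x22945) x22297) x22405) x22477) x22453) x22457) x22461) x42141) x2777) (Nat.mul x22459 (nat_lit 2)))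
    (Nat.sub (Nat.add (Nat.add (Nat.add (Nat.add (Nat.add (Nat.add (Nat.add (Nat.add (Nat.add C x9339) x26835) x21003) x22947) x22299) x22407) x22479) x22459) x2779) (Nat.mul x22461 (nat_lit 2)))
    (Nat.sub (Nat.add (Nat.add (Nat.add (Nat.add (Nat.add (Nat.add (Nat.add (Nat.add (Nat.add (Nat.add (Nat.add C x9347) x26843) x21011) x22955) x22307) x22415) x22523) x22451) x22475) x22471) x42151) x22469)
    (Nat.sub (Nat.add (Nat.add (Nat.add (Nat.add (Nat.add (Nat.add (Nat.add (Nat.add (Nat.add (Nat.add (Nat.add (Nat.add C x9349) x26845) x21013) x22957) x22309) x22417) x22525) x22453) x22477) x22469) x42153) x2789) (Nat.mul x22471 (nat_lit 2)))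
    (Nat.sub (Nat.add (Nat.add (Nat.add (Nat.add (Nat.add (Nat.add (Nat.add (Nat.add (Nat.add (Nat.add (Nat.add (Nat.add C x9353) x26849) x21017) x22961) x22313) x22421) x22529) x22457) x22493) x22469) x22477) x42157) (Nat.mul x22475 (nat_lit 2)))
    (Nat.sub (Nat.add (Nat.add (Nat.add (Nat.add (Nat.add (Nat.add (Nat.add (Nat.add (Nat.add (Nat.add (Nat.add (Nat.add (Nat.add (Nat.add (Nat.add C x9355) x26851) x21019) x22963) x22315) x22423) x22531) x22459) x22495) x22471) x22483) x22475) x22479) x42159) x2795) x22477)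
    (Nat.sub (Nat.add (Nat.add (Nat.add (Nat.add (Nat.add (Nat.add (Nat.add (Nat.add (Nat.add (Nat.add (Nat.add (Nat.add C x9357) x26853) x21021) x22965) x22317) x22425) x22533) x22461) x22497) x22485) x22477) x2797) (Nat.mul x22479 (nat_lit 2)))
    (Nat.sub (Nat.add (Nat.add (Nat.add (Nat.add (Nat.add (Nat.add (Nat.add (Nat.add (Nat.add (Nat.add (Nat.add (Nat.add C x9361) x26857) x21025) x22969) x22321) x22429) x22537) x22501) x22477) x22485) x42165) x2801) (Nat.mul x22483 (nat_lit 2)))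
    (Nat.sub (Nat.add (Nat.add (Nat.add (Nat.add (Nat.add (Nat.add (Nat.add (Nat.add (Nat.add (Nat.add (Nat.add C x9363) x26859) x21027) x22971) x22323) x22431) x22539) x22503) x22479) x22483) x2803) x22485)
    (Nat.sub (Nat.add (Nat.add (Nat.add (Nat.add (Nat.add (Nat.add (Nat.add (Nat.add (Nat.add C x9371) x26867) x21035) x22979) x22331) x22547) x22475) x22495) x42175) (Nat.mul x22493 (nat_lit 2)))
    (Nat.sub (Nat.add (Nat.add (Nat.add (Nat.add (Nat.add (Nat.add (Nat.add (Nat.add (Nat.add (Nat.add (Nat.add (Nat.add C x9373) x26869) x21037) x22981) x22333) x22549) x22477) x22501) x22493) x22497) x42177) x2813) (Nat.mul x22495 (nat_lit 2)))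
    (Nat.sub (Nat.add (Nat.add (Nat.add (Nat.add (Nat.add (Nat.add (Nat.add (Nat.add (Nat.add (Nat.add C x9375) x26871) x21039) x22983) x22335) x22551) x22479) x22503) x22495) x2815) (Nat.mul x22497 (nat_lit 4)))
    (Nat.sub (Nat.add (Nat.add (Nat.add (Nat.add (Nat.add (Nat.add (Nat.add (Nat.add (Nat.add (Nat.add (Nat.add C x9379) x26875) x21043) x22987) x22339) x22555) x22483) x22495) x22503) x42183) x2819) x22501)
    (Nat.sub (Nat.add (Nat.add (Nat.add (Nat.add (Nat.add (Nat.add (Nat.add (Nat.add (Nat.add (Nat.add (Nat.add C x9381) x26877) x21045) x22989) x22341) x22557) x22485) x22497) x22509) x22501) x2821) x22503)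
    (Nat.add (Nat.add (Nat.add (Nat.add (Nat.add (Nat.add (Nat.add (Nat.add C x9387) x26883) x21051) x22995) x22347) x22563) x22503) x2827)
    (Nat.add (Nat.add (Nat.add (Nat.add (Nat.add (Nat.add (Nat.add (Nat.add C x9401) x26897) x21065) x23009) x22469) x22529) x22525) x42205)
    (Nat.sub (Nat.add (Nat.add (Nat.add (Nat.add (Nat.add (Nat.add (Nat.add (Nat.add (Nat.add C x9403) x26899) x21067) x23011) x22471) x22531) x22523) x42207) x2843) x22525)
    (Nat.sub (Nat.add (Nat.add (Nat.add (Nat.add (Nat.add (Nat.add (Nat.add (Nat.add (Nat.add C x9407) x26903) x21071) x23015) x22475) x22547) x22523) x22531) x42211) (Nat.mul x22529 (nat_lit 2)))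
    (Nat.sub (Nat.add (Nat.add (Nat.add (Nat.add (Nat.add (Nat.add (Nat.add (Nat.add (Nat.add (Nat.add (Nat.add (Nat.add C x9409) x26905) x21073) x23017) x22477) x22549) x22525) x22537) x22529) x22533) x42213) x2849) x22531)
    (Nat.sub (Nat.add (Nat.add (Nat.add (Nat.add (Nat.add (Nat.add (Nat.add (Nat.add (Nat.add C x9411) x26907) x21075) x23019) x22479) x22551) x22539) x22531) x2851) (Nat.mul x22533 (nat_lit 2)))
    (Nat.sub (Nat.add (Nat.add (Nat.add (Nat.add (Nat.add (Nat.add (Nat.add (Nat.add (Nat.add (Nat.add C x9415) x26911) x21079) x23023) x22483) x22555) x22531) x22539) x42219) x2855) (Nat.mul x22537 (nat_lit 3)))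
    (Nat.sub (Nat.add (Nat.add (Nat.add (Nat.add (Nat.add (Nat.add (Nat.add (Nat.add (Nat.add C x9417) x26913) x21081) x23025) x22485) x22557) x22533) x22537) x2857) (Nat.mul x22539 (nat_lit 2)))
    (Nat.add (Nat.add (Nat.add (Nat.add (Nat.add (Nat.add (Nat.add (Nat.add C x9425) x26921) x21089) x23033) x22493) x22529) x22549) x42229)
    (Nat.add (Nat.add (Nat.add (Nat.add (Nat.add (Nat.add (Nat.add (Nat.add (Nat.add (Nat.add (Nat.add C x9427) x26923) x21091) x23035) x22495) x22531) x22555) x22547) x22551) x42231) x2867)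
    (Nat.sub (Nat.add (Nat.add (Nat.add (Nat.add (Nat.add (Nat.add (Nat.add (Nat.add (Nat.add C x9429) x26925) x21093) x23037) x22497) x22533) x22557) x22549) x2869) (Nat.mul x22551 (nat_lit 2)))
    (Nat.add (Nat.add (Nat.add (Nat.add (Nat.add (Nat.add (Nat.add (Nat.add (Nat.add (Nat.add (Nat.add C x9433) x26929) x21097) x23041) x22501) x22537) x22573) x22549) x22557) x42237) x2873)
    (Nat.add (Nat.add (Nat.add (Nat.add (Nat.add (Nat.add (Nat.add (Nat.add (Nat.add (Nat.add (Nat.add C x9435) x26931) x21099) x23043) x22503) x22539) x22575) x22551) x22563) x22555) x2875)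
    (Nat.add (Nat.add (Nat.add (Nat.add (Nat.add (Nat.add (Nat.add (Nat.add C x9441) x26937) x21105) x23049) x22509) x22581) x22557) x2881)
    (Nat.add (Nat.add (Nat.add (Nat.add (Nat.add (Nat.add (Nat.add (Nat.add (Nat.add C x22573) x9451) x26947) x21115) x23059) x22555) x22575) x42255) x2891)
    (Nat.add (Nat.add (Nat.add (Nat.add (Nat.add (Nat.add (Nat.add (Nat.add C x9453) x26949) x21117) x23061) x22557) x22581) x22573) x2893)
    (Nat.add (Nat.add (Nat.add (Nat.add (Nat.add (Nat.add (Nat.add (Nat.add C (Nat.mul x22581 (nat_lit 2))) x9459) x26955) x21123) x23067) x22563) x22575) x2899)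
    (Nat.add (Nat.add (Nat.add (Nat.add (Nat.add (Nat.add (Nat.add (Nat.add C (Nat.mul x22625 (nat_lit 3))) x9503) x26999) x21167) x24083) x22139) x22643) x42307)
    (Nat.add (Nat.add (Nat.add (Nat.add (Nat.add (Nat.add (Nat.add (Nat.add (Nat.add (Nat.add (Nat.add C (Nat.mul x22643 (nat_lit 2))) x9521) x27017) x21185) x24101) x22157) x22697) x22625) x22661) x22649) x42325)
    (Nat.add (Nat.add (Nat.add (Nat.add (Nat.add (Nat.add (Nat.add (Nat.add (Nat.add (Nat.add (Nat.add C x22649) x9527) x27023) x21191) x24107) x22163) x22703) x22667) x22643) x22651) x42331)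
    (Nat.add (Nat.add (Nat.add (Nat.add (Nat.add (Nat.add (Nat.add (Nat.add (Nat.add (Nat.add (Nat.add C (Nat.mul x22651 (nat_lit 2))) x9529) x27025) x21193) x24109) x22165) x22705) x22669) x22649) x42333) x2969)
    (Nat.sub (Nat.add (Nat.add (Nat.add (Nat.add (Nat.add (Nat.add (Nat.add (Nat.add (Nat.add C x9539) x27035) x21203) x24119) x22175) x22715) x22643) x22667) x42343) x22661)
    (Nat.add (Nat.add (Nat.add (Nat.add (Nat.add (Nat.add (Nat.add (Nat.add (Nat.add (Nat.add (Nat.add C x9545) x27041) x21209) x24125) x22181) x22721) x22649) x22661) x22673) x22669) x42349)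
    (Nat.add (Nat.add (Nat.add (Nat.add (Nat.add (Nat.add (Nat.add (Nat.add (Nat.add (Nat.add (Nat.add C x9547) x27043) x21211) x24127) x22183) x22723) x22651) x22675) x22667) x42351) x2987)
    (Nat.sub (Nat.add (Nat.add (Nat.add (Nat.add (Nat.add (Nat.add (Nat.add (Nat.add (Nat.add C x9551) x27047) x21215) x24131) x22187) x22727) x22667) x22675) x42355) x22673)
    (Nat.add (Nat.add (Nat.add (Nat.add (Nat.add (Nat.add (Nat.add (Nat.add (Nat.add (Nat.add (Nat.add (Nat.add C x22675) x9553) x27049) x21217) x24133) x22189) x22729) x22669) x22673) x22677) x42357) x2993)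
    (Nat.add (Nat.add (Nat.add (Nat.add (Nat.add (Nat.add (Nat.add (Nat.add (Nat.add C x22677) x9555) x27051) x21219) x24135) x22191) x22731) x22675) x2995)
    (Nat.add (Nat.add (Nat.add (Nat.add (Nat.add (Nat.add (Nat.add (Nat.add (Nat.add (Nat.add (Nat.add C x22697) x9575) x27071) x21239) x24155) x22211) x22859) x22643) x22715) x22703) x42379)
    (Nat.sub (Nat.add (Nat.add (Nat.add (Nat.add (Nat.add (Nat.add (Nat.add (Nat.add (Nat.add (Nat.add (Nat.add C x9581) x27077) x21245) x24161) x22217) x22865) x22649) x22721) x22697) x22705) x42385) x22703)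
    (Nat.add (Nat.add (Nat.add (Nat.add (Nat.add (Nat.add (Nat.add (Nat.add (Nat.add (Nat.add (Nat.add C x9583) x27079) x21247) x24163) x22219) x22867) x22651) x22723) x22703) x42387) x3023)
    (Nat.add (Nat.add (Nat.add (Nat.add (Nat.add (Nat.add (Nat.add (Nat.add (Nat.add (Nat.add (Nat.add C x9593) x27089) x21257) x24173) x22229) x22877) x22661) x22769) x22697) x22721) x42397)
    (Nat.add (Nat.add (Nat.add (Nat.add (Nat.add (Nat.add (Nat.add (Nat.add (Nat.add (Nat.add (Nat.add (Nat.add (Nat.add (Nat.add C x9599) x27095) x21263) x24179) x22235) x22883) x22667) x22775) x22703) x22739) x22715) x22727) x22723) x42403)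
    (Nat.add (Nat.add (Nat.add (Nat.add (Nat.add (Nat.add (Nat.add (Nat.add (Nat.add (Nat.add (Nat.add (Nat.add (Nat.add (Nat.add C x9601) x27097) x21265) x24181) x22237) x22885) x22669) x22777) x22705) x22741) x22729) x22721) x42405) x3041)
    (Nat.sub (Nat.add (Nat.add (Nat.add (Nat.add (Nat.add (Nat.add (Nat.add (Nat.add (Nat.add (Nat.add (Nat.add (Nat.add C x9605) x27101) x21269) x24185) x22241) x22889) x22673) x22781) x22745) x22721) x22729) x42409) (Nat.mul x22727 (nat_lit 2)))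
    (Nat.add (Nat.add (Nat.add (Nat.add (Nat.add (Nat.add (Nat.add (Nat.add (Nat.add (Nat.add (Nat.add (Nat.add (Nat.add (Nat.add C x9607) x27103) x21271) x24187) x22243) x22891) x22675) x22783) x22747) x22723) x22727) x22731) x42411) x3047)
    (Nat.add (Nat.add (Nat.add (Nat.add (Nat.add (Nat.add (Nat.add (Nat.add (Nat.add (Nat.add (Nat.add C x9609) x27105) x21273) x24189) x22245) x22893) x22677) x22785) x22749) x22729) x3049)
    (Nat.sub (Nat.add (Nat.add (Nat.add (Nat.add (Nat.add (Nat.add (Nat.add (Nat.add (Nat.add (Nat.add (Nat.add C x9617) x27113) x21281) x24197) x22253) x22901) x22793) x22721) x22745) x22741) x42421) x22739)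
    (Nat.sub (Nat.add (Nat.add (Nat.add (Nat.add (Nat.add (Nat.add (Nat.add (Nat.add (Nat.add (Nat.add (Nat.add (Nat.add C x9619) x27115) x21283) x24199) x22255) x22903) x22795) x22723) x22747) x22739) x42423) x3059) (Nat.mul x22741 (nat_lit 2)))
    (Nat.sub (Nat.add (Nat.add (Nat.add (Nat.add (Nat.add (Nat.add (Nat.add (Nat.add (Nat.add (Nat.add (Nat.add C x9623) x27119) x21287) x24203) x22259) x22907) x22799) x22727) x22739) x22747) x42427) x22745)
    (Nat.add (Nat.add (Nat.add (Nat.add (Nat.add (Nat.add (Nat.add (Nat.add (Nat.add (Nat.add (Nat.add (Nat.add (Nat.add (Nat.add C x9625) x27121) x21289) x24205) x22261) x22909) x22801) x22729) x22741) x22753) x22745) x22749) x42429) x3065)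
    (Nat.sub (Nat.add (Nat.add (Nat.add (Nat.add (Nat.add (Nat.add (Nat.add (Nat.add (Nat.add (Nat.add (Nat.add C x9627) x27123) x21291) x24207) x22263) x22911) x22803) x22731) x22755) x22747) x3067) x22749)
    (Nat.add (Nat.add (Nat.add (Nat.add (Nat.add (Nat.add (Nat.add (Nat.add (Nat.add (Nat.add (Nat.add C x9631) x27127) x21295) x24211) x22267) x22915) x22807) x22747) x22755) x42435) x3071)
    (Nat.add (Nat.add (Nat.add (Nat.add (Nat.add (Nat.add (Nat.add (Nat.add (Nat.add (Nat.add (Nat.add C x22755) x9633) x27129) x21297) x24213) x22269) x22917) x22809) x22749) x22753) x3073)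
    (Nat.sub (Nat.add (Nat.add (Nat.add (Nat.add (Nat.add (Nat.add (Nat.add (Nat.add (Nat.add C x9647) x27143) x21311) x24227) x22283) x22931) x22715) x22775) x42451) x22769)
    (Nat.sub (Nat.add (Nat.add (Nat.add (Nat.add (Nat.add (Nat.add (Nat.add (Nat.add (Nat.add (Nat.add (Nat.add (Nat.add C x9653) x27149) x21317) x24233) x22289) x22937) x22721) x22793) x22769) x22781) x22777) x42457) (Nat.mul x22775 (nat_lit 2)))
    (Nat.sub (Nat.add (Nat.add (Nat.add (Nat.add (Nat.add (Nat.add (Nat.add (Nat.add (Nat.add (Nat.add (Nat.add (Nat.add C x9655) x27151) x21319) x24235) x22291) x22939) x22723) x22795) x22783) x22775) x42459) x3095) (Nat.mul x22777 (nat_lit 2)))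
    (Nat.sub (Nat.add (Nat.add (Nat.add (Nat.add (Nat.add (Nat.add (Nat.add (Nat.add (Nat.add (Nat.add (Nat.add C x9659) x27155) x21323) x24239) x22295) x22943) x22727) x22799) x22775) x22783) x42463) (Nat.mul x22781 (nat_lit 5)))
    (Nat.sub (Nat.add (Nat.add (Nat.add (Nat.add (Nat.add (Nat.add (Nat.add (Nat.add (Nat.add (Nat.add (Nat.add (Nat.add (Nat.add C x9661) x27157) x21325) x24241) x22297) x22945) x22729) x22801) x22777) x22781) x22785) x42465) x3101) (Nat.mul x22783 (nat_lit 3)))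
    (Nat.sub (Nat.add (Nat.add (Nat.add (Nat.add (Nat.add (Nat.add (Nat.add (Nat.add (Nat.add (Nat.add C x9663) x27159) x21327) x24243) x22299) x22947) x22731) x22803) x22783) x3103) (Nat.mul x22785 (nat_lit 3)))
    (Nat.sub (Nat.add (Nat.add (Nat.add (Nat.add (Nat.add (Nat.add (Nat.add (Nat.add (Nat.add (Nat.add (Nat.add C x9671) x27167) x21335) x24251) x22307) x22955) x22739) x22775) x22799) x22795) x42475) x22793)
    (Nat.sub (Nat.add (Nat.add (Nat.add (Nat.add (Nat.add (Nat.add (Nat.add (Nat.add (Nat.add (Nat.add (Nat.add (Nat.add C x9673) x27169) x21337) x24253) x22309) x22957) x22741) x22777) x22801) x22793) x42477) x3113) (Nat.mul x22795 (nat_lit 2)))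
    (Nat.sub (Nat.add (Nat.add (Nat.add (Nat.add (Nat.add (Nat.add (Nat.add (Nat.add (Nat.add (Nat.add (Nat.add (Nat.add C x9677) x27173) x21341) x24257) x22313) x22961) x22745) x22781) x22817) x22793) x22801) x42481) (Nat.mul x22799 (nat_lit 2)))
    (Nat.sub (Nat.add (Nat.add (Nat.add (Nat.add (Nat.add (Nat.add (Nat.add (Nat.add (Nat.add (Nat.add (Nat.add (Nat.add (Nat.add (Nat.add (Nat.add C x9679) x27175) x21343) x24259) x22315) x22963) x22747) x22783) x22819) x22795) x22807) x22799) x22803) x42483) x3119) x22801)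
    (Nat.sub (Nat.add (Nat.add (Nat.add (Nat.add (Nat.add (Nat.add (Nat.add (Nat.add (Nat.add (Nat.add (Nat.add (Nat.add C x9681) x27177) x21345) x24261) x22317) x22965) x22749) x22785) x22821) x22809) x22801) x3121) (Nat.mul x22803 (nat_lit 2)))
    (Nat.sub (Nat.add (Nat.add (Nat.add (Nat.add (Nat.add (Nat.add (Nat.add (Nat.add (Nat.add (Nat.add (Nat.add (Nat.add C x9685) x27181) x21349) x24265) x22321) x22969) x22753) x22825) x22801) x22809) x42489) x3125) (Nat.mul x22807 (nat_lit 2)))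
    (Nat.sub (Nat.add (Nat.add (Nat.add (Nat.add (Nat.add (Nat.add (Nat.add (Nat.add (Nat.add (Nat.add (Nat.add C x9687) x27183) x21351) x24267) x22323) x22971) x22755) x22827) x22803) x22807) x3127) x22809)
    (Nat.sub (Nat.add (Nat.add (Nat.add (Nat.add (Nat.add (Nat.add (Nat.add (Nat.add (Nat.add C x9695) x27191) x21359) x24275) x22331) x22979) x22799) x22819) x42499) x22817)
    (Nat.sub (Nat.add (Nat.add (Nat.add (Nat.add (Nat.add (Nat.add (Nat.add (Nat.add (Nat.add (Nat.add (Nat.add (Nat.add C x9697) x27193) x21361) x24277) x22333) x22981) x22801) x22825) x22817) x22821) x42501) x3137) x22819)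
    (Nat.sub (Nat.add (Nat.add (Nat.add (Nat.add (Nat.add (Nat.add (Nat.add (Nat.add (Nat.add (Nat.add C x9699) x27195) x21363) x24279) x22335) x22983) x22803) x22827) x22819) x3139) (Nat.mul x22821 (nat_lit 3)))
    (Nat.add (Nat.add (Nat.add (Nat.add (Nat.add (Nat.add (Nat.add (Nat.add (Nat.add (Nat.add (Nat.add C x9703) x27199) x21367) x24283) x22339) x22987) x22807) x22819) x22827) x42507) x3143)
    (Nat.add (Nat.add (Nat.add (Nat.add (Nat.add (Nat.add (Nat.add (Nat.add (Nat.add (Nat.add (Nat.add C x9705) x27201) x21369) x24285) x22341) x22989) x22809) x22821) x22833) x22825) x3145)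
    (Nat.add (Nat.add (Nat.add (Nat.add (Nat.add (Nat.add (Nat.add (Nat.add (Nat.add C x22833) x9711) x27207) x21375) x24291) x22347) x22995) x22827) x3151)
    (Nat.add (Nat.add (Nat.add (Nat.add (Nat.add (Nat.add (Nat.add (Nat.add (Nat.add (Nat.add (Nat.add C (Nat.mul x22859 (nat_lit 2))) x9737) x27233) x21401) x24317) x22373) x23345) x22697) x22877) x22865) x42541)
    (Nat.add (Nat.add (Nat.add (Nat.add (Nat.add (Nat.add (Nat.add (Nat.add (Nat.add (Nat.add (Nat.add C x9743) x27239) x21407) x24323) x22379) x23351) x22703) x22883) x22859) x22867) x42547)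
    (Nat.add (Nat.add (Nat.add (Nat.add (Nat.add (Nat.add (Nat.add (Nat.add (Nat.add (Nat.add (Nat.add (Nat.add C x22867) x9745) x27241) x21409) x24325) x22381) x23353) x22705) x22885) x22865) x42549) x3185)
    (Nat.add (Nat.add (Nat.add (Nat.add (Nat.add (Nat.add (Nat.add (Nat.add (Nat.add (Nat.add (Nat.add C x9755) x27251) x21419) x24335) x22391) x23363) x22715) x22931) x22859) x22883) x42559)
    (Nat.add (Nat.add (Nat.add (Nat.add (Nat.add (Nat.add (Nat.add (Nat.add (Nat.add (Nat.add (Nat.add (Nat.add (Nat.add (Nat.add C x9761) x27257) x21425) x24341) x22397) x23369) x22721) x22937) x22865) x22901) x22877) x22889) x22885) x42565)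
    (Nat.add (Nat.add (Nat.add (Nat.add (Nat.add (Nat.add (Nat.add (Nat.add (Nat.add (Nat.add (Nat.add (Nat.add (Nat.add (Nat.add C x9763) x27259) x21427) x24343) x22399) x23371) x22723) x22939) x22867) x22903) x22891) x22883) x42567) x3203)
    (Nat.sub (Nat.add (Nat.add (Nat.add (Nat.add (Nat.add (Nat.add (Nat.add (Nat.add (Nat.add (Nat.add (Nat.add (Nat.add C x9767) x27263) x21431) x24347) x22403) x23375) x22727) x22943) x22907) x22883) x22891) x42571) (Nat.mul x22889 (nat_lit 2)))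
    (Nat.add (Nat.add (Nat.add (Nat.add (Nat.add (Nat.add (Nat.add (Nat.add (Nat.add (Nat.add (Nat.add (Nat.add (Nat.add (Nat.add C x9769) x27265) x21433) x24349) x22405) x23377) x22729) x22945) x22909) x22885) x22889) x22893) x42573) x3209)
    (Nat.add (Nat.add (Nat.add (Nat.add (Nat.add (Nat.add (Nat.add (Nat.add (Nat.add (Nat.add (Nat.add C x9771) x27267) x21435) x24351) x22407) x23379) x22731) x22947) x22911) x22891) x3211)
    (Nat.sub (Nat.add (Nat.add (Nat.add (Nat.add (Nat.add (Nat.add (Nat.add (Nat.add (Nat.add (Nat.add (Nat.add (Nat.add C x9779) x27275) x21443) x24359) x22415) x23387) x22739) x22955) x22883) x22907) x22903) x42583) (Nat.mul x22901 (nat_lit 2)))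
    (Nat.sub (Nat.add (Nat.add (Nat.add (Nat.add (Nat.add (Nat.add (Nat.add (Nat.add (Nat.add (Nat.add (Nat.add (Nat.add (Nat.add C x9781) x27277) x21445) x24361) x22417) x23389) x22741) x22957) x22885) x22909) x22901) x42585) x3221) (Nat.mul x22903 (nat_lit 3)))
    (Nat.sub (Nat.add (Nat.add (Nat.add (Nat.add (Nat.add (Nat.add (Nat.add (Nat.add (Nat.add (Nat.add (Nat.add (Nat.add C x9785) x27281) x21449) x24365) x22421) x23393) x22745) x22961) x22889) x22901) x22909) x42589) (Nat.mul x22907 (nat_lit 2)))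
    (Nat.sub (Nat.add (Nat.add (Nat.add (Nat.add (Nat.add (Nat.add (Nat.add (Nat.add (Nat.add (Nat.add (Nat.add (Nat.add (Nat.add (Nat.add (Nat.add C x9787) x27283) x21451) x24367) x22423) x23395) x22747) x22963) x22891) x22903) x22915) x22907) x22911) x42591) x3227) x22909)
    (Nat.sub (Nat.add (Nat.add (Nat.add (Nat.add (Nat.add (Nat.add (Nat.add (Nat.add (Nat.add (Nat.add (Nat.add (Nat.add C x9789) x27285) x21453) x24369) x22425) x23397) x22749) x22965) x22893) x22917) x22909) x3229) (Nat.mul x22911 (nat_lit 2)))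
    (Nat.sub (Nat.add (Nat.add (Nat.add (Nat.add (Nat.add (Nat.add (Nat.add (Nat.add (Nat.add (Nat.add (Nat.add (Nat.add C x9793) x27289) x21457) x24373) x22429) x23401) x22753) x22969) x22909) x22917) x42597) x3233) x22915)
    (Nat.add (Nat.add (Nat.add (Nat.add (Nat.add (Nat.add (Nat.add (Nat.add (Nat.add (Nat.add (Nat.add C x9795) x27291) x21459) x24375) x22431) x23403) x22755) x22971) x22911) x22915) x3235)
    (Nat.add (Nat.add (Nat.add (Nat.add (Nat.add (Nat.add (Nat.add (Nat.add (Nat.add (Nat.add (Nat.add (Nat.add C x22931) x9809) x27305) x21473) x24389) x22445) x23417) x22769) x23093) x22877) x22937) x42613)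
    (Nat.add (Nat.add (Nat.add (Nat.add (Nat.add (Nat.add (Nat.add (Nat.add (Nat.add (Nat.add (Nat.add (Nat.add (Nat.add (Nat.add C x9815) x27311) x21479) x24395) x22451) x23423) x22775) x23099) x22883) x22955) x22931) x22943) x22939) x42619)
    (Nat.add (Nat.add (Nat.add (Nat.add (Nat.add (Nat.add (Nat.add (Nat.add (Nat.add (Nat.add (Nat.add (Nat.add (Nat.add (Nat.add C x9817) x27313) x21481) x24397) x22453) x23425) x22777) x23101) x22885) x22957) x22945) x22937) x42621) x3257)
    (Nat.sub (Nat.add (Nat.add (Nat.add (Nat.add (Nat.add (Nat.add (Nat.add (Nat.add (Nat.add (Nat.add (Nat.add (Nat.add (Nat.add C x9821) x27317) x21485) x24401) x22457) x23429) x22781) x23105) x22889) x22961) x22937) x22945) x42625) (Nat.mul x22943 (nat_lit 3)))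
    (Nat.sub (Nat.add (Nat.add (Nat.add (Nat.add (Nat.add (Nat.add (Nat.add (Nat.add (Nat.add (Nat.add (Nat.add (Nat.add (Nat.add (Nat.add (Nat.add C x9823) x27319) x21487) x24403) x22459) x23431) x22783) x23107) x22891) x22963) x22939) x22943) x22947) x42627) x3263) x22945)
    (Nat.sub (Nat.add (Nat.add (Nat.add (Nat.add (Nat.add (Nat.add (Nat.add (Nat.add (Nat.add (Nat.add (Nat.add (Nat.add C x9825) x27321) x21489) x24405) x22461) x23433) x22785) x23109) x22893) x22965) x22945) x3265) x22947)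
    (Nat.add (Nat.add (Nat.add (Nat.add (Nat.add (Nat.add (Nat.add (Nat.add (Nat.add (Nat.add (Nat.add (Nat.add (Nat.add (Nat.add C x9833) x27329) x21497) x24413) x22469) x23441) x22793) x23117) x22901) x23009) x22937) x22961) x22957) x42637)
    (Nat.sub (Nat.add (Nat.add (Nat.add (Nat.add (Nat.add (Nat.add (Nat.add (Nat.add (Nat.add (Nat.add (Nat.add (Nat.add (Nat.add (Nat.add (Nat.add C x9835) x27331) x21499) x24415) x22471) x23443) x22795) x23119) x22903) x23011) x22939) x22963) x22955) x42639) x3275) x22957)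
    (Nat.sub (Nat.add (Nat.add (Nat.add (Nat.add (Nat.add (Nat.add (Nat.add (Nat.add (Nat.add (Nat.add (Nat.add (Nat.add (Nat.add (Nat.add (Nat.add C x9839) x27335) x21503) x24419) x22475) x23447) x22799) x23123) x22907) x23015) x22943) x22979) x22955) x22963) x42643) x22961)
    (Nat.add (Nat.add (Nat.add (Nat.add (Nat.add (Nat.add (Nat.add (Nat.add (Nat.add (Nat.add (Nat.add (Nat.add (Nat.add (Nat.add (Nat.add (Nat.add (Nat.add (Nat.add C x9841) x27337) x21505) x24421) x22477) x23449) x22801) x23125) x22909) x23017) x22945) x22981) x22957) x22969) x22961) x22965) x42645) x3281)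
    (Nat.sub (Nat.add (Nat.add (Nat.add (Nat.add (Nat.add (Nat.add (Nat.add (Nat.add (Nat.add (Nat.add (Nat.add (Nat.add (Nat.add (Nat.add (Nat.add C x9843) x27339) x21507) x24423) x22479) x23451) x22803) x23127) x22911) x23019) x22947) x22983) x22971) x22963) x3283) x22965)
    (Nat.sub (Nat.add (Nat.add (Nat.add (Nat.add (Nat.add (Nat.add (Nat.add (Nat.add (Nat.add (Nat.add (Nat.add (Nat.add (Nat.add (Nat.add (Nat.add C x9847) x27343) x21511) x24427) x22483) x23455) x22807) x23131) x22915) x23023) x22987) x22963) x22971) x42651) x3287) x22969)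
    (Nat.add (Nat.add (Nat.add (Nat.add (Nat.add (Nat.add (Nat.add (Nat.add (Nat.add (Nat.add (Nat.add (Nat.add (Nat.add (Nat.add C x9849) x27345) x21513) x24429) x22485) x23457) x22809) x23133) x22917) x23025) x22989) x22965) x22969) x3289)
    (Nat.sub (Nat.add (Nat.add (Nat.add (Nat.add (Nat.add (Nat.add (Nat.add (Nat.add (Nat.add (Nat.add (Nat.add (Nat.add C x9857) x27353) x21521) x24437) x22493) x23465) x22817) x23141) x23033) x22961) x22981) x42661) x22979)
    (Nat.sub (Nat.add (Nat.add (Nat.add (Nat.add (Nat.add (Nat.add (Nat.add (Nat.add (Nat.add (Nat.add (Nat.add (Nat.add (Nat.add (Nat.add (Nat.add C x9859) x27355) x21523) x24439) x22495) x23467) x22819) x23143) x23035) x22963) x22987) x22979) x22983) x42663) x3299) x22981)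
    (Nat.sub (Nat.add (Nat.add (Nat.add (Nat.add (Nat.add (Nat.add (Nat.add (Nat.add (Nat.add (Nat.add (Nat.add (Nat.add (Nat.add C x9861) x27357) x21525) x24441) x22497) x23469) x22821) x23145) x23037) x22965) x22989) x22981) x3301) (Nat.mul x22983 (nat_lit 3)))
    (Nat.add (Nat.add (Nat.add (Nat.add (Nat.add (Nat.add (Nat.add (Nat.add (Nat.add (Nat.add (Nat.add (Nat.add (Nat.add (Nat.add C x9865) x27361) x21529) x24445) x22501) x23473) x22825) x23149) x23041) x22969) x22981) x22989) x42669) x3305)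
    (Nat.add (Nat.add (Nat.add (Nat.add (Nat.add (Nat.add (Nat.add (Nat.add (Nat.add (Nat.add (Nat.add (Nat.add (Nat.add (Nat.add C x9867) x27363) x21531) x24447) x22503) x23475) x22827) x23151) x23043) x22971) x22983) x22995) x22987) x3307)
    (Nat.add (Nat.add (Nat.add (Nat.add (Nat.add (Nat.add (Nat.add (Nat.add (Nat.add (Nat.add (Nat.add (Nat.add C x22995) x9873) x27369) x21537) x24453) x22509) x23481) x22833) x23157) x23049) x22989) x3313)
    (Nat.add (Nat.add (Nat.add (Nat.add (Nat.add (Nat.add (Nat.add (Nat.add (Nat.add (Nat.add (Nat.add C x9887) x27383) x21551) x24467) x22523) x23495) x23171) x22955) x23015) x23011) x42691)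
    (Nat.sub (Nat.add (Nat.add (Nat.add (Nat.add (Nat.add (Nat.add (Nat.add (Nat.add (Nat.add (Nat.add (Nat.add (Nat.add C x9889) x27385) x21553) x24469) x22525) x23497) x23173) x22957) x23017) x23009) x42693) x3329) x23011)
    (Nat.sub (Nat.add (Nat.add (Nat.add (Nat.add (Nat.add (Nat.add (Nat.add (Nat.add (Nat.add (Nat.add (Nat.add (Nat.add C x9893) x27389) x21557) x24473) x22529) x23501) x23177) x22961) x23033) x23009) x23017) x42697) (Nat.mul x23015 (nat_lit 2)))
    (Nat.sub (Nat.add (Nat.add (Nat.add (Nat.add (Nat.add (Nat.add (Nat.add (Nat.add (Nat.add (Nat.add (Nat.add (Nat.add (Nat.add (Nat.add (Nat.add C x9895) x27391) x21559) x24475) x22531) x23503) x23179) x22963) x23035) x23011) x23023) x23015) x23019) x42699) x3335) x23017)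
    (Nat.sub (Nat.add (Nat.add (Nat.add (Nat.add (Nat.add (Nat.add (Nat.add (Nat.add (Nat.add (Nat.add (Nat.add (Nat.add C x9897) x27393) x21561) x24477) x22533) x23505) x23181) x22965) x23037) x23025) x23017) x3337) (Nat.mul x23019 (nat_lit 2)))
    (Nat.sub (Nat.add (Nat.add (Nat.add (Nat.add (Nat.add (Nat.add (Nat.add (Nat.add (Nat.add (Nat.add (Nat.add (Nat.add (Nat.add C x9901) x27397) x21565) x24481) x22537) x23509) x23185) x22969) x23041) x23017) x23025) x42705) x3341) (Nat.mul x23023 (nat_lit 3)))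
    (Nat.sub (Nat.add (Nat.add (Nat.add (Nat.add (Nat.add (Nat.add (Nat.add (Nat.add (Nat.add (Nat.add (Nat.add (Nat.add C x9903) x27399) x21567) x24483) x22539) x23511) x23187) x22971) x23043) x23019) x23023) x3343) (Nat.mul x23025 (nat_lit 2)))
    (Nat.add (Nat.add (Nat.add (Nat.add (Nat.add (Nat.add (Nat.add (Nat.add (Nat.add (Nat.add (Nat.add C x9911) x27407) x21575) x24491) x22547) x23519) x23195) x22979) x23015) x23035) x42715)
    (Nat.add (Nat.add (Nat.add (Nat.add (Nat.add (Nat.add (Nat.add (Nat.add (Nat.add (Nat.add (Nat.add (Nat.add (Nat.add (Nat.add C x9913) x27409) x21577) x24493) x22549) x23521) x23197) x22981) x23017) x23041) x23033) x23037) x42717) x3353)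
    (Nat.sub (Nat.add (Nat.add (Nat.add (Nat.add (Nat.add (Nat.add (Nat.add (Nat.add (Nat.add (Nat.add (Nat.add (Nat.add C x9915) x27411) x21579) x24495) x22551) x23523) x23199) x22983) x23019) x23043) x23035) x3355) (Nat.mul x23037 (nat_lit 2)))
    (Nat.add (Nat.add (Nat.add (Nat.add (Nat.add (Nat.add (Nat.add (Nat.add (Nat.add (Nat.add (Nat.add (Nat.add (Nat.add (Nat.add C x9919) x27415) x21583) x24499) x22555) x23527) x23203) x22987) x23023) x23059) x23035) x23043) x42723) x3359)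
    (Nat.add (Nat.add (Nat.add (Nat.add (Nat.add (Nat.add (Nat.add (Nat.add (Nat.add (Nat.add (Nat.add (Nat.add (Nat.add (Nat.add C x9921) x27417) x21585) x24501) x22557) x23529) x23205) x22989) x23025) x23061) x23037) x23049) x23041) x3361)
    (Nat.add (Nat.add (Nat.add (Nat.add (Nat.add (Nat.add (Nat.add (Nat.add (Nat.add (Nat.add (Nat.add C x9927) x27423) x21591) x24507) x22563) x23535) x23211) x22995) x23067) x23043) x3367)
    (Nat.add (Nat.add (Nat.add (Nat.add (Nat.add (Nat.add (Nat.add (Nat.add (Nat.add (Nat.add (Nat.add (Nat.add C x23059) x9937) x27433) x21601) x24517) x22573) x23545) x23221) x23041) x23061) x42741) x3377)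
    (Nat.add (Nat.add (Nat.add (Nat.add (Nat.add (Nat.add (Nat.add (Nat.add (Nat.add (Nat.add (Nat.add C x9939) x27435) x21603) x24519) x22575) x23547) x23223) x23043) x23067) x23059) x3379)
    (Nat.add (Nat.add (Nat.add (Nat.add (Nat.add (Nat.add (Nat.add (Nat.add (Nat.add (Nat.add (Nat.add C (Nat.mul x23067 (nat_lit 2))) x9945) x27441) x21609) x24525) x22581) x23553) x23229) x23049) x23061) x3385)
    (Nat.add (Nat.add (Nat.add (Nat.add (Nat.add (Nat.add (Nat.add (Nat.add (Nat.add C x23093) x9971) x27467) x21635) x24551) x23579) x22931) x23099) x42775)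
    (Nat.add (Nat.add (Nat.add (Nat.add (Nat.add (Nat.add (Nat.add (Nat.add (Nat.add (Nat.add (Nat.add C x9977) x27473) x21641) x24557) x23585) x22937) x23117) x23093) x23105) x23101) x42781)
    (Nat.add (Nat.add (Nat.add (Nat.add (Nat.add (Nat.add (Nat.add (Nat.add (Nat.add (Nat.add (Nat.add C x9979) x27475) x21643) x24559) x23587) x22939) x23119) x23107) x23099) x42783) x3419)
    (Nat.sub (Nat.add (Nat.add (Nat.add (Nat.add (Nat.add (Nat.add (Nat.add (Nat.add (Nat.add (Nat.add C x9983) x27479) x21647) x24563) x23591) x22943) x23123) x23099) x23107) x42787) (Nat.mul x23105 (nat_lit 3)))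
    (Nat.sub (Nat.add (Nat.add (Nat.add (Nat.add (Nat.add (Nat.add (Nat.add (Nat.add (Nat.add (Nat.add (Nat.add (Nat.add C x9985) x27481) x21649) x24565) x23593) x22945) x23125) x23101) x23105) x23109) x42789) x3425) x23107)
    (Nat.sub (Nat.add (Nat.add (Nat.add (Nat.add (Nat.add (Nat.add (Nat.add (Nat.add (Nat.add C x9987) x27483) x21651) x24567) x23595) x22947) x23127) x23107) x3427) x23109)
    (Nat.sub (Nat.add (Nat.add (Nat.add (Nat.add (Nat.add (Nat.add (Nat.add (Nat.add (Nat.add (Nat.add (Nat.add C x9995) x27491) x21659) x24575) x23603) x22955) x23171) x23099) x23123) x23119) x42799) x23117)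
    (Nat.sub (Nat.add (Nat.add (Nat.add (Nat.add (Nat.add (Nat.add (Nat.add (Nat.add (Nat.add (Nat.add (Nat.add (Nat.add C x9997) x27493) x21661) x24577) x23605) x22957) x23173) x23101) x23125) x23117) x42801) x3437) (Nat.mul x23119 (nat_lit 2)))
    (Nat.sub (Nat.add (Nat.add (Nat.add (Nat.add (Nat.add (Nat.add (Nat.add (Nat.add (Nat.add (Nat.add (Nat.add (Nat.add C x10001) x27497) x21665) x24581) x23609) x22961) x23177) x23105) x23141) x23117) x23125) x42805) (Nat.mul x23123 (nat_lit 2)))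
    (Nat.sub (Nat.add (Nat.add (Nat.add (Nat.add (Nat.add (Nat.add (Nat.add (Nat.add (Nat.add (Nat.add (Nat.add (Nat.add (Nat.add (Nat.add (Nat.add C x10003) x27499) x21667) x24583) x23611) x22963) x23179) x23107) x23143) x23119) x23131) x23123) x23127) x42807) x3443) x23125)
    (Nat.sub (Nat.add (Nat.add (Nat.add (Nat.add (Nat.add (Nat.add (Nat.add (Nat.add (Nat.add (Nat.add (Nat.add (Nat.add C x10005) x27501) x21669) x24585) x23613) x22965) x23181) x23109) x23145) x23133) x23125) x3445) (Nat.mul x23127 (nat_lit 2)))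
    (Nat.sub (Nat.add (Nat.add (Nat.add (Nat.add (Nat.add (Nat.add (Nat.add (Nat.add (Nat.add (Nat.add (Nat.add (Nat.add C x10009) x27505) x21673) x24589) x23617) x22969) x23185) x23149) x23125) x23133) x42813) x3449) (Nat.mul x23131 (nat_lit 2)))
    (Nat.sub (Nat.add (Nat.add (Nat.add (Nat.add (Nat.add (Nat.add (Nat.add (Nat.add (Nat.add (Nat.add (Nat.add C x10011) x27507) x21675) x24591) x23619) x22971) x23187) x23151) x23127) x23131) x3451) x23133)
    (Nat.sub (Nat.add (Nat.add (Nat.add (Nat.add (Nat.add (Nat.add (Nat.add (Nat.add (Nat.add (Nat.add C x10019) x27515) x21683) x24599) x23627) x22979) x23195) x23123) x23143) x42823) (Nat.mul x23141 (nat_lit 3)))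
    (Nat.sub (Nat.add (Nat.add (Nat.add (Nat.add (Nat.add (Nat.add (Nat.add (Nat.add (Nat.add (Nat.add (Nat.add (Nat.add (Nat.add C x10021) x27517) x21685) x24601) x23629) x22981) x23197) x23125) x23149) x23141) x23145) x42825) x3461) (Nat.mul x23143 (nat_lit 3)))
    (Nat.sub (Nat.add (Nat.add (Nat.add (Nat.add (Nat.add (Nat.add (Nat.add (Nat.add (Nat.add (Nat.add (Nat.add C x10023) x27519) x21687) x24603) x23631) x22983) x23199) x23127) x23151) x23143) x3463) (Nat.mul x23145 (nat_lit 5)))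
    (Nat.sub (Nat.add (Nat.add (Nat.add (Nat.add (Nat.add (Nat.add (Nat.add (Nat.add (Nat.add (Nat.add (Nat.add (Nat.add C x10027) x27523) x21691) x24607) x23635) x22987) x23203) x23131) x23143) x23151) x42831) x3467) (Nat.mul x23149 (nat_lit 2)))
    (Nat.sub (Nat.add (Nat.add (Nat.add (Nat.add (Nat.add (Nat.add (Nat.add (Nat.add (Nat.add (Nat.add (Nat.add (Nat.add C x10029) x27525) x21693) x24609) x23637) x22989) x23205) x23133) x23145) x23157) x23149) x3469) (Nat.mul x23151 (nat_lit 2)))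
    (Nat.sub (Nat.add (Nat.add (Nat.add (Nat.add (Nat.add (Nat.add (Nat.add (Nat.add (Nat.add C x10035) x27531) x21699) x24615) x23643) x22995) x23211) x23151) x3475) x23157)
    (Nat.add (Nat.add (Nat.add (Nat.add (Nat.add (Nat.add (Nat.add (Nat.add (Nat.add (Nat.add (Nat.add C x23171) x10049) x27545) x21713) x24629) x23657) x23009) x23117) x23177) x23173) x42853)
    (Nat.add (Nat.add (Nat.add (Nat.add (Nat.add (Nat.add (Nat.add (Nat.add (Nat.add (Nat.add (Nat.add C x10051) x27547) x21715) x24631) x23659) x23011) x23119) x23179) x23171) x42855) x3491)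
    (Nat.sub (Nat.add (Nat.add (Nat.add (Nat.add (Nat.add (Nat.add (Nat.add (Nat.add (Nat.add (Nat.add (Nat.add C x10055) x27551) x21719) x24635) x23663) x23015) x23123) x23195) x23171) x23179) x42859) x23177)
    (Nat.add (Nat.add (Nat.add (Nat.add (Nat.add (Nat.add (Nat.add (Nat.add (Nat.add (Nat.add (Nat.add (Nat.add (Nat.add (Nat.add C x10057) x27553) x21721) x24637) x23665) x23017) x23125) x23197) x23173) x23185) x23177) x23181) x42861) x3497)
    (Nat.sub (Nat.add (Nat.add (Nat.add (Nat.add (Nat.add (Nat.add (Nat.add (Nat.add (Nat.add (Nat.add (Nat.add C x10059) x27555) x21723) x24639) x23667) x23019) x23127) x23199) x23187) x23179) x3499) x23181)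
    (Nat.sub (Nat.add (Nat.add (Nat.add (Nat.add (Nat.add (Nat.add (Nat.add (Nat.add (Nat.add (Nat.add (Nat.add (Nat.add C x10063) x27559) x21727) x24643) x23671) x23023) x23131) x23203) x23179) x23187) x42867) x3503) (Nat.mul x23185 (nat_lit 2)))
    (Nat.sub (Nat.add (Nat.add (Nat.add (Nat.add (Nat.add (Nat.add (Nat.add (Nat.add (Nat.add (Nat.add (Nat.add C x10065) x27561) x21729) x24645) x23673) x23025) x23133) x23205) x23181) x23185) x3505) x23187)
    (Nat.add (Nat.add (Nat.add (Nat.add (Nat.add (Nat.add (Nat.add (Nat.add (Nat.add (Nat.add (Nat.add C x10073) x27569) x21737) x24653) x23681) x23033) x23141) x23249) x23177) x23197) x42877)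
    (Nat.add (Nat.add (Nat.add (Nat.add (Nat.add (Nat.add (Nat.add (Nat.add (Nat.add (Nat.add (Nat.add (Nat.add (Nat.add (Nat.add C x10075) x27571) x21739) x24655) x23683) x23035) x23143) x23251) x23179) x23203) x23195) x23199) x42879) x3515)
    (Nat.sub (Nat.add (Nat.add (Nat.add (Nat.add (Nat.add (Nat.add (Nat.add (Nat.add (Nat.add (Nat.add (Nat.add (Nat.add C x10077) x27573) x21741) x24657) x23685) x23037) x23145) x23253) x23181) x23205) x23197) x3517) (Nat.mul x23199 (nat_lit 2)))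
    (Nat.add (Nat.add (Nat.add (Nat.add (Nat.add (Nat.add (Nat.add (Nat.add (Nat.add (Nat.add (Nat.add (Nat.add (Nat.add (Nat.add C x10081) x27577) x21745) x24661) x23689) x23041) x23149) x23257) x23185) x23221) x23197) x23205) x42885) x3521)
    (Nat.add (Nat.add (Nat.add (Nat.add (Nat.add (Nat.add (Nat.add (Nat.add (Nat.add (Nat.add (Nat.add (Nat.add (Nat.add (Nat.add C x10083) x27579) x21747) x24663) x23691) x23043) x23151) x23259) x23187) x23223) x23199) x23211) x23203) x3523)
    (Nat.add (Nat.add (Nat.add (Nat.add (Nat.add (Nat.add (Nat.add (Nat.add (Nat.add (Nat.add (Nat.add C x10089) x27585) x21753) x24669) x23697) x23049) x23157) x23265) x23229) x23205) x3529)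
    (Nat.add (Nat.add (Nat.add (Nat.add (Nat.add (Nat.add (Nat.add (Nat.add (Nat.add (Nat.add (Nat.add C x10099) x27595) x21763) x24679) x23707) x23059) x23275) x23203) x23223) x42903) x3539)
    (Nat.sub (Nat.add (Nat.add (Nat.add (Nat.add (Nat.add (Nat.add (Nat.add (Nat.add (Nat.add (Nat.add (Nat.add C x10101) x27597) x21765) x24681) x23709) x23061) x23277) x23205) x23229) x23221) x3541) x23223)
    (Nat.add (Nat.add (Nat.add (Nat.add (Nat.add (Nat.add (Nat.add (Nat.add (Nat.add (Nat.add (Nat.add C x23229) x10107) x27603) x21771) x24687) x23715) x23067) x23283) x23211) x23223) x3547)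
    (Nat.add (Nat.add (Nat.add (Nat.add (Nat.add (Nat.add (Nat.add (Nat.add (Nat.add C x23249) x10127) x27623) x21791) x24707) x23735) x23195) x23251) x42931)
    (Nat.add (Nat.add (Nat.add (Nat.add (Nat.add (Nat.add (Nat.add (Nat.add (Nat.add (Nat.add (Nat.add (Nat.add C x23251) x10129) x27625) x21793) x24709) x23737) x23197) x23257) x23249) x23253) x42933) x3569)
    (Nat.sub (Nat.add (Nat.add (Nat.add (Nat.add (Nat.add (Nat.add (Nat.add (Nat.add (Nat.add C x10131) x27627) x21795) x24711) x23739) x23199) x23259) x23251) x3571) x23253)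
    (Nat.add (Nat.add (Nat.add (Nat.add (Nat.add (Nat.add (Nat.add (Nat.add (Nat.add (Nat.add (Nat.add C x10135) x27631) x21799) x24715) x23743) x23203) x23275) x23251) x23259) x42939) x3575)
    (Nat.add (Nat.add (Nat.add (Nat.add (Nat.add (Nat.add (Nat.add (Nat.add (Nat.add (Nat.add (Nat.add C x10137) x27633) x21801) x24717) x23745) x23205) x23277) x23253) x23265) x23257) x3577)
    (Nat.sub (Nat.add (Nat.add (Nat.add (Nat.add (Nat.add (Nat.add (Nat.add (Nat.add (Nat.add C x10143) x27639) x21807) x24723) x23751) x23211) x23283) x23259) x3583) x23265)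
    (Nat.add (Nat.add (Nat.add (Nat.add (Nat.add (Nat.add (Nat.add (Nat.add (Nat.add (Nat.add (Nat.add C (Nat.mul x23275 (nat_lit 2))) x10153) x27649) x21817) x24733) x23761) x23221) x23257) x23277) x42957) x3593)
    (Nat.add (Nat.add (Nat.add (Nat.add (Nat.add (Nat.add (Nat.add (Nat.add (Nat.add (Nat.add (Nat.add C x23277) x10155) x27651) x21819) x24735) x23763) x23223) x23259) x23283) x23275) x3595)
    (Nat.add (Nat.add (Nat.add (Nat.add (Nat.add (Nat.add (Nat.add (Nat.add (Nat.add (Nat.add (Nat.add C (Nat.mul x23283 (nat_lit 2))) x10161) x27657) x21825) x24741) x23769) x23229) x23265) x23301) x23277) x3601)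
    (Nat.add (Nat.add (Nat.add (Nat.add (Nat.add (Nat.add (Nat.add (Nat.add C (Nat.mul x23301 (nat_lit 3))) x10179) x27675) x21843) x24759) x23787) x23283) x3619)
    (Nat.add (Nat.add (Nat.add (Nat.add (Nat.add (Nat.add (Nat.add (Nat.add C (Nat.mul x23345 (nat_lit 2))) x10223) x27719) x24803) x22859) x23363) x23351) x43027)
    (Nat.add (Nat.add (Nat.add (Nat.add (Nat.add (Nat.add (Nat.add (Nat.add C x10229) x27725) x24809) x22865) x23369) x23345) x23353) x43033)
    (Nat.add (Nat.add (Nat.add (Nat.add (Nat.add (Nat.add (Nat.add (Nat.add (Nat.add C x23353) x10231) x27727) x24811) x22867) x23371) x23351) x43035) x3671)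
    (Nat.add (Nat.add (Nat.add (Nat.add (Nat.add (Nat.add (Nat.add (Nat.add C x10241) x27737) x24821) x22877) x23417) x23345) x23369) x43045)
    (Nat.add (Nat.add (Nat.add (Nat.add (Nat.add (Nat.add (Nat.add (Nat.add (Nat.add (Nat.add (Nat.add C x10247) x27743) x24827) x22883) x23423) x23351) x23387) x23363) x23375) x23371) x43051)
    (Nat.add (Nat.add (Nat.add (Nat.add (Nat.add (Nat.add (Nat.add (Nat.add (Nat.add (Nat.add (Nat.add C x10249) x27745) x24829) x22885) x23425) x23353) x23389) x23377) x23369) x43053) x3689)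
    (Nat.sub (Nat.add (Nat.add (Nat.add (Nat.add (Nat.add (Nat.add (Nat.add (Nat.add (Nat.add C x10253) x27749) x24833) x22889) x23429) x23393) x23369) x23377) x43057) (Nat.mul x23375 (nat_lit 2)))
    (Nat.add (Nat.add (Nat.add (Nat.add (Nat.add (Nat.add (Nat.add (Nat.add (Nat.add (Nat.add (Nat.add C x10255) x27751) x24835) x22891) x23431) x23395) x23371) x23375) x23379) x43059) x3695)
    (Nat.add (Nat.add (Nat.add (Nat.add (Nat.add (Nat.add (Nat.add (Nat.add C x10257) x27753) x24837) x22893) x23433) x23397) x23377) x3697)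
    (Nat.sub (Nat.add (Nat.add (Nat.add (Nat.add (Nat.add (Nat.add (Nat.add (Nat.add (Nat.add C x10265) x27761) x24845) x22901) x23441) x23369) x23393) x23389) x43069) (Nat.mul x23387 (nat_lit 2)))
    (Nat.sub (Nat.add (Nat.add (Nat.add (Nat.add (Nat.add (Nat.add (Nat.add (Nat.add (Nat.add (Nat.add C x10267) x27763) x24847) x22903) x23443) x23371) x23395) x23387) x43071) x3707) (Nat.mul x23389 (nat_lit 3)))
    (Nat.sub (Nat.add (Nat.add (Nat.add (Nat.add (Nat.add (Nat.add (Nat.add (Nat.add (Nat.add C x10271) x27767) x24851) x22907) x23447) x23375) x23387) x23395) x43075) (Nat.mul x23393 (nat_lit 2)))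
    (Nat.sub (Nat.add (Nat.add (Nat.add (Nat.add (Nat.add (Nat.add (Nat.add (Nat.add (Nat.add (Nat.add (Nat.add (Nat.add C x10273) x27769) x24853) x22909) x23449) x23377) x23389) x23401) x23393) x23397) x43077) x3713) x23395)
    (Nat.sub (Nat.add (Nat.add (Nat.add (Nat.add (Nat.add (Nat.add (Nat.add (Nat.add (Nat.add C x10275) x27771) x24855) x22911) x23451) x23379) x23403) x23395) x3715) (Nat.mul x23397 (nat_lit 2)))
    (Nat.sub (Nat.add (Nat.add (Nat.add (Nat.add (Nat.add (Nat.add (Nat.add (Nat.add (Nat.add C x10279) x27775) x24859) x22915) x23455) x23395) x23403) x43083) x3719) x23401)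
    (Nat.add (Nat.add (Nat.add (Nat.add (Nat.add (Nat.add (Nat.add (Nat.add C x10281) x27777) x24861) x22917) x23457) x23397) x23401) x3721)
    (Nat.add (Nat.add (Nat.add (Nat.add (Nat.add (Nat.add (Nat.add (Nat.add C x10295) x27791) x24875) x22931) x23579) x23363) x23423) x43099)
    (Nat.sub (Nat.add (Nat.add (Nat.add (Nat.add (Nat.add (Nat.add (Nat.add (Nat.add (Nat.add (Nat.add (Nat.add C x10301) x27797) x24881) x22937) x23585) x23369) x23441) x23417) x23429) x23425) x43105) x23423)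
    (Nat.sub (Nat.add (Nat.add (Nat.add (Nat.add (Nat.add (Nat.add (Nat.add (Nat.add (Nat.add (Nat.add (Nat.add C x10303) x27799) x24883) x22939) x23587) x23371) x23443) x23431) x23423) x43107) x3743) x23425)
    (Nat.sub (Nat.add (Nat.add (Nat.add (Nat.add (Nat.add (Nat.add (Nat.add (Nat.add (Nat.add (Nat.add C x10307) x27803) x24887) x22943) x23591) x23375) x23447) x23423) x23431) x43111) (Nat.mul x23429 (nat_lit 4)))
    (Nat.sub (Nat.add (Nat.add (Nat.add (Nat.add (Nat.add (Nat.add (Nat.add (Nat.add (Nat.add (Nat.add (Nat.add (Nat.add C x10309) x27805) x24889) x22945) x23593) x23377) x23449) x23425) x23429) x23433) x43113) x3749) (Nat.mul x23431 (nat_lit 2)))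
    (Nat.sub (Nat.add (Nat.add (Nat.add (Nat.add (Nat.add (Nat.add (Nat.add (Nat.add (Nat.add C x10311) x27807) x24891) x22947) x23595) x23379) x23451) x23431) x3751) (Nat.mul x23433 (nat_lit 2)))
    (Nat.sub (Nat.add (Nat.add (Nat.add (Nat.add (Nat.add (Nat.add (Nat.add (Nat.add (Nat.add (Nat.add (Nat.add C x10319) x27815) x24899) x22955) x23603) x23387) x23495) x23423) x23447) x23443) x43123) x23441)
    (Nat.sub (Nat.add (Nat.add (Nat.add (Nat.add (Nat.add (Nat.add (Nat.add (Nat.add (Nat.add (Nat.add (Nat.add (Nat.add C x10321) x27817) x24901) x22957) x23605) x23389) x23497) x23425) x23449) x23441) x43125) x3761) (Nat.mul x23443 (nat_lit 2)))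
    (Nat.sub (Nat.add (Nat.add (Nat.add (Nat.add (Nat.add (Nat.add (Nat.add (Nat.add (Nat.add (Nat.add (Nat.add (Nat.add C x10325) x27821) x24905) x22961) x23609) x23393) x23501) x23429) x23465) x23441) x23449) x43129) (Nat.mul x23447 (nat_lit 2)))
    (Nat.sub (Nat.add (Nat.add (Nat.add (Nat.add (Nat.add (Nat.add (Nat.add (Nat.add (Nat.add (Nat.add (Nat.add (Nat.add (Nat.add (Nat.add (Nat.add C x10327) x27823) x24907) x22963) x23611) x23395) x23503) x23431) x23467) x23443) x23455) x23447) x23451) x43131) x3767) x23449)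
    (Nat.sub (Nat.add (Nat.add (Nat.add (Nat.add (Nat.add (Nat.add (Nat.add (Nat.add (Nat.add (Nat.add (Nat.add (Nat.add C x10329) x27825) x24909) x22965) x23613) x23397) x23505) x23433) x23469) x23457) x23449) x3769) (Nat.mul x23451 (nat_lit 2)))
    (Nat.sub (Nat.add (Nat.add (Nat.add (Nat.add (Nat.add (Nat.add (Nat.add (Nat.add (Nat.add (Nat.add (Nat.add (Nat.add C x10333) x27829) x24913) x22969) x23617) x23401) x23509) x23473) x23449) x23457) x43137) x3773) (Nat.mul x23455 (nat_lit 2)))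
    (Nat.sub (Nat.add (Nat.add (Nat.add (Nat.add (Nat.add (Nat.add (Nat.add (Nat.add (Nat.add (Nat.add (Nat.add C x10335) x27831) x24915) x22971) x23619) x23403) x23511) x23475) x23451) x23455) x3775) x23457)
    (Nat.sub (Nat.add (Nat.add (Nat.add (Nat.add (Nat.add (Nat.add (Nat.add (Nat.add (Nat.add C x10343) x27839) x24923) x22979) x23627) x23519) x23447) x23467) x43147) (Nat.mul x23465 (nat_lit 2)))
    (Nat.sub (Nat.add (Nat.add (Nat.add (Nat.add (Nat.add (Nat.add (Nat.add (Nat.add (Nat.add (Nat.add (Nat.add (Nat.add C x10345) x27841) x24925) x22981) x23629) x23521) x23449) x23473) x23465) x23469) x43149) x3785) (Nat.mul x23467 (nat_lit 2)))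
    (Nat.sub (Nat.add (Nat.add (Nat.add (Nat.add (Nat.add (Nat.add (Nat.add (Nat.add (Nat.add (Nat.add C x10347) x27843) x24927) x22983) x23631) x23523) x23451) x23475) x23467) x3787) (Nat.mul x23469 (nat_lit 4)))
    (Nat.sub (Nat.add (Nat.add (Nat.add (Nat.add (Nat.add (Nat.add (Nat.add (Nat.add (Nat.add (Nat.add (Nat.add C x10351) x27847) x24931) x22987) x23635) x23527) x23455) x23467) x23475) x43155) x3791) x23473)
    (Nat.sub (Nat.add (Nat.add (Nat.add (Nat.add (Nat.add (Nat.add (Nat.add (Nat.add (Nat.add (Nat.add (Nat.add C x10353) x27849) x24933) x22989) x23637) x23529) x23457) x23469) x23481) x23473) x3793) x23475)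
    (Nat.add (Nat.add (Nat.add (Nat.add (Nat.add (Nat.add (Nat.add (Nat.add C x10359) x27855) x24939) x22995) x23643) x23535) x23475) x3799)
    (Nat.sub (Nat.add (Nat.add (Nat.add (Nat.add (Nat.add (Nat.add (Nat.add (Nat.add (Nat.add C x10373) x27869) x24953) x23009) x23657) x23441) x23501) x23497) x43177) (Nat.mul x23495 (nat_lit 2)))
    (Nat.sub (Nat.add (Nat.add (Nat.add (Nat.add (Nat.add (Nat.add (Nat.add (Nat.add (Nat.add (Nat.add C x10375) x27871) x24955) x23011) x23659) x23443) x23503) x23495) x43179) x3815) (Nat.mul x23497 (nat_lit 3)))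
    (Nat.sub (Nat.add (Nat.add (Nat.add (Nat.add (Nat.add (Nat.add (Nat.add (Nat.add (Nat.add (Nat.add C x10379) x27875) x24959) x23015) x23663) x23447) x23519) x23495) x23503) x43183) (Nat.mul x23501 (nat_lit 4)))
    (Nat.sub (Nat.add (Nat.add (Nat.add (Nat.add (Nat.add (Nat.add (Nat.add (Nat.add (Nat.add (Nat.add (Nat.add (Nat.add (Nat.add C x10381) x27877) x24961) x23017) x23665) x23449) x23521) x23497) x23509) x23501) x23505) x43185) x3821) (Nat.mul x23503 (nat_lit 3)))
    (Nat.sub (Nat.add (Nat.add (Nat.add (Nat.add (Nat.add (Nat.add (Nat.add (Nat.add (Nat.add (Nat.add C x10383) x27879) x24963) x23019) x23667) x23451) x23523) x23511) x23503) x3823) (Nat.mul x23505 (nat_lit 4)))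
    (Nat.sub (Nat.add (Nat.add (Nat.add (Nat.add (Nat.add (Nat.add (Nat.add (Nat.add (Nat.add (Nat.add (Nat.add C x10387) x27883) x24967) x23023) x23671) x23455) x23527) x23503) x23511) x43191) x3827) (Nat.mul x23509 (nat_lit 5)))
    (Nat.sub (Nat.add (Nat.add (Nat.add (Nat.add (Nat.add (Nat.add (Nat.add (Nat.add (Nat.add (Nat.add C x10389) x27885) x24969) x23025) x23673) x23457) x23529) x23505) x23509) x3829) (Nat.mul x23511 (nat_lit 4)))
    (Nat.sub (Nat.add (Nat.add (Nat.add (Nat.add (Nat.add (Nat.add (Nat.add (Nat.add (Nat.add C x10397) x27893) x24977) x23033) x23681) x23465) x23501) x23521) x43201) (Nat.mul x23519 (nat_lit 2)))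
    (Nat.sub (Nat.add (Nat.add (Nat.add (Nat.add (Nat.add (Nat.add (Nat.add (Nat.add (Nat.add (Nat.add (Nat.add (Nat.add C x10399) x27895) x24979) x23035) x23683) x23467) x23503) x23527) x23519) x23523) x43203) x3839) (Nat.mul x23521 (nat_lit 2)))
    (Nat.sub (Nat.add (Nat.add (Nat.add (Nat.add (Nat.add (Nat.add (Nat.add (Nat.add (Nat.add (Nat.add C x10401) x27897) x24981) x23037) x23685) x23469) x23505) x23529) x23521) x3841) (Nat.mul x23523 (nat_lit 4)))
    (Nat.sub (Nat.add (Nat.add (Nat.add (Nat.add (Nat.add (Nat.add (Nat.add (Nat.add (Nat.add (Nat.add (Nat.add (Nat.add C x10405) x27901) x24985) x23041) x23689) x23473) x23509) x23545) x23521) x23529) x43209) x3845) (Nat.mul x23527 (nat_lit 2)))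
    (Nat.sub (Nat.add (Nat.add (Nat.add (Nat.add (Nat.add (Nat.add (Nat.add (Nat.add (Nat.add (Nat.add (Nat.add (Nat.add C x10407) x27903) x24987) x23043) x23691) x23475) x23511) x23547) x23523) x23535) x23527) x3847) (Nat.mul x23529 (nat_lit 2)))
    (Nat.sub (Nat.add (Nat.add (Nat.add (Nat.add (Nat.add (Nat.add (Nat.add (Nat.add (Nat.add C x10413) x27909) x24993) x23049) x23697) x23481) x23553) x23529) x3853) (Nat.mul x23535 (nat_lit 2)))
    (Nat.sub (Nat.add (Nat.add (Nat.add (Nat.add (Nat.add (Nat.add (Nat.add (Nat.add (Nat.add C x10423) x27919) x25003) x23059) x23707) x23527) x23547) x43227) x3863) x23545)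
    (Nat.sub (Nat.add (Nat.add (Nat.add (Nat.add (Nat.add (Nat.add (Nat.add (Nat.add (Nat.add C x10425) x27921) x25005) x23061) x23709) x23529) x23553) x23545) x3865) (Nat.mul x23547 (nat_lit 2)))
    (Nat.add (Nat.add (Nat.add (Nat.add (Nat.add (Nat.add (Nat.add (Nat.add C x10431) x27927) x25011) x23067) x23715) x23535) x23547) x3871)
    (Nat.add (Nat.add (Nat.add (Nat.add (Nat.add (Nat.add (Nat.add (Nat.add C (Nat.mul x23579 (nat_lit 2))) x10457) x27953) x25037) x23093) x23417) x23585) x43261)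
    (Nat.add (Nat.add (Nat.add (Nat.add (Nat.add (Nat.add (Nat.add (Nat.add (Nat.add (Nat.add (Nat.add C x23585) x10463) x27959) x25043) x23099) x23423) x23603) x23579) x23591) x23587) x43267)
    (Nat.add (Nat.add (Nat.add (Nat.add (Nat.add (Nat.add (Nat.add (Nat.add (Nat.add (Nat.add (Nat.add C x23587) x10465) x27961) x25045) x23101) x23425) x23605) x23593) x23585) x43269) x3905)
    (Nat.sub (Nat.add (Nat.add (Nat.add (Nat.add (Nat.add (Nat.add (Nat.add (Nat.add (Nat.add C x10469) x27965) x25049) x23105) x23429) x23609) x23585) x23593) x43273) (Nat.mul x23591 (nat_lit 2)))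
    (Nat.add (Nat.add (Nat.add (Nat.add (Nat.add (Nat.add (Nat.add (Nat.add (Nat.add (Nat.add (Nat.add C x10471) x27967) x25051) x23107) x23431) x23611) x23587) x23591) x23595) x43275) x3911)
    (Nat.add (Nat.add (Nat.add (Nat.add (Nat.add (Nat.add (Nat.add (Nat.add C x10473) x27969) x25053) x23109) x23433) x23613) x23593) x3913)
    (Nat.add (Nat.add (Nat.add (Nat.add (Nat.add (Nat.add (Nat.add (Nat.add (Nat.add (Nat.add C x10481) x27977) x25061) x23117) x23441) x23657) x23585) x23609) x23605) x43285)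
    (Nat.sub (Nat.add (Nat.add (Nat.add (Nat.add (Nat.add (Nat.add (Nat.add (Nat.add (Nat.add (Nat.add (Nat.add C x10483) x27979) x25063) x23119) x23443) x23659) x23587) x23611) x23603) x43287) x3923) x23605)
    (Nat.sub (Nat.add (Nat.add (Nat.add (Nat.add (Nat.add (Nat.add (Nat.add (Nat.add (Nat.add (Nat.add (Nat.add C x10487) x27983) x25067) x23123) x23447) x23663) x23591) x23627) x23603) x23611) x43291) x23609)
    (Nat.add (Nat.add (Nat.add (Nat.add (Nat.add (Nat.add (Nat.add (Nat.add (Nat.add (Nat.add (Nat.add (Nat.add (Nat.add (Nat.add C x10489) x27985) x25069) x23125) x23449) x23665) x23593) x23629) x23605) x23617) x23609) x23613) x43293) x3929)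
    (Nat.sub (Nat.add (Nat.add (Nat.add (Nat.add (Nat.add (Nat.add (Nat.add (Nat.add (Nat.add (Nat.add (Nat.add C x10491) x27987) x25071) x23127) x23451) x23667) x23595) x23631) x23619) x23611) x3931) x23613)
    (Nat.sub (Nat.add (Nat.add (Nat.add (Nat.add (Nat.add (Nat.add (Nat.add (Nat.add (Nat.add (Nat.add (Nat.add C x10495) x27991) x25075) x23131) x23455) x23671) x23635) x23611) x23619) x43299) x3935) x23617)
    (Nat.add (Nat.add (Nat.add (Nat.add (Nat.add (Nat.add (Nat.add (Nat.add (Nat.add (Nat.add C x10497) x27993) x25077) x23133) x23457) x23673) x23637) x23613) x23617) x3937)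
    (Nat.sub (Nat.add (Nat.add (Nat.add (Nat.add (Nat.add (Nat.add (Nat.add (Nat.add (Nat.add C x10505) x28001) x25085) x23141) x23465) x23681) x23609) x23629) x43309) (Nat.mul x23627 (nat_lit 2)))
    (Nat.sub (Nat.add (Nat.add (Nat.add (Nat.add (Nat.add (Nat.add (Nat.add (Nat.add (Nat.add (Nat.add (Nat.add (Nat.add C x10507) x28003) x25087) x23143) x23467) x23683) x23611) x23635) x23627) x23631) x43311) x3947) (Nat.mul x23629 (nat_lit 2)))
    (Nat.sub (Nat.add (Nat.add (Nat.add (Nat.add (Nat.add (Nat.add (Nat.add (Nat.add (Nat.add (Nat.add C x10509) x28005) x25089) x23145) x23469) x23685) x23613) x23637) x23629) x3949) (Nat.mul x23631 (nat_lit 4)))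
    (Nat.sub (Nat.add (Nat.add (Nat.add (Nat.add (Nat.add (Nat.add (Nat.add (Nat.add (Nat.add (Nat.add (Nat.add C x10513) x28009) x25093) x23149) x23473) x23689) x23617) x23629) x23637) x43317) x3953) x23635)
    (Nat.sub (Nat.add (Nat.add (Nat.add (Nat.add (Nat.add (Nat.add (Nat.add (Nat.add (Nat.add (Nat.add (Nat.add C x10515) x28011) x25095) x23151) x23475) x23691) x23619) x23631) x23643) x23635) x3955) x23637)
    (Nat.add (Nat.add (Nat.add (Nat.add (Nat.add (Nat.add (Nat.add (Nat.add C x10521) x28017) x25101) x23157) x23481) x23697) x23637) x3961)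
    (Nat.add (Nat.add (Nat.add (Nat.add (Nat.add (Nat.add (Nat.add (Nat.add (Nat.add (Nat.add (Nat.add C x23657) x10535) x28031) x25115) x23171) x23495) x23819) x23603) x23663) x23659) x43339)
    (Nat.add (Nat.add (Nat.add (Nat.add (Nat.add (Nat.add (Nat.add (Nat.add (Nat.add (Nat.add (Nat.add C x10537) x28033) x25117) x23173) x23497) x23821) x23605) x23665) x23657) x43341) x3977)
    (Nat.sub (Nat.add (Nat.add (Nat.add (Nat.add (Nat.add (Nat.add (Nat.add (Nat.add (Nat.add (Nat.add (Nat.add C x10541) x28037) x25121) x23177) x23501) x23825) x23609) x23681) x23657) x23665) x43345) x23663)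
    (Nat.add (Nat.add (Nat.add (Nat.add (Nat.add (Nat.add (Nat.add (Nat.add (Nat.add (Nat.add (Nat.add (Nat.add (Nat.add (Nat.add C x10543) x28039) x25123) x23179) x23503) x23827) x23611) x23683) x23659) x23671) x23663) x23667) x43347) x3983)
    (Nat.sub (Nat.add (Nat.add (Nat.add (Nat.add (Nat.add (Nat.add (Nat.add (Nat.add (Nat.add (Nat.add (Nat.add C x10545) x28041) x25125) x23181) x23505) x23829) x23613) x23685) x23673) x23665) x3985) x23667)
    (Nat.sub (Nat.add (Nat.add (Nat.add (Nat.add (Nat.add (Nat.add (Nat.add (Nat.add (Nat.add (Nat.add (Nat.add (Nat.add C x10549) x28045) x25129) x23185) x23509) x23833) x23617) x23689) x23665) x23673) x43353) x3989) (Nat.mul x23671 (nat_lit 2)))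
    (Nat.sub (Nat.add (Nat.add (Nat.add (Nat.add (Nat.add (Nat.add (Nat.add (Nat.add (Nat.add (Nat.add (Nat.add C x10551) x28047) x25131) x23187) x23511) x23835) x23619) x23691) x23667) x23671) x3991) x23673)
    (Nat.add (Nat.add (Nat.add (Nat.add (Nat.add (Nat.add (Nat.add (Nat.add (Nat.add (Nat.add (Nat.add C x10559) x28055) x25139) x23195) x23519) x23843) x23627) x23735) x23663) x23683) x43363)
    (Nat.add (Nat.add (Nat.add (Nat.add (Nat.add (Nat.add (Nat.add (Nat.add (Nat.add (Nat.add (Nat.add (Nat.add (Nat.add (Nat.add C x10561) x28057) x25141) x23197) x23521) x23845) x23629) x23737) x23665) x23689) x23681) x23685) x43365) x4001)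
    (Nat.sub (Nat.add (Nat.add (Nat.add (Nat.add (Nat.add (Nat.add (Nat.add (Nat.add (Nat.add (Nat.add (Nat.add (Nat.add C x10563) x28059) x25143) x23199) x23523) x23847) x23631) x23739) x23667) x23691) x23683) x4003) (Nat.mul x23685 (nat_lit 2)))
    (Nat.add (Nat.add (Nat.add (Nat.add (Nat.add (Nat.add (Nat.add (Nat.add (Nat.add (Nat.add (Nat.add (Nat.add (Nat.add (Nat.add C x10567) x28063) x25147) x23203) x23527) x23851) x23635) x23743) x23671) x23707) x23683) x23691) x43371) x4007)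
    (Nat.add (Nat.add (Nat.add (Nat.add (Nat.add (Nat.add (Nat.add (Nat.add (Nat.add (Nat.add (Nat.add (Nat.add (Nat.add (Nat.add C x10569) x28065) x25149) x23205) x23529) x23853) x23637) x23745) x23673) x23709) x23685) x23697) x23689) x4009)
    (Nat.add (Nat.add (Nat.add (Nat.add (Nat.add (Nat.add (Nat.add (Nat.add (Nat.add (Nat.add (Nat.add C x10575) x28071) x25155) x23211) x23535) x23859) x23643) x23751) x23715) x23691) x4015)
    (Nat.add (Nat.add (Nat.add (Nat.add (Nat.add (Nat.add (Nat.add (Nat.add (Nat.add (Nat.add (Nat.add C x10585) x28081) x25165) x23221) x23545) x23869) x23761) x23689) x23709) x43389) x4025)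
    (Nat.sub (Nat.add (Nat.add (Nat.add (Nat.add (Nat.add (Nat.add (Nat.add (Nat.add (Nat.add (Nat.add (Nat.add C x10587) x28083) x25167) x23223) x23547) x23871) x23763) x23691) x23715) x23707) x4027) x23709)
    (Nat.add (Nat.add (Nat.add (Nat.add (Nat.add (Nat.add (Nat.add (Nat.add (Nat.add (Nat.add (Nat.add C x23715) x10593) x28089) x25173) x23229) x23553) x23877) x23769) x23697) x23709) x4033)
    (Nat.add (Nat.add (Nat.add (Nat.add (Nat.add (Nat.add (Nat.add (Nat.add C x10613) x28109) x25193) x23249) x23897) x23681) x23737) x43417)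
    (Nat.add (Nat.add (Nat.add (Nat.add (Nat.add (Nat.add (Nat.add (Nat.add (Nat.add (Nat.add (Nat.add C x10615) x28111) x25195) x23251) x23899) x23683) x23743) x23735) x23739) x43419) x4055)
    (Nat.sub (Nat.add (Nat.add (Nat.add (Nat.add (Nat.add (Nat.add (Nat.add (Nat.add (Nat.add C x10617) x28113) x25197) x23253) x23901) x23685) x23745) x23737) x4057) (Nat.mul x23739 (nat_lit 2)))
    (Nat.sub (Nat.add (Nat.add (Nat.add (Nat.add (Nat.add (Nat.add (Nat.add (Nat.add (Nat.add (Nat.add (Nat.add C x10621) x28117) x25201) x23257) x23905) x23689) x23761) x23737) x23745) x43425) x4061) x23743)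
    (Nat.sub (Nat.add (Nat.add (Nat.add (Nat.add (Nat.add (Nat.add (Nat.add (Nat.add (Nat.add (Nat.add (Nat.add C x10623) x28119) x25203) x23259) x23907) x23691) x23763) x23739) x23751) x23743) x4063) x23745)
    (Nat.sub (Nat.add (Nat.add (Nat.add (Nat.add (Nat.add (Nat.add (Nat.add (Nat.add (Nat.add C x10629) x28125) x25209) x23265) x23913) x23697) x23769) x23745) x4069) (Nat.mul x23751 (nat_lit 2)))
    (Nat.add (Nat.add (Nat.add (Nat.add (Nat.add (Nat.add (Nat.add (Nat.add (Nat.add (Nat.add (Nat.add C x23761) x10639) x28135) x25219) x23275) x23923) x23707) x23743) x23763) x43443) x4079)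
    (Nat.add (Nat.add (Nat.add (Nat.add (Nat.add (Nat.add (Nat.add (Nat.add (Nat.add (Nat.add C x10641) x28137) x25221) x23277) x23925) x23709) x23745) x23769) x23761) x4081)
    (Nat.add (Nat.add (Nat.add (Nat.add (Nat.add (Nat.add (Nat.add (Nat.add (Nat.add (Nat.add (Nat.add C x23769) x10647) x28143) x25227) x23283) x23931) x23715) x23751) x23787) x23763) x4087)
    (Nat.add (Nat.add (Nat.add (Nat.add (Nat.add (Nat.add (Nat.add (Nat.add C (Nat.mul x23787 (nat_lit 2))) x10665) x28161) x25245) x23301) x23949) x23769) x4105)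
    (Nat.add (Nat.add (Nat.add (Nat.add (Nat.add (Nat.add (Nat.add (Nat.add C (Nat.mul x23819 (nat_lit 2))) x10697) x28193) x25277) x23657) x23825) x23821) x43501)
    (Nat.add (Nat.add (Nat.add (Nat.add (Nat.add (Nat.add (Nat.add (Nat.add (Nat.add C x23821) x10699) x28195) x25279) x23659) x23827) x23819) x43503) x4139)
    (Nat.add (Nat.add (Nat.add (Nat.add (Nat.add (Nat.add (Nat.add (Nat.add C x10703) x28199) x25283) x23663) x23843) x23819) x23827) x43507)
    (Nat.add (Nat.add (Nat.add (Nat.add (Nat.add (Nat.add (Nat.add (Nat.add (Nat.add (Nat.add (Nat.add (Nat.add C x23827) x10705) x28201) x25285) x23665) x23845) x23821) x23833) x23825) x23829) x43509) x4145)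
    (Nat.add (Nat.add (Nat.add (Nat.add (Nat.add (Nat.add (Nat.add (Nat.add C x10707) x28203) x25287) x23667) x23847) x23835) x23827) x4147)
    (Nat.sub (Nat.add (Nat.add (Nat.add (Nat.add (Nat.add (Nat.add (Nat.add (Nat.add (Nat.add C x10711) x28207) x25291) x23671) x23851) x23827) x23835) x43515) x4151) x23833)
    (Nat.add (Nat.add (Nat.add (Nat.add (Nat.add (Nat.add (Nat.add (Nat.add C x10713) x28209) x25293) x23673) x23853) x23829) x23833) x4153)
    (Nat.add (Nat.add (Nat.add (Nat.add (Nat.add (Nat.add (Nat.add (Nat.add C x10721) x28217) x25301) x23681) x23897) x23825) x23845) x43525)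
    (Nat.add (Nat.add (Nat.add (Nat.add (Nat.add (Nat.add (Nat.add (Nat.add (Nat.add (Nat.add (Nat.add C x10723) x28219) x25303) x23683) x23899) x23827) x23851) x23843) x23847) x43527) x4163)
    (Nat.sub (Nat.add (Nat.add (Nat.add (Nat.add (Nat.add (Nat.add (Nat.add (Nat.add (Nat.add C x10725) x28221) x25305) x23685) x23901) x23829) x23853) x23845) x4165) (Nat.mul x23847 (nat_lit 2)))
    (Nat.add (Nat.add (Nat.add (Nat.add (Nat.add (Nat.add (Nat.add (Nat.add (Nat.add (Nat.add (Nat.add C x10729) x28225) x25309) x23689) x23905) x23833) x23869) x23845) x23853) x43533) x4169)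
    (Nat.add (Nat.add (Nat.add (Nat.add (Nat.add (Nat.add (Nat.add (Nat.add (Nat.add (Nat.add (Nat.add C x10731) x28227) x25311) x23691) x23907) x23835) x23871) x23847) x23859) x23851) x4171)
    (Nat.add (Nat.add (Nat.add (Nat.add (Nat.add (Nat.add (Nat.add (Nat.add C x10737) x28233) x25317) x23697) x23913) x23877) x23853) x4177)
    (Nat.sub (Nat.add (Nat.add (Nat.add (Nat.add (Nat.add (Nat.add (Nat.add (Nat.add (Nat.add C x10747) x28243) x25327) x23707) x23923) x23851) x23871) x43551) x4187) x23869)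
    (Nat.sub (Nat.add (Nat.add (Nat.add (Nat.add (Nat.add (Nat.add (Nat.add (Nat.add (Nat.add C x10749) x28245) x25329) x23709) x23925) x23853) x23877) x23869) x4189) (Nat.mul x23871 (nat_lit 2)))
    (Nat.add (Nat.add (Nat.add (Nat.add (Nat.add (Nat.add (Nat.add (Nat.add C x10755) x28251) x25335) x23715) x23931) x23859) x23871) x4195)
    (Nat.add (Nat.add (Nat.add (Nat.add (Nat.add (Nat.add (Nat.add (Nat.add C (Nat.mul x23897 (nat_lit 2))) x10775) x28271) x25355) x23735) x23843) x23899) x43579)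
    (Nat.add (Nat.add (Nat.add (Nat.add (Nat.add (Nat.add (Nat.add (Nat.add (Nat.add (Nat.add (Nat.add C (Nat.mul x23899 (nat_lit 2))) x10777) x28273) x25357) x23737) x23845) x23905) x23897) x23901) x43581) x4217)
    (Nat.add (Nat.add (Nat.add (Nat.add (Nat.add (Nat.add (Nat.add (Nat.add C x10779) x28275) x25359) x23739) x23847) x23907) x23899) x4219)
    (Nat.add (Nat.add (Nat.add (Nat.add (Nat.add (Nat.add (Nat.add (Nat.add (Nat.add (Nat.add (Nat.add C x23905) x10783) x28279) x25363) x23743) x23851) x23923) x23899) x23907) x43587) x4223)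
    (Nat.add (Nat.add (Nat.add (Nat.add (Nat.add (Nat.add (Nat.add (Nat.add (Nat.add (Nat.add (Nat.add C x23907) x10785) x28281) x25365) x23745) x23853) x23925) x23901) x23913) x23905) x4225)
    (Nat.add (Nat.add (Nat.add (Nat.add (Nat.add (Nat.add (Nat.add (Nat.add C x10791) x28287) x25371) x23751) x23859) x23931) x23907) x4231)
    (Nat.add (Nat.add (Nat.add (Nat.add (Nat.add (Nat.add (Nat.add (Nat.add (Nat.add (Nat.add (Nat.add C (Nat.mul x23923 (nat_lit 2))) x10801) x28297) x25381) x23761) x23869) x23977) x23905) x23925) x43605) x4241)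
    (Nat.add (Nat.add (Nat.add (Nat.add (Nat.add (Nat.add (Nat.add (Nat.add (Nat.add (Nat.add (Nat.add C x23925) x10803) x28299) x25383) x23763) x23871) x23979) x23907) x23931) x23923) x4243)
    (Nat.add (Nat.add (Nat.add (Nat.add (Nat.add (Nat.add (Nat.add (Nat.add (Nat.add (Nat.add (Nat.add C (Nat.mul x23931 (nat_lit 2))) x10809) x28305) x25389) x23769) x23877) x23985) x23913) x23949) x23925) x4249)
    (Nat.add (Nat.add (Nat.add (Nat.add (Nat.add (Nat.add (Nat.add (Nat.add C (Nat.mul x23949 (nat_lit 2))) x10827) x28323) x25407) x23787) x24003) x23931) x4267)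
    (Nat.add (Nat.add (Nat.add (Nat.add (Nat.add (Nat.add (Nat.add (Nat.add C (Nat.mul x23977 (nat_lit 3))) x10855) x28351) x25435) x23923) x23979) x43659) x4295)
    (Nat.add (Nat.add (Nat.add (Nat.add (Nat.add (Nat.add (Nat.add (Nat.add C (Nat.mul x23979 (nat_lit 2))) x10857) x28353) x25437) x23925) x23985) x23977) x4297)
    (Nat.add (Nat.add (Nat.add (Nat.add (Nat.add (Nat.add (Nat.add (Nat.add C (Nat.mul x23985 (nat_lit 2))) x10863) x28359) x25443) x23931) x24003) x23979) x4303)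
    (Nat.add (Nat.add (Nat.add (Nat.add (Nat.add (Nat.add (Nat.add C (Nat.mul x24003 (nat_lit 4))) x10881) x28377) x25461) x23949) x23985) x4321)
    (Nat.add (Nat.add (Nat.add (Nat.add (Nat.add (Nat.add C (Nat.mul x24083 (nat_lit 2))) x10961) x28457) x22625) x24101) x43765)
    (Nat.add (Nat.add (Nat.add (Nat.add (Nat.add (Nat.add (Nat.add (Nat.add (Nat.add C x24101) x10979) x28475) x22643) x24155) x24083) x24119) x24107) x43783)
    (Nat.add (Nat.add (Nat.add (Nat.add (Nat.add (Nat.add (Nat.add (Nat.add C x10985) x28481) x22649) x24161) x24125) x24101) x24109) x43789)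
    (Nat.add (Nat.add (Nat.add (Nat.add (Nat.add (Nat.add (Nat.add (Nat.add (Nat.add C x24109) x10987) x28483) x22651) x24163) x24127) x24107) x43791) x4427)
    (Nat.sub (Nat.add (Nat.add (Nat.add (Nat.add (Nat.add (Nat.add (Nat.add C x10997) x28493) x22661) x24173) x24101) x24125) x43801) (Nat.mul x24119 (nat_lit 2)))
    (Nat.sub (Nat.add (Nat.add (Nat.add (Nat.add (Nat.add (Nat.add (Nat.add (Nat.add (Nat.add C x11003) x28499) x22667) x24179) x24107) x24119) x24131) x24127) x43807) x24125)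
    (Nat.sub (Nat.add (Nat.add (Nat.add (Nat.add (Nat.add (Nat.add (Nat.add (Nat.add (Nat.add C x11005) x28501) x22669) x24181) x24109) x24133) x24125) x43809) x4445) x24127)
    (Nat.sub (Nat.add (Nat.add (Nat.add (Nat.add (Nat.add (Nat.add (Nat.add C x11009) x28505) x22673) x24185) x24125) x24133) x43813) (Nat.mul x24131 (nat_lit 2)))
    (Nat.add (Nat.add (Nat.add (Nat.add (Nat.add (Nat.add (Nat.add (Nat.add (Nat.add C x11011) x28507) x22675) x24187) x24127) x24131) x24135) x43815) x4451)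
    (Nat.add (Nat.add (Nat.add (Nat.add (Nat.add (Nat.add C x11013) x28509) x22677) x24189) x24133) x4453)
    (Nat.add (Nat.add (Nat.add (Nat.add (Nat.add (Nat.add (Nat.add (Nat.add C x11033) x28529) x22697) x24317) x24101) x24173) x24161) x43837)
    (Nat.sub (Nat.add (Nat.add (Nat.add (Nat.add (Nat.add (Nat.add (Nat.add (Nat.add (Nat.add C x11039) x28535) x22703) x24323) x24107) x24179) x24155) x24163) x43843) (Nat.mul x24161 (nat_lit 2)))
    (Nat.sub (Nat.add (Nat.add (Nat.add (Nat.add (Nat.add (Nat.add (Nat.add (Nat.add (Nat.add C x11041) x28537) x22705) x24325) x24109) x24181) x24161) x43845) x4481) x24163)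
    (Nat.sub (Nat.add (Nat.add (Nat.add (Nat.add (Nat.add (Nat.add (Nat.add (Nat.add (Nat.add C x11051) x28547) x22715) x24335) x24119) x24227) x24155) x24179) x43855) x24173)
    (Nat.sub (Nat.add (Nat.add (Nat.add (Nat.add (Nat.add (Nat.add (Nat.add (Nat.add (Nat.add (Nat.add (Nat.add (Nat.add C x11057) x28553) x22721) x24341) x24125) x24233) x24161) x24197) x24173) x24185) x24181) x43861) x24179)
    (Nat.sub (Nat.add (Nat.add (Nat.add (Nat.add (Nat.add (Nat.add (Nat.add (Nat.add (Nat.add (Nat.add (Nat.add (Nat.add C x11059) x28555) x22723) x24343) x24127) x24235) x24163) x24199) x24187) x24179) x43863) x4499) x24181)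
    (Nat.sub (Nat.add (Nat.add (Nat.add (Nat.add (Nat.add (Nat.add (Nat.add (Nat.add (Nat.add (Nat.add C x11063) x28559) x22727) x24347) x24131) x24239) x24203) x24179) x24187) x43867) (Nat.mul x24185 (nat_lit 3)))
    (Nat.sub (Nat.add (Nat.add (Nat.add (Nat.add (Nat.add (Nat.add (Nat.add (Nat.add (Nat.add (Nat.add (Nat.add (Nat.add C x11065) x28561) x22729) x24349) x24133) x24241) x24205) x24181) x24185) x24189) x43869) x4505) x24187)
    (Nat.sub (Nat.add (Nat.add (Nat.add (Nat.add (Nat.add (Nat.add (Nat.add (Nat.add (Nat.add C x11067) x28563) x22731) x24351) x24135) x24243) x24207) x24187) x4507) x24189)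
    (Nat.sub (Nat.add (Nat.add (Nat.add (Nat.add (Nat.add (Nat.add (Nat.add (Nat.add (Nat.add C x11075) x28571) x22739) x24359) x24251) x24179) x24203) x24199) x43879) (Nat.mul x24197 (nat_lit 2)))
    (Nat.sub (Nat.add (Nat.add (Nat.add (Nat.add (Nat.add (Nat.add (Nat.add (Nat.add (Nat.add (Nat.add C x11077) x28573) x22741) x24361) x24253) x24181) x24205) x24197) x43881) x4517) (Nat.mul x24199 (nat_lit 3)))
    (Nat.sub (Nat.add (Nat.add (Nat.add (Nat.add (Nat.add (Nat.add (Nat.add (Nat.add (Nat.add C x11081) x28577) x22745) x24365) x24257) x24185) x24197) x24205) x43885) (Nat.mul x24203 (nat_lit 2)))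
    (Nat.sub (Nat.add (Nat.add (Nat.add (Nat.add (Nat.add (Nat.add (Nat.add (Nat.add (Nat.add (Nat.add (Nat.add (Nat.add C x11083) x28579) x22747) x24367) x24259) x24187) x24199) x24211) x24203) x24207) x43887) x4523) x24205)
    (Nat.sub (Nat.add (Nat.add (Nat.add (Nat.add (Nat.add (Nat.add (Nat.add (Nat.add (Nat.add C x11085) x28581) x22749) x24369) x24261) x24189) x24213) x24205) x4525) (Nat.mul x24207 (nat_lit 2)))
    (Nat.sub (Nat.add (Nat.add (Nat.add (Nat.add (Nat.add (Nat.add (Nat.add (Nat.add (Nat.add C x11089) x28585) x22753) x24373) x24265) x24205) x24213) x43893) x4529) x24211)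
    (Nat.add (Nat.add (Nat.add (Nat.add (Nat.add (Nat.add (Nat.add (Nat.add C x11091) x28587) x22755) x24375) x24267) x24207) x24211) x4531)
    (Nat.sub (Nat.add (Nat.add (Nat.add (Nat.add (Nat.add (Nat.add (Nat.add C x11105) x28601) x22769) x24389) x24173) x24233) x43909) (Nat.mul x24227 (nat_lit 2)))
    (Nat.sub (Nat.add (Nat.add (Nat.add (Nat.add (Nat.add (Nat.add (Nat.add (Nat.add (Nat.add (Nat.add C x11111) x28607) x22775) x24395) x24179) x24251) x24227) x24239) x24235) x43915) (Nat.mul x24233 (nat_lit 3)))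
    (Nat.sub (Nat.add (Nat.add (Nat.add (Nat.add (Nat.add (Nat.add (Nat.add (Nat.add (Nat.add (Nat.add C x11113) x28609) x22777) x24397) x24181) x24253) x24241) x24233) x43917) x4553) (Nat.mul x24235 (nat_lit 3)))
    (Nat.sub (Nat.add (Nat.add (Nat.add (Nat.add (Nat.add (Nat.add (Nat.add (Nat.add (Nat.add C x11117) x28613) x22781) x24401) x24185) x24257) x24233) x24241) x43921) (Nat.mul x24239 (nat_lit 6)))
    (Nat.sub (Nat.add (Nat.add (Nat.add (Nat.add (Nat.add (Nat.add (Nat.add (Nat.add (Nat.add (Nat.add (Nat.add C x11119) x28615) x22783) x24403) x24187) x24259) x24235) x24239) x24243) x43923) x4559) (Nat.mul x24241 (nat_lit 4)))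
    (Nat.sub (Nat.add (Nat.add (Nat.add (Nat.add (Nat.add (Nat.add (Nat.add (Nat.add C x11121) x28617) x22785) x24405) x24189) x24261) x24241) x4561) (Nat.mul x24243 (nat_lit 4)))
    (Nat.sub (Nat.add (Nat.add (Nat.add (Nat.add (Nat.add (Nat.add (Nat.add (Nat.add (Nat.add C x11129) x28625) x22793) x24413) x24197) x24233) x24257) x24253) x43933) (Nat.mul x24251 (nat_lit 2)))
    (Nat.sub (Nat.add (Nat.add (Nat.add (Nat.add (Nat.add (Nat.add (Nat.add (Nat.add (Nat.add (Nat.add C x11131) x28627) x22795) x24415) x24199) x24235) x24259) x24251) x43935) x4571) (Nat.mul x24253 (nat_lit 3)))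
    (Nat.sub (Nat.add (Nat.add (Nat.add (Nat.add (Nat.add (Nat.add (Nat.add (Nat.add (Nat.add (Nat.add C x11135) x28631) x22799) x24419) x24203) x24239) x24275) x24251) x24259) x43939) (Nat.mul x24257 (nat_lit 3)))
    (Nat.sub (Nat.add (Nat.add (Nat.add (Nat.add (Nat.add (Nat.add (Nat.add (Nat.add (Nat.add (Nat.add (Nat.add (Nat.add (Nat.add C x11137) x28633) x22801) x24421) x24205) x24241) x24277) x24253) x24265) x24257) x24261) x43941) x4577) (Nat.mul x24259 (nat_lit 2)))
    (Nat.sub (Nat.add (Nat.add (Nat.add (Nat.add (Nat.add (Nat.add (Nat.add (Nat.add (Nat.add (Nat.add C x11139) x28635) x22803) x24423) x24207) x24243) x24279) x24267) x24259) x4579) (Nat.mul x24261 (nat_lit 3)))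
    (Nat.sub (Nat.add (Nat.add (Nat.add (Nat.add (Nat.add (Nat.add (Nat.add (Nat.add (Nat.add (Nat.add C x11143) x28639) x22807) x24427) x24211) x24283) x24259) x24267) x43947) x4583) (Nat.mul x24265 (nat_lit 3)))
    (Nat.sub (Nat.add (Nat.add (Nat.add (Nat.add (Nat.add (Nat.add (Nat.add (Nat.add (Nat.add C x11145) x28641) x22809) x24429) x24213) x24285) x24261) x24265) x4585) (Nat.mul x24267 (nat_lit 2)))
    (Nat.sub (Nat.add (Nat.add (Nat.add (Nat.add (Nat.add (Nat.add (Nat.add C x11153) x28649) x22817) x24437) x24257) x24277) x43957) (Nat.mul x24275 (nat_lit 2)))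
    (Nat.sub (Nat.add (Nat.add (Nat.add (Nat.add (Nat.add (Nat.add (Nat.add (Nat.add (Nat.add (Nat.add C x11155) x28651) x22819) x24439) x24259) x24283) x24275) x24279) x43959) x4595) (Nat.mul x24277 (nat_lit 2)))
    (Nat.sub (Nat.add (Nat.add (Nat.add (Nat.add (Nat.add (Nat.add (Nat.add (Nat.add C x11157) x28653) x22821) x24441) x24261) x24285) x24277) x4597) (Nat.mul x24279 (nat_lit 4)))
    (Nat.sub (Nat.add (Nat.add (Nat.add (Nat.add (Nat.add (Nat.add (Nat.add (Nat.add (Nat.add C x11161) x28657) x22825) x24445) x24265) x24277) x24285) x43965) x4601) x24283)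
    (Nat.sub (Nat.add (Nat.add (Nat.add (Nat.add (Nat.add (Nat.add (Nat.add (Nat.add (Nat.add C x11163) x28659) x22827) x24447) x24267) x24279) x24291) x24283) x4603) x24285)
    (Nat.add (Nat.add (Nat.add (Nat.add (Nat.add (Nat.add C x11169) x28665) x22833) x24453) x24285) x4609)
    (Nat.add (Nat.add (Nat.add (Nat.add (Nat.add (Nat.add (Nat.add (Nat.add C x11195) x28691) x22859) x24803) x24155) x24335) x24323) x43999)
    (Nat.sub (Nat.add (Nat.add (Nat.add (Nat.add (Nat.add (Nat.add (Nat.add (Nat.add (Nat.add C x11201) x28697) x22865) x24809) x24161) x24341) x24317) x24325) x44005) (Nat.mul x24323 (nat_lit 2)))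
    (Nat.sub (Nat.add (Nat.add (Nat.add (Nat.add (Nat.add (Nat.add (Nat.add (Nat.add (Nat.add C x11203) x28699) x22867) x24811) x24163) x24343) x24323) x44007) x4643) x24325)
    (Nat.sub (Nat.add (Nat.add (Nat.add (Nat.add (Nat.add (Nat.add (Nat.add (Nat.add (Nat.add C x11213) x28709) x22877) x24821) x24173) x24389) x24317) x24341) x44017) (Nat.mul x24335 (nat_lit 2)))
    (Nat.sub (Nat.add (Nat.add (Nat.add (Nat.add (Nat.add (Nat.add (Nat.add (Nat.add (Nat.add (Nat.add (Nat.add (Nat.add C x11219) x28715) x22883) x24827) x24179) x24395) x24323) x24359) x24335) x24347) x24343) x44023) (Nat.mul x24341 (nat_lit 2)))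
    (Nat.sub (Nat.add (Nat.add (Nat.add (Nat.add (Nat.add (Nat.add (Nat.add (Nat.add (Nat.add (Nat.add (Nat.add (Nat.add C x11221) x28717) x22885) x24829) x24181) x24397) x24325) x24361) x24349) x24341) x44025) x4661) (Nat.mul x24343 (nat_lit 2)))
    (Nat.sub (Nat.add (Nat.add (Nat.add (Nat.add (Nat.add (Nat.add (Nat.add (Nat.add (Nat.add (Nat.add C x11225) x28721) x22889) x24833) x24185) x24401) x24365) x24341) x24349) x44029) (Nat.mul x24347 (nat_lit 4)))
    (Nat.sub (Nat.add (Nat.add (Nat.add (Nat.add (Nat.add (Nat.add (Nat.add (Nat.add (Nat.add (Nat.add (Nat.add (Nat.add C x11227) x28723) x22891) x24835) x24187) x24403) x24367) x24343) x24347) x24351) x44031) x4667) (Nat.mul x24349 (nat_lit 2)))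
    (Nat.sub (Nat.add (Nat.add (Nat.add (Nat.add (Nat.add (Nat.add (Nat.add (Nat.add (Nat.add C x11229) x28725) x22893) x24837) x24189) x24405) x24369) x24349) x4669) (Nat.mul x24351 (nat_lit 2)))
    (Nat.sub (Nat.add (Nat.add (Nat.add (Nat.add (Nat.add (Nat.add (Nat.add (Nat.add (Nat.add (Nat.add C x11237) x28733) x22901) x24845) x24197) x24413) x24341) x24365) x24361) x44041) (Nat.mul x24359 (nat_lit 4)))
    (Nat.sub (Nat.add (Nat.add (Nat.add (Nat.add (Nat.add (Nat.add (Nat.add (Nat.add (Nat.add (Nat.add (Nat.add C x11239) x28735) x22903) x24847) x24199) x24415) x24343) x24367) x24359) x44043) x4679) (Nat.mul x24361 (nat_lit 5)))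
    (Nat.sub (Nat.add (Nat.add (Nat.add (Nat.add (Nat.add (Nat.add (Nat.add (Nat.add (Nat.add (Nat.add C x11243) x28739) x22907) x24851) x24203) x24419) x24347) x24359) x24367) x44047) (Nat.mul x24365 (nat_lit 4)))
    (Nat.sub (Nat.add (Nat.add (Nat.add (Nat.add (Nat.add (Nat.add (Nat.add (Nat.add (Nat.add (Nat.add (Nat.add (Nat.add (Nat.add C x11245) x28741) x22909) x24853) x24205) x24421) x24349) x24361) x24373) x24365) x24369) x44049) x4685) (Nat.mul x24367 (nat_lit 3)))
    (Nat.sub (Nat.add (Nat.add (Nat.add (Nat.add (Nat.add (Nat.add (Nat.add (Nat.add (Nat.add (Nat.add C x11247) x28743) x22911) x24855) x24207) x24423) x24351) x24375) x24367) x4687) (Nat.mul x24369 (nat_lit 4)))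
    (Nat.sub (Nat.add (Nat.add (Nat.add (Nat.add (Nat.add (Nat.add (Nat.add (Nat.add (Nat.add (Nat.add C x11251) x28747) x22915) x24859) x24211) x24427) x24367) x24375) x44055) x4691) (Nat.mul x24373 (nat_lit 3)))
    (Nat.sub (Nat.add (Nat.add (Nat.add (Nat.add (Nat.add (Nat.add (Nat.add (Nat.add (Nat.add C x11253) x28749) x22917) x24861) x24213) x24429) x24369) x24373) x4693) (Nat.mul x24375 (nat_lit 2)))
    (Nat.sub (Nat.add (Nat.add (Nat.add (Nat.add (Nat.add (Nat.add (Nat.add (Nat.add (Nat.add C x11267) x28763) x22931) x24875) x24227) x24551) x24335) x24395) x44071) x24389)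
    (Nat.sub (Nat.add (Nat.add (Nat.add (Nat.add (Nat.add (Nat.add (Nat.add (Nat.add (Nat.add (Nat.add (Nat.add (Nat.add C x11273) x28769) x22937) x24881) x24233) x24557) x24341) x24413) x24389) x24401) x24397) x44077) (Nat.mul x24395 (nat_lit 2)))
    (Nat.sub (Nat.add (Nat.add (Nat.add (Nat.add (Nat.add (Nat.add (Nat.add (Nat.add (Nat.add (Nat.add (Nat.add (Nat.add C x11275) x28771) x22939) x24883) x24235) x24559) x24343) x24415) x24403) x24395) x44079) x4715) (Nat.mul x24397 (nat_lit 2)))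
    (Nat.sub (Nat.add (Nat.add (Nat.add (Nat.add (Nat.add (Nat.add (Nat.add (Nat.add (Nat.add (Nat.add (Nat.add C x11279) x28775) x22943) x24887) x24239) x24563) x24347) x24419) x24395) x24403) x44083) (Nat.mul x24401 (nat_lit 5)))
    (Nat.sub (Nat.add (Nat.add (Nat.add (Nat.add (Nat.add (Nat.add (Nat.add (Nat.add (Nat.add (Nat.add (Nat.add (Nat.add (Nat.add C x11281) x28777) x22945) x24889) x24241) x24565) x24349) x24421) x24397) x24401) x24405) x44085) x4721) (Nat.mul x24403 (nat_lit 3)))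
    (Nat.sub (Nat.add (Nat.add (Nat.add (Nat.add (Nat.add (Nat.add (Nat.add (Nat.add (Nat.add (Nat.add C x11283) x28779) x22947) x24891) x24243) x24567) x24351) x24423) x24403) x4723) (Nat.mul x24405 (nat_lit 3)))
    (Nat.sub (Nat.add (Nat.add (Nat.add (Nat.add (Nat.add (Nat.add (Nat.add (Nat.add (Nat.add (Nat.add (Nat.add (Nat.add C x11291) x28787) x22955) x24899) x24251) x24575) x24359) x24467) x24395) x24419) x24415) x44095) (Nat.mul x24413 (nat_lit 2)))
    (Nat.sub (Nat.add (Nat.add (Nat.add (Nat.add (Nat.add (Nat.add (Nat.add (Nat.add (Nat.add (Nat.add (Nat.add (Nat.add (Nat.add C x11293) x28789) x22957) x24901) x24253) x24577) x24361) x24469) x24397) x24421) x24413) x44097) x4733) (Nat.mul x24415 (nat_lit 3)))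
    (Nat.sub (Nat.add (Nat.add (Nat.add (Nat.add (Nat.add (Nat.add (Nat.add (Nat.add (Nat.add (Nat.add (Nat.add (Nat.add (Nat.add C x11297) x28793) x22961) x24905) x24257) x24581) x24365) x24473) x24401) x24437) x24413) x24421) x44101) (Nat.mul x24419 (nat_lit 3)))
    (Nat.sub (Nat.add (Nat.add (Nat.add (Nat.add (Nat.add (Nat.add (Nat.add (Nat.add (Nat.add (Nat.add (Nat.add (Nat.add (Nat.add (Nat.add (Nat.add (Nat.add C x11299) x28795) x22963) x24907) x24259) x24583) x24367) x24475) x24403) x24439) x24415) x24427) x24419) x24423) x44103) x4739) (Nat.mul x24421 (nat_lit 2)))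
    (Nat.sub (Nat.add (Nat.add (Nat.add (Nat.add (Nat.add (Nat.add (Nat.add (Nat.add (Nat.add (Nat.add (Nat.add (Nat.add (Nat.add C x11301) x28797) x22965) x24909) x24261) x24585) x24369) x24477) x24405) x24441) x24429) x24421) x4741) (Nat.mul x24423 (nat_lit 3)))
    (Nat.sub (Nat.add (Nat.add (Nat.add (Nat.add (Nat.add (Nat.add (Nat.add (Nat.add (Nat.add (Nat.add (Nat.add (Nat.add (Nat.add C x11305) x28801) x22969) x24913) x24265) x24589) x24373) x24481) x24445) x24421) x24429) x44109) x4745) (Nat.mul x24427 (nat_lit 3)))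
    (Nat.sub (Nat.add (Nat.add (Nat.add (Nat.add (Nat.add (Nat.add (Nat.add (Nat.add (Nat.add (Nat.add (Nat.add (Nat.add C x11307) x28803) x22971) x24915) x24267) x24591) x24375) x24483) x24447) x24423) x24427) x4747) (Nat.mul x24429 (nat_lit 2)))
    (Nat.sub (Nat.add (Nat.add (Nat.add (Nat.add (Nat.add (Nat.add (Nat.add (Nat.add (Nat.add (Nat.add C x11315) x28811) x22979) x24923) x24275) x24599) x24491) x24419) x24439) x44119) (Nat.mul x24437 (nat_lit 3)))
    (Nat.sub (Nat.add (Nat.add (Nat.add (Nat.add (Nat.add (Nat.add (Nat.add (Nat.add (Nat.add (Nat.add (Nat.add (Nat.add (Nat.add C x11317) x28813) x22981) x24925) x24277) x24601) x24493) x24421) x24445) x24437) x24441) x44121) x4757) (Nat.mul x24439 (nat_lit 3)))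
    (Nat.sub (Nat.add (Nat.add (Nat.add (Nat.add (Nat.add (Nat.add (Nat.add (Nat.add (Nat.add (Nat.add (Nat.add C x11319) x28815) x22983) x24927) x24279) x24603) x24495) x24423) x24447) x24439) x4759) (Nat.mul x24441 (nat_lit 5)))
    (Nat.sub (Nat.add (Nat.add (Nat.add (Nat.add (Nat.add (Nat.add (Nat.add (Nat.add (Nat.add (Nat.add (Nat.add (Nat.add C x11323) x28819) x22987) x24931) x24283) x24607) x24499) x24427) x24439) x24447) x44127) x4763) (Nat.mul x24445 (nat_lit 2)))
    (Nat.sub (Nat.add (Nat.add (Nat.add (Nat.add (Nat.add (Nat.add (Nat.add (Nat.add (Nat.add (Nat.add (Nat.add (Nat.add C x11325) x28821) x22989) x24933) x24285) x24609) x24501) x24429) x24441) x24453) x24445) x4765) (Nat.mul x24447 (nat_lit 2)))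
    (Nat.sub (Nat.add (Nat.add (Nat.add (Nat.add (Nat.add (Nat.add (Nat.add (Nat.add (Nat.add C x11331) x28827) x22995) x24939) x24291) x24615) x24507) x24447) x4771) x24453)
    (Nat.sub (Nat.add (Nat.add (Nat.add (Nat.add (Nat.add (Nat.add (Nat.add (Nat.add (Nat.add C x11345) x28841) x23009) x24953) x24629) x24413) x24473) x24469) x44149) (Nat.mul x24467 (nat_lit 2)))
    (Nat.sub (Nat.add (Nat.add (Nat.add (Nat.add (Nat.add (Nat.add (Nat.add (Nat.add (Nat.add (Nat.add C x11347) x28843) x23011) x24955) x24631) x24415) x24475) x24467) x44151) x4787) (Nat.mul x24469 (nat_lit 3)))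
    (Nat.sub (Nat.add (Nat.add (Nat.add (Nat.add (Nat.add (Nat.add (Nat.add (Nat.add (Nat.add (Nat.add C x11351) x28847) x23015) x24959) x24635) x24419) x24491) x24467) x24475) x44155) (Nat.mul x24473 (nat_lit 4)))
    (Nat.sub (Nat.add (Nat.add (Nat.add (Nat.add (Nat.add (Nat.add (Nat.add (Nat.add (Nat.add (Nat.add (Nat.add (Nat.add (Nat.add C x11353) x28849) x23017) x24961) x24637) x24421) x24493) x24469) x24481) x24473) x24477) x44157) x4793) (Nat.mul x24475 (nat_lit 3)))
    (Nat.sub (Nat.add (Nat.add (Nat.add (Nat.add (Nat.add (Nat.add (Nat.add (Nat.add (Nat.add (Nat.add C x11355) x28851) x23019) x24963) x24639) x24423) x24495) x24483) x24475) x4795) (Nat.mul x24477 (nat_lit 4)))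
    (Nat.sub (Nat.add (Nat.add (Nat.add (Nat.add (Nat.add (Nat.add (Nat.add (Nat.add (Nat.add (Nat.add (Nat.add C x11359) x28855) x23023) x24967) x24643) x24427) x24499) x24475) x24483) x44163) x4799) (Nat.mul x24481 (nat_lit 5)))
    (Nat.sub (Nat.add (Nat.add (Nat.add (Nat.add (Nat.add (Nat.add (Nat.add (Nat.add (Nat.add (Nat.add C x11361) x28857) x23025) x24969) x24645) x24429) x24501) x24477) x24481) x4801) (Nat.mul x24483 (nat_lit 4)))
    (Nat.sub (Nat.add (Nat.add (Nat.add (Nat.add (Nat.add (Nat.add (Nat.add (Nat.add (Nat.add C x11369) x28865) x23033) x24977) x24653) x24437) x24473) x24493) x44173) (Nat.mul x24491 (nat_lit 2)))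
    (Nat.sub (Nat.add (Nat.add (Nat.add (Nat.add (Nat.add (Nat.add (Nat.add (Nat.add (Nat.add (Nat.add (Nat.add (Nat.add C x11371) x28867) x23035) x24979) x24655) x24439) x24475) x24499) x24491) x24495) x44175) x4811) (Nat.mul x24493 (nat_lit 2)))
    (Nat.sub (Nat.add (Nat.add (Nat.add (Nat.add (Nat.add (Nat.add (Nat.add (Nat.add (Nat.add (Nat.add C x11373) x28869) x23037) x24981) x24657) x24441) x24477) x24501) x24493) x4813) (Nat.mul x24495 (nat_lit 4)))
    (Nat.sub (Nat.add (Nat.add (Nat.add (Nat.add (Nat.add (Nat.add (Nat.add (Nat.add (Nat.add (Nat.add (Nat.add (Nat.add C x11377) x28873) x23041) x24985) x24661) x24445) x24481) x24517) x24493) x24501) x44181) x4817) (Nat.mul x24499 (nat_lit 2)))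
    (Nat.sub (Nat.add (Nat.add (Nat.add (Nat.add (Nat.add (Nat.add (Nat.add (Nat.add (Nat.add (Nat.add (Nat.add (Nat.add C x11379) x28875) x23043) x24987) x24663) x24447) x24483) x24519) x24495) x24507) x24499) x4819) (Nat.mul x24501 (nat_lit 2)))
    (Nat.sub (Nat.add (Nat.add (Nat.add (Nat.add (Nat.add (Nat.add (Nat.add (Nat.add (Nat.add C x11385) x28881) x23049) x24993) x24669) x24453) x24525) x24501) x4825) (Nat.mul x24507 (nat_lit 2)))
    (Nat.sub (Nat.add (Nat.add (Nat.add (Nat.add (Nat.add (Nat.add (Nat.add (Nat.add (Nat.add C x11395) x28891) x23059) x25003) x24679) x24499) x24519) x44199) x4835) x24517)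
    (Nat.sub (Nat.add (Nat.add (Nat.add (Nat.add (Nat.add (Nat.add (Nat.add (Nat.add (Nat.add C x11397) x28893) x23061) x25005) x24681) x24501) x24525) x24517) x4837) (Nat.mul x24519 (nat_lit 2)))
    (Nat.add (Nat.add (Nat.add (Nat.add (Nat.add (Nat.add (Nat.add (Nat.add C x11403) x28899) x23067) x25011) x24687) x24507) x24519) x4843)
    (Nat.sub (Nat.add (Nat.add (Nat.add (Nat.add (Nat.add (Nat.add (Nat.add C x11429) x28925) x23093) x25037) x24389) x24557) x44233) (Nat.mul x24551 (nat_lit 2)))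
    (Nat.sub (Nat.add (Nat.add (Nat.add (Nat.add (Nat.add (Nat.add (Nat.add (Nat.add (Nat.add (Nat.add C x11435) x28931) x23099) x25043) x24395) x24575) x24551) x24563) x24559) x44239) (Nat.mul x24557 (nat_lit 3)))
    (Nat.sub (Nat.add (Nat.add (Nat.add (Nat.add (Nat.add (Nat.add (Nat.add (Nat.add (Nat.add (Nat.add C x11437) x28933) x23101) x25045) x24397) x24577) x24565) x24557) x44241) x4877) (Nat.mul x24559 (nat_lit 3)))
    (Nat.sub (Nat.add (Nat.add (Nat.add (Nat.add (Nat.add (Nat.add (Nat.add (Nat.add (Nat.add C x11441) x28937) x23105) x25049) x24401) x24581) x24557) x24565) x44245) (Nat.mul x24563 (nat_lit 6)))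
    (Nat.sub (Nat.add (Nat.add (Nat.add (Nat.add (Nat.add (Nat.add (Nat.add (Nat.add (Nat.add (Nat.add (Nat.add C x11443) x28939) x23107) x25051) x24403) x24583) x24559) x24563) x24567) x44247) x4883) (Nat.mul x24565 (nat_lit 4)))
    (Nat.sub (Nat.add (Nat.add (Nat.add (Nat.add (Nat.add (Nat.add (Nat.add (Nat.add C x11445) x28941) x23109) x25053) x24405) x24585) x24565) x4885) (Nat.mul x24567 (nat_lit 4)))
    (Nat.sub (Nat.add (Nat.add (Nat.add (Nat.add (Nat.add (Nat.add (Nat.add (Nat.add (Nat.add (Nat.add C x11453) x28949) x23117) x25061) x24413) x24629) x24557) x24581) x24577) x44257) (Nat.mul x24575 (nat_lit 4)))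
    (Nat.sub (Nat.add (Nat.add (Nat.add (Nat.add (Nat.add (Nat.add (Nat.add (Nat.add (Nat.add (Nat.add (Nat.add C x11455) x28951) x23119) x25063) x24415) x24631) x24559) x24583) x24575) x44259) x4895) (Nat.mul x24577 (nat_lit 5)))
    (Nat.sub (Nat.add (Nat.add (Nat.add (Nat.add (Nat.add (Nat.add (Nat.add (Nat.add (Nat.add (Nat.add (Nat.add C x11459) x28955) x23123) x25067) x24419) x24635) x24563) x24599) x24575) x24583) x44263) (Nat.mul x24581 (nat_lit 5)))
    (Nat.sub (Nat.add (Nat.add (Nat.add (Nat.add (Nat.add (Nat.add (Nat.add (Nat.add (Nat.add (Nat.add (Nat.add (Nat.add (Nat.add (Nat.add C x11461) x28957) x23125) x25069) x24421) x24637) x24565) x24601) x24577) x24589) x24581) x24585) x44265) x4901) (Nat.mul x24583 (nat_lit 4)))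
    (Nat.sub (Nat.add (Nat.add (Nat.add (Nat.add (Nat.add (Nat.add (Nat.add (Nat.add (Nat.add (Nat.add (Nat.add C x11463) x28959) x23127) x25071) x24423) x24639) x24567) x24603) x24591) x24583) x4903) (Nat.mul x24585 (nat_lit 5)))
    (Nat.sub (Nat.add (Nat.add (Nat.add (Nat.add (Nat.add (Nat.add (Nat.add (Nat.add (Nat.add (Nat.add (Nat.add C x11467) x28963) x23131) x25075) x24427) x24643) x24607) x24583) x24591) x44271) x4907) (Nat.mul x24589 (nat_lit 5)))
    (Nat.sub (Nat.add (Nat.add (Nat.add (Nat.add (Nat.add (Nat.add (Nat.add (Nat.add (Nat.add (Nat.add C x11469) x28965) x23133) x25077) x24429) x24645) x24609) x24585) x24589) x4909) (Nat.mul x24591 (nat_lit 4)))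
    (Nat.sub (Nat.add (Nat.add (Nat.add (Nat.add (Nat.add (Nat.add (Nat.add (Nat.add (Nat.add C x11477) x28973) x23141) x25085) x24437) x24653) x24581) x24601) x44281) (Nat.mul x24599 (nat_lit 6)))
    (Nat.sub (Nat.add (Nat.add (Nat.add (Nat.add (Nat.add (Nat.add (Nat.add (Nat.add (Nat.add (Nat.add (Nat.add (Nat.add C x11479) x28975) x23143) x25087) x24439) x24655) x24583) x24607) x24599) x24603) x44283) x4919) (Nat.mul x24601 (nat_lit 6)))
    (Nat.sub (Nat.add (Nat.add (Nat.add (Nat.add (Nat.add (Nat.add (Nat.add (Nat.add (Nat.add (Nat.add C x11481) x28977) x23145) x25089) x24441) x24657) x24585) x24609) x24601) x4921) (Nat.mul x24603 (nat_lit 8)))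
    (Nat.sub (Nat.add (Nat.add (Nat.add (Nat.add (Nat.add (Nat.add (Nat.add (Nat.add (Nat.add (Nat.add (Nat.add C x11485) x28981) x23149) x25093) x24445) x24661) x24589) x24601) x24609) x44289) x4925) (Nat.mul x24607 (nat_lit 5)))
    (Nat.sub (Nat.add (Nat.add (Nat.add (Nat.add (Nat.add (Nat.add (Nat.add (Nat.add (Nat.add (Nat.add (Nat.add C x11487) x28983) x23151) x25095) x24447) x24663) x24591) x24603) x24615) x24607) x4927) (Nat.mul x24609 (nat_lit 5)))
    (Nat.sub (Nat.add (Nat.add (Nat.add (Nat.add (Nat.add (Nat.add (Nat.add (Nat.add C x11493) x28989) x23157) x25101) x24453) x24669) x24609) x4933) (Nat.mul x24615 (nat_lit 4)))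
    (Nat.sub (Nat.add (Nat.add (Nat.add (Nat.add (Nat.add (Nat.add (Nat.add (Nat.add (Nat.add C x11507) x29003) x23171) x25115) x24467) x24575) x24635) x24631) x44311) (Nat.mul x24629 (nat_lit 2)))
    (Nat.sub (Nat.add (Nat.add (Nat.add (Nat.add (Nat.add (Nat.add (Nat.add (Nat.add (Nat.add (Nat.add C x11509) x29005) x23173) x25117) x24469) x24577) x24637) x24629) x44313) x4949) (Nat.mul x24631 (nat_lit 3)))
    (Nat.sub (Nat.add (Nat.add (Nat.add (Nat.add (Nat.add (Nat.add (Nat.add (Nat.add (Nat.add (Nat.add C x11513) x29009) x23177) x25121) x24473) x24581) x24653) x24629) x24637) x44317) (Nat.mul x24635 (nat_lit 4)))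
    (Nat.sub (Nat.add (Nat.add (Nat.add (Nat.add (Nat.add (Nat.add (Nat.add (Nat.add (Nat.add (Nat.add (Nat.add (Nat.add (Nat.add C x11515) x29011) x23179) x25123) x24475) x24583) x24655) x24631) x24643) x24635) x24639) x44319) x4955) (Nat.mul x24637 (nat_lit 3)))
    (Nat.sub (Nat.add (Nat.add (Nat.add (Nat.add (Nat.add (Nat.add (Nat.add (Nat.add (Nat.add (Nat.add C x11517) x29013) x23181) x25125) x24477) x24585) x24657) x24645) x24637) x4957) (Nat.mul x24639 (nat_lit 4)))
    (Nat.sub (Nat.add (Nat.add (Nat.add (Nat.add (Nat.add (Nat.add (Nat.add (Nat.add (Nat.add (Nat.add (Nat.add C x11521) x29017) x23185) x25129) x24481) x24589) x24661) x24637) x24645) x44325) x4961) (Nat.mul x24643 (nat_lit 5)))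
    (Nat.sub (Nat.add (Nat.add (Nat.add (Nat.add (Nat.add (Nat.add (Nat.add (Nat.add (Nat.add (Nat.add C x11523) x29019) x23187) x25131) x24483) x24591) x24663) x24639) x24643) x4963) (Nat.mul x24645 (nat_lit 4)))
    (Nat.sub (Nat.add (Nat.add (Nat.add (Nat.add (Nat.add (Nat.add (Nat.add (Nat.add (Nat.add (Nat.add C x11531) x29027) x23195) x25139) x24491) x24599) x24707) x24635) x24655) x44335) (Nat.mul x24653 (nat_lit 3)))
    (Nat.sub (Nat.add (Nat.add (Nat.add (Nat.add (Nat.add (Nat.add (Nat.add (Nat.add (Nat.add (Nat.add (Nat.add (Nat.add (Nat.add C x11533) x29029) x23197) x25141) x24493) x24601) x24709) x24637) x24661) x24653) x24657) x44337) x4973) (Nat.mul x24655 (nat_lit 3)))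
    (Nat.sub (Nat.add (Nat.add (Nat.add (Nat.add (Nat.add (Nat.add (Nat.add (Nat.add (Nat.add (Nat.add (Nat.add C x11535) x29031) x23199) x25143) x24495) x24603) x24711) x24639) x24663) x24655) x4975) (Nat.mul x24657 (nat_lit 5)))
    (Nat.sub (Nat.add (Nat.add (Nat.add (Nat.add (Nat.add (Nat.add (Nat.add (Nat.add (Nat.add (Nat.add (Nat.add (Nat.add (Nat.add C x11539) x29035) x23203) x25147) x24499) x24607) x24715) x24643) x24679) x24655) x24663) x44343) x4979) (Nat.mul x24661 (nat_lit 3)))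
    (Nat.sub (Nat.add (Nat.add (Nat.add (Nat.add (Nat.add (Nat.add (Nat.add (Nat.add (Nat.add (Nat.add (Nat.add (Nat.add (Nat.add C x11541) x29037) x23205) x25149) x24501) x24609) x24717) x24645) x24681) x24657) x24669) x24661) x4981) (Nat.mul x24663 (nat_lit 3)))
    (Nat.sub (Nat.add (Nat.add (Nat.add (Nat.add (Nat.add (Nat.add (Nat.add (Nat.add (Nat.add (Nat.add C x11547) x29043) x23211) x25155) x24507) x24615) x24723) x24687) x24663) x4987) (Nat.mul x24669 (nat_lit 3)))
    (Nat.sub (Nat.add (Nat.add (Nat.add (Nat.add (Nat.add (Nat.add (Nat.add (Nat.add (Nat.add (Nat.add C x11557) x29053) x23221) x25165) x24517) x24733) x24661) x24681) x44361) x4997) (Nat.mul x24679 (nat_lit 3)))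
    (Nat.sub (Nat.add (Nat.add (Nat.add (Nat.add (Nat.add (Nat.add (Nat.add (Nat.add (Nat.add (Nat.add C x11559) x29055) x23223) x25167) x24519) x24735) x24663) x24687) x24679) x4999) (Nat.mul x24681 (nat_lit 4)))
    (Nat.sub (Nat.add (Nat.add (Nat.add (Nat.add (Nat.add (Nat.add (Nat.add (Nat.add (Nat.add C x11565) x29061) x23229) x25173) x24525) x24741) x24669) x24681) x5005) (Nat.mul x24687 (nat_lit 2)))
    (Nat.sub (Nat.add (Nat.add (Nat.add (Nat.add (Nat.add (Nat.add (Nat.add C x11585) x29081) x23249) x25193) x24653) x24709) x44389) (Nat.mul x24707 (nat_lit 2)))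
    (Nat.sub (Nat.add (Nat.add (Nat.add (Nat.add (Nat.add (Nat.add (Nat.add (Nat.add (Nat.add (Nat.add C x11587) x29083) x23251) x25195) x24655) x24715) x24707) x24711) x44391) x5027) (Nat.mul x24709 (nat_lit 2)))
    (Nat.sub (Nat.add (Nat.add (Nat.add (Nat.add (Nat.add (Nat.add (Nat.add (Nat.add C x11589) x29085) x23253) x25197) x24657) x24717) x24709) x5029) (Nat.mul x24711 (nat_lit 4)))
    (Nat.sub (Nat.add (Nat.add (Nat.add (Nat.add (Nat.add (Nat.add (Nat.add (Nat.add (Nat.add (Nat.add C x11593) x29089) x23257) x25201) x24661) x24733) x24709) x24717) x44397) x5033) (Nat.mul x24715 (nat_lit 3)))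
    (Nat.sub (Nat.add (Nat.add (Nat.add (Nat.add (Nat.add (Nat.add (Nat.add (Nat.add (Nat.add (Nat.add C x11595) x29091) x23259) x25203) x24663) x24735) x24711) x24723) x24715) x5035) (Nat.mul x24717 (nat_lit 3)))
    (Nat.sub (Nat.add (Nat.add (Nat.add (Nat.add (Nat.add (Nat.add (Nat.add (Nat.add C x11601) x29097) x23265) x25209) x24669) x24741) x24717) x5041) (Nat.mul x24723 (nat_lit 4)))
    (Nat.sub (Nat.add (Nat.add (Nat.add (Nat.add (Nat.add (Nat.add (Nat.add (Nat.add (Nat.add C x11611) x29107) x23275) x25219) x24679) x24715) x24735) x44415) x5051) x24733)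
    (Nat.sub (Nat.add (Nat.add (Nat.add (Nat.add (Nat.add (Nat.add (Nat.add (Nat.add (Nat.add C x11613) x29109) x23277) x25221) x24681) x24717) x24741) x24733) x5053) (Nat.mul x24735 (nat_lit 2)))
    (Nat.sub (Nat.add (Nat.add (Nat.add (Nat.add (Nat.add (Nat.add (Nat.add (Nat.add (Nat.add C x11619) x29115) x23283) x25227) x24687) x24723) x24759) x24735) x5059) x24741)
    (Nat.add (Nat.add (Nat.add (Nat.add (Nat.add (Nat.add C x11637) x29133) x23301) x25245) x24741) x5077)
    (Nat.add (Nat.add (Nat.add (Nat.add (Nat.add (Nat.add (Nat.add (Nat.add C (Nat.mul x24803 (nat_lit 2))) x11681) x29177) x23345) x24317) x24821) x24809) x44485)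
    (Nat.add (Nat.add (Nat.add (Nat.add (Nat.add (Nat.add (Nat.add (Nat.add C x11687) x29183) x23351) x24323) x24827) x24803) x24811) x44491)
    (Nat.add (Nat.add (Nat.add (Nat.add (Nat.add (Nat.add (Nat.add (Nat.add (Nat.add C x24811) x11689) x29185) x23353) x24325) x24829) x24809) x44493) x5129)
    (Nat.add (Nat.add (Nat.add (Nat.add (Nat.add (Nat.add (Nat.add (Nat.add C x11699) x29195) x23363) x24335) x24875) x24803) x24827) x44503)
    (Nat.add (Nat.add (Nat.add (Nat.add (Nat.add (Nat.add (Nat.add (Nat.add (Nat.add (Nat.add (Nat.add C x11705) x29201) x23369) x24341) x24881) x24809) x24845) x24821) x24833) x24829) x44509)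
    (Nat.add (Nat.add (Nat.add (Nat.add (Nat.add (Nat.add (Nat.add (Nat.add (Nat.add (Nat.add (Nat.add C x11707) x29203) x23371) x24343) x24883) x24811) x24847) x24835) x24827) x44511) x5147)
    (Nat.sub (Nat.add (Nat.add (Nat.add (Nat.add (Nat.add (Nat.add (Nat.add (Nat.add (Nat.add C x11711) x29207) x23375) x24347) x24887) x24851) x24827) x24835) x44515) (Nat.mul x24833 (nat_lit 2)))
    (Nat.add (Nat.add (Nat.add (Nat.add (Nat.add (Nat.add (Nat.add (Nat.add (Nat.add (Nat.add (Nat.add C x11713) x29209) x23377) x24349) x24889) x24853) x24829) x24833) x24837) x44517) x5153)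
    (Nat.add (Nat.add (Nat.add (Nat.add (Nat.add (Nat.add (Nat.add (Nat.add C x11715) x29211) x23379) x24351) x24891) x24855) x24835) x5155)
    (Nat.sub (Nat.add (Nat.add (Nat.add (Nat.add (Nat.add (Nat.add (Nat.add (Nat.add (Nat.add C x11723) x29219) x23387) x24359) x24899) x24827) x24851) x24847) x44527) (Nat.mul x24845 (nat_lit 2)))
    (Nat.sub (Nat.add (Nat.add (Nat.add (Nat.add (Nat.add (Nat.add (Nat.add (Nat.add (Nat.add (Nat.add C x11725) x29221) x23389) x24361) x24901) x24829) x24853) x24845) x44529) x5165) (Nat.mul x24847 (nat_lit 3)))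
    (Nat.sub (Nat.add (Nat.add (Nat.add (Nat.add (Nat.add (Nat.add (Nat.add (Nat.add (Nat.add C x11729) x29225) x23393) x24365) x24905) x24833) x24845) x24853) x44533) (Nat.mul x24851 (nat_lit 2)))
    (Nat.sub (Nat.add (Nat.add (Nat.add (Nat.add (Nat.add (Nat.add (Nat.add (Nat.add (Nat.add (Nat.add (Nat.add (Nat.add C x11731) x29227) x23395) x24367) x24907) x24835) x24847) x24859) x24851) x24855) x44535) x5171) x24853)
    (Nat.sub (Nat.add (Nat.add (Nat.add (Nat.add (Nat.add (Nat.add (Nat.add (Nat.add (Nat.add C x11733) x29229) x23397) x24369) x24909) x24837) x24861) x24853) x5173) (Nat.mul x24855 (nat_lit 2)))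
    (Nat.sub (Nat.add (Nat.add (Nat.add (Nat.add (Nat.add (Nat.add (Nat.add (Nat.add (Nat.add C x11737) x29233) x23401) x24373) x24913) x24853) x24861) x44541) x5177) x24859)
    (Nat.add (Nat.add (Nat.add (Nat.add (Nat.add (Nat.add (Nat.add (Nat.add C x11739) x29235) x23403) x24375) x24915) x24855) x24859) x5179)
    (Nat.add (Nat.add (Nat.add (Nat.add (Nat.add (Nat.add (Nat.add (Nat.add C x11753) x29249) x23417) x24389) x25037) x24821) x24881) x44557)
    (Nat.sub (Nat.add (Nat.add (Nat.add (Nat.add (Nat.add (Nat.add (Nat.add (Nat.add (Nat.add (Nat.add (Nat.add C x11759) x29255) x23423) x24395) x25043) x24827) x24899) x24875) x24887) x24883) x44563) x24881)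
    (Nat.sub (Nat.add (Nat.add (Nat.add (Nat.add (Nat.add (Nat.add (Nat.add (Nat.add (Nat.add (Nat.add (Nat.add C x11761) x29257) x23425) x24397) x25045) x24829) x24901) x24889) x24881) x44565) x5201) x24883)
    (Nat.sub (Nat.add (Nat.add (Nat.add (Nat.add (Nat.add (Nat.add (Nat.add (Nat.add (Nat.add (Nat.add C x11765) x29261) x23429) x24401) x25049) x24833) x24905) x24881) x24889) x44569) (Nat.mul x24887 (nat_lit 4)))
    (Nat.sub (Nat.add (Nat.add (Nat.add (Nat.add (Nat.add (Nat.add (Nat.add (Nat.add (Nat.add (Nat.add (Nat.add (Nat.add C x11767) x29263) x23431) x24403) x25051) x24835) x24907) x24883) x24887) x24891) x44571) x5207) (Nat.mul x24889 (nat_lit 2)))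
    (Nat.sub (Nat.add (Nat.add (Nat.add (Nat.add (Nat.add (Nat.add (Nat.add (Nat.add (Nat.add C x11769) x29265) x23433) x24405) x25053) x24837) x24909) x24889) x5209) (Nat.mul x24891 (nat_lit 2)))
    (Nat.sub (Nat.add (Nat.add (Nat.add (Nat.add (Nat.add (Nat.add (Nat.add (Nat.add (Nat.add (Nat.add (Nat.add C x11777) x29273) x23441) x24413) x25061) x24845) x24953) x24881) x24905) x24901) x44581) x24899)
    (Nat.sub (Nat.add (Nat.add (Nat.add (Nat.add (Nat.add (Nat.add (Nat.add (Nat.add (Nat.add (Nat.add (Nat.add (Nat.add C x11779) x29275) x23443) x24415) x25063) x24847) x24955) x24883) x24907) x24899) x44583) x5219) (Nat.mul x24901 (nat_lit 2)))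
    (Nat.sub (Nat.add (Nat.add (Nat.add (Nat.add (Nat.add (Nat.add (Nat.add (Nat.add (Nat.add (Nat.add (Nat.add (Nat.add C x11783) x29279) x23447) x24419) x25067) x24851) x24959) x24887) x24923) x24899) x24907) x44587) (Nat.mul x24905 (nat_lit 2)))
    (Nat.sub (Nat.add (Nat.add (Nat.add (Nat.add (Nat.add (Nat.add (Nat.add (Nat.add (Nat.add (Nat.add (Nat.add (Nat.add (Nat.add (Nat.add (Nat.add C x11785) x29281) x23449) x24421) x25069) x24853) x24961) x24889) x24925) x24901) x24913) x24905) x24909) x44589) x5225) x24907)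
    (Nat.sub (Nat.add (Nat.add (Nat.add (Nat.add (Nat.add (Nat.add (Nat.add (Nat.add (Nat.add (Nat.add (Nat.add (Nat.add C x11787) x29283) x23451) x24423) x25071) x24855) x24963) x24891) x24927) x24915) x24907) x5227) (Nat.mul x24909 (nat_lit 2)))
    (Nat.sub (Nat.add (Nat.add (Nat.add (Nat.add (Nat.add (Nat.add (Nat.add (Nat.add (Nat.add (Nat.add (Nat.add (Nat.add C x11791) x29287) x23455) x24427) x25075) x24859) x24967) x24931) x24907) x24915) x44595) x5231) (Nat.mul x24913 (nat_lit 2)))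
    (Nat.sub (Nat.add (Nat.add (Nat.add (Nat.add (Nat.add (Nat.add (Nat.add (Nat.add (Nat.add (Nat.add (Nat.add C x11793) x29289) x23457) x24429) x25077) x24861) x24969) x24933) x24909) x24913) x5233) x24915)
    (Nat.sub (Nat.add (Nat.add (Nat.add (Nat.add (Nat.add (Nat.add (Nat.add (Nat.add (Nat.add C x11801) x29297) x23465) x24437) x25085) x24977) x24905) x24925) x44605) (Nat.mul x24923 (nat_lit 2)))
    (Nat.sub (Nat.add (Nat.add (Nat.add (Nat.add (Nat.add (Nat.add (Nat.add (Nat.add (Nat.add (Nat.add (Nat.add (Nat.add C x11803) x29299) x23467) x24439) x25087) x24979) x24907) x24931) x24923) x24927) x44607) x5243) (Nat.mul x24925 (nat_lit 2)))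
    (Nat.sub (Nat.add (Nat.add (Nat.add (Nat.add (Nat.add (Nat.add (Nat.add (Nat.add (Nat.add (Nat.add C x11805) x29301) x23469) x24441) x25089) x24981) x24909) x24933) x24925) x5245) (Nat.mul x24927 (nat_lit 4)))
    (Nat.sub (Nat.add (Nat.add (Nat.add (Nat.add (Nat.add (Nat.add (Nat.add (Nat.add (Nat.add (Nat.add (Nat.add C x11809) x29305) x23473) x24445) x25093) x24985) x24913) x24925) x24933) x44613) x5249) x24931)
    (Nat.sub (Nat.add (Nat.add (Nat.add (Nat.add (Nat.add (Nat.add (Nat.add (Nat.add (Nat.add (Nat.add (Nat.add C x11811) x29307) x23475) x24447) x25095) x24987) x24915) x24927) x24939) x24931) x5251) x24933)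
    (Nat.add (Nat.add (Nat.add (Nat.add (Nat.add (Nat.add (Nat.add (Nat.add C x11817) x29313) x23481) x24453) x25101) x24993) x24933) x5257)
    (Nat.sub (Nat.add (Nat.add (Nat.add (Nat.add (Nat.add (Nat.add (Nat.add (Nat.add (Nat.add C x11831) x29327) x23495) x24467) x25115) x24899) x24959) x24955) x44635) (Nat.mul x24953 (nat_lit 2)))
    (Nat.sub (Nat.add (Nat.add (Nat.add (Nat.add (Nat.add (Nat.add (Nat.add (Nat.add (Nat.add (Nat.add C x11833) x29329) x23497) x24469) x25117) x24901) x24961) x24953) x44637) x5273) (Nat.mul x24955 (nat_lit 3)))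
    (Nat.sub (Nat.add (Nat.add (Nat.add (Nat.add (Nat.add (Nat.add (Nat.add (Nat.add (Nat.add (Nat.add C x11837) x29333) x23501) x24473) x25121) x24905) x24977) x24953) x24961) x44641) (Nat.mul x24959 (nat_lit 4)))
    (Nat.sub (Nat.add (Nat.add (Nat.add (Nat.add (Nat.add (Nat.add (Nat.add (Nat.add (Nat.add (Nat.add (Nat.add (Nat.add (Nat.add C x11839) x29335) x23503) x24475) x25123) x24907) x24979) x24955) x24967) x24959) x24963) x44643) x5279) (Nat.mul x24961 (nat_lit 3)))
    (Nat.sub (Nat.add (Nat.add (Nat.add (Nat.add (Nat.add (Nat.add (Nat.add (Nat.add (Nat.add (Nat.add C x11841) x29337) x23505) x24477) x25125) x24909) x24981) x24969) x24961) x5281) (Nat.mul x24963 (nat_lit 4)))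
    (Nat.sub (Nat.add (Nat.add (Nat.add (Nat.add (Nat.add (Nat.add (Nat.add (Nat.add (Nat.add (Nat.add (Nat.add C x11845) x29341) x23509) x24481) x25129) x24913) x24985) x24961) x24969) x44649) x5285) (Nat.mul x24967 (nat_lit 5)))
    (Nat.sub (Nat.add (Nat.add (Nat.add (Nat.add (Nat.add (Nat.add (Nat.add (Nat.add (Nat.add (Nat.add C x11847) x29343) x23511) x24483) x25131) x24915) x24987) x24963) x24967) x5287) (Nat.mul x24969 (nat_lit 4)))
    (Nat.sub (Nat.add (Nat.add (Nat.add (Nat.add (Nat.add (Nat.add (Nat.add (Nat.add (Nat.add C x11855) x29351) x23519) x24491) x25139) x24923) x24959) x24979) x44659) (Nat.mul x24977 (nat_lit 2)))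
    (Nat.sub (Nat.add (Nat.add (Nat.add (Nat.add (Nat.add (Nat.add (Nat.add (Nat.add (Nat.add (Nat.add (Nat.add (Nat.add C x11857) x29353) x23521) x24493) x25141) x24925) x24961) x24985) x24977) x24981) x44661) x5297) (Nat.mul x24979 (nat_lit 2)))
    (Nat.sub (Nat.add (Nat.add (Nat.add (Nat.add (Nat.add (Nat.add (Nat.add (Nat.add (Nat.add (Nat.add C x11859) x29355) x23523) x24495) x25143) x24927) x24963) x24987) x24979) x5299) (Nat.mul x24981 (nat_lit 4)))
    (Nat.sub (Nat.add (Nat.add (Nat.add (Nat.add (Nat.add (Nat.add (Nat.add (Nat.add (Nat.add (Nat.add (Nat.add (Nat.add C x11863) x29359) x23527) x24499) x25147) x24931) x24967) x25003) x24979) x24987) x44667) x5303) (Nat.mul x24985 (nat_lit 2)))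
    (Nat.sub (Nat.add (Nat.add (Nat.add (Nat.add (Nat.add (Nat.add (Nat.add (Nat.add (Nat.add (Nat.add (Nat.add (Nat.add C x11865) x29361) x23529) x24501) x25149) x24933) x24969) x25005) x24981) x24993) x24985) x5305) (Nat.mul x24987 (nat_lit 2)))
    (Nat.sub (Nat.add (Nat.add (Nat.add (Nat.add (Nat.add (Nat.add (Nat.add (Nat.add (Nat.add C x11871) x29367) x23535) x24507) x25155) x24939) x25011) x24987) x5311) (Nat.mul x24993 (nat_lit 2)))
    (Nat.sub (Nat.add (Nat.add (Nat.add (Nat.add (Nat.add (Nat.add (Nat.add (Nat.add (Nat.add C x11881) x29377) x23545) x24517) x25165) x24985) x25005) x44685) x5321) x25003)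
    (Nat.sub (Nat.add (Nat.add (Nat.add (Nat.add (Nat.add (Nat.add (Nat.add (Nat.add (Nat.add C x11883) x29379) x23547) x24519) x25167) x24987) x25011) x25003) x5323) (Nat.mul x25005 (nat_lit 2)))
    (Nat.add (Nat.add (Nat.add (Nat.add (Nat.add (Nat.add (Nat.add (Nat.add C x11889) x29385) x23553) x24525) x25173) x24993) x25005) x5329)
    (Nat.add (Nat.add (Nat.add (Nat.add (Nat.add (Nat.add (Nat.add (Nat.add (Nat.add C x25037) x11915) x29411) x23579) x24551) x25523) x24875) x25043) x44719)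
    (Nat.add (Nat.add (Nat.add (Nat.add (Nat.add (Nat.add (Nat.add (Nat.add (Nat.add (Nat.add (Nat.add C x11921) x29417) x23585) x24557) x25529) x24881) x25061) x25037) x25049) x25045) x44725)
    (Nat.add (Nat.add (Nat.add (Nat.add (Nat.add (Nat.add (Nat.add (Nat.add (Nat.add (Nat.add (Nat.add C x11923) x29419) x23587) x24559) x25531) x24883) x25063) x25051) x25043) x44727) x5363)
    (Nat.sub (Nat.add (Nat.add (Nat.add (Nat.add (Nat.add (Nat.add (Nat.add (Nat.add (Nat.add (Nat.add C x11927) x29423) x23591) x24563) x25535) x24887) x25067) x25043) x25051) x44731) (Nat.mul x25049 (nat_lit 3)))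
    (Nat.sub (Nat.add (Nat.add (Nat.add (Nat.add (Nat.add (Nat.add (Nat.add (Nat.add (Nat.add (Nat.add (Nat.add (Nat.add C x11929) x29425) x23593) x24565) x25537) x24889) x25069) x25045) x25049) x25053) x44733) x5369) x25051)
    (Nat.sub (Nat.add (Nat.add (Nat.add (Nat.add (Nat.add (Nat.add (Nat.add (Nat.add (Nat.add C x11931) x29427) x23595) x24567) x25539) x24891) x25071) x25051) x5371) x25053)
    (Nat.sub (Nat.add (Nat.add (Nat.add (Nat.add (Nat.add (Nat.add (Nat.add (Nat.add (Nat.add (Nat.add (Nat.add C x11939) x29435) x23603) x24575) x25547) x24899) x25115) x25043) x25067) x25063) x44743) x25061)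
    (Nat.sub (Nat.add (Nat.add (Nat.add (Nat.add (Nat.add (Nat.add (Nat.add (Nat.add (Nat.add (Nat.add (Nat.add (Nat.add C x11941) x29437) x23605) x24577) x25549) x24901) x25117) x25045) x25069) x25061) x44745) x5381) (Nat.mul x25063 (nat_lit 2)))
    (Nat.sub (Nat.add (Nat.add (Nat.add (Nat.add (Nat.add (Nat.add (Nat.add (Nat.add (Nat.add (Nat.add (Nat.add (Nat.add C x11945) x29441) x23609) x24581) x25553) x24905) x25121) x25049) x25085) x25061) x25069) x44749) (Nat.mul x25067 (nat_lit 2)))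
    (Nat.sub (Nat.add (Nat.add (Nat.add (Nat.add (Nat.add (Nat.add (Nat.add (Nat.add (Nat.add (Nat.add (Nat.add (Nat.add (Nat.add (Nat.add (Nat.add C x11947) x29443) x23611) x24583) x25555) x24907) x25123) x25051) x25087) x25063) x25075) x25067) x25071) x44751) x5387) x25069)
    (Nat.sub (Nat.add (Nat.add (Nat.add (Nat.add (Nat.add (Nat.add (Nat.add (Nat.add (Nat.add (Nat.add (Nat.add (Nat.add C x11949) x29445) x23613) x24585) x25557) x24909) x25125) x25053) x25089) x25077) x25069) x5389) (Nat.mul x25071 (nat_lit 2)))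
    (Nat.sub (Nat.add (Nat.add (Nat.add (Nat.add (Nat.add (Nat.add (Nat.add (Nat.add (Nat.add (Nat.add (Nat.add (Nat.add C x11953) x29449) x23617) x24589) x25561) x24913) x25129) x25093) x25069) x25077) x44757) x5393) (Nat.mul x25075 (nat_lit 2)))
    (Nat.sub (Nat.add (Nat.add (Nat.add (Nat.add (Nat.add (Nat.add (Nat.add (Nat.add (Nat.add (Nat.add (Nat.add C x11955) x29451) x23619) x24591) x25563) x24915) x25131) x25095) x25071) x25075) x5395) x25077)
    (Nat.sub (Nat.add (Nat.add (Nat.add (Nat.add (Nat.add (Nat.add (Nat.add (Nat.add (Nat.add (Nat.add C x11963) x29459) x23627) x24599) x25571) x24923) x25139) x25067) x25087) x44767) (Nat.mul x25085 (nat_lit 3)))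
    (Nat.sub (Nat.add (Nat.add (Nat.add (Nat.add (Nat.add (Nat.add (Nat.add (Nat.add (Nat.add (Nat.add (Nat.add (Nat.add (Nat.add C x11965) x29461) x23629) x24601) x25573) x24925) x25141) x25069) x25093) x25085) x25089) x44769) x5405) (Nat.mul x25087 (nat_lit 3)))
    (Nat.sub (Nat.add (Nat.add (Nat.add (Nat.add (Nat.add (Nat.add (Nat.add (Nat.add (Nat.add (Nat.add (Nat.add C x11967) x29463) x23631) x24603) x25575) x24927) x25143) x25071) x25095) x25087) x5407) (Nat.mul x25089 (nat_lit 5)))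
    (Nat.sub (Nat.add (Nat.add (Nat.add (Nat.add (Nat.add (Nat.add (Nat.add (Nat.add (Nat.add (Nat.add (Nat.add (Nat.add C x11971) x29467) x23635) x24607) x25579) x24931) x25147) x25075) x25087) x25095) x44775) x5411) (Nat.mul x25093 (nat_lit 2)))
    (Nat.sub (Nat.add (Nat.add (Nat.add (Nat.add (Nat.add (Nat.add (Nat.add (Nat.add (Nat.add (Nat.add (Nat.add (Nat.add C x11973) x29469) x23637) x24609) x25581) x24933) x25149) x25077) x25089) x25101) x25093) x5413) (Nat.mul x25095 (nat_lit 2)))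
    (Nat.sub (Nat.add (Nat.add (Nat.add (Nat.add (Nat.add (Nat.add (Nat.add (Nat.add (Nat.add C x11979) x29475) x23643) x24615) x25587) x24939) x25155) x25095) x5419) x25101)
    (Nat.add (Nat.add (Nat.add (Nat.add (Nat.add (Nat.add (Nat.add (Nat.add (Nat.add (Nat.add (Nat.add C x11993) x29489) x23657) x24629) x25601) x24953) x25277) x25061) x25121) x25117) x44797)
    (Nat.sub (Nat.add (Nat.add (Nat.add (Nat.add (Nat.add (Nat.add (Nat.add (Nat.add (Nat.add (Nat.add (Nat.add (Nat.add C x11995) x29491) x23659) x24631) x25603) x24955) x25279) x25063) x25123) x25115) x44799) x5435) x25117)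
    (Nat.sub (Nat.add (Nat.add (Nat.add (Nat.add (Nat.add (Nat.add (Nat.add (Nat.add (Nat.add (Nat.add (Nat.add (Nat.add C x11999) x29495) x23663) x24635) x25607) x24959) x25283) x25067) x25139) x25115) x25123) x44803) (Nat.mul x25121 (nat_lit 2)))
    (Nat.sub (Nat.add (Nat.add (Nat.add (Nat.add (Nat.add (Nat.add (Nat.add (Nat.add (Nat.add (Nat.add (Nat.add (Nat.add (Nat.add (Nat.add (Nat.add C x12001) x29497) x23665) x24637) x25609) x24961) x25285) x25069) x25141) x25117) x25129) x25121) x25125) x44805) x5441) x25123)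
    (Nat.sub (Nat.add (Nat.add (Nat.add (Nat.add (Nat.add (Nat.add (Nat.add (Nat.add (Nat.add (Nat.add (Nat.add (Nat.add C x12003) x29499) x23667) x24639) x25611) x24963) x25287) x25071) x25143) x25131) x25123) x5443) (Nat.mul x25125 (nat_lit 2)))
    (Nat.sub (Nat.add (Nat.add (Nat.add (Nat.add (Nat.add (Nat.add (Nat.add (Nat.add (Nat.add (Nat.add (Nat.add (Nat.add (Nat.add C x12007) x29503) x23671) x24643) x25615) x24967) x25291) x25075) x25147) x25123) x25131) x44811) x5447) (Nat.mul x25129 (nat_lit 3)))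
    (Nat.sub (Nat.add (Nat.add (Nat.add (Nat.add (Nat.add (Nat.add (Nat.add (Nat.add (Nat.add (Nat.add (Nat.add (Nat.add C x12009) x29505) x23673) x24645) x25617) x24969) x25293) x25077) x25149) x25125) x25129) x5449) (Nat.mul x25131 (nat_lit 2)))
    (Nat.sub (Nat.add (Nat.add (Nat.add (Nat.add (Nat.add (Nat.add (Nat.add (Nat.add (Nat.add (Nat.add (Nat.add (Nat.add C x12017) x29513) x23681) x24653) x25625) x24977) x25301) x25085) x25193) x25121) x25141) x44821) x25139)
    (Nat.sub (Nat.add (Nat.add (Nat.add (Nat.add (Nat.add (Nat.add (Nat.add (Nat.add (Nat.add (Nat.add (Nat.add (Nat.add (Nat.add (Nat.add (Nat.add C x12019) x29515) x23683) x24655) x25627) x24979) x25303) x25087) x25195) x25123) x25147) x25139) x25143) x44823) x5459) x25141)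
    (Nat.sub (Nat.add (Nat.add (Nat.add (Nat.add (Nat.add (Nat.add (Nat.add (Nat.add (Nat.add (Nat.add (Nat.add (Nat.add (Nat.add C x12021) x29517) x23685) x24657) x25629) x24981) x25305) x25089) x25197) x25125) x25149) x25141) x5461) (Nat.mul x25143 (nat_lit 3)))
    (Nat.sub (Nat.add (Nat.add (Nat.add (Nat.add (Nat.add (Nat.add (Nat.add (Nat.add (Nat.add (Nat.add (Nat.add (Nat.add (Nat.add (Nat.add (Nat.add C x12025) x29521) x23689) x24661) x25633) x24985) x25309) x25093) x25201) x25129) x25165) x25141) x25149) x44829) x5465) x25147)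
    (Nat.sub (Nat.add (Nat.add (Nat.add (Nat.add (Nat.add (Nat.add (Nat.add (Nat.add (Nat.add (Nat.add (Nat.add (Nat.add (Nat.add (Nat.add (Nat.add C x12027) x29523) x23691) x24663) x25635) x24987) x25311) x25095) x25203) x25131) x25167) x25143) x25155) x25147) x5467) x25149)
    (Nat.sub (Nat.add (Nat.add (Nat.add (Nat.add (Nat.add (Nat.add (Nat.add (Nat.add (Nat.add (Nat.add (Nat.add (Nat.add C x12033) x29529) x23697) x24669) x25641) x24993) x25317) x25101) x25209) x25173) x25149) x5473) x25155)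
    (Nat.sub (Nat.add (Nat.add (Nat.add (Nat.add (Nat.add (Nat.add (Nat.add (Nat.add (Nat.add (Nat.add (Nat.add (Nat.add C x12043) x29539) x23707) x24679) x25651) x25003) x25327) x25219) x25147) x25167) x44847) x5483) x25165)
    (Nat.sub (Nat.add (Nat.add (Nat.add (Nat.add (Nat.add (Nat.add (Nat.add (Nat.add (Nat.add (Nat.add (Nat.add (Nat.add C x12045) x29541) x23709) x24681) x25653) x25005) x25329) x25221) x25149) x25173) x25165) x5485) (Nat.mul x25167 (nat_lit 2)))
    (Nat.add (Nat.add (Nat.add (Nat.add (Nat.add (Nat.add (Nat.add (Nat.add (Nat.add (Nat.add (Nat.add C x12051) x29547) x23715) x24687) x25659) x25011) x25335) x25227) x25155) x25167) x5491)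
    (Nat.sub (Nat.add (Nat.add (Nat.add (Nat.add (Nat.add (Nat.add (Nat.add (Nat.add (Nat.add C x12071) x29567) x23735) x24707) x25679) x25355) x25139) x25195) x44875) x25193)
    (Nat.sub (Nat.add (Nat.add (Nat.add (Nat.add (Nat.add (Nat.add (Nat.add (Nat.add (Nat.add (Nat.add (Nat.add (Nat.add C x12073) x29569) x23737) x24709) x25681) x25357) x25141) x25201) x25193) x25197) x44877) x5513) x25195)
    (Nat.sub (Nat.add (Nat.add (Nat.add (Nat.add (Nat.add (Nat.add (Nat.add (Nat.add (Nat.add (Nat.add C x12075) x29571) x23739) x24711) x25683) x25359) x25143) x25203) x25195) x5515) (Nat.mul x25197 (nat_lit 3)))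
    (Nat.sub (Nat.add (Nat.add (Nat.add (Nat.add (Nat.add (Nat.add (Nat.add (Nat.add (Nat.add (Nat.add (Nat.add (Nat.add C x12079) x29575) x23743) x24715) x25687) x25363) x25147) x25219) x25195) x25203) x44883) x5519) (Nat.mul x25201 (nat_lit 2)))
    (Nat.sub (Nat.add (Nat.add (Nat.add (Nat.add (Nat.add (Nat.add (Nat.add (Nat.add (Nat.add (Nat.add (Nat.add (Nat.add C x12081) x29577) x23745) x24717) x25689) x25365) x25149) x25221) x25197) x25209) x25201) x5521) (Nat.mul x25203 (nat_lit 2)))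
    (Nat.sub (Nat.add (Nat.add (Nat.add (Nat.add (Nat.add (Nat.add (Nat.add (Nat.add (Nat.add (Nat.add C x12087) x29583) x23751) x24723) x25695) x25371) x25155) x25227) x25203) x5527) (Nat.mul x25209 (nat_lit 3)))
    (Nat.add (Nat.add (Nat.add (Nat.add (Nat.add (Nat.add (Nat.add (Nat.add (Nat.add (Nat.add (Nat.add C x12097) x29593) x23761) x24733) x25705) x25381) x25165) x25201) x25221) x44901) x5537)
    (Nat.sub (Nat.add (Nat.add (Nat.add (Nat.add (Nat.add (Nat.add (Nat.add (Nat.add (Nat.add (Nat.add (Nat.add C x12099) x29595) x23763) x24735) x25707) x25383) x25167) x25203) x25227) x25219) x5539) x25221)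
    (Nat.add (Nat.add (Nat.add (Nat.add (Nat.add (Nat.add (Nat.add (Nat.add (Nat.add (Nat.add (Nat.add C x12105) x29601) x23769) x24741) x25713) x25389) x25173) x25209) x25245) x25221) x5545)
    (Nat.add (Nat.add (Nat.add (Nat.add (Nat.add (Nat.add (Nat.add (Nat.add (Nat.add C x25245) x12123) x29619) x23787) x24759) x25731) x25407) x25227) x5563)
    (Nat.add (Nat.add (Nat.add (Nat.add (Nat.add (Nat.add (Nat.add (Nat.add C x12155) x29651) x23819) x25763) x25115) x25283) x25279) x44959)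
    (Nat.sub (Nat.add (Nat.add (Nat.add (Nat.add (Nat.add (Nat.add (Nat.add (Nat.add (Nat.add C x12157) x29653) x23821) x25765) x25117) x25285) x25277) x44961) x5597) x25279)
    (Nat.sub (Nat.add (Nat.add (Nat.add (Nat.add (Nat.add (Nat.add (Nat.add (Nat.add (Nat.add C x12161) x29657) x23825) x25769) x25121) x25301) x25277) x25285) x44965) (Nat.mul x25283 (nat_lit 2)))
    (Nat.sub (Nat.add (Nat.add (Nat.add (Nat.add (Nat.add (Nat.add (Nat.add (Nat.add (Nat.add (Nat.add (Nat.add (Nat.add C x12163) x29659) x23827) x25771) x25123) x25303) x25279) x25291) x25283) x25287) x44967) x5603) x25285)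
    (Nat.sub (Nat.add (Nat.add (Nat.add (Nat.add (Nat.add (Nat.add (Nat.add (Nat.add (Nat.add C x12165) x29661) x23829) x25773) x25125) x25305) x25293) x25285) x5605) (Nat.mul x25287 (nat_lit 2)))
    (Nat.sub (Nat.add (Nat.add (Nat.add (Nat.add (Nat.add (Nat.add (Nat.add (Nat.add (Nat.add (Nat.add C x12169) x29665) x23833) x25777) x25129) x25309) x25285) x25293) x44973) x5609) (Nat.mul x25291 (nat_lit 3)))
    (Nat.sub (Nat.add (Nat.add (Nat.add (Nat.add (Nat.add (Nat.add (Nat.add (Nat.add (Nat.add C x12171) x29667) x23835) x25779) x25131) x25311) x25287) x25291) x5611) (Nat.mul x25293 (nat_lit 2)))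
    (Nat.sub (Nat.add (Nat.add (Nat.add (Nat.add (Nat.add (Nat.add (Nat.add (Nat.add (Nat.add C x12179) x29675) x23843) x25787) x25139) x25355) x25283) x25303) x44983) (Nat.mul x25301 (nat_lit 2)))
    (Nat.sub (Nat.add (Nat.add (Nat.add (Nat.add (Nat.add (Nat.add (Nat.add (Nat.add (Nat.add (Nat.add (Nat.add (Nat.add C x12181) x29677) x23845) x25789) x25141) x25357) x25285) x25309) x25301) x25305) x44985) x5621) (Nat.mul x25303 (nat_lit 2)))
    (Nat.sub (Nat.add (Nat.add (Nat.add (Nat.add (Nat.add (Nat.add (Nat.add (Nat.add (Nat.add (Nat.add C x12183) x29679) x23847) x25791) x25143) x25359) x25287) x25311) x25303) x5623) (Nat.mul x25305 (nat_lit 4)))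
    (Nat.sub (Nat.add (Nat.add (Nat.add (Nat.add (Nat.add (Nat.add (Nat.add (Nat.add (Nat.add (Nat.add (Nat.add (Nat.add C x12187) x29683) x23851) x25795) x25147) x25363) x25291) x25327) x25303) x25311) x44991) x5627) (Nat.mul x25309 (nat_lit 2)))
    (Nat.sub (Nat.add (Nat.add (Nat.add (Nat.add (Nat.add (Nat.add (Nat.add (Nat.add (Nat.add (Nat.add (Nat.add (Nat.add C x12189) x29685) x23853) x25797) x25149) x25365) x25293) x25329) x25305) x25317) x25309) x5629) (Nat.mul x25311 (nat_lit 2)))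
    (Nat.sub (Nat.add (Nat.add (Nat.add (Nat.add (Nat.add (Nat.add (Nat.add (Nat.add (Nat.add C x12195) x29691) x23859) x25803) x25155) x25371) x25335) x25311) x5635) (Nat.mul x25317 (nat_lit 2)))
    (Nat.sub (Nat.add (Nat.add (Nat.add (Nat.add (Nat.add (Nat.add (Nat.add (Nat.add (Nat.add (Nat.add C x12205) x29701) x23869) x25813) x25165) x25381) x25309) x25329) x45009) x5645) (Nat.mul x25327 (nat_lit 3)))
    (Nat.sub (Nat.add (Nat.add (Nat.add (Nat.add (Nat.add (Nat.add (Nat.add (Nat.add (Nat.add (Nat.add C x12207) x29703) x23871) x25815) x25167) x25383) x25311) x25335) x25327) x5647) (Nat.mul x25329 (nat_lit 4)))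
    (Nat.sub (Nat.add (Nat.add (Nat.add (Nat.add (Nat.add (Nat.add (Nat.add (Nat.add (Nat.add C x12213) x29709) x23877) x25821) x25173) x25389) x25317) x25329) x5653) (Nat.mul x25335 (nat_lit 2)))
    (Nat.add (Nat.add (Nat.add (Nat.add (Nat.add (Nat.add (Nat.add (Nat.add C x12233) x29729) x23897) x25841) x25193) x25301) x25357) x45037)
    (Nat.add (Nat.add (Nat.add (Nat.add (Nat.add (Nat.add (Nat.add (Nat.add (Nat.add (Nat.add (Nat.add C x12235) x29731) x23899) x25843) x25195) x25303) x25363) x25355) x25359) x45039) x5675)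
    (Nat.sub (Nat.add (Nat.add (Nat.add (Nat.add (Nat.add (Nat.add (Nat.add (Nat.add (Nat.add C x12237) x29733) x23901) x25845) x25197) x25305) x25365) x25357) x5677) (Nat.mul x25359 (nat_lit 2)))
    (Nat.sub (Nat.add (Nat.add (Nat.add (Nat.add (Nat.add (Nat.add (Nat.add (Nat.add (Nat.add (Nat.add (Nat.add C x12241) x29737) x23905) x25849) x25201) x25309) x25381) x25357) x25365) x45045) x5681) x25363)
    (Nat.sub (Nat.add (Nat.add (Nat.add (Nat.add (Nat.add (Nat.add (Nat.add (Nat.add (Nat.add (Nat.add (Nat.add C x12243) x29739) x23907) x25851) x25203) x25311) x25383) x25359) x25371) x25363) x5683) x25365)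
    (Nat.sub (Nat.add (Nat.add (Nat.add (Nat.add (Nat.add (Nat.add (Nat.add (Nat.add (Nat.add C x12249) x29745) x23913) x25857) x25209) x25317) x25389) x25365) x5689) (Nat.mul x25371 (nat_lit 2)))
    (Nat.add (Nat.add (Nat.add (Nat.add (Nat.add (Nat.add (Nat.add (Nat.add (Nat.add (Nat.add (Nat.add C x12259) x29755) x23923) x25867) x25219) x25327) x25435) x25363) x25383) x45063) x5699)
    (Nat.sub (Nat.add (Nat.add (Nat.add (Nat.add (Nat.add (Nat.add (Nat.add (Nat.add (Nat.add (Nat.add (Nat.add C x12261) x29757) x23925) x25869) x25221) x25329) x25437) x25365) x25389) x25381) x5701) x25383)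
    (Nat.add (Nat.add (Nat.add (Nat.add (Nat.add (Nat.add (Nat.add (Nat.add (Nat.add (Nat.add (Nat.add C x12267) x29763) x23931) x25875) x25227) x25335) x25443) x25371) x25407) x25383) x5707)
    (Nat.add (Nat.add (Nat.add (Nat.add (Nat.add (Nat.add (Nat.add (Nat.add C x12285) x29781) x23949) x25893) x25245) x25461) x25389) x5725)
    (Nat.add (Nat.add (Nat.add (Nat.add (Nat.add (Nat.add (Nat.add (Nat.add (Nat.add C x25435) x12313) x29809) x23977) x25921) x25381) x25437) x45117) x5753)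
    (Nat.add (Nat.add (Nat.add (Nat.add (Nat.add (Nat.add (Nat.add (Nat.add C x12315) x29811) x23979) x25923) x25383) x25443) x25435) x5755)
    (Nat.add (Nat.add (Nat.add (Nat.add (Nat.add (Nat.add (Nat.add (Nat.add C x12321) x29817) x23985) x25929) x25389) x25461) x25437) x5761)
    (Nat.add (Nat.add (Nat.add (Nat.add (Nat.add (Nat.add (Nat.add (Nat.add C (Nat.mul x25461 (nat_lit 2))) x12339) x29835) x24003) x25947) x25407) x25443) x5779)
    (Nat.add (Nat.add (Nat.add (Nat.add (Nat.add (Nat.add C (Nat.mul x25523 (nat_lit 2))) x12401) x29897) x25037) x25529) x45205)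
    (Nat.add (Nat.add (Nat.add (Nat.add (Nat.add (Nat.add (Nat.add (Nat.add (Nat.add C x25529) x12407) x29903) x25043) x25547) x25523) x25535) x25531) x45211)
    (Nat.add (Nat.add (Nat.add (Nat.add (Nat.add (Nat.add (Nat.add (Nat.add (Nat.add C x25531) x12409) x29905) x25045) x25549) x25537) x25529) x45213) x5849)
    (Nat.sub (Nat.add (Nat.add (Nat.add (Nat.add (Nat.add (Nat.add (Nat.add C x12413) x29909) x25049) x25553) x25529) x25537) x45217) (Nat.mul x25535 (nat_lit 2)))
    (Nat.add (Nat.add (Nat.add (Nat.add (Nat.add (Nat.add (Nat.add (Nat.add (Nat.add C x12415) x29911) x25051) x25555) x25531) x25535) x25539) x45219) x5855)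
    (Nat.add (Nat.add (Nat.add (Nat.add (Nat.add (Nat.add C x12417) x29913) x25053) x25557) x25537) x5857)
    (Nat.add (Nat.add (Nat.add (Nat.add (Nat.add (Nat.add (Nat.add (Nat.add C x12425) x29921) x25061) x25601) x25529) x25553) x25549) x45229)
    (Nat.sub (Nat.add (Nat.add (Nat.add (Nat.add (Nat.add (Nat.add (Nat.add (Nat.add (Nat.add C x12427) x29923) x25063) x25603) x25531) x25555) x25547) x45231) x5867) x25549)
    (Nat.sub (Nat.add (Nat.add (Nat.add (Nat.add (Nat.add (Nat.add (Nat.add (Nat.add (Nat.add C x12431) x29927) x25067) x25607) x25535) x25571) x25547) x25555) x45235) x25553)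
    (Nat.add (Nat.add (Nat.add (Nat.add (Nat.add (Nat.add (Nat.add (Nat.add (Nat.add (Nat.add (Nat.add (Nat.add C x12433) x29929) x25069) x25609) x25537) x25573) x25549) x25561) x25553) x25557) x45237) x5873)
    (Nat.sub (Nat.add (Nat.add (Nat.add (Nat.add (Nat.add (Nat.add (Nat.add (Nat.add (Nat.add C x12435) x29931) x25071) x25611) x25539) x25575) x25563) x25555) x5875) x25557)
    (Nat.sub (Nat.add (Nat.add (Nat.add (Nat.add (Nat.add (Nat.add (Nat.add (Nat.add (Nat.add C x12439) x29935) x25075) x25615) x25579) x25555) x25563) x45243) x5879) x25561)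
    (Nat.add (Nat.add (Nat.add (Nat.add (Nat.add (Nat.add (Nat.add (Nat.add C x12441) x29937) x25077) x25617) x25581) x25557) x25561) x5881)
    (Nat.sub (Nat.add (Nat.add (Nat.add (Nat.add (Nat.add (Nat.add (Nat.add C x12449) x29945) x25085) x25625) x25553) x25573) x45253) (Nat.mul x25571 (nat_lit 2)))
    (Nat.sub (Nat.add (Nat.add (Nat.add (Nat.add (Nat.add (Nat.add (Nat.add (Nat.add (Nat.add (Nat.add C x12451) x29947) x25087) x25627) x25555) x25579) x25571) x25575) x45255) x5891) (Nat.mul x25573 (nat_lit 2)))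
    (Nat.sub (Nat.add (Nat.add (Nat.add (Nat.add (Nat.add (Nat.add (Nat.add (Nat.add C x12453) x29949) x25089) x25629) x25557) x25581) x25573) x5893) (Nat.mul x25575 (nat_lit 4)))
    (Nat.sub (Nat.add (Nat.add (Nat.add (Nat.add (Nat.add (Nat.add (Nat.add (Nat.add (Nat.add C x12457) x29953) x25093) x25633) x25561) x25573) x25581) x45261) x5897) x25579)
    (Nat.sub (Nat.add (Nat.add (Nat.add (Nat.add (Nat.add (Nat.add (Nat.add (Nat.add (Nat.add C x12459) x29955) x25095) x25635) x25563) x25575) x25587) x25579) x5899) x25581)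
    (Nat.add (Nat.add (Nat.add (Nat.add (Nat.add (Nat.add C x12465) x29961) x25101) x25641) x25581) x5905)
    (Nat.add (Nat.add (Nat.add (Nat.add (Nat.add (Nat.add (Nat.add (Nat.add C x12479) x29975) x25115) x25763) x25547) x25607) x25603) x45283)
    (Nat.sub (Nat.add (Nat.add (Nat.add (Nat.add (Nat.add (Nat.add (Nat.add (Nat.add (Nat.add C x12481) x29977) x25117) x25765) x25549) x25609) x25601) x45285) x5921) x25603)
    (Nat.sub (Nat.add (Nat.add (Nat.add (Nat.add (Nat.add (Nat.add (Nat.add (Nat.add (Nat.add C x12485) x29981) x25121) x25769) x25553) x25625) x25601) x25609) x45289) (Nat.mul x25607 (nat_lit 2)))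
    (Nat.sub (Nat.add (Nat.add (Nat.add (Nat.add (Nat.add (Nat.add (Nat.add (Nat.add (Nat.add (Nat.add (Nat.add (Nat.add C x12487) x29983) x25123) x25771) x25555) x25627) x25603) x25615) x25607) x25611) x45291) x5927) x25609)
    (Nat.sub (Nat.add (Nat.add (Nat.add (Nat.add (Nat.add (Nat.add (Nat.add (Nat.add (Nat.add C x12489) x29985) x25125) x25773) x25557) x25629) x25617) x25609) x5929) (Nat.mul x25611 (nat_lit 2)))
    (Nat.sub (Nat.add (Nat.add (Nat.add (Nat.add (Nat.add (Nat.add (Nat.add (Nat.add (Nat.add (Nat.add C x12493) x29989) x25129) x25777) x25561) x25633) x25609) x25617) x45297) x5933) (Nat.mul x25615 (nat_lit 3)))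
    (Nat.sub (Nat.add (Nat.add (Nat.add (Nat.add (Nat.add (Nat.add (Nat.add (Nat.add (Nat.add C x12495) x29991) x25131) x25779) x25563) x25635) x25611) x25615) x5935) (Nat.mul x25617 (nat_lit 2)))
    (Nat.sub (Nat.add (Nat.add (Nat.add (Nat.add (Nat.add (Nat.add (Nat.add (Nat.add (Nat.add C x12503) x29999) x25139) x25787) x25571) x25679) x25607) x25627) x45307) x25625)
    (Nat.sub (Nat.add (Nat.add (Nat.add (Nat.add (Nat.add (Nat.add (Nat.add (Nat.add (Nat.add (Nat.add (Nat.add (Nat.add C x12505) x30001) x25141) x25789) x25573) x25681) x25609) x25633) x25625) x25629) x45309) x5945) x25627)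
    (Nat.sub (Nat.add (Nat.add (Nat.add (Nat.add (Nat.add (Nat.add (Nat.add (Nat.add (Nat.add (Nat.add C x12507) x30003) x25143) x25791) x25575) x25683) x25611) x25635) x25627) x5947) (Nat.mul x25629 (nat_lit 3)))
    (Nat.sub (Nat.add (Nat.add (Nat.add (Nat.add (Nat.add (Nat.add (Nat.add (Nat.add (Nat.add (Nat.add (Nat.add (Nat.add C x12511) x30007) x25147) x25795) x25579) x25687) x25615) x25651) x25627) x25635) x45315) x5951) x25633)
    (Nat.sub (Nat.add (Nat.add (Nat.add (Nat.add (Nat.add (Nat.add (Nat.add (Nat.add (Nat.add (Nat.add (Nat.add (Nat.add C x12513) x30009) x25149) x25797) x25581) x25689) x25617) x25653) x25629) x25641) x25633) x5953) x25635)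
    (Nat.sub (Nat.add (Nat.add (Nat.add (Nat.add (Nat.add (Nat.add (Nat.add (Nat.add (Nat.add C x12519) x30015) x25155) x25803) x25587) x25695) x25659) x25635) x5959) x25641)
    (Nat.sub (Nat.add (Nat.add (Nat.add (Nat.add (Nat.add (Nat.add (Nat.add (Nat.add (Nat.add C x12529) x30025) x25165) x25813) x25705) x25633) x25653) x45333) x5969) x25651)
    (Nat.sub (Nat.add (Nat.add (Nat.add (Nat.add (Nat.add (Nat.add (Nat.add (Nat.add (Nat.add C x12531) x30027) x25167) x25815) x25707) x25635) x25659) x25651) x5971) (Nat.mul x25653 (nat_lit 2)))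
    (Nat.add (Nat.add (Nat.add (Nat.add (Nat.add (Nat.add (Nat.add (Nat.add C x12537) x30033) x25173) x25821) x25713) x25641) x25653) x5977)
    (Nat.sub (Nat.add (Nat.add (Nat.add (Nat.add (Nat.add (Nat.add (Nat.add C x12557) x30053) x25193) x25841) x25625) x25681) x45361) (Nat.mul x25679 (nat_lit 2)))
    (Nat.sub (Nat.add (Nat.add (Nat.add (Nat.add (Nat.add (Nat.add (Nat.add (Nat.add (Nat.add (Nat.add C x12559) x30055) x25195) x25843) x25627) x25687) x25679) x25683) x45363) x5999) (Nat.mul x25681 (nat_lit 2)))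
    (Nat.sub (Nat.add (Nat.add (Nat.add (Nat.add (Nat.add (Nat.add (Nat.add (Nat.add C x12561) x30057) x25197) x25845) x25629) x25689) x25681) x6001) (Nat.mul x25683 (nat_lit 4)))
    (Nat.sub (Nat.add (Nat.add (Nat.add (Nat.add (Nat.add (Nat.add (Nat.add (Nat.add (Nat.add (Nat.add C x12565) x30061) x25201) x25849) x25633) x25705) x25681) x25689) x45369) x6005) (Nat.mul x25687 (nat_lit 3)))
    (Nat.sub (Nat.add (Nat.add (Nat.add (Nat.add (Nat.add (Nat.add (Nat.add (Nat.add (Nat.add (Nat.add C x12567) x30063) x25203) x25851) x25635) x25707) x25683) x25695) x25687) x6007) (Nat.mul x25689 (nat_lit 3)))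
    (Nat.sub (Nat.add (Nat.add (Nat.add (Nat.add (Nat.add (Nat.add (Nat.add (Nat.add C x12573) x30069) x25209) x25857) x25641) x25713) x25689) x6013) (Nat.mul x25695 (nat_lit 4)))
    (Nat.sub (Nat.add (Nat.add (Nat.add (Nat.add (Nat.add (Nat.add (Nat.add (Nat.add (Nat.add C x12583) x30079) x25219) x25867) x25651) x25687) x25707) x45387) x6023) x25705)
    (Nat.sub (Nat.add (Nat.add (Nat.add (Nat.add (Nat.add (Nat.add (Nat.add (Nat.add (Nat.add C x12585) x30081) x25221) x25869) x25653) x25689) x25713) x25705) x6025) (Nat.mul x25707 (nat_lit 2)))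
    (Nat.sub (Nat.add (Nat.add (Nat.add (Nat.add (Nat.add (Nat.add (Nat.add (Nat.add (Nat.add C x12591) x30087) x25227) x25875) x25659) x25695) x25731) x25707) x6031) x25713)
    (Nat.add (Nat.add (Nat.add (Nat.add (Nat.add (Nat.add C x12609) x30105) x25245) x25893) x25713) x6049)
    (Nat.add (Nat.add (Nat.add (Nat.add (Nat.add (Nat.add (Nat.add (Nat.add C (Nat.mul x25763 (nat_lit 2))) x12641) x30137) x25277) x25601) x25769) x25765) x45445)
    (Nat.add (Nat.add (Nat.add (Nat.add (Nat.add (Nat.add (Nat.add (Nat.add (Nat.add C x25765) x12643) x30139) x25279) x25603) x25771) x25763) x45447) x6083)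
    (Nat.add (Nat.add (Nat.add (Nat.add (Nat.add (Nat.add (Nat.add (Nat.add C x12647) x30143) x25283) x25607) x25787) x25763) x25771) x45451)
    (Nat.add (Nat.add (Nat.add (Nat.add (Nat.add (Nat.add (Nat.add (Nat.add (Nat.add (Nat.add (Nat.add (Nat.add C x25771) x12649) x30145) x25285) x25609) x25789) x25765) x25777) x25769) x25773) x45453) x6089)
    (Nat.add (Nat.add (Nat.add (Nat.add (Nat.add (Nat.add (Nat.add (Nat.add C x12651) x30147) x25287) x25611) x25791) x25779) x25771) x6091)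
    (Nat.sub (Nat.add (Nat.add (Nat.add (Nat.add (Nat.add (Nat.add (Nat.add (Nat.add (Nat.add C x12655) x30151) x25291) x25615) x25795) x25771) x25779) x45459) x6095) x25777)
    (Nat.add (Nat.add (Nat.add (Nat.add (Nat.add (Nat.add (Nat.add (Nat.add C x12657) x30153) x25293) x25617) x25797) x25773) x25777) x6097)
    (Nat.add (Nat.add (Nat.add (Nat.add (Nat.add (Nat.add (Nat.add (Nat.add C x12665) x30161) x25301) x25625) x25841) x25769) x25789) x45469)
    (Nat.add (Nat.add (Nat.add (Nat.add (Nat.add (Nat.add (Nat.add (Nat.add (Nat.add (Nat.add (Nat.add C x12667) x30163) x25303) x25627) x25843) x25771) x25795) x25787) x25791) x45471) x6107)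
    (Nat.sub (Nat.add (Nat.add (Nat.add (Nat.add (Nat.add (Nat.add (Nat.add (Nat.add (Nat.add C x12669) x30165) x25305) x25629) x25845) x25773) x25797) x25789) x6109) (Nat.mul x25791 (nat_lit 2)))
    (Nat.add (Nat.add (Nat.add (Nat.add (Nat.add (Nat.add (Nat.add (Nat.add (Nat.add (Nat.add (Nat.add C x12673) x30169) x25309) x25633) x25849) x25777) x25813) x25789) x25797) x45477) x6113)
    (Nat.add (Nat.add (Nat.add (Nat.add (Nat.add (Nat.add (Nat.add (Nat.add (Nat.add (Nat.add (Nat.add C x12675) x30171) x25311) x25635) x25851) x25779) x25815) x25791) x25803) x25795) x6115)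
    (Nat.add (Nat.add (Nat.add (Nat.add (Nat.add (Nat.add (Nat.add (Nat.add C x12681) x30177) x25317) x25641) x25857) x25821) x25797) x6121)
    (Nat.sub (Nat.add (Nat.add (Nat.add (Nat.add (Nat.add (Nat.add (Nat.add (Nat.add (Nat.add C x12691) x30187) x25327) x25651) x25867) x25795) x25815) x45495) x6131) x25813)
    (Nat.sub (Nat.add (Nat.add (Nat.add (Nat.add (Nat.add (Nat.add (Nat.add (Nat.add (Nat.add C x12693) x30189) x25329) x25653) x25869) x25797) x25821) x25813) x6133) (Nat.mul x25815 (nat_lit 2)))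
    (Nat.add (Nat.add (Nat.add (Nat.add (Nat.add (Nat.add (Nat.add (Nat.add C x12699) x30195) x25335) x25659) x25875) x25803) x25815) x6139)
    (Nat.add (Nat.add (Nat.add (Nat.add (Nat.add (Nat.add (Nat.add (Nat.add (Nat.add C x25841) x12719) x30215) x25355) x25679) x26003) x25787) x25843) x45523)
    (Nat.add (Nat.add (Nat.add (Nat.add (Nat.add (Nat.add (Nat.add (Nat.add (Nat.add (Nat.add (Nat.add (Nat.add C x25843) x12721) x30217) x25357) x25681) x26005) x25789) x25849) x25841) x25845) x45525) x6161)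
    (Nat.sub (Nat.add (Nat.add (Nat.add (Nat.add (Nat.add (Nat.add (Nat.add (Nat.add (Nat.add C x12723) x30219) x25359) x25683) x26007) x25791) x25851) x25843) x6163) x25845)
    (Nat.add (Nat.add (Nat.add (Nat.add (Nat.add (Nat.add (Nat.add (Nat.add (Nat.add (Nat.add (Nat.add C x12727) x30223) x25363) x25687) x26011) x25795) x25867) x25843) x25851) x45531) x6167)
    (Nat.add (Nat.add (Nat.add (Nat.add (Nat.add (Nat.add (Nat.add (Nat.add (Nat.add (Nat.add (Nat.add C x12729) x30225) x25365) x25689) x26013) x25797) x25869) x25845) x25857) x25849) x6169)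
    (Nat.sub (Nat.add (Nat.add (Nat.add (Nat.add (Nat.add (Nat.add (Nat.add (Nat.add (Nat.add C x12735) x30231) x25371) x25695) x26019) x25803) x25875) x25851) x6175) x25857)
    (Nat.add (Nat.add (Nat.add (Nat.add (Nat.add (Nat.add (Nat.add (Nat.add (Nat.add (Nat.add (Nat.add (Nat.add C x25867) x12745) x30241) x25381) x25705) x26029) x25813) x25921) x25849) x25869) x45549) x6185)
    (Nat.add (Nat.add (Nat.add (Nat.add (Nat.add (Nat.add (Nat.add (Nat.add (Nat.add (Nat.add (Nat.add C x12747) x30243) x25383) x25707) x26031) x25815) x25923) x25851) x25875) x25867) x6187)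
    (Nat.add (Nat.add (Nat.add (Nat.add (Nat.add (Nat.add (Nat.add (Nat.add (Nat.add (Nat.add (Nat.add (Nat.add C x25875) x12753) x30249) x25389) x25713) x26037) x25821) x25929) x25857) x25893) x25869) x6193)
    (Nat.add (Nat.add (Nat.add (Nat.add (Nat.add (Nat.add (Nat.add (Nat.add (Nat.add C x25893) x12771) x30267) x25407) x25731) x26055) x25947) x25875) x6211)
    (Nat.add (Nat.add (Nat.add (Nat.add (Nat.add (Nat.add (Nat.add (Nat.add (Nat.add C x25921) x12799) x30295) x25435) x26083) x25867) x25923) x45603) x6239)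
    (Nat.add (Nat.add (Nat.add (Nat.add (Nat.add (Nat.add (Nat.add (Nat.add C x12801) x30297) x25437) x26085) x25869) x25929) x25921) x6241)
    (Nat.add (Nat.add (Nat.add (Nat.add (Nat.add (Nat.add (Nat.add (Nat.add C x12807) x30303) x25443) x26091) x25875) x25947) x25923) x6247)
    (Nat.add (Nat.add (Nat.add (Nat.add (Nat.add (Nat.add (Nat.add (Nat.add C (Nat.mul x25947 (nat_lit 2))) x12825) x30321) x25461) x26109) x25893) x25929) x6265)
    (Nat.add (Nat.add (Nat.add (Nat.add (Nat.add (Nat.add C (Nat.mul x26003 (nat_lit 2))) x12881) x30377) x25841) x26005) x45685)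
    (Nat.add (Nat.add (Nat.add (Nat.add (Nat.add (Nat.add (Nat.add (Nat.add (Nat.add C (Nat.mul x26005 (nat_lit 2))) x12883) x30379) x25843) x26011) x26003) x26007) x45687) x6323)
    (Nat.add (Nat.add (Nat.add (Nat.add (Nat.add (Nat.add C x12885) x30381) x25845) x26013) x26005) x6325)
    (Nat.add (Nat.add (Nat.add (Nat.add (Nat.add (Nat.add (Nat.add (Nat.add (Nat.add C x26011) x12889) x30385) x25849) x26029) x26005) x26013) x45693) x6329)
    (Nat.add (Nat.add (Nat.add (Nat.add (Nat.add (Nat.add (Nat.add (Nat.add (Nat.add C x26013) x12891) x30387) x25851) x26031) x26007) x26019) x26011) x6331)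
    (Nat.add (Nat.add (Nat.add (Nat.add (Nat.add (Nat.add C x12897) x30393) x25857) x26037) x26013) x6337)
    (Nat.add (Nat.add (Nat.add (Nat.add (Nat.add (Nat.add (Nat.add (Nat.add (Nat.add C x26029) x12907) x30403) x25867) x26083) x26011) x26031) x45711) x6347)
    (Nat.add (Nat.add (Nat.add (Nat.add (Nat.add (Nat.add (Nat.add (Nat.add C x12909) x30405) x25869) x26085) x26013) x26037) x26029) x6349)
    (Nat.add (Nat.add (Nat.add (Nat.add (Nat.add (Nat.add (Nat.add (Nat.add (Nat.add C x26037) x12915) x30411) x25875) x26091) x26019) x26055) x26031) x6355)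
    (Nat.add (Nat.add (Nat.add (Nat.add (Nat.add (Nat.add C x12933) x30429) x25893) x26109) x26037) x6373)
    (Nat.add (Nat.add (Nat.add (Nat.add (Nat.add (Nat.add (Nat.add (Nat.add C (Nat.mul x26083 (nat_lit 3))) x12961) x30457) x25921) x26029) x26085) x45765) x6401)
    (Nat.add (Nat.add (Nat.add (Nat.add (Nat.add (Nat.add (Nat.add (Nat.add C (Nat.mul x26085 (nat_lit 2))) x12963) x30459) x25923) x26031) x26091) x26083) x6403)
    (Nat.add (Nat.add (Nat.add (Nat.add (Nat.add (Nat.add (Nat.add (Nat.add C (Nat.mul x26091 (nat_lit 2))) x12969) x30465) x25929) x26037) x26109) x26085) x6409)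
    (Nat.add (Nat.add (Nat.add (Nat.add (Nat.add (Nat.add (Nat.add (Nat.add C (Nat.mul x26109 (nat_lit 3))) x12987) x30483) x25947) x26055) x26163) x26091) x6427)
    (Nat.add (Nat.add (Nat.add (Nat.add (Nat.add C (Nat.mul x26163 (nat_lit 4))) x13041) x30537) x26109) x6481)
    (Nat.add (Nat.add (Nat.add (Nat.add (Nat.add (Nat.add (Nat.add C (Nat.mul x26297 (nat_lit 5))) x13175) x39419) x21923) x26351) x26315) x45979)
    (Nat.add (Nat.add (Nat.add (Nat.add (Nat.add (Nat.add (Nat.add (Nat.add C (Nat.mul x26315 (nat_lit 3))) x13193) x39437) x21941) x26369) x26297) x26321) x45997)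
    (Nat.add (Nat.add (Nat.add (Nat.add (Nat.add (Nat.add (Nat.add (Nat.add C (Nat.mul x26321 (nat_lit 3))) x13199) x39443) x21947) x26375) x26315) x26323) x46003)
    (Nat.add (Nat.add (Nat.add (Nat.add (Nat.add (Nat.add (Nat.add (Nat.add C (Nat.mul x26323 (nat_lit 4))) x13201) x39445) x21949) x26377) x26321) x46005) x6641)
    (Nat.add (Nat.add (Nat.add (Nat.add (Nat.add (Nat.add (Nat.add (Nat.add C (Nat.mul x26351 (nat_lit 3))) x13229) x39473) x21977) x26513) x26297) x26369) x46033)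
    (Nat.add (Nat.add (Nat.add (Nat.add (Nat.add (Nat.add (Nat.add (Nat.add (Nat.add (Nat.add (Nat.add C (Nat.mul x26369 (nat_lit 3))) x13247) x39491) x21995) x26531) x26315) x26423) x26351) x26387) x26375) x46051)
    (Nat.add (Nat.add (Nat.add (Nat.add (Nat.add (Nat.add (Nat.add (Nat.add (Nat.add (Nat.add (Nat.add C (Nat.mul x26375 (nat_lit 2))) x13253) x39497) x22001) x26537) x26321) x26429) x26393) x26369) x26377) x46057)
    (Nat.add (Nat.add (Nat.add (Nat.add (Nat.add (Nat.add (Nat.add (Nat.add (Nat.add (Nat.add (Nat.add C (Nat.mul x26377 (nat_lit 3))) x13255) x39499) x22003) x26539) x26323) x26431) x26395) x26375) x46059) x6695)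
    (Nat.add (Nat.add (Nat.add (Nat.add (Nat.add (Nat.add (Nat.add (Nat.add (Nat.add C x26387) x13265) x39509) x22013) x26549) x26441) x26369) x26393) x46069)
    (Nat.add (Nat.add (Nat.add (Nat.add (Nat.add (Nat.add (Nat.add (Nat.add (Nat.add (Nat.add (Nat.add C (Nat.mul x26393 (nat_lit 2))) x13271) x39515) x22019) x26555) x26447) x26375) x26387) x26399) x26395) x46075)
    (Nat.add (Nat.add (Nat.add (Nat.add (Nat.add (Nat.add (Nat.add (Nat.add (Nat.add (Nat.add (Nat.add C (Nat.mul x26395 (nat_lit 2))) x13273) x39517) x22021) x26557) x26449) x26377) x26401) x26393) x46077) x6713)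
    (Nat.add (Nat.add (Nat.add (Nat.add (Nat.add (Nat.add (Nat.add (Nat.add (Nat.add C x26399) x13277) x39521) x22025) x26561) x26453) x26393) x26401) x46081)
    (Nat.add (Nat.add (Nat.add (Nat.add (Nat.add (Nat.add (Nat.add (Nat.add (Nat.add (Nat.add (Nat.add C (Nat.mul x26401 (nat_lit 3))) x13279) x39523) x22027) x26563) x26455) x26395) x26399) x26403) x46083) x6719)
    (Nat.add (Nat.add (Nat.add (Nat.add (Nat.add (Nat.add (Nat.add (Nat.add C (Nat.mul x26403 (nat_lit 3))) x13281) x39525) x22029) x26565) x26457) x26401) x6721)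
    (Nat.add (Nat.add (Nat.add (Nat.add (Nat.add (Nat.add (Nat.add (Nat.add (Nat.add C x26423) x13301) x39545) x22049) x26585) x26369) x26441) x26429) x46105)
    (Nat.sub (Nat.add (Nat.add (Nat.add (Nat.add (Nat.add (Nat.add (Nat.add (Nat.add (Nat.add C x13307) x39551) x22055) x26591) x26375) x26447) x26423) x26431) x46111) x26429)
    (Nat.add (Nat.add (Nat.add (Nat.add (Nat.add (Nat.add (Nat.add (Nat.add (Nat.add C x13309) x39553) x22057) x26593) x26377) x26449) x26429) x46113) x6749)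
    (Nat.add (Nat.add (Nat.add (Nat.add (Nat.add (Nat.add (Nat.add (Nat.add (Nat.add C x26441) x13319) x39563) x22067) x26603) x26387) x26423) x26447) x46123)
    (Nat.add (Nat.add (Nat.add (Nat.add (Nat.add (Nat.add (Nat.add (Nat.add (Nat.add (Nat.add (Nat.add (Nat.add C x26447) x13325) x39569) x22073) x26609) x26393) x26429) x26465) x26441) x26453) x26449) x46129)
    (Nat.add (Nat.add (Nat.add (Nat.add (Nat.add (Nat.add (Nat.add (Nat.add (Nat.add (Nat.add (Nat.add (Nat.add C x26449) x13327) x39571) x22075) x26611) x26395) x26431) x26467) x26455) x26447) x46131) x6767)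
    (Nat.sub (Nat.add (Nat.add (Nat.add (Nat.add (Nat.add (Nat.add (Nat.add (Nat.add (Nat.add C x13331) x39575) x22079) x26615) x26399) x26471) x26447) x26455) x46135) x26453)
    (Nat.add (Nat.add (Nat.add (Nat.add (Nat.add (Nat.add (Nat.add (Nat.add (Nat.add (Nat.add (Nat.add (Nat.add C x26455) x13333) x39577) x22081) x26617) x26401) x26473) x26449) x26453) x26457) x46137) x6773)
    (Nat.add (Nat.add (Nat.add (Nat.add (Nat.add (Nat.add (Nat.add (Nat.add (Nat.add C x26457) x13335) x39579) x22083) x26619) x26403) x26475) x26455) x6775)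
    (Nat.add (Nat.add (Nat.add (Nat.add (Nat.add (Nat.add (Nat.add (Nat.add (Nat.add C x26465) x13343) x39587) x22091) x26627) x26447) x26471) x26467) x46147)
    (Nat.add (Nat.add (Nat.add (Nat.add (Nat.add (Nat.add (Nat.add (Nat.add (Nat.add C x13345) x39589) x22093) x26629) x26449) x26473) x26465) x46149) x6785)
    (Nat.add (Nat.add (Nat.add (Nat.add (Nat.add (Nat.add (Nat.add (Nat.add (Nat.add C x26471) x13349) x39593) x22097) x26633) x26453) x26465) x26473) x46153)
    (Nat.add (Nat.add (Nat.add (Nat.add (Nat.add (Nat.add (Nat.add (Nat.add (Nat.add (Nat.add (Nat.add (Nat.add C (Nat.mul x26473 (nat_lit 2))) x13351) x39595) x22099) x26635) x26455) x26467) x26479) x26471) x26475) x46155) x6791)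
    (Nat.add (Nat.add (Nat.add (Nat.add (Nat.add (Nat.add (Nat.add (Nat.add (Nat.add C x26475) x13353) x39597) x22101) x26637) x26457) x26481) x26473) x6793)
    (Nat.add (Nat.add (Nat.add (Nat.add (Nat.add (Nat.add (Nat.add (Nat.add (Nat.add C (Nat.mul x26479 (nat_lit 2))) x13357) x39601) x22105) x26641) x26473) x26481) x46161) x6797)
    (Nat.add (Nat.add (Nat.add (Nat.add (Nat.add (Nat.add (Nat.add (Nat.add C (Nat.mul x26481 (nat_lit 3))) x13359) x39603) x22107) x26643) x26475) x26479) x6799)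
    (Nat.add (Nat.add (Nat.add (Nat.add (Nat.add (Nat.add (Nat.add (Nat.add C (Nat.mul x26513 (nat_lit 3))) x13391) x39635) x22139) x26999) x26351) x26531) x46195)
    (Nat.add (Nat.add (Nat.add (Nat.add (Nat.add (Nat.add (Nat.add (Nat.add (Nat.add (Nat.add (Nat.add C (Nat.mul x26531 (nat_lit 2))) x13409) x39653) x22157) x27017) x26369) x26585) x26513) x26549) x26537) x46213)
    (Nat.add (Nat.add (Nat.add (Nat.add (Nat.add (Nat.add (Nat.add (Nat.add (Nat.add (Nat.add (Nat.add C x26537) x13415) x39659) x22163) x27023) x26375) x26591) x26555) x26531) x26539) x46219)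
    (Nat.add (Nat.add (Nat.add (Nat.add (Nat.add (Nat.add (Nat.add (Nat.add (Nat.add (Nat.add (Nat.add C (Nat.mul x26539 (nat_lit 2))) x13417) x39661) x22165) x27025) x26377) x26593) x26557) x26537) x46221) x6857)
    (Nat.sub (Nat.add (Nat.add (Nat.add (Nat.add (Nat.add (Nat.add (Nat.add (Nat.add (Nat.add C x13427) x39671) x22175) x27035) x26387) x26603) x26531) x26555) x46231) x26549)
    (Nat.add (Nat.add (Nat.add (Nat.add (Nat.add (Nat.add (Nat.add (Nat.add (Nat.add (Nat.add (Nat.add C x13433) x39677) x22181) x27041) x26393) x26609) x26537) x26549) x26561) x26557) x46237)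
    (Nat.add (Nat.add (Nat.add (Nat.add (Nat.add (Nat.add (Nat.add (Nat.add (Nat.add (Nat.add (Nat.add C x13435) x39679) x22183) x27043) x26395) x26611) x26539) x26563) x26555) x46239) x6875)
    (Nat.sub (Nat.add (Nat.add (Nat.add (Nat.add (Nat.add (Nat.add (Nat.add (Nat.add (Nat.add C x13439) x39683) x22187) x27047) x26399) x26615) x26555) x26563) x46243) x26561)
    (Nat.add (Nat.add (Nat.add (Nat.add (Nat.add (Nat.add (Nat.add (Nat.add (Nat.add (Nat.add (Nat.add (Nat.add C x26563) x13441) x39685) x22189) x27049) x26401) x26617) x26557) x26561) x26565) x46245) x6881)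
    (Nat.add (Nat.add (Nat.add (Nat.add (Nat.add (Nat.add (Nat.add (Nat.add (Nat.add C x26565) x13443) x39687) x22191) x27051) x26403) x26619) x26563) x6883)
    (Nat.add (Nat.add (Nat.add (Nat.add (Nat.add (Nat.add (Nat.add (Nat.add (Nat.add (Nat.add (Nat.add C (Nat.mul x26585 (nat_lit 2))) x13463) x39707) x22211) x27071) x26423) x26747) x26531) x26603) x26591) x46267)
    (Nat.add (Nat.add (Nat.add (Nat.add (Nat.add (Nat.add (Nat.add (Nat.add (Nat.add (Nat.add (Nat.add C x13469) x39713) x22217) x27077) x26429) x26753) x26537) x26609) x26585) x26593) x46273)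
    (Nat.add (Nat.add (Nat.add (Nat.add (Nat.add (Nat.add (Nat.add (Nat.add (Nat.add (Nat.add (Nat.add (Nat.add C x26593) x13471) x39715) x22219) x27079) x26431) x26755) x26539) x26611) x26591) x46275) x6911)
    (Nat.add (Nat.add (Nat.add (Nat.add (Nat.add (Nat.add (Nat.add (Nat.add (Nat.add (Nat.add (Nat.add (Nat.add C x26603) x13481) x39725) x22229) x27089) x26441) x26765) x26549) x26657) x26585) x26609) x46285)
    (Nat.add (Nat.add (Nat.add (Nat.add (Nat.add (Nat.add (Nat.add (Nat.add (Nat.add (Nat.add (Nat.add (Nat.add (Nat.add (Nat.add (Nat.add C x26609) x13487) x39731) x22235) x27095) x26447) x26771) x26555) x26663) x26591) x26627) x26603) x26615) x26611) x46291)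
    (Nat.add (Nat.add (Nat.add (Nat.add (Nat.add (Nat.add (Nat.add (Nat.add (Nat.add (Nat.add (Nat.add (Nat.add (Nat.add (Nat.add (Nat.add C x26611) x13489) x39733) x22237) x27097) x26449) x26773) x26557) x26665) x26593) x26629) x26617) x26609) x46293) x6929)
    (Nat.sub (Nat.add (Nat.add (Nat.add (Nat.add (Nat.add (Nat.add (Nat.add (Nat.add (Nat.add (Nat.add (Nat.add (Nat.add C x13493) x39737) x22241) x27101) x26453) x26777) x26561) x26669) x26633) x26609) x26617) x46297) x26615)
    (Nat.add (Nat.add (Nat.add (Nat.add (Nat.add (Nat.add (Nat.add (Nat.add (Nat.add (Nat.add (Nat.add (Nat.add (Nat.add (Nat.add (Nat.add C x26617) x13495) x39739) x22243) x27103) x26455) x26779) x26563) x26671) x26635) x26611) x26615) x26619) x46299) x6935)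
    (Nat.add (Nat.add (Nat.add (Nat.add (Nat.add (Nat.add (Nat.add (Nat.add (Nat.add (Nat.add (Nat.add (Nat.add C x26619) x13497) x39741) x22245) x27105) x26457) x26781) x26565) x26673) x26637) x26617) x6937)
    (Nat.add (Nat.add (Nat.add (Nat.add (Nat.add (Nat.add (Nat.add (Nat.add (Nat.add (Nat.add (Nat.add C x13505) x39749) x22253) x27113) x26465) x26789) x26681) x26609) x26633) x26629) x46309)
    (Nat.sub (Nat.add (Nat.add (Nat.add (Nat.add (Nat.add (Nat.add (Nat.add (Nat.add (Nat.add (Nat.add (Nat.add (Nat.add C x13507) x39751) x22255) x27115) x26467) x26791) x26683) x26611) x26635) x26627) x46311) x6947) x26629)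
    (Nat.add (Nat.add (Nat.add (Nat.add (Nat.add (Nat.add (Nat.add (Nat.add (Nat.add (Nat.add (Nat.add C x13511) x39755) x22259) x27119) x26471) x26795) x26687) x26615) x26627) x26635) x46315)
    (Nat.add (Nat.add (Nat.add (Nat.add (Nat.add (Nat.add (Nat.add (Nat.add (Nat.add (Nat.add (Nat.add (Nat.add (Nat.add (Nat.add (Nat.add C x26635) x13513) x39757) x22261) x27121) x26473) x26797) x26689) x26617) x26629) x26641) x26633) x26637) x46317) x6953)
    (Nat.add (Nat.add (Nat.add (Nat.add (Nat.add (Nat.add (Nat.add (Nat.add (Nat.add (Nat.add (Nat.add C x13515) x39759) x22263) x27123) x26475) x26799) x26691) x26619) x26643) x26635) x6955)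
    (Nat.add (Nat.add (Nat.add (Nat.add (Nat.add (Nat.add (Nat.add (Nat.add (Nat.add (Nat.add (Nat.add (Nat.add C x26641) x13519) x39763) x22267) x27127) x26479) x26803) x26695) x26635) x26643) x46323) x6959)
    (Nat.add (Nat.add (Nat.add (Nat.add (Nat.add (Nat.add (Nat.add (Nat.add (Nat.add (Nat.add (Nat.add C (Nat.mul x26643 (nat_lit 2))) x13521) x39765) x22269) x27129) x26481) x26805) x26697) x26637) x26641) x6961)
    (Nat.add (Nat.add (Nat.add (Nat.add (Nat.add (Nat.add (Nat.add (Nat.add (Nat.add C x26657) x13535) x39779) x22283) x27143) x26819) x26603) x26663) x46339)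
    (Nat.add (Nat.add (Nat.add (Nat.add (Nat.add (Nat.add (Nat.add (Nat.add (Nat.add (Nat.add (Nat.add C x13541) x39785) x22289) x27149) x26825) x26609) x26681) x26657) x26669) x26665) x46345)
    (Nat.add (Nat.add (Nat.add (Nat.add (Nat.add (Nat.add (Nat.add (Nat.add (Nat.add (Nat.add (Nat.add C x13543) x39787) x22291) x27151) x26827) x26611) x26683) x26671) x26663) x46347) x6983)
    (Nat.sub (Nat.add (Nat.add (Nat.add (Nat.add (Nat.add (Nat.add (Nat.add (Nat.add (Nat.add (Nat.add C x13547) x39791) x22295) x27155) x26831) x26615) x26687) x26663) x26671) x46351) (Nat.mul x26669 (nat_lit 3)))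
    (Nat.sub (Nat.add (Nat.add (Nat.add (Nat.add (Nat.add (Nat.add (Nat.add (Nat.add (Nat.add (Nat.add (Nat.add (Nat.add C x13549) x39793) x22297) x27157) x26833) x26617) x26689) x26665) x26669) x26673) x46353) x6989) x26671)
    (Nat.sub (Nat.add (Nat.add (Nat.add (Nat.add (Nat.add (Nat.add (Nat.add (Nat.add (Nat.add C x13551) x39795) x22299) x27159) x26835) x26619) x26691) x26671) x6991) x26673)
    (Nat.add (Nat.add (Nat.add (Nat.add (Nat.add (Nat.add (Nat.add (Nat.add (Nat.add (Nat.add (Nat.add C x26681) x13559) x39803) x22307) x27167) x26843) x26627) x26663) x26687) x26683) x46363)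
    (Nat.add (Nat.add (Nat.add (Nat.add (Nat.add (Nat.add (Nat.add (Nat.add (Nat.add (Nat.add (Nat.add C x13561) x39805) x22309) x27169) x26845) x26629) x26665) x26689) x26681) x46365) x7001)
    (Nat.add (Nat.add (Nat.add (Nat.add (Nat.add (Nat.add (Nat.add (Nat.add (Nat.add (Nat.add (Nat.add C x13565) x39809) x22313) x27173) x26849) x26633) x26669) x26705) x26681) x26689) x46369)
    (Nat.add (Nat.add (Nat.add (Nat.add (Nat.add (Nat.add (Nat.add (Nat.add (Nat.add (Nat.add (Nat.add (Nat.add (Nat.add (Nat.add (Nat.add C x26689) x13567) x39811) x22315) x27175) x26851) x26635) x26671) x26707) x26683) x26695) x26687) x26691) x46371) x7007)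
    (Nat.add (Nat.add (Nat.add (Nat.add (Nat.add (Nat.add (Nat.add (Nat.add (Nat.add (Nat.add (Nat.add C x13569) x39813) x22317) x27177) x26853) x26637) x26673) x26709) x26697) x26689) x7009)
    (Nat.add (Nat.add (Nat.add (Nat.add (Nat.add (Nat.add (Nat.add (Nat.add (Nat.add (Nat.add (Nat.add C x13573) x39817) x22321) x27181) x26857) x26641) x26713) x26689) x26697) x46377) x7013)
    (Nat.add (Nat.add (Nat.add (Nat.add (Nat.add (Nat.add (Nat.add (Nat.add (Nat.add (Nat.add (Nat.add C x26697) x13575) x39819) x22323) x27183) x26859) x26643) x26715) x26691) x26695) x7015)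
    (Nat.add (Nat.add (Nat.add (Nat.add (Nat.add (Nat.add (Nat.add (Nat.add (Nat.add C x26705) x13583) x39827) x22331) x27191) x26867) x26687) x26707) x46387)
    (Nat.add (Nat.add (Nat.add (Nat.add (Nat.add (Nat.add (Nat.add (Nat.add (Nat.add (Nat.add (Nat.add (Nat.add C x26707) x13585) x39829) x22333) x27193) x26869) x26689) x26713) x26705) x26709) x46389) x7025)
    (Nat.sub (Nat.add (Nat.add (Nat.add (Nat.add (Nat.add (Nat.add (Nat.add (Nat.add (Nat.add C x13587) x39831) x22335) x27195) x26871) x26691) x26715) x26707) x7027) x26709)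
    (Nat.add (Nat.add (Nat.add (Nat.add (Nat.add (Nat.add (Nat.add (Nat.add (Nat.add (Nat.add (Nat.add C (Nat.mul x26713 (nat_lit 2))) x13591) x39835) x22339) x27199) x26875) x26695) x26707) x26715) x46395) x7031)
    (Nat.add (Nat.add (Nat.add (Nat.add (Nat.add (Nat.add (Nat.add (Nat.add (Nat.add (Nat.add (Nat.add C (Nat.mul x26715 (nat_lit 2))) x13593) x39837) x22341) x27201) x26877) x26697) x26709) x26721) x26713) x7033)
    (Nat.add (Nat.add (Nat.add (Nat.add (Nat.add (Nat.add (Nat.add (Nat.add C (Nat.mul x26721 (nat_lit 3))) x13599) x39843) x22347) x27207) x26883) x26715) x7039)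
    (Nat.add (Nat.add (Nat.add (Nat.add (Nat.add (Nat.add (Nat.add (Nat.add (Nat.add C x26747) x13625) x39869) x22373) x27233) x26585) x26765) x26753) x46429)
    (Nat.sub (Nat.add (Nat.add (Nat.add (Nat.add (Nat.add (Nat.add (Nat.add (Nat.add (Nat.add C x13631) x39875) x22379) x27239) x26591) x26771) x26747) x26755) x46435) x26753)
    (Nat.add (Nat.add (Nat.add (Nat.add (Nat.add (Nat.add (Nat.add (Nat.add (Nat.add C x13633) x39877) x22381) x27241) x26593) x26773) x26753) x46437) x7073)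
    (Nat.sub (Nat.add (Nat.add (Nat.add (Nat.add (Nat.add (Nat.add (Nat.add (Nat.add (Nat.add C x13643) x39887) x22391) x27251) x26603) x26819) x26747) x26771) x46447) x26765)
    (Nat.sub (Nat.add (Nat.add (Nat.add (Nat.add (Nat.add (Nat.add (Nat.add (Nat.add (Nat.add (Nat.add (Nat.add (Nat.add C x13649) x39893) x22397) x27257) x26609) x26825) x26753) x26789) x26765) x26777) x26773) x46453) x26771)
    (Nat.sub (Nat.add (Nat.add (Nat.add (Nat.add (Nat.add (Nat.add (Nat.add (Nat.add (Nat.add (Nat.add (Nat.add (Nat.add C x13651) x39895) x22399) x27259) x26611) x26827) x26755) x26791) x26779) x26771) x46455) x7091) x26773)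
    (Nat.sub (Nat.add (Nat.add (Nat.add (Nat.add (Nat.add (Nat.add (Nat.add (Nat.add (Nat.add (Nat.add C x13655) x39899) x22403) x27263) x26615) x26831) x26795) x26771) x26779) x46459) (Nat.mul x26777 (nat_lit 3)))
    (Nat.sub (Nat.add (Nat.add (Nat.add (Nat.add (Nat.add (Nat.add (Nat.add (Nat.add (Nat.add (Nat.add (Nat.add (Nat.add C x13657) x39901) x22405) x27265) x26617) x26833) x26797) x26773) x26777) x26781) x46461) x7097) x26779)
    (Nat.sub (Nat.add (Nat.add (Nat.add (Nat.add (Nat.add (Nat.add (Nat.add (Nat.add (Nat.add C x13659) x39903) x22407) x27267) x26619) x26835) x26799) x26779) x7099) x26781)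
    (Nat.sub (Nat.add (Nat.add (Nat.add (Nat.add (Nat.add (Nat.add (Nat.add (Nat.add (Nat.add (Nat.add C x13667) x39911) x22415) x27275) x26627) x26843) x26771) x26795) x26791) x46471) (Nat.mul x26789 (nat_lit 3)))
    (Nat.sub (Nat.add (Nat.add (Nat.add (Nat.add (Nat.add (Nat.add (Nat.add (Nat.add (Nat.add (Nat.add (Nat.add C x13669) x39913) x22417) x27277) x26629) x26845) x26773) x26797) x26789) x46473) x7109) (Nat.mul x26791 (nat_lit 4)))
    (Nat.sub (Nat.add (Nat.add (Nat.add (Nat.add (Nat.add (Nat.add (Nat.add (Nat.add (Nat.add (Nat.add C x13673) x39917) x22421) x27281) x26633) x26849) x26777) x26789) x26797) x46477) (Nat.mul x26795 (nat_lit 3)))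
    (Nat.sub (Nat.add (Nat.add (Nat.add (Nat.add (Nat.add (Nat.add (Nat.add (Nat.add (Nat.add (Nat.add (Nat.add (Nat.add (Nat.add C x13675) x39919) x22423) x27283) x26635) x26851) x26779) x26791) x26803) x26795) x26799) x46479) x7115) (Nat.mul x26797 (nat_lit 2)))
    (Nat.sub (Nat.add (Nat.add (Nat.add (Nat.add (Nat.add (Nat.add (Nat.add (Nat.add (Nat.add (Nat.add C x13677) x39921) x22425) x27285) x26637) x26853) x26781) x26805) x26797) x7117) (Nat.mul x26799 (nat_lit 3)))
    (Nat.sub (Nat.add (Nat.add (Nat.add (Nat.add (Nat.add (Nat.add (Nat.add (Nat.add (Nat.add (Nat.add C x13681) x39925) x22429) x27289) x26641) x26857) x26797) x26805) x46485) x7121) (Nat.mul x26803 (nat_lit 2)))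
    (Nat.sub (Nat.add (Nat.add (Nat.add (Nat.add (Nat.add (Nat.add (Nat.add (Nat.add (Nat.add C x13683) x39927) x22431) x27291) x26643) x26859) x26799) x26803) x7123) x26805)
    (Nat.add (Nat.add (Nat.add (Nat.add (Nat.add (Nat.add (Nat.add (Nat.add (Nat.add C x26819) x13697) x39941) x22445) x27305) x26657) x26765) x26825) x46501)
    (Nat.add (Nat.add (Nat.add (Nat.add (Nat.add (Nat.add (Nat.add (Nat.add (Nat.add (Nat.add (Nat.add C x13703) x39947) x22451) x27311) x26663) x26771) x26843) x26819) x26831) x26827) x46507)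
    (Nat.add (Nat.add (Nat.add (Nat.add (Nat.add (Nat.add (Nat.add (Nat.add (Nat.add (Nat.add (Nat.add C x13705) x39949) x22453) x27313) x26665) x26773) x26845) x26833) x26825) x46509) x7145)
    (Nat.sub (Nat.add (Nat.add (Nat.add (Nat.add (Nat.add (Nat.add (Nat.add (Nat.add (Nat.add (Nat.add C x13709) x39953) x22457) x27317) x26669) x26777) x26849) x26825) x26833) x46513) (Nat.mul x26831 (nat_lit 3)))
    (Nat.sub (Nat.add (Nat.add (Nat.add (Nat.add (Nat.add (Nat.add (Nat.add (Nat.add (Nat.add (Nat.add (Nat.add (Nat.add C x13711) x39955) x22459) x27319) x26671) x26779) x26851) x26827) x26831) x26835) x46515) x7151) x26833)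
    (Nat.sub (Nat.add (Nat.add (Nat.add (Nat.add (Nat.add (Nat.add (Nat.add (Nat.add (Nat.add C x13713) x39957) x22461) x27321) x26673) x26781) x26853) x26833) x7153) x26835)
    (Nat.add (Nat.add (Nat.add (Nat.add (Nat.add (Nat.add (Nat.add (Nat.add (Nat.add (Nat.add (Nat.add C x13721) x39965) x22469) x27329) x26681) x26789) x26897) x26825) x26849) x26845) x46525)
    (Nat.sub (Nat.add (Nat.add (Nat.add (Nat.add (Nat.add (Nat.add (Nat.add (Nat.add (Nat.add (Nat.add (Nat.add (Nat.add C x13723) x39967) x22471) x27331) x26683) x26791) x26899) x26827) x26851) x26843) x46527) x7163) x26845)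
    (Nat.sub (Nat.add (Nat.add (Nat.add (Nat.add (Nat.add (Nat.add (Nat.add (Nat.add (Nat.add (Nat.add (Nat.add (Nat.add C x13727) x39971) x22475) x27335) x26687) x26795) x26903) x26831) x26867) x26843) x26851) x46531) x26849)
    (Nat.add (Nat.add (Nat.add (Nat.add (Nat.add (Nat.add (Nat.add (Nat.add (Nat.add (Nat.add (Nat.add (Nat.add (Nat.add (Nat.add (Nat.add C x13729) x39973) x22477) x27337) x26689) x26797) x26905) x26833) x26869) x26845) x26857) x26849) x26853) x46533) x7169)
    (Nat.sub (Nat.add (Nat.add (Nat.add (Nat.add (Nat.add (Nat.add (Nat.add (Nat.add (Nat.add (Nat.add (Nat.add (Nat.add C x13731) x39975) x22479) x27339) x26691) x26799) x26907) x26835) x26871) x26859) x26851) x7171) x26853)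
    (Nat.sub (Nat.add (Nat.add (Nat.add (Nat.add (Nat.add (Nat.add (Nat.add (Nat.add (Nat.add (Nat.add (Nat.add (Nat.add C x13735) x39979) x22483) x27343) x26695) x26803) x26911) x26875) x26851) x26859) x46539) x7175) x26857)
    (Nat.add (Nat.add (Nat.add (Nat.add (Nat.add (Nat.add (Nat.add (Nat.add (Nat.add (Nat.add (Nat.add C x13737) x39981) x22485) x27345) x26697) x26805) x26913) x26877) x26853) x26857) x7177)
    (Nat.sub (Nat.add (Nat.add (Nat.add (Nat.add (Nat.add (Nat.add (Nat.add (Nat.add (Nat.add C x13745) x39989) x22493) x27353) x26705) x26921) x26849) x26869) x46549) x26867)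
    (Nat.sub (Nat.add (Nat.add (Nat.add (Nat.add (Nat.add (Nat.add (Nat.add (Nat.add (Nat.add (Nat.add (Nat.add (Nat.add C x13747) x39991) x22495) x27355) x26707) x26923) x26851) x26875) x26867) x26871) x46551) x7187) x26869)
    (Nat.sub (Nat.add (Nat.add (Nat.add (Nat.add (Nat.add (Nat.add (Nat.add (Nat.add (Nat.add (Nat.add C x13749) x39993) x22497) x27357) x26709) x26925) x26853) x26877) x26869) x7189) (Nat.mul x26871 (nat_lit 3)))
    (Nat.add (Nat.add (Nat.add (Nat.add (Nat.add (Nat.add (Nat.add (Nat.add (Nat.add (Nat.add (Nat.add C x13753) x39997) x22501) x27361) x26713) x26929) x26857) x26869) x26877) x46557) x7193)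
    (Nat.add (Nat.add (Nat.add (Nat.add (Nat.add (Nat.add (Nat.add (Nat.add (Nat.add (Nat.add (Nat.add C x13755) x39999) x22503) x27363) x26715) x26931) x26859) x26871) x26883) x26875) x7195)
    (Nat.add (Nat.add (Nat.add (Nat.add (Nat.add (Nat.add (Nat.add (Nat.add (Nat.add C x26883) x13761) x40005) x22509) x27369) x26721) x26937) x26877) x7201)
    (Nat.add (Nat.add (Nat.add (Nat.add (Nat.add (Nat.add (Nat.add (Nat.add (Nat.add C x26897) x13775) x40019) x22523) x27383) x26843) x26903) x26899) x46579)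
    (Nat.add (Nat.add (Nat.add (Nat.add (Nat.add (Nat.add (Nat.add (Nat.add (Nat.add C x13777) x40021) x22525) x27385) x26845) x26905) x26897) x46581) x7217)
    (Nat.sub (Nat.add (Nat.add (Nat.add (Nat.add (Nat.add (Nat.add (Nat.add (Nat.add (Nat.add C x13781) x40025) x22529) x27389) x26849) x26921) x26897) x26905) x46585) x26903)
    (Nat.add (Nat.add (Nat.add (Nat.add (Nat.add (Nat.add (Nat.add (Nat.add (Nat.add (Nat.add (Nat.add (Nat.add C x13783) x40027) x22531) x27391) x26851) x26923) x26899) x26911) x26903) x26907) x46587) x7223)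
    (Nat.sub (Nat.add (Nat.add (Nat.add (Nat.add (Nat.add (Nat.add (Nat.add (Nat.add (Nat.add C x13785) x40029) x22533) x27393) x26853) x26925) x26913) x26905) x7225) x26907)
    (Nat.sub (Nat.add (Nat.add (Nat.add (Nat.add (Nat.add (Nat.add (Nat.add (Nat.add (Nat.add (Nat.add C x13789) x40033) x22537) x27397) x26857) x26929) x26905) x26913) x46593) x7229) (Nat.mul x26911 (nat_lit 2)))
    (Nat.sub (Nat.add (Nat.add (Nat.add (Nat.add (Nat.add (Nat.add (Nat.add (Nat.add (Nat.add C x13791) x40035) x22539) x27399) x26859) x26931) x26907) x26911) x7231) x26913)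
    (Nat.add (Nat.add (Nat.add (Nat.add (Nat.add (Nat.add (Nat.add (Nat.add (Nat.add C x26921) x13799) x40043) x22547) x27407) x26867) x26903) x26923) x46603)
    (Nat.add (Nat.add (Nat.add (Nat.add (Nat.add (Nat.add (Nat.add (Nat.add (Nat.add (Nat.add (Nat.add (Nat.add C x26923) x13801) x40045) x22549) x27409) x26869) x26905) x26929) x26921) x26925) x46605) x7241)
    (Nat.sub (Nat.add (Nat.add (Nat.add (Nat.add (Nat.add (Nat.add (Nat.add (Nat.add (Nat.add C x13803) x40047) x22551) x27411) x26871) x26907) x26931) x26923) x7243) x26925)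
    (Nat.add (Nat.add (Nat.add (Nat.add (Nat.add (Nat.add (Nat.add (Nat.add (Nat.add (Nat.add (Nat.add (Nat.add C x26929) x13807) x40051) x22555) x27415) x26875) x26911) x26947) x26923) x26931) x46611) x7247)
    (Nat.add (Nat.add (Nat.add (Nat.add (Nat.add (Nat.add (Nat.add (Nat.add (Nat.add (Nat.add (Nat.add (Nat.add C x26931) x13809) x40053) x22557) x27417) x26877) x26913) x26949) x26925) x26937) x26929) x7249)
    (Nat.add (Nat.add (Nat.add (Nat.add (Nat.add (Nat.add (Nat.add (Nat.add (Nat.add C x26937) x13815) x40059) x22563) x27423) x26883) x26955) x26931) x7255)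
    (Nat.add (Nat.add (Nat.add (Nat.add (Nat.add (Nat.add (Nat.add (Nat.add (Nat.add C (Nat.mul x26947 (nat_lit 2))) x13825) x40069) x22573) x27433) x26929) x26949) x46629) x7265)
    (Nat.add (Nat.add (Nat.add (Nat.add (Nat.add (Nat.add (Nat.add (Nat.add (Nat.add C x26949) x13827) x40071) x22575) x27435) x26931) x26955) x26947) x7267)
    (Nat.add (Nat.add (Nat.add (Nat.add (Nat.add (Nat.add (Nat.add (Nat.add C (Nat.mul x26955 (nat_lit 3))) x13833) x40077) x22581) x27441) x26937) x26949) x7273)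
    (Nat.add (Nat.add (Nat.add (Nat.add (Nat.add (Nat.add (Nat.add (Nat.add C (Nat.mul x26999 (nat_lit 3))) x13877) x40121) x22625) x28457) x26513) x27017) x46681)
    (Nat.add (Nat.add (Nat.add (Nat.add (Nat.add (Nat.add (Nat.add (Nat.add (Nat.add (Nat.add (Nat.add C (Nat.mul x27017 (nat_lit 2))) x13895) x40139) x22643) x28475) x26531) x27071) x26999) x27035) x27023) x46699)
    (Nat.add (Nat.add (Nat.add (Nat.add (Nat.add (Nat.add (Nat.add (Nat.add (Nat.add (Nat.add (Nat.add C x27023) x13901) x40145) x22649) x28481) x26537) x27077) x27041) x27017) x27025) x46705)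
    (Nat.add (Nat.add (Nat.add (Nat.add (Nat.add (Nat.add (Nat.add (Nat.add (Nat.add (Nat.add (Nat.add C (Nat.mul x27025 (nat_lit 2))) x13903) x40147) x22651) x28483) x26539) x27079) x27043) x27023) x46707) x7343)
    (Nat.sub (Nat.add (Nat.add (Nat.add (Nat.add (Nat.add (Nat.add (Nat.add (Nat.add (Nat.add C x13913) x40157) x22661) x28493) x26549) x27089) x27017) x27041) x46717) x27035)
    (Nat.add (Nat.add (Nat.add (Nat.add (Nat.add (Nat.add (Nat.add (Nat.add (Nat.add (Nat.add (Nat.add C x13919) x40163) x22667) x28499) x26555) x27095) x27023) x27035) x27047) x27043) x46723)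
    (Nat.add (Nat.add (Nat.add (Nat.add (Nat.add (Nat.add (Nat.add (Nat.add (Nat.add (Nat.add (Nat.add C x13921) x40165) x22669) x28501) x26557) x27097) x27025) x27049) x27041) x46725) x7361)
    (Nat.sub (Nat.add (Nat.add (Nat.add (Nat.add (Nat.add (Nat.add (Nat.add (Nat.add (Nat.add C x13925) x40169) x22673) x28505) x26561) x27101) x27041) x27049) x46729) x27047)
    (Nat.add (Nat.add (Nat.add (Nat.add (Nat.add (Nat.add (Nat.add (Nat.add (Nat.add (Nat.add (Nat.add (Nat.add C x27049) x13927) x40171) x22675) x28507) x26563) x27103) x27043) x27047) x27051) x46731) x7367)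
    (Nat.add (Nat.add (Nat.add (Nat.add (Nat.add (Nat.add (Nat.add (Nat.add (Nat.add C x27051) x13929) x40173) x22677) x28509) x26565) x27105) x27049) x7369)
    (Nat.add (Nat.add (Nat.add (Nat.add (Nat.add (Nat.add (Nat.add (Nat.add (Nat.add (Nat.add (Nat.add C x27071) x13949) x40193) x22697) x28529) x26585) x27233) x27017) x27089) x27077) x46753)
    (Nat.sub (Nat.add (Nat.add (Nat.add (Nat.add (Nat.add (Nat.add (Nat.add (Nat.add (Nat.add (Nat.add (Nat.add C x13955) x40199) x22703) x28535) x26591) x27239) x27023) x27095) x27071) x27079) x46759) x27077)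
    (Nat.add (Nat.add (Nat.add (Nat.add (Nat.add (Nat.add (Nat.add (Nat.add (Nat.add (Nat.add (Nat.add C x13957) x40201) x22705) x28537) x26593) x27241) x27025) x27097) x27077) x46761) x7397)
    (Nat.add (Nat.add (Nat.add (Nat.add (Nat.add (Nat.add (Nat.add (Nat.add (Nat.add (Nat.add (Nat.add C x13967) x40211) x22715) x28547) x26603) x27251) x27035) x27143) x27071) x27095) x46771)
    (Nat.add (Nat.add (Nat.add (Nat.add (Nat.add (Nat.add (Nat.add (Nat.add (Nat.add (Nat.add (Nat.add (Nat.add (Nat.add (Nat.add C x13973) x40217) x22721) x28553) x26609) x27257) x27041) x27149) x27077) x27113) x27089) x27101) x27097) x46777)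
    (Nat.add (Nat.add (Nat.add (Nat.add (Nat.add (Nat.add (Nat.add (Nat.add (Nat.add (Nat.add (Nat.add (Nat.add (Nat.add (Nat.add C x13975) x40219) x22723) x28555) x26611) x27259) x27043) x27151) x27079) x27115) x27103) x27095) x46779) x7415)
    (Nat.sub (Nat.add (Nat.add (Nat.add (Nat.add (Nat.add (Nat.add (Nat.add (Nat.add (Nat.add (Nat.add (Nat.add (Nat.add C x13979) x40223) x22727) x28559) x26615) x27263) x27047) x27155) x27119) x27095) x27103) x46783) (Nat.mul x27101 (nat_lit 2)))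
    (Nat.add (Nat.add (Nat.add (Nat.add (Nat.add (Nat.add (Nat.add (Nat.add (Nat.add (Nat.add (Nat.add (Nat.add (Nat.add (Nat.add C x13981) x40225) x22729) x28561) x26617) x27265) x27049) x27157) x27121) x27097) x27101) x27105) x46785) x7421)
    (Nat.add (Nat.add (Nat.add (Nat.add (Nat.add (Nat.add (Nat.add (Nat.add (Nat.add (Nat.add (Nat.add C x13983) x40227) x22731) x28563) x26619) x27267) x27051) x27159) x27123) x27103) x7423)
    (Nat.sub (Nat.add (Nat.add (Nat.add (Nat.add (Nat.add (Nat.add (Nat.add (Nat.add (Nat.add (Nat.add (Nat.add C x13991) x40235) x22739) x28571) x26627) x27275) x27167) x27095) x27119) x27115) x46795) x27113)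
    (Nat.sub (Nat.add (Nat.add (Nat.add (Nat.add (Nat.add (Nat.add (Nat.add (Nat.add (Nat.add (Nat.add (Nat.add (Nat.add C x13993) x40237) x22741) x28573) x26629) x27277) x27169) x27097) x27121) x27113) x46797) x7433) (Nat.mul x27115 (nat_lit 2)))
    (Nat.sub (Nat.add (Nat.add (Nat.add (Nat.add (Nat.add (Nat.add (Nat.add (Nat.add (Nat.add (Nat.add (Nat.add C x13997) x40241) x22745) x28577) x26633) x27281) x27173) x27101) x27113) x27121) x46801) x27119)
    (Nat.add (Nat.add (Nat.add (Nat.add (Nat.add (Nat.add (Nat.add (Nat.add (Nat.add (Nat.add (Nat.add (Nat.add (Nat.add (Nat.add C x13999) x40243) x22747) x28579) x26635) x27283) x27175) x27103) x27115) x27127) x27119) x27123) x46803) x7439)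
    (Nat.sub (Nat.add (Nat.add (Nat.add (Nat.add (Nat.add (Nat.add (Nat.add (Nat.add (Nat.add (Nat.add (Nat.add C x14001) x40245) x22749) x28581) x26637) x27285) x27177) x27105) x27129) x27121) x7441) x27123)
    (Nat.add (Nat.add (Nat.add (Nat.add (Nat.add (Nat.add (Nat.add (Nat.add (Nat.add (Nat.add (Nat.add C x14005) x40249) x22753) x28585) x26641) x27289) x27181) x27121) x27129) x46809) x7445)
    (Nat.add (Nat.add (Nat.add (Nat.add (Nat.add (Nat.add (Nat.add (Nat.add (Nat.add (Nat.add (Nat.add C x27129) x14007) x40251) x22755) x28587) x26643) x27291) x27183) x27123) x27127) x7447)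
    (Nat.sub (Nat.add (Nat.add (Nat.add (Nat.add (Nat.add (Nat.add (Nat.add (Nat.add (Nat.add C x14021) x40265) x22769) x28601) x26657) x27305) x27089) x27149) x46825) x27143)
    (Nat.sub (Nat.add (Nat.add (Nat.add (Nat.add (Nat.add (Nat.add (Nat.add (Nat.add (Nat.add (Nat.add (Nat.add (Nat.add C x14027) x40271) x22775) x28607) x26663) x27311) x27095) x27167) x27143) x27155) x27151) x46831) (Nat.mul x27149 (nat_lit 2)))
    (Nat.sub (Nat.add (Nat.add (Nat.add (Nat.add (Nat.add (Nat.add (Nat.add (Nat.add (Nat.add (Nat.add (Nat.add (Nat.add C x14029) x40273) x22777) x28609) x26665) x27313) x27097) x27169) x27157) x27149) x46833) x7469) (Nat.mul x27151 (nat_lit 2)))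
    (Nat.sub (Nat.add (Nat.add (Nat.add (Nat.add (Nat.add (Nat.add (Nat.add (Nat.add (Nat.add (Nat.add (Nat.add C x14033) x40277) x22781) x28613) x26669) x27317) x27101) x27173) x27149) x27157) x46837) (Nat.mul x27155 (nat_lit 5)))
    (Nat.sub (Nat.add (Nat.add (Nat.add (Nat.add (Nat.add (Nat.add (Nat.add (Nat.add (Nat.add (Nat.add (Nat.add (Nat.add (Nat.add C x14035) x40279) x22783) x28615) x26671) x27319) x27103) x27175) x27151) x27155) x27159) x46839) x7475) (Nat.mul x27157 (nat_lit 3)))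
    (Nat.sub (Nat.add (Nat.add (Nat.add (Nat.add (Nat.add (Nat.add (Nat.add (Nat.add (Nat.add (Nat.add C x14037) x40281) x22785) x28617) x26673) x27321) x27105) x27177) x27157) x7477) (Nat.mul x27159 (nat_lit 3)))
    (Nat.sub (Nat.add (Nat.add (Nat.add (Nat.add (Nat.add (Nat.add (Nat.add (Nat.add (Nat.add (Nat.add (Nat.add C x14045) x40289) x22793) x28625) x26681) x27329) x27113) x27149) x27173) x27169) x46849) x27167)
    (Nat.sub (Nat.add (Nat.add (Nat.add (Nat.add (Nat.add (Nat.add (Nat.add (Nat.add (Nat.add (Nat.add (Nat.add (Nat.add C x14047) x40291) x22795) x28627) x26683) x27331) x27115) x27151) x27175) x27167) x46851) x7487) (Nat.mul x27169 (nat_lit 2)))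
    (Nat.sub (Nat.add (Nat.add (Nat.add (Nat.add (Nat.add (Nat.add (Nat.add (Nat.add (Nat.add (Nat.add (Nat.add (Nat.add C x14051) x40295) x22799) x28631) x26687) x27335) x27119) x27155) x27191) x27167) x27175) x46855) (Nat.mul x27173 (nat_lit 2)))
    (Nat.sub (Nat.add (Nat.add (Nat.add (Nat.add (Nat.add (Nat.add (Nat.add (Nat.add (Nat.add (Nat.add (Nat.add (Nat.add (Nat.add (Nat.add (Nat.add C x14053) x40297) x22801) x28633) x26689) x27337) x27121) x27157) x27193) x27169) x27181) x27173) x27177) x46857) x7493) x27175)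
    (Nat.sub (Nat.add (Nat.add (Nat.add (Nat.add (Nat.add (Nat.add (Nat.add (Nat.add (Nat.add (Nat.add (Nat.add (Nat.add C x14055) x40299) x22803) x28635) x26691) x27339) x27123) x27159) x27195) x27183) x27175) x7495) (Nat.mul x27177 (nat_lit 2)))
    (Nat.sub (Nat.add (Nat.add (Nat.add (Nat.add (Nat.add (Nat.add (Nat.add (Nat.add (Nat.add (Nat.add (Nat.add (Nat.add C x14059) x40303) x22807) x28639) x26695) x27343) x27127) x27199) x27175) x27183) x46863) x7499) (Nat.mul x27181 (nat_lit 2)))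
    (Nat.sub (Nat.add (Nat.add (Nat.add (Nat.add (Nat.add (Nat.add (Nat.add (Nat.add (Nat.add (Nat.add (Nat.add C x14061) x40305) x22809) x28641) x26697) x27345) x27129) x27201) x27177) x27181) x7501) x27183)
    (Nat.sub (Nat.add (Nat.add (Nat.add (Nat.add (Nat.add (Nat.add (Nat.add (Nat.add (Nat.add C x14069) x40313) x22817) x28649) x26705) x27353) x27173) x27193) x46873) x27191)
    (Nat.sub (Nat.add (Nat.add (Nat.add (Nat.add (Nat.add (Nat.add (Nat.add (Nat.add (Nat.add (Nat.add (Nat.add (Nat.add C x14071) x40315) x22819) x28651) x26707) x27355) x27175) x27199) x27191) x27195) x46875) x7511) x27193)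
    (Nat.sub (Nat.add (Nat.add (Nat.add (Nat.add (Nat.add (Nat.add (Nat.add (Nat.add (Nat.add (Nat.add C x14073) x40317) x22821) x28653) x26709) x27357) x27177) x27201) x27193) x7513) (Nat.mul x27195 (nat_lit 3)))
    (Nat.add (Nat.add (Nat.add (Nat.add (Nat.add (Nat.add (Nat.add (Nat.add (Nat.add (Nat.add (Nat.add C x14077) x40321) x22825) x28657) x26713) x27361) x27181) x27193) x27201) x46881) x7517)
    (Nat.add (Nat.add (Nat.add (Nat.add (Nat.add (Nat.add (Nat.add (Nat.add (Nat.add (Nat.add (Nat.add C x14079) x40323) x22827) x28659) x26715) x27363) x27183) x27195) x27207) x27199) x7519)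
    (Nat.add (Nat.add (Nat.add (Nat.add (Nat.add (Nat.add (Nat.add (Nat.add (Nat.add C x27207) x14085) x40329) x22833) x28665) x26721) x27369) x27201) x7525)
    (Nat.add (Nat.add (Nat.add (Nat.add (Nat.add (Nat.add (Nat.add (Nat.add (Nat.add (Nat.add (Nat.add C (Nat.mul x27233 (nat_lit 2))) x14111) x40355) x22859) x28691) x26747) x27719) x27071) x27251) x27239) x46915)
    (Nat.add (Nat.add (Nat.add (Nat.add (Nat.add (Nat.add (Nat.add (Nat.add (Nat.add (Nat.add (Nat.add C x14117) x40361) x22865) x28697) x26753) x27725) x27077) x27257) x27233) x27241) x46921)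
    (Nat.add (Nat.add (Nat.add (Nat.add (Nat.add (Nat.add (Nat.add (Nat.add (Nat.add (Nat.add (Nat.add (Nat.add C x27241) x14119) x40363) x22867) x28699) x26755) x27727) x27079) x27259) x27239) x46923) x7559)
    (Nat.add (Nat.add (Nat.add (Nat.add (Nat.add (Nat.add (Nat.add (Nat.add (Nat.add (Nat.add (Nat.add C x14129) x40373) x22877) x28709) x26765) x27737) x27089) x27305) x27233) x27257) x46933)
    (Nat.add (Nat.add (Nat.add (Nat.add (Nat.add (Nat.add (Nat.add (Nat.add (Nat.add (Nat.add (Nat.add (Nat.add (Nat.add (Nat.add C x14135) x40379) x22883) x28715) x26771) x27743) x27095) x27311) x27239) x27275) x27251) x27263) x27259) x46939)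
    (Nat.add (Nat.add (Nat.add (Nat.add (Nat.add (Nat.add (Nat.add (Nat.add (Nat.add (Nat.add (Nat.add (Nat.add (Nat.add (Nat.add C x14137) x40381) x22885) x28717) x26773) x27745) x27097) x27313) x27241) x27277) x27265) x27257) x46941) x7577)
    (Nat.sub (Nat.add (Nat.add (Nat.add (Nat.add (Nat.add (Nat.add (Nat.add (Nat.add (Nat.add (Nat.add (Nat.add (Nat.add C x14141) x40385) x22889) x28721) x26777) x27749) x27101) x27317) x27281) x27257) x27265) x46945) (Nat.mul x27263 (nat_lit 2)))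
    (Nat.add (Nat.add (Nat.add (Nat.add (Nat.add (Nat.add (Nat.add (Nat.add (Nat.add (Nat.add (Nat.add (Nat.add (Nat.add (Nat.add C x14143) x40387) x22891) x28723) x26779) x27751) x27103) x27319) x27283) x27259) x27263) x27267) x46947) x7583)
    (Nat.add (Nat.add (Nat.add (Nat.add (Nat.add (Nat.add (Nat.add (Nat.add (Nat.add (Nat.add (Nat.add C x14145) x40389) x22893) x28725) x26781) x27753) x27105) x27321) x27285) x27265) x7585)
    (Nat.sub (Nat.add (Nat.add (Nat.add (Nat.add (Nat.add (Nat.add (Nat.add (Nat.add (Nat.add (Nat.add (Nat.add (Nat.add C x14153) x40397) x22901) x28733) x26789) x27761) x27113) x27329) x27257) x27281) x27277) x46957) (Nat.mul x27275 (nat_lit 2)))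
    (Nat.sub (Nat.add (Nat.add (Nat.add (Nat.add (Nat.add (Nat.add (Nat.add (Nat.add (Nat.add (Nat.add (Nat.add (Nat.add (Nat.add C x14155) x40399) x22903) x28735) x26791) x27763) x27115) x27331) x27259) x27283) x27275) x46959) x7595) (Nat.mul x27277 (nat_lit 3)))
    (Nat.sub (Nat.add (Nat.add (Nat.add (Nat.add (Nat.add (Nat.add (Nat.add (Nat.add (Nat.add (Nat.add (Nat.add (Nat.add C x14159) x40403) x22907) x28739) x26795) x27767) x27119) x27335) x27263) x27275) x27283) x46963) (Nat.mul x27281 (nat_lit 2)))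
    (Nat.sub (Nat.add (Nat.add (Nat.add (Nat.add (Nat.add (Nat.add (Nat.add (Nat.add (Nat.add (Nat.add (Nat.add (Nat.add (Nat.add (Nat.add (Nat.add C x14161) x40405) x22909) x28741) x26797) x27769) x27121) x27337) x27265) x27277) x27289) x27281) x27285) x46965) x7601) x27283)
    (Nat.sub (Nat.add (Nat.add (Nat.add (Nat.add (Nat.add (Nat.add (Nat.add (Nat.add (Nat.add (Nat.add (Nat.add (Nat.add C x14163) x40407) x22911) x28743) x26799) x27771) x27123) x27339) x27267) x27291) x27283) x7603) (Nat.mul x27285 (nat_lit 2)))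
    (Nat.sub (Nat.add (Nat.add (Nat.add (Nat.add (Nat.add (Nat.add (Nat.add (Nat.add (Nat.add (Nat.add (Nat.add (Nat.add C x14167) x40411) x22915) x28747) x26803) x27775) x27127) x27343) x27283) x27291) x46971) x7607) x27289)
    (Nat.add (Nat.add (Nat.add (Nat.add (Nat.add (Nat.add (Nat.add (Nat.add (Nat.add (Nat.add (Nat.add C x14169) x40413) x22917) x28749) x26805) x27777) x27129) x27345) x27285) x27289) x7609)
    (Nat.add (Nat.add (Nat.add (Nat.add (Nat.add (Nat.add (Nat.add (Nat.add (Nat.add (Nat.add (Nat.add (Nat.add C x27305) x14183) x40427) x22931) x28763) x26819) x27791) x27143) x27467) x27251) x27311) x46987)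
    (Nat.add (Nat.add (Nat.add (Nat.add (Nat.add (Nat.add (Nat.add (Nat.add (Nat.add (Nat.add (Nat.add (Nat.add (Nat.add (Nat.add C x14189) x40433) x22937) x28769) x26825) x27797) x27149) x27473) x27257) x27329) x27305) x27317) x27313) x46993)
    (Nat.add (Nat.add (Nat.add (Nat.add (Nat.add (Nat.add (Nat.add (Nat.add (Nat.add (Nat.add (Nat.add (Nat.add (Nat.add (Nat.add C x14191) x40435) x22939) x28771) x26827) x27799) x27151) x27475) x27259) x27331) x27319) x27311) x46995) x7631)
    (Nat.sub (Nat.add (Nat.add (Nat.add (Nat.add (Nat.add (Nat.add (Nat.add (Nat.add (Nat.add (Nat.add (Nat.add (Nat.add (Nat.add C x14195) x40439) x22943) x28775) x26831) x27803) x27155) x27479) x27263) x27335) x27311) x27319) x46999) (Nat.mul x27317 (nat_lit 3)))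
    (Nat.sub (Nat.add (Nat.add (Nat.add (Nat.add (Nat.add (Nat.add (Nat.add (Nat.add (Nat.add (Nat.add (Nat.add (Nat.add (Nat.add (Nat.add (Nat.add C x14197) x40441) x22945) x28777) x26833) x27805) x27157) x27481) x27265) x27337) x27313) x27317) x27321) x47001) x7637) x27319)
    (Nat.sub (Nat.add (Nat.add (Nat.add (Nat.add (Nat.add (Nat.add (Nat.add (Nat.add (Nat.add (Nat.add (Nat.add (Nat.add C x14199) x40443) x22947) x28779) x26835) x27807) x27159) x27483) x27267) x27339) x27319) x7639) x27321)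
    (Nat.add (Nat.add (Nat.add (Nat.add (Nat.add (Nat.add (Nat.add (Nat.add (Nat.add (Nat.add (Nat.add (Nat.add (Nat.add (Nat.add C x14207) x40451) x22955) x28787) x26843) x27815) x27167) x27491) x27275) x27383) x27311) x27335) x27331) x47011)
    (Nat.sub (Nat.add (Nat.add (Nat.add (Nat.add (Nat.add (Nat.add (Nat.add (Nat.add (Nat.add (Nat.add (Nat.add (Nat.add (Nat.add (Nat.add (Nat.add C x14209) x40453) x22957) x28789) x26845) x27817) x27169) x27493) x27277) x27385) x27313) x27337) x27329) x47013) x7649) x27331)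
    (Nat.sub (Nat.add (Nat.add (Nat.add (Nat.add (Nat.add (Nat.add (Nat.add (Nat.add (Nat.add (Nat.add (Nat.add (Nat.add (Nat.add (Nat.add (Nat.add C x14213) x40457) x22961) x28793) x26849) x27821) x27173) x27497) x27281) x27389) x27317) x27353) x27329) x27337) x47017) x27335)
    (Nat.add (Nat.add (Nat.add (Nat.add (Nat.add (Nat.add (Nat.add (Nat.add (Nat.add (Nat.add (Nat.add (Nat.add (Nat.add (Nat.add (Nat.add (Nat.add (Nat.add (Nat.add C x14215) x40459) x22963) x28795) x26851) x27823) x27175) x27499) x27283) x27391) x27319) x27355) x27331) x27343) x27335) x27339) x47019) x7655)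
    (Nat.sub (Nat.add (Nat.add (Nat.add (Nat.add (Nat.add (Nat.add (Nat.add (Nat.add (Nat.add (Nat.add (Nat.add (Nat.add (Nat.add (Nat.add (Nat.add C x14217) x40461) x22965) x28797) x26853) x27825) x27177) x27501) x27285) x27393) x27321) x27357) x27345) x27337) x7657) x27339)
    (Nat.sub (Nat.add (Nat.add (Nat.add (Nat.add (Nat.add (Nat.add (Nat.add (Nat.add (Nat.add (Nat.add (Nat.add (Nat.add (Nat.add (Nat.add (Nat.add C x14221) x40465) x22969) x28801) x26857) x27829) x27181) x27505) x27289) x27397) x27361) x27337) x27345) x47025) x7661) x27343)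
    (Nat.add (Nat.add (Nat.add (Nat.add (Nat.add (Nat.add (Nat.add (Nat.add (Nat.add (Nat.add (Nat.add (Nat.add (Nat.add (Nat.add C x14223) x40467) x22971) x28803) x26859) x27831) x27183) x27507) x27291) x27399) x27363) x27339) x27343) x7663)
    (Nat.sub (Nat.add (Nat.add (Nat.add (Nat.add (Nat.add (Nat.add (Nat.add (Nat.add (Nat.add (Nat.add (Nat.add (Nat.add C x14231) x40475) x22979) x28811) x26867) x27839) x27191) x27515) x27407) x27335) x27355) x47035) x27353)
    (Nat.sub (Nat.add (Nat.add (Nat.add (Nat.add (Nat.add (Nat.add (Nat.add (Nat.add (Nat.add (Nat.add (Nat.add (Nat.add (Nat.add (Nat.add (Nat.add C x14233) x40477) x22981) x28813) x26869) x27841) x27193) x27517) x27409) x27337) x27361) x27353) x27357) x47037) x7673) x27355)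
    (Nat.sub (Nat.add (Nat.add (Nat.add (Nat.add (Nat.add (Nat.add (Nat.add (Nat.add (Nat.add (Nat.add (Nat.add (Nat.add (Nat.add C x14235) x40479) x22983) x28815) x26871) x27843) x27195) x27519) x27411) x27339) x27363) x27355) x7675) (Nat.mul x27357 (nat_lit 3)))
    (Nat.add (Nat.add (Nat.add (Nat.add (Nat.add (Nat.add (Nat.add (Nat.add (Nat.add (Nat.add (Nat.add (Nat.add (Nat.add (Nat.add C x14239) x40483) x22987) x28819) x26875) x27847) x27199) x27523) x27415) x27343) x27355) x27363) x47043) x7679)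
    (Nat.add (Nat.add (Nat.add (Nat.add (Nat.add (Nat.add (Nat.add (Nat.add (Nat.add (Nat.add (Nat.add (Nat.add (Nat.add (Nat.add C x14241) x40485) x22989) x28821) x26877) x27849) x27201) x27525) x27417) x27345) x27357) x27369) x27361) x7681)
    (Nat.add (Nat.add (Nat.add (Nat.add (Nat.add (Nat.add (Nat.add (Nat.add (Nat.add (Nat.add (Nat.add (Nat.add C x27369) x14247) x40491) x22995) x28827) x26883) x27855) x27207) x27531) x27423) x27363) x7687)
    (Nat.add (Nat.add (Nat.add (Nat.add (Nat.add (Nat.add (Nat.add (Nat.add (Nat.add (Nat.add (Nat.add C x14261) x40505) x23009) x28841) x26897) x27869) x27545) x27329) x27389) x27385) x47065)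
    (Nat.sub (Nat.add (Nat.add (Nat.add (Nat.add (Nat.add (Nat.add (Nat.add (Nat.add (Nat.add (Nat.add (Nat.add (Nat.add C x14263) x40507) x23011) x28843) x26899) x27871) x27547) x27331) x27391) x27383) x47067) x7703) x27385)
    (Nat.sub (Nat.add (Nat.add (Nat.add (Nat.add (Nat.add (Nat.add (Nat.add (Nat.add (Nat.add (Nat.add (Nat.add (Nat.add C x14267) x40511) x23015) x28847) x26903) x27875) x27551) x27335) x27407) x27383) x27391) x47071) (Nat.mul x27389 (nat_lit 2)))
    (Nat.sub (Nat.add (Nat.add (Nat.add (Nat.add (Nat.add (Nat.add (Nat.add (Nat.add (Nat.add (Nat.add (Nat.add (Nat.add (Nat.add (Nat.add (Nat.add C x14269) x40513) x23017) x28849) x26905) x27877) x27553) x27337) x27409) x27385) x27397) x27389) x27393) x47073) x7709) x27391)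
    (Nat.sub (Nat.add (Nat.add (Nat.add (Nat.add (Nat.add (Nat.add (Nat.add (Nat.add (Nat.add (Nat.add (Nat.add (Nat.add C x14271) x40515) x23019) x28851) x26907) x27879) x27555) x27339) x27411) x27399) x27391) x7711) (Nat.mul x27393 (nat_lit 2)))
    (Nat.sub (Nat.add (Nat.add (Nat.add (Nat.add (Nat.add (Nat.add (Nat.add (Nat.add (Nat.add (Nat.add (Nat.add (Nat.add (Nat.add C x14275) x40519) x23023) x28855) x26911) x27883) x27559) x27343) x27415) x27391) x27399) x47079) x7715) (Nat.mul x27397 (nat_lit 3)))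
    (Nat.sub (Nat.add (Nat.add (Nat.add (Nat.add (Nat.add (Nat.add (Nat.add (Nat.add (Nat.add (Nat.add (Nat.add (Nat.add C x14277) x40521) x23025) x28857) x26913) x27885) x27561) x27345) x27417) x27393) x27397) x7717) (Nat.mul x27399 (nat_lit 2)))
    (Nat.add (Nat.add (Nat.add (Nat.add (Nat.add (Nat.add (Nat.add (Nat.add (Nat.add (Nat.add (Nat.add C x14285) x40529) x23033) x28865) x26921) x27893) x27569) x27353) x27389) x27409) x47089)
    (Nat.add (Nat.add (Nat.add (Nat.add (Nat.add (Nat.add (Nat.add (Nat.add (Nat.add (Nat.add (Nat.add (Nat.add (Nat.add (Nat.add C x14287) x40531) x23035) x28867) x26923) x27895) x27571) x27355) x27391) x27415) x27407) x27411) x47091) x7727)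
    (Nat.sub (Nat.add (Nat.add (Nat.add (Nat.add (Nat.add (Nat.add (Nat.add (Nat.add (Nat.add (Nat.add (Nat.add (Nat.add C x14289) x40533) x23037) x28869) x26925) x27897) x27573) x27357) x27393) x27417) x27409) x7729) (Nat.mul x27411 (nat_lit 2)))
    (Nat.add (Nat.add (Nat.add (Nat.add (Nat.add (Nat.add (Nat.add (Nat.add (Nat.add (Nat.add (Nat.add (Nat.add (Nat.add (Nat.add C x14293) x40537) x23041) x28873) x26929) x27901) x27577) x27361) x27397) x27433) x27409) x27417) x47097) x7733)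
    (Nat.add (Nat.add (Nat.add (Nat.add (Nat.add (Nat.add (Nat.add (Nat.add (Nat.add (Nat.add (Nat.add (Nat.add (Nat.add (Nat.add C x14295) x40539) x23043) x28875) x26931) x27903) x27579) x27363) x27399) x27435) x27411) x27423) x27415) x7735)
    (Nat.add (Nat.add (Nat.add (Nat.add (Nat.add (Nat.add (Nat.add (Nat.add (Nat.add (Nat.add (Nat.add C x14301) x40545) x23049) x28881) x26937) x27909) x27585) x27369) x27441) x27417) x7741)
    (Nat.add (Nat.add (Nat.add (Nat.add (Nat.add (Nat.add (Nat.add (Nat.add (Nat.add (Nat.add (Nat.add (Nat.add C x27433) x14311) x40555) x23059) x28891) x26947) x27919) x27595) x27415) x27435) x47115) x7751)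
    (Nat.add (Nat.add (Nat.add (Nat.add (Nat.add (Nat.add (Nat.add (Nat.add (Nat.add (Nat.add (Nat.add C x14313) x40557) x23061) x28893) x26949) x27921) x27597) x27417) x27441) x27433) x7753)
    (Nat.add (Nat.add (Nat.add (Nat.add (Nat.add (Nat.add (Nat.add (Nat.add (Nat.add (Nat.add (Nat.add C (Nat.mul x27441 (nat_lit 2))) x14319) x40563) x23067) x28899) x26955) x27927) x27603) x27423) x27435) x7759)
    (Nat.add (Nat.add (Nat.add (Nat.add (Nat.add (Nat.add (Nat.add (Nat.add (Nat.add C x27467) x14345) x40589) x23093) x28925) x27953) x27305) x27473) x47149)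
    (Nat.add (Nat.add (Nat.add (Nat.add (Nat.add (Nat.add (Nat.add (Nat.add (Nat.add (Nat.add (Nat.add C x14351) x40595) x23099) x28931) x27959) x27311) x27491) x27467) x27479) x27475) x47155)
    (Nat.add (Nat.add (Nat.add (Nat.add (Nat.add (Nat.add (Nat.add (Nat.add (Nat.add (Nat.add (Nat.add C x14353) x40597) x23101) x28933) x27961) x27313) x27493) x27481) x27473) x47157) x7793)
    (Nat.sub (Nat.add (Nat.add (Nat.add (Nat.add (Nat.add (Nat.add (Nat.add (Nat.add (Nat.add (Nat.add C x14357) x40601) x23105) x28937) x27965) x27317) x27497) x27473) x27481) x47161) (Nat.mul x27479 (nat_lit 3)))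
    (Nat.sub (Nat.add (Nat.add (Nat.add (Nat.add (Nat.add (Nat.add (Nat.add (Nat.add (Nat.add (Nat.add (Nat.add (Nat.add C x14359) x40603) x23107) x28939) x27967) x27319) x27499) x27475) x27479) x27483) x47163) x7799) x27481)
    (Nat.sub (Nat.add (Nat.add (Nat.add (Nat.add (Nat.add (Nat.add (Nat.add (Nat.add (Nat.add C x14361) x40605) x23109) x28941) x27969) x27321) x27501) x27481) x7801) x27483)
    (Nat.sub (Nat.add (Nat.add (Nat.add (Nat.add (Nat.add (Nat.add (Nat.add (Nat.add (Nat.add (Nat.add (Nat.add C x14369) x40613) x23117) x28949) x27977) x27329) x27545) x27473) x27497) x27493) x47173) x27491)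
    (Nat.sub (Nat.add (Nat.add (Nat.add (Nat.add (Nat.add (Nat.add (Nat.add (Nat.add (Nat.add (Nat.add (Nat.add (Nat.add C x14371) x40615) x23119) x28951) x27979) x27331) x27547) x27475) x27499) x27491) x47175) x7811) (Nat.mul x27493 (nat_lit 2)))
    (Nat.sub (Nat.add (Nat.add (Nat.add (Nat.add (Nat.add (Nat.add (Nat.add (Nat.add (Nat.add (Nat.add (Nat.add (Nat.add C x14375) x40619) x23123) x28955) x27983) x27335) x27551) x27479) x27515) x27491) x27499) x47179) (Nat.mul x27497 (nat_lit 2)))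
    (Nat.sub (Nat.add (Nat.add (Nat.add (Nat.add (Nat.add (Nat.add (Nat.add (Nat.add (Nat.add (Nat.add (Nat.add (Nat.add (Nat.add (Nat.add (Nat.add C x14377) x40621) x23125) x28957) x27985) x27337) x27553) x27481) x27517) x27493) x27505) x27497) x27501) x47181) x7817) x27499)
    (Nat.sub (Nat.add (Nat.add (Nat.add (Nat.add (Nat.add (Nat.add (Nat.add (Nat.add (Nat.add (Nat.add (Nat.add (Nat.add C x14379) x40623) x23127) x28959) x27987) x27339) x27555) x27483) x27519) x27507) x27499) x7819) (Nat.mul x27501 (nat_lit 2)))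
    (Nat.sub (Nat.add (Nat.add (Nat.add (Nat.add (Nat.add (Nat.add (Nat.add (Nat.add (Nat.add (Nat.add (Nat.add (Nat.add C x14383) x40627) x23131) x28963) x27991) x27343) x27559) x27523) x27499) x27507) x47187) x7823) (Nat.mul x27505 (nat_lit 2)))
    (Nat.sub (Nat.add (Nat.add (Nat.add (Nat.add (Nat.add (Nat.add (Nat.add (Nat.add (Nat.add (Nat.add (Nat.add C x14385) x40629) x23133) x28965) x27993) x27345) x27561) x27525) x27501) x27505) x7825) x27507)
    (Nat.sub (Nat.add (Nat.add (Nat.add (Nat.add (Nat.add (Nat.add (Nat.add (Nat.add (Nat.add (Nat.add C x14393) x40637) x23141) x28973) x28001) x27353) x27569) x27497) x27517) x47197) (Nat.mul x27515 (nat_lit 3)))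
    (Nat.sub (Nat.add (Nat.add (Nat.add (Nat.add (Nat.add (Nat.add (Nat.add (Nat.add (Nat.add (Nat.add (Nat.add (Nat.add (Nat.add C x14395) x40639) x23143) x28975) x28003) x27355) x27571) x27499) x27523) x27515) x27519) x47199) x7835) (Nat.mul x27517 (nat_lit 3)))
    (Nat.sub (Nat.add (Nat.add (Nat.add (Nat.add (Nat.add (Nat.add (Nat.add (Nat.add (Nat.add (Nat.add (Nat.add C x14397) x40641) x23145) x28977) x28005) x27357) x27573) x27501) x27525) x27517) x7837) (Nat.mul x27519 (nat_lit 5)))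
    (Nat.sub (Nat.add (Nat.add (Nat.add (Nat.add (Nat.add (Nat.add (Nat.add (Nat.add (Nat.add (Nat.add (Nat.add (Nat.add C x14401) x40645) x23149) x28981) x28009) x27361) x27577) x27505) x27517) x27525) x47205) x7841) (Nat.mul x27523 (nat_lit 2)))
    (Nat.sub (Nat.add (Nat.add (Nat.add (Nat.add (Nat.add (Nat.add (Nat.add (Nat.add (Nat.add (Nat.add (Nat.add (Nat.add C x14403) x40647) x23151) x28983) x28011) x27363) x27579) x27507) x27519) x27531) x27523) x7843) (Nat.mul x27525 (nat_lit 2)))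
    (Nat.sub (Nat.add (Nat.add (Nat.add (Nat.add (Nat.add (Nat.add (Nat.add (Nat.add (Nat.add C x14409) x40653) x23157) x28989) x28017) x27369) x27585) x27525) x7849) x27531)
    (Nat.add (Nat.add (Nat.add (Nat.add (Nat.add (Nat.add (Nat.add (Nat.add (Nat.add (Nat.add (Nat.add C x27545) x14423) x40667) x23171) x29003) x28031) x27383) x27491) x27551) x27547) x47227)
    (Nat.add (Nat.add (Nat.add (Nat.add (Nat.add (Nat.add (Nat.add (Nat.add (Nat.add (Nat.add (Nat.add C x14425) x40669) x23173) x29005) x28033) x27385) x27493) x27553) x27545) x47229) x7865)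
    (Nat.sub (Nat.add (Nat.add (Nat.add (Nat.add (Nat.add (Nat.add (Nat.add (Nat.add (Nat.add (Nat.add (Nat.add C x14429) x40673) x23177) x29009) x28037) x27389) x27497) x27569) x27545) x27553) x47233) x27551)
    (Nat.add (Nat.add (Nat.add (Nat.add (Nat.add (Nat.add (Nat.add (Nat.add (Nat.add (Nat.add (Nat.add (Nat.add (Nat.add (Nat.add C x14431) x40675) x23179) x29011) x28039) x27391) x27499) x27571) x27547) x27559) x27551) x27555) x47235) x7871)
    (Nat.sub (Nat.add (Nat.add (Nat.add (Nat.add (Nat.add (Nat.add (Nat.add (Nat.add (Nat.add (Nat.add (Nat.add C x14433) x40677) x23181) x29013) x28041) x27393) x27501) x27573) x27561) x27553) x7873) x27555)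
    (Nat.sub (Nat.add (Nat.add (Nat.add (Nat.add (Nat.add (Nat.add (Nat.add (Nat.add (Nat.add (Nat.add (Nat.add (Nat.add C x14437) x40681) x23185) x29017) x28045) x27397) x27505) x27577) x27553) x27561) x47241) x7877) (Nat.mul x27559 (nat_lit 2)))
    (Nat.sub (Nat.add (Nat.add (Nat.add (Nat.add (Nat.add (Nat.add (Nat.add (Nat.add (Nat.add (Nat.add (Nat.add C x14439) x40683) x23187) x29019) x28047) x27399) x27507) x27579) x27555) x27559) x7879) x27561)
    (Nat.add (Nat.add (Nat.add (Nat.add (Nat.add (Nat.add (Nat.add (Nat.add (Nat.add (Nat.add (Nat.add C x14447) x40691) x23195) x29027) x28055) x27407) x27515) x27623) x27551) x27571) x47251)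
    (Nat.add (Nat.add (Nat.add (Nat.add (Nat.add (Nat.add (Nat.add (Nat.add (Nat.add (Nat.add (Nat.add (Nat.add (Nat.add (Nat.add C x14449) x40693) x23197) x29029) x28057) x27409) x27517) x27625) x27553) x27577) x27569) x27573) x47253) x7889)
    (Nat.sub (Nat.add (Nat.add (Nat.add (Nat.add (Nat.add (Nat.add (Nat.add (Nat.add (Nat.add (Nat.add (Nat.add (Nat.add C x14451) x40695) x23199) x29031) x28059) x27411) x27519) x27627) x27555) x27579) x27571) x7891) (Nat.mul x27573 (nat_lit 2)))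
    (Nat.add (Nat.add (Nat.add (Nat.add (Nat.add (Nat.add (Nat.add (Nat.add (Nat.add (Nat.add (Nat.add (Nat.add (Nat.add (Nat.add C x14455) x40699) x23203) x29035) x28063) x27415) x27523) x27631) x27559) x27595) x27571) x27579) x47259) x7895)
    (Nat.add (Nat.add (Nat.add (Nat.add (Nat.add (Nat.add (Nat.add (Nat.add (Nat.add (Nat.add (Nat.add (Nat.add (Nat.add (Nat.add C x14457) x40701) x23205) x29037) x28065) x27417) x27525) x27633) x27561) x27597) x27573) x27585) x27577) x7897)
    (Nat.add (Nat.add (Nat.add (Nat.add (Nat.add (Nat.add (Nat.add (Nat.add (Nat.add (Nat.add (Nat.add C x14463) x40707) x23211) x29043) x28071) x27423) x27531) x27639) x27603) x27579) x7903)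
    (Nat.add (Nat.add (Nat.add (Nat.add (Nat.add (Nat.add (Nat.add (Nat.add (Nat.add (Nat.add (Nat.add C x14473) x40717) x23221) x29053) x28081) x27433) x27649) x27577) x27597) x47277) x7913)
    (Nat.sub (Nat.add (Nat.add (Nat.add (Nat.add (Nat.add (Nat.add (Nat.add (Nat.add (Nat.add (Nat.add (Nat.add C x14475) x40719) x23223) x29055) x28083) x27435) x27651) x27579) x27603) x27595) x7915) x27597)
    (Nat.add (Nat.add (Nat.add (Nat.add (Nat.add (Nat.add (Nat.add (Nat.add (Nat.add (Nat.add (Nat.add C x27603) x14481) x40725) x23229) x29061) x28089) x27441) x27657) x27585) x27597) x7921)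
    (Nat.add (Nat.add (Nat.add (Nat.add (Nat.add (Nat.add (Nat.add (Nat.add (Nat.add C x27623) x14501) x40745) x23249) x29081) x28109) x27569) x27625) x47305)
    (Nat.add (Nat.add (Nat.add (Nat.add (Nat.add (Nat.add (Nat.add (Nat.add (Nat.add (Nat.add (Nat.add (Nat.add C x27625) x14503) x40747) x23251) x29083) x28111) x27571) x27631) x27623) x27627) x47307) x7943)
    (Nat.sub (Nat.add (Nat.add (Nat.add (Nat.add (Nat.add (Nat.add (Nat.add (Nat.add (Nat.add C x14505) x40749) x23253) x29085) x28113) x27573) x27633) x27625) x7945) x27627)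
    (Nat.add (Nat.add (Nat.add (Nat.add (Nat.add (Nat.add (Nat.add (Nat.add (Nat.add (Nat.add (Nat.add C x14509) x40753) x23257) x29089) x28117) x27577) x27649) x27625) x27633) x47313) x7949)
    (Nat.add (Nat.add (Nat.add (Nat.add (Nat.add (Nat.add (Nat.add (Nat.add (Nat.add (Nat.add (Nat.add C x14511) x40755) x23259) x29091) x28119) x27579) x27651) x27627) x27639) x27631) x7951)
    (Nat.sub (Nat.add (Nat.add (Nat.add (Nat.add (Nat.add (Nat.add (Nat.add (Nat.add (Nat.add C x14517) x40761) x23265) x29097) x28125) x27585) x27657) x27633) x7957) x27639)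
    (Nat.add (Nat.add (Nat.add (Nat.add (Nat.add (Nat.add (Nat.add (Nat.add (Nat.add (Nat.add (Nat.add C (Nat.mul x27649 (nat_lit 2))) x14527) x40771) x23275) x29107) x28135) x27595) x27631) x27651) x47331) x7967)
    (Nat.add (Nat.add (Nat.add (Nat.add (Nat.add (Nat.add (Nat.add (Nat.add (Nat.add (Nat.add (Nat.add C x27651) x14529) x40773) x23277) x29109) x28137) x27597) x27633) x27657) x27649) x7969)
    (Nat.add (Nat.add (Nat.add (Nat.add (Nat.add (Nat.add (Nat.add (Nat.add (Nat.add (Nat.add (Nat.add C (Nat.mul x27657 (nat_lit 2))) x14535) x40779) x23283) x29115) x28143) x27603) x27639) x27675) x27651) x7975)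
    (Nat.add (Nat.add (Nat.add (Nat.add (Nat.add (Nat.add (Nat.add (Nat.add C (Nat.mul x27675 (nat_lit 3))) x14553) x40797) x23301) x29133) x28161) x27657) x7993)
    (Nat.add (Nat.add (Nat.add (Nat.add (Nat.add (Nat.add (Nat.add (Nat.add (Nat.add C x27719) x14597) x40841) x23345) x29177) x27233) x27737) x27725) x47401)
    (Nat.sub (Nat.add (Nat.add (Nat.add (Nat.add (Nat.add (Nat.add (Nat.add (Nat.add (Nat.add C x14603) x40847) x23351) x29183) x27239) x27743) x27719) x27727) x47407) x27725)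
    (Nat.add (Nat.add (Nat.add (Nat.add (Nat.add (Nat.add (Nat.add (Nat.add (Nat.add C x14605) x40849) x23353) x29185) x27241) x27745) x27725) x47409) x8045)
    (Nat.sub (Nat.add (Nat.add (Nat.add (Nat.add (Nat.add (Nat.add (Nat.add (Nat.add (Nat.add C x14615) x40859) x23363) x29195) x27251) x27791) x27719) x27743) x47419) x27737)
    (Nat.sub (Nat.add (Nat.add (Nat.add (Nat.add (Nat.add (Nat.add (Nat.add (Nat.add (Nat.add (Nat.add (Nat.add (Nat.add C x14621) x40865) x23369) x29201) x27257) x27797) x27725) x27761) x27737) x27749) x27745) x47425) x27743)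
    (Nat.sub (Nat.add (Nat.add (Nat.add (Nat.add (Nat.add (Nat.add (Nat.add (Nat.add (Nat.add (Nat.add (Nat.add (Nat.add C x14623) x40867) x23371) x29203) x27259) x27799) x27727) x27763) x27751) x27743) x47427) x8063) x27745)
    (Nat.sub (Nat.add (Nat.add (Nat.add (Nat.add (Nat.add (Nat.add (Nat.add (Nat.add (Nat.add (Nat.add C x14627) x40871) x23375) x29207) x27263) x27803) x27767) x27743) x27751) x47431) (Nat.mul x27749 (nat_lit 3)))
    (Nat.sub (Nat.add (Nat.add (Nat.add (Nat.add (Nat.add (Nat.add (Nat.add (Nat.add (Nat.add (Nat.add (Nat.add (Nat.add C x14629) x40873) x23377) x29209) x27265) x27805) x27769) x27745) x27749) x27753) x47433) x8069) x27751)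
    (Nat.sub (Nat.add (Nat.add (Nat.add (Nat.add (Nat.add (Nat.add (Nat.add (Nat.add (Nat.add C x14631) x40875) x23379) x29211) x27267) x27807) x27771) x27751) x8071) x27753)
    (Nat.sub (Nat.add (Nat.add (Nat.add (Nat.add (Nat.add (Nat.add (Nat.add (Nat.add (Nat.add (Nat.add C x14639) x40883) x23387) x29219) x27275) x27815) x27743) x27767) x27763) x47443) (Nat.mul x27761 (nat_lit 3)))
    (Nat.sub (Nat.add (Nat.add (Nat.add (Nat.add (Nat.add (Nat.add (Nat.add (Nat.add (Nat.add (Nat.add (Nat.add C x14641) x40885) x23389) x29221) x27277) x27817) x27745) x27769) x27761) x47445) x8081) (Nat.mul x27763 (nat_lit 4)))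
    (Nat.sub (Nat.add (Nat.add (Nat.add (Nat.add (Nat.add (Nat.add (Nat.add (Nat.add (Nat.add (Nat.add C x14645) x40889) x23393) x29225) x27281) x27821) x27749) x27761) x27769) x47449) (Nat.mul x27767 (nat_lit 3)))
    (Nat.sub (Nat.add (Nat.add (Nat.add (Nat.add (Nat.add (Nat.add (Nat.add (Nat.add (Nat.add (Nat.add (Nat.add (Nat.add (Nat.add C x14647) x40891) x23395) x29227) x27283) x27823) x27751) x27763) x27775) x27767) x27771) x47451) x8087) (Nat.mul x27769 (nat_lit 2)))
    (Nat.sub (Nat.add (Nat.add (Nat.add (Nat.add (Nat.add (Nat.add (Nat.add (Nat.add (Nat.add (Nat.add C x14649) x40893) x23397) x29229) x27285) x27825) x27753) x27777) x27769) x8089) (Nat.mul x27771 (nat_lit 3)))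
    (Nat.sub (Nat.add (Nat.add (Nat.add (Nat.add (Nat.add (Nat.add (Nat.add (Nat.add (Nat.add (Nat.add C x14653) x40897) x23401) x29233) x27289) x27829) x27769) x27777) x47457) x8093) (Nat.mul x27775 (nat_lit 2)))
    (Nat.sub (Nat.add (Nat.add (Nat.add (Nat.add (Nat.add (Nat.add (Nat.add (Nat.add (Nat.add C x14655) x40899) x23403) x29235) x27291) x27831) x27771) x27775) x8095) x27777)
    (Nat.sub (Nat.add (Nat.add (Nat.add (Nat.add (Nat.add (Nat.add (Nat.add (Nat.add (Nat.add C x14669) x40913) x23417) x29249) x27305) x27953) x27737) x27797) x47473) x27791)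
    (Nat.sub (Nat.add (Nat.add (Nat.add (Nat.add (Nat.add (Nat.add (Nat.add (Nat.add (Nat.add (Nat.add (Nat.add (Nat.add C x14675) x40919) x23423) x29255) x27311) x27959) x27743) x27815) x27791) x27803) x27799) x47479) (Nat.mul x27797 (nat_lit 2)))
    (Nat.sub (Nat.add (Nat.add (Nat.add (Nat.add (Nat.add (Nat.add (Nat.add (Nat.add (Nat.add (Nat.add (Nat.add (Nat.add C x14677) x40921) x23425) x29257) x27313) x27961) x27745) x27817) x27805) x27797) x47481) x8117) (Nat.mul x27799 (nat_lit 2)))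
    (Nat.sub (Nat.add (Nat.add (Nat.add (Nat.add (Nat.add (Nat.add (Nat.add (Nat.add (Nat.add (Nat.add (Nat.add C x14681) x40925) x23429) x29261) x27317) x27965) x27749) x27821) x27797) x27805) x47485) (Nat.mul x27803 (nat_lit 5)))
    (Nat.sub (Nat.add (Nat.add (Nat.add (Nat.add (Nat.add (Nat.add (Nat.add (Nat.add (Nat.add (Nat.add (Nat.add (Nat.add (Nat.add C x14683) x40927) x23431) x29263) x27319) x27967) x27751) x27823) x27799) x27803) x27807) x47487) x8123) (Nat.mul x27805 (nat_lit 3)))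
    (Nat.sub (Nat.add (Nat.add (Nat.add (Nat.add (Nat.add (Nat.add (Nat.add (Nat.add (Nat.add (Nat.add C x14685) x40929) x23433) x29265) x27321) x27969) x27753) x27825) x27805) x8125) (Nat.mul x27807 (nat_lit 3)))
    (Nat.sub (Nat.add (Nat.add (Nat.add (Nat.add (Nat.add (Nat.add (Nat.add (Nat.add (Nat.add (Nat.add (Nat.add (Nat.add C x14693) x40937) x23441) x29273) x27329) x27977) x27761) x27869) x27797) x27821) x27817) x47497) (Nat.mul x27815 (nat_lit 2)))
    (Nat.sub (Nat.add (Nat.add (Nat.add (Nat.add (Nat.add (Nat.add (Nat.add (Nat.add (Nat.add (Nat.add (Nat.add (Nat.add (Nat.add C x14695) x40939) x23443) x29275) x27331) x27979) x27763) x27871) x27799) x27823) x27815) x47499) x8135) (Nat.mul x27817 (nat_lit 3)))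
    (Nat.sub (Nat.add (Nat.add (Nat.add (Nat.add (Nat.add (Nat.add (Nat.add (Nat.add (Nat.add (Nat.add (Nat.add (Nat.add (Nat.add C x14699) x40943) x23447) x29279) x27335) x27983) x27767) x27875) x27803) x27839) x27815) x27823) x47503) (Nat.mul x27821 (nat_lit 3)))
    (Nat.sub (Nat.add (Nat.add (Nat.add (Nat.add (Nat.add (Nat.add (Nat.add (Nat.add (Nat.add (Nat.add (Nat.add (Nat.add (Nat.add (Nat.add (Nat.add (Nat.add C x14701) x40945) x23449) x29281) x27337) x27985) x27769) x27877) x27805) x27841) x27817) x27829) x27821) x27825) x47505) x8141) (Nat.mul x27823 (nat_lit 2)))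
    (Nat.sub (Nat.add (Nat.add (Nat.add (Nat.add (Nat.add (Nat.add (Nat.add (Nat.add (Nat.add (Nat.add (Nat.add (Nat.add (Nat.add C x14703) x40947) x23451) x29283) x27339) x27987) x27771) x27879) x27807) x27843) x27831) x27823) x8143) (Nat.mul x27825 (nat_lit 3)))
    (Nat.sub (Nat.add (Nat.add (Nat.add (Nat.add (Nat.add (Nat.add (Nat.add (Nat.add (Nat.add (Nat.add (Nat.add (Nat.add (Nat.add C x14707) x40951) x23455) x29287) x27343) x27991) x27775) x27883) x27847) x27823) x27831) x47511) x8147) (Nat.mul x27829 (nat_lit 3)))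
    (Nat.sub (Nat.add (Nat.add (Nat.add (Nat.add (Nat.add (Nat.add (Nat.add (Nat.add (Nat.add (Nat.add (Nat.add (Nat.add C x14709) x40953) x23457) x29289) x27345) x27993) x27777) x27885) x27849) x27825) x27829) x8149) (Nat.mul x27831 (nat_lit 2)))
    (Nat.sub (Nat.add (Nat.add (Nat.add (Nat.add (Nat.add (Nat.add (Nat.add (Nat.add (Nat.add (Nat.add C x14717) x40961) x23465) x29297) x27353) x28001) x27893) x27821) x27841) x47521) (Nat.mul x27839 (nat_lit 3)))
    (Nat.sub (Nat.add (Nat.add (Nat.add (Nat.add (Nat.add (Nat.add (Nat.add (Nat.add (Nat.add (Nat.add (Nat.add (Nat.add (Nat.add C x14719) x40963) x23467) x29299) x27355) x28003) x27895) x27823) x27847) x27839) x27843) x47523) x8159) (Nat.mul x27841 (nat_lit 3)))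
    (Nat.sub (Nat.add (Nat.add (Nat.add (Nat.add (Nat.add (Nat.add (Nat.add (Nat.add (Nat.add (Nat.add (Nat.add C x14721) x40965) x23469) x29301) x27357) x28005) x27897) x27825) x27849) x27841) x8161) (Nat.mul x27843 (nat_lit 5)))
    (Nat.sub (Nat.add (Nat.add (Nat.add (Nat.add (Nat.add (Nat.add (Nat.add (Nat.add (Nat.add (Nat.add (Nat.add (Nat.add C x14725) x40969) x23473) x29305) x27361) x28009) x27901) x27829) x27841) x27849) x47529) x8165) (Nat.mul x27847 (nat_lit 2)))
    (Nat.sub (Nat.add (Nat.add (Nat.add (Nat.add (Nat.add (Nat.add (Nat.add (Nat.add (Nat.add (Nat.add (Nat.add (Nat.add C x14727) x40971) x23475) x29307) x27363) x28011) x27903) x27831) x27843) x27855) x27847) x8167) (Nat.mul x27849 (nat_lit 2)))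
    (Nat.sub (Nat.add (Nat.add (Nat.add (Nat.add (Nat.add (Nat.add (Nat.add (Nat.add (Nat.add C x14733) x40977) x23481) x29313) x27369) x28017) x27909) x27849) x8173) x27855)
    (Nat.sub (Nat.add (Nat.add (Nat.add (Nat.add (Nat.add (Nat.add (Nat.add (Nat.add (Nat.add (Nat.add C x14747) x40991) x23495) x29327) x27383) x28031) x27815) x27875) x27871) x47551) (Nat.mul x27869 (nat_lit 3)))
    (Nat.sub (Nat.add (Nat.add (Nat.add (Nat.add (Nat.add (Nat.add (Nat.add (Nat.add (Nat.add (Nat.add (Nat.add C x14749) x40993) x23497) x29329) x27385) x28033) x27817) x27877) x27869) x47553) x8189) (Nat.mul x27871 (nat_lit 4)))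
    (Nat.sub (Nat.add (Nat.add (Nat.add (Nat.add (Nat.add (Nat.add (Nat.add (Nat.add (Nat.add (Nat.add (Nat.add C x14753) x40997) x23501) x29333) x27389) x28037) x27821) x27893) x27869) x27877) x47557) (Nat.mul x27875 (nat_lit 5)))
    (Nat.sub (Nat.add (Nat.add (Nat.add (Nat.add (Nat.add (Nat.add (Nat.add (Nat.add (Nat.add (Nat.add (Nat.add (Nat.add (Nat.add (Nat.add C x14755) x40999) x23503) x29335) x27391) x28039) x27823) x27895) x27871) x27883) x27875) x27879) x47559) x8195) (Nat.mul x27877 (nat_lit 4)))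
    (Nat.sub (Nat.add (Nat.add (Nat.add (Nat.add (Nat.add (Nat.add (Nat.add (Nat.add (Nat.add (Nat.add (Nat.add C x14757) x41001) x23505) x29337) x27393) x28041) x27825) x27897) x27885) x27877) x8197) (Nat.mul x27879 (nat_lit 5)))
    (Nat.sub (Nat.add (Nat.add (Nat.add (Nat.add (Nat.add (Nat.add (Nat.add (Nat.add (Nat.add (Nat.add (Nat.add (Nat.add C x14761) x41005) x23509) x29341) x27397) x28045) x27829) x27901) x27877) x27885) x47565) x8201) (Nat.mul x27883 (nat_lit 6)))
    (Nat.sub (Nat.add (Nat.add (Nat.add (Nat.add (Nat.add (Nat.add (Nat.add (Nat.add (Nat.add (Nat.add (Nat.add C x14763) x41007) x23511) x29343) x27399) x28047) x27831) x27903) x27879) x27883) x8203) (Nat.mul x27885 (nat_lit 5)))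
    (Nat.sub (Nat.add (Nat.add (Nat.add (Nat.add (Nat.add (Nat.add (Nat.add (Nat.add (Nat.add (Nat.add C x14771) x41015) x23519) x29351) x27407) x28055) x27839) x27875) x27895) x47575) (Nat.mul x27893 (nat_lit 3)))
    (Nat.sub (Nat.add (Nat.add (Nat.add (Nat.add (Nat.add (Nat.add (Nat.add (Nat.add (Nat.add (Nat.add (Nat.add (Nat.add (Nat.add C x14773) x41017) x23521) x29353) x27409) x28057) x27841) x27877) x27901) x27893) x27897) x47577) x8213) (Nat.mul x27895 (nat_lit 3)))
    (Nat.sub (Nat.add (Nat.add (Nat.add (Nat.add (Nat.add (Nat.add (Nat.add (Nat.add (Nat.add (Nat.add (Nat.add C x14775) x41019) x23523) x29355) x27411) x28059) x27843) x27879) x27903) x27895) x8215) (Nat.mul x27897 (nat_lit 5)))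
    (Nat.sub (Nat.add (Nat.add (Nat.add (Nat.add (Nat.add (Nat.add (Nat.add (Nat.add (Nat.add (Nat.add (Nat.add (Nat.add (Nat.add C x14779) x41023) x23527) x29359) x27415) x28063) x27847) x27883) x27919) x27895) x27903) x47583) x8219) (Nat.mul x27901 (nat_lit 3)))
    (Nat.sub (Nat.add (Nat.add (Nat.add (Nat.add (Nat.add (Nat.add (Nat.add (Nat.add (Nat.add (Nat.add (Nat.add (Nat.add (Nat.add C x14781) x41025) x23529) x29361) x27417) x28065) x27849) x27885) x27921) x27897) x27909) x27901) x8221) (Nat.mul x27903 (nat_lit 3)))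
    (Nat.sub (Nat.add (Nat.add (Nat.add (Nat.add (Nat.add (Nat.add (Nat.add (Nat.add (Nat.add (Nat.add C x14787) x41031) x23535) x29367) x27423) x28071) x27855) x27927) x27903) x8227) (Nat.mul x27909 (nat_lit 3)))
    (Nat.sub (Nat.add (Nat.add (Nat.add (Nat.add (Nat.add (Nat.add (Nat.add (Nat.add (Nat.add (Nat.add C x14797) x41041) x23545) x29377) x27433) x28081) x27901) x27921) x47601) x8237) (Nat.mul x27919 (nat_lit 2)))
    (Nat.sub (Nat.add (Nat.add (Nat.add (Nat.add (Nat.add (Nat.add (Nat.add (Nat.add (Nat.add (Nat.add C x14799) x41043) x23547) x29379) x27435) x28083) x27903) x27927) x27919) x8239) (Nat.mul x27921 (nat_lit 3)))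
    (Nat.sub (Nat.add (Nat.add (Nat.add (Nat.add (Nat.add (Nat.add (Nat.add (Nat.add (Nat.add C x14805) x41049) x23553) x29385) x27441) x28089) x27909) x27921) x8245) x27927)
    (Nat.add (Nat.add (Nat.add (Nat.add (Nat.add (Nat.add (Nat.add (Nat.add (Nat.add C x27953) x14831) x41075) x23579) x29411) x27467) x27791) x27959) x47635)
    (Nat.add (Nat.add (Nat.add (Nat.add (Nat.add (Nat.add (Nat.add (Nat.add (Nat.add (Nat.add (Nat.add C x14837) x41081) x23585) x29417) x27473) x27797) x27977) x27953) x27965) x27961) x47641)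
    (Nat.add (Nat.add (Nat.add (Nat.add (Nat.add (Nat.add (Nat.add (Nat.add (Nat.add (Nat.add (Nat.add C x14839) x41083) x23587) x29419) x27475) x27799) x27979) x27967) x27959) x47643) x8279)
    (Nat.sub (Nat.add (Nat.add (Nat.add (Nat.add (Nat.add (Nat.add (Nat.add (Nat.add (Nat.add (Nat.add C x14843) x41087) x23591) x29423) x27479) x27803) x27983) x27959) x27967) x47647) (Nat.mul x27965 (nat_lit 3)))
    (Nat.sub (Nat.add (Nat.add (Nat.add (Nat.add (Nat.add (Nat.add (Nat.add (Nat.add (Nat.add (Nat.add (Nat.add (Nat.add C x14845) x41089) x23593) x29425) x27481) x27805) x27985) x27961) x27965) x27969) x47649) x8285) x27967)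
    (Nat.sub (Nat.add (Nat.add (Nat.add (Nat.add (Nat.add (Nat.add (Nat.add (Nat.add (Nat.add C x14847) x41091) x23595) x29427) x27483) x27807) x27987) x27967) x8287) x27969)
    (Nat.sub (Nat.add (Nat.add (Nat.add (Nat.add (Nat.add (Nat.add (Nat.add (Nat.add (Nat.add (Nat.add (Nat.add C x14855) x41099) x23603) x29435) x27491) x27815) x28031) x27959) x27983) x27979) x47659) x27977)
    (Nat.sub (Nat.add (Nat.add (Nat.add (Nat.add (Nat.add (Nat.add (Nat.add (Nat.add (Nat.add (Nat.add (Nat.add (Nat.add C x14857) x41101) x23605) x29437) x27493) x27817) x28033) x27961) x27985) x27977) x47661) x8297) (Nat.mul x27979 (nat_lit 2)))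
    (Nat.sub (Nat.add (Nat.add (Nat.add (Nat.add (Nat.add (Nat.add (Nat.add (Nat.add (Nat.add (Nat.add (Nat.add (Nat.add C x14861) x41105) x23609) x29441) x27497) x27821) x28037) x27965) x28001) x27977) x27985) x47665) (Nat.mul x27983 (nat_lit 2)))
    (Nat.sub (Nat.add (Nat.add (Nat.add (Nat.add (Nat.add (Nat.add (Nat.add (Nat.add (Nat.add (Nat.add (Nat.add (Nat.add (Nat.add (Nat.add (Nat.add C x14863) x41107) x23611) x29443) x27499) x27823) x28039) x27967) x28003) x27979) x27991) x27983) x27987) x47667) x8303) x27985)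
    (Nat.sub (Nat.add (Nat.add (Nat.add (Nat.add (Nat.add (Nat.add (Nat.add (Nat.add (Nat.add (Nat.add (Nat.add (Nat.add C x14865) x41109) x23613) x29445) x27501) x27825) x28041) x27969) x28005) x27993) x27985) x8305) (Nat.mul x27987 (nat_lit 2)))
    (Nat.sub (Nat.add (Nat.add (Nat.add (Nat.add (Nat.add (Nat.add (Nat.add (Nat.add (Nat.add (Nat.add (Nat.add (Nat.add C x14869) x41113) x23617) x29449) x27505) x27829) x28045) x28009) x27985) x27993) x47673) x8309) (Nat.mul x27991 (nat_lit 2)))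
    (Nat.sub (Nat.add (Nat.add (Nat.add (Nat.add (Nat.add (Nat.add (Nat.add (Nat.add (Nat.add (Nat.add (Nat.add C x14871) x41115) x23619) x29451) x27507) x27831) x28047) x28011) x27987) x27991) x8311) x27993)
    (Nat.sub (Nat.add (Nat.add (Nat.add (Nat.add (Nat.add (Nat.add (Nat.add (Nat.add (Nat.add (Nat.add C x14879) x41123) x23627) x29459) x27515) x27839) x28055) x27983) x28003) x47683) (Nat.mul x28001 (nat_lit 3)))
    (Nat.sub (Nat.add (Nat.add (Nat.add (Nat.add (Nat.add (Nat.add (Nat.add (Nat.add (Nat.add (Nat.add (Nat.add (Nat.add (Nat.add C x14881) x41125) x23629) x29461) x27517) x27841) x28057) x27985) x28009) x28001) x28005) x47685) x8321) (Nat.mul x28003 (nat_lit 3)))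
    (Nat.sub (Nat.add (Nat.add (Nat.add (Nat.add (Nat.add (Nat.add (Nat.add (Nat.add (Nat.add (Nat.add (Nat.add C x14883) x41127) x23631) x29463) x27519) x27843) x28059) x27987) x28011) x28003) x8323) (Nat.mul x28005 (nat_lit 5)))
    (Nat.sub (Nat.add (Nat.add (Nat.add (Nat.add (Nat.add (Nat.add (Nat.add (Nat.add (Nat.add (Nat.add (Nat.add (Nat.add C x14887) x41131) x23635) x29467) x27523) x27847) x28063) x27991) x28003) x28011) x47691) x8327) (Nat.mul x28009 (nat_lit 2)))
    (Nat.sub (Nat.add (Nat.add (Nat.add (Nat.add (Nat.add (Nat.add (Nat.add (Nat.add (Nat.add (Nat.add (Nat.add (Nat.add C x14889) x41133) x23637) x29469) x27525) x27849) x28065) x27993) x28005) x28017) x28009) x8329) (Nat.mul x28011 (nat_lit 2)))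
    (Nat.sub (Nat.add (Nat.add (Nat.add (Nat.add (Nat.add (Nat.add (Nat.add (Nat.add (Nat.add C x14895) x41139) x23643) x29475) x27531) x27855) x28071) x28011) x8335) x28017)
    (Nat.add (Nat.add (Nat.add (Nat.add (Nat.add (Nat.add (Nat.add (Nat.add (Nat.add (Nat.add (Nat.add C x14909) x41153) x23657) x29489) x27545) x27869) x28193) x27977) x28037) x28033) x47713)
    (Nat.sub (Nat.add (Nat.add (Nat.add (Nat.add (Nat.add (Nat.add (Nat.add (Nat.add (Nat.add (Nat.add (Nat.add (Nat.add C x14911) x41155) x23659) x29491) x27547) x27871) x28195) x27979) x28039) x28031) x47715) x8351) x28033)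
    (Nat.sub (Nat.add (Nat.add (Nat.add (Nat.add (Nat.add (Nat.add (Nat.add (Nat.add (Nat.add (Nat.add (Nat.add (Nat.add C x14915) x41159) x23663) x29495) x27551) x27875) x28199) x27983) x28055) x28031) x28039) x47719) (Nat.mul x28037 (nat_lit 2)))
    (Nat.sub (Nat.add (Nat.add (Nat.add (Nat.add (Nat.add (Nat.add (Nat.add (Nat.add (Nat.add (Nat.add (Nat.add (Nat.add (Nat.add (Nat.add (Nat.add C x14917) x41161) x23665) x29497) x27553) x27877) x28201) x27985) x28057) x28033) x28045) x28037) x28041) x47721) x8357) x28039)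
    (Nat.sub (Nat.add (Nat.add (Nat.add (Nat.add (Nat.add (Nat.add (Nat.add (Nat.add (Nat.add (Nat.add (Nat.add (Nat.add C x14919) x41163) x23667) x29499) x27555) x27879) x28203) x27987) x28059) x28047) x28039) x8359) (Nat.mul x28041 (nat_lit 2)))
    (Nat.sub (Nat.add (Nat.add (Nat.add (Nat.add (Nat.add (Nat.add (Nat.add (Nat.add (Nat.add (Nat.add (Nat.add (Nat.add (Nat.add C x14923) x41167) x23671) x29503) x27559) x27883) x28207) x27991) x28063) x28039) x28047) x47727) x8363) (Nat.mul x28045 (nat_lit 3)))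
    (Nat.sub (Nat.add (Nat.add (Nat.add (Nat.add (Nat.add (Nat.add (Nat.add (Nat.add (Nat.add (Nat.add (Nat.add (Nat.add C x14925) x41169) x23673) x29505) x27561) x27885) x28209) x27993) x28065) x28041) x28045) x8365) (Nat.mul x28047 (nat_lit 2)))
    (Nat.sub (Nat.add (Nat.add (Nat.add (Nat.add (Nat.add (Nat.add (Nat.add (Nat.add (Nat.add (Nat.add (Nat.add (Nat.add C x14933) x41177) x23681) x29513) x27569) x27893) x28217) x28001) x28109) x28037) x28057) x47737) x28055)
    (Nat.sub (Nat.add (Nat.add (Nat.add (Nat.add (Nat.add (Nat.add (Nat.add (Nat.add (Nat.add (Nat.add (Nat.add (Nat.add (Nat.add (Nat.add (Nat.add C x14935) x41179) x23683) x29515) x27571) x27895) x28219) x28003) x28111) x28039) x28063) x28055) x28059) x47739) x8375) x28057)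
    (Nat.sub (Nat.add (Nat.add (Nat.add (Nat.add (Nat.add (Nat.add (Nat.add (Nat.add (Nat.add (Nat.add (Nat.add (Nat.add (Nat.add C x14937) x41181) x23685) x29517) x27573) x27897) x28221) x28005) x28113) x28041) x28065) x28057) x8377) (Nat.mul x28059 (nat_lit 3)))
    (Nat.sub (Nat.add (Nat.add (Nat.add (Nat.add (Nat.add (Nat.add (Nat.add (Nat.add (Nat.add (Nat.add (Nat.add (Nat.add (Nat.add (Nat.add (Nat.add C x14941) x41185) x23689) x29521) x27577) x27901) x28225) x28009) x28117) x28045) x28081) x28057) x28065) x47745) x8381) x28063)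
    (Nat.sub (Nat.add (Nat.add (Nat.add (Nat.add (Nat.add (Nat.add (Nat.add (Nat.add (Nat.add (Nat.add (Nat.add (Nat.add (Nat.add (Nat.add (Nat.add C x14943) x41187) x23691) x29523) x27579) x27903) x28227) x28011) x28119) x28047) x28083) x28059) x28071) x28063) x8383) x28065)
    (Nat.sub (Nat.add (Nat.add (Nat.add (Nat.add (Nat.add (Nat.add (Nat.add (Nat.add (Nat.add (Nat.add (Nat.add (Nat.add C x14949) x41193) x23697) x29529) x27585) x27909) x28233) x28017) x28125) x28089) x28065) x8389) x28071)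
    (Nat.sub (Nat.add (Nat.add (Nat.add (Nat.add (Nat.add (Nat.add (Nat.add (Nat.add (Nat.add (Nat.add (Nat.add (Nat.add C x14959) x41203) x23707) x29539) x27595) x27919) x28243) x28135) x28063) x28083) x47763) x8399) x28081)
    (Nat.sub (Nat.add (Nat.add (Nat.add (Nat.add (Nat.add (Nat.add (Nat.add (Nat.add (Nat.add (Nat.add (Nat.add (Nat.add C x14961) x41205) x23709) x29541) x27597) x27921) x28245) x28137) x28065) x28089) x28081) x8401) (Nat.mul x28083 (nat_lit 2)))
    (Nat.add (Nat.add (Nat.add (Nat.add (Nat.add (Nat.add (Nat.add (Nat.add (Nat.add (Nat.add (Nat.add C x14967) x41211) x23715) x29547) x27603) x27927) x28251) x28143) x28071) x28083) x8407)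
    (Nat.sub (Nat.add (Nat.add (Nat.add (Nat.add (Nat.add (Nat.add (Nat.add (Nat.add (Nat.add C x14987) x41231) x23735) x29567) x27623) x28271) x28055) x28111) x47791) x28109)
    (Nat.sub (Nat.add (Nat.add (Nat.add (Nat.add (Nat.add (Nat.add (Nat.add (Nat.add (Nat.add (Nat.add (Nat.add (Nat.add C x14989) x41233) x23737) x29569) x27625) x28273) x28057) x28117) x28109) x28113) x47793) x8429) x28111)
    (Nat.sub (Nat.add (Nat.add (Nat.add (Nat.add (Nat.add (Nat.add (Nat.add (Nat.add (Nat.add (Nat.add C x14991) x41235) x23739) x29571) x27627) x28275) x28059) x28119) x28111) x8431) (Nat.mul x28113 (nat_lit 3)))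
    (Nat.sub (Nat.add (Nat.add (Nat.add (Nat.add (Nat.add (Nat.add (Nat.add (Nat.add (Nat.add (Nat.add (Nat.add (Nat.add C x14995) x41239) x23743) x29575) x27631) x28279) x28063) x28135) x28111) x28119) x47799) x8435) (Nat.mul x28117 (nat_lit 2)))
    (Nat.sub (Nat.add (Nat.add (Nat.add (Nat.add (Nat.add (Nat.add (Nat.add (Nat.add (Nat.add (Nat.add (Nat.add (Nat.add C x14997) x41241) x23745) x29577) x27633) x28281) x28065) x28137) x28113) x28125) x28117) x8437) (Nat.mul x28119 (nat_lit 2)))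
    (Nat.sub (Nat.add (Nat.add (Nat.add (Nat.add (Nat.add (Nat.add (Nat.add (Nat.add (Nat.add (Nat.add C x15003) x41247) x23751) x29583) x27639) x28287) x28071) x28143) x28119) x8443) (Nat.mul x28125 (nat_lit 3)))
    (Nat.add (Nat.add (Nat.add (Nat.add (Nat.add (Nat.add (Nat.add (Nat.add (Nat.add (Nat.add (Nat.add C x15013) x41257) x23761) x29593) x27649) x28297) x28081) x28117) x28137) x47817) x8453)
    (Nat.sub (Nat.add (Nat.add (Nat.add (Nat.add (Nat.add (Nat.add (Nat.add (Nat.add (Nat.add (Nat.add (Nat.add C x15015) x41259) x23763) x29595) x27651) x28299) x28083) x28119) x28143) x28135) x8455) x28137)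
    (Nat.add (Nat.add (Nat.add (Nat.add (Nat.add (Nat.add (Nat.add (Nat.add (Nat.add (Nat.add (Nat.add C x15021) x41265) x23769) x29601) x27657) x28305) x28089) x28125) x28161) x28137) x8461)
    (Nat.add (Nat.add (Nat.add (Nat.add (Nat.add (Nat.add (Nat.add (Nat.add (Nat.add C x28161) x15039) x41283) x23787) x29619) x27675) x28323) x28143) x8479)
    (Nat.add (Nat.add (Nat.add (Nat.add (Nat.add (Nat.add (Nat.add (Nat.add (Nat.add C x28193) x15071) x41315) x23819) x29651) x28031) x28199) x28195) x47875)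
    (Nat.add (Nat.add (Nat.add (Nat.add (Nat.add (Nat.add (Nat.add (Nat.add (Nat.add C x15073) x41317) x23821) x29653) x28033) x28201) x28193) x47877) x8513)
    (Nat.sub (Nat.add (Nat.add (Nat.add (Nat.add (Nat.add (Nat.add (Nat.add (Nat.add (Nat.add C x15077) x41321) x23825) x29657) x28037) x28217) x28193) x28201) x47881) x28199)
    (Nat.add (Nat.add (Nat.add (Nat.add (Nat.add (Nat.add (Nat.add (Nat.add (Nat.add (Nat.add (Nat.add (Nat.add C x15079) x41323) x23827) x29659) x28039) x28219) x28195) x28207) x28199) x28203) x47883) x8519)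
    (Nat.sub (Nat.add (Nat.add (Nat.add (Nat.add (Nat.add (Nat.add (Nat.add (Nat.add (Nat.add C x15081) x41325) x23829) x29661) x28041) x28221) x28209) x28201) x8521) x28203)
    (Nat.sub (Nat.add (Nat.add (Nat.add (Nat.add (Nat.add (Nat.add (Nat.add (Nat.add (Nat.add (Nat.add C x15085) x41329) x23833) x29665) x28045) x28225) x28201) x28209) x47889) x8525) (Nat.mul x28207 (nat_lit 2)))
    (Nat.sub (Nat.add (Nat.add (Nat.add (Nat.add (Nat.add (Nat.add (Nat.add (Nat.add (Nat.add C x15087) x41331) x23835) x29667) x28047) x28227) x28203) x28207) x8527) x28209)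
    (Nat.sub (Nat.add (Nat.add (Nat.add (Nat.add (Nat.add (Nat.add (Nat.add (Nat.add (Nat.add C x15095) x41339) x23843) x29675) x28055) x28271) x28199) x28219) x47899) x28217)
    (Nat.sub (Nat.add (Nat.add (Nat.add (Nat.add (Nat.add (Nat.add (Nat.add (Nat.add (Nat.add (Nat.add (Nat.add (Nat.add C x15097) x41341) x23845) x29677) x28057) x28273) x28201) x28225) x28217) x28221) x47901) x8537) x28219)
    (Nat.sub (Nat.add (Nat.add (Nat.add (Nat.add (Nat.add (Nat.add (Nat.add (Nat.add (Nat.add (Nat.add C x15099) x41343) x23847) x29679) x28059) x28275) x28203) x28227) x28219) x8539) (Nat.mul x28221 (nat_lit 3)))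
    (Nat.sub (Nat.add (Nat.add (Nat.add (Nat.add (Nat.add (Nat.add (Nat.add (Nat.add (Nat.add (Nat.add (Nat.add (Nat.add C x15103) x41347) x23851) x29683) x28063) x28279) x28207) x28243) x28219) x28227) x47907) x8543) x28225)
    (Nat.sub (Nat.add (Nat.add (Nat.add (Nat.add (Nat.add (Nat.add (Nat.add (Nat.add (Nat.add (Nat.add (Nat.add (Nat.add C x15105) x41349) x23853) x29685) x28065) x28281) x28209) x28245) x28221) x28233) x28225) x8545) x28227)
    (Nat.sub (Nat.add (Nat.add (Nat.add (Nat.add (Nat.add (Nat.add (Nat.add (Nat.add (Nat.add C x15111) x41355) x23859) x29691) x28071) x28287) x28251) x28227) x8551) x28233)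
    (Nat.sub (Nat.add (Nat.add (Nat.add (Nat.add (Nat.add (Nat.add (Nat.add (Nat.add (Nat.add (Nat.add C x15121) x41365) x23869) x29701) x28081) x28297) x28225) x28245) x47925) x8561) (Nat.mul x28243 (nat_lit 2)))
    (Nat.sub (Nat.add (Nat.add (Nat.add (Nat.add (Nat.add (Nat.add (Nat.add (Nat.add (Nat.add (Nat.add C x15123) x41367) x23871) x29703) x28083) x28299) x28227) x28251) x28243) x8563) (Nat.mul x28245 (nat_lit 3)))
    (Nat.sub (Nat.add (Nat.add (Nat.add (Nat.add (Nat.add (Nat.add (Nat.add (Nat.add (Nat.add C x15129) x41373) x23877) x29709) x28089) x28305) x28233) x28245) x8569) x28251)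
    (Nat.add (Nat.add (Nat.add (Nat.add (Nat.add (Nat.add (Nat.add (Nat.add (Nat.add C x28271) x15149) x41393) x23897) x29729) x28109) x28217) x28273) x47953)
    (Nat.add (Nat.add (Nat.add (Nat.add (Nat.add (Nat.add (Nat.add (Nat.add (Nat.add (Nat.add (Nat.add (Nat.add C x28273) x15151) x41395) x23899) x29731) x28111) x28219) x28279) x28271) x28275) x47955) x8591)
    (Nat.sub (Nat.add (Nat.add (Nat.add (Nat.add (Nat.add (Nat.add (Nat.add (Nat.add (Nat.add C x15153) x41397) x23901) x29733) x28113) x28221) x28281) x28273) x8593) x28275)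
    (Nat.add (Nat.add (Nat.add (Nat.add (Nat.add (Nat.add (Nat.add (Nat.add (Nat.add (Nat.add (Nat.add C x15157) x41401) x23905) x29737) x28117) x28225) x28297) x28273) x28281) x47961) x8597)
    (Nat.add (Nat.add (Nat.add (Nat.add (Nat.add (Nat.add (Nat.add (Nat.add (Nat.add (Nat.add (Nat.add C x15159) x41403) x23907) x29739) x28119) x28227) x28299) x28275) x28287) x28279) x8599)
    (Nat.sub (Nat.add (Nat.add (Nat.add (Nat.add (Nat.add (Nat.add (Nat.add (Nat.add (Nat.add C x15165) x41409) x23913) x29745) x28125) x28233) x28305) x28281) x8605) x28287)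
    (Nat.add (Nat.add (Nat.add (Nat.add (Nat.add (Nat.add (Nat.add (Nat.add (Nat.add (Nat.add (Nat.add (Nat.add C x28297) x15175) x41419) x23923) x29755) x28135) x28243) x28351) x28279) x28299) x47979) x8615)
    (Nat.add (Nat.add (Nat.add (Nat.add (Nat.add (Nat.add (Nat.add (Nat.add (Nat.add (Nat.add (Nat.add C x15177) x41421) x23925) x29757) x28137) x28245) x28353) x28281) x28305) x28297) x8617)
    (Nat.add (Nat.add (Nat.add (Nat.add (Nat.add (Nat.add (Nat.add (Nat.add (Nat.add (Nat.add (Nat.add (Nat.add C x28305) x15183) x41427) x23931) x29763) x28143) x28251) x28359) x28287) x28323) x28299) x8623)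
    (Nat.add (Nat.add (Nat.add (Nat.add (Nat.add (Nat.add (Nat.add (Nat.add (Nat.add C x28323) x15201) x41445) x23949) x29781) x28161) x28377) x28305) x8641)
    (Nat.add (Nat.add (Nat.add (Nat.add (Nat.add (Nat.add (Nat.add (Nat.add (Nat.add C (Nat.mul x28351 (nat_lit 2))) x15229) x41473) x23977) x29809) x28297) x28353) x48033) x8669)
    (Nat.add (Nat.add (Nat.add (Nat.add (Nat.add (Nat.add (Nat.add (Nat.add (Nat.add C x28353) x15231) x41475) x23979) x29811) x28299) x28359) x28351) x8671)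
    (Nat.add (Nat.add (Nat.add (Nat.add (Nat.add (Nat.add (Nat.add (Nat.add (Nat.add C x28359) x15237) x41481) x23985) x29817) x28305) x28377) x28353) x8677)
    (Nat.add (Nat.add (Nat.add (Nat.add (Nat.add (Nat.add (Nat.add (Nat.add C (Nat.mul x28377 (nat_lit 3))) x15255) x41499) x24003) x29835) x28323) x28359) x8695)
    (Nat.add (Nat.add (Nat.add (Nat.add (Nat.add (Nat.add (Nat.add (Nat.add C (Nat.mul x28457 (nat_lit 4))) x15335) x41579) x24083) x32831) x26999) x28475) x48139)
    (Nat.add (Nat.add (Nat.add (Nat.add (Nat.add (Nat.add (Nat.add (Nat.add (Nat.add (Nat.add (Nat.add C (Nat.mul x28475 (nat_lit 3))) x15353) x41597) x24101) x32849) x27017) x28529) x28457) x28493) x28481) x48157)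
    (Nat.add (Nat.add (Nat.add (Nat.add (Nat.add (Nat.add (Nat.add (Nat.add (Nat.add (Nat.add (Nat.add C (Nat.mul x28481 (nat_lit 2))) x15359) x41603) x24107) x32855) x27023) x28535) x28499) x28475) x28483) x48163)
    (Nat.add (Nat.add (Nat.add (Nat.add (Nat.add (Nat.add (Nat.add (Nat.add (Nat.add (Nat.add (Nat.add C (Nat.mul x28483 (nat_lit 3))) x15361) x41605) x24109) x32857) x27025) x28537) x28501) x28481) x48165) x8801)
    (Nat.add (Nat.add (Nat.add (Nat.add (Nat.add (Nat.add (Nat.add (Nat.add (Nat.add C x15371) x41615) x24119) x32867) x27035) x28547) x28475) x28499) x48175)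
    (Nat.add (Nat.add (Nat.add (Nat.add (Nat.add (Nat.add (Nat.add (Nat.add (Nat.add (Nat.add (Nat.add (Nat.add C x28499) x15377) x41621) x24125) x32873) x27041) x28553) x28481) x28493) x28505) x28501) x48181)
    (Nat.add (Nat.add (Nat.add (Nat.add (Nat.add (Nat.add (Nat.add (Nat.add (Nat.add (Nat.add (Nat.add (Nat.add C x28501) x15379) x41623) x24127) x32875) x27043) x28555) x28483) x28507) x28499) x48183) x8819)
    (Nat.add (Nat.add (Nat.add (Nat.add (Nat.add (Nat.add (Nat.add (Nat.add (Nat.add C x15383) x41627) x24131) x32879) x27047) x28559) x28499) x28507) x48187)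
    (Nat.add (Nat.add (Nat.add (Nat.add (Nat.add (Nat.add (Nat.add (Nat.add (Nat.add (Nat.add (Nat.add (Nat.add C (Nat.mul x28507 (nat_lit 2))) x15385) x41629) x24133) x32881) x27049) x28561) x28501) x28505) x28509) x48189) x8825)
    (Nat.add (Nat.add (Nat.add (Nat.add (Nat.add (Nat.add (Nat.add (Nat.add (Nat.add C (Nat.mul x28509 (nat_lit 2))) x15387) x41631) x24135) x32883) x27051) x28563) x28507) x8827)
    (Nat.add (Nat.add (Nat.add (Nat.add (Nat.add (Nat.add (Nat.add (Nat.add (Nat.add (Nat.add (Nat.add C (Nat.mul x28529 (nat_lit 2))) x15407) x41651) x24155) x32903) x27071) x28691) x28475) x28547) x28535) x48211)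
    (Nat.add (Nat.add (Nat.add (Nat.add (Nat.add (Nat.add (Nat.add (Nat.add (Nat.add (Nat.add (Nat.add C x15413) x41657) x24161) x32909) x27077) x28697) x28481) x28553) x28529) x28537) x48217)
    (Nat.add (Nat.add (Nat.add (Nat.add (Nat.add (Nat.add (Nat.add (Nat.add (Nat.add (Nat.add (Nat.add (Nat.add C x28537) x15415) x41659) x24163) x32911) x27079) x28699) x28483) x28555) x28535) x48219) x8855)
    (Nat.add (Nat.add (Nat.add (Nat.add (Nat.add (Nat.add (Nat.add (Nat.add (Nat.add (Nat.add (Nat.add (Nat.add C x28547) x15425) x41669) x24173) x32921) x27089) x28709) x28493) x28601) x28529) x28553) x48229)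
    (Nat.add (Nat.add (Nat.add (Nat.add (Nat.add (Nat.add (Nat.add (Nat.add (Nat.add (Nat.add (Nat.add (Nat.add (Nat.add (Nat.add (Nat.add C x28553) x15431) x41675) x24179) x32927) x27095) x28715) x28499) x28607) x28535) x28571) x28547) x28559) x28555) x48235)
    (Nat.add (Nat.add (Nat.add (Nat.add (Nat.add (Nat.add (Nat.add (Nat.add (Nat.add (Nat.add (Nat.add (Nat.add (Nat.add (Nat.add (Nat.add C x28555) x15433) x41677) x24181) x32929) x27097) x28717) x28501) x28609) x28537) x28573) x28561) x28553) x48237) x8873)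
    (Nat.sub (Nat.add (Nat.add (Nat.add (Nat.add (Nat.add (Nat.add (Nat.add (Nat.add (Nat.add (Nat.add (Nat.add (Nat.add C x15437) x41681) x24185) x32933) x27101) x28721) x28505) x28613) x28577) x28553) x28561) x48241) x28559)
    (Nat.add (Nat.add (Nat.add (Nat.add (Nat.add (Nat.add (Nat.add (Nat.add (Nat.add (Nat.add (Nat.add (Nat.add (Nat.add (Nat.add (Nat.add C x28561) x15439) x41683) x24187) x32935) x27103) x28723) x28507) x28615) x28579) x28555) x28559) x28563) x48243) x8879)
    (Nat.add (Nat.add (Nat.add (Nat.add (Nat.add (Nat.add (Nat.add (Nat.add (Nat.add (Nat.add (Nat.add (Nat.add C x28563) x15441) x41685) x24189) x32937) x27105) x28725) x28509) x28617) x28581) x28561) x8881)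
    (Nat.add (Nat.add (Nat.add (Nat.add (Nat.add (Nat.add (Nat.add (Nat.add (Nat.add (Nat.add (Nat.add C x15449) x41693) x24197) x32945) x27113) x28733) x28625) x28553) x28577) x28573) x48253)
    (Nat.sub (Nat.add (Nat.add (Nat.add (Nat.add (Nat.add (Nat.add (Nat.add (Nat.add (Nat.add (Nat.add (Nat.add (Nat.add C x15451) x41695) x24199) x32947) x27115) x28735) x28627) x28555) x28579) x28571) x48255) x8891) x28573)
    (Nat.add (Nat.add (Nat.add (Nat.add (Nat.add (Nat.add (Nat.add (Nat.add (Nat.add (Nat.add (Nat.add C x15455) x41699) x24203) x32951) x27119) x28739) x28631) x28559) x28571) x28579) x48259)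
    (Nat.add (Nat.add (Nat.add (Nat.add (Nat.add (Nat.add (Nat.add (Nat.add (Nat.add (Nat.add (Nat.add (Nat.add (Nat.add (Nat.add (Nat.add C x28579) x15457) x41701) x24205) x32953) x27121) x28741) x28633) x28561) x28573) x28585) x28577) x28581) x48261) x8897)
    (Nat.add (Nat.add (Nat.add (Nat.add (Nat.add (Nat.add (Nat.add (Nat.add (Nat.add (Nat.add (Nat.add C x15459) x41703) x24207) x32955) x27123) x28743) x28635) x28563) x28587) x28579) x8899)
    (Nat.add (Nat.add (Nat.add (Nat.add (Nat.add (Nat.add (Nat.add (Nat.add (Nat.add (Nat.add (Nat.add (Nat.add C x28585) x15463) x41707) x24211) x32959) x27127) x28747) x28639) x28579) x28587) x48267) x8903)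
    (Nat.add (Nat.add (Nat.add (Nat.add (Nat.add (Nat.add (Nat.add (Nat.add (Nat.add (Nat.add (Nat.add C (Nat.mul x28587 (nat_lit 2))) x15465) x41709) x24213) x32961) x27129) x28749) x28641) x28581) x28585) x8905)
    (Nat.add (Nat.add (Nat.add (Nat.add (Nat.add (Nat.add (Nat.add (Nat.add (Nat.add C x15479) x41723) x24227) x32975) x27143) x28763) x28547) x28607) x48283)
    (Nat.sub (Nat.add (Nat.add (Nat.add (Nat.add (Nat.add (Nat.add (Nat.add (Nat.add (Nat.add (Nat.add (Nat.add (Nat.add C x15485) x41729) x24233) x32981) x27149) x28769) x28553) x28625) x28601) x28613) x28609) x48289) x28607)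
    (Nat.sub (Nat.add (Nat.add (Nat.add (Nat.add (Nat.add (Nat.add (Nat.add (Nat.add (Nat.add (Nat.add (Nat.add (Nat.add C x15487) x41731) x24235) x32983) x27151) x28771) x28555) x28627) x28615) x28607) x48291) x8927) x28609)
    (Nat.sub (Nat.add (Nat.add (Nat.add (Nat.add (Nat.add (Nat.add (Nat.add (Nat.add (Nat.add (Nat.add (Nat.add C x15491) x41735) x24239) x32987) x27155) x28775) x28559) x28631) x28607) x28615) x48295) (Nat.mul x28613 (nat_lit 4)))
    (Nat.sub (Nat.add (Nat.add (Nat.add (Nat.add (Nat.add (Nat.add (Nat.add (Nat.add (Nat.add (Nat.add (Nat.add (Nat.add (Nat.add C x15493) x41737) x24241) x32989) x27157) x28777) x28561) x28633) x28609) x28613) x28617) x48297) x8933) (Nat.mul x28615 (nat_lit 2)))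
    (Nat.sub (Nat.add (Nat.add (Nat.add (Nat.add (Nat.add (Nat.add (Nat.add (Nat.add (Nat.add (Nat.add C x15495) x41739) x24243) x32991) x27159) x28779) x28563) x28635) x28615) x8935) (Nat.mul x28617 (nat_lit 2)))
    (Nat.add (Nat.add (Nat.add (Nat.add (Nat.add (Nat.add (Nat.add (Nat.add (Nat.add (Nat.add (Nat.add C x15503) x41747) x24251) x32999) x27167) x28787) x28571) x28607) x28631) x28627) x48307)
    (Nat.sub (Nat.add (Nat.add (Nat.add (Nat.add (Nat.add (Nat.add (Nat.add (Nat.add (Nat.add (Nat.add (Nat.add (Nat.add C x15505) x41749) x24253) x33001) x27169) x28789) x28573) x28609) x28633) x28625) x48309) x8945) x28627)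
    (Nat.sub (Nat.add (Nat.add (Nat.add (Nat.add (Nat.add (Nat.add (Nat.add (Nat.add (Nat.add (Nat.add (Nat.add (Nat.add C x15509) x41753) x24257) x33005) x27173) x28793) x28577) x28613) x28649) x28625) x28633) x48313) x28631)
    (Nat.add (Nat.add (Nat.add (Nat.add (Nat.add (Nat.add (Nat.add (Nat.add (Nat.add (Nat.add (Nat.add (Nat.add (Nat.add (Nat.add (Nat.add C x15511) x41755) x24259) x33007) x27175) x28795) x28579) x28615) x28651) x28627) x28639) x28631) x28635) x48315) x8951)
    (Nat.sub (Nat.add (Nat.add (Nat.add (Nat.add (Nat.add (Nat.add (Nat.add (Nat.add (Nat.add (Nat.add (Nat.add (Nat.add C x15513) x41757) x24261) x33009) x27177) x28797) x28581) x28617) x28653) x28641) x28633) x8953) x28635)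
    (Nat.sub (Nat.add (Nat.add (Nat.add (Nat.add (Nat.add (Nat.add (Nat.add (Nat.add (Nat.add (Nat.add (Nat.add (Nat.add C x15517) x41761) x24265) x33013) x27181) x28801) x28585) x28657) x28633) x28641) x48321) x8957) x28639)
    (Nat.add (Nat.add (Nat.add (Nat.add (Nat.add (Nat.add (Nat.add (Nat.add (Nat.add (Nat.add (Nat.add C x15519) x41763) x24267) x33015) x27183) x28803) x28587) x28659) x28635) x28639) x8959)
    (Nat.add (Nat.add (Nat.add (Nat.add (Nat.add (Nat.add (Nat.add (Nat.add (Nat.add C x15527) x41771) x24275) x33023) x27191) x28811) x28631) x28651) x48331)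
    (Nat.add (Nat.add (Nat.add (Nat.add (Nat.add (Nat.add (Nat.add (Nat.add (Nat.add (Nat.add (Nat.add (Nat.add C x15529) x41773) x24277) x33025) x27193) x28813) x28633) x28657) x28649) x28653) x48333) x8969)
    (Nat.sub (Nat.add (Nat.add (Nat.add (Nat.add (Nat.add (Nat.add (Nat.add (Nat.add (Nat.add (Nat.add C x15531) x41775) x24279) x33027) x27195) x28815) x28635) x28659) x28651) x8971) (Nat.mul x28653 (nat_lit 2)))
    (Nat.add (Nat.add (Nat.add (Nat.add (Nat.add (Nat.add (Nat.add (Nat.add (Nat.add (Nat.add (Nat.add (Nat.add C x28657) x15535) x41779) x24283) x33031) x27199) x28819) x28639) x28651) x28659) x48339) x8975)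
    (Nat.add (Nat.add (Nat.add (Nat.add (Nat.add (Nat.add (Nat.add (Nat.add (Nat.add (Nat.add (Nat.add (Nat.add C x28659) x15537) x41781) x24285) x33033) x27201) x28821) x28641) x28653) x28665) x28657) x8977)
    (Nat.add (Nat.add (Nat.add (Nat.add (Nat.add (Nat.add (Nat.add (Nat.add (Nat.add C (Nat.mul x28665 (nat_lit 2))) x15543) x41787) x24291) x33039) x27207) x28827) x28659) x8983)
    (Nat.add (Nat.add (Nat.add (Nat.add (Nat.add (Nat.add (Nat.add (Nat.add (Nat.add (Nat.add (Nat.add C (Nat.mul x28691 (nat_lit 2))) x15569) x41813) x24317) x33065) x27233) x29177) x28529) x28709) x28697) x48373)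
    (Nat.add (Nat.add (Nat.add (Nat.add (Nat.add (Nat.add (Nat.add (Nat.add (Nat.add (Nat.add (Nat.add C x15575) x41819) x24323) x33071) x27239) x29183) x28535) x28715) x28691) x28699) x48379)
    (Nat.add (Nat.add (Nat.add (Nat.add (Nat.add (Nat.add (Nat.add (Nat.add (Nat.add (Nat.add (Nat.add (Nat.add C x28699) x15577) x41821) x24325) x33073) x27241) x29185) x28537) x28717) x28697) x48381) x9017)
    (Nat.add (Nat.add (Nat.add (Nat.add (Nat.add (Nat.add (Nat.add (Nat.add (Nat.add (Nat.add (Nat.add C x15587) x41831) x24335) x33083) x27251) x29195) x28547) x28763) x28691) x28715) x48391)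
    (Nat.add (Nat.add (Nat.add (Nat.add (Nat.add (Nat.add (Nat.add (Nat.add (Nat.add (Nat.add (Nat.add (Nat.add (Nat.add (Nat.add C x15593) x41837) x24341) x33089) x27257) x29201) x28553) x28769) x28697) x28733) x28709) x28721) x28717) x48397)
    (Nat.add (Nat.add (Nat.add (Nat.add (Nat.add (Nat.add (Nat.add (Nat.add (Nat.add (Nat.add (Nat.add (Nat.add (Nat.add (Nat.add C x15595) x41839) x24343) x33091) x27259) x29203) x28555) x28771) x28699) x28735) x28723) x28715) x48399) x9035)
    (Nat.sub (Nat.add (Nat.add (Nat.add (Nat.add (Nat.add (Nat.add (Nat.add (Nat.add (Nat.add (Nat.add (Nat.add (Nat.add C x15599) x41843) x24347) x33095) x27263) x29207) x28559) x28775) x28739) x28715) x28723) x48403) (Nat.mul x28721 (nat_lit 2)))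
    (Nat.add (Nat.add (Nat.add (Nat.add (Nat.add (Nat.add (Nat.add (Nat.add (Nat.add (Nat.add (Nat.add (Nat.add (Nat.add (Nat.add C x15601) x41845) x24349) x33097) x27265) x29209) x28561) x28777) x28741) x28717) x28721) x28725) x48405) x9041)
    (Nat.add (Nat.add (Nat.add (Nat.add (Nat.add (Nat.add (Nat.add (Nat.add (Nat.add (Nat.add (Nat.add C x15603) x41847) x24351) x33099) x27267) x29211) x28563) x28779) x28743) x28723) x9043)
    (Nat.sub (Nat.add (Nat.add (Nat.add (Nat.add (Nat.add (Nat.add (Nat.add (Nat.add (Nat.add (Nat.add (Nat.add (Nat.add C x15611) x41855) x24359) x33107) x27275) x29219) x28571) x28787) x28715) x28739) x28735) x48415) (Nat.mul x28733 (nat_lit 2)))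
    (Nat.sub (Nat.add (Nat.add (Nat.add (Nat.add (Nat.add (Nat.add (Nat.add (Nat.add (Nat.add (Nat.add (Nat.add (Nat.add (Nat.add C x15613) x41857) x24361) x33109) x27277) x29221) x28573) x28789) x28717) x28741) x28733) x48417) x9053) (Nat.mul x28735 (nat_lit 3)))
    (Nat.sub (Nat.add (Nat.add (Nat.add (Nat.add (Nat.add (Nat.add (Nat.add (Nat.add (Nat.add (Nat.add (Nat.add (Nat.add C x15617) x41861) x24365) x33113) x27281) x29225) x28577) x28793) x28721) x28733) x28741) x48421) (Nat.mul x28739 (nat_lit 2)))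
    (Nat.sub (Nat.add (Nat.add (Nat.add (Nat.add (Nat.add (Nat.add (Nat.add (Nat.add (Nat.add (Nat.add (Nat.add (Nat.add (Nat.add (Nat.add (Nat.add C x15619) x41863) x24367) x33115) x27283) x29227) x28579) x28795) x28723) x28735) x28747) x28739) x28743) x48423) x9059) x28741)
    (Nat.sub (Nat.add (Nat.add (Nat.add (Nat.add (Nat.add (Nat.add (Nat.add (Nat.add (Nat.add (Nat.add (Nat.add (Nat.add C x15621) x41865) x24369) x33117) x27285) x29229) x28581) x28797) x28725) x28749) x28741) x9061) (Nat.mul x28743 (nat_lit 2)))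
    (Nat.sub (Nat.add (Nat.add (Nat.add (Nat.add (Nat.add (Nat.add (Nat.add (Nat.add (Nat.add (Nat.add (Nat.add (Nat.add C x15625) x41869) x24373) x33121) x27289) x29233) x28585) x28801) x28741) x28749) x48429) x9065) x28747)
    (Nat.add (Nat.add (Nat.add (Nat.add (Nat.add (Nat.add (Nat.add (Nat.add (Nat.add (Nat.add (Nat.add C x15627) x41871) x24375) x33123) x27291) x29235) x28587) x28803) x28743) x28747) x9067)
    (Nat.add (Nat.add (Nat.add (Nat.add (Nat.add (Nat.add (Nat.add (Nat.add (Nat.add (Nat.add (Nat.add (Nat.add C x28763) x15641) x41885) x24389) x33137) x27305) x29249) x28601) x28925) x28709) x28769) x48445)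
    (Nat.add (Nat.add (Nat.add (Nat.add (Nat.add (Nat.add (Nat.add (Nat.add (Nat.add (Nat.add (Nat.add (Nat.add (Nat.add (Nat.add C x15647) x41891) x24395) x33143) x27311) x29255) x28607) x28931) x28715) x28787) x28763) x28775) x28771) x48451)
    (Nat.add (Nat.add (Nat.add (Nat.add (Nat.add (Nat.add (Nat.add (Nat.add (Nat.add (Nat.add (Nat.add (Nat.add (Nat.add (Nat.add C x15649) x41893) x24397) x33145) x27313) x29257) x28609) x28933) x28717) x28789) x28777) x28769) x48453) x9089)
    (Nat.sub (Nat.add (Nat.add (Nat.add (Nat.add (Nat.add (Nat.add (Nat.add (Nat.add (Nat.add (Nat.add (Nat.add (Nat.add (Nat.add C x15653) x41897) x24401) x33149) x27317) x29261) x28613) x28937) x28721) x28793) x28769) x28777) x48457) (Nat.mul x28775 (nat_lit 3)))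
    (Nat.sub (Nat.add (Nat.add (Nat.add (Nat.add (Nat.add (Nat.add (Nat.add (Nat.add (Nat.add (Nat.add (Nat.add (Nat.add (Nat.add (Nat.add (Nat.add C x15655) x41899) x24403) x33151) x27319) x29263) x28615) x28939) x28723) x28795) x28771) x28775) x28779) x48459) x9095) x28777)
    (Nat.sub (Nat.add (Nat.add (Nat.add (Nat.add (Nat.add (Nat.add (Nat.add (Nat.add (Nat.add (Nat.add (Nat.add (Nat.add C x15657) x41901) x24405) x33153) x27321) x29265) x28617) x28941) x28725) x28797) x28777) x9097) x28779)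
    (Nat.add (Nat.add (Nat.add (Nat.add (Nat.add (Nat.add (Nat.add (Nat.add (Nat.add (Nat.add (Nat.add (Nat.add (Nat.add (Nat.add C x15665) x41909) x24413) x33161) x27329) x29273) x28625) x28949) x28733) x28841) x28769) x28793) x28789) x48469)
    (Nat.sub (Nat.add (Nat.add (Nat.add (Nat.add (Nat.add (Nat.add (Nat.add (Nat.add (Nat.add (Nat.add (Nat.add (Nat.add (Nat.add (Nat.add (Nat.add C x15667) x41911) x24415) x33163) x27331) x29275) x28627) x28951) x28735) x28843) x28771) x28795) x28787) x48471) x9107) x28789)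
    (Nat.sub (Nat.add (Nat.add (Nat.add (Nat.add (Nat.add (Nat.add (Nat.add (Nat.add (Nat.add (Nat.add (Nat.add (Nat.add (Nat.add (Nat.add (Nat.add C x15671) x41915) x24419) x33167) x27335) x29279) x28631) x28955) x28739) x28847) x28775) x28811) x28787) x28795) x48475) x28793)
    (Nat.add (Nat.add (Nat.add (Nat.add (Nat.add (Nat.add (Nat.add (Nat.add (Nat.add (Nat.add (Nat.add (Nat.add (Nat.add (Nat.add (Nat.add (Nat.add (Nat.add (Nat.add C x15673) x41917) x24421) x33169) x27337) x29281) x28633) x28957) x28741) x28849) x28777) x28813) x28789) x28801) x28793) x28797) x48477) x9113)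
    (Nat.sub (Nat.add (Nat.add (Nat.add (Nat.add (Nat.add (Nat.add (Nat.add (Nat.add (Nat.add (Nat.add (Nat.add (Nat.add (Nat.add (Nat.add (Nat.add C x15675) x41919) x24423) x33171) x27339) x29283) x28635) x28959) x28743) x28851) x28779) x28815) x28803) x28795) x9115) x28797)
    (Nat.sub (Nat.add (Nat.add (Nat.add (Nat.add (Nat.add (Nat.add (Nat.add (Nat.add (Nat.add (Nat.add (Nat.add (Nat.add (Nat.add (Nat.add (Nat.add C x15679) x41923) x24427) x33175) x27343) x29287) x28639) x28963) x28747) x28855) x28819) x28795) x28803) x48483) x9119) x28801)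
    (Nat.add (Nat.add (Nat.add (Nat.add (Nat.add (Nat.add (Nat.add (Nat.add (Nat.add (Nat.add (Nat.add (Nat.add (Nat.add (Nat.add C x15681) x41925) x24429) x33177) x27345) x29289) x28641) x28965) x28749) x28857) x28821) x28797) x28801) x9121)
    (Nat.sub (Nat.add (Nat.add (Nat.add (Nat.add (Nat.add (Nat.add (Nat.add (Nat.add (Nat.add (Nat.add (Nat.add (Nat.add C x15689) x41933) x24437) x33185) x27353) x29297) x28649) x28973) x28865) x28793) x28813) x48493) x28811)
    (Nat.sub (Nat.add (Nat.add (Nat.add (Nat.add (Nat.add (Nat.add (Nat.add (Nat.add (Nat.add (Nat.add (Nat.add (Nat.add (Nat.add (Nat.add (Nat.add C x15691) x41935) x24439) x33187) x27355) x29299) x28651) x28975) x28867) x28795) x28819) x28811) x28815) x48495) x9131) x28813)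
    (Nat.sub (Nat.add (Nat.add (Nat.add (Nat.add (Nat.add (Nat.add (Nat.add (Nat.add (Nat.add (Nat.add (Nat.add (Nat.add (Nat.add C x15693) x41937) x24441) x33189) x27357) x29301) x28653) x28977) x28869) x28797) x28821) x28813) x9133) (Nat.mul x28815 (nat_lit 3)))
    (Nat.add (Nat.add (Nat.add (Nat.add (Nat.add (Nat.add (Nat.add (Nat.add (Nat.add (Nat.add (Nat.add (Nat.add (Nat.add (Nat.add C x15697) x41941) x24445) x33193) x27361) x29305) x28657) x28981) x28873) x28801) x28813) x28821) x48501) x9137)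
    (Nat.add (Nat.add (Nat.add (Nat.add (Nat.add (Nat.add (Nat.add (Nat.add (Nat.add (Nat.add (Nat.add (Nat.add (Nat.add (Nat.add C x15699) x41943) x24447) x33195) x27363) x29307) x28659) x28983) x28875) x28803) x28815) x28827) x28819) x9139)
    (Nat.add (Nat.add (Nat.add (Nat.add (Nat.add (Nat.add (Nat.add (Nat.add (Nat.add (Nat.add (Nat.add (Nat.add C x28827) x15705) x41949) x24453) x33201) x27369) x29313) x28665) x28989) x28881) x28821) x9145)
    (Nat.add (Nat.add (Nat.add (Nat.add (Nat.add (Nat.add (Nat.add (Nat.add (Nat.add (Nat.add (Nat.add C x15719) x41963) x24467) x33215) x27383) x29327) x29003) x28787) x28847) x28843) x48523)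
    (Nat.sub (Nat.add (Nat.add (Nat.add (Nat.add (Nat.add (Nat.add (Nat.add (Nat.add (Nat.add (Nat.add (Nat.add (Nat.add C x15721) x41965) x24469) x33217) x27385) x29329) x29005) x28789) x28849) x28841) x48525) x9161) x28843)
    (Nat.sub (Nat.add (Nat.add (Nat.add (Nat.add (Nat.add (Nat.add (Nat.add (Nat.add (Nat.add (Nat.add (Nat.add (Nat.add C x15725) x41969) x24473) x33221) x27389) x29333) x29009) x28793) x28865) x28841) x28849) x48529) (Nat.mul x28847 (nat_lit 2)))
    (Nat.sub (Nat.add (Nat.add (Nat.add (Nat.add (Nat.add (Nat.add (Nat.add (Nat.add (Nat.add (Nat.add (Nat.add (Nat.add (Nat.add (Nat.add (Nat.add C x15727) x41971) x24475) x33223) x27391) x29335) x29011) x28795) x28867) x28843) x28855) x28847) x28851) x48531) x9167) x28849)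
    (Nat.sub (Nat.add (Nat.add (Nat.add (Nat.add (Nat.add (Nat.add (Nat.add (Nat.add (Nat.add (Nat.add (Nat.add (Nat.add C x15729) x41973) x24477) x33225) x27393) x29337) x29013) x28797) x28869) x28857) x28849) x9169) (Nat.mul x28851 (nat_lit 2)))
    (Nat.sub (Nat.add (Nat.add (Nat.add (Nat.add (Nat.add (Nat.add (Nat.add (Nat.add (Nat.add (Nat.add (Nat.add (Nat.add (Nat.add C x15733) x41977) x24481) x33229) x27397) x29341) x29017) x28801) x28873) x28849) x28857) x48537) x9173) (Nat.mul x28855 (nat_lit 3)))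
    (Nat.sub (Nat.add (Nat.add (Nat.add (Nat.add (Nat.add (Nat.add (Nat.add (Nat.add (Nat.add (Nat.add (Nat.add (Nat.add C x15735) x41979) x24483) x33231) x27399) x29343) x29019) x28803) x28875) x28851) x28855) x9175) (Nat.mul x28857 (nat_lit 2)))
    (Nat.add (Nat.add (Nat.add (Nat.add (Nat.add (Nat.add (Nat.add (Nat.add (Nat.add (Nat.add (Nat.add C x15743) x41987) x24491) x33239) x27407) x29351) x29027) x28811) x28847) x28867) x48547)
    (Nat.add (Nat.add (Nat.add (Nat.add (Nat.add (Nat.add (Nat.add (Nat.add (Nat.add (Nat.add (Nat.add (Nat.add (Nat.add (Nat.add C x15745) x41989) x24493) x33241) x27409) x29353) x29029) x28813) x28849) x28873) x28865) x28869) x48549) x9185)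
    (Nat.sub (Nat.add (Nat.add (Nat.add (Nat.add (Nat.add (Nat.add (Nat.add (Nat.add (Nat.add (Nat.add (Nat.add (Nat.add C x15747) x41991) x24495) x33243) x27411) x29355) x29031) x28815) x28851) x28875) x28867) x9187) (Nat.mul x28869 (nat_lit 2)))
    (Nat.add (Nat.add (Nat.add (Nat.add (Nat.add (Nat.add (Nat.add (Nat.add (Nat.add (Nat.add (Nat.add (Nat.add (Nat.add (Nat.add C x15751) x41995) x24499) x33247) x27415) x29359) x29035) x28819) x28855) x28891) x28867) x28875) x48555) x9191)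
    (Nat.add (Nat.add (Nat.add (Nat.add (Nat.add (Nat.add (Nat.add (Nat.add (Nat.add (Nat.add (Nat.add (Nat.add (Nat.add (Nat.add C x15753) x41997) x24501) x33249) x27417) x29361) x29037) x28821) x28857) x28893) x28869) x28881) x28873) x9193)
    (Nat.add (Nat.add (Nat.add (Nat.add (Nat.add (Nat.add (Nat.add (Nat.add (Nat.add (Nat.add (Nat.add C x15759) x42003) x24507) x33255) x27423) x29367) x29043) x28827) x28899) x28875) x9199)
    (Nat.add (Nat.add (Nat.add (Nat.add (Nat.add (Nat.add (Nat.add (Nat.add (Nat.add (Nat.add (Nat.add (Nat.add C x28891) x15769) x42013) x24517) x33265) x27433) x29377) x29053) x28873) x28893) x48573) x9209)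
    (Nat.add (Nat.add (Nat.add (Nat.add (Nat.add (Nat.add (Nat.add (Nat.add (Nat.add (Nat.add (Nat.add C x15771) x42015) x24519) x33267) x27435) x29379) x29055) x28875) x28899) x28891) x9211)
    (Nat.add (Nat.add (Nat.add (Nat.add (Nat.add (Nat.add (Nat.add (Nat.add (Nat.add (Nat.add (Nat.add C (Nat.mul x28899 (nat_lit 2))) x15777) x42021) x24525) x33273) x27441) x29385) x29061) x28881) x28893) x9217)
    (Nat.add (Nat.add (Nat.add (Nat.add (Nat.add (Nat.add (Nat.add (Nat.add (Nat.add C x15803) x42047) x24551) x33299) x27467) x29411) x28763) x28931) x48607)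
    (Nat.sub (Nat.add (Nat.add (Nat.add (Nat.add (Nat.add (Nat.add (Nat.add (Nat.add (Nat.add (Nat.add (Nat.add (Nat.add C x15809) x42053) x24557) x33305) x27473) x29417) x28769) x28949) x28925) x28937) x28933) x48613) x28931)
    (Nat.sub (Nat.add (Nat.add (Nat.add (Nat.add (Nat.add (Nat.add (Nat.add (Nat.add (Nat.add (Nat.add (Nat.add (Nat.add C x15811) x42055) x24559) x33307) x27475) x29419) x28771) x28951) x28939) x28931) x48615) x9251) x28933)
    (Nat.sub (Nat.add (Nat.add (Nat.add (Nat.add (Nat.add (Nat.add (Nat.add (Nat.add (Nat.add (Nat.add (Nat.add C x15815) x42059) x24563) x33311) x27479) x29423) x28775) x28955) x28931) x28939) x48619) (Nat.mul x28937 (nat_lit 4)))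
    (Nat.sub (Nat.add (Nat.add (Nat.add (Nat.add (Nat.add (Nat.add (Nat.add (Nat.add (Nat.add (Nat.add (Nat.add (Nat.add (Nat.add C x15817) x42061) x24565) x33313) x27481) x29425) x28777) x28957) x28933) x28937) x28941) x48621) x9257) (Nat.mul x28939 (nat_lit 2)))
    (Nat.sub (Nat.add (Nat.add (Nat.add (Nat.add (Nat.add (Nat.add (Nat.add (Nat.add (Nat.add (Nat.add C x15819) x42063) x24567) x33315) x27483) x29427) x28779) x28959) x28939) x9259) (Nat.mul x28941 (nat_lit 2)))
    (Nat.sub (Nat.add (Nat.add (Nat.add (Nat.add (Nat.add (Nat.add (Nat.add (Nat.add (Nat.add (Nat.add (Nat.add (Nat.add C x15827) x42071) x24575) x33323) x27491) x29435) x28787) x29003) x28931) x28955) x28951) x48631) (Nat.mul x28949 (nat_lit 2)))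
    (Nat.sub (Nat.add (Nat.add (Nat.add (Nat.add (Nat.add (Nat.add (Nat.add (Nat.add (Nat.add (Nat.add (Nat.add (Nat.add (Nat.add C x15829) x42073) x24577) x33325) x27493) x29437) x28789) x29005) x28933) x28957) x28949) x48633) x9269) (Nat.mul x28951 (nat_lit 3)))
    (Nat.sub (Nat.add (Nat.add (Nat.add (Nat.add (Nat.add (Nat.add (Nat.add (Nat.add (Nat.add (Nat.add (Nat.add (Nat.add (Nat.add C x15833) x42077) x24581) x33329) x27497) x29441) x28793) x29009) x28937) x28973) x28949) x28957) x48637) (Nat.mul x28955 (nat_lit 3)))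
    (Nat.sub (Nat.add (Nat.add (Nat.add (Nat.add (Nat.add (Nat.add (Nat.add (Nat.add (Nat.add (Nat.add (Nat.add (Nat.add (Nat.add (Nat.add (Nat.add (Nat.add C x15835) x42079) x24583) x33331) x27499) x29443) x28795) x29011) x28939) x28975) x28951) x28963) x28955) x28959) x48639) x9275) (Nat.mul x28957 (nat_lit 2)))
    (Nat.sub (Nat.add (Nat.add (Nat.add (Nat.add (Nat.add (Nat.add (Nat.add (Nat.add (Nat.add (Nat.add (Nat.add (Nat.add (Nat.add C x15837) x42081) x24585) x33333) x27501) x29445) x28797) x29013) x28941) x28977) x28965) x28957) x9277) (Nat.mul x28959 (nat_lit 3)))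
    (Nat.sub (Nat.add (Nat.add (Nat.add (Nat.add (Nat.add (Nat.add (Nat.add (Nat.add (Nat.add (Nat.add (Nat.add (Nat.add (Nat.add C x15841) x42085) x24589) x33337) x27505) x29449) x28801) x29017) x28981) x28957) x28965) x48645) x9281) (Nat.mul x28963 (nat_lit 3)))
    (Nat.sub (Nat.add (Nat.add (Nat.add (Nat.add (Nat.add (Nat.add (Nat.add (Nat.add (Nat.add (Nat.add (Nat.add (Nat.add C x15843) x42087) x24591) x33339) x27507) x29451) x28803) x29019) x28983) x28959) x28963) x9283) (Nat.mul x28965 (nat_lit 2)))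
    (Nat.sub (Nat.add (Nat.add (Nat.add (Nat.add (Nat.add (Nat.add (Nat.add (Nat.add (Nat.add (Nat.add (Nat.add C x15851) x42095) x24599) x33347) x27515) x29459) x28811) x29027) x28955) x28975) x48655) (Nat.mul x28973 (nat_lit 4)))
    (Nat.sub (Nat.add (Nat.add (Nat.add (Nat.add (Nat.add (Nat.add (Nat.add (Nat.add (Nat.add (Nat.add (Nat.add (Nat.add (Nat.add (Nat.add C x15853) x42097) x24601) x33349) x27517) x29461) x28813) x29029) x28957) x28981) x28973) x28977) x48657) x9293) (Nat.mul x28975 (nat_lit 4)))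
    (Nat.sub (Nat.add (Nat.add (Nat.add (Nat.add (Nat.add (Nat.add (Nat.add (Nat.add (Nat.add (Nat.add (Nat.add (Nat.add C x15855) x42099) x24603) x33351) x27519) x29463) x28815) x29031) x28959) x28983) x28975) x9295) (Nat.mul x28977 (nat_lit 6)))
    (Nat.sub (Nat.add (Nat.add (Nat.add (Nat.add (Nat.add (Nat.add (Nat.add (Nat.add (Nat.add (Nat.add (Nat.add (Nat.add (Nat.add C x15859) x42103) x24607) x33355) x27523) x29467) x28819) x29035) x28963) x28975) x28983) x48663) x9299) (Nat.mul x28981 (nat_lit 3)))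
    (Nat.sub (Nat.add (Nat.add (Nat.add (Nat.add (Nat.add (Nat.add (Nat.add (Nat.add (Nat.add (Nat.add (Nat.add (Nat.add (Nat.add C x15861) x42105) x24609) x33357) x27525) x29469) x28821) x29037) x28965) x28977) x28989) x28981) x9301) (Nat.mul x28983 (nat_lit 3)))
    (Nat.sub (Nat.add (Nat.add (Nat.add (Nat.add (Nat.add (Nat.add (Nat.add (Nat.add (Nat.add (Nat.add C x15867) x42111) x24615) x33363) x27531) x29475) x28827) x29043) x28983) x9307) (Nat.mul x28989 (nat_lit 2)))
    (Nat.add (Nat.add (Nat.add (Nat.add (Nat.add (Nat.add (Nat.add (Nat.add (Nat.add (Nat.add (Nat.add C x15881) x42125) x24629) x33377) x27545) x29489) x28841) x28949) x29009) x29005) x48685)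
    (Nat.sub (Nat.add (Nat.add (Nat.add (Nat.add (Nat.add (Nat.add (Nat.add (Nat.add (Nat.add (Nat.add (Nat.add (Nat.add C x15883) x42127) x24631) x33379) x27547) x29491) x28843) x28951) x29011) x29003) x48687) x9323) x29005)
    (Nat.sub (Nat.add (Nat.add (Nat.add (Nat.add (Nat.add (Nat.add (Nat.add (Nat.add (Nat.add (Nat.add (Nat.add (Nat.add C x15887) x42131) x24635) x33383) x27551) x29495) x28847) x28955) x29027) x29003) x29011) x48691) (Nat.mul x29009 (nat_lit 2)))
    (Nat.sub (Nat.add (Nat.add (Nat.add (Nat.add (Nat.add (Nat.add (Nat.add (Nat.add (Nat.add (Nat.add (Nat.add (Nat.add (Nat.add (Nat.add (Nat.add C x15889) x42133) x24637) x33385) x27553) x29497) x28849) x28957) x29029) x29005) x29017) x29009) x29013) x48693) x9329) x29011)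
    (Nat.sub (Nat.add (Nat.add (Nat.add (Nat.add (Nat.add (Nat.add (Nat.add (Nat.add (Nat.add (Nat.add (Nat.add (Nat.add C x15891) x42135) x24639) x33387) x27555) x29499) x28851) x28959) x29031) x29019) x29011) x9331) (Nat.mul x29013 (nat_lit 2)))
    (Nat.sub (Nat.add (Nat.add (Nat.add (Nat.add (Nat.add (Nat.add (Nat.add (Nat.add (Nat.add (Nat.add (Nat.add (Nat.add (Nat.add C x15895) x42139) x24643) x33391) x27559) x29503) x28855) x28963) x29035) x29011) x29019) x48699) x9335) (Nat.mul x29017 (nat_lit 3)))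
    (Nat.sub (Nat.add (Nat.add (Nat.add (Nat.add (Nat.add (Nat.add (Nat.add (Nat.add (Nat.add (Nat.add (Nat.add (Nat.add C x15897) x42141) x24645) x33393) x27561) x29505) x28857) x28965) x29037) x29013) x29017) x9337) (Nat.mul x29019 (nat_lit 2)))
    (Nat.sub (Nat.add (Nat.add (Nat.add (Nat.add (Nat.add (Nat.add (Nat.add (Nat.add (Nat.add (Nat.add (Nat.add (Nat.add C x15905) x42149) x24653) x33401) x27569) x29513) x28865) x28973) x29081) x29009) x29029) x48709) x29027)
    (Nat.sub (Nat.add (Nat.add (Nat.add (Nat.add (Nat.add (Nat.add (Nat.add (Nat.add (Nat.add (Nat.add (Nat.add (Nat.add (Nat.add (Nat.add (Nat.add C x15907) x42151) x24655) x33403) x27571) x29515) x28867) x28975) x29083) x29011) x29035) x29027) x29031) x48711) x9347) x29029)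
    (Nat.sub (Nat.add (Nat.add (Nat.add (Nat.add (Nat.add (Nat.add (Nat.add (Nat.add (Nat.add (Nat.add (Nat.add (Nat.add (Nat.add C x15909) x42153) x24657) x33405) x27573) x29517) x28869) x28977) x29085) x29013) x29037) x29029) x9349) (Nat.mul x29031 (nat_lit 3)))
    (Nat.sub (Nat.add (Nat.add (Nat.add (Nat.add (Nat.add (Nat.add (Nat.add (Nat.add (Nat.add (Nat.add (Nat.add (Nat.add (Nat.add (Nat.add (Nat.add C x15913) x42157) x24661) x33409) x27577) x29521) x28873) x28981) x29089) x29017) x29053) x29029) x29037) x48717) x9353) x29035)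
    (Nat.sub (Nat.add (Nat.add (Nat.add (Nat.add (Nat.add (Nat.add (Nat.add (Nat.add (Nat.add (Nat.add (Nat.add (Nat.add (Nat.add (Nat.add (Nat.add C x15915) x42159) x24663) x33411) x27579) x29523) x28875) x28983) x29091) x29019) x29055) x29031) x29043) x29035) x9355) x29037)
    (Nat.sub (Nat.add (Nat.add (Nat.add (Nat.add (Nat.add (Nat.add (Nat.add (Nat.add (Nat.add (Nat.add (Nat.add (Nat.add C x15921) x42165) x24669) x33417) x27585) x29529) x28881) x28989) x29097) x29061) x29037) x9361) x29043)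
    (Nat.sub (Nat.add (Nat.add (Nat.add (Nat.add (Nat.add (Nat.add (Nat.add (Nat.add (Nat.add (Nat.add (Nat.add (Nat.add C x15931) x42175) x24679) x33427) x27595) x29539) x28891) x29107) x29035) x29055) x48735) x9371) x29053)
    (Nat.sub (Nat.add (Nat.add (Nat.add (Nat.add (Nat.add (Nat.add (Nat.add (Nat.add (Nat.add (Nat.add (Nat.add (Nat.add C x15933) x42177) x24681) x33429) x27597) x29541) x28893) x29109) x29037) x29061) x29053) x9373) (Nat.mul x29055 (nat_lit 2)))
    (Nat.add (Nat.add (Nat.add (Nat.add (Nat.add (Nat.add (Nat.add (Nat.add (Nat.add (Nat.add (Nat.add C x15939) x42183) x24687) x33435) x27603) x29547) x28899) x29115) x29043) x29055) x9379)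
    (Nat.add (Nat.add (Nat.add (Nat.add (Nat.add (Nat.add (Nat.add (Nat.add (Nat.add C x15959) x42203) x24707) x33455) x27623) x29567) x29027) x29083) x48763)
    (Nat.add (Nat.add (Nat.add (Nat.add (Nat.add (Nat.add (Nat.add (Nat.add (Nat.add (Nat.add (Nat.add (Nat.add C x15961) x42205) x24709) x33457) x27625) x29569) x29029) x29089) x29081) x29085) x48765) x9401)
    (Nat.sub (Nat.add (Nat.add (Nat.add (Nat.add (Nat.add (Nat.add (Nat.add (Nat.add (Nat.add (Nat.add C x15963) x42207) x24711) x33459) x27627) x29571) x29031) x29091) x29083) x9403) (Nat.mul x29085 (nat_lit 2)))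
    (Nat.sub (Nat.add (Nat.add (Nat.add (Nat.add (Nat.add (Nat.add (Nat.add (Nat.add (Nat.add (Nat.add (Nat.add (Nat.add C x15967) x42211) x24715) x33463) x27631) x29575) x29035) x29107) x29083) x29091) x48771) x9407) x29089)
    (Nat.sub (Nat.add (Nat.add (Nat.add (Nat.add (Nat.add (Nat.add (Nat.add (Nat.add (Nat.add (Nat.add (Nat.add (Nat.add C x15969) x42213) x24717) x33465) x27633) x29577) x29037) x29109) x29085) x29097) x29089) x9409) x29091)
    (Nat.sub (Nat.add (Nat.add (Nat.add (Nat.add (Nat.add (Nat.add (Nat.add (Nat.add (Nat.add (Nat.add C x15975) x42219) x24723) x33471) x27639) x29583) x29043) x29115) x29091) x9415) (Nat.mul x29097 (nat_lit 2)))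
    (Nat.add (Nat.add (Nat.add (Nat.add (Nat.add (Nat.add (Nat.add (Nat.add (Nat.add (Nat.add (Nat.add (Nat.add C x29107) x15985) x42229) x24733) x33481) x27649) x29593) x29053) x29089) x29109) x48789) x9425)
    (Nat.add (Nat.add (Nat.add (Nat.add (Nat.add (Nat.add (Nat.add (Nat.add (Nat.add (Nat.add (Nat.add C x15987) x42231) x24735) x33483) x27651) x29595) x29055) x29091) x29115) x29107) x9427)
    (Nat.add (Nat.add (Nat.add (Nat.add (Nat.add (Nat.add (Nat.add (Nat.add (Nat.add (Nat.add (Nat.add (Nat.add C x29115) x15993) x42237) x24741) x33489) x27657) x29601) x29061) x29097) x29133) x29109) x9433)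
    (Nat.add (Nat.add (Nat.add (Nat.add (Nat.add (Nat.add (Nat.add (Nat.add (Nat.add C (Nat.mul x29133 (nat_lit 2))) x16011) x42255) x24759) x33507) x27675) x29619) x29115) x9451)
    (Nat.add (Nat.add (Nat.add (Nat.add (Nat.add (Nat.add (Nat.add (Nat.add (Nat.add (Nat.add (Nat.add C (Nat.mul x29177 (nat_lit 3))) x16055) x42299) x24803) x33551) x27719) x30635) x28691) x29195) x29183) x48859)
    (Nat.add (Nat.add (Nat.add (Nat.add (Nat.add (Nat.add (Nat.add (Nat.add (Nat.add (Nat.add (Nat.add (Nat.add C x29183) x16061) x42305) x24809) x33557) x27725) x30641) x28697) x29201) x29177) x29185) x48865)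
    (Nat.add (Nat.add (Nat.add (Nat.add (Nat.add (Nat.add (Nat.add (Nat.add (Nat.add (Nat.add (Nat.add (Nat.add C (Nat.mul x29185 (nat_lit 2))) x16063) x42307) x24811) x33559) x27727) x30643) x28699) x29203) x29183) x48867) x9503)
    (Nat.add (Nat.add (Nat.add (Nat.add (Nat.add (Nat.add (Nat.add (Nat.add (Nat.add (Nat.add (Nat.add (Nat.add C x29195) x16073) x42317) x24821) x33569) x27737) x30653) x28709) x29249) x29177) x29201) x48877)
    (Nat.add (Nat.add (Nat.add (Nat.add (Nat.add (Nat.add (Nat.add (Nat.add (Nat.add (Nat.add (Nat.add (Nat.add (Nat.add (Nat.add (Nat.add C x29201) x16079) x42323) x24827) x33575) x27743) x30659) x28715) x29255) x29183) x29219) x29195) x29207) x29203) x48883)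
    (Nat.add (Nat.add (Nat.add (Nat.add (Nat.add (Nat.add (Nat.add (Nat.add (Nat.add (Nat.add (Nat.add (Nat.add (Nat.add (Nat.add (Nat.add C x29203) x16081) x42325) x24829) x33577) x27745) x30661) x28717) x29257) x29185) x29221) x29209) x29201) x48885) x9521)
    (Nat.sub (Nat.add (Nat.add (Nat.add (Nat.add (Nat.add (Nat.add (Nat.add (Nat.add (Nat.add (Nat.add (Nat.add (Nat.add C x16085) x42329) x24833) x33581) x27749) x30665) x28721) x29261) x29225) x29201) x29209) x48889) x29207)
    (Nat.add (Nat.add (Nat.add (Nat.add (Nat.add (Nat.add (Nat.add (Nat.add (Nat.add (Nat.add (Nat.add (Nat.add (Nat.add (Nat.add (Nat.add C x29209) x16087) x42331) x24835) x33583) x27751) x30667) x28723) x29263) x29227) x29203) x29207) x29211) x48891) x9527)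
    (Nat.add (Nat.add (Nat.add (Nat.add (Nat.add (Nat.add (Nat.add (Nat.add (Nat.add (Nat.add (Nat.add (Nat.add C x29211) x16089) x42333) x24837) x33585) x27753) x30669) x28725) x29265) x29229) x29209) x9529)
    (Nat.sub (Nat.add (Nat.add (Nat.add (Nat.add (Nat.add (Nat.add (Nat.add (Nat.add (Nat.add (Nat.add (Nat.add (Nat.add C x16097) x42341) x24845) x33593) x27761) x30677) x28733) x29273) x29201) x29225) x29221) x48901) x29219)
    (Nat.sub (Nat.add (Nat.add (Nat.add (Nat.add (Nat.add (Nat.add (Nat.add (Nat.add (Nat.add (Nat.add (Nat.add (Nat.add (Nat.add C x16099) x42343) x24847) x33595) x27763) x30679) x28735) x29275) x29203) x29227) x29219) x48903) x9539) (Nat.mul x29221 (nat_lit 2)))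
    (Nat.sub (Nat.add (Nat.add (Nat.add (Nat.add (Nat.add (Nat.add (Nat.add (Nat.add (Nat.add (Nat.add (Nat.add (Nat.add C x16103) x42347) x24851) x33599) x27767) x30683) x28739) x29279) x29207) x29219) x29227) x48907) x29225)
    (Nat.add (Nat.add (Nat.add (Nat.add (Nat.add (Nat.add (Nat.add (Nat.add (Nat.add (Nat.add (Nat.add (Nat.add (Nat.add (Nat.add (Nat.add C x16105) x42349) x24853) x33601) x27769) x30685) x28741) x29281) x29209) x29221) x29233) x29225) x29229) x48909) x9545)
    (Nat.sub (Nat.add (Nat.add (Nat.add (Nat.add (Nat.add (Nat.add (Nat.add (Nat.add (Nat.add (Nat.add (Nat.add (Nat.add C x16107) x42351) x24855) x33603) x27771) x30687) x28743) x29283) x29211) x29235) x29227) x9547) x29229)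
    (Nat.add (Nat.add (Nat.add (Nat.add (Nat.add (Nat.add (Nat.add (Nat.add (Nat.add (Nat.add (Nat.add (Nat.add C x16111) x42355) x24859) x33607) x27775) x30691) x28747) x29287) x29227) x29235) x48915) x9551)
    (Nat.add (Nat.add (Nat.add (Nat.add (Nat.add (Nat.add (Nat.add (Nat.add (Nat.add (Nat.add (Nat.add (Nat.add C x29235) x16113) x42357) x24861) x33609) x27777) x30693) x28749) x29289) x29229) x29233) x9553)
    (Nat.add (Nat.add (Nat.add (Nat.add (Nat.add (Nat.add (Nat.add (Nat.add (Nat.add (Nat.add (Nat.add (Nat.add C x29249) x16127) x42371) x24875) x33623) x27791) x30707) x28763) x29411) x29195) x29255) x48931)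
    (Nat.add (Nat.add (Nat.add (Nat.add (Nat.add (Nat.add (Nat.add (Nat.add (Nat.add (Nat.add (Nat.add (Nat.add (Nat.add (Nat.add C x16133) x42377) x24881) x33629) x27797) x30713) x28769) x29417) x29201) x29273) x29249) x29261) x29257) x48937)
    (Nat.add (Nat.add (Nat.add (Nat.add (Nat.add (Nat.add (Nat.add (Nat.add (Nat.add (Nat.add (Nat.add (Nat.add (Nat.add (Nat.add C x16135) x42379) x24883) x33631) x27799) x30715) x28771) x29419) x29203) x29275) x29263) x29255) x48939) x9575)
    (Nat.sub (Nat.add (Nat.add (Nat.add (Nat.add (Nat.add (Nat.add (Nat.add (Nat.add (Nat.add (Nat.add (Nat.add (Nat.add (Nat.add C x16139) x42383) x24887) x33635) x27803) x30719) x28775) x29423) x29207) x29279) x29255) x29263) x48943) (Nat.mul x29261 (nat_lit 3)))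
    (Nat.sub (Nat.add (Nat.add (Nat.add (Nat.add (Nat.add (Nat.add (Nat.add (Nat.add (Nat.add (Nat.add (Nat.add (Nat.add (Nat.add (Nat.add (Nat.add C x16141) x42385) x24889) x33637) x27805) x30721) x28777) x29425) x29209) x29281) x29257) x29261) x29265) x48945) x9581) x29263)
    (Nat.sub (Nat.add (Nat.add (Nat.add (Nat.add (Nat.add (Nat.add (Nat.add (Nat.add (Nat.add (Nat.add (Nat.add (Nat.add C x16143) x42387) x24891) x33639) x27807) x30723) x28779) x29427) x29211) x29283) x29263) x9583) x29265)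
    (Nat.add (Nat.add (Nat.add (Nat.add (Nat.add (Nat.add (Nat.add (Nat.add (Nat.add (Nat.add (Nat.add (Nat.add (Nat.add (Nat.add C x16151) x42395) x24899) x33647) x27815) x30731) x28787) x29435) x29219) x29327) x29255) x29279) x29275) x48955)
    (Nat.sub (Nat.add (Nat.add (Nat.add (Nat.add (Nat.add (Nat.add (Nat.add (Nat.add (Nat.add (Nat.add (Nat.add (Nat.add (Nat.add (Nat.add (Nat.add C x16153) x42397) x24901) x33649) x27817) x30733) x28789) x29437) x29221) x29329) x29257) x29281) x29273) x48957) x9593) x29275)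
    (Nat.sub (Nat.add (Nat.add (Nat.add (Nat.add (Nat.add (Nat.add (Nat.add (Nat.add (Nat.add (Nat.add (Nat.add (Nat.add (Nat.add (Nat.add (Nat.add C x16157) x42401) x24905) x33653) x27821) x30737) x28793) x29441) x29225) x29333) x29261) x29297) x29273) x29281) x48961) x29279)
    (Nat.add (Nat.add (Nat.add (Nat.add (Nat.add (Nat.add (Nat.add (Nat.add (Nat.add (Nat.add (Nat.add (Nat.add (Nat.add (Nat.add (Nat.add (Nat.add (Nat.add (Nat.add C x16159) x42403) x24907) x33655) x27823) x30739) x28795) x29443) x29227) x29335) x29263) x29299) x29275) x29287) x29279) x29283) x48963) x9599)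
    (Nat.sub (Nat.add (Nat.add (Nat.add (Nat.add (Nat.add (Nat.add (Nat.add (Nat.add (Nat.add (Nat.add (Nat.add (Nat.add (Nat.add (Nat.add (Nat.add C x16161) x42405) x24909) x33657) x27825) x30741) x28797) x29445) x29229) x29337) x29265) x29301) x29289) x29281) x9601) x29283)
    (Nat.sub (Nat.add (Nat.add (Nat.add (Nat.add (Nat.add (Nat.add (Nat.add (Nat.add (Nat.add (Nat.add (Nat.add (Nat.add (Nat.add (Nat.add (Nat.add C x16165) x42409) x24913) x33661) x27829) x30745) x28801) x29449) x29233) x29341) x29305) x29281) x29289) x48969) x9605) x29287)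
    (Nat.add (Nat.add (Nat.add (Nat.add (Nat.add (Nat.add (Nat.add (Nat.add (Nat.add (Nat.add (Nat.add (Nat.add (Nat.add (Nat.add C x16167) x42411) x24915) x33663) x27831) x30747) x28803) x29451) x29235) x29343) x29307) x29283) x29287) x9607)
    (Nat.sub (Nat.add (Nat.add (Nat.add (Nat.add (Nat.add (Nat.add (Nat.add (Nat.add (Nat.add (Nat.add (Nat.add (Nat.add C x16175) x42419) x24923) x33671) x27839) x30755) x28811) x29459) x29351) x29279) x29299) x48979) x29297)
    (Nat.sub (Nat.add (Nat.add (Nat.add (Nat.add (Nat.add (Nat.add (Nat.add (Nat.add (Nat.add (Nat.add (Nat.add (Nat.add (Nat.add (Nat.add (Nat.add C x16177) x42421) x24925) x33673) x27841) x30757) x28813) x29461) x29353) x29281) x29305) x29297) x29301) x48981) x9617) x29299)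
    (Nat.sub (Nat.add (Nat.add (Nat.add (Nat.add (Nat.add (Nat.add (Nat.add (Nat.add (Nat.add (Nat.add (Nat.add (Nat.add (Nat.add C x16179) x42423) x24927) x33675) x27843) x30759) x28815) x29463) x29355) x29283) x29307) x29299) x9619) (Nat.mul x29301 (nat_lit 3)))
    (Nat.add (Nat.add (Nat.add (Nat.add (Nat.add (Nat.add (Nat.add (Nat.add (Nat.add (Nat.add (Nat.add (Nat.add (Nat.add (Nat.add C x16183) x42427) x24931) x33679) x27847) x30763) x28819) x29467) x29359) x29287) x29299) x29307) x48987) x9623)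
    (Nat.add (Nat.add (Nat.add (Nat.add (Nat.add (Nat.add (Nat.add (Nat.add (Nat.add (Nat.add (Nat.add (Nat.add (Nat.add (Nat.add C x16185) x42429) x24933) x33681) x27849) x30765) x28821) x29469) x29361) x29289) x29301) x29313) x29305) x9625)
    (Nat.add (Nat.add (Nat.add (Nat.add (Nat.add (Nat.add (Nat.add (Nat.add (Nat.add (Nat.add (Nat.add (Nat.add C x29313) x16191) x42435) x24939) x33687) x27855) x30771) x28827) x29475) x29367) x29307) x9631)
    (Nat.sub (Nat.add (Nat.add (Nat.add (Nat.add (Nat.add (Nat.add (Nat.add (Nat.add (Nat.add (Nat.add (Nat.add (Nat.add C x16205) x42449) x24953) x33701) x27869) x30785) x28841) x29489) x29273) x29333) x29329) x49009) x29327)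
    (Nat.sub (Nat.add (Nat.add (Nat.add (Nat.add (Nat.add (Nat.add (Nat.add (Nat.add (Nat.add (Nat.add (Nat.add (Nat.add (Nat.add C x16207) x42451) x24955) x33703) x27871) x30787) x28843) x29491) x29275) x29335) x29327) x49011) x9647) (Nat.mul x29329 (nat_lit 2)))
    (Nat.sub (Nat.add (Nat.add (Nat.add (Nat.add (Nat.add (Nat.add (Nat.add (Nat.add (Nat.add (Nat.add (Nat.add (Nat.add (Nat.add C x16211) x42455) x24959) x33707) x27875) x30791) x28847) x29495) x29279) x29351) x29327) x29335) x49015) (Nat.mul x29333 (nat_lit 3)))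
    (Nat.sub (Nat.add (Nat.add (Nat.add (Nat.add (Nat.add (Nat.add (Nat.add (Nat.add (Nat.add (Nat.add (Nat.add (Nat.add (Nat.add (Nat.add (Nat.add (Nat.add C x16213) x42457) x24961) x33709) x27877) x30793) x28849) x29497) x29281) x29353) x29329) x29341) x29333) x29337) x49017) x9653) (Nat.mul x29335 (nat_lit 2)))
    (Nat.sub (Nat.add (Nat.add (Nat.add (Nat.add (Nat.add (Nat.add (Nat.add (Nat.add (Nat.add (Nat.add (Nat.add (Nat.add (Nat.add C x16215) x42459) x24963) x33711) x27879) x30795) x28851) x29499) x29283) x29355) x29343) x29335) x9655) (Nat.mul x29337 (nat_lit 3)))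
    (Nat.sub (Nat.add (Nat.add (Nat.add (Nat.add (Nat.add (Nat.add (Nat.add (Nat.add (Nat.add (Nat.add (Nat.add (Nat.add (Nat.add (Nat.add C x16219) x42463) x24967) x33715) x27883) x30799) x28855) x29503) x29287) x29359) x29335) x29343) x49023) x9659) (Nat.mul x29341 (nat_lit 4)))
    (Nat.sub (Nat.add (Nat.add (Nat.add (Nat.add (Nat.add (Nat.add (Nat.add (Nat.add (Nat.add (Nat.add (Nat.add (Nat.add (Nat.add C x16221) x42465) x24969) x33717) x27885) x30801) x28857) x29505) x29289) x29361) x29337) x29341) x9661) (Nat.mul x29343 (nat_lit 3)))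
    (Nat.sub (Nat.add (Nat.add (Nat.add (Nat.add (Nat.add (Nat.add (Nat.add (Nat.add (Nat.add (Nat.add (Nat.add (Nat.add C x16229) x42473) x24977) x33725) x27893) x30809) x28865) x29513) x29297) x29333) x29353) x49033) x29351)
    (Nat.sub (Nat.add (Nat.add (Nat.add (Nat.add (Nat.add (Nat.add (Nat.add (Nat.add (Nat.add (Nat.add (Nat.add (Nat.add (Nat.add (Nat.add (Nat.add C x16231) x42475) x24979) x33727) x27895) x30811) x28867) x29515) x29299) x29335) x29359) x29351) x29355) x49035) x9671) x29353)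
    (Nat.sub (Nat.add (Nat.add (Nat.add (Nat.add (Nat.add (Nat.add (Nat.add (Nat.add (Nat.add (Nat.add (Nat.add (Nat.add (Nat.add C x16233) x42477) x24981) x33729) x27897) x30813) x28869) x29517) x29301) x29337) x29361) x29353) x9673) (Nat.mul x29355 (nat_lit 3)))
    (Nat.sub (Nat.add (Nat.add (Nat.add (Nat.add (Nat.add (Nat.add (Nat.add (Nat.add (Nat.add (Nat.add (Nat.add (Nat.add (Nat.add (Nat.add (Nat.add C x16237) x42481) x24985) x33733) x27901) x30817) x28873) x29521) x29305) x29341) x29377) x29353) x29361) x49041) x9677) x29359)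
    (Nat.sub (Nat.add (Nat.add (Nat.add (Nat.add (Nat.add (Nat.add (Nat.add (Nat.add (Nat.add (Nat.add (Nat.add (Nat.add (Nat.add (Nat.add (Nat.add C x16239) x42483) x24987) x33735) x27903) x30819) x28875) x29523) x29307) x29343) x29379) x29355) x29367) x29359) x9679) x29361)
    (Nat.sub (Nat.add (Nat.add (Nat.add (Nat.add (Nat.add (Nat.add (Nat.add (Nat.add (Nat.add (Nat.add (Nat.add (Nat.add C x16245) x42489) x24993) x33741) x27909) x30825) x28881) x29529) x29313) x29385) x29361) x9685) x29367)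
    (Nat.add (Nat.add (Nat.add (Nat.add (Nat.add (Nat.add (Nat.add (Nat.add (Nat.add (Nat.add (Nat.add (Nat.add C x16255) x42499) x25003) x33751) x27919) x30835) x28891) x29539) x29359) x29379) x49059) x9695)
    (Nat.sub (Nat.add (Nat.add (Nat.add (Nat.add (Nat.add (Nat.add (Nat.add (Nat.add (Nat.add (Nat.add (Nat.add (Nat.add C x16257) x42501) x25005) x33753) x27921) x30837) x28893) x29541) x29361) x29385) x29377) x9697) x29379)
    (Nat.add (Nat.add (Nat.add (Nat.add (Nat.add (Nat.add (Nat.add (Nat.add (Nat.add (Nat.add (Nat.add (Nat.add C x29385) x16263) x42507) x25011) x33759) x27927) x30843) x28899) x29547) x29367) x29379) x9703)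
    (Nat.add (Nat.add (Nat.add (Nat.add (Nat.add (Nat.add (Nat.add (Nat.add (Nat.add (Nat.add (Nat.add (Nat.add C (Nat.mul x29411 (nat_lit 2))) x16289) x42533) x25037) x33785) x27953) x30869) x28925) x29897) x29249) x29417) x49093)
    (Nat.add (Nat.add (Nat.add (Nat.add (Nat.add (Nat.add (Nat.add (Nat.add (Nat.add (Nat.add (Nat.add (Nat.add (Nat.add (Nat.add (Nat.add C x29417) x16295) x42539) x25043) x33791) x27959) x30875) x28931) x29903) x29255) x29435) x29411) x29423) x29419) x49099)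
    (Nat.add (Nat.add (Nat.add (Nat.add (Nat.add (Nat.add (Nat.add (Nat.add (Nat.add (Nat.add (Nat.add (Nat.add (Nat.add (Nat.add (Nat.add C x29419) x16297) x42541) x25045) x33793) x27961) x30877) x28933) x29905) x29257) x29437) x29425) x29417) x49101) x9737)
    (Nat.sub (Nat.add (Nat.add (Nat.add (Nat.add (Nat.add (Nat.add (Nat.add (Nat.add (Nat.add (Nat.add (Nat.add (Nat.add (Nat.add C x16301) x42545) x25049) x33797) x27965) x30881) x28937) x29909) x29261) x29441) x29417) x29425) x49105) (Nat.mul x29423 (nat_lit 2)))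
    (Nat.add (Nat.add (Nat.add (Nat.add (Nat.add (Nat.add (Nat.add (Nat.add (Nat.add (Nat.add (Nat.add (Nat.add (Nat.add (Nat.add (Nat.add C x16303) x42547) x25051) x33799) x27967) x30883) x28939) x29911) x29263) x29443) x29419) x29423) x29427) x49107) x9743)
    (Nat.add (Nat.add (Nat.add (Nat.add (Nat.add (Nat.add (Nat.add (Nat.add (Nat.add (Nat.add (Nat.add (Nat.add C x16305) x42549) x25053) x33801) x27969) x30885) x28941) x29913) x29265) x29445) x29425) x9745)
    (Nat.add (Nat.add (Nat.add (Nat.add (Nat.add (Nat.add (Nat.add (Nat.add (Nat.add (Nat.add (Nat.add (Nat.add (Nat.add (Nat.add C x16313) x42557) x25061) x33809) x27977) x30893) x28949) x29921) x29273) x29489) x29417) x29441) x29437) x49117)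
    (Nat.sub (Nat.add (Nat.add (Nat.add (Nat.add (Nat.add (Nat.add (Nat.add (Nat.add (Nat.add (Nat.add (Nat.add (Nat.add (Nat.add (Nat.add (Nat.add C x16315) x42559) x25063) x33811) x27979) x30895) x28951) x29923) x29275) x29491) x29419) x29443) x29435) x49119) x9755) x29437)
    (Nat.sub (Nat.add (Nat.add (Nat.add (Nat.add (Nat.add (Nat.add (Nat.add (Nat.add (Nat.add (Nat.add (Nat.add (Nat.add (Nat.add (Nat.add (Nat.add C x16319) x42563) x25067) x33815) x27983) x30899) x28955) x29927) x29279) x29495) x29423) x29459) x29435) x29443) x49123) x29441)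
    (Nat.add (Nat.add (Nat.add (Nat.add (Nat.add (Nat.add (Nat.add (Nat.add (Nat.add (Nat.add (Nat.add (Nat.add (Nat.add (Nat.add (Nat.add (Nat.add (Nat.add (Nat.add C x16321) x42565) x25069) x33817) x27985) x30901) x28957) x29929) x29281) x29497) x29425) x29461) x29437) x29449) x29441) x29445) x49125) x9761)
    (Nat.sub (Nat.add (Nat.add (Nat.add (Nat.add (Nat.add (Nat.add (Nat.add (Nat.add (Nat.add (Nat.add (Nat.add (Nat.add (Nat.add (Nat.add (Nat.add C x16323) x42567) x25071) x33819) x27987) x30903) x28959) x29931) x29283) x29499) x29427) x29463) x29451) x29443) x9763) x29445)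
    (Nat.sub (Nat.add (Nat.add (Nat.add (Nat.add (Nat.add (Nat.add (Nat.add (Nat.add (Nat.add (Nat.add (Nat.add (Nat.add (Nat.add (Nat.add (Nat.add C x16327) x42571) x25075) x33823) x27991) x30907) x28963) x29935) x29287) x29503) x29467) x29443) x29451) x49131) x9767) x29449)
    (Nat.add (Nat.add (Nat.add (Nat.add (Nat.add (Nat.add (Nat.add (Nat.add (Nat.add (Nat.add (Nat.add (Nat.add (Nat.add (Nat.add C x16329) x42573) x25077) x33825) x27993) x30909) x28965) x29937) x29289) x29505) x29469) x29445) x29449) x9769)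
    (Nat.sub (Nat.add (Nat.add (Nat.add (Nat.add (Nat.add (Nat.add (Nat.add (Nat.add (Nat.add (Nat.add (Nat.add (Nat.add (Nat.add C x16337) x42581) x25085) x33833) x28001) x30917) x28973) x29945) x29297) x29513) x29441) x29461) x49141) (Nat.mul x29459 (nat_lit 2)))
    (Nat.sub (Nat.add (Nat.add (Nat.add (Nat.add (Nat.add (Nat.add (Nat.add (Nat.add (Nat.add (Nat.add (Nat.add (Nat.add (Nat.add (Nat.add (Nat.add (Nat.add C x16339) x42583) x25087) x33835) x28003) x30919) x28975) x29947) x29299) x29515) x29443) x29467) x29459) x29463) x49143) x9779) (Nat.mul x29461 (nat_lit 2)))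
    (Nat.sub (Nat.add (Nat.add (Nat.add (Nat.add (Nat.add (Nat.add (Nat.add (Nat.add (Nat.add (Nat.add (Nat.add (Nat.add (Nat.add (Nat.add C x16341) x42585) x25089) x33837) x28005) x30921) x28977) x29949) x29301) x29517) x29445) x29469) x29461) x9781) (Nat.mul x29463 (nat_lit 4)))
    (Nat.sub (Nat.add (Nat.add (Nat.add (Nat.add (Nat.add (Nat.add (Nat.add (Nat.add (Nat.add (Nat.add (Nat.add (Nat.add (Nat.add (Nat.add (Nat.add C x16345) x42589) x25093) x33841) x28009) x30925) x28981) x29953) x29305) x29521) x29449) x29461) x29469) x49149) x9785) x29467)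
    (Nat.sub (Nat.add (Nat.add (Nat.add (Nat.add (Nat.add (Nat.add (Nat.add (Nat.add (Nat.add (Nat.add (Nat.add (Nat.add (Nat.add (Nat.add (Nat.add C x16347) x42591) x25095) x33843) x28011) x30927) x28983) x29955) x29307) x29523) x29451) x29463) x29475) x29467) x9787) x29469)
    (Nat.add (Nat.add (Nat.add (Nat.add (Nat.add (Nat.add (Nat.add (Nat.add (Nat.add (Nat.add (Nat.add (Nat.add C x16353) x42597) x25101) x33849) x28017) x30933) x28989) x29961) x29313) x29529) x29469) x9793)
    (Nat.add (Nat.add (Nat.add (Nat.add (Nat.add (Nat.add (Nat.add (Nat.add (Nat.add (Nat.add (Nat.add (Nat.add (Nat.add (Nat.add (Nat.add C x29489) x16367) x42611) x25115) x33863) x28031) x30947) x29003) x29975) x29327) x29651) x29435) x29495) x29491) x49171)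
    (Nat.add (Nat.add (Nat.add (Nat.add (Nat.add (Nat.add (Nat.add (Nat.add (Nat.add (Nat.add (Nat.add (Nat.add (Nat.add (Nat.add (Nat.add C x16369) x42613) x25117) x33865) x28033) x30949) x29005) x29977) x29329) x29653) x29437) x29497) x29489) x49173) x9809)
    (Nat.sub (Nat.add (Nat.add (Nat.add (Nat.add (Nat.add (Nat.add (Nat.add (Nat.add (Nat.add (Nat.add (Nat.add (Nat.add (Nat.add (Nat.add (Nat.add C x16373) x42617) x25121) x33869) x28037) x30953) x29009) x29981) x29333) x29657) x29441) x29513) x29489) x29497) x49177) x29495)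
    (Nat.add (Nat.add (Nat.add (Nat.add (Nat.add (Nat.add (Nat.add (Nat.add (Nat.add (Nat.add (Nat.add (Nat.add (Nat.add (Nat.add (Nat.add (Nat.add (Nat.add (Nat.add C x16375) x42619) x25123) x33871) x28039) x30955) x29011) x29983) x29335) x29659) x29443) x29515) x29491) x29503) x29495) x29499) x49179) x9815)
    (Nat.sub (Nat.add (Nat.add (Nat.add (Nat.add (Nat.add (Nat.add (Nat.add (Nat.add (Nat.add (Nat.add (Nat.add (Nat.add (Nat.add (Nat.add (Nat.add C x16377) x42621) x25125) x33873) x28041) x30957) x29013) x29985) x29337) x29661) x29445) x29517) x29505) x29497) x9817) x29499)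
    (Nat.sub (Nat.add (Nat.add (Nat.add (Nat.add (Nat.add (Nat.add (Nat.add (Nat.add (Nat.add (Nat.add (Nat.add (Nat.add (Nat.add (Nat.add (Nat.add (Nat.add C x16381) x42625) x25129) x33877) x28045) x30961) x29017) x29989) x29341) x29665) x29449) x29521) x29497) x29505) x49185) x9821) (Nat.mul x29503 (nat_lit 2)))
    (Nat.sub (Nat.add (Nat.add (Nat.add (Nat.add (Nat.add (Nat.add (Nat.add (Nat.add (Nat.add (Nat.add (Nat.add (Nat.add (Nat.add (Nat.add (Nat.add C x16383) x42627) x25131) x33879) x28047) x30963) x29019) x29991) x29343) x29667) x29451) x29523) x29499) x29503) x9823) x29505)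
    (Nat.add (Nat.add (Nat.add (Nat.add (Nat.add (Nat.add (Nat.add (Nat.add (Nat.add (Nat.add (Nat.add (Nat.add (Nat.add (Nat.add (Nat.add C x16391) x42635) x25139) x33887) x28055) x30971) x29027) x29999) x29351) x29675) x29459) x29567) x29495) x29515) x49195)
    (Nat.add (Nat.add (Nat.add (Nat.add (Nat.add (Nat.add (Nat.add (Nat.add (Nat.add (Nat.add (Nat.add (Nat.add (Nat.add (Nat.add (Nat.add (Nat.add (Nat.add (Nat.add C x16393) x42637) x25141) x33889) x28057) x30973) x29029) x30001) x29353) x29677) x29461) x29569) x29497) x29521) x29513) x29517) x49197) x9833)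
    (Nat.sub (Nat.add (Nat.add (Nat.add (Nat.add (Nat.add (Nat.add (Nat.add (Nat.add (Nat.add (Nat.add (Nat.add (Nat.add (Nat.add (Nat.add (Nat.add (Nat.add C x16395) x42639) x25143) x33891) x28059) x30975) x29031) x30003) x29355) x29679) x29463) x29571) x29499) x29523) x29515) x9835) (Nat.mul x29517 (nat_lit 2)))
    (Nat.add (Nat.add (Nat.add (Nat.add (Nat.add (Nat.add (Nat.add (Nat.add (Nat.add (Nat.add (Nat.add (Nat.add (Nat.add (Nat.add (Nat.add (Nat.add (Nat.add (Nat.add C x16399) x42643) x25147) x33895) x28063) x30979) x29035) x30007) x29359) x29683) x29467) x29575) x29503) x29539) x29515) x29523) x49203) x9839)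
    (Nat.add (Nat.add (Nat.add (Nat.add (Nat.add (Nat.add (Nat.add (Nat.add (Nat.add (Nat.add (Nat.add (Nat.add (Nat.add (Nat.add (Nat.add (Nat.add (Nat.add (Nat.add C x16401) x42645) x25149) x33897) x28065) x30981) x29037) x30009) x29361) x29685) x29469) x29577) x29505) x29541) x29517) x29529) x29521) x9841)
    (Nat.add (Nat.add (Nat.add (Nat.add (Nat.add (Nat.add (Nat.add (Nat.add (Nat.add (Nat.add (Nat.add (Nat.add (Nat.add (Nat.add (Nat.add C x16407) x42651) x25155) x33903) x28071) x30987) x29043) x30015) x29367) x29691) x29475) x29583) x29547) x29523) x9847)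
    (Nat.add (Nat.add (Nat.add (Nat.add (Nat.add (Nat.add (Nat.add (Nat.add (Nat.add (Nat.add (Nat.add (Nat.add (Nat.add (Nat.add (Nat.add C x16417) x42661) x25165) x33913) x28081) x30997) x29053) x30025) x29377) x29701) x29593) x29521) x29541) x49221) x9857)
    (Nat.sub (Nat.add (Nat.add (Nat.add (Nat.add (Nat.add (Nat.add (Nat.add (Nat.add (Nat.add (Nat.add (Nat.add (Nat.add (Nat.add (Nat.add (Nat.add C x16419) x42663) x25167) x33915) x28083) x30999) x29055) x30027) x29379) x29703) x29595) x29523) x29547) x29539) x9859) x29541)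
    (Nat.add (Nat.add (Nat.add (Nat.add (Nat.add (Nat.add (Nat.add (Nat.add (Nat.add (Nat.add (Nat.add (Nat.add (Nat.add (Nat.add (Nat.add C x29547) x16425) x42669) x25173) x33921) x28089) x31005) x29061) x30033) x29385) x29709) x29601) x29529) x29541) x9865)
    (Nat.add (Nat.add (Nat.add (Nat.add (Nat.add (Nat.add (Nat.add (Nat.add (Nat.add (Nat.add (Nat.add (Nat.add C x16445) x42689) x25193) x33941) x28109) x31025) x29081) x30053) x29729) x29513) x29569) x49249)
    (Nat.add (Nat.add (Nat.add (Nat.add (Nat.add (Nat.add (Nat.add (Nat.add (Nat.add (Nat.add (Nat.add (Nat.add (Nat.add (Nat.add (Nat.add C x16447) x42691) x25195) x33943) x28111) x31027) x29083) x30055) x29731) x29515) x29575) x29567) x29571) x49251) x9887)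
    (Nat.sub (Nat.add (Nat.add (Nat.add (Nat.add (Nat.add (Nat.add (Nat.add (Nat.add (Nat.add (Nat.add (Nat.add (Nat.add (Nat.add C x16449) x42693) x25197) x33945) x28113) x31029) x29085) x30057) x29733) x29517) x29577) x29569) x9889) (Nat.mul x29571 (nat_lit 2)))
    (Nat.sub (Nat.add (Nat.add (Nat.add (Nat.add (Nat.add (Nat.add (Nat.add (Nat.add (Nat.add (Nat.add (Nat.add (Nat.add (Nat.add (Nat.add (Nat.add C x16453) x42697) x25201) x33949) x28117) x31033) x29089) x30061) x29737) x29521) x29593) x29569) x29577) x49257) x9893) x29575)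
    (Nat.sub (Nat.add (Nat.add (Nat.add (Nat.add (Nat.add (Nat.add (Nat.add (Nat.add (Nat.add (Nat.add (Nat.add (Nat.add (Nat.add (Nat.add (Nat.add C x16455) x42699) x25203) x33951) x28119) x31035) x29091) x30063) x29739) x29523) x29595) x29571) x29583) x29575) x9895) x29577)
    (Nat.sub (Nat.add (Nat.add (Nat.add (Nat.add (Nat.add (Nat.add (Nat.add (Nat.add (Nat.add (Nat.add (Nat.add (Nat.add (Nat.add C x16461) x42705) x25209) x33957) x28125) x31041) x29097) x30069) x29745) x29529) x29601) x29577) x9901) (Nat.mul x29583 (nat_lit 2)))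
    (Nat.add (Nat.add (Nat.add (Nat.add (Nat.add (Nat.add (Nat.add (Nat.add (Nat.add (Nat.add (Nat.add (Nat.add (Nat.add (Nat.add (Nat.add C x29593) x16471) x42715) x25219) x33967) x28135) x31051) x29107) x30079) x29755) x29539) x29575) x29595) x49275) x9911)
    (Nat.add (Nat.add (Nat.add (Nat.add (Nat.add (Nat.add (Nat.add (Nat.add (Nat.add (Nat.add (Nat.add (Nat.add (Nat.add (Nat.add C x16473) x42717) x25221) x33969) x28137) x31053) x29109) x30081) x29757) x29541) x29577) x29601) x29593) x9913)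
    (Nat.add (Nat.add (Nat.add (Nat.add (Nat.add (Nat.add (Nat.add (Nat.add (Nat.add (Nat.add (Nat.add (Nat.add (Nat.add (Nat.add (Nat.add C x29601) x16479) x42723) x25227) x33975) x28143) x31059) x29115) x30087) x29763) x29547) x29583) x29619) x29595) x9919)
    (Nat.add (Nat.add (Nat.add (Nat.add (Nat.add (Nat.add (Nat.add (Nat.add (Nat.add (Nat.add (Nat.add (Nat.add C (Nat.mul x29619 (nat_lit 2))) x16497) x42741) x25245) x33993) x28161) x31077) x29133) x30105) x29781) x29601) x9937)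
    (Nat.add (Nat.add (Nat.add (Nat.add (Nat.add (Nat.add (Nat.add (Nat.add (Nat.add (Nat.add (Nat.add (Nat.add C x29651) x16529) x42773) x25277) x34025) x28193) x31109) x30137) x29489) x29657) x29653) x49333)
    (Nat.add (Nat.add (Nat.add (Nat.add (Nat.add (Nat.add (Nat.add (Nat.add (Nat.add (Nat.add (Nat.add (Nat.add C x16531) x42775) x25279) x34027) x28195) x31111) x30139) x29491) x29659) x29651) x49335) x9971)
    (Nat.sub (Nat.add (Nat.add (Nat.add (Nat.add (Nat.add (Nat.add (Nat.add (Nat.add (Nat.add (Nat.add (Nat.add (Nat.add C x16535) x42779) x25283) x34031) x28199) x31115) x30143) x29495) x29675) x29651) x29659) x49339) x29657)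
    (Nat.add (Nat.add (Nat.add (Nat.add (Nat.add (Nat.add (Nat.add (Nat.add (Nat.add (Nat.add (Nat.add (Nat.add (Nat.add (Nat.add (Nat.add C x16537) x42781) x25285) x34033) x28201) x31117) x30145) x29497) x29677) x29653) x29665) x29657) x29661) x49341) x9977)
    (Nat.sub (Nat.add (Nat.add (Nat.add (Nat.add (Nat.add (Nat.add (Nat.add (Nat.add (Nat.add (Nat.add (Nat.add (Nat.add C x16539) x42783) x25287) x34035) x28203) x31119) x30147) x29499) x29679) x29667) x29659) x9979) x29661)
    (Nat.sub (Nat.add (Nat.add (Nat.add (Nat.add (Nat.add (Nat.add (Nat.add (Nat.add (Nat.add (Nat.add (Nat.add (Nat.add (Nat.add C x16543) x42787) x25291) x34039) x28207) x31123) x30151) x29503) x29683) x29659) x29667) x49347) x9983) (Nat.mul x29665 (nat_lit 2)))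
    (Nat.sub (Nat.add (Nat.add (Nat.add (Nat.add (Nat.add (Nat.add (Nat.add (Nat.add (Nat.add (Nat.add (Nat.add (Nat.add C x16545) x42789) x25293) x34041) x28209) x31125) x30153) x29505) x29685) x29661) x29665) x9985) x29667)
    (Nat.sub (Nat.add (Nat.add (Nat.add (Nat.add (Nat.add (Nat.add (Nat.add (Nat.add (Nat.add (Nat.add (Nat.add (Nat.add C x16553) x42797) x25301) x34049) x28217) x31133) x30161) x29513) x29729) x29657) x29677) x49357) x29675)
    (Nat.sub (Nat.add (Nat.add (Nat.add (Nat.add (Nat.add (Nat.add (Nat.add (Nat.add (Nat.add (Nat.add (Nat.add (Nat.add (Nat.add (Nat.add (Nat.add C x16555) x42799) x25303) x34051) x28219) x31135) x30163) x29515) x29731) x29659) x29683) x29675) x29679) x49359) x9995) x29677)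
    (Nat.sub (Nat.add (Nat.add (Nat.add (Nat.add (Nat.add (Nat.add (Nat.add (Nat.add (Nat.add (Nat.add (Nat.add (Nat.add (Nat.add C x16557) x42801) x25305) x34053) x28221) x31137) x30165) x29517) x29733) x29661) x29685) x29677) x9997) (Nat.mul x29679 (nat_lit 3)))
    (Nat.sub (Nat.add (Nat.add (Nat.add (Nat.add (Nat.add (Nat.add (Nat.add (Nat.add (Nat.add (Nat.add (Nat.add (Nat.add (Nat.add (Nat.add (Nat.add C x16561) x42805) x25309) x34057) x28225) x31141) x30169) x29521) x29737) x29665) x29701) x29677) x29685) x49365) x10001) x29683)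
    (Nat.sub (Nat.add (Nat.add (Nat.add (Nat.add (Nat.add (Nat.add (Nat.add (Nat.add (Nat.add (Nat.add (Nat.add (Nat.add (Nat.add (Nat.add (Nat.add C x16563) x42807) x25311) x34059) x28227) x31143) x30171) x29523) x29739) x29667) x29703) x29679) x29691) x29683) x10003) x29685)
    (Nat.sub (Nat.add (Nat.add (Nat.add (Nat.add (Nat.add (Nat.add (Nat.add (Nat.add (Nat.add (Nat.add (Nat.add (Nat.add C x16569) x42813) x25317) x34065) x28233) x31149) x30177) x29529) x29745) x29709) x29685) x10009) x29691)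
    (Nat.sub (Nat.add (Nat.add (Nat.add (Nat.add (Nat.add (Nat.add (Nat.add (Nat.add (Nat.add (Nat.add (Nat.add (Nat.add (Nat.add C x16579) x42823) x25327) x34075) x28243) x31159) x30187) x29539) x29755) x29683) x29703) x49383) x10019) (Nat.mul x29701 (nat_lit 2)))
    (Nat.sub (Nat.add (Nat.add (Nat.add (Nat.add (Nat.add (Nat.add (Nat.add (Nat.add (Nat.add (Nat.add (Nat.add (Nat.add (Nat.add C x16581) x42825) x25329) x34077) x28245) x31161) x30189) x29541) x29757) x29685) x29709) x29701) x10021) (Nat.mul x29703 (nat_lit 3)))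
    (Nat.sub (Nat.add (Nat.add (Nat.add (Nat.add (Nat.add (Nat.add (Nat.add (Nat.add (Nat.add (Nat.add (Nat.add (Nat.add C x16587) x42831) x25335) x34083) x28251) x31167) x30195) x29547) x29763) x29691) x29703) x10027) x29709)
    (Nat.add (Nat.add (Nat.add (Nat.add (Nat.add (Nat.add (Nat.add (Nat.add (Nat.add (Nat.add (Nat.add (Nat.add C x29729) x16607) x42851) x25355) x34103) x28271) x31187) x30215) x29567) x29675) x29731) x49411)
    (Nat.add (Nat.add (Nat.add (Nat.add (Nat.add (Nat.add (Nat.add (Nat.add (Nat.add (Nat.add (Nat.add (Nat.add (Nat.add (Nat.add (Nat.add C x29731) x16609) x42853) x25357) x34105) x28273) x31189) x30217) x29569) x29677) x29737) x29729) x29733) x49413) x10049)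
    (Nat.sub (Nat.add (Nat.add (Nat.add (Nat.add (Nat.add (Nat.add (Nat.add (Nat.add (Nat.add (Nat.add (Nat.add (Nat.add C x16611) x42855) x25359) x34107) x28275) x31191) x30219) x29571) x29679) x29739) x29731) x10051) x29733)
    (Nat.add (Nat.add (Nat.add (Nat.add (Nat.add (Nat.add (Nat.add (Nat.add (Nat.add (Nat.add (Nat.add (Nat.add (Nat.add (Nat.add C x16615) x42859) x25363) x34111) x28279) x31195) x30223) x29575) x29683) x29755) x29731) x29739) x49419) x10055)
    (Nat.add (Nat.add (Nat.add (Nat.add (Nat.add (Nat.add (Nat.add (Nat.add (Nat.add (Nat.add (Nat.add (Nat.add (Nat.add (Nat.add C x16617) x42861) x25365) x34113) x28281) x31197) x30225) x29577) x29685) x29757) x29733) x29745) x29737) x10057)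
    (Nat.sub (Nat.add (Nat.add (Nat.add (Nat.add (Nat.add (Nat.add (Nat.add (Nat.add (Nat.add (Nat.add (Nat.add (Nat.add C x16623) x42867) x25371) x34119) x28287) x31203) x30231) x29583) x29691) x29763) x29739) x10063) x29745)
    (Nat.add (Nat.add (Nat.add (Nat.add (Nat.add (Nat.add (Nat.add (Nat.add (Nat.add (Nat.add (Nat.add (Nat.add (Nat.add (Nat.add (Nat.add C x29755) x16633) x42877) x25381) x34129) x28297) x31213) x30241) x29593) x29701) x29809) x29737) x29757) x49437) x10073)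
    (Nat.add (Nat.add (Nat.add (Nat.add (Nat.add (Nat.add (Nat.add (Nat.add (Nat.add (Nat.add (Nat.add (Nat.add (Nat.add (Nat.add C x16635) x42879) x25383) x34131) x28299) x31215) x30243) x29595) x29703) x29811) x29739) x29763) x29755) x10075)
    (Nat.add (Nat.add (Nat.add (Nat.add (Nat.add (Nat.add (Nat.add (Nat.add (Nat.add (Nat.add (Nat.add (Nat.add (Nat.add (Nat.add (Nat.add C x29763) x16641) x42885) x25389) x34137) x28305) x31221) x30249) x29601) x29709) x29817) x29745) x29781) x29757) x10081)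
    (Nat.add (Nat.add (Nat.add (Nat.add (Nat.add (Nat.add (Nat.add (Nat.add (Nat.add (Nat.add (Nat.add (Nat.add C x29781) x16659) x42903) x25407) x34155) x28323) x31239) x30267) x29619) x29835) x29763) x10099)
    (Nat.add (Nat.add (Nat.add (Nat.add (Nat.add (Nat.add (Nat.add (Nat.add (Nat.add (Nat.add (Nat.add (Nat.add C (Nat.mul x29809 (nat_lit 2))) x16687) x42931) x25435) x34183) x28351) x31267) x30295) x29755) x29811) x49491) x10127)
    (Nat.add (Nat.add (Nat.add (Nat.add (Nat.add (Nat.add (Nat.add (Nat.add (Nat.add (Nat.add (Nat.add (Nat.add C x29811) x16689) x42933) x25437) x34185) x28353) x31269) x30297) x29757) x29817) x29809) x10129)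
    (Nat.add (Nat.add (Nat.add (Nat.add (Nat.add (Nat.add (Nat.add (Nat.add (Nat.add (Nat.add (Nat.add (Nat.add C x29817) x16695) x42939) x25443) x34191) x28359) x31275) x30303) x29763) x29835) x29811) x10135)
    (Nat.add (Nat.add (Nat.add (Nat.add (Nat.add (Nat.add (Nat.add (Nat.add (Nat.add (Nat.add (Nat.add C (Nat.mul x29835 (nat_lit 3))) x16713) x42957) x25461) x34209) x28377) x31293) x30321) x29781) x29817) x10153)
    (Nat.add (Nat.add (Nat.add (Nat.add (Nat.add (Nat.add (Nat.add (Nat.add (Nat.add C (Nat.mul x29897 (nat_lit 2))) x16775) x43019) x25523) x34271) x31355) x29411) x29903) x49579)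
    (Nat.add (Nat.add (Nat.add (Nat.add (Nat.add (Nat.add (Nat.add (Nat.add (Nat.add (Nat.add (Nat.add (Nat.add C x29903) x16781) x43025) x25529) x34277) x31361) x29417) x29921) x29897) x29909) x29905) x49585)
    (Nat.add (Nat.add (Nat.add (Nat.add (Nat.add (Nat.add (Nat.add (Nat.add (Nat.add (Nat.add (Nat.add (Nat.add C x29905) x16783) x43027) x25531) x34279) x31363) x29419) x29923) x29911) x29903) x49587) x10223)
    (Nat.sub (Nat.add (Nat.add (Nat.add (Nat.add (Nat.add (Nat.add (Nat.add (Nat.add (Nat.add (Nat.add C x16787) x43031) x25535) x34283) x31367) x29423) x29927) x29903) x29911) x49591) (Nat.mul x29909 (nat_lit 2)))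
    (Nat.add (Nat.add (Nat.add (Nat.add (Nat.add (Nat.add (Nat.add (Nat.add (Nat.add (Nat.add (Nat.add (Nat.add C x16789) x43033) x25537) x34285) x31369) x29425) x29929) x29905) x29909) x29913) x49593) x10229)
    (Nat.add (Nat.add (Nat.add (Nat.add (Nat.add (Nat.add (Nat.add (Nat.add (Nat.add C x16791) x43035) x25539) x34287) x31371) x29427) x29931) x29911) x10231)
    (Nat.add (Nat.add (Nat.add (Nat.add (Nat.add (Nat.add (Nat.add (Nat.add (Nat.add (Nat.add (Nat.add C x16799) x43043) x25547) x34295) x31379) x29435) x29975) x29903) x29927) x29923) x49603)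
    (Nat.sub (Nat.add (Nat.add (Nat.add (Nat.add (Nat.add (Nat.add (Nat.add (Nat.add (Nat.add (Nat.add (Nat.add (Nat.add C x16801) x43045) x25549) x34297) x31381) x29437) x29977) x29905) x29929) x29921) x49605) x10241) x29923)
    (Nat.sub (Nat.add (Nat.add (Nat.add (Nat.add (Nat.add (Nat.add (Nat.add (Nat.add (Nat.add (Nat.add (Nat.add (Nat.add C x16805) x43049) x25553) x34301) x31385) x29441) x29981) x29909) x29945) x29921) x29929) x49609) x29927)
    (Nat.add (Nat.add (Nat.add (Nat.add (Nat.add (Nat.add (Nat.add (Nat.add (Nat.add (Nat.add (Nat.add (Nat.add (Nat.add (Nat.add (Nat.add C x16807) x43051) x25555) x34303) x31387) x29443) x29983) x29911) x29947) x29923) x29935) x29927) x29931) x49611) x10247)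
    (Nat.sub (Nat.add (Nat.add (Nat.add (Nat.add (Nat.add (Nat.add (Nat.add (Nat.add (Nat.add (Nat.add (Nat.add (Nat.add C x16809) x43053) x25557) x34305) x31389) x29445) x29985) x29913) x29949) x29937) x29929) x10249) x29931)
    (Nat.sub (Nat.add (Nat.add (Nat.add (Nat.add (Nat.add (Nat.add (Nat.add (Nat.add (Nat.add (Nat.add (Nat.add (Nat.add C x16813) x43057) x25561) x34309) x31393) x29449) x29989) x29953) x29929) x29937) x49617) x10253) x29935)
    (Nat.add (Nat.add (Nat.add (Nat.add (Nat.add (Nat.add (Nat.add (Nat.add (Nat.add (Nat.add (Nat.add C x16815) x43059) x25563) x34311) x31395) x29451) x29991) x29955) x29931) x29935) x10255)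
    (Nat.sub (Nat.add (Nat.add (Nat.add (Nat.add (Nat.add (Nat.add (Nat.add (Nat.add (Nat.add (Nat.add C x16823) x43067) x25571) x34319) x31403) x29459) x29999) x29927) x29947) x49627) (Nat.mul x29945 (nat_lit 2)))
    (Nat.sub (Nat.add (Nat.add (Nat.add (Nat.add (Nat.add (Nat.add (Nat.add (Nat.add (Nat.add (Nat.add (Nat.add (Nat.add (Nat.add C x16825) x43069) x25573) x34321) x31405) x29461) x30001) x29929) x29953) x29945) x29949) x49629) x10265) (Nat.mul x29947 (nat_lit 2)))
    (Nat.sub (Nat.add (Nat.add (Nat.add (Nat.add (Nat.add (Nat.add (Nat.add (Nat.add (Nat.add (Nat.add (Nat.add C x16827) x43071) x25575) x34323) x31407) x29463) x30003) x29931) x29955) x29947) x10267) (Nat.mul x29949 (nat_lit 4)))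
    (Nat.sub (Nat.add (Nat.add (Nat.add (Nat.add (Nat.add (Nat.add (Nat.add (Nat.add (Nat.add (Nat.add (Nat.add (Nat.add C x16831) x43075) x25579) x34327) x31411) x29467) x30007) x29935) x29947) x29955) x49635) x10271) x29953)
    (Nat.sub (Nat.add (Nat.add (Nat.add (Nat.add (Nat.add (Nat.add (Nat.add (Nat.add (Nat.add (Nat.add (Nat.add (Nat.add C x16833) x43077) x25581) x34329) x31413) x29469) x30009) x29937) x29949) x29961) x29953) x10273) x29955)
    (Nat.add (Nat.add (Nat.add (Nat.add (Nat.add (Nat.add (Nat.add (Nat.add (Nat.add C x16839) x43083) x25587) x34335) x31419) x29475) x30015) x29955) x10279)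
    (Nat.add (Nat.add (Nat.add (Nat.add (Nat.add (Nat.add (Nat.add (Nat.add (Nat.add (Nat.add (Nat.add C x16853) x43097) x25601) x34349) x31433) x29489) x30137) x29921) x29981) x29977) x49657)
    (Nat.sub (Nat.add (Nat.add (Nat.add (Nat.add (Nat.add (Nat.add (Nat.add (Nat.add (Nat.add (Nat.add (Nat.add (Nat.add C x16855) x43099) x25603) x34351) x31435) x29491) x30139) x29923) x29983) x29975) x49659) x10295) x29977)
    (Nat.sub (Nat.add (Nat.add (Nat.add (Nat.add (Nat.add (Nat.add (Nat.add (Nat.add (Nat.add (Nat.add (Nat.add (Nat.add C x16859) x43103) x25607) x34355) x31439) x29495) x30143) x29927) x29999) x29975) x29983) x49663) (Nat.mul x29981 (nat_lit 2)))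
    (Nat.sub (Nat.add (Nat.add (Nat.add (Nat.add (Nat.add (Nat.add (Nat.add (Nat.add (Nat.add (Nat.add (Nat.add (Nat.add (Nat.add (Nat.add (Nat.add C x16861) x43105) x25609) x34357) x31441) x29497) x30145) x29929) x30001) x29977) x29989) x29981) x29985) x49665) x10301) x29983)
    (Nat.sub (Nat.add (Nat.add (Nat.add (Nat.add (Nat.add (Nat.add (Nat.add (Nat.add (Nat.add (Nat.add (Nat.add (Nat.add C x16863) x43107) x25611) x34359) x31443) x29499) x30147) x29931) x30003) x29991) x29983) x10303) (Nat.mul x29985 (nat_lit 2)))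
    (Nat.sub (Nat.add (Nat.add (Nat.add (Nat.add (Nat.add (Nat.add (Nat.add (Nat.add (Nat.add (Nat.add (Nat.add (Nat.add (Nat.add C x16867) x43111) x25615) x34363) x31447) x29503) x30151) x29935) x30007) x29983) x29991) x49671) x10307) (Nat.mul x29989 (nat_lit 3)))
    (Nat.sub (Nat.add (Nat.add (Nat.add (Nat.add (Nat.add (Nat.add (Nat.add (Nat.add (Nat.add (Nat.add (Nat.add (Nat.add C x16869) x43113) x25617) x34365) x31449) x29505) x30153) x29937) x30009) x29985) x29989) x10309) (Nat.mul x29991 (nat_lit 2)))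
    (Nat.sub (Nat.add (Nat.add (Nat.add (Nat.add (Nat.add (Nat.add (Nat.add (Nat.add (Nat.add (Nat.add (Nat.add (Nat.add C x16877) x43121) x25625) x34373) x31457) x29513) x30161) x29945) x30053) x29981) x30001) x49681) x29999)
    (Nat.sub (Nat.add (Nat.add (Nat.add (Nat.add (Nat.add (Nat.add (Nat.add (Nat.add (Nat.add (Nat.add (Nat.add (Nat.add (Nat.add (Nat.add (Nat.add C x16879) x43123) x25627) x34375) x31459) x29515) x30163) x29947) x30055) x29983) x30007) x29999) x30003) x49683) x10319) x30001)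
    (Nat.sub (Nat.add (Nat.add (Nat.add (Nat.add (Nat.add (Nat.add (Nat.add (Nat.add (Nat.add (Nat.add (Nat.add (Nat.add (Nat.add C x16881) x43125) x25629) x34377) x31461) x29517) x30165) x29949) x30057) x29985) x30009) x30001) x10321) (Nat.mul x30003 (nat_lit 3)))
    (Nat.sub (Nat.add (Nat.add (Nat.add (Nat.add (Nat.add (Nat.add (Nat.add (Nat.add (Nat.add (Nat.add (Nat.add (Nat.add (Nat.add (Nat.add (Nat.add C x16885) x43129) x25633) x34381) x31465) x29521) x30169) x29953) x30061) x29989) x30025) x30001) x30009) x49689) x10325) x30007)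
    (Nat.sub (Nat.add (Nat.add (Nat.add (Nat.add (Nat.add (Nat.add (Nat.add (Nat.add (Nat.add (Nat.add (Nat.add (Nat.add (Nat.add (Nat.add (Nat.add C x16887) x43131) x25635) x34383) x31467) x29523) x30171) x29955) x30063) x29991) x30027) x30003) x30015) x30007) x10327) x30009)
    (Nat.sub (Nat.add (Nat.add (Nat.add (Nat.add (Nat.add (Nat.add (Nat.add (Nat.add (Nat.add (Nat.add (Nat.add (Nat.add C x16893) x43137) x25641) x34389) x31473) x29529) x30177) x29961) x30069) x30033) x30009) x10333) x30015)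
    (Nat.sub (Nat.add (Nat.add (Nat.add (Nat.add (Nat.add (Nat.add (Nat.add (Nat.add (Nat.add (Nat.add (Nat.add (Nat.add C x16903) x43147) x25651) x34399) x31483) x29539) x30187) x30079) x30007) x30027) x49707) x10343) x30025)
    (Nat.sub (Nat.add (Nat.add (Nat.add (Nat.add (Nat.add (Nat.add (Nat.add (Nat.add (Nat.add (Nat.add (Nat.add (Nat.add C x16905) x43149) x25653) x34401) x31485) x29541) x30189) x30081) x30009) x30033) x30025) x10345) (Nat.mul x30027 (nat_lit 2)))
    (Nat.add (Nat.add (Nat.add (Nat.add (Nat.add (Nat.add (Nat.add (Nat.add (Nat.add (Nat.add (Nat.add C x16911) x43155) x25659) x34407) x31491) x29547) x30195) x30087) x30015) x30027) x10351)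
    (Nat.sub (Nat.add (Nat.add (Nat.add (Nat.add (Nat.add (Nat.add (Nat.add (Nat.add (Nat.add (Nat.add C x16931) x43175) x25679) x34427) x31511) x29567) x30215) x29999) x30055) x49735) (Nat.mul x30053 (nat_lit 2)))
    (Nat.sub (Nat.add (Nat.add (Nat.add (Nat.add (Nat.add (Nat.add (Nat.add (Nat.add (Nat.add (Nat.add (Nat.add (Nat.add (Nat.add C x16933) x43177) x25681) x34429) x31513) x29569) x30217) x30001) x30061) x30053) x30057) x49737) x10373) (Nat.mul x30055 (nat_lit 2)))
    (Nat.sub (Nat.add (Nat.add (Nat.add (Nat.add (Nat.add (Nat.add (Nat.add (Nat.add (Nat.add (Nat.add (Nat.add C x16935) x43179) x25683) x34431) x31515) x29571) x30219) x30003) x30063) x30055) x10375) (Nat.mul x30057 (nat_lit 4)))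
    (Nat.sub (Nat.add (Nat.add (Nat.add (Nat.add (Nat.add (Nat.add (Nat.add (Nat.add (Nat.add (Nat.add (Nat.add (Nat.add (Nat.add C x16939) x43183) x25687) x34435) x31519) x29575) x30223) x30007) x30079) x30055) x30063) x49743) x10379) (Nat.mul x30061 (nat_lit 3)))
    (Nat.sub (Nat.add (Nat.add (Nat.add (Nat.add (Nat.add (Nat.add (Nat.add (Nat.add (Nat.add (Nat.add (Nat.add (Nat.add (Nat.add C x16941) x43185) x25689) x34437) x31521) x29577) x30225) x30009) x30081) x30057) x30069) x30061) x10381) (Nat.mul x30063 (nat_lit 3)))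
    (Nat.sub (Nat.add (Nat.add (Nat.add (Nat.add (Nat.add (Nat.add (Nat.add (Nat.add (Nat.add (Nat.add (Nat.add C x16947) x43191) x25695) x34443) x31527) x29583) x30231) x30015) x30087) x30063) x10387) (Nat.mul x30069 (nat_lit 4)))
    (Nat.sub (Nat.add (Nat.add (Nat.add (Nat.add (Nat.add (Nat.add (Nat.add (Nat.add (Nat.add (Nat.add (Nat.add (Nat.add C x16957) x43201) x25705) x34453) x31537) x29593) x30241) x30025) x30061) x30081) x49761) x10397) x30079)
    (Nat.sub (Nat.add (Nat.add (Nat.add (Nat.add (Nat.add (Nat.add (Nat.add (Nat.add (Nat.add (Nat.add (Nat.add (Nat.add C x16959) x43203) x25707) x34455) x31539) x29595) x30243) x30027) x30063) x30087) x30079) x10399) (Nat.mul x30081 (nat_lit 2)))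
    (Nat.sub (Nat.add (Nat.add (Nat.add (Nat.add (Nat.add (Nat.add (Nat.add (Nat.add (Nat.add (Nat.add (Nat.add (Nat.add C x16965) x43209) x25713) x34461) x31545) x29601) x30249) x30033) x30069) x30105) x30081) x10405) x30087)
    (Nat.add (Nat.add (Nat.add (Nat.add (Nat.add (Nat.add (Nat.add (Nat.add (Nat.add C x16983) x43227) x25731) x34479) x31563) x29619) x30267) x30087) x10423)
    (Nat.add (Nat.add (Nat.add (Nat.add (Nat.add (Nat.add (Nat.add (Nat.add (Nat.add (Nat.add (Nat.add C (Nat.mul x30137 (nat_lit 2))) x17015) x43259) x25763) x34511) x31595) x29651) x29975) x30143) x30139) x49819)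
    (Nat.add (Nat.add (Nat.add (Nat.add (Nat.add (Nat.add (Nat.add (Nat.add (Nat.add (Nat.add (Nat.add (Nat.add C x30139) x17017) x43261) x25765) x34513) x31597) x29653) x29977) x30145) x30137) x49821) x10457)
    (Nat.add (Nat.add (Nat.add (Nat.add (Nat.add (Nat.add (Nat.add (Nat.add (Nat.add (Nat.add (Nat.add C x17021) x43265) x25769) x34517) x31601) x29657) x29981) x30161) x30137) x30145) x49825)
    (Nat.add (Nat.add (Nat.add (Nat.add (Nat.add (Nat.add (Nat.add (Nat.add (Nat.add (Nat.add (Nat.add (Nat.add (Nat.add (Nat.add (Nat.add C x30145) x17023) x43267) x25771) x34519) x31603) x29659) x29983) x30163) x30139) x30151) x30143) x30147) x49827) x10463)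
    (Nat.add (Nat.add (Nat.add (Nat.add (Nat.add (Nat.add (Nat.add (Nat.add (Nat.add (Nat.add (Nat.add C x17025) x43269) x25773) x34521) x31605) x29661) x29985) x30165) x30153) x30145) x10465)
    (Nat.sub (Nat.add (Nat.add (Nat.add (Nat.add (Nat.add (Nat.add (Nat.add (Nat.add (Nat.add (Nat.add (Nat.add (Nat.add C x17029) x43273) x25777) x34525) x31609) x29665) x29989) x30169) x30145) x30153) x49833) x10469) x30151)
    (Nat.add (Nat.add (Nat.add (Nat.add (Nat.add (Nat.add (Nat.add (Nat.add (Nat.add (Nat.add (Nat.add C x17031) x43275) x25779) x34527) x31611) x29667) x29991) x30171) x30147) x30151) x10471)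
    (Nat.add (Nat.add (Nat.add (Nat.add (Nat.add (Nat.add (Nat.add (Nat.add (Nat.add (Nat.add (Nat.add C x17039) x43283) x25787) x34535) x31619) x29675) x29999) x30215) x30143) x30163) x49843)
    (Nat.add (Nat.add (Nat.add (Nat.add (Nat.add (Nat.add (Nat.add (Nat.add (Nat.add (Nat.add (Nat.add (Nat.add (Nat.add (Nat.add C x17041) x43285) x25789) x34537) x31621) x29677) x30001) x30217) x30145) x30169) x30161) x30165) x49845) x10481)
    (Nat.sub (Nat.add (Nat.add (Nat.add (Nat.add (Nat.add (Nat.add (Nat.add (Nat.add (Nat.add (Nat.add (Nat.add (Nat.add C x17043) x43287) x25791) x34539) x31623) x29679) x30003) x30219) x30147) x30171) x30163) x10483) (Nat.mul x30165 (nat_lit 2)))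
    (Nat.add (Nat.add (Nat.add (Nat.add (Nat.add (Nat.add (Nat.add (Nat.add (Nat.add (Nat.add (Nat.add (Nat.add (Nat.add (Nat.add C x17047) x43291) x25795) x34543) x31627) x29683) x30007) x30223) x30151) x30187) x30163) x30171) x49851) x10487)
    (Nat.add (Nat.add (Nat.add (Nat.add (Nat.add (Nat.add (Nat.add (Nat.add (Nat.add (Nat.add (Nat.add (Nat.add (Nat.add (Nat.add C x17049) x43293) x25797) x34545) x31629) x29685) x30009) x30225) x30153) x30189) x30165) x30177) x30169) x10489)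
    (Nat.add (Nat.add (Nat.add (Nat.add (Nat.add (Nat.add (Nat.add (Nat.add (Nat.add (Nat.add (Nat.add C x17055) x43299) x25803) x34551) x31635) x29691) x30015) x30231) x30195) x30171) x10495)
    (Nat.sub (Nat.add (Nat.add (Nat.add (Nat.add (Nat.add (Nat.add (Nat.add (Nat.add (Nat.add (Nat.add (Nat.add (Nat.add C x17065) x43309) x25813) x34561) x31645) x29701) x30025) x30241) x30169) x30189) x49869) x10505) x30187)
    (Nat.sub (Nat.add (Nat.add (Nat.add (Nat.add (Nat.add (Nat.add (Nat.add (Nat.add (Nat.add (Nat.add (Nat.add (Nat.add C x17067) x43311) x25815) x34563) x31647) x29703) x30027) x30243) x30171) x30195) x30187) x10507) (Nat.mul x30189 (nat_lit 2)))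
    (Nat.add (Nat.add (Nat.add (Nat.add (Nat.add (Nat.add (Nat.add (Nat.add (Nat.add (Nat.add (Nat.add C x17073) x43317) x25821) x34569) x31653) x29709) x30033) x30249) x30177) x30189) x10513)
    (Nat.add (Nat.add (Nat.add (Nat.add (Nat.add (Nat.add (Nat.add (Nat.add (Nat.add (Nat.add (Nat.add (Nat.add C x30215) x17093) x43337) x25841) x34589) x31673) x29729) x30053) x30377) x30161) x30217) x49897)
    (Nat.add (Nat.add (Nat.add (Nat.add (Nat.add (Nat.add (Nat.add (Nat.add (Nat.add (Nat.add (Nat.add (Nat.add (Nat.add (Nat.add (Nat.add C x30217) x17095) x43339) x25843) x34591) x31675) x29731) x30055) x30379) x30163) x30223) x30215) x30219) x49899) x10535)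
    (Nat.sub (Nat.add (Nat.add (Nat.add (Nat.add (Nat.add (Nat.add (Nat.add (Nat.add (Nat.add (Nat.add (Nat.add (Nat.add C x17097) x43341) x25845) x34593) x31677) x29733) x30057) x30381) x30165) x30225) x30217) x10537) x30219)
    (Nat.add (Nat.add (Nat.add (Nat.add (Nat.add (Nat.add (Nat.add (Nat.add (Nat.add (Nat.add (Nat.add (Nat.add (Nat.add (Nat.add C x17101) x43345) x25849) x34597) x31681) x29737) x30061) x30385) x30169) x30241) x30217) x30225) x49905) x10541)
    (Nat.add (Nat.add (Nat.add (Nat.add (Nat.add (Nat.add (Nat.add (Nat.add (Nat.add (Nat.add (Nat.add (Nat.add (Nat.add (Nat.add C x17103) x43347) x25851) x34599) x31683) x29739) x30063) x30387) x30171) x30243) x30219) x30231) x30223) x10543)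
    (Nat.sub (Nat.add (Nat.add (Nat.add (Nat.add (Nat.add (Nat.add (Nat.add (Nat.add (Nat.add (Nat.add (Nat.add (Nat.add C x17109) x43353) x25857) x34605) x31689) x29745) x30069) x30393) x30177) x30249) x30225) x10549) x30231)
    (Nat.add (Nat.add (Nat.add (Nat.add (Nat.add (Nat.add (Nat.add (Nat.add (Nat.add (Nat.add (Nat.add (Nat.add (Nat.add (Nat.add (Nat.add C x30241) x17119) x43363) x25867) x34615) x31699) x29755) x30079) x30403) x30187) x30295) x30223) x30243) x49923) x10559)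
    (Nat.add (Nat.add (Nat.add (Nat.add (Nat.add (Nat.add (Nat.add (Nat.add (Nat.add (Nat.add (Nat.add (Nat.add (Nat.add (Nat.add C x17121) x43365) x25869) x34617) x31701) x29757) x30081) x30405) x30189) x30297) x30225) x30249) x30241) x10561)
    (Nat.add (Nat.add (Nat.add (Nat.add (Nat.add (Nat.add (Nat.add (Nat.add (Nat.add (Nat.add (Nat.add (Nat.add (Nat.add (Nat.add (Nat.add C x30249) x17127) x43371) x25875) x34623) x31707) x29763) x30087) x30411) x30195) x30303) x30231) x30267) x30243) x10567)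
    (Nat.add (Nat.add (Nat.add (Nat.add (Nat.add (Nat.add (Nat.add (Nat.add (Nat.add (Nat.add (Nat.add (Nat.add C x30267) x17145) x43389) x25893) x34641) x31725) x29781) x30105) x30429) x30321) x30249) x10585)
    (Nat.add (Nat.add (Nat.add (Nat.add (Nat.add (Nat.add (Nat.add (Nat.add (Nat.add (Nat.add (Nat.add (Nat.add C x30295) x17173) x43417) x25921) x34669) x31753) x29809) x30457) x30241) x30297) x49977) x10613)
    (Nat.add (Nat.add (Nat.add (Nat.add (Nat.add (Nat.add (Nat.add (Nat.add (Nat.add (Nat.add (Nat.add C x17175) x43419) x25923) x34671) x31755) x29811) x30459) x30243) x30303) x30295) x10615)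
    (Nat.add (Nat.add (Nat.add (Nat.add (Nat.add (Nat.add (Nat.add (Nat.add (Nat.add (Nat.add (Nat.add C x17181) x43425) x25929) x34677) x31761) x29817) x30465) x30249) x30321) x30297) x10621)
    (Nat.add (Nat.add (Nat.add (Nat.add (Nat.add (Nat.add (Nat.add (Nat.add (Nat.add (Nat.add (Nat.add C (Nat.mul x30321 (nat_lit 2))) x17199) x43443) x25947) x34695) x31779) x29835) x30483) x30267) x30303) x10639)
    (Nat.add (Nat.add (Nat.add (Nat.add (Nat.add (Nat.add (Nat.add (Nat.add (Nat.add C (Nat.mul x30377 (nat_lit 2))) x17255) x43499) x26003) x34751) x31835) x30215) x30379) x50059)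
    (Nat.add (Nat.add (Nat.add (Nat.add (Nat.add (Nat.add (Nat.add (Nat.add (Nat.add (Nat.add (Nat.add (Nat.add C (Nat.mul x30379 (nat_lit 2))) x17257) x43501) x26005) x34753) x31837) x30217) x30385) x30377) x30381) x50061) x10697)
    (Nat.add (Nat.add (Nat.add (Nat.add (Nat.add (Nat.add (Nat.add (Nat.add (Nat.add C x17259) x43503) x26007) x34755) x31839) x30219) x30387) x30379) x10699)
    (Nat.add (Nat.add (Nat.add (Nat.add (Nat.add (Nat.add (Nat.add (Nat.add (Nat.add (Nat.add (Nat.add (Nat.add C x30385) x17263) x43507) x26011) x34759) x31843) x30223) x30403) x30379) x30387) x50067) x10703)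
    (Nat.add (Nat.add (Nat.add (Nat.add (Nat.add (Nat.add (Nat.add (Nat.add (Nat.add (Nat.add (Nat.add (Nat.add C x30387) x17265) x43509) x26013) x34761) x31845) x30225) x30405) x30381) x30393) x30385) x10705)
    (Nat.add (Nat.add (Nat.add (Nat.add (Nat.add (Nat.add (Nat.add (Nat.add (Nat.add C x17271) x43515) x26019) x34767) x31851) x30231) x30411) x30387) x10711)
    (Nat.add (Nat.add (Nat.add (Nat.add (Nat.add (Nat.add (Nat.add (Nat.add (Nat.add (Nat.add (Nat.add (Nat.add C x30403) x17281) x43525) x26029) x34777) x31861) x30241) x30457) x30385) x30405) x50085) x10721)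
    (Nat.add (Nat.add (Nat.add (Nat.add (Nat.add (Nat.add (Nat.add (Nat.add (Nat.add (Nat.add (Nat.add C x17283) x43527) x26031) x34779) x31863) x30243) x30459) x30387) x30411) x30403) x10723)
    (Nat.add (Nat.add (Nat.add (Nat.add (Nat.add (Nat.add (Nat.add (Nat.add (Nat.add (Nat.add (Nat.add (Nat.add C x30411) x17289) x43533) x26037) x34785) x31869) x30249) x30465) x30393) x30429) x30405) x10729)
    (Nat.add (Nat.add (Nat.add (Nat.add (Nat.add (Nat.add (Nat.add (Nat.add (Nat.add C x17307) x43551) x26055) x34803) x31887) x30267) x30483) x30411) x10747)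
    (Nat.add (Nat.add (Nat.add (Nat.add (Nat.add (Nat.add (Nat.add (Nat.add (Nat.add (Nat.add (Nat.add C (Nat.mul x30457 (nat_lit 3))) x17335) x43579) x26083) x34831) x31915) x30295) x30403) x30459) x50139) x10775)
    (Nat.add (Nat.add (Nat.add (Nat.add (Nat.add (Nat.add (Nat.add (Nat.add (Nat.add (Nat.add (Nat.add C (Nat.mul x30459 (nat_lit 2))) x17337) x43581) x26085) x34833) x31917) x30297) x30405) x30465) x30457) x10777)
    (Nat.add (Nat.add (Nat.add (Nat.add (Nat.add (Nat.add (Nat.add (Nat.add (Nat.add (Nat.add (Nat.add C (Nat.mul x30465 (nat_lit 2))) x17343) x43587) x26091) x34839) x31923) x30303) x30411) x30483) x30459) x10783)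
    (Nat.add (Nat.add (Nat.add (Nat.add (Nat.add (Nat.add (Nat.add (Nat.add (Nat.add (Nat.add (Nat.add C (Nat.mul x30483 (nat_lit 3))) x17361) x43605) x26109) x34857) x31941) x30321) x30429) x30537) x30465) x10801)
    (Nat.add (Nat.add (Nat.add (Nat.add (Nat.add (Nat.add (Nat.add (Nat.add C (Nat.mul x30537 (nat_lit 4))) x17415) x43659) x26163) x34911) x31995) x30483) x10855)
    (Nat.add (Nat.add (Nat.add (Nat.add (Nat.add (Nat.add (Nat.add (Nat.add C (Nat.mul x30635 (nat_lit 3))) x17513) x43757) x35009) x29177) x30653) x30641) x50317)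
    (Nat.add (Nat.add (Nat.add (Nat.add (Nat.add (Nat.add (Nat.add (Nat.add (Nat.add C x30641) x17519) x43763) x35015) x29183) x30659) x30635) x30643) x50323)
    (Nat.add (Nat.add (Nat.add (Nat.add (Nat.add (Nat.add (Nat.add (Nat.add (Nat.add C (Nat.mul x30643 (nat_lit 2))) x17521) x43765) x35017) x29185) x30661) x30641) x50325) x10961)
    (Nat.add (Nat.add (Nat.add (Nat.add (Nat.add (Nat.add (Nat.add (Nat.add (Nat.add C x30653) x17531) x43775) x35027) x29195) x30707) x30635) x30659) x50335)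
    (Nat.add (Nat.add (Nat.add (Nat.add (Nat.add (Nat.add (Nat.add (Nat.add (Nat.add (Nat.add (Nat.add (Nat.add C x30659) x17537) x43781) x35033) x29201) x30713) x30641) x30677) x30653) x30665) x30661) x50341)
    (Nat.add (Nat.add (Nat.add (Nat.add (Nat.add (Nat.add (Nat.add (Nat.add (Nat.add (Nat.add (Nat.add (Nat.add C x30661) x17539) x43783) x35035) x29203) x30715) x30643) x30679) x30667) x30659) x50343) x10979)
    (Nat.sub (Nat.add (Nat.add (Nat.add (Nat.add (Nat.add (Nat.add (Nat.add (Nat.add (Nat.add C x17543) x43787) x35039) x29207) x30719) x30683) x30659) x30667) x50347) x30665)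
    (Nat.add (Nat.add (Nat.add (Nat.add (Nat.add (Nat.add (Nat.add (Nat.add (Nat.add (Nat.add (Nat.add (Nat.add C x30667) x17545) x43789) x35041) x29209) x30721) x30685) x30661) x30665) x30669) x50349) x10985)
    (Nat.add (Nat.add (Nat.add (Nat.add (Nat.add (Nat.add (Nat.add (Nat.add (Nat.add C x30669) x17547) x43791) x35043) x29211) x30723) x30687) x30667) x10987)
    (Nat.sub (Nat.add (Nat.add (Nat.add (Nat.add (Nat.add (Nat.add (Nat.add (Nat.add (Nat.add C x17555) x43799) x35051) x29219) x30731) x30659) x30683) x30679) x50359) x30677)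
    (Nat.sub (Nat.add (Nat.add (Nat.add (Nat.add (Nat.add (Nat.add (Nat.add (Nat.add (Nat.add (Nat.add C x17557) x43801) x35053) x29221) x30733) x30661) x30685) x30677) x50361) x10997) (Nat.mul x30679 (nat_lit 2)))
    (Nat.sub (Nat.add (Nat.add (Nat.add (Nat.add (Nat.add (Nat.add (Nat.add (Nat.add (Nat.add C x17561) x43805) x35057) x29225) x30737) x30665) x30677) x30685) x50365) x30683)
    (Nat.add (Nat.add (Nat.add (Nat.add (Nat.add (Nat.add (Nat.add (Nat.add (Nat.add (Nat.add (Nat.add (Nat.add C x17563) x43807) x35059) x29227) x30739) x30667) x30679) x30691) x30683) x30687) x50367) x11003)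
    (Nat.sub (Nat.add (Nat.add (Nat.add (Nat.add (Nat.add (Nat.add (Nat.add (Nat.add (Nat.add C x17565) x43809) x35061) x29229) x30741) x30669) x30693) x30685) x11005) x30687)
    (Nat.add (Nat.add (Nat.add (Nat.add (Nat.add (Nat.add (Nat.add (Nat.add (Nat.add C x17569) x43813) x35065) x29233) x30745) x30685) x30693) x50373) x11009)
    (Nat.add (Nat.add (Nat.add (Nat.add (Nat.add (Nat.add (Nat.add (Nat.add (Nat.add C x30693) x17571) x43815) x35067) x29235) x30747) x30687) x30691) x11011)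
    (Nat.add (Nat.add (Nat.add (Nat.add (Nat.add (Nat.add (Nat.add (Nat.add (Nat.add C x30707) x17585) x43829) x35081) x29249) x30869) x30653) x30713) x50389)
    (Nat.add (Nat.add (Nat.add (Nat.add (Nat.add (Nat.add (Nat.add (Nat.add (Nat.add (Nat.add (Nat.add C x17591) x43835) x35087) x29255) x30875) x30659) x30731) x30707) x30719) x30715) x50395)
    (Nat.add (Nat.add (Nat.add (Nat.add (Nat.add (Nat.add (Nat.add (Nat.add (Nat.add (Nat.add (Nat.add C x17593) x43837) x35089) x29257) x30877) x30661) x30733) x30721) x30713) x50397) x11033)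
    (Nat.sub (Nat.add (Nat.add (Nat.add (Nat.add (Nat.add (Nat.add (Nat.add (Nat.add (Nat.add (Nat.add C x17597) x43841) x35093) x29261) x30881) x30665) x30737) x30713) x30721) x50401) (Nat.mul x30719 (nat_lit 3)))
    (Nat.sub (Nat.add (Nat.add (Nat.add (Nat.add (Nat.add (Nat.add (Nat.add (Nat.add (Nat.add (Nat.add (Nat.add (Nat.add C x17599) x43843) x35095) x29263) x30883) x30667) x30739) x30715) x30719) x30723) x50403) x11039) x30721)
    (Nat.sub (Nat.add (Nat.add (Nat.add (Nat.add (Nat.add (Nat.add (Nat.add (Nat.add (Nat.add C x17601) x43845) x35097) x29265) x30885) x30669) x30741) x30721) x11041) x30723)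
    (Nat.add (Nat.add (Nat.add (Nat.add (Nat.add (Nat.add (Nat.add (Nat.add (Nat.add (Nat.add (Nat.add C x17609) x43853) x35105) x29273) x30893) x30677) x30785) x30713) x30737) x30733) x50413)
    (Nat.sub (Nat.add (Nat.add (Nat.add (Nat.add (Nat.add (Nat.add (Nat.add (Nat.add (Nat.add (Nat.add (Nat.add (Nat.add C x17611) x43855) x35107) x29275) x30895) x30679) x30787) x30715) x30739) x30731) x50415) x11051) x30733)
    (Nat.sub (Nat.add (Nat.add (Nat.add (Nat.add (Nat.add (Nat.add (Nat.add (Nat.add (Nat.add (Nat.add (Nat.add (Nat.add C x17615) x43859) x35111) x29279) x30899) x30683) x30791) x30719) x30755) x30731) x30739) x50419) x30737)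
    (Nat.add (Nat.add (Nat.add (Nat.add (Nat.add (Nat.add (Nat.add (Nat.add (Nat.add (Nat.add (Nat.add (Nat.add (Nat.add (Nat.add (Nat.add C x17617) x43861) x35113) x29281) x30901) x30685) x30793) x30721) x30757) x30733) x30745) x30737) x30741) x50421) x11057)
    (Nat.sub (Nat.add (Nat.add (Nat.add (Nat.add (Nat.add (Nat.add (Nat.add (Nat.add (Nat.add (Nat.add (Nat.add (Nat.add C x17619) x43863) x35115) x29283) x30903) x30687) x30795) x30723) x30759) x30747) x30739) x11059) x30741)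
    (Nat.sub (Nat.add (Nat.add (Nat.add (Nat.add (Nat.add (Nat.add (Nat.add (Nat.add (Nat.add (Nat.add (Nat.add (Nat.add C x17623) x43867) x35119) x29287) x30907) x30691) x30799) x30763) x30739) x30747) x50427) x11063) x30745)
    (Nat.add (Nat.add (Nat.add (Nat.add (Nat.add (Nat.add (Nat.add (Nat.add (Nat.add (Nat.add (Nat.add C x17625) x43869) x35121) x29289) x30909) x30693) x30801) x30765) x30741) x30745) x11065)
    (Nat.sub (Nat.add (Nat.add (Nat.add (Nat.add (Nat.add (Nat.add (Nat.add (Nat.add (Nat.add C x17633) x43877) x35129) x29297) x30917) x30809) x30737) x30757) x50437) x30755)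
    (Nat.sub (Nat.add (Nat.add (Nat.add (Nat.add (Nat.add (Nat.add (Nat.add (Nat.add (Nat.add (Nat.add (Nat.add (Nat.add C x17635) x43879) x35131) x29299) x30919) x30811) x30739) x30763) x30755) x30759) x50439) x11075) x30757)
    (Nat.sub (Nat.add (Nat.add (Nat.add (Nat.add (Nat.add (Nat.add (Nat.add (Nat.add (Nat.add (Nat.add C x17637) x43881) x35133) x29301) x30921) x30813) x30741) x30765) x30757) x11077) (Nat.mul x30759 (nat_lit 3)))
    (Nat.add (Nat.add (Nat.add (Nat.add (Nat.add (Nat.add (Nat.add (Nat.add (Nat.add (Nat.add (Nat.add C x17641) x43885) x35137) x29305) x30925) x30817) x30745) x30757) x30765) x50445) x11081)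
    (Nat.add (Nat.add (Nat.add (Nat.add (Nat.add (Nat.add (Nat.add (Nat.add (Nat.add (Nat.add (Nat.add C x17643) x43887) x35139) x29307) x30927) x30819) x30747) x30759) x30771) x30763) x11083)
    (Nat.add (Nat.add (Nat.add (Nat.add (Nat.add (Nat.add (Nat.add (Nat.add (Nat.add C x30771) x17649) x43893) x35145) x29313) x30933) x30825) x30765) x11089)
    (Nat.sub (Nat.add (Nat.add (Nat.add (Nat.add (Nat.add (Nat.add (Nat.add (Nat.add (Nat.add C x17663) x43907) x35159) x29327) x30947) x30731) x30791) x30787) x50467) x30785)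
    (Nat.sub (Nat.add (Nat.add (Nat.add (Nat.add (Nat.add (Nat.add (Nat.add (Nat.add (Nat.add (Nat.add C x17665) x43909) x35161) x29329) x30949) x30733) x30793) x30785) x50469) x11105) (Nat.mul x30787 (nat_lit 2)))
    (Nat.sub (Nat.add (Nat.add (Nat.add (Nat.add (Nat.add (Nat.add (Nat.add (Nat.add (Nat.add (Nat.add C x17669) x43913) x35165) x29333) x30953) x30737) x30809) x30785) x30793) x50473) (Nat.mul x30791 (nat_lit 3)))
    (Nat.sub (Nat.add (Nat.add (Nat.add (Nat.add (Nat.add (Nat.add (Nat.add (Nat.add (Nat.add (Nat.add (Nat.add (Nat.add (Nat.add C x17671) x43915) x35167) x29335) x30955) x30739) x30811) x30787) x30799) x30791) x30795) x50475) x11111) (Nat.mul x30793 (nat_lit 2)))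
    (Nat.sub (Nat.add (Nat.add (Nat.add (Nat.add (Nat.add (Nat.add (Nat.add (Nat.add (Nat.add (Nat.add C x17673) x43917) x35169) x29337) x30957) x30741) x30813) x30801) x30793) x11113) (Nat.mul x30795 (nat_lit 3)))
    (Nat.sub (Nat.add (Nat.add (Nat.add (Nat.add (Nat.add (Nat.add (Nat.add (Nat.add (Nat.add (Nat.add (Nat.add C x17677) x43921) x35173) x29341) x30961) x30745) x30817) x30793) x30801) x50481) x11117) (Nat.mul x30799 (nat_lit 4)))
    (Nat.sub (Nat.add (Nat.add (Nat.add (Nat.add (Nat.add (Nat.add (Nat.add (Nat.add (Nat.add (Nat.add C x17679) x43923) x35175) x29343) x30963) x30747) x30819) x30795) x30799) x11119) (Nat.mul x30801 (nat_lit 3)))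
    (Nat.sub (Nat.add (Nat.add (Nat.add (Nat.add (Nat.add (Nat.add (Nat.add (Nat.add (Nat.add C x17687) x43931) x35183) x29351) x30971) x30755) x30791) x30811) x50491) x30809)
    (Nat.sub (Nat.add (Nat.add (Nat.add (Nat.add (Nat.add (Nat.add (Nat.add (Nat.add (Nat.add (Nat.add (Nat.add (Nat.add C x17689) x43933) x35185) x29353) x30973) x30757) x30793) x30817) x30809) x30813) x50493) x11129) x30811)
    (Nat.sub (Nat.add (Nat.add (Nat.add (Nat.add (Nat.add (Nat.add (Nat.add (Nat.add (Nat.add (Nat.add C x17691) x43935) x35187) x29355) x30975) x30759) x30795) x30819) x30811) x11131) (Nat.mul x30813 (nat_lit 3)))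
    (Nat.sub (Nat.add (Nat.add (Nat.add (Nat.add (Nat.add (Nat.add (Nat.add (Nat.add (Nat.add (Nat.add (Nat.add (Nat.add C x17695) x43939) x35191) x29359) x30979) x30763) x30799) x30835) x30811) x30819) x50499) x11135) x30817)
    (Nat.sub (Nat.add (Nat.add (Nat.add (Nat.add (Nat.add (Nat.add (Nat.add (Nat.add (Nat.add (Nat.add (Nat.add (Nat.add C x17697) x43941) x35193) x29361) x30981) x30765) x30801) x30837) x30813) x30825) x30817) x11137) x30819)
    (Nat.sub (Nat.add (Nat.add (Nat.add (Nat.add (Nat.add (Nat.add (Nat.add (Nat.add (Nat.add C x17703) x43947) x35199) x29367) x30987) x30771) x30843) x30819) x11143) x30825)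
    (Nat.add (Nat.add (Nat.add (Nat.add (Nat.add (Nat.add (Nat.add (Nat.add (Nat.add C x17713) x43957) x35209) x29377) x30997) x30817) x30837) x50517) x11153)
    (Nat.sub (Nat.add (Nat.add (Nat.add (Nat.add (Nat.add (Nat.add (Nat.add (Nat.add (Nat.add C x17715) x43959) x35211) x29379) x30999) x30819) x30843) x30835) x11155) x30837)
    (Nat.add (Nat.add (Nat.add (Nat.add (Nat.add (Nat.add (Nat.add (Nat.add (Nat.add C x30843) x17721) x43965) x35217) x29385) x31005) x30825) x30837) x11161)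
    (Nat.add (Nat.add (Nat.add (Nat.add (Nat.add (Nat.add (Nat.add (Nat.add (Nat.add C x30869) x17747) x43991) x35243) x29411) x31355) x30707) x30875) x50551)
    (Nat.add (Nat.add (Nat.add (Nat.add (Nat.add (Nat.add (Nat.add (Nat.add (Nat.add (Nat.add (Nat.add C x17753) x43997) x35249) x29417) x31361) x30713) x30893) x30869) x30881) x30877) x50557)
    (Nat.add (Nat.add (Nat.add (Nat.add (Nat.add (Nat.add (Nat.add (Nat.add (Nat.add (Nat.add (Nat.add C x17755) x43999) x35251) x29419) x31363) x30715) x30895) x30883) x30875) x50559) x11195)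
    (Nat.sub (Nat.add (Nat.add (Nat.add (Nat.add (Nat.add (Nat.add (Nat.add (Nat.add (Nat.add (Nat.add C x17759) x44003) x35255) x29423) x31367) x30719) x30899) x30875) x30883) x50563) (Nat.mul x30881 (nat_lit 3)))
    (Nat.sub (Nat.add (Nat.add (Nat.add (Nat.add (Nat.add (Nat.add (Nat.add (Nat.add (Nat.add (Nat.add (Nat.add (Nat.add C x17761) x44005) x35257) x29425) x31369) x30721) x30901) x30877) x30881) x30885) x50565) x11201) x30883)
    (Nat.sub (Nat.add (Nat.add (Nat.add (Nat.add (Nat.add (Nat.add (Nat.add (Nat.add (Nat.add C x17763) x44007) x35259) x29427) x31371) x30723) x30903) x30883) x11203) x30885)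
    (Nat.sub (Nat.add (Nat.add (Nat.add (Nat.add (Nat.add (Nat.add (Nat.add (Nat.add (Nat.add (Nat.add (Nat.add C x17771) x44015) x35267) x29435) x31379) x30731) x30947) x30875) x30899) x30895) x50575) x30893)
    (Nat.sub (Nat.add (Nat.add (Nat.add (Nat.add (Nat.add (Nat.add (Nat.add (Nat.add (Nat.add (Nat.add (Nat.add (Nat.add C x17773) x44017) x35269) x29437) x31381) x30733) x30949) x30877) x30901) x30893) x50577) x11213) (Nat.mul x30895 (nat_lit 2)))
    (Nat.sub (Nat.add (Nat.add (Nat.add (Nat.add (Nat.add (Nat.add (Nat.add (Nat.add (Nat.add (Nat.add (Nat.add (Nat.add C x17777) x44021) x35273) x29441) x31385) x30737) x30953) x30881) x30917) x30893) x30901) x50581) (Nat.mul x30899 (nat_lit 2)))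
    (Nat.sub (Nat.add (Nat.add (Nat.add (Nat.add (Nat.add (Nat.add (Nat.add (Nat.add (Nat.add (Nat.add (Nat.add (Nat.add (Nat.add (Nat.add (Nat.add C x17779) x44023) x35275) x29443) x31387) x30739) x30955) x30883) x30919) x30895) x30907) x30899) x30903) x50583) x11219) x30901)
    (Nat.sub (Nat.add (Nat.add (Nat.add (Nat.add (Nat.add (Nat.add (Nat.add (Nat.add (Nat.add (Nat.add (Nat.add (Nat.add C x17781) x44025) x35277) x29445) x31389) x30741) x30957) x30885) x30921) x30909) x30901) x11221) (Nat.mul x30903 (nat_lit 2)))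
    (Nat.sub (Nat.add (Nat.add (Nat.add (Nat.add (Nat.add (Nat.add (Nat.add (Nat.add (Nat.add (Nat.add (Nat.add (Nat.add C x17785) x44029) x35281) x29449) x31393) x30745) x30961) x30925) x30901) x30909) x50589) x11225) (Nat.mul x30907 (nat_lit 2)))
    (Nat.sub (Nat.add (Nat.add (Nat.add (Nat.add (Nat.add (Nat.add (Nat.add (Nat.add (Nat.add (Nat.add (Nat.add C x17787) x44031) x35283) x29451) x31395) x30747) x30963) x30927) x30903) x30907) x11227) x30909)
    (Nat.sub (Nat.add (Nat.add (Nat.add (Nat.add (Nat.add (Nat.add (Nat.add (Nat.add (Nat.add (Nat.add C x17795) x44039) x35291) x29459) x31403) x30755) x30971) x30899) x30919) x50599) (Nat.mul x30917 (nat_lit 3)))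
    (Nat.sub (Nat.add (Nat.add (Nat.add (Nat.add (Nat.add (Nat.add (Nat.add (Nat.add (Nat.add (Nat.add (Nat.add (Nat.add (Nat.add C x17797) x44041) x35293) x29461) x31405) x30757) x30973) x30901) x30925) x30917) x30921) x50601) x11237) (Nat.mul x30919 (nat_lit 3)))
    (Nat.sub (Nat.add (Nat.add (Nat.add (Nat.add (Nat.add (Nat.add (Nat.add (Nat.add (Nat.add (Nat.add (Nat.add C x17799) x44043) x35295) x29463) x31407) x30759) x30975) x30903) x30927) x30919) x11239) (Nat.mul x30921 (nat_lit 5)))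
    (Nat.sub (Nat.add (Nat.add (Nat.add (Nat.add (Nat.add (Nat.add (Nat.add (Nat.add (Nat.add (Nat.add (Nat.add (Nat.add C x17803) x44047) x35299) x29467) x31411) x30763) x30979) x30907) x30919) x30927) x50607) x11243) (Nat.mul x30925 (nat_lit 2)))
    (Nat.sub (Nat.add (Nat.add (Nat.add (Nat.add (Nat.add (Nat.add (Nat.add (Nat.add (Nat.add (Nat.add (Nat.add (Nat.add C x17805) x44049) x35301) x29469) x31413) x30765) x30981) x30909) x30921) x30933) x30925) x11245) (Nat.mul x30927 (nat_lit 2)))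
    (Nat.sub (Nat.add (Nat.add (Nat.add (Nat.add (Nat.add (Nat.add (Nat.add (Nat.add (Nat.add C x17811) x44055) x35307) x29475) x31419) x30771) x30987) x30927) x11251) x30933)
    (Nat.add (Nat.add (Nat.add (Nat.add (Nat.add (Nat.add (Nat.add (Nat.add (Nat.add (Nat.add (Nat.add C x17825) x44069) x35321) x29489) x31433) x30785) x31109) x30893) x30953) x30949) x50629)
    (Nat.sub (Nat.add (Nat.add (Nat.add (Nat.add (Nat.add (Nat.add (Nat.add (Nat.add (Nat.add (Nat.add (Nat.add (Nat.add C x17827) x44071) x35323) x29491) x31435) x30787) x31111) x30895) x30955) x30947) x50631) x11267) x30949)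
    (Nat.sub (Nat.add (Nat.add (Nat.add (Nat.add (Nat.add (Nat.add (Nat.add (Nat.add (Nat.add (Nat.add (Nat.add (Nat.add C x17831) x44075) x35327) x29495) x31439) x30791) x31115) x30899) x30971) x30947) x30955) x50635) (Nat.mul x30953 (nat_lit 2)))
    (Nat.sub (Nat.add (Nat.add (Nat.add (Nat.add (Nat.add (Nat.add (Nat.add (Nat.add (Nat.add (Nat.add (Nat.add (Nat.add (Nat.add (Nat.add (Nat.add C x17833) x44077) x35329) x29497) x31441) x30793) x31117) x30901) x30973) x30949) x30961) x30953) x30957) x50637) x11273) x30955)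
    (Nat.sub (Nat.add (Nat.add (Nat.add (Nat.add (Nat.add (Nat.add (Nat.add (Nat.add (Nat.add (Nat.add (Nat.add (Nat.add C x17835) x44079) x35331) x29499) x31443) x30795) x31119) x30903) x30975) x30963) x30955) x11275) (Nat.mul x30957 (nat_lit 2)))
    (Nat.sub (Nat.add (Nat.add (Nat.add (Nat.add (Nat.add (Nat.add (Nat.add (Nat.add (Nat.add (Nat.add (Nat.add (Nat.add (Nat.add C x17839) x44083) x35335) x29503) x31447) x30799) x31123) x30907) x30979) x30955) x30963) x50643) x11279) (Nat.mul x30961 (nat_lit 3)))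
    (Nat.sub (Nat.add (Nat.add (Nat.add (Nat.add (Nat.add (Nat.add (Nat.add (Nat.add (Nat.add (Nat.add (Nat.add (Nat.add C x17841) x44085) x35337) x29505) x31449) x30801) x31125) x30909) x30981) x30957) x30961) x11281) (Nat.mul x30963 (nat_lit 2)))
    (Nat.sub (Nat.add (Nat.add (Nat.add (Nat.add (Nat.add (Nat.add (Nat.add (Nat.add (Nat.add (Nat.add (Nat.add (Nat.add C x17849) x44093) x35345) x29513) x31457) x30809) x31133) x30917) x31025) x30953) x30973) x50653) x30971)
    (Nat.sub (Nat.add (Nat.add (Nat.add (Nat.add (Nat.add (Nat.add (Nat.add (Nat.add (Nat.add (Nat.add (Nat.add (Nat.add (Nat.add (Nat.add (Nat.add C x17851) x44095) x35347) x29515) x31459) x30811) x31135) x30919) x31027) x30955) x30979) x30971) x30975) x50655) x11291) x30973)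
    (Nat.sub (Nat.add (Nat.add (Nat.add (Nat.add (Nat.add (Nat.add (Nat.add (Nat.add (Nat.add (Nat.add (Nat.add (Nat.add (Nat.add C x17853) x44097) x35349) x29517) x31461) x30813) x31137) x30921) x31029) x30957) x30981) x30973) x11293) (Nat.mul x30975 (nat_lit 3)))
    (Nat.sub (Nat.add (Nat.add (Nat.add (Nat.add (Nat.add (Nat.add (Nat.add (Nat.add (Nat.add (Nat.add (Nat.add (Nat.add (Nat.add (Nat.add (Nat.add C x17857) x44101) x35353) x29521) x31465) x30817) x31141) x30925) x31033) x30961) x30997) x30973) x30981) x50661) x11297) x30979)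
    (Nat.sub (Nat.add (Nat.add (Nat.add (Nat.add (Nat.add (Nat.add (Nat.add (Nat.add (Nat.add (Nat.add (Nat.add (Nat.add (Nat.add (Nat.add (Nat.add C x17859) x44103) x35355) x29523) x31467) x30819) x31143) x30927) x31035) x30963) x30999) x30975) x30987) x30979) x11299) x30981)
    (Nat.sub (Nat.add (Nat.add (Nat.add (Nat.add (Nat.add (Nat.add (Nat.add (Nat.add (Nat.add (Nat.add (Nat.add (Nat.add C x17865) x44109) x35361) x29529) x31473) x30825) x31149) x30933) x31041) x31005) x30981) x11305) x30987)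
    (Nat.sub (Nat.add (Nat.add (Nat.add (Nat.add (Nat.add (Nat.add (Nat.add (Nat.add (Nat.add (Nat.add (Nat.add (Nat.add C x17875) x44119) x35371) x29539) x31483) x30835) x31159) x31051) x30979) x30999) x50679) x11315) x30997)
    (Nat.sub (Nat.add (Nat.add (Nat.add (Nat.add (Nat.add (Nat.add (Nat.add (Nat.add (Nat.add (Nat.add (Nat.add (Nat.add C x17877) x44121) x35373) x29541) x31485) x30837) x31161) x31053) x30981) x31005) x30997) x11317) (Nat.mul x30999 (nat_lit 2)))
    (Nat.add (Nat.add (Nat.add (Nat.add (Nat.add (Nat.add (Nat.add (Nat.add (Nat.add (Nat.add (Nat.add C x17883) x44127) x35379) x29547) x31491) x30843) x31167) x31059) x30987) x30999) x11323)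
    (Nat.sub (Nat.add (Nat.add (Nat.add (Nat.add (Nat.add (Nat.add (Nat.add (Nat.add (Nat.add C x17903) x44147) x35399) x29567) x31511) x31187) x30971) x31027) x50707) x31025)
    (Nat.sub (Nat.add (Nat.add (Nat.add (Nat.add (Nat.add (Nat.add (Nat.add (Nat.add (Nat.add (Nat.add (Nat.add (Nat.add C x17905) x44149) x35401) x29569) x31513) x31189) x30973) x31033) x31025) x31029) x50709) x11345) x31027)
    (Nat.sub (Nat.add (Nat.add (Nat.add (Nat.add (Nat.add (Nat.add (Nat.add (Nat.add (Nat.add (Nat.add C x17907) x44151) x35403) x29571) x31515) x31191) x30975) x31035) x31027) x11347) (Nat.mul x31029 (nat_lit 3)))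
    (Nat.sub (Nat.add (Nat.add (Nat.add (Nat.add (Nat.add (Nat.add (Nat.add (Nat.add (Nat.add (Nat.add (Nat.add (Nat.add C x17911) x44155) x35407) x29575) x31519) x31195) x30979) x31051) x31027) x31035) x50715) x11351) (Nat.mul x31033 (nat_lit 2)))
    (Nat.sub (Nat.add (Nat.add (Nat.add (Nat.add (Nat.add (Nat.add (Nat.add (Nat.add (Nat.add (Nat.add (Nat.add (Nat.add C x17913) x44157) x35409) x29577) x31521) x31197) x30981) x31053) x31029) x31041) x31033) x11353) (Nat.mul x31035 (nat_lit 2)))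
    (Nat.sub (Nat.add (Nat.add (Nat.add (Nat.add (Nat.add (Nat.add (Nat.add (Nat.add (Nat.add (Nat.add C x17919) x44163) x35415) x29583) x31527) x31203) x30987) x31059) x31035) x11359) (Nat.mul x31041 (nat_lit 3)))
    (Nat.add (Nat.add (Nat.add (Nat.add (Nat.add (Nat.add (Nat.add (Nat.add (Nat.add (Nat.add (Nat.add C x17929) x44173) x35425) x29593) x31537) x31213) x30997) x31033) x31053) x50733) x11369)
    (Nat.sub (Nat.add (Nat.add (Nat.add (Nat.add (Nat.add (Nat.add (Nat.add (Nat.add (Nat.add (Nat.add (Nat.add C x17931) x44175) x35427) x29595) x31539) x31215) x30999) x31035) x31059) x31051) x11371) x31053)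
    (Nat.add (Nat.add (Nat.add (Nat.add (Nat.add (Nat.add (Nat.add (Nat.add (Nat.add (Nat.add (Nat.add C x17937) x44181) x35433) x29601) x31545) x31221) x31005) x31041) x31077) x31053) x11377)
    (Nat.add (Nat.add (Nat.add (Nat.add (Nat.add (Nat.add (Nat.add (Nat.add (Nat.add C x31077) x17955) x44199) x35451) x29619) x31563) x31239) x31059) x11395)
    (Nat.sub (Nat.add (Nat.add (Nat.add (Nat.add (Nat.add (Nat.add (Nat.add (Nat.add (Nat.add C x17987) x44231) x35483) x29651) x31595) x30947) x31115) x31111) x50791) x31109)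
    (Nat.sub (Nat.add (Nat.add (Nat.add (Nat.add (Nat.add (Nat.add (Nat.add (Nat.add (Nat.add (Nat.add C x17989) x44233) x35485) x29653) x31597) x30949) x31117) x31109) x50793) x11429) (Nat.mul x31111 (nat_lit 2)))
    (Nat.sub (Nat.add (Nat.add (Nat.add (Nat.add (Nat.add (Nat.add (Nat.add (Nat.add (Nat.add (Nat.add C x17993) x44237) x35489) x29657) x31601) x30953) x31133) x31109) x31117) x50797) (Nat.mul x31115 (nat_lit 3)))
    (Nat.sub (Nat.add (Nat.add (Nat.add (Nat.add (Nat.add (Nat.add (Nat.add (Nat.add (Nat.add (Nat.add (Nat.add (Nat.add (Nat.add C x17995) x44239) x35491) x29659) x31603) x30955) x31135) x31111) x31123) x31115) x31119) x50799) x11435) (Nat.mul x31117 (nat_lit 2)))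
    (Nat.sub (Nat.add (Nat.add (Nat.add (Nat.add (Nat.add (Nat.add (Nat.add (Nat.add (Nat.add (Nat.add C x17997) x44241) x35493) x29661) x31605) x30957) x31137) x31125) x31117) x11437) (Nat.mul x31119 (nat_lit 3)))
    (Nat.sub (Nat.add (Nat.add (Nat.add (Nat.add (Nat.add (Nat.add (Nat.add (Nat.add (Nat.add (Nat.add (Nat.add C x18001) x44245) x35497) x29665) x31609) x30961) x31141) x31117) x31125) x50805) x11441) (Nat.mul x31123 (nat_lit 4)))
    (Nat.sub (Nat.add (Nat.add (Nat.add (Nat.add (Nat.add (Nat.add (Nat.add (Nat.add (Nat.add (Nat.add C x18003) x44247) x35499) x29667) x31611) x30963) x31143) x31119) x31123) x11443) (Nat.mul x31125 (nat_lit 3)))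
    (Nat.sub (Nat.add (Nat.add (Nat.add (Nat.add (Nat.add (Nat.add (Nat.add (Nat.add (Nat.add (Nat.add C x18011) x44255) x35507) x29675) x31619) x30971) x31187) x31115) x31135) x50815) (Nat.mul x31133 (nat_lit 3)))
    (Nat.sub (Nat.add (Nat.add (Nat.add (Nat.add (Nat.add (Nat.add (Nat.add (Nat.add (Nat.add (Nat.add (Nat.add (Nat.add (Nat.add C x18013) x44257) x35509) x29677) x31621) x30973) x31189) x31117) x31141) x31133) x31137) x50817) x11453) (Nat.mul x31135 (nat_lit 3)))
    (Nat.sub (Nat.add (Nat.add (Nat.add (Nat.add (Nat.add (Nat.add (Nat.add (Nat.add (Nat.add (Nat.add (Nat.add C x18015) x44259) x35511) x29679) x31623) x30975) x31191) x31119) x31143) x31135) x11455) (Nat.mul x31137 (nat_lit 5)))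
    (Nat.sub (Nat.add (Nat.add (Nat.add (Nat.add (Nat.add (Nat.add (Nat.add (Nat.add (Nat.add (Nat.add (Nat.add (Nat.add (Nat.add C x18019) x44263) x35515) x29683) x31627) x30979) x31195) x31123) x31159) x31135) x31143) x50823) x11459) (Nat.mul x31141 (nat_lit 3)))
    (Nat.sub (Nat.add (Nat.add (Nat.add (Nat.add (Nat.add (Nat.add (Nat.add (Nat.add (Nat.add (Nat.add (Nat.add (Nat.add (Nat.add C x18021) x44265) x35517) x29685) x31629) x30981) x31197) x31125) x31161) x31137) x31149) x31141) x11461) (Nat.mul x31143 (nat_lit 3)))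
    (Nat.sub (Nat.add (Nat.add (Nat.add (Nat.add (Nat.add (Nat.add (Nat.add (Nat.add (Nat.add (Nat.add C x18027) x44271) x35523) x29691) x31635) x30987) x31203) x31167) x31143) x11467) (Nat.mul x31149 (nat_lit 3)))
    (Nat.sub (Nat.add (Nat.add (Nat.add (Nat.add (Nat.add (Nat.add (Nat.add (Nat.add (Nat.add (Nat.add (Nat.add C x18037) x44281) x35533) x29701) x31645) x30997) x31213) x31141) x31161) x50841) x11477) (Nat.mul x31159 (nat_lit 4)))
    (Nat.sub (Nat.add (Nat.add (Nat.add (Nat.add (Nat.add (Nat.add (Nat.add (Nat.add (Nat.add (Nat.add (Nat.add C x18039) x44283) x35535) x29703) x31647) x30999) x31215) x31143) x31167) x31159) x11479) (Nat.mul x31161 (nat_lit 5)))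
    (Nat.sub (Nat.add (Nat.add (Nat.add (Nat.add (Nat.add (Nat.add (Nat.add (Nat.add (Nat.add (Nat.add C x18045) x44289) x35541) x29709) x31653) x31005) x31221) x31149) x31161) x11485) (Nat.mul x31167 (nat_lit 3)))
    (Nat.sub (Nat.add (Nat.add (Nat.add (Nat.add (Nat.add (Nat.add (Nat.add (Nat.add (Nat.add C x18065) x44309) x35561) x29729) x31673) x31025) x31133) x31189) x50869) x31187)
    (Nat.sub (Nat.add (Nat.add (Nat.add (Nat.add (Nat.add (Nat.add (Nat.add (Nat.add (Nat.add (Nat.add (Nat.add (Nat.add C x18067) x44311) x35563) x29731) x31675) x31027) x31135) x31195) x31187) x31191) x50871) x11507) x31189)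
    (Nat.sub (Nat.add (Nat.add (Nat.add (Nat.add (Nat.add (Nat.add (Nat.add (Nat.add (Nat.add (Nat.add C x18069) x44313) x35565) x29733) x31677) x31029) x31137) x31197) x31189) x11509) (Nat.mul x31191 (nat_lit 3)))
    (Nat.sub (Nat.add (Nat.add (Nat.add (Nat.add (Nat.add (Nat.add (Nat.add (Nat.add (Nat.add (Nat.add (Nat.add (Nat.add C x18073) x44317) x35569) x29737) x31681) x31033) x31141) x31213) x31189) x31197) x50877) x11513) (Nat.mul x31195 (nat_lit 2)))
    (Nat.sub (Nat.add (Nat.add (Nat.add (Nat.add (Nat.add (Nat.add (Nat.add (Nat.add (Nat.add (Nat.add (Nat.add (Nat.add C x18075) x44319) x35571) x29739) x31683) x31035) x31143) x31215) x31191) x31203) x31195) x11515) (Nat.mul x31197 (nat_lit 2)))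
    (Nat.sub (Nat.add (Nat.add (Nat.add (Nat.add (Nat.add (Nat.add (Nat.add (Nat.add (Nat.add (Nat.add C x18081) x44325) x35577) x29745) x31689) x31041) x31149) x31221) x31197) x11521) (Nat.mul x31203 (nat_lit 3)))
    (Nat.sub (Nat.add (Nat.add (Nat.add (Nat.add (Nat.add (Nat.add (Nat.add (Nat.add (Nat.add (Nat.add (Nat.add (Nat.add C x18091) x44335) x35587) x29755) x31699) x31051) x31159) x31267) x31195) x31215) x50895) x11531) x31213)
    (Nat.sub (Nat.add (Nat.add (Nat.add (Nat.add (Nat.add (Nat.add (Nat.add (Nat.add (Nat.add (Nat.add (Nat.add (Nat.add C x18093) x44337) x35589) x29757) x31701) x31053) x31161) x31269) x31197) x31221) x31213) x11533) (Nat.mul x31215 (nat_lit 2)))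
    (Nat.sub (Nat.add (Nat.add (Nat.add (Nat.add (Nat.add (Nat.add (Nat.add (Nat.add (Nat.add (Nat.add (Nat.add (Nat.add C x18099) x44343) x35595) x29763) x31707) x31059) x31167) x31275) x31203) x31239) x31215) x11539) x31221)
    (Nat.sub (Nat.add (Nat.add (Nat.add (Nat.add (Nat.add (Nat.add (Nat.add (Nat.add (Nat.add C x18117) x44361) x35613) x29781) x31725) x31077) x31293) x31221) x11557) x31239)
    (Nat.add (Nat.add (Nat.add (Nat.add (Nat.add (Nat.add (Nat.add (Nat.add (Nat.add C x18145) x44389) x35641) x29809) x31753) x31213) x31269) x50949) x11585)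
    (Nat.sub (Nat.add (Nat.add (Nat.add (Nat.add (Nat.add (Nat.add (Nat.add (Nat.add (Nat.add C x18147) x44391) x35643) x29811) x31755) x31215) x31275) x31267) x11587) x31269)
    (Nat.sub (Nat.add (Nat.add (Nat.add (Nat.add (Nat.add (Nat.add (Nat.add (Nat.add (Nat.add C x18153) x44397) x35649) x29817) x31761) x31221) x31293) x31269) x11593) x31275)
    (Nat.add (Nat.add (Nat.add (Nat.add (Nat.add (Nat.add (Nat.add (Nat.add (Nat.add C x31293) x18171) x44415) x35667) x29835) x31779) x31239) x31275) x11611)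
    (Nat.add (Nat.add (Nat.add (Nat.add (Nat.add (Nat.add (Nat.add (Nat.add C (Nat.mul x31355 (nat_lit 3))) x18233) x44477) x35729) x29897) x30869) x31361) x51037)
    (Nat.add (Nat.add (Nat.add (Nat.add (Nat.add (Nat.add (Nat.add (Nat.add (Nat.add (Nat.add (Nat.add C (Nat.mul x31361 (nat_lit 2))) x18239) x44483) x35735) x29903) x30875) x31379) x31355) x31367) x31363) x51043)
    (Nat.add (Nat.add (Nat.add (Nat.add (Nat.add (Nat.add (Nat.add (Nat.add (Nat.add (Nat.add (Nat.add C (Nat.mul x31363 (nat_lit 2))) x18241) x44485) x35737) x29905) x30877) x31381) x31369) x31361) x51045) x11681)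
    (Nat.sub (Nat.add (Nat.add (Nat.add (Nat.add (Nat.add (Nat.add (Nat.add (Nat.add (Nat.add C x18245) x44489) x35741) x29909) x30881) x31385) x31361) x31369) x51049) x31367)
    (Nat.add (Nat.add (Nat.add (Nat.add (Nat.add (Nat.add (Nat.add (Nat.add (Nat.add (Nat.add (Nat.add (Nat.add C x31369) x18247) x44491) x35743) x29911) x30883) x31387) x31363) x31367) x31371) x51051) x11687)
    (Nat.add (Nat.add (Nat.add (Nat.add (Nat.add (Nat.add (Nat.add (Nat.add (Nat.add C x31371) x18249) x44493) x35745) x29913) x30885) x31389) x31369) x11689)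
    (Nat.add (Nat.add (Nat.add (Nat.add (Nat.add (Nat.add (Nat.add (Nat.add (Nat.add (Nat.add (Nat.add C x31379) x18257) x44501) x35753) x29921) x30893) x31433) x31361) x31385) x31381) x51061)
    (Nat.add (Nat.add (Nat.add (Nat.add (Nat.add (Nat.add (Nat.add (Nat.add (Nat.add (Nat.add (Nat.add C x18259) x44503) x35755) x29923) x30895) x31435) x31363) x31387) x31379) x51063) x11699)
    (Nat.add (Nat.add (Nat.add (Nat.add (Nat.add (Nat.add (Nat.add (Nat.add (Nat.add (Nat.add (Nat.add C x18263) x44507) x35759) x29927) x30899) x31439) x31367) x31403) x31379) x31387) x51067)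
    (Nat.add (Nat.add (Nat.add (Nat.add (Nat.add (Nat.add (Nat.add (Nat.add (Nat.add (Nat.add (Nat.add (Nat.add (Nat.add (Nat.add (Nat.add C x31387) x18265) x44509) x35761) x29929) x30901) x31441) x31369) x31405) x31381) x31393) x31385) x31389) x51069) x11705)
    (Nat.add (Nat.add (Nat.add (Nat.add (Nat.add (Nat.add (Nat.add (Nat.add (Nat.add (Nat.add (Nat.add C x18267) x44511) x35763) x29931) x30903) x31443) x31371) x31407) x31395) x31387) x11707)
    (Nat.add (Nat.add (Nat.add (Nat.add (Nat.add (Nat.add (Nat.add (Nat.add (Nat.add (Nat.add (Nat.add C x18271) x44515) x35767) x29935) x30907) x31447) x31411) x31387) x31395) x51075) x11711)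
    (Nat.add (Nat.add (Nat.add (Nat.add (Nat.add (Nat.add (Nat.add (Nat.add (Nat.add (Nat.add (Nat.add C x31395) x18273) x44517) x35769) x29937) x30909) x31449) x31413) x31389) x31393) x11713)
    (Nat.sub (Nat.add (Nat.add (Nat.add (Nat.add (Nat.add (Nat.add (Nat.add (Nat.add (Nat.add C x18281) x44525) x35777) x29945) x30917) x31457) x31385) x31405) x51085) x31403)
    (Nat.sub (Nat.add (Nat.add (Nat.add (Nat.add (Nat.add (Nat.add (Nat.add (Nat.add (Nat.add (Nat.add (Nat.add (Nat.add C x18283) x44527) x35779) x29947) x30919) x31459) x31387) x31411) x31403) x31407) x51087) x11723) x31405)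
    (Nat.sub (Nat.add (Nat.add (Nat.add (Nat.add (Nat.add (Nat.add (Nat.add (Nat.add (Nat.add (Nat.add C x18285) x44529) x35781) x29949) x30921) x31461) x31389) x31413) x31405) x11725) (Nat.mul x31407 (nat_lit 3)))
    (Nat.add (Nat.add (Nat.add (Nat.add (Nat.add (Nat.add (Nat.add (Nat.add (Nat.add (Nat.add (Nat.add C x18289) x44533) x35785) x29953) x30925) x31465) x31393) x31405) x31413) x51093) x11729)
    (Nat.add (Nat.add (Nat.add (Nat.add (Nat.add (Nat.add (Nat.add (Nat.add (Nat.add (Nat.add (Nat.add C x18291) x44535) x35787) x29955) x30927) x31467) x31395) x31407) x31419) x31411) x11731)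
    (Nat.add (Nat.add (Nat.add (Nat.add (Nat.add (Nat.add (Nat.add (Nat.add (Nat.add C x31419) x18297) x44541) x35793) x29961) x30933) x31473) x31413) x11737)
    (Nat.add (Nat.add (Nat.add (Nat.add (Nat.add (Nat.add (Nat.add (Nat.add (Nat.add (Nat.add (Nat.add C x31433) x18311) x44555) x35807) x29975) x30947) x31595) x31379) x31439) x31435) x51115)
    (Nat.add (Nat.add (Nat.add (Nat.add (Nat.add (Nat.add (Nat.add (Nat.add (Nat.add (Nat.add (Nat.add C x18313) x44557) x35809) x29977) x30949) x31597) x31381) x31441) x31433) x51117) x11753)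
    (Nat.sub (Nat.add (Nat.add (Nat.add (Nat.add (Nat.add (Nat.add (Nat.add (Nat.add (Nat.add (Nat.add (Nat.add C x18317) x44561) x35813) x29981) x30953) x31601) x31385) x31457) x31433) x31441) x51121) x31439)
    (Nat.add (Nat.add (Nat.add (Nat.add (Nat.add (Nat.add (Nat.add (Nat.add (Nat.add (Nat.add (Nat.add (Nat.add (Nat.add (Nat.add C x18319) x44563) x35815) x29983) x30955) x31603) x31387) x31459) x31435) x31447) x31439) x31443) x51123) x11759)
    (Nat.sub (Nat.add (Nat.add (Nat.add (Nat.add (Nat.add (Nat.add (Nat.add (Nat.add (Nat.add (Nat.add (Nat.add C x18321) x44565) x35817) x29985) x30957) x31605) x31389) x31461) x31449) x31441) x11761) x31443)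
    (Nat.sub (Nat.add (Nat.add (Nat.add (Nat.add (Nat.add (Nat.add (Nat.add (Nat.add (Nat.add (Nat.add (Nat.add (Nat.add C x18325) x44569) x35821) x29989) x30961) x31609) x31393) x31465) x31441) x31449) x51129) x11765) (Nat.mul x31447 (nat_lit 2)))
    (Nat.sub (Nat.add (Nat.add (Nat.add (Nat.add (Nat.add (Nat.add (Nat.add (Nat.add (Nat.add (Nat.add (Nat.add C x18327) x44571) x35823) x29991) x30963) x31611) x31395) x31467) x31443) x31447) x11767) x31449)
    (Nat.add (Nat.add (Nat.add (Nat.add (Nat.add (Nat.add (Nat.add (Nat.add (Nat.add (Nat.add (Nat.add C x18335) x44579) x35831) x29999) x30971) x31619) x31403) x31511) x31439) x31459) x51139)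
    (Nat.add (Nat.add (Nat.add (Nat.add (Nat.add (Nat.add (Nat.add (Nat.add (Nat.add (Nat.add (Nat.add (Nat.add (Nat.add (Nat.add C x18337) x44581) x35833) x30001) x30973) x31621) x31405) x31513) x31441) x31465) x31457) x31461) x51141) x11777)
    (Nat.sub (Nat.add (Nat.add (Nat.add (Nat.add (Nat.add (Nat.add (Nat.add (Nat.add (Nat.add (Nat.add (Nat.add (Nat.add C x18339) x44583) x35835) x30003) x30975) x31623) x31407) x31515) x31443) x31467) x31459) x11779) (Nat.mul x31461 (nat_lit 2)))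
    (Nat.add (Nat.add (Nat.add (Nat.add (Nat.add (Nat.add (Nat.add (Nat.add (Nat.add (Nat.add (Nat.add (Nat.add (Nat.add (Nat.add C x18343) x44587) x35839) x30007) x30979) x31627) x31411) x31519) x31447) x31483) x31459) x31467) x51147) x11783)
    (Nat.add (Nat.add (Nat.add (Nat.add (Nat.add (Nat.add (Nat.add (Nat.add (Nat.add (Nat.add (Nat.add (Nat.add (Nat.add (Nat.add C x18345) x44589) x35841) x30009) x30981) x31629) x31413) x31521) x31449) x31485) x31461) x31473) x31465) x11785)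
    (Nat.add (Nat.add (Nat.add (Nat.add (Nat.add (Nat.add (Nat.add (Nat.add (Nat.add (Nat.add (Nat.add C x18351) x44595) x35847) x30015) x30987) x31635) x31419) x31527) x31491) x31467) x11791)
    (Nat.add (Nat.add (Nat.add (Nat.add (Nat.add (Nat.add (Nat.add (Nat.add (Nat.add (Nat.add (Nat.add C x18361) x44605) x35857) x30025) x30997) x31645) x31537) x31465) x31485) x51165) x11801)
    (Nat.sub (Nat.add (Nat.add (Nat.add (Nat.add (Nat.add (Nat.add (Nat.add (Nat.add (Nat.add (Nat.add (Nat.add C x18363) x44607) x35859) x30027) x30999) x31647) x31539) x31467) x31491) x31483) x11803) x31485)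
    (Nat.add (Nat.add (Nat.add (Nat.add (Nat.add (Nat.add (Nat.add (Nat.add (Nat.add (Nat.add (Nat.add C x31491) x18369) x44613) x35865) x30033) x31005) x31653) x31545) x31473) x31485) x11809)
    (Nat.sub (Nat.add (Nat.add (Nat.add (Nat.add (Nat.add (Nat.add (Nat.add (Nat.add (Nat.add C x18389) x44633) x35885) x30053) x31025) x31673) x31457) x31513) x51193) x31511)
    (Nat.sub (Nat.add (Nat.add (Nat.add (Nat.add (Nat.add (Nat.add (Nat.add (Nat.add (Nat.add (Nat.add (Nat.add (Nat.add C x18391) x44635) x35887) x30055) x31027) x31675) x31459) x31519) x31511) x31515) x51195) x11831) x31513)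
    (Nat.sub (Nat.add (Nat.add (Nat.add (Nat.add (Nat.add (Nat.add (Nat.add (Nat.add (Nat.add (Nat.add C x18393) x44637) x35889) x30057) x31029) x31677) x31461) x31521) x31513) x11833) (Nat.mul x31515 (nat_lit 3)))
    (Nat.sub (Nat.add (Nat.add (Nat.add (Nat.add (Nat.add (Nat.add (Nat.add (Nat.add (Nat.add (Nat.add (Nat.add (Nat.add C x18397) x44641) x35893) x30061) x31033) x31681) x31465) x31537) x31513) x31521) x51201) x11837) (Nat.mul x31519 (nat_lit 2)))
    (Nat.sub (Nat.add (Nat.add (Nat.add (Nat.add (Nat.add (Nat.add (Nat.add (Nat.add (Nat.add (Nat.add (Nat.add (Nat.add C x18399) x44643) x35895) x30063) x31035) x31683) x31467) x31539) x31515) x31527) x31519) x11839) (Nat.mul x31521 (nat_lit 2)))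
    (Nat.sub (Nat.add (Nat.add (Nat.add (Nat.add (Nat.add (Nat.add (Nat.add (Nat.add (Nat.add (Nat.add C x18405) x44649) x35901) x30069) x31041) x31689) x31473) x31545) x31521) x11845) (Nat.mul x31527 (nat_lit 3)))
    (Nat.add (Nat.add (Nat.add (Nat.add (Nat.add (Nat.add (Nat.add (Nat.add (Nat.add (Nat.add (Nat.add C x18415) x44659) x35911) x30079) x31051) x31699) x31483) x31519) x31539) x51219) x11855)
    (Nat.sub (Nat.add (Nat.add (Nat.add (Nat.add (Nat.add (Nat.add (Nat.add (Nat.add (Nat.add (Nat.add (Nat.add C x18417) x44661) x35913) x30081) x31053) x31701) x31485) x31521) x31545) x31537) x11857) x31539)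
    (Nat.add (Nat.add (Nat.add (Nat.add (Nat.add (Nat.add (Nat.add (Nat.add (Nat.add (Nat.add (Nat.add C x18423) x44667) x35919) x30087) x31059) x31707) x31491) x31527) x31563) x31539) x11863)
    (Nat.add (Nat.add (Nat.add (Nat.add (Nat.add (Nat.add (Nat.add (Nat.add (Nat.add C x31563) x18441) x44685) x35937) x30105) x31077) x31725) x31545) x11881)
    (Nat.add (Nat.add (Nat.add (Nat.add (Nat.add (Nat.add (Nat.add (Nat.add (Nat.add (Nat.add (Nat.add C (Nat.mul x31595 (nat_lit 2))) x18473) x44717) x35969) x30137) x31109) x32081) x31433) x31601) x31597) x51277)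
    (Nat.add (Nat.add (Nat.add (Nat.add (Nat.add (Nat.add (Nat.add (Nat.add (Nat.add (Nat.add (Nat.add (Nat.add C x31597) x18475) x44719) x35971) x30139) x31111) x32083) x31435) x31603) x31595) x51279) x11915)
    (Nat.add (Nat.add (Nat.add (Nat.add (Nat.add (Nat.add (Nat.add (Nat.add (Nat.add (Nat.add (Nat.add C x18479) x44723) x35975) x30143) x31115) x32087) x31439) x31619) x31595) x31603) x51283)
    (Nat.add (Nat.add (Nat.add (Nat.add (Nat.add (Nat.add (Nat.add (Nat.add (Nat.add (Nat.add (Nat.add (Nat.add (Nat.add (Nat.add (Nat.add C x31603) x18481) x44725) x35977) x30145) x31117) x32089) x31441) x31621) x31597) x31609) x31601) x31605) x51285) x11921)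
    (Nat.add (Nat.add (Nat.add (Nat.add (Nat.add (Nat.add (Nat.add (Nat.add (Nat.add (Nat.add (Nat.add C x18483) x44727) x35979) x30147) x31119) x32091) x31443) x31623) x31611) x31603) x11923)
    (Nat.sub (Nat.add (Nat.add (Nat.add (Nat.add (Nat.add (Nat.add (Nat.add (Nat.add (Nat.add (Nat.add (Nat.add (Nat.add C x18487) x44731) x35983) x30151) x31123) x32095) x31447) x31627) x31603) x31611) x51291) x11927) x31609)
    (Nat.add (Nat.add (Nat.add (Nat.add (Nat.add (Nat.add (Nat.add (Nat.add (Nat.add (Nat.add (Nat.add C x18489) x44733) x35985) x30153) x31125) x32097) x31449) x31629) x31605) x31609) x11929)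
    (Nat.add (Nat.add (Nat.add (Nat.add (Nat.add (Nat.add (Nat.add (Nat.add (Nat.add (Nat.add (Nat.add C x18497) x44741) x35993) x30161) x31133) x32105) x31457) x31673) x31601) x31621) x51301)
    (Nat.add (Nat.add (Nat.add (Nat.add (Nat.add (Nat.add (Nat.add (Nat.add (Nat.add (Nat.add (Nat.add (Nat.add (Nat.add (Nat.add C x18499) x44743) x35995) x30163) x31135) x32107) x31459) x31675) x31603) x31627) x31619) x31623) x51303) x11939)
    (Nat.sub (Nat.add (Nat.add (Nat.add (Nat.add (Nat.add (Nat.add (Nat.add (Nat.add (Nat.add (Nat.add (Nat.add (Nat.add C x18501) x44745) x35997) x30165) x31137) x32109) x31461) x31677) x31605) x31629) x31621) x11941) (Nat.mul x31623 (nat_lit 2)))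
    (Nat.add (Nat.add (Nat.add (Nat.add (Nat.add (Nat.add (Nat.add (Nat.add (Nat.add (Nat.add (Nat.add (Nat.add (Nat.add (Nat.add C x18505) x44749) x36001) x30169) x31141) x32113) x31465) x31681) x31609) x31645) x31621) x31629) x51309) x11945)
    (Nat.add (Nat.add (Nat.add (Nat.add (Nat.add (Nat.add (Nat.add (Nat.add (Nat.add (Nat.add (Nat.add (Nat.add (Nat.add (Nat.add C x18507) x44751) x36003) x30171) x31143) x32115) x31467) x31683) x31611) x31647) x31623) x31635) x31627) x11947)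
    (Nat.add (Nat.add (Nat.add (Nat.add (Nat.add (Nat.add (Nat.add (Nat.add (Nat.add (Nat.add (Nat.add C x18513) x44757) x36009) x30177) x31149) x32121) x31473) x31689) x31653) x31629) x11953)
    (Nat.sub (Nat.add (Nat.add (Nat.add (Nat.add (Nat.add (Nat.add (Nat.add (Nat.add (Nat.add (Nat.add (Nat.add (Nat.add C x18523) x44767) x36019) x30187) x31159) x32131) x31483) x31699) x31627) x31647) x51327) x11963) x31645)
    (Nat.sub (Nat.add (Nat.add (Nat.add (Nat.add (Nat.add (Nat.add (Nat.add (Nat.add (Nat.add (Nat.add (Nat.add (Nat.add C x18525) x44769) x36021) x30189) x31161) x32133) x31485) x31701) x31629) x31653) x31645) x11965) (Nat.mul x31647 (nat_lit 2)))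
    (Nat.add (Nat.add (Nat.add (Nat.add (Nat.add (Nat.add (Nat.add (Nat.add (Nat.add (Nat.add (Nat.add C x18531) x44775) x36027) x30195) x31167) x32139) x31491) x31707) x31635) x31647) x11971)
    (Nat.add (Nat.add (Nat.add (Nat.add (Nat.add (Nat.add (Nat.add (Nat.add (Nat.add (Nat.add (Nat.add (Nat.add C x31673) x18551) x44795) x36047) x30215) x31187) x32159) x31511) x31835) x31619) x31675) x51355)
    (Nat.add (Nat.add (Nat.add (Nat.add (Nat.add (Nat.add (Nat.add (Nat.add (Nat.add (Nat.add (Nat.add (Nat.add (Nat.add (Nat.add (Nat.add C x31675) x18553) x44797) x36049) x30217) x31189) x32161) x31513) x31837) x31621) x31681) x31673) x31677) x51357) x11993)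
    (Nat.sub (Nat.add (Nat.add (Nat.add (Nat.add (Nat.add (Nat.add (Nat.add (Nat.add (Nat.add (Nat.add (Nat.add (Nat.add C x18555) x44799) x36051) x30219) x31191) x32163) x31515) x31839) x31623) x31683) x31675) x11995) x31677)
    (Nat.add (Nat.add (Nat.add (Nat.add (Nat.add (Nat.add (Nat.add (Nat.add (Nat.add (Nat.add (Nat.add (Nat.add (Nat.add (Nat.add C x18559) x44803) x36055) x30223) x31195) x32167) x31519) x31843) x31627) x31699) x31675) x31683) x51363) x11999)
    (Nat.add (Nat.add (Nat.add (Nat.add (Nat.add (Nat.add (Nat.add (Nat.add (Nat.add (Nat.add (Nat.add (Nat.add (Nat.add (Nat.add C x18561) x44805) x36057) x30225) x31197) x32169) x31521) x31845) x31629) x31701) x31677) x31689) x31681) x12001)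
    (Nat.sub (Nat.add (Nat.add (Nat.add (Nat.add (Nat.add (Nat.add (Nat.add (Nat.add (Nat.add (Nat.add (Nat.add (Nat.add C x18567) x44811) x36063) x30231) x31203) x32175) x31527) x31851) x31635) x31707) x31683) x12007) x31689)
    (Nat.add (Nat.add (Nat.add (Nat.add (Nat.add (Nat.add (Nat.add (Nat.add (Nat.add (Nat.add (Nat.add (Nat.add (Nat.add (Nat.add (Nat.add C x31699) x18577) x44821) x36073) x30241) x31213) x32185) x31537) x31861) x31645) x31753) x31681) x31701) x51381) x12017)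
    (Nat.add (Nat.add (Nat.add (Nat.add (Nat.add (Nat.add (Nat.add (Nat.add (Nat.add (Nat.add (Nat.add (Nat.add (Nat.add (Nat.add C x18579) x44823) x36075) x30243) x31215) x32187) x31539) x31863) x31647) x31755) x31683) x31707) x31699) x12019)
    (Nat.add (Nat.add (Nat.add (Nat.add (Nat.add (Nat.add (Nat.add (Nat.add (Nat.add (Nat.add (Nat.add (Nat.add (Nat.add (Nat.add (Nat.add C x31707) x18585) x44829) x36081) x30249) x31221) x32193) x31545) x31869) x31653) x31761) x31689) x31725) x31701) x12025)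
    (Nat.add (Nat.add (Nat.add (Nat.add (Nat.add (Nat.add (Nat.add (Nat.add (Nat.add (Nat.add (Nat.add (Nat.add C x31725) x18603) x44847) x36099) x30267) x31239) x32211) x31563) x31887) x31779) x31707) x12043)
    (Nat.add (Nat.add (Nat.add (Nat.add (Nat.add (Nat.add (Nat.add (Nat.add (Nat.add (Nat.add (Nat.add (Nat.add C x31753) x18631) x44875) x36127) x30295) x31267) x32239) x31915) x31699) x31755) x51435) x12071)
    (Nat.add (Nat.add (Nat.add (Nat.add (Nat.add (Nat.add (Nat.add (Nat.add (Nat.add (Nat.add (Nat.add C x18633) x44877) x36129) x30297) x31269) x32241) x31917) x31701) x31761) x31753) x12073)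
    (Nat.add (Nat.add (Nat.add (Nat.add (Nat.add (Nat.add (Nat.add (Nat.add (Nat.add (Nat.add (Nat.add C x18639) x44883) x36135) x30303) x31275) x32247) x31923) x31707) x31779) x31755) x12079)
    (Nat.add (Nat.add (Nat.add (Nat.add (Nat.add (Nat.add (Nat.add (Nat.add (Nat.add (Nat.add (Nat.add C (Nat.mul x31779 (nat_lit 2))) x18657) x44901) x36153) x30321) x31293) x32265) x31941) x31725) x31761) x12097)
    (Nat.add (Nat.add (Nat.add (Nat.add (Nat.add (Nat.add (Nat.add (Nat.add (Nat.add C x31835) x18713) x44957) x36209) x30377) x32321) x31673) x31837) x51517)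
    (Nat.add (Nat.add (Nat.add (Nat.add (Nat.add (Nat.add (Nat.add (Nat.add (Nat.add (Nat.add (Nat.add (Nat.add C x31837) x18715) x44959) x36211) x30379) x32323) x31675) x31843) x31835) x31839) x51519) x12155)
    (Nat.sub (Nat.add (Nat.add (Nat.add (Nat.add (Nat.add (Nat.add (Nat.add (Nat.add (Nat.add C x18717) x44961) x36213) x30381) x32325) x31677) x31845) x31837) x12157) x31839)
    (Nat.add (Nat.add (Nat.add (Nat.add (Nat.add (Nat.add (Nat.add (Nat.add (Nat.add (Nat.add (Nat.add C x18721) x44965) x36217) x30385) x32329) x31681) x31861) x31837) x31845) x51525) x12161)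
    (Nat.add (Nat.add (Nat.add (Nat.add (Nat.add (Nat.add (Nat.add (Nat.add (Nat.add (Nat.add (Nat.add C x18723) x44967) x36219) x30387) x32331) x31683) x31863) x31839) x31851) x31843) x12163)
    (Nat.sub (Nat.add (Nat.add (Nat.add (Nat.add (Nat.add (Nat.add (Nat.add (Nat.add (Nat.add C x18729) x44973) x36225) x30393) x32337) x31689) x31869) x31845) x12169) x31851)
    (Nat.add (Nat.add (Nat.add (Nat.add (Nat.add (Nat.add (Nat.add (Nat.add (Nat.add (Nat.add (Nat.add C x18739) x44983) x36235) x30403) x32347) x31699) x31915) x31843) x31863) x51543) x12179)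
    (Nat.sub (Nat.add (Nat.add (Nat.add (Nat.add (Nat.add (Nat.add (Nat.add (Nat.add (Nat.add (Nat.add (Nat.add C x18741) x44985) x36237) x30405) x32349) x31701) x31917) x31845) x31869) x31861) x12181) x31863)
    (Nat.add (Nat.add (Nat.add (Nat.add (Nat.add (Nat.add (Nat.add (Nat.add (Nat.add (Nat.add (Nat.add C x18747) x44991) x36243) x30411) x32355) x31707) x31923) x31851) x31887) x31863) x12187)
    (Nat.sub (Nat.add (Nat.add (Nat.add (Nat.add (Nat.add (Nat.add (Nat.add (Nat.add (Nat.add C x18765) x45009) x36261) x30429) x32373) x31725) x31941) x31869) x12205) x31887)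
    (Nat.add (Nat.add (Nat.add (Nat.add (Nat.add (Nat.add (Nat.add (Nat.add (Nat.add (Nat.add (Nat.add C (Nat.mul x31915 (nat_lit 2))) x18793) x45037) x36289) x30457) x32401) x31753) x31861) x31917) x51597) x12233)
    (Nat.add (Nat.add (Nat.add (Nat.add (Nat.add (Nat.add (Nat.add (Nat.add (Nat.add (Nat.add (Nat.add C x31917) x18795) x45039) x36291) x30459) x32403) x31755) x31863) x31923) x31915) x12235)
    (Nat.add (Nat.add (Nat.add (Nat.add (Nat.add (Nat.add (Nat.add (Nat.add (Nat.add (Nat.add (Nat.add C x31923) x18801) x45045) x36297) x30465) x32409) x31761) x31869) x31941) x31917) x12241)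
    (Nat.add (Nat.add (Nat.add (Nat.add (Nat.add (Nat.add (Nat.add (Nat.add (Nat.add (Nat.add (Nat.add C (Nat.mul x31941 (nat_lit 2))) x18819) x45063) x36315) x30483) x32427) x31779) x31887) x31995) x31923) x12259)
    (Nat.add (Nat.add (Nat.add (Nat.add (Nat.add (Nat.add (Nat.add (Nat.add C (Nat.mul x31995 (nat_lit 3))) x18873) x45117) x36369) x30537) x32481) x31941) x12313)
    (Nat.add (Nat.add (Nat.add (Nat.add (Nat.add (Nat.add (Nat.add (Nat.add C (Nat.mul x32081 (nat_lit 3))) x18959) x45203) x36455) x31595) x32087) x32083) x51763)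
    (Nat.add (Nat.add (Nat.add (Nat.add (Nat.add (Nat.add (Nat.add (Nat.add (Nat.add C (Nat.mul x32083 (nat_lit 2))) x18961) x45205) x36457) x31597) x32089) x32081) x51765) x12401)
    (Nat.add (Nat.add (Nat.add (Nat.add (Nat.add (Nat.add (Nat.add (Nat.add (Nat.add C x32087) x18965) x45209) x36461) x31601) x32105) x32081) x32089) x51769)
    (Nat.add (Nat.add (Nat.add (Nat.add (Nat.add (Nat.add (Nat.add (Nat.add (Nat.add (Nat.add (Nat.add (Nat.add C (Nat.mul x32089 (nat_lit 2))) x18967) x45211) x36463) x31603) x32107) x32083) x32095) x32087) x32091) x51771) x12407)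
    (Nat.add (Nat.add (Nat.add (Nat.add (Nat.add (Nat.add (Nat.add (Nat.add (Nat.add C x32091) x18969) x45213) x36465) x31605) x32109) x32097) x32089) x12409)
    (Nat.add (Nat.add (Nat.add (Nat.add (Nat.add (Nat.add (Nat.add (Nat.add (Nat.add C x18973) x45217) x36469) x31609) x32113) x32089) x32097) x51777) x12413)
    (Nat.add (Nat.add (Nat.add (Nat.add (Nat.add (Nat.add (Nat.add (Nat.add (Nat.add C x32097) x18975) x45219) x36471) x31611) x32115) x32091) x32095) x12415)
    (Nat.add (Nat.add (Nat.add (Nat.add (Nat.add (Nat.add (Nat.add (Nat.add (Nat.add C x32105) x18983) x45227) x36479) x31619) x32159) x32087) x32107) x51787)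
    (Nat.add (Nat.add (Nat.add (Nat.add (Nat.add (Nat.add (Nat.add (Nat.add (Nat.add (Nat.add (Nat.add (Nat.add C x32107) x18985) x45229) x36481) x31621) x32161) x32089) x32113) x32105) x32109) x51789) x12425)
    (Nat.sub (Nat.add (Nat.add (Nat.add (Nat.add (Nat.add (Nat.add (Nat.add (Nat.add (Nat.add C x18987) x45231) x36483) x31623) x32163) x32091) x32115) x32107) x12427) x32109)
    (Nat.add (Nat.add (Nat.add (Nat.add (Nat.add (Nat.add (Nat.add (Nat.add (Nat.add (Nat.add (Nat.add (Nat.add C x32113) x18991) x45235) x36487) x31627) x32167) x32095) x32131) x32107) x32115) x51795) x12431)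
    (Nat.add (Nat.add (Nat.add (Nat.add (Nat.add (Nat.add (Nat.add (Nat.add (Nat.add (Nat.add (Nat.add (Nat.add C x32115) x18993) x45237) x36489) x31629) x32169) x32097) x32133) x32109) x32121) x32113) x12433)
    (Nat.add (Nat.add (Nat.add (Nat.add (Nat.add (Nat.add (Nat.add (Nat.add (Nat.add C x32121) x18999) x45243) x36495) x31635) x32175) x32139) x32115) x12439)
    (Nat.add (Nat.add (Nat.add (Nat.add (Nat.add (Nat.add (Nat.add (Nat.add (Nat.add C x19009) x45253) x36505) x31645) x32185) x32113) x32133) x51813) x12449)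
    (Nat.sub (Nat.add (Nat.add (Nat.add (Nat.add (Nat.add (Nat.add (Nat.add (Nat.add (Nat.add C x19011) x45255) x36507) x31647) x32187) x32115) x32139) x32131) x12451) x32133)
    (Nat.add (Nat.add (Nat.add (Nat.add (Nat.add (Nat.add (Nat.add (Nat.add (Nat.add C x32139) x19017) x45261) x36513) x31653) x32193) x32121) x32133) x12457)
    (Nat.add (Nat.add (Nat.add (Nat.add (Nat.add (Nat.add (Nat.add (Nat.add (Nat.add C x32159) x19037) x45281) x36533) x31673) x32321) x32105) x32161) x51841)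
    (Nat.add (Nat.add (Nat.add (Nat.add (Nat.add (Nat.add (Nat.add (Nat.add (Nat.add (Nat.add (Nat.add (Nat.add C x32161) x19039) x45283) x36535) x31675) x32323) x32107) x32167) x32159) x32163) x51843) x12479)
    (Nat.sub (Nat.add (Nat.add (Nat.add (Nat.add (Nat.add (Nat.add (Nat.add (Nat.add (Nat.add C x19041) x45285) x36537) x31677) x32325) x32109) x32169) x32161) x12481) x32163)
    (Nat.add (Nat.add (Nat.add (Nat.add (Nat.add (Nat.add (Nat.add (Nat.add (Nat.add (Nat.add (Nat.add C x19045) x45289) x36541) x31681) x32329) x32113) x32185) x32161) x32169) x51849) x12485)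
    (Nat.add (Nat.add (Nat.add (Nat.add (Nat.add (Nat.add (Nat.add (Nat.add (Nat.add (Nat.add (Nat.add C x19047) x45291) x36543) x31683) x32331) x32115) x32187) x32163) x32175) x32167) x12487)
    (Nat.sub (Nat.add (Nat.add (Nat.add (Nat.add (Nat.add (Nat.add (Nat.add (Nat.add (Nat.add C x19053) x45297) x36549) x31689) x32337) x32121) x32193) x32169) x12493) x32175)
    (Nat.add (Nat.add (Nat.add (Nat.add (Nat.add (Nat.add (Nat.add (Nat.add (Nat.add (Nat.add (Nat.add (Nat.add C x32185) x19063) x45307) x36559) x31699) x32347) x32131) x32239) x32167) x32187) x51867) x12503)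
    (Nat.add (Nat.add (Nat.add (Nat.add (Nat.add (Nat.add (Nat.add (Nat.add (Nat.add (Nat.add (Nat.add C x19065) x45309) x36561) x31701) x32349) x32133) x32241) x32169) x32193) x32185) x12505)
    (Nat.add (Nat.add (Nat.add (Nat.add (Nat.add (Nat.add (Nat.add (Nat.add (Nat.add (Nat.add (Nat.add (Nat.add C x32193) x19071) x45315) x36567) x31707) x32355) x32139) x32247) x32175) x32211) x32187) x12511)
    (Nat.add (Nat.add (Nat.add (Nat.add (Nat.add (Nat.add (Nat.add (Nat.add (Nat.add C x32211) x19089) x45333) x36585) x31725) x32373) x32265) x32193) x12529)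
    (Nat.add (Nat.add (Nat.add (Nat.add (Nat.add (Nat.add (Nat.add (Nat.add (Nat.add C x19117) x45361) x36613) x31753) x32401) x32185) x32241) x51921) x12557)
    (Nat.sub (Nat.add (Nat.add (Nat.add (Nat.add (Nat.add (Nat.add (Nat.add (Nat.add (Nat.add C x19119) x45363) x36615) x31755) x32403) x32187) x32247) x32239) x12559) x32241)
    (Nat.sub (Nat.add (Nat.add (Nat.add (Nat.add (Nat.add (Nat.add (Nat.add (Nat.add (Nat.add C x19125) x45369) x36621) x31761) x32409) x32193) x32265) x32241) x12565) x32247)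
    (Nat.add (Nat.add (Nat.add (Nat.add (Nat.add (Nat.add (Nat.add (Nat.add (Nat.add C x32265) x19143) x45387) x36639) x31779) x32427) x32211) x32247) x12583)
    (Nat.add (Nat.add (Nat.add (Nat.add (Nat.add (Nat.add (Nat.add (Nat.add C (Nat.mul x32321 (nat_lit 3))) x19199) x45443) x36695) x31835) x32159) x32323) x52003)
    (Nat.add (Nat.add (Nat.add (Nat.add (Nat.add (Nat.add (Nat.add (Nat.add (Nat.add (Nat.add (Nat.add C (Nat.mul x32323 (nat_lit 3))) x19201) x45445) x36697) x31837) x32161) x32329) x32321) x32325) x52005) x12641)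
    (Nat.add (Nat.add (Nat.add (Nat.add (Nat.add (Nat.add (Nat.add (Nat.add (Nat.add C x32325) x19203) x45447) x36699) x31839) x32163) x32331) x32323) x12643)
    (Nat.add (Nat.add (Nat.add (Nat.add (Nat.add (Nat.add (Nat.add (Nat.add (Nat.add (Nat.add (Nat.add C (Nat.mul x32329 (nat_lit 2))) x19207) x45451) x36703) x31843) x32167) x32347) x32323) x32331) x52011) x12647)
    (Nat.add (Nat.add (Nat.add (Nat.add (Nat.add (Nat.add (Nat.add (Nat.add (Nat.add (Nat.add (Nat.add C (Nat.mul x32331 (nat_lit 2))) x19209) x45453) x36705) x31845) x32169) x32349) x32325) x32337) x32329) x12649)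
    (Nat.add (Nat.add (Nat.add (Nat.add (Nat.add (Nat.add (Nat.add (Nat.add (Nat.add C x32337) x19215) x45459) x36711) x31851) x32175) x32355) x32331) x12655)
    (Nat.add (Nat.add (Nat.add (Nat.add (Nat.add (Nat.add (Nat.add (Nat.add (Nat.add (Nat.add (Nat.add C (Nat.mul x32347 (nat_lit 2))) x19225) x45469) x36721) x31861) x32185) x32401) x32329) x32349) x52029) x12665)
    (Nat.add (Nat.add (Nat.add (Nat.add (Nat.add (Nat.add (Nat.add (Nat.add (Nat.add (Nat.add (Nat.add C x32349) x19227) x45471) x36723) x31863) x32187) x32403) x32331) x32355) x32347) x12667)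
    (Nat.add (Nat.add (Nat.add (Nat.add (Nat.add (Nat.add (Nat.add (Nat.add (Nat.add (Nat.add (Nat.add C (Nat.mul x32355 (nat_lit 2))) x19233) x45477) x36729) x31869) x32193) x32409) x32337) x32373) x32349) x12673)
    (Nat.add (Nat.add (Nat.add (Nat.add (Nat.add (Nat.add (Nat.add (Nat.add (Nat.add C x32373) x19251) x45495) x36747) x31887) x32211) x32427) x32355) x12691)
    (Nat.add (Nat.add (Nat.add (Nat.add (Nat.add (Nat.add (Nat.add (Nat.add (Nat.add (Nat.add (Nat.add C (Nat.mul x32401 (nat_lit 3))) x19279) x45523) x36775) x31915) x32239) x32563) x32347) x32403) x52083) x12719)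
    (Nat.add (Nat.add (Nat.add (Nat.add (Nat.add (Nat.add (Nat.add (Nat.add (Nat.add (Nat.add (Nat.add C (Nat.mul x32403 (nat_lit 2))) x19281) x45525) x36777) x31917) x32241) x32565) x32349) x32409) x32401) x12721)
    (Nat.add (Nat.add (Nat.add (Nat.add (Nat.add (Nat.add (Nat.add (Nat.add (Nat.add (Nat.add (Nat.add C (Nat.mul x32409 (nat_lit 2))) x19287) x45531) x36783) x31923) x32247) x32571) x32355) x32427) x32403) x12727)
    (Nat.add (Nat.add (Nat.add (Nat.add (Nat.add (Nat.add (Nat.add (Nat.add (Nat.add (Nat.add (Nat.add C (Nat.mul x32427 (nat_lit 3))) x19305) x45549) x36801) x31941) x32265) x32589) x32373) x32481) x32409) x12745)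
    (Nat.add (Nat.add (Nat.add (Nat.add (Nat.add (Nat.add (Nat.add (Nat.add C (Nat.mul x32481 (nat_lit 3))) x19359) x45603) x36855) x31995) x32643) x32427) x12799)
    (Nat.add (Nat.add (Nat.add (Nat.add (Nat.add (Nat.add (Nat.add (Nat.add C (Nat.mul x32563 (nat_lit 4))) x19441) x45685) x36937) x32401) x32565) x52245) x12881)
    (Nat.add (Nat.add (Nat.add (Nat.add (Nat.add (Nat.add (Nat.add (Nat.add C (Nat.mul x32565 (nat_lit 3))) x19443) x45687) x36939) x32403) x32571) x32563) x12883)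
    (Nat.add (Nat.add (Nat.add (Nat.add (Nat.add (Nat.add (Nat.add (Nat.add C (Nat.mul x32571 (nat_lit 3))) x19449) x45693) x36945) x32409) x32589) x32565) x12889)
    (Nat.add (Nat.add (Nat.add (Nat.add (Nat.add (Nat.add (Nat.add (Nat.add C (Nat.mul x32589 (nat_lit 3))) x19467) x45711) x36963) x32427) x32643) x32571) x12907)
    (Nat.add (Nat.add (Nat.add (Nat.add (Nat.add (Nat.add (Nat.add C (Nat.mul x32643 (nat_lit 5))) x19521) x45765) x37017) x32481) x32589) x12961)
    (Nat.add (Nat.add (Nat.add (Nat.add (Nat.add C (Nat.mul x32831 (nat_lit 4))) x45953) x28457) x32849) x52513)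
    (Nat.add (Nat.add (Nat.add (Nat.add (Nat.add (Nat.add (Nat.add (Nat.add C (Nat.mul x32849 (nat_lit 3))) x45971) x28475) x32903) x32831) x32867) x32855) x52531)
    (Nat.add (Nat.add (Nat.add (Nat.add (Nat.add (Nat.add (Nat.add (Nat.add C (Nat.mul x32855 (nat_lit 2))) x45977) x28481) x32909) x32873) x32849) x32857) x52537)
    (Nat.add (Nat.add (Nat.add (Nat.add (Nat.add (Nat.add (Nat.add (Nat.add C (Nat.mul x32857 (nat_lit 3))) x45979) x28483) x32911) x32875) x32855) x52539) x13175)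
    (Nat.add (Nat.add (Nat.add (Nat.add (Nat.add (Nat.add C x45989) x28493) x32921) x32849) x32873) x52549)
    (Nat.add (Nat.add (Nat.add (Nat.add (Nat.add (Nat.add (Nat.add (Nat.add (Nat.add C x32873) x45995) x28499) x32927) x32855) x32867) x32879) x32875) x52555)
    (Nat.add (Nat.add (Nat.add (Nat.add (Nat.add (Nat.add (Nat.add (Nat.add (Nat.add C x32875) x45997) x28501) x32929) x32857) x32881) x32873) x52557) x13193)
    (Nat.add (Nat.add (Nat.add (Nat.add (Nat.add (Nat.add C x46001) x28505) x32933) x32873) x32881) x52561)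
    (Nat.add (Nat.add (Nat.add (Nat.add (Nat.add (Nat.add (Nat.add (Nat.add (Nat.add C (Nat.mul x32881 (nat_lit 2))) x46003) x28507) x32935) x32875) x32879) x32883) x52563) x13199)
    (Nat.add (Nat.add (Nat.add (Nat.add (Nat.add (Nat.add C (Nat.mul x32883 (nat_lit 2))) x46005) x28509) x32937) x32881) x13201)
    (Nat.add (Nat.add (Nat.add (Nat.add (Nat.add (Nat.add (Nat.add (Nat.add C (Nat.mul x32903 (nat_lit 2))) x46025) x28529) x33065) x32849) x32921) x32909) x52585)
    (Nat.add (Nat.add (Nat.add (Nat.add (Nat.add (Nat.add (Nat.add (Nat.add C x46031) x28535) x33071) x32855) x32927) x32903) x32911) x52591)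
    (Nat.add (Nat.add (Nat.add (Nat.add (Nat.add (Nat.add (Nat.add (Nat.add (Nat.add C x32911) x46033) x28537) x33073) x32857) x32929) x32909) x52593) x13229)
    (Nat.add (Nat.add (Nat.add (Nat.add (Nat.add (Nat.add (Nat.add (Nat.add (Nat.add C x32921) x46043) x28547) x33083) x32867) x32975) x32903) x32927) x52603)
    (Nat.add (Nat.add (Nat.add (Nat.add (Nat.add (Nat.add (Nat.add (Nat.add (Nat.add (Nat.add (Nat.add (Nat.add C x32927) x46049) x28553) x33089) x32873) x32981) x32909) x32945) x32921) x32933) x32929) x52609)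
    (Nat.add (Nat.add (Nat.add (Nat.add (Nat.add (Nat.add (Nat.add (Nat.add (Nat.add (Nat.add (Nat.add (Nat.add C x32929) x46051) x28555) x33091) x32875) x32983) x32911) x32947) x32935) x32927) x52611) x13247)
    (Nat.sub (Nat.add (Nat.add (Nat.add (Nat.add (Nat.add (Nat.add (Nat.add (Nat.add (Nat.add C x46055) x28559) x33095) x32879) x32987) x32951) x32927) x32935) x52615) x32933)
    (Nat.add (Nat.add (Nat.add (Nat.add (Nat.add (Nat.add (Nat.add (Nat.add (Nat.add (Nat.add (Nat.add (Nat.add C x32935) x46057) x28561) x33097) x32881) x32989) x32953) x32929) x32933) x32937) x52617) x13253)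
    (Nat.add (Nat.add (Nat.add (Nat.add (Nat.add (Nat.add (Nat.add (Nat.add (Nat.add C x32937) x46059) x28563) x33099) x32883) x32991) x32955) x32935) x13255)
    (Nat.add (Nat.add (Nat.add (Nat.add (Nat.add (Nat.add (Nat.add (Nat.add C x46067) x28571) x33107) x32999) x32927) x32951) x32947) x52627)
    (Nat.sub (Nat.add (Nat.add (Nat.add (Nat.add (Nat.add (Nat.add (Nat.add (Nat.add (Nat.add C x46069) x28573) x33109) x33001) x32929) x32953) x32945) x52629) x13265) x32947)
    (Nat.add (Nat.add (Nat.add (Nat.add (Nat.add (Nat.add (Nat.add (Nat.add C x46073) x28577) x33113) x33005) x32933) x32945) x32953) x52633)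
    (Nat.add (Nat.add (Nat.add (Nat.add (Nat.add (Nat.add (Nat.add (Nat.add (Nat.add (Nat.add (Nat.add (Nat.add C x32953) x46075) x28579) x33115) x33007) x32935) x32947) x32959) x32951) x32955) x52635) x13271)
    (Nat.add (Nat.add (Nat.add (Nat.add (Nat.add (Nat.add (Nat.add (Nat.add C x46077) x28581) x33117) x33009) x32937) x32961) x32953) x13273)
    (Nat.add (Nat.add (Nat.add (Nat.add (Nat.add (Nat.add (Nat.add (Nat.add (Nat.add C x32959) x46081) x28585) x33121) x33013) x32953) x32961) x52641) x13277)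
    (Nat.add (Nat.add (Nat.add (Nat.add (Nat.add (Nat.add (Nat.add (Nat.add C (Nat.mul x32961 (nat_lit 2))) x46083) x28587) x33123) x33015) x32955) x32959) x13279)
    (Nat.add (Nat.add (Nat.add (Nat.add (Nat.add (Nat.add C x46097) x28601) x33137) x32921) x32981) x52657)
    (Nat.sub (Nat.add (Nat.add (Nat.add (Nat.add (Nat.add (Nat.add (Nat.add (Nat.add (Nat.add C x46103) x28607) x33143) x32927) x32999) x32975) x32987) x32983) x52663) x32981)
    (Nat.sub (Nat.add (Nat.add (Nat.add (Nat.add (Nat.add (Nat.add (Nat.add (Nat.add (Nat.add C x46105) x28609) x33145) x32929) x33001) x32989) x32981) x52665) x13301) x32983)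
    (Nat.sub (Nat.add (Nat.add (Nat.add (Nat.add (Nat.add (Nat.add (Nat.add (Nat.add C x46109) x28613) x33149) x32933) x33005) x32981) x32989) x52669) (Nat.mul x32987 (nat_lit 4)))
    (Nat.sub (Nat.add (Nat.add (Nat.add (Nat.add (Nat.add (Nat.add (Nat.add (Nat.add (Nat.add (Nat.add C x46111) x28615) x33151) x32935) x33007) x32983) x32987) x32991) x52671) x13307) (Nat.mul x32989 (nat_lit 2)))
    (Nat.sub (Nat.add (Nat.add (Nat.add (Nat.add (Nat.add (Nat.add (Nat.add C x46113) x28617) x33153) x32937) x33009) x32989) x13309) (Nat.mul x32991 (nat_lit 2)))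
    (Nat.add (Nat.add (Nat.add (Nat.add (Nat.add (Nat.add (Nat.add (Nat.add C x46121) x28625) x33161) x32945) x32981) x33005) x33001) x52681)
    (Nat.sub (Nat.add (Nat.add (Nat.add (Nat.add (Nat.add (Nat.add (Nat.add (Nat.add (Nat.add C x46123) x28627) x33163) x32947) x32983) x33007) x32999) x52683) x13319) x33001)
    (Nat.sub (Nat.add (Nat.add (Nat.add (Nat.add (Nat.add (Nat.add (Nat.add (Nat.add (Nat.add C x46127) x28631) x33167) x32951) x32987) x33023) x32999) x33007) x52687) x33005)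
    (Nat.add (Nat.add (Nat.add (Nat.add (Nat.add (Nat.add (Nat.add (Nat.add (Nat.add (Nat.add (Nat.add (Nat.add C x46129) x28633) x33169) x32953) x32989) x33025) x33001) x33013) x33005) x33009) x52689) x13325)
    (Nat.sub (Nat.add (Nat.add (Nat.add (Nat.add (Nat.add (Nat.add (Nat.add (Nat.add (Nat.add C x46131) x28635) x33171) x32955) x32991) x33027) x33015) x33007) x13327) x33009)
    (Nat.sub (Nat.add (Nat.add (Nat.add (Nat.add (Nat.add (Nat.add (Nat.add (Nat.add (Nat.add C x46135) x28639) x33175) x32959) x33031) x33007) x33015) x52695) x13331) x33013)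
    (Nat.add (Nat.add (Nat.add (Nat.add (Nat.add (Nat.add (Nat.add (Nat.add C x46137) x28641) x33177) x32961) x33033) x33009) x33013) x13333)
    (Nat.add (Nat.add (Nat.add (Nat.add (Nat.add (Nat.add C x46145) x28649) x33185) x33005) x33025) x52705)
    (Nat.add (Nat.add (Nat.add (Nat.add (Nat.add (Nat.add (Nat.add (Nat.add (Nat.add C x46147) x28651) x33187) x33007) x33031) x33023) x33027) x52707) x13343)
    (Nat.sub (Nat.add (Nat.add (Nat.add (Nat.add (Nat.add (Nat.add (Nat.add C x46149) x28653) x33189) x33009) x33033) x33025) x13345) (Nat.mul x33027 (nat_lit 2)))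
    (Nat.add (Nat.add (Nat.add (Nat.add (Nat.add (Nat.add (Nat.add (Nat.add (Nat.add C x33031) x46153) x28657) x33193) x33013) x33025) x33033) x52713) x13349)
    (Nat.add (Nat.add (Nat.add (Nat.add (Nat.add (Nat.add (Nat.add (Nat.add (Nat.add C x33033) x46155) x28659) x33195) x33015) x33027) x33039) x33031) x13351)
    (Nat.add (Nat.add (Nat.add (Nat.add (Nat.add (Nat.add C (Nat.mul x33039 (nat_lit 2))) x46161) x28665) x33201) x33033) x13357)
    (Nat.add (Nat.add (Nat.add (Nat.add (Nat.add (Nat.add (Nat.add (Nat.add C (Nat.mul x33065 (nat_lit 2))) x46187) x28691) x33551) x32903) x33083) x33071) x52747)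
    (Nat.add (Nat.add (Nat.add (Nat.add (Nat.add (Nat.add (Nat.add (Nat.add C x46193) x28697) x33557) x32909) x33089) x33065) x33073) x52753)
    (Nat.add (Nat.add (Nat.add (Nat.add (Nat.add (Nat.add (Nat.add (Nat.add (Nat.add C x33073) x46195) x28699) x33559) x32911) x33091) x33071) x52755) x13391)
    (Nat.add (Nat.add (Nat.add (Nat.add (Nat.add (Nat.add (Nat.add (Nat.add C x46205) x28709) x33569) x32921) x33137) x33065) x33089) x52765)
    (Nat.add (Nat.add (Nat.add (Nat.add (Nat.add (Nat.add (Nat.add (Nat.add (Nat.add (Nat.add (Nat.add C x46211) x28715) x33575) x32927) x33143) x33071) x33107) x33083) x33095) x33091) x52771)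
    (Nat.add (Nat.add (Nat.add (Nat.add (Nat.add (Nat.add (Nat.add (Nat.add (Nat.add (Nat.add (Nat.add C x46213) x28717) x33577) x32929) x33145) x33073) x33109) x33097) x33089) x52773) x13409)
    (Nat.sub (Nat.add (Nat.add (Nat.add (Nat.add (Nat.add (Nat.add (Nat.add (Nat.add (Nat.add C x46217) x28721) x33581) x32933) x33149) x33113) x33089) x33097) x52777) (Nat.mul x33095 (nat_lit 2)))
    (Nat.add (Nat.add (Nat.add (Nat.add (Nat.add (Nat.add (Nat.add (Nat.add (Nat.add (Nat.add (Nat.add C x46219) x28723) x33583) x32935) x33151) x33115) x33091) x33095) x33099) x52779) x13415)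
    (Nat.add (Nat.add (Nat.add (Nat.add (Nat.add (Nat.add (Nat.add (Nat.add C x46221) x28725) x33585) x32937) x33153) x33117) x33097) x13417)
    (Nat.sub (Nat.add (Nat.add (Nat.add (Nat.add (Nat.add (Nat.add (Nat.add (Nat.add (Nat.add C x46229) x28733) x33593) x32945) x33161) x33089) x33113) x33109) x52789) (Nat.mul x33107 (nat_lit 2)))
    (Nat.sub (Nat.add (Nat.add (Nat.add (Nat.add (Nat.add (Nat.add (Nat.add (Nat.add (Nat.add (Nat.add C x46231) x28735) x33595) x32947) x33163) x33091) x33115) x33107) x52791) x13427) (Nat.mul x33109 (nat_lit 3)))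
    (Nat.sub (Nat.add (Nat.add (Nat.add (Nat.add (Nat.add (Nat.add (Nat.add (Nat.add (Nat.add C x46235) x28739) x33599) x32951) x33167) x33095) x33107) x33115) x52795) (Nat.mul x33113 (nat_lit 2)))
    (Nat.sub (Nat.add (Nat.add (Nat.add (Nat.add (Nat.add (Nat.add (Nat.add (Nat.add (Nat.add (Nat.add (Nat.add (Nat.add C x46237) x28741) x33601) x32953) x33169) x33097) x33109) x33121) x33113) x33117) x52797) x13433) x33115)
    (Nat.sub (Nat.add (Nat.add (Nat.add (Nat.add (Nat.add (Nat.add (Nat.add (Nat.add (Nat.add C x46239) x28743) x33603) x32955) x33171) x33099) x33123) x33115) x13435) (Nat.mul x33117 (nat_lit 2)))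
    (Nat.sub (Nat.add (Nat.add (Nat.add (Nat.add (Nat.add (Nat.add (Nat.add (Nat.add (Nat.add C x46243) x28747) x33607) x32959) x33175) x33115) x33123) x52803) x13439) x33121)
    (Nat.add (Nat.add (Nat.add (Nat.add (Nat.add (Nat.add (Nat.add (Nat.add C x46245) x28749) x33609) x32961) x33177) x33117) x33121) x13441)
    (Nat.add (Nat.add (Nat.add (Nat.add (Nat.add (Nat.add (Nat.add (Nat.add (Nat.add C x33137) x46259) x28763) x33623) x32975) x33299) x33083) x33143) x52819)
    (Nat.add (Nat.add (Nat.add (Nat.add (Nat.add (Nat.add (Nat.add (Nat.add (Nat.add (Nat.add (Nat.add C x46265) x28769) x33629) x32981) x33305) x33089) x33161) x33137) x33149) x33145) x52825)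
    (Nat.add (Nat.add (Nat.add (Nat.add (Nat.add (Nat.add (Nat.add (Nat.add (Nat.add (Nat.add (Nat.add C x46267) x28771) x33631) x32983) x33307) x33091) x33163) x33151) x33143) x52827) x13463)
    (Nat.sub (Nat.add (Nat.add (Nat.add (Nat.add (Nat.add (Nat.add (Nat.add (Nat.add (Nat.add (Nat.add C x46271) x28775) x33635) x32987) x33311) x33095) x33167) x33143) x33151) x52831) (Nat.mul x33149 (nat_lit 3)))
    (Nat.sub (Nat.add (Nat.add (Nat.add (Nat.add (Nat.add (Nat.add (Nat.add (Nat.add (Nat.add (Nat.add (Nat.add (Nat.add C x46273) x28777) x33637) x32989) x33313) x33097) x33169) x33145) x33149) x33153) x52833) x13469) x33151)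
    (Nat.sub (Nat.add (Nat.add (Nat.add (Nat.add (Nat.add (Nat.add (Nat.add (Nat.add (Nat.add C x46275) x28779) x33639) x32991) x33315) x33099) x33171) x33151) x13471) x33153)
    (Nat.add (Nat.add (Nat.add (Nat.add (Nat.add (Nat.add (Nat.add (Nat.add (Nat.add (Nat.add (Nat.add C x46283) x28787) x33647) x32999) x33323) x33107) x33215) x33143) x33167) x33163) x52843)
    (Nat.sub (Nat.add (Nat.add (Nat.add (Nat.add (Nat.add (Nat.add (Nat.add (Nat.add (Nat.add (Nat.add (Nat.add (Nat.add C x46285) x28789) x33649) x33001) x33325) x33109) x33217) x33145) x33169) x33161) x52845) x13481) x33163)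
    (Nat.sub (Nat.add (Nat.add (Nat.add (Nat.add (Nat.add (Nat.add (Nat.add (Nat.add (Nat.add (Nat.add (Nat.add (Nat.add C x46289) x28793) x33653) x33005) x33329) x33113) x33221) x33149) x33185) x33161) x33169) x52849) x33167)
    (Nat.add (Nat.add (Nat.add (Nat.add (Nat.add (Nat.add (Nat.add (Nat.add (Nat.add (Nat.add (Nat.add (Nat.add (Nat.add (Nat.add (Nat.add C x46291) x28795) x33655) x33007) x33331) x33115) x33223) x33151) x33187) x33163) x33175) x33167) x33171) x52851) x13487)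
    (Nat.sub (Nat.add (Nat.add (Nat.add (Nat.add (Nat.add (Nat.add (Nat.add (Nat.add (Nat.add (Nat.add (Nat.add (Nat.add C x46293) x28797) x33657) x33009) x33333) x33117) x33225) x33153) x33189) x33177) x33169) x13489) x33171)
    (Nat.sub (Nat.add (Nat.add (Nat.add (Nat.add (Nat.add (Nat.add (Nat.add (Nat.add (Nat.add (Nat.add (Nat.add (Nat.add C x46297) x28801) x33661) x33013) x33337) x33121) x33229) x33193) x33169) x33177) x52857) x13493) x33175)
    (Nat.add (Nat.add (Nat.add (Nat.add (Nat.add (Nat.add (Nat.add (Nat.add (Nat.add (Nat.add (Nat.add C x46299) x28803) x33663) x33015) x33339) x33123) x33231) x33195) x33171) x33175) x13495)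
    (Nat.sub (Nat.add (Nat.add (Nat.add (Nat.add (Nat.add (Nat.add (Nat.add (Nat.add (Nat.add C x46307) x28811) x33671) x33023) x33347) x33239) x33167) x33187) x52867) x33185)
    (Nat.sub (Nat.add (Nat.add (Nat.add (Nat.add (Nat.add (Nat.add (Nat.add (Nat.add (Nat.add (Nat.add (Nat.add (Nat.add C x46309) x28813) x33673) x33025) x33349) x33241) x33169) x33193) x33185) x33189) x52869) x13505) x33187)
    (Nat.sub (Nat.add (Nat.add (Nat.add (Nat.add (Nat.add (Nat.add (Nat.add (Nat.add (Nat.add (Nat.add C x46311) x28815) x33675) x33027) x33351) x33243) x33171) x33195) x33187) x13507) (Nat.mul x33189 (nat_lit 3)))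
    (Nat.add (Nat.add (Nat.add (Nat.add (Nat.add (Nat.add (Nat.add (Nat.add (Nat.add (Nat.add (Nat.add C x46315) x28819) x33679) x33031) x33355) x33247) x33175) x33187) x33195) x52875) x13511)
    (Nat.add (Nat.add (Nat.add (Nat.add (Nat.add (Nat.add (Nat.add (Nat.add (Nat.add (Nat.add (Nat.add C x46317) x28821) x33681) x33033) x33357) x33249) x33177) x33189) x33201) x33193) x13513)
    (Nat.add (Nat.add (Nat.add (Nat.add (Nat.add (Nat.add (Nat.add (Nat.add (Nat.add C x33201) x46323) x28827) x33687) x33039) x33363) x33255) x33195) x13519)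
    (Nat.add (Nat.add (Nat.add (Nat.add (Nat.add (Nat.add (Nat.add (Nat.add C x46337) x28841) x33701) x33377) x33161) x33221) x33217) x52897)
    (Nat.sub (Nat.add (Nat.add (Nat.add (Nat.add (Nat.add (Nat.add (Nat.add (Nat.add (Nat.add C x46339) x28843) x33703) x33379) x33163) x33223) x33215) x52899) x13535) x33217)
    (Nat.sub (Nat.add (Nat.add (Nat.add (Nat.add (Nat.add (Nat.add (Nat.add (Nat.add (Nat.add C x46343) x28847) x33707) x33383) x33167) x33239) x33215) x33223) x52903) (Nat.mul x33221 (nat_lit 2)))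
    (Nat.sub (Nat.add (Nat.add (Nat.add (Nat.add (Nat.add (Nat.add (Nat.add (Nat.add (Nat.add (Nat.add (Nat.add (Nat.add C x46345) x28849) x33709) x33385) x33169) x33241) x33217) x33229) x33221) x33225) x52905) x13541) x33223)
    (Nat.sub (Nat.add (Nat.add (Nat.add (Nat.add (Nat.add (Nat.add (Nat.add (Nat.add (Nat.add C x46347) x28851) x33711) x33387) x33171) x33243) x33231) x33223) x13543) (Nat.mul x33225 (nat_lit 2)))
    (Nat.sub (Nat.add (Nat.add (Nat.add (Nat.add (Nat.add (Nat.add (Nat.add (Nat.add (Nat.add (Nat.add C x46351) x28855) x33715) x33391) x33175) x33247) x33223) x33231) x52911) x13547) (Nat.mul x33229 (nat_lit 3)))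
    (Nat.sub (Nat.add (Nat.add (Nat.add (Nat.add (Nat.add (Nat.add (Nat.add (Nat.add (Nat.add C x46353) x28857) x33717) x33393) x33177) x33249) x33225) x33229) x13549) (Nat.mul x33231 (nat_lit 2)))
    (Nat.add (Nat.add (Nat.add (Nat.add (Nat.add (Nat.add (Nat.add (Nat.add C x46361) x28865) x33725) x33401) x33185) x33221) x33241) x52921)
    (Nat.add (Nat.add (Nat.add (Nat.add (Nat.add (Nat.add (Nat.add (Nat.add (Nat.add (Nat.add (Nat.add C x46363) x28867) x33727) x33403) x33187) x33223) x33247) x33239) x33243) x52923) x13559)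
    (Nat.sub (Nat.add (Nat.add (Nat.add (Nat.add (Nat.add (Nat.add (Nat.add (Nat.add (Nat.add C x46365) x28869) x33729) x33405) x33189) x33225) x33249) x33241) x13561) (Nat.mul x33243 (nat_lit 2)))
    (Nat.add (Nat.add (Nat.add (Nat.add (Nat.add (Nat.add (Nat.add (Nat.add (Nat.add (Nat.add (Nat.add C x46369) x28873) x33733) x33409) x33193) x33229) x33265) x33241) x33249) x52929) x13565)
    (Nat.add (Nat.add (Nat.add (Nat.add (Nat.add (Nat.add (Nat.add (Nat.add (Nat.add (Nat.add (Nat.add C x46371) x28875) x33735) x33411) x33195) x33231) x33267) x33243) x33255) x33247) x13567)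
    (Nat.add (Nat.add (Nat.add (Nat.add (Nat.add (Nat.add (Nat.add (Nat.add C x46377) x28881) x33741) x33417) x33201) x33273) x33249) x13573)
    (Nat.add (Nat.add (Nat.add (Nat.add (Nat.add (Nat.add (Nat.add (Nat.add (Nat.add C x33265) x46387) x28891) x33751) x33427) x33247) x33267) x52947) x13583)
    (Nat.add (Nat.add (Nat.add (Nat.add (Nat.add (Nat.add (Nat.add (Nat.add C x46389) x28893) x33753) x33429) x33249) x33273) x33265) x13585)
    (Nat.add (Nat.add (Nat.add (Nat.add (Nat.add (Nat.add (Nat.add (Nat.add C (Nat.mul x33273 (nat_lit 2))) x46395) x28899) x33759) x33435) x33255) x33267) x13591)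
    (Nat.add (Nat.add (Nat.add (Nat.add (Nat.add (Nat.add C x46421) x28925) x33785) x33137) x33305) x52981)
    (Nat.sub (Nat.add (Nat.add (Nat.add (Nat.add (Nat.add (Nat.add (Nat.add (Nat.add (Nat.add C x46427) x28931) x33791) x33143) x33323) x33299) x33311) x33307) x52987) x33305)
    (Nat.sub (Nat.add (Nat.add (Nat.add (Nat.add (Nat.add (Nat.add (Nat.add (Nat.add (Nat.add C x46429) x28933) x33793) x33145) x33325) x33313) x33305) x52989) x13625) x33307)
    (Nat.sub (Nat.add (Nat.add (Nat.add (Nat.add (Nat.add (Nat.add (Nat.add (Nat.add C x46433) x28937) x33797) x33149) x33329) x33305) x33313) x52993) (Nat.mul x33311 (nat_lit 4)))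
    (Nat.sub (Nat.add (Nat.add (Nat.add (Nat.add (Nat.add (Nat.add (Nat.add (Nat.add (Nat.add (Nat.add C x46435) x28939) x33799) x33151) x33331) x33307) x33311) x33315) x52995) x13631) (Nat.mul x33313 (nat_lit 2)))
    (Nat.sub (Nat.add (Nat.add (Nat.add (Nat.add (Nat.add (Nat.add (Nat.add C x46437) x28941) x33801) x33153) x33333) x33313) x13633) (Nat.mul x33315 (nat_lit 2)))
    (Nat.sub (Nat.add (Nat.add (Nat.add (Nat.add (Nat.add (Nat.add (Nat.add (Nat.add (Nat.add C x46445) x28949) x33809) x33161) x33377) x33305) x33329) x33325) x53005) (Nat.mul x33323 (nat_lit 2)))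
    (Nat.sub (Nat.add (Nat.add (Nat.add (Nat.add (Nat.add (Nat.add (Nat.add (Nat.add (Nat.add (Nat.add C x46447) x28951) x33811) x33163) x33379) x33307) x33331) x33323) x53007) x13643) (Nat.mul x33325 (nat_lit 3)))
    (Nat.sub (Nat.add (Nat.add (Nat.add (Nat.add (Nat.add (Nat.add (Nat.add (Nat.add (Nat.add (Nat.add C x46451) x28955) x33815) x33167) x33383) x33311) x33347) x33323) x33331) x53011) (Nat.mul x33329 (nat_lit 3)))
    (Nat.sub (Nat.add (Nat.add (Nat.add (Nat.add (Nat.add (Nat.add (Nat.add (Nat.add (Nat.add (Nat.add (Nat.add (Nat.add (Nat.add C x46453) x28957) x33817) x33169) x33385) x33313) x33349) x33325) x33337) x33329) x33333) x53013) x13649) (Nat.mul x33331 (nat_lit 2)))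
    (Nat.sub (Nat.add (Nat.add (Nat.add (Nat.add (Nat.add (Nat.add (Nat.add (Nat.add (Nat.add (Nat.add C x46455) x28959) x33819) x33171) x33387) x33315) x33351) x33339) x33331) x13651) (Nat.mul x33333 (nat_lit 3)))
    (Nat.sub (Nat.add (Nat.add (Nat.add (Nat.add (Nat.add (Nat.add (Nat.add (Nat.add (Nat.add (Nat.add C x46459) x28963) x33823) x33175) x33391) x33355) x33331) x33339) x53019) x13655) (Nat.mul x33337 (nat_lit 3)))
    (Nat.sub (Nat.add (Nat.add (Nat.add (Nat.add (Nat.add (Nat.add (Nat.add (Nat.add (Nat.add C x46461) x28965) x33825) x33177) x33393) x33357) x33333) x33337) x13657) (Nat.mul x33339 (nat_lit 2)))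
    (Nat.sub (Nat.add (Nat.add (Nat.add (Nat.add (Nat.add (Nat.add (Nat.add (Nat.add C x46469) x28973) x33833) x33185) x33401) x33329) x33349) x53029) (Nat.mul x33347 (nat_lit 4)))
    (Nat.sub (Nat.add (Nat.add (Nat.add (Nat.add (Nat.add (Nat.add (Nat.add (Nat.add (Nat.add (Nat.add (Nat.add C x46471) x28975) x33835) x33187) x33403) x33331) x33355) x33347) x33351) x53031) x13667) (Nat.mul x33349 (nat_lit 4)))
    (Nat.sub (Nat.add (Nat.add (Nat.add (Nat.add (Nat.add (Nat.add (Nat.add (Nat.add (Nat.add C x46473) x28977) x33837) x33189) x33405) x33333) x33357) x33349) x13669) (Nat.mul x33351 (nat_lit 6)))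
    (Nat.sub (Nat.add (Nat.add (Nat.add (Nat.add (Nat.add (Nat.add (Nat.add (Nat.add (Nat.add (Nat.add C x46477) x28981) x33841) x33193) x33409) x33337) x33349) x33357) x53037) x13673) (Nat.mul x33355 (nat_lit 3)))
    (Nat.sub (Nat.add (Nat.add (Nat.add (Nat.add (Nat.add (Nat.add (Nat.add (Nat.add (Nat.add (Nat.add C x46479) x28983) x33843) x33195) x33411) x33339) x33351) x33363) x33355) x13675) (Nat.mul x33357 (nat_lit 3)))
    (Nat.sub (Nat.add (Nat.add (Nat.add (Nat.add (Nat.add (Nat.add (Nat.add C x46485) x28989) x33849) x33201) x33417) x33357) x13681) (Nat.mul x33363 (nat_lit 2)))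
    (Nat.add (Nat.add (Nat.add (Nat.add (Nat.add (Nat.add (Nat.add (Nat.add C x46499) x29003) x33863) x33215) x33323) x33383) x33379) x53059)
    (Nat.sub (Nat.add (Nat.add (Nat.add (Nat.add (Nat.add (Nat.add (Nat.add (Nat.add (Nat.add C x46501) x29005) x33865) x33217) x33325) x33385) x33377) x53061) x13697) x33379)
    (Nat.sub (Nat.add (Nat.add (Nat.add (Nat.add (Nat.add (Nat.add (Nat.add (Nat.add (Nat.add C x46505) x29009) x33869) x33221) x33329) x33401) x33377) x33385) x53065) (Nat.mul x33383 (nat_lit 2)))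
    (Nat.sub (Nat.add (Nat.add (Nat.add (Nat.add (Nat.add (Nat.add (Nat.add (Nat.add (Nat.add (Nat.add (Nat.add (Nat.add C x46507) x29011) x33871) x33223) x33331) x33403) x33379) x33391) x33383) x33387) x53067) x13703) x33385)
    (Nat.sub (Nat.add (Nat.add (Nat.add (Nat.add (Nat.add (Nat.add (Nat.add (Nat.add (Nat.add C x46509) x29013) x33873) x33225) x33333) x33405) x33393) x33385) x13705) (Nat.mul x33387 (nat_lit 2)))
    (Nat.sub (Nat.add (Nat.add (Nat.add (Nat.add (Nat.add (Nat.add (Nat.add (Nat.add (Nat.add (Nat.add C x46513) x29017) x33877) x33229) x33337) x33409) x33385) x33393) x53073) x13709) (Nat.mul x33391 (nat_lit 3)))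
    (Nat.sub (Nat.add (Nat.add (Nat.add (Nat.add (Nat.add (Nat.add (Nat.add (Nat.add (Nat.add C x46515) x29019) x33879) x33231) x33339) x33411) x33387) x33391) x13711) (Nat.mul x33393 (nat_lit 2)))
    (Nat.sub (Nat.add (Nat.add (Nat.add (Nat.add (Nat.add (Nat.add (Nat.add (Nat.add (Nat.add C x46523) x29027) x33887) x33239) x33347) x33455) x33383) x33403) x53083) x33401)
    (Nat.sub (Nat.add (Nat.add (Nat.add (Nat.add (Nat.add (Nat.add (Nat.add (Nat.add (Nat.add (Nat.add (Nat.add (Nat.add C x46525) x29029) x33889) x33241) x33349) x33457) x33385) x33409) x33401) x33405) x53085) x13721) x33403)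
    (Nat.sub (Nat.add (Nat.add (Nat.add (Nat.add (Nat.add (Nat.add (Nat.add (Nat.add (Nat.add (Nat.add C x46527) x29031) x33891) x33243) x33351) x33459) x33387) x33411) x33403) x13723) (Nat.mul x33405 (nat_lit 3)))
    (Nat.sub (Nat.add (Nat.add (Nat.add (Nat.add (Nat.add (Nat.add (Nat.add (Nat.add (Nat.add (Nat.add (Nat.add (Nat.add C x46531) x29035) x33895) x33247) x33355) x33463) x33391) x33427) x33403) x33411) x53091) x13727) x33409)
    (Nat.sub (Nat.add (Nat.add (Nat.add (Nat.add (Nat.add (Nat.add (Nat.add (Nat.add (Nat.add (Nat.add (Nat.add (Nat.add C x46533) x29037) x33897) x33249) x33357) x33465) x33393) x33429) x33405) x33417) x33409) x13729) x33411)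
    (Nat.sub (Nat.add (Nat.add (Nat.add (Nat.add (Nat.add (Nat.add (Nat.add (Nat.add (Nat.add C x46539) x29043) x33903) x33255) x33363) x33471) x33435) x33411) x13735) x33417)
    (Nat.sub (Nat.add (Nat.add (Nat.add (Nat.add (Nat.add (Nat.add (Nat.add (Nat.add (Nat.add C x46549) x29053) x33913) x33265) x33481) x33409) x33429) x53109) x13745) x33427)
    (Nat.sub (Nat.add (Nat.add (Nat.add (Nat.add (Nat.add (Nat.add (Nat.add (Nat.add (Nat.add C x46551) x29055) x33915) x33267) x33483) x33411) x33435) x33427) x13747) (Nat.mul x33429 (nat_lit 2)))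
    (Nat.add (Nat.add (Nat.add (Nat.add (Nat.add (Nat.add (Nat.add (Nat.add C x46557) x29061) x33921) x33273) x33489) x33417) x33429) x13753)
    (Nat.add (Nat.add (Nat.add (Nat.add (Nat.add (Nat.add C x46577) x29081) x33941) x33401) x33457) x53137)
    (Nat.add (Nat.add (Nat.add (Nat.add (Nat.add (Nat.add (Nat.add (Nat.add (Nat.add C x46579) x29083) x33943) x33403) x33463) x33455) x33459) x53139) x13775)
    (Nat.sub (Nat.add (Nat.add (Nat.add (Nat.add (Nat.add (Nat.add (Nat.add C x46581) x29085) x33945) x33405) x33465) x33457) x13777) (Nat.mul x33459 (nat_lit 2)))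
    (Nat.sub (Nat.add (Nat.add (Nat.add (Nat.add (Nat.add (Nat.add (Nat.add (Nat.add (Nat.add C x46585) x29089) x33949) x33409) x33481) x33457) x33465) x53145) x13781) x33463)
    (Nat.sub (Nat.add (Nat.add (Nat.add (Nat.add (Nat.add (Nat.add (Nat.add (Nat.add (Nat.add C x46587) x29091) x33951) x33411) x33483) x33459) x33471) x33463) x13783) x33465)
    (Nat.sub (Nat.add (Nat.add (Nat.add (Nat.add (Nat.add (Nat.add (Nat.add C x46593) x29097) x33957) x33417) x33489) x33465) x13789) (Nat.mul x33471 (nat_lit 2)))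
    (Nat.add (Nat.add (Nat.add (Nat.add (Nat.add (Nat.add (Nat.add (Nat.add (Nat.add C x33481) x46603) x29107) x33967) x33427) x33463) x33483) x53163) x13799)
    (Nat.add (Nat.add (Nat.add (Nat.add (Nat.add (Nat.add (Nat.add (Nat.add C x46605) x29109) x33969) x33429) x33465) x33489) x33481) x13801)
    (Nat.add (Nat.add (Nat.add (Nat.add (Nat.add (Nat.add (Nat.add (Nat.add (Nat.add C x33489) x46611) x29115) x33975) x33435) x33471) x33507) x33483) x13807)
    (Nat.add (Nat.add (Nat.add (Nat.add (Nat.add (Nat.add C (Nat.mul x33507 (nat_lit 2))) x46629) x29133) x33993) x33489) x13825)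
    (Nat.add (Nat.add (Nat.add (Nat.add (Nat.add (Nat.add (Nat.add (Nat.add C (Nat.mul x33551 (nat_lit 2))) x46673) x29177) x35009) x33065) x33569) x33557) x53233)
    (Nat.add (Nat.add (Nat.add (Nat.add (Nat.add (Nat.add (Nat.add (Nat.add C x46679) x29183) x35015) x33071) x33575) x33551) x33559) x53239)
    (Nat.add (Nat.add (Nat.add (Nat.add (Nat.add (Nat.add (Nat.add (Nat.add (Nat.add C x33559) x46681) x29185) x35017) x33073) x33577) x33557) x53241) x13877)
    (Nat.add (Nat.add (Nat.add (Nat.add (Nat.add (Nat.add (Nat.add (Nat.add C x46691) x29195) x35027) x33083) x33623) x33551) x33575) x53251)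
    (Nat.add (Nat.add (Nat.add (Nat.add (Nat.add (Nat.add (Nat.add (Nat.add (Nat.add (Nat.add (Nat.add C x46697) x29201) x35033) x33089) x33629) x33557) x33593) x33569) x33581) x33577) x53257)
    (Nat.add (Nat.add (Nat.add (Nat.add (Nat.add (Nat.add (Nat.add (Nat.add (Nat.add (Nat.add (Nat.add C x46699) x29203) x35035) x33091) x33631) x33559) x33595) x33583) x33575) x53259) x13895)
    (Nat.sub (Nat.add (Nat.add (Nat.add (Nat.add (Nat.add (Nat.add (Nat.add (Nat.add (Nat.add C x46703) x29207) x35039) x33095) x33635) x33599) x33575) x33583) x53263) (Nat.mul x33581 (nat_lit 2)))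
    (Nat.add (Nat.add (Nat.add (Nat.add (Nat.add (Nat.add (Nat.add (Nat.add (Nat.add (Nat.add (Nat.add C x46705) x29209) x35041) x33097) x33637) x33601) x33577) x33581) x33585) x53265) x13901)
    (Nat.add (Nat.add (Nat.add (Nat.add (Nat.add (Nat.add (Nat.add (Nat.add C x46707) x29211) x35043) x33099) x33639) x33603) x33583) x13903)
    (Nat.sub (Nat.add (Nat.add (Nat.add (Nat.add (Nat.add (Nat.add (Nat.add (Nat.add (Nat.add C x46715) x29219) x35051) x33107) x33647) x33575) x33599) x33595) x53275) (Nat.mul x33593 (nat_lit 2)))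
    (Nat.sub (Nat.add (Nat.add (Nat.add (Nat.add (Nat.add (Nat.add (Nat.add (Nat.add (Nat.add (Nat.add C x46717) x29221) x35053) x33109) x33649) x33577) x33601) x33593) x53277) x13913) (Nat.mul x33595 (nat_lit 3)))
    (Nat.sub (Nat.add (Nat.add (Nat.add (Nat.add (Nat.add (Nat.add (Nat.add (Nat.add (Nat.add C x46721) x29225) x35057) x33113) x33653) x33581) x33593) x33601) x53281) (Nat.mul x33599 (nat_lit 2)))
    (Nat.sub (Nat.add (Nat.add (Nat.add (Nat.add (Nat.add (Nat.add (Nat.add (Nat.add (Nat.add (Nat.add (Nat.add (Nat.add C x46723) x29227) x35059) x33115) x33655) x33583) x33595) x33607) x33599) x33603) x53283) x13919) x33601)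
    (Nat.sub (Nat.add (Nat.add (Nat.add (Nat.add (Nat.add (Nat.add (Nat.add (Nat.add (Nat.add C x46725) x29229) x35061) x33117) x33657) x33585) x33609) x33601) x13921) (Nat.mul x33603 (nat_lit 2)))
    (Nat.sub (Nat.add (Nat.add (Nat.add (Nat.add (Nat.add (Nat.add (Nat.add (Nat.add (Nat.add C x46729) x29233) x35065) x33121) x33661) x33601) x33609) x53289) x13925) x33607)
    (Nat.add (Nat.add (Nat.add (Nat.add (Nat.add (Nat.add (Nat.add (Nat.add C x46731) x29235) x35067) x33123) x33663) x33603) x33607) x13927)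
    (Nat.add (Nat.add (Nat.add (Nat.add (Nat.add (Nat.add (Nat.add (Nat.add C x46745) x29249) x35081) x33137) x33785) x33569) x33629) x53305)
    (Nat.sub (Nat.add (Nat.add (Nat.add (Nat.add (Nat.add (Nat.add (Nat.add (Nat.add (Nat.add (Nat.add (Nat.add C x46751) x29255) x35087) x33143) x33791) x33575) x33647) x33623) x33635) x33631) x53311) x33629)
    (Nat.sub (Nat.add (Nat.add (Nat.add (Nat.add (Nat.add (Nat.add (Nat.add (Nat.add (Nat.add (Nat.add (Nat.add C x46753) x29257) x35089) x33145) x33793) x33577) x33649) x33637) x33629) x53313) x13949) x33631)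
    (Nat.sub (Nat.add (Nat.add (Nat.add (Nat.add (Nat.add (Nat.add (Nat.add (Nat.add (Nat.add (Nat.add C x46757) x29261) x35093) x33149) x33797) x33581) x33653) x33629) x33637) x53317) (Nat.mul x33635 (nat_lit 4)))
    (Nat.sub (Nat.add (Nat.add (Nat.add (Nat.add (Nat.add (Nat.add (Nat.add (Nat.add (Nat.add (Nat.add (Nat.add (Nat.add C x46759) x29263) x35095) x33151) x33799) x33583) x33655) x33631) x33635) x33639) x53319) x13955) (Nat.mul x33637 (nat_lit 2)))
    (Nat.sub (Nat.add (Nat.add (Nat.add (Nat.add (Nat.add (Nat.add (Nat.add (Nat.add (Nat.add C x46761) x29265) x35097) x33153) x33801) x33585) x33657) x33637) x13957) (Nat.mul x33639 (nat_lit 2)))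
    (Nat.sub (Nat.add (Nat.add (Nat.add (Nat.add (Nat.add (Nat.add (Nat.add (Nat.add (Nat.add (Nat.add (Nat.add C x46769) x29273) x35105) x33161) x33809) x33593) x33701) x33629) x33653) x33649) x53329) x33647)
    (Nat.sub (Nat.add (Nat.add (Nat.add (Nat.add (Nat.add (Nat.add (Nat.add (Nat.add (Nat.add (Nat.add (Nat.add (Nat.add C x46771) x29275) x35107) x33163) x33811) x33595) x33703) x33631) x33655) x33647) x53331) x13967) (Nat.mul x33649 (nat_lit 2)))
    (Nat.sub (Nat.add (Nat.add (Nat.add (Nat.add (Nat.add (Nat.add (Nat.add (Nat.add (Nat.add (Nat.add (Nat.add (Nat.add C x46775) x29279) x35111) x33167) x33815) x33599) x33707) x33635) x33671) x33647) x33655) x53335) (Nat.mul x33653 (nat_lit 2)))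
    (Nat.sub (Nat.add (Nat.add (Nat.add (Nat.add (Nat.add (Nat.add (Nat.add (Nat.add (Nat.add (Nat.add (Nat.add (Nat.add (Nat.add (Nat.add (Nat.add C x46777) x29281) x35113) x33169) x33817) x33601) x33709) x33637) x33673) x33649) x33661) x33653) x33657) x53337) x13973) x33655)
    (Nat.sub (Nat.add (Nat.add (Nat.add (Nat.add (Nat.add (Nat.add (Nat.add (Nat.add (Nat.add (Nat.add (Nat.add (Nat.add C x46779) x29283) x35115) x33171) x33819) x33603) x33711) x33639) x33675) x33663) x33655) x13975) (Nat.mul x33657 (nat_lit 2)))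
    (Nat.sub (Nat.add (Nat.add (Nat.add (Nat.add (Nat.add (Nat.add (Nat.add (Nat.add (Nat.add (Nat.add (Nat.add (Nat.add C x46783) x29287) x35119) x33175) x33823) x33607) x33715) x33679) x33655) x33663) x53343) x13979) (Nat.mul x33661 (nat_lit 2)))
    (Nat.sub (Nat.add (Nat.add (Nat.add (Nat.add (Nat.add (Nat.add (Nat.add (Nat.add (Nat.add (Nat.add (Nat.add C x46785) x29289) x35121) x33177) x33825) x33609) x33717) x33681) x33657) x33661) x13981) x33663)
    (Nat.sub (Nat.add (Nat.add (Nat.add (Nat.add (Nat.add (Nat.add (Nat.add (Nat.add (Nat.add C x46793) x29297) x35129) x33185) x33833) x33725) x33653) x33673) x53353) (Nat.mul x33671 (nat_lit 2)))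
    (Nat.sub (Nat.add (Nat.add (Nat.add (Nat.add (Nat.add (Nat.add (Nat.add (Nat.add (Nat.add (Nat.add (Nat.add (Nat.add C x46795) x29299) x35131) x33187) x33835) x33727) x33655) x33679) x33671) x33675) x53355) x13991) (Nat.mul x33673 (nat_lit 2)))
    (Nat.sub (Nat.add (Nat.add (Nat.add (Nat.add (Nat.add (Nat.add (Nat.add (Nat.add (Nat.add (Nat.add C x46797) x29301) x35133) x33189) x33837) x33729) x33657) x33681) x33673) x13993) (Nat.mul x33675 (nat_lit 4)))
    (Nat.sub (Nat.add (Nat.add (Nat.add (Nat.add (Nat.add (Nat.add (Nat.add (Nat.add (Nat.add (Nat.add (Nat.add C x46801) x29305) x35137) x33193) x33841) x33733) x33661) x33673) x33681) x53361) x13997) x33679)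
    (Nat.sub (Nat.add (Nat.add (Nat.add (Nat.add (Nat.add (Nat.add (Nat.add (Nat.add (Nat.add (Nat.add (Nat.add C x46803) x29307) x35139) x33195) x33843) x33735) x33663) x33675) x33687) x33679) x13999) x33681)
    (Nat.add (Nat.add (Nat.add (Nat.add (Nat.add (Nat.add (Nat.add (Nat.add C x46809) x29313) x35145) x33201) x33849) x33741) x33681) x14005)
    (Nat.sub (Nat.add (Nat.add (Nat.add (Nat.add (Nat.add (Nat.add (Nat.add (Nat.add (Nat.add C x46823) x29327) x35159) x33215) x33863) x33647) x33707) x33703) x53383) (Nat.mul x33701 (nat_lit 2)))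
    (Nat.sub (Nat.add (Nat.add (Nat.add (Nat.add (Nat.add (Nat.add (Nat.add (Nat.add (Nat.add (Nat.add C x46825) x29329) x35161) x33217) x33865) x33649) x33709) x33701) x53385) x14021) (Nat.mul x33703 (nat_lit 3)))
    (Nat.sub (Nat.add (Nat.add (Nat.add (Nat.add (Nat.add (Nat.add (Nat.add (Nat.add (Nat.add (Nat.add C x46829) x29333) x35165) x33221) x33869) x33653) x33725) x33701) x33709) x53389) (Nat.mul x33707 (nat_lit 4)))
    (Nat.sub (Nat.add (Nat.add (Nat.add (Nat.add (Nat.add (Nat.add (Nat.add (Nat.add (Nat.add (Nat.add (Nat.add (Nat.add (Nat.add C x46831) x29335) x35167) x33223) x33871) x33655) x33727) x33703) x33715) x33707) x33711) x53391) x14027) (Nat.mul x33709 (nat_lit 3)))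
    (Nat.sub (Nat.add (Nat.add (Nat.add (Nat.add (Nat.add (Nat.add (Nat.add (Nat.add (Nat.add (Nat.add C x46833) x29337) x35169) x33225) x33873) x33657) x33729) x33717) x33709) x14029) (Nat.mul x33711 (nat_lit 4)))
    (Nat.sub (Nat.add (Nat.add (Nat.add (Nat.add (Nat.add (Nat.add (Nat.add (Nat.add (Nat.add (Nat.add (Nat.add C x46837) x29341) x35173) x33229) x33877) x33661) x33733) x33709) x33717) x53397) x14033) (Nat.mul x33715 (nat_lit 5)))
    (Nat.sub (Nat.add (Nat.add (Nat.add (Nat.add (Nat.add (Nat.add (Nat.add (Nat.add (Nat.add (Nat.add C x46839) x29343) x35175) x33231) x33879) x33663) x33735) x33711) x33715) x14035) (Nat.mul x33717 (nat_lit 4)))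
    (Nat.sub (Nat.add (Nat.add (Nat.add (Nat.add (Nat.add (Nat.add (Nat.add (Nat.add (Nat.add C x46847) x29351) x35183) x33239) x33887) x33671) x33707) x33727) x53407) (Nat.mul x33725 (nat_lit 2)))
    (Nat.sub (Nat.add (Nat.add (Nat.add (Nat.add (Nat.add (Nat.add (Nat.add (Nat.add (Nat.add (Nat.add (Nat.add (Nat.add C x46849) x29353) x35185) x33241) x33889) x33673) x33709) x33733) x33725) x33729) x53409) x14045) (Nat.mul x33727 (nat_lit 2)))
    (Nat.sub (Nat.add (Nat.add (Nat.add (Nat.add (Nat.add (Nat.add (Nat.add (Nat.add (Nat.add (Nat.add C x46851) x29355) x35187) x33243) x33891) x33675) x33711) x33735) x33727) x14047) (Nat.mul x33729 (nat_lit 4)))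
    (Nat.sub (Nat.add (Nat.add (Nat.add (Nat.add (Nat.add (Nat.add (Nat.add (Nat.add (Nat.add (Nat.add (Nat.add (Nat.add C x46855) x29359) x35191) x33247) x33895) x33679) x33715) x33751) x33727) x33735) x53415) x14051) (Nat.mul x33733 (nat_lit 2)))
    (Nat.sub (Nat.add (Nat.add (Nat.add (Nat.add (Nat.add (Nat.add (Nat.add (Nat.add (Nat.add (Nat.add (Nat.add (Nat.add C x46857) x29361) x35193) x33249) x33897) x33681) x33717) x33753) x33729) x33741) x33733) x14053) (Nat.mul x33735 (nat_lit 2)))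
    (Nat.sub (Nat.add (Nat.add (Nat.add (Nat.add (Nat.add (Nat.add (Nat.add (Nat.add (Nat.add C x46863) x29367) x35199) x33255) x33903) x33687) x33759) x33735) x14059) (Nat.mul x33741 (nat_lit 2)))
    (Nat.sub (Nat.add (Nat.add (Nat.add (Nat.add (Nat.add (Nat.add (Nat.add (Nat.add (Nat.add C x46873) x29377) x35209) x33265) x33913) x33733) x33753) x53433) x14069) x33751)
    (Nat.sub (Nat.add (Nat.add (Nat.add (Nat.add (Nat.add (Nat.add (Nat.add (Nat.add (Nat.add C x46875) x29379) x35211) x33267) x33915) x33735) x33759) x33751) x14071) (Nat.mul x33753 (nat_lit 2)))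
    (Nat.add (Nat.add (Nat.add (Nat.add (Nat.add (Nat.add (Nat.add (Nat.add C x46881) x29385) x35217) x33273) x33921) x33741) x33753) x14077)
    (Nat.add (Nat.add (Nat.add (Nat.add (Nat.add (Nat.add (Nat.add (Nat.add (Nat.add C x33785) x46907) x29411) x35243) x33299) x34271) x33623) x33791) x53467)
    (Nat.add (Nat.add (Nat.add (Nat.add (Nat.add (Nat.add (Nat.add (Nat.add (Nat.add (Nat.add (Nat.add C x46913) x29417) x35249) x33305) x34277) x33629) x33809) x33785) x33797) x33793) x53473)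
    (Nat.add (Nat.add (Nat.add (Nat.add (Nat.add (Nat.add (Nat.add (Nat.add (Nat.add (Nat.add (Nat.add C x46915) x29419) x35251) x33307) x34279) x33631) x33811) x33799) x33791) x53475) x14111)
    (Nat.sub (Nat.add (Nat.add (Nat.add (Nat.add (Nat.add (Nat.add (Nat.add (Nat.add (Nat.add (Nat.add C x46919) x29423) x35255) x33311) x34283) x33635) x33815) x33791) x33799) x53479) (Nat.mul x33797 (nat_lit 3)))
    (Nat.sub (Nat.add (Nat.add (Nat.add (Nat.add (Nat.add (Nat.add (Nat.add (Nat.add (Nat.add (Nat.add (Nat.add (Nat.add C x46921) x29425) x35257) x33313) x34285) x33637) x33817) x33793) x33797) x33801) x53481) x14117) x33799)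
    (Nat.sub (Nat.add (Nat.add (Nat.add (Nat.add (Nat.add (Nat.add (Nat.add (Nat.add (Nat.add C x46923) x29427) x35259) x33315) x34287) x33639) x33819) x33799) x14119) x33801)
    (Nat.sub (Nat.add (Nat.add (Nat.add (Nat.add (Nat.add (Nat.add (Nat.add (Nat.add (Nat.add (Nat.add (Nat.add C x46931) x29435) x35267) x33323) x34295) x33647) x33863) x33791) x33815) x33811) x53491) x33809)
    (Nat.sub (Nat.add (Nat.add (Nat.add (Nat.add (Nat.add (Nat.add (Nat.add (Nat.add (Nat.add (Nat.add (Nat.add (Nat.add C x46933) x29437) x35269) x33325) x34297) x33649) x33865) x33793) x33817) x33809) x53493) x14129) (Nat.mul x33811 (nat_lit 2)))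
    (Nat.sub (Nat.add (Nat.add (Nat.add (Nat.add (Nat.add (Nat.add (Nat.add (Nat.add (Nat.add (Nat.add (Nat.add (Nat.add C x46937) x29441) x35273) x33329) x34301) x33653) x33869) x33797) x33833) x33809) x33817) x53497) (Nat.mul x33815 (nat_lit 2)))
    (Nat.sub (Nat.add (Nat.add (Nat.add (Nat.add (Nat.add (Nat.add (Nat.add (Nat.add (Nat.add (Nat.add (Nat.add (Nat.add (Nat.add (Nat.add (Nat.add C x46939) x29443) x35275) x33331) x34303) x33655) x33871) x33799) x33835) x33811) x33823) x33815) x33819) x53499) x14135) x33817)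
    (Nat.sub (Nat.add (Nat.add (Nat.add (Nat.add (Nat.add (Nat.add (Nat.add (Nat.add (Nat.add (Nat.add (Nat.add (Nat.add C x46941) x29445) x35277) x33333) x34305) x33657) x33873) x33801) x33837) x33825) x33817) x14137) (Nat.mul x33819 (nat_lit 2)))
    (Nat.sub (Nat.add (Nat.add (Nat.add (Nat.add (Nat.add (Nat.add (Nat.add (Nat.add (Nat.add (Nat.add (Nat.add (Nat.add C x46945) x29449) x35281) x33337) x34309) x33661) x33877) x33841) x33817) x33825) x53505) x14141) (Nat.mul x33823 (nat_lit 2)))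
    (Nat.sub (Nat.add (Nat.add (Nat.add (Nat.add (Nat.add (Nat.add (Nat.add (Nat.add (Nat.add (Nat.add (Nat.add C x46947) x29451) x35283) x33339) x34311) x33663) x33879) x33843) x33819) x33823) x14143) x33825)
    (Nat.sub (Nat.add (Nat.add (Nat.add (Nat.add (Nat.add (Nat.add (Nat.add (Nat.add (Nat.add (Nat.add C x46955) x29459) x35291) x33347) x34319) x33671) x33887) x33815) x33835) x53515) (Nat.mul x33833 (nat_lit 3)))
    (Nat.sub (Nat.add (Nat.add (Nat.add (Nat.add (Nat.add (Nat.add (Nat.add (Nat.add (Nat.add (Nat.add (Nat.add (Nat.add (Nat.add C x46957) x29461) x35293) x33349) x34321) x33673) x33889) x33817) x33841) x33833) x33837) x53517) x14153) (Nat.mul x33835 (nat_lit 3)))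
    (Nat.sub (Nat.add (Nat.add (Nat.add (Nat.add (Nat.add (Nat.add (Nat.add (Nat.add (Nat.add (Nat.add (Nat.add C x46959) x29463) x35295) x33351) x34323) x33675) x33891) x33819) x33843) x33835) x14155) (Nat.mul x33837 (nat_lit 5)))
    (Nat.sub (Nat.add (Nat.add (Nat.add (Nat.add (Nat.add (Nat.add (Nat.add (Nat.add (Nat.add (Nat.add (Nat.add (Nat.add C x46963) x29467) x35299) x33355) x34327) x33679) x33895) x33823) x33835) x33843) x53523) x14159) (Nat.mul x33841 (nat_lit 2)))
    (Nat.sub (Nat.add (Nat.add (Nat.add (Nat.add (Nat.add (Nat.add (Nat.add (Nat.add (Nat.add (Nat.add (Nat.add (Nat.add C x46965) x29469) x35301) x33357) x34329) x33681) x33897) x33825) x33837) x33849) x33841) x14161) (Nat.mul x33843 (nat_lit 2)))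
    (Nat.sub (Nat.add (Nat.add (Nat.add (Nat.add (Nat.add (Nat.add (Nat.add (Nat.add (Nat.add C x46971) x29475) x35307) x33363) x34335) x33687) x33903) x33843) x14167) x33849)
    (Nat.add (Nat.add (Nat.add (Nat.add (Nat.add (Nat.add (Nat.add (Nat.add (Nat.add (Nat.add (Nat.add C x46985) x29489) x35321) x33377) x34349) x33701) x34025) x33809) x33869) x33865) x53545)
    (Nat.sub (Nat.add (Nat.add (Nat.add (Nat.add (Nat.add (Nat.add (Nat.add (Nat.add (Nat.add (Nat.add (Nat.add (Nat.add C x46987) x29491) x35323) x33379) x34351) x33703) x34027) x33811) x33871) x33863) x53547) x14183) x33865)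
    (Nat.sub (Nat.add (Nat.add (Nat.add (Nat.add (Nat.add (Nat.add (Nat.add (Nat.add (Nat.add (Nat.add (Nat.add (Nat.add C x46991) x29495) x35327) x33383) x34355) x33707) x34031) x33815) x33887) x33863) x33871) x53551) (Nat.mul x33869 (nat_lit 2)))
    (Nat.sub (Nat.add (Nat.add (Nat.add (Nat.add (Nat.add (Nat.add (Nat.add (Nat.add (Nat.add (Nat.add (Nat.add (Nat.add (Nat.add (Nat.add (Nat.add C x46993) x29497) x35329) x33385) x34357) x33709) x34033) x33817) x33889) x33865) x33877) x33869) x33873) x53553) x14189) x33871)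
    (Nat.sub (Nat.add (Nat.add (Nat.add (Nat.add (Nat.add (Nat.add (Nat.add (Nat.add (Nat.add (Nat.add (Nat.add (Nat.add C x46995) x29499) x35331) x33387) x34359) x33711) x34035) x33819) x33891) x33879) x33871) x14191) (Nat.mul x33873 (nat_lit 2)))
    (Nat.sub (Nat.add (Nat.add (Nat.add (Nat.add (Nat.add (Nat.add (Nat.add (Nat.add (Nat.add (Nat.add (Nat.add (Nat.add (Nat.add C x46999) x29503) x35335) x33391) x34363) x33715) x34039) x33823) x33895) x33871) x33879) x53559) x14195) (Nat.mul x33877 (nat_lit 3)))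
    (Nat.sub (Nat.add (Nat.add (Nat.add (Nat.add (Nat.add (Nat.add (Nat.add (Nat.add (Nat.add (Nat.add (Nat.add (Nat.add C x47001) x29505) x35337) x33393) x34365) x33717) x34041) x33825) x33897) x33873) x33877) x14197) (Nat.mul x33879 (nat_lit 2)))
    (Nat.sub (Nat.add (Nat.add (Nat.add (Nat.add (Nat.add (Nat.add (Nat.add (Nat.add (Nat.add (Nat.add (Nat.add (Nat.add C x47009) x29513) x35345) x33401) x34373) x33725) x34049) x33833) x33941) x33869) x33889) x53569) x33887)
    (Nat.sub (Nat.add (Nat.add (Nat.add (Nat.add (Nat.add (Nat.add (Nat.add (Nat.add (Nat.add (Nat.add (Nat.add (Nat.add (Nat.add (Nat.add (Nat.add C x47011) x29515) x35347) x33403) x34375) x33727) x34051) x33835) x33943) x33871) x33895) x33887) x33891) x53571) x14207) x33889)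
    (Nat.sub (Nat.add (Nat.add (Nat.add (Nat.add (Nat.add (Nat.add (Nat.add (Nat.add (Nat.add (Nat.add (Nat.add (Nat.add (Nat.add C x47013) x29517) x35349) x33405) x34377) x33729) x34053) x33837) x33945) x33873) x33897) x33889) x14209) (Nat.mul x33891 (nat_lit 3)))
    (Nat.sub (Nat.add (Nat.add (Nat.add (Nat.add (Nat.add (Nat.add (Nat.add (Nat.add (Nat.add (Nat.add (Nat.add (Nat.add (Nat.add (Nat.add (Nat.add C x47017) x29521) x35353) x33409) x34381) x33733) x34057) x33841) x33949) x33877) x33913) x33889) x33897) x53577) x14213) x33895)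
    (Nat.sub (Nat.add (Nat.add (Nat.add (Nat.add (Nat.add (Nat.add (Nat.add (Nat.add (Nat.add (Nat.add (Nat.add (Nat.add (Nat.add (Nat.add (Nat.add C x47019) x29523) x35355) x33411) x34383) x33735) x34059) x33843) x33951) x33879) x33915) x33891) x33903) x33895) x14215) x33897)
    (Nat.sub (Nat.add (Nat.add (Nat.add (Nat.add (Nat.add (Nat.add (Nat.add (Nat.add (Nat.add (Nat.add (Nat.add (Nat.add C x47025) x29529) x35361) x33417) x34389) x33741) x34065) x33849) x33957) x33921) x33897) x14221) x33903)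
    (Nat.sub (Nat.add (Nat.add (Nat.add (Nat.add (Nat.add (Nat.add (Nat.add (Nat.add (Nat.add (Nat.add (Nat.add (Nat.add C x47035) x29539) x35371) x33427) x34399) x33751) x34075) x33967) x33895) x33915) x53595) x14231) x33913)
    (Nat.sub (Nat.add (Nat.add (Nat.add (Nat.add (Nat.add (Nat.add (Nat.add (Nat.add (Nat.add (Nat.add (Nat.add (Nat.add C x47037) x29541) x35373) x33429) x34401) x33753) x34077) x33969) x33897) x33921) x33913) x14233) (Nat.mul x33915 (nat_lit 2)))
    (Nat.add (Nat.add (Nat.add (Nat.add (Nat.add (Nat.add (Nat.add (Nat.add (Nat.add (Nat.add (Nat.add C x47043) x29547) x35379) x33435) x34407) x33759) x34083) x33975) x33903) x33915) x14239)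
    (Nat.sub (Nat.add (Nat.add (Nat.add (Nat.add (Nat.add (Nat.add (Nat.add (Nat.add (Nat.add C x47063) x29567) x35399) x33455) x34427) x34103) x33887) x33943) x53623) x33941)
    (Nat.sub (Nat.add (Nat.add (Nat.add (Nat.add (Nat.add (Nat.add (Nat.add (Nat.add (Nat.add (Nat.add (Nat.add (Nat.add C x47065) x29569) x35401) x33457) x34429) x34105) x33889) x33949) x33941) x33945) x53625) x14261) x33943)
    (Nat.sub (Nat.add (Nat.add (Nat.add (Nat.add (Nat.add (Nat.add (Nat.add (Nat.add (Nat.add (Nat.add C x47067) x29571) x35403) x33459) x34431) x34107) x33891) x33951) x33943) x14263) (Nat.mul x33945 (nat_lit 3)))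
    (Nat.sub (Nat.add (Nat.add (Nat.add (Nat.add (Nat.add (Nat.add (Nat.add (Nat.add (Nat.add (Nat.add (Nat.add (Nat.add C x47071) x29575) x35407) x33463) x34435) x34111) x33895) x33967) x33943) x33951) x53631) x14267) (Nat.mul x33949 (nat_lit 2)))
    (Nat.sub (Nat.add (Nat.add (Nat.add (Nat.add (Nat.add (Nat.add (Nat.add (Nat.add (Nat.add (Nat.add (Nat.add (Nat.add C x47073) x29577) x35409) x33465) x34437) x34113) x33897) x33969) x33945) x33957) x33949) x14269) (Nat.mul x33951 (nat_lit 2)))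
    (Nat.sub (Nat.add (Nat.add (Nat.add (Nat.add (Nat.add (Nat.add (Nat.add (Nat.add (Nat.add (Nat.add C x47079) x29583) x35415) x33471) x34443) x34119) x33903) x33975) x33951) x14275) (Nat.mul x33957 (nat_lit 3)))
    (Nat.add (Nat.add (Nat.add (Nat.add (Nat.add (Nat.add (Nat.add (Nat.add (Nat.add (Nat.add (Nat.add C x47089) x29593) x35425) x33481) x34453) x34129) x33913) x33949) x33969) x53649) x14285)
    (Nat.sub (Nat.add (Nat.add (Nat.add (Nat.add (Nat.add (Nat.add (Nat.add (Nat.add (Nat.add (Nat.add (Nat.add C x47091) x29595) x35427) x33483) x34455) x34131) x33915) x33951) x33975) x33967) x14287) x33969)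
    (Nat.add (Nat.add (Nat.add (Nat.add (Nat.add (Nat.add (Nat.add (Nat.add (Nat.add (Nat.add (Nat.add C x47097) x29601) x35433) x33489) x34461) x34137) x33921) x33957) x33993) x33969) x14293)
    (Nat.add (Nat.add (Nat.add (Nat.add (Nat.add (Nat.add (Nat.add (Nat.add (Nat.add C x33993) x47115) x29619) x35451) x33507) x34479) x34155) x33975) x14311)
    (Nat.add (Nat.add (Nat.add (Nat.add (Nat.add (Nat.add (Nat.add (Nat.add C x47147) x29651) x35483) x34511) x33863) x34031) x34027) x53707)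
    (Nat.sub (Nat.add (Nat.add (Nat.add (Nat.add (Nat.add (Nat.add (Nat.add (Nat.add (Nat.add C x47149) x29653) x35485) x34513) x33865) x34033) x34025) x53709) x14345) x34027)
    (Nat.sub (Nat.add (Nat.add (Nat.add (Nat.add (Nat.add (Nat.add (Nat.add (Nat.add (Nat.add C x47153) x29657) x35489) x34517) x33869) x34049) x34025) x34033) x53713) (Nat.mul x34031 (nat_lit 2)))
    (Nat.sub (Nat.add (Nat.add (Nat.add (Nat.add (Nat.add (Nat.add (Nat.add (Nat.add (Nat.add (Nat.add (Nat.add (Nat.add C x47155) x29659) x35491) x34519) x33871) x34051) x34027) x34039) x34031) x34035) x53715) x14351) x34033)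
    (Nat.sub (Nat.add (Nat.add (Nat.add (Nat.add (Nat.add (Nat.add (Nat.add (Nat.add (Nat.add C x47157) x29661) x35493) x34521) x33873) x34053) x34041) x34033) x14353) (Nat.mul x34035 (nat_lit 2)))
    (Nat.sub (Nat.add (Nat.add (Nat.add (Nat.add (Nat.add (Nat.add (Nat.add (Nat.add (Nat.add (Nat.add C x47161) x29665) x35497) x34525) x33877) x34057) x34033) x34041) x53721) x14357) (Nat.mul x34039 (nat_lit 3)))
    (Nat.sub (Nat.add (Nat.add (Nat.add (Nat.add (Nat.add (Nat.add (Nat.add (Nat.add (Nat.add C x47163) x29667) x35499) x34527) x33879) x34059) x34035) x34039) x14359) (Nat.mul x34041 (nat_lit 2)))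
    (Nat.sub (Nat.add (Nat.add (Nat.add (Nat.add (Nat.add (Nat.add (Nat.add (Nat.add (Nat.add C x47171) x29675) x35507) x34535) x33887) x34103) x34031) x34051) x53731) (Nat.mul x34049 (nat_lit 2)))
    (Nat.sub (Nat.add (Nat.add (Nat.add (Nat.add (Nat.add (Nat.add (Nat.add (Nat.add (Nat.add (Nat.add (Nat.add (Nat.add C x47173) x29677) x35509) x34537) x33889) x34105) x34033) x34057) x34049) x34053) x53733) x14369) (Nat.mul x34051 (nat_lit 2)))
    (Nat.sub (Nat.add (Nat.add (Nat.add (Nat.add (Nat.add (Nat.add (Nat.add (Nat.add (Nat.add (Nat.add C x47175) x29679) x35511) x34539) x33891) x34107) x34035) x34059) x34051) x14371) (Nat.mul x34053 (nat_lit 4)))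
    (Nat.sub (Nat.add (Nat.add (Nat.add (Nat.add (Nat.add (Nat.add (Nat.add (Nat.add (Nat.add (Nat.add (Nat.add (Nat.add C x47179) x29683) x35515) x34543) x33895) x34111) x34039) x34075) x34051) x34059) x53739) x14375) (Nat.mul x34057 (nat_lit 2)))
    (Nat.sub (Nat.add (Nat.add (Nat.add (Nat.add (Nat.add (Nat.add (Nat.add (Nat.add (Nat.add (Nat.add (Nat.add (Nat.add C x47181) x29685) x35517) x34545) x33897) x34113) x34041) x34077) x34053) x34065) x34057) x14377) (Nat.mul x34059 (nat_lit 2)))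
    (Nat.sub (Nat.add (Nat.add (Nat.add (Nat.add (Nat.add (Nat.add (Nat.add (Nat.add (Nat.add C x47187) x29691) x35523) x34551) x33903) x34119) x34083) x34059) x14383) (Nat.mul x34065 (nat_lit 2)))
    (Nat.sub (Nat.add (Nat.add (Nat.add (Nat.add (Nat.add (Nat.add (Nat.add (Nat.add (Nat.add (Nat.add C x47197) x29701) x35533) x34561) x33913) x34129) x34057) x34077) x53757) x14393) (Nat.mul x34075 (nat_lit 3)))
    (Nat.sub (Nat.add (Nat.add (Nat.add (Nat.add (Nat.add (Nat.add (Nat.add (Nat.add (Nat.add (Nat.add C x47199) x29703) x35535) x34563) x33915) x34131) x34059) x34083) x34075) x14395) (Nat.mul x34077 (nat_lit 4)))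
    (Nat.sub (Nat.add (Nat.add (Nat.add (Nat.add (Nat.add (Nat.add (Nat.add (Nat.add (Nat.add C x47205) x29709) x35541) x34569) x33921) x34137) x34065) x34077) x14401) (Nat.mul x34083 (nat_lit 2)))
    (Nat.add (Nat.add (Nat.add (Nat.add (Nat.add (Nat.add (Nat.add (Nat.add C x47225) x29729) x35561) x34589) x33941) x34049) x34105) x53785)
    (Nat.add (Nat.add (Nat.add (Nat.add (Nat.add (Nat.add (Nat.add (Nat.add (Nat.add (Nat.add (Nat.add C x47227) x29731) x35563) x34591) x33943) x34051) x34111) x34103) x34107) x53787) x14423)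
    (Nat.sub (Nat.add (Nat.add (Nat.add (Nat.add (Nat.add (Nat.add (Nat.add (Nat.add (Nat.add C x47229) x29733) x35565) x34593) x33945) x34053) x34113) x34105) x14425) (Nat.mul x34107 (nat_lit 2)))
    (Nat.sub (Nat.add (Nat.add (Nat.add (Nat.add (Nat.add (Nat.add (Nat.add (Nat.add (Nat.add (Nat.add (Nat.add C x47233) x29737) x35569) x34597) x33949) x34057) x34129) x34105) x34113) x53793) x14429) x34111)
    (Nat.sub (Nat.add (Nat.add (Nat.add (Nat.add (Nat.add (Nat.add (Nat.add (Nat.add (Nat.add (Nat.add (Nat.add C x47235) x29739) x35571) x34599) x33951) x34059) x34131) x34107) x34119) x34111) x14431) x34113)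
    (Nat.sub (Nat.add (Nat.add (Nat.add (Nat.add (Nat.add (Nat.add (Nat.add (Nat.add (Nat.add C x47241) x29745) x35577) x34605) x33957) x34065) x34137) x34113) x14437) (Nat.mul x34119 (nat_lit 2)))
    (Nat.add (Nat.add (Nat.add (Nat.add (Nat.add (Nat.add (Nat.add (Nat.add (Nat.add (Nat.add (Nat.add C x47251) x29755) x35587) x34615) x33967) x34075) x34183) x34111) x34131) x53811) x14447)
    (Nat.sub (Nat.add (Nat.add (Nat.add (Nat.add (Nat.add (Nat.add (Nat.add (Nat.add (Nat.add (Nat.add (Nat.add C x47253) x29757) x35589) x34617) x33969) x34077) x34185) x34113) x34137) x34129) x14449) x34131)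
    (Nat.add (Nat.add (Nat.add (Nat.add (Nat.add (Nat.add (Nat.add (Nat.add (Nat.add (Nat.add (Nat.add C x47259) x29763) x35595) x34623) x33975) x34083) x34191) x34119) x34155) x34131) x14455)
    (Nat.add (Nat.add (Nat.add (Nat.add (Nat.add (Nat.add (Nat.add (Nat.add C x47277) x29781) x35613) x34641) x33993) x34209) x34137) x14473)
    (Nat.add (Nat.add (Nat.add (Nat.add (Nat.add (Nat.add (Nat.add (Nat.add (Nat.add C x34183) x47305) x29809) x35641) x34669) x34129) x34185) x53865) x14501)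
    (Nat.add (Nat.add (Nat.add (Nat.add (Nat.add (Nat.add (Nat.add (Nat.add C x47307) x29811) x35643) x34671) x34131) x34191) x34183) x14503)
    (Nat.add (Nat.add (Nat.add (Nat.add (Nat.add (Nat.add (Nat.add (Nat.add C x47313) x29817) x35649) x34677) x34137) x34209) x34185) x14509)
    (Nat.add (Nat.add (Nat.add (Nat.add (Nat.add (Nat.add (Nat.add (Nat.add C (Nat.mul x34209 (nat_lit 2))) x47331) x29835) x35667) x34695) x34155) x34191) x14527)
    (Nat.add (Nat.add (Nat.add (Nat.add (Nat.add (Nat.add C x47393) x29897) x35729) x33785) x34277) x53953)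
    (Nat.sub (Nat.add (Nat.add (Nat.add (Nat.add (Nat.add (Nat.add (Nat.add (Nat.add (Nat.add C x47399) x29903) x35735) x33791) x34295) x34271) x34283) x34279) x53959) x34277)
    (Nat.sub (Nat.add (Nat.add (Nat.add (Nat.add (Nat.add (Nat.add (Nat.add (Nat.add (Nat.add C x47401) x29905) x35737) x33793) x34297) x34285) x34277) x53961) x14597) x34279)
    (Nat.sub (Nat.add (Nat.add (Nat.add (Nat.add (Nat.add (Nat.add (Nat.add (Nat.add C x47405) x29909) x35741) x33797) x34301) x34277) x34285) x53965) (Nat.mul x34283 (nat_lit 4)))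
    (Nat.sub (Nat.add (Nat.add (Nat.add (Nat.add (Nat.add (Nat.add (Nat.add (Nat.add (Nat.add (Nat.add C x47407) x29911) x35743) x33799) x34303) x34279) x34283) x34287) x53967) x14603) (Nat.mul x34285 (nat_lit 2)))
    (Nat.sub (Nat.add (Nat.add (Nat.add (Nat.add (Nat.add (Nat.add (Nat.add C x47409) x29913) x35745) x33801) x34305) x34285) x14605) (Nat.mul x34287 (nat_lit 2)))
    (Nat.sub (Nat.add (Nat.add (Nat.add (Nat.add (Nat.add (Nat.add (Nat.add (Nat.add (Nat.add C x47417) x29921) x35753) x33809) x34349) x34277) x34301) x34297) x53977) (Nat.mul x34295 (nat_lit 2)))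
    (Nat.sub (Nat.add (Nat.add (Nat.add (Nat.add (Nat.add (Nat.add (Nat.add (Nat.add (Nat.add (Nat.add C x47419) x29923) x35755) x33811) x34351) x34279) x34303) x34295) x53979) x14615) (Nat.mul x34297 (nat_lit 3)))
    (Nat.sub (Nat.add (Nat.add (Nat.add (Nat.add (Nat.add (Nat.add (Nat.add (Nat.add (Nat.add (Nat.add C x47423) x29927) x35759) x33815) x34355) x34283) x34319) x34295) x34303) x53983) (Nat.mul x34301 (nat_lit 3)))
    (Nat.sub (Nat.add (Nat.add (Nat.add (Nat.add (Nat.add (Nat.add (Nat.add (Nat.add (Nat.add (Nat.add (Nat.add (Nat.add (Nat.add C x47425) x29929) x35761) x33817) x34357) x34285) x34321) x34297) x34309) x34301) x34305) x53985) x14621) (Nat.mul x34303 (nat_lit 2)))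
    (Nat.sub (Nat.add (Nat.add (Nat.add (Nat.add (Nat.add (Nat.add (Nat.add (Nat.add (Nat.add (Nat.add C x47427) x29931) x35763) x33819) x34359) x34287) x34323) x34311) x34303) x14623) (Nat.mul x34305 (nat_lit 3)))
    (Nat.sub (Nat.add (Nat.add (Nat.add (Nat.add (Nat.add (Nat.add (Nat.add (Nat.add (Nat.add (Nat.add C x47431) x29935) x35767) x33823) x34363) x34327) x34303) x34311) x53991) x14627) (Nat.mul x34309 (nat_lit 3)))
    (Nat.sub (Nat.add (Nat.add (Nat.add (Nat.add (Nat.add (Nat.add (Nat.add (Nat.add (Nat.add C x47433) x29937) x35769) x33825) x34365) x34329) x34305) x34309) x14629) (Nat.mul x34311 (nat_lit 2)))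
    (Nat.sub (Nat.add (Nat.add (Nat.add (Nat.add (Nat.add (Nat.add (Nat.add (Nat.add C x47441) x29945) x35777) x33833) x34373) x34301) x34321) x54001) (Nat.mul x34319 (nat_lit 4)))
    (Nat.sub (Nat.add (Nat.add (Nat.add (Nat.add (Nat.add (Nat.add (Nat.add (Nat.add (Nat.add (Nat.add (Nat.add C x47443) x29947) x35779) x33835) x34375) x34303) x34327) x34319) x34323) x54003) x14639) (Nat.mul x34321 (nat_lit 4)))
    (Nat.sub (Nat.add (Nat.add (Nat.add (Nat.add (Nat.add (Nat.add (Nat.add (Nat.add (Nat.add C x47445) x29949) x35781) x33837) x34377) x34305) x34329) x34321) x14641) (Nat.mul x34323 (nat_lit 6)))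
    (Nat.sub (Nat.add (Nat.add (Nat.add (Nat.add (Nat.add (Nat.add (Nat.add (Nat.add (Nat.add (Nat.add C x47449) x29953) x35785) x33841) x34381) x34309) x34321) x34329) x54009) x14645) (Nat.mul x34327 (nat_lit 3)))
    (Nat.sub (Nat.add (Nat.add (Nat.add (Nat.add (Nat.add (Nat.add (Nat.add (Nat.add (Nat.add (Nat.add C x47451) x29955) x35787) x33843) x34383) x34311) x34323) x34335) x34327) x14647) (Nat.mul x34329 (nat_lit 3)))
    (Nat.sub (Nat.add (Nat.add (Nat.add (Nat.add (Nat.add (Nat.add (Nat.add C x47457) x29961) x35793) x33849) x34389) x34329) x14653) (Nat.mul x34335 (nat_lit 2)))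
    (Nat.sub (Nat.add (Nat.add (Nat.add (Nat.add (Nat.add (Nat.add (Nat.add (Nat.add (Nat.add C x47471) x29975) x35807) x33863) x34511) x34295) x34355) x34351) x54031) (Nat.mul x34349 (nat_lit 2)))
    (Nat.sub (Nat.add (Nat.add (Nat.add (Nat.add (Nat.add (Nat.add (Nat.add (Nat.add (Nat.add (Nat.add C x47473) x29977) x35809) x33865) x34513) x34297) x34357) x34349) x54033) x14669) (Nat.mul x34351 (nat_lit 3)))
    (Nat.sub (Nat.add (Nat.add (Nat.add (Nat.add (Nat.add (Nat.add (Nat.add (Nat.add (Nat.add (Nat.add C x47477) x29981) x35813) x33869) x34517) x34301) x34373) x34349) x34357) x54037) (Nat.mul x34355 (nat_lit 4)))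
    (Nat.sub (Nat.add (Nat.add (Nat.add (Nat.add (Nat.add (Nat.add (Nat.add (Nat.add (Nat.add (Nat.add (Nat.add (Nat.add (Nat.add C x47479) x29983) x35815) x33871) x34519) x34303) x34375) x34351) x34363) x34355) x34359) x54039) x14675) (Nat.mul x34357 (nat_lit 3)))
    (Nat.sub (Nat.add (Nat.add (Nat.add (Nat.add (Nat.add (Nat.add (Nat.add (Nat.add (Nat.add (Nat.add C x47481) x29985) x35817) x33873) x34521) x34305) x34377) x34365) x34357) x14677) (Nat.mul x34359 (nat_lit 4)))
    (Nat.sub (Nat.add (Nat.add (Nat.add (Nat.add (Nat.add (Nat.add (Nat.add (Nat.add (Nat.add (Nat.add (Nat.add C x47485) x29989) x35821) x33877) x34525) x34309) x34381) x34357) x34365) x54045) x14681) (Nat.mul x34363 (nat_lit 5)))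
    (Nat.sub (Nat.add (Nat.add (Nat.add (Nat.add (Nat.add (Nat.add (Nat.add (Nat.add (Nat.add (Nat.add C x47487) x29991) x35823) x33879) x34527) x34311) x34383) x34359) x34363) x14683) (Nat.mul x34365 (nat_lit 4)))
    (Nat.sub (Nat.add (Nat.add (Nat.add (Nat.add (Nat.add (Nat.add (Nat.add (Nat.add (Nat.add (Nat.add C x47495) x29999) x35831) x33887) x34535) x34319) x34427) x34355) x34375) x54055) (Nat.mul x34373 (nat_lit 3)))
    (Nat.sub (Nat.add (Nat.add (Nat.add (Nat.add (Nat.add (Nat.add (Nat.add (Nat.add (Nat.add (Nat.add (Nat.add (Nat.add (Nat.add C x47497) x30001) x35833) x33889) x34537) x34321) x34429) x34357) x34381) x34373) x34377) x54057) x14693) (Nat.mul x34375 (nat_lit 3)))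
    (Nat.sub (Nat.add (Nat.add (Nat.add (Nat.add (Nat.add (Nat.add (Nat.add (Nat.add (Nat.add (Nat.add (Nat.add C x47499) x30003) x35835) x33891) x34539) x34323) x34431) x34359) x34383) x34375) x14695) (Nat.mul x34377 (nat_lit 5)))
    (Nat.sub (Nat.add (Nat.add (Nat.add (Nat.add (Nat.add (Nat.add (Nat.add (Nat.add (Nat.add (Nat.add (Nat.add (Nat.add (Nat.add C x47503) x30007) x35839) x33895) x34543) x34327) x34435) x34363) x34399) x34375) x34383) x54063) x14699) (Nat.mul x34381 (nat_lit 3)))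
    (Nat.sub (Nat.add (Nat.add (Nat.add (Nat.add (Nat.add (Nat.add (Nat.add (Nat.add (Nat.add (Nat.add (Nat.add (Nat.add (Nat.add C x47505) x30009) x35841) x33897) x34545) x34329) x34437) x34365) x34401) x34377) x34389) x34381) x14701) (Nat.mul x34383 (nat_lit 3)))
    (Nat.sub (Nat.add (Nat.add (Nat.add (Nat.add (Nat.add (Nat.add (Nat.add (Nat.add (Nat.add (Nat.add C x47511) x30015) x35847) x33903) x34551) x34335) x34443) x34407) x34383) x14707) (Nat.mul x34389 (nat_lit 3)))
    (Nat.sub (Nat.add (Nat.add (Nat.add (Nat.add (Nat.add (Nat.add (Nat.add (Nat.add (Nat.add (Nat.add C x47521) x30025) x35857) x33913) x34561) x34453) x34381) x34401) x54081) x14717) (Nat.mul x34399 (nat_lit 3)))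
    (Nat.sub (Nat.add (Nat.add (Nat.add (Nat.add (Nat.add (Nat.add (Nat.add (Nat.add (Nat.add (Nat.add C x47523) x30027) x35859) x33915) x34563) x34455) x34383) x34407) x34399) x14719) (Nat.mul x34401 (nat_lit 4)))
    (Nat.sub (Nat.add (Nat.add (Nat.add (Nat.add (Nat.add (Nat.add (Nat.add (Nat.add (Nat.add C x47529) x30033) x35865) x33921) x34569) x34461) x34389) x34401) x14725) (Nat.mul x34407 (nat_lit 2)))
    (Nat.sub (Nat.add (Nat.add (Nat.add (Nat.add (Nat.add (Nat.add (Nat.add (Nat.add C x47549) x30053) x35885) x33941) x34589) x34373) x34429) x54109) (Nat.mul x34427 (nat_lit 4)))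
    (Nat.sub (Nat.add (Nat.add (Nat.add (Nat.add (Nat.add (Nat.add (Nat.add (Nat.add (Nat.add (Nat.add (Nat.add C x47551) x30055) x35887) x33943) x34591) x34375) x34435) x34427) x34431) x54111) x14747) (Nat.mul x34429 (nat_lit 4)))
    (Nat.sub (Nat.add (Nat.add (Nat.add (Nat.add (Nat.add (Nat.add (Nat.add (Nat.add (Nat.add C x47553) x30057) x35889) x33945) x34593) x34377) x34437) x34429) x14749) (Nat.mul x34431 (nat_lit 6)))
    (Nat.sub (Nat.add (Nat.add (Nat.add (Nat.add (Nat.add (Nat.add (Nat.add (Nat.add (Nat.add (Nat.add (Nat.add C x47557) x30061) x35893) x33949) x34597) x34381) x34453) x34429) x34437) x54117) x14753) (Nat.mul x34435 (nat_lit 5)))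
    (Nat.sub (Nat.add (Nat.add (Nat.add (Nat.add (Nat.add (Nat.add (Nat.add (Nat.add (Nat.add (Nat.add (Nat.add C x47559) x30063) x35895) x33951) x34599) x34383) x34455) x34431) x34443) x34435) x14755) (Nat.mul x34437 (nat_lit 5)))
    (Nat.sub (Nat.add (Nat.add (Nat.add (Nat.add (Nat.add (Nat.add (Nat.add (Nat.add (Nat.add C x47565) x30069) x35901) x33957) x34605) x34389) x34461) x34437) x14761) (Nat.mul x34443 (nat_lit 6)))
    (Nat.sub (Nat.add (Nat.add (Nat.add (Nat.add (Nat.add (Nat.add (Nat.add (Nat.add (Nat.add (Nat.add C x47575) x30079) x35911) x33967) x34615) x34399) x34435) x34455) x54135) x14771) (Nat.mul x34453 (nat_lit 3)))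
    (Nat.sub (Nat.add (Nat.add (Nat.add (Nat.add (Nat.add (Nat.add (Nat.add (Nat.add (Nat.add (Nat.add C x47577) x30081) x35913) x33969) x34617) x34401) x34437) x34461) x34453) x14773) (Nat.mul x34455 (nat_lit 4)))
    (Nat.sub (Nat.add (Nat.add (Nat.add (Nat.add (Nat.add (Nat.add (Nat.add (Nat.add (Nat.add (Nat.add C x47583) x30087) x35919) x33975) x34623) x34407) x34443) x34479) x34455) x14779) (Nat.mul x34461 (nat_lit 3)))
    (Nat.sub (Nat.add (Nat.add (Nat.add (Nat.add (Nat.add (Nat.add (Nat.add C x47601) x30105) x35937) x33993) x34641) x34461) x14797) (Nat.mul x34479 (nat_lit 2)))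
    (Nat.add (Nat.add (Nat.add (Nat.add (Nat.add (Nat.add (Nat.add (Nat.add C x47633) x30137) x35969) x34025) x34349) x34517) x34513) x54193)
    (Nat.sub (Nat.add (Nat.add (Nat.add (Nat.add (Nat.add (Nat.add (Nat.add (Nat.add (Nat.add C x47635) x30139) x35971) x34027) x34351) x34519) x34511) x54195) x14831) x34513)
    (Nat.sub (Nat.add (Nat.add (Nat.add (Nat.add (Nat.add (Nat.add (Nat.add (Nat.add (Nat.add C x47639) x30143) x35975) x34031) x34355) x34535) x34511) x34519) x54199) (Nat.mul x34517 (nat_lit 2)))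
    (Nat.sub (Nat.add (Nat.add (Nat.add (Nat.add (Nat.add (Nat.add (Nat.add (Nat.add (Nat.add (Nat.add (Nat.add (Nat.add C x47641) x30145) x35977) x34033) x34357) x34537) x34513) x34525) x34517) x34521) x54201) x14837) x34519)
    (Nat.sub (Nat.add (Nat.add (Nat.add (Nat.add (Nat.add (Nat.add (Nat.add (Nat.add (Nat.add C x47643) x30147) x35979) x34035) x34359) x34539) x34527) x34519) x14839) (Nat.mul x34521 (nat_lit 2)))
    (Nat.sub (Nat.add (Nat.add (Nat.add (Nat.add (Nat.add (Nat.add (Nat.add (Nat.add (Nat.add (Nat.add C x47647) x30151) x35983) x34039) x34363) x34543) x34519) x34527) x54207) x14843) (Nat.mul x34525 (nat_lit 3)))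
    (Nat.sub (Nat.add (Nat.add (Nat.add (Nat.add (Nat.add (Nat.add (Nat.add (Nat.add (Nat.add C x47649) x30153) x35985) x34041) x34365) x34545) x34521) x34525) x14845) (Nat.mul x34527 (nat_lit 2)))
    (Nat.sub (Nat.add (Nat.add (Nat.add (Nat.add (Nat.add (Nat.add (Nat.add (Nat.add (Nat.add C x47657) x30161) x35993) x34049) x34373) x34589) x34517) x34537) x54217) (Nat.mul x34535 (nat_lit 2)))
    (Nat.sub (Nat.add (Nat.add (Nat.add (Nat.add (Nat.add (Nat.add (Nat.add (Nat.add (Nat.add (Nat.add (Nat.add (Nat.add C x47659) x30163) x35995) x34051) x34375) x34591) x34519) x34543) x34535) x34539) x54219) x14855) (Nat.mul x34537 (nat_lit 2)))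
    (Nat.sub (Nat.add (Nat.add (Nat.add (Nat.add (Nat.add (Nat.add (Nat.add (Nat.add (Nat.add (Nat.add C x47661) x30165) x35997) x34053) x34377) x34593) x34521) x34545) x34537) x14857) (Nat.mul x34539 (nat_lit 4)))
    (Nat.sub (Nat.add (Nat.add (Nat.add (Nat.add (Nat.add (Nat.add (Nat.add (Nat.add (Nat.add (Nat.add (Nat.add (Nat.add C x47665) x30169) x36001) x34057) x34381) x34597) x34525) x34561) x34537) x34545) x54225) x14861) (Nat.mul x34543 (nat_lit 2)))
    (Nat.sub (Nat.add (Nat.add (Nat.add (Nat.add (Nat.add (Nat.add (Nat.add (Nat.add (Nat.add (Nat.add (Nat.add (Nat.add C x47667) x30171) x36003) x34059) x34383) x34599) x34527) x34563) x34539) x34551) x34543) x14863) (Nat.mul x34545 (nat_lit 2)))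
    (Nat.sub (Nat.add (Nat.add (Nat.add (Nat.add (Nat.add (Nat.add (Nat.add (Nat.add (Nat.add C x47673) x30177) x36009) x34065) x34389) x34605) x34569) x34545) x14869) (Nat.mul x34551 (nat_lit 2)))
    (Nat.sub (Nat.add (Nat.add (Nat.add (Nat.add (Nat.add (Nat.add (Nat.add (Nat.add (Nat.add (Nat.add C x47683) x30187) x36019) x34075) x34399) x34615) x34543) x34563) x54243) x14879) (Nat.mul x34561 (nat_lit 3)))
    (Nat.sub (Nat.add (Nat.add (Nat.add (Nat.add (Nat.add (Nat.add (Nat.add (Nat.add (Nat.add (Nat.add C x47685) x30189) x36021) x34077) x34401) x34617) x34545) x34569) x34561) x14881) (Nat.mul x34563 (nat_lit 4)))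
    (Nat.sub (Nat.add (Nat.add (Nat.add (Nat.add (Nat.add (Nat.add (Nat.add (Nat.add (Nat.add C x47691) x30195) x36027) x34083) x34407) x34623) x34551) x34563) x14887) (Nat.mul x34569 (nat_lit 2)))
    (Nat.sub (Nat.add (Nat.add (Nat.add (Nat.add (Nat.add (Nat.add (Nat.add (Nat.add (Nat.add C x47711) x30215) x36047) x34103) x34427) x34751) x34535) x34591) x54271) x34589)
    (Nat.sub (Nat.add (Nat.add (Nat.add (Nat.add (Nat.add (Nat.add (Nat.add (Nat.add (Nat.add (Nat.add (Nat.add (Nat.add C x47713) x30217) x36049) x34105) x34429) x34753) x34537) x34597) x34589) x34593) x54273) x14909) x34591)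
    (Nat.sub (Nat.add (Nat.add (Nat.add (Nat.add (Nat.add (Nat.add (Nat.add (Nat.add (Nat.add (Nat.add C x47715) x30219) x36051) x34107) x34431) x34755) x34539) x34599) x34591) x14911) (Nat.mul x34593 (nat_lit 3)))
    (Nat.sub (Nat.add (Nat.add (Nat.add (Nat.add (Nat.add (Nat.add (Nat.add (Nat.add (Nat.add (Nat.add (Nat.add (Nat.add C x47719) x30223) x36055) x34111) x34435) x34759) x34543) x34615) x34591) x34599) x54279) x14915) (Nat.mul x34597 (nat_lit 2)))
    (Nat.sub (Nat.add (Nat.add (Nat.add (Nat.add (Nat.add (Nat.add (Nat.add (Nat.add (Nat.add (Nat.add (Nat.add (Nat.add C x47721) x30225) x36057) x34113) x34437) x34761) x34545) x34617) x34593) x34605) x34597) x14917) (Nat.mul x34599 (nat_lit 2)))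
    (Nat.sub (Nat.add (Nat.add (Nat.add (Nat.add (Nat.add (Nat.add (Nat.add (Nat.add (Nat.add (Nat.add C x47727) x30231) x36063) x34119) x34443) x34767) x34551) x34623) x34599) x14923) (Nat.mul x34605 (nat_lit 3)))
    (Nat.sub (Nat.add (Nat.add (Nat.add (Nat.add (Nat.add (Nat.add (Nat.add (Nat.add (Nat.add (Nat.add (Nat.add (Nat.add C x47737) x30241) x36073) x34129) x34453) x34777) x34561) x34669) x34597) x34617) x54297) x14933) x34615)
    (Nat.sub (Nat.add (Nat.add (Nat.add (Nat.add (Nat.add (Nat.add (Nat.add (Nat.add (Nat.add (Nat.add (Nat.add (Nat.add C x47739) x30243) x36075) x34131) x34455) x34779) x34563) x34671) x34599) x34623) x34615) x14935) (Nat.mul x34617 (nat_lit 2)))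
    (Nat.sub (Nat.add (Nat.add (Nat.add (Nat.add (Nat.add (Nat.add (Nat.add (Nat.add (Nat.add (Nat.add (Nat.add (Nat.add C x47745) x30249) x36081) x34137) x34461) x34785) x34569) x34677) x34605) x34641) x34617) x14941) x34623)
    (Nat.sub (Nat.add (Nat.add (Nat.add (Nat.add (Nat.add (Nat.add (Nat.add (Nat.add (Nat.add C x47763) x30267) x36099) x34155) x34479) x34803) x34695) x34623) x14959) x34641)
    (Nat.sub (Nat.add (Nat.add (Nat.add (Nat.add (Nat.add (Nat.add (Nat.add (Nat.add (Nat.add C x47791) x30295) x36127) x34183) x34831) x34615) x34671) x54351) x14987) x34669)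
    (Nat.sub (Nat.add (Nat.add (Nat.add (Nat.add (Nat.add (Nat.add (Nat.add (Nat.add (Nat.add C x47793) x30297) x36129) x34185) x34833) x34617) x34677) x34669) x14989) (Nat.mul x34671 (nat_lit 2)))
    (Nat.sub (Nat.add (Nat.add (Nat.add (Nat.add (Nat.add (Nat.add (Nat.add (Nat.add (Nat.add C x47799) x30303) x36135) x34191) x34839) x34623) x34695) x34671) x14995) (Nat.mul x34677 (nat_lit 2)))
    (Nat.add (Nat.add (Nat.add (Nat.add (Nat.add (Nat.add (Nat.add (Nat.add C x47817) x30321) x36153) x34209) x34857) x34641) x34677) x15013)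
    (Nat.add (Nat.add (Nat.add (Nat.add (Nat.add (Nat.add C x47873) x30377) x36209) x34589) x34753) x54433)
    (Nat.add (Nat.add (Nat.add (Nat.add (Nat.add (Nat.add (Nat.add (Nat.add (Nat.add C x47875) x30379) x36211) x34591) x34759) x34751) x34755) x54435) x15071)
    (Nat.sub (Nat.add (Nat.add (Nat.add (Nat.add (Nat.add (Nat.add (Nat.add C x47877) x30381) x36213) x34593) x34761) x34753) x15073) (Nat.mul x34755 (nat_lit 2)))
    (Nat.sub (Nat.add (Nat.add (Nat.add (Nat.add (Nat.add (Nat.add (Nat.add (Nat.add (Nat.add C x47881) x30385) x36217) x34597) x34777) x34753) x34761) x54441) x15077) x34759)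
    (Nat.sub (Nat.add (Nat.add (Nat.add (Nat.add (Nat.add (Nat.add (Nat.add (Nat.add (Nat.add C x47883) x30387) x36219) x34599) x34779) x34755) x34767) x34759) x15079) x34761)
    (Nat.sub (Nat.add (Nat.add (Nat.add (Nat.add (Nat.add (Nat.add (Nat.add C x47889) x30393) x36225) x34605) x34785) x34761) x15085) (Nat.mul x34767 (nat_lit 2)))
    (Nat.sub (Nat.add (Nat.add (Nat.add (Nat.add (Nat.add (Nat.add (Nat.add (Nat.add (Nat.add C x47899) x30403) x36235) x34615) x34831) x34759) x34779) x54459) x15095) x34777)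
    (Nat.sub (Nat.add (Nat.add (Nat.add (Nat.add (Nat.add (Nat.add (Nat.add (Nat.add (Nat.add C x47901) x30405) x36237) x34617) x34833) x34761) x34785) x34777) x15097) (Nat.mul x34779 (nat_lit 2)))
    (Nat.sub (Nat.add (Nat.add (Nat.add (Nat.add (Nat.add (Nat.add (Nat.add (Nat.add (Nat.add C x47907) x30411) x36243) x34623) x34839) x34767) x34803) x34779) x15103) x34785)
    (Nat.sub (Nat.add (Nat.add (Nat.add (Nat.add (Nat.add (Nat.add (Nat.add C x47925) x30429) x36261) x34641) x34857) x34785) x15121) (Nat.mul x34803 (nat_lit 2)))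
    (Nat.add (Nat.add (Nat.add (Nat.add (Nat.add (Nat.add (Nat.add (Nat.add (Nat.add C x34831) x47953) x30457) x36289) x34669) x34777) x34833) x54513) x15149)
    (Nat.add (Nat.add (Nat.add (Nat.add (Nat.add (Nat.add (Nat.add (Nat.add C x47955) x30459) x36291) x34671) x34779) x34839) x34831) x15151)
    (Nat.add (Nat.add (Nat.add (Nat.add (Nat.add (Nat.add (Nat.add (Nat.add C x47961) x30465) x36297) x34677) x34785) x34857) x34833) x15157)
    (Nat.add (Nat.add (Nat.add (Nat.add (Nat.add (Nat.add (Nat.add (Nat.add (Nat.add C x34857) x47979) x30483) x36315) x34695) x34803) x34911) x34839) x15175)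
    (Nat.add (Nat.add (Nat.add (Nat.add (Nat.add (Nat.add C (Nat.mul x34911 (nat_lit 2))) x48033) x30537) x36369) x34857) x15229)
    (Nat.add (Nat.add (Nat.add (Nat.add (Nat.add (Nat.add (Nat.add C (Nat.mul x35009 (nat_lit 4))) x48131) x30635) x33551) x35027) x35015) x54691)
    (Nat.add (Nat.add (Nat.add (Nat.add (Nat.add (Nat.add (Nat.add (Nat.add C (Nat.mul x35015 (nat_lit 2))) x48137) x30641) x33557) x35033) x35009) x35017) x54697)
    (Nat.add (Nat.add (Nat.add (Nat.add (Nat.add (Nat.add (Nat.add (Nat.add C (Nat.mul x35017 (nat_lit 3))) x48139) x30643) x33559) x35035) x35015) x54699) x15335)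
    (Nat.add (Nat.add (Nat.add (Nat.add (Nat.add (Nat.add (Nat.add (Nat.add C (Nat.mul x35027 (nat_lit 2))) x48149) x30653) x33569) x35081) x35009) x35033) x54709)
    (Nat.add (Nat.add (Nat.add (Nat.add (Nat.add (Nat.add (Nat.add (Nat.add (Nat.add (Nat.add (Nat.add C (Nat.mul x35033 (nat_lit 2))) x48155) x30659) x33575) x35087) x35015) x35051) x35027) x35039) x35035) x54715)
    (Nat.add (Nat.add (Nat.add (Nat.add (Nat.add (Nat.add (Nat.add (Nat.add (Nat.add (Nat.add (Nat.add C (Nat.mul x35035 (nat_lit 2))) x48157) x30661) x33577) x35089) x35017) x35053) x35041) x35033) x54717) x15353)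
    (Nat.add (Nat.add (Nat.add (Nat.add (Nat.add (Nat.add (Nat.add (Nat.add C x48161) x30665) x33581) x35093) x35057) x35033) x35041) x54721)
    (Nat.add (Nat.add (Nat.add (Nat.add (Nat.add (Nat.add (Nat.add (Nat.add (Nat.add (Nat.add (Nat.add C (Nat.mul x35041 (nat_lit 2))) x48163) x30667) x33583) x35095) x35059) x35035) x35039) x35043) x54723) x15359)
    (Nat.add (Nat.add (Nat.add (Nat.add (Nat.add (Nat.add (Nat.add (Nat.add C (Nat.mul x35043 (nat_lit 2))) x48165) x30669) x33585) x35097) x35061) x35041) x15361)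
    (Nat.add (Nat.add (Nat.add (Nat.add (Nat.add (Nat.add (Nat.add (Nat.add C x48173) x30677) x33593) x35105) x35033) x35057) x35053) x54733)
    (Nat.sub (Nat.add (Nat.add (Nat.add (Nat.add (Nat.add (Nat.add (Nat.add (Nat.add (Nat.add C x48175) x30679) x33595) x35107) x35035) x35059) x35051) x54735) x15371) x35053)
    (Nat.add (Nat.add (Nat.add (Nat.add (Nat.add (Nat.add (Nat.add (Nat.add C x48179) x30683) x33599) x35111) x35039) x35051) x35059) x54739)
    (Nat.add (Nat.add (Nat.add (Nat.add (Nat.add (Nat.add (Nat.add (Nat.add (Nat.add (Nat.add (Nat.add (Nat.add C x35059) x48181) x30685) x33601) x35113) x35041) x35053) x35065) x35057) x35061) x54741) x15377)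
    (Nat.add (Nat.add (Nat.add (Nat.add (Nat.add (Nat.add (Nat.add (Nat.add C x48183) x30687) x33603) x35115) x35043) x35067) x35059) x15379)
    (Nat.add (Nat.add (Nat.add (Nat.add (Nat.add (Nat.add (Nat.add (Nat.add (Nat.add C x35065) x48187) x30691) x33607) x35119) x35059) x35067) x54747) x15383)
    (Nat.add (Nat.add (Nat.add (Nat.add (Nat.add (Nat.add (Nat.add (Nat.add C (Nat.mul x35067 (nat_lit 2))) x48189) x30693) x33609) x35121) x35061) x35065) x15385)
    (Nat.add (Nat.add (Nat.add (Nat.add (Nat.add (Nat.add (Nat.add (Nat.add C (Nat.mul x35081 (nat_lit 2))) x48203) x30707) x33623) x35243) x35027) x35087) x54763)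
    (Nat.add (Nat.add (Nat.add (Nat.add (Nat.add (Nat.add (Nat.add (Nat.add (Nat.add (Nat.add (Nat.add C x35087) x48209) x30713) x33629) x35249) x35033) x35105) x35081) x35093) x35089) x54769)
    (Nat.add (Nat.add (Nat.add (Nat.add (Nat.add (Nat.add (Nat.add (Nat.add (Nat.add (Nat.add (Nat.add C x35089) x48211) x30715) x33631) x35251) x35035) x35107) x35095) x35087) x54771) x15407)
    (Nat.sub (Nat.add (Nat.add (Nat.add (Nat.add (Nat.add (Nat.add (Nat.add (Nat.add (Nat.add C x48215) x30719) x33635) x35255) x35039) x35111) x35087) x35095) x54775) (Nat.mul x35093 (nat_lit 2)))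
    (Nat.add (Nat.add (Nat.add (Nat.add (Nat.add (Nat.add (Nat.add (Nat.add (Nat.add (Nat.add (Nat.add C x48217) x30721) x33637) x35257) x35041) x35113) x35089) x35093) x35097) x54777) x15413)
    (Nat.add (Nat.add (Nat.add (Nat.add (Nat.add (Nat.add (Nat.add (Nat.add C x48219) x30723) x33639) x35259) x35043) x35115) x35095) x15415)
    (Nat.add (Nat.add (Nat.add (Nat.add (Nat.add (Nat.add (Nat.add (Nat.add (Nat.add (Nat.add (Nat.add C x35105) x48227) x30731) x33647) x35267) x35051) x35159) x35087) x35111) x35107) x54787)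
    (Nat.add (Nat.add (Nat.add (Nat.add (Nat.add (Nat.add (Nat.add (Nat.add (Nat.add (Nat.add (Nat.add C x48229) x30733) x33649) x35269) x35053) x35161) x35089) x35113) x35105) x54789) x15425)
    (Nat.add (Nat.add (Nat.add (Nat.add (Nat.add (Nat.add (Nat.add (Nat.add (Nat.add (Nat.add (Nat.add C x48233) x30737) x33653) x35273) x35057) x35165) x35093) x35129) x35105) x35113) x54793)
    (Nat.add (Nat.add (Nat.add (Nat.add (Nat.add (Nat.add (Nat.add (Nat.add (Nat.add (Nat.add (Nat.add (Nat.add (Nat.add (Nat.add (Nat.add C x35113) x48235) x30739) x33655) x35275) x35059) x35167) x35095) x35131) x35107) x35119) x35111) x35115) x54795) x15431)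
    (Nat.add (Nat.add (Nat.add (Nat.add (Nat.add (Nat.add (Nat.add (Nat.add (Nat.add (Nat.add (Nat.add C x48237) x30741) x33657) x35277) x35061) x35169) x35097) x35133) x35121) x35113) x15433)
    (Nat.add (Nat.add (Nat.add (Nat.add (Nat.add (Nat.add (Nat.add (Nat.add (Nat.add (Nat.add (Nat.add C x48241) x30745) x33661) x35281) x35065) x35173) x35137) x35113) x35121) x54801) x15437)
    (Nat.add (Nat.add (Nat.add (Nat.add (Nat.add (Nat.add (Nat.add (Nat.add (Nat.add (Nat.add (Nat.add C x35121) x48243) x30747) x33663) x35283) x35067) x35175) x35139) x35115) x35119) x15439)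
    (Nat.add (Nat.add (Nat.add (Nat.add (Nat.add (Nat.add (Nat.add (Nat.add C x48251) x30755) x33671) x35291) x35183) x35111) x35131) x54811)
    (Nat.add (Nat.add (Nat.add (Nat.add (Nat.add (Nat.add (Nat.add (Nat.add (Nat.add (Nat.add (Nat.add C x48253) x30757) x33673) x35293) x35185) x35113) x35137) x35129) x35133) x54813) x15449)
    (Nat.sub (Nat.add (Nat.add (Nat.add (Nat.add (Nat.add (Nat.add (Nat.add (Nat.add (Nat.add C x48255) x30759) x33675) x35295) x35187) x35115) x35139) x35131) x15451) (Nat.mul x35133 (nat_lit 2)))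
    (Nat.add (Nat.add (Nat.add (Nat.add (Nat.add (Nat.add (Nat.add (Nat.add (Nat.add (Nat.add (Nat.add C x35137) x48259) x30763) x33679) x35299) x35191) x35119) x35131) x35139) x54819) x15455)
    (Nat.add (Nat.add (Nat.add (Nat.add (Nat.add (Nat.add (Nat.add (Nat.add (Nat.add (Nat.add (Nat.add C x35139) x48261) x30765) x33681) x35301) x35193) x35121) x35133) x35145) x35137) x15457)
    (Nat.add (Nat.add (Nat.add (Nat.add (Nat.add (Nat.add (Nat.add (Nat.add C (Nat.mul x35145 (nat_lit 2))) x48267) x30771) x33687) x35307) x35199) x35139) x15463)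
    (Nat.add (Nat.add (Nat.add (Nat.add (Nat.add (Nat.add (Nat.add (Nat.add C x48281) x30785) x33701) x35321) x35105) x35165) x35161) x54841)
    (Nat.sub (Nat.add (Nat.add (Nat.add (Nat.add (Nat.add (Nat.add (Nat.add (Nat.add (Nat.add C x48283) x30787) x33703) x35323) x35107) x35167) x35159) x54843) x15479) x35161)
    (Nat.sub (Nat.add (Nat.add (Nat.add (Nat.add (Nat.add (Nat.add (Nat.add (Nat.add (Nat.add C x48287) x30791) x33707) x35327) x35111) x35183) x35159) x35167) x54847) (Nat.mul x35165 (nat_lit 2)))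
    (Nat.sub (Nat.add (Nat.add (Nat.add (Nat.add (Nat.add (Nat.add (Nat.add (Nat.add (Nat.add (Nat.add (Nat.add (Nat.add C x48289) x30793) x33709) x35329) x35113) x35185) x35161) x35173) x35165) x35169) x54849) x15485) x35167)
    (Nat.sub (Nat.add (Nat.add (Nat.add (Nat.add (Nat.add (Nat.add (Nat.add (Nat.add (Nat.add C x48291) x30795) x33711) x35331) x35115) x35187) x35175) x35167) x15487) (Nat.mul x35169 (nat_lit 2)))
    (Nat.sub (Nat.add (Nat.add (Nat.add (Nat.add (Nat.add (Nat.add (Nat.add (Nat.add (Nat.add (Nat.add C x48295) x30799) x33715) x35335) x35119) x35191) x35167) x35175) x54855) x15491) (Nat.mul x35173 (nat_lit 3)))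
    (Nat.sub (Nat.add (Nat.add (Nat.add (Nat.add (Nat.add (Nat.add (Nat.add (Nat.add (Nat.add C x48297) x30801) x33717) x35337) x35121) x35193) x35169) x35173) x15493) (Nat.mul x35175 (nat_lit 2)))
    (Nat.add (Nat.add (Nat.add (Nat.add (Nat.add (Nat.add (Nat.add (Nat.add C x48305) x30809) x33725) x35345) x35129) x35165) x35185) x54865)
    (Nat.add (Nat.add (Nat.add (Nat.add (Nat.add (Nat.add (Nat.add (Nat.add (Nat.add (Nat.add (Nat.add C x48307) x30811) x33727) x35347) x35131) x35167) x35191) x35183) x35187) x54867) x15503)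
    (Nat.sub (Nat.add (Nat.add (Nat.add (Nat.add (Nat.add (Nat.add (Nat.add (Nat.add (Nat.add C x48309) x30813) x33729) x35349) x35133) x35169) x35193) x35185) x15505) (Nat.mul x35187 (nat_lit 2)))
    (Nat.add (Nat.add (Nat.add (Nat.add (Nat.add (Nat.add (Nat.add (Nat.add (Nat.add (Nat.add (Nat.add C x48313) x30817) x33733) x35353) x35137) x35173) x35209) x35185) x35193) x54873) x15509)
    (Nat.add (Nat.add (Nat.add (Nat.add (Nat.add (Nat.add (Nat.add (Nat.add (Nat.add (Nat.add (Nat.add C x48315) x30819) x33735) x35355) x35139) x35175) x35211) x35187) x35199) x35191) x15511)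
    (Nat.add (Nat.add (Nat.add (Nat.add (Nat.add (Nat.add (Nat.add (Nat.add C x48321) x30825) x33741) x35361) x35145) x35217) x35193) x15517)
    (Nat.add (Nat.add (Nat.add (Nat.add (Nat.add (Nat.add (Nat.add (Nat.add (Nat.add C x35209) x48331) x30835) x33751) x35371) x35191) x35211) x54891) x15527)
    (Nat.add (Nat.add (Nat.add (Nat.add (Nat.add (Nat.add (Nat.add (Nat.add C x48333) x30837) x33753) x35373) x35193) x35217) x35209) x15529)
    (Nat.add (Nat.add (Nat.add (Nat.add (Nat.add (Nat.add (Nat.add (Nat.add C (Nat.mul x35217 (nat_lit 2))) x48339) x30843) x33759) x35379) x35199) x35211) x15535)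
    (Nat.add (Nat.add (Nat.add (Nat.add (Nat.add (Nat.add (Nat.add (Nat.add C (Nat.mul x35243 (nat_lit 2))) x48365) x30869) x33785) x35729) x35081) x35249) x54925)
    (Nat.add (Nat.add (Nat.add (Nat.add (Nat.add (Nat.add (Nat.add (Nat.add (Nat.add (Nat.add (Nat.add C x35249) x48371) x30875) x33791) x35735) x35087) x35267) x35243) x35255) x35251) x54931)
    (Nat.add (Nat.add (Nat.add (Nat.add (Nat.add (Nat.add (Nat.add (Nat.add (Nat.add (Nat.add (Nat.add C x35251) x48373) x30877) x33793) x35737) x35089) x35269) x35257) x35249) x54933) x15569)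
    (Nat.sub (Nat.add (Nat.add (Nat.add (Nat.add (Nat.add (Nat.add (Nat.add (Nat.add (Nat.add C x48377) x30881) x33797) x35741) x35093) x35273) x35249) x35257) x54937) (Nat.mul x35255 (nat_lit 2)))
    (Nat.add (Nat.add (Nat.add (Nat.add (Nat.add (Nat.add (Nat.add (Nat.add (Nat.add (Nat.add (Nat.add C x48379) x30883) x33799) x35743) x35095) x35275) x35251) x35255) x35259) x54939) x15575)
    (Nat.add (Nat.add (Nat.add (Nat.add (Nat.add (Nat.add (Nat.add (Nat.add C x48381) x30885) x33801) x35745) x35097) x35277) x35257) x15577)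
    (Nat.add (Nat.add (Nat.add (Nat.add (Nat.add (Nat.add (Nat.add (Nat.add (Nat.add (Nat.add C x48389) x30893) x33809) x35753) x35105) x35321) x35249) x35273) x35269) x54949)
    (Nat.sub (Nat.add (Nat.add (Nat.add (Nat.add (Nat.add (Nat.add (Nat.add (Nat.add (Nat.add (Nat.add (Nat.add C x48391) x30895) x33811) x35755) x35107) x35323) x35251) x35275) x35267) x54951) x15587) x35269)
    (Nat.sub (Nat.add (Nat.add (Nat.add (Nat.add (Nat.add (Nat.add (Nat.add (Nat.add (Nat.add (Nat.add (Nat.add C x48395) x30899) x33815) x35759) x35111) x35327) x35255) x35291) x35267) x35275) x54955) x35273)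
    (Nat.add (Nat.add (Nat.add (Nat.add (Nat.add (Nat.add (Nat.add (Nat.add (Nat.add (Nat.add (Nat.add (Nat.add (Nat.add (Nat.add C x48397) x30901) x33817) x35761) x35113) x35329) x35257) x35293) x35269) x35281) x35273) x35277) x54957) x15593)
    (Nat.sub (Nat.add (Nat.add (Nat.add (Nat.add (Nat.add (Nat.add (Nat.add (Nat.add (Nat.add (Nat.add (Nat.add C x48399) x30903) x33819) x35763) x35115) x35331) x35259) x35295) x35283) x35275) x15595) x35277)
    (Nat.sub (Nat.add (Nat.add (Nat.add (Nat.add (Nat.add (Nat.add (Nat.add (Nat.add (Nat.add (Nat.add (Nat.add C x48403) x30907) x33823) x35767) x35119) x35335) x35299) x35275) x35283) x54963) x15599) x35281)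
    (Nat.add (Nat.add (Nat.add (Nat.add (Nat.add (Nat.add (Nat.add (Nat.add (Nat.add (Nat.add C x48405) x30909) x33825) x35769) x35121) x35337) x35301) x35277) x35281) x15601)
    (Nat.sub (Nat.add (Nat.add (Nat.add (Nat.add (Nat.add (Nat.add (Nat.add (Nat.add (Nat.add C x48413) x30917) x33833) x35777) x35129) x35345) x35273) x35293) x54973) (Nat.mul x35291 (nat_lit 2)))
    (Nat.sub (Nat.add (Nat.add (Nat.add (Nat.add (Nat.add (Nat.add (Nat.add (Nat.add (Nat.add (Nat.add (Nat.add (Nat.add C x48415) x30919) x33835) x35779) x35131) x35347) x35275) x35299) x35291) x35295) x54975) x15611) (Nat.mul x35293 (nat_lit 2)))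
    (Nat.sub (Nat.add (Nat.add (Nat.add (Nat.add (Nat.add (Nat.add (Nat.add (Nat.add (Nat.add (Nat.add C x48417) x30921) x33837) x35781) x35133) x35349) x35277) x35301) x35293) x15613) (Nat.mul x35295 (nat_lit 4)))
    (Nat.sub (Nat.add (Nat.add (Nat.add (Nat.add (Nat.add (Nat.add (Nat.add (Nat.add (Nat.add (Nat.add (Nat.add C x48421) x30925) x33841) x35785) x35137) x35353) x35281) x35293) x35301) x54981) x15617) x35299)
    (Nat.sub (Nat.add (Nat.add (Nat.add (Nat.add (Nat.add (Nat.add (Nat.add (Nat.add (Nat.add (Nat.add (Nat.add C x48423) x30927) x33843) x35787) x35139) x35355) x35283) x35295) x35307) x35299) x15619) x35301)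
    (Nat.add (Nat.add (Nat.add (Nat.add (Nat.add (Nat.add (Nat.add (Nat.add C x48429) x30933) x33849) x35793) x35145) x35361) x35301) x15625)
    (Nat.add (Nat.add (Nat.add (Nat.add (Nat.add (Nat.add (Nat.add (Nat.add (Nat.add (Nat.add (Nat.add C x35321) x48443) x30947) x33863) x35807) x35159) x35483) x35267) x35327) x35323) x55003)
    (Nat.add (Nat.add (Nat.add (Nat.add (Nat.add (Nat.add (Nat.add (Nat.add (Nat.add (Nat.add (Nat.add C x48445) x30949) x33865) x35809) x35161) x35485) x35269) x35329) x35321) x55005) x15641)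
    (Nat.sub (Nat.add (Nat.add (Nat.add (Nat.add (Nat.add (Nat.add (Nat.add (Nat.add (Nat.add (Nat.add (Nat.add C x48449) x30953) x33869) x35813) x35165) x35489) x35273) x35345) x35321) x35329) x55009) x35327)
    (Nat.add (Nat.add (Nat.add (Nat.add (Nat.add (Nat.add (Nat.add (Nat.add (Nat.add (Nat.add (Nat.add (Nat.add (Nat.add (Nat.add C x48451) x30955) x33871) x35815) x35167) x35491) x35275) x35347) x35323) x35335) x35327) x35331) x55011) x15647)
    (Nat.sub (Nat.add (Nat.add (Nat.add (Nat.add (Nat.add (Nat.add (Nat.add (Nat.add (Nat.add (Nat.add (Nat.add C x48453) x30957) x33873) x35817) x35169) x35493) x35277) x35349) x35337) x35329) x15649) x35331)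
    (Nat.sub (Nat.add (Nat.add (Nat.add (Nat.add (Nat.add (Nat.add (Nat.add (Nat.add (Nat.add (Nat.add (Nat.add (Nat.add C x48457) x30961) x33877) x35821) x35173) x35497) x35281) x35353) x35329) x35337) x55017) x15653) (Nat.mul x35335 (nat_lit 2)))
    (Nat.sub (Nat.add (Nat.add (Nat.add (Nat.add (Nat.add (Nat.add (Nat.add (Nat.add (Nat.add (Nat.add (Nat.add C x48459) x30963) x33879) x35823) x35175) x35499) x35283) x35355) x35331) x35335) x15655) x35337)
    (Nat.add (Nat.add (Nat.add (Nat.add (Nat.add (Nat.add (Nat.add (Nat.add (Nat.add (Nat.add (Nat.add C x48467) x30971) x33887) x35831) x35183) x35507) x35291) x35399) x35327) x35347) x55027)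
    (Nat.add (Nat.add (Nat.add (Nat.add (Nat.add (Nat.add (Nat.add (Nat.add (Nat.add (Nat.add (Nat.add (Nat.add (Nat.add (Nat.add C x48469) x30973) x33889) x35833) x35185) x35509) x35293) x35401) x35329) x35353) x35345) x35349) x55029) x15665)
    (Nat.sub (Nat.add (Nat.add (Nat.add (Nat.add (Nat.add (Nat.add (Nat.add (Nat.add (Nat.add (Nat.add (Nat.add (Nat.add C x48471) x30975) x33891) x35835) x35187) x35511) x35295) x35403) x35331) x35355) x35347) x15667) (Nat.mul x35349 (nat_lit 2)))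
    (Nat.add (Nat.add (Nat.add (Nat.add (Nat.add (Nat.add (Nat.add (Nat.add (Nat.add (Nat.add (Nat.add (Nat.add (Nat.add (Nat.add C x48475) x30979) x33895) x35839) x35191) x35515) x35299) x35407) x35335) x35371) x35347) x35355) x55035) x15671)
    (Nat.add (Nat.add (Nat.add (Nat.add (Nat.add (Nat.add (Nat.add (Nat.add (Nat.add (Nat.add (Nat.add (Nat.add (Nat.add (Nat.add C x48477) x30981) x33897) x35841) x35193) x35517) x35301) x35409) x35337) x35373) x35349) x35361) x35353) x15673)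
    (Nat.add (Nat.add (Nat.add (Nat.add (Nat.add (Nat.add (Nat.add (Nat.add (Nat.add (Nat.add (Nat.add C x48483) x30987) x33903) x35847) x35199) x35523) x35307) x35415) x35379) x35355) x15679)
    (Nat.add (Nat.add (Nat.add (Nat.add (Nat.add (Nat.add (Nat.add (Nat.add (Nat.add (Nat.add (Nat.add C x48493) x30997) x33913) x35857) x35209) x35533) x35425) x35353) x35373) x55053) x15689)
    (Nat.sub (Nat.add (Nat.add (Nat.add (Nat.add (Nat.add (Nat.add (Nat.add (Nat.add (Nat.add (Nat.add (Nat.add C x48495) x30999) x33915) x35859) x35211) x35535) x35427) x35355) x35379) x35371) x15691) x35373)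
    (Nat.add (Nat.add (Nat.add (Nat.add (Nat.add (Nat.add (Nat.add (Nat.add (Nat.add (Nat.add (Nat.add C x35379) x48501) x31005) x33921) x35865) x35217) x35541) x35433) x35361) x35373) x15697)
    (Nat.add (Nat.add (Nat.add (Nat.add (Nat.add (Nat.add (Nat.add (Nat.add C x48521) x31025) x33941) x35885) x35561) x35345) x35401) x55081)
    (Nat.add (Nat.add (Nat.add (Nat.add (Nat.add (Nat.add (Nat.add (Nat.add (Nat.add (Nat.add (Nat.add C x48523) x31027) x33943) x35887) x35563) x35347) x35407) x35399) x35403) x55083) x15719)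
    (Nat.sub (Nat.add (Nat.add (Nat.add (Nat.add (Nat.add (Nat.add (Nat.add (Nat.add (Nat.add C x48525) x31029) x33945) x35889) x35565) x35349) x35409) x35401) x15721) (Nat.mul x35403 (nat_lit 2)))
    (Nat.sub (Nat.add (Nat.add (Nat.add (Nat.add (Nat.add (Nat.add (Nat.add (Nat.add (Nat.add (Nat.add (Nat.add C x48529) x31033) x33949) x35893) x35569) x35353) x35425) x35401) x35409) x55089) x15725) x35407)
    (Nat.sub (Nat.add (Nat.add (Nat.add (Nat.add (Nat.add (Nat.add (Nat.add (Nat.add (Nat.add (Nat.add (Nat.add C x48531) x31035) x33951) x35895) x35571) x35355) x35427) x35403) x35415) x35407) x15727) x35409)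
    (Nat.sub (Nat.add (Nat.add (Nat.add (Nat.add (Nat.add (Nat.add (Nat.add (Nat.add (Nat.add C x48537) x31041) x33957) x35901) x35577) x35361) x35433) x35409) x15733) (Nat.mul x35415 (nat_lit 2)))
    (Nat.add (Nat.add (Nat.add (Nat.add (Nat.add (Nat.add (Nat.add (Nat.add (Nat.add (Nat.add (Nat.add C x35425) x48547) x31051) x33967) x35911) x35587) x35371) x35407) x35427) x55107) x15743)
    (Nat.add (Nat.add (Nat.add (Nat.add (Nat.add (Nat.add (Nat.add (Nat.add (Nat.add (Nat.add C x48549) x31053) x33969) x35913) x35589) x35373) x35409) x35433) x35425) x15745)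
    (Nat.add (Nat.add (Nat.add (Nat.add (Nat.add (Nat.add (Nat.add (Nat.add (Nat.add (Nat.add (Nat.add C x35433) x48555) x31059) x33975) x35919) x35595) x35379) x35415) x35451) x35427) x15751)
    (Nat.add (Nat.add (Nat.add (Nat.add (Nat.add (Nat.add (Nat.add (Nat.add C (Nat.mul x35451 (nat_lit 2))) x48573) x31077) x33993) x35937) x35613) x35433) x15769)
    (Nat.add (Nat.add (Nat.add (Nat.add (Nat.add (Nat.add (Nat.add (Nat.add C x48605) x31109) x34025) x35969) x35321) x35489) x35485) x55165)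
    (Nat.sub (Nat.add (Nat.add (Nat.add (Nat.add (Nat.add (Nat.add (Nat.add (Nat.add (Nat.add C x48607) x31111) x34027) x35971) x35323) x35491) x35483) x55167) x15803) x35485)
    (Nat.sub (Nat.add (Nat.add (Nat.add (Nat.add (Nat.add (Nat.add (Nat.add (Nat.add (Nat.add C x48611) x31115) x34031) x35975) x35327) x35507) x35483) x35491) x55171) (Nat.mul x35489 (nat_lit 2)))
    (Nat.sub (Nat.add (Nat.add (Nat.add (Nat.add (Nat.add (Nat.add (Nat.add (Nat.add (Nat.add (Nat.add (Nat.add (Nat.add C x48613) x31117) x34033) x35977) x35329) x35509) x35485) x35497) x35489) x35493) x55173) x15809) x35491)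
    (Nat.sub (Nat.add (Nat.add (Nat.add (Nat.add (Nat.add (Nat.add (Nat.add (Nat.add (Nat.add C x48615) x31119) x34035) x35979) x35331) x35511) x35499) x35491) x15811) (Nat.mul x35493 (nat_lit 2)))
    (Nat.sub (Nat.add (Nat.add (Nat.add (Nat.add (Nat.add (Nat.add (Nat.add (Nat.add (Nat.add (Nat.add C x48619) x31123) x34039) x35983) x35335) x35515) x35491) x35499) x55179) x15815) (Nat.mul x35497 (nat_lit 3)))
    (Nat.sub (Nat.add (Nat.add (Nat.add (Nat.add (Nat.add (Nat.add (Nat.add (Nat.add (Nat.add C x48621) x31125) x34041) x35985) x35337) x35517) x35493) x35497) x15817) (Nat.mul x35499 (nat_lit 2)))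
    (Nat.sub (Nat.add (Nat.add (Nat.add (Nat.add (Nat.add (Nat.add (Nat.add (Nat.add (Nat.add C x48629) x31133) x34049) x35993) x35345) x35561) x35489) x35509) x55189) (Nat.mul x35507 (nat_lit 2)))
    (Nat.sub (Nat.add (Nat.add (Nat.add (Nat.add (Nat.add (Nat.add (Nat.add (Nat.add (Nat.add (Nat.add (Nat.add (Nat.add C x48631) x31135) x34051) x35995) x35347) x35563) x35491) x35515) x35507) x35511) x55191) x15827) (Nat.mul x35509 (nat_lit 2)))
    (Nat.sub (Nat.add (Nat.add (Nat.add (Nat.add (Nat.add (Nat.add (Nat.add (Nat.add (Nat.add (Nat.add C x48633) x31137) x34053) x35997) x35349) x35565) x35493) x35517) x35509) x15829) (Nat.mul x35511 (nat_lit 4)))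
    (Nat.sub (Nat.add (Nat.add (Nat.add (Nat.add (Nat.add (Nat.add (Nat.add (Nat.add (Nat.add (Nat.add (Nat.add (Nat.add C x48637) x31141) x34057) x36001) x35353) x35569) x35497) x35533) x35509) x35517) x55197) x15833) (Nat.mul x35515 (nat_lit 2)))
    (Nat.sub (Nat.add (Nat.add (Nat.add (Nat.add (Nat.add (Nat.add (Nat.add (Nat.add (Nat.add (Nat.add (Nat.add (Nat.add C x48639) x31143) x34059) x36003) x35355) x35571) x35499) x35535) x35511) x35523) x35515) x15835) (Nat.mul x35517 (nat_lit 2)))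
    (Nat.sub (Nat.add (Nat.add (Nat.add (Nat.add (Nat.add (Nat.add (Nat.add (Nat.add (Nat.add C x48645) x31149) x34065) x36009) x35361) x35577) x35541) x35517) x15841) (Nat.mul x35523 (nat_lit 2)))
    (Nat.sub (Nat.add (Nat.add (Nat.add (Nat.add (Nat.add (Nat.add (Nat.add (Nat.add (Nat.add (Nat.add C x48655) x31159) x34075) x36019) x35371) x35587) x35515) x35535) x55215) x15851) (Nat.mul x35533 (nat_lit 3)))
    (Nat.sub (Nat.add (Nat.add (Nat.add (Nat.add (Nat.add (Nat.add (Nat.add (Nat.add (Nat.add (Nat.add C x48657) x31161) x34077) x36021) x35373) x35589) x35517) x35541) x35533) x15853) (Nat.mul x35535 (nat_lit 4)))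
    (Nat.sub (Nat.add (Nat.add (Nat.add (Nat.add (Nat.add (Nat.add (Nat.add (Nat.add (Nat.add C x48663) x31167) x34083) x36027) x35379) x35595) x35523) x35535) x15859) (Nat.mul x35541 (nat_lit 2)))
    (Nat.add (Nat.add (Nat.add (Nat.add (Nat.add (Nat.add (Nat.add (Nat.add C x48683) x31187) x34103) x36047) x35399) x35507) x35563) x55243)
    (Nat.add (Nat.add (Nat.add (Nat.add (Nat.add (Nat.add (Nat.add (Nat.add (Nat.add (Nat.add (Nat.add C x48685) x31189) x34105) x36049) x35401) x35509) x35569) x35561) x35565) x55245) x15881)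
    (Nat.sub (Nat.add (Nat.add (Nat.add (Nat.add (Nat.add (Nat.add (Nat.add (Nat.add (Nat.add C x48687) x31191) x34107) x36051) x35403) x35511) x35571) x35563) x15883) (Nat.mul x35565 (nat_lit 2)))
    (Nat.sub (Nat.add (Nat.add (Nat.add (Nat.add (Nat.add (Nat.add (Nat.add (Nat.add (Nat.add (Nat.add (Nat.add C x48691) x31195) x34111) x36055) x35407) x35515) x35587) x35563) x35571) x55251) x15887) x35569)
    (Nat.sub (Nat.add (Nat.add (Nat.add (Nat.add (Nat.add (Nat.add (Nat.add (Nat.add (Nat.add (Nat.add (Nat.add C x48693) x31197) x34113) x36057) x35409) x35517) x35589) x35565) x35577) x35569) x15889) x35571)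
    (Nat.sub (Nat.add (Nat.add (Nat.add (Nat.add (Nat.add (Nat.add (Nat.add (Nat.add (Nat.add C x48699) x31203) x34119) x36063) x35415) x35523) x35595) x35571) x15895) (Nat.mul x35577 (nat_lit 2)))
    (Nat.add (Nat.add (Nat.add (Nat.add (Nat.add (Nat.add (Nat.add (Nat.add (Nat.add (Nat.add (Nat.add C x48709) x31213) x34129) x36073) x35425) x35533) x35641) x35569) x35589) x55269) x15905)
    (Nat.sub (Nat.add (Nat.add (Nat.add (Nat.add (Nat.add (Nat.add (Nat.add (Nat.add (Nat.add (Nat.add (Nat.add C x48711) x31215) x34131) x36075) x35427) x35535) x35643) x35571) x35595) x35587) x15907) x35589)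
    (Nat.add (Nat.add (Nat.add (Nat.add (Nat.add (Nat.add (Nat.add (Nat.add (Nat.add (Nat.add (Nat.add C x48717) x31221) x34137) x36081) x35433) x35541) x35649) x35577) x35613) x35589) x15913)
    (Nat.add (Nat.add (Nat.add (Nat.add (Nat.add (Nat.add (Nat.add (Nat.add C x48735) x31239) x34155) x36099) x35451) x35667) x35595) x15931)
    (Nat.add (Nat.add (Nat.add (Nat.add (Nat.add (Nat.add (Nat.add (Nat.add (Nat.add C x35641) x48763) x31267) x34183) x36127) x35587) x35643) x55323) x15959)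
    (Nat.add (Nat.add (Nat.add (Nat.add (Nat.add (Nat.add (Nat.add (Nat.add C x48765) x31269) x34185) x36129) x35589) x35649) x35641) x15961)
    (Nat.add (Nat.add (Nat.add (Nat.add (Nat.add (Nat.add (Nat.add (Nat.add C x48771) x31275) x34191) x36135) x35595) x35667) x35643) x15967)
    (Nat.add (Nat.add (Nat.add (Nat.add (Nat.add (Nat.add (Nat.add (Nat.add C (Nat.mul x35667 (nat_lit 2))) x48789) x31293) x34209) x36153) x35613) x35649) x15985)
    (Nat.add (Nat.add (Nat.add (Nat.add (Nat.add (Nat.add (Nat.add (Nat.add C (Nat.mul x35729 (nat_lit 3))) x48851) x31355) x34271) x37187) x35243) x35735) x55411)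
    (Nat.add (Nat.add (Nat.add (Nat.add (Nat.add (Nat.add (Nat.add (Nat.add (Nat.add (Nat.add (Nat.add C (Nat.mul x35735 (nat_lit 2))) x48857) x31361) x34277) x37193) x35249) x35753) x35729) x35741) x35737) x55417)
    (Nat.add (Nat.add (Nat.add (Nat.add (Nat.add (Nat.add (Nat.add (Nat.add (Nat.add (Nat.add (Nat.add C (Nat.mul x35737 (nat_lit 2))) x48859) x31363) x34279) x37195) x35251) x35755) x35743) x35735) x55419) x16055)
    (Nat.sub (Nat.add (Nat.add (Nat.add (Nat.add (Nat.add (Nat.add (Nat.add (Nat.add (Nat.add C x48863) x31367) x34283) x37199) x35255) x35759) x35735) x35743) x55423) x35741)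
    (Nat.add (Nat.add (Nat.add (Nat.add (Nat.add (Nat.add (Nat.add (Nat.add (Nat.add (Nat.add (Nat.add (Nat.add C x35743) x48865) x31369) x34285) x37201) x35257) x35761) x35737) x35741) x35745) x55425) x16061)
    (Nat.add (Nat.add (Nat.add (Nat.add (Nat.add (Nat.add (Nat.add (Nat.add (Nat.add C x35745) x48867) x31371) x34287) x37203) x35259) x35763) x35743) x16063)
    (Nat.add (Nat.add (Nat.add (Nat.add (Nat.add (Nat.add (Nat.add (Nat.add (Nat.add (Nat.add (Nat.add C x35753) x48875) x31379) x34295) x37211) x35267) x35807) x35735) x35759) x35755) x55435)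
    (Nat.add (Nat.add (Nat.add (Nat.add (Nat.add (Nat.add (Nat.add (Nat.add (Nat.add (Nat.add (Nat.add C x48877) x31381) x34297) x37213) x35269) x35809) x35737) x35761) x35753) x55437) x16073)
    (Nat.add (Nat.add (Nat.add (Nat.add (Nat.add (Nat.add (Nat.add (Nat.add (Nat.add (Nat.add (Nat.add C x48881) x31385) x34301) x37217) x35273) x35813) x35741) x35777) x35753) x35761) x55441)
    (Nat.add (Nat.add (Nat.add (Nat.add (Nat.add (Nat.add (Nat.add (Nat.add (Nat.add (Nat.add (Nat.add (Nat.add (Nat.add (Nat.add (Nat.add C x35761) x48883) x31387) x34303) x37219) x35275) x35815) x35743) x35779) x35755) x35767) x35759) x35763) x55443) x16079)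
    (Nat.add (Nat.add (Nat.add (Nat.add (Nat.add (Nat.add (Nat.add (Nat.add (Nat.add (Nat.add (Nat.add C x48885) x31389) x34305) x37221) x35277) x35817) x35745) x35781) x35769) x35761) x16081)
    (Nat.add (Nat.add (Nat.add (Nat.add (Nat.add (Nat.add (Nat.add (Nat.add (Nat.add (Nat.add (Nat.add C x48889) x31393) x34309) x37225) x35281) x35821) x35785) x35761) x35769) x55449) x16085)
    (Nat.add (Nat.add (Nat.add (Nat.add (Nat.add (Nat.add (Nat.add (Nat.add (Nat.add (Nat.add (Nat.add C x35769) x48891) x31395) x34311) x37227) x35283) x35823) x35787) x35763) x35767) x16087)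
    (Nat.sub (Nat.add (Nat.add (Nat.add (Nat.add (Nat.add (Nat.add (Nat.add (Nat.add (Nat.add C x48899) x31403) x34319) x37235) x35291) x35831) x35759) x35779) x55459) x35777)
    (Nat.sub (Nat.add (Nat.add (Nat.add (Nat.add (Nat.add (Nat.add (Nat.add (Nat.add (Nat.add (Nat.add (Nat.add (Nat.add C x48901) x31405) x34321) x37237) x35293) x35833) x35761) x35785) x35777) x35781) x55461) x16097) x35779)
    (Nat.sub (Nat.add (Nat.add (Nat.add (Nat.add (Nat.add (Nat.add (Nat.add (Nat.add (Nat.add (Nat.add C x48903) x31407) x34323) x37239) x35295) x35835) x35763) x35787) x35779) x16099) (Nat.mul x35781 (nat_lit 3)))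
    (Nat.add (Nat.add (Nat.add (Nat.add (Nat.add (Nat.add (Nat.add (Nat.add (Nat.add (Nat.add (Nat.add C x48907) x31411) x34327) x37243) x35299) x35839) x35767) x35779) x35787) x55467) x16103)
    (Nat.add (Nat.add (Nat.add (Nat.add (Nat.add (Nat.add (Nat.add (Nat.add (Nat.add (Nat.add (Nat.add C x48909) x31413) x34329) x37245) x35301) x35841) x35769) x35781) x35793) x35785) x16105)
    (Nat.add (Nat.add (Nat.add (Nat.add (Nat.add (Nat.add (Nat.add (Nat.add (Nat.add C x35793) x48915) x31419) x34335) x37251) x35307) x35847) x35787) x16111)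
    (Nat.add (Nat.add (Nat.add (Nat.add (Nat.add (Nat.add (Nat.add (Nat.add (Nat.add (Nat.add (Nat.add C x35807) x48929) x31433) x34349) x37265) x35321) x35969) x35753) x35813) x35809) x55489)
    (Nat.add (Nat.add (Nat.add (Nat.add (Nat.add (Nat.add (Nat.add (Nat.add (Nat.add (Nat.add (Nat.add C x48931) x31435) x34351) x37267) x35323) x35971) x35755) x35815) x35807) x55491) x16127)
    (Nat.sub (Nat.add (Nat.add (Nat.add (Nat.add (Nat.add (Nat.add (Nat.add (Nat.add (Nat.add (Nat.add (Nat.add C x48935) x31439) x34355) x37271) x35327) x35975) x35759) x35831) x35807) x35815) x55495) x35813)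
    (Nat.add (Nat.add (Nat.add (Nat.add (Nat.add (Nat.add (Nat.add (Nat.add (Nat.add (Nat.add (Nat.add (Nat.add (Nat.add (Nat.add C x48937) x31441) x34357) x37273) x35329) x35977) x35761) x35833) x35809) x35821) x35813) x35817) x55497) x16133)
    (Nat.sub (Nat.add (Nat.add (Nat.add (Nat.add (Nat.add (Nat.add (Nat.add (Nat.add (Nat.add (Nat.add (Nat.add C x48939) x31443) x34359) x37275) x35331) x35979) x35763) x35835) x35823) x35815) x16135) x35817)
    (Nat.sub (Nat.add (Nat.add (Nat.add (Nat.add (Nat.add (Nat.add (Nat.add (Nat.add (Nat.add (Nat.add (Nat.add (Nat.add C x48943) x31447) x34363) x37279) x35335) x35983) x35767) x35839) x35815) x35823) x55503) x16139) (Nat.mul x35821 (nat_lit 2)))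
    (Nat.sub (Nat.add (Nat.add (Nat.add (Nat.add (Nat.add (Nat.add (Nat.add (Nat.add (Nat.add (Nat.add (Nat.add C x48945) x31449) x34365) x37281) x35337) x35985) x35769) x35841) x35817) x35821) x16141) x35823)
    (Nat.add (Nat.add (Nat.add (Nat.add (Nat.add (Nat.add (Nat.add (Nat.add (Nat.add (Nat.add (Nat.add C x48953) x31457) x34373) x37289) x35345) x35993) x35777) x35885) x35813) x35833) x55513)
    (Nat.add (Nat.add (Nat.add (Nat.add (Nat.add (Nat.add (Nat.add (Nat.add (Nat.add (Nat.add (Nat.add (Nat.add (Nat.add (Nat.add C x48955) x31459) x34375) x37291) x35347) x35995) x35779) x35887) x35815) x35839) x35831) x35835) x55515) x16151)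
    (Nat.sub (Nat.add (Nat.add (Nat.add (Nat.add (Nat.add (Nat.add (Nat.add (Nat.add (Nat.add (Nat.add (Nat.add (Nat.add C x48957) x31461) x34377) x37293) x35349) x35997) x35781) x35889) x35817) x35841) x35833) x16153) (Nat.mul x35835 (nat_lit 2)))
    (Nat.add (Nat.add (Nat.add (Nat.add (Nat.add (Nat.add (Nat.add (Nat.add (Nat.add (Nat.add (Nat.add (Nat.add (Nat.add (Nat.add C x48961) x31465) x34381) x37297) x35353) x36001) x35785) x35893) x35821) x35857) x35833) x35841) x55521) x16157)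
    (Nat.add (Nat.add (Nat.add (Nat.add (Nat.add (Nat.add (Nat.add (Nat.add (Nat.add (Nat.add (Nat.add (Nat.add (Nat.add (Nat.add C x48963) x31467) x34383) x37299) x35355) x36003) x35787) x35895) x35823) x35859) x35835) x35847) x35839) x16159)
    (Nat.add (Nat.add (Nat.add (Nat.add (Nat.add (Nat.add (Nat.add (Nat.add (Nat.add (Nat.add (Nat.add C x48969) x31473) x34389) x37305) x35361) x36009) x35793) x35901) x35865) x35841) x16165)
    (Nat.add (Nat.add (Nat.add (Nat.add (Nat.add (Nat.add (Nat.add (Nat.add (Nat.add (Nat.add (Nat.add C x48979) x31483) x34399) x37315) x35371) x36019) x35911) x35839) x35859) x55539) x16175)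
    (Nat.sub (Nat.add (Nat.add (Nat.add (Nat.add (Nat.add (Nat.add (Nat.add (Nat.add (Nat.add (Nat.add (Nat.add C x48981) x31485) x34401) x37317) x35373) x36021) x35913) x35841) x35865) x35857) x16177) x35859)
    (Nat.add (Nat.add (Nat.add (Nat.add (Nat.add (Nat.add (Nat.add (Nat.add (Nat.add (Nat.add (Nat.add C x35865) x48987) x31491) x34407) x37323) x35379) x36027) x35919) x35847) x35859) x16183)
    (Nat.sub (Nat.add (Nat.add (Nat.add (Nat.add (Nat.add (Nat.add (Nat.add (Nat.add (Nat.add C x49007) x31511) x34427) x37343) x35399) x36047) x35831) x35887) x55567) x35885)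
    (Nat.sub (Nat.add (Nat.add (Nat.add (Nat.add (Nat.add (Nat.add (Nat.add (Nat.add (Nat.add (Nat.add (Nat.add (Nat.add C x49009) x31513) x34429) x37345) x35401) x36049) x35833) x35893) x35885) x35889) x55569) x16205) x35887)
    (Nat.sub (Nat.add (Nat.add (Nat.add (Nat.add (Nat.add (Nat.add (Nat.add (Nat.add (Nat.add (Nat.add C x49011) x31515) x34431) x37347) x35403) x36051) x35835) x35895) x35887) x16207) (Nat.mul x35889 (nat_lit 3)))
    (Nat.sub (Nat.add (Nat.add (Nat.add (Nat.add (Nat.add (Nat.add (Nat.add (Nat.add (Nat.add (Nat.add (Nat.add (Nat.add C x49015) x31519) x34435) x37351) x35407) x36055) x35839) x35911) x35887) x35895) x55575) x16211) (Nat.mul x35893 (nat_lit 2)))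
    (Nat.sub (Nat.add (Nat.add (Nat.add (Nat.add (Nat.add (Nat.add (Nat.add (Nat.add (Nat.add (Nat.add (Nat.add (Nat.add C x49017) x31521) x34437) x37353) x35409) x36057) x35841) x35913) x35889) x35901) x35893) x16213) (Nat.mul x35895 (nat_lit 2)))
    (Nat.sub (Nat.add (Nat.add (Nat.add (Nat.add (Nat.add (Nat.add (Nat.add (Nat.add (Nat.add (Nat.add C x49023) x31527) x34443) x37359) x35415) x36063) x35847) x35919) x35895) x16219) (Nat.mul x35901 (nat_lit 3)))
    (Nat.add (Nat.add (Nat.add (Nat.add (Nat.add (Nat.add (Nat.add (Nat.add (Nat.add (Nat.add (Nat.add C x49033) x31537) x34453) x37369) x35425) x36073) x35857) x35893) x35913) x55593) x16229)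
    (Nat.sub (Nat.add (Nat.add (Nat.add (Nat.add (Nat.add (Nat.add (Nat.add (Nat.add (Nat.add (Nat.add (Nat.add C x49035) x31539) x34455) x37371) x35427) x36075) x35859) x35895) x35919) x35911) x16231) x35913)
    (Nat.add (Nat.add (Nat.add (Nat.add (Nat.add (Nat.add (Nat.add (Nat.add (Nat.add (Nat.add (Nat.add C x49041) x31545) x34461) x37377) x35433) x36081) x35865) x35901) x35937) x35913) x16237)
    (Nat.add (Nat.add (Nat.add (Nat.add (Nat.add (Nat.add (Nat.add (Nat.add (Nat.add C x35937) x49059) x31563) x34479) x37395) x35451) x36099) x35919) x16255)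
    (Nat.add (Nat.add (Nat.add (Nat.add (Nat.add (Nat.add (Nat.add (Nat.add (Nat.add (Nat.add (Nat.add C (Nat.mul x35969 (nat_lit 2))) x49091) x31595) x34511) x37427) x35483) x36455) x35807) x35975) x35971) x55651)
    (Nat.add (Nat.add (Nat.add (Nat.add (Nat.add (Nat.add (Nat.add (Nat.add (Nat.add (Nat.add (Nat.add (Nat.add C x35971) x49093) x31597) x34513) x37429) x35485) x36457) x35809) x35977) x35969) x55653) x16289)
    (Nat.add (Nat.add (Nat.add (Nat.add (Nat.add (Nat.add (Nat.add (Nat.add (Nat.add (Nat.add (Nat.add C x49097) x31601) x34517) x37433) x35489) x36461) x35813) x35993) x35969) x35977) x55657)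
    (Nat.add (Nat.add (Nat.add (Nat.add (Nat.add (Nat.add (Nat.add (Nat.add (Nat.add (Nat.add (Nat.add (Nat.add (Nat.add (Nat.add (Nat.add C x35977) x49099) x31603) x34519) x37435) x35491) x36463) x35815) x35995) x35971) x35983) x35975) x35979) x55659) x16295)
    (Nat.add (Nat.add (Nat.add (Nat.add (Nat.add (Nat.add (Nat.add (Nat.add (Nat.add (Nat.add (Nat.add C x49101) x31605) x34521) x37437) x35493) x36465) x35817) x35997) x35985) x35977) x16297)
    (Nat.sub (Nat.add (Nat.add (Nat.add (Nat.add (Nat.add (Nat.add (Nat.add (Nat.add (Nat.add (Nat.add (Nat.add (Nat.add C x49105) x31609) x34525) x37441) x35497) x36469) x35821) x36001) x35977) x35985) x55665) x16301) x35983)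
    (Nat.add (Nat.add (Nat.add (Nat.add (Nat.add (Nat.add (Nat.add (Nat.add (Nat.add (Nat.add (Nat.add C x49107) x31611) x34527) x37443) x35499) x36471) x35823) x36003) x35979) x35983) x16303)
    (Nat.add (Nat.add (Nat.add (Nat.add (Nat.add (Nat.add (Nat.add (Nat.add (Nat.add (Nat.add (Nat.add C x49115) x31619) x34535) x37451) x35507) x36479) x35831) x36047) x35975) x35995) x55675)
    (Nat.add (Nat.add (Nat.add (Nat.add (Nat.add (Nat.add (Nat.add (Nat.add (Nat.add (Nat.add (Nat.add (Nat.add (Nat.add (Nat.add C x49117) x31621) x34537) x37453) x35509) x36481) x35833) x36049) x35977) x36001) x35993) x35997) x55677) x16313)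
    (Nat.sub (Nat.add (Nat.add (Nat.add (Nat.add (Nat.add (Nat.add (Nat.add (Nat.add (Nat.add (Nat.add (Nat.add (Nat.add C x49119) x31623) x34539) x37455) x35511) x36483) x35835) x36051) x35979) x36003) x35995) x16315) (Nat.mul x35997 (nat_lit 2)))
    (Nat.add (Nat.add (Nat.add (Nat.add (Nat.add (Nat.add (Nat.add (Nat.add (Nat.add (Nat.add (Nat.add (Nat.add (Nat.add (Nat.add C x49123) x31627) x34543) x37459) x35515) x36487) x35839) x36055) x35983) x36019) x35995) x36003) x55683) x16319)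
    (Nat.add (Nat.add (Nat.add (Nat.add (Nat.add (Nat.add (Nat.add (Nat.add (Nat.add (Nat.add (Nat.add (Nat.add (Nat.add (Nat.add C x49125) x31629) x34545) x37461) x35517) x36489) x35841) x36057) x35985) x36021) x35997) x36009) x36001) x16321)
    (Nat.add (Nat.add (Nat.add (Nat.add (Nat.add (Nat.add (Nat.add (Nat.add (Nat.add (Nat.add (Nat.add C x49131) x31635) x34551) x37467) x35523) x36495) x35847) x36063) x36027) x36003) x16327)
    (Nat.sub (Nat.add (Nat.add (Nat.add (Nat.add (Nat.add (Nat.add (Nat.add (Nat.add (Nat.add (Nat.add (Nat.add (Nat.add C x49141) x31645) x34561) x37477) x35533) x36505) x35857) x36073) x36001) x36021) x55701) x16337) x36019)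
    (Nat.sub (Nat.add (Nat.add (Nat.add (Nat.add (Nat.add (Nat.add (Nat.add (Nat.add (Nat.add (Nat.add (Nat.add (Nat.add C x49143) x31647) x34563) x37479) x35535) x36507) x35859) x36075) x36003) x36027) x36019) x16339) (Nat.mul x36021 (nat_lit 2)))
    (Nat.add (Nat.add (Nat.add (Nat.add (Nat.add (Nat.add (Nat.add (Nat.add (Nat.add (Nat.add (Nat.add C x49149) x31653) x34569) x37485) x35541) x36513) x35865) x36081) x36009) x36021) x16345)
    (Nat.add (Nat.add (Nat.add (Nat.add (Nat.add (Nat.add (Nat.add (Nat.add (Nat.add (Nat.add (Nat.add (Nat.add C x36047) x49169) x31673) x34589) x37505) x35561) x36533) x35885) x36209) x35993) x36049) x55729)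
    (Nat.add (Nat.add (Nat.add (Nat.add (Nat.add (Nat.add (Nat.add (Nat.add (Nat.add (Nat.add (Nat.add (Nat.add (Nat.add (Nat.add (Nat.add C x36049) x49171) x31675) x34591) x37507) x35563) x36535) x35887) x36211) x35995) x36055) x36047) x36051) x55731) x16367)
    (Nat.sub (Nat.add (Nat.add (Nat.add (Nat.add (Nat.add (Nat.add (Nat.add (Nat.add (Nat.add (Nat.add (Nat.add (Nat.add C x49173) x31677) x34593) x37509) x35565) x36537) x35889) x36213) x35997) x36057) x36049) x16369) x36051)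
    (Nat.add (Nat.add (Nat.add (Nat.add (Nat.add (Nat.add (Nat.add (Nat.add (Nat.add (Nat.add (Nat.add (Nat.add (Nat.add (Nat.add C x49177) x31681) x34597) x37513) x35569) x36541) x35893) x36217) x36001) x36073) x36049) x36057) x55737) x16373)
    (Nat.add (Nat.add (Nat.add (Nat.add (Nat.add (Nat.add (Nat.add (Nat.add (Nat.add (Nat.add (Nat.add (Nat.add (Nat.add (Nat.add C x49179) x31683) x34599) x37515) x35571) x36543) x35895) x36219) x36003) x36075) x36051) x36063) x36055) x16375)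
    (Nat.sub (Nat.add (Nat.add (Nat.add (Nat.add (Nat.add (Nat.add (Nat.add (Nat.add (Nat.add (Nat.add (Nat.add (Nat.add C x49185) x31689) x34605) x37521) x35577) x36549) x35901) x36225) x36009) x36081) x36057) x16381) x36063)
    (Nat.add (Nat.add (Nat.add (Nat.add (Nat.add (Nat.add (Nat.add (Nat.add (Nat.add (Nat.add (Nat.add (Nat.add (Nat.add (Nat.add (Nat.add C x36073) x49195) x31699) x34615) x37531) x35587) x36559) x35911) x36235) x36019) x36127) x36055) x36075) x55755) x16391)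
    (Nat.add (Nat.add (Nat.add (Nat.add (Nat.add (Nat.add (Nat.add (Nat.add (Nat.add (Nat.add (Nat.add (Nat.add (Nat.add (Nat.add C x49197) x31701) x34617) x37533) x35589) x36561) x35913) x36237) x36021) x36129) x36057) x36081) x36073) x16393)
    (Nat.add (Nat.add (Nat.add (Nat.add (Nat.add (Nat.add (Nat.add (Nat.add (Nat.add (Nat.add (Nat.add (Nat.add (Nat.add (Nat.add (Nat.add C x36081) x49203) x31707) x34623) x37539) x35595) x36567) x35919) x36243) x36027) x36135) x36063) x36099) x36075) x16399)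
    (Nat.add (Nat.add (Nat.add (Nat.add (Nat.add (Nat.add (Nat.add (Nat.add (Nat.add (Nat.add (Nat.add (Nat.add C x36099) x49221) x31725) x34641) x37557) x35613) x36585) x35937) x36261) x36153) x36081) x16417)
    (Nat.add (Nat.add (Nat.add (Nat.add (Nat.add (Nat.add (Nat.add (Nat.add (Nat.add (Nat.add (Nat.add (Nat.add C x36127) x49249) x31753) x34669) x37585) x35641) x36613) x36289) x36073) x36129) x55809) x16445)
    (Nat.add (Nat.add (Nat.add (Nat.add (Nat.add (Nat.add (Nat.add (Nat.add (Nat.add (Nat.add (Nat.add C x49251) x31755) x34671) x37587) x35643) x36615) x36291) x36075) x36135) x36127) x16447)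
    (Nat.add (Nat.add (Nat.add (Nat.add (Nat.add (Nat.add (Nat.add (Nat.add (Nat.add (Nat.add (Nat.add C x49257) x31761) x34677) x37593) x35649) x36621) x36297) x36081) x36153) x36129) x16453)
    (Nat.add (Nat.add (Nat.add (Nat.add (Nat.add (Nat.add (Nat.add (Nat.add (Nat.add (Nat.add (Nat.add C (Nat.mul x36153 (nat_lit 2))) x49275) x31779) x34695) x37611) x35667) x36639) x36315) x36099) x36135) x16471)
    (Nat.add (Nat.add (Nat.add (Nat.add (Nat.add (Nat.add (Nat.add (Nat.add (Nat.add C x36209) x49331) x31835) x34751) x37667) x36695) x36047) x36211) x55891)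
    (Nat.add (Nat.add (Nat.add (Nat.add (Nat.add (Nat.add (Nat.add (Nat.add (Nat.add (Nat.add (Nat.add (Nat.add C x36211) x49333) x31837) x34753) x37669) x36697) x36049) x36217) x36209) x36213) x55893) x16529)
    (Nat.sub (Nat.add (Nat.add (Nat.add (Nat.add (Nat.add (Nat.add (Nat.add (Nat.add (Nat.add C x49335) x31839) x34755) x37671) x36699) x36051) x36219) x36211) x16531) x36213)
    (Nat.add (Nat.add (Nat.add (Nat.add (Nat.add (Nat.add (Nat.add (Nat.add (Nat.add (Nat.add (Nat.add C x49339) x31843) x34759) x37675) x36703) x36055) x36235) x36211) x36219) x55899) x16535)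
    (Nat.add (Nat.add (Nat.add (Nat.add (Nat.add (Nat.add (Nat.add (Nat.add (Nat.add (Nat.add (Nat.add C x49341) x31845) x34761) x37677) x36705) x36057) x36237) x36213) x36225) x36217) x16537)
    (Nat.sub (Nat.add (Nat.add (Nat.add (Nat.add (Nat.add (Nat.add (Nat.add (Nat.add (Nat.add C x49347) x31851) x34767) x37683) x36711) x36063) x36243) x36219) x16543) x36225)
    (Nat.add (Nat.add (Nat.add (Nat.add (Nat.add (Nat.add (Nat.add (Nat.add (Nat.add (Nat.add (Nat.add C x49357) x31861) x34777) x37693) x36721) x36073) x36289) x36217) x36237) x55917) x16553)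
    (Nat.sub (Nat.add (Nat.add (Nat.add (Nat.add (Nat.add (Nat.add (Nat.add (Nat.add (Nat.add (Nat.add (Nat.add C x49359) x31863) x34779) x37695) x36723) x36075) x36291) x36219) x36243) x36235) x16555) x36237)
    (Nat.add (Nat.add (Nat.add (Nat.add (Nat.add (Nat.add (Nat.add (Nat.add (Nat.add (Nat.add (Nat.add C x49365) x31869) x34785) x37701) x36729) x36081) x36297) x36225) x36261) x36237) x16561)
    (Nat.sub (Nat.add (Nat.add (Nat.add (Nat.add (Nat.add (Nat.add (Nat.add (Nat.add (Nat.add C x49383) x31887) x34803) x37719) x36747) x36099) x36315) x36243) x16579) x36261)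
    (Nat.add (Nat.add (Nat.add (Nat.add (Nat.add (Nat.add (Nat.add (Nat.add (Nat.add (Nat.add (Nat.add C (Nat.mul x36289 (nat_lit 2))) x49411) x31915) x34831) x37747) x36775) x36127) x36235) x36291) x55971) x16607)
    (Nat.add (Nat.add (Nat.add (Nat.add (Nat.add (Nat.add (Nat.add (Nat.add (Nat.add (Nat.add (Nat.add C x36291) x49413) x31917) x34833) x37749) x36777) x36129) x36237) x36297) x36289) x16609)
    (Nat.add (Nat.add (Nat.add (Nat.add (Nat.add (Nat.add (Nat.add (Nat.add (Nat.add (Nat.add (Nat.add C x36297) x49419) x31923) x34839) x37755) x36783) x36135) x36243) x36315) x36291) x16615)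
    (Nat.add (Nat.add (Nat.add (Nat.add (Nat.add (Nat.add (Nat.add (Nat.add (Nat.add (Nat.add (Nat.add C (Nat.mul x36315 (nat_lit 2))) x49437) x31941) x34857) x37773) x36801) x36153) x36261) x36369) x36297) x16633)
    (Nat.add (Nat.add (Nat.add (Nat.add (Nat.add (Nat.add (Nat.add (Nat.add C (Nat.mul x36369 (nat_lit 3))) x49491) x31995) x34911) x37827) x36855) x36315) x16687)
    (Nat.add (Nat.add (Nat.add (Nat.add (Nat.add (Nat.add (Nat.add (Nat.add C (Nat.mul x36455 (nat_lit 2))) x49577) x32081) x37913) x35969) x36461) x36457) x56137)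
    (Nat.add (Nat.add (Nat.add (Nat.add (Nat.add (Nat.add (Nat.add (Nat.add (Nat.add C x36457) x49579) x32083) x37915) x35971) x36463) x36455) x56139) x16775)
    (Nat.add (Nat.add (Nat.add (Nat.add (Nat.add (Nat.add (Nat.add (Nat.add C x49583) x32087) x37919) x35975) x36479) x36455) x36463) x56143)
    (Nat.add (Nat.add (Nat.add (Nat.add (Nat.add (Nat.add (Nat.add (Nat.add (Nat.add (Nat.add (Nat.add (Nat.add C x36463) x49585) x32089) x37921) x35977) x36481) x36457) x36469) x36461) x36465) x56145) x16781)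
    (Nat.add (Nat.add (Nat.add (Nat.add (Nat.add (Nat.add (Nat.add (Nat.add C x49587) x32091) x37923) x35979) x36483) x36471) x36463) x16783)
    (Nat.sub (Nat.add (Nat.add (Nat.add (Nat.add (Nat.add (Nat.add (Nat.add (Nat.add (Nat.add C x49591) x32095) x37927) x35983) x36487) x36463) x36471) x56151) x16787) x36469)
    (Nat.add (Nat.add (Nat.add (Nat.add (Nat.add (Nat.add (Nat.add (Nat.add C x49593) x32097) x37929) x35985) x36489) x36465) x36469) x16789)
    (Nat.add (Nat.add (Nat.add (Nat.add (Nat.add (Nat.add (Nat.add (Nat.add C x49601) x32105) x37937) x35993) x36533) x36461) x36481) x56161)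
    (Nat.add (Nat.add (Nat.add (Nat.add (Nat.add (Nat.add (Nat.add (Nat.add (Nat.add (Nat.add (Nat.add C x49603) x32107) x37939) x35995) x36535) x36463) x36487) x36479) x36483) x56163) x16799)
    (Nat.sub (Nat.add (Nat.add (Nat.add (Nat.add (Nat.add (Nat.add (Nat.add (Nat.add (Nat.add C x49605) x32109) x37941) x35997) x36537) x36465) x36489) x36481) x16801) (Nat.mul x36483 (nat_lit 2)))
    (Nat.add (Nat.add (Nat.add (Nat.add (Nat.add (Nat.add (Nat.add (Nat.add (Nat.add (Nat.add (Nat.add C x49609) x32113) x37945) x36001) x36541) x36469) x36505) x36481) x36489) x56169) x16805)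
    (Nat.add (Nat.add (Nat.add (Nat.add (Nat.add (Nat.add (Nat.add (Nat.add (Nat.add (Nat.add (Nat.add C x49611) x32115) x37947) x36003) x36543) x36471) x36507) x36483) x36495) x36487) x16807)
    (Nat.add (Nat.add (Nat.add (Nat.add (Nat.add (Nat.add (Nat.add (Nat.add C x49617) x32121) x37953) x36009) x36549) x36513) x36489) x16813)
    (Nat.sub (Nat.add (Nat.add (Nat.add (Nat.add (Nat.add (Nat.add (Nat.add (Nat.add (Nat.add C x49627) x32131) x37963) x36019) x36559) x36487) x36507) x56187) x16823) x36505)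
    (Nat.sub (Nat.add (Nat.add (Nat.add (Nat.add (Nat.add (Nat.add (Nat.add (Nat.add (Nat.add C x49629) x32133) x37965) x36021) x36561) x36489) x36513) x36505) x16825) (Nat.mul x36507 (nat_lit 2)))
    (Nat.add (Nat.add (Nat.add (Nat.add (Nat.add (Nat.add (Nat.add (Nat.add C x49635) x32139) x37971) x36027) x36567) x36495) x36507) x16831)
    (Nat.add (Nat.add (Nat.add (Nat.add (Nat.add (Nat.add (Nat.add (Nat.add C x49655) x32159) x37991) x36047) x36695) x36479) x36535) x56215)
    (Nat.add (Nat.add (Nat.add (Nat.add (Nat.add (Nat.add (Nat.add (Nat.add (Nat.add (Nat.add (Nat.add C x49657) x32161) x37993) x36049) x36697) x36481) x36541) x36533) x36537) x56217) x16853)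
    (Nat.sub (Nat.add (Nat.add (Nat.add (Nat.add (Nat.add (Nat.add (Nat.add (Nat.add (Nat.add C x49659) x32163) x37995) x36051) x36699) x36483) x36543) x36535) x16855) (Nat.mul x36537 (nat_lit 2)))
    (Nat.sub (Nat.add (Nat.add (Nat.add (Nat.add (Nat.add (Nat.add (Nat.add (Nat.add (Nat.add (Nat.add (Nat.add C x49663) x32167) x37999) x36055) x36703) x36487) x36559) x36535) x36543) x56223) x16859) x36541)
    (Nat.sub (Nat.add (Nat.add (Nat.add (Nat.add (Nat.add (Nat.add (Nat.add (Nat.add (Nat.add (Nat.add (Nat.add C x49665) x32169) x38001) x36057) x36705) x36489) x36561) x36537) x36549) x36541) x16861) x36543)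
    (Nat.sub (Nat.add (Nat.add (Nat.add (Nat.add (Nat.add (Nat.add (Nat.add (Nat.add (Nat.add C x49671) x32175) x38007) x36063) x36711) x36495) x36567) x36543) x16867) (Nat.mul x36549 (nat_lit 2)))
    (Nat.add (Nat.add (Nat.add (Nat.add (Nat.add (Nat.add (Nat.add (Nat.add (Nat.add (Nat.add (Nat.add C x49681) x32185) x38017) x36073) x36721) x36505) x36613) x36541) x36561) x56241) x16877)
    (Nat.sub (Nat.add (Nat.add (Nat.add (Nat.add (Nat.add (Nat.add (Nat.add (Nat.add (Nat.add (Nat.add (Nat.add C x49683) x32187) x38019) x36075) x36723) x36507) x36615) x36543) x36567) x36559) x16879) x36561)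
    (Nat.add (Nat.add (Nat.add (Nat.add (Nat.add (Nat.add (Nat.add (Nat.add (Nat.add (Nat.add (Nat.add C x49689) x32193) x38025) x36081) x36729) x36513) x36621) x36549) x36585) x36561) x16885)
    (Nat.add (Nat.add (Nat.add (Nat.add (Nat.add (Nat.add (Nat.add (Nat.add C x49707) x32211) x38043) x36099) x36747) x36639) x36567) x16903)
    (Nat.sub (Nat.add (Nat.add (Nat.add (Nat.add (Nat.add (Nat.add (Nat.add (Nat.add (Nat.add C x49735) x32239) x38071) x36127) x36775) x36559) x36615) x56295) x16931) x36613)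
    (Nat.sub (Nat.add (Nat.add (Nat.add (Nat.add (Nat.add (Nat.add (Nat.add (Nat.add (Nat.add C x49737) x32241) x38073) x36129) x36777) x36561) x36621) x36613) x16933) (Nat.mul x36615 (nat_lit 2)))
    (Nat.sub (Nat.add (Nat.add (Nat.add (Nat.add (Nat.add (Nat.add (Nat.add (Nat.add (Nat.add C x49743) x32247) x38079) x36135) x36783) x36567) x36639) x36615) x16939) (Nat.mul x36621 (nat_lit 2)))
    (Nat.add (Nat.add (Nat.add (Nat.add (Nat.add (Nat.add (Nat.add (Nat.add C x49761) x32265) x38097) x36153) x36801) x36585) x36621) x16957)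
    (Nat.add (Nat.add (Nat.add (Nat.add (Nat.add (Nat.add (Nat.add (Nat.add C (Nat.mul x36695 (nat_lit 2))) x49817) x32321) x38153) x36209) x36533) x36697) x56377)
    (Nat.add (Nat.add (Nat.add (Nat.add (Nat.add (Nat.add (Nat.add (Nat.add (Nat.add (Nat.add (Nat.add C (Nat.mul x36697 (nat_lit 2))) x49819) x32323) x38155) x36211) x36535) x36703) x36695) x36699) x56379) x17015)
    (Nat.add (Nat.add (Nat.add (Nat.add (Nat.add (Nat.add (Nat.add (Nat.add C x49821) x32325) x38157) x36213) x36537) x36705) x36697) x17017)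
    (Nat.add (Nat.add (Nat.add (Nat.add (Nat.add (Nat.add (Nat.add (Nat.add (Nat.add (Nat.add (Nat.add C x36703) x49825) x32329) x38161) x36217) x36541) x36721) x36697) x36705) x56385) x17021)
    (Nat.add (Nat.add (Nat.add (Nat.add (Nat.add (Nat.add (Nat.add (Nat.add (Nat.add (Nat.add (Nat.add C x36705) x49827) x32331) x38163) x36219) x36543) x36723) x36699) x36711) x36703) x17023)
    (Nat.add (Nat.add (Nat.add (Nat.add (Nat.add (Nat.add (Nat.add (Nat.add C x49833) x32337) x38169) x36225) x36549) x36729) x36705) x17029)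
    (Nat.add (Nat.add (Nat.add (Nat.add (Nat.add (Nat.add (Nat.add (Nat.add (Nat.add (Nat.add (Nat.add C x36721) x49843) x32347) x38179) x36235) x36559) x36775) x36703) x36723) x56403) x17039)
    (Nat.add (Nat.add (Nat.add (Nat.add (Nat.add (Nat.add (Nat.add (Nat.add (Nat.add (Nat.add C x49845) x32349) x38181) x36237) x36561) x36777) x36705) x36729) x36721) x17041)
    (Nat.add (Nat.add (Nat.add (Nat.add (Nat.add (Nat.add (Nat.add (Nat.add (Nat.add (Nat.add (Nat.add C x36729) x49851) x32355) x38187) x36243) x36567) x36783) x36711) x36747) x36723) x17047)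
    (Nat.add (Nat.add (Nat.add (Nat.add (Nat.add (Nat.add (Nat.add (Nat.add C x49869) x32373) x38205) x36261) x36585) x36801) x36729) x17065)
    (Nat.add (Nat.add (Nat.add (Nat.add (Nat.add (Nat.add (Nat.add (Nat.add (Nat.add (Nat.add (Nat.add C (Nat.mul x36775 (nat_lit 2))) x49897) x32401) x38233) x36289) x36613) x36937) x36721) x36777) x56457) x17093)
    (Nat.add (Nat.add (Nat.add (Nat.add (Nat.add (Nat.add (Nat.add (Nat.add (Nat.add (Nat.add (Nat.add C x36777) x49899) x32403) x38235) x36291) x36615) x36939) x36723) x36783) x36775) x17095)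
    (Nat.add (Nat.add (Nat.add (Nat.add (Nat.add (Nat.add (Nat.add (Nat.add (Nat.add (Nat.add (Nat.add C x36783) x49905) x32409) x38241) x36297) x36621) x36945) x36729) x36801) x36777) x17101)
    (Nat.add (Nat.add (Nat.add (Nat.add (Nat.add (Nat.add (Nat.add (Nat.add (Nat.add (Nat.add (Nat.add C (Nat.mul x36801 (nat_lit 2))) x49923) x32427) x38259) x36315) x36639) x36963) x36747) x36855) x36783) x17119)
    (Nat.add (Nat.add (Nat.add (Nat.add (Nat.add (Nat.add (Nat.add (Nat.add C (Nat.mul x36855 (nat_lit 2))) x49977) x32481) x38313) x36369) x37017) x36801) x17173)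
    (Nat.add (Nat.add (Nat.add (Nat.add (Nat.add (Nat.add (Nat.add (Nat.add C (Nat.mul x36937 (nat_lit 3))) x50059) x32563) x38395) x36775) x36939) x56619) x17255)
    (Nat.add (Nat.add (Nat.add (Nat.add (Nat.add (Nat.add (Nat.add (Nat.add C (Nat.mul x36939 (nat_lit 2))) x50061) x32565) x38397) x36777) x36945) x36937) x17257)
    (Nat.add (Nat.add (Nat.add (Nat.add (Nat.add (Nat.add (Nat.add (Nat.add C (Nat.mul x36945 (nat_lit 2))) x50067) x32571) x38403) x36783) x36963) x36939) x17263)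
    (Nat.add (Nat.add (Nat.add (Nat.add (Nat.add (Nat.add (Nat.add (Nat.add C (Nat.mul x36963 (nat_lit 2))) x50085) x32589) x38421) x36801) x37017) x36945) x17281)
    (Nat.add (Nat.add (Nat.add (Nat.add (Nat.add (Nat.add (Nat.add C (Nat.mul x37017 (nat_lit 4))) x50139) x32643) x38475) x36855) x36963) x17335)
    (Nat.add (Nat.add (Nat.add (Nat.add (Nat.add C (Nat.mul x37187 (nat_lit 4))) x50309) x35729) x37193) x56869)
    (Nat.add (Nat.add (Nat.add (Nat.add (Nat.add (Nat.add (Nat.add (Nat.add C (Nat.mul x37193 (nat_lit 3))) x50315) x35735) x37211) x37187) x37199) x37195) x56875)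
    (Nat.add (Nat.add (Nat.add (Nat.add (Nat.add (Nat.add (Nat.add (Nat.add C (Nat.mul x37195 (nat_lit 3))) x50317) x35737) x37213) x37201) x37193) x56877) x17513)
    (Nat.add (Nat.add (Nat.add (Nat.add (Nat.add (Nat.add C x50321) x35741) x37217) x37193) x37201) x56881)
    (Nat.add (Nat.add (Nat.add (Nat.add (Nat.add (Nat.add (Nat.add (Nat.add (Nat.add C (Nat.mul x37201 (nat_lit 2))) x50323) x35743) x37219) x37195) x37199) x37203) x56883) x17519)
    (Nat.add (Nat.add (Nat.add (Nat.add (Nat.add (Nat.add C (Nat.mul x37203 (nat_lit 2))) x50325) x35745) x37221) x37201) x17521)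
    (Nat.add (Nat.add (Nat.add (Nat.add (Nat.add (Nat.add (Nat.add (Nat.add C (Nat.mul x37211 (nat_lit 2))) x50333) x35753) x37265) x37193) x37217) x37213) x56893)
    (Nat.add (Nat.add (Nat.add (Nat.add (Nat.add (Nat.add (Nat.add (Nat.add (Nat.add C x37213) x50335) x35755) x37267) x37195) x37219) x37211) x56895) x17531)
    (Nat.add (Nat.add (Nat.add (Nat.add (Nat.add (Nat.add (Nat.add (Nat.add (Nat.add C x37217) x50339) x35759) x37271) x37199) x37235) x37211) x37219) x56899)
    (Nat.add (Nat.add (Nat.add (Nat.add (Nat.add (Nat.add (Nat.add (Nat.add (Nat.add (Nat.add (Nat.add (Nat.add C (Nat.mul x37219 (nat_lit 2))) x50341) x35761) x37273) x37201) x37237) x37213) x37225) x37217) x37221) x56901) x17537)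
    (Nat.add (Nat.add (Nat.add (Nat.add (Nat.add (Nat.add (Nat.add (Nat.add (Nat.add C x37221) x50343) x35763) x37275) x37203) x37239) x37227) x37219) x17539)
    (Nat.add (Nat.add (Nat.add (Nat.add (Nat.add (Nat.add (Nat.add (Nat.add (Nat.add C x37225) x50347) x35767) x37279) x37243) x37219) x37227) x56907) x17543)
    (Nat.add (Nat.add (Nat.add (Nat.add (Nat.add (Nat.add (Nat.add (Nat.add C (Nat.mul x37227 (nat_lit 2))) x50349) x35769) x37281) x37245) x37221) x37225) x17545)
    (Nat.add (Nat.add (Nat.add (Nat.add (Nat.add (Nat.add C x50357) x35777) x37289) x37217) x37237) x56917)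
    (Nat.add (Nat.add (Nat.add (Nat.add (Nat.add (Nat.add (Nat.add (Nat.add (Nat.add C x50359) x35779) x37291) x37219) x37243) x37235) x37239) x56919) x17555)
    (Nat.sub (Nat.add (Nat.add (Nat.add (Nat.add (Nat.add (Nat.add (Nat.add C x50361) x35781) x37293) x37221) x37245) x37237) x17557) (Nat.mul x37239 (nat_lit 2)))
    (Nat.add (Nat.add (Nat.add (Nat.add (Nat.add (Nat.add (Nat.add (Nat.add (Nat.add C x37243) x50365) x35785) x37297) x37225) x37237) x37245) x56925) x17561)
    (Nat.add (Nat.add (Nat.add (Nat.add (Nat.add (Nat.add (Nat.add (Nat.add (Nat.add C x37245) x50367) x35787) x37299) x37227) x37239) x37251) x37243) x17563)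
    (Nat.add (Nat.add (Nat.add (Nat.add (Nat.add (Nat.add C (Nat.mul x37251 (nat_lit 2))) x50373) x35793) x37305) x37245) x17569)
    (Nat.add (Nat.add (Nat.add (Nat.add (Nat.add (Nat.add (Nat.add (Nat.add C (Nat.mul x37265 (nat_lit 2))) x50387) x35807) x37427) x37211) x37271) x37267) x56947)
    (Nat.add (Nat.add (Nat.add (Nat.add (Nat.add (Nat.add (Nat.add (Nat.add (Nat.add C x37267) x50389) x35809) x37429) x37213) x37273) x37265) x56949) x17585)
    (Nat.add (Nat.add (Nat.add (Nat.add (Nat.add (Nat.add (Nat.add (Nat.add C x50393) x35813) x37433) x37217) x37289) x37265) x37273) x56953)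
    (Nat.add (Nat.add (Nat.add (Nat.add (Nat.add (Nat.add (Nat.add (Nat.add (Nat.add (Nat.add (Nat.add (Nat.add C x37273) x50395) x35815) x37435) x37219) x37291) x37267) x37279) x37271) x37275) x56955) x17591)
    (Nat.add (Nat.add (Nat.add (Nat.add (Nat.add (Nat.add (Nat.add (Nat.add C x50397) x35817) x37437) x37221) x37293) x37281) x37273) x17593)
    (Nat.sub (Nat.add (Nat.add (Nat.add (Nat.add (Nat.add (Nat.add (Nat.add (Nat.add (Nat.add C x50401) x35821) x37441) x37225) x37297) x37273) x37281) x56961) x17597) x37279)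
    (Nat.add (Nat.add (Nat.add (Nat.add (Nat.add (Nat.add (Nat.add (Nat.add C x50403) x35823) x37443) x37227) x37299) x37275) x37279) x17599)
    (Nat.add (Nat.add (Nat.add (Nat.add (Nat.add (Nat.add (Nat.add (Nat.add (Nat.add C x37289) x50411) x35831) x37451) x37235) x37343) x37271) x37291) x56971)
    (Nat.add (Nat.add (Nat.add (Nat.add (Nat.add (Nat.add (Nat.add (Nat.add (Nat.add (Nat.add (Nat.add (Nat.add C x37291) x50413) x35833) x37453) x37237) x37345) x37273) x37297) x37289) x37293) x56973) x17609)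
    (Nat.sub (Nat.add (Nat.add (Nat.add (Nat.add (Nat.add (Nat.add (Nat.add (Nat.add (Nat.add C x50415) x35835) x37455) x37239) x37347) x37275) x37299) x37291) x17611) x37293)
    (Nat.add (Nat.add (Nat.add (Nat.add (Nat.add (Nat.add (Nat.add (Nat.add (Nat.add (Nat.add (Nat.add (Nat.add C x37297) x50419) x35839) x37459) x37243) x37351) x37279) x37315) x37291) x37299) x56979) x17615)
    (Nat.add (Nat.add (Nat.add (Nat.add (Nat.add (Nat.add (Nat.add (Nat.add (Nat.add (Nat.add (Nat.add (Nat.add C x37299) x50421) x35841) x37461) x37245) x37353) x37281) x37317) x37293) x37305) x37297) x17617)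
    (Nat.add (Nat.add (Nat.add (Nat.add (Nat.add (Nat.add (Nat.add (Nat.add (Nat.add C x37305) x50427) x35847) x37467) x37251) x37359) x37323) x37299) x17623)
    (Nat.add (Nat.add (Nat.add (Nat.add (Nat.add (Nat.add (Nat.add (Nat.add (Nat.add C x37315) x50437) x35857) x37477) x37369) x37297) x37317) x56997) x17633)
    (Nat.add (Nat.add (Nat.add (Nat.add (Nat.add (Nat.add (Nat.add (Nat.add C x50439) x35859) x37479) x37371) x37299) x37323) x37315) x17635)
    (Nat.add (Nat.add (Nat.add (Nat.add (Nat.add (Nat.add (Nat.add (Nat.add C (Nat.mul x37323 (nat_lit 2))) x50445) x35865) x37485) x37377) x37305) x37317) x17641)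
    (Nat.add (Nat.add (Nat.add (Nat.add (Nat.add (Nat.add C x50465) x35885) x37505) x37289) x37345) x57025)
    (Nat.add (Nat.add (Nat.add (Nat.add (Nat.add (Nat.add (Nat.add (Nat.add (Nat.add C x50467) x35887) x37507) x37291) x37351) x37343) x37347) x57027) x17663)
    (Nat.sub (Nat.add (Nat.add (Nat.add (Nat.add (Nat.add (Nat.add (Nat.add C x50469) x35889) x37509) x37293) x37353) x37345) x17665) (Nat.mul x37347 (nat_lit 2)))
    (Nat.sub (Nat.add (Nat.add (Nat.add (Nat.add (Nat.add (Nat.add (Nat.add (Nat.add (Nat.add C x50473) x35893) x37513) x37297) x37369) x37345) x37353) x57033) x17669) x37351)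
    (Nat.sub (Nat.add (Nat.add (Nat.add (Nat.add (Nat.add (Nat.add (Nat.add (Nat.add (Nat.add C x50475) x35895) x37515) x37299) x37371) x37347) x37359) x37351) x17671) x37353)
    (Nat.sub (Nat.add (Nat.add (Nat.add (Nat.add (Nat.add (Nat.add (Nat.add C x50481) x35901) x37521) x37305) x37377) x37353) x17677) (Nat.mul x37359 (nat_lit 2)))
    (Nat.add (Nat.add (Nat.add (Nat.add (Nat.add (Nat.add (Nat.add (Nat.add (Nat.add C x37369) x50491) x35911) x37531) x37315) x37351) x37371) x57051) x17687)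
    (Nat.add (Nat.add (Nat.add (Nat.add (Nat.add (Nat.add (Nat.add (Nat.add C x50493) x35913) x37533) x37317) x37353) x37377) x37369) x17689)
    (Nat.add (Nat.add (Nat.add (Nat.add (Nat.add (Nat.add (Nat.add (Nat.add (Nat.add C x37377) x50499) x35919) x37539) x37323) x37359) x37395) x37371) x17695)
    (Nat.add (Nat.add (Nat.add (Nat.add (Nat.add (Nat.add C (Nat.mul x37395 (nat_lit 2))) x50517) x35937) x37557) x37377) x17713)
    (Nat.add (Nat.add (Nat.add (Nat.add (Nat.add (Nat.add (Nat.add (Nat.add C (Nat.mul x37427 (nat_lit 2))) x50549) x35969) x37913) x37265) x37433) x37429) x57109)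
    (Nat.add (Nat.add (Nat.add (Nat.add (Nat.add (Nat.add (Nat.add (Nat.add (Nat.add C x37429) x50551) x35971) x37915) x37267) x37435) x37427) x57111) x17747)
    (Nat.add (Nat.add (Nat.add (Nat.add (Nat.add (Nat.add (Nat.add (Nat.add C x50555) x35975) x37919) x37271) x37451) x37427) x37435) x57115)
    (Nat.add (Nat.add (Nat.add (Nat.add (Nat.add (Nat.add (Nat.add (Nat.add (Nat.add (Nat.add (Nat.add (Nat.add C x37435) x50557) x35977) x37921) x37273) x37453) x37429) x37441) x37433) x37437) x57117) x17753)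
    (Nat.add (Nat.add (Nat.add (Nat.add (Nat.add (Nat.add (Nat.add (Nat.add C x50559) x35979) x37923) x37275) x37455) x37443) x37435) x17755)
    (Nat.sub (Nat.add (Nat.add (Nat.add (Nat.add (Nat.add (Nat.add (Nat.add (Nat.add (Nat.add C x50563) x35983) x37927) x37279) x37459) x37435) x37443) x57123) x17759) x37441)
    (Nat.add (Nat.add (Nat.add (Nat.add (Nat.add (Nat.add (Nat.add (Nat.add C x50565) x35985) x37929) x37281) x37461) x37437) x37441) x17761)
    (Nat.add (Nat.add (Nat.add (Nat.add (Nat.add (Nat.add (Nat.add (Nat.add C x50573) x35993) x37937) x37289) x37505) x37433) x37453) x57133)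
    (Nat.add (Nat.add (Nat.add (Nat.add (Nat.add (Nat.add (Nat.add (Nat.add (Nat.add (Nat.add (Nat.add C x50575) x35995) x37939) x37291) x37507) x37435) x37459) x37451) x37455) x57135) x17771)
    (Nat.sub (Nat.add (Nat.add (Nat.add (Nat.add (Nat.add (Nat.add (Nat.add (Nat.add (Nat.add C x50577) x35997) x37941) x37293) x37509) x37437) x37461) x37453) x17773) (Nat.mul x37455 (nat_lit 2)))
    (Nat.add (Nat.add (Nat.add (Nat.add (Nat.add (Nat.add (Nat.add (Nat.add (Nat.add (Nat.add (Nat.add C x50581) x36001) x37945) x37297) x37513) x37441) x37477) x37453) x37461) x57141) x17777)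
    (Nat.add (Nat.add (Nat.add (Nat.add (Nat.add (Nat.add (Nat.add (Nat.add (Nat.add (Nat.add (Nat.add C x50583) x36003) x37947) x37299) x37515) x37443) x37479) x37455) x37467) x37459) x17779)
    (Nat.add (Nat.add (Nat.add (Nat.add (Nat.add (Nat.add (Nat.add (Nat.add C x50589) x36009) x37953) x37305) x37521) x37485) x37461) x17785)
    (Nat.sub (Nat.add (Nat.add (Nat.add (Nat.add (Nat.add (Nat.add (Nat.add (Nat.add (Nat.add C x50599) x36019) x37963) x37315) x37531) x37459) x37479) x57159) x17795) x37477)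
    (Nat.sub (Nat.add (Nat.add (Nat.add (Nat.add (Nat.add (Nat.add (Nat.add (Nat.add (Nat.add C x50601) x36021) x37965) x37317) x37533) x37461) x37485) x37477) x17797) (Nat.mul x37479 (nat_lit 2)))
    (Nat.add (Nat.add (Nat.add (Nat.add (Nat.add (Nat.add (Nat.add (Nat.add C x50607) x36027) x37971) x37323) x37539) x37467) x37479) x17803)
    (Nat.add (Nat.add (Nat.add (Nat.add (Nat.add (Nat.add (Nat.add (Nat.add (Nat.add C x37505) x50627) x36047) x37991) x37343) x37667) x37451) x37507) x57187)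
    (Nat.add (Nat.add (Nat.add (Nat.add (Nat.add (Nat.add (Nat.add (Nat.add (Nat.add (Nat.add (Nat.add (Nat.add C x37507) x50629) x36049) x37993) x37345) x37669) x37453) x37513) x37505) x37509) x57189) x17825)
    (Nat.sub (Nat.add (Nat.add (Nat.add (Nat.add (Nat.add (Nat.add (Nat.add (Nat.add (Nat.add C x50631) x36051) x37995) x37347) x37671) x37455) x37515) x37507) x17827) x37509)
    (Nat.add (Nat.add (Nat.add (Nat.add (Nat.add (Nat.add (Nat.add (Nat.add (Nat.add (Nat.add (Nat.add C x50635) x36055) x37999) x37351) x37675) x37459) x37531) x37507) x37515) x57195) x17831)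
    (Nat.add (Nat.add (Nat.add (Nat.add (Nat.add (Nat.add (Nat.add (Nat.add (Nat.add (Nat.add (Nat.add C x50637) x36057) x38001) x37353) x37677) x37461) x37533) x37509) x37521) x37513) x17833)
    (Nat.sub (Nat.add (Nat.add (Nat.add (Nat.add (Nat.add (Nat.add (Nat.add (Nat.add (Nat.add C x50643) x36063) x38007) x37359) x37683) x37467) x37539) x37515) x17839) x37521)
    (Nat.add (Nat.add (Nat.add (Nat.add (Nat.add (Nat.add (Nat.add (Nat.add (Nat.add (Nat.add (Nat.add (Nat.add C x37531) x50653) x36073) x38017) x37369) x37693) x37477) x37585) x37513) x37533) x57213) x17849)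
    (Nat.add (Nat.add (Nat.add (Nat.add (Nat.add (Nat.add (Nat.add (Nat.add (Nat.add (Nat.add (Nat.add C x50655) x36075) x38019) x37371) x37695) x37479) x37587) x37515) x37539) x37531) x17851)
    (Nat.add (Nat.add (Nat.add (Nat.add (Nat.add (Nat.add (Nat.add (Nat.add (Nat.add (Nat.add (Nat.add (Nat.add C x37539) x50661) x36081) x38025) x37377) x37701) x37485) x37593) x37521) x37557) x37533) x17857)
    (Nat.add (Nat.add (Nat.add (Nat.add (Nat.add (Nat.add (Nat.add (Nat.add (Nat.add C x37557) x50679) x36099) x38043) x37395) x37719) x37611) x37539) x17875)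
    (Nat.add (Nat.add (Nat.add (Nat.add (Nat.add (Nat.add (Nat.add (Nat.add (Nat.add C x37585) x50707) x36127) x38071) x37747) x37531) x37587) x57267) x17903)
    (Nat.add (Nat.add (Nat.add (Nat.add (Nat.add (Nat.add (Nat.add (Nat.add C x50709) x36129) x38073) x37749) x37533) x37593) x37585) x17905)
    (Nat.add (Nat.add (Nat.add (Nat.add (Nat.add (Nat.add (Nat.add (Nat.add C x50715) x36135) x38079) x37755) x37539) x37611) x37587) x17911)
    (Nat.add (Nat.add (Nat.add (Nat.add (Nat.add (Nat.add (Nat.add (Nat.add C (Nat.mul x37611 (nat_lit 2))) x50733) x36153) x38097) x37773) x37557) x37593) x17929)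
    (Nat.add (Nat.add (Nat.add (Nat.add (Nat.add (Nat.add C x50789) x36209) x38153) x37505) x37669) x57349)
    (Nat.add (Nat.add (Nat.add (Nat.add (Nat.add (Nat.add (Nat.add (Nat.add (Nat.add C x50791) x36211) x38155) x37507) x37675) x37667) x37671) x57351) x17987)
    (Nat.sub (Nat.add (Nat.add (Nat.add (Nat.add (Nat.add (Nat.add (Nat.add C x50793) x36213) x38157) x37509) x37677) x37669) x17989) (Nat.mul x37671 (nat_lit 2)))
    (Nat.sub (Nat.add (Nat.add (Nat.add (Nat.add (Nat.add (Nat.add (Nat.add (Nat.add (Nat.add C x50797) x36217) x38161) x37513) x37693) x37669) x37677) x57357) x17993) x37675)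
    (Nat.sub (Nat.add (Nat.add (Nat.add (Nat.add (Nat.add (Nat.add (Nat.add (Nat.add (Nat.add C x50799) x36219) x38163) x37515) x37695) x37671) x37683) x37675) x17995) x37677)
    (Nat.sub (Nat.add (Nat.add (Nat.add (Nat.add (Nat.add (Nat.add (Nat.add C x50805) x36225) x38169) x37521) x37701) x37677) x18001) (Nat.mul x37683 (nat_lit 2)))
    (Nat.sub (Nat.add (Nat.add (Nat.add (Nat.add (Nat.add (Nat.add (Nat.add (Nat.add (Nat.add C x50815) x36235) x38179) x37531) x37747) x37675) x37695) x57375) x18011) x37693)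
    (Nat.sub (Nat.add (Nat.add (Nat.add (Nat.add (Nat.add (Nat.add (Nat.add (Nat.add (Nat.add C x50817) x36237) x38181) x37533) x37749) x37677) x37701) x37693) x18013) (Nat.mul x37695 (nat_lit 2)))
    (Nat.sub (Nat.add (Nat.add (Nat.add (Nat.add (Nat.add (Nat.add (Nat.add (Nat.add (Nat.add C x50823) x36243) x38187) x37539) x37755) x37683) x37719) x37695) x18019) x37701)
    (Nat.sub (Nat.add (Nat.add (Nat.add (Nat.add (Nat.add (Nat.add (Nat.add C x50841) x36261) x38205) x37557) x37773) x37701) x18037) (Nat.mul x37719 (nat_lit 2)))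
    (Nat.add (Nat.add (Nat.add (Nat.add (Nat.add (Nat.add (Nat.add (Nat.add (Nat.add C x37747) x50869) x36289) x38233) x37585) x37693) x37749) x57429) x18065)
    (Nat.add (Nat.add (Nat.add (Nat.add (Nat.add (Nat.add (Nat.add (Nat.add C x50871) x36291) x38235) x37587) x37695) x37755) x37747) x18067)
    (Nat.add (Nat.add (Nat.add (Nat.add (Nat.add (Nat.add (Nat.add (Nat.add C x50877) x36297) x38241) x37593) x37701) x37773) x37749) x18073)
    (Nat.add (Nat.add (Nat.add (Nat.add (Nat.add (Nat.add (Nat.add (Nat.add (Nat.add C x37773) x50895) x36315) x38259) x37611) x37719) x37827) x37755) x18091)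
    (Nat.add (Nat.add (Nat.add (Nat.add (Nat.add (Nat.add C (Nat.mul x37827 (nat_lit 2))) x50949) x36369) x38313) x37773) x18145)
    (Nat.add (Nat.add (Nat.add (Nat.add (Nat.add (Nat.add (Nat.add C (Nat.mul x37913 (nat_lit 4))) x51035) x36455) x37427) x37919) x37915) x57595)
    (Nat.add (Nat.add (Nat.add (Nat.add (Nat.add (Nat.add (Nat.add (Nat.add C (Nat.mul x37915 (nat_lit 3))) x51037) x36457) x37429) x37921) x37913) x57597) x18233)
    (Nat.add (Nat.add (Nat.add (Nat.add (Nat.add (Nat.add (Nat.add (Nat.add C (Nat.mul x37919 (nat_lit 2))) x51041) x36461) x37433) x37937) x37913) x37921) x57601)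
    (Nat.add (Nat.add (Nat.add (Nat.add (Nat.add (Nat.add (Nat.add (Nat.add (Nat.add (Nat.add (Nat.add C (Nat.mul x37921 (nat_lit 3))) x51043) x36463) x37435) x37939) x37915) x37927) x37919) x37923) x57603) x18239)
    (Nat.add (Nat.add (Nat.add (Nat.add (Nat.add (Nat.add (Nat.add (Nat.add C (Nat.mul x37923 (nat_lit 2))) x51045) x36465) x37437) x37941) x37929) x37921) x18241)
    (Nat.add (Nat.add (Nat.add (Nat.add (Nat.add (Nat.add (Nat.add (Nat.add (Nat.add C x37927) x51049) x36469) x37441) x37945) x37921) x37929) x57609) x18245)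
    (Nat.add (Nat.add (Nat.add (Nat.add (Nat.add (Nat.add (Nat.add (Nat.add C (Nat.mul x37929 (nat_lit 2))) x51051) x36471) x37443) x37947) x37923) x37927) x18247)
    (Nat.add (Nat.add (Nat.add (Nat.add (Nat.add (Nat.add (Nat.add (Nat.add C (Nat.mul x37937 (nat_lit 2))) x51059) x36479) x37451) x37991) x37919) x37939) x57619)
    (Nat.add (Nat.add (Nat.add (Nat.add (Nat.add (Nat.add (Nat.add (Nat.add (Nat.add (Nat.add (Nat.add C (Nat.mul x37939 (nat_lit 2))) x51061) x36481) x37453) x37993) x37921) x37945) x37937) x37941) x57621) x18257)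
    (Nat.add (Nat.add (Nat.add (Nat.add (Nat.add (Nat.add (Nat.add (Nat.add C x51063) x36483) x37455) x37995) x37923) x37947) x37939) x18259)
    (Nat.add (Nat.add (Nat.add (Nat.add (Nat.add (Nat.add (Nat.add (Nat.add (Nat.add (Nat.add (Nat.add C (Nat.mul x37945 (nat_lit 2))) x51067) x36487) x37459) x37999) x37927) x37963) x37939) x37947) x57627) x18263)
    (Nat.add (Nat.add (Nat.add (Nat.add (Nat.add (Nat.add (Nat.add (Nat.add (Nat.add (Nat.add (Nat.add C (Nat.mul x37947 (nat_lit 2))) x51069) x36489) x37461) x38001) x37929) x37965) x37941) x37953) x37945) x18265)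
    (Nat.add (Nat.add (Nat.add (Nat.add (Nat.add (Nat.add (Nat.add (Nat.add C (Nat.mul x37953 (nat_lit 2))) x51075) x36495) x37467) x38007) x37971) x37947) x18271)
    (Nat.add (Nat.add (Nat.add (Nat.add (Nat.add (Nat.add (Nat.add (Nat.add (Nat.add C x37963) x51085) x36505) x37477) x38017) x37945) x37965) x57645) x18281)
    (Nat.add (Nat.add (Nat.add (Nat.add (Nat.add (Nat.add (Nat.add (Nat.add C x51087) x36507) x37479) x38019) x37947) x37971) x37963) x18283)
    (Nat.add (Nat.add (Nat.add (Nat.add (Nat.add (Nat.add (Nat.add (Nat.add C (Nat.mul x37971 (nat_lit 2))) x51093) x36513) x37485) x38025) x37953) x37965) x18289)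
    (Nat.add (Nat.add (Nat.add (Nat.add (Nat.add (Nat.add (Nat.add (Nat.add C (Nat.mul x37991 (nat_lit 2))) x51113) x36533) x37505) x38153) x37937) x37993) x57673)
    (Nat.add (Nat.add (Nat.add (Nat.add (Nat.add (Nat.add (Nat.add (Nat.add (Nat.add (Nat.add (Nat.add C (Nat.mul x37993 (nat_lit 2))) x51115) x36535) x37507) x38155) x37939) x37999) x37991) x37995) x57675) x18311)
    (Nat.add (Nat.add (Nat.add (Nat.add (Nat.add (Nat.add (Nat.add (Nat.add C x51117) x36537) x37509) x38157) x37941) x38001) x37993) x18313)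
    (Nat.add (Nat.add (Nat.add (Nat.add (Nat.add (Nat.add (Nat.add (Nat.add (Nat.add (Nat.add (Nat.add C x37999) x51121) x36541) x37513) x38161) x37945) x38017) x37993) x38001) x57681) x18317)
    (Nat.add (Nat.add (Nat.add (Nat.add (Nat.add (Nat.add (Nat.add (Nat.add (Nat.add (Nat.add (Nat.add C x38001) x51123) x36543) x37515) x38163) x37947) x38019) x37995) x38007) x37999) x18319)
    (Nat.add (Nat.add (Nat.add (Nat.add (Nat.add (Nat.add (Nat.add (Nat.add C x51129) x36549) x37521) x38169) x37953) x38025) x38001) x18325)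
    (Nat.add (Nat.add (Nat.add (Nat.add (Nat.add (Nat.add (Nat.add (Nat.add (Nat.add (Nat.add (Nat.add C (Nat.mul x38017 (nat_lit 2))) x51139) x36559) x37531) x38179) x37963) x38071) x37999) x38019) x57699) x18335)
    (Nat.add (Nat.add (Nat.add (Nat.add (Nat.add (Nat.add (Nat.add (Nat.add (Nat.add (Nat.add (Nat.add C x38019) x51141) x36561) x37533) x38181) x37965) x38073) x38001) x38025) x38017) x18337)
    (Nat.add (Nat.add (Nat.add (Nat.add (Nat.add (Nat.add (Nat.add (Nat.add (Nat.add (Nat.add (Nat.add C (Nat.mul x38025 (nat_lit 2))) x51147) x36567) x37539) x38187) x37971) x38079) x38007) x38043) x38019) x18343)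
    (Nat.add (Nat.add (Nat.add (Nat.add (Nat.add (Nat.add (Nat.add (Nat.add C (Nat.mul x38043 (nat_lit 2))) x51165) x36585) x37557) x38205) x38097) x38025) x18361)
    (Nat.add (Nat.add (Nat.add (Nat.add (Nat.add (Nat.add (Nat.add (Nat.add (Nat.add C x38071) x51193) x36613) x37585) x38233) x38017) x38073) x57753) x18389)
    (Nat.add (Nat.add (Nat.add (Nat.add (Nat.add (Nat.add (Nat.add (Nat.add C x51195) x36615) x37587) x38235) x38019) x38079) x38071) x18391)
    (Nat.add (Nat.add (Nat.add (Nat.add (Nat.add (Nat.add (Nat.add (Nat.add C x51201) x36621) x37593) x38241) x38025) x38097) x38073) x18397)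
    (Nat.add (Nat.add (Nat.add (Nat.add (Nat.add (Nat.add (Nat.add (Nat.add C (Nat.mul x38097 (nat_lit 2))) x51219) x36639) x37611) x38259) x38043) x38079) x18415)
    (Nat.add (Nat.add (Nat.add (Nat.add (Nat.add (Nat.add (Nat.add (Nat.add C (Nat.mul x38153 (nat_lit 3))) x51275) x36695) x37667) x38639) x37991) x38155) x57835)
    (Nat.add (Nat.add (Nat.add (Nat.add (Nat.add (Nat.add (Nat.add (Nat.add (Nat.add (Nat.add (Nat.add C (Nat.mul x38155 (nat_lit 3))) x51277) x36697) x37669) x38641) x37993) x38161) x38153) x38157) x57837) x18473)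
    (Nat.add (Nat.add (Nat.add (Nat.add (Nat.add (Nat.add (Nat.add (Nat.add (Nat.add C x38157) x51279) x36699) x37671) x38643) x37995) x38163) x38155) x18475)
    (Nat.add (Nat.add (Nat.add (Nat.add (Nat.add (Nat.add (Nat.add (Nat.add (Nat.add (Nat.add (Nat.add C (Nat.mul x38161 (nat_lit 2))) x51283) x36703) x37675) x38647) x37999) x38179) x38155) x38163) x57843) x18479)
    (Nat.add (Nat.add (Nat.add (Nat.add (Nat.add (Nat.add (Nat.add (Nat.add (Nat.add (Nat.add (Nat.add C (Nat.mul x38163 (nat_lit 2))) x51285) x36705) x37677) x38649) x38001) x38181) x38157) x38169) x38161) x18481)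
    (Nat.add (Nat.add (Nat.add (Nat.add (Nat.add (Nat.add (Nat.add (Nat.add (Nat.add C x38169) x51291) x36711) x37683) x38655) x38007) x38187) x38163) x18487)
    (Nat.add (Nat.add (Nat.add (Nat.add (Nat.add (Nat.add (Nat.add (Nat.add (Nat.add (Nat.add (Nat.add C (Nat.mul x38179 (nat_lit 2))) x51301) x36721) x37693) x38665) x38017) x38233) x38161) x38181) x57861) x18497)
    (Nat.add (Nat.add (Nat.add (Nat.add (Nat.add (Nat.add (Nat.add (Nat.add (Nat.add (Nat.add (Nat.add C x38181) x51303) x36723) x37695) x38667) x38019) x38235) x38163) x38187) x38179) x18499)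
    (Nat.add (Nat.add (Nat.add (Nat.add (Nat.add (Nat.add (Nat.add (Nat.add (Nat.add (Nat.add (Nat.add C (Nat.mul x38187 (nat_lit 2))) x51309) x36729) x37701) x38673) x38025) x38241) x38169) x38205) x38181) x18505)
    (Nat.add (Nat.add (Nat.add (Nat.add (Nat.add (Nat.add (Nat.add (Nat.add (Nat.add C x38205) x51327) x36747) x37719) x38691) x38043) x38259) x38187) x18523)
    (Nat.add (Nat.add (Nat.add (Nat.add (Nat.add (Nat.add (Nat.add (Nat.add (Nat.add (Nat.add (Nat.add C (Nat.mul x38233 (nat_lit 3))) x51355) x36775) x37747) x38719) x38071) x38395) x38179) x38235) x57915) x18551)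
    (Nat.add (Nat.add (Nat.add (Nat.add (Nat.add (Nat.add (Nat.add (Nat.add (Nat.add (Nat.add (Nat.add C (Nat.mul x38235 (nat_lit 2))) x51357) x36777) x37749) x38721) x38073) x38397) x38181) x38241) x38233) x18553)
    (Nat.add (Nat.add (Nat.add (Nat.add (Nat.add (Nat.add (Nat.add (Nat.add (Nat.add (Nat.add (Nat.add C (Nat.mul x38241 (nat_lit 2))) x51363) x36783) x37755) x38727) x38079) x38403) x38187) x38259) x38235) x18559)
    (Nat.add (Nat.add (Nat.add (Nat.add (Nat.add (Nat.add (Nat.add (Nat.add (Nat.add (Nat.add (Nat.add C (Nat.mul x38259 (nat_lit 3))) x51381) x36801) x37773) x38745) x38097) x38421) x38205) x38313) x38241) x18577)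
    (Nat.add (Nat.add (Nat.add (Nat.add (Nat.add (Nat.add (Nat.add (Nat.add C (Nat.mul x38313 (nat_lit 3))) x51435) x36855) x37827) x38799) x38475) x38259) x18631)
    (Nat.add (Nat.add (Nat.add (Nat.add (Nat.add (Nat.add (Nat.add (Nat.add C (Nat.mul x38395 (nat_lit 3))) x51517) x36937) x38881) x38233) x38397) x58077) x18713)
    (Nat.add (Nat.add (Nat.add (Nat.add (Nat.add (Nat.add (Nat.add (Nat.add C (Nat.mul x38397 (nat_lit 2))) x51519) x36939) x38883) x38235) x38403) x38395) x18715)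
    (Nat.add (Nat.add (Nat.add (Nat.add (Nat.add (Nat.add (Nat.add (Nat.add C (Nat.mul x38403 (nat_lit 2))) x51525) x36945) x38889) x38241) x38421) x38397) x18721)
    (Nat.add (Nat.add (Nat.add (Nat.add (Nat.add (Nat.add (Nat.add (Nat.add C (Nat.mul x38421 (nat_lit 2))) x51543) x36963) x38907) x38259) x38475) x38403) x18739)
    (Nat.add (Nat.add (Nat.add (Nat.add (Nat.add (Nat.add (Nat.add C (Nat.mul x38475 (nat_lit 4))) x51597) x37017) x38961) x38313) x38421) x18793)
    (Nat.add (Nat.add (Nat.add (Nat.add (Nat.add C (Nat.mul x38639 (nat_lit 4))) x51761) x38153) x38641) x58321)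
    (Nat.add (Nat.add (Nat.add (Nat.add (Nat.add (Nat.add (Nat.add (Nat.add C (Nat.mul x38641 (nat_lit 4))) x51763) x38155) x38647) x38639) x38643) x58323) x18959)
    (Nat.add (Nat.add (Nat.add (Nat.add (Nat.add (Nat.add C (Nat.mul x38643 (nat_lit 2))) x51765) x38157) x38649) x38641) x18961)
    (Nat.add (Nat.add (Nat.add (Nat.add (Nat.add (Nat.add (Nat.add (Nat.add C (Nat.mul x38647 (nat_lit 3))) x51769) x38161) x38665) x38641) x38649) x58329) x18965)
    (Nat.add (Nat.add (Nat.add (Nat.add (Nat.add (Nat.add (Nat.add (Nat.add C (Nat.mul x38649 (nat_lit 3))) x51771) x38163) x38667) x38643) x38655) x38647) x18967)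
    (Nat.add (Nat.add (Nat.add (Nat.add (Nat.add (Nat.add C (Nat.mul x38655 (nat_lit 2))) x51777) x38169) x38673) x38649) x18973)
    (Nat.add (Nat.add (Nat.add (Nat.add (Nat.add (Nat.add (Nat.add (Nat.add C (Nat.mul x38665 (nat_lit 3))) x51787) x38179) x38719) x38647) x38667) x58347) x18983)
    (Nat.add (Nat.add (Nat.add (Nat.add (Nat.add (Nat.add (Nat.add (Nat.add C (Nat.mul x38667 (nat_lit 2))) x51789) x38181) x38721) x38649) x38673) x38665) x18985)
    (Nat.add (Nat.add (Nat.add (Nat.add (Nat.add (Nat.add (Nat.add (Nat.add C (Nat.mul x38673 (nat_lit 3))) x51795) x38187) x38727) x38655) x38691) x38667) x18991)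
    (Nat.add (Nat.add (Nat.add (Nat.add (Nat.add (Nat.add C (Nat.mul x38691 (nat_lit 2))) x51813) x38205) x38745) x38673) x19009)
    (Nat.add (Nat.add (Nat.add (Nat.add (Nat.add (Nat.add (Nat.add (Nat.add C (Nat.mul x38719 (nat_lit 3))) x51841) x38233) x38881) x38665) x38721) x58401) x19037)
    (Nat.add (Nat.add (Nat.add (Nat.add (Nat.add (Nat.add (Nat.add (Nat.add C (Nat.mul x38721 (nat_lit 2))) x51843) x38235) x38883) x38667) x38727) x38719) x19039)
    (Nat.add (Nat.add (Nat.add (Nat.add (Nat.add (Nat.add (Nat.add (Nat.add C (Nat.mul x38727 (nat_lit 2))) x51849) x38241) x38889) x38673) x38745) x38721) x19045)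
    (Nat.add (Nat.add (Nat.add (Nat.add (Nat.add (Nat.add (Nat.add (Nat.add C (Nat.mul x38745 (nat_lit 3))) x51867) x38259) x38907) x38691) x38799) x38727) x19063)
    (Nat.add (Nat.add (Nat.add (Nat.add (Nat.add (Nat.add C (Nat.mul x38799 (nat_lit 2))) x51921) x38313) x38961) x38745) x19117)
    (Nat.add (Nat.add (Nat.add (Nat.add (Nat.add (Nat.add (Nat.add C (Nat.mul x38881 (nat_lit 5))) x52003) x38395) x38719) x38883) x58563) x19199)
    (Nat.add (Nat.add (Nat.add (Nat.add (Nat.add (Nat.add (Nat.add C (Nat.mul x38883 (nat_lit 4))) x52005) x38397) x38721) x38889) x38881) x19201)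
    (Nat.add (Nat.add (Nat.add (Nat.add (Nat.add (Nat.add (Nat.add C (Nat.mul x38889 (nat_lit 4))) x52011) x38403) x38727) x38907) x38883) x19207)
    (Nat.add (Nat.add (Nat.add (Nat.add (Nat.add (Nat.add (Nat.add C (Nat.mul x38907 (nat_lit 4))) x52029) x38421) x38745) x38961) x38889) x19225)
    (Nat.add (Nat.add (Nat.add (Nat.add (Nat.add (Nat.add (Nat.add C (Nat.mul x38961 (nat_lit 5))) x52083) x38475) x38799) x39123) x38907) x19279)
    (Nat.add (Nat.add (Nat.add (Nat.add C (Nat.mul x39123 (nat_lit 6))) x52245) x38961) x19441)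
    (Nat.add (Nat.add (Nat.add (Nat.add C (Nat.mul x39419 (nat_lit 6))) x26297) x39473) x39437)
    (Nat.add (Nat.add (Nat.add (Nat.add (Nat.add C (Nat.mul x39437 (nat_lit 4))) x26315) x39491) x39419) x39443)
    (Nat.add (Nat.add (Nat.add (Nat.add (Nat.add C (Nat.mul x39443 (nat_lit 4))) x26321) x39497) x39437) x39445)
    (Nat.add (Nat.add (Nat.add (Nat.add (Nat.add C (Nat.mul x39445 (nat_lit 4))) x26323) x39499) x39443) x19763)
    (Nat.add (Nat.add (Nat.add (Nat.add (Nat.add C (Nat.mul x39473 (nat_lit 4))) x26351) x39635) x39419) x39491)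
    (Nat.add (Nat.add (Nat.add (Nat.add (Nat.add (Nat.add (Nat.add (Nat.add C (Nat.mul x39491 (nat_lit 4))) x26369) x39653) x39437) x39545) x39473) x39509) x39497)
    (Nat.add (Nat.add (Nat.add (Nat.add (Nat.add (Nat.add (Nat.add (Nat.add C (Nat.mul x39497 (nat_lit 3))) x26375) x39659) x39443) x39551) x39515) x39491) x39499)
    (Nat.add (Nat.add (Nat.add (Nat.add (Nat.add (Nat.add (Nat.add (Nat.add C (Nat.mul x39499 (nat_lit 3))) x26377) x39661) x39445) x39553) x39517) x39497) x19817)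
    (Nat.add (Nat.add (Nat.add (Nat.add (Nat.add (Nat.add C (Nat.mul x39509 (nat_lit 2))) x26387) x39671) x39563) x39491) x39515)
    (Nat.add (Nat.add (Nat.add (Nat.add (Nat.add (Nat.add (Nat.add (Nat.add C (Nat.mul x39515 (nat_lit 3))) x26393) x39677) x39569) x39497) x39509) x39521) x39517)
    (Nat.add (Nat.add (Nat.add (Nat.add (Nat.add (Nat.add (Nat.add (Nat.add C (Nat.mul x39517 (nat_lit 2))) x26395) x39679) x39571) x39499) x39523) x39515) x19835)
    (Nat.add (Nat.add (Nat.add (Nat.add (Nat.add (Nat.add C (Nat.mul x39521 (nat_lit 2))) x26399) x39683) x39575) x39515) x39523)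
    (Nat.add (Nat.add (Nat.add (Nat.add (Nat.add (Nat.add (Nat.add (Nat.add C (Nat.mul x39523 (nat_lit 3))) x26401) x39685) x39577) x39517) x39521) x39525) x19841)
    (Nat.add (Nat.add (Nat.add (Nat.add (Nat.add (Nat.add C (Nat.mul x39525 (nat_lit 2))) x26403) x39687) x39579) x39523) x19843)
    (Nat.add (Nat.add (Nat.add (Nat.add (Nat.add (Nat.add C (Nat.mul x39545 (nat_lit 2))) x26423) x39707) x39491) x39563) x39551)
    (Nat.add (Nat.add (Nat.add (Nat.add (Nat.add (Nat.add C x26429) x39713) x39497) x39569) x39545) x39553)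
    (Nat.add (Nat.add (Nat.add (Nat.add (Nat.add (Nat.add C x26431) x39715) x39499) x39571) x39551) x19871)
    (Nat.add (Nat.add (Nat.add (Nat.add (Nat.add (Nat.add C (Nat.mul x39563 (nat_lit 2))) x26441) x39725) x39509) x39545) x39569)
    (Nat.add (Nat.add (Nat.add (Nat.add (Nat.add (Nat.add (Nat.add (Nat.add (Nat.add C (Nat.mul x39569 (nat_lit 2))) x26447) x39731) x39515) x39551) x39587) x39563) x39575) x39571)
    (Nat.add (Nat.add (Nat.add (Nat.add (Nat.add (Nat.add (Nat.add (Nat.add (Nat.add C x39571) x26449) x39733) x39517) x39553) x39589) x39577) x39569) x19889)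
    (Nat.add (Nat.add (Nat.add (Nat.add (Nat.add (Nat.add C x26453) x39737) x39521) x39593) x39569) x39577)
    (Nat.add (Nat.add (Nat.add (Nat.add (Nat.add (Nat.add (Nat.add (Nat.add (Nat.add C x39577) x26455) x39739) x39523) x39595) x39571) x39575) x39579) x19895)
    (Nat.add (Nat.add (Nat.add (Nat.add (Nat.add (Nat.add C x26457) x39741) x39525) x39597) x39577) x19897)
    (Nat.add (Nat.add (Nat.add (Nat.add (Nat.add (Nat.add C (Nat.mul x39587 (nat_lit 2))) x26465) x39749) x39569) x39593) x39589)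
    (Nat.add (Nat.add (Nat.add (Nat.add (Nat.add (Nat.add C x26467) x39751) x39571) x39595) x39587) x19907)
    (Nat.add (Nat.add (Nat.add (Nat.add (Nat.add (Nat.add C (Nat.mul x39593 (nat_lit 2))) x26471) x39755) x39575) x39587) x39595)
    (Nat.add (Nat.add (Nat.add (Nat.add (Nat.add (Nat.add (Nat.add (Nat.add (Nat.add C (Nat.mul x39595 (nat_lit 2))) x26473) x39757) x39577) x39589) x39601) x39593) x39597) x19913)
    (Nat.add (Nat.add (Nat.add (Nat.add (Nat.add (Nat.add C x26475) x39759) x39579) x39603) x39595) x19915)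
    (Nat.add (Nat.add (Nat.add (Nat.add (Nat.add (Nat.add C (Nat.mul x39601 (nat_lit 2))) x26479) x39763) x39595) x39603) x19919)
    (Nat.add (Nat.add (Nat.add (Nat.add (Nat.add (Nat.add C (Nat.mul x39603 (nat_lit 2))) x26481) x39765) x39597) x39601) x19921)
    (Nat.add (Nat.add (Nat.add (Nat.add (Nat.add C (Nat.mul x39635 (nat_lit 4))) x26513) x40121) x39473) x39653)
    (Nat.add (Nat.add (Nat.add (Nat.add (Nat.add (Nat.add (Nat.add (Nat.add C (Nat.mul x39653 (nat_lit 3))) x26531) x40139) x39491) x39707) x39635) x39671) x39659)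
    (Nat.add (Nat.add (Nat.add (Nat.add (Nat.add (Nat.add (Nat.add (Nat.add C (Nat.mul x39659 (nat_lit 2))) x26537) x40145) x39497) x39713) x39677) x39653) x39661)
    (Nat.add (Nat.add (Nat.add (Nat.add (Nat.add (Nat.add (Nat.add (Nat.add C (Nat.mul x39661 (nat_lit 2))) x26539) x40147) x39499) x39715) x39679) x39659) x19979)
    (Nat.add (Nat.add (Nat.add (Nat.add (Nat.add (Nat.add C x26549) x40157) x39509) x39725) x39653) x39677)
    (Nat.add (Nat.add (Nat.add (Nat.add (Nat.add (Nat.add (Nat.add (Nat.add (Nat.add C x39677) x26555) x40163) x39515) x39731) x39659) x39671) x39683) x39679)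
    (Nat.add (Nat.add (Nat.add (Nat.add (Nat.add (Nat.add (Nat.add (Nat.add C x26557) x40165) x39517) x39733) x39661) x39685) x39677) x19997)
    (Nat.add (Nat.add (Nat.add (Nat.add (Nat.add (Nat.add C x26561) x40169) x39521) x39737) x39677) x39685)
    (Nat.add (Nat.add (Nat.add (Nat.add (Nat.add (Nat.add (Nat.add (Nat.add (Nat.add C x39685) x26563) x40171) x39523) x39739) x39679) x39683) x39687) x20003)
    (Nat.add (Nat.add (Nat.add (Nat.add (Nat.add (Nat.add C x26565) x40173) x39525) x39741) x39685) x20005)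
    (Nat.add (Nat.add (Nat.add (Nat.add (Nat.add (Nat.add (Nat.add (Nat.add C (Nat.mul x39707 (nat_lit 3))) x26585) x40193) x39545) x39869) x39653) x39725) x39713)
    (Nat.add (Nat.add (Nat.add (Nat.add (Nat.add (Nat.add (Nat.add (Nat.add (Nat.add C x39713) x26591) x40199) x39551) x39875) x39659) x39731) x39707) x39715)
    (Nat.add (Nat.add (Nat.add (Nat.add (Nat.add (Nat.add (Nat.add (Nat.add (Nat.add C x39715) x26593) x40201) x39553) x39877) x39661) x39733) x39713) x20033)
    (Nat.add (Nat.add (Nat.add (Nat.add (Nat.add (Nat.add (Nat.add (Nat.add (Nat.add C (Nat.mul x39725 (nat_lit 2))) x26603) x40211) x39563) x39887) x39671) x39779) x39707) x39731)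
    (Nat.add (Nat.add (Nat.add (Nat.add (Nat.add (Nat.add (Nat.add (Nat.add (Nat.add (Nat.add (Nat.add (Nat.add C (Nat.mul x39731 (nat_lit 2))) x26609) x40217) x39569) x39893) x39677) x39785) x39713) x39749) x39725) x39737) x39733)
    (Nat.add (Nat.add (Nat.add (Nat.add (Nat.add (Nat.add (Nat.add (Nat.add (Nat.add (Nat.add (Nat.add (Nat.add C x39733) x26611) x40219) x39571) x39895) x39679) x39787) x39715) x39751) x39739) x39731) x20051)
    (Nat.add (Nat.add (Nat.add (Nat.add (Nat.add (Nat.add (Nat.add (Nat.add (Nat.add C x26615) x40223) x39575) x39899) x39683) x39791) x39755) x39731) x39739)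
    (Nat.add (Nat.add (Nat.add (Nat.add (Nat.add (Nat.add (Nat.add (Nat.add (Nat.add (Nat.add (Nat.add (Nat.add C x39739) x26617) x40225) x39577) x39901) x39685) x39793) x39757) x39733) x39737) x39741) x20057)
    (Nat.add (Nat.add (Nat.add (Nat.add (Nat.add (Nat.add (Nat.add (Nat.add (Nat.add C x26619) x40227) x39579) x39903) x39687) x39795) x39759) x39739) x20059)
    (Nat.add (Nat.add (Nat.add (Nat.add (Nat.add (Nat.add (Nat.add (Nat.add (Nat.add C x39749) x26627) x40235) x39587) x39911) x39803) x39731) x39755) x39751)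
    (Nat.sub (Nat.add (Nat.add (Nat.add (Nat.add (Nat.add (Nat.add (Nat.add (Nat.add (Nat.add C x26629) x40237) x39589) x39913) x39805) x39733) x39757) x39749) x20069) x39751)
    (Nat.add (Nat.add (Nat.add (Nat.add (Nat.add (Nat.add (Nat.add (Nat.add (Nat.add C x39755) x26633) x40241) x39593) x39917) x39809) x39737) x39749) x39757)
    (Nat.add (Nat.add (Nat.add (Nat.add (Nat.add (Nat.add (Nat.add (Nat.add (Nat.add (Nat.add (Nat.add (Nat.add C x39757) x26635) x40243) x39595) x39919) x39811) x39739) x39751) x39763) x39755) x39759) x20075)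
    (Nat.sub (Nat.add (Nat.add (Nat.add (Nat.add (Nat.add (Nat.add (Nat.add (Nat.add (Nat.add C x26637) x40245) x39597) x39921) x39813) x39741) x39765) x39757) x20077) x39759)
    (Nat.add (Nat.add (Nat.add (Nat.add (Nat.add (Nat.add (Nat.add (Nat.add (Nat.add C x39763) x26641) x40249) x39601) x39925) x39817) x39757) x39765) x20081)
    (Nat.add (Nat.add (Nat.add (Nat.add (Nat.add (Nat.add (Nat.add (Nat.add (Nat.add C x39765) x26643) x40251) x39603) x39927) x39819) x39759) x39763) x20083)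
    (Nat.add (Nat.add (Nat.add (Nat.add (Nat.add (Nat.add C (Nat.mul x39779 (nat_lit 2))) x26657) x40265) x39941) x39725) x39785)
    (Nat.add (Nat.add (Nat.add (Nat.add (Nat.add (Nat.add (Nat.add (Nat.add (Nat.add C x39785) x26663) x40271) x39947) x39731) x39803) x39779) x39791) x39787)
    (Nat.add (Nat.add (Nat.add (Nat.add (Nat.add (Nat.add (Nat.add (Nat.add C x26665) x40273) x39949) x39733) x39805) x39793) x39785) x20105)
    (Nat.sub (Nat.add (Nat.add (Nat.add (Nat.add (Nat.add (Nat.add (Nat.add C x26669) x40277) x39953) x39737) x39809) x39785) x39793) (Nat.mul x39791 (nat_lit 2)))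
    (Nat.sub (Nat.add (Nat.add (Nat.add (Nat.add (Nat.add (Nat.add (Nat.add (Nat.add (Nat.add C x26671) x40279) x39955) x39739) x39811) x39787) x39791) x39795) x20111) x39793)
    (Nat.sub (Nat.add (Nat.add (Nat.add (Nat.add (Nat.add (Nat.add (Nat.add C x26673) x40281) x39957) x39741) x39813) x39793) x20113) (Nat.mul x39795 (nat_lit 2)))
    (Nat.add (Nat.add (Nat.add (Nat.add (Nat.add (Nat.add (Nat.add (Nat.add C (Nat.mul x39803 (nat_lit 2))) x26681) x40289) x39965) x39749) x39785) x39809) x39805)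
    (Nat.add (Nat.add (Nat.add (Nat.add (Nat.add (Nat.add (Nat.add (Nat.add C x26683) x40291) x39967) x39751) x39787) x39811) x39803) x20123)
    (Nat.add (Nat.add (Nat.add (Nat.add (Nat.add (Nat.add (Nat.add (Nat.add (Nat.add C x39809) x26687) x40295) x39971) x39755) x39791) x39827) x39803) x39811)
    (Nat.add (Nat.add (Nat.add (Nat.add (Nat.add (Nat.add (Nat.add (Nat.add (Nat.add (Nat.add (Nat.add (Nat.add C x39811) x26689) x40297) x39973) x39757) x39793) x39829) x39805) x39817) x39809) x39813) x20129)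
    (Nat.sub (Nat.add (Nat.add (Nat.add (Nat.add (Nat.add (Nat.add (Nat.add (Nat.add (Nat.add C x26691) x40299) x39975) x39759) x39795) x39831) x39819) x39811) x20131) x39813)
    (Nat.add (Nat.add (Nat.add (Nat.add (Nat.add (Nat.add (Nat.add (Nat.add C x26695) x40303) x39979) x39763) x39835) x39811) x39819) x20135)
    (Nat.add (Nat.add (Nat.add (Nat.add (Nat.add (Nat.add (Nat.add (Nat.add C x26697) x40305) x39981) x39765) x39837) x39813) x39817) x20137)
    (Nat.add (Nat.add (Nat.add (Nat.add (Nat.add (Nat.add C (Nat.mul x39827 (nat_lit 2))) x26705) x40313) x39989) x39809) x39829)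
    (Nat.add (Nat.add (Nat.add (Nat.add (Nat.add (Nat.add (Nat.add (Nat.add (Nat.add C x39829) x26707) x40315) x39991) x39811) x39835) x39827) x39831) x20147)
    (Nat.sub (Nat.add (Nat.add (Nat.add (Nat.add (Nat.add (Nat.add (Nat.add C x26709) x40317) x39993) x39813) x39837) x39829) x20149) (Nat.mul x39831 (nat_lit 2)))
    (Nat.add (Nat.add (Nat.add (Nat.add (Nat.add (Nat.add (Nat.add (Nat.add C (Nat.mul x39835 (nat_lit 2))) x26713) x40321) x39997) x39817) x39829) x39837) x20153)
    (Nat.add (Nat.add (Nat.add (Nat.add (Nat.add (Nat.add (Nat.add (Nat.add (Nat.add C x39837) x26715) x40323) x39999) x39819) x39831) x39843) x39835) x20155)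
    (Nat.add (Nat.add (Nat.add (Nat.add (Nat.add (Nat.add C (Nat.mul x39843 (nat_lit 2))) x26721) x40329) x40005) x39837) x20161)
    (Nat.add (Nat.add (Nat.add (Nat.add (Nat.add (Nat.add C (Nat.mul x39869 (nat_lit 2))) x26747) x40355) x39707) x39887) x39875)
    (Nat.add (Nat.add (Nat.add (Nat.add (Nat.add (Nat.add C x26753) x40361) x39713) x39893) x39869) x39877)
    (Nat.add (Nat.add (Nat.add (Nat.add (Nat.add (Nat.add C x26755) x40363) x39715) x39895) x39875) x20195)
    (Nat.add (Nat.add (Nat.add (Nat.add (Nat.add (Nat.add C x26765) x40373) x39725) x39941) x39869) x39893)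
    (Nat.add (Nat.add (Nat.add (Nat.add (Nat.add (Nat.add (Nat.add (Nat.add (Nat.add C x26771) x40379) x39731) x39947) x39875) x39911) x39887) x39899) x39895)
    (Nat.sub (Nat.add (Nat.add (Nat.add (Nat.add (Nat.add (Nat.add (Nat.add (Nat.add (Nat.add C x26773) x40381) x39733) x39949) x39877) x39913) x39901) x39893) x20213) x39895)
    (Nat.sub (Nat.add (Nat.add (Nat.add (Nat.add (Nat.add (Nat.add (Nat.add C x26777) x40385) x39737) x39953) x39917) x39893) x39901) (Nat.mul x39899 (nat_lit 2)))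
    (Nat.sub (Nat.add (Nat.add (Nat.add (Nat.add (Nat.add (Nat.add (Nat.add (Nat.add (Nat.add C x26779) x40387) x39739) x39955) x39919) x39895) x39899) x39903) x20219) x39901)
    (Nat.sub (Nat.add (Nat.add (Nat.add (Nat.add (Nat.add (Nat.add (Nat.add C x26781) x40389) x39741) x39957) x39921) x39901) x20221) (Nat.mul x39903 (nat_lit 2)))
    (Nat.sub (Nat.add (Nat.add (Nat.add (Nat.add (Nat.add (Nat.add (Nat.add C x26789) x40397) x39749) x39965) x39893) x39917) x39913) (Nat.mul x39911 (nat_lit 2)))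
    (Nat.sub (Nat.add (Nat.add (Nat.add (Nat.add (Nat.add (Nat.add (Nat.add (Nat.add C x26791) x40399) x39751) x39967) x39895) x39919) x39911) x20231) (Nat.mul x39913 (nat_lit 4)))
    (Nat.sub (Nat.add (Nat.add (Nat.add (Nat.add (Nat.add (Nat.add (Nat.add C x26795) x40403) x39755) x39971) x39899) x39911) x39919) (Nat.mul x39917 (nat_lit 2)))
    (Nat.sub (Nat.add (Nat.add (Nat.add (Nat.add (Nat.add (Nat.add (Nat.add (Nat.add (Nat.add (Nat.add C x26797) x40405) x39757) x39973) x39901) x39913) x39925) x39917) x39921) x20237) (Nat.mul x39919 (nat_lit 2)))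
    (Nat.sub (Nat.add (Nat.add (Nat.add (Nat.add (Nat.add (Nat.add (Nat.add (Nat.add C x26799) x40407) x39759) x39975) x39903) x39927) x39919) x20239) (Nat.mul x39921 (nat_lit 4)))
    (Nat.sub (Nat.add (Nat.add (Nat.add (Nat.add (Nat.add (Nat.add (Nat.add C x26803) x40411) x39763) x39979) x39919) x39927) x20243) (Nat.mul x39925 (nat_lit 2)))
    (Nat.sub (Nat.add (Nat.add (Nat.add (Nat.add (Nat.add (Nat.add (Nat.add C x26805) x40413) x39765) x39981) x39921) x39925) x20245) (Nat.mul x39927 (nat_lit 2)))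
    (Nat.add (Nat.add (Nat.add (Nat.add (Nat.add (Nat.add C (Nat.mul x39941 (nat_lit 2))) x26819) x40427) x39779) x39887) x39947)
    (Nat.add (Nat.add (Nat.add (Nat.add (Nat.add (Nat.add (Nat.add (Nat.add (Nat.add C x39947) x26825) x40433) x39785) x39893) x39965) x39941) x39953) x39949)
    (Nat.add (Nat.add (Nat.add (Nat.add (Nat.add (Nat.add (Nat.add (Nat.add C x26827) x40435) x39787) x39895) x39967) x39955) x39947) x20267)
    (Nat.sub (Nat.add (Nat.add (Nat.add (Nat.add (Nat.add (Nat.add (Nat.add C x26831) x40439) x39791) x39899) x39971) x39947) x39955) (Nat.mul x39953 (nat_lit 2)))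
    (Nat.sub (Nat.add (Nat.add (Nat.add (Nat.add (Nat.add (Nat.add (Nat.add (Nat.add (Nat.add C x26833) x40441) x39793) x39901) x39973) x39949) x39953) x39957) x20273) x39955)
    (Nat.sub (Nat.add (Nat.add (Nat.add (Nat.add (Nat.add (Nat.add (Nat.add C x26835) x40443) x39795) x39903) x39975) x39955) x20275) (Nat.mul x39957 (nat_lit 2)))
    (Nat.add (Nat.add (Nat.add (Nat.add (Nat.add (Nat.add (Nat.add (Nat.add (Nat.add C x39965) x26843) x40451) x39803) x39911) x40019) x39947) x39971) x39967)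
    (Nat.sub (Nat.add (Nat.add (Nat.add (Nat.add (Nat.add (Nat.add (Nat.add (Nat.add (Nat.add C x26845) x40453) x39805) x39913) x40021) x39949) x39973) x39965) x20285) x39967)
    (Nat.add (Nat.add (Nat.add (Nat.add (Nat.add (Nat.add (Nat.add (Nat.add (Nat.add C x26849) x40457) x39809) x39917) x40025) x39953) x39989) x39965) x39973)
    (Nat.add (Nat.add (Nat.add (Nat.add (Nat.add (Nat.add (Nat.add (Nat.add (Nat.add (Nat.add (Nat.add (Nat.add C x26851) x40459) x39811) x39919) x40027) x39955) x39991) x39967) x39979) x39971) x39975) x20291)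
    (Nat.sub (Nat.add (Nat.add (Nat.add (Nat.add (Nat.add (Nat.add (Nat.add (Nat.add (Nat.add (Nat.add C x26853) x40461) x39813) x39921) x40029) x39957) x39993) x39981) x39973) x20293) (Nat.mul x39975 (nat_lit 2)))
    (Nat.sub (Nat.add (Nat.add (Nat.add (Nat.add (Nat.add (Nat.add (Nat.add (Nat.add (Nat.add C x26857) x40465) x39817) x39925) x40033) x39997) x39973) x39981) x20297) x39979)
    (Nat.sub (Nat.add (Nat.add (Nat.add (Nat.add (Nat.add (Nat.add (Nat.add (Nat.add (Nat.add C x26859) x40467) x39819) x39927) x40035) x39999) x39975) x39979) x20299) x39981)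
    (Nat.add (Nat.add (Nat.add (Nat.add (Nat.add (Nat.add C x26867) x40475) x39827) x40043) x39971) x39991)
    (Nat.sub (Nat.add (Nat.add (Nat.add (Nat.add (Nat.add (Nat.add (Nat.add (Nat.add (Nat.add C x26869) x40477) x39829) x40045) x39973) x39997) x39989) x39993) x20309) x39991)
    (Nat.sub (Nat.add (Nat.add (Nat.add (Nat.add (Nat.add (Nat.add (Nat.add (Nat.add C x26871) x40479) x39831) x40047) x39975) x39999) x39991) x20311) (Nat.mul x39993 (nat_lit 4)))
    (Nat.add (Nat.add (Nat.add (Nat.add (Nat.add (Nat.add (Nat.add (Nat.add C x26875) x40483) x39835) x40051) x39979) x39991) x39999) x20315)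
    (Nat.sub (Nat.add (Nat.add (Nat.add (Nat.add (Nat.add (Nat.add (Nat.add (Nat.add (Nat.add C x26877) x40485) x39837) x40053) x39981) x39993) x40005) x39997) x20317) x39999)
    (Nat.add (Nat.add (Nat.add (Nat.add (Nat.add (Nat.add C x26883) x40491) x39843) x40059) x39999) x20323)
    (Nat.add (Nat.add (Nat.add (Nat.add (Nat.add (Nat.add C (Nat.mul x40019 (nat_lit 2))) x26897) x40505) x39965) x40025) x40021)
    (Nat.add (Nat.add (Nat.add (Nat.add (Nat.add (Nat.add C x26899) x40507) x39967) x40027) x40019) x20339)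
    (Nat.add (Nat.add (Nat.add (Nat.add (Nat.add (Nat.add C x26903) x40511) x39971) x40043) x40019) x40027)
    (Nat.add (Nat.add (Nat.add (Nat.add (Nat.add (Nat.add (Nat.add (Nat.add (Nat.add C x26905) x40513) x39973) x40045) x40021) x40033) x40025) x40029) x20345)
    (Nat.sub (Nat.add (Nat.add (Nat.add (Nat.add (Nat.add (Nat.add (Nat.add C x26907) x40515) x39975) x40047) x40035) x40027) x20347) (Nat.mul x40029 (nat_lit 2)))
    (Nat.sub (Nat.add (Nat.add (Nat.add (Nat.add (Nat.add (Nat.add (Nat.add C x26911) x40519) x39979) x40051) x40027) x40035) x20351) (Nat.mul x40033 (nat_lit 2)))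
    (Nat.sub (Nat.add (Nat.add (Nat.add (Nat.add (Nat.add (Nat.add (Nat.add C x26913) x40521) x39981) x40053) x40029) x40033) x20353) (Nat.mul x40035 (nat_lit 2)))
    (Nat.add (Nat.add (Nat.add (Nat.add (Nat.add (Nat.add C (Nat.mul x40043 (nat_lit 2))) x26921) x40529) x39989) x40025) x40045)
    (Nat.add (Nat.add (Nat.add (Nat.add (Nat.add (Nat.add (Nat.add (Nat.add (Nat.add C x40045) x26923) x40531) x39991) x40027) x40051) x40043) x40047) x20363)
    (Nat.sub (Nat.add (Nat.add (Nat.add (Nat.add (Nat.add (Nat.add (Nat.add C x26925) x40533) x39993) x40029) x40053) x40045) x20365) (Nat.mul x40047 (nat_lit 2)))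
    (Nat.add (Nat.add (Nat.add (Nat.add (Nat.add (Nat.add (Nat.add (Nat.add (Nat.add C x40051) x26929) x40537) x39997) x40033) x40069) x40045) x40053) x20369)
    (Nat.add (Nat.add (Nat.add (Nat.add (Nat.add (Nat.add (Nat.add (Nat.add (Nat.add C x26931) x40539) x39999) x40035) x40071) x40047) x40059) x40051) x20371)
    (Nat.add (Nat.add (Nat.add (Nat.add (Nat.add (Nat.add C x26937) x40545) x40005) x40077) x40053) x20377)
    (Nat.add (Nat.add (Nat.add (Nat.add (Nat.add (Nat.add C (Nat.mul x40069 (nat_lit 2))) x26947) x40555) x40051) x40071) x20387)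
    (Nat.add (Nat.add (Nat.add (Nat.add (Nat.add (Nat.add C x26949) x40557) x40053) x40077) x40069) x20389)
    (Nat.add (Nat.add (Nat.add (Nat.add (Nat.add (Nat.add C (Nat.mul x40077 (nat_lit 2))) x26955) x40563) x40059) x40071) x20395)
    (Nat.add (Nat.add (Nat.add (Nat.add (Nat.add C (Nat.mul x40121 (nat_lit 4))) x26999) x41579) x39635) x40139)
    (Nat.add (Nat.add (Nat.add (Nat.add (Nat.add (Nat.add (Nat.add (Nat.add C (Nat.mul x40139 (nat_lit 3))) x27017) x41597) x39653) x40193) x40121) x40157) x40145)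
    (Nat.add (Nat.add (Nat.add (Nat.add (Nat.add (Nat.add (Nat.add (Nat.add C (Nat.mul x40145 (nat_lit 2))) x27023) x41603) x39659) x40199) x40163) x40139) x40147)
    (Nat.add (Nat.add (Nat.add (Nat.add (Nat.add (Nat.add (Nat.add (Nat.add C (Nat.mul x40147 (nat_lit 2))) x27025) x41605) x39661) x40201) x40165) x40145) x20465)
    (Nat.add (Nat.add (Nat.add (Nat.add (Nat.add (Nat.add C x27035) x41615) x39671) x40211) x40139) x40163)
    (Nat.add (Nat.add (Nat.add (Nat.add (Nat.add (Nat.add (Nat.add (Nat.add (Nat.add C x40163) x27041) x41621) x39677) x40217) x40145) x40157) x40169) x40165)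
    (Nat.add (Nat.add (Nat.add (Nat.add (Nat.add (Nat.add (Nat.add (Nat.add C x27043) x41623) x39679) x40219) x40147) x40171) x40163) x20483)
    (Nat.add (Nat.add (Nat.add (Nat.add (Nat.add (Nat.add C x27047) x41627) x39683) x40223) x40163) x40171)
    (Nat.add (Nat.add (Nat.add (Nat.add (Nat.add (Nat.add (Nat.add (Nat.add (Nat.add C x40171) x27049) x41629) x39685) x40225) x40165) x40169) x40173) x20489)
    (Nat.add (Nat.add (Nat.add (Nat.add (Nat.add (Nat.add C x27051) x41631) x39687) x40227) x40171) x20491)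
    (Nat.add (Nat.add (Nat.add (Nat.add (Nat.add (Nat.add (Nat.add (Nat.add C (Nat.mul x40193 (nat_lit 2))) x27071) x41651) x39707) x40355) x40139) x40211) x40199)
    (Nat.add (Nat.add (Nat.add (Nat.add (Nat.add (Nat.add (Nat.add (Nat.add C x27077) x41657) x39713) x40361) x40145) x40217) x40193) x40201)
    (Nat.add (Nat.add (Nat.add (Nat.add (Nat.add (Nat.add (Nat.add (Nat.add C x27079) x41659) x39715) x40363) x40147) x40219) x40199) x20519)
    (Nat.add (Nat.add (Nat.add (Nat.add (Nat.add (Nat.add (Nat.add (Nat.add (Nat.add C x40211) x27089) x41669) x39725) x40373) x40157) x40265) x40193) x40217)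
    (Nat.add (Nat.add (Nat.add (Nat.add (Nat.add (Nat.add (Nat.add (Nat.add (Nat.add (Nat.add (Nat.add (Nat.add C x40217) x27095) x41675) x39731) x40379) x40163) x40271) x40199) x40235) x40211) x40223) x40219)
    (Nat.add (Nat.add (Nat.add (Nat.add (Nat.add (Nat.add (Nat.add (Nat.add (Nat.add (Nat.add (Nat.add C x27097) x41677) x39733) x40381) x40165) x40273) x40201) x40237) x40225) x40217) x20537)
    (Nat.sub (Nat.add (Nat.add (Nat.add (Nat.add (Nat.add (Nat.add (Nat.add (Nat.add (Nat.add C x27101) x41681) x39737) x40385) x40169) x40277) x40241) x40217) x40225) x40223)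
    (Nat.add (Nat.add (Nat.add (Nat.add (Nat.add (Nat.add (Nat.add (Nat.add (Nat.add (Nat.add (Nat.add C x27103) x41683) x39739) x40387) x40171) x40279) x40243) x40219) x40223) x40227) x20543)
    (Nat.sub (Nat.add (Nat.add (Nat.add (Nat.add (Nat.add (Nat.add (Nat.add (Nat.add (Nat.add C x27105) x41685) x39741) x40389) x40173) x40281) x40245) x40225) x20545) x40227)
    (Nat.add (Nat.add (Nat.add (Nat.add (Nat.add (Nat.add (Nat.add (Nat.add C x27113) x41693) x39749) x40397) x40289) x40217) x40241) x40237)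
    (Nat.sub (Nat.add (Nat.add (Nat.add (Nat.add (Nat.add (Nat.add (Nat.add (Nat.add (Nat.add C x27115) x41695) x39751) x40399) x40291) x40219) x40243) x40235) x20555) (Nat.mul x40237 (nat_lit 2)))
    (Nat.add (Nat.add (Nat.add (Nat.add (Nat.add (Nat.add (Nat.add (Nat.add C x27119) x41699) x39755) x40403) x40295) x40223) x40235) x40243)
    (Nat.add (Nat.add (Nat.add (Nat.add (Nat.add (Nat.add (Nat.add (Nat.add (Nat.add (Nat.add (Nat.add C x27121) x41701) x39757) x40405) x40297) x40225) x40237) x40249) x40241) x40245) x20561)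
    (Nat.sub (Nat.add (Nat.add (Nat.add (Nat.add (Nat.add (Nat.add (Nat.add (Nat.add (Nat.add C x27123) x41703) x39759) x40407) x40299) x40227) x40251) x40243) x20563) (Nat.mul x40245 (nat_lit 2)))
    (Nat.add (Nat.add (Nat.add (Nat.add (Nat.add (Nat.add (Nat.add (Nat.add C x27127) x41707) x39763) x40411) x40303) x40243) x40251) x20567)
    (Nat.add (Nat.add (Nat.add (Nat.add (Nat.add (Nat.add (Nat.add (Nat.add C x27129) x41709) x39765) x40413) x40305) x40245) x40249) x20569)
    (Nat.add (Nat.add (Nat.add (Nat.add (Nat.add (Nat.add C x27143) x41723) x39779) x40427) x40211) x40271)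
    (Nat.sub (Nat.add (Nat.add (Nat.add (Nat.add (Nat.add (Nat.add (Nat.add (Nat.add (Nat.add C x27149) x41729) x39785) x40433) x40217) x40289) x40265) x40277) x40273) x40271)
    (Nat.sub (Nat.add (Nat.add (Nat.add (Nat.add (Nat.add (Nat.add (Nat.add (Nat.add (Nat.add C x27151) x41731) x39787) x40435) x40219) x40291) x40279) x40271) x20591) (Nat.mul x40273 (nat_lit 2)))
    (Nat.sub (Nat.add (Nat.add (Nat.add (Nat.add (Nat.add (Nat.add (Nat.add (Nat.add C x27155) x41735) x39791) x40439) x40223) x40295) x40271) x40279) (Nat.mul x40277 (nat_lit 4)))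
    (Nat.sub (Nat.add (Nat.add (Nat.add (Nat.add (Nat.add (Nat.add (Nat.add (Nat.add (Nat.add (Nat.add C x27157) x41737) x39793) x40441) x40225) x40297) x40273) x40277) x40281) x20597) (Nat.mul x40279 (nat_lit 3)))
    (Nat.sub (Nat.add (Nat.add (Nat.add (Nat.add (Nat.add (Nat.add (Nat.add (Nat.add C x27159) x41739) x39795) x40443) x40227) x40299) x40279) x20599) (Nat.mul x40281 (nat_lit 4)))
    (Nat.add (Nat.add (Nat.add (Nat.add (Nat.add (Nat.add (Nat.add (Nat.add C x27167) x41747) x39803) x40451) x40235) x40271) x40295) x40291)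
    (Nat.sub (Nat.add (Nat.add (Nat.add (Nat.add (Nat.add (Nat.add (Nat.add (Nat.add (Nat.add C x27169) x41749) x39805) x40453) x40237) x40273) x40297) x40289) x20609) (Nat.mul x40291 (nat_lit 2)))
    (Nat.sub (Nat.add (Nat.add (Nat.add (Nat.add (Nat.add (Nat.add (Nat.add (Nat.add (Nat.add C x27173) x41753) x39809) x40457) x40241) x40277) x40313) x40289) x40297) x40295)
    (Nat.sub (Nat.add (Nat.add (Nat.add (Nat.add (Nat.add (Nat.add (Nat.add (Nat.add (Nat.add (Nat.add (Nat.add (Nat.add C x27175) x41755) x39811) x40459) x40243) x40279) x40315) x40291) x40303) x40295) x40299) x20615) x40297)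
    (Nat.sub (Nat.add (Nat.add (Nat.add (Nat.add (Nat.add (Nat.add (Nat.add (Nat.add (Nat.add (Nat.add C x27177) x41757) x39813) x40461) x40245) x40281) x40317) x40305) x40297) x20617) (Nat.mul x40299 (nat_lit 3)))
    (Nat.sub (Nat.add (Nat.add (Nat.add (Nat.add (Nat.add (Nat.add (Nat.add (Nat.add (Nat.add C x27181) x41761) x39817) x40465) x40249) x40321) x40297) x40305) x20621) (Nat.mul x40303 (nat_lit 2)))
    (Nat.sub (Nat.add (Nat.add (Nat.add (Nat.add (Nat.add (Nat.add (Nat.add (Nat.add (Nat.add C x27183) x41763) x39819) x40467) x40251) x40323) x40299) x40303) x20623) (Nat.mul x40305 (nat_lit 2)))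
    (Nat.add (Nat.add (Nat.add (Nat.add (Nat.add (Nat.add C x27191) x41771) x39827) x40475) x40295) x40315)
    (Nat.sub (Nat.add (Nat.add (Nat.add (Nat.add (Nat.add (Nat.add (Nat.add (Nat.add (Nat.add C x27193) x41773) x39829) x40477) x40297) x40321) x40313) x40317) x20633) x40315)
    (Nat.sub (Nat.add (Nat.add (Nat.add (Nat.add (Nat.add (Nat.add (Nat.add (Nat.add C x27195) x41775) x39831) x40479) x40299) x40323) x40315) x20635) (Nat.mul x40317 (nat_lit 4)))
    (Nat.add (Nat.add (Nat.add (Nat.add (Nat.add (Nat.add (Nat.add (Nat.add C x27199) x41779) x39835) x40483) x40303) x40315) x40323) x20639)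
    (Nat.sub (Nat.add (Nat.add (Nat.add (Nat.add (Nat.add (Nat.add (Nat.add (Nat.add (Nat.add C x27201) x41781) x39837) x40485) x40305) x40317) x40329) x40321) x20641) x40323)
    (Nat.add (Nat.add (Nat.add (Nat.add (Nat.add (Nat.add C x27207) x41787) x39843) x40491) x40323) x20647)
    (Nat.add (Nat.add (Nat.add (Nat.add (Nat.add (Nat.add (Nat.add (Nat.add C (Nat.mul x40355 (nat_lit 3))) x27233) x41813) x39869) x40841) x40193) x40373) x40361)
    (Nat.add (Nat.add (Nat.add (Nat.add (Nat.add (Nat.add (Nat.add (Nat.add (Nat.add C x40361) x27239) x41819) x39875) x40847) x40199) x40379) x40355) x40363)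
    (Nat.add (Nat.add (Nat.add (Nat.add (Nat.add (Nat.add (Nat.add (Nat.add (Nat.add C x40363) x27241) x41821) x39877) x40849) x40201) x40381) x40361) x20681)
    (Nat.add (Nat.add (Nat.add (Nat.add (Nat.add (Nat.add (Nat.add (Nat.add (Nat.add C x40373) x27251) x41831) x39887) x40859) x40211) x40427) x40355) x40379)
    (Nat.add (Nat.add (Nat.add (Nat.add (Nat.add (Nat.add (Nat.add (Nat.add (Nat.add (Nat.add (Nat.add (Nat.add C x40379) x27257) x41837) x39893) x40865) x40217) x40433) x40361) x40397) x40373) x40385) x40381)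
    (Nat.add (Nat.add (Nat.add (Nat.add (Nat.add (Nat.add (Nat.add (Nat.add (Nat.add (Nat.add (Nat.add C x27259) x41839) x39895) x40867) x40219) x40435) x40363) x40399) x40387) x40379) x20699)
    (Nat.sub (Nat.add (Nat.add (Nat.add (Nat.add (Nat.add (Nat.add (Nat.add (Nat.add (Nat.add C x27263) x41843) x39899) x40871) x40223) x40439) x40403) x40379) x40387) x40385)
    (Nat.add (Nat.add (Nat.add (Nat.add (Nat.add (Nat.add (Nat.add (Nat.add (Nat.add (Nat.add (Nat.add C x27265) x41845) x39901) x40873) x40225) x40441) x40405) x40381) x40385) x40389) x20705)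
    (Nat.sub (Nat.add (Nat.add (Nat.add (Nat.add (Nat.add (Nat.add (Nat.add (Nat.add (Nat.add C x27267) x41847) x39903) x40875) x40227) x40443) x40407) x40387) x20707) x40389)
    (Nat.sub (Nat.add (Nat.add (Nat.add (Nat.add (Nat.add (Nat.add (Nat.add (Nat.add (Nat.add C x27275) x41855) x39911) x40883) x40235) x40451) x40379) x40403) x40399) x40397)
    (Nat.sub (Nat.add (Nat.add (Nat.add (Nat.add (Nat.add (Nat.add (Nat.add (Nat.add (Nat.add (Nat.add C x27277) x41857) x39913) x40885) x40237) x40453) x40381) x40405) x40397) x20717) (Nat.mul x40399 (nat_lit 3)))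
    (Nat.sub (Nat.add (Nat.add (Nat.add (Nat.add (Nat.add (Nat.add (Nat.add (Nat.add (Nat.add C x27281) x41861) x39917) x40889) x40241) x40457) x40385) x40397) x40405) x40403)
    (Nat.sub (Nat.add (Nat.add (Nat.add (Nat.add (Nat.add (Nat.add (Nat.add (Nat.add (Nat.add (Nat.add (Nat.add (Nat.add C x27283) x41863) x39919) x40891) x40243) x40459) x40387) x40399) x40411) x40403) x40407) x20723) x40405)
    (Nat.sub (Nat.add (Nat.add (Nat.add (Nat.add (Nat.add (Nat.add (Nat.add (Nat.add (Nat.add (Nat.add C x27285) x41865) x39921) x40893) x40245) x40461) x40389) x40413) x40405) x20725) (Nat.mul x40407 (nat_lit 3)))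
    (Nat.sub (Nat.add (Nat.add (Nat.add (Nat.add (Nat.add (Nat.add (Nat.add (Nat.add (Nat.add C x27289) x41869) x39925) x40897) x40249) x40465) x40405) x40413) x20729) x40411)
    (Nat.sub (Nat.add (Nat.add (Nat.add (Nat.add (Nat.add (Nat.add (Nat.add (Nat.add (Nat.add C x27291) x41871) x39927) x40899) x40251) x40467) x40407) x40411) x20731) x40413)
    (Nat.add (Nat.add (Nat.add (Nat.add (Nat.add (Nat.add (Nat.add (Nat.add (Nat.add C (Nat.mul x40427 (nat_lit 2))) x27305) x41885) x39941) x40913) x40265) x40589) x40373) x40433)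
    (Nat.add (Nat.add (Nat.add (Nat.add (Nat.add (Nat.add (Nat.add (Nat.add (Nat.add (Nat.add (Nat.add (Nat.add C x40433) x27311) x41891) x39947) x40919) x40271) x40595) x40379) x40451) x40427) x40439) x40435)
    (Nat.add (Nat.add (Nat.add (Nat.add (Nat.add (Nat.add (Nat.add (Nat.add (Nat.add (Nat.add (Nat.add C x27313) x41893) x39949) x40921) x40273) x40597) x40381) x40453) x40441) x40433) x20753)
    (Nat.sub (Nat.add (Nat.add (Nat.add (Nat.add (Nat.add (Nat.add (Nat.add (Nat.add (Nat.add (Nat.add C x27317) x41897) x39953) x40925) x40277) x40601) x40385) x40457) x40433) x40441) (Nat.mul x40439 (nat_lit 2)))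
    (Nat.sub (Nat.add (Nat.add (Nat.add (Nat.add (Nat.add (Nat.add (Nat.add (Nat.add (Nat.add (Nat.add (Nat.add (Nat.add C x27319) x41899) x39955) x40927) x40279) x40603) x40387) x40459) x40435) x40439) x40443) x20759) x40441)
    (Nat.sub (Nat.add (Nat.add (Nat.add (Nat.add (Nat.add (Nat.add (Nat.add (Nat.add (Nat.add (Nat.add C x27321) x41901) x39957) x40929) x40281) x40605) x40389) x40461) x40441) x20761) (Nat.mul x40443 (nat_lit 2)))
    (Nat.add (Nat.add (Nat.add (Nat.add (Nat.add (Nat.add (Nat.add (Nat.add (Nat.add (Nat.add (Nat.add (Nat.add C x40451) x27329) x41909) x39965) x40937) x40289) x40613) x40397) x40505) x40433) x40457) x40453)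
    (Nat.sub (Nat.add (Nat.add (Nat.add (Nat.add (Nat.add (Nat.add (Nat.add (Nat.add (Nat.add (Nat.add (Nat.add (Nat.add C x27331) x41911) x39967) x40939) x40291) x40615) x40399) x40507) x40435) x40459) x40451) x20771) x40453)
    (Nat.add (Nat.add (Nat.add (Nat.add (Nat.add (Nat.add (Nat.add (Nat.add (Nat.add (Nat.add (Nat.add (Nat.add C x27335) x41915) x39971) x40943) x40295) x40619) x40403) x40511) x40439) x40475) x40451) x40459)
    (Nat.add (Nat.add (Nat.add (Nat.add (Nat.add (Nat.add (Nat.add (Nat.add (Nat.add (Nat.add (Nat.add (Nat.add (Nat.add (Nat.add (Nat.add C x27337) x41917) x39973) x40945) x40297) x40621) x40405) x40513) x40441) x40477) x40453) x40465) x40457) x40461) x20777)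
    (Nat.sub (Nat.add (Nat.add (Nat.add (Nat.add (Nat.add (Nat.add (Nat.add (Nat.add (Nat.add (Nat.add (Nat.add (Nat.add (Nat.add C x27339) x41919) x39975) x40947) x40299) x40623) x40407) x40515) x40443) x40479) x40467) x40459) x20779) (Nat.mul x40461 (nat_lit 2)))
    (Nat.sub (Nat.add (Nat.add (Nat.add (Nat.add (Nat.add (Nat.add (Nat.add (Nat.add (Nat.add (Nat.add (Nat.add (Nat.add C x27343) x41923) x39979) x40951) x40303) x40627) x40411) x40519) x40483) x40459) x40467) x20783) x40465)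
    (Nat.sub (Nat.add (Nat.add (Nat.add (Nat.add (Nat.add (Nat.add (Nat.add (Nat.add (Nat.add (Nat.add (Nat.add (Nat.add C x27345) x41925) x39981) x40953) x40305) x40629) x40413) x40521) x40485) x40461) x40465) x20785) x40467)
    (Nat.add (Nat.add (Nat.add (Nat.add (Nat.add (Nat.add (Nat.add (Nat.add (Nat.add C x27353) x41933) x39989) x40961) x40313) x40637) x40529) x40457) x40477)
    (Nat.sub (Nat.add (Nat.add (Nat.add (Nat.add (Nat.add (Nat.add (Nat.add (Nat.add (Nat.add (Nat.add (Nat.add (Nat.add C x27355) x41935) x39991) x40963) x40315) x40639) x40531) x40459) x40483) x40475) x40479) x20795) x40477)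
    (Nat.sub (Nat.add (Nat.add (Nat.add (Nat.add (Nat.add (Nat.add (Nat.add (Nat.add (Nat.add (Nat.add (Nat.add C x27357) x41937) x39993) x40965) x40317) x40641) x40533) x40461) x40485) x40477) x20797) (Nat.mul x40479 (nat_lit 4)))
    (Nat.add (Nat.add (Nat.add (Nat.add (Nat.add (Nat.add (Nat.add (Nat.add (Nat.add (Nat.add (Nat.add C x27361) x41941) x39997) x40969) x40321) x40645) x40537) x40465) x40477) x40485) x20801)
    (Nat.sub (Nat.add (Nat.add (Nat.add (Nat.add (Nat.add (Nat.add (Nat.add (Nat.add (Nat.add (Nat.add (Nat.add (Nat.add C x27363) x41943) x39999) x40971) x40323) x40647) x40539) x40467) x40479) x40491) x40483) x20803) x40485)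
    (Nat.add (Nat.add (Nat.add (Nat.add (Nat.add (Nat.add (Nat.add (Nat.add (Nat.add C x27369) x41949) x40005) x40977) x40329) x40653) x40545) x40485) x20809)
    (Nat.add (Nat.add (Nat.add (Nat.add (Nat.add (Nat.add (Nat.add (Nat.add (Nat.add C x40505) x27383) x41963) x40019) x40991) x40667) x40451) x40511) x40507)
    (Nat.sub (Nat.add (Nat.add (Nat.add (Nat.add (Nat.add (Nat.add (Nat.add (Nat.add (Nat.add C x27385) x41965) x40021) x40993) x40669) x40453) x40513) x40505) x20825) x40507)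
    (Nat.sub (Nat.add (Nat.add (Nat.add (Nat.add (Nat.add (Nat.add (Nat.add (Nat.add (Nat.add C x27389) x41969) x40025) x40997) x40673) x40457) x40529) x40505) x40513) x40511)
    (Nat.sub (Nat.add (Nat.add (Nat.add (Nat.add (Nat.add (Nat.add (Nat.add (Nat.add (Nat.add (Nat.add (Nat.add (Nat.add C x27391) x41971) x40027) x40999) x40675) x40459) x40531) x40507) x40519) x40511) x40515) x20831) x40513)
    (Nat.sub (Nat.add (Nat.add (Nat.add (Nat.add (Nat.add (Nat.add (Nat.add (Nat.add (Nat.add (Nat.add C x27393) x41973) x40029) x41001) x40677) x40461) x40533) x40521) x40513) x20833) (Nat.mul x40515 (nat_lit 3)))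
    (Nat.sub (Nat.add (Nat.add (Nat.add (Nat.add (Nat.add (Nat.add (Nat.add (Nat.add (Nat.add (Nat.add C x27397) x41977) x40033) x41005) x40681) x40465) x40537) x40513) x40521) x20837) (Nat.mul x40519 (nat_lit 3)))
    (Nat.sub (Nat.add (Nat.add (Nat.add (Nat.add (Nat.add (Nat.add (Nat.add (Nat.add (Nat.add (Nat.add C x27399) x41979) x40035) x41007) x40683) x40467) x40539) x40515) x40519) x20839) (Nat.mul x40521 (nat_lit 3)))
    (Nat.add (Nat.add (Nat.add (Nat.add (Nat.add (Nat.add (Nat.add (Nat.add (Nat.add C x40529) x27407) x41987) x40043) x41015) x40691) x40475) x40511) x40531)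
    (Nat.add (Nat.add (Nat.add (Nat.add (Nat.add (Nat.add (Nat.add (Nat.add (Nat.add (Nat.add (Nat.add C x27409) x41989) x40045) x41017) x40693) x40477) x40513) x40537) x40529) x40533) x20849)
    (Nat.sub (Nat.add (Nat.add (Nat.add (Nat.add (Nat.add (Nat.add (Nat.add (Nat.add (Nat.add (Nat.add C x27411) x41991) x40047) x41019) x40695) x40479) x40515) x40539) x40531) x20851) (Nat.mul x40533 (nat_lit 3)))
    (Nat.add (Nat.add (Nat.add (Nat.add (Nat.add (Nat.add (Nat.add (Nat.add (Nat.add (Nat.add (Nat.add C x27415) x41995) x40051) x41023) x40699) x40483) x40519) x40555) x40531) x40539) x20855)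
    (Nat.sub (Nat.add (Nat.add (Nat.add (Nat.add (Nat.add (Nat.add (Nat.add (Nat.add (Nat.add (Nat.add (Nat.add (Nat.add C x27417) x41997) x40053) x41025) x40701) x40485) x40521) x40557) x40533) x40545) x40537) x20857) x40539)
    (Nat.sub (Nat.add (Nat.add (Nat.add (Nat.add (Nat.add (Nat.add (Nat.add (Nat.add (Nat.add C x27423) x42003) x40059) x41031) x40707) x40491) x40563) x40539) x20863) x40545)
    (Nat.add (Nat.add (Nat.add (Nat.add (Nat.add (Nat.add (Nat.add (Nat.add (Nat.add C x40555) x27433) x42013) x40069) x41041) x40717) x40537) x40557) x20873)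
    (Nat.sub (Nat.add (Nat.add (Nat.add (Nat.add (Nat.add (Nat.add (Nat.add (Nat.add (Nat.add C x27435) x42015) x40071) x41043) x40719) x40539) x40563) x40555) x20875) x40557)
    (Nat.add (Nat.add (Nat.add (Nat.add (Nat.add (Nat.add (Nat.add (Nat.add (Nat.add C x40563) x27441) x42021) x40077) x41049) x40725) x40545) x40557) x20881)
    (Nat.add (Nat.add (Nat.add (Nat.add (Nat.add (Nat.add C (Nat.mul x40589 (nat_lit 2))) x27467) x42047) x41075) x40427) x40595)
    (Nat.add (Nat.add (Nat.add (Nat.add (Nat.add (Nat.add (Nat.add (Nat.add (Nat.add C x40595) x27473) x42053) x41081) x40433) x40613) x40589) x40601) x40597)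
    (Nat.add (Nat.add (Nat.add (Nat.add (Nat.add (Nat.add (Nat.add (Nat.add C x27475) x42055) x41083) x40435) x40615) x40603) x40595) x20915)
    (Nat.sub (Nat.add (Nat.add (Nat.add (Nat.add (Nat.add (Nat.add (Nat.add C x27479) x42059) x41087) x40439) x40619) x40595) x40603) (Nat.mul x40601 (nat_lit 2)))
    (Nat.sub (Nat.add (Nat.add (Nat.add (Nat.add (Nat.add (Nat.add (Nat.add (Nat.add (Nat.add C x27481) x42061) x41089) x40441) x40621) x40597) x40601) x40605) x20921) x40603)
    (Nat.sub (Nat.add (Nat.add (Nat.add (Nat.add (Nat.add (Nat.add (Nat.add C x27483) x42063) x41091) x40443) x40623) x40603) x20923) (Nat.mul x40605 (nat_lit 2)))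
    (Nat.add (Nat.add (Nat.add (Nat.add (Nat.add (Nat.add (Nat.add (Nat.add C x27491) x42071) x41099) x40451) x40667) x40595) x40619) x40615)
    (Nat.sub (Nat.add (Nat.add (Nat.add (Nat.add (Nat.add (Nat.add (Nat.add (Nat.add (Nat.add C x27493) x42073) x41101) x40453) x40669) x40597) x40621) x40613) x20933) (Nat.mul x40615 (nat_lit 2)))
    (Nat.sub (Nat.add (Nat.add (Nat.add (Nat.add (Nat.add (Nat.add (Nat.add (Nat.add (Nat.add C x27497) x42077) x41105) x40457) x40673) x40601) x40637) x40613) x40621) x40619)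
    (Nat.sub (Nat.add (Nat.add (Nat.add (Nat.add (Nat.add (Nat.add (Nat.add (Nat.add (Nat.add (Nat.add (Nat.add (Nat.add C x27499) x42079) x41107) x40459) x40675) x40603) x40639) x40615) x40627) x40619) x40623) x20939) x40621)
    (Nat.sub (Nat.add (Nat.add (Nat.add (Nat.add (Nat.add (Nat.add (Nat.add (Nat.add (Nat.add (Nat.add C x27501) x42081) x41109) x40461) x40677) x40605) x40641) x40629) x40621) x20941) (Nat.mul x40623 (nat_lit 3)))
    (Nat.sub (Nat.add (Nat.add (Nat.add (Nat.add (Nat.add (Nat.add (Nat.add (Nat.add (Nat.add C x27505) x42085) x41113) x40465) x40681) x40645) x40621) x40629) x20945) (Nat.mul x40627 (nat_lit 2)))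
    (Nat.sub (Nat.add (Nat.add (Nat.add (Nat.add (Nat.add (Nat.add (Nat.add (Nat.add (Nat.add C x27507) x42087) x41115) x40467) x40683) x40647) x40623) x40627) x20947) (Nat.mul x40629 (nat_lit 2)))
    (Nat.sub (Nat.add (Nat.add (Nat.add (Nat.add (Nat.add (Nat.add (Nat.add C x27515) x42095) x41123) x40475) x40691) x40619) x40639) (Nat.mul x40637 (nat_lit 2)))
    (Nat.sub (Nat.add (Nat.add (Nat.add (Nat.add (Nat.add (Nat.add (Nat.add (Nat.add (Nat.add (Nat.add C x27517) x42097) x41125) x40477) x40693) x40621) x40645) x40637) x40641) x20957) (Nat.mul x40639 (nat_lit 3)))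
    (Nat.sub (Nat.add (Nat.add (Nat.add (Nat.add (Nat.add (Nat.add (Nat.add (Nat.add (Nat.add C x27519) x42099) x41127) x40479) x40695) x40623) x40647) x40639) x20959) (Nat.mul x40641 (nat_lit 6)))
    (Nat.sub (Nat.add (Nat.add (Nat.add (Nat.add (Nat.add (Nat.add (Nat.add (Nat.add (Nat.add C x27523) x42103) x41131) x40483) x40699) x40627) x40639) x40647) x20963) (Nat.mul x40645 (nat_lit 2)))
    (Nat.sub (Nat.add (Nat.add (Nat.add (Nat.add (Nat.add (Nat.add (Nat.add (Nat.add (Nat.add (Nat.add C x27525) x42105) x41133) x40485) x40701) x40629) x40641) x40653) x40645) x20965) (Nat.mul x40647 (nat_lit 3)))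
    (Nat.sub (Nat.add (Nat.add (Nat.add (Nat.add (Nat.add (Nat.add (Nat.add C x27531) x42111) x41139) x40491) x40707) x40647) x20971) (Nat.mul x40653 (nat_lit 2)))
    (Nat.add (Nat.add (Nat.add (Nat.add (Nat.add (Nat.add (Nat.add (Nat.add C (Nat.mul x40667 (nat_lit 2))) x27545) x42125) x41153) x40505) x40613) x40673) x40669)
    (Nat.add (Nat.add (Nat.add (Nat.add (Nat.add (Nat.add (Nat.add (Nat.add C x27547) x42127) x41155) x40507) x40615) x40675) x40667) x20987)
    (Nat.add (Nat.add (Nat.add (Nat.add (Nat.add (Nat.add (Nat.add (Nat.add C x27551) x42131) x41159) x40511) x40619) x40691) x40667) x40675)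
    (Nat.add (Nat.add (Nat.add (Nat.add (Nat.add (Nat.add (Nat.add (Nat.add (Nat.add (Nat.add (Nat.add C x27553) x42133) x41161) x40513) x40621) x40693) x40669) x40681) x40673) x40677) x20993)
    (Nat.sub (Nat.add (Nat.add (Nat.add (Nat.add (Nat.add (Nat.add (Nat.add (Nat.add (Nat.add C x27555) x42135) x41163) x40515) x40623) x40695) x40683) x40675) x20995) (Nat.mul x40677 (nat_lit 2)))
    (Nat.sub (Nat.add (Nat.add (Nat.add (Nat.add (Nat.add (Nat.add (Nat.add (Nat.add (Nat.add C x27559) x42139) x41167) x40519) x40627) x40699) x40675) x40683) x20999) (Nat.mul x40681 (nat_lit 2)))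
    (Nat.sub (Nat.add (Nat.add (Nat.add (Nat.add (Nat.add (Nat.add (Nat.add (Nat.add (Nat.add C x27561) x42141) x41169) x40521) x40629) x40701) x40677) x40681) x21001) (Nat.mul x40683 (nat_lit 2)))
    (Nat.add (Nat.add (Nat.add (Nat.add (Nat.add (Nat.add (Nat.add (Nat.add (Nat.add C x40691) x27569) x42149) x41177) x40529) x40637) x40745) x40673) x40693)
    (Nat.add (Nat.add (Nat.add (Nat.add (Nat.add (Nat.add (Nat.add (Nat.add (Nat.add (Nat.add (Nat.add C x27571) x42151) x41179) x40531) x40639) x40747) x40675) x40699) x40691) x40695) x21011)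
    (Nat.sub (Nat.add (Nat.add (Nat.add (Nat.add (Nat.add (Nat.add (Nat.add (Nat.add (Nat.add (Nat.add C x27573) x42153) x41181) x40533) x40641) x40749) x40677) x40701) x40693) x21013) (Nat.mul x40695 (nat_lit 3)))
    (Nat.add (Nat.add (Nat.add (Nat.add (Nat.add (Nat.add (Nat.add (Nat.add (Nat.add (Nat.add (Nat.add C x27577) x42157) x41185) x40537) x40645) x40753) x40681) x40717) x40693) x40701) x21017)
    (Nat.sub (Nat.add (Nat.add (Nat.add (Nat.add (Nat.add (Nat.add (Nat.add (Nat.add (Nat.add (Nat.add (Nat.add (Nat.add C x27579) x42159) x41187) x40539) x40647) x40755) x40683) x40719) x40695) x40707) x40699) x21019) x40701)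
    (Nat.sub (Nat.add (Nat.add (Nat.add (Nat.add (Nat.add (Nat.add (Nat.add (Nat.add (Nat.add C x27585) x42165) x41193) x40545) x40653) x40761) x40725) x40701) x21025) x40707)
    (Nat.add (Nat.add (Nat.add (Nat.add (Nat.add (Nat.add (Nat.add (Nat.add C x27595) x42175) x41203) x40555) x40771) x40699) x40719) x21035)
    (Nat.sub (Nat.add (Nat.add (Nat.add (Nat.add (Nat.add (Nat.add (Nat.add (Nat.add (Nat.add C x27597) x42177) x41205) x40557) x40773) x40701) x40725) x40717) x21037) (Nat.mul x40719 (nat_lit 2)))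
    (Nat.add (Nat.add (Nat.add (Nat.add (Nat.add (Nat.add (Nat.add (Nat.add C x27603) x42183) x41211) x40563) x40779) x40707) x40719) x21043)
    (Nat.add (Nat.add (Nat.add (Nat.add (Nat.add (Nat.add C (Nat.mul x40745 (nat_lit 2))) x27623) x42203) x41231) x40691) x40747)
    (Nat.add (Nat.add (Nat.add (Nat.add (Nat.add (Nat.add (Nat.add (Nat.add (Nat.add C x40747) x27625) x42205) x41233) x40693) x40753) x40745) x40749) x21065)
    (Nat.sub (Nat.add (Nat.add (Nat.add (Nat.add (Nat.add (Nat.add (Nat.add C x27627) x42207) x41235) x40695) x40755) x40747) x21067) (Nat.mul x40749 (nat_lit 2)))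
    (Nat.add (Nat.add (Nat.add (Nat.add (Nat.add (Nat.add (Nat.add (Nat.add C x27631) x42211) x41239) x40699) x40771) x40747) x40755) x21071)
    (Nat.sub (Nat.add (Nat.add (Nat.add (Nat.add (Nat.add (Nat.add (Nat.add (Nat.add (Nat.add C x27633) x42213) x41241) x40701) x40773) x40749) x40761) x40753) x21073) x40755)
    (Nat.sub (Nat.add (Nat.add (Nat.add (Nat.add (Nat.add (Nat.add (Nat.add C x27639) x42219) x41247) x40707) x40779) x40755) x21079) (Nat.mul x40761 (nat_lit 2)))
    (Nat.add (Nat.add (Nat.add (Nat.add (Nat.add (Nat.add (Nat.add (Nat.add C (Nat.mul x40771 (nat_lit 2))) x27649) x42229) x41257) x40717) x40753) x40773) x21089)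
    (Nat.add (Nat.add (Nat.add (Nat.add (Nat.add (Nat.add (Nat.add (Nat.add C x27651) x42231) x41259) x40719) x40755) x40779) x40771) x21091)
    (Nat.add (Nat.add (Nat.add (Nat.add (Nat.add (Nat.add (Nat.add (Nat.add (Nat.add C x40779) x27657) x42237) x41265) x40725) x40761) x40797) x40773) x21097)
    (Nat.add (Nat.add (Nat.add (Nat.add (Nat.add (Nat.add C (Nat.mul x40797 (nat_lit 2))) x27675) x42255) x41283) x40779) x21115)
    (Nat.add (Nat.add (Nat.add (Nat.add (Nat.add (Nat.add C (Nat.mul x40841 (nat_lit 2))) x27719) x42299) x40355) x40859) x40847)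
    (Nat.add (Nat.add (Nat.add (Nat.add (Nat.add (Nat.add C x27725) x42305) x40361) x40865) x40841) x40849)
    (Nat.add (Nat.add (Nat.add (Nat.add (Nat.add (Nat.add C x27727) x42307) x40363) x40867) x40847) x21167)
    (Nat.add (Nat.add (Nat.add (Nat.add (Nat.add (Nat.add C x27737) x42317) x40373) x40913) x40841) x40865)
    (Nat.add (Nat.add (Nat.add (Nat.add (Nat.add (Nat.add (Nat.add (Nat.add (Nat.add C x27743) x42323) x40379) x40919) x40847) x40883) x40859) x40871) x40867)
    (Nat.sub (Nat.add (Nat.add (Nat.add (Nat.add (Nat.add (Nat.add (Nat.add (Nat.add (Nat.add C x27745) x42325) x40381) x40921) x40849) x40885) x40873) x40865) x21185) x40867)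
    (Nat.sub (Nat.add (Nat.add (Nat.add (Nat.add (Nat.add (Nat.add (Nat.add C x27749) x42329) x40385) x40925) x40889) x40865) x40873) (Nat.mul x40871 (nat_lit 2)))
    (Nat.sub (Nat.add (Nat.add (Nat.add (Nat.add (Nat.add (Nat.add (Nat.add (Nat.add (Nat.add C x27751) x42331) x40387) x40927) x40891) x40867) x40871) x40875) x21191) x40873)
    (Nat.sub (Nat.add (Nat.add (Nat.add (Nat.add (Nat.add (Nat.add (Nat.add C x27753) x42333) x40389) x40929) x40893) x40873) x21193) (Nat.mul x40875 (nat_lit 2)))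
    (Nat.sub (Nat.add (Nat.add (Nat.add (Nat.add (Nat.add (Nat.add (Nat.add C x27761) x42341) x40397) x40937) x40865) x40889) x40885) (Nat.mul x40883 (nat_lit 2)))
    (Nat.sub (Nat.add (Nat.add (Nat.add (Nat.add (Nat.add (Nat.add (Nat.add (Nat.add C x27763) x42343) x40399) x40939) x40867) x40891) x40883) x21203) (Nat.mul x40885 (nat_lit 4)))
    (Nat.sub (Nat.add (Nat.add (Nat.add (Nat.add (Nat.add (Nat.add (Nat.add C x27767) x42347) x40403) x40943) x40871) x40883) x40891) (Nat.mul x40889 (nat_lit 2)))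
    (Nat.sub (Nat.add (Nat.add (Nat.add (Nat.add (Nat.add (Nat.add (Nat.add (Nat.add (Nat.add (Nat.add C x27769) x42349) x40405) x40945) x40873) x40885) x40897) x40889) x40893) x21209) (Nat.mul x40891 (nat_lit 2)))
    (Nat.sub (Nat.add (Nat.add (Nat.add (Nat.add (Nat.add (Nat.add (Nat.add (Nat.add C x27771) x42351) x40407) x40947) x40875) x40899) x40891) x21211) (Nat.mul x40893 (nat_lit 4)))
    (Nat.sub (Nat.add (Nat.add (Nat.add (Nat.add (Nat.add (Nat.add (Nat.add C x27775) x42355) x40411) x40951) x40891) x40899) x21215) (Nat.mul x40897 (nat_lit 2)))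
    (Nat.sub (Nat.add (Nat.add (Nat.add (Nat.add (Nat.add (Nat.add (Nat.add C x27777) x42357) x40413) x40953) x40893) x40897) x21217) (Nat.mul x40899 (nat_lit 2)))
    (Nat.add (Nat.add (Nat.add (Nat.add (Nat.add (Nat.add C x27791) x42371) x40427) x41075) x40859) x40919)
    (Nat.sub (Nat.add (Nat.add (Nat.add (Nat.add (Nat.add (Nat.add (Nat.add (Nat.add (Nat.add C x27797) x42377) x40433) x41081) x40865) x40937) x40913) x40925) x40921) x40919)
    (Nat.sub (Nat.add (Nat.add (Nat.add (Nat.add (Nat.add (Nat.add (Nat.add (Nat.add (Nat.add C x27799) x42379) x40435) x41083) x40867) x40939) x40927) x40919) x21239) (Nat.mul x40921 (nat_lit 2)))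
    (Nat.sub (Nat.add (Nat.add (Nat.add (Nat.add (Nat.add (Nat.add (Nat.add (Nat.add C x27803) x42383) x40439) x41087) x40871) x40943) x40919) x40927) (Nat.mul x40925 (nat_lit 4)))
    (Nat.sub (Nat.add (Nat.add (Nat.add (Nat.add (Nat.add (Nat.add (Nat.add (Nat.add (Nat.add (Nat.add C x27805) x42385) x40441) x41089) x40873) x40945) x40921) x40925) x40929) x21245) (Nat.mul x40927 (nat_lit 3)))
    (Nat.sub (Nat.add (Nat.add (Nat.add (Nat.add (Nat.add (Nat.add (Nat.add (Nat.add C x27807) x42387) x40443) x41091) x40875) x40947) x40927) x21247) (Nat.mul x40929 (nat_lit 4)))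
    (Nat.sub (Nat.add (Nat.add (Nat.add (Nat.add (Nat.add (Nat.add (Nat.add (Nat.add (Nat.add C x27815) x42395) x40451) x41099) x40883) x40991) x40919) x40943) x40939) x40937)
    (Nat.sub (Nat.add (Nat.add (Nat.add (Nat.add (Nat.add (Nat.add (Nat.add (Nat.add (Nat.add (Nat.add C x27817) x42397) x40453) x41101) x40885) x40993) x40921) x40945) x40937) x21257) (Nat.mul x40939 (nat_lit 3)))
    (Nat.sub (Nat.add (Nat.add (Nat.add (Nat.add (Nat.add (Nat.add (Nat.add (Nat.add (Nat.add (Nat.add C x27821) x42401) x40457) x41105) x40889) x40997) x40925) x40961) x40937) x40945) (Nat.mul x40943 (nat_lit 2)))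
    (Nat.sub (Nat.add (Nat.add (Nat.add (Nat.add (Nat.add (Nat.add (Nat.add (Nat.add (Nat.add (Nat.add (Nat.add (Nat.add (Nat.add C x27823) x42403) x40459) x41107) x40891) x40999) x40927) x40963) x40939) x40951) x40943) x40947) x21263) (Nat.mul x40945 (nat_lit 2)))
    (Nat.sub (Nat.add (Nat.add (Nat.add (Nat.add (Nat.add (Nat.add (Nat.add (Nat.add (Nat.add (Nat.add (Nat.add C x27825) x42405) x40461) x41109) x40893) x41001) x40929) x40965) x40953) x40945) x21265) (Nat.mul x40947 (nat_lit 4)))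
    (Nat.sub (Nat.add (Nat.add (Nat.add (Nat.add (Nat.add (Nat.add (Nat.add (Nat.add (Nat.add (Nat.add C x27829) x42409) x40465) x41113) x40897) x41005) x40969) x40945) x40953) x21269) (Nat.mul x40951 (nat_lit 3)))
    (Nat.sub (Nat.add (Nat.add (Nat.add (Nat.add (Nat.add (Nat.add (Nat.add (Nat.add (Nat.add (Nat.add C x27831) x42411) x40467) x41115) x40899) x41007) x40971) x40947) x40951) x21271) (Nat.mul x40953 (nat_lit 3)))
    (Nat.sub (Nat.add (Nat.add (Nat.add (Nat.add (Nat.add (Nat.add (Nat.add C x27839) x42419) x40475) x41123) x41015) x40943) x40963) (Nat.mul x40961 (nat_lit 2)))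
    (Nat.sub (Nat.add (Nat.add (Nat.add (Nat.add (Nat.add (Nat.add (Nat.add (Nat.add (Nat.add (Nat.add C x27841) x42421) x40477) x41125) x41017) x40945) x40969) x40961) x40965) x21281) (Nat.mul x40963 (nat_lit 3)))
    (Nat.sub (Nat.add (Nat.add (Nat.add (Nat.add (Nat.add (Nat.add (Nat.add (Nat.add (Nat.add C x27843) x42423) x40479) x41127) x41019) x40947) x40971) x40963) x21283) (Nat.mul x40965 (nat_lit 6)))
    (Nat.sub (Nat.add (Nat.add (Nat.add (Nat.add (Nat.add (Nat.add (Nat.add (Nat.add (Nat.add C x27847) x42427) x40483) x41131) x41023) x40951) x40963) x40971) x21287) (Nat.mul x40969 (nat_lit 2)))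
    (Nat.sub (Nat.add (Nat.add (Nat.add (Nat.add (Nat.add (Nat.add (Nat.add (Nat.add (Nat.add (Nat.add C x27849) x42429) x40485) x41133) x41025) x40953) x40965) x40977) x40969) x21289) (Nat.mul x40971 (nat_lit 3)))
    (Nat.sub (Nat.add (Nat.add (Nat.add (Nat.add (Nat.add (Nat.add (Nat.add C x27855) x42435) x40491) x41139) x41031) x40971) x21295) (Nat.mul x40977 (nat_lit 2)))
    (Nat.sub (Nat.add (Nat.add (Nat.add (Nat.add (Nat.add (Nat.add (Nat.add C x27869) x42449) x40505) x41153) x40937) x40997) x40993) (Nat.mul x40991 (nat_lit 2)))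
    (Nat.sub (Nat.add (Nat.add (Nat.add (Nat.add (Nat.add (Nat.add (Nat.add (Nat.add C x27871) x42451) x40507) x41155) x40939) x40999) x40991) x21311) (Nat.mul x40993 (nat_lit 4)))
    (Nat.sub (Nat.add (Nat.add (Nat.add (Nat.add (Nat.add (Nat.add (Nat.add (Nat.add C x27875) x42455) x40511) x41159) x40943) x41015) x40991) x40999) (Nat.mul x40997 (nat_lit 4)))
    (Nat.sub (Nat.add (Nat.add (Nat.add (Nat.add (Nat.add (Nat.add (Nat.add (Nat.add (Nat.add (Nat.add (Nat.add C x27877) x42457) x40513) x41161) x40945) x41017) x40993) x41005) x40997) x41001) x21317) (Nat.mul x40999 (nat_lit 4)))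
    (Nat.sub (Nat.add (Nat.add (Nat.add (Nat.add (Nat.add (Nat.add (Nat.add (Nat.add (Nat.add C x27879) x42459) x40515) x41163) x40947) x41019) x41007) x40999) x21319) (Nat.mul x41001 (nat_lit 6)))
    (Nat.sub (Nat.add (Nat.add (Nat.add (Nat.add (Nat.add (Nat.add (Nat.add (Nat.add (Nat.add C x27883) x42463) x40519) x41167) x40951) x41023) x40999) x41007) x21323) (Nat.mul x41005 (nat_lit 6)))
    (Nat.sub (Nat.add (Nat.add (Nat.add (Nat.add (Nat.add (Nat.add (Nat.add (Nat.add (Nat.add C x27885) x42465) x40521) x41169) x40953) x41025) x41001) x41005) x21325) (Nat.mul x41007 (nat_lit 6)))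
    (Nat.sub (Nat.add (Nat.add (Nat.add (Nat.add (Nat.add (Nat.add (Nat.add C x27893) x42473) x40529) x41177) x40961) x40997) x41017) (Nat.mul x41015 (nat_lit 2)))
    (Nat.sub (Nat.add (Nat.add (Nat.add (Nat.add (Nat.add (Nat.add (Nat.add (Nat.add (Nat.add (Nat.add C x27895) x42475) x40531) x41179) x40963) x40999) x41023) x41015) x41019) x21335) (Nat.mul x41017 (nat_lit 3)))
    (Nat.sub (Nat.add (Nat.add (Nat.add (Nat.add (Nat.add (Nat.add (Nat.add (Nat.add (Nat.add C x27897) x42477) x40533) x41181) x40965) x41001) x41025) x41017) x21337) (Nat.mul x41019 (nat_lit 6)))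
    (Nat.sub (Nat.add (Nat.add (Nat.add (Nat.add (Nat.add (Nat.add (Nat.add (Nat.add (Nat.add (Nat.add C x27901) x42481) x40537) x41185) x40969) x41005) x41041) x41017) x41025) x21341) (Nat.mul x41023 (nat_lit 3)))
    (Nat.sub (Nat.add (Nat.add (Nat.add (Nat.add (Nat.add (Nat.add (Nat.add (Nat.add (Nat.add (Nat.add (Nat.add C x27903) x42483) x40539) x41187) x40971) x41007) x41043) x41019) x41031) x41023) x21343) (Nat.mul x41025 (nat_lit 4)))
    (Nat.sub (Nat.add (Nat.add (Nat.add (Nat.add (Nat.add (Nat.add (Nat.add (Nat.add C x27909) x42489) x40545) x41193) x40977) x41049) x41025) x21349) (Nat.mul x41031 (nat_lit 4)))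
    (Nat.sub (Nat.add (Nat.add (Nat.add (Nat.add (Nat.add (Nat.add (Nat.add C x27919) x42499) x40555) x41203) x41023) x41043) x21359) (Nat.mul x41041 (nat_lit 2)))
    (Nat.sub (Nat.add (Nat.add (Nat.add (Nat.add (Nat.add (Nat.add (Nat.add (Nat.add C x27921) x42501) x40557) x41205) x41025) x41049) x41041) x21361) (Nat.mul x41043 (nat_lit 4)))
    (Nat.sub (Nat.add (Nat.add (Nat.add (Nat.add (Nat.add (Nat.add (Nat.add C x27927) x42507) x40563) x41211) x41031) x41043) x21367) (Nat.mul x41049 (nat_lit 2)))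
    (Nat.add (Nat.add (Nat.add (Nat.add (Nat.add (Nat.add C (Nat.mul x41075 (nat_lit 2))) x27953) x42533) x40589) x40913) x41081)
    (Nat.add (Nat.add (Nat.add (Nat.add (Nat.add (Nat.add (Nat.add (Nat.add (Nat.add C x41081) x27959) x42539) x40595) x40919) x41099) x41075) x41087) x41083)
    (Nat.add (Nat.add (Nat.add (Nat.add (Nat.add (Nat.add (Nat.add (Nat.add C x27961) x42541) x40597) x40921) x41101) x41089) x41081) x21401)
    (Nat.sub (Nat.add (Nat.add (Nat.add (Nat.add (Nat.add (Nat.add (Nat.add C x27965) x42545) x40601) x40925) x41105) x41081) x41089) (Nat.mul x41087 (nat_lit 2)))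
    (Nat.sub (Nat.add (Nat.add (Nat.add (Nat.add (Nat.add (Nat.add (Nat.add (Nat.add (Nat.add C x27967) x42547) x40603) x40927) x41107) x41083) x41087) x41091) x21407) x41089)
    (Nat.sub (Nat.add (Nat.add (Nat.add (Nat.add (Nat.add (Nat.add (Nat.add C x27969) x42549) x40605) x40929) x41109) x41089) x21409) (Nat.mul x41091 (nat_lit 2)))
    (Nat.add (Nat.add (Nat.add (Nat.add (Nat.add (Nat.add (Nat.add (Nat.add C x27977) x42557) x40613) x40937) x41153) x41081) x41105) x41101)
    (Nat.sub (Nat.add (Nat.add (Nat.add (Nat.add (Nat.add (Nat.add (Nat.add (Nat.add (Nat.add C x27979) x42559) x40615) x40939) x41155) x41083) x41107) x41099) x21419) (Nat.mul x41101 (nat_lit 2)))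
    (Nat.sub (Nat.add (Nat.add (Nat.add (Nat.add (Nat.add (Nat.add (Nat.add (Nat.add (Nat.add C x27983) x42563) x40619) x40943) x41159) x41087) x41123) x41099) x41107) x41105)
    (Nat.sub (Nat.add (Nat.add (Nat.add (Nat.add (Nat.add (Nat.add (Nat.add (Nat.add (Nat.add (Nat.add (Nat.add (Nat.add C x27985) x42565) x40621) x40945) x41161) x41089) x41125) x41101) x41113) x41105) x41109) x21425) x41107)
    (Nat.sub (Nat.add (Nat.add (Nat.add (Nat.add (Nat.add (Nat.add (Nat.add (Nat.add (Nat.add (Nat.add C x27987) x42567) x40623) x40947) x41163) x41091) x41127) x41115) x41107) x21427) (Nat.mul x41109 (nat_lit 3)))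
    (Nat.sub (Nat.add (Nat.add (Nat.add (Nat.add (Nat.add (Nat.add (Nat.add (Nat.add (Nat.add C x27991) x42571) x40627) x40951) x41167) x41131) x41107) x41115) x21431) (Nat.mul x41113 (nat_lit 2)))
    (Nat.sub (Nat.add (Nat.add (Nat.add (Nat.add (Nat.add (Nat.add (Nat.add (Nat.add (Nat.add C x27993) x42573) x40629) x40953) x41169) x41133) x41109) x41113) x21433) (Nat.mul x41115 (nat_lit 2)))
    (Nat.sub (Nat.add (Nat.add (Nat.add (Nat.add (Nat.add (Nat.add (Nat.add C x28001) x42581) x40637) x40961) x41177) x41105) x41125) (Nat.mul x41123 (nat_lit 2)))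
    (Nat.sub (Nat.add (Nat.add (Nat.add (Nat.add (Nat.add (Nat.add (Nat.add (Nat.add (Nat.add (Nat.add C x28003) x42583) x40639) x40963) x41179) x41107) x41131) x41123) x41127) x21443) (Nat.mul x41125 (nat_lit 3)))
    (Nat.sub (Nat.add (Nat.add (Nat.add (Nat.add (Nat.add (Nat.add (Nat.add (Nat.add (Nat.add C x28005) x42585) x40641) x40965) x41181) x41109) x41133) x41125) x21445) (Nat.mul x41127 (nat_lit 6)))
    (Nat.sub (Nat.add (Nat.add (Nat.add (Nat.add (Nat.add (Nat.add (Nat.add (Nat.add (Nat.add C x28009) x42589) x40645) x40969) x41185) x41113) x41125) x41133) x21449) (Nat.mul x41131 (nat_lit 2)))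
    (Nat.sub (Nat.add (Nat.add (Nat.add (Nat.add (Nat.add (Nat.add (Nat.add (Nat.add (Nat.add (Nat.add C x28011) x42591) x40647) x40971) x41187) x41115) x41127) x41139) x41131) x21451) (Nat.mul x41133 (nat_lit 3)))
    (Nat.sub (Nat.add (Nat.add (Nat.add (Nat.add (Nat.add (Nat.add (Nat.add C x28017) x42597) x40653) x40977) x41193) x41133) x21457) (Nat.mul x41139 (nat_lit 2)))
    (Nat.add (Nat.add (Nat.add (Nat.add (Nat.add (Nat.add (Nat.add (Nat.add (Nat.add C x41153) x28031) x42611) x40667) x40991) x41315) x41099) x41159) x41155)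
    (Nat.sub (Nat.add (Nat.add (Nat.add (Nat.add (Nat.add (Nat.add (Nat.add (Nat.add (Nat.add C x28033) x42613) x40669) x40993) x41317) x41101) x41161) x41153) x21473) x41155)
    (Nat.sub (Nat.add (Nat.add (Nat.add (Nat.add (Nat.add (Nat.add (Nat.add (Nat.add (Nat.add C x28037) x42617) x40673) x40997) x41321) x41105) x41177) x41153) x41161) x41159)
    (Nat.sub (Nat.add (Nat.add (Nat.add (Nat.add (Nat.add (Nat.add (Nat.add (Nat.add (Nat.add (Nat.add (Nat.add (Nat.add C x28039) x42619) x40675) x40999) x41323) x41107) x41179) x41155) x41167) x41159) x41163) x21479) x41161)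
    (Nat.sub (Nat.add (Nat.add (Nat.add (Nat.add (Nat.add (Nat.add (Nat.add (Nat.add (Nat.add (Nat.add C x28041) x42621) x40677) x41001) x41325) x41109) x41181) x41169) x41161) x21481) (Nat.mul x41163 (nat_lit 3)))
    (Nat.sub (Nat.add (Nat.add (Nat.add (Nat.add (Nat.add (Nat.add (Nat.add (Nat.add (Nat.add (Nat.add C x28045) x42625) x40681) x41005) x41329) x41113) x41185) x41161) x41169) x21485) (Nat.mul x41167 (nat_lit 3)))
    (Nat.sub (Nat.add (Nat.add (Nat.add (Nat.add (Nat.add (Nat.add (Nat.add (Nat.add (Nat.add (Nat.add C x28047) x42627) x40683) x41007) x41331) x41115) x41187) x41163) x41167) x21487) (Nat.mul x41169 (nat_lit 3)))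
    (Nat.add (Nat.add (Nat.add (Nat.add (Nat.add (Nat.add (Nat.add (Nat.add (Nat.add C x28055) x42635) x40691) x41015) x41339) x41123) x41231) x41159) x41179)
    (Nat.sub (Nat.add (Nat.add (Nat.add (Nat.add (Nat.add (Nat.add (Nat.add (Nat.add (Nat.add (Nat.add (Nat.add (Nat.add C x28057) x42637) x40693) x41017) x41341) x41125) x41233) x41161) x41185) x41177) x41181) x21497) x41179)
    (Nat.sub (Nat.add (Nat.add (Nat.add (Nat.add (Nat.add (Nat.add (Nat.add (Nat.add (Nat.add (Nat.add (Nat.add C x28059) x42639) x40695) x41019) x41343) x41127) x41235) x41163) x41187) x41179) x21499) (Nat.mul x41181 (nat_lit 4)))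
    (Nat.sub (Nat.add (Nat.add (Nat.add (Nat.add (Nat.add (Nat.add (Nat.add (Nat.add (Nat.add (Nat.add (Nat.add (Nat.add C x28063) x42643) x40699) x41023) x41347) x41131) x41239) x41167) x41203) x41179) x41187) x21503) x41185)
    (Nat.sub (Nat.add (Nat.add (Nat.add (Nat.add (Nat.add (Nat.add (Nat.add (Nat.add (Nat.add (Nat.add (Nat.add (Nat.add (Nat.add C x28065) x42645) x40701) x41025) x41349) x41133) x41241) x41169) x41205) x41181) x41193) x41185) x21505) (Nat.mul x41187 (nat_lit 2)))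
    (Nat.sub (Nat.add (Nat.add (Nat.add (Nat.add (Nat.add (Nat.add (Nat.add (Nat.add (Nat.add (Nat.add C x28071) x42651) x40707) x41031) x41355) x41139) x41247) x41211) x41187) x21511) (Nat.mul x41193 (nat_lit 2)))
    (Nat.sub (Nat.add (Nat.add (Nat.add (Nat.add (Nat.add (Nat.add (Nat.add (Nat.add (Nat.add C x28081) x42661) x40717) x41041) x41365) x41257) x41185) x41205) x21521) x41203)
    (Nat.sub (Nat.add (Nat.add (Nat.add (Nat.add (Nat.add (Nat.add (Nat.add (Nat.add (Nat.add (Nat.add C x28083) x42663) x40719) x41043) x41367) x41259) x41187) x41211) x41203) x21523) (Nat.mul x41205 (nat_lit 3)))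
    (Nat.sub (Nat.add (Nat.add (Nat.add (Nat.add (Nat.add (Nat.add (Nat.add (Nat.add (Nat.add C x28089) x42669) x40725) x41049) x41373) x41265) x41193) x41205) x21529) x41211)
    (Nat.add (Nat.add (Nat.add (Nat.add (Nat.add (Nat.add C x28109) x42689) x40745) x41393) x41177) x41233)
    (Nat.sub (Nat.add (Nat.add (Nat.add (Nat.add (Nat.add (Nat.add (Nat.add (Nat.add (Nat.add C x28111) x42691) x40747) x41395) x41179) x41239) x41231) x41235) x21551) x41233)
    (Nat.sub (Nat.add (Nat.add (Nat.add (Nat.add (Nat.add (Nat.add (Nat.add (Nat.add C x28113) x42693) x40749) x41397) x41181) x41241) x41233) x21553) (Nat.mul x41235 (nat_lit 4)))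
    (Nat.sub (Nat.add (Nat.add (Nat.add (Nat.add (Nat.add (Nat.add (Nat.add (Nat.add (Nat.add C x28117) x42697) x40753) x41401) x41185) x41257) x41233) x41241) x21557) (Nat.mul x41239 (nat_lit 2)))
    (Nat.sub (Nat.add (Nat.add (Nat.add (Nat.add (Nat.add (Nat.add (Nat.add (Nat.add (Nat.add (Nat.add C x28119) x42699) x40755) x41403) x41187) x41259) x41235) x41247) x41239) x21559) (Nat.mul x41241 (nat_lit 3)))
    (Nat.sub (Nat.add (Nat.add (Nat.add (Nat.add (Nat.add (Nat.add (Nat.add (Nat.add C x28125) x42705) x40761) x41409) x41193) x41265) x41241) x21565) (Nat.mul x41247 (nat_lit 4)))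
    (Nat.add (Nat.add (Nat.add (Nat.add (Nat.add (Nat.add (Nat.add (Nat.add C x28135) x42715) x40771) x41419) x41203) x41239) x41259) x21575)
    (Nat.sub (Nat.add (Nat.add (Nat.add (Nat.add (Nat.add (Nat.add (Nat.add (Nat.add (Nat.add C x28137) x42717) x40773) x41421) x41205) x41241) x41265) x41257) x21577) (Nat.mul x41259 (nat_lit 2)))
    (Nat.sub (Nat.add (Nat.add (Nat.add (Nat.add (Nat.add (Nat.add (Nat.add (Nat.add (Nat.add C x28143) x42723) x40779) x41427) x41211) x41247) x41283) x41259) x21583) x41265)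
    (Nat.add (Nat.add (Nat.add (Nat.add (Nat.add (Nat.add C x28161) x42741) x40797) x41445) x41265) x21601)
    (Nat.add (Nat.add (Nat.add (Nat.add (Nat.add (Nat.add C (Nat.mul x41315 (nat_lit 2))) x28193) x42773) x41153) x41321) x41317)
    (Nat.add (Nat.add (Nat.add (Nat.add (Nat.add (Nat.add C x28195) x42775) x41155) x41323) x41315) x21635)
    (Nat.add (Nat.add (Nat.add (Nat.add (Nat.add (Nat.add C x28199) x42779) x41159) x41339) x41315) x41323)
    (Nat.add (Nat.add (Nat.add (Nat.add (Nat.add (Nat.add (Nat.add (Nat.add (Nat.add C x28201) x42781) x41161) x41341) x41317) x41329) x41321) x41325) x21641)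
    (Nat.sub (Nat.add (Nat.add (Nat.add (Nat.add (Nat.add (Nat.add (Nat.add C x28203) x42783) x41163) x41343) x41331) x41323) x21643) (Nat.mul x41325 (nat_lit 2)))
    (Nat.sub (Nat.add (Nat.add (Nat.add (Nat.add (Nat.add (Nat.add (Nat.add C x28207) x42787) x41167) x41347) x41323) x41331) x21647) (Nat.mul x41329 (nat_lit 2)))
    (Nat.sub (Nat.add (Nat.add (Nat.add (Nat.add (Nat.add (Nat.add (Nat.add C x28209) x42789) x41169) x41349) x41325) x41329) x21649) (Nat.mul x41331 (nat_lit 2)))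
    (Nat.add (Nat.add (Nat.add (Nat.add (Nat.add (Nat.add C x28217) x42797) x41177) x41393) x41321) x41341)
    (Nat.sub (Nat.add (Nat.add (Nat.add (Nat.add (Nat.add (Nat.add (Nat.add (Nat.add (Nat.add C x28219) x42799) x41179) x41395) x41323) x41347) x41339) x41343) x21659) x41341)
    (Nat.sub (Nat.add (Nat.add (Nat.add (Nat.add (Nat.add (Nat.add (Nat.add (Nat.add C x28221) x42801) x41181) x41397) x41325) x41349) x41341) x21661) (Nat.mul x41343 (nat_lit 4)))
    (Nat.sub (Nat.add (Nat.add (Nat.add (Nat.add (Nat.add (Nat.add (Nat.add (Nat.add (Nat.add C x28225) x42805) x41185) x41401) x41329) x41365) x41341) x41349) x21665) x41347)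
    (Nat.sub (Nat.add (Nat.add (Nat.add (Nat.add (Nat.add (Nat.add (Nat.add (Nat.add (Nat.add (Nat.add C x28227) x42807) x41187) x41403) x41331) x41367) x41343) x41355) x41347) x21667) (Nat.mul x41349 (nat_lit 2)))
    (Nat.sub (Nat.add (Nat.add (Nat.add (Nat.add (Nat.add (Nat.add (Nat.add C x28233) x42813) x41193) x41409) x41373) x41349) x21673) (Nat.mul x41355 (nat_lit 2)))
    (Nat.sub (Nat.add (Nat.add (Nat.add (Nat.add (Nat.add (Nat.add (Nat.add C x28243) x42823) x41203) x41419) x41347) x41367) x21683) (Nat.mul x41365 (nat_lit 2)))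
    (Nat.sub (Nat.add (Nat.add (Nat.add (Nat.add (Nat.add (Nat.add (Nat.add (Nat.add C x28245) x42825) x41205) x41421) x41349) x41373) x41365) x21685) (Nat.mul x41367 (nat_lit 4)))
    (Nat.sub (Nat.add (Nat.add (Nat.add (Nat.add (Nat.add (Nat.add (Nat.add C x28251) x42831) x41211) x41427) x41355) x41367) x21691) (Nat.mul x41373 (nat_lit 2)))
    (Nat.add (Nat.add (Nat.add (Nat.add (Nat.add (Nat.add C (Nat.mul x41393 (nat_lit 2))) x28271) x42851) x41231) x41339) x41395)
    (Nat.add (Nat.add (Nat.add (Nat.add (Nat.add (Nat.add (Nat.add (Nat.add (Nat.add C x41395) x28273) x42853) x41233) x41341) x41401) x41393) x41397) x21713)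
    (Nat.sub (Nat.add (Nat.add (Nat.add (Nat.add (Nat.add (Nat.add (Nat.add C x28275) x42855) x41235) x41343) x41403) x41395) x21715) (Nat.mul x41397 (nat_lit 2)))
    (Nat.add (Nat.add (Nat.add (Nat.add (Nat.add (Nat.add (Nat.add (Nat.add C x28279) x42859) x41239) x41347) x41419) x41395) x41403) x21719)
    (Nat.sub (Nat.add (Nat.add (Nat.add (Nat.add (Nat.add (Nat.add (Nat.add (Nat.add (Nat.add C x28281) x42861) x41241) x41349) x41421) x41397) x41409) x41401) x21721) x41403)
    (Nat.sub (Nat.add (Nat.add (Nat.add (Nat.add (Nat.add (Nat.add (Nat.add C x28287) x42867) x41247) x41355) x41427) x41403) x21727) (Nat.mul x41409 (nat_lit 2)))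
    (Nat.add (Nat.add (Nat.add (Nat.add (Nat.add (Nat.add (Nat.add (Nat.add (Nat.add C x41419) x28297) x42877) x41257) x41365) x41473) x41401) x41421) x21737)
    (Nat.sub (Nat.add (Nat.add (Nat.add (Nat.add (Nat.add (Nat.add (Nat.add (Nat.add (Nat.add C x28299) x42879) x41259) x41367) x41475) x41403) x41427) x41419) x21739) x41421)
    (Nat.add (Nat.add (Nat.add (Nat.add (Nat.add (Nat.add (Nat.add (Nat.add (Nat.add C x28305) x42885) x41265) x41373) x41481) x41409) x41445) x41421) x21745)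
    (Nat.add (Nat.add (Nat.add (Nat.add (Nat.add (Nat.add C x28323) x42903) x41283) x41499) x41427) x21763)
    (Nat.add (Nat.add (Nat.add (Nat.add (Nat.add (Nat.add C (Nat.mul x41473 (nat_lit 2))) x28351) x42931) x41419) x41475) x21791)
    (Nat.add (Nat.add (Nat.add (Nat.add (Nat.add (Nat.add C x28353) x42933) x41421) x41481) x41473) x21793)
    (Nat.add (Nat.add (Nat.add (Nat.add (Nat.add (Nat.add C x28359) x42939) x41427) x41499) x41475) x21799)
    (Nat.add (Nat.add (Nat.add (Nat.add (Nat.add (Nat.add C (Nat.mul x41499 (nat_lit 2))) x28377) x42957) x41445) x41481) x21817)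
    (Nat.add (Nat.add (Nat.add (Nat.add (Nat.add C (Nat.mul x41579 (nat_lit 4))) x28457) x45953) x40121) x41597)
    (Nat.add (Nat.add (Nat.add (Nat.add (Nat.add (Nat.add (Nat.add (Nat.add C (Nat.mul x41597 (nat_lit 3))) x28475) x45971) x40139) x41651) x41579) x41615) x41603)
    (Nat.add (Nat.add (Nat.add (Nat.add (Nat.add (Nat.add (Nat.add (Nat.add C (Nat.mul x41603 (nat_lit 2))) x28481) x45977) x40145) x41657) x41621) x41597) x41605)
    (Nat.add (Nat.add (Nat.add (Nat.add (Nat.add (Nat.add (Nat.add (Nat.add C (Nat.mul x41605 (nat_lit 2))) x28483) x45979) x40147) x41659) x41623) x41603) x21923)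
    (Nat.add (Nat.add (Nat.add (Nat.add (Nat.add (Nat.add C x28493) x45989) x40157) x41669) x41597) x41621)
    (Nat.add (Nat.add (Nat.add (Nat.add (Nat.add (Nat.add (Nat.add (Nat.add (Nat.add C x41621) x28499) x45995) x40163) x41675) x41603) x41615) x41627) x41623)
    (Nat.add (Nat.add (Nat.add (Nat.add (Nat.add (Nat.add (Nat.add (Nat.add C x28501) x45997) x40165) x41677) x41605) x41629) x41621) x21941)
    (Nat.add (Nat.add (Nat.add (Nat.add (Nat.add (Nat.add C x28505) x46001) x40169) x41681) x41621) x41629)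
    (Nat.add (Nat.add (Nat.add (Nat.add (Nat.add (Nat.add (Nat.add (Nat.add (Nat.add C x41629) x28507) x46003) x40171) x41683) x41623) x41627) x41631) x21947)
    (Nat.add (Nat.add (Nat.add (Nat.add (Nat.add (Nat.add C x28509) x46005) x40173) x41685) x41629) x21949)
    (Nat.add (Nat.add (Nat.add (Nat.add (Nat.add (Nat.add (Nat.add (Nat.add C (Nat.mul x41651 (nat_lit 2))) x28529) x46025) x40193) x41813) x41597) x41669) x41657)
    (Nat.add (Nat.add (Nat.add (Nat.add (Nat.add (Nat.add (Nat.add (Nat.add C x28535) x46031) x40199) x41819) x41603) x41675) x41651) x41659)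
    (Nat.add (Nat.add (Nat.add (Nat.add (Nat.add (Nat.add (Nat.add (Nat.add C x28537) x46033) x40201) x41821) x41605) x41677) x41657) x21977)
    (Nat.add (Nat.add (Nat.add (Nat.add (Nat.add (Nat.add (Nat.add (Nat.add (Nat.add C x41669) x28547) x46043) x40211) x41831) x41615) x41723) x41651) x41675)
    (Nat.add (Nat.add (Nat.add (Nat.add (Nat.add (Nat.add (Nat.add (Nat.add (Nat.add (Nat.add (Nat.add (Nat.add C x41675) x28553) x46049) x40217) x41837) x41621) x41729) x41657) x41693) x41669) x41681) x41677)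
    (Nat.add (Nat.add (Nat.add (Nat.add (Nat.add (Nat.add (Nat.add (Nat.add (Nat.add (Nat.add (Nat.add C x28555) x46051) x40219) x41839) x41623) x41731) x41659) x41695) x41683) x41675) x21995)
    (Nat.sub (Nat.add (Nat.add (Nat.add (Nat.add (Nat.add (Nat.add (Nat.add (Nat.add (Nat.add C x28559) x46055) x40223) x41843) x41627) x41735) x41699) x41675) x41683) x41681)
    (Nat.add (Nat.add (Nat.add (Nat.add (Nat.add (Nat.add (Nat.add (Nat.add (Nat.add (Nat.add (Nat.add C x28561) x46057) x40225) x41845) x41629) x41737) x41701) x41677) x41681) x41685) x22001)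
    (Nat.sub (Nat.add (Nat.add (Nat.add (Nat.add (Nat.add (Nat.add (Nat.add (Nat.add (Nat.add C x28563) x46059) x40227) x41847) x41631) x41739) x41703) x41683) x22003) x41685)
    (Nat.add (Nat.add (Nat.add (Nat.add (Nat.add (Nat.add (Nat.add (Nat.add C x28571) x46067) x40235) x41855) x41747) x41675) x41699) x41695)
    (Nat.sub (Nat.add (Nat.add (Nat.add (Nat.add (Nat.add (Nat.add (Nat.add (Nat.add (Nat.add C x28573) x46069) x40237) x41857) x41749) x41677) x41701) x41693) x22013) (Nat.mul x41695 (nat_lit 2)))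
    (Nat.add (Nat.add (Nat.add (Nat.add (Nat.add (Nat.add (Nat.add (Nat.add C x28577) x46073) x40241) x41861) x41753) x41681) x41693) x41701)
    (Nat.add (Nat.add (Nat.add (Nat.add (Nat.add (Nat.add (Nat.add (Nat.add (Nat.add (Nat.add (Nat.add C x28579) x46075) x40243) x41863) x41755) x41683) x41695) x41707) x41699) x41703) x22019)
    (Nat.sub (Nat.add (Nat.add (Nat.add (Nat.add (Nat.add (Nat.add (Nat.add (Nat.add (Nat.add C x28581) x46077) x40245) x41865) x41757) x41685) x41709) x41701) x22021) (Nat.mul x41703 (nat_lit 2)))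
    (Nat.add (Nat.add (Nat.add (Nat.add (Nat.add (Nat.add (Nat.add (Nat.add C x28585) x46081) x40249) x41869) x41761) x41701) x41709) x22025)
    (Nat.add (Nat.add (Nat.add (Nat.add (Nat.add (Nat.add (Nat.add (Nat.add C x28587) x46083) x40251) x41871) x41763) x41703) x41707) x22027)
    (Nat.add (Nat.add (Nat.add (Nat.add (Nat.add (Nat.add C x28601) x46097) x40265) x41885) x41669) x41729)
    (Nat.sub (Nat.add (Nat.add (Nat.add (Nat.add (Nat.add (Nat.add (Nat.add (Nat.add (Nat.add C x28607) x46103) x40271) x41891) x41675) x41747) x41723) x41735) x41731) x41729)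
    (Nat.sub (Nat.add (Nat.add (Nat.add (Nat.add (Nat.add (Nat.add (Nat.add (Nat.add (Nat.add C x28609) x46105) x40273) x41893) x41677) x41749) x41737) x41729) x22049) (Nat.mul x41731 (nat_lit 2)))
    (Nat.sub (Nat.add (Nat.add (Nat.add (Nat.add (Nat.add (Nat.add (Nat.add (Nat.add C x28613) x46109) x40277) x41897) x41681) x41753) x41729) x41737) (Nat.mul x41735 (nat_lit 4)))
    (Nat.sub (Nat.add (Nat.add (Nat.add (Nat.add (Nat.add (Nat.add (Nat.add (Nat.add (Nat.add (Nat.add C x28615) x46111) x40279) x41899) x41683) x41755) x41731) x41735) x41739) x22055) (Nat.mul x41737 (nat_lit 3)))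
    (Nat.sub (Nat.add (Nat.add (Nat.add (Nat.add (Nat.add (Nat.add (Nat.add (Nat.add C x28617) x46113) x40281) x41901) x41685) x41757) x41737) x22057) (Nat.mul x41739 (nat_lit 4)))
    (Nat.add (Nat.add (Nat.add (Nat.add (Nat.add (Nat.add (Nat.add (Nat.add C x28625) x46121) x40289) x41909) x41693) x41729) x41753) x41749)
    (Nat.sub (Nat.add (Nat.add (Nat.add (Nat.add (Nat.add (Nat.add (Nat.add (Nat.add (Nat.add C x28627) x46123) x40291) x41911) x41695) x41731) x41755) x41747) x22067) (Nat.mul x41749 (nat_lit 2)))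
    (Nat.sub (Nat.add (Nat.add (Nat.add (Nat.add (Nat.add (Nat.add (Nat.add (Nat.add (Nat.add C x28631) x46127) x40295) x41915) x41699) x41735) x41771) x41747) x41755) x41753)
    (Nat.sub (Nat.add (Nat.add (Nat.add (Nat.add (Nat.add (Nat.add (Nat.add (Nat.add (Nat.add (Nat.add (Nat.add (Nat.add C x28633) x46129) x40297) x41917) x41701) x41737) x41773) x41749) x41761) x41753) x41757) x22073) x41755)
    (Nat.sub (Nat.add (Nat.add (Nat.add (Nat.add (Nat.add (Nat.add (Nat.add (Nat.add (Nat.add (Nat.add C x28635) x46131) x40299) x41919) x41703) x41739) x41775) x41763) x41755) x22075) (Nat.mul x41757 (nat_lit 3)))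
    (Nat.sub (Nat.add (Nat.add (Nat.add (Nat.add (Nat.add (Nat.add (Nat.add (Nat.add (Nat.add C x28639) x46135) x40303) x41923) x41707) x41779) x41755) x41763) x22079) (Nat.mul x41761 (nat_lit 2)))
    (Nat.sub (Nat.add (Nat.add (Nat.add (Nat.add (Nat.add (Nat.add (Nat.add (Nat.add (Nat.add C x28641) x46137) x40305) x41925) x41709) x41781) x41757) x41761) x22081) (Nat.mul x41763 (nat_lit 2)))
    (Nat.add (Nat.add (Nat.add (Nat.add (Nat.add (Nat.add C x28649) x46145) x40313) x41933) x41753) x41773)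
    (Nat.sub (Nat.add (Nat.add (Nat.add (Nat.add (Nat.add (Nat.add (Nat.add (Nat.add (Nat.add C x28651) x46147) x40315) x41935) x41755) x41779) x41771) x41775) x22091) x41773)
    (Nat.sub (Nat.add (Nat.add (Nat.add (Nat.add (Nat.add (Nat.add (Nat.add (Nat.add C x28653) x46149) x40317) x41937) x41757) x41781) x41773) x22093) (Nat.mul x41775 (nat_lit 4)))
    (Nat.add (Nat.add (Nat.add (Nat.add (Nat.add (Nat.add (Nat.add (Nat.add C x28657) x46153) x40321) x41941) x41761) x41773) x41781) x22097)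
    (Nat.sub (Nat.add (Nat.add (Nat.add (Nat.add (Nat.add (Nat.add (Nat.add (Nat.add (Nat.add C x28659) x46155) x40323) x41943) x41763) x41775) x41787) x41779) x22099) x41781)
    (Nat.add (Nat.add (Nat.add (Nat.add (Nat.add (Nat.add C x28665) x46161) x40329) x41949) x41781) x22105)
    (Nat.add (Nat.add (Nat.add (Nat.add (Nat.add (Nat.add (Nat.add (Nat.add C (Nat.mul x41813 (nat_lit 2))) x28691) x46187) x40355) x42299) x41651) x41831) x41819)
    (Nat.add (Nat.add (Nat.add (Nat.add (Nat.add (Nat.add (Nat.add (Nat.add C x28697) x46193) x40361) x42305) x41657) x41837) x41813) x41821)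
    (Nat.add (Nat.add (Nat.add (Nat.add (Nat.add (Nat.add (Nat.add (Nat.add C x28699) x46195) x40363) x42307) x41659) x41839) x41819) x22139)
    (Nat.add (Nat.add (Nat.add (Nat.add (Nat.add (Nat.add (Nat.add (Nat.add C x28709) x46205) x40373) x42317) x41669) x41885) x41813) x41837)
    (Nat.add (Nat.add (Nat.add (Nat.add (Nat.add (Nat.add (Nat.add (Nat.add (Nat.add (Nat.add (Nat.add C x28715) x46211) x40379) x42323) x41675) x41891) x41819) x41855) x41831) x41843) x41839)
    (Nat.sub (Nat.add (Nat.add (Nat.add (Nat.add (Nat.add (Nat.add (Nat.add (Nat.add (Nat.add (Nat.add (Nat.add C x28717) x46213) x40381) x42325) x41677) x41893) x41821) x41857) x41845) x41837) x22157) x41839)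
    (Nat.sub (Nat.add (Nat.add (Nat.add (Nat.add (Nat.add (Nat.add (Nat.add (Nat.add (Nat.add C x28721) x46217) x40385) x42329) x41681) x41897) x41861) x41837) x41845) (Nat.mul x41843 (nat_lit 2)))
    (Nat.sub (Nat.add (Nat.add (Nat.add (Nat.add (Nat.add (Nat.add (Nat.add (Nat.add (Nat.add (Nat.add (Nat.add C x28723) x46219) x40387) x42331) x41683) x41899) x41863) x41839) x41843) x41847) x22163) x41845)
    (Nat.sub (Nat.add (Nat.add (Nat.add (Nat.add (Nat.add (Nat.add (Nat.add (Nat.add (Nat.add C x28725) x46221) x40389) x42333) x41685) x41901) x41865) x41845) x22165) (Nat.mul x41847 (nat_lit 2)))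
    (Nat.sub (Nat.add (Nat.add (Nat.add (Nat.add (Nat.add (Nat.add (Nat.add (Nat.add (Nat.add C x28733) x46229) x40397) x42341) x41693) x41909) x41837) x41861) x41857) (Nat.mul x41855 (nat_lit 2)))
    (Nat.sub (Nat.add (Nat.add (Nat.add (Nat.add (Nat.add (Nat.add (Nat.add (Nat.add (Nat.add (Nat.add C x28735) x46231) x40399) x42343) x41695) x41911) x41839) x41863) x41855) x22175) (Nat.mul x41857 (nat_lit 4)))
    (Nat.sub (Nat.add (Nat.add (Nat.add (Nat.add (Nat.add (Nat.add (Nat.add (Nat.add (Nat.add C x28739) x46235) x40403) x42347) x41699) x41915) x41843) x41855) x41863) (Nat.mul x41861 (nat_lit 2)))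
    (Nat.sub (Nat.add (Nat.add (Nat.add (Nat.add (Nat.add (Nat.add (Nat.add (Nat.add (Nat.add (Nat.add (Nat.add (Nat.add C x28741) x46237) x40405) x42349) x41701) x41917) x41845) x41857) x41869) x41861) x41865) x22181) (Nat.mul x41863 (nat_lit 2)))
    (Nat.sub (Nat.add (Nat.add (Nat.add (Nat.add (Nat.add (Nat.add (Nat.add (Nat.add (Nat.add (Nat.add C x28743) x46239) x40407) x42351) x41703) x41919) x41847) x41871) x41863) x22183) (Nat.mul x41865 (nat_lit 4)))
    (Nat.sub (Nat.add (Nat.add (Nat.add (Nat.add (Nat.add (Nat.add (Nat.add (Nat.add (Nat.add C x28747) x46243) x40411) x42355) x41707) x41923) x41863) x41871) x22187) (Nat.mul x41869 (nat_lit 2)))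
    (Nat.sub (Nat.add (Nat.add (Nat.add (Nat.add (Nat.add (Nat.add (Nat.add (Nat.add (Nat.add C x28749) x46245) x40413) x42357) x41709) x41925) x41865) x41869) x22189) (Nat.mul x41871 (nat_lit 2)))
    (Nat.add (Nat.add (Nat.add (Nat.add (Nat.add (Nat.add (Nat.add (Nat.add (Nat.add C x41885) x28763) x46259) x40427) x42371) x41723) x42047) x41831) x41891)
    (Nat.add (Nat.add (Nat.add (Nat.add (Nat.add (Nat.add (Nat.add (Nat.add (Nat.add (Nat.add (Nat.add C x28769) x46265) x40433) x42377) x41729) x42053) x41837) x41909) x41885) x41897) x41893)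
    (Nat.sub (Nat.add (Nat.add (Nat.add (Nat.add (Nat.add (Nat.add (Nat.add (Nat.add (Nat.add (Nat.add (Nat.add C x28771) x46267) x40435) x42379) x41731) x42055) x41839) x41911) x41899) x41891) x22211) x41893)
    (Nat.sub (Nat.add (Nat.add (Nat.add (Nat.add (Nat.add (Nat.add (Nat.add (Nat.add (Nat.add (Nat.add C x28775) x46271) x40439) x42383) x41735) x42059) x41843) x41915) x41891) x41899) (Nat.mul x41897 (nat_lit 3)))
    (Nat.sub (Nat.add (Nat.add (Nat.add (Nat.add (Nat.add (Nat.add (Nat.add (Nat.add (Nat.add (Nat.add (Nat.add (Nat.add C x28777) x46273) x40441) x42385) x41737) x42061) x41845) x41917) x41893) x41897) x41901) x22217) (Nat.mul x41899 (nat_lit 2)))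
    (Nat.sub (Nat.add (Nat.add (Nat.add (Nat.add (Nat.add (Nat.add (Nat.add (Nat.add (Nat.add (Nat.add C x28779) x46275) x40443) x42387) x41739) x42063) x41847) x41919) x41899) x22219) (Nat.mul x41901 (nat_lit 3)))
    (Nat.add (Nat.add (Nat.add (Nat.add (Nat.add (Nat.add (Nat.add (Nat.add (Nat.add (Nat.add (Nat.add C x28787) x46283) x40451) x42395) x41747) x42071) x41855) x41963) x41891) x41915) x41911)
    (Nat.sub (Nat.add (Nat.add (Nat.add (Nat.add (Nat.add (Nat.add (Nat.add (Nat.add (Nat.add (Nat.add (Nat.add (Nat.add C x28789) x46285) x40453) x42397) x41749) x42073) x41857) x41965) x41893) x41917) x41909) x22229) (Nat.mul x41911 (nat_lit 2)))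
    (Nat.sub (Nat.add (Nat.add (Nat.add (Nat.add (Nat.add (Nat.add (Nat.add (Nat.add (Nat.add (Nat.add (Nat.add (Nat.add C x28793) x46289) x40457) x42401) x41753) x42077) x41861) x41969) x41897) x41933) x41909) x41917) x41915)
    (Nat.sub (Nat.add (Nat.add (Nat.add (Nat.add (Nat.add (Nat.add (Nat.add (Nat.add (Nat.add (Nat.add (Nat.add (Nat.add (Nat.add (Nat.add (Nat.add C x28795) x46291) x40459) x42403) x41755) x42079) x41863) x41971) x41899) x41935) x41911) x41923) x41915) x41919) x22235) x41917)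
    (Nat.sub (Nat.add (Nat.add (Nat.add (Nat.add (Nat.add (Nat.add (Nat.add (Nat.add (Nat.add (Nat.add (Nat.add (Nat.add (Nat.add C x28797) x46293) x40461) x42405) x41757) x42081) x41865) x41973) x41901) x41937) x41925) x41917) x22237) (Nat.mul x41919 (nat_lit 3)))
    (Nat.sub (Nat.add (Nat.add (Nat.add (Nat.add (Nat.add (Nat.add (Nat.add (Nat.add (Nat.add (Nat.add (Nat.add (Nat.add C x28801) x46297) x40465) x42409) x41761) x42085) x41869) x41977) x41941) x41917) x41925) x22241) (Nat.mul x41923 (nat_lit 2)))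
    (Nat.sub (Nat.add (Nat.add (Nat.add (Nat.add (Nat.add (Nat.add (Nat.add (Nat.add (Nat.add (Nat.add (Nat.add (Nat.add C x28803) x46299) x40467) x42411) x41763) x42087) x41871) x41979) x41943) x41919) x41923) x22243) (Nat.mul x41925 (nat_lit 2)))
    (Nat.sub (Nat.add (Nat.add (Nat.add (Nat.add (Nat.add (Nat.add (Nat.add (Nat.add (Nat.add C x28811) x46307) x40475) x42419) x41771) x42095) x41987) x41915) x41935) x41933)
    (Nat.sub (Nat.add (Nat.add (Nat.add (Nat.add (Nat.add (Nat.add (Nat.add (Nat.add (Nat.add (Nat.add (Nat.add (Nat.add C x28813) x46309) x40477) x42421) x41773) x42097) x41989) x41917) x41941) x41933) x41937) x22253) (Nat.mul x41935 (nat_lit 2)))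
    (Nat.sub (Nat.add (Nat.add (Nat.add (Nat.add (Nat.add (Nat.add (Nat.add (Nat.add (Nat.add (Nat.add (Nat.add C x28815) x46311) x40479) x42423) x41775) x42099) x41991) x41919) x41943) x41935) x22255) (Nat.mul x41937 (nat_lit 5)))
    (Nat.sub (Nat.add (Nat.add (Nat.add (Nat.add (Nat.add (Nat.add (Nat.add (Nat.add (Nat.add (Nat.add (Nat.add C x28819) x46315) x40483) x42427) x41779) x42103) x41995) x41923) x41935) x41943) x22259) x41941)
    (Nat.sub (Nat.add (Nat.add (Nat.add (Nat.add (Nat.add (Nat.add (Nat.add (Nat.add (Nat.add (Nat.add (Nat.add (Nat.add C x28821) x46317) x40485) x42429) x41781) x42105) x41997) x41925) x41937) x41949) x41941) x22261) (Nat.mul x41943 (nat_lit 2)))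
    (Nat.sub (Nat.add (Nat.add (Nat.add (Nat.add (Nat.add (Nat.add (Nat.add (Nat.add (Nat.add C x28827) x46323) x40491) x42435) x41787) x42111) x42003) x41943) x22267) x41949)
    (Nat.add (Nat.add (Nat.add (Nat.add (Nat.add (Nat.add (Nat.add (Nat.add C x28841) x46337) x40505) x42449) x42125) x41909) x41969) x41965)
    (Nat.sub (Nat.add (Nat.add (Nat.add (Nat.add (Nat.add (Nat.add (Nat.add (Nat.add (Nat.add C x28843) x46339) x40507) x42451) x42127) x41911) x41971) x41963) x22283) (Nat.mul x41965 (nat_lit 2)))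
    (Nat.sub (Nat.add (Nat.add (Nat.add (Nat.add (Nat.add (Nat.add (Nat.add (Nat.add (Nat.add C x28847) x46343) x40511) x42455) x42131) x41915) x41987) x41963) x41971) (Nat.mul x41969 (nat_lit 2)))
    (Nat.sub (Nat.add (Nat.add (Nat.add (Nat.add (Nat.add (Nat.add (Nat.add (Nat.add (Nat.add (Nat.add (Nat.add (Nat.add C x28849) x46345) x40513) x42457) x42133) x41917) x41989) x41965) x41977) x41969) x41973) x22289) (Nat.mul x41971 (nat_lit 2)))
    (Nat.sub (Nat.add (Nat.add (Nat.add (Nat.add (Nat.add (Nat.add (Nat.add (Nat.add (Nat.add (Nat.add C x28851) x46347) x40515) x42459) x42135) x41919) x41991) x41979) x41971) x22291) (Nat.mul x41973 (nat_lit 4)))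
    (Nat.sub (Nat.add (Nat.add (Nat.add (Nat.add (Nat.add (Nat.add (Nat.add (Nat.add (Nat.add (Nat.add C x28855) x46351) x40519) x42463) x42139) x41923) x41995) x41971) x41979) x22295) (Nat.mul x41977 (nat_lit 4)))
    (Nat.sub (Nat.add (Nat.add (Nat.add (Nat.add (Nat.add (Nat.add (Nat.add (Nat.add (Nat.add (Nat.add C x28857) x46353) x40521) x42465) x42141) x41925) x41997) x41973) x41977) x22297) (Nat.mul x41979 (nat_lit 4)))
    (Nat.add (Nat.add (Nat.add (Nat.add (Nat.add (Nat.add (Nat.add (Nat.add C x28865) x46361) x40529) x42473) x42149) x41933) x41969) x41989)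
    (Nat.sub (Nat.add (Nat.add (Nat.add (Nat.add (Nat.add (Nat.add (Nat.add (Nat.add (Nat.add (Nat.add (Nat.add C x28867) x46363) x40531) x42475) x42151) x41935) x41971) x41995) x41987) x41991) x22307) x41989)
    (Nat.sub (Nat.add (Nat.add (Nat.add (Nat.add (Nat.add (Nat.add (Nat.add (Nat.add (Nat.add (Nat.add C x28869) x46365) x40533) x42477) x42153) x41937) x41973) x41997) x41989) x22309) (Nat.mul x41991 (nat_lit 4)))
    (Nat.sub (Nat.add (Nat.add (Nat.add (Nat.add (Nat.add (Nat.add (Nat.add (Nat.add (Nat.add (Nat.add (Nat.add C x28873) x46369) x40537) x42481) x42157) x41941) x41977) x42013) x41989) x41997) x22313) x41995)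
    (Nat.sub (Nat.add (Nat.add (Nat.add (Nat.add (Nat.add (Nat.add (Nat.add (Nat.add (Nat.add (Nat.add (Nat.add (Nat.add C x28875) x46371) x40539) x42483) x42159) x41943) x41979) x42015) x41991) x42003) x41995) x22315) (Nat.mul x41997 (nat_lit 2)))
    (Nat.sub (Nat.add (Nat.add (Nat.add (Nat.add (Nat.add (Nat.add (Nat.add (Nat.add (Nat.add C x28881) x46377) x40545) x42489) x42165) x41949) x42021) x41997) x22321) (Nat.mul x42003 (nat_lit 2)))
    (Nat.add (Nat.add (Nat.add (Nat.add (Nat.add (Nat.add (Nat.add (Nat.add C x28891) x46387) x40555) x42499) x42175) x41995) x42015) x22331)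
    (Nat.sub (Nat.add (Nat.add (Nat.add (Nat.add (Nat.add (Nat.add (Nat.add (Nat.add (Nat.add C x28893) x46389) x40557) x42501) x42177) x41997) x42021) x42013) x22333) (Nat.mul x42015 (nat_lit 2)))
    (Nat.add (Nat.add (Nat.add (Nat.add (Nat.add (Nat.add (Nat.add (Nat.add C x28899) x46395) x40563) x42507) x42183) x42003) x42015) x22339)
    (Nat.add (Nat.add (Nat.add (Nat.add (Nat.add (Nat.add C x28925) x46421) x40589) x42533) x41885) x42053)
    (Nat.sub (Nat.add (Nat.add (Nat.add (Nat.add (Nat.add (Nat.add (Nat.add (Nat.add (Nat.add C x28931) x46427) x40595) x42539) x41891) x42071) x42047) x42059) x42055) x42053)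
    (Nat.sub (Nat.add (Nat.add (Nat.add (Nat.add (Nat.add (Nat.add (Nat.add (Nat.add (Nat.add C x28933) x46429) x40597) x42541) x41893) x42073) x42061) x42053) x22373) (Nat.mul x42055 (nat_lit 2)))
    (Nat.sub (Nat.add (Nat.add (Nat.add (Nat.add (Nat.add (Nat.add (Nat.add (Nat.add C x28937) x46433) x40601) x42545) x41897) x42077) x42053) x42061) (Nat.mul x42059 (nat_lit 4)))
    (Nat.sub (Nat.add (Nat.add (Nat.add (Nat.add (Nat.add (Nat.add (Nat.add (Nat.add (Nat.add (Nat.add C x28939) x46435) x40603) x42547) x41899) x42079) x42055) x42059) x42063) x22379) (Nat.mul x42061 (nat_lit 3)))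
    (Nat.sub (Nat.add (Nat.add (Nat.add (Nat.add (Nat.add (Nat.add (Nat.add (Nat.add C x28941) x46437) x40605) x42549) x41901) x42081) x42061) x22381) (Nat.mul x42063 (nat_lit 4)))
    (Nat.sub (Nat.add (Nat.add (Nat.add (Nat.add (Nat.add (Nat.add (Nat.add (Nat.add (Nat.add C x28949) x46445) x40613) x42557) x41909) x42125) x42053) x42077) x42073) (Nat.mul x42071 (nat_lit 2)))
    (Nat.sub (Nat.add (Nat.add (Nat.add (Nat.add (Nat.add (Nat.add (Nat.add (Nat.add (Nat.add (Nat.add C x28951) x46447) x40615) x42559) x41911) x42127) x42055) x42079) x42071) x22391) (Nat.mul x42073 (nat_lit 4)))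
    (Nat.sub (Nat.add (Nat.add (Nat.add (Nat.add (Nat.add (Nat.add (Nat.add (Nat.add (Nat.add (Nat.add C x28955) x46451) x40619) x42563) x41915) x42131) x42059) x42095) x42071) x42079) (Nat.mul x42077 (nat_lit 3)))
    (Nat.sub (Nat.add (Nat.add (Nat.add (Nat.add (Nat.add (Nat.add (Nat.add (Nat.add (Nat.add (Nat.add (Nat.add (Nat.add (Nat.add C x28957) x46453) x40621) x42565) x41917) x42133) x42061) x42097) x42073) x42085) x42077) x42081) x22397) (Nat.mul x42079 (nat_lit 3)))
    (Nat.sub (Nat.add (Nat.add (Nat.add (Nat.add (Nat.add (Nat.add (Nat.add (Nat.add (Nat.add (Nat.add (Nat.add C x28959) x46455) x40623) x42567) x41919) x42135) x42063) x42099) x42087) x42079) x22399) (Nat.mul x42081 (nat_lit 5)))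
    (Nat.sub (Nat.add (Nat.add (Nat.add (Nat.add (Nat.add (Nat.add (Nat.add (Nat.add (Nat.add (Nat.add C x28963) x46459) x40627) x42571) x41923) x42139) x42103) x42079) x42087) x22403) (Nat.mul x42085 (nat_lit 4)))
    (Nat.sub (Nat.add (Nat.add (Nat.add (Nat.add (Nat.add (Nat.add (Nat.add (Nat.add (Nat.add (Nat.add C x28965) x46461) x40629) x42573) x41925) x42141) x42105) x42081) x42085) x22405) (Nat.mul x42087 (nat_lit 4)))
    (Nat.sub (Nat.add (Nat.add (Nat.add (Nat.add (Nat.add (Nat.add (Nat.add (Nat.add C x28973) x46469) x40637) x42581) x41933) x42149) x42077) x42097) (Nat.mul x42095 (nat_lit 4)))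
    (Nat.sub (Nat.add (Nat.add (Nat.add (Nat.add (Nat.add (Nat.add (Nat.add (Nat.add (Nat.add (Nat.add (Nat.add C x28975) x46471) x40639) x42583) x41935) x42151) x42079) x42103) x42095) x42099) x22415) (Nat.mul x42097 (nat_lit 5)))
    (Nat.sub (Nat.add (Nat.add (Nat.add (Nat.add (Nat.add (Nat.add (Nat.add (Nat.add (Nat.add (Nat.add C x28977) x46473) x40641) x42585) x41937) x42153) x42081) x42105) x42097) x22417) (Nat.mul x42099 (nat_lit 8)))
    (Nat.sub (Nat.add (Nat.add (Nat.add (Nat.add (Nat.add (Nat.add (Nat.add (Nat.add (Nat.add (Nat.add C x28981) x46477) x40645) x42589) x41941) x42157) x42085) x42097) x42105) x22421) (Nat.mul x42103 (nat_lit 4)))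
    (Nat.sub (Nat.add (Nat.add (Nat.add (Nat.add (Nat.add (Nat.add (Nat.add (Nat.add (Nat.add (Nat.add (Nat.add C x28983) x46479) x40647) x42591) x41943) x42159) x42087) x42099) x42111) x42103) x22423) (Nat.mul x42105 (nat_lit 5)))
    (Nat.sub (Nat.add (Nat.add (Nat.add (Nat.add (Nat.add (Nat.add (Nat.add (Nat.add C x28989) x46485) x40653) x42597) x41949) x42165) x42105) x22429) (Nat.mul x42111 (nat_lit 4)))
    (Nat.add (Nat.add (Nat.add (Nat.add (Nat.add (Nat.add (Nat.add (Nat.add C x29003) x46499) x40667) x42611) x41963) x42071) x42131) x42127)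
    (Nat.sub (Nat.add (Nat.add (Nat.add (Nat.add (Nat.add (Nat.add (Nat.add (Nat.add (Nat.add C x29005) x46501) x40669) x42613) x41965) x42073) x42133) x42125) x22445) (Nat.mul x42127 (nat_lit 2)))
    (Nat.sub (Nat.add (Nat.add (Nat.add (Nat.add (Nat.add (Nat.add (Nat.add (Nat.add (Nat.add C x29009) x46505) x40673) x42617) x41969) x42077) x42149) x42125) x42133) (Nat.mul x42131 (nat_lit 2)))
    (Nat.sub (Nat.add (Nat.add (Nat.add (Nat.add (Nat.add (Nat.add (Nat.add (Nat.add (Nat.add (Nat.add (Nat.add (Nat.add C x29011) x46507) x40675) x42619) x41971) x42079) x42151) x42127) x42139) x42131) x42135) x22451) (Nat.mul x42133 (nat_lit 2)))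
    (Nat.sub (Nat.add (Nat.add (Nat.add (Nat.add (Nat.add (Nat.add (Nat.add (Nat.add (Nat.add (Nat.add C x29013) x46509) x40677) x42621) x41973) x42081) x42153) x42141) x42133) x22453) (Nat.mul x42135 (nat_lit 4)))
    (Nat.sub (Nat.add (Nat.add (Nat.add (Nat.add (Nat.add (Nat.add (Nat.add (Nat.add (Nat.add (Nat.add C x29017) x46513) x40681) x42625) x41977) x42085) x42157) x42133) x42141) x22457) (Nat.mul x42139 (nat_lit 4)))
    (Nat.sub (Nat.add (Nat.add (Nat.add (Nat.add (Nat.add (Nat.add (Nat.add (Nat.add (Nat.add (Nat.add C x29019) x46515) x40683) x42627) x41979) x42087) x42159) x42135) x42139) x22459) (Nat.mul x42141 (nat_lit 4)))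
    (Nat.sub (Nat.add (Nat.add (Nat.add (Nat.add (Nat.add (Nat.add (Nat.add (Nat.add (Nat.add C x29027) x46523) x40691) x42635) x41987) x42095) x42203) x42131) x42151) x42149)
    (Nat.sub (Nat.add (Nat.add (Nat.add (Nat.add (Nat.add (Nat.add (Nat.add (Nat.add (Nat.add (Nat.add (Nat.add (Nat.add C x29029) x46525) x40693) x42637) x41989) x42097) x42205) x42133) x42157) x42149) x42153) x22469) (Nat.mul x42151 (nat_lit 2)))
    (Nat.sub (Nat.add (Nat.add (Nat.add (Nat.add (Nat.add (Nat.add (Nat.add (Nat.add (Nat.add (Nat.add (Nat.add C x29031) x46527) x40695) x42639) x41991) x42099) x42207) x42135) x42159) x42151) x22471) (Nat.mul x42153 (nat_lit 5)))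
    (Nat.sub (Nat.add (Nat.add (Nat.add (Nat.add (Nat.add (Nat.add (Nat.add (Nat.add (Nat.add (Nat.add (Nat.add (Nat.add C x29035) x46531) x40699) x42643) x41995) x42103) x42211) x42139) x42175) x42151) x42159) x22475) (Nat.mul x42157 (nat_lit 2)))
    (Nat.sub (Nat.add (Nat.add (Nat.add (Nat.add (Nat.add (Nat.add (Nat.add (Nat.add (Nat.add (Nat.add (Nat.add (Nat.add (Nat.add C x29037) x46533) x40701) x42645) x41997) x42105) x42213) x42141) x42177) x42153) x42165) x42157) x22477) (Nat.mul x42159 (nat_lit 3)))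
    (Nat.sub (Nat.add (Nat.add (Nat.add (Nat.add (Nat.add (Nat.add (Nat.add (Nat.add (Nat.add (Nat.add C x29043) x46539) x40707) x42651) x42003) x42111) x42219) x42183) x42159) x22483) (Nat.mul x42165 (nat_lit 3)))
    (Nat.sub (Nat.add (Nat.add (Nat.add (Nat.add (Nat.add (Nat.add (Nat.add (Nat.add (Nat.add C x29053) x46549) x40717) x42661) x42013) x42229) x42157) x42177) x22493) (Nat.mul x42175 (nat_lit 2)))
    (Nat.sub (Nat.add (Nat.add (Nat.add (Nat.add (Nat.add (Nat.add (Nat.add (Nat.add (Nat.add (Nat.add C x29055) x46551) x40719) x42663) x42015) x42231) x42159) x42183) x42175) x22495) (Nat.mul x42177 (nat_lit 4)))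
    (Nat.sub (Nat.add (Nat.add (Nat.add (Nat.add (Nat.add (Nat.add (Nat.add (Nat.add (Nat.add C x29061) x46557) x40725) x42669) x42021) x42237) x42165) x42177) x22501) (Nat.mul x42183 (nat_lit 2)))
    (Nat.add (Nat.add (Nat.add (Nat.add (Nat.add (Nat.add C x29081) x46577) x40745) x42689) x42149) x42205)
    (Nat.sub (Nat.add (Nat.add (Nat.add (Nat.add (Nat.add (Nat.add (Nat.add (Nat.add (Nat.add C x29083) x46579) x40747) x42691) x42151) x42211) x42203) x42207) x22523) x42205)
    (Nat.sub (Nat.add (Nat.add (Nat.add (Nat.add (Nat.add (Nat.add (Nat.add (Nat.add C x29085) x46581) x40749) x42693) x42153) x42213) x42205) x22525) (Nat.mul x42207 (nat_lit 4)))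
    (Nat.sub (Nat.add (Nat.add (Nat.add (Nat.add (Nat.add (Nat.add (Nat.add (Nat.add (Nat.add C x29089) x46585) x40753) x42697) x42157) x42229) x42205) x42213) x22529) (Nat.mul x42211 (nat_lit 2)))
    (Nat.sub (Nat.add (Nat.add (Nat.add (Nat.add (Nat.add (Nat.add (Nat.add (Nat.add (Nat.add (Nat.add C x29091) x46587) x40755) x42699) x42159) x42231) x42207) x42219) x42211) x22531) (Nat.mul x42213 (nat_lit 3)))
    (Nat.sub (Nat.add (Nat.add (Nat.add (Nat.add (Nat.add (Nat.add (Nat.add (Nat.add C x29097) x46593) x40761) x42705) x42165) x42237) x42213) x22537) (Nat.mul x42219 (nat_lit 4)))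
    (Nat.add (Nat.add (Nat.add (Nat.add (Nat.add (Nat.add (Nat.add (Nat.add C x29107) x46603) x40771) x42715) x42175) x42211) x42231) x22547)
    (Nat.sub (Nat.add (Nat.add (Nat.add (Nat.add (Nat.add (Nat.add (Nat.add (Nat.add (Nat.add C x29109) x46605) x40773) x42717) x42177) x42213) x42237) x42229) x22549) (Nat.mul x42231 (nat_lit 2)))
    (Nat.sub (Nat.add (Nat.add (Nat.add (Nat.add (Nat.add (Nat.add (Nat.add (Nat.add (Nat.add C x29115) x46611) x40779) x42723) x42183) x42219) x42255) x42231) x22555) x42237)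
    (Nat.add (Nat.add (Nat.add (Nat.add (Nat.add (Nat.add C x29133) x46629) x40797) x42741) x42237) x22573)
    (Nat.add (Nat.add (Nat.add (Nat.add (Nat.add (Nat.add (Nat.add (Nat.add C (Nat.mul x42299 (nat_lit 3))) x29177) x46673) x40841) x43757) x41813) x42317) x42305)
    (Nat.add (Nat.add (Nat.add (Nat.add (Nat.add (Nat.add (Nat.add (Nat.add (Nat.add C x42305) x29183) x46679) x40847) x43763) x41819) x42323) x42299) x42307)
    (Nat.add (Nat.add (Nat.add (Nat.add (Nat.add (Nat.add (Nat.add (Nat.add (Nat.add C x42307) x29185) x46681) x40849) x43765) x41821) x42325) x42305) x22625)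
    (Nat.add (Nat.add (Nat.add (Nat.add (Nat.add (Nat.add (Nat.add (Nat.add (Nat.add C x42317) x29195) x46691) x40859) x43775) x41831) x42371) x42299) x42323)
    (Nat.add (Nat.add (Nat.add (Nat.add (Nat.add (Nat.add (Nat.add (Nat.add (Nat.add (Nat.add (Nat.add (Nat.add C x42323) x29201) x46697) x40865) x43781) x41837) x42377) x42305) x42341) x42317) x42329) x42325)
    (Nat.add (Nat.add (Nat.add (Nat.add (Nat.add (Nat.add (Nat.add (Nat.add (Nat.add (Nat.add (Nat.add C x29203) x46699) x40867) x43783) x41839) x42379) x42307) x42343) x42331) x42323) x22643)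
    (Nat.sub (Nat.add (Nat.add (Nat.add (Nat.add (Nat.add (Nat.add (Nat.add (Nat.add (Nat.add C x29207) x46703) x40871) x43787) x41843) x42383) x42347) x42323) x42331) x42329)
    (Nat.add (Nat.add (Nat.add (Nat.add (Nat.add (Nat.add (Nat.add (Nat.add (Nat.add (Nat.add (Nat.add C x29209) x46705) x40873) x43789) x41845) x42385) x42349) x42325) x42329) x42333) x22649)
    (Nat.sub (Nat.add (Nat.add (Nat.add (Nat.add (Nat.add (Nat.add (Nat.add (Nat.add (Nat.add C x29211) x46707) x40875) x43791) x41847) x42387) x42351) x42331) x22651) x42333)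
    (Nat.sub (Nat.add (Nat.add (Nat.add (Nat.add (Nat.add (Nat.add (Nat.add (Nat.add (Nat.add C x29219) x46715) x40883) x43799) x41855) x42395) x42323) x42347) x42343) x42341)
    (Nat.sub (Nat.add (Nat.add (Nat.add (Nat.add (Nat.add (Nat.add (Nat.add (Nat.add (Nat.add (Nat.add C x29221) x46717) x40885) x43801) x41857) x42397) x42325) x42349) x42341) x22661) (Nat.mul x42343 (nat_lit 3)))
    (Nat.sub (Nat.add (Nat.add (Nat.add (Nat.add (Nat.add (Nat.add (Nat.add (Nat.add (Nat.add C x29225) x46721) x40889) x43805) x41861) x42401) x42329) x42341) x42349) x42347)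
    (Nat.sub (Nat.add (Nat.add (Nat.add (Nat.add (Nat.add (Nat.add (Nat.add (Nat.add (Nat.add (Nat.add (Nat.add (Nat.add C x29227) x46723) x40891) x43807) x41863) x42403) x42331) x42343) x42355) x42347) x42351) x22667) x42349)
    (Nat.sub (Nat.add (Nat.add (Nat.add (Nat.add (Nat.add (Nat.add (Nat.add (Nat.add (Nat.add (Nat.add C x29229) x46725) x40893) x43809) x41865) x42405) x42333) x42357) x42349) x22669) (Nat.mul x42351 (nat_lit 3)))
    (Nat.sub (Nat.add (Nat.add (Nat.add (Nat.add (Nat.add (Nat.add (Nat.add (Nat.add (Nat.add C x29233) x46729) x40897) x43813) x41869) x42409) x42349) x42357) x22673) x42355)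
    (Nat.sub (Nat.add (Nat.add (Nat.add (Nat.add (Nat.add (Nat.add (Nat.add (Nat.add (Nat.add C x29235) x46731) x40899) x43815) x41871) x42411) x42351) x42355) x22675) x42357)
    (Nat.add (Nat.add (Nat.add (Nat.add (Nat.add (Nat.add (Nat.add (Nat.add (Nat.add C x42371) x29249) x46745) x40913) x43829) x41885) x42533) x42317) x42377)
    (Nat.add (Nat.add (Nat.add (Nat.add (Nat.add (Nat.add (Nat.add (Nat.add (Nat.add (Nat.add (Nat.add C x29255) x46751) x40919) x43835) x41891) x42539) x42323) x42395) x42371) x42383) x42379)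
    (Nat.sub (Nat.add (Nat.add (Nat.add (Nat.add (Nat.add (Nat.add (Nat.add (Nat.add (Nat.add (Nat.add (Nat.add C x29257) x46753) x40921) x43837) x41893) x42541) x42325) x42397) x42385) x42377) x22697) x42379)
    (Nat.sub (Nat.add (Nat.add (Nat.add (Nat.add (Nat.add (Nat.add (Nat.add (Nat.add (Nat.add (Nat.add C x29261) x46757) x40925) x43841) x41897) x42545) x42329) x42401) x42377) x42385) (Nat.mul x42383 (nat_lit 3)))
    (Nat.sub (Nat.add (Nat.add (Nat.add (Nat.add (Nat.add (Nat.add (Nat.add (Nat.add (Nat.add (Nat.add (Nat.add (Nat.add C x29263) x46759) x40927) x43843) x41899) x42547) x42331) x42403) x42379) x42383) x42387) x22703) (Nat.mul x42385 (nat_lit 2)))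
    (Nat.sub (Nat.add (Nat.add (Nat.add (Nat.add (Nat.add (Nat.add (Nat.add (Nat.add (Nat.add (Nat.add C x29265) x46761) x40929) x43845) x41901) x42549) x42333) x42405) x42385) x22705) (Nat.mul x42387 (nat_lit 3)))
    (Nat.add (Nat.add (Nat.add (Nat.add (Nat.add (Nat.add (Nat.add (Nat.add (Nat.add (Nat.add (Nat.add C x29273) x46769) x40937) x43853) x41909) x42557) x42341) x42449) x42377) x42401) x42397)
    (Nat.sub (Nat.add (Nat.add (Nat.add (Nat.add (Nat.add (Nat.add (Nat.add (Nat.add (Nat.add (Nat.add (Nat.add (Nat.add C x29275) x46771) x40939) x43855) x41911) x42559) x42343) x42451) x42379) x42403) x42395) x22715) (Nat.mul x42397 (nat_lit 2)))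
    (Nat.sub (Nat.add (Nat.add (Nat.add (Nat.add (Nat.add (Nat.add (Nat.add (Nat.add (Nat.add (Nat.add (Nat.add (Nat.add C x29279) x46775) x40943) x43859) x41915) x42563) x42347) x42455) x42383) x42419) x42395) x42403) x42401)
    (Nat.sub (Nat.add (Nat.add (Nat.add (Nat.add (Nat.add (Nat.add (Nat.add (Nat.add (Nat.add (Nat.add (Nat.add (Nat.add (Nat.add (Nat.add (Nat.add C x29281) x46777) x40945) x43861) x41917) x42565) x42349) x42457) x42385) x42421) x42397) x42409) x42401) x42405) x22721) x42403)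
    (Nat.sub (Nat.add (Nat.add (Nat.add (Nat.add (Nat.add (Nat.add (Nat.add (Nat.add (Nat.add (Nat.add (Nat.add (Nat.add (Nat.add C x29283) x46779) x40947) x43863) x41919) x42567) x42351) x42459) x42387) x42423) x42411) x42403) x22723) (Nat.mul x42405 (nat_lit 3)))
    (Nat.sub (Nat.add (Nat.add (Nat.add (Nat.add (Nat.add (Nat.add (Nat.add (Nat.add (Nat.add (Nat.add (Nat.add (Nat.add C x29287) x46783) x40951) x43867) x41923) x42571) x42355) x42463) x42427) x42403) x42411) x22727) (Nat.mul x42409 (nat_lit 2)))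
    (Nat.sub (Nat.add (Nat.add (Nat.add (Nat.add (Nat.add (Nat.add (Nat.add (Nat.add (Nat.add (Nat.add (Nat.add (Nat.add C x29289) x46785) x40953) x43869) x41925) x42573) x42357) x42465) x42429) x42405) x42409) x22729) (Nat.mul x42411 (nat_lit 2)))
    (Nat.sub (Nat.add (Nat.add (Nat.add (Nat.add (Nat.add (Nat.add (Nat.add (Nat.add (Nat.add C x29297) x46793) x40961) x43877) x41933) x42581) x42473) x42401) x42421) x42419)
    (Nat.sub (Nat.add (Nat.add (Nat.add (Nat.add (Nat.add (Nat.add (Nat.add (Nat.add (Nat.add (Nat.add (Nat.add (Nat.add C x29299) x46795) x40963) x43879) x41935) x42583) x42475) x42403) x42427) x42419) x42423) x22739) (Nat.mul x42421 (nat_lit 2)))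
    (Nat.sub (Nat.add (Nat.add (Nat.add (Nat.add (Nat.add (Nat.add (Nat.add (Nat.add (Nat.add (Nat.add (Nat.add C x29301) x46797) x40965) x43881) x41937) x42585) x42477) x42405) x42429) x42421) x22741) (Nat.mul x42423 (nat_lit 5)))
    (Nat.sub (Nat.add (Nat.add (Nat.add (Nat.add (Nat.add (Nat.add (Nat.add (Nat.add (Nat.add (Nat.add (Nat.add C x29305) x46801) x40969) x43885) x41941) x42589) x42481) x42409) x42421) x42429) x22745) x42427)
    (Nat.sub (Nat.add (Nat.add (Nat.add (Nat.add (Nat.add (Nat.add (Nat.add (Nat.add (Nat.add (Nat.add (Nat.add (Nat.add C x29307) x46803) x40971) x43887) x41943) x42591) x42483) x42411) x42423) x42435) x42427) x22747) (Nat.mul x42429 (nat_lit 2)))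
    (Nat.sub (Nat.add (Nat.add (Nat.add (Nat.add (Nat.add (Nat.add (Nat.add (Nat.add (Nat.add C x29313) x46809) x40977) x43893) x41949) x42597) x42489) x42429) x22753) x42435)
    (Nat.sub (Nat.add (Nat.add (Nat.add (Nat.add (Nat.add (Nat.add (Nat.add (Nat.add (Nat.add C x29327) x46823) x40991) x43907) x41963) x42611) x42395) x42455) x42451) x42449)
    (Nat.sub (Nat.add (Nat.add (Nat.add (Nat.add (Nat.add (Nat.add (Nat.add (Nat.add (Nat.add (Nat.add C x29329) x46825) x40993) x43909) x41965) x42613) x42397) x42457) x42449) x22769) (Nat.mul x42451 (nat_lit 3)))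
    (Nat.sub (Nat.add (Nat.add (Nat.add (Nat.add (Nat.add (Nat.add (Nat.add (Nat.add (Nat.add (Nat.add C x29333) x46829) x40997) x43913) x41969) x42617) x42401) x42473) x42449) x42457) (Nat.mul x42455 (nat_lit 3)))
    (Nat.sub (Nat.add (Nat.add (Nat.add (Nat.add (Nat.add (Nat.add (Nat.add (Nat.add (Nat.add (Nat.add (Nat.add (Nat.add (Nat.add C x29335) x46831) x40999) x43915) x41971) x42619) x42403) x42475) x42451) x42463) x42455) x42459) x22775) (Nat.mul x42457 (nat_lit 3)))
    (Nat.sub (Nat.add (Nat.add (Nat.add (Nat.add (Nat.add (Nat.add (Nat.add (Nat.add (Nat.add (Nat.add (Nat.add C x29337) x46833) x41001) x43917) x41973) x42621) x42405) x42477) x42465) x42457) x22777) (Nat.mul x42459 (nat_lit 5)))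
    (Nat.sub (Nat.add (Nat.add (Nat.add (Nat.add (Nat.add (Nat.add (Nat.add (Nat.add (Nat.add (Nat.add (Nat.add C x29341) x46837) x41005) x43921) x41977) x42625) x42409) x42481) x42457) x42465) x22781) (Nat.mul x42463 (nat_lit 5)))
    (Nat.sub (Nat.add (Nat.add (Nat.add (Nat.add (Nat.add (Nat.add (Nat.add (Nat.add (Nat.add (Nat.add (Nat.add C x29343) x46839) x41007) x43923) x41979) x42627) x42411) x42483) x42459) x42463) x22783) (Nat.mul x42465 (nat_lit 5)))
    (Nat.sub (Nat.add (Nat.add (Nat.add (Nat.add (Nat.add (Nat.add (Nat.add (Nat.add (Nat.add C x29351) x46847) x41015) x43931) x41987) x42635) x42419) x42455) x42475) x42473)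
    (Nat.sub (Nat.add (Nat.add (Nat.add (Nat.add (Nat.add (Nat.add (Nat.add (Nat.add (Nat.add (Nat.add (Nat.add (Nat.add C x29353) x46849) x41017) x43933) x41989) x42637) x42421) x42457) x42481) x42473) x42477) x22793) (Nat.mul x42475 (nat_lit 2)))
    (Nat.sub (Nat.add (Nat.add (Nat.add (Nat.add (Nat.add (Nat.add (Nat.add (Nat.add (Nat.add (Nat.add (Nat.add C x29355) x46851) x41019) x43935) x41991) x42639) x42423) x42459) x42483) x42475) x22795) (Nat.mul x42477 (nat_lit 5)))
    (Nat.sub (Nat.add (Nat.add (Nat.add (Nat.add (Nat.add (Nat.add (Nat.add (Nat.add (Nat.add (Nat.add (Nat.add (Nat.add C x29359) x46855) x41023) x43939) x41995) x42643) x42427) x42463) x42499) x42475) x42483) x22799) (Nat.mul x42481 (nat_lit 2)))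
    (Nat.sub (Nat.add (Nat.add (Nat.add (Nat.add (Nat.add (Nat.add (Nat.add (Nat.add (Nat.add (Nat.add (Nat.add (Nat.add (Nat.add C x29361) x46857) x41025) x43941) x41997) x42645) x42429) x42465) x42501) x42477) x42489) x42481) x22801) (Nat.mul x42483 (nat_lit 3)))
    (Nat.sub (Nat.add (Nat.add (Nat.add (Nat.add (Nat.add (Nat.add (Nat.add (Nat.add (Nat.add (Nat.add C x29367) x46863) x41031) x43947) x42003) x42651) x42435) x42507) x42483) x22807) (Nat.mul x42489 (nat_lit 3)))
    (Nat.sub (Nat.add (Nat.add (Nat.add (Nat.add (Nat.add (Nat.add (Nat.add (Nat.add (Nat.add C x29377) x46873) x41041) x43957) x42013) x42661) x42481) x42501) x22817) x42499)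
    (Nat.sub (Nat.add (Nat.add (Nat.add (Nat.add (Nat.add (Nat.add (Nat.add (Nat.add (Nat.add (Nat.add C x29379) x46875) x41043) x43959) x42015) x42663) x42483) x42507) x42499) x22819) (Nat.mul x42501 (nat_lit 3)))
    (Nat.sub (Nat.add (Nat.add (Nat.add (Nat.add (Nat.add (Nat.add (Nat.add (Nat.add (Nat.add C x29385) x46881) x41049) x43965) x42021) x42669) x42489) x42501) x22825) x42507)
    (Nat.add (Nat.add (Nat.add (Nat.add (Nat.add (Nat.add (Nat.add (Nat.add (Nat.add C (Nat.mul x42533 (nat_lit 2))) x29411) x46907) x41075) x43991) x42047) x43019) x42371) x42539)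
    (Nat.add (Nat.add (Nat.add (Nat.add (Nat.add (Nat.add (Nat.add (Nat.add (Nat.add (Nat.add (Nat.add (Nat.add C x42539) x29417) x46913) x41081) x43997) x42053) x43025) x42377) x42557) x42533) x42545) x42541)
    (Nat.add (Nat.add (Nat.add (Nat.add (Nat.add (Nat.add (Nat.add (Nat.add (Nat.add (Nat.add (Nat.add C x29419) x46915) x41083) x43999) x42055) x43027) x42379) x42559) x42547) x42539) x22859)
    (Nat.sub (Nat.add (Nat.add (Nat.add (Nat.add (Nat.add (Nat.add (Nat.add (Nat.add (Nat.add (Nat.add C x29423) x46919) x41087) x44003) x42059) x43031) x42383) x42563) x42539) x42547) (Nat.mul x42545 (nat_lit 2)))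
    (Nat.sub (Nat.add (Nat.add (Nat.add (Nat.add (Nat.add (Nat.add (Nat.add (Nat.add (Nat.add (Nat.add (Nat.add (Nat.add C x29425) x46921) x41089) x44005) x42061) x43033) x42385) x42565) x42541) x42545) x42549) x22865) x42547)
    (Nat.sub (Nat.add (Nat.add (Nat.add (Nat.add (Nat.add (Nat.add (Nat.add (Nat.add (Nat.add (Nat.add C x29427) x46923) x41091) x44007) x42063) x43035) x42387) x42567) x42547) x22867) (Nat.mul x42549 (nat_lit 2)))
    (Nat.add (Nat.add (Nat.add (Nat.add (Nat.add (Nat.add (Nat.add (Nat.add (Nat.add (Nat.add (Nat.add C x29435) x46931) x41099) x44015) x42071) x43043) x42395) x42611) x42539) x42563) x42559)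
    (Nat.sub (Nat.add (Nat.add (Nat.add (Nat.add (Nat.add (Nat.add (Nat.add (Nat.add (Nat.add (Nat.add (Nat.add (Nat.add C x29437) x46933) x41101) x44017) x42073) x43045) x42397) x42613) x42541) x42565) x42557) x22877) (Nat.mul x42559 (nat_lit 2)))
    (Nat.sub (Nat.add (Nat.add (Nat.add (Nat.add (Nat.add (Nat.add (Nat.add (Nat.add (Nat.add (Nat.add (Nat.add (Nat.add C x29441) x46937) x41105) x44021) x42077) x43049) x42401) x42617) x42545) x42581) x42557) x42565) x42563)
    (Nat.sub (Nat.add (Nat.add (Nat.add (Nat.add (Nat.add (Nat.add (Nat.add (Nat.add (Nat.add (Nat.add (Nat.add (Nat.add (Nat.add (Nat.add (Nat.add C x29443) x46939) x41107) x44023) x42079) x43051) x42403) x42619) x42547) x42583) x42559) x42571) x42563) x42567) x22883) x42565)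
    (Nat.sub (Nat.add (Nat.add (Nat.add (Nat.add (Nat.add (Nat.add (Nat.add (Nat.add (Nat.add (Nat.add (Nat.add (Nat.add (Nat.add C x29445) x46941) x41109) x44025) x42081) x43053) x42405) x42621) x42549) x42585) x42573) x42565) x22885) (Nat.mul x42567 (nat_lit 3)))
    (Nat.sub (Nat.add (Nat.add (Nat.add (Nat.add (Nat.add (Nat.add (Nat.add (Nat.add (Nat.add (Nat.add (Nat.add (Nat.add C x29449) x46945) x41113) x44029) x42085) x43057) x42409) x42625) x42589) x42565) x42573) x22889) (Nat.mul x42571 (nat_lit 2)))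
    (Nat.sub (Nat.add (Nat.add (Nat.add (Nat.add (Nat.add (Nat.add (Nat.add (Nat.add (Nat.add (Nat.add (Nat.add (Nat.add C x29451) x46947) x41115) x44031) x42087) x43059) x42411) x42627) x42591) x42567) x42571) x22891) (Nat.mul x42573 (nat_lit 2)))
    (Nat.sub (Nat.add (Nat.add (Nat.add (Nat.add (Nat.add (Nat.add (Nat.add (Nat.add (Nat.add (Nat.add C x29459) x46955) x41123) x44039) x42095) x43067) x42419) x42635) x42563) x42583) (Nat.mul x42581 (nat_lit 2)))
    (Nat.sub (Nat.add (Nat.add (Nat.add (Nat.add (Nat.add (Nat.add (Nat.add (Nat.add (Nat.add (Nat.add (Nat.add (Nat.add (Nat.add C x29461) x46957) x41125) x44041) x42097) x43069) x42421) x42637) x42565) x42589) x42581) x42585) x22901) (Nat.mul x42583 (nat_lit 3)))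
    (Nat.sub (Nat.add (Nat.add (Nat.add (Nat.add (Nat.add (Nat.add (Nat.add (Nat.add (Nat.add (Nat.add (Nat.add (Nat.add C x29463) x46959) x41127) x44043) x42099) x43071) x42423) x42639) x42567) x42591) x42583) x22903) (Nat.mul x42585 (nat_lit 6)))
    (Nat.sub (Nat.add (Nat.add (Nat.add (Nat.add (Nat.add (Nat.add (Nat.add (Nat.add (Nat.add (Nat.add (Nat.add (Nat.add C x29467) x46963) x41131) x44047) x42103) x43075) x42427) x42643) x42571) x42583) x42591) x22907) (Nat.mul x42589 (nat_lit 2)))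
    (Nat.sub (Nat.add (Nat.add (Nat.add (Nat.add (Nat.add (Nat.add (Nat.add (Nat.add (Nat.add (Nat.add (Nat.add (Nat.add (Nat.add C x29469) x46965) x41133) x44049) x42105) x43077) x42429) x42645) x42573) x42585) x42597) x42589) x22909) (Nat.mul x42591 (nat_lit 3)))
    (Nat.sub (Nat.add (Nat.add (Nat.add (Nat.add (Nat.add (Nat.add (Nat.add (Nat.add (Nat.add (Nat.add C x29475) x46971) x41139) x44055) x42111) x43083) x42435) x42651) x42591) x22915) (Nat.mul x42597 (nat_lit 2)))
    (Nat.add (Nat.add (Nat.add (Nat.add (Nat.add (Nat.add (Nat.add (Nat.add (Nat.add (Nat.add (Nat.add (Nat.add C x42611) x29489) x46985) x41153) x44069) x42125) x43097) x42449) x42773) x42557) x42617) x42613)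
    (Nat.sub (Nat.add (Nat.add (Nat.add (Nat.add (Nat.add (Nat.add (Nat.add (Nat.add (Nat.add (Nat.add (Nat.add (Nat.add C x29491) x46987) x41155) x44071) x42127) x43099) x42451) x42775) x42559) x42619) x42611) x22931) x42613)
    (Nat.sub (Nat.add (Nat.add (Nat.add (Nat.add (Nat.add (Nat.add (Nat.add (Nat.add (Nat.add (Nat.add (Nat.add (Nat.add C x29495) x46991) x41159) x44075) x42131) x43103) x42455) x42779) x42563) x42635) x42611) x42619) x42617)
    (Nat.sub (Nat.add (Nat.add (Nat.add (Nat.add (Nat.add (Nat.add (Nat.add (Nat.add (Nat.add (Nat.add (Nat.add (Nat.add (Nat.add (Nat.add (Nat.add C x29497) x46993) x41161) x44077) x42133) x43105) x42457) x42781) x42565) x42637) x42613) x42625) x42617) x42621) x22937) x42619)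
    (Nat.sub (Nat.add (Nat.add (Nat.add (Nat.add (Nat.add (Nat.add (Nat.add (Nat.add (Nat.add (Nat.add (Nat.add (Nat.add (Nat.add C x29499) x46995) x41163) x44079) x42135) x43107) x42459) x42783) x42567) x42639) x42627) x42619) x22939) (Nat.mul x42621 (nat_lit 3)))
    (Nat.sub (Nat.add (Nat.add (Nat.add (Nat.add (Nat.add (Nat.add (Nat.add (Nat.add (Nat.add (Nat.add (Nat.add (Nat.add (Nat.add C x29503) x46999) x41167) x44083) x42139) x43111) x42463) x42787) x42571) x42643) x42619) x42627) x22943) (Nat.mul x42625 (nat_lit 3)))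
    (Nat.sub (Nat.add (Nat.add (Nat.add (Nat.add (Nat.add (Nat.add (Nat.add (Nat.add (Nat.add (Nat.add (Nat.add (Nat.add (Nat.add C x29505) x47001) x41169) x44085) x42141) x43113) x42465) x42789) x42573) x42645) x42621) x42625) x22945) (Nat.mul x42627 (nat_lit 3)))
    (Nat.add (Nat.add (Nat.add (Nat.add (Nat.add (Nat.add (Nat.add (Nat.add (Nat.add (Nat.add (Nat.add (Nat.add C x29513) x47009) x41177) x44093) x42149) x43121) x42473) x42797) x42581) x42689) x42617) x42637)
    (Nat.sub (Nat.add (Nat.add (Nat.add (Nat.add (Nat.add (Nat.add (Nat.add (Nat.add (Nat.add (Nat.add (Nat.add (Nat.add (Nat.add (Nat.add (Nat.add C x29515) x47011) x41179) x44095) x42151) x43123) x42475) x42799) x42583) x42691) x42619) x42643) x42635) x42639) x22955) x42637)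
    (Nat.sub (Nat.add (Nat.add (Nat.add (Nat.add (Nat.add (Nat.add (Nat.add (Nat.add (Nat.add (Nat.add (Nat.add (Nat.add (Nat.add (Nat.add C x29517) x47013) x41181) x44097) x42153) x43125) x42477) x42801) x42585) x42693) x42621) x42645) x42637) x22957) (Nat.mul x42639 (nat_lit 4)))
    (Nat.sub (Nat.add (Nat.add (Nat.add (Nat.add (Nat.add (Nat.add (Nat.add (Nat.add (Nat.add (Nat.add (Nat.add (Nat.add (Nat.add (Nat.add (Nat.add C x29521) x47017) x41185) x44101) x42157) x43129) x42481) x42805) x42589) x42697) x42625) x42661) x42637) x42645) x22961) x42643)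
    (Nat.sub (Nat.add (Nat.add (Nat.add (Nat.add (Nat.add (Nat.add (Nat.add (Nat.add (Nat.add (Nat.add (Nat.add (Nat.add (Nat.add (Nat.add (Nat.add (Nat.add C x29523) x47019) x41187) x44103) x42159) x43131) x42483) x42807) x42591) x42699) x42627) x42663) x42639) x42651) x42643) x22963) (Nat.mul x42645 (nat_lit 2)))
    (Nat.sub (Nat.add (Nat.add (Nat.add (Nat.add (Nat.add (Nat.add (Nat.add (Nat.add (Nat.add (Nat.add (Nat.add (Nat.add (Nat.add C x29529) x47025) x41193) x44109) x42165) x43137) x42489) x42813) x42597) x42705) x42669) x42645) x22969) (Nat.mul x42651 (nat_lit 2)))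
    (Nat.sub (Nat.add (Nat.add (Nat.add (Nat.add (Nat.add (Nat.add (Nat.add (Nat.add (Nat.add (Nat.add (Nat.add (Nat.add C x29539) x47035) x41203) x44119) x42175) x43147) x42499) x42823) x42715) x42643) x42663) x22979) x42661)
    (Nat.sub (Nat.add (Nat.add (Nat.add (Nat.add (Nat.add (Nat.add (Nat.add (Nat.add (Nat.add (Nat.add (Nat.add (Nat.add (Nat.add C x29541) x47037) x41205) x44121) x42177) x43149) x42501) x42825) x42717) x42645) x42669) x42661) x22981) (Nat.mul x42663 (nat_lit 3)))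
    (Nat.sub (Nat.add (Nat.add (Nat.add (Nat.add (Nat.add (Nat.add (Nat.add (Nat.add (Nat.add (Nat.add (Nat.add (Nat.add C x29547) x47043) x41211) x44127) x42183) x43155) x42507) x42831) x42723) x42651) x42663) x22987) x42669)
    (Nat.add (Nat.add (Nat.add (Nat.add (Nat.add (Nat.add (Nat.add (Nat.add (Nat.add C x29567) x47063) x41231) x44147) x42203) x43175) x42851) x42635) x42691)
    (Nat.sub (Nat.add (Nat.add (Nat.add (Nat.add (Nat.add (Nat.add (Nat.add (Nat.add (Nat.add (Nat.add (Nat.add (Nat.add C x29569) x47065) x41233) x44149) x42205) x43177) x42853) x42637) x42697) x42689) x42693) x23009) x42691)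
    (Nat.sub (Nat.add (Nat.add (Nat.add (Nat.add (Nat.add (Nat.add (Nat.add (Nat.add (Nat.add (Nat.add (Nat.add C x29571) x47067) x41235) x44151) x42207) x43179) x42855) x42639) x42699) x42691) x23011) (Nat.mul x42693 (nat_lit 4)))
    (Nat.sub (Nat.add (Nat.add (Nat.add (Nat.add (Nat.add (Nat.add (Nat.add (Nat.add (Nat.add (Nat.add (Nat.add (Nat.add C x29575) x47071) x41239) x44155) x42211) x43183) x42859) x42643) x42715) x42691) x42699) x23015) (Nat.mul x42697 (nat_lit 2)))
    (Nat.sub (Nat.add (Nat.add (Nat.add (Nat.add (Nat.add (Nat.add (Nat.add (Nat.add (Nat.add (Nat.add (Nat.add (Nat.add (Nat.add C x29577) x47073) x41241) x44157) x42213) x43185) x42861) x42645) x42717) x42693) x42705) x42697) x23017) (Nat.mul x42699 (nat_lit 3)))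
    (Nat.sub (Nat.add (Nat.add (Nat.add (Nat.add (Nat.add (Nat.add (Nat.add (Nat.add (Nat.add (Nat.add (Nat.add C x29583) x47079) x41247) x44163) x42219) x43191) x42867) x42651) x42723) x42699) x23023) (Nat.mul x42705 (nat_lit 4)))
    (Nat.add (Nat.add (Nat.add (Nat.add (Nat.add (Nat.add (Nat.add (Nat.add (Nat.add (Nat.add (Nat.add C x29593) x47089) x41257) x44173) x42229) x43201) x42877) x42661) x42697) x42717) x23033)
    (Nat.sub (Nat.add (Nat.add (Nat.add (Nat.add (Nat.add (Nat.add (Nat.add (Nat.add (Nat.add (Nat.add (Nat.add (Nat.add C x29595) x47091) x41259) x44175) x42231) x43203) x42879) x42663) x42699) x42723) x42715) x23035) (Nat.mul x42717 (nat_lit 2)))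
    (Nat.sub (Nat.add (Nat.add (Nat.add (Nat.add (Nat.add (Nat.add (Nat.add (Nat.add (Nat.add (Nat.add (Nat.add (Nat.add C x29601) x47097) x41265) x44181) x42237) x43209) x42885) x42669) x42705) x42741) x42717) x23041) x42723)
    (Nat.add (Nat.add (Nat.add (Nat.add (Nat.add (Nat.add (Nat.add (Nat.add (Nat.add C x29619) x47115) x41283) x44199) x42255) x43227) x42903) x42723) x23059)
    (Nat.add (Nat.add (Nat.add (Nat.add (Nat.add (Nat.add (Nat.add (Nat.add (Nat.add C x42773) x29651) x47147) x41315) x44231) x43259) x42611) x42779) x42775)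
    (Nat.sub (Nat.add (Nat.add (Nat.add (Nat.add (Nat.add (Nat.add (Nat.add (Nat.add (Nat.add C x29653) x47149) x41317) x44233) x43261) x42613) x42781) x42773) x23093) x42775)
    (Nat.sub (Nat.add (Nat.add (Nat.add (Nat.add (Nat.add (Nat.add (Nat.add (Nat.add (Nat.add C x29657) x47153) x41321) x44237) x43265) x42617) x42797) x42773) x42781) x42779)
    (Nat.sub (Nat.add (Nat.add (Nat.add (Nat.add (Nat.add (Nat.add (Nat.add (Nat.add (Nat.add (Nat.add (Nat.add (Nat.add C x29659) x47155) x41323) x44239) x43267) x42619) x42799) x42775) x42787) x42779) x42783) x23099) x42781)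
    (Nat.sub (Nat.add (Nat.add (Nat.add (Nat.add (Nat.add (Nat.add (Nat.add (Nat.add (Nat.add (Nat.add C x29661) x47157) x41325) x44241) x43269) x42621) x42801) x42789) x42781) x23101) (Nat.mul x42783 (nat_lit 3)))
    (Nat.sub (Nat.add (Nat.add (Nat.add (Nat.add (Nat.add (Nat.add (Nat.add (Nat.add (Nat.add (Nat.add C x29665) x47161) x41329) x44245) x43273) x42625) x42805) x42781) x42789) x23105) (Nat.mul x42787 (nat_lit 3)))
    (Nat.sub (Nat.add (Nat.add (Nat.add (Nat.add (Nat.add (Nat.add (Nat.add (Nat.add (Nat.add (Nat.add C x29667) x47163) x41331) x44247) x43275) x42627) x42807) x42783) x42787) x23107) (Nat.mul x42789 (nat_lit 3)))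
    (Nat.sub (Nat.add (Nat.add (Nat.add (Nat.add (Nat.add (Nat.add (Nat.add (Nat.add (Nat.add C x29675) x47171) x41339) x44255) x43283) x42635) x42851) x42779) x42799) x42797)
    (Nat.sub (Nat.add (Nat.add (Nat.add (Nat.add (Nat.add (Nat.add (Nat.add (Nat.add (Nat.add (Nat.add (Nat.add (Nat.add C x29677) x47173) x41341) x44257) x43285) x42637) x42853) x42781) x42805) x42797) x42801) x23117) (Nat.mul x42799 (nat_lit 2)))
    (Nat.sub (Nat.add (Nat.add (Nat.add (Nat.add (Nat.add (Nat.add (Nat.add (Nat.add (Nat.add (Nat.add (Nat.add C x29679) x47175) x41343) x44259) x43287) x42639) x42855) x42783) x42807) x42799) x23119) (Nat.mul x42801 (nat_lit 5)))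
    (Nat.sub (Nat.add (Nat.add (Nat.add (Nat.add (Nat.add (Nat.add (Nat.add (Nat.add (Nat.add (Nat.add (Nat.add (Nat.add C x29683) x47179) x41347) x44263) x43291) x42643) x42859) x42787) x42823) x42799) x42807) x23123) (Nat.mul x42805 (nat_lit 2)))
    (Nat.sub (Nat.add (Nat.add (Nat.add (Nat.add (Nat.add (Nat.add (Nat.add (Nat.add (Nat.add (Nat.add (Nat.add (Nat.add (Nat.add C x29685) x47181) x41349) x44265) x43293) x42645) x42861) x42789) x42825) x42801) x42813) x42805) x23125) (Nat.mul x42807 (nat_lit 3)))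
    (Nat.sub (Nat.add (Nat.add (Nat.add (Nat.add (Nat.add (Nat.add (Nat.add (Nat.add (Nat.add (Nat.add C x29691) x47187) x41355) x44271) x43299) x42651) x42867) x42831) x42807) x23131) (Nat.mul x42813 (nat_lit 3)))
    (Nat.sub (Nat.add (Nat.add (Nat.add (Nat.add (Nat.add (Nat.add (Nat.add (Nat.add (Nat.add (Nat.add C x29701) x47197) x41365) x44281) x43309) x42661) x42877) x42805) x42825) x23141) (Nat.mul x42823 (nat_lit 3)))
    (Nat.sub (Nat.add (Nat.add (Nat.add (Nat.add (Nat.add (Nat.add (Nat.add (Nat.add (Nat.add (Nat.add (Nat.add C x29703) x47199) x41367) x44283) x43311) x42663) x42879) x42807) x42831) x42823) x23143) (Nat.mul x42825 (nat_lit 5)))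
    (Nat.sub (Nat.add (Nat.add (Nat.add (Nat.add (Nat.add (Nat.add (Nat.add (Nat.add (Nat.add (Nat.add C x29709) x47205) x41373) x44289) x43317) x42669) x42885) x42813) x42825) x23149) (Nat.mul x42831 (nat_lit 3)))
    (Nat.add (Nat.add (Nat.add (Nat.add (Nat.add (Nat.add (Nat.add (Nat.add (Nat.add C x42851) x29729) x47225) x41393) x44309) x43337) x42689) x42797) x42853)
    (Nat.add (Nat.add (Nat.add (Nat.add (Nat.add (Nat.add (Nat.add (Nat.add (Nat.add (Nat.add (Nat.add C x29731) x47227) x41395) x44311) x43339) x42691) x42799) x42859) x42851) x42855) x23171)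
    (Nat.sub (Nat.add (Nat.add (Nat.add (Nat.add (Nat.add (Nat.add (Nat.add (Nat.add (Nat.add (Nat.add C x29733) x47229) x41397) x44313) x43341) x42693) x42801) x42861) x42853) x23173) (Nat.mul x42855 (nat_lit 3)))
    (Nat.sub (Nat.add (Nat.add (Nat.add (Nat.add (Nat.add (Nat.add (Nat.add (Nat.add (Nat.add (Nat.add (Nat.add C x29737) x47233) x41401) x44317) x43345) x42697) x42805) x42877) x42853) x42861) x23177) x42859)
    (Nat.sub (Nat.add (Nat.add (Nat.add (Nat.add (Nat.add (Nat.add (Nat.add (Nat.add (Nat.add (Nat.add (Nat.add (Nat.add C x29739) x47235) x41403) x44319) x43347) x42699) x42807) x42879) x42855) x42867) x42859) x23179) (Nat.mul x42861 (nat_lit 2)))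
    (Nat.sub (Nat.add (Nat.add (Nat.add (Nat.add (Nat.add (Nat.add (Nat.add (Nat.add (Nat.add (Nat.add C x29745) x47241) x41409) x44325) x43353) x42705) x42813) x42885) x42861) x23185) (Nat.mul x42867 (nat_lit 3)))
    (Nat.add (Nat.add (Nat.add (Nat.add (Nat.add (Nat.add (Nat.add (Nat.add (Nat.add (Nat.add (Nat.add C x29755) x47251) x41419) x44335) x43363) x42715) x42823) x42931) x42859) x42879) x23195)
    (Nat.sub (Nat.add (Nat.add (Nat.add (Nat.add (Nat.add (Nat.add (Nat.add (Nat.add (Nat.add (Nat.add (Nat.add (Nat.add C x29757) x47253) x41421) x44337) x43365) x42717) x42825) x42933) x42861) x42885) x42877) x23197) (Nat.mul x42879 (nat_lit 2)))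
    (Nat.sub (Nat.add (Nat.add (Nat.add (Nat.add (Nat.add (Nat.add (Nat.add (Nat.add (Nat.add (Nat.add (Nat.add (Nat.add C x29763) x47259) x41427) x44343) x43371) x42723) x42831) x42939) x42867) x42903) x42879) x23203) x42885)
    (Nat.sub (Nat.add (Nat.add (Nat.add (Nat.add (Nat.add (Nat.add (Nat.add (Nat.add (Nat.add C x29781) x47277) x41445) x44361) x43389) x42741) x42957) x42885) x23221) x42903)
    (Nat.add (Nat.add (Nat.add (Nat.add (Nat.add (Nat.add (Nat.add (Nat.add (Nat.add C x42931) x29809) x47305) x41473) x44389) x43417) x42877) x42933) x23249)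
    (Nat.sub (Nat.add (Nat.add (Nat.add (Nat.add (Nat.add (Nat.add (Nat.add (Nat.add (Nat.add C x29811) x47307) x41475) x44391) x43419) x42879) x42939) x42931) x23251) x42933)
    (Nat.sub (Nat.add (Nat.add (Nat.add (Nat.add (Nat.add (Nat.add (Nat.add (Nat.add (Nat.add C x29817) x47313) x41481) x44397) x43425) x42885) x42957) x42933) x23257) x42939)
    (Nat.add (Nat.add (Nat.add (Nat.add (Nat.add (Nat.add (Nat.add (Nat.add (Nat.add C x42957) x29835) x47331) x41499) x44415) x43443) x42903) x42939) x23275)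
    (Nat.add (Nat.add (Nat.add (Nat.add (Nat.add (Nat.add C (Nat.mul x43019 (nat_lit 2))) x29897) x47393) x44477) x42533) x43025)
    (Nat.add (Nat.add (Nat.add (Nat.add (Nat.add (Nat.add (Nat.add (Nat.add (Nat.add C x43025) x29903) x47399) x44483) x42539) x43043) x43019) x43031) x43027)
    (Nat.add (Nat.add (Nat.add (Nat.add (Nat.add (Nat.add (Nat.add (Nat.add C x29905) x47401) x44485) x42541) x43045) x43033) x43025) x23345)
    (Nat.sub (Nat.add (Nat.add (Nat.add (Nat.add (Nat.add (Nat.add (Nat.add C x29909) x47405) x44489) x42545) x43049) x43025) x43033) (Nat.mul x43031 (nat_lit 2)))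
    (Nat.sub (Nat.add (Nat.add (Nat.add (Nat.add (Nat.add (Nat.add (Nat.add (Nat.add (Nat.add C x29911) x47407) x44491) x42547) x43051) x43027) x43031) x43035) x23351) x43033)
    (Nat.sub (Nat.add (Nat.add (Nat.add (Nat.add (Nat.add (Nat.add (Nat.add C x29913) x47409) x44493) x42549) x43053) x43033) x23353) (Nat.mul x43035 (nat_lit 2)))
    (Nat.add (Nat.add (Nat.add (Nat.add (Nat.add (Nat.add (Nat.add (Nat.add C x29921) x47417) x44501) x42557) x43097) x43025) x43049) x43045)
    (Nat.sub (Nat.add (Nat.add (Nat.add (Nat.add (Nat.add (Nat.add (Nat.add (Nat.add (Nat.add C x29923) x47419) x44503) x42559) x43099) x43027) x43051) x43043) x23363) (Nat.mul x43045 (nat_lit 2)))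
    (Nat.sub (Nat.add (Nat.add (Nat.add (Nat.add (Nat.add (Nat.add (Nat.add (Nat.add (Nat.add C x29927) x47423) x44507) x42563) x43103) x43031) x43067) x43043) x43051) x43049)
    (Nat.sub (Nat.add (Nat.add (Nat.add (Nat.add (Nat.add (Nat.add (Nat.add (Nat.add (Nat.add (Nat.add (Nat.add (Nat.add C x29929) x47425) x44509) x42565) x43105) x43033) x43069) x43045) x43057) x43049) x43053) x23369) x43051)
    (Nat.sub (Nat.add (Nat.add (Nat.add (Nat.add (Nat.add (Nat.add (Nat.add (Nat.add (Nat.add (Nat.add C x29931) x47427) x44511) x42567) x43107) x43035) x43071) x43059) x43051) x23371) (Nat.mul x43053 (nat_lit 3)))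
    (Nat.sub (Nat.add (Nat.add (Nat.add (Nat.add (Nat.add (Nat.add (Nat.add (Nat.add (Nat.add C x29935) x47431) x44515) x42571) x43111) x43075) x43051) x43059) x23375) (Nat.mul x43057 (nat_lit 2)))
    (Nat.sub (Nat.add (Nat.add (Nat.add (Nat.add (Nat.add (Nat.add (Nat.add (Nat.add (Nat.add C x29937) x47433) x44517) x42573) x43113) x43077) x43053) x43057) x23377) (Nat.mul x43059 (nat_lit 2)))
    (Nat.sub (Nat.add (Nat.add (Nat.add (Nat.add (Nat.add (Nat.add (Nat.add C x29945) x47441) x44525) x42581) x43121) x43049) x43069) (Nat.mul x43067 (nat_lit 2)))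
    (Nat.sub (Nat.add (Nat.add (Nat.add (Nat.add (Nat.add (Nat.add (Nat.add (Nat.add (Nat.add (Nat.add C x29947) x47443) x44527) x42583) x43123) x43051) x43075) x43067) x43071) x23387) (Nat.mul x43069 (nat_lit 3)))
    (Nat.sub (Nat.add (Nat.add (Nat.add (Nat.add (Nat.add (Nat.add (Nat.add (Nat.add (Nat.add C x29949) x47445) x44529) x42585) x43125) x43053) x43077) x43069) x23389) (Nat.mul x43071 (nat_lit 6)))
    (Nat.sub (Nat.add (Nat.add (Nat.add (Nat.add (Nat.add (Nat.add (Nat.add (Nat.add (Nat.add C x29953) x47449) x44533) x42589) x43129) x43057) x43069) x43077) x23393) (Nat.mul x43075 (nat_lit 2)))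
    (Nat.sub (Nat.add (Nat.add (Nat.add (Nat.add (Nat.add (Nat.add (Nat.add (Nat.add (Nat.add (Nat.add C x29955) x47451) x44535) x42591) x43131) x43059) x43071) x43083) x43075) x23395) (Nat.mul x43077 (nat_lit 3)))
    (Nat.sub (Nat.add (Nat.add (Nat.add (Nat.add (Nat.add (Nat.add (Nat.add C x29961) x47457) x44541) x42597) x43137) x43077) x23401) (Nat.mul x43083 (nat_lit 2)))
    (Nat.add (Nat.add (Nat.add (Nat.add (Nat.add (Nat.add (Nat.add (Nat.add C x29975) x47471) x44555) x42611) x43259) x43043) x43103) x43099)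
    (Nat.sub (Nat.add (Nat.add (Nat.add (Nat.add (Nat.add (Nat.add (Nat.add (Nat.add (Nat.add C x29977) x47473) x44557) x42613) x43261) x43045) x43105) x43097) x23417) (Nat.mul x43099 (nat_lit 2)))
    (Nat.sub (Nat.add (Nat.add (Nat.add (Nat.add (Nat.add (Nat.add (Nat.add (Nat.add (Nat.add C x29981) x47477) x44561) x42617) x43265) x43049) x43121) x43097) x43105) (Nat.mul x43103 (nat_lit 2)))
    (Nat.sub (Nat.add (Nat.add (Nat.add (Nat.add (Nat.add (Nat.add (Nat.add (Nat.add (Nat.add (Nat.add (Nat.add (Nat.add C x29983) x47479) x44563) x42619) x43267) x43051) x43123) x43099) x43111) x43103) x43107) x23423) (Nat.mul x43105 (nat_lit 2)))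
    (Nat.sub (Nat.add (Nat.add (Nat.add (Nat.add (Nat.add (Nat.add (Nat.add (Nat.add (Nat.add (Nat.add C x29985) x47481) x44565) x42621) x43269) x43053) x43125) x43113) x43105) x23425) (Nat.mul x43107 (nat_lit 4)))
    (Nat.sub (Nat.add (Nat.add (Nat.add (Nat.add (Nat.add (Nat.add (Nat.add (Nat.add (Nat.add (Nat.add C x29989) x47485) x44569) x42625) x43273) x43057) x43129) x43105) x43113) x23429) (Nat.mul x43111 (nat_lit 4)))
    (Nat.sub (Nat.add (Nat.add (Nat.add (Nat.add (Nat.add (Nat.add (Nat.add (Nat.add (Nat.add (Nat.add C x29991) x47487) x44571) x42627) x43275) x43059) x43131) x43107) x43111) x23431) (Nat.mul x43113 (nat_lit 4)))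
    (Nat.sub (Nat.add (Nat.add (Nat.add (Nat.add (Nat.add (Nat.add (Nat.add (Nat.add (Nat.add C x29999) x47495) x44579) x42635) x43283) x43067) x43175) x43103) x43123) x43121)
    (Nat.sub (Nat.add (Nat.add (Nat.add (Nat.add (Nat.add (Nat.add (Nat.add (Nat.add (Nat.add (Nat.add (Nat.add (Nat.add C x30001) x47497) x44581) x42637) x43285) x43069) x43177) x43105) x43129) x43121) x43125) x23441) (Nat.mul x43123 (nat_lit 2)))
    (Nat.sub (Nat.add (Nat.add (Nat.add (Nat.add (Nat.add (Nat.add (Nat.add (Nat.add (Nat.add (Nat.add (Nat.add C x30003) x47499) x44583) x42639) x43287) x43071) x43179) x43107) x43131) x43123) x23443) (Nat.mul x43125 (nat_lit 5)))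
    (Nat.sub (Nat.add (Nat.add (Nat.add (Nat.add (Nat.add (Nat.add (Nat.add (Nat.add (Nat.add (Nat.add (Nat.add (Nat.add C x30007) x47503) x44587) x42643) x43291) x43075) x43183) x43111) x43147) x43123) x43131) x23447) (Nat.mul x43129 (nat_lit 2)))
    (Nat.sub (Nat.add (Nat.add (Nat.add (Nat.add (Nat.add (Nat.add (Nat.add (Nat.add (Nat.add (Nat.add (Nat.add (Nat.add (Nat.add C x30009) x47505) x44589) x42645) x43293) x43077) x43185) x43113) x43149) x43125) x43137) x43129) x23449) (Nat.mul x43131 (nat_lit 3)))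
    (Nat.sub (Nat.add (Nat.add (Nat.add (Nat.add (Nat.add (Nat.add (Nat.add (Nat.add (Nat.add (Nat.add C x30015) x47511) x44595) x42651) x43299) x43083) x43191) x43155) x43131) x23455) (Nat.mul x43137 (nat_lit 3)))
    (Nat.sub (Nat.add (Nat.add (Nat.add (Nat.add (Nat.add (Nat.add (Nat.add (Nat.add (Nat.add C x30025) x47521) x44605) x42661) x43309) x43201) x43129) x43149) x23465) (Nat.mul x43147 (nat_lit 2)))
    (Nat.sub (Nat.add (Nat.add (Nat.add (Nat.add (Nat.add (Nat.add (Nat.add (Nat.add (Nat.add (Nat.add C x30027) x47523) x44607) x42663) x43311) x43203) x43131) x43155) x43147) x23467) (Nat.mul x43149 (nat_lit 4)))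
    (Nat.sub (Nat.add (Nat.add (Nat.add (Nat.add (Nat.add (Nat.add (Nat.add (Nat.add (Nat.add C x30033) x47529) x44613) x42669) x43317) x43209) x43137) x43149) x23473) (Nat.mul x43155 (nat_lit 2)))
    (Nat.sub (Nat.add (Nat.add (Nat.add (Nat.add (Nat.add (Nat.add (Nat.add C x30053) x47549) x44633) x42689) x43337) x43121) x43177) (Nat.mul x43175 (nat_lit 2)))
    (Nat.sub (Nat.add (Nat.add (Nat.add (Nat.add (Nat.add (Nat.add (Nat.add (Nat.add (Nat.add (Nat.add C x30055) x47551) x44635) x42691) x43339) x43123) x43183) x43175) x43179) x23495) (Nat.mul x43177 (nat_lit 3)))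
    (Nat.sub (Nat.add (Nat.add (Nat.add (Nat.add (Nat.add (Nat.add (Nat.add (Nat.add (Nat.add C x30057) x47553) x44637) x42693) x43341) x43125) x43185) x43177) x23497) (Nat.mul x43179 (nat_lit 6)))
    (Nat.sub (Nat.add (Nat.add (Nat.add (Nat.add (Nat.add (Nat.add (Nat.add (Nat.add (Nat.add (Nat.add C x30061) x47557) x44641) x42697) x43345) x43129) x43201) x43177) x43185) x23501) (Nat.mul x43183 (nat_lit 4)))
    (Nat.sub (Nat.add (Nat.add (Nat.add (Nat.add (Nat.add (Nat.add (Nat.add (Nat.add (Nat.add (Nat.add (Nat.add C x30063) x47559) x44643) x42699) x43347) x43131) x43203) x43179) x43191) x43183) x23503) (Nat.mul x43185 (nat_lit 5)))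
    (Nat.sub (Nat.add (Nat.add (Nat.add (Nat.add (Nat.add (Nat.add (Nat.add (Nat.add (Nat.add C x30069) x47565) x44649) x42705) x43353) x43137) x43209) x43185) x23509) (Nat.mul x43191 (nat_lit 6)))
    (Nat.sub (Nat.add (Nat.add (Nat.add (Nat.add (Nat.add (Nat.add (Nat.add (Nat.add (Nat.add C x30079) x47575) x44659) x42715) x43363) x43147) x43183) x43203) x23519) (Nat.mul x43201 (nat_lit 2)))
    (Nat.sub (Nat.add (Nat.add (Nat.add (Nat.add (Nat.add (Nat.add (Nat.add (Nat.add (Nat.add (Nat.add C x30081) x47577) x44661) x42717) x43365) x43149) x43185) x43209) x43201) x23521) (Nat.mul x43203 (nat_lit 4)))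
    (Nat.sub (Nat.add (Nat.add (Nat.add (Nat.add (Nat.add (Nat.add (Nat.add (Nat.add (Nat.add (Nat.add C x30087) x47583) x44667) x42723) x43371) x43155) x43191) x43227) x43203) x23527) (Nat.mul x43209 (nat_lit 3)))
    (Nat.sub (Nat.add (Nat.add (Nat.add (Nat.add (Nat.add (Nat.add (Nat.add C x30105) x47601) x44685) x42741) x43389) x43209) x23545) (Nat.mul x43227 (nat_lit 2)))
    (Nat.add (Nat.add (Nat.add (Nat.add (Nat.add (Nat.add (Nat.add (Nat.add C (Nat.mul x43259 (nat_lit 2))) x30137) x47633) x44717) x42773) x43097) x43265) x43261)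
    (Nat.add (Nat.add (Nat.add (Nat.add (Nat.add (Nat.add (Nat.add (Nat.add C x30139) x47635) x44719) x42775) x43099) x43267) x43259) x23579)
    (Nat.add (Nat.add (Nat.add (Nat.add (Nat.add (Nat.add (Nat.add (Nat.add C x30143) x47639) x44723) x42779) x43103) x43283) x43259) x43267)
    (Nat.add (Nat.add (Nat.add (Nat.add (Nat.add (Nat.add (Nat.add (Nat.add (Nat.add (Nat.add (Nat.add C x30145) x47641) x44725) x42781) x43105) x43285) x43261) x43273) x43265) x43269) x23585)
    (Nat.sub (Nat.add (Nat.add (Nat.add (Nat.add (Nat.add (Nat.add (Nat.add (Nat.add (Nat.add C x30147) x47643) x44727) x42783) x43107) x43287) x43275) x43267) x23587) (Nat.mul x43269 (nat_lit 2)))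
    (Nat.sub (Nat.add (Nat.add (Nat.add (Nat.add (Nat.add (Nat.add (Nat.add (Nat.add (Nat.add C x30151) x47647) x44731) x42787) x43111) x43291) x43267) x43275) x23591) (Nat.mul x43273 (nat_lit 2)))
    (Nat.sub (Nat.add (Nat.add (Nat.add (Nat.add (Nat.add (Nat.add (Nat.add (Nat.add (Nat.add C x30153) x47649) x44733) x42789) x43113) x43293) x43269) x43273) x23593) (Nat.mul x43275 (nat_lit 2)))
    (Nat.add (Nat.add (Nat.add (Nat.add (Nat.add (Nat.add (Nat.add (Nat.add C x30161) x47657) x44741) x42797) x43121) x43337) x43265) x43285)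
    (Nat.sub (Nat.add (Nat.add (Nat.add (Nat.add (Nat.add (Nat.add (Nat.add (Nat.add (Nat.add (Nat.add (Nat.add C x30163) x47659) x44743) x42799) x43123) x43339) x43267) x43291) x43283) x43287) x23603) x43285)
    (Nat.sub (Nat.add (Nat.add (Nat.add (Nat.add (Nat.add (Nat.add (Nat.add (Nat.add (Nat.add (Nat.add C x30165) x47661) x44745) x42801) x43125) x43341) x43269) x43293) x43285) x23605) (Nat.mul x43287 (nat_lit 4)))
    (Nat.sub (Nat.add (Nat.add (Nat.add (Nat.add (Nat.add (Nat.add (Nat.add (Nat.add (Nat.add (Nat.add (Nat.add C x30169) x47665) x44749) x42805) x43129) x43345) x43273) x43309) x43285) x43293) x23609) x43291)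
    (Nat.sub (Nat.add (Nat.add (Nat.add (Nat.add (Nat.add (Nat.add (Nat.add (Nat.add (Nat.add (Nat.add (Nat.add (Nat.add C x30171) x47667) x44751) x42807) x43131) x43347) x43275) x43311) x43287) x43299) x43291) x23611) (Nat.mul x43293 (nat_lit 2)))
    (Nat.sub (Nat.add (Nat.add (Nat.add (Nat.add (Nat.add (Nat.add (Nat.add (Nat.add (Nat.add C x30177) x47673) x44757) x42813) x43137) x43353) x43317) x43293) x23617) (Nat.mul x43299 (nat_lit 2)))
    (Nat.sub (Nat.add (Nat.add (Nat.add (Nat.add (Nat.add (Nat.add (Nat.add (Nat.add (Nat.add C x30187) x47683) x44767) x42823) x43147) x43363) x43291) x43311) x23627) (Nat.mul x43309 (nat_lit 2)))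
    (Nat.sub (Nat.add (Nat.add (Nat.add (Nat.add (Nat.add (Nat.add (Nat.add (Nat.add (Nat.add (Nat.add C x30189) x47685) x44769) x42825) x43149) x43365) x43293) x43317) x43309) x23629) (Nat.mul x43311 (nat_lit 4)))
    (Nat.sub (Nat.add (Nat.add (Nat.add (Nat.add (Nat.add (Nat.add (Nat.add (Nat.add (Nat.add C x30195) x47691) x44775) x42831) x43155) x43371) x43299) x43311) x23635) (Nat.mul x43317 (nat_lit 2)))
    (Nat.add (Nat.add (Nat.add (Nat.add (Nat.add (Nat.add (Nat.add (Nat.add (Nat.add C x43337) x30215) x47711) x44795) x42851) x43175) x43499) x43283) x43339)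
    (Nat.add (Nat.add (Nat.add (Nat.add (Nat.add (Nat.add (Nat.add (Nat.add (Nat.add (Nat.add (Nat.add C x30217) x47713) x44797) x42853) x43177) x43501) x43285) x43345) x43337) x43341) x23657)
    (Nat.sub (Nat.add (Nat.add (Nat.add (Nat.add (Nat.add (Nat.add (Nat.add (Nat.add (Nat.add (Nat.add C x30219) x47715) x44799) x42855) x43179) x43503) x43287) x43347) x43339) x23659) (Nat.mul x43341 (nat_lit 3)))
    (Nat.sub (Nat.add (Nat.add (Nat.add (Nat.add (Nat.add (Nat.add (Nat.add (Nat.add (Nat.add (Nat.add (Nat.add C x30223) x47719) x44803) x42859) x43183) x43507) x43291) x43363) x43339) x43347) x23663) x43345)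
    (Nat.sub (Nat.add (Nat.add (Nat.add (Nat.add (Nat.add (Nat.add (Nat.add (Nat.add (Nat.add (Nat.add (Nat.add (Nat.add C x30225) x47721) x44805) x42861) x43185) x43509) x43293) x43365) x43341) x43353) x43345) x23665) (Nat.mul x43347 (nat_lit 2)))
    (Nat.sub (Nat.add (Nat.add (Nat.add (Nat.add (Nat.add (Nat.add (Nat.add (Nat.add (Nat.add (Nat.add C x30231) x47727) x44811) x42867) x43191) x43515) x43299) x43371) x43347) x23671) (Nat.mul x43353 (nat_lit 3)))
    (Nat.add (Nat.add (Nat.add (Nat.add (Nat.add (Nat.add (Nat.add (Nat.add (Nat.add (Nat.add (Nat.add C x30241) x47737) x44821) x42877) x43201) x43525) x43309) x43417) x43345) x43365) x23681)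
    (Nat.sub (Nat.add (Nat.add (Nat.add (Nat.add (Nat.add (Nat.add (Nat.add (Nat.add (Nat.add (Nat.add (Nat.add (Nat.add C x30243) x47739) x44823) x42879) x43203) x43527) x43311) x43419) x43347) x43371) x43363) x23683) (Nat.mul x43365 (nat_lit 2)))
    (Nat.sub (Nat.add (Nat.add (Nat.add (Nat.add (Nat.add (Nat.add (Nat.add (Nat.add (Nat.add (Nat.add (Nat.add (Nat.add C x30249) x47745) x44829) x42885) x43209) x43533) x43317) x43425) x43353) x43389) x43365) x23689) x43371)
    (Nat.sub (Nat.add (Nat.add (Nat.add (Nat.add (Nat.add (Nat.add (Nat.add (Nat.add (Nat.add C x30267) x47763) x44847) x42903) x43227) x43551) x43443) x43371) x23707) x43389)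
    (Nat.add (Nat.add (Nat.add (Nat.add (Nat.add (Nat.add (Nat.add (Nat.add C x30295) x47791) x44875) x42931) x43579) x43363) x43419) x23735)
    (Nat.sub (Nat.add (Nat.add (Nat.add (Nat.add (Nat.add (Nat.add (Nat.add (Nat.add (Nat.add C x30297) x47793) x44877) x42933) x43581) x43365) x43425) x43417) x23737) (Nat.mul x43419 (nat_lit 2)))
    (Nat.sub (Nat.add (Nat.add (Nat.add (Nat.add (Nat.add (Nat.add (Nat.add (Nat.add (Nat.add C x30303) x47799) x44883) x42939) x43587) x43371) x43443) x43419) x23743) (Nat.mul x43425 (nat_lit 2)))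
    (Nat.add (Nat.add (Nat.add (Nat.add (Nat.add (Nat.add (Nat.add (Nat.add C x30321) x47817) x44901) x42957) x43605) x43389) x43425) x23761)
    (Nat.add (Nat.add (Nat.add (Nat.add (Nat.add (Nat.add C (Nat.mul x43499 (nat_lit 2))) x30377) x47873) x44957) x43337) x43501)
    (Nat.add (Nat.add (Nat.add (Nat.add (Nat.add (Nat.add (Nat.add (Nat.add (Nat.add C x43501) x30379) x47875) x44959) x43339) x43507) x43499) x43503) x23819)
    (Nat.sub (Nat.add (Nat.add (Nat.add (Nat.add (Nat.add (Nat.add (Nat.add C x30381) x47877) x44961) x43341) x43509) x43501) x23821) (Nat.mul x43503 (nat_lit 2)))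
    (Nat.add (Nat.add (Nat.add (Nat.add (Nat.add (Nat.add (Nat.add (Nat.add C x30385) x47881) x44965) x43345) x43525) x43501) x43509) x23825)
    (Nat.sub (Nat.add (Nat.add (Nat.add (Nat.add (Nat.add (Nat.add (Nat.add (Nat.add (Nat.add C x30387) x47883) x44967) x43347) x43527) x43503) x43515) x43507) x23827) x43509)
    (Nat.sub (Nat.add (Nat.add (Nat.add (Nat.add (Nat.add (Nat.add (Nat.add C x30393) x47889) x44973) x43353) x43533) x43509) x23833) (Nat.mul x43515 (nat_lit 2)))
    (Nat.add (Nat.add (Nat.add (Nat.add (Nat.add (Nat.add (Nat.add (Nat.add C x30403) x47899) x44983) x43363) x43579) x43507) x43527) x23843)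
    (Nat.sub (Nat.add (Nat.add (Nat.add (Nat.add (Nat.add (Nat.add (Nat.add (Nat.add (Nat.add C x30405) x47901) x44985) x43365) x43581) x43509) x43533) x43525) x23845) (Nat.mul x43527 (nat_lit 2)))
    (Nat.sub (Nat.add (Nat.add (Nat.add (Nat.add (Nat.add (Nat.add (Nat.add (Nat.add (Nat.add C x30411) x47907) x44991) x43371) x43587) x43515) x43551) x43527) x23851) x43533)
    (Nat.sub (Nat.add (Nat.add (Nat.add (Nat.add (Nat.add (Nat.add (Nat.add C x30429) x47925) x45009) x43389) x43605) x43533) x23869) (Nat.mul x43551 (nat_lit 2)))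
    (Nat.add (Nat.add (Nat.add (Nat.add (Nat.add (Nat.add (Nat.add (Nat.add C (Nat.mul x43579 (nat_lit 2))) x30457) x47953) x45037) x43417) x43525) x43581) x23897)
    (Nat.add (Nat.add (Nat.add (Nat.add (Nat.add (Nat.add (Nat.add (Nat.add C x30459) x47955) x45039) x43419) x43527) x43587) x43579) x23899)
    (Nat.add (Nat.add (Nat.add (Nat.add (Nat.add (Nat.add (Nat.add (Nat.add C x30465) x47961) x45045) x43425) x43533) x43605) x43581) x23905)
    (Nat.add (Nat.add (Nat.add (Nat.add (Nat.add (Nat.add (Nat.add (Nat.add (Nat.add C x43605) x30483) x47979) x45063) x43443) x43551) x43659) x43587) x23923)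
    (Nat.add (Nat.add (Nat.add (Nat.add (Nat.add (Nat.add C (Nat.mul x43659 (nat_lit 2))) x30537) x48033) x45117) x43605) x23977)
    (Nat.add (Nat.add (Nat.add (Nat.add (Nat.add (Nat.add C (Nat.mul x43757 (nat_lit 2))) x30635) x48131) x42299) x43775) x43763)
    (Nat.add (Nat.add (Nat.add (Nat.add (Nat.add (Nat.add C x30641) x48137) x42305) x43781) x43757) x43765)
    (Nat.add (Nat.add (Nat.add (Nat.add (Nat.add (Nat.add C x30643) x48139) x42307) x43783) x43763) x24083)
    (Nat.add (Nat.add (Nat.add (Nat.add (Nat.add (Nat.add C x30653) x48149) x42317) x43829) x43757) x43781)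
    (Nat.add (Nat.add (Nat.add (Nat.add (Nat.add (Nat.add (Nat.add (Nat.add (Nat.add C x30659) x48155) x42323) x43835) x43763) x43799) x43775) x43787) x43783)
    (Nat.sub (Nat.add (Nat.add (Nat.add (Nat.add (Nat.add (Nat.add (Nat.add (Nat.add (Nat.add C x30661) x48157) x42325) x43837) x43765) x43801) x43789) x43781) x24101) x43783)
    (Nat.sub (Nat.add (Nat.add (Nat.add (Nat.add (Nat.add (Nat.add (Nat.add C x30665) x48161) x42329) x43841) x43805) x43781) x43789) (Nat.mul x43787 (nat_lit 2)))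
    (Nat.sub (Nat.add (Nat.add (Nat.add (Nat.add (Nat.add (Nat.add (Nat.add (Nat.add (Nat.add C x30667) x48163) x42331) x43843) x43807) x43783) x43787) x43791) x24107) x43789)
    (Nat.sub (Nat.add (Nat.add (Nat.add (Nat.add (Nat.add (Nat.add (Nat.add C x30669) x48165) x42333) x43845) x43809) x43789) x24109) (Nat.mul x43791 (nat_lit 2)))
    (Nat.sub (Nat.add (Nat.add (Nat.add (Nat.add (Nat.add (Nat.add (Nat.add C x30677) x48173) x42341) x43853) x43781) x43805) x43801) (Nat.mul x43799 (nat_lit 2)))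
    (Nat.sub (Nat.add (Nat.add (Nat.add (Nat.add (Nat.add (Nat.add (Nat.add (Nat.add C x30679) x48175) x42343) x43855) x43783) x43807) x43799) x24119) (Nat.mul x43801 (nat_lit 4)))
    (Nat.sub (Nat.add (Nat.add (Nat.add (Nat.add (Nat.add (Nat.add (Nat.add C x30683) x48179) x42347) x43859) x43787) x43799) x43807) (Nat.mul x43805 (nat_lit 2)))
    (Nat.sub (Nat.add (Nat.add (Nat.add (Nat.add (Nat.add (Nat.add (Nat.add (Nat.add (Nat.add (Nat.add C x30685) x48181) x42349) x43861) x43789) x43801) x43813) x43805) x43809) x24125) (Nat.mul x43807 (nat_lit 2)))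
    (Nat.sub (Nat.add (Nat.add (Nat.add (Nat.add (Nat.add (Nat.add (Nat.add (Nat.add C x30687) x48183) x42351) x43863) x43791) x43815) x43807) x24127) (Nat.mul x43809 (nat_lit 4)))
    (Nat.sub (Nat.add (Nat.add (Nat.add (Nat.add (Nat.add (Nat.add (Nat.add C x30691) x48187) x42355) x43867) x43807) x43815) x24131) (Nat.mul x43813 (nat_lit 2)))
    (Nat.sub (Nat.add (Nat.add (Nat.add (Nat.add (Nat.add (Nat.add (Nat.add C x30693) x48189) x42357) x43869) x43809) x43813) x24133) (Nat.mul x43815 (nat_lit 2)))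
    (Nat.add (Nat.add (Nat.add (Nat.add (Nat.add (Nat.add C x30707) x48203) x42371) x43991) x43775) x43835)
    (Nat.sub (Nat.add (Nat.add (Nat.add (Nat.add (Nat.add (Nat.add (Nat.add (Nat.add (Nat.add C x30713) x48209) x42377) x43997) x43781) x43853) x43829) x43841) x43837) x43835)
    (Nat.sub (Nat.add (Nat.add (Nat.add (Nat.add (Nat.add (Nat.add (Nat.add (Nat.add (Nat.add C x30715) x48211) x42379) x43999) x43783) x43855) x43843) x43835) x24155) (Nat.mul x43837 (nat_lit 2)))
    (Nat.sub (Nat.add (Nat.add (Nat.add (Nat.add (Nat.add (Nat.add (Nat.add (Nat.add C x30719) x48215) x42383) x44003) x43787) x43859) x43835) x43843) (Nat.mul x43841 (nat_lit 4)))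
    (Nat.sub (Nat.add (Nat.add (Nat.add (Nat.add (Nat.add (Nat.add (Nat.add (Nat.add (Nat.add (Nat.add C x30721) x48217) x42385) x44005) x43789) x43861) x43837) x43841) x43845) x24161) (Nat.mul x43843 (nat_lit 3)))
    (Nat.sub (Nat.add (Nat.add (Nat.add (Nat.add (Nat.add (Nat.add (Nat.add (Nat.add C x30723) x48219) x42387) x44007) x43791) x43863) x43843) x24163) (Nat.mul x43845 (nat_lit 4)))
    (Nat.sub (Nat.add (Nat.add (Nat.add (Nat.add (Nat.add (Nat.add (Nat.add (Nat.add (Nat.add C x30731) x48227) x42395) x44015) x43799) x43907) x43835) x43859) x43855) x43853)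
    (Nat.sub (Nat.add (Nat.add (Nat.add (Nat.add (Nat.add (Nat.add (Nat.add (Nat.add (Nat.add (Nat.add C x30733) x48229) x42397) x44017) x43801) x43909) x43837) x43861) x43853) x24173) (Nat.mul x43855 (nat_lit 3)))
    (Nat.sub (Nat.add (Nat.add (Nat.add (Nat.add (Nat.add (Nat.add (Nat.add (Nat.add (Nat.add (Nat.add C x30737) x48233) x42401) x44021) x43805) x43913) x43841) x43877) x43853) x43861) (Nat.mul x43859 (nat_lit 2)))
    (Nat.sub (Nat.add (Nat.add (Nat.add (Nat.add (Nat.add (Nat.add (Nat.add (Nat.add (Nat.add (Nat.add (Nat.add (Nat.add (Nat.add C x30739) x48235) x42403) x44023) x43807) x43915) x43843) x43879) x43855) x43867) x43859) x43863) x24179) (Nat.mul x43861 (nat_lit 2)))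
    (Nat.sub (Nat.add (Nat.add (Nat.add (Nat.add (Nat.add (Nat.add (Nat.add (Nat.add (Nat.add (Nat.add (Nat.add C x30741) x48237) x42405) x44025) x43809) x43917) x43845) x43881) x43869) x43861) x24181) (Nat.mul x43863 (nat_lit 4)))
    (Nat.sub (Nat.add (Nat.add (Nat.add (Nat.add (Nat.add (Nat.add (Nat.add (Nat.add (Nat.add (Nat.add C x30745) x48241) x42409) x44029) x43813) x43921) x43885) x43861) x43869) x24185) (Nat.mul x43867 (nat_lit 3)))
    (Nat.sub (Nat.add (Nat.add (Nat.add (Nat.add (Nat.add (Nat.add (Nat.add (Nat.add (Nat.add (Nat.add C x30747) x48243) x42411) x44031) x43815) x43923) x43887) x43863) x43867) x24187) (Nat.mul x43869 (nat_lit 3)))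
    (Nat.sub (Nat.add (Nat.add (Nat.add (Nat.add (Nat.add (Nat.add (Nat.add C x30755) x48251) x42419) x44039) x43931) x43859) x43879) (Nat.mul x43877 (nat_lit 2)))
    (Nat.sub (Nat.add (Nat.add (Nat.add (Nat.add (Nat.add (Nat.add (Nat.add (Nat.add (Nat.add (Nat.add C x30757) x48253) x42421) x44041) x43933) x43861) x43885) x43877) x43881) x24197) (Nat.mul x43879 (nat_lit 3)))
    (Nat.sub (Nat.add (Nat.add (Nat.add (Nat.add (Nat.add (Nat.add (Nat.add (Nat.add (Nat.add C x30759) x48255) x42423) x44043) x43935) x43863) x43887) x43879) x24199) (Nat.mul x43881 (nat_lit 6)))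
    (Nat.sub (Nat.add (Nat.add (Nat.add (Nat.add (Nat.add (Nat.add (Nat.add (Nat.add (Nat.add C x30763) x48259) x42427) x44047) x43939) x43867) x43879) x43887) x24203) (Nat.mul x43885 (nat_lit 2)))
    (Nat.sub (Nat.add (Nat.add (Nat.add (Nat.add (Nat.add (Nat.add (Nat.add (Nat.add (Nat.add (Nat.add C x30765) x48261) x42429) x44049) x43941) x43869) x43881) x43893) x43885) x24205) (Nat.mul x43887 (nat_lit 3)))
    (Nat.sub (Nat.add (Nat.add (Nat.add (Nat.add (Nat.add (Nat.add (Nat.add C x30771) x48267) x42435) x44055) x43947) x43887) x24211) (Nat.mul x43893 (nat_lit 2)))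
    (Nat.sub (Nat.add (Nat.add (Nat.add (Nat.add (Nat.add (Nat.add (Nat.add C x30785) x48281) x42449) x44069) x43853) x43913) x43909) (Nat.mul x43907 (nat_lit 2)))
    (Nat.sub (Nat.add (Nat.add (Nat.add (Nat.add (Nat.add (Nat.add (Nat.add (Nat.add C x30787) x48283) x42451) x44071) x43855) x43915) x43907) x24227) (Nat.mul x43909 (nat_lit 4)))
    (Nat.sub (Nat.add (Nat.add (Nat.add (Nat.add (Nat.add (Nat.add (Nat.add (Nat.add C x30791) x48287) x42455) x44075) x43859) x43931) x43907) x43915) (Nat.mul x43913 (nat_lit 4)))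
    (Nat.sub (Nat.add (Nat.add (Nat.add (Nat.add (Nat.add (Nat.add (Nat.add (Nat.add (Nat.add (Nat.add (Nat.add C x30793) x48289) x42457) x44077) x43861) x43933) x43909) x43921) x43913) x43917) x24233) (Nat.mul x43915 (nat_lit 4)))
    (Nat.sub (Nat.add (Nat.add (Nat.add (Nat.add (Nat.add (Nat.add (Nat.add (Nat.add (Nat.add C x30795) x48291) x42459) x44079) x43863) x43935) x43923) x43915) x24235) (Nat.mul x43917 (nat_lit 6)))
    (Nat.sub (Nat.add (Nat.add (Nat.add (Nat.add (Nat.add (Nat.add (Nat.add (Nat.add (Nat.add C x30799) x48295) x42463) x44083) x43867) x43939) x43915) x43923) x24239) (Nat.mul x43921 (nat_lit 6)))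
    (Nat.sub (Nat.add (Nat.add (Nat.add (Nat.add (Nat.add (Nat.add (Nat.add (Nat.add (Nat.add C x30801) x48297) x42465) x44085) x43869) x43941) x43917) x43921) x24241) (Nat.mul x43923 (nat_lit 6)))
    (Nat.sub (Nat.add (Nat.add (Nat.add (Nat.add (Nat.add (Nat.add (Nat.add C x30809) x48305) x42473) x44093) x43877) x43913) x43933) (Nat.mul x43931 (nat_lit 2)))
    (Nat.sub (Nat.add (Nat.add (Nat.add (Nat.add (Nat.add (Nat.add (Nat.add (Nat.add (Nat.add (Nat.add C x30811) x48307) x42475) x44095) x43879) x43915) x43939) x43931) x43935) x24251) (Nat.mul x43933 (nat_lit 3)))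
    (Nat.sub (Nat.add (Nat.add (Nat.add (Nat.add (Nat.add (Nat.add (Nat.add (Nat.add (Nat.add C x30813) x48309) x42477) x44097) x43881) x43917) x43941) x43933) x24253) (Nat.mul x43935 (nat_lit 6)))
    (Nat.sub (Nat.add (Nat.add (Nat.add (Nat.add (Nat.add (Nat.add (Nat.add (Nat.add (Nat.add (Nat.add C x30817) x48313) x42481) x44101) x43885) x43921) x43957) x43933) x43941) x24257) (Nat.mul x43939 (nat_lit 3)))
    (Nat.sub (Nat.add (Nat.add (Nat.add (Nat.add (Nat.add (Nat.add (Nat.add (Nat.add (Nat.add (Nat.add (Nat.add C x30819) x48315) x42483) x44103) x43887) x43923) x43959) x43935) x43947) x43939) x24259) (Nat.mul x43941 (nat_lit 4)))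
    (Nat.sub (Nat.add (Nat.add (Nat.add (Nat.add (Nat.add (Nat.add (Nat.add (Nat.add C x30825) x48321) x42489) x44109) x43893) x43965) x43941) x24265) (Nat.mul x43947 (nat_lit 4)))
    (Nat.sub (Nat.add (Nat.add (Nat.add (Nat.add (Nat.add (Nat.add (Nat.add C x30835) x48331) x42499) x44119) x43939) x43959) x24275) (Nat.mul x43957 (nat_lit 2)))
    (Nat.sub (Nat.add (Nat.add (Nat.add (Nat.add (Nat.add (Nat.add (Nat.add (Nat.add C x30837) x48333) x42501) x44121) x43941) x43965) x43957) x24277) (Nat.mul x43959 (nat_lit 4)))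
    (Nat.sub (Nat.add (Nat.add (Nat.add (Nat.add (Nat.add (Nat.add (Nat.add C x30843) x48339) x42507) x44127) x43947) x43959) x24283) (Nat.mul x43965 (nat_lit 2)))
    (Nat.add (Nat.add (Nat.add (Nat.add (Nat.add (Nat.add C x30869) x48365) x42533) x44477) x43829) x43997)
    (Nat.sub (Nat.add (Nat.add (Nat.add (Nat.add (Nat.add (Nat.add (Nat.add (Nat.add (Nat.add C x30875) x48371) x42539) x44483) x43835) x44015) x43991) x44003) x43999) x43997)
    (Nat.sub (Nat.add (Nat.add (Nat.add (Nat.add (Nat.add (Nat.add (Nat.add (Nat.add (Nat.add C x30877) x48373) x42541) x44485) x43837) x44017) x44005) x43997) x24317) (Nat.mul x43999 (nat_lit 2)))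
    (Nat.sub (Nat.add (Nat.add (Nat.add (Nat.add (Nat.add (Nat.add (Nat.add (Nat.add C x30881) x48377) x42545) x44489) x43841) x44021) x43997) x44005) (Nat.mul x44003 (nat_lit 4)))
    (Nat.sub (Nat.add (Nat.add (Nat.add (Nat.add (Nat.add (Nat.add (Nat.add (Nat.add (Nat.add (Nat.add C x30883) x48379) x42547) x44491) x43843) x44023) x43999) x44003) x44007) x24323) (Nat.mul x44005 (nat_lit 3)))
    (Nat.sub (Nat.add (Nat.add (Nat.add (Nat.add (Nat.add (Nat.add (Nat.add (Nat.add C x30885) x48381) x42549) x44493) x43845) x44025) x44005) x24325) (Nat.mul x44007 (nat_lit 4)))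
    (Nat.sub (Nat.add (Nat.add (Nat.add (Nat.add (Nat.add (Nat.add (Nat.add (Nat.add (Nat.add C x30893) x48389) x42557) x44501) x43853) x44069) x43997) x44021) x44017) (Nat.mul x44015 (nat_lit 2)))
    (Nat.sub (Nat.add (Nat.add (Nat.add (Nat.add (Nat.add (Nat.add (Nat.add (Nat.add (Nat.add (Nat.add C x30895) x48391) x42559) x44503) x43855) x44071) x43999) x44023) x44015) x24335) (Nat.mul x44017 (nat_lit 4)))
    (Nat.sub (Nat.add (Nat.add (Nat.add (Nat.add (Nat.add (Nat.add (Nat.add (Nat.add (Nat.add (Nat.add C x30899) x48395) x42563) x44507) x43859) x44075) x44003) x44039) x44015) x44023) (Nat.mul x44021 (nat_lit 3)))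
    (Nat.sub (Nat.add (Nat.add (Nat.add (Nat.add (Nat.add (Nat.add (Nat.add (Nat.add (Nat.add (Nat.add (Nat.add (Nat.add (Nat.add C x30901) x48397) x42565) x44509) x43861) x44077) x44005) x44041) x44017) x44029) x44021) x44025) x24341) (Nat.mul x44023 (nat_lit 3)))
    (Nat.sub (Nat.add (Nat.add (Nat.add (Nat.add (Nat.add (Nat.add (Nat.add (Nat.add (Nat.add (Nat.add (Nat.add C x30903) x48399) x42567) x44511) x43863) x44079) x44007) x44043) x44031) x44023) x24343) (Nat.mul x44025 (nat_lit 5)))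
    (Nat.sub (Nat.add (Nat.add (Nat.add (Nat.add (Nat.add (Nat.add (Nat.add (Nat.add (Nat.add (Nat.add C x30907) x48403) x42571) x44515) x43867) x44083) x44047) x44023) x44031) x24347) (Nat.mul x44029 (nat_lit 4)))
    (Nat.sub (Nat.add (Nat.add (Nat.add (Nat.add (Nat.add (Nat.add (Nat.add (Nat.add (Nat.add (Nat.add C x30909) x48405) x42573) x44517) x43869) x44085) x44049) x44025) x44029) x24349) (Nat.mul x44031 (nat_lit 4)))
    (Nat.sub (Nat.add (Nat.add (Nat.add (Nat.add (Nat.add (Nat.add (Nat.add (Nat.add C x30917) x48413) x42581) x44525) x43877) x44093) x44021) x44041) (Nat.mul x44039 (nat_lit 4)))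
    (Nat.sub (Nat.add (Nat.add (Nat.add (Nat.add (Nat.add (Nat.add (Nat.add (Nat.add (Nat.add (Nat.add (Nat.add C x30919) x48415) x42583) x44527) x43879) x44095) x44023) x44047) x44039) x44043) x24359) (Nat.mul x44041 (nat_lit 5)))
    (Nat.sub (Nat.add (Nat.add (Nat.add (Nat.add (Nat.add (Nat.add (Nat.add (Nat.add (Nat.add (Nat.add C x30921) x48417) x42585) x44529) x43881) x44097) x44025) x44049) x44041) x24361) (Nat.mul x44043 (nat_lit 8)))
    (Nat.sub (Nat.add (Nat.add (Nat.add (Nat.add (Nat.add (Nat.add (Nat.add (Nat.add (Nat.add (Nat.add C x30925) x48421) x42589) x44533) x43885) x44101) x44029) x44041) x44049) x24365) (Nat.mul x44047 (nat_lit 4)))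
    (Nat.sub (Nat.add (Nat.add (Nat.add (Nat.add (Nat.add (Nat.add (Nat.add (Nat.add (Nat.add (Nat.add (Nat.add C x30927) x48423) x42591) x44535) x43887) x44103) x44031) x44043) x44055) x44047) x24367) (Nat.mul x44049 (nat_lit 5)))
    (Nat.sub (Nat.add (Nat.add (Nat.add (Nat.add (Nat.add (Nat.add (Nat.add (Nat.add C x30933) x48429) x42597) x44541) x43893) x44109) x44049) x24373) (Nat.mul x44055 (nat_lit 4)))
    (Nat.sub (Nat.add (Nat.add (Nat.add (Nat.add (Nat.add (Nat.add (Nat.add (Nat.add (Nat.add C x30947) x48443) x42611) x44555) x43907) x44231) x44015) x44075) x44071) x44069)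
    (Nat.sub (Nat.add (Nat.add (Nat.add (Nat.add (Nat.add (Nat.add (Nat.add (Nat.add (Nat.add (Nat.add C x30949) x48445) x42613) x44557) x43909) x44233) x44017) x44077) x44069) x24389) (Nat.mul x44071 (nat_lit 3)))
    (Nat.sub (Nat.add (Nat.add (Nat.add (Nat.add (Nat.add (Nat.add (Nat.add (Nat.add (Nat.add (Nat.add C x30953) x48449) x42617) x44561) x43913) x44237) x44021) x44093) x44069) x44077) (Nat.mul x44075 (nat_lit 3)))
    (Nat.sub (Nat.add (Nat.add (Nat.add (Nat.add (Nat.add (Nat.add (Nat.add (Nat.add (Nat.add (Nat.add (Nat.add (Nat.add (Nat.add C x30955) x48451) x42619) x44563) x43915) x44239) x44023) x44095) x44071) x44083) x44075) x44079) x24395) (Nat.mul x44077 (nat_lit 3)))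
    (Nat.sub (Nat.add (Nat.add (Nat.add (Nat.add (Nat.add (Nat.add (Nat.add (Nat.add (Nat.add (Nat.add (Nat.add C x30957) x48453) x42621) x44565) x43917) x44241) x44025) x44097) x44085) x44077) x24397) (Nat.mul x44079 (nat_lit 5)))
    (Nat.sub (Nat.add (Nat.add (Nat.add (Nat.add (Nat.add (Nat.add (Nat.add (Nat.add (Nat.add (Nat.add (Nat.add C x30961) x48457) x42625) x44569) x43921) x44245) x44029) x44101) x44077) x44085) x24401) (Nat.mul x44083 (nat_lit 5)))
    (Nat.sub (Nat.add (Nat.add (Nat.add (Nat.add (Nat.add (Nat.add (Nat.add (Nat.add (Nat.add (Nat.add (Nat.add C x30963) x48459) x42627) x44571) x43923) x44247) x44031) x44103) x44079) x44083) x24403) (Nat.mul x44085 (nat_lit 5)))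
    (Nat.sub (Nat.add (Nat.add (Nat.add (Nat.add (Nat.add (Nat.add (Nat.add (Nat.add (Nat.add (Nat.add C x30971) x48467) x42635) x44579) x43931) x44255) x44039) x44147) x44075) x44095) (Nat.mul x44093 (nat_lit 2)))
    (Nat.sub (Nat.add (Nat.add (Nat.add (Nat.add (Nat.add (Nat.add (Nat.add (Nat.add (Nat.add (Nat.add (Nat.add (Nat.add (Nat.add C x30973) x48469) x42637) x44581) x43933) x44257) x44041) x44149) x44077) x44101) x44093) x44097) x24413) (Nat.mul x44095 (nat_lit 3)))
    (Nat.sub (Nat.add (Nat.add (Nat.add (Nat.add (Nat.add (Nat.add (Nat.add (Nat.add (Nat.add (Nat.add (Nat.add (Nat.add C x30975) x48471) x42639) x44583) x43935) x44259) x44043) x44151) x44079) x44103) x44095) x24415) (Nat.mul x44097 (nat_lit 6)))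
    (Nat.sub (Nat.add (Nat.add (Nat.add (Nat.add (Nat.add (Nat.add (Nat.add (Nat.add (Nat.add (Nat.add (Nat.add (Nat.add (Nat.add C x30979) x48475) x42643) x44587) x43939) x44263) x44047) x44155) x44083) x44119) x44095) x44103) x24419) (Nat.mul x44101 (nat_lit 3)))
    (Nat.sub (Nat.add (Nat.add (Nat.add (Nat.add (Nat.add (Nat.add (Nat.add (Nat.add (Nat.add (Nat.add (Nat.add (Nat.add (Nat.add (Nat.add C x30981) x48477) x42645) x44589) x43941) x44265) x44049) x44157) x44085) x44121) x44097) x44109) x44101) x24421) (Nat.mul x44103 (nat_lit 4)))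
    (Nat.sub (Nat.add (Nat.add (Nat.add (Nat.add (Nat.add (Nat.add (Nat.add (Nat.add (Nat.add (Nat.add (Nat.add C x30987) x48483) x42651) x44595) x43947) x44271) x44055) x44163) x44127) x44103) x24427) (Nat.mul x44109 (nat_lit 4)))
    (Nat.sub (Nat.add (Nat.add (Nat.add (Nat.add (Nat.add (Nat.add (Nat.add (Nat.add (Nat.add (Nat.add C x30997) x48493) x42661) x44605) x43957) x44281) x44173) x44101) x44121) x24437) (Nat.mul x44119 (nat_lit 3)))
    (Nat.sub (Nat.add (Nat.add (Nat.add (Nat.add (Nat.add (Nat.add (Nat.add (Nat.add (Nat.add (Nat.add (Nat.add C x30999) x48495) x42663) x44607) x43959) x44283) x44175) x44103) x44127) x44119) x24439) (Nat.mul x44121 (nat_lit 5)))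
    (Nat.sub (Nat.add (Nat.add (Nat.add (Nat.add (Nat.add (Nat.add (Nat.add (Nat.add (Nat.add (Nat.add C x31005) x48501) x42669) x44613) x43965) x44289) x44181) x44109) x44121) x24445) (Nat.mul x44127 (nat_lit 3)))
    (Nat.sub (Nat.add (Nat.add (Nat.add (Nat.add (Nat.add (Nat.add (Nat.add C x31025) x48521) x42689) x44633) x44309) x44093) x44149) (Nat.mul x44147 (nat_lit 2)))
    (Nat.sub (Nat.add (Nat.add (Nat.add (Nat.add (Nat.add (Nat.add (Nat.add (Nat.add (Nat.add (Nat.add C x31027) x48523) x42691) x44635) x44311) x44095) x44155) x44147) x44151) x24467) (Nat.mul x44149 (nat_lit 3)))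
    (Nat.sub (Nat.add (Nat.add (Nat.add (Nat.add (Nat.add (Nat.add (Nat.add (Nat.add (Nat.add C x31029) x48525) x42693) x44637) x44313) x44097) x44157) x44149) x24469) (Nat.mul x44151 (nat_lit 6)))
    (Nat.sub (Nat.add (Nat.add (Nat.add (Nat.add (Nat.add (Nat.add (Nat.add (Nat.add (Nat.add (Nat.add C x31033) x48529) x42697) x44641) x44317) x44101) x44173) x44149) x44157) x24473) (Nat.mul x44155 (nat_lit 4)))
    (Nat.sub (Nat.add (Nat.add (Nat.add (Nat.add (Nat.add (Nat.add (Nat.add (Nat.add (Nat.add (Nat.add (Nat.add C x31035) x48531) x42699) x44643) x44319) x44103) x44175) x44151) x44163) x44155) x24475) (Nat.mul x44157 (nat_lit 5)))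
    (Nat.sub (Nat.add (Nat.add (Nat.add (Nat.add (Nat.add (Nat.add (Nat.add (Nat.add (Nat.add C x31041) x48537) x42705) x44649) x44325) x44109) x44181) x44157) x24481) (Nat.mul x44163 (nat_lit 6)))
    (Nat.sub (Nat.add (Nat.add (Nat.add (Nat.add (Nat.add (Nat.add (Nat.add (Nat.add (Nat.add C x31051) x48547) x42715) x44659) x44335) x44119) x44155) x44175) x24491) (Nat.mul x44173 (nat_lit 2)))
    (Nat.sub (Nat.add (Nat.add (Nat.add (Nat.add (Nat.add (Nat.add (Nat.add (Nat.add (Nat.add (Nat.add C x31053) x48549) x42717) x44661) x44337) x44121) x44157) x44181) x44173) x24493) (Nat.mul x44175 (nat_lit 4)))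
    (Nat.sub (Nat.add (Nat.add (Nat.add (Nat.add (Nat.add (Nat.add (Nat.add (Nat.add (Nat.add (Nat.add C x31059) x48555) x42723) x44667) x44343) x44127) x44163) x44199) x44175) x24499) (Nat.mul x44181 (nat_lit 3)))
    (Nat.sub (Nat.add (Nat.add (Nat.add (Nat.add (Nat.add (Nat.add (Nat.add C x31077) x48573) x42741) x44685) x44361) x44181) x24517) (Nat.mul x44199 (nat_lit 2)))
    (Nat.sub (Nat.add (Nat.add (Nat.add (Nat.add (Nat.add (Nat.add (Nat.add C x31109) x48605) x42773) x44717) x44069) x44237) x44233) (Nat.mul x44231 (nat_lit 2)))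
    (Nat.sub (Nat.add (Nat.add (Nat.add (Nat.add (Nat.add (Nat.add (Nat.add (Nat.add C x31111) x48607) x42775) x44719) x44071) x44239) x44231) x24551) (Nat.mul x44233 (nat_lit 4)))
    (Nat.sub (Nat.add (Nat.add (Nat.add (Nat.add (Nat.add (Nat.add (Nat.add (Nat.add C x31115) x48611) x42779) x44723) x44075) x44255) x44231) x44239) (Nat.mul x44237 (nat_lit 4)))
    (Nat.sub (Nat.add (Nat.add (Nat.add (Nat.add (Nat.add (Nat.add (Nat.add (Nat.add (Nat.add (Nat.add (Nat.add C x31117) x48613) x42781) x44725) x44077) x44257) x44233) x44245) x44237) x44241) x24557) (Nat.mul x44239 (nat_lit 4)))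
    (Nat.sub (Nat.add (Nat.add (Nat.add (Nat.add (Nat.add (Nat.add (Nat.add (Nat.add (Nat.add C x31119) x48615) x42783) x44727) x44079) x44259) x44247) x44239) x24559) (Nat.mul x44241 (nat_lit 6)))
    (Nat.sub (Nat.add (Nat.add (Nat.add (Nat.add (Nat.add (Nat.add (Nat.add (Nat.add (Nat.add C x31123) x48619) x42787) x44731) x44083) x44263) x44239) x44247) x24563) (Nat.mul x44245 (nat_lit 6)))
    (Nat.sub (Nat.add (Nat.add (Nat.add (Nat.add (Nat.add (Nat.add (Nat.add (Nat.add (Nat.add C x31125) x48621) x42789) x44733) x44085) x44265) x44241) x44245) x24565) (Nat.mul x44247 (nat_lit 6)))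
    (Nat.sub (Nat.add (Nat.add (Nat.add (Nat.add (Nat.add (Nat.add (Nat.add (Nat.add C x31133) x48629) x42797) x44741) x44093) x44309) x44237) x44257) (Nat.mul x44255 (nat_lit 4)))
    (Nat.sub (Nat.add (Nat.add (Nat.add (Nat.add (Nat.add (Nat.add (Nat.add (Nat.add (Nat.add (Nat.add (Nat.add C x31135) x48631) x42799) x44743) x44095) x44311) x44239) x44263) x44255) x44259) x24575) (Nat.mul x44257 (nat_lit 5)))
    (Nat.sub (Nat.add (Nat.add (Nat.add (Nat.add (Nat.add (Nat.add (Nat.add (Nat.add (Nat.add (Nat.add C x31137) x48633) x42801) x44745) x44097) x44313) x44241) x44265) x44257) x24577) (Nat.mul x44259 (nat_lit 8)))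
    (Nat.sub (Nat.add (Nat.add (Nat.add (Nat.add (Nat.add (Nat.add (Nat.add (Nat.add (Nat.add (Nat.add (Nat.add C x31141) x48637) x42805) x44749) x44101) x44317) x44245) x44281) x44257) x44265) x24581) (Nat.mul x44263 (nat_lit 5)))
    (Nat.sub (Nat.add (Nat.add (Nat.add (Nat.add (Nat.add (Nat.add (Nat.add (Nat.add (Nat.add (Nat.add (Nat.add (Nat.add C x31143) x48639) x42807) x44751) x44103) x44319) x44247) x44283) x44259) x44271) x44263) x24583) (Nat.mul x44265 (nat_lit 6)))
    (Nat.sub (Nat.add (Nat.add (Nat.add (Nat.add (Nat.add (Nat.add (Nat.add (Nat.add (Nat.add C x31149) x48645) x42813) x44757) x44109) x44325) x44289) x44265) x24589) (Nat.mul x44271 (nat_lit 6)))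
    (Nat.sub (Nat.add (Nat.add (Nat.add (Nat.add (Nat.add (Nat.add (Nat.add (Nat.add (Nat.add C x31159) x48655) x42823) x44767) x44119) x44335) x44263) x44283) x24599) (Nat.mul x44281 (nat_lit 6)))
    (Nat.sub (Nat.add (Nat.add (Nat.add (Nat.add (Nat.add (Nat.add (Nat.add (Nat.add (Nat.add (Nat.add C x31161) x48657) x42825) x44769) x44121) x44337) x44265) x44289) x44281) x24601) (Nat.mul x44283 (nat_lit 8)))
    (Nat.sub (Nat.add (Nat.add (Nat.add (Nat.add (Nat.add (Nat.add (Nat.add (Nat.add (Nat.add C x31167) x48663) x42831) x44775) x44127) x44343) x44271) x44283) x24607) (Nat.mul x44289 (nat_lit 6)))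
    (Nat.sub (Nat.add (Nat.add (Nat.add (Nat.add (Nat.add (Nat.add (Nat.add C x31187) x48683) x42851) x44795) x44147) x44255) x44311) (Nat.mul x44309 (nat_lit 2)))
    (Nat.sub (Nat.add (Nat.add (Nat.add (Nat.add (Nat.add (Nat.add (Nat.add (Nat.add (Nat.add (Nat.add C x31189) x48685) x42853) x44797) x44149) x44257) x44317) x44309) x44313) x24629) (Nat.mul x44311 (nat_lit 3)))
    (Nat.sub (Nat.add (Nat.add (Nat.add (Nat.add (Nat.add (Nat.add (Nat.add (Nat.add (Nat.add C x31191) x48687) x42855) x44799) x44151) x44259) x44319) x44311) x24631) (Nat.mul x44313 (nat_lit 6)))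
    (Nat.sub (Nat.add (Nat.add (Nat.add (Nat.add (Nat.add (Nat.add (Nat.add (Nat.add (Nat.add (Nat.add C x31195) x48691) x42859) x44803) x44155) x44263) x44335) x44311) x44319) x24635) (Nat.mul x44317 (nat_lit 4)))
    (Nat.sub (Nat.add (Nat.add (Nat.add (Nat.add (Nat.add (Nat.add (Nat.add (Nat.add (Nat.add (Nat.add (Nat.add C x31197) x48693) x42861) x44805) x44157) x44265) x44337) x44313) x44325) x44317) x24637) (Nat.mul x44319 (nat_lit 5)))
    (Nat.sub (Nat.add (Nat.add (Nat.add (Nat.add (Nat.add (Nat.add (Nat.add (Nat.add (Nat.add C x31203) x48699) x42867) x44811) x44163) x44271) x44343) x44319) x24643) (Nat.mul x44325 (nat_lit 6)))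
    (Nat.sub (Nat.add (Nat.add (Nat.add (Nat.add (Nat.add (Nat.add (Nat.add (Nat.add (Nat.add (Nat.add C x31213) x48709) x42877) x44821) x44173) x44281) x44389) x44317) x44337) x24653) (Nat.mul x44335 (nat_lit 3)))
    (Nat.sub (Nat.add (Nat.add (Nat.add (Nat.add (Nat.add (Nat.add (Nat.add (Nat.add (Nat.add (Nat.add (Nat.add C x31215) x48711) x42879) x44823) x44175) x44283) x44391) x44319) x44343) x44335) x24655) (Nat.mul x44337 (nat_lit 5)))
    (Nat.sub (Nat.add (Nat.add (Nat.add (Nat.add (Nat.add (Nat.add (Nat.add (Nat.add (Nat.add (Nat.add (Nat.add C x31221) x48717) x42885) x44829) x44181) x44289) x44397) x44325) x44361) x44337) x24661) (Nat.mul x44343 (nat_lit 4)))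
    (Nat.sub (Nat.add (Nat.add (Nat.add (Nat.add (Nat.add (Nat.add (Nat.add (Nat.add C x31239) x48735) x42903) x44847) x44199) x44415) x44343) x24679) (Nat.mul x44361 (nat_lit 4)))
    (Nat.sub (Nat.add (Nat.add (Nat.add (Nat.add (Nat.add (Nat.add (Nat.add C x31267) x48763) x42931) x44875) x44335) x44391) x24707) (Nat.mul x44389 (nat_lit 2)))
    (Nat.sub (Nat.add (Nat.add (Nat.add (Nat.add (Nat.add (Nat.add (Nat.add (Nat.add C x31269) x48765) x42933) x44877) x44337) x44397) x44389) x24709) (Nat.mul x44391 (nat_lit 4)))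
    (Nat.sub (Nat.add (Nat.add (Nat.add (Nat.add (Nat.add (Nat.add (Nat.add (Nat.add C x31275) x48771) x42939) x44883) x44343) x44415) x44391) x24715) (Nat.mul x44397 (nat_lit 4)))
    (Nat.sub (Nat.add (Nat.add (Nat.add (Nat.add (Nat.add (Nat.add (Nat.add C x31293) x48789) x42957) x44901) x44361) x44397) x24733) (Nat.mul x44415 (nat_lit 2)))
    (Nat.add (Nat.add (Nat.add (Nat.add (Nat.add (Nat.add C (Nat.mul x44477 (nat_lit 2))) x31355) x48851) x43019) x43991) x44483)
    (Nat.add (Nat.add (Nat.add (Nat.add (Nat.add (Nat.add (Nat.add (Nat.add (Nat.add C x44483) x31361) x48857) x43025) x43997) x44501) x44477) x44489) x44485)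
    (Nat.add (Nat.add (Nat.add (Nat.add (Nat.add (Nat.add (Nat.add (Nat.add C x31363) x48859) x43027) x43999) x44503) x44491) x44483) x24803)
    (Nat.sub (Nat.add (Nat.add (Nat.add (Nat.add (Nat.add (Nat.add (Nat.add C x31367) x48863) x43031) x44003) x44507) x44483) x44491) (Nat.mul x44489 (nat_lit 2)))
    (Nat.sub (Nat.add (Nat.add (Nat.add (Nat.add (Nat.add (Nat.add (Nat.add (Nat.add (Nat.add C x31369) x48865) x43033) x44005) x44509) x44485) x44489) x44493) x24809) x44491)
    (Nat.sub (Nat.add (Nat.add (Nat.add (Nat.add (Nat.add (Nat.add (Nat.add C x31371) x48867) x43035) x44007) x44511) x44491) x24811) (Nat.mul x44493 (nat_lit 2)))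
    (Nat.add (Nat.add (Nat.add (Nat.add (Nat.add (Nat.add (Nat.add (Nat.add C x31379) x48875) x43043) x44015) x44555) x44483) x44507) x44503)
    (Nat.sub (Nat.add (Nat.add (Nat.add (Nat.add (Nat.add (Nat.add (Nat.add (Nat.add (Nat.add C x31381) x48877) x43045) x44017) x44557) x44485) x44509) x44501) x24821) (Nat.mul x44503 (nat_lit 2)))
    (Nat.sub (Nat.add (Nat.add (Nat.add (Nat.add (Nat.add (Nat.add (Nat.add (Nat.add (Nat.add C x31385) x48881) x43049) x44021) x44561) x44489) x44525) x44501) x44509) x44507)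
    (Nat.sub (Nat.add (Nat.add (Nat.add (Nat.add (Nat.add (Nat.add (Nat.add (Nat.add (Nat.add (Nat.add (Nat.add (Nat.add C x31387) x48883) x43051) x44023) x44563) x44491) x44527) x44503) x44515) x44507) x44511) x24827) x44509)
    (Nat.sub (Nat.add (Nat.add (Nat.add (Nat.add (Nat.add (Nat.add (Nat.add (Nat.add (Nat.add (Nat.add C x31389) x48885) x43053) x44025) x44565) x44493) x44529) x44517) x44509) x24829) (Nat.mul x44511 (nat_lit 3)))
    (Nat.sub (Nat.add (Nat.add (Nat.add (Nat.add (Nat.add (Nat.add (Nat.add (Nat.add (Nat.add C x31393) x48889) x43057) x44029) x44569) x44533) x44509) x44517) x24833) (Nat.mul x44515 (nat_lit 2)))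
    (Nat.sub (Nat.add (Nat.add (Nat.add (Nat.add (Nat.add (Nat.add (Nat.add (Nat.add (Nat.add C x31395) x48891) x43059) x44031) x44571) x44535) x44511) x44515) x24835) (Nat.mul x44517 (nat_lit 2)))
    (Nat.sub (Nat.add (Nat.add (Nat.add (Nat.add (Nat.add (Nat.add (Nat.add C x31403) x48899) x43067) x44039) x44579) x44507) x44527) (Nat.mul x44525 (nat_lit 2)))
    (Nat.sub (Nat.add (Nat.add (Nat.add (Nat.add (Nat.add (Nat.add (Nat.add (Nat.add (Nat.add (Nat.add C x31405) x48901) x43069) x44041) x44581) x44509) x44533) x44525) x44529) x24845) (Nat.mul x44527 (nat_lit 3)))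
    (Nat.sub (Nat.add (Nat.add (Nat.add (Nat.add (Nat.add (Nat.add (Nat.add (Nat.add (Nat.add C x31407) x48903) x43071) x44043) x44583) x44511) x44535) x44527) x24847) (Nat.mul x44529 (nat_lit 6)))
    (Nat.sub (Nat.add (Nat.add (Nat.add (Nat.add (Nat.add (Nat.add (Nat.add (Nat.add (Nat.add C x31411) x48907) x43075) x44047) x44587) x44515) x44527) x44535) x24851) (Nat.mul x44533 (nat_lit 2)))
    (Nat.sub (Nat.add (Nat.add (Nat.add (Nat.add (Nat.add (Nat.add (Nat.add (Nat.add (Nat.add (Nat.add C x31413) x48909) x43077) x44049) x44589) x44517) x44529) x44541) x44533) x24853) (Nat.mul x44535 (nat_lit 3)))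
    (Nat.sub (Nat.add (Nat.add (Nat.add (Nat.add (Nat.add (Nat.add (Nat.add C x31419) x48915) x43083) x44055) x44595) x44535) x24859) (Nat.mul x44541 (nat_lit 2)))
    (Nat.add (Nat.add (Nat.add (Nat.add (Nat.add (Nat.add (Nat.add (Nat.add C x31433) x48929) x43097) x44069) x44717) x44501) x44561) x44557)
    (Nat.sub (Nat.add (Nat.add (Nat.add (Nat.add (Nat.add (Nat.add (Nat.add (Nat.add (Nat.add C x31435) x48931) x43099) x44071) x44719) x44503) x44563) x44555) x24875) (Nat.mul x44557 (nat_lit 2)))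
    (Nat.sub (Nat.add (Nat.add (Nat.add (Nat.add (Nat.add (Nat.add (Nat.add (Nat.add (Nat.add C x31439) x48935) x43103) x44075) x44723) x44507) x44579) x44555) x44563) (Nat.mul x44561 (nat_lit 2)))
    (Nat.sub (Nat.add (Nat.add (Nat.add (Nat.add (Nat.add (Nat.add (Nat.add (Nat.add (Nat.add (Nat.add (Nat.add (Nat.add C x31441) x48937) x43105) x44077) x44725) x44509) x44581) x44557) x44569) x44561) x44565) x24881) (Nat.mul x44563 (nat_lit 2)))
    (Nat.sub (Nat.add (Nat.add (Nat.add (Nat.add (Nat.add (Nat.add (Nat.add (Nat.add (Nat.add (Nat.add C x31443) x48939) x43107) x44079) x44727) x44511) x44583) x44571) x44563) x24883) (Nat.mul x44565 (nat_lit 4)))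
    (Nat.sub (Nat.add (Nat.add (Nat.add (Nat.add (Nat.add (Nat.add (Nat.add (Nat.add (Nat.add (Nat.add C x31447) x48943) x43111) x44083) x44731) x44515) x44587) x44563) x44571) x24887) (Nat.mul x44569 (nat_lit 4)))
    (Nat.sub (Nat.add (Nat.add (Nat.add (Nat.add (Nat.add (Nat.add (Nat.add (Nat.add (Nat.add (Nat.add C x31449) x48945) x43113) x44085) x44733) x44517) x44589) x44565) x44569) x24889) (Nat.mul x44571 (nat_lit 4)))
    (Nat.sub (Nat.add (Nat.add (Nat.add (Nat.add (Nat.add (Nat.add (Nat.add (Nat.add (Nat.add C x31457) x48953) x43121) x44093) x44741) x44525) x44633) x44561) x44581) x44579)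
    (Nat.sub (Nat.add (Nat.add (Nat.add (Nat.add (Nat.add (Nat.add (Nat.add (Nat.add (Nat.add (Nat.add (Nat.add (Nat.add C x31459) x48955) x43123) x44095) x44743) x44527) x44635) x44563) x44587) x44579) x44583) x24899) (Nat.mul x44581 (nat_lit 2)))
    (Nat.sub (Nat.add (Nat.add (Nat.add (Nat.add (Nat.add (Nat.add (Nat.add (Nat.add (Nat.add (Nat.add (Nat.add C x31461) x48957) x43125) x44097) x44745) x44529) x44637) x44565) x44589) x44581) x24901) (Nat.mul x44583 (nat_lit 5)))
    (Nat.sub (Nat.add (Nat.add (Nat.add (Nat.add (Nat.add (Nat.add (Nat.add (Nat.add (Nat.add (Nat.add (Nat.add (Nat.add C x31465) x48961) x43129) x44101) x44749) x44533) x44641) x44569) x44605) x44581) x44589) x24905) (Nat.mul x44587 (nat_lit 2)))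
    (Nat.sub (Nat.add (Nat.add (Nat.add (Nat.add (Nat.add (Nat.add (Nat.add (Nat.add (Nat.add (Nat.add (Nat.add (Nat.add (Nat.add C x31467) x48963) x43131) x44103) x44751) x44535) x44643) x44571) x44607) x44583) x44595) x44587) x24907) (Nat.mul x44589 (nat_lit 3)))
    (Nat.sub (Nat.add (Nat.add (Nat.add (Nat.add (Nat.add (Nat.add (Nat.add (Nat.add (Nat.add (Nat.add C x31473) x48969) x43137) x44109) x44757) x44541) x44649) x44613) x44589) x24913) (Nat.mul x44595 (nat_lit 3)))
    (Nat.sub (Nat.add (Nat.add (Nat.add (Nat.add (Nat.add (Nat.add (Nat.add (Nat.add (Nat.add C x31483) x48979) x43147) x44119) x44767) x44659) x44587) x44607) x24923) (Nat.mul x44605 (nat_lit 2)))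
    (Nat.sub (Nat.add (Nat.add (Nat.add (Nat.add (Nat.add (Nat.add (Nat.add (Nat.add (Nat.add (Nat.add C x31485) x48981) x43149) x44121) x44769) x44661) x44589) x44613) x44605) x24925) (Nat.mul x44607 (nat_lit 4)))
    (Nat.sub (Nat.add (Nat.add (Nat.add (Nat.add (Nat.add (Nat.add (Nat.add (Nat.add (Nat.add C x31491) x48987) x43155) x44127) x44775) x44667) x44595) x44607) x24931) (Nat.mul x44613 (nat_lit 2)))
    (Nat.sub (Nat.add (Nat.add (Nat.add (Nat.add (Nat.add (Nat.add (Nat.add C x31511) x49007) x43175) x44147) x44795) x44579) x44635) (Nat.mul x44633 (nat_lit 2)))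
    (Nat.sub (Nat.add (Nat.add (Nat.add (Nat.add (Nat.add (Nat.add (Nat.add (Nat.add (Nat.add (Nat.add C x31513) x49009) x43177) x44149) x44797) x44581) x44641) x44633) x44637) x24953) (Nat.mul x44635 (nat_lit 3)))
    (Nat.sub (Nat.add (Nat.add (Nat.add (Nat.add (Nat.add (Nat.add (Nat.add (Nat.add (Nat.add C x31515) x49011) x43179) x44151) x44799) x44583) x44643) x44635) x24955) (Nat.mul x44637 (nat_lit 6)))
    (Nat.sub (Nat.add (Nat.add (Nat.add (Nat.add (Nat.add (Nat.add (Nat.add (Nat.add (Nat.add (Nat.add C x31519) x49015) x43183) x44155) x44803) x44587) x44659) x44635) x44643) x24959) (Nat.mul x44641 (nat_lit 4)))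
    (Nat.sub (Nat.add (Nat.add (Nat.add (Nat.add (Nat.add (Nat.add (Nat.add (Nat.add (Nat.add (Nat.add (Nat.add C x31521) x49017) x43185) x44157) x44805) x44589) x44661) x44637) x44649) x44641) x24961) (Nat.mul x44643 (nat_lit 5)))
    (Nat.sub (Nat.add (Nat.add (Nat.add (Nat.add (Nat.add (Nat.add (Nat.add (Nat.add (Nat.add C x31527) x49023) x43191) x44163) x44811) x44595) x44667) x44643) x24967) (Nat.mul x44649 (nat_lit 6)))
    (Nat.sub (Nat.add (Nat.add (Nat.add (Nat.add (Nat.add (Nat.add (Nat.add (Nat.add (Nat.add C x31537) x49033) x43201) x44173) x44821) x44605) x44641) x44661) x24977) (Nat.mul x44659 (nat_lit 2)))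
    (Nat.sub (Nat.add (Nat.add (Nat.add (Nat.add (Nat.add (Nat.add (Nat.add (Nat.add (Nat.add (Nat.add C x31539) x49035) x43203) x44175) x44823) x44607) x44643) x44667) x44659) x24979) (Nat.mul x44661 (nat_lit 4)))
    (Nat.sub (Nat.add (Nat.add (Nat.add (Nat.add (Nat.add (Nat.add (Nat.add (Nat.add (Nat.add (Nat.add C x31545) x49041) x43209) x44181) x44829) x44613) x44649) x44685) x44661) x24985) (Nat.mul x44667 (nat_lit 3)))
    (Nat.sub (Nat.add (Nat.add (Nat.add (Nat.add (Nat.add (Nat.add (Nat.add C x31563) x49059) x43227) x44199) x44847) x44667) x25003) (Nat.mul x44685 (nat_lit 2)))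
    (Nat.add (Nat.add (Nat.add (Nat.add (Nat.add (Nat.add (Nat.add (Nat.add (Nat.add C x44717) x31595) x49091) x43259) x44231) x45203) x44555) x44723) x44719)
    (Nat.sub (Nat.add (Nat.add (Nat.add (Nat.add (Nat.add (Nat.add (Nat.add (Nat.add (Nat.add C x31597) x49093) x43261) x44233) x45205) x44557) x44725) x44717) x25037) x44719)
    (Nat.sub (Nat.add (Nat.add (Nat.add (Nat.add (Nat.add (Nat.add (Nat.add (Nat.add (Nat.add C x31601) x49097) x43265) x44237) x45209) x44561) x44741) x44717) x44725) x44723)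
    (Nat.sub (Nat.add (Nat.add (Nat.add (Nat.add (Nat.add (Nat.add (Nat.add (Nat.add (Nat.add (Nat.add (Nat.add (Nat.add C x31603) x49099) x43267) x44239) x45211) x44563) x44743) x44719) x44731) x44723) x44727) x25043) x44725)
    (Nat.sub (Nat.add (Nat.add (Nat.add (Nat.add (Nat.add (Nat.add (Nat.add (Nat.add (Nat.add (Nat.add C x31605) x49101) x43269) x44241) x45213) x44565) x44745) x44733) x44725) x25045) (Nat.mul x44727 (nat_lit 3)))
    (Nat.sub (Nat.add (Nat.add (Nat.add (Nat.add (Nat.add (Nat.add (Nat.add (Nat.add (Nat.add (Nat.add C x31609) x49105) x43273) x44245) x45217) x44569) x44749) x44725) x44733) x25049) (Nat.mul x44731 (nat_lit 3)))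
    (Nat.sub (Nat.add (Nat.add (Nat.add (Nat.add (Nat.add (Nat.add (Nat.add (Nat.add (Nat.add (Nat.add C x31611) x49107) x43275) x44247) x45219) x44571) x44751) x44727) x44731) x25051) (Nat.mul x44733 (nat_lit 3)))
    (Nat.sub (Nat.add (Nat.add (Nat.add (Nat.add (Nat.add (Nat.add (Nat.add (Nat.add (Nat.add C x31619) x49115) x43283) x44255) x45227) x44579) x44795) x44723) x44743) x44741)
    (Nat.sub (Nat.add (Nat.add (Nat.add (Nat.add (Nat.add (Nat.add (Nat.add (Nat.add (Nat.add (Nat.add (Nat.add (Nat.add C x31621) x49117) x43285) x44257) x45229) x44581) x44797) x44725) x44749) x44741) x44745) x25061) (Nat.mul x44743 (nat_lit 2)))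
    (Nat.sub (Nat.add (Nat.add (Nat.add (Nat.add (Nat.add (Nat.add (Nat.add (Nat.add (Nat.add (Nat.add (Nat.add C x31623) x49119) x43287) x44259) x45231) x44583) x44799) x44727) x44751) x44743) x25063) (Nat.mul x44745 (nat_lit 5)))
    (Nat.sub (Nat.add (Nat.add (Nat.add (Nat.add (Nat.add (Nat.add (Nat.add (Nat.add (Nat.add (Nat.add (Nat.add (Nat.add C x31627) x49123) x43291) x44263) x45235) x44587) x44803) x44731) x44767) x44743) x44751) x25067) (Nat.mul x44749 (nat_lit 2)))
    (Nat.sub (Nat.add (Nat.add (Nat.add (Nat.add (Nat.add (Nat.add (Nat.add (Nat.add (Nat.add (Nat.add (Nat.add (Nat.add (Nat.add C x31629) x49125) x43293) x44265) x45237) x44589) x44805) x44733) x44769) x44745) x44757) x44749) x25069) (Nat.mul x44751 (nat_lit 3)))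
    (Nat.sub (Nat.add (Nat.add (Nat.add (Nat.add (Nat.add (Nat.add (Nat.add (Nat.add (Nat.add (Nat.add C x31635) x49131) x43299) x44271) x45243) x44595) x44811) x44775) x44751) x25075) (Nat.mul x44757 (nat_lit 3)))
    (Nat.sub (Nat.add (Nat.add (Nat.add (Nat.add (Nat.add (Nat.add (Nat.add (Nat.add (Nat.add (Nat.add C x31645) x49141) x43309) x44281) x45253) x44605) x44821) x44749) x44769) x25085) (Nat.mul x44767 (nat_lit 3)))
    (Nat.sub (Nat.add (Nat.add (Nat.add (Nat.add (Nat.add (Nat.add (Nat.add (Nat.add (Nat.add (Nat.add (Nat.add C x31647) x49143) x43311) x44283) x45255) x44607) x44823) x44751) x44775) x44767) x25087) (Nat.mul x44769 (nat_lit 5)))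
    (Nat.sub (Nat.add (Nat.add (Nat.add (Nat.add (Nat.add (Nat.add (Nat.add (Nat.add (Nat.add (Nat.add C x31653) x49149) x43317) x44289) x45261) x44613) x44829) x44757) x44769) x25093) (Nat.mul x44775 (nat_lit 3)))
    (Nat.add (Nat.add (Nat.add (Nat.add (Nat.add (Nat.add (Nat.add (Nat.add (Nat.add C x31673) x49169) x43337) x44309) x45281) x44633) x44957) x44741) x44797)
    (Nat.sub (Nat.add (Nat.add (Nat.add (Nat.add (Nat.add (Nat.add (Nat.add (Nat.add (Nat.add (Nat.add (Nat.add (Nat.add C x31675) x49171) x43339) x44311) x45283) x44635) x44959) x44743) x44803) x44795) x44799) x25115) x44797)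
    (Nat.sub (Nat.add (Nat.add (Nat.add (Nat.add (Nat.add (Nat.add (Nat.add (Nat.add (Nat.add (Nat.add (Nat.add C x31677) x49173) x43341) x44313) x45285) x44637) x44961) x44745) x44805) x44797) x25117) (Nat.mul x44799 (nat_lit 4)))
    (Nat.sub (Nat.add (Nat.add (Nat.add (Nat.add (Nat.add (Nat.add (Nat.add (Nat.add (Nat.add (Nat.add (Nat.add (Nat.add C x31681) x49177) x43345) x44317) x45289) x44641) x44965) x44749) x44821) x44797) x44805) x25121) (Nat.mul x44803 (nat_lit 2)))
    (Nat.sub (Nat.add (Nat.add (Nat.add (Nat.add (Nat.add (Nat.add (Nat.add (Nat.add (Nat.add (Nat.add (Nat.add (Nat.add (Nat.add C x31683) x49179) x43347) x44319) x45291) x44643) x44967) x44751) x44823) x44799) x44811) x44803) x25123) (Nat.mul x44805 (nat_lit 3)))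
    (Nat.sub (Nat.add (Nat.add (Nat.add (Nat.add (Nat.add (Nat.add (Nat.add (Nat.add (Nat.add (Nat.add (Nat.add C x31689) x49185) x43353) x44325) x45297) x44649) x44973) x44757) x44829) x44805) x25129) (Nat.mul x44811 (nat_lit 4)))
    (Nat.sub (Nat.add (Nat.add (Nat.add (Nat.add (Nat.add (Nat.add (Nat.add (Nat.add (Nat.add (Nat.add (Nat.add (Nat.add C x31699) x49195) x43363) x44335) x45307) x44659) x44983) x44767) x44875) x44803) x44823) x25139) x44821)
    (Nat.sub (Nat.add (Nat.add (Nat.add (Nat.add (Nat.add (Nat.add (Nat.add (Nat.add (Nat.add (Nat.add (Nat.add (Nat.add (Nat.add C x31701) x49197) x43365) x44337) x45309) x44661) x44985) x44769) x44877) x44805) x44829) x44821) x25141) (Nat.mul x44823 (nat_lit 3)))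
    (Nat.sub (Nat.add (Nat.add (Nat.add (Nat.add (Nat.add (Nat.add (Nat.add (Nat.add (Nat.add (Nat.add (Nat.add (Nat.add (Nat.add C x31707) x49203) x43371) x44343) x45315) x44667) x44991) x44775) x44883) x44811) x44847) x44823) x25147) (Nat.mul x44829 (nat_lit 2)))
    (Nat.sub (Nat.add (Nat.add (Nat.add (Nat.add (Nat.add (Nat.add (Nat.add (Nat.add (Nat.add (Nat.add C x31725) x49221) x43389) x44361) x45333) x44685) x45009) x44901) x44829) x25165) (Nat.mul x44847 (nat_lit 2)))
    (Nat.sub (Nat.add (Nat.add (Nat.add (Nat.add (Nat.add (Nat.add (Nat.add (Nat.add (Nat.add C x31753) x49249) x43417) x44389) x45361) x45037) x44821) x44877) x25193) x44875)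
    (Nat.sub (Nat.add (Nat.add (Nat.add (Nat.add (Nat.add (Nat.add (Nat.add (Nat.add (Nat.add (Nat.add C x31755) x49251) x43419) x44391) x45363) x45039) x44823) x44883) x44875) x25195) (Nat.mul x44877 (nat_lit 3)))
    (Nat.sub (Nat.add (Nat.add (Nat.add (Nat.add (Nat.add (Nat.add (Nat.add (Nat.add (Nat.add (Nat.add C x31761) x49257) x43425) x44397) x45369) x45045) x44829) x44901) x44877) x25201) (Nat.mul x44883 (nat_lit 3)))
    (Nat.sub (Nat.add (Nat.add (Nat.add (Nat.add (Nat.add (Nat.add (Nat.add (Nat.add (Nat.add C x31779) x49275) x43443) x44415) x45387) x45063) x44847) x44883) x25219) x44901)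
    (Nat.add (Nat.add (Nat.add (Nat.add (Nat.add (Nat.add C x31835) x49331) x43499) x45443) x44795) x44959)
    (Nat.sub (Nat.add (Nat.add (Nat.add (Nat.add (Nat.add (Nat.add (Nat.add (Nat.add (Nat.add C x31837) x49333) x43501) x45445) x44797) x44965) x44957) x44961) x25277) x44959)
    (Nat.sub (Nat.add (Nat.add (Nat.add (Nat.add (Nat.add (Nat.add (Nat.add (Nat.add C x31839) x49335) x43503) x45447) x44799) x44967) x44959) x25279) (Nat.mul x44961 (nat_lit 4)))
    (Nat.sub (Nat.add (Nat.add (Nat.add (Nat.add (Nat.add (Nat.add (Nat.add (Nat.add (Nat.add C x31843) x49339) x43507) x45451) x44803) x44983) x44959) x44967) x25283) (Nat.mul x44965 (nat_lit 2)))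
    (Nat.sub (Nat.add (Nat.add (Nat.add (Nat.add (Nat.add (Nat.add (Nat.add (Nat.add (Nat.add (Nat.add C x31845) x49341) x43509) x45453) x44805) x44985) x44961) x44973) x44965) x25285) (Nat.mul x44967 (nat_lit 3)))
    (Nat.sub (Nat.add (Nat.add (Nat.add (Nat.add (Nat.add (Nat.add (Nat.add (Nat.add C x31851) x49347) x43515) x45459) x44811) x44991) x44967) x25291) (Nat.mul x44973 (nat_lit 4)))
    (Nat.sub (Nat.add (Nat.add (Nat.add (Nat.add (Nat.add (Nat.add (Nat.add (Nat.add (Nat.add C x31861) x49357) x43525) x45469) x44821) x45037) x44965) x44985) x25301) (Nat.mul x44983 (nat_lit 2)))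
    (Nat.sub (Nat.add (Nat.add (Nat.add (Nat.add (Nat.add (Nat.add (Nat.add (Nat.add (Nat.add (Nat.add C x31863) x49359) x43527) x45471) x44823) x45039) x44967) x44991) x44983) x25303) (Nat.mul x44985 (nat_lit 4)))
    (Nat.sub (Nat.add (Nat.add (Nat.add (Nat.add (Nat.add (Nat.add (Nat.add (Nat.add (Nat.add (Nat.add C x31869) x49365) x43533) x45477) x44829) x45045) x44973) x45009) x44985) x25309) (Nat.mul x44991 (nat_lit 3)))
    (Nat.sub (Nat.add (Nat.add (Nat.add (Nat.add (Nat.add (Nat.add (Nat.add (Nat.add C x31887) x49383) x43551) x45495) x44847) x45063) x44991) x25327) (Nat.mul x45009 (nat_lit 4)))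
    (Nat.add (Nat.add (Nat.add (Nat.add (Nat.add (Nat.add (Nat.add (Nat.add C x31915) x49411) x43579) x45523) x44875) x44983) x45039) x25355)
    (Nat.sub (Nat.add (Nat.add (Nat.add (Nat.add (Nat.add (Nat.add (Nat.add (Nat.add (Nat.add C x31917) x49413) x43581) x45525) x44877) x44985) x45045) x45037) x25357) (Nat.mul x45039 (nat_lit 2)))
    (Nat.sub (Nat.add (Nat.add (Nat.add (Nat.add (Nat.add (Nat.add (Nat.add (Nat.add (Nat.add C x31923) x49419) x43587) x45531) x44883) x44991) x45063) x45039) x25363) (Nat.mul x45045 (nat_lit 2)))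
    (Nat.sub (Nat.add (Nat.add (Nat.add (Nat.add (Nat.add (Nat.add (Nat.add (Nat.add (Nat.add C x31941) x49437) x43605) x45549) x44901) x45009) x45117) x45045) x25381) x45063)
    (Nat.add (Nat.add (Nat.add (Nat.add (Nat.add (Nat.add C x31995) x49491) x43659) x45603) x45063) x25435)
    (Nat.add (Nat.add (Nat.add (Nat.add (Nat.add (Nat.add C (Nat.mul x45203 (nat_lit 2))) x32081) x49577) x44717) x45209) x45205)
    (Nat.add (Nat.add (Nat.add (Nat.add (Nat.add (Nat.add C x32083) x49579) x44719) x45211) x45203) x25523)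
    (Nat.add (Nat.add (Nat.add (Nat.add (Nat.add (Nat.add C x32087) x49583) x44723) x45227) x45203) x45211)
    (Nat.add (Nat.add (Nat.add (Nat.add (Nat.add (Nat.add (Nat.add (Nat.add (Nat.add C x32089) x49585) x44725) x45229) x45205) x45217) x45209) x45213) x25529)
    (Nat.sub (Nat.add (Nat.add (Nat.add (Nat.add (Nat.add (Nat.add (Nat.add C x32091) x49587) x44727) x45231) x45219) x45211) x25531) (Nat.mul x45213 (nat_lit 2)))
    (Nat.sub (Nat.add (Nat.add (Nat.add (Nat.add (Nat.add (Nat.add (Nat.add C x32095) x49591) x44731) x45235) x45211) x45219) x25535) (Nat.mul x45217 (nat_lit 2)))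
    (Nat.sub (Nat.add (Nat.add (Nat.add (Nat.add (Nat.add (Nat.add (Nat.add C x32097) x49593) x44733) x45237) x45213) x45217) x25537) (Nat.mul x45219 (nat_lit 2)))
    (Nat.add (Nat.add (Nat.add (Nat.add (Nat.add (Nat.add C x32105) x49601) x44741) x45281) x45209) x45229)
    (Nat.sub (Nat.add (Nat.add (Nat.add (Nat.add (Nat.add (Nat.add (Nat.add (Nat.add (Nat.add C x32107) x49603) x44743) x45283) x45211) x45235) x45227) x45231) x25547) x45229)
    (Nat.sub (Nat.add (Nat.add (Nat.add (Nat.add (Nat.add (Nat.add (Nat.add (Nat.add C x32109) x49605) x44745) x45285) x45213) x45237) x45229) x25549) (Nat.mul x45231 (nat_lit 4)))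
    (Nat.sub (Nat.add (Nat.add (Nat.add (Nat.add (Nat.add (Nat.add (Nat.add (Nat.add (Nat.add C x32113) x49609) x44749) x45289) x45217) x45253) x45229) x45237) x25553) x45235)
    (Nat.sub (Nat.add (Nat.add (Nat.add (Nat.add (Nat.add (Nat.add (Nat.add (Nat.add (Nat.add (Nat.add C x32115) x49611) x44751) x45291) x45219) x45255) x45231) x45243) x45235) x25555) (Nat.mul x45237 (nat_lit 2)))
    (Nat.sub (Nat.add (Nat.add (Nat.add (Nat.add (Nat.add (Nat.add (Nat.add C x32121) x49617) x44757) x45297) x45261) x45237) x25561) (Nat.mul x45243 (nat_lit 2)))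
    (Nat.sub (Nat.add (Nat.add (Nat.add (Nat.add (Nat.add (Nat.add (Nat.add C x32131) x49627) x44767) x45307) x45235) x45255) x25571) (Nat.mul x45253 (nat_lit 2)))
    (Nat.sub (Nat.add (Nat.add (Nat.add (Nat.add (Nat.add (Nat.add (Nat.add (Nat.add C x32133) x49629) x44769) x45309) x45237) x45261) x45253) x25573) (Nat.mul x45255 (nat_lit 4)))
    (Nat.sub (Nat.add (Nat.add (Nat.add (Nat.add (Nat.add (Nat.add (Nat.add C x32139) x49635) x44775) x45315) x45243) x45255) x25579) (Nat.mul x45261 (nat_lit 2)))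
    (Nat.add (Nat.add (Nat.add (Nat.add (Nat.add (Nat.add C x32159) x49655) x44795) x45443) x45227) x45283)
    (Nat.sub (Nat.add (Nat.add (Nat.add (Nat.add (Nat.add (Nat.add (Nat.add (Nat.add (Nat.add C x32161) x49657) x44797) x45445) x45229) x45289) x45281) x45285) x25601) x45283)
    (Nat.sub (Nat.add (Nat.add (Nat.add (Nat.add (Nat.add (Nat.add (Nat.add (Nat.add C x32163) x49659) x44799) x45447) x45231) x45291) x45283) x25603) (Nat.mul x45285 (nat_lit 4)))
    (Nat.sub (Nat.add (Nat.add (Nat.add (Nat.add (Nat.add (Nat.add (Nat.add (Nat.add (Nat.add C x32167) x49663) x44803) x45451) x45235) x45307) x45283) x45291) x25607) (Nat.mul x45289 (nat_lit 2)))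
    (Nat.sub (Nat.add (Nat.add (Nat.add (Nat.add (Nat.add (Nat.add (Nat.add (Nat.add (Nat.add (Nat.add C x32169) x49665) x44805) x45453) x45237) x45309) x45285) x45297) x45289) x25609) (Nat.mul x45291 (nat_lit 3)))
    (Nat.sub (Nat.add (Nat.add (Nat.add (Nat.add (Nat.add (Nat.add (Nat.add (Nat.add C x32175) x49671) x44811) x45459) x45243) x45315) x45291) x25615) (Nat.mul x45297 (nat_lit 4)))
    (Nat.sub (Nat.add (Nat.add (Nat.add (Nat.add (Nat.add (Nat.add (Nat.add (Nat.add (Nat.add C x32185) x49681) x44821) x45469) x45253) x45361) x45289) x45309) x25625) x45307)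
    (Nat.sub (Nat.add (Nat.add (Nat.add (Nat.add (Nat.add (Nat.add (Nat.add (Nat.add (Nat.add (Nat.add C x32187) x49683) x44823) x45471) x45255) x45363) x45291) x45315) x45307) x25627) (Nat.mul x45309 (nat_lit 3)))
    (Nat.sub (Nat.add (Nat.add (Nat.add (Nat.add (Nat.add (Nat.add (Nat.add (Nat.add (Nat.add (Nat.add C x32193) x49689) x44829) x45477) x45261) x45369) x45297) x45333) x45309) x25633) (Nat.mul x45315 (nat_lit 2)))
    (Nat.sub (Nat.add (Nat.add (Nat.add (Nat.add (Nat.add (Nat.add (Nat.add C x32211) x49707) x44847) x45495) x45387) x45315) x25651) (Nat.mul x45333 (nat_lit 2)))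
    (Nat.sub (Nat.add (Nat.add (Nat.add (Nat.add (Nat.add (Nat.add (Nat.add C x32239) x49735) x44875) x45523) x45307) x45363) x25679) (Nat.mul x45361 (nat_lit 2)))
    (Nat.sub (Nat.add (Nat.add (Nat.add (Nat.add (Nat.add (Nat.add (Nat.add (Nat.add C x32241) x49737) x44877) x45525) x45309) x45369) x45361) x25681) (Nat.mul x45363 (nat_lit 4)))
    (Nat.sub (Nat.add (Nat.add (Nat.add (Nat.add (Nat.add (Nat.add (Nat.add (Nat.add C x32247) x49743) x44883) x45531) x45315) x45387) x45363) x25687) (Nat.mul x45369 (nat_lit 4)))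
    (Nat.sub (Nat.add (Nat.add (Nat.add (Nat.add (Nat.add (Nat.add (Nat.add C x32265) x49761) x44901) x45549) x45333) x45369) x25705) (Nat.mul x45387 (nat_lit 2)))
    (Nat.add (Nat.add (Nat.add (Nat.add (Nat.add (Nat.add C (Nat.mul x45443 (nat_lit 2))) x32321) x49817) x44957) x45281) x45445)
    (Nat.add (Nat.add (Nat.add (Nat.add (Nat.add (Nat.add (Nat.add (Nat.add (Nat.add C x45445) x32323) x49819) x44959) x45283) x45451) x45443) x45447) x25763)
    (Nat.sub (Nat.add (Nat.add (Nat.add (Nat.add (Nat.add (Nat.add (Nat.add C x32325) x49821) x44961) x45285) x45453) x45445) x25765) (Nat.mul x45447 (nat_lit 2)))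
    (Nat.add (Nat.add (Nat.add (Nat.add (Nat.add (Nat.add (Nat.add (Nat.add C x32329) x49825) x44965) x45289) x45469) x45445) x45453) x25769)
    (Nat.sub (Nat.add (Nat.add (Nat.add (Nat.add (Nat.add (Nat.add (Nat.add (Nat.add (Nat.add C x32331) x49827) x44967) x45291) x45471) x45447) x45459) x45451) x25771) x45453)
    (Nat.sub (Nat.add (Nat.add (Nat.add (Nat.add (Nat.add (Nat.add (Nat.add C x32337) x49833) x44973) x45297) x45477) x45453) x25777) (Nat.mul x45459 (nat_lit 2)))
    (Nat.add (Nat.add (Nat.add (Nat.add (Nat.add (Nat.add (Nat.add (Nat.add C x32347) x49843) x44983) x45307) x45523) x45451) x45471) x25787)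
    (Nat.sub (Nat.add (Nat.add (Nat.add (Nat.add (Nat.add (Nat.add (Nat.add (Nat.add (Nat.add C x32349) x49845) x44985) x45309) x45525) x45453) x45477) x45469) x25789) (Nat.mul x45471 (nat_lit 2)))
    (Nat.sub (Nat.add (Nat.add (Nat.add (Nat.add (Nat.add (Nat.add (Nat.add (Nat.add (Nat.add C x32355) x49851) x44991) x45315) x45531) x45459) x45495) x45471) x25795) x45477)
    (Nat.sub (Nat.add (Nat.add (Nat.add (Nat.add (Nat.add (Nat.add (Nat.add C x32373) x49869) x45009) x45333) x45549) x45477) x25813) (Nat.mul x45495 (nat_lit 2)))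
    (Nat.add (Nat.add (Nat.add (Nat.add (Nat.add (Nat.add (Nat.add (Nat.add (Nat.add C x45523) x32401) x49897) x45037) x45361) x45685) x45469) x45525) x25841)
    (Nat.sub (Nat.add (Nat.add (Nat.add (Nat.add (Nat.add (Nat.add (Nat.add (Nat.add (Nat.add C x32403) x49899) x45039) x45363) x45687) x45471) x45531) x45523) x25843) x45525)
    (Nat.sub (Nat.add (Nat.add (Nat.add (Nat.add (Nat.add (Nat.add (Nat.add (Nat.add (Nat.add C x32409) x49905) x45045) x45369) x45693) x45477) x45549) x45525) x25849) x45531)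
    (Nat.add (Nat.add (Nat.add (Nat.add (Nat.add (Nat.add (Nat.add (Nat.add (Nat.add C x32427) x49923) x45063) x45387) x45711) x45495) x45603) x45531) x25867)
    (Nat.add (Nat.add (Nat.add (Nat.add (Nat.add (Nat.add C x32481) x49977) x45117) x45765) x45549) x25921)
    (Nat.add (Nat.add (Nat.add (Nat.add (Nat.add (Nat.add C (Nat.mul x45685 (nat_lit 2))) x32563) x50059) x45523) x45687) x26003)
    (Nat.add (Nat.add (Nat.add (Nat.add (Nat.add (Nat.add C x32565) x50061) x45525) x45693) x45685) x26005)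
    (Nat.add (Nat.add (Nat.add (Nat.add (Nat.add (Nat.add C x32571) x50067) x45531) x45711) x45687) x26011)
    (Nat.add (Nat.add (Nat.add (Nat.add (Nat.add (Nat.add C x32589) x50085) x45549) x45765) x45693) x26029)
    (Nat.add (Nat.add (Nat.add (Nat.add (Nat.add (Nat.add C (Nat.mul x45765 (nat_lit 2))) x32643) x50139) x45603) x45711) x26083)
    (Nat.add (Nat.add (Nat.add (Nat.add C (Nat.mul x45953 (nat_lit 6))) x32831) x41579) x45971)
    (Nat.add (Nat.add (Nat.add (Nat.add (Nat.add (Nat.add (Nat.add C (Nat.mul x45971 (nat_lit 5))) x32849) x41597) x46025) x45953) x45989) x45977)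
    (Nat.add (Nat.add (Nat.add (Nat.add (Nat.add (Nat.add (Nat.add C (Nat.mul x45977 (nat_lit 4))) x32855) x41603) x46031) x45995) x45971) x45979)
    (Nat.add (Nat.add (Nat.add (Nat.add (Nat.add (Nat.add (Nat.add C (Nat.mul x45979 (nat_lit 4))) x32857) x41605) x46033) x45997) x45977) x26297)
    (Nat.add (Nat.add (Nat.add (Nat.add (Nat.add (Nat.add C (Nat.mul x45989 (nat_lit 2))) x32867) x41615) x46043) x45971) x45995)
    (Nat.add (Nat.add (Nat.add (Nat.add (Nat.add (Nat.add (Nat.add (Nat.add C (Nat.mul x45995 (nat_lit 3))) x32873) x41621) x46049) x45977) x45989) x46001) x45997)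
    (Nat.add (Nat.add (Nat.add (Nat.add (Nat.add (Nat.add (Nat.add (Nat.add C (Nat.mul x45997 (nat_lit 2))) x32875) x41623) x46051) x45979) x46003) x45995) x26315)
    (Nat.add (Nat.add (Nat.add (Nat.add (Nat.add (Nat.add C (Nat.mul x46001 (nat_lit 2))) x32879) x41627) x46055) x45995) x46003)
    (Nat.add (Nat.add (Nat.add (Nat.add (Nat.add (Nat.add (Nat.add (Nat.add C (Nat.mul x46003 (nat_lit 3))) x32881) x41629) x46057) x45997) x46001) x46005) x26321)
    (Nat.add (Nat.add (Nat.add (Nat.add (Nat.add (Nat.add C (Nat.mul x46005 (nat_lit 2))) x32883) x41631) x46059) x46003) x26323)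
    (Nat.add (Nat.add (Nat.add (Nat.add (Nat.add (Nat.add (Nat.add C (Nat.mul x46025 (nat_lit 4))) x32903) x41651) x46187) x45971) x46043) x46031)
    (Nat.add (Nat.add (Nat.add (Nat.add (Nat.add (Nat.add (Nat.add (Nat.add C (Nat.mul x46031 (nat_lit 2))) x32909) x41657) x46193) x45977) x46049) x46025) x46033)
    (Nat.add (Nat.add (Nat.add (Nat.add (Nat.add (Nat.add (Nat.add (Nat.add C (Nat.mul x46033 (nat_lit 2))) x32911) x41659) x46195) x45979) x46051) x46031) x26351)
    (Nat.add (Nat.add (Nat.add (Nat.add (Nat.add (Nat.add (Nat.add (Nat.add C (Nat.mul x46043 (nat_lit 3))) x32921) x41669) x46205) x45989) x46097) x46025) x46049)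
    (Nat.add (Nat.add (Nat.add (Nat.add (Nat.add (Nat.add (Nat.add (Nat.add (Nat.add (Nat.add (Nat.add C (Nat.mul x46049 (nat_lit 3))) x32927) x41675) x46211) x45995) x46103) x46031) x46067) x46043) x46055) x46051)
    (Nat.add (Nat.add (Nat.add (Nat.add (Nat.add (Nat.add (Nat.add (Nat.add (Nat.add (Nat.add (Nat.add C (Nat.mul x46051 (nat_lit 2))) x32929) x41677) x46213) x45997) x46105) x46033) x46069) x46057) x46049) x26369)
    (Nat.add (Nat.add (Nat.add (Nat.add (Nat.add (Nat.add (Nat.add (Nat.add (Nat.add C x46055) x32933) x41681) x46217) x46001) x46109) x46073) x46049) x46057)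
    (Nat.add (Nat.add (Nat.add (Nat.add (Nat.add (Nat.add (Nat.add (Nat.add (Nat.add (Nat.add (Nat.add C (Nat.mul x46057 (nat_lit 2))) x32935) x41683) x46219) x46003) x46111) x46075) x46051) x46055) x46059) x26375)
    (Nat.add (Nat.add (Nat.add (Nat.add (Nat.add (Nat.add (Nat.add (Nat.add (Nat.add C x46059) x32937) x41685) x46221) x46005) x46113) x46077) x46057) x26377)
    (Nat.add (Nat.add (Nat.add (Nat.add (Nat.add (Nat.add (Nat.add (Nat.add C (Nat.mul x46067 (nat_lit 2))) x32945) x41693) x46229) x46121) x46049) x46073) x46069)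
    (Nat.add (Nat.add (Nat.add (Nat.add (Nat.add (Nat.add (Nat.add (Nat.add C x32947) x41695) x46231) x46123) x46051) x46075) x46067) x26387)
    (Nat.add (Nat.add (Nat.add (Nat.add (Nat.add (Nat.add (Nat.add (Nat.add C (Nat.mul x46073 (nat_lit 2))) x32951) x41699) x46235) x46127) x46055) x46067) x46075)
    (Nat.add (Nat.add (Nat.add (Nat.add (Nat.add (Nat.add (Nat.add (Nat.add (Nat.add (Nat.add (Nat.add C (Nat.mul x46075 (nat_lit 2))) x32953) x41701) x46237) x46129) x46057) x46069) x46081) x46073) x46077) x26393)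
    (Nat.add (Nat.add (Nat.add (Nat.add (Nat.add (Nat.add (Nat.add (Nat.add C x32955) x41703) x46239) x46131) x46059) x46083) x46075) x26395)
    (Nat.add (Nat.add (Nat.add (Nat.add (Nat.add (Nat.add (Nat.add (Nat.add C (Nat.mul x46081 (nat_lit 2))) x32959) x41707) x46243) x46135) x46075) x46083) x26399)
    (Nat.add (Nat.add (Nat.add (Nat.add (Nat.add (Nat.add (Nat.add (Nat.add C (Nat.mul x46083 (nat_lit 2))) x32961) x41709) x46245) x46137) x46077) x46081) x26401)
    (Nat.add (Nat.add (Nat.add (Nat.add (Nat.add (Nat.add C (Nat.mul x46097 (nat_lit 2))) x32975) x41723) x46259) x46043) x46103)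
    (Nat.add (Nat.add (Nat.add (Nat.add (Nat.add (Nat.add (Nat.add (Nat.add (Nat.add C x46103) x32981) x41729) x46265) x46049) x46121) x46097) x46109) x46105)
    (Nat.add (Nat.add (Nat.add (Nat.add (Nat.add (Nat.add (Nat.add (Nat.add C x32983) x41731) x46267) x46051) x46123) x46111) x46103) x26423)
    (Nat.sub (Nat.add (Nat.add (Nat.add (Nat.add (Nat.add (Nat.add (Nat.add C x32987) x41735) x46271) x46055) x46127) x46103) x46111) (Nat.mul x46109 (nat_lit 2)))
    (Nat.sub (Nat.add (Nat.add (Nat.add (Nat.add (Nat.add (Nat.add (Nat.add (Nat.add (Nat.add C x32989) x41737) x46273) x46057) x46129) x46105) x46109) x46113) x26429) x46111)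
    (Nat.sub (Nat.add (Nat.add (Nat.add (Nat.add (Nat.add (Nat.add (Nat.add C x32991) x41739) x46275) x46059) x46131) x46111) x26431) (Nat.mul x46113 (nat_lit 2)))
    (Nat.add (Nat.add (Nat.add (Nat.add (Nat.add (Nat.add (Nat.add (Nat.add C (Nat.mul x46121 (nat_lit 2))) x32999) x41747) x46283) x46067) x46103) x46127) x46123)
    (Nat.add (Nat.add (Nat.add (Nat.add (Nat.add (Nat.add (Nat.add (Nat.add C x33001) x41749) x46285) x46069) x46105) x46129) x46121) x26441)
    (Nat.add (Nat.add (Nat.add (Nat.add (Nat.add (Nat.add (Nat.add (Nat.add (Nat.add C x46127) x33005) x41753) x46289) x46073) x46109) x46145) x46121) x46129)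
    (Nat.add (Nat.add (Nat.add (Nat.add (Nat.add (Nat.add (Nat.add (Nat.add (Nat.add (Nat.add (Nat.add (Nat.add C x46129) x33007) x41755) x46291) x46075) x46111) x46147) x46123) x46135) x46127) x46131) x26447)
    (Nat.sub (Nat.add (Nat.add (Nat.add (Nat.add (Nat.add (Nat.add (Nat.add (Nat.add (Nat.add C x33009) x41757) x46293) x46077) x46113) x46149) x46137) x46129) x26449) x46131)
    (Nat.add (Nat.add (Nat.add (Nat.add (Nat.add (Nat.add (Nat.add (Nat.add C x33013) x41761) x46297) x46081) x46153) x46129) x46137) x26453)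
    (Nat.add (Nat.add (Nat.add (Nat.add (Nat.add (Nat.add (Nat.add (Nat.add C x33015) x41763) x46299) x46083) x46155) x46131) x46135) x26455)
    (Nat.add (Nat.add (Nat.add (Nat.add (Nat.add (Nat.add C (Nat.mul x46145 (nat_lit 2))) x33023) x41771) x46307) x46127) x46147)
    (Nat.add (Nat.add (Nat.add (Nat.add (Nat.add (Nat.add (Nat.add (Nat.add (Nat.add C x46147) x33025) x41773) x46309) x46129) x46153) x46145) x46149) x26465)
    (Nat.sub (Nat.add (Nat.add (Nat.add (Nat.add (Nat.add (Nat.add (Nat.add C x33027) x41775) x46311) x46131) x46155) x46147) x26467) (Nat.mul x46149 (nat_lit 2)))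
    (Nat.add (Nat.add (Nat.add (Nat.add (Nat.add (Nat.add (Nat.add (Nat.add C (Nat.mul x46153 (nat_lit 2))) x33031) x41779) x46315) x46135) x46147) x46155) x26471)
    (Nat.add (Nat.add (Nat.add (Nat.add (Nat.add (Nat.add (Nat.add (Nat.add (Nat.add C x46155) x33033) x41781) x46317) x46137) x46149) x46161) x46153) x26473)
    (Nat.add (Nat.add (Nat.add (Nat.add (Nat.add (Nat.add C (Nat.mul x46161 (nat_lit 2))) x33039) x41787) x46323) x46155) x26479)
    (Nat.add (Nat.add (Nat.add (Nat.add (Nat.add (Nat.add (Nat.add C (Nat.mul x46187 (nat_lit 4))) x33065) x41813) x46673) x46025) x46205) x46193)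
    (Nat.add (Nat.add (Nat.add (Nat.add (Nat.add (Nat.add (Nat.add (Nat.add C (Nat.mul x46193 (nat_lit 2))) x33071) x41819) x46679) x46031) x46211) x46187) x46195)
    (Nat.add (Nat.add (Nat.add (Nat.add (Nat.add (Nat.add (Nat.add (Nat.add C (Nat.mul x46195 (nat_lit 2))) x33073) x41821) x46681) x46033) x46213) x46193) x26513)
    (Nat.add (Nat.add (Nat.add (Nat.add (Nat.add (Nat.add (Nat.add (Nat.add C (Nat.mul x46205 (nat_lit 2))) x33083) x41831) x46691) x46043) x46259) x46187) x46211)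
    (Nat.add (Nat.add (Nat.add (Nat.add (Nat.add (Nat.add (Nat.add (Nat.add (Nat.add (Nat.add (Nat.add C (Nat.mul x46211 (nat_lit 2))) x33089) x41837) x46697) x46049) x46265) x46193) x46229) x46205) x46217) x46213)
    (Nat.add (Nat.add (Nat.add (Nat.add (Nat.add (Nat.add (Nat.add (Nat.add (Nat.add (Nat.add (Nat.add C x46213) x33091) x41839) x46699) x46051) x46267) x46195) x46231) x46219) x46211) x26531)
    (Nat.add (Nat.add (Nat.add (Nat.add (Nat.add (Nat.add (Nat.add (Nat.add C x33095) x41843) x46703) x46055) x46271) x46235) x46211) x46219)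
    (Nat.add (Nat.add (Nat.add (Nat.add (Nat.add (Nat.add (Nat.add (Nat.add (Nat.add (Nat.add (Nat.add C x46219) x33097) x41845) x46705) x46057) x46273) x46237) x46213) x46217) x46221) x26537)
    (Nat.add (Nat.add (Nat.add (Nat.add (Nat.add (Nat.add (Nat.add (Nat.add C x33099) x41847) x46707) x46059) x46275) x46239) x46219) x26539)
    (Nat.add (Nat.add (Nat.add (Nat.add (Nat.add (Nat.add (Nat.add (Nat.add C x33107) x41855) x46715) x46067) x46283) x46211) x46235) x46231)
    (Nat.sub (Nat.add (Nat.add (Nat.add (Nat.add (Nat.add (Nat.add (Nat.add (Nat.add (Nat.add C x33109) x41857) x46717) x46069) x46285) x46213) x46237) x46229) x26549) (Nat.mul x46231 (nat_lit 2)))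
    (Nat.add (Nat.add (Nat.add (Nat.add (Nat.add (Nat.add (Nat.add (Nat.add C x33113) x41861) x46721) x46073) x46289) x46217) x46229) x46237)
    (Nat.add (Nat.add (Nat.add (Nat.add (Nat.add (Nat.add (Nat.add (Nat.add (Nat.add (Nat.add (Nat.add C x33115) x41863) x46723) x46075) x46291) x46219) x46231) x46243) x46235) x46239) x26555)
    (Nat.sub (Nat.add (Nat.add (Nat.add (Nat.add (Nat.add (Nat.add (Nat.add (Nat.add (Nat.add C x33117) x41865) x46725) x46077) x46293) x46221) x46245) x46237) x26557) (Nat.mul x46239 (nat_lit 2)))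
    (Nat.add (Nat.add (Nat.add (Nat.add (Nat.add (Nat.add (Nat.add (Nat.add C x33121) x41869) x46729) x46081) x46297) x46237) x46245) x26561)
    (Nat.add (Nat.add (Nat.add (Nat.add (Nat.add (Nat.add (Nat.add (Nat.add C x33123) x41871) x46731) x46083) x46299) x46239) x46243) x26563)
    (Nat.add (Nat.add (Nat.add (Nat.add (Nat.add (Nat.add (Nat.add (Nat.add C (Nat.mul x46259 (nat_lit 3))) x33137) x41885) x46745) x46097) x46421) x46205) x46265)
    (Nat.add (Nat.add (Nat.add (Nat.add (Nat.add (Nat.add (Nat.add (Nat.add (Nat.add (Nat.add (Nat.add C (Nat.mul x46265 (nat_lit 2))) x33143) x41891) x46751) x46103) x46427) x46211) x46283) x46259) x46271) x46267)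
    (Nat.add (Nat.add (Nat.add (Nat.add (Nat.add (Nat.add (Nat.add (Nat.add (Nat.add (Nat.add (Nat.add C x46267) x33145) x41893) x46753) x46105) x46429) x46213) x46285) x46273) x46265) x26585)
    (Nat.sub (Nat.add (Nat.add (Nat.add (Nat.add (Nat.add (Nat.add (Nat.add (Nat.add (Nat.add C x33149) x41897) x46757) x46109) x46433) x46217) x46289) x46265) x46273) x46271)
    (Nat.add (Nat.add (Nat.add (Nat.add (Nat.add (Nat.add (Nat.add (Nat.add (Nat.add (Nat.add (Nat.add C x33151) x41899) x46759) x46111) x46435) x46219) x46291) x46267) x46271) x46275) x26591)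
    (Nat.sub (Nat.add (Nat.add (Nat.add (Nat.add (Nat.add (Nat.add (Nat.add (Nat.add (Nat.add C x33153) x41901) x46761) x46113) x46437) x46221) x46293) x46273) x26593) x46275)
    (Nat.add (Nat.add (Nat.add (Nat.add (Nat.add (Nat.add (Nat.add (Nat.add (Nat.add (Nat.add (Nat.add C (Nat.mul x46283 (nat_lit 2))) x33161) x41909) x46769) x46121) x46445) x46229) x46337) x46265) x46289) x46285)
    (Nat.add (Nat.add (Nat.add (Nat.add (Nat.add (Nat.add (Nat.add (Nat.add (Nat.add (Nat.add (Nat.add C x33163) x41911) x46771) x46123) x46447) x46231) x46339) x46267) x46291) x46283) x26603)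
    (Nat.add (Nat.add (Nat.add (Nat.add (Nat.add (Nat.add (Nat.add (Nat.add (Nat.add (Nat.add (Nat.add (Nat.add C x46289) x33167) x41915) x46775) x46127) x46451) x46235) x46343) x46271) x46307) x46283) x46291)
    (Nat.add (Nat.add (Nat.add (Nat.add (Nat.add (Nat.add (Nat.add (Nat.add (Nat.add (Nat.add (Nat.add (Nat.add (Nat.add (Nat.add (Nat.add C x46291) x33169) x41917) x46777) x46129) x46453) x46237) x46345) x46273) x46309) x46285) x46297) x46289) x46293) x26609)
    (Nat.sub (Nat.add (Nat.add (Nat.add (Nat.add (Nat.add (Nat.add (Nat.add (Nat.add (Nat.add (Nat.add (Nat.add (Nat.add C x33171) x41919) x46779) x46131) x46455) x46239) x46347) x46275) x46311) x46299) x46291) x26611) x46293)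
    (Nat.add (Nat.add (Nat.add (Nat.add (Nat.add (Nat.add (Nat.add (Nat.add (Nat.add (Nat.add (Nat.add C x33175) x41923) x46783) x46135) x46459) x46243) x46351) x46315) x46291) x46299) x26615)
    (Nat.add (Nat.add (Nat.add (Nat.add (Nat.add (Nat.add (Nat.add (Nat.add (Nat.add (Nat.add (Nat.add C x33177) x41925) x46785) x46137) x46461) x46245) x46353) x46317) x46293) x46297) x26617)
    (Nat.add (Nat.add (Nat.add (Nat.add (Nat.add (Nat.add (Nat.add (Nat.add (Nat.add C x46307) x33185) x41933) x46793) x46145) x46469) x46361) x46289) x46309)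
    (Nat.add (Nat.add (Nat.add (Nat.add (Nat.add (Nat.add (Nat.add (Nat.add (Nat.add (Nat.add (Nat.add C x33187) x41935) x46795) x46147) x46471) x46363) x46291) x46315) x46307) x46311) x26627)
    (Nat.sub (Nat.add (Nat.add (Nat.add (Nat.add (Nat.add (Nat.add (Nat.add (Nat.add (Nat.add (Nat.add C x33189) x41937) x46797) x46149) x46473) x46365) x46293) x46317) x46309) x26629) (Nat.mul x46311 (nat_lit 3)))
    (Nat.add (Nat.add (Nat.add (Nat.add (Nat.add (Nat.add (Nat.add (Nat.add (Nat.add (Nat.add (Nat.add C x46315) x33193) x41941) x46801) x46153) x46477) x46369) x46297) x46309) x46317) x26633)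
    (Nat.add (Nat.add (Nat.add (Nat.add (Nat.add (Nat.add (Nat.add (Nat.add (Nat.add (Nat.add (Nat.add C x33195) x41943) x46803) x46155) x46479) x46371) x46299) x46311) x46323) x46315) x26635)
    (Nat.add (Nat.add (Nat.add (Nat.add (Nat.add (Nat.add (Nat.add (Nat.add (Nat.add C x46323) x33201) x41949) x46809) x46161) x46485) x46377) x46317) x26641)
    (Nat.add (Nat.add (Nat.add (Nat.add (Nat.add (Nat.add (Nat.add (Nat.add C (Nat.mul x46337 (nat_lit 2))) x33215) x41963) x46823) x46499) x46283) x46343) x46339)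
    (Nat.add (Nat.add (Nat.add (Nat.add (Nat.add (Nat.add (Nat.add (Nat.add C x33217) x41965) x46825) x46501) x46285) x46345) x46337) x26657)
    (Nat.add (Nat.add (Nat.add (Nat.add (Nat.add (Nat.add (Nat.add (Nat.add C x33221) x41969) x46829) x46505) x46289) x46361) x46337) x46345)
    (Nat.add (Nat.add (Nat.add (Nat.add (Nat.add (Nat.add (Nat.add (Nat.add (Nat.add (Nat.add (Nat.add C x33223) x41971) x46831) x46507) x46291) x46363) x46339) x46351) x46343) x46347) x26663)
    (Nat.sub (Nat.add (Nat.add (Nat.add (Nat.add (Nat.add (Nat.add (Nat.add (Nat.add (Nat.add C x33225) x41973) x46833) x46509) x46293) x46365) x46353) x46345) x26665) (Nat.mul x46347 (nat_lit 2)))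
    (Nat.sub (Nat.add (Nat.add (Nat.add (Nat.add (Nat.add (Nat.add (Nat.add (Nat.add (Nat.add C x33229) x41977) x46837) x46513) x46297) x46369) x46345) x46353) x26669) (Nat.mul x46351 (nat_lit 2)))
    (Nat.sub (Nat.add (Nat.add (Nat.add (Nat.add (Nat.add (Nat.add (Nat.add (Nat.add (Nat.add C x33231) x41979) x46839) x46515) x46299) x46371) x46347) x46351) x26671) (Nat.mul x46353 (nat_lit 2)))
    (Nat.add (Nat.add (Nat.add (Nat.add (Nat.add (Nat.add (Nat.add (Nat.add C (Nat.mul x46361 (nat_lit 2))) x33239) x41987) x46847) x46523) x46307) x46343) x46363)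
    (Nat.add (Nat.add (Nat.add (Nat.add (Nat.add (Nat.add (Nat.add (Nat.add (Nat.add (Nat.add (Nat.add C x46363) x33241) x41989) x46849) x46525) x46309) x46345) x46369) x46361) x46365) x26681)
    (Nat.sub (Nat.add (Nat.add (Nat.add (Nat.add (Nat.add (Nat.add (Nat.add (Nat.add (Nat.add C x33243) x41991) x46851) x46527) x46311) x46347) x46371) x46363) x26683) (Nat.mul x46365 (nat_lit 2)))
    (Nat.add (Nat.add (Nat.add (Nat.add (Nat.add (Nat.add (Nat.add (Nat.add (Nat.add (Nat.add (Nat.add C x46369) x33247) x41995) x46855) x46531) x46315) x46351) x46387) x46363) x46371) x26687)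
    (Nat.add (Nat.add (Nat.add (Nat.add (Nat.add (Nat.add (Nat.add (Nat.add (Nat.add (Nat.add (Nat.add C x33249) x41997) x46857) x46533) x46317) x46353) x46389) x46365) x46377) x46369) x26689)
    (Nat.add (Nat.add (Nat.add (Nat.add (Nat.add (Nat.add (Nat.add (Nat.add C x33255) x42003) x46863) x46539) x46323) x46395) x46371) x26695)
    (Nat.add (Nat.add (Nat.add (Nat.add (Nat.add (Nat.add (Nat.add (Nat.add C (Nat.mul x46387 (nat_lit 2))) x33265) x42013) x46873) x46549) x46369) x46389) x26705)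
    (Nat.add (Nat.add (Nat.add (Nat.add (Nat.add (Nat.add (Nat.add (Nat.add C x33267) x42015) x46875) x46551) x46371) x46395) x46387) x26707)
    (Nat.add (Nat.add (Nat.add (Nat.add (Nat.add (Nat.add (Nat.add (Nat.add C (Nat.mul x46395 (nat_lit 2))) x33273) x42021) x46881) x46557) x46377) x46389) x26713)
    (Nat.add (Nat.add (Nat.add (Nat.add (Nat.add (Nat.add C (Nat.mul x46421 (nat_lit 2))) x33299) x42047) x46907) x46259) x46427)
    (Nat.add (Nat.add (Nat.add (Nat.add (Nat.add (Nat.add (Nat.add (Nat.add (Nat.add C x46427) x33305) x42053) x46913) x46265) x46445) x46421) x46433) x46429)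
    (Nat.add (Nat.add (Nat.add (Nat.add (Nat.add (Nat.add (Nat.add (Nat.add C x33307) x42055) x46915) x46267) x46447) x46435) x46427) x26747)
    (Nat.sub (Nat.add (Nat.add (Nat.add (Nat.add (Nat.add (Nat.add (Nat.add C x33311) x42059) x46919) x46271) x46451) x46427) x46435) (Nat.mul x46433 (nat_lit 2)))
    (Nat.sub (Nat.add (Nat.add (Nat.add (Nat.add (Nat.add (Nat.add (Nat.add (Nat.add (Nat.add C x33313) x42061) x46921) x46273) x46453) x46429) x46433) x46437) x26753) x46435)
    (Nat.sub (Nat.add (Nat.add (Nat.add (Nat.add (Nat.add (Nat.add (Nat.add C x33315) x42063) x46923) x46275) x46455) x46435) x26755) (Nat.mul x46437 (nat_lit 2)))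
    (Nat.add (Nat.add (Nat.add (Nat.add (Nat.add (Nat.add (Nat.add (Nat.add C x33323) x42071) x46931) x46283) x46499) x46427) x46451) x46447)
    (Nat.sub (Nat.add (Nat.add (Nat.add (Nat.add (Nat.add (Nat.add (Nat.add (Nat.add (Nat.add C x33325) x42073) x46933) x46285) x46501) x46429) x46453) x46445) x26765) (Nat.mul x46447 (nat_lit 2)))
    (Nat.sub (Nat.add (Nat.add (Nat.add (Nat.add (Nat.add (Nat.add (Nat.add (Nat.add (Nat.add C x33329) x42077) x46937) x46289) x46505) x46433) x46469) x46445) x46453) x46451)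
    (Nat.sub (Nat.add (Nat.add (Nat.add (Nat.add (Nat.add (Nat.add (Nat.add (Nat.add (Nat.add (Nat.add (Nat.add (Nat.add C x33331) x42079) x46939) x46291) x46507) x46435) x46471) x46447) x46459) x46451) x46455) x26771) x46453)
    (Nat.sub (Nat.add (Nat.add (Nat.add (Nat.add (Nat.add (Nat.add (Nat.add (Nat.add (Nat.add (Nat.add C x33333) x42081) x46941) x46293) x46509) x46437) x46473) x46461) x46453) x26773) (Nat.mul x46455 (nat_lit 3)))
    (Nat.sub (Nat.add (Nat.add (Nat.add (Nat.add (Nat.add (Nat.add (Nat.add (Nat.add (Nat.add C x33337) x42085) x46945) x46297) x46513) x46477) x46453) x46461) x26777) (Nat.mul x46459 (nat_lit 2)))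
    (Nat.sub (Nat.add (Nat.add (Nat.add (Nat.add (Nat.add (Nat.add (Nat.add (Nat.add (Nat.add C x33339) x42087) x46947) x46299) x46515) x46479) x46455) x46459) x26779) (Nat.mul x46461 (nat_lit 2)))
    (Nat.sub (Nat.add (Nat.add (Nat.add (Nat.add (Nat.add (Nat.add (Nat.add C x33347) x42095) x46955) x46307) x46523) x46451) x46471) (Nat.mul x46469 (nat_lit 2)))
    (Nat.sub (Nat.add (Nat.add (Nat.add (Nat.add (Nat.add (Nat.add (Nat.add (Nat.add (Nat.add (Nat.add C x33349) x42097) x46957) x46309) x46525) x46453) x46477) x46469) x46473) x26789) (Nat.mul x46471 (nat_lit 3)))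
    (Nat.sub (Nat.add (Nat.add (Nat.add (Nat.add (Nat.add (Nat.add (Nat.add (Nat.add (Nat.add C x33351) x42099) x46959) x46311) x46527) x46455) x46479) x46471) x26791) (Nat.mul x46473 (nat_lit 6)))
    (Nat.sub (Nat.add (Nat.add (Nat.add (Nat.add (Nat.add (Nat.add (Nat.add (Nat.add (Nat.add C x33355) x42103) x46963) x46315) x46531) x46459) x46471) x46479) x26795) (Nat.mul x46477 (nat_lit 2)))
    (Nat.sub (Nat.add (Nat.add (Nat.add (Nat.add (Nat.add (Nat.add (Nat.add (Nat.add (Nat.add (Nat.add C x33357) x42105) x46965) x46317) x46533) x46461) x46473) x46485) x46477) x26797) (Nat.mul x46479 (nat_lit 3)))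
    (Nat.sub (Nat.add (Nat.add (Nat.add (Nat.add (Nat.add (Nat.add (Nat.add C x33363) x42111) x46971) x46323) x46539) x46479) x26803) (Nat.mul x46485 (nat_lit 2)))
    (Nat.add (Nat.add (Nat.add (Nat.add (Nat.add (Nat.add (Nat.add (Nat.add C (Nat.mul x46499 (nat_lit 2))) x33377) x42125) x46985) x46337) x46445) x46505) x46501)
    (Nat.add (Nat.add (Nat.add (Nat.add (Nat.add (Nat.add (Nat.add (Nat.add C x33379) x42127) x46987) x46339) x46447) x46507) x46499) x26819)
    (Nat.add (Nat.add (Nat.add (Nat.add (Nat.add (Nat.add (Nat.add (Nat.add C x33383) x42131) x46991) x46343) x46451) x46523) x46499) x46507)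
    (Nat.add (Nat.add (Nat.add (Nat.add (Nat.add (Nat.add (Nat.add (Nat.add (Nat.add (Nat.add (Nat.add C x33385) x42133) x46993) x46345) x46453) x46525) x46501) x46513) x46505) x46509) x26825)
    (Nat.sub (Nat.add (Nat.add (Nat.add (Nat.add (Nat.add (Nat.add (Nat.add (Nat.add (Nat.add C x33387) x42135) x46995) x46347) x46455) x46527) x46515) x46507) x26827) (Nat.mul x46509 (nat_lit 2)))
    (Nat.sub (Nat.add (Nat.add (Nat.add (Nat.add (Nat.add (Nat.add (Nat.add (Nat.add (Nat.add C x33391) x42139) x46999) x46351) x46459) x46531) x46507) x46515) x26831) (Nat.mul x46513 (nat_lit 2)))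
    (Nat.sub (Nat.add (Nat.add (Nat.add (Nat.add (Nat.add (Nat.add (Nat.add (Nat.add (Nat.add C x33393) x42141) x47001) x46353) x46461) x46533) x46509) x46513) x26833) (Nat.mul x46515 (nat_lit 2)))
    (Nat.add (Nat.add (Nat.add (Nat.add (Nat.add (Nat.add (Nat.add (Nat.add (Nat.add C x46523) x33401) x42149) x47009) x46361) x46469) x46577) x46505) x46525)
    (Nat.add (Nat.add (Nat.add (Nat.add (Nat.add (Nat.add (Nat.add (Nat.add (Nat.add (Nat.add (Nat.add C x33403) x42151) x47011) x46363) x46471) x46579) x46507) x46531) x46523) x46527) x26843)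
    (Nat.sub (Nat.add (Nat.add (Nat.add (Nat.add (Nat.add (Nat.add (Nat.add (Nat.add (Nat.add (Nat.add C x33405) x42153) x47013) x46365) x46473) x46581) x46509) x46533) x46525) x26845) (Nat.mul x46527 (nat_lit 3)))
    (Nat.add (Nat.add (Nat.add (Nat.add (Nat.add (Nat.add (Nat.add (Nat.add (Nat.add (Nat.add (Nat.add C x33409) x42157) x47017) x46369) x46477) x46585) x46513) x46549) x46525) x46533) x26849)
    (Nat.sub (Nat.add (Nat.add (Nat.add (Nat.add (Nat.add (Nat.add (Nat.add (Nat.add (Nat.add (Nat.add (Nat.add (Nat.add C x33411) x42159) x47019) x46371) x46479) x46587) x46515) x46551) x46527) x46539) x46531) x26851) x46533)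
    (Nat.sub (Nat.add (Nat.add (Nat.add (Nat.add (Nat.add (Nat.add (Nat.add (Nat.add (Nat.add C x33417) x42165) x47025) x46377) x46485) x46593) x46557) x46533) x26857) x46539)
    (Nat.add (Nat.add (Nat.add (Nat.add (Nat.add (Nat.add (Nat.add (Nat.add C x33427) x42175) x47035) x46387) x46603) x46531) x46551) x26867)
    (Nat.sub (Nat.add (Nat.add (Nat.add (Nat.add (Nat.add (Nat.add (Nat.add (Nat.add (Nat.add C x33429) x42177) x47037) x46389) x46605) x46533) x46557) x46549) x26869) (Nat.mul x46551 (nat_lit 2)))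
    (Nat.add (Nat.add (Nat.add (Nat.add (Nat.add (Nat.add (Nat.add (Nat.add C x33435) x42183) x47043) x46395) x46611) x46539) x46551) x26875)
    (Nat.add (Nat.add (Nat.add (Nat.add (Nat.add (Nat.add C (Nat.mul x46577 (nat_lit 2))) x33455) x42203) x47063) x46523) x46579)
    (Nat.add (Nat.add (Nat.add (Nat.add (Nat.add (Nat.add (Nat.add (Nat.add (Nat.add C x46579) x33457) x42205) x47065) x46525) x46585) x46577) x46581) x26897)
    (Nat.sub (Nat.add (Nat.add (Nat.add (Nat.add (Nat.add (Nat.add (Nat.add C x33459) x42207) x47067) x46527) x46587) x46579) x26899) (Nat.mul x46581 (nat_lit 2)))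
    (Nat.add (Nat.add (Nat.add (Nat.add (Nat.add (Nat.add (Nat.add (Nat.add C x33463) x42211) x47071) x46531) x46603) x46579) x46587) x26903)
    (Nat.sub (Nat.add (Nat.add (Nat.add (Nat.add (Nat.add (Nat.add (Nat.add (Nat.add (Nat.add C x33465) x42213) x47073) x46533) x46605) x46581) x46593) x46585) x26905) x46587)
    (Nat.sub (Nat.add (Nat.add (Nat.add (Nat.add (Nat.add (Nat.add (Nat.add C x33471) x42219) x47079) x46539) x46611) x46587) x26911) (Nat.mul x46593 (nat_lit 2)))
    (Nat.add (Nat.add (Nat.add (Nat.add (Nat.add (Nat.add (Nat.add (Nat.add C (Nat.mul x46603 (nat_lit 2))) x33481) x42229) x47089) x46549) x46585) x46605) x26921)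
    (Nat.add (Nat.add (Nat.add (Nat.add (Nat.add (Nat.add (Nat.add (Nat.add C x33483) x42231) x47091) x46551) x46587) x46611) x46603) x26923)
    (Nat.add (Nat.add (Nat.add (Nat.add (Nat.add (Nat.add (Nat.add (Nat.add (Nat.add C x46611) x33489) x42237) x47097) x46557) x46593) x46629) x46605) x26929)
    (Nat.add (Nat.add (Nat.add (Nat.add (Nat.add (Nat.add C (Nat.mul x46629 (nat_lit 2))) x33507) x42255) x47115) x46611) x26947)
    (Nat.add (Nat.add (Nat.add (Nat.add (Nat.add (Nat.add (Nat.add C (Nat.mul x46673 (nat_lit 4))) x33551) x42299) x48131) x46187) x46691) x46679)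
    (Nat.add (Nat.add (Nat.add (Nat.add (Nat.add (Nat.add (Nat.add (Nat.add C (Nat.mul x46679 (nat_lit 2))) x33557) x42305) x48137) x46193) x46697) x46673) x46681)
    (Nat.add (Nat.add (Nat.add (Nat.add (Nat.add (Nat.add (Nat.add (Nat.add C (Nat.mul x46681 (nat_lit 2))) x33559) x42307) x48139) x46195) x46699) x46679) x26999)
    (Nat.add (Nat.add (Nat.add (Nat.add (Nat.add (Nat.add (Nat.add (Nat.add C (Nat.mul x46691 (nat_lit 2))) x33569) x42317) x48149) x46205) x46745) x46673) x46697)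
    (Nat.add (Nat.add (Nat.add (Nat.add (Nat.add (Nat.add (Nat.add (Nat.add (Nat.add (Nat.add (Nat.add C (Nat.mul x46697 (nat_lit 2))) x33575) x42323) x48155) x46211) x46751) x46679) x46715) x46691) x46703) x46699)
    (Nat.add (Nat.add (Nat.add (Nat.add (Nat.add (Nat.add (Nat.add (Nat.add (Nat.add (Nat.add (Nat.add C x46699) x33577) x42325) x48157) x46213) x46753) x46681) x46717) x46705) x46697) x27017)
    (Nat.add (Nat.add (Nat.add (Nat.add (Nat.add (Nat.add (Nat.add (Nat.add C x33581) x42329) x48161) x46217) x46757) x46721) x46697) x46705)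
    (Nat.add (Nat.add (Nat.add (Nat.add (Nat.add (Nat.add (Nat.add (Nat.add (Nat.add (Nat.add (Nat.add C x46705) x33583) x42331) x48163) x46219) x46759) x46723) x46699) x46703) x46707) x27023)
    (Nat.add (Nat.add (Nat.add (Nat.add (Nat.add (Nat.add (Nat.add (Nat.add C x33585) x42333) x48165) x46221) x46761) x46725) x46705) x27025)
    (Nat.add (Nat.add (Nat.add (Nat.add (Nat.add (Nat.add (Nat.add (Nat.add C x33593) x42341) x48173) x46229) x46769) x46697) x46721) x46717)
    (Nat.sub (Nat.add (Nat.add (Nat.add (Nat.add (Nat.add (Nat.add (Nat.add (Nat.add (Nat.add C x33595) x42343) x48175) x46231) x46771) x46699) x46723) x46715) x27035) (Nat.mul x46717 (nat_lit 2)))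
    (Nat.add (Nat.add (Nat.add (Nat.add (Nat.add (Nat.add (Nat.add (Nat.add C x33599) x42347) x48179) x46235) x46775) x46703) x46715) x46723)
    (Nat.add (Nat.add (Nat.add (Nat.add (Nat.add (Nat.add (Nat.add (Nat.add (Nat.add (Nat.add (Nat.add C x33601) x42349) x48181) x46237) x46777) x46705) x46717) x46729) x46721) x46725) x27041)
    (Nat.sub (Nat.add (Nat.add (Nat.add (Nat.add (Nat.add (Nat.add (Nat.add (Nat.add (Nat.add C x33603) x42351) x48183) x46239) x46779) x46707) x46731) x46723) x27043) (Nat.mul x46725 (nat_lit 2)))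
    (Nat.add (Nat.add (Nat.add (Nat.add (Nat.add (Nat.add (Nat.add (Nat.add C x33607) x42355) x48187) x46243) x46783) x46723) x46731) x27047)
    (Nat.add (Nat.add (Nat.add (Nat.add (Nat.add (Nat.add (Nat.add (Nat.add C x33609) x42357) x48189) x46245) x46785) x46725) x46729) x27049)
    (Nat.add (Nat.add (Nat.add (Nat.add (Nat.add (Nat.add (Nat.add (Nat.add C (Nat.mul x46745 (nat_lit 2))) x33623) x42371) x48203) x46259) x46907) x46691) x46751)
    (Nat.add (Nat.add (Nat.add (Nat.add (Nat.add (Nat.add (Nat.add (Nat.add (Nat.add (Nat.add (Nat.add C x46751) x33629) x42377) x48209) x46265) x46913) x46697) x46769) x46745) x46757) x46753)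
    (Nat.add (Nat.add (Nat.add (Nat.add (Nat.add (Nat.add (Nat.add (Nat.add (Nat.add (Nat.add C x33631) x42379) x48211) x46267) x46915) x46699) x46771) x46759) x46751) x27071)
    (Nat.sub (Nat.add (Nat.add (Nat.add (Nat.add (Nat.add (Nat.add (Nat.add (Nat.add (Nat.add C x33635) x42383) x48215) x46271) x46919) x46703) x46775) x46751) x46759) (Nat.mul x46757 (nat_lit 2)))
    (Nat.sub (Nat.add (Nat.add (Nat.add (Nat.add (Nat.add (Nat.add (Nat.add (Nat.add (Nat.add (Nat.add (Nat.add C x33637) x42385) x48217) x46273) x46921) x46705) x46777) x46753) x46757) x46761) x27077) x46759)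
    (Nat.sub (Nat.add (Nat.add (Nat.add (Nat.add (Nat.add (Nat.add (Nat.add (Nat.add (Nat.add C x33639) x42387) x48219) x46275) x46923) x46707) x46779) x46759) x27079) (Nat.mul x46761 (nat_lit 2)))
    (Nat.add (Nat.add (Nat.add (Nat.add (Nat.add (Nat.add (Nat.add (Nat.add (Nat.add (Nat.add (Nat.add C x46769) x33647) x42395) x48227) x46283) x46931) x46715) x46823) x46751) x46775) x46771)
    (Nat.sub (Nat.add (Nat.add (Nat.add (Nat.add (Nat.add (Nat.add (Nat.add (Nat.add (Nat.add (Nat.add (Nat.add C x33649) x42397) x48229) x46285) x46933) x46717) x46825) x46753) x46777) x46769) x27089) x46771)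
    (Nat.add (Nat.add (Nat.add (Nat.add (Nat.add (Nat.add (Nat.add (Nat.add (Nat.add (Nat.add (Nat.add C x33653) x42401) x48233) x46289) x46937) x46721) x46829) x46757) x46793) x46769) x46777)
    (Nat.add (Nat.add (Nat.add (Nat.add (Nat.add (Nat.add (Nat.add (Nat.add (Nat.add (Nat.add (Nat.add (Nat.add (Nat.add (Nat.add C x33655) x42403) x48235) x46291) x46939) x46723) x46831) x46759) x46795) x46771) x46783) x46775) x46779) x27095)
    (Nat.sub (Nat.add (Nat.add (Nat.add (Nat.add (Nat.add (Nat.add (Nat.add (Nat.add (Nat.add (Nat.add (Nat.add (Nat.add C x33657) x42405) x48237) x46293) x46941) x46725) x46833) x46761) x46797) x46785) x46777) x27097) (Nat.mul x46779 (nat_lit 2)))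
    (Nat.sub (Nat.add (Nat.add (Nat.add (Nat.add (Nat.add (Nat.add (Nat.add (Nat.add (Nat.add (Nat.add (Nat.add C x33661) x42409) x48241) x46297) x46945) x46729) x46837) x46801) x46777) x46785) x27101) x46783)
    (Nat.sub (Nat.add (Nat.add (Nat.add (Nat.add (Nat.add (Nat.add (Nat.add (Nat.add (Nat.add (Nat.add (Nat.add C x33663) x42411) x48243) x46299) x46947) x46731) x46839) x46803) x46779) x46783) x27103) x46785)
    (Nat.add (Nat.add (Nat.add (Nat.add (Nat.add (Nat.add (Nat.add (Nat.add C x33671) x42419) x48251) x46307) x46955) x46847) x46775) x46795)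
    (Nat.sub (Nat.add (Nat.add (Nat.add (Nat.add (Nat.add (Nat.add (Nat.add (Nat.add (Nat.add (Nat.add (Nat.add C x33673) x42421) x48253) x46309) x46957) x46849) x46777) x46801) x46793) x46797) x27113) x46795)
    (Nat.sub (Nat.add (Nat.add (Nat.add (Nat.add (Nat.add (Nat.add (Nat.add (Nat.add (Nat.add (Nat.add C x33675) x42423) x48255) x46311) x46959) x46851) x46779) x46803) x46795) x27115) (Nat.mul x46797 (nat_lit 4)))
    (Nat.add (Nat.add (Nat.add (Nat.add (Nat.add (Nat.add (Nat.add (Nat.add (Nat.add (Nat.add C x33679) x42427) x48259) x46315) x46963) x46855) x46783) x46795) x46803) x27119)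
    (Nat.sub (Nat.add (Nat.add (Nat.add (Nat.add (Nat.add (Nat.add (Nat.add (Nat.add (Nat.add (Nat.add (Nat.add C x33681) x42429) x48261) x46317) x46965) x46857) x46785) x46797) x46809) x46801) x27121) x46803)
    (Nat.add (Nat.add (Nat.add (Nat.add (Nat.add (Nat.add (Nat.add (Nat.add C x33687) x42435) x48267) x46323) x46971) x46863) x46803) x27127)
    (Nat.add (Nat.add (Nat.add (Nat.add (Nat.add (Nat.add (Nat.add (Nat.add C x33701) x42449) x48281) x46337) x46985) x46769) x46829) x46825)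
    (Nat.sub (Nat.add (Nat.add (Nat.add (Nat.add (Nat.add (Nat.add (Nat.add (Nat.add (Nat.add C x33703) x42451) x48283) x46339) x46987) x46771) x46831) x46823) x27143) (Nat.mul x46825 (nat_lit 2)))
    (Nat.sub (Nat.add (Nat.add (Nat.add (Nat.add (Nat.add (Nat.add (Nat.add (Nat.add (Nat.add C x33707) x42455) x48287) x46343) x46991) x46775) x46847) x46823) x46831) (Nat.mul x46829 (nat_lit 2)))
    (Nat.sub (Nat.add (Nat.add (Nat.add (Nat.add (Nat.add (Nat.add (Nat.add (Nat.add (Nat.add (Nat.add (Nat.add (Nat.add C x33709) x42457) x48289) x46345) x46993) x46777) x46849) x46825) x46837) x46829) x46833) x27149) (Nat.mul x46831 (nat_lit 2)))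
    (Nat.sub (Nat.add (Nat.add (Nat.add (Nat.add (Nat.add (Nat.add (Nat.add (Nat.add (Nat.add (Nat.add C x33711) x42459) x48291) x46347) x46995) x46779) x46851) x46839) x46831) x27151) (Nat.mul x46833 (nat_lit 4)))
    (Nat.sub (Nat.add (Nat.add (Nat.add (Nat.add (Nat.add (Nat.add (Nat.add (Nat.add (Nat.add (Nat.add C x33715) x42463) x48295) x46351) x46999) x46783) x46855) x46831) x46839) x27155) (Nat.mul x46837 (nat_lit 4)))
    (Nat.sub (Nat.add (Nat.add (Nat.add (Nat.add (Nat.add (Nat.add (Nat.add (Nat.add (Nat.add (Nat.add C x33717) x42465) x48297) x46353) x47001) x46785) x46857) x46833) x46837) x27157) (Nat.mul x46839 (nat_lit 4)))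
    (Nat.add (Nat.add (Nat.add (Nat.add (Nat.add (Nat.add (Nat.add (Nat.add C x33725) x42473) x48305) x46361) x47009) x46793) x46829) x46849)
    (Nat.sub (Nat.add (Nat.add (Nat.add (Nat.add (Nat.add (Nat.add (Nat.add (Nat.add (Nat.add (Nat.add (Nat.add C x33727) x42475) x48307) x46363) x47011) x46795) x46831) x46855) x46847) x46851) x27167) x46849)
    (Nat.sub (Nat.add (Nat.add (Nat.add (Nat.add (Nat.add (Nat.add (Nat.add (Nat.add (Nat.add (Nat.add C x33729) x42477) x48309) x46365) x47013) x46797) x46833) x46857) x46849) x27169) (Nat.mul x46851 (nat_lit 4)))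
    (Nat.sub (Nat.add (Nat.add (Nat.add (Nat.add (Nat.add (Nat.add (Nat.add (Nat.add (Nat.add (Nat.add (Nat.add C x33733) x42481) x48313) x46369) x47017) x46801) x46837) x46873) x46849) x46857) x27173) x46855)
    (Nat.sub (Nat.add (Nat.add (Nat.add (Nat.add (Nat.add (Nat.add (Nat.add (Nat.add (Nat.add (Nat.add (Nat.add (Nat.add C x33735) x42483) x48315) x46371) x47019) x46803) x46839) x46875) x46851) x46863) x46855) x27175) (Nat.mul x46857 (nat_lit 2)))
    (Nat.sub (Nat.add (Nat.add (Nat.add (Nat.add (Nat.add (Nat.add (Nat.add (Nat.add (Nat.add C x33741) x42489) x48321) x46377) x47025) x46809) x46881) x46857) x27181) (Nat.mul x46863 (nat_lit 2)))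
    (Nat.add (Nat.add (Nat.add (Nat.add (Nat.add (Nat.add (Nat.add (Nat.add C x33751) x42499) x48331) x46387) x47035) x46855) x46875) x27191)
    (Nat.sub (Nat.add (Nat.add (Nat.add (Nat.add (Nat.add (Nat.add (Nat.add (Nat.add (Nat.add C x33753) x42501) x48333) x46389) x47037) x46857) x46881) x46873) x27193) (Nat.mul x46875 (nat_lit 2)))
    (Nat.add (Nat.add (Nat.add (Nat.add (Nat.add (Nat.add (Nat.add (Nat.add C x33759) x42507) x48339) x46395) x47043) x46863) x46875) x27199)
    (Nat.add (Nat.add (Nat.add (Nat.add (Nat.add (Nat.add (Nat.add (Nat.add C (Nat.mul x46907 (nat_lit 3))) x33785) x42533) x48365) x46421) x47393) x46745) x46913)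
    (Nat.add (Nat.add (Nat.add (Nat.add (Nat.add (Nat.add (Nat.add (Nat.add (Nat.add (Nat.add (Nat.add C (Nat.mul x46913 (nat_lit 2))) x33791) x42539) x48371) x46427) x47399) x46751) x46931) x46907) x46919) x46915)
    (Nat.add (Nat.add (Nat.add (Nat.add (Nat.add (Nat.add (Nat.add (Nat.add (Nat.add (Nat.add (Nat.add C x46915) x33793) x42541) x48373) x46429) x47401) x46753) x46933) x46921) x46913) x27233)
    (Nat.sub (Nat.add (Nat.add (Nat.add (Nat.add (Nat.add (Nat.add (Nat.add (Nat.add (Nat.add C x33797) x42545) x48377) x46433) x47405) x46757) x46937) x46913) x46921) x46919)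
    (Nat.add (Nat.add (Nat.add (Nat.add (Nat.add (Nat.add (Nat.add (Nat.add (Nat.add (Nat.add (Nat.add C x33799) x42547) x48379) x46435) x47407) x46759) x46939) x46915) x46919) x46923) x27239)
    (Nat.sub (Nat.add (Nat.add (Nat.add (Nat.add (Nat.add (Nat.add (Nat.add (Nat.add (Nat.add C x33801) x42549) x48381) x46437) x47409) x46761) x46941) x46921) x27241) x46923)
    (Nat.add (Nat.add (Nat.add (Nat.add (Nat.add (Nat.add (Nat.add (Nat.add (Nat.add (Nat.add (Nat.add C x46931) x33809) x42557) x48389) x46445) x47417) x46769) x46985) x46913) x46937) x46933)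
    (Nat.sub (Nat.add (Nat.add (Nat.add (Nat.add (Nat.add (Nat.add (Nat.add (Nat.add (Nat.add (Nat.add (Nat.add C x33811) x42559) x48391) x46447) x47419) x46771) x46987) x46915) x46939) x46931) x27251) x46933)
    (Nat.add (Nat.add (Nat.add (Nat.add (Nat.add (Nat.add (Nat.add (Nat.add (Nat.add (Nat.add (Nat.add C x33815) x42563) x48395) x46451) x47423) x46775) x46991) x46919) x46955) x46931) x46939)
    (Nat.add (Nat.add (Nat.add (Nat.add (Nat.add (Nat.add (Nat.add (Nat.add (Nat.add (Nat.add (Nat.add (Nat.add (Nat.add (Nat.add C x33817) x42565) x48397) x46453) x47425) x46777) x46993) x46921) x46957) x46933) x46945) x46937) x46941) x27257)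
    (Nat.sub (Nat.add (Nat.add (Nat.add (Nat.add (Nat.add (Nat.add (Nat.add (Nat.add (Nat.add (Nat.add (Nat.add (Nat.add C x33819) x42567) x48399) x46455) x47427) x46779) x46995) x46923) x46959) x46947) x46939) x27259) (Nat.mul x46941 (nat_lit 2)))
    (Nat.sub (Nat.add (Nat.add (Nat.add (Nat.add (Nat.add (Nat.add (Nat.add (Nat.add (Nat.add (Nat.add (Nat.add C x33823) x42571) x48403) x46459) x47431) x46783) x46999) x46963) x46939) x46947) x27263) x46945)
    (Nat.sub (Nat.add (Nat.add (Nat.add (Nat.add (Nat.add (Nat.add (Nat.add (Nat.add (Nat.add (Nat.add (Nat.add C x33825) x42573) x48405) x46461) x47433) x46785) x47001) x46965) x46941) x46945) x27265) x46947)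
    (Nat.sub (Nat.add (Nat.add (Nat.add (Nat.add (Nat.add (Nat.add (Nat.add (Nat.add (Nat.add C x33833) x42581) x48413) x46469) x47441) x46793) x47009) x46937) x46957) x46955)
    (Nat.sub (Nat.add (Nat.add (Nat.add (Nat.add (Nat.add (Nat.add (Nat.add (Nat.add (Nat.add (Nat.add (Nat.add (Nat.add C x33835) x42583) x48415) x46471) x47443) x46795) x47011) x46939) x46963) x46955) x46959) x27275) (Nat.mul x46957 (nat_lit 2)))
    (Nat.sub (Nat.add (Nat.add (Nat.add (Nat.add (Nat.add (Nat.add (Nat.add (Nat.add (Nat.add (Nat.add (Nat.add C x33837) x42585) x48417) x46473) x47445) x46797) x47013) x46941) x46965) x46957) x27277) (Nat.mul x46959 (nat_lit 5)))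
    (Nat.sub (Nat.add (Nat.add (Nat.add (Nat.add (Nat.add (Nat.add (Nat.add (Nat.add (Nat.add (Nat.add (Nat.add C x33841) x42589) x48421) x46477) x47449) x46801) x47017) x46945) x46957) x46965) x27281) x46963)
    (Nat.sub (Nat.add (Nat.add (Nat.add (Nat.add (Nat.add (Nat.add (Nat.add (Nat.add (Nat.add (Nat.add (Nat.add (Nat.add C x33843) x42591) x48423) x46479) x47451) x46803) x47019) x46947) x46959) x46971) x46963) x27283) (Nat.mul x46965 (nat_lit 2)))
    (Nat.sub (Nat.add (Nat.add (Nat.add (Nat.add (Nat.add (Nat.add (Nat.add (Nat.add (Nat.add C x33849) x42597) x48429) x46485) x47457) x46809) x47025) x46965) x27289) x46971)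
    (Nat.add (Nat.add (Nat.add (Nat.add (Nat.add (Nat.add (Nat.add (Nat.add (Nat.add (Nat.add (Nat.add C (Nat.mul x46985 (nat_lit 2))) x33863) x42611) x48443) x46499) x47471) x46823) x47147) x46931) x46991) x46987)
    (Nat.add (Nat.add (Nat.add (Nat.add (Nat.add (Nat.add (Nat.add (Nat.add (Nat.add (Nat.add (Nat.add C x33865) x42613) x48445) x46501) x47473) x46825) x47149) x46933) x46993) x46985) x27305)
    (Nat.add (Nat.add (Nat.add (Nat.add (Nat.add (Nat.add (Nat.add (Nat.add (Nat.add (Nat.add (Nat.add C x33869) x42617) x48449) x46505) x47477) x46829) x47153) x46937) x47009) x46985) x46993)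
    (Nat.add (Nat.add (Nat.add (Nat.add (Nat.add (Nat.add (Nat.add (Nat.add (Nat.add (Nat.add (Nat.add (Nat.add (Nat.add (Nat.add C x33871) x42619) x48451) x46507) x47479) x46831) x47155) x46939) x47011) x46987) x46999) x46991) x46995) x27311)
    (Nat.sub (Nat.add (Nat.add (Nat.add (Nat.add (Nat.add (Nat.add (Nat.add (Nat.add (Nat.add (Nat.add (Nat.add (Nat.add C x33873) x42621) x48453) x46509) x47481) x46833) x47157) x46941) x47013) x47001) x46993) x27313) (Nat.mul x46995 (nat_lit 2)))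
    (Nat.sub (Nat.add (Nat.add (Nat.add (Nat.add (Nat.add (Nat.add (Nat.add (Nat.add (Nat.add (Nat.add (Nat.add (Nat.add C x33877) x42625) x48457) x46513) x47485) x46837) x47161) x46945) x47017) x46993) x47001) x27317) (Nat.mul x46999 (nat_lit 2)))
    (Nat.sub (Nat.add (Nat.add (Nat.add (Nat.add (Nat.add (Nat.add (Nat.add (Nat.add (Nat.add (Nat.add (Nat.add (Nat.add C x33879) x42627) x48459) x46515) x47487) x46839) x47163) x46947) x47019) x46995) x46999) x27319) (Nat.mul x47001 (nat_lit 2)))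
    (Nat.add (Nat.add (Nat.add (Nat.add (Nat.add (Nat.add (Nat.add (Nat.add (Nat.add (Nat.add (Nat.add (Nat.add C x47009) x33887) x42635) x48467) x46523) x47495) x46847) x47171) x46955) x47063) x46991) x47011)
    (Nat.add (Nat.add (Nat.add (Nat.add (Nat.add (Nat.add (Nat.add (Nat.add (Nat.add (Nat.add (Nat.add (Nat.add (Nat.add (Nat.add C x33889) x42637) x48469) x46525) x47497) x46849) x47173) x46957) x47065) x46993) x47017) x47009) x47013) x27329)
    (Nat.sub (Nat.add (Nat.add (Nat.add (Nat.add (Nat.add (Nat.add (Nat.add (Nat.add (Nat.add (Nat.add (Nat.add (Nat.add (Nat.add C x33891) x42639) x48471) x46527) x47499) x46851) x47175) x46959) x47067) x46995) x47019) x47011) x27331) (Nat.mul x47013 (nat_lit 3)))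
    (Nat.add (Nat.add (Nat.add (Nat.add (Nat.add (Nat.add (Nat.add (Nat.add (Nat.add (Nat.add (Nat.add (Nat.add (Nat.add (Nat.add C x33895) x42643) x48475) x46531) x47503) x46855) x47179) x46963) x47071) x46999) x47035) x47011) x47019) x27335)
    (Nat.sub (Nat.add (Nat.add (Nat.add (Nat.add (Nat.add (Nat.add (Nat.add (Nat.add (Nat.add (Nat.add (Nat.add (Nat.add (Nat.add (Nat.add (Nat.add C x33897) x42645) x48477) x46533) x47505) x46857) x47181) x46965) x47073) x47001) x47037) x47013) x47025) x47017) x27337) x47019)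
    (Nat.sub (Nat.add (Nat.add (Nat.add (Nat.add (Nat.add (Nat.add (Nat.add (Nat.add (Nat.add (Nat.add (Nat.add (Nat.add C x33903) x42651) x48483) x46539) x47511) x46863) x47187) x46971) x47079) x47043) x47019) x27343) x47025)
    (Nat.add (Nat.add (Nat.add (Nat.add (Nat.add (Nat.add (Nat.add (Nat.add (Nat.add (Nat.add (Nat.add C x33913) x42661) x48493) x46549) x47521) x46873) x47197) x47089) x47017) x47037) x27353)
    (Nat.sub (Nat.add (Nat.add (Nat.add (Nat.add (Nat.add (Nat.add (Nat.add (Nat.add (Nat.add (Nat.add (Nat.add (Nat.add C x33915) x42663) x48495) x46551) x47523) x46875) x47199) x47091) x47019) x47043) x47035) x27355) (Nat.mul x47037 (nat_lit 2)))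
    (Nat.add (Nat.add (Nat.add (Nat.add (Nat.add (Nat.add (Nat.add (Nat.add (Nat.add (Nat.add (Nat.add C x33921) x42669) x48501) x46557) x47529) x46881) x47205) x47097) x47025) x47037) x27361)
    (Nat.add (Nat.add (Nat.add (Nat.add (Nat.add (Nat.add (Nat.add (Nat.add (Nat.add C x47063) x33941) x42689) x48521) x46577) x47549) x47225) x47009) x47065)
    (Nat.add (Nat.add (Nat.add (Nat.add (Nat.add (Nat.add (Nat.add (Nat.add (Nat.add (Nat.add (Nat.add C x33943) x42691) x48523) x46579) x47551) x47227) x47011) x47071) x47063) x47067) x27383)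
    (Nat.sub (Nat.add (Nat.add (Nat.add (Nat.add (Nat.add (Nat.add (Nat.add (Nat.add (Nat.add (Nat.add C x33945) x42693) x48525) x46581) x47553) x47229) x47013) x47073) x47065) x27385) (Nat.mul x47067 (nat_lit 3)))
    (Nat.sub (Nat.add (Nat.add (Nat.add (Nat.add (Nat.add (Nat.add (Nat.add (Nat.add (Nat.add (Nat.add (Nat.add C x33949) x42697) x48529) x46585) x47557) x47233) x47017) x47089) x47065) x47073) x27389) x47071)
    (Nat.sub (Nat.add (Nat.add (Nat.add (Nat.add (Nat.add (Nat.add (Nat.add (Nat.add (Nat.add (Nat.add (Nat.add (Nat.add C x33951) x42699) x48531) x46587) x47559) x47235) x47019) x47091) x47067) x47079) x47071) x27391) (Nat.mul x47073 (nat_lit 2)))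
    (Nat.sub (Nat.add (Nat.add (Nat.add (Nat.add (Nat.add (Nat.add (Nat.add (Nat.add (Nat.add (Nat.add C x33957) x42705) x48537) x46593) x47565) x47241) x47025) x47097) x47073) x27397) (Nat.mul x47079 (nat_lit 3)))
    (Nat.add (Nat.add (Nat.add (Nat.add (Nat.add (Nat.add (Nat.add (Nat.add (Nat.add (Nat.add (Nat.add C x47089) x33967) x42715) x48547) x46603) x47575) x47251) x47035) x47071) x47091) x27407)
    (Nat.sub (Nat.add (Nat.add (Nat.add (Nat.add (Nat.add (Nat.add (Nat.add (Nat.add (Nat.add (Nat.add (Nat.add C x33969) x42717) x48549) x46605) x47577) x47253) x47037) x47073) x47097) x47089) x27409) x47091)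
    (Nat.add (Nat.add (Nat.add (Nat.add (Nat.add (Nat.add (Nat.add (Nat.add (Nat.add (Nat.add (Nat.add C x33975) x42723) x48555) x46611) x47583) x47259) x47043) x47079) x47115) x47091) x27415)
    (Nat.add (Nat.add (Nat.add (Nat.add (Nat.add (Nat.add (Nat.add (Nat.add (Nat.add C x47115) x33993) x42741) x48573) x46629) x47601) x47277) x47097) x27433)
    (Nat.add (Nat.add (Nat.add (Nat.add (Nat.add (Nat.add (Nat.add (Nat.add C (Nat.mul x47147 (nat_lit 2))) x34025) x42773) x48605) x47633) x46985) x47153) x47149)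
    (Nat.add (Nat.add (Nat.add (Nat.add (Nat.add (Nat.add (Nat.add (Nat.add C x34027) x42775) x48607) x47635) x46987) x47155) x47147) x27467)
    (Nat.add (Nat.add (Nat.add (Nat.add (Nat.add (Nat.add (Nat.add (Nat.add C x34031) x42779) x48611) x47639) x46991) x47171) x47147) x47155)
    (Nat.add (Nat.add (Nat.add (Nat.add (Nat.add (Nat.add (Nat.add (Nat.add (Nat.add (Nat.add (Nat.add C x34033) x42781) x48613) x47641) x46993) x47173) x47149) x47161) x47153) x47157) x27473)
    (Nat.sub (Nat.add (Nat.add (Nat.add (Nat.add (Nat.add (Nat.add (Nat.add (Nat.add (Nat.add C x34035) x42783) x48615) x47643) x46995) x47175) x47163) x47155) x27475) (Nat.mul x47157 (nat_lit 2)))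
    (Nat.sub (Nat.add (Nat.add (Nat.add (Nat.add (Nat.add (Nat.add (Nat.add (Nat.add (Nat.add C x34039) x42787) x48619) x47647) x46999) x47179) x47155) x47163) x27479) (Nat.mul x47161 (nat_lit 2)))
    (Nat.sub (Nat.add (Nat.add (Nat.add (Nat.add (Nat.add (Nat.add (Nat.add (Nat.add (Nat.add C x34041) x42789) x48621) x47649) x47001) x47181) x47157) x47161) x27481) (Nat.mul x47163 (nat_lit 2)))
    (Nat.add (Nat.add (Nat.add (Nat.add (Nat.add (Nat.add (Nat.add (Nat.add C x34049) x42797) x48629) x47657) x47009) x47225) x47153) x47173)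
    (Nat.sub (Nat.add (Nat.add (Nat.add (Nat.add (Nat.add (Nat.add (Nat.add (Nat.add (Nat.add (Nat.add (Nat.add C x34051) x42799) x48631) x47659) x47011) x47227) x47155) x47179) x47171) x47175) x27491) x47173)
    (Nat.sub (Nat.add (Nat.add (Nat.add (Nat.add (Nat.add (Nat.add (Nat.add (Nat.add (Nat.add (Nat.add C x34053) x42801) x48633) x47661) x47013) x47229) x47157) x47181) x47173) x27493) (Nat.mul x47175 (nat_lit 4)))
    (Nat.sub (Nat.add (Nat.add (Nat.add (Nat.add (Nat.add (Nat.add (Nat.add (Nat.add (Nat.add (Nat.add (Nat.add C x34057) x42805) x48637) x47665) x47017) x47233) x47161) x47197) x47173) x47181) x27497) x47179)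
    (Nat.sub (Nat.add (Nat.add (Nat.add (Nat.add (Nat.add (Nat.add (Nat.add (Nat.add (Nat.add (Nat.add (Nat.add (Nat.add C x34059) x42807) x48639) x47667) x47019) x47235) x47163) x47199) x47175) x47187) x47179) x27499) (Nat.mul x47181 (nat_lit 2)))
    (Nat.sub (Nat.add (Nat.add (Nat.add (Nat.add (Nat.add (Nat.add (Nat.add (Nat.add (Nat.add C x34065) x42813) x48645) x47673) x47025) x47241) x47205) x47181) x27505) (Nat.mul x47187 (nat_lit 2)))
    (Nat.sub (Nat.add (Nat.add (Nat.add (Nat.add (Nat.add (Nat.add (Nat.add (Nat.add (Nat.add C x34075) x42823) x48655) x47683) x47035) x47251) x47179) x47199) x27515) (Nat.mul x47197 (nat_lit 2)))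
    (Nat.sub (Nat.add (Nat.add (Nat.add (Nat.add (Nat.add (Nat.add (Nat.add (Nat.add (Nat.add (Nat.add C x34077) x42825) x48657) x47685) x47037) x47253) x47181) x47205) x47197) x27517) (Nat.mul x47199 (nat_lit 4)))
    (Nat.sub (Nat.add (Nat.add (Nat.add (Nat.add (Nat.add (Nat.add (Nat.add (Nat.add (Nat.add C x34083) x42831) x48663) x47691) x47043) x47259) x47187) x47199) x27523) (Nat.mul x47205 (nat_lit 2)))
    (Nat.add (Nat.add (Nat.add (Nat.add (Nat.add (Nat.add (Nat.add (Nat.add C (Nat.mul x47225 (nat_lit 2))) x34103) x42851) x48683) x47711) x47063) x47171) x47227)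
    (Nat.add (Nat.add (Nat.add (Nat.add (Nat.add (Nat.add (Nat.add (Nat.add (Nat.add (Nat.add (Nat.add C x47227) x34105) x42853) x48685) x47713) x47065) x47173) x47233) x47225) x47229) x27545)
    (Nat.sub (Nat.add (Nat.add (Nat.add (Nat.add (Nat.add (Nat.add (Nat.add (Nat.add (Nat.add C x34107) x42855) x48687) x47715) x47067) x47175) x47235) x47227) x27547) (Nat.mul x47229 (nat_lit 2)))
    (Nat.add (Nat.add (Nat.add (Nat.add (Nat.add (Nat.add (Nat.add (Nat.add (Nat.add (Nat.add C x34111) x42859) x48691) x47719) x47071) x47179) x47251) x47227) x47235) x27551)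
    (Nat.sub (Nat.add (Nat.add (Nat.add (Nat.add (Nat.add (Nat.add (Nat.add (Nat.add (Nat.add (Nat.add (Nat.add C x34113) x42861) x48693) x47721) x47073) x47181) x47253) x47229) x47241) x47233) x27553) x47235)
    (Nat.sub (Nat.add (Nat.add (Nat.add (Nat.add (Nat.add (Nat.add (Nat.add (Nat.add (Nat.add C x34119) x42867) x48699) x47727) x47079) x47187) x47259) x47235) x27559) (Nat.mul x47241 (nat_lit 2)))
    (Nat.add (Nat.add (Nat.add (Nat.add (Nat.add (Nat.add (Nat.add (Nat.add (Nat.add (Nat.add (Nat.add C x47251) x34129) x42877) x48709) x47737) x47089) x47197) x47305) x47233) x47253) x27569)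
    (Nat.sub (Nat.add (Nat.add (Nat.add (Nat.add (Nat.add (Nat.add (Nat.add (Nat.add (Nat.add (Nat.add (Nat.add C x34131) x42879) x48711) x47739) x47091) x47199) x47307) x47235) x47259) x47251) x27571) x47253)
    (Nat.add (Nat.add (Nat.add (Nat.add (Nat.add (Nat.add (Nat.add (Nat.add (Nat.add (Nat.add (Nat.add C x34137) x42885) x48717) x47745) x47097) x47205) x47313) x47241) x47277) x47253) x27577)
    (Nat.add (Nat.add (Nat.add (Nat.add (Nat.add (Nat.add (Nat.add (Nat.add C x34155) x42903) x48735) x47763) x47115) x47331) x47259) x27595)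
    (Nat.add (Nat.add (Nat.add (Nat.add (Nat.add (Nat.add (Nat.add (Nat.add C (Nat.mul x47305 (nat_lit 2))) x34183) x42931) x48763) x47791) x47251) x47307) x27623)
    (Nat.add (Nat.add (Nat.add (Nat.add (Nat.add (Nat.add (Nat.add (Nat.add C x34185) x42933) x48765) x47793) x47253) x47313) x47305) x27625)
    (Nat.add (Nat.add (Nat.add (Nat.add (Nat.add (Nat.add (Nat.add (Nat.add C x34191) x42939) x48771) x47799) x47259) x47331) x47307) x27631)
    (Nat.add (Nat.add (Nat.add (Nat.add (Nat.add (Nat.add (Nat.add (Nat.add C (Nat.mul x47331 (nat_lit 2))) x34209) x42957) x48789) x47817) x47277) x47313) x27649)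
    (Nat.add (Nat.add (Nat.add (Nat.add (Nat.add (Nat.add C (Nat.mul x47393 (nat_lit 2))) x34271) x43019) x48851) x46907) x47399)
    (Nat.add (Nat.add (Nat.add (Nat.add (Nat.add (Nat.add (Nat.add (Nat.add (Nat.add C x47399) x34277) x43025) x48857) x46913) x47417) x47393) x47405) x47401)
    (Nat.add (Nat.add (Nat.add (Nat.add (Nat.add (Nat.add (Nat.add (Nat.add C x34279) x43027) x48859) x46915) x47419) x47407) x47399) x27719)
    (Nat.sub (Nat.add (Nat.add (Nat.add (Nat.add (Nat.add (Nat.add (Nat.add C x34283) x43031) x48863) x46919) x47423) x47399) x47407) (Nat.mul x47405 (nat_lit 2)))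
    (Nat.sub (Nat.add (Nat.add (Nat.add (Nat.add (Nat.add (Nat.add (Nat.add (Nat.add (Nat.add C x34285) x43033) x48865) x46921) x47425) x47401) x47405) x47409) x27725) x47407)
    (Nat.sub (Nat.add (Nat.add (Nat.add (Nat.add (Nat.add (Nat.add (Nat.add C x34287) x43035) x48867) x46923) x47427) x47407) x27727) (Nat.mul x47409 (nat_lit 2)))
    (Nat.add (Nat.add (Nat.add (Nat.add (Nat.add (Nat.add (Nat.add (Nat.add C x34295) x43043) x48875) x46931) x47471) x47399) x47423) x47419)
    (Nat.sub (Nat.add (Nat.add (Nat.add (Nat.add (Nat.add (Nat.add (Nat.add (Nat.add (Nat.add C x34297) x43045) x48877) x46933) x47473) x47401) x47425) x47417) x27737) (Nat.mul x47419 (nat_lit 2)))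
    (Nat.sub (Nat.add (Nat.add (Nat.add (Nat.add (Nat.add (Nat.add (Nat.add (Nat.add (Nat.add C x34301) x43049) x48881) x46937) x47477) x47405) x47441) x47417) x47425) x47423)
    (Nat.sub (Nat.add (Nat.add (Nat.add (Nat.add (Nat.add (Nat.add (Nat.add (Nat.add (Nat.add (Nat.add (Nat.add (Nat.add C x34303) x43051) x48883) x46939) x47479) x47407) x47443) x47419) x47431) x47423) x47427) x27743) x47425)
    (Nat.sub (Nat.add (Nat.add (Nat.add (Nat.add (Nat.add (Nat.add (Nat.add (Nat.add (Nat.add (Nat.add C x34305) x43053) x48885) x46941) x47481) x47409) x47445) x47433) x47425) x27745) (Nat.mul x47427 (nat_lit 3)))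
    (Nat.sub (Nat.add (Nat.add (Nat.add (Nat.add (Nat.add (Nat.add (Nat.add (Nat.add (Nat.add C x34309) x43057) x48889) x46945) x47485) x47449) x47425) x47433) x27749) (Nat.mul x47431 (nat_lit 2)))
    (Nat.sub (Nat.add (Nat.add (Nat.add (Nat.add (Nat.add (Nat.add (Nat.add (Nat.add (Nat.add C x34311) x43059) x48891) x46947) x47487) x47451) x47427) x47431) x27751) (Nat.mul x47433 (nat_lit 2)))
    (Nat.sub (Nat.add (Nat.add (Nat.add (Nat.add (Nat.add (Nat.add (Nat.add C x34319) x43067) x48899) x46955) x47495) x47423) x47443) (Nat.mul x47441 (nat_lit 2)))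
    (Nat.sub (Nat.add (Nat.add (Nat.add (Nat.add (Nat.add (Nat.add (Nat.add (Nat.add (Nat.add (Nat.add C x34321) x43069) x48901) x46957) x47497) x47425) x47449) x47441) x47445) x27761) (Nat.mul x47443 (nat_lit 3)))
    (Nat.sub (Nat.add (Nat.add (Nat.add (Nat.add (Nat.add (Nat.add (Nat.add (Nat.add (Nat.add C x34323) x43071) x48903) x46959) x47499) x47427) x47451) x47443) x27763) (Nat.mul x47445 (nat_lit 6)))
    (Nat.sub (Nat.add (Nat.add (Nat.add (Nat.add (Nat.add (Nat.add (Nat.add (Nat.add (Nat.add C x34327) x43075) x48907) x46963) x47503) x47431) x47443) x47451) x27767) (Nat.mul x47449 (nat_lit 2)))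
    (Nat.sub (Nat.add (Nat.add (Nat.add (Nat.add (Nat.add (Nat.add (Nat.add (Nat.add (Nat.add (Nat.add C x34329) x43077) x48909) x46965) x47505) x47433) x47445) x47457) x47449) x27769) (Nat.mul x47451 (nat_lit 3)))
    (Nat.sub (Nat.add (Nat.add (Nat.add (Nat.add (Nat.add (Nat.add (Nat.add C x34335) x43083) x48915) x46971) x47511) x47451) x27775) (Nat.mul x47457 (nat_lit 2)))
    (Nat.add (Nat.add (Nat.add (Nat.add (Nat.add (Nat.add (Nat.add (Nat.add C x34349) x43097) x48929) x46985) x47633) x47417) x47477) x47473)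
    (Nat.sub (Nat.add (Nat.add (Nat.add (Nat.add (Nat.add (Nat.add (Nat.add (Nat.add (Nat.add C x34351) x43099) x48931) x46987) x47635) x47419) x47479) x47471) x27791) (Nat.mul x47473 (nat_lit 2)))
    (Nat.sub (Nat.add (Nat.add (Nat.add (Nat.add (Nat.add (Nat.add (Nat.add (Nat.add (Nat.add C x34355) x43103) x48935) x46991) x47639) x47423) x47495) x47471) x47479) (Nat.mul x47477 (nat_lit 2)))
    (Nat.sub (Nat.add (Nat.add (Nat.add (Nat.add (Nat.add (Nat.add (Nat.add (Nat.add (Nat.add (Nat.add (Nat.add (Nat.add C x34357) x43105) x48937) x46993) x47641) x47425) x47497) x47473) x47485) x47477) x47481) x27797) (Nat.mul x47479 (nat_lit 2)))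
    (Nat.sub (Nat.add (Nat.add (Nat.add (Nat.add (Nat.add (Nat.add (Nat.add (Nat.add (Nat.add (Nat.add C x34359) x43107) x48939) x46995) x47643) x47427) x47499) x47487) x47479) x27799) (Nat.mul x47481 (nat_lit 4)))
    (Nat.sub (Nat.add (Nat.add (Nat.add (Nat.add (Nat.add (Nat.add (Nat.add (Nat.add (Nat.add (Nat.add C x34363) x43111) x48943) x46999) x47647) x47431) x47503) x47479) x47487) x27803) (Nat.mul x47485 (nat_lit 4)))
    (Nat.sub (Nat.add (Nat.add (Nat.add (Nat.add (Nat.add (Nat.add (Nat.add (Nat.add (Nat.add (Nat.add C x34365) x43113) x48945) x47001) x47649) x47433) x47505) x47481) x47485) x27805) (Nat.mul x47487 (nat_lit 4)))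
    (Nat.sub (Nat.add (Nat.add (Nat.add (Nat.add (Nat.add (Nat.add (Nat.add (Nat.add (Nat.add C x34373) x43121) x48953) x47009) x47657) x47441) x47549) x47477) x47497) x47495)
    (Nat.sub (Nat.add (Nat.add (Nat.add (Nat.add (Nat.add (Nat.add (Nat.add (Nat.add (Nat.add (Nat.add (Nat.add (Nat.add C x34375) x43123) x48955) x47011) x47659) x47443) x47551) x47479) x47503) x47495) x47499) x27815) (Nat.mul x47497 (nat_lit 2)))
    (Nat.sub (Nat.add (Nat.add (Nat.add (Nat.add (Nat.add (Nat.add (Nat.add (Nat.add (Nat.add (Nat.add (Nat.add C x34377) x43125) x48957) x47013) x47661) x47445) x47553) x47481) x47505) x47497) x27817) (Nat.mul x47499 (nat_lit 5)))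
    (Nat.sub (Nat.add (Nat.add (Nat.add (Nat.add (Nat.add (Nat.add (Nat.add (Nat.add (Nat.add (Nat.add (Nat.add (Nat.add C x34381) x43129) x48961) x47017) x47665) x47449) x47557) x47485) x47521) x47497) x47505) x27821) (Nat.mul x47503 (nat_lit 2)))
    (Nat.sub (Nat.add (Nat.add (Nat.add (Nat.add (Nat.add (Nat.add (Nat.add (Nat.add (Nat.add (Nat.add (Nat.add (Nat.add (Nat.add C x34383) x43131) x48963) x47019) x47667) x47451) x47559) x47487) x47523) x47499) x47511) x47503) x27823) (Nat.mul x47505 (nat_lit 3)))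
    (Nat.sub (Nat.add (Nat.add (Nat.add (Nat.add (Nat.add (Nat.add (Nat.add (Nat.add (Nat.add (Nat.add C x34389) x43137) x48969) x47025) x47673) x47457) x47565) x47529) x47505) x27829) (Nat.mul x47511 (nat_lit 3)))
    (Nat.sub (Nat.add (Nat.add (Nat.add (Nat.add (Nat.add (Nat.add (Nat.add (Nat.add (Nat.add C x34399) x43147) x48979) x47035) x47683) x47575) x47503) x47523) x27839) (Nat.mul x47521 (nat_lit 2)))
    (Nat.sub (Nat.add (Nat.add (Nat.add (Nat.add (Nat.add (Nat.add (Nat.add (Nat.add (Nat.add (Nat.add C x34401) x43149) x48981) x47037) x47685) x47577) x47505) x47529) x47521) x27841) (Nat.mul x47523 (nat_lit 4)))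
    (Nat.sub (Nat.add (Nat.add (Nat.add (Nat.add (Nat.add (Nat.add (Nat.add (Nat.add (Nat.add C x34407) x43155) x48987) x47043) x47691) x47583) x47511) x47523) x27847) (Nat.mul x47529 (nat_lit 2)))
    (Nat.sub (Nat.add (Nat.add (Nat.add (Nat.add (Nat.add (Nat.add (Nat.add C x34427) x43175) x49007) x47063) x47711) x47495) x47551) (Nat.mul x47549 (nat_lit 2)))
    (Nat.sub (Nat.add (Nat.add (Nat.add (Nat.add (Nat.add (Nat.add (Nat.add (Nat.add (Nat.add (Nat.add C x34429) x43177) x49009) x47065) x47713) x47497) x47557) x47549) x47553) x27869) (Nat.mul x47551 (nat_lit 3)))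
    (Nat.sub (Nat.add (Nat.add (Nat.add (Nat.add (Nat.add (Nat.add (Nat.add (Nat.add (Nat.add C x34431) x43179) x49011) x47067) x47715) x47499) x47559) x47551) x27871) (Nat.mul x47553 (nat_lit 6)))
    (Nat.sub (Nat.add (Nat.add (Nat.add (Nat.add (Nat.add (Nat.add (Nat.add (Nat.add (Nat.add (Nat.add C x34435) x43183) x49015) x47071) x47719) x47503) x47575) x47551) x47559) x27875) (Nat.mul x47557 (nat_lit 4)))
    (Nat.sub (Nat.add (Nat.add (Nat.add (Nat.add (Nat.add (Nat.add (Nat.add (Nat.add (Nat.add (Nat.add (Nat.add C x34437) x43185) x49017) x47073) x47721) x47505) x47577) x47553) x47565) x47557) x27877) (Nat.mul x47559 (nat_lit 5)))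
    (Nat.sub (Nat.add (Nat.add (Nat.add (Nat.add (Nat.add (Nat.add (Nat.add (Nat.add (Nat.add C x34443) x43191) x49023) x47079) x47727) x47511) x47583) x47559) x27883) (Nat.mul x47565 (nat_lit 6)))
    (Nat.sub (Nat.add (Nat.add (Nat.add (Nat.add (Nat.add (Nat.add (Nat.add (Nat.add (Nat.add C x34453) x43201) x49033) x47089) x47737) x47521) x47557) x47577) x27893) (Nat.mul x47575 (nat_lit 2)))
    (Nat.sub (Nat.add (Nat.add (Nat.add (Nat.add (Nat.add (Nat.add (Nat.add (Nat.add (Nat.add (Nat.add C x34455) x43203) x49035) x47091) x47739) x47523) x47559) x47583) x47575) x27895) (Nat.mul x47577 (nat_lit 4)))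
    (Nat.sub (Nat.add (Nat.add (Nat.add (Nat.add (Nat.add (Nat.add (Nat.add (Nat.add (Nat.add (Nat.add C x34461) x43209) x49041) x47097) x47745) x47529) x47565) x47601) x47577) x27901) (Nat.mul x47583 (nat_lit 3)))
    (Nat.sub (Nat.add (Nat.add (Nat.add (Nat.add (Nat.add (Nat.add (Nat.add C x34479) x43227) x49059) x47115) x47763) x47583) x27919) (Nat.mul x47601 (nat_lit 2)))
    (Nat.add (Nat.add (Nat.add (Nat.add (Nat.add (Nat.add (Nat.add (Nat.add C (Nat.mul x47633 (nat_lit 2))) x34511) x43259) x49091) x47147) x47471) x47639) x47635)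
    (Nat.add (Nat.add (Nat.add (Nat.add (Nat.add (Nat.add (Nat.add (Nat.add C x34513) x43261) x49093) x47149) x47473) x47641) x47633) x27953)
    (Nat.add (Nat.add (Nat.add (Nat.add (Nat.add (Nat.add (Nat.add (Nat.add C x34517) x43265) x49097) x47153) x47477) x47657) x47633) x47641)
    (Nat.add (Nat.add (Nat.add (Nat.add (Nat.add (Nat.add (Nat.add (Nat.add (Nat.add (Nat.add (Nat.add C x34519) x43267) x49099) x47155) x47479) x47659) x47635) x47647) x47639) x47643) x27959)
    (Nat.sub (Nat.add (Nat.add (Nat.add (Nat.add (Nat.add (Nat.add (Nat.add (Nat.add (Nat.add C x34521) x43269) x49101) x47157) x47481) x47661) x47649) x47641) x27961) (Nat.mul x47643 (nat_lit 2)))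
    (Nat.sub (Nat.add (Nat.add (Nat.add (Nat.add (Nat.add (Nat.add (Nat.add (Nat.add (Nat.add C x34525) x43273) x49105) x47161) x47485) x47665) x47641) x47649) x27965) (Nat.mul x47647 (nat_lit 2)))
    (Nat.sub (Nat.add (Nat.add (Nat.add (Nat.add (Nat.add (Nat.add (Nat.add (Nat.add (Nat.add C x34527) x43275) x49107) x47163) x47487) x47667) x47643) x47647) x27967) (Nat.mul x47649 (nat_lit 2)))
    (Nat.add (Nat.add (Nat.add (Nat.add (Nat.add (Nat.add (Nat.add (Nat.add C x34535) x43283) x49115) x47171) x47495) x47711) x47639) x47659)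
    (Nat.sub (Nat.add (Nat.add (Nat.add (Nat.add (Nat.add (Nat.add (Nat.add (Nat.add (Nat.add (Nat.add (Nat.add C x34537) x43285) x49117) x47173) x47497) x47713) x47641) x47665) x47657) x47661) x27977) x47659)
    (Nat.sub (Nat.add (Nat.add (Nat.add (Nat.add (Nat.add (Nat.add (Nat.add (Nat.add (Nat.add (Nat.add C x34539) x43287) x49119) x47175) x47499) x47715) x47643) x47667) x47659) x27979) (Nat.mul x47661 (nat_lit 4)))
    (Nat.sub (Nat.add (Nat.add (Nat.add (Nat.add (Nat.add (Nat.add (Nat.add (Nat.add (Nat.add (Nat.add (Nat.add C x34543) x43291) x49123) x47179) x47503) x47719) x47647) x47683) x47659) x47667) x27983) x47665)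
    (Nat.sub (Nat.add (Nat.add (Nat.add (Nat.add (Nat.add (Nat.add (Nat.add (Nat.add (Nat.add (Nat.add (Nat.add (Nat.add C x34545) x43293) x49125) x47181) x47505) x47721) x47649) x47685) x47661) x47673) x47665) x27985) (Nat.mul x47667 (nat_lit 2)))
    (Nat.sub (Nat.add (Nat.add (Nat.add (Nat.add (Nat.add (Nat.add (Nat.add (Nat.add (Nat.add C x34551) x43299) x49131) x47187) x47511) x47727) x47691) x47667) x27991) (Nat.mul x47673 (nat_lit 2)))
    (Nat.sub (Nat.add (Nat.add (Nat.add (Nat.add (Nat.add (Nat.add (Nat.add (Nat.add (Nat.add C x34561) x43309) x49141) x47197) x47521) x47737) x47665) x47685) x28001) (Nat.mul x47683 (nat_lit 2)))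
    (Nat.sub (Nat.add (Nat.add (Nat.add (Nat.add (Nat.add (Nat.add (Nat.add (Nat.add (Nat.add (Nat.add C x34563) x43311) x49143) x47199) x47523) x47739) x47667) x47691) x47683) x28003) (Nat.mul x47685 (nat_lit 4)))
    (Nat.sub (Nat.add (Nat.add (Nat.add (Nat.add (Nat.add (Nat.add (Nat.add (Nat.add (Nat.add C x34569) x43317) x49149) x47205) x47529) x47745) x47673) x47685) x28009) (Nat.mul x47691 (nat_lit 2)))
    (Nat.add (Nat.add (Nat.add (Nat.add (Nat.add (Nat.add (Nat.add (Nat.add (Nat.add C x47711) x34589) x43337) x49169) x47225) x47549) x47873) x47657) x47713)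
    (Nat.add (Nat.add (Nat.add (Nat.add (Nat.add (Nat.add (Nat.add (Nat.add (Nat.add (Nat.add (Nat.add C x34591) x43339) x49171) x47227) x47551) x47875) x47659) x47719) x47711) x47715) x28031)
    (Nat.sub (Nat.add (Nat.add (Nat.add (Nat.add (Nat.add (Nat.add (Nat.add (Nat.add (Nat.add (Nat.add C x34593) x43341) x49173) x47229) x47553) x47877) x47661) x47721) x47713) x28033) (Nat.mul x47715 (nat_lit 3)))
    (Nat.sub (Nat.add (Nat.add (Nat.add (Nat.add (Nat.add (Nat.add (Nat.add (Nat.add (Nat.add (Nat.add (Nat.add C x34597) x43345) x49177) x47233) x47557) x47881) x47665) x47737) x47713) x47721) x28037) x47719)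
    (Nat.sub (Nat.add (Nat.add (Nat.add (Nat.add (Nat.add (Nat.add (Nat.add (Nat.add (Nat.add (Nat.add (Nat.add (Nat.add C x34599) x43347) x49179) x47235) x47559) x47883) x47667) x47739) x47715) x47727) x47719) x28039) (Nat.mul x47721 (nat_lit 2)))
    (Nat.sub (Nat.add (Nat.add (Nat.add (Nat.add (Nat.add (Nat.add (Nat.add (Nat.add (Nat.add (Nat.add C x34605) x43353) x49185) x47241) x47565) x47889) x47673) x47745) x47721) x28045) (Nat.mul x47727 (nat_lit 3)))
    (Nat.add (Nat.add (Nat.add (Nat.add (Nat.add (Nat.add (Nat.add (Nat.add (Nat.add (Nat.add (Nat.add C x34615) x43363) x49195) x47251) x47575) x47899) x47683) x47791) x47719) x47739) x28055)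
    (Nat.sub (Nat.add (Nat.add (Nat.add (Nat.add (Nat.add (Nat.add (Nat.add (Nat.add (Nat.add (Nat.add (Nat.add (Nat.add C x34617) x43365) x49197) x47253) x47577) x47901) x47685) x47793) x47721) x47745) x47737) x28057) (Nat.mul x47739 (nat_lit 2)))
    (Nat.sub (Nat.add (Nat.add (Nat.add (Nat.add (Nat.add (Nat.add (Nat.add (Nat.add (Nat.add (Nat.add (Nat.add (Nat.add C x34623) x43371) x49203) x47259) x47583) x47907) x47691) x47799) x47727) x47763) x47739) x28063) x47745)
    (Nat.sub (Nat.add (Nat.add (Nat.add (Nat.add (Nat.add (Nat.add (Nat.add (Nat.add (Nat.add C x34641) x43389) x49221) x47277) x47601) x47925) x47817) x47745) x28081) x47763)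
    (Nat.add (Nat.add (Nat.add (Nat.add (Nat.add (Nat.add (Nat.add (Nat.add C x34669) x43417) x49249) x47305) x47953) x47737) x47793) x28109)
    (Nat.sub (Nat.add (Nat.add (Nat.add (Nat.add (Nat.add (Nat.add (Nat.add (Nat.add (Nat.add C x34671) x43419) x49251) x47307) x47955) x47739) x47799) x47791) x28111) (Nat.mul x47793 (nat_lit 2)))
    (Nat.sub (Nat.add (Nat.add (Nat.add (Nat.add (Nat.add (Nat.add (Nat.add (Nat.add (Nat.add C x34677) x43425) x49257) x47313) x47961) x47745) x47817) x47793) x28117) (Nat.mul x47799 (nat_lit 2)))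
    (Nat.add (Nat.add (Nat.add (Nat.add (Nat.add (Nat.add (Nat.add (Nat.add C x34695) x43443) x49275) x47331) x47979) x47763) x47799) x28135)
    (Nat.add (Nat.add (Nat.add (Nat.add (Nat.add (Nat.add C (Nat.mul x47873 (nat_lit 2))) x34751) x43499) x49331) x47711) x47875)
    (Nat.add (Nat.add (Nat.add (Nat.add (Nat.add (Nat.add (Nat.add (Nat.add (Nat.add C x47875) x34753) x43501) x49333) x47713) x47881) x47873) x47877) x28193)
    (Nat.sub (Nat.add (Nat.add (Nat.add (Nat.add (Nat.add (Nat.add (Nat.add C x34755) x43503) x49335) x47715) x47883) x47875) x28195) (Nat.mul x47877 (nat_lit 2)))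
    (Nat.add (Nat.add (Nat.add (Nat.add (Nat.add (Nat.add (Nat.add (Nat.add C x34759) x43507) x49339) x47719) x47899) x47875) x47883) x28199)
    (Nat.sub (Nat.add (Nat.add (Nat.add (Nat.add (Nat.add (Nat.add (Nat.add (Nat.add (Nat.add C x34761) x43509) x49341) x47721) x47901) x47877) x47889) x47881) x28201) x47883)
    (Nat.sub (Nat.add (Nat.add (Nat.add (Nat.add (Nat.add (Nat.add (Nat.add C x34767) x43515) x49347) x47727) x47907) x47883) x28207) (Nat.mul x47889 (nat_lit 2)))
    (Nat.add (Nat.add (Nat.add (Nat.add (Nat.add (Nat.add (Nat.add (Nat.add C x34777) x43525) x49357) x47737) x47953) x47881) x47901) x28217)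
    (Nat.sub (Nat.add (Nat.add (Nat.add (Nat.add (Nat.add (Nat.add (Nat.add (Nat.add (Nat.add C x34779) x43527) x49359) x47739) x47955) x47883) x47907) x47899) x28219) (Nat.mul x47901 (nat_lit 2)))
    (Nat.sub (Nat.add (Nat.add (Nat.add (Nat.add (Nat.add (Nat.add (Nat.add (Nat.add (Nat.add C x34785) x43533) x49365) x47745) x47961) x47889) x47925) x47901) x28225) x47907)
    (Nat.sub (Nat.add (Nat.add (Nat.add (Nat.add (Nat.add (Nat.add (Nat.add C x34803) x43551) x49383) x47763) x47979) x47907) x28243) (Nat.mul x47925 (nat_lit 2)))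
    (Nat.add (Nat.add (Nat.add (Nat.add (Nat.add (Nat.add (Nat.add (Nat.add C (Nat.mul x47953 (nat_lit 2))) x34831) x43579) x49411) x47791) x47899) x47955) x28271)
    (Nat.add (Nat.add (Nat.add (Nat.add (Nat.add (Nat.add (Nat.add (Nat.add C x34833) x43581) x49413) x47793) x47901) x47961) x47953) x28273)
    (Nat.add (Nat.add (Nat.add (Nat.add (Nat.add (Nat.add (Nat.add (Nat.add C x34839) x43587) x49419) x47799) x47907) x47979) x47955) x28279)
    (Nat.add (Nat.add (Nat.add (Nat.add (Nat.add (Nat.add (Nat.add (Nat.add (Nat.add C x47979) x34857) x43605) x49437) x47817) x47925) x48033) x47961) x28297)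
    (Nat.add (Nat.add (Nat.add (Nat.add (Nat.add (Nat.add C (Nat.mul x48033 (nat_lit 2))) x34911) x43659) x49491) x47979) x28351)
    (Nat.add (Nat.add (Nat.add (Nat.add (Nat.add (Nat.add (Nat.add C (Nat.mul x48131 (nat_lit 5))) x35009) x43757) x52505) x46673) x48149) x48137)
    (Nat.add (Nat.add (Nat.add (Nat.add (Nat.add (Nat.add (Nat.add (Nat.add C (Nat.mul x48137 (nat_lit 3))) x35015) x43763) x52511) x46679) x48155) x48131) x48139)
    (Nat.add (Nat.add (Nat.add (Nat.add (Nat.add (Nat.add (Nat.add (Nat.add C (Nat.mul x48139 (nat_lit 3))) x35017) x43765) x52513) x46681) x48157) x48137) x28457)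
    (Nat.add (Nat.add (Nat.add (Nat.add (Nat.add (Nat.add (Nat.add (Nat.add C (Nat.mul x48149 (nat_lit 3))) x35027) x43775) x52523) x46691) x48203) x48131) x48155)
    (Nat.add (Nat.add (Nat.add (Nat.add (Nat.add (Nat.add (Nat.add (Nat.add (Nat.add (Nat.add (Nat.add C (Nat.mul x48155 (nat_lit 3))) x35033) x43781) x52529) x46697) x48209) x48137) x48173) x48149) x48161) x48157)
    (Nat.add (Nat.add (Nat.add (Nat.add (Nat.add (Nat.add (Nat.add (Nat.add (Nat.add (Nat.add (Nat.add C (Nat.mul x48157 (nat_lit 2))) x35035) x43783) x52531) x46699) x48211) x48139) x48175) x48163) x48155) x28475)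
    (Nat.add (Nat.add (Nat.add (Nat.add (Nat.add (Nat.add (Nat.add (Nat.add (Nat.add C x48161) x35039) x43787) x52535) x46703) x48215) x48179) x48155) x48163)
    (Nat.add (Nat.add (Nat.add (Nat.add (Nat.add (Nat.add (Nat.add (Nat.add (Nat.add (Nat.add (Nat.add C (Nat.mul x48163 (nat_lit 2))) x35041) x43789) x52537) x46705) x48217) x48181) x48157) x48161) x48165) x28481)
    (Nat.add (Nat.add (Nat.add (Nat.add (Nat.add (Nat.add (Nat.add (Nat.add (Nat.add C x48165) x35043) x43791) x52539) x46707) x48219) x48183) x48163) x28483)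
    (Nat.add (Nat.add (Nat.add (Nat.add (Nat.add (Nat.add (Nat.add (Nat.add (Nat.add C x48173) x35051) x43799) x52547) x46715) x48227) x48155) x48179) x48175)
    (Nat.sub (Nat.add (Nat.add (Nat.add (Nat.add (Nat.add (Nat.add (Nat.add (Nat.add (Nat.add C x35053) x43801) x52549) x46717) x48229) x48157) x48181) x48173) x28493) x48175)
    (Nat.add (Nat.add (Nat.add (Nat.add (Nat.add (Nat.add (Nat.add (Nat.add (Nat.add C x48179) x35057) x43805) x52553) x46721) x48233) x48161) x48173) x48181)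
    (Nat.add (Nat.add (Nat.add (Nat.add (Nat.add (Nat.add (Nat.add (Nat.add (Nat.add (Nat.add (Nat.add (Nat.add C x48181) x35059) x43807) x52555) x46723) x48235) x48163) x48175) x48187) x48179) x48183) x28499)
    (Nat.sub (Nat.add (Nat.add (Nat.add (Nat.add (Nat.add (Nat.add (Nat.add (Nat.add (Nat.add C x35061) x43809) x52557) x46725) x48237) x48165) x48189) x48181) x28501) x48183)
    (Nat.add (Nat.add (Nat.add (Nat.add (Nat.add (Nat.add (Nat.add (Nat.add (Nat.add C x48187) x35065) x43813) x52561) x46729) x48241) x48181) x48189) x28505)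
    (Nat.add (Nat.add (Nat.add (Nat.add (Nat.add (Nat.add (Nat.add (Nat.add (Nat.add C x48189) x35067) x43815) x52563) x46731) x48243) x48183) x48187) x28507)
    (Nat.add (Nat.add (Nat.add (Nat.add (Nat.add (Nat.add (Nat.add (Nat.add C (Nat.mul x48203 (nat_lit 3))) x35081) x43829) x52577) x46745) x48365) x48149) x48209)
    (Nat.add (Nat.add (Nat.add (Nat.add (Nat.add (Nat.add (Nat.add (Nat.add (Nat.add (Nat.add (Nat.add C (Nat.mul x48209 (nat_lit 2))) x35087) x43835) x52583) x46751) x48371) x48155) x48227) x48203) x48215) x48211)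
    (Nat.add (Nat.add (Nat.add (Nat.add (Nat.add (Nat.add (Nat.add (Nat.add (Nat.add (Nat.add (Nat.add C x48211) x35089) x43837) x52585) x46753) x48373) x48157) x48229) x48217) x48209) x28529)
    (Nat.sub (Nat.add (Nat.add (Nat.add (Nat.add (Nat.add (Nat.add (Nat.add (Nat.add (Nat.add C x35093) x43841) x52589) x46757) x48377) x48161) x48233) x48209) x48217) x48215)
    (Nat.add (Nat.add (Nat.add (Nat.add (Nat.add (Nat.add (Nat.add (Nat.add (Nat.add (Nat.add (Nat.add C x35095) x43843) x52591) x46759) x48379) x48163) x48235) x48211) x48215) x48219) x28535)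
    (Nat.sub (Nat.add (Nat.add (Nat.add (Nat.add (Nat.add (Nat.add (Nat.add (Nat.add (Nat.add C x35097) x43845) x52593) x46761) x48381) x48165) x48237) x48217) x28537) x48219)
    (Nat.add (Nat.add (Nat.add (Nat.add (Nat.add (Nat.add (Nat.add (Nat.add (Nat.add (Nat.add (Nat.add C (Nat.mul x48227 (nat_lit 2))) x35105) x43853) x52601) x46769) x48389) x48173) x48281) x48209) x48233) x48229)
    (Nat.add (Nat.add (Nat.add (Nat.add (Nat.add (Nat.add (Nat.add (Nat.add (Nat.add (Nat.add (Nat.add C x35107) x43855) x52603) x46771) x48391) x48175) x48283) x48211) x48235) x48227) x28547)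
    (Nat.add (Nat.add (Nat.add (Nat.add (Nat.add (Nat.add (Nat.add (Nat.add (Nat.add (Nat.add (Nat.add (Nat.add C x48233) x35111) x43859) x52607) x46775) x48395) x48179) x48287) x48215) x48251) x48227) x48235)
    (Nat.add (Nat.add (Nat.add (Nat.add (Nat.add (Nat.add (Nat.add (Nat.add (Nat.add (Nat.add (Nat.add (Nat.add (Nat.add (Nat.add (Nat.add C x48235) x35113) x43861) x52609) x46777) x48397) x48181) x48289) x48217) x48253) x48229) x48241) x48233) x48237) x28553)
    (Nat.sub (Nat.add (Nat.add (Nat.add (Nat.add (Nat.add (Nat.add (Nat.add (Nat.add (Nat.add (Nat.add (Nat.add (Nat.add C x35115) x43863) x52611) x46779) x48399) x48183) x48291) x48219) x48255) x48243) x48235) x28555) x48237)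
    (Nat.add (Nat.add (Nat.add (Nat.add (Nat.add (Nat.add (Nat.add (Nat.add (Nat.add (Nat.add (Nat.add C x35119) x43867) x52615) x46783) x48403) x48187) x48295) x48259) x48235) x48243) x28559)
    (Nat.add (Nat.add (Nat.add (Nat.add (Nat.add (Nat.add (Nat.add (Nat.add (Nat.add (Nat.add (Nat.add C x35121) x43869) x52617) x46785) x48405) x48189) x48297) x48261) x48237) x48241) x28561)
    (Nat.add (Nat.add (Nat.add (Nat.add (Nat.add (Nat.add (Nat.add (Nat.add (Nat.add C x48251) x35129) x43877) x52625) x46793) x48413) x48305) x48233) x48253)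
    (Nat.add (Nat.add (Nat.add (Nat.add (Nat.add (Nat.add (Nat.add (Nat.add (Nat.add (Nat.add (Nat.add C x35131) x43879) x52627) x46795) x48415) x48307) x48235) x48259) x48251) x48255) x28571)
    (Nat.sub (Nat.add (Nat.add (Nat.add (Nat.add (Nat.add (Nat.add (Nat.add (Nat.add (Nat.add (Nat.add C x35133) x43881) x52629) x46797) x48417) x48309) x48237) x48261) x48253) x28573) (Nat.mul x48255 (nat_lit 3)))
    (Nat.add (Nat.add (Nat.add (Nat.add (Nat.add (Nat.add (Nat.add (Nat.add (Nat.add (Nat.add (Nat.add C x48259) x35137) x43885) x52633) x46801) x48421) x48313) x48241) x48253) x48261) x28577)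
    (Nat.add (Nat.add (Nat.add (Nat.add (Nat.add (Nat.add (Nat.add (Nat.add (Nat.add (Nat.add (Nat.add C x35139) x43887) x52635) x46803) x48423) x48315) x48243) x48255) x48267) x48259) x28579)
    (Nat.add (Nat.add (Nat.add (Nat.add (Nat.add (Nat.add (Nat.add (Nat.add (Nat.add C x48267) x35145) x43893) x52641) x46809) x48429) x48321) x48261) x28585)
    (Nat.add (Nat.add (Nat.add (Nat.add (Nat.add (Nat.add (Nat.add (Nat.add (Nat.add C x48281) x35159) x43907) x52655) x46823) x48443) x48227) x48287) x48283)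
    (Nat.sub (Nat.add (Nat.add (Nat.add (Nat.add (Nat.add (Nat.add (Nat.add (Nat.add (Nat.add C x35161) x43909) x52657) x46825) x48445) x48229) x48289) x48281) x28601) x48283)
    (Nat.sub (Nat.add (Nat.add (Nat.add (Nat.add (Nat.add (Nat.add (Nat.add (Nat.add (Nat.add C x35165) x43913) x52661) x46829) x48449) x48233) x48305) x48281) x48289) x48287)
    (Nat.sub (Nat.add (Nat.add (Nat.add (Nat.add (Nat.add (Nat.add (Nat.add (Nat.add (Nat.add (Nat.add (Nat.add (Nat.add C x35167) x43915) x52663) x46831) x48451) x48235) x48307) x48283) x48295) x48287) x48291) x28607) x48289)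
    (Nat.sub (Nat.add (Nat.add (Nat.add (Nat.add (Nat.add (Nat.add (Nat.add (Nat.add (Nat.add (Nat.add C x35169) x43917) x52665) x46833) x48453) x48237) x48309) x48297) x48289) x28609) (Nat.mul x48291 (nat_lit 3)))
    (Nat.sub (Nat.add (Nat.add (Nat.add (Nat.add (Nat.add (Nat.add (Nat.add (Nat.add (Nat.add (Nat.add C x35173) x43921) x52669) x46837) x48457) x48241) x48313) x48289) x48297) x28613) (Nat.mul x48295 (nat_lit 3)))
    (Nat.sub (Nat.add (Nat.add (Nat.add (Nat.add (Nat.add (Nat.add (Nat.add (Nat.add (Nat.add (Nat.add C x35175) x43923) x52671) x46839) x48459) x48243) x48315) x48291) x48295) x28615) (Nat.mul x48297 (nat_lit 3)))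
    (Nat.add (Nat.add (Nat.add (Nat.add (Nat.add (Nat.add (Nat.add (Nat.add (Nat.add C x48305) x35183) x43931) x52679) x46847) x48467) x48251) x48287) x48307)
    (Nat.add (Nat.add (Nat.add (Nat.add (Nat.add (Nat.add (Nat.add (Nat.add (Nat.add (Nat.add (Nat.add C x35185) x43933) x52681) x46849) x48469) x48253) x48289) x48313) x48305) x48309) x28625)
    (Nat.sub (Nat.add (Nat.add (Nat.add (Nat.add (Nat.add (Nat.add (Nat.add (Nat.add (Nat.add (Nat.add C x35187) x43935) x52683) x46851) x48471) x48255) x48291) x48315) x48307) x28627) (Nat.mul x48309 (nat_lit 3)))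
    (Nat.add (Nat.add (Nat.add (Nat.add (Nat.add (Nat.add (Nat.add (Nat.add (Nat.add (Nat.add (Nat.add C x35191) x43939) x52687) x46855) x48475) x48259) x48295) x48331) x48307) x48315) x28631)
    (Nat.sub (Nat.add (Nat.add (Nat.add (Nat.add (Nat.add (Nat.add (Nat.add (Nat.add (Nat.add (Nat.add (Nat.add (Nat.add C x35193) x43941) x52689) x46857) x48477) x48261) x48297) x48333) x48309) x48321) x48313) x28633) x48315)
    (Nat.sub (Nat.add (Nat.add (Nat.add (Nat.add (Nat.add (Nat.add (Nat.add (Nat.add (Nat.add C x35199) x43947) x52695) x46863) x48483) x48267) x48339) x48315) x28639) x48321)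
    (Nat.add (Nat.add (Nat.add (Nat.add (Nat.add (Nat.add (Nat.add (Nat.add (Nat.add C x48331) x35209) x43957) x52705) x46873) x48493) x48313) x48333) x28649)
    (Nat.sub (Nat.add (Nat.add (Nat.add (Nat.add (Nat.add (Nat.add (Nat.add (Nat.add (Nat.add C x35211) x43959) x52707) x46875) x48495) x48315) x48339) x48331) x28651) x48333)
    (Nat.add (Nat.add (Nat.add (Nat.add (Nat.add (Nat.add (Nat.add (Nat.add (Nat.add C x48339) x35217) x43965) x52713) x46881) x48501) x48321) x48333) x28657)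
    (Nat.add (Nat.add (Nat.add (Nat.add (Nat.add (Nat.add (Nat.add (Nat.add C (Nat.mul x48365 (nat_lit 3))) x35243) x43991) x52739) x46907) x48851) x48203) x48371)
    (Nat.add (Nat.add (Nat.add (Nat.add (Nat.add (Nat.add (Nat.add (Nat.add (Nat.add (Nat.add (Nat.add C (Nat.mul x48371 (nat_lit 2))) x35249) x43997) x52745) x46913) x48857) x48209) x48389) x48365) x48377) x48373)
    (Nat.add (Nat.add (Nat.add (Nat.add (Nat.add (Nat.add (Nat.add (Nat.add (Nat.add (Nat.add (Nat.add C x48373) x35251) x43999) x52747) x46915) x48859) x48211) x48391) x48379) x48371) x28691)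
    (Nat.sub (Nat.add (Nat.add (Nat.add (Nat.add (Nat.add (Nat.add (Nat.add (Nat.add (Nat.add C x35255) x44003) x52751) x46919) x48863) x48215) x48395) x48371) x48379) x48377)
    (Nat.add (Nat.add (Nat.add (Nat.add (Nat.add (Nat.add (Nat.add (Nat.add (Nat.add (Nat.add (Nat.add C x35257) x44005) x52753) x46921) x48865) x48217) x48397) x48373) x48377) x48381) x28697)
    (Nat.sub (Nat.add (Nat.add (Nat.add (Nat.add (Nat.add (Nat.add (Nat.add (Nat.add (Nat.add C x35259) x44007) x52755) x46923) x48867) x48219) x48399) x48379) x28699) x48381)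
    (Nat.add (Nat.add (Nat.add (Nat.add (Nat.add (Nat.add (Nat.add (Nat.add (Nat.add (Nat.add (Nat.add C x48389) x35267) x44015) x52763) x46931) x48875) x48227) x48443) x48371) x48395) x48391)
    (Nat.sub (Nat.add (Nat.add (Nat.add (Nat.add (Nat.add (Nat.add (Nat.add (Nat.add (Nat.add (Nat.add (Nat.add C x35269) x44017) x52765) x46933) x48877) x48229) x48445) x48373) x48397) x48389) x28709) x48391)
    (Nat.add (Nat.add (Nat.add (Nat.add (Nat.add (Nat.add (Nat.add (Nat.add (Nat.add (Nat.add (Nat.add C x35273) x44021) x52769) x46937) x48881) x48233) x48449) x48377) x48413) x48389) x48397)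
    (Nat.add (Nat.add (Nat.add (Nat.add (Nat.add (Nat.add (Nat.add (Nat.add (Nat.add (Nat.add (Nat.add (Nat.add (Nat.add (Nat.add C x35275) x44023) x52771) x46939) x48883) x48235) x48451) x48379) x48415) x48391) x48403) x48395) x48399) x28715)
    (Nat.sub (Nat.add (Nat.add (Nat.add (Nat.add (Nat.add (Nat.add (Nat.add (Nat.add (Nat.add (Nat.add (Nat.add (Nat.add C x35277) x44025) x52773) x46941) x48885) x48237) x48453) x48381) x48417) x48405) x48397) x28717) (Nat.mul x48399 (nat_lit 2)))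
    (Nat.sub (Nat.add (Nat.add (Nat.add (Nat.add (Nat.add (Nat.add (Nat.add (Nat.add (Nat.add (Nat.add (Nat.add C x35281) x44029) x52777) x46945) x48889) x48241) x48457) x48421) x48397) x48405) x28721) x48403)
    (Nat.sub (Nat.add (Nat.add (Nat.add (Nat.add (Nat.add (Nat.add (Nat.add (Nat.add (Nat.add (Nat.add (Nat.add C x35283) x44031) x52779) x46947) x48891) x48243) x48459) x48423) x48399) x48403) x28723) x48405)
    (Nat.sub (Nat.add (Nat.add (Nat.add (Nat.add (Nat.add (Nat.add (Nat.add (Nat.add (Nat.add C x35291) x44039) x52787) x46955) x48899) x48251) x48467) x48395) x48415) x48413)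
    (Nat.sub (Nat.add (Nat.add (Nat.add (Nat.add (Nat.add (Nat.add (Nat.add (Nat.add (Nat.add (Nat.add (Nat.add (Nat.add C x35293) x44041) x52789) x46957) x48901) x48253) x48469) x48397) x48421) x48413) x48417) x28733) (Nat.mul x48415 (nat_lit 2)))
    (Nat.sub (Nat.add (Nat.add (Nat.add (Nat.add (Nat.add (Nat.add (Nat.add (Nat.add (Nat.add (Nat.add (Nat.add C x35295) x44043) x52791) x46959) x48903) x48255) x48471) x48399) x48423) x48415) x28735) (Nat.mul x48417 (nat_lit 5)))
    (Nat.sub (Nat.add (Nat.add (Nat.add (Nat.add (Nat.add (Nat.add (Nat.add (Nat.add (Nat.add (Nat.add (Nat.add C x35299) x44047) x52795) x46963) x48907) x48259) x48475) x48403) x48415) x48423) x28739) x48421)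
    (Nat.sub (Nat.add (Nat.add (Nat.add (Nat.add (Nat.add (Nat.add (Nat.add (Nat.add (Nat.add (Nat.add (Nat.add (Nat.add C x35301) x44049) x52797) x46965) x48909) x48261) x48477) x48405) x48417) x48429) x48421) x28741) (Nat.mul x48423 (nat_lit 2)))
    (Nat.sub (Nat.add (Nat.add (Nat.add (Nat.add (Nat.add (Nat.add (Nat.add (Nat.add (Nat.add C x35307) x44055) x52803) x46971) x48915) x48267) x48483) x48423) x28747) x48429)
    (Nat.add (Nat.add (Nat.add (Nat.add (Nat.add (Nat.add (Nat.add (Nat.add (Nat.add (Nat.add (Nat.add C (Nat.mul x48443 (nat_lit 2))) x35321) x44069) x52817) x46985) x48929) x48281) x48605) x48389) x48449) x48445)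
    (Nat.add (Nat.add (Nat.add (Nat.add (Nat.add (Nat.add (Nat.add (Nat.add (Nat.add (Nat.add (Nat.add C x35323) x44071) x52819) x46987) x48931) x48283) x48607) x48391) x48451) x48443) x28763)
    (Nat.add (Nat.add (Nat.add (Nat.add (Nat.add (Nat.add (Nat.add (Nat.add (Nat.add (Nat.add (Nat.add C x35327) x44075) x52823) x46991) x48935) x48287) x48611) x48395) x48467) x48443) x48451)
    (Nat.add (Nat.add (Nat.add (Nat.add (Nat.add (Nat.add (Nat.add (Nat.add (Nat.add (Nat.add (Nat.add (Nat.add (Nat.add (Nat.add C x35329) x44077) x52825) x46993) x48937) x48289) x48613) x48397) x48469) x48445) x48457) x48449) x48453) x28769)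
    (Nat.sub (Nat.add (Nat.add (Nat.add (Nat.add (Nat.add (Nat.add (Nat.add (Nat.add (Nat.add (Nat.add (Nat.add (Nat.add C x35331) x44079) x52827) x46995) x48939) x48291) x48615) x48399) x48471) x48459) x48451) x28771) (Nat.mul x48453 (nat_lit 2)))
    (Nat.sub (Nat.add (Nat.add (Nat.add (Nat.add (Nat.add (Nat.add (Nat.add (Nat.add (Nat.add (Nat.add (Nat.add (Nat.add C x35335) x44083) x52831) x46999) x48943) x48295) x48619) x48403) x48475) x48451) x48459) x28775) (Nat.mul x48457 (nat_lit 2)))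
    (Nat.sub (Nat.add (Nat.add (Nat.add (Nat.add (Nat.add (Nat.add (Nat.add (Nat.add (Nat.add (Nat.add (Nat.add (Nat.add C x35337) x44085) x52833) x47001) x48945) x48297) x48621) x48405) x48477) x48453) x48457) x28777) (Nat.mul x48459 (nat_lit 2)))
    (Nat.add (Nat.add (Nat.add (Nat.add (Nat.add (Nat.add (Nat.add (Nat.add (Nat.add (Nat.add (Nat.add (Nat.add C x48467) x35345) x44093) x52841) x47009) x48953) x48305) x48629) x48413) x48521) x48449) x48469)
    (Nat.add (Nat.add (Nat.add (Nat.add (Nat.add (Nat.add (Nat.add (Nat.add (Nat.add (Nat.add (Nat.add (Nat.add (Nat.add (Nat.add C x35347) x44095) x52843) x47011) x48955) x48307) x48631) x48415) x48523) x48451) x48475) x48467) x48471) x28787)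
    (Nat.sub (Nat.add (Nat.add (Nat.add (Nat.add (Nat.add (Nat.add (Nat.add (Nat.add (Nat.add (Nat.add (Nat.add (Nat.add (Nat.add C x35349) x44097) x52845) x47013) x48957) x48309) x48633) x48417) x48525) x48453) x48477) x48469) x28789) (Nat.mul x48471 (nat_lit 3)))
    (Nat.add (Nat.add (Nat.add (Nat.add (Nat.add (Nat.add (Nat.add (Nat.add (Nat.add (Nat.add (Nat.add (Nat.add (Nat.add (Nat.add C x35353) x44101) x52849) x47017) x48961) x48313) x48637) x48421) x48529) x48457) x48493) x48469) x48477) x28793)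
    (Nat.sub (Nat.add (Nat.add (Nat.add (Nat.add (Nat.add (Nat.add (Nat.add (Nat.add (Nat.add (Nat.add (Nat.add (Nat.add (Nat.add (Nat.add (Nat.add C x35355) x44103) x52851) x47019) x48963) x48315) x48639) x48423) x48531) x48459) x48495) x48471) x48483) x48475) x28795) x48477)
    (Nat.sub (Nat.add (Nat.add (Nat.add (Nat.add (Nat.add (Nat.add (Nat.add (Nat.add (Nat.add (Nat.add (Nat.add (Nat.add C x35361) x44109) x52857) x47025) x48969) x48321) x48645) x48429) x48537) x48501) x48477) x28801) x48483)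
    (Nat.add (Nat.add (Nat.add (Nat.add (Nat.add (Nat.add (Nat.add (Nat.add (Nat.add (Nat.add (Nat.add C x35371) x44119) x52867) x47035) x48979) x48331) x48655) x48547) x48475) x48495) x28811)
    (Nat.sub (Nat.add (Nat.add (Nat.add (Nat.add (Nat.add (Nat.add (Nat.add (Nat.add (Nat.add (Nat.add (Nat.add (Nat.add C x35373) x44121) x52869) x47037) x48981) x48333) x48657) x48549) x48477) x48501) x48493) x28813) (Nat.mul x48495 (nat_lit 2)))
    (Nat.add (Nat.add (Nat.add (Nat.add (Nat.add (Nat.add (Nat.add (Nat.add (Nat.add (Nat.add (Nat.add C x35379) x44127) x52875) x47043) x48987) x48339) x48663) x48555) x48483) x48495) x28819)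
    (Nat.add (Nat.add (Nat.add (Nat.add (Nat.add (Nat.add (Nat.add (Nat.add (Nat.add C x48521) x35399) x44147) x52895) x47063) x49007) x48683) x48467) x48523)
    (Nat.add (Nat.add (Nat.add (Nat.add (Nat.add (Nat.add (Nat.add (Nat.add (Nat.add (Nat.add (Nat.add C x35401) x44149) x52897) x47065) x49009) x48685) x48469) x48529) x48521) x48525) x28841)
    (Nat.sub (Nat.add (Nat.add (Nat.add (Nat.add (Nat.add (Nat.add (Nat.add (Nat.add (Nat.add (Nat.add C x35403) x44151) x52899) x47067) x49011) x48687) x48471) x48531) x48523) x28843) (Nat.mul x48525 (nat_lit 3)))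
    (Nat.sub (Nat.add (Nat.add (Nat.add (Nat.add (Nat.add (Nat.add (Nat.add (Nat.add (Nat.add (Nat.add (Nat.add C x35407) x44155) x52903) x47071) x49015) x48691) x48475) x48547) x48523) x48531) x28847) x48529)
    (Nat.sub (Nat.add (Nat.add (Nat.add (Nat.add (Nat.add (Nat.add (Nat.add (Nat.add (Nat.add (Nat.add (Nat.add (Nat.add C x35409) x44157) x52905) x47073) x49017) x48693) x48477) x48549) x48525) x48537) x48529) x28849) (Nat.mul x48531 (nat_lit 2)))
    (Nat.sub (Nat.add (Nat.add (Nat.add (Nat.add (Nat.add (Nat.add (Nat.add (Nat.add (Nat.add (Nat.add C x35415) x44163) x52911) x47079) x49023) x48699) x48483) x48555) x48531) x28855) (Nat.mul x48537 (nat_lit 3)))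
    (Nat.add (Nat.add (Nat.add (Nat.add (Nat.add (Nat.add (Nat.add (Nat.add (Nat.add (Nat.add (Nat.add C x48547) x35425) x44173) x52921) x47089) x49033) x48709) x48493) x48529) x48549) x28865)
    (Nat.sub (Nat.add (Nat.add (Nat.add (Nat.add (Nat.add (Nat.add (Nat.add (Nat.add (Nat.add (Nat.add (Nat.add C x35427) x44175) x52923) x47091) x49035) x48711) x48495) x48531) x48555) x48547) x28867) x48549)
    (Nat.add (Nat.add (Nat.add (Nat.add (Nat.add (Nat.add (Nat.add (Nat.add (Nat.add (Nat.add (Nat.add C x35433) x44181) x52929) x47097) x49041) x48717) x48501) x48537) x48573) x48549) x28873)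
    (Nat.add (Nat.add (Nat.add (Nat.add (Nat.add (Nat.add (Nat.add (Nat.add (Nat.add C x48573) x35451) x44199) x52947) x47115) x49059) x48735) x48555) x28891)
    (Nat.add (Nat.add (Nat.add (Nat.add (Nat.add (Nat.add (Nat.add (Nat.add (Nat.add C x48605) x35483) x44231) x52979) x47147) x49091) x48443) x48611) x48607)
    (Nat.sub (Nat.add (Nat.add (Nat.add (Nat.add (Nat.add (Nat.add (Nat.add (Nat.add (Nat.add C x35485) x44233) x52981) x47149) x49093) x48445) x48613) x48605) x28925) x48607)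
    (Nat.sub (Nat.add (Nat.add (Nat.add (Nat.add (Nat.add (Nat.add (Nat.add (Nat.add (Nat.add C x35489) x44237) x52985) x47153) x49097) x48449) x48629) x48605) x48613) x48611)
    (Nat.sub (Nat.add (Nat.add (Nat.add (Nat.add (Nat.add (Nat.add (Nat.add (Nat.add (Nat.add (Nat.add (Nat.add (Nat.add C x35491) x44239) x52987) x47155) x49099) x48451) x48631) x48607) x48619) x48611) x48615) x28931) x48613)
    (Nat.sub (Nat.add (Nat.add (Nat.add (Nat.add (Nat.add (Nat.add (Nat.add (Nat.add (Nat.add (Nat.add C x35493) x44241) x52989) x47157) x49101) x48453) x48633) x48621) x48613) x28933) (Nat.mul x48615 (nat_lit 3)))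
    (Nat.sub (Nat.add (Nat.add (Nat.add (Nat.add (Nat.add (Nat.add (Nat.add (Nat.add (Nat.add (Nat.add C x35497) x44245) x52993) x47161) x49105) x48457) x48637) x48613) x48621) x28937) (Nat.mul x48619 (nat_lit 3)))
    (Nat.sub (Nat.add (Nat.add (Nat.add (Nat.add (Nat.add (Nat.add (Nat.add (Nat.add (Nat.add (Nat.add C x35499) x44247) x52995) x47163) x49107) x48459) x48639) x48615) x48619) x28939) (Nat.mul x48621 (nat_lit 3)))
    (Nat.sub (Nat.add (Nat.add (Nat.add (Nat.add (Nat.add (Nat.add (Nat.add (Nat.add (Nat.add C x35507) x44255) x53003) x47171) x49115) x48467) x48683) x48611) x48631) x48629)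
    (Nat.sub (Nat.add (Nat.add (Nat.add (Nat.add (Nat.add (Nat.add (Nat.add (Nat.add (Nat.add (Nat.add (Nat.add (Nat.add C x35509) x44257) x53005) x47173) x49117) x48469) x48685) x48613) x48637) x48629) x48633) x28949) (Nat.mul x48631 (nat_lit 2)))
    (Nat.sub (Nat.add (Nat.add (Nat.add (Nat.add (Nat.add (Nat.add (Nat.add (Nat.add (Nat.add (Nat.add (Nat.add C x35511) x44259) x53007) x47175) x49119) x48471) x48687) x48615) x48639) x48631) x28951) (Nat.mul x48633 (nat_lit 5)))
    (Nat.sub (Nat.add (Nat.add (Nat.add (Nat.add (Nat.add (Nat.add (Nat.add (Nat.add (Nat.add (Nat.add (Nat.add (Nat.add C x35515) x44263) x53011) x47179) x49123) x48475) x48691) x48619) x48655) x48631) x48639) x28955) (Nat.mul x48637 (nat_lit 2)))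
    (Nat.sub (Nat.add (Nat.add (Nat.add (Nat.add (Nat.add (Nat.add (Nat.add (Nat.add (Nat.add (Nat.add (Nat.add (Nat.add (Nat.add C x35517) x44265) x53013) x47181) x49125) x48477) x48693) x48621) x48657) x48633) x48645) x48637) x28957) (Nat.mul x48639 (nat_lit 3)))
    (Nat.sub (Nat.add (Nat.add (Nat.add (Nat.add (Nat.add (Nat.add (Nat.add (Nat.add (Nat.add (Nat.add C x35523) x44271) x53019) x47187) x49131) x48483) x48699) x48663) x48639) x28963) (Nat.mul x48645 (nat_lit 3)))
    (Nat.sub (Nat.add (Nat.add (Nat.add (Nat.add (Nat.add (Nat.add (Nat.add (Nat.add (Nat.add (Nat.add C x35533) x44281) x53029) x47197) x49141) x48493) x48709) x48637) x48657) x28973) (Nat.mul x48655 (nat_lit 3)))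
    (Nat.sub (Nat.add (Nat.add (Nat.add (Nat.add (Nat.add (Nat.add (Nat.add (Nat.add (Nat.add (Nat.add (Nat.add C x35535) x44283) x53031) x47199) x49143) x48495) x48711) x48639) x48663) x48655) x28975) (Nat.mul x48657 (nat_lit 5)))
    (Nat.sub (Nat.add (Nat.add (Nat.add (Nat.add (Nat.add (Nat.add (Nat.add (Nat.add (Nat.add (Nat.add C x35541) x44289) x53037) x47205) x49149) x48501) x48717) x48645) x48657) x28981) (Nat.mul x48663 (nat_lit 3)))
    (Nat.add (Nat.add (Nat.add (Nat.add (Nat.add (Nat.add (Nat.add (Nat.add (Nat.add C x48683) x35561) x44309) x53057) x47225) x49169) x48521) x48629) x48685)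
    (Nat.add (Nat.add (Nat.add (Nat.add (Nat.add (Nat.add (Nat.add (Nat.add (Nat.add (Nat.add (Nat.add C x35563) x44311) x53059) x47227) x49171) x48523) x48631) x48691) x48683) x48687) x29003)
    (Nat.sub (Nat.add (Nat.add (Nat.add (Nat.add (Nat.add (Nat.add (Nat.add (Nat.add (Nat.add (Nat.add C x35565) x44313) x53061) x47229) x49173) x48525) x48633) x48693) x48685) x29005) (Nat.mul x48687 (nat_lit 3)))
    (Nat.sub (Nat.add (Nat.add (Nat.add (Nat.add (Nat.add (Nat.add (Nat.add (Nat.add (Nat.add (Nat.add (Nat.add C x35569) x44317) x53065) x47233) x49177) x48529) x48637) x48709) x48685) x48693) x29009) x48691)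
    (Nat.sub (Nat.add (Nat.add (Nat.add (Nat.add (Nat.add (Nat.add (Nat.add (Nat.add (Nat.add (Nat.add (Nat.add (Nat.add C x35571) x44319) x53067) x47235) x49179) x48531) x48639) x48711) x48687) x48699) x48691) x29011) (Nat.mul x48693 (nat_lit 2)))
    (Nat.sub (Nat.add (Nat.add (Nat.add (Nat.add (Nat.add (Nat.add (Nat.add (Nat.add (Nat.add (Nat.add C x35577) x44325) x53073) x47241) x49185) x48537) x48645) x48717) x48693) x29017) (Nat.mul x48699 (nat_lit 3)))
    (Nat.add (Nat.add (Nat.add (Nat.add (Nat.add (Nat.add (Nat.add (Nat.add (Nat.add (Nat.add (Nat.add C x35587) x44335) x53083) x47251) x49195) x48547) x48655) x48763) x48691) x48711) x29027)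
    (Nat.sub (Nat.add (Nat.add (Nat.add (Nat.add (Nat.add (Nat.add (Nat.add (Nat.add (Nat.add (Nat.add (Nat.add (Nat.add C x35589) x44337) x53085) x47253) x49197) x48549) x48657) x48765) x48693) x48717) x48709) x29029) (Nat.mul x48711 (nat_lit 2)))
    (Nat.sub (Nat.add (Nat.add (Nat.add (Nat.add (Nat.add (Nat.add (Nat.add (Nat.add (Nat.add (Nat.add (Nat.add (Nat.add C x35595) x44343) x53091) x47259) x49203) x48555) x48663) x48771) x48699) x48735) x48711) x29035) x48717)
    (Nat.sub (Nat.add (Nat.add (Nat.add (Nat.add (Nat.add (Nat.add (Nat.add (Nat.add (Nat.add C x35613) x44361) x53109) x47277) x49221) x48573) x48789) x48717) x29053) x48735)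
    (Nat.add (Nat.add (Nat.add (Nat.add (Nat.add (Nat.add (Nat.add (Nat.add (Nat.add C x48763) x35641) x44389) x53137) x47305) x49249) x48709) x48765) x29081)
    (Nat.sub (Nat.add (Nat.add (Nat.add (Nat.add (Nat.add (Nat.add (Nat.add (Nat.add (Nat.add C x35643) x44391) x53139) x47307) x49251) x48711) x48771) x48763) x29083) x48765)
    (Nat.sub (Nat.add (Nat.add (Nat.add (Nat.add (Nat.add (Nat.add (Nat.add (Nat.add (Nat.add C x35649) x44397) x53145) x47313) x49257) x48717) x48789) x48765) x29089) x48771)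
    (Nat.add (Nat.add (Nat.add (Nat.add (Nat.add (Nat.add (Nat.add (Nat.add (Nat.add C x48789) x35667) x44415) x53163) x47331) x49275) x48735) x48771) x29107)
    (Nat.add (Nat.add (Nat.add (Nat.add (Nat.add (Nat.add (Nat.add (Nat.add C (Nat.mul x48851 (nat_lit 4))) x35729) x44477) x53225) x47393) x50309) x48365) x48857)
    (Nat.add (Nat.add (Nat.add (Nat.add (Nat.add (Nat.add (Nat.add (Nat.add (Nat.add (Nat.add (Nat.add C (Nat.mul x48857 (nat_lit 3))) x35735) x44483) x53231) x47399) x50315) x48371) x48875) x48851) x48863) x48859)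
    (Nat.add (Nat.add (Nat.add (Nat.add (Nat.add (Nat.add (Nat.add (Nat.add (Nat.add (Nat.add (Nat.add C (Nat.mul x48859 (nat_lit 2))) x35737) x44485) x53233) x47401) x50317) x48373) x48877) x48865) x48857) x29177)
    (Nat.add (Nat.add (Nat.add (Nat.add (Nat.add (Nat.add (Nat.add (Nat.add (Nat.add C x35741) x44489) x53237) x47405) x50321) x48377) x48881) x48857) x48865)
    (Nat.add (Nat.add (Nat.add (Nat.add (Nat.add (Nat.add (Nat.add (Nat.add (Nat.add (Nat.add (Nat.add (Nat.add C x48865) x35743) x44491) x53239) x47407) x50323) x48379) x48883) x48859) x48863) x48867) x29183)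
    (Nat.add (Nat.add (Nat.add (Nat.add (Nat.add (Nat.add (Nat.add (Nat.add (Nat.add C x35745) x44493) x53241) x47409) x50325) x48381) x48885) x48865) x29185)
    (Nat.add (Nat.add (Nat.add (Nat.add (Nat.add (Nat.add (Nat.add (Nat.add (Nat.add (Nat.add (Nat.add C (Nat.mul x48875 (nat_lit 2))) x35753) x44501) x53249) x47417) x50333) x48389) x48929) x48857) x48881) x48877)
    (Nat.add (Nat.add (Nat.add (Nat.add (Nat.add (Nat.add (Nat.add (Nat.add (Nat.add (Nat.add (Nat.add C x35755) x44503) x53251) x47419) x50335) x48391) x48931) x48859) x48883) x48875) x29195)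
    (Nat.add (Nat.add (Nat.add (Nat.add (Nat.add (Nat.add (Nat.add (Nat.add (Nat.add (Nat.add (Nat.add (Nat.add C x48881) x35759) x44507) x53255) x47423) x50339) x48395) x48935) x48863) x48899) x48875) x48883)
    (Nat.add (Nat.add (Nat.add (Nat.add (Nat.add (Nat.add (Nat.add (Nat.add (Nat.add (Nat.add (Nat.add (Nat.add (Nat.add (Nat.add (Nat.add C x48883) x35761) x44509) x53257) x47425) x50341) x48397) x48937) x48865) x48901) x48877) x48889) x48881) x48885) x29201)
    (Nat.sub (Nat.add (Nat.add (Nat.add (Nat.add (Nat.add (Nat.add (Nat.add (Nat.add (Nat.add (Nat.add (Nat.add (Nat.add C x35763) x44511) x53259) x47427) x50343) x48399) x48939) x48867) x48903) x48891) x48883) x29203) x48885)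
    (Nat.add (Nat.add (Nat.add (Nat.add (Nat.add (Nat.add (Nat.add (Nat.add (Nat.add (Nat.add (Nat.add C x35767) x44515) x53263) x47431) x50347) x48403) x48943) x48907) x48883) x48891) x29207)
    (Nat.add (Nat.add (Nat.add (Nat.add (Nat.add (Nat.add (Nat.add (Nat.add (Nat.add (Nat.add (Nat.add C x35769) x44517) x53265) x47433) x50349) x48405) x48945) x48909) x48885) x48889) x29209)
    (Nat.add (Nat.add (Nat.add (Nat.add (Nat.add (Nat.add (Nat.add (Nat.add (Nat.add C x35777) x44525) x53273) x47441) x50357) x48413) x48953) x48881) x48901)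
    (Nat.sub (Nat.add (Nat.add (Nat.add (Nat.add (Nat.add (Nat.add (Nat.add (Nat.add (Nat.add (Nat.add (Nat.add (Nat.add C x35779) x44527) x53275) x47443) x50359) x48415) x48955) x48883) x48907) x48899) x48903) x29219) x48901)
    (Nat.sub (Nat.add (Nat.add (Nat.add (Nat.add (Nat.add (Nat.add (Nat.add (Nat.add (Nat.add (Nat.add (Nat.add C x35781) x44529) x53277) x47445) x50361) x48417) x48957) x48885) x48909) x48901) x29221) (Nat.mul x48903 (nat_lit 4)))
    (Nat.add (Nat.add (Nat.add (Nat.add (Nat.add (Nat.add (Nat.add (Nat.add (Nat.add (Nat.add (Nat.add C x35785) x44533) x53281) x47449) x50365) x48421) x48961) x48889) x48901) x48909) x29225)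
    (Nat.sub (Nat.add (Nat.add (Nat.add (Nat.add (Nat.add (Nat.add (Nat.add (Nat.add (Nat.add (Nat.add (Nat.add (Nat.add C x35787) x44535) x53283) x47451) x50367) x48423) x48963) x48891) x48903) x48915) x48907) x29227) x48909)
    (Nat.add (Nat.add (Nat.add (Nat.add (Nat.add (Nat.add (Nat.add (Nat.add (Nat.add C x35793) x44541) x53289) x47457) x50373) x48429) x48969) x48909) x29233)
    (Nat.add (Nat.add (Nat.add (Nat.add (Nat.add (Nat.add (Nat.add (Nat.add (Nat.add (Nat.add (Nat.add C (Nat.mul x48929 (nat_lit 2))) x35807) x44555) x53303) x47471) x50387) x48443) x49091) x48875) x48935) x48931)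
    (Nat.add (Nat.add (Nat.add (Nat.add (Nat.add (Nat.add (Nat.add (Nat.add (Nat.add (Nat.add (Nat.add C x35809) x44557) x53305) x47473) x50389) x48445) x49093) x48877) x48937) x48929) x29249)
    (Nat.add (Nat.add (Nat.add (Nat.add (Nat.add (Nat.add (Nat.add (Nat.add (Nat.add (Nat.add (Nat.add C x35813) x44561) x53309) x47477) x50393) x48449) x49097) x48881) x48953) x48929) x48937)
    (Nat.add (Nat.add (Nat.add (Nat.add (Nat.add (Nat.add (Nat.add (Nat.add (Nat.add (Nat.add (Nat.add (Nat.add (Nat.add (Nat.add C x35815) x44563) x53311) x47479) x50395) x48451) x49099) x48883) x48955) x48931) x48943) x48935) x48939) x29255)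
    (Nat.sub (Nat.add (Nat.add (Nat.add (Nat.add (Nat.add (Nat.add (Nat.add (Nat.add (Nat.add (Nat.add (Nat.add (Nat.add C x35817) x44565) x53313) x47481) x50397) x48453) x49101) x48885) x48957) x48945) x48937) x29257) (Nat.mul x48939 (nat_lit 2)))
    (Nat.sub (Nat.add (Nat.add (Nat.add (Nat.add (Nat.add (Nat.add (Nat.add (Nat.add (Nat.add (Nat.add (Nat.add (Nat.add C x35821) x44569) x53317) x47485) x50401) x48457) x49105) x48889) x48961) x48937) x48945) x29261) (Nat.mul x48943 (nat_lit 2)))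
    (Nat.sub (Nat.add (Nat.add (Nat.add (Nat.add (Nat.add (Nat.add (Nat.add (Nat.add (Nat.add (Nat.add (Nat.add (Nat.add C x35823) x44571) x53319) x47487) x50403) x48459) x49107) x48891) x48963) x48939) x48943) x29263) (Nat.mul x48945 (nat_lit 2)))
    (Nat.add (Nat.add (Nat.add (Nat.add (Nat.add (Nat.add (Nat.add (Nat.add (Nat.add (Nat.add (Nat.add (Nat.add C x48953) x35831) x44579) x53327) x47495) x50411) x48467) x49115) x48899) x49007) x48935) x48955)
    (Nat.add (Nat.add (Nat.add (Nat.add (Nat.add (Nat.add (Nat.add (Nat.add (Nat.add (Nat.add (Nat.add (Nat.add (Nat.add (Nat.add C x35833) x44581) x53329) x47497) x50413) x48469) x49117) x48901) x49009) x48937) x48961) x48953) x48957) x29273)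
    (Nat.sub (Nat.add (Nat.add (Nat.add (Nat.add (Nat.add (Nat.add (Nat.add (Nat.add (Nat.add (Nat.add (Nat.add (Nat.add (Nat.add C x35835) x44583) x53331) x47499) x50415) x48471) x49119) x48903) x49011) x48939) x48963) x48955) x29275) (Nat.mul x48957 (nat_lit 3)))
    (Nat.add (Nat.add (Nat.add (Nat.add (Nat.add (Nat.add (Nat.add (Nat.add (Nat.add (Nat.add (Nat.add (Nat.add (Nat.add (Nat.add C x35839) x44587) x53335) x47503) x50419) x48475) x49123) x48907) x49015) x48943) x48979) x48955) x48963) x29279)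
    (Nat.sub (Nat.add (Nat.add (Nat.add (Nat.add (Nat.add (Nat.add (Nat.add (Nat.add (Nat.add (Nat.add (Nat.add (Nat.add (Nat.add (Nat.add (Nat.add C x35841) x44589) x53337) x47505) x50421) x48477) x49125) x48909) x49017) x48945) x48981) x48957) x48969) x48961) x29281) x48963)
    (Nat.sub (Nat.add (Nat.add (Nat.add (Nat.add (Nat.add (Nat.add (Nat.add (Nat.add (Nat.add (Nat.add (Nat.add (Nat.add C x35847) x44595) x53343) x47511) x50427) x48483) x49131) x48915) x49023) x48987) x48963) x29287) x48969)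
    (Nat.add (Nat.add (Nat.add (Nat.add (Nat.add (Nat.add (Nat.add (Nat.add (Nat.add (Nat.add (Nat.add C x35857) x44605) x53353) x47521) x50437) x48493) x49141) x49033) x48961) x48981) x29297)
    (Nat.sub (Nat.add (Nat.add (Nat.add (Nat.add (Nat.add (Nat.add (Nat.add (Nat.add (Nat.add (Nat.add (Nat.add (Nat.add C x35859) x44607) x53355) x47523) x50439) x48495) x49143) x49035) x48963) x48987) x48979) x29299) (Nat.mul x48981 (nat_lit 2)))
    (Nat.add (Nat.add (Nat.add (Nat.add (Nat.add (Nat.add (Nat.add (Nat.add (Nat.add (Nat.add (Nat.add C x35865) x44613) x53361) x47529) x50445) x48501) x49149) x49041) x48969) x48981) x29305)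
    (Nat.add (Nat.add (Nat.add (Nat.add (Nat.add (Nat.add (Nat.add (Nat.add (Nat.add C x35885) x44633) x53381) x47549) x50465) x48521) x49169) x48953) x49009)
    (Nat.sub (Nat.add (Nat.add (Nat.add (Nat.add (Nat.add (Nat.add (Nat.add (Nat.add (Nat.add (Nat.add (Nat.add (Nat.add C x35887) x44635) x53383) x47551) x50467) x48523) x49171) x48955) x49015) x49007) x49011) x29327) x49009)
    (Nat.sub (Nat.add (Nat.add (Nat.add (Nat.add (Nat.add (Nat.add (Nat.add (Nat.add (Nat.add (Nat.add (Nat.add C x35889) x44637) x53385) x47553) x50469) x48525) x49173) x48957) x49017) x49009) x29329) (Nat.mul x49011 (nat_lit 4)))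
    (Nat.sub (Nat.add (Nat.add (Nat.add (Nat.add (Nat.add (Nat.add (Nat.add (Nat.add (Nat.add (Nat.add (Nat.add (Nat.add C x35893) x44641) x53389) x47557) x50473) x48529) x49177) x48961) x49033) x49009) x49017) x29333) (Nat.mul x49015 (nat_lit 2)))
    (Nat.sub (Nat.add (Nat.add (Nat.add (Nat.add (Nat.add (Nat.add (Nat.add (Nat.add (Nat.add (Nat.add (Nat.add (Nat.add (Nat.add C x35895) x44643) x53391) x47559) x50475) x48531) x49179) x48963) x49035) x49011) x49023) x49015) x29335) (Nat.mul x49017 (nat_lit 3)))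
    (Nat.sub (Nat.add (Nat.add (Nat.add (Nat.add (Nat.add (Nat.add (Nat.add (Nat.add (Nat.add (Nat.add (Nat.add C x35901) x44649) x53397) x47565) x50481) x48537) x49185) x48969) x49041) x49017) x29341) (Nat.mul x49023 (nat_lit 4)))
    (Nat.add (Nat.add (Nat.add (Nat.add (Nat.add (Nat.add (Nat.add (Nat.add (Nat.add (Nat.add (Nat.add C x35911) x44659) x53407) x47575) x50491) x48547) x49195) x48979) x49015) x49035) x29351)
    (Nat.sub (Nat.add (Nat.add (Nat.add (Nat.add (Nat.add (Nat.add (Nat.add (Nat.add (Nat.add (Nat.add (Nat.add (Nat.add C x35913) x44661) x53409) x47577) x50493) x48549) x49197) x48981) x49017) x49041) x49033) x29353) (Nat.mul x49035 (nat_lit 2)))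
    (Nat.sub (Nat.add (Nat.add (Nat.add (Nat.add (Nat.add (Nat.add (Nat.add (Nat.add (Nat.add (Nat.add (Nat.add (Nat.add C x35919) x44667) x53415) x47583) x50499) x48555) x49203) x48987) x49023) x49059) x49035) x29359) x49041)
    (Nat.add (Nat.add (Nat.add (Nat.add (Nat.add (Nat.add (Nat.add (Nat.add (Nat.add C x35937) x44685) x53433) x47601) x50517) x48573) x49221) x49041) x29377)
    (Nat.add (Nat.add (Nat.add (Nat.add (Nat.add (Nat.add (Nat.add (Nat.add (Nat.add (Nat.add (Nat.add C (Nat.mul x49091 (nat_lit 3))) x35969) x44717) x53465) x47633) x50549) x48605) x49577) x48929) x49097) x49093)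
    (Nat.add (Nat.add (Nat.add (Nat.add (Nat.add (Nat.add (Nat.add (Nat.add (Nat.add (Nat.add (Nat.add (Nat.add C x49093) x35971) x44719) x53467) x47635) x50551) x48607) x49579) x48931) x49099) x49091) x29411)
    (Nat.add (Nat.add (Nat.add (Nat.add (Nat.add (Nat.add (Nat.add (Nat.add (Nat.add (Nat.add (Nat.add (Nat.add C x49097) x35975) x44723) x53471) x47639) x50555) x48611) x49583) x48935) x49115) x49091) x49099)
    (Nat.add (Nat.add (Nat.add (Nat.add (Nat.add (Nat.add (Nat.add (Nat.add (Nat.add (Nat.add (Nat.add (Nat.add (Nat.add (Nat.add (Nat.add C x49099) x35977) x44725) x53473) x47641) x50557) x48613) x49585) x48937) x49117) x49093) x49105) x49097) x49101) x29417)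
    (Nat.sub (Nat.add (Nat.add (Nat.add (Nat.add (Nat.add (Nat.add (Nat.add (Nat.add (Nat.add (Nat.add (Nat.add (Nat.add C x35979) x44727) x53475) x47643) x50559) x48615) x49587) x48939) x49119) x49107) x49099) x29419) x49101)
    (Nat.sub (Nat.add (Nat.add (Nat.add (Nat.add (Nat.add (Nat.add (Nat.add (Nat.add (Nat.add (Nat.add (Nat.add (Nat.add C x35983) x44731) x53479) x47647) x50563) x48619) x49591) x48943) x49123) x49099) x49107) x29423) x49105)
    (Nat.sub (Nat.add (Nat.add (Nat.add (Nat.add (Nat.add (Nat.add (Nat.add (Nat.add (Nat.add (Nat.add (Nat.add (Nat.add C x35985) x44733) x53481) x47649) x50565) x48621) x49593) x48945) x49125) x49101) x49105) x29425) x49107)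
    (Nat.add (Nat.add (Nat.add (Nat.add (Nat.add (Nat.add (Nat.add (Nat.add (Nat.add (Nat.add (Nat.add (Nat.add C x49115) x35993) x44741) x53489) x47657) x50573) x48629) x49601) x48953) x49169) x49097) x49117)
    (Nat.add (Nat.add (Nat.add (Nat.add (Nat.add (Nat.add (Nat.add (Nat.add (Nat.add (Nat.add (Nat.add (Nat.add (Nat.add (Nat.add C x35995) x44743) x53491) x47659) x50575) x48631) x49603) x48955) x49171) x49099) x49123) x49115) x49119) x29435)
    (Nat.sub (Nat.add (Nat.add (Nat.add (Nat.add (Nat.add (Nat.add (Nat.add (Nat.add (Nat.add (Nat.add (Nat.add (Nat.add (Nat.add C x35997) x44745) x53493) x47661) x50577) x48633) x49605) x48957) x49173) x49101) x49125) x49117) x29437) (Nat.mul x49119 (nat_lit 3)))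
    (Nat.add (Nat.add (Nat.add (Nat.add (Nat.add (Nat.add (Nat.add (Nat.add (Nat.add (Nat.add (Nat.add (Nat.add (Nat.add (Nat.add C x36001) x44749) x53497) x47665) x50581) x48637) x49609) x48961) x49177) x49105) x49141) x49117) x49125) x29441)
    (Nat.sub (Nat.add (Nat.add (Nat.add (Nat.add (Nat.add (Nat.add (Nat.add (Nat.add (Nat.add (Nat.add (Nat.add (Nat.add (Nat.add (Nat.add (Nat.add C x36003) x44751) x53499) x47667) x50583) x48639) x49611) x48963) x49179) x49107) x49143) x49119) x49131) x49123) x29443) x49125)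
    (Nat.sub (Nat.add (Nat.add (Nat.add (Nat.add (Nat.add (Nat.add (Nat.add (Nat.add (Nat.add (Nat.add (Nat.add (Nat.add C x36009) x44757) x53505) x47673) x50589) x48645) x49617) x48969) x49185) x49149) x49125) x29449) x49131)
    (Nat.sub (Nat.add (Nat.add (Nat.add (Nat.add (Nat.add (Nat.add (Nat.add (Nat.add (Nat.add (Nat.add (Nat.add (Nat.add C x36019) x44767) x53515) x47683) x50599) x48655) x49627) x48979) x49195) x49123) x49143) x29459) x49141)
    (Nat.sub (Nat.add (Nat.add (Nat.add (Nat.add (Nat.add (Nat.add (Nat.add (Nat.add (Nat.add (Nat.add (Nat.add (Nat.add (Nat.add C x36021) x44769) x53517) x47685) x50601) x48657) x49629) x48981) x49197) x49125) x49149) x49141) x29461) (Nat.mul x49143 (nat_lit 3)))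
    (Nat.sub (Nat.add (Nat.add (Nat.add (Nat.add (Nat.add (Nat.add (Nat.add (Nat.add (Nat.add (Nat.add (Nat.add (Nat.add C x36027) x44775) x53523) x47691) x50607) x48663) x49635) x48987) x49203) x49131) x49143) x29467) x49149)
    (Nat.add (Nat.add (Nat.add (Nat.add (Nat.add (Nat.add (Nat.add (Nat.add (Nat.add (Nat.add (Nat.add (Nat.add C (Nat.mul x49169 (nat_lit 2))) x36047) x44795) x53543) x47711) x50627) x48683) x49655) x49007) x49331) x49115) x49171)
    (Nat.add (Nat.add (Nat.add (Nat.add (Nat.add (Nat.add (Nat.add (Nat.add (Nat.add (Nat.add (Nat.add (Nat.add (Nat.add (Nat.add (Nat.add C x49171) x36049) x44797) x53545) x47713) x50629) x48685) x49657) x49009) x49333) x49117) x49177) x49169) x49173) x29489)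
    (Nat.sub (Nat.add (Nat.add (Nat.add (Nat.add (Nat.add (Nat.add (Nat.add (Nat.add (Nat.add (Nat.add (Nat.add (Nat.add (Nat.add C x36051) x44799) x53547) x47715) x50631) x48687) x49659) x49011) x49335) x49119) x49179) x49171) x29491) (Nat.mul x49173 (nat_lit 2)))
    (Nat.add (Nat.add (Nat.add (Nat.add (Nat.add (Nat.add (Nat.add (Nat.add (Nat.add (Nat.add (Nat.add (Nat.add (Nat.add (Nat.add C x36055) x44803) x53551) x47719) x50635) x48691) x49663) x49015) x49339) x49123) x49195) x49171) x49179) x29495)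
    (Nat.sub (Nat.add (Nat.add (Nat.add (Nat.add (Nat.add (Nat.add (Nat.add (Nat.add (Nat.add (Nat.add (Nat.add (Nat.add (Nat.add (Nat.add (Nat.add C x36057) x44805) x53553) x47721) x50637) x48693) x49665) x49017) x49341) x49125) x49197) x49173) x49185) x49177) x29497) x49179)
    (Nat.sub (Nat.add (Nat.add (Nat.add (Nat.add (Nat.add (Nat.add (Nat.add (Nat.add (Nat.add (Nat.add (Nat.add (Nat.add (Nat.add C x36063) x44811) x53559) x47727) x50643) x48699) x49671) x49023) x49347) x49131) x49203) x49179) x29503) (Nat.mul x49185 (nat_lit 2)))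
    (Nat.add (Nat.add (Nat.add (Nat.add (Nat.add (Nat.add (Nat.add (Nat.add (Nat.add (Nat.add (Nat.add (Nat.add (Nat.add (Nat.add (Nat.add C x49195) x36073) x44821) x53569) x47737) x50653) x48709) x49681) x49033) x49357) x49141) x49249) x49177) x49197) x29513)
    (Nat.sub (Nat.add (Nat.add (Nat.add (Nat.add (Nat.add (Nat.add (Nat.add (Nat.add (Nat.add (Nat.add (Nat.add (Nat.add (Nat.add (Nat.add (Nat.add C x36075) x44823) x53571) x47739) x50655) x48711) x49683) x49035) x49359) x49143) x49251) x49179) x49203) x49195) x29515) x49197)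
    (Nat.add (Nat.add (Nat.add (Nat.add (Nat.add (Nat.add (Nat.add (Nat.add (Nat.add (Nat.add (Nat.add (Nat.add (Nat.add (Nat.add (Nat.add C x36081) x44829) x53577) x47745) x50661) x48717) x49689) x49041) x49365) x49149) x49257) x49185) x49221) x49197) x29521)
    (Nat.add (Nat.add (Nat.add (Nat.add (Nat.add (Nat.add (Nat.add (Nat.add (Nat.add (Nat.add (Nat.add (Nat.add C x36099) x44847) x53595) x47763) x50679) x48735) x49707) x49059) x49383) x49275) x49203) x29539)
    (Nat.add (Nat.add (Nat.add (Nat.add (Nat.add (Nat.add (Nat.add (Nat.add (Nat.add (Nat.add (Nat.add (Nat.add C x49249) x36127) x44875) x53623) x47791) x50707) x48763) x49735) x49411) x49195) x49251) x29567)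
    (Nat.sub (Nat.add (Nat.add (Nat.add (Nat.add (Nat.add (Nat.add (Nat.add (Nat.add (Nat.add (Nat.add (Nat.add (Nat.add C x36129) x44877) x53625) x47793) x50709) x48765) x49737) x49413) x49197) x49257) x49249) x29569) x49251)
    (Nat.sub (Nat.add (Nat.add (Nat.add (Nat.add (Nat.add (Nat.add (Nat.add (Nat.add (Nat.add (Nat.add (Nat.add (Nat.add C x36135) x44883) x53631) x47799) x50715) x48771) x49743) x49419) x49203) x49275) x49251) x29575) x49257)
    (Nat.add (Nat.add (Nat.add (Nat.add (Nat.add (Nat.add (Nat.add (Nat.add (Nat.add (Nat.add (Nat.add (Nat.add C x49275) x36153) x44901) x53649) x47817) x50733) x48789) x49761) x49437) x49221) x49257) x29593)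
    (Nat.add (Nat.add (Nat.add (Nat.add (Nat.add (Nat.add (Nat.add (Nat.add (Nat.add C (Nat.mul x49331 (nat_lit 2))) x36209) x44957) x53705) x47873) x50789) x49817) x49169) x49333)
    (Nat.add (Nat.add (Nat.add (Nat.add (Nat.add (Nat.add (Nat.add (Nat.add (Nat.add (Nat.add (Nat.add (Nat.add C x49333) x36211) x44959) x53707) x47875) x50791) x49819) x49171) x49339) x49331) x49335) x29651)
    (Nat.sub (Nat.add (Nat.add (Nat.add (Nat.add (Nat.add (Nat.add (Nat.add (Nat.add (Nat.add (Nat.add C x36213) x44961) x53709) x47877) x50793) x49821) x49173) x49341) x49333) x29653) (Nat.mul x49335 (nat_lit 2)))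
    (Nat.add (Nat.add (Nat.add (Nat.add (Nat.add (Nat.add (Nat.add (Nat.add (Nat.add (Nat.add (Nat.add C x36217) x44965) x53713) x47881) x50797) x49825) x49177) x49357) x49333) x49341) x29657)
    (Nat.sub (Nat.add (Nat.add (Nat.add (Nat.add (Nat.add (Nat.add (Nat.add (Nat.add (Nat.add (Nat.add (Nat.add (Nat.add C x36219) x44967) x53715) x47883) x50799) x49827) x49179) x49359) x49335) x49347) x49339) x29659) x49341)
    (Nat.sub (Nat.add (Nat.add (Nat.add (Nat.add (Nat.add (Nat.add (Nat.add (Nat.add (Nat.add (Nat.add C x36225) x44973) x53721) x47889) x50805) x49833) x49185) x49365) x49341) x29665) (Nat.mul x49347 (nat_lit 2)))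
    (Nat.add (Nat.add (Nat.add (Nat.add (Nat.add (Nat.add (Nat.add (Nat.add (Nat.add (Nat.add (Nat.add C x36235) x44983) x53731) x47899) x50815) x49843) x49195) x49411) x49339) x49359) x29675)
    (Nat.sub (Nat.add (Nat.add (Nat.add (Nat.add (Nat.add (Nat.add (Nat.add (Nat.add (Nat.add (Nat.add (Nat.add (Nat.add C x36237) x44985) x53733) x47901) x50817) x49845) x49197) x49413) x49341) x49365) x49357) x29677) (Nat.mul x49359 (nat_lit 2)))
    (Nat.sub (Nat.add (Nat.add (Nat.add (Nat.add (Nat.add (Nat.add (Nat.add (Nat.add (Nat.add (Nat.add (Nat.add (Nat.add C x36243) x44991) x53739) x47907) x50823) x49851) x49203) x49419) x49347) x49383) x49359) x29683) x49365)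
    (Nat.sub (Nat.add (Nat.add (Nat.add (Nat.add (Nat.add (Nat.add (Nat.add (Nat.add (Nat.add (Nat.add C x36261) x45009) x53757) x47925) x50841) x49869) x49221) x49437) x49365) x29701) (Nat.mul x49383 (nat_lit 2)))
    (Nat.add (Nat.add (Nat.add (Nat.add (Nat.add (Nat.add (Nat.add (Nat.add (Nat.add (Nat.add (Nat.add C (Nat.mul x49411 (nat_lit 2))) x36289) x45037) x53785) x47953) x50869) x49897) x49249) x49357) x49413) x29729)
    (Nat.add (Nat.add (Nat.add (Nat.add (Nat.add (Nat.add (Nat.add (Nat.add (Nat.add (Nat.add (Nat.add C x36291) x45039) x53787) x47955) x50871) x49899) x49251) x49359) x49419) x49411) x29731)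
    (Nat.add (Nat.add (Nat.add (Nat.add (Nat.add (Nat.add (Nat.add (Nat.add (Nat.add (Nat.add (Nat.add C x36297) x45045) x53793) x47961) x50877) x49905) x49257) x49365) x49437) x49413) x29737)
    (Nat.add (Nat.add (Nat.add (Nat.add (Nat.add (Nat.add (Nat.add (Nat.add (Nat.add (Nat.add (Nat.add (Nat.add C x49437) x36315) x45063) x53811) x47979) x50895) x49923) x49275) x49383) x49491) x49419) x29755)
    (Nat.add (Nat.add (Nat.add (Nat.add (Nat.add (Nat.add (Nat.add (Nat.add (Nat.add C (Nat.mul x49491 (nat_lit 2))) x36369) x45117) x53865) x48033) x50949) x49977) x49437) x29809)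
    (Nat.add (Nat.add (Nat.add (Nat.add (Nat.add (Nat.add (Nat.add (Nat.add C (Nat.mul x49577 (nat_lit 3))) x36455) x45203) x53951) x51035) x49091) x49583) x49579)
    (Nat.add (Nat.add (Nat.add (Nat.add (Nat.add (Nat.add (Nat.add (Nat.add (Nat.add C x49579) x36457) x45205) x53953) x51037) x49093) x49585) x49577) x29897)
    (Nat.add (Nat.add (Nat.add (Nat.add (Nat.add (Nat.add (Nat.add (Nat.add (Nat.add C x49583) x36461) x45209) x53957) x51041) x49097) x49601) x49577) x49585)
    (Nat.add (Nat.add (Nat.add (Nat.add (Nat.add (Nat.add (Nat.add (Nat.add (Nat.add (Nat.add (Nat.add (Nat.add C x49585) x36463) x45211) x53959) x51043) x49099) x49603) x49579) x49591) x49583) x49587) x29903)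
    (Nat.sub (Nat.add (Nat.add (Nat.add (Nat.add (Nat.add (Nat.add (Nat.add (Nat.add (Nat.add C x36465) x45213) x53961) x51045) x49101) x49605) x49593) x49585) x29905) x49587)
    (Nat.sub (Nat.add (Nat.add (Nat.add (Nat.add (Nat.add (Nat.add (Nat.add (Nat.add (Nat.add C x36469) x45217) x53965) x51049) x49105) x49609) x49585) x49593) x29909) x49591)
    (Nat.sub (Nat.add (Nat.add (Nat.add (Nat.add (Nat.add (Nat.add (Nat.add (Nat.add (Nat.add C x36471) x45219) x53967) x51051) x49107) x49611) x49587) x49591) x29911) x49593)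
    (Nat.add (Nat.add (Nat.add (Nat.add (Nat.add (Nat.add (Nat.add (Nat.add (Nat.add C x49601) x36479) x45227) x53975) x51059) x49115) x49655) x49583) x49603)
    (Nat.add (Nat.add (Nat.add (Nat.add (Nat.add (Nat.add (Nat.add (Nat.add (Nat.add (Nat.add (Nat.add C x36481) x45229) x53977) x51061) x49117) x49657) x49585) x49609) x49601) x49605) x29921)
    (Nat.sub (Nat.add (Nat.add (Nat.add (Nat.add (Nat.add (Nat.add (Nat.add (Nat.add (Nat.add (Nat.add C x36483) x45231) x53979) x51063) x49119) x49659) x49587) x49611) x49603) x29923) (Nat.mul x49605 (nat_lit 3)))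
    (Nat.add (Nat.add (Nat.add (Nat.add (Nat.add (Nat.add (Nat.add (Nat.add (Nat.add (Nat.add (Nat.add C x36487) x45235) x53983) x51067) x49123) x49663) x49591) x49627) x49603) x49611) x29927)
    (Nat.sub (Nat.add (Nat.add (Nat.add (Nat.add (Nat.add (Nat.add (Nat.add (Nat.add (Nat.add (Nat.add (Nat.add (Nat.add C x36489) x45237) x53985) x51069) x49125) x49665) x49593) x49629) x49605) x49617) x49609) x29929) x49611)
    (Nat.sub (Nat.add (Nat.add (Nat.add (Nat.add (Nat.add (Nat.add (Nat.add (Nat.add (Nat.add C x36495) x45243) x53991) x51075) x49131) x49671) x49635) x49611) x29935) x49617)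
    (Nat.sub (Nat.add (Nat.add (Nat.add (Nat.add (Nat.add (Nat.add (Nat.add (Nat.add (Nat.add C x36505) x45253) x54001) x51085) x49141) x49681) x49609) x49629) x29945) x49627)
    (Nat.sub (Nat.add (Nat.add (Nat.add (Nat.add (Nat.add (Nat.add (Nat.add (Nat.add (Nat.add (Nat.add C x36507) x45255) x54003) x51087) x49143) x49683) x49611) x49635) x49627) x29947) (Nat.mul x49629 (nat_lit 3)))
    (Nat.sub (Nat.add (Nat.add (Nat.add (Nat.add (Nat.add (Nat.add (Nat.add (Nat.add (Nat.add C x36513) x45261) x54009) x51093) x49149) x49689) x49617) x49629) x29953) x49635)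
    (Nat.add (Nat.add (Nat.add (Nat.add (Nat.add (Nat.add (Nat.add (Nat.add (Nat.add C x49655) x36533) x45281) x54029) x51113) x49169) x49817) x49601) x49657)
    (Nat.add (Nat.add (Nat.add (Nat.add (Nat.add (Nat.add (Nat.add (Nat.add (Nat.add (Nat.add (Nat.add C x36535) x45283) x54031) x51115) x49171) x49819) x49603) x49663) x49655) x49659) x29975)
    (Nat.sub (Nat.add (Nat.add (Nat.add (Nat.add (Nat.add (Nat.add (Nat.add (Nat.add (Nat.add (Nat.add C x36537) x45285) x54033) x51117) x49173) x49821) x49605) x49665) x49657) x29977) (Nat.mul x49659 (nat_lit 3)))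
    (Nat.sub (Nat.add (Nat.add (Nat.add (Nat.add (Nat.add (Nat.add (Nat.add (Nat.add (Nat.add (Nat.add (Nat.add C x36541) x45289) x54037) x51121) x49177) x49825) x49609) x49681) x49657) x49665) x29981) x49663)
    (Nat.sub (Nat.add (Nat.add (Nat.add (Nat.add (Nat.add (Nat.add (Nat.add (Nat.add (Nat.add (Nat.add (Nat.add (Nat.add C x36543) x45291) x54039) x51123) x49179) x49827) x49611) x49683) x49659) x49671) x49663) x29983) (Nat.mul x49665 (nat_lit 2)))
    (Nat.sub (Nat.add (Nat.add (Nat.add (Nat.add (Nat.add (Nat.add (Nat.add (Nat.add (Nat.add (Nat.add C x36549) x45297) x54045) x51129) x49185) x49833) x49617) x49689) x49665) x29989) (Nat.mul x49671 (nat_lit 3)))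
    (Nat.add (Nat.add (Nat.add (Nat.add (Nat.add (Nat.add (Nat.add (Nat.add (Nat.add (Nat.add (Nat.add C x36559) x45307) x54055) x51139) x49195) x49843) x49627) x49735) x49663) x49683) x29999)
    (Nat.sub (Nat.add (Nat.add (Nat.add (Nat.add (Nat.add (Nat.add (Nat.add (Nat.add (Nat.add (Nat.add (Nat.add (Nat.add C x36561) x45309) x54057) x51141) x49197) x49845) x49629) x49737) x49665) x49689) x49681) x30001) (Nat.mul x49683 (nat_lit 2)))
    (Nat.sub (Nat.add (Nat.add (Nat.add (Nat.add (Nat.add (Nat.add (Nat.add (Nat.add (Nat.add (Nat.add (Nat.add (Nat.add C x36567) x45315) x54063) x51147) x49203) x49851) x49635) x49743) x49671) x49707) x49683) x30007) x49689)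
    (Nat.sub (Nat.add (Nat.add (Nat.add (Nat.add (Nat.add (Nat.add (Nat.add (Nat.add (Nat.add C x36585) x45333) x54081) x51165) x49221) x49869) x49761) x49689) x30025) x49707)
    (Nat.sub (Nat.add (Nat.add (Nat.add (Nat.add (Nat.add (Nat.add (Nat.add (Nat.add (Nat.add C x36613) x45361) x54109) x51193) x49249) x49897) x49681) x49737) x30053) x49735)
    (Nat.sub (Nat.add (Nat.add (Nat.add (Nat.add (Nat.add (Nat.add (Nat.add (Nat.add (Nat.add (Nat.add C x36615) x45363) x54111) x51195) x49251) x49899) x49683) x49743) x49735) x30055) (Nat.mul x49737 (nat_lit 3)))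
    (Nat.sub (Nat.add (Nat.add (Nat.add (Nat.add (Nat.add (Nat.add (Nat.add (Nat.add (Nat.add (Nat.add C x36621) x45369) x54117) x51201) x49257) x49905) x49689) x49761) x49737) x30061) (Nat.mul x49743 (nat_lit 3)))
    (Nat.sub (Nat.add (Nat.add (Nat.add (Nat.add (Nat.add (Nat.add (Nat.add (Nat.add (Nat.add C x36639) x45387) x54135) x51219) x49275) x49923) x49707) x49743) x30079) x49761)
    (Nat.add (Nat.add (Nat.add (Nat.add (Nat.add (Nat.add (Nat.add (Nat.add C (Nat.mul x49817 (nat_lit 3))) x36695) x45443) x54191) x51275) x49331) x49655) x49819)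
    (Nat.add (Nat.add (Nat.add (Nat.add (Nat.add (Nat.add (Nat.add (Nat.add (Nat.add (Nat.add (Nat.add C (Nat.mul x49819 (nat_lit 2))) x36697) x45445) x54193) x51277) x49333) x49657) x49825) x49817) x49821) x30137)
    (Nat.sub (Nat.add (Nat.add (Nat.add (Nat.add (Nat.add (Nat.add (Nat.add (Nat.add (Nat.add C x36699) x45447) x54195) x51279) x49335) x49659) x49827) x49819) x30139) x49821)
    (Nat.add (Nat.add (Nat.add (Nat.add (Nat.add (Nat.add (Nat.add (Nat.add (Nat.add (Nat.add (Nat.add C x49825) x36703) x45451) x54199) x51283) x49339) x49663) x49843) x49819) x49827) x30143)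
    (Nat.add (Nat.add (Nat.add (Nat.add (Nat.add (Nat.add (Nat.add (Nat.add (Nat.add (Nat.add (Nat.add C x36705) x45453) x54201) x51285) x49341) x49665) x49845) x49821) x49833) x49825) x30145)
    (Nat.sub (Nat.add (Nat.add (Nat.add (Nat.add (Nat.add (Nat.add (Nat.add (Nat.add (Nat.add C x36711) x45459) x54207) x51291) x49347) x49671) x49851) x49827) x30151) x49833)
    (Nat.add (Nat.add (Nat.add (Nat.add (Nat.add (Nat.add (Nat.add (Nat.add (Nat.add (Nat.add (Nat.add C x49843) x36721) x45469) x54217) x51301) x49357) x49681) x49897) x49825) x49845) x30161)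
    (Nat.sub (Nat.add (Nat.add (Nat.add (Nat.add (Nat.add (Nat.add (Nat.add (Nat.add (Nat.add (Nat.add (Nat.add C x36723) x45471) x54219) x51303) x49359) x49683) x49899) x49827) x49851) x49843) x30163) x49845)
    (Nat.add (Nat.add (Nat.add (Nat.add (Nat.add (Nat.add (Nat.add (Nat.add (Nat.add (Nat.add (Nat.add C x36729) x45477) x54225) x51309) x49365) x49689) x49905) x49833) x49869) x49845) x30169)
    (Nat.sub (Nat.add (Nat.add (Nat.add (Nat.add (Nat.add (Nat.add (Nat.add (Nat.add (Nat.add C x36747) x45495) x54243) x51327) x49383) x49707) x49923) x49851) x30187) x49869)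
    (Nat.add (Nat.add (Nat.add (Nat.add (Nat.add (Nat.add (Nat.add (Nat.add (Nat.add (Nat.add (Nat.add C (Nat.mul x49897 (nat_lit 2))) x36775) x45523) x54271) x51355) x49411) x49735) x50059) x49843) x49899) x30215)
    (Nat.add (Nat.add (Nat.add (Nat.add (Nat.add (Nat.add (Nat.add (Nat.add (Nat.add (Nat.add (Nat.add C x36777) x45525) x54273) x51357) x49413) x49737) x50061) x49845) x49905) x49897) x30217)
    (Nat.add (Nat.add (Nat.add (Nat.add (Nat.add (Nat.add (Nat.add (Nat.add (Nat.add (Nat.add (Nat.add C x36783) x45531) x54279) x51363) x49419) x49743) x50067) x49851) x49923) x49899) x30223)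
    (Nat.add (Nat.add (Nat.add (Nat.add (Nat.add (Nat.add (Nat.add (Nat.add (Nat.add (Nat.add (Nat.add (Nat.add C x49923) x36801) x45549) x54297) x51381) x49437) x49761) x50085) x49869) x49977) x49905) x30241)
    (Nat.add (Nat.add (Nat.add (Nat.add (Nat.add (Nat.add (Nat.add (Nat.add (Nat.add C x49977) x36855) x45603) x54351) x51435) x49491) x50139) x49923) x30295)
    (Nat.add (Nat.add (Nat.add (Nat.add (Nat.add (Nat.add (Nat.add (Nat.add C (Nat.mul x50059 (nat_lit 3))) x36937) x45685) x54433) x51517) x49897) x50061) x30377)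
    (Nat.add (Nat.add (Nat.add (Nat.add (Nat.add (Nat.add (Nat.add (Nat.add (Nat.add C x50061) x36939) x45687) x54435) x51519) x49899) x50067) x50059) x30379)
    (Nat.add (Nat.add (Nat.add (Nat.add (Nat.add (Nat.add (Nat.add (Nat.add (Nat.add C x50067) x36945) x45693) x54441) x51525) x49905) x50085) x50061) x30385)
    (Nat.add (Nat.add (Nat.add (Nat.add (Nat.add (Nat.add (Nat.add (Nat.add (Nat.add C x50085) x36963) x45711) x54459) x51543) x49923) x50139) x50067) x30403)
    (Nat.add (Nat.add (Nat.add (Nat.add (Nat.add (Nat.add (Nat.add (Nat.add C (Nat.mul x50139 (nat_lit 3))) x37017) x45765) x54513) x51597) x49977) x50085) x30457)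
    (Nat.add (Nat.add (Nat.add (Nat.add (Nat.add C (Nat.mul x50309 (nat_lit 4))) x37187) x54683) x48851) x50315)
    (Nat.add (Nat.add (Nat.add (Nat.add (Nat.add (Nat.add (Nat.add (Nat.add C (Nat.mul x50315 (nat_lit 3))) x37193) x54689) x48857) x50333) x50309) x50321) x50317)
    (Nat.add (Nat.add (Nat.add (Nat.add (Nat.add (Nat.add (Nat.add (Nat.add C (Nat.mul x50317 (nat_lit 2))) x37195) x54691) x48859) x50335) x50323) x50315) x30635)
    (Nat.add (Nat.add (Nat.add (Nat.add (Nat.add (Nat.add C x37199) x54695) x48863) x50339) x50315) x50323)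
    (Nat.add (Nat.add (Nat.add (Nat.add (Nat.add (Nat.add (Nat.add (Nat.add (Nat.add C x50323) x37201) x54697) x48865) x50341) x50317) x50321) x50325) x30641)
    (Nat.add (Nat.add (Nat.add (Nat.add (Nat.add (Nat.add C x37203) x54699) x48867) x50343) x50323) x30643)
    (Nat.add (Nat.add (Nat.add (Nat.add (Nat.add (Nat.add (Nat.add (Nat.add C (Nat.mul x50333 (nat_lit 2))) x37211) x54707) x48875) x50387) x50315) x50339) x50335)
    (Nat.add (Nat.add (Nat.add (Nat.add (Nat.add (Nat.add (Nat.add (Nat.add C x37213) x54709) x48877) x50389) x50317) x50341) x50333) x30653)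
    (Nat.add (Nat.add (Nat.add (Nat.add (Nat.add (Nat.add (Nat.add (Nat.add (Nat.add C x50339) x37217) x54713) x48881) x50393) x50321) x50357) x50333) x50341)
    (Nat.add (Nat.add (Nat.add (Nat.add (Nat.add (Nat.add (Nat.add (Nat.add (Nat.add (Nat.add (Nat.add (Nat.add C x50341) x37219) x54715) x48883) x50395) x50323) x50359) x50335) x50347) x50339) x50343) x30659)
    (Nat.sub (Nat.add (Nat.add (Nat.add (Nat.add (Nat.add (Nat.add (Nat.add (Nat.add (Nat.add C x37221) x54717) x48885) x50397) x50325) x50361) x50349) x50341) x30661) x50343)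
    (Nat.add (Nat.add (Nat.add (Nat.add (Nat.add (Nat.add (Nat.add (Nat.add C x37225) x54721) x48889) x50401) x50365) x50341) x50349) x30665)
    (Nat.add (Nat.add (Nat.add (Nat.add (Nat.add (Nat.add (Nat.add (Nat.add C x37227) x54723) x48891) x50403) x50367) x50343) x50347) x30667)
    (Nat.add (Nat.add (Nat.add (Nat.add (Nat.add (Nat.add C x37235) x54731) x48899) x50411) x50339) x50359)
    (Nat.sub (Nat.add (Nat.add (Nat.add (Nat.add (Nat.add (Nat.add (Nat.add (Nat.add (Nat.add C x37237) x54733) x48901) x50413) x50341) x50365) x50357) x50361) x30677) x50359)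
    (Nat.sub (Nat.add (Nat.add (Nat.add (Nat.add (Nat.add (Nat.add (Nat.add (Nat.add C x37239) x54735) x48903) x50415) x50343) x50367) x50359) x30679) (Nat.mul x50361 (nat_lit 4)))
    (Nat.add (Nat.add (Nat.add (Nat.add (Nat.add (Nat.add (Nat.add (Nat.add C x37243) x54739) x48907) x50419) x50347) x50359) x50367) x30683)
    (Nat.sub (Nat.add (Nat.add (Nat.add (Nat.add (Nat.add (Nat.add (Nat.add (Nat.add (Nat.add C x37245) x54741) x48909) x50421) x50349) x50361) x50373) x50365) x30685) x50367)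
    (Nat.add (Nat.add (Nat.add (Nat.add (Nat.add (Nat.add C x37251) x54747) x48915) x50427) x50367) x30691)
    (Nat.add (Nat.add (Nat.add (Nat.add (Nat.add (Nat.add (Nat.add (Nat.add C (Nat.mul x50387 (nat_lit 2))) x37265) x54761) x48929) x50549) x50333) x50393) x50389)
    (Nat.add (Nat.add (Nat.add (Nat.add (Nat.add (Nat.add (Nat.add (Nat.add C x37267) x54763) x48931) x50551) x50335) x50395) x50387) x30707)
    (Nat.add (Nat.add (Nat.add (Nat.add (Nat.add (Nat.add (Nat.add (Nat.add C x37271) x54767) x48935) x50555) x50339) x50411) x50387) x50395)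
    (Nat.add (Nat.add (Nat.add (Nat.add (Nat.add (Nat.add (Nat.add (Nat.add (Nat.add (Nat.add (Nat.add C x37273) x54769) x48937) x50557) x50341) x50413) x50389) x50401) x50393) x50397) x30713)
    (Nat.sub (Nat.add (Nat.add (Nat.add (Nat.add (Nat.add (Nat.add (Nat.add (Nat.add (Nat.add C x37275) x54771) x48939) x50559) x50343) x50415) x50403) x50395) x30715) (Nat.mul x50397 (nat_lit 2)))
    (Nat.sub (Nat.add (Nat.add (Nat.add (Nat.add (Nat.add (Nat.add (Nat.add (Nat.add (Nat.add C x37279) x54775) x48943) x50563) x50347) x50419) x50395) x50403) x30719) (Nat.mul x50401 (nat_lit 2)))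
    (Nat.sub (Nat.add (Nat.add (Nat.add (Nat.add (Nat.add (Nat.add (Nat.add (Nat.add (Nat.add C x37281) x54777) x48945) x50565) x50349) x50421) x50397) x50401) x30721) (Nat.mul x50403 (nat_lit 2)))
    (Nat.add (Nat.add (Nat.add (Nat.add (Nat.add (Nat.add (Nat.add (Nat.add (Nat.add C x50411) x37289) x54785) x48953) x50573) x50357) x50465) x50393) x50413)
    (Nat.add (Nat.add (Nat.add (Nat.add (Nat.add (Nat.add (Nat.add (Nat.add (Nat.add (Nat.add (Nat.add C x37291) x54787) x48955) x50575) x50359) x50467) x50395) x50419) x50411) x50415) x30731)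
    (Nat.sub (Nat.add (Nat.add (Nat.add (Nat.add (Nat.add (Nat.add (Nat.add (Nat.add (Nat.add (Nat.add C x37293) x54789) x48957) x50577) x50361) x50469) x50397) x50421) x50413) x30733) (Nat.mul x50415 (nat_lit 3)))
    (Nat.add (Nat.add (Nat.add (Nat.add (Nat.add (Nat.add (Nat.add (Nat.add (Nat.add (Nat.add (Nat.add C x37297) x54793) x48961) x50581) x50365) x50473) x50401) x50437) x50413) x50421) x30737)
    (Nat.sub (Nat.add (Nat.add (Nat.add (Nat.add (Nat.add (Nat.add (Nat.add (Nat.add (Nat.add (Nat.add (Nat.add (Nat.add C x37299) x54795) x48963) x50583) x50367) x50475) x50403) x50439) x50415) x50427) x50419) x30739) x50421)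
    (Nat.sub (Nat.add (Nat.add (Nat.add (Nat.add (Nat.add (Nat.add (Nat.add (Nat.add (Nat.add C x37305) x54801) x48969) x50589) x50373) x50481) x50445) x50421) x30745) x50427)
    (Nat.add (Nat.add (Nat.add (Nat.add (Nat.add (Nat.add (Nat.add (Nat.add C x37315) x54811) x48979) x50599) x50491) x50419) x50439) x30755)
    (Nat.sub (Nat.add (Nat.add (Nat.add (Nat.add (Nat.add (Nat.add (Nat.add (Nat.add (Nat.add C x37317) x54813) x48981) x50601) x50493) x50421) x50445) x50437) x30757) (Nat.mul x50439 (nat_lit 2)))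
    (Nat.add (Nat.add (Nat.add (Nat.add (Nat.add (Nat.add (Nat.add (Nat.add C x37323) x54819) x48987) x50607) x50499) x50427) x50439) x30763)
    (Nat.add (Nat.add (Nat.add (Nat.add (Nat.add (Nat.add C x37343) x54839) x49007) x50627) x50411) x50467)
    (Nat.sub (Nat.add (Nat.add (Nat.add (Nat.add (Nat.add (Nat.add (Nat.add (Nat.add (Nat.add C x37345) x54841) x49009) x50629) x50413) x50473) x50465) x50469) x30785) x50467)
    (Nat.sub (Nat.add (Nat.add (Nat.add (Nat.add (Nat.add (Nat.add (Nat.add (Nat.add C x37347) x54843) x49011) x50631) x50415) x50475) x50467) x30787) (Nat.mul x50469 (nat_lit 4)))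
    (Nat.sub (Nat.add (Nat.add (Nat.add (Nat.add (Nat.add (Nat.add (Nat.add (Nat.add (Nat.add C x37351) x54847) x49015) x50635) x50419) x50491) x50467) x50475) x30791) (Nat.mul x50473 (nat_lit 2)))
    (Nat.sub (Nat.add (Nat.add (Nat.add (Nat.add (Nat.add (Nat.add (Nat.add (Nat.add (Nat.add (Nat.add C x37353) x54849) x49017) x50637) x50421) x50493) x50469) x50481) x50473) x30793) (Nat.mul x50475 (nat_lit 3)))
    (Nat.sub (Nat.add (Nat.add (Nat.add (Nat.add (Nat.add (Nat.add (Nat.add (Nat.add C x37359) x54855) x49023) x50643) x50427) x50499) x50475) x30799) (Nat.mul x50481 (nat_lit 4)))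
    (Nat.add (Nat.add (Nat.add (Nat.add (Nat.add (Nat.add (Nat.add (Nat.add C x37369) x54865) x49033) x50653) x50437) x50473) x50493) x30809)
    (Nat.sub (Nat.add (Nat.add (Nat.add (Nat.add (Nat.add (Nat.add (Nat.add (Nat.add (Nat.add C x37371) x54867) x49035) x50655) x50439) x50475) x50499) x50491) x30811) (Nat.mul x50493 (nat_lit 2)))
    (Nat.sub (Nat.add (Nat.add (Nat.add (Nat.add (Nat.add (Nat.add (Nat.add (Nat.add (Nat.add C x37377) x54873) x49041) x50661) x50445) x50481) x50517) x50493) x30817) x50499)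
    (Nat.add (Nat.add (Nat.add (Nat.add (Nat.add (Nat.add C x37395) x54891) x49059) x50679) x50499) x30835)
    (Nat.add (Nat.add (Nat.add (Nat.add (Nat.add (Nat.add (Nat.add (Nat.add C (Nat.mul x50549 (nat_lit 2))) x37427) x54923) x49091) x51035) x50387) x50555) x50551)
    (Nat.add (Nat.add (Nat.add (Nat.add (Nat.add (Nat.add (Nat.add (Nat.add C x37429) x54925) x49093) x51037) x50389) x50557) x50549) x30869)
    (Nat.add (Nat.add (Nat.add (Nat.add (Nat.add (Nat.add (Nat.add (Nat.add C x37433) x54929) x49097) x51041) x50393) x50573) x50549) x50557)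
    (Nat.add (Nat.add (Nat.add (Nat.add (Nat.add (Nat.add (Nat.add (Nat.add (Nat.add (Nat.add (Nat.add C x37435) x54931) x49099) x51043) x50395) x50575) x50551) x50563) x50555) x50559) x30875)
    (Nat.sub (Nat.add (Nat.add (Nat.add (Nat.add (Nat.add (Nat.add (Nat.add (Nat.add (Nat.add C x37437) x54933) x49101) x51045) x50397) x50577) x50565) x50557) x30877) (Nat.mul x50559 (nat_lit 2)))
    (Nat.sub (Nat.add (Nat.add (Nat.add (Nat.add (Nat.add (Nat.add (Nat.add (Nat.add (Nat.add C x37441) x54937) x49105) x51049) x50401) x50581) x50557) x50565) x30881) (Nat.mul x50563 (nat_lit 2)))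
    (Nat.sub (Nat.add (Nat.add (Nat.add (Nat.add (Nat.add (Nat.add (Nat.add (Nat.add (Nat.add C x37443) x54939) x49107) x51051) x50403) x50583) x50559) x50563) x30883) (Nat.mul x50565 (nat_lit 2)))
    (Nat.add (Nat.add (Nat.add (Nat.add (Nat.add (Nat.add (Nat.add (Nat.add C x37451) x54947) x49115) x51059) x50411) x50627) x50555) x50575)
    (Nat.sub (Nat.add (Nat.add (Nat.add (Nat.add (Nat.add (Nat.add (Nat.add (Nat.add (Nat.add (Nat.add (Nat.add C x37453) x54949) x49117) x51061) x50413) x50629) x50557) x50581) x50573) x50577) x30893) x50575)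
    (Nat.sub (Nat.add (Nat.add (Nat.add (Nat.add (Nat.add (Nat.add (Nat.add (Nat.add (Nat.add (Nat.add C x37455) x54951) x49119) x51063) x50415) x50631) x50559) x50583) x50575) x30895) (Nat.mul x50577 (nat_lit 4)))
    (Nat.sub (Nat.add (Nat.add (Nat.add (Nat.add (Nat.add (Nat.add (Nat.add (Nat.add (Nat.add (Nat.add (Nat.add C x37459) x54955) x49123) x51067) x50419) x50635) x50563) x50599) x50575) x50583) x30899) x50581)
    (Nat.sub (Nat.add (Nat.add (Nat.add (Nat.add (Nat.add (Nat.add (Nat.add (Nat.add (Nat.add (Nat.add (Nat.add (Nat.add C x37461) x54957) x49125) x51069) x50421) x50637) x50565) x50601) x50577) x50589) x50581) x30901) (Nat.mul x50583 (nat_lit 2)))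
    (Nat.sub (Nat.add (Nat.add (Nat.add (Nat.add (Nat.add (Nat.add (Nat.add (Nat.add (Nat.add C x37467) x54963) x49131) x51075) x50427) x50643) x50607) x50583) x30907) (Nat.mul x50589 (nat_lit 2)))
    (Nat.sub (Nat.add (Nat.add (Nat.add (Nat.add (Nat.add (Nat.add (Nat.add (Nat.add (Nat.add C x37477) x54973) x49141) x51085) x50437) x50653) x50581) x50601) x30917) (Nat.mul x50599 (nat_lit 2)))
    (Nat.sub (Nat.add (Nat.add (Nat.add (Nat.add (Nat.add (Nat.add (Nat.add (Nat.add (Nat.add (Nat.add C x37479) x54975) x49143) x51087) x50439) x50655) x50583) x50607) x50599) x30919) (Nat.mul x50601 (nat_lit 4)))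
    (Nat.sub (Nat.add (Nat.add (Nat.add (Nat.add (Nat.add (Nat.add (Nat.add (Nat.add (Nat.add C x37485) x54981) x49149) x51093) x50445) x50661) x50589) x50601) x30925) (Nat.mul x50607 (nat_lit 2)))
    (Nat.add (Nat.add (Nat.add (Nat.add (Nat.add (Nat.add (Nat.add (Nat.add (Nat.add C x50627) x37505) x55001) x49169) x51113) x50465) x50789) x50573) x50629)
    (Nat.add (Nat.add (Nat.add (Nat.add (Nat.add (Nat.add (Nat.add (Nat.add (Nat.add (Nat.add (Nat.add C x37507) x55003) x49171) x51115) x50467) x50791) x50575) x50635) x50627) x50631) x30947)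
    (Nat.sub (Nat.add (Nat.add (Nat.add (Nat.add (Nat.add (Nat.add (Nat.add (Nat.add (Nat.add (Nat.add C x37509) x55005) x49173) x51117) x50469) x50793) x50577) x50637) x50629) x30949) (Nat.mul x50631 (nat_lit 3)))
    (Nat.sub (Nat.add (Nat.add (Nat.add (Nat.add (Nat.add (Nat.add (Nat.add (Nat.add (Nat.add (Nat.add (Nat.add C x37513) x55009) x49177) x51121) x50473) x50797) x50581) x50653) x50629) x50637) x30953) x50635)
    (Nat.sub (Nat.add (Nat.add (Nat.add (Nat.add (Nat.add (Nat.add (Nat.add (Nat.add (Nat.add (Nat.add (Nat.add (Nat.add C x37515) x55011) x49179) x51123) x50475) x50799) x50583) x50655) x50631) x50643) x50635) x30955) (Nat.mul x50637 (nat_lit 2)))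
    (Nat.sub (Nat.add (Nat.add (Nat.add (Nat.add (Nat.add (Nat.add (Nat.add (Nat.add (Nat.add (Nat.add C x37521) x55017) x49185) x51129) x50481) x50805) x50589) x50661) x50637) x30961) (Nat.mul x50643 (nat_lit 3)))
    (Nat.add (Nat.add (Nat.add (Nat.add (Nat.add (Nat.add (Nat.add (Nat.add (Nat.add (Nat.add (Nat.add C x37531) x55027) x49195) x51139) x50491) x50815) x50599) x50707) x50635) x50655) x30971)
    (Nat.sub (Nat.add (Nat.add (Nat.add (Nat.add (Nat.add (Nat.add (Nat.add (Nat.add (Nat.add (Nat.add (Nat.add (Nat.add C x37533) x55029) x49197) x51141) x50493) x50817) x50601) x50709) x50637) x50661) x50653) x30973) (Nat.mul x50655 (nat_lit 2)))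
    (Nat.sub (Nat.add (Nat.add (Nat.add (Nat.add (Nat.add (Nat.add (Nat.add (Nat.add (Nat.add (Nat.add (Nat.add (Nat.add C x37539) x55035) x49203) x51147) x50499) x50823) x50607) x50715) x50643) x50679) x50655) x30979) x50661)
    (Nat.sub (Nat.add (Nat.add (Nat.add (Nat.add (Nat.add (Nat.add (Nat.add (Nat.add (Nat.add C x37557) x55053) x49221) x51165) x50517) x50841) x50733) x50661) x30997) x50679)
    (Nat.add (Nat.add (Nat.add (Nat.add (Nat.add (Nat.add (Nat.add (Nat.add C x37585) x55081) x49249) x51193) x50869) x50653) x50709) x31025)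
    (Nat.sub (Nat.add (Nat.add (Nat.add (Nat.add (Nat.add (Nat.add (Nat.add (Nat.add (Nat.add C x37587) x55083) x49251) x51195) x50871) x50655) x50715) x50707) x31027) (Nat.mul x50709 (nat_lit 2)))
    (Nat.sub (Nat.add (Nat.add (Nat.add (Nat.add (Nat.add (Nat.add (Nat.add (Nat.add (Nat.add C x37593) x55089) x49257) x51201) x50877) x50661) x50733) x50709) x31033) (Nat.mul x50715 (nat_lit 2)))
    (Nat.add (Nat.add (Nat.add (Nat.add (Nat.add (Nat.add (Nat.add (Nat.add C x37611) x55107) x49275) x51219) x50895) x50679) x50715) x31051)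
    (Nat.add (Nat.add (Nat.add (Nat.add (Nat.add (Nat.add C x37667) x55163) x49331) x51275) x50627) x50791)
    (Nat.sub (Nat.add (Nat.add (Nat.add (Nat.add (Nat.add (Nat.add (Nat.add (Nat.add (Nat.add C x37669) x55165) x49333) x51277) x50629) x50797) x50789) x50793) x31109) x50791)
    (Nat.sub (Nat.add (Nat.add (Nat.add (Nat.add (Nat.add (Nat.add (Nat.add (Nat.add C x37671) x55167) x49335) x51279) x50631) x50799) x50791) x31111) (Nat.mul x50793 (nat_lit 4)))
    (Nat.sub (Nat.add (Nat.add (Nat.add (Nat.add (Nat.add (Nat.add (Nat.add (Nat.add (Nat.add C x37675) x55171) x49339) x51283) x50635) x50815) x50791) x50799) x31115) (Nat.mul x50797 (nat_lit 2)))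
    (Nat.sub (Nat.add (Nat.add (Nat.add (Nat.add (Nat.add (Nat.add (Nat.add (Nat.add (Nat.add (Nat.add C x37677) x55173) x49341) x51285) x50637) x50817) x50793) x50805) x50797) x31117) (Nat.mul x50799 (nat_lit 3)))
    (Nat.sub (Nat.add (Nat.add (Nat.add (Nat.add (Nat.add (Nat.add (Nat.add (Nat.add C x37683) x55179) x49347) x51291) x50643) x50823) x50799) x31123) (Nat.mul x50805 (nat_lit 4)))
    (Nat.sub (Nat.add (Nat.add (Nat.add (Nat.add (Nat.add (Nat.add (Nat.add (Nat.add (Nat.add C x37693) x55189) x49357) x51301) x50653) x50869) x50797) x50817) x31133) (Nat.mul x50815 (nat_lit 2)))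
    (Nat.sub (Nat.add (Nat.add (Nat.add (Nat.add (Nat.add (Nat.add (Nat.add (Nat.add (Nat.add (Nat.add C x37695) x55191) x49359) x51303) x50655) x50871) x50799) x50823) x50815) x31135) (Nat.mul x50817 (nat_lit 4)))
    (Nat.sub (Nat.add (Nat.add (Nat.add (Nat.add (Nat.add (Nat.add (Nat.add (Nat.add (Nat.add (Nat.add C x37701) x55197) x49365) x51309) x50661) x50877) x50805) x50841) x50817) x31141) (Nat.mul x50823 (nat_lit 3)))
    (Nat.sub (Nat.add (Nat.add (Nat.add (Nat.add (Nat.add (Nat.add (Nat.add (Nat.add C x37719) x55215) x49383) x51327) x50679) x50895) x50823) x31159) (Nat.mul x50841 (nat_lit 4)))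
    (Nat.add (Nat.add (Nat.add (Nat.add (Nat.add (Nat.add (Nat.add (Nat.add C x37747) x55243) x49411) x51355) x50707) x50815) x50871) x31187)
    (Nat.sub (Nat.add (Nat.add (Nat.add (Nat.add (Nat.add (Nat.add (Nat.add (Nat.add (Nat.add C x37749) x55245) x49413) x51357) x50709) x50817) x50877) x50869) x31189) (Nat.mul x50871 (nat_lit 2)))
    (Nat.sub (Nat.add (Nat.add (Nat.add (Nat.add (Nat.add (Nat.add (Nat.add (Nat.add (Nat.add C x37755) x55251) x49419) x51363) x50715) x50823) x50895) x50871) x31195) (Nat.mul x50877 (nat_lit 2)))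
    (Nat.sub (Nat.add (Nat.add (Nat.add (Nat.add (Nat.add (Nat.add (Nat.add (Nat.add (Nat.add C x37773) x55269) x49437) x51381) x50733) x50841) x50949) x50877) x31213) x50895)
    (Nat.add (Nat.add (Nat.add (Nat.add (Nat.add (Nat.add C x37827) x55323) x49491) x51435) x50895) x31267)
    (Nat.add (Nat.add (Nat.add (Nat.add (Nat.add (Nat.add (Nat.add C (Nat.mul x51035 (nat_lit 4))) x37913) x55409) x49577) x50549) x51041) x51037)
    (Nat.add (Nat.add (Nat.add (Nat.add (Nat.add (Nat.add (Nat.add (Nat.add C (Nat.mul x51037 (nat_lit 2))) x37915) x55411) x49579) x50551) x51043) x51035) x31355)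
    (Nat.add (Nat.add (Nat.add (Nat.add (Nat.add (Nat.add (Nat.add (Nat.add C (Nat.mul x51041 (nat_lit 2))) x37919) x55415) x49583) x50555) x51059) x51035) x51043)
    (Nat.add (Nat.add (Nat.add (Nat.add (Nat.add (Nat.add (Nat.add (Nat.add (Nat.add (Nat.add (Nat.add C (Nat.mul x51043 (nat_lit 2))) x37921) x55417) x49585) x50557) x51061) x51037) x51049) x51041) x51045) x31361)
    (Nat.add (Nat.add (Nat.add (Nat.add (Nat.add (Nat.add (Nat.add (Nat.add C x37923) x55419) x49587) x50559) x51063) x51051) x51043) x31363)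
    (Nat.add (Nat.add (Nat.add (Nat.add (Nat.add (Nat.add (Nat.add (Nat.add C x37927) x55423) x49591) x50563) x51067) x51043) x51051) x31367)
    (Nat.add (Nat.add (Nat.add (Nat.add (Nat.add (Nat.add (Nat.add (Nat.add C x37929) x55425) x49593) x50565) x51069) x51045) x51049) x31369)
    (Nat.add (Nat.add (Nat.add (Nat.add (Nat.add (Nat.add (Nat.add (Nat.add C (Nat.mul x51059 (nat_lit 2))) x37937) x55433) x49601) x50573) x51113) x51041) x51061)
    (Nat.add (Nat.add (Nat.add (Nat.add (Nat.add (Nat.add (Nat.add (Nat.add (Nat.add (Nat.add (Nat.add C x51061) x37939) x55435) x49603) x50575) x51115) x51043) x51067) x51059) x51063) x31379)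
    (Nat.sub (Nat.add (Nat.add (Nat.add (Nat.add (Nat.add (Nat.add (Nat.add (Nat.add (Nat.add C x37941) x55437) x49605) x50577) x51117) x51045) x51069) x51061) x31381) (Nat.mul x51063 (nat_lit 2)))
    (Nat.add (Nat.add (Nat.add (Nat.add (Nat.add (Nat.add (Nat.add (Nat.add (Nat.add (Nat.add (Nat.add C x51067) x37945) x55441) x49609) x50581) x51121) x51049) x51085) x51061) x51069) x31385)
    (Nat.add (Nat.add (Nat.add (Nat.add (Nat.add (Nat.add (Nat.add (Nat.add (Nat.add (Nat.add (Nat.add C x37947) x55443) x49611) x50583) x51123) x51051) x51087) x51063) x51075) x51067) x31387)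
    (Nat.add (Nat.add (Nat.add (Nat.add (Nat.add (Nat.add (Nat.add (Nat.add C x37953) x55449) x49617) x50589) x51129) x51093) x51069) x31393)
    (Nat.add (Nat.add (Nat.add (Nat.add (Nat.add (Nat.add (Nat.add (Nat.add C x37963) x55459) x49627) x50599) x51139) x51067) x51087) x31403)
    (Nat.sub (Nat.add (Nat.add (Nat.add (Nat.add (Nat.add (Nat.add (Nat.add (Nat.add (Nat.add C x37965) x55461) x49629) x50601) x51141) x51069) x51093) x51085) x31405) (Nat.mul x51087 (nat_lit 2)))
    (Nat.add (Nat.add (Nat.add (Nat.add (Nat.add (Nat.add (Nat.add (Nat.add C x37971) x55467) x49635) x50607) x51147) x51075) x51087) x31411)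
    (Nat.add (Nat.add (Nat.add (Nat.add (Nat.add (Nat.add (Nat.add (Nat.add C (Nat.mul x51113 (nat_lit 2))) x37991) x55487) x49655) x50627) x51275) x51059) x51115)
    (Nat.add (Nat.add (Nat.add (Nat.add (Nat.add (Nat.add (Nat.add (Nat.add (Nat.add (Nat.add (Nat.add C x51115) x37993) x55489) x49657) x50629) x51277) x51061) x51121) x51113) x51117) x31433)
    (Nat.sub (Nat.add (Nat.add (Nat.add (Nat.add (Nat.add (Nat.add (Nat.add (Nat.add (Nat.add C x37995) x55491) x49659) x50631) x51279) x51063) x51123) x51115) x31435) (Nat.mul x51117 (nat_lit 2)))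
    (Nat.add (Nat.add (Nat.add (Nat.add (Nat.add (Nat.add (Nat.add (Nat.add (Nat.add (Nat.add C x37999) x55495) x49663) x50635) x51283) x51067) x51139) x51115) x51123) x31439)
    (Nat.sub (Nat.add (Nat.add (Nat.add (Nat.add (Nat.add (Nat.add (Nat.add (Nat.add (Nat.add (Nat.add (Nat.add C x38001) x55497) x49665) x50637) x51285) x51069) x51141) x51117) x51129) x51121) x31441) x51123)
    (Nat.sub (Nat.add (Nat.add (Nat.add (Nat.add (Nat.add (Nat.add (Nat.add (Nat.add (Nat.add C x38007) x55503) x49671) x50643) x51291) x51075) x51147) x51123) x31447) (Nat.mul x51129 (nat_lit 2)))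
    (Nat.add (Nat.add (Nat.add (Nat.add (Nat.add (Nat.add (Nat.add (Nat.add (Nat.add (Nat.add (Nat.add C x51139) x38017) x55513) x49681) x50653) x51301) x51085) x51193) x51121) x51141) x31457)
    (Nat.sub (Nat.add (Nat.add (Nat.add (Nat.add (Nat.add (Nat.add (Nat.add (Nat.add (Nat.add (Nat.add (Nat.add C x38019) x55515) x49683) x50655) x51303) x51087) x51195) x51123) x51147) x51139) x31459) x51141)
    (Nat.add (Nat.add (Nat.add (Nat.add (Nat.add (Nat.add (Nat.add (Nat.add (Nat.add (Nat.add (Nat.add C x38025) x55521) x49689) x50661) x51309) x51093) x51201) x51129) x51165) x51141) x31465)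
    (Nat.add (Nat.add (Nat.add (Nat.add (Nat.add (Nat.add (Nat.add (Nat.add C x38043) x55539) x49707) x50679) x51327) x51219) x51147) x31483)
    (Nat.add (Nat.add (Nat.add (Nat.add (Nat.add (Nat.add (Nat.add (Nat.add C x38071) x55567) x49735) x50707) x51355) x51139) x51195) x31511)
    (Nat.sub (Nat.add (Nat.add (Nat.add (Nat.add (Nat.add (Nat.add (Nat.add (Nat.add (Nat.add C x38073) x55569) x49737) x50709) x51357) x51141) x51201) x51193) x31513) (Nat.mul x51195 (nat_lit 2)))
    (Nat.sub (Nat.add (Nat.add (Nat.add (Nat.add (Nat.add (Nat.add (Nat.add (Nat.add (Nat.add C x38079) x55575) x49743) x50715) x51363) x51147) x51219) x51195) x31519) (Nat.mul x51201 (nat_lit 2)))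
    (Nat.add (Nat.add (Nat.add (Nat.add (Nat.add (Nat.add (Nat.add (Nat.add C x38097) x55593) x49761) x50733) x51381) x51165) x51201) x31537)
    (Nat.add (Nat.add (Nat.add (Nat.add (Nat.add (Nat.add (Nat.add (Nat.add C (Nat.mul x51275 (nat_lit 3))) x38153) x55649) x49817) x50789) x51761) x51113) x51277)
    (Nat.add (Nat.add (Nat.add (Nat.add (Nat.add (Nat.add (Nat.add (Nat.add (Nat.add (Nat.add (Nat.add C (Nat.mul x51277 (nat_lit 2))) x38155) x55651) x49819) x50791) x51763) x51115) x51283) x51275) x51279) x31595)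
    (Nat.sub (Nat.add (Nat.add (Nat.add (Nat.add (Nat.add (Nat.add (Nat.add (Nat.add (Nat.add C x38157) x55653) x49821) x50793) x51765) x51117) x51285) x51277) x31597) x51279)
    (Nat.add (Nat.add (Nat.add (Nat.add (Nat.add (Nat.add (Nat.add (Nat.add (Nat.add (Nat.add (Nat.add C x51283) x38161) x55657) x49825) x50797) x51769) x51121) x51301) x51277) x51285) x31601)
    (Nat.add (Nat.add (Nat.add (Nat.add (Nat.add (Nat.add (Nat.add (Nat.add (Nat.add (Nat.add (Nat.add C x38163) x55659) x49827) x50799) x51771) x51123) x51303) x51279) x51291) x51283) x31603)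
    (Nat.sub (Nat.add (Nat.add (Nat.add (Nat.add (Nat.add (Nat.add (Nat.add (Nat.add (Nat.add C x38169) x55665) x49833) x50805) x51777) x51129) x51309) x51285) x31609) x51291)
    (Nat.add (Nat.add (Nat.add (Nat.add (Nat.add (Nat.add (Nat.add (Nat.add (Nat.add (Nat.add (Nat.add C x51301) x38179) x55675) x49843) x50815) x51787) x51139) x51355) x51283) x51303) x31619)
    (Nat.sub (Nat.add (Nat.add (Nat.add (Nat.add (Nat.add (Nat.add (Nat.add (Nat.add (Nat.add (Nat.add (Nat.add C x38181) x55677) x49845) x50817) x51789) x51141) x51357) x51285) x51309) x51301) x31621) x51303)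
    (Nat.add (Nat.add (Nat.add (Nat.add (Nat.add (Nat.add (Nat.add (Nat.add (Nat.add (Nat.add (Nat.add C x38187) x55683) x49851) x50823) x51795) x51147) x51363) x51291) x51327) x51303) x31627)
    (Nat.sub (Nat.add (Nat.add (Nat.add (Nat.add (Nat.add (Nat.add (Nat.add (Nat.add (Nat.add C x38205) x55701) x49869) x50841) x51813) x51165) x51381) x51309) x31645) x51327)
    (Nat.add (Nat.add (Nat.add (Nat.add (Nat.add (Nat.add (Nat.add (Nat.add (Nat.add (Nat.add (Nat.add C (Nat.mul x51355 (nat_lit 2))) x38233) x55729) x49897) x50869) x51841) x51193) x51517) x51301) x51357) x31673)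
    (Nat.add (Nat.add (Nat.add (Nat.add (Nat.add (Nat.add (Nat.add (Nat.add (Nat.add (Nat.add (Nat.add C x38235) x55731) x49899) x50871) x51843) x51195) x51519) x51303) x51363) x51355) x31675)
    (Nat.add (Nat.add (Nat.add (Nat.add (Nat.add (Nat.add (Nat.add (Nat.add (Nat.add (Nat.add (Nat.add C x38241) x55737) x49905) x50877) x51849) x51201) x51525) x51309) x51381) x51357) x31681)
    (Nat.add (Nat.add (Nat.add (Nat.add (Nat.add (Nat.add (Nat.add (Nat.add (Nat.add (Nat.add (Nat.add (Nat.add C x51381) x38259) x55755) x49923) x50895) x51867) x51219) x51543) x51327) x51435) x51363) x31699)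
    (Nat.add (Nat.add (Nat.add (Nat.add (Nat.add (Nat.add (Nat.add (Nat.add (Nat.add C x51435) x38313) x55809) x49977) x50949) x51921) x51597) x51381) x31753)
    (Nat.add (Nat.add (Nat.add (Nat.add (Nat.add (Nat.add (Nat.add (Nat.add C (Nat.mul x51517 (nat_lit 2))) x38395) x55891) x50059) x52003) x51355) x51519) x31835)
    (Nat.add (Nat.add (Nat.add (Nat.add (Nat.add (Nat.add (Nat.add (Nat.add C x38397) x55893) x50061) x52005) x51357) x51525) x51517) x31837)
    (Nat.add (Nat.add (Nat.add (Nat.add (Nat.add (Nat.add (Nat.add (Nat.add C x38403) x55899) x50067) x52011) x51363) x51543) x51519) x31843)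
    (Nat.add (Nat.add (Nat.add (Nat.add (Nat.add (Nat.add (Nat.add (Nat.add C x38421) x55917) x50085) x52029) x51381) x51597) x51525) x31861)
    (Nat.add (Nat.add (Nat.add (Nat.add (Nat.add (Nat.add (Nat.add (Nat.add C (Nat.mul x51597 (nat_lit 2))) x38475) x55971) x50139) x52083) x51435) x51543) x31915)
    (Nat.add (Nat.add (Nat.add (Nat.add (Nat.add C (Nat.mul x51761 (nat_lit 4))) x38639) x56135) x51275) x51763)
    (Nat.add (Nat.add (Nat.add (Nat.add (Nat.add (Nat.add (Nat.add (Nat.add C (Nat.mul x51763 (nat_lit 3))) x38641) x56137) x51277) x51769) x51761) x51765) x32081)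
    (Nat.add (Nat.add (Nat.add (Nat.add (Nat.add (Nat.add C x38643) x56139) x51279) x51771) x51763) x32083)
    (Nat.add (Nat.add (Nat.add (Nat.add (Nat.add (Nat.add (Nat.add (Nat.add C (Nat.mul x51769 (nat_lit 2))) x38647) x56143) x51283) x51787) x51763) x51771) x32087)
    (Nat.add (Nat.add (Nat.add (Nat.add (Nat.add (Nat.add (Nat.add (Nat.add (Nat.add C x51771) x38649) x56145) x51285) x51789) x51765) x51777) x51769) x32089)
    (Nat.add (Nat.add (Nat.add (Nat.add (Nat.add (Nat.add C x38655) x56151) x51291) x51795) x51771) x32095)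
    (Nat.add (Nat.add (Nat.add (Nat.add (Nat.add (Nat.add (Nat.add (Nat.add C (Nat.mul x51787 (nat_lit 2))) x38665) x56161) x51301) x51841) x51769) x51789) x32105)
    (Nat.add (Nat.add (Nat.add (Nat.add (Nat.add (Nat.add (Nat.add (Nat.add C x38667) x56163) x51303) x51843) x51771) x51795) x51787) x32107)
    (Nat.add (Nat.add (Nat.add (Nat.add (Nat.add (Nat.add (Nat.add (Nat.add (Nat.add C x51795) x38673) x56169) x51309) x51849) x51777) x51813) x51789) x32113)
    (Nat.add (Nat.add (Nat.add (Nat.add (Nat.add (Nat.add C x38691) x56187) x51327) x51867) x51795) x32131)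
    (Nat.add (Nat.add (Nat.add (Nat.add (Nat.add (Nat.add (Nat.add (Nat.add C (Nat.mul x51841 (nat_lit 2))) x38719) x56215) x51355) x52003) x51787) x51843) x32159)
    (Nat.add (Nat.add (Nat.add (Nat.add (Nat.add (Nat.add (Nat.add (Nat.add C x38721) x56217) x51357) x52005) x51789) x51849) x51841) x32161)
    (Nat.add (Nat.add (Nat.add (Nat.add (Nat.add (Nat.add (Nat.add (Nat.add C x38727) x56223) x51363) x52011) x51795) x51867) x51843) x32167)
    (Nat.add (Nat.add (Nat.add (Nat.add (Nat.add (Nat.add (Nat.add (Nat.add (Nat.add C x51867) x38745) x56241) x51381) x52029) x51813) x51921) x51849) x32185)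
    (Nat.add (Nat.add (Nat.add (Nat.add (Nat.add (Nat.add C x38799) x56295) x51435) x52083) x51867) x32239)
    (Nat.add (Nat.add (Nat.add (Nat.add (Nat.add (Nat.add (Nat.add C (Nat.mul x52003 (nat_lit 4))) x38881) x56377) x51517) x51841) x52005) x32321)
    (Nat.add (Nat.add (Nat.add (Nat.add (Nat.add (Nat.add (Nat.add (Nat.add C (Nat.mul x52005 (nat_lit 2))) x38883) x56379) x51519) x51843) x52011) x52003) x32323)
    (Nat.add (Nat.add (Nat.add (Nat.add (Nat.add (Nat.add (Nat.add (Nat.add C (Nat.mul x52011 (nat_lit 2))) x38889) x56385) x51525) x51849) x52029) x52005) x32329)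
    (Nat.add (Nat.add (Nat.add (Nat.add (Nat.add (Nat.add (Nat.add (Nat.add C (Nat.mul x52029 (nat_lit 2))) x38907) x56403) x51543) x51867) x52083) x52011) x32347)
    (Nat.add (Nat.add (Nat.add (Nat.add (Nat.add (Nat.add (Nat.add (Nat.add C (Nat.mul x52083 (nat_lit 3))) x38961) x56457) x51597) x51921) x52245) x52029) x32401)
    (Nat.add (Nat.add (Nat.add (Nat.add (Nat.add C (Nat.mul x52245 (nat_lit 4))) x39123) x56619) x52083) x32563)
    (Nat.add (Nat.add (Nat.add (Nat.add C (Nat.mul x52505 (nat_lit 6))) x48131) x52523) x52511)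
    (Nat.add (Nat.add (Nat.add (Nat.add (Nat.add C (Nat.mul x52511 (nat_lit 4))) x48137) x52529) x52505) x52513)
    (Nat.add (Nat.add (Nat.add (Nat.add (Nat.add C (Nat.mul x52513 (nat_lit 4))) x48139) x52531) x52511) x32831)
    (Nat.add (Nat.add (Nat.add (Nat.add (Nat.add C (Nat.mul x52523 (nat_lit 4))) x48149) x52577) x52505) x52529)
    (Nat.add (Nat.add (Nat.add (Nat.add (Nat.add (Nat.add (Nat.add (Nat.add C (Nat.mul x52529 (nat_lit 4))) x48155) x52583) x52511) x52547) x52523) x52535) x52531)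
    (Nat.add (Nat.add (Nat.add (Nat.add (Nat.add (Nat.add (Nat.add (Nat.add C (Nat.mul x52531 (nat_lit 3))) x48157) x52585) x52513) x52549) x52537) x52529) x32849)
    (Nat.add (Nat.add (Nat.add (Nat.add (Nat.add (Nat.add C (Nat.mul x52535 (nat_lit 2))) x48161) x52589) x52553) x52529) x52537)
    (Nat.add (Nat.add (Nat.add (Nat.add (Nat.add (Nat.add (Nat.add (Nat.add C (Nat.mul x52537 (nat_lit 3))) x48163) x52591) x52555) x52531) x52535) x52539) x32855)
    (Nat.add (Nat.add (Nat.add (Nat.add (Nat.add (Nat.add C (Nat.mul x52539 (nat_lit 2))) x48165) x52593) x52557) x52537) x32857)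
    (Nat.add (Nat.add (Nat.add (Nat.add (Nat.add (Nat.add C (Nat.mul x52547 (nat_lit 2))) x48173) x52601) x52529) x52553) x52549)
    (Nat.add (Nat.add (Nat.add (Nat.add (Nat.add (Nat.add C x48175) x52603) x52531) x52555) x52547) x32867)
    (Nat.add (Nat.add (Nat.add (Nat.add (Nat.add (Nat.add C (Nat.mul x52553 (nat_lit 2))) x48179) x52607) x52535) x52547) x52555)
    (Nat.add (Nat.add (Nat.add (Nat.add (Nat.add (Nat.add (Nat.add (Nat.add (Nat.add C (Nat.mul x52555 (nat_lit 2))) x48181) x52609) x52537) x52549) x52561) x52553) x52557) x32873)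
    (Nat.add (Nat.add (Nat.add (Nat.add (Nat.add (Nat.add C x48183) x52611) x52539) x52563) x52555) x32875)
    (Nat.add (Nat.add (Nat.add (Nat.add (Nat.add (Nat.add C (Nat.mul x52561 (nat_lit 2))) x48187) x52615) x52555) x52563) x32879)
    (Nat.add (Nat.add (Nat.add (Nat.add (Nat.add (Nat.add C (Nat.mul x52563 (nat_lit 2))) x48189) x52617) x52557) x52561) x32881)
    (Nat.add (Nat.add (Nat.add (Nat.add (Nat.add C (Nat.mul x52577 (nat_lit 4))) x48203) x52739) x52523) x52583)
    (Nat.add (Nat.add (Nat.add (Nat.add (Nat.add (Nat.add (Nat.add (Nat.add C (Nat.mul x52583 (nat_lit 3))) x48209) x52745) x52529) x52601) x52577) x52589) x52585)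
    (Nat.add (Nat.add (Nat.add (Nat.add (Nat.add (Nat.add (Nat.add (Nat.add C (Nat.mul x52585 (nat_lit 2))) x48211) x52747) x52531) x52603) x52591) x52583) x32903)
    (Nat.add (Nat.add (Nat.add (Nat.add (Nat.add (Nat.add C x48215) x52751) x52535) x52607) x52583) x52591)
    (Nat.add (Nat.add (Nat.add (Nat.add (Nat.add (Nat.add (Nat.add (Nat.add (Nat.add C x52591) x48217) x52753) x52537) x52609) x52585) x52589) x52593) x32909)
    (Nat.add (Nat.add (Nat.add (Nat.add (Nat.add (Nat.add C x48219) x52755) x52539) x52611) x52591) x32911)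
    (Nat.add (Nat.add (Nat.add (Nat.add (Nat.add (Nat.add (Nat.add (Nat.add C (Nat.mul x52601 (nat_lit 3))) x48227) x52763) x52547) x52655) x52583) x52607) x52603)
    (Nat.add (Nat.add (Nat.add (Nat.add (Nat.add (Nat.add (Nat.add (Nat.add (Nat.add C x52603) x48229) x52765) x52549) x52657) x52585) x52609) x52601) x32921)
    (Nat.add (Nat.add (Nat.add (Nat.add (Nat.add (Nat.add (Nat.add (Nat.add (Nat.add C (Nat.mul x52607 (nat_lit 2))) x48233) x52769) x52553) x52661) x52589) x52625) x52601) x52609)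
    (Nat.add (Nat.add (Nat.add (Nat.add (Nat.add (Nat.add (Nat.add (Nat.add (Nat.add (Nat.add (Nat.add (Nat.add C (Nat.mul x52609 (nat_lit 2))) x48235) x52771) x52555) x52663) x52591) x52627) x52603) x52615) x52607) x52611) x32927)
    (Nat.add (Nat.add (Nat.add (Nat.add (Nat.add (Nat.add (Nat.add (Nat.add (Nat.add C x48237) x52773) x52557) x52665) x52593) x52629) x52617) x52609) x32929)
    (Nat.add (Nat.add (Nat.add (Nat.add (Nat.add (Nat.add (Nat.add (Nat.add (Nat.add C x52615) x48241) x52777) x52561) x52669) x52633) x52609) x52617) x32933)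
    (Nat.add (Nat.add (Nat.add (Nat.add (Nat.add (Nat.add (Nat.add (Nat.add (Nat.add C x52617) x48243) x52779) x52563) x52671) x52635) x52611) x52615) x32935)
    (Nat.add (Nat.add (Nat.add (Nat.add (Nat.add (Nat.add C (Nat.mul x52625 (nat_lit 2))) x48251) x52787) x52679) x52607) x52627)
    (Nat.add (Nat.add (Nat.add (Nat.add (Nat.add (Nat.add (Nat.add (Nat.add (Nat.add C x52627) x48253) x52789) x52681) x52609) x52633) x52625) x52629) x32945)
    (Nat.sub (Nat.add (Nat.add (Nat.add (Nat.add (Nat.add (Nat.add (Nat.add C x48255) x52791) x52683) x52611) x52635) x52627) x32947) (Nat.mul x52629 (nat_lit 2)))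
    (Nat.add (Nat.add (Nat.add (Nat.add (Nat.add (Nat.add (Nat.add (Nat.add C (Nat.mul x52633 (nat_lit 2))) x48259) x52795) x52687) x52615) x52627) x52635) x32951)
    (Nat.add (Nat.add (Nat.add (Nat.add (Nat.add (Nat.add (Nat.add (Nat.add (Nat.add C x52635) x48261) x52797) x52689) x52617) x52629) x52641) x52633) x32953)
    (Nat.add (Nat.add (Nat.add (Nat.add (Nat.add (Nat.add C (Nat.mul x52641 (nat_lit 2))) x48267) x52803) x52695) x52635) x32959)
    (Nat.add (Nat.add (Nat.add (Nat.add (Nat.add (Nat.add C (Nat.mul x52655 (nat_lit 2))) x48281) x52817) x52601) x52661) x52657)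
    (Nat.add (Nat.add (Nat.add (Nat.add (Nat.add (Nat.add C x48283) x52819) x52603) x52663) x52655) x32975)
    (Nat.add (Nat.add (Nat.add (Nat.add (Nat.add (Nat.add C x48287) x52823) x52607) x52679) x52655) x52663)
    (Nat.add (Nat.add (Nat.add (Nat.add (Nat.add (Nat.add (Nat.add (Nat.add (Nat.add C x48289) x52825) x52609) x52681) x52657) x52669) x52661) x52665) x32981)
    (Nat.sub (Nat.add (Nat.add (Nat.add (Nat.add (Nat.add (Nat.add (Nat.add C x48291) x52827) x52611) x52683) x52671) x52663) x32983) (Nat.mul x52665 (nat_lit 2)))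
    (Nat.sub (Nat.add (Nat.add (Nat.add (Nat.add (Nat.add (Nat.add (Nat.add C x48295) x52831) x52615) x52687) x52663) x52671) x32987) (Nat.mul x52669 (nat_lit 2)))
    (Nat.sub (Nat.add (Nat.add (Nat.add (Nat.add (Nat.add (Nat.add (Nat.add C x48297) x52833) x52617) x52689) x52665) x52669) x32989) (Nat.mul x52671 (nat_lit 2)))
    (Nat.add (Nat.add (Nat.add (Nat.add (Nat.add (Nat.add C (Nat.mul x52679 (nat_lit 2))) x48305) x52841) x52625) x52661) x52681)
    (Nat.add (Nat.add (Nat.add (Nat.add (Nat.add (Nat.add (Nat.add (Nat.add (Nat.add C x52681) x48307) x52843) x52627) x52663) x52687) x52679) x52683) x32999)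
    (Nat.sub (Nat.add (Nat.add (Nat.add (Nat.add (Nat.add (Nat.add (Nat.add C x48309) x52845) x52629) x52665) x52689) x52681) x33001) (Nat.mul x52683 (nat_lit 2)))
    (Nat.add (Nat.add (Nat.add (Nat.add (Nat.add (Nat.add (Nat.add (Nat.add (Nat.add C x52687) x48313) x52849) x52633) x52669) x52705) x52681) x52689) x33005)
    (Nat.add (Nat.add (Nat.add (Nat.add (Nat.add (Nat.add (Nat.add (Nat.add (Nat.add C x48315) x52851) x52635) x52671) x52707) x52683) x52695) x52687) x33007)
    (Nat.add (Nat.add (Nat.add (Nat.add (Nat.add (Nat.add C x48321) x52857) x52641) x52713) x52689) x33013)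
    (Nat.add (Nat.add (Nat.add (Nat.add (Nat.add (Nat.add C (Nat.mul x52705 (nat_lit 2))) x48331) x52867) x52687) x52707) x33023)
    (Nat.add (Nat.add (Nat.add (Nat.add (Nat.add (Nat.add C x48333) x52869) x52689) x52713) x52705) x33025)
    (Nat.add (Nat.add (Nat.add (Nat.add (Nat.add (Nat.add C (Nat.mul x52713 (nat_lit 2))) x48339) x52875) x52695) x52707) x33031)
    (Nat.add (Nat.add (Nat.add (Nat.add (Nat.add C (Nat.mul x52739 (nat_lit 4))) x48365) x53225) x52577) x52745)
    (Nat.add (Nat.add (Nat.add (Nat.add (Nat.add (Nat.add (Nat.add (Nat.add C (Nat.mul x52745 (nat_lit 3))) x48371) x53231) x52583) x52763) x52739) x52751) x52747)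
    (Nat.add (Nat.add (Nat.add (Nat.add (Nat.add (Nat.add (Nat.add (Nat.add C (Nat.mul x52747 (nat_lit 2))) x48373) x53233) x52585) x52765) x52753) x52745) x33065)
    (Nat.add (Nat.add (Nat.add (Nat.add (Nat.add (Nat.add C x48377) x53237) x52589) x52769) x52745) x52753)
    (Nat.add (Nat.add (Nat.add (Nat.add (Nat.add (Nat.add (Nat.add (Nat.add (Nat.add C x52753) x48379) x53239) x52591) x52771) x52747) x52751) x52755) x33071)
    (Nat.add (Nat.add (Nat.add (Nat.add (Nat.add (Nat.add C x48381) x53241) x52593) x52773) x52753) x33073)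
    (Nat.add (Nat.add (Nat.add (Nat.add (Nat.add (Nat.add (Nat.add (Nat.add C (Nat.mul x52763 (nat_lit 2))) x48389) x53249) x52601) x52817) x52745) x52769) x52765)
    (Nat.add (Nat.add (Nat.add (Nat.add (Nat.add (Nat.add (Nat.add (Nat.add C x48391) x53251) x52603) x52819) x52747) x52771) x52763) x33083)
    (Nat.add (Nat.add (Nat.add (Nat.add (Nat.add (Nat.add (Nat.add (Nat.add (Nat.add C x52769) x48395) x53255) x52607) x52823) x52751) x52787) x52763) x52771)
    (Nat.add (Nat.add (Nat.add (Nat.add (Nat.add (Nat.add (Nat.add (Nat.add (Nat.add (Nat.add (Nat.add (Nat.add C x52771) x48397) x53257) x52609) x52825) x52753) x52789) x52765) x52777) x52769) x52773) x33089)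
    (Nat.sub (Nat.add (Nat.add (Nat.add (Nat.add (Nat.add (Nat.add (Nat.add (Nat.add (Nat.add C x48399) x53259) x52611) x52827) x52755) x52791) x52779) x52771) x33091) x52773)
    (Nat.add (Nat.add (Nat.add (Nat.add (Nat.add (Nat.add (Nat.add (Nat.add C x48403) x53263) x52615) x52831) x52795) x52771) x52779) x33095)
    (Nat.add (Nat.add (Nat.add (Nat.add (Nat.add (Nat.add (Nat.add (Nat.add C x48405) x53265) x52617) x52833) x52797) x52773) x52777) x33097)
    (Nat.add (Nat.add (Nat.add (Nat.add (Nat.add (Nat.add C x48413) x53273) x52625) x52841) x52769) x52789)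
    (Nat.sub (Nat.add (Nat.add (Nat.add (Nat.add (Nat.add (Nat.add (Nat.add (Nat.add (Nat.add C x48415) x53275) x52627) x52843) x52771) x52795) x52787) x52791) x33107) x52789)
    (Nat.sub (Nat.add (Nat.add (Nat.add (Nat.add (Nat.add (Nat.add (Nat.add (Nat.add C x48417) x53277) x52629) x52845) x52773) x52797) x52789) x33109) (Nat.mul x52791 (nat_lit 4)))
    (Nat.add (Nat.add (Nat.add (Nat.add (Nat.add (Nat.add (Nat.add (Nat.add C x48421) x53281) x52633) x52849) x52777) x52789) x52797) x33113)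
    (Nat.sub (Nat.add (Nat.add (Nat.add (Nat.add (Nat.add (Nat.add (Nat.add (Nat.add (Nat.add C x48423) x53283) x52635) x52851) x52779) x52791) x52803) x52795) x33115) x52797)
    (Nat.add (Nat.add (Nat.add (Nat.add (Nat.add (Nat.add C x48429) x53289) x52641) x52857) x52797) x33121)
    (Nat.add (Nat.add (Nat.add (Nat.add (Nat.add (Nat.add (Nat.add (Nat.add C (Nat.mul x52817 (nat_lit 3))) x48443) x53303) x52655) x52979) x52763) x52823) x52819)
    (Nat.add (Nat.add (Nat.add (Nat.add (Nat.add (Nat.add (Nat.add (Nat.add (Nat.add C x52819) x48445) x53305) x52657) x52981) x52765) x52825) x52817) x33137)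
    (Nat.add (Nat.add (Nat.add (Nat.add (Nat.add (Nat.add (Nat.add (Nat.add (Nat.add C x52823) x48449) x53309) x52661) x52985) x52769) x52841) x52817) x52825)
    (Nat.add (Nat.add (Nat.add (Nat.add (Nat.add (Nat.add (Nat.add (Nat.add (Nat.add (Nat.add (Nat.add (Nat.add C x52825) x48451) x53311) x52663) x52987) x52771) x52843) x52819) x52831) x52823) x52827) x33143)
    (Nat.sub (Nat.add (Nat.add (Nat.add (Nat.add (Nat.add (Nat.add (Nat.add (Nat.add (Nat.add C x48453) x53313) x52665) x52989) x52773) x52845) x52833) x52825) x33145) x52827)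
    (Nat.sub (Nat.add (Nat.add (Nat.add (Nat.add (Nat.add (Nat.add (Nat.add (Nat.add (Nat.add C x48457) x53317) x52669) x52993) x52777) x52849) x52825) x52833) x33149) x52831)
    (Nat.sub (Nat.add (Nat.add (Nat.add (Nat.add (Nat.add (Nat.add (Nat.add (Nat.add (Nat.add C x48459) x53319) x52671) x52995) x52779) x52851) x52827) x52831) x33151) x52833)
    (Nat.add (Nat.add (Nat.add (Nat.add (Nat.add (Nat.add (Nat.add (Nat.add (Nat.add C (Nat.mul x52841 (nat_lit 2))) x48467) x53327) x52679) x53003) x52787) x52895) x52823) x52843)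
    (Nat.add (Nat.add (Nat.add (Nat.add (Nat.add (Nat.add (Nat.add (Nat.add (Nat.add (Nat.add (Nat.add (Nat.add C x52843) x48469) x53329) x52681) x53005) x52789) x52897) x52825) x52849) x52841) x52845) x33161)
    (Nat.sub (Nat.add (Nat.add (Nat.add (Nat.add (Nat.add (Nat.add (Nat.add (Nat.add (Nat.add (Nat.add C x48471) x53331) x52683) x53007) x52791) x52899) x52827) x52851) x52843) x33163) (Nat.mul x52845 (nat_lit 2)))
    (Nat.add (Nat.add (Nat.add (Nat.add (Nat.add (Nat.add (Nat.add (Nat.add (Nat.add (Nat.add (Nat.add (Nat.add C x52849) x48475) x53335) x52687) x53011) x52795) x52903) x52831) x52867) x52843) x52851) x33167)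
    (Nat.add (Nat.add (Nat.add (Nat.add (Nat.add (Nat.add (Nat.add (Nat.add (Nat.add (Nat.add (Nat.add (Nat.add C x48477) x53337) x52689) x53013) x52797) x52905) x52833) x52869) x52845) x52857) x52849) x33169)
    (Nat.add (Nat.add (Nat.add (Nat.add (Nat.add (Nat.add (Nat.add (Nat.add (Nat.add C x48483) x53343) x52695) x53019) x52803) x52911) x52875) x52851) x33175)
    (Nat.add (Nat.add (Nat.add (Nat.add (Nat.add (Nat.add (Nat.add (Nat.add (Nat.add C x52867) x48493) x53353) x52705) x53029) x52921) x52849) x52869) x33185)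
    (Nat.sub (Nat.add (Nat.add (Nat.add (Nat.add (Nat.add (Nat.add (Nat.add (Nat.add (Nat.add C x48495) x53355) x52707) x53031) x52923) x52851) x52875) x52867) x33187) x52869)
    (Nat.add (Nat.add (Nat.add (Nat.add (Nat.add (Nat.add (Nat.add (Nat.add (Nat.add C x52875) x48501) x53361) x52713) x53037) x52929) x52857) x52869) x33193)
    (Nat.add (Nat.add (Nat.add (Nat.add (Nat.add (Nat.add C (Nat.mul x52895 (nat_lit 2))) x48521) x53381) x53057) x52841) x52897)
    (Nat.add (Nat.add (Nat.add (Nat.add (Nat.add (Nat.add (Nat.add (Nat.add (Nat.add C x52897) x48523) x53383) x53059) x52843) x52903) x52895) x52899) x33215)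
    (Nat.sub (Nat.add (Nat.add (Nat.add (Nat.add (Nat.add (Nat.add (Nat.add C x48525) x53385) x53061) x52845) x52905) x52897) x33217) (Nat.mul x52899 (nat_lit 2)))
    (Nat.add (Nat.add (Nat.add (Nat.add (Nat.add (Nat.add (Nat.add (Nat.add C x48529) x53389) x53065) x52849) x52921) x52897) x52905) x33221)
    (Nat.sub (Nat.add (Nat.add (Nat.add (Nat.add (Nat.add (Nat.add (Nat.add (Nat.add (Nat.add C x48531) x53391) x53067) x52851) x52923) x52899) x52911) x52903) x33223) x52905)
    (Nat.sub (Nat.add (Nat.add (Nat.add (Nat.add (Nat.add (Nat.add (Nat.add C x48537) x53397) x53073) x52857) x52929) x52905) x33229) (Nat.mul x52911 (nat_lit 2)))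
    (Nat.add (Nat.add (Nat.add (Nat.add (Nat.add (Nat.add (Nat.add (Nat.add C (Nat.mul x52921 (nat_lit 2))) x48547) x53407) x53083) x52867) x52903) x52923) x33239)
    (Nat.add (Nat.add (Nat.add (Nat.add (Nat.add (Nat.add (Nat.add (Nat.add C x48549) x53409) x53085) x52869) x52905) x52929) x52921) x33241)
    (Nat.add (Nat.add (Nat.add (Nat.add (Nat.add (Nat.add (Nat.add (Nat.add (Nat.add C x52929) x48555) x53415) x53091) x52875) x52911) x52947) x52923) x33247)
    (Nat.add (Nat.add (Nat.add (Nat.add (Nat.add (Nat.add C (Nat.mul x52947 (nat_lit 2))) x48573) x53433) x53109) x52929) x33265)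
    (Nat.add (Nat.add (Nat.add (Nat.add (Nat.add (Nat.add C (Nat.mul x52979 (nat_lit 2))) x48605) x53465) x52817) x52985) x52981)
    (Nat.add (Nat.add (Nat.add (Nat.add (Nat.add (Nat.add C x48607) x53467) x52819) x52987) x52979) x33299)
    (Nat.add (Nat.add (Nat.add (Nat.add (Nat.add (Nat.add C x48611) x53471) x52823) x53003) x52979) x52987)
    (Nat.add (Nat.add (Nat.add (Nat.add (Nat.add (Nat.add (Nat.add (Nat.add (Nat.add C x48613) x53473) x52825) x53005) x52981) x52993) x52985) x52989) x33305)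
    (Nat.sub (Nat.add (Nat.add (Nat.add (Nat.add (Nat.add (Nat.add (Nat.add C x48615) x53475) x52827) x53007) x52995) x52987) x33307) (Nat.mul x52989 (nat_lit 2)))
    (Nat.sub (Nat.add (Nat.add (Nat.add (Nat.add (Nat.add (Nat.add (Nat.add C x48619) x53479) x52831) x53011) x52987) x52995) x33311) (Nat.mul x52993 (nat_lit 2)))
    (Nat.sub (Nat.add (Nat.add (Nat.add (Nat.add (Nat.add (Nat.add (Nat.add C x48621) x53481) x52833) x53013) x52989) x52993) x33313) (Nat.mul x52995 (nat_lit 2)))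
    (Nat.add (Nat.add (Nat.add (Nat.add (Nat.add (Nat.add C x48629) x53489) x52841) x53057) x52985) x53005)
    (Nat.sub (Nat.add (Nat.add (Nat.add (Nat.add (Nat.add (Nat.add (Nat.add (Nat.add (Nat.add C x48631) x53491) x52843) x53059) x52987) x53011) x53003) x53007) x33323) x53005)
    (Nat.sub (Nat.add (Nat.add (Nat.add (Nat.add (Nat.add (Nat.add (Nat.add (Nat.add C x48633) x53493) x52845) x53061) x52989) x53013) x53005) x33325) (Nat.mul x53007 (nat_lit 4)))
    (Nat.sub (Nat.add (Nat.add (Nat.add (Nat.add (Nat.add (Nat.add (Nat.add (Nat.add (Nat.add C x48637) x53497) x52849) x53065) x52993) x53029) x53005) x53013) x33329) x53011)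
    (Nat.sub (Nat.add (Nat.add (Nat.add (Nat.add (Nat.add (Nat.add (Nat.add (Nat.add (Nat.add (Nat.add C x48639) x53499) x52851) x53067) x52995) x53031) x53007) x53019) x53011) x33331) (Nat.mul x53013 (nat_lit 2)))
    (Nat.sub (Nat.add (Nat.add (Nat.add (Nat.add (Nat.add (Nat.add (Nat.add C x48645) x53505) x52857) x53073) x53037) x53013) x33337) (Nat.mul x53019 (nat_lit 2)))
    (Nat.sub (Nat.add (Nat.add (Nat.add (Nat.add (Nat.add (Nat.add (Nat.add C x48655) x53515) x52867) x53083) x53011) x53031) x33347) (Nat.mul x53029 (nat_lit 2)))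
    (Nat.sub (Nat.add (Nat.add (Nat.add (Nat.add (Nat.add (Nat.add (Nat.add (Nat.add C x48657) x53517) x52869) x53085) x53013) x53037) x53029) x33349) (Nat.mul x53031 (nat_lit 4)))
    (Nat.sub (Nat.add (Nat.add (Nat.add (Nat.add (Nat.add (Nat.add (Nat.add C x48663) x53523) x52875) x53091) x53019) x53031) x33355) (Nat.mul x53037 (nat_lit 2)))
    (Nat.add (Nat.add (Nat.add (Nat.add (Nat.add (Nat.add C (Nat.mul x53057 (nat_lit 2))) x48683) x53543) x52895) x53003) x53059)
    (Nat.add (Nat.add (Nat.add (Nat.add (Nat.add (Nat.add (Nat.add (Nat.add (Nat.add C x53059) x48685) x53545) x52897) x53005) x53065) x53057) x53061) x33377)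
    (Nat.sub (Nat.add (Nat.add (Nat.add (Nat.add (Nat.add (Nat.add (Nat.add C x48687) x53547) x52899) x53007) x53067) x53059) x33379) (Nat.mul x53061 (nat_lit 2)))
    (Nat.add (Nat.add (Nat.add (Nat.add (Nat.add (Nat.add (Nat.add (Nat.add C x48691) x53551) x52903) x53011) x53083) x53059) x53067) x33383)
    (Nat.sub (Nat.add (Nat.add (Nat.add (Nat.add (Nat.add (Nat.add (Nat.add (Nat.add (Nat.add C x48693) x53553) x52905) x53013) x53085) x53061) x53073) x53065) x33385) x53067)
    (Nat.sub (Nat.add (Nat.add (Nat.add (Nat.add (Nat.add (Nat.add (Nat.add C x48699) x53559) x52911) x53019) x53091) x53067) x33391) (Nat.mul x53073 (nat_lit 2)))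
    (Nat.add (Nat.add (Nat.add (Nat.add (Nat.add (Nat.add (Nat.add (Nat.add (Nat.add C x53083) x48709) x53569) x52921) x53029) x53137) x53065) x53085) x33401)
    (Nat.sub (Nat.add (Nat.add (Nat.add (Nat.add (Nat.add (Nat.add (Nat.add (Nat.add (Nat.add C x48711) x53571) x52923) x53031) x53139) x53067) x53091) x53083) x33403) x53085)
    (Nat.add (Nat.add (Nat.add (Nat.add (Nat.add (Nat.add (Nat.add (Nat.add (Nat.add C x48717) x53577) x52929) x53037) x53145) x53073) x53109) x53085) x33409)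
    (Nat.add (Nat.add (Nat.add (Nat.add (Nat.add (Nat.add C x48735) x53595) x52947) x53163) x53091) x33427)
    (Nat.add (Nat.add (Nat.add (Nat.add (Nat.add (Nat.add C (Nat.mul x53137 (nat_lit 2))) x48763) x53623) x53083) x53139) x33455)
    (Nat.add (Nat.add (Nat.add (Nat.add (Nat.add (Nat.add C x48765) x53625) x53085) x53145) x53137) x33457)
    (Nat.add (Nat.add (Nat.add (Nat.add (Nat.add (Nat.add C x48771) x53631) x53091) x53163) x53139) x33463)
    (Nat.add (Nat.add (Nat.add (Nat.add (Nat.add (Nat.add C (Nat.mul x53163 (nat_lit 2))) x48789) x53649) x53109) x53145) x33481)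
    (Nat.add (Nat.add (Nat.add (Nat.add (Nat.add C (Nat.mul x53225 (nat_lit 4))) x48851) x54683) x52739) x53231)
    (Nat.add (Nat.add (Nat.add (Nat.add (Nat.add (Nat.add (Nat.add (Nat.add C (Nat.mul x53231 (nat_lit 3))) x48857) x54689) x52745) x53249) x53225) x53237) x53233)
    (Nat.add (Nat.add (Nat.add (Nat.add (Nat.add (Nat.add (Nat.add (Nat.add C (Nat.mul x53233 (nat_lit 2))) x48859) x54691) x52747) x53251) x53239) x53231) x33551)
    (Nat.add (Nat.add (Nat.add (Nat.add (Nat.add (Nat.add C x48863) x54695) x52751) x53255) x53231) x53239)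
    (Nat.add (Nat.add (Nat.add (Nat.add (Nat.add (Nat.add (Nat.add (Nat.add (Nat.add C x53239) x48865) x54697) x52753) x53257) x53233) x53237) x53241) x33557)
    (Nat.add (Nat.add (Nat.add (Nat.add (Nat.add (Nat.add C x48867) x54699) x52755) x53259) x53239) x33559)
    (Nat.add (Nat.add (Nat.add (Nat.add (Nat.add (Nat.add (Nat.add (Nat.add C (Nat.mul x53249 (nat_lit 2))) x48875) x54707) x52763) x53303) x53231) x53255) x53251)
    (Nat.add (Nat.add (Nat.add (Nat.add (Nat.add (Nat.add (Nat.add (Nat.add C x48877) x54709) x52765) x53305) x53233) x53257) x53249) x33569)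
    (Nat.add (Nat.add (Nat.add (Nat.add (Nat.add (Nat.add (Nat.add (Nat.add (Nat.add C x53255) x48881) x54713) x52769) x53309) x53237) x53273) x53249) x53257)
    (Nat.add (Nat.add (Nat.add (Nat.add (Nat.add (Nat.add (Nat.add (Nat.add (Nat.add (Nat.add (Nat.add (Nat.add C x53257) x48883) x54715) x52771) x53311) x53239) x53275) x53251) x53263) x53255) x53259) x33575)
    (Nat.sub (Nat.add (Nat.add (Nat.add (Nat.add (Nat.add (Nat.add (Nat.add (Nat.add (Nat.add C x48885) x54717) x52773) x53313) x53241) x53277) x53265) x53257) x33577) x53259)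
    (Nat.add (Nat.add (Nat.add (Nat.add (Nat.add (Nat.add (Nat.add (Nat.add C x48889) x54721) x52777) x53317) x53281) x53257) x53265) x33581)
    (Nat.add (Nat.add (Nat.add (Nat.add (Nat.add (Nat.add (Nat.add (Nat.add C x48891) x54723) x52779) x53319) x53283) x53259) x53263) x33583)
    (Nat.add (Nat.add (Nat.add (Nat.add (Nat.add (Nat.add C x48899) x54731) x52787) x53327) x53255) x53275)
    (Nat.sub (Nat.add (Nat.add (Nat.add (Nat.add (Nat.add (Nat.add (Nat.add (Nat.add (Nat.add C x48901) x54733) x52789) x53329) x53257) x53281) x53273) x53277) x33593) x53275)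
    (Nat.sub (Nat.add (Nat.add (Nat.add (Nat.add (Nat.add (Nat.add (Nat.add (Nat.add C x48903) x54735) x52791) x53331) x53259) x53283) x53275) x33595) (Nat.mul x53277 (nat_lit 4)))
    (Nat.add (Nat.add (Nat.add (Nat.add (Nat.add (Nat.add (Nat.add (Nat.add C x48907) x54739) x52795) x53335) x53263) x53275) x53283) x33599)
    (Nat.sub (Nat.add (Nat.add (Nat.add (Nat.add (Nat.add (Nat.add (Nat.add (Nat.add (Nat.add C x48909) x54741) x52797) x53337) x53265) x53277) x53289) x53281) x33601) x53283)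
    (Nat.add (Nat.add (Nat.add (Nat.add (Nat.add (Nat.add C x48915) x54747) x52803) x53343) x53283) x33607)
    (Nat.add (Nat.add (Nat.add (Nat.add (Nat.add (Nat.add (Nat.add (Nat.add C (Nat.mul x53303 (nat_lit 2))) x48929) x54761) x52817) x53465) x53249) x53309) x53305)
    (Nat.add (Nat.add (Nat.add (Nat.add (Nat.add (Nat.add (Nat.add (Nat.add C x48931) x54763) x52819) x53467) x53251) x53311) x53303) x33623)
    (Nat.add (Nat.add (Nat.add (Nat.add (Nat.add (Nat.add (Nat.add (Nat.add C x48935) x54767) x52823) x53471) x53255) x53327) x53303) x53311)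
    (Nat.add (Nat.add (Nat.add (Nat.add (Nat.add (Nat.add (Nat.add (Nat.add (Nat.add (Nat.add (Nat.add C x48937) x54769) x52825) x53473) x53257) x53329) x53305) x53317) x53309) x53313) x33629)
    (Nat.sub (Nat.add (Nat.add (Nat.add (Nat.add (Nat.add (Nat.add (Nat.add (Nat.add (Nat.add C x48939) x54771) x52827) x53475) x53259) x53331) x53319) x53311) x33631) (Nat.mul x53313 (nat_lit 2)))
    (Nat.sub (Nat.add (Nat.add (Nat.add (Nat.add (Nat.add (Nat.add (Nat.add (Nat.add (Nat.add C x48943) x54775) x52831) x53479) x53263) x53335) x53311) x53319) x33635) (Nat.mul x53317 (nat_lit 2)))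
    (Nat.sub (Nat.add (Nat.add (Nat.add (Nat.add (Nat.add (Nat.add (Nat.add (Nat.add (Nat.add C x48945) x54777) x52833) x53481) x53265) x53337) x53313) x53317) x33637) (Nat.mul x53319 (nat_lit 2)))
    (Nat.add (Nat.add (Nat.add (Nat.add (Nat.add (Nat.add (Nat.add (Nat.add (Nat.add C x53327) x48953) x54785) x52841) x53489) x53273) x53381) x53309) x53329)
    (Nat.add (Nat.add (Nat.add (Nat.add (Nat.add (Nat.add (Nat.add (Nat.add (Nat.add (Nat.add (Nat.add C x48955) x54787) x52843) x53491) x53275) x53383) x53311) x53335) x53327) x53331) x33647)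
    (Nat.sub (Nat.add (Nat.add (Nat.add (Nat.add (Nat.add (Nat.add (Nat.add (Nat.add (Nat.add (Nat.add C x48957) x54789) x52845) x53493) x53277) x53385) x53313) x53337) x53329) x33649) (Nat.mul x53331 (nat_lit 3)))
    (Nat.add (Nat.add (Nat.add (Nat.add (Nat.add (Nat.add (Nat.add (Nat.add (Nat.add (Nat.add (Nat.add C x48961) x54793) x52849) x53497) x53281) x53389) x53317) x53353) x53329) x53337) x33653)
    (Nat.sub (Nat.add (Nat.add (Nat.add (Nat.add (Nat.add (Nat.add (Nat.add (Nat.add (Nat.add (Nat.add (Nat.add (Nat.add C x48963) x54795) x52851) x53499) x53283) x53391) x53319) x53355) x53331) x53343) x53335) x33655) x53337)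
    (Nat.sub (Nat.add (Nat.add (Nat.add (Nat.add (Nat.add (Nat.add (Nat.add (Nat.add (Nat.add C x48969) x54801) x52857) x53505) x53289) x53397) x53361) x53337) x33661) x53343)
    (Nat.add (Nat.add (Nat.add (Nat.add (Nat.add (Nat.add (Nat.add (Nat.add C x48979) x54811) x52867) x53515) x53407) x53335) x53355) x33671)
    (Nat.sub (Nat.add (Nat.add (Nat.add (Nat.add (Nat.add (Nat.add (Nat.add (Nat.add (Nat.add C x48981) x54813) x52869) x53517) x53409) x53337) x53361) x53353) x33673) (Nat.mul x53355 (nat_lit 2)))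
    (Nat.add (Nat.add (Nat.add (Nat.add (Nat.add (Nat.add (Nat.add (Nat.add C x48987) x54819) x52875) x53523) x53415) x53343) x53355) x33679)
    (Nat.add (Nat.add (Nat.add (Nat.add (Nat.add (Nat.add C x49007) x54839) x52895) x53543) x53327) x53383)
    (Nat.sub (Nat.add (Nat.add (Nat.add (Nat.add (Nat.add (Nat.add (Nat.add (Nat.add (Nat.add C x49009) x54841) x52897) x53545) x53329) x53389) x53381) x53385) x33701) x53383)
    (Nat.sub (Nat.add (Nat.add (Nat.add (Nat.add (Nat.add (Nat.add (Nat.add (Nat.add C x49011) x54843) x52899) x53547) x53331) x53391) x53383) x33703) (Nat.mul x53385 (nat_lit 4)))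
    (Nat.sub (Nat.add (Nat.add (Nat.add (Nat.add (Nat.add (Nat.add (Nat.add (Nat.add (Nat.add C x49015) x54847) x52903) x53551) x53335) x53407) x53383) x53391) x33707) (Nat.mul x53389 (nat_lit 2)))
    (Nat.sub (Nat.add (Nat.add (Nat.add (Nat.add (Nat.add (Nat.add (Nat.add (Nat.add (Nat.add (Nat.add C x49017) x54849) x52905) x53553) x53337) x53409) x53385) x53397) x53389) x33709) (Nat.mul x53391 (nat_lit 3)))
    (Nat.sub (Nat.add (Nat.add (Nat.add (Nat.add (Nat.add (Nat.add (Nat.add (Nat.add C x49023) x54855) x52911) x53559) x53343) x53415) x53391) x33715) (Nat.mul x53397 (nat_lit 4)))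
    (Nat.add (Nat.add (Nat.add (Nat.add (Nat.add (Nat.add (Nat.add (Nat.add C x49033) x54865) x52921) x53569) x53353) x53389) x53409) x33725)
    (Nat.sub (Nat.add (Nat.add (Nat.add (Nat.add (Nat.add (Nat.add (Nat.add (Nat.add (Nat.add C x49035) x54867) x52923) x53571) x53355) x53391) x53415) x53407) x33727) (Nat.mul x53409 (nat_lit 2)))
    (Nat.sub (Nat.add (Nat.add (Nat.add (Nat.add (Nat.add (Nat.add (Nat.add (Nat.add (Nat.add C x49041) x54873) x52929) x53577) x53361) x53397) x53433) x53409) x33733) x53415)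
    (Nat.add (Nat.add (Nat.add (Nat.add (Nat.add (Nat.add C x49059) x54891) x52947) x53595) x53415) x33751)
    (Nat.add (Nat.add (Nat.add (Nat.add (Nat.add (Nat.add (Nat.add (Nat.add C (Nat.mul x53465 (nat_lit 3))) x49091) x54923) x52979) x53951) x53303) x53471) x53467)
    (Nat.add (Nat.add (Nat.add (Nat.add (Nat.add (Nat.add (Nat.add (Nat.add (Nat.add C x53467) x49093) x54925) x52981) x53953) x53305) x53473) x53465) x33785)
    (Nat.add (Nat.add (Nat.add (Nat.add (Nat.add (Nat.add (Nat.add (Nat.add (Nat.add C x53471) x49097) x54929) x52985) x53957) x53309) x53489) x53465) x53473)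
    (Nat.add (Nat.add (Nat.add (Nat.add (Nat.add (Nat.add (Nat.add (Nat.add (Nat.add (Nat.add (Nat.add (Nat.add C x53473) x49099) x54931) x52987) x53959) x53311) x53491) x53467) x53479) x53471) x53475) x33791)
    (Nat.sub (Nat.add (Nat.add (Nat.add (Nat.add (Nat.add (Nat.add (Nat.add (Nat.add (Nat.add C x49101) x54933) x52989) x53961) x53313) x53493) x53481) x53473) x33793) x53475)
    (Nat.sub (Nat.add (Nat.add (Nat.add (Nat.add (Nat.add (Nat.add (Nat.add (Nat.add (Nat.add C x49105) x54937) x52993) x53965) x53317) x53497) x53473) x53481) x33797) x53479)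
    (Nat.sub (Nat.add (Nat.add (Nat.add (Nat.add (Nat.add (Nat.add (Nat.add (Nat.add (Nat.add C x49107) x54939) x52995) x53967) x53319) x53499) x53475) x53479) x33799) x53481)
    (Nat.add (Nat.add (Nat.add (Nat.add (Nat.add (Nat.add (Nat.add (Nat.add (Nat.add C x53489) x49115) x54947) x53003) x53975) x53327) x53543) x53471) x53491)
    (Nat.add (Nat.add (Nat.add (Nat.add (Nat.add (Nat.add (Nat.add (Nat.add (Nat.add (Nat.add (Nat.add C x49117) x54949) x53005) x53977) x53329) x53545) x53473) x53497) x53489) x53493) x33809)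
    (Nat.sub (Nat.add (Nat.add (Nat.add (Nat.add (Nat.add (Nat.add (Nat.add (Nat.add (Nat.add (Nat.add C x49119) x54951) x53007) x53979) x53331) x53547) x53475) x53499) x53491) x33811) (Nat.mul x53493 (nat_lit 3)))
    (Nat.add (Nat.add (Nat.add (Nat.add (Nat.add (Nat.add (Nat.add (Nat.add (Nat.add (Nat.add (Nat.add C x49123) x54955) x53011) x53983) x53335) x53551) x53479) x53515) x53491) x53499) x33815)
    (Nat.sub (Nat.add (Nat.add (Nat.add (Nat.add (Nat.add (Nat.add (Nat.add (Nat.add (Nat.add (Nat.add (Nat.add (Nat.add C x49125) x54957) x53013) x53985) x53337) x53553) x53481) x53517) x53493) x53505) x53497) x33817) x53499)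
    (Nat.sub (Nat.add (Nat.add (Nat.add (Nat.add (Nat.add (Nat.add (Nat.add (Nat.add (Nat.add C x49131) x54963) x53019) x53991) x53343) x53559) x53523) x53499) x33823) x53505)
    (Nat.sub (Nat.add (Nat.add (Nat.add (Nat.add (Nat.add (Nat.add (Nat.add (Nat.add (Nat.add C x49141) x54973) x53029) x54001) x53353) x53569) x53497) x53517) x33833) x53515)
    (Nat.sub (Nat.add (Nat.add (Nat.add (Nat.add (Nat.add (Nat.add (Nat.add (Nat.add (Nat.add (Nat.add C x49143) x54975) x53031) x54003) x53355) x53571) x53499) x53523) x53515) x33835) (Nat.mul x53517 (nat_lit 3)))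
    (Nat.sub (Nat.add (Nat.add (Nat.add (Nat.add (Nat.add (Nat.add (Nat.add (Nat.add (Nat.add C x49149) x54981) x53037) x54009) x53361) x53577) x53505) x53517) x33841) x53523)
    (Nat.add (Nat.add (Nat.add (Nat.add (Nat.add (Nat.add (Nat.add (Nat.add (Nat.add C (Nat.mul x53543 (nat_lit 2))) x49169) x55001) x53057) x54029) x53381) x53705) x53489) x53545)
    (Nat.add (Nat.add (Nat.add (Nat.add (Nat.add (Nat.add (Nat.add (Nat.add (Nat.add (Nat.add (Nat.add (Nat.add C x53545) x49171) x55003) x53059) x54031) x53383) x53707) x53491) x53551) x53543) x53547) x33863)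
    (Nat.sub (Nat.add (Nat.add (Nat.add (Nat.add (Nat.add (Nat.add (Nat.add (Nat.add (Nat.add (Nat.add C x49173) x55005) x53061) x54033) x53385) x53709) x53493) x53553) x53545) x33865) (Nat.mul x53547 (nat_lit 2)))
    (Nat.add (Nat.add (Nat.add (Nat.add (Nat.add (Nat.add (Nat.add (Nat.add (Nat.add (Nat.add (Nat.add C x49177) x55009) x53065) x54037) x53389) x53713) x53497) x53569) x53545) x53553) x33869)
    (Nat.sub (Nat.add (Nat.add (Nat.add (Nat.add (Nat.add (Nat.add (Nat.add (Nat.add (Nat.add (Nat.add (Nat.add (Nat.add C x49179) x55011) x53067) x54039) x53391) x53715) x53499) x53571) x53547) x53559) x53551) x33871) x53553)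
    (Nat.sub (Nat.add (Nat.add (Nat.add (Nat.add (Nat.add (Nat.add (Nat.add (Nat.add (Nat.add (Nat.add C x49185) x55017) x53073) x54045) x53397) x53721) x53505) x53577) x53553) x33877) (Nat.mul x53559 (nat_lit 2)))
    (Nat.add (Nat.add (Nat.add (Nat.add (Nat.add (Nat.add (Nat.add (Nat.add (Nat.add (Nat.add (Nat.add (Nat.add C x53569) x49195) x55027) x53083) x54055) x53407) x53731) x53515) x53623) x53551) x53571) x33887)
    (Nat.sub (Nat.add (Nat.add (Nat.add (Nat.add (Nat.add (Nat.add (Nat.add (Nat.add (Nat.add (Nat.add (Nat.add (Nat.add C x49197) x55029) x53085) x54057) x53409) x53733) x53517) x53625) x53553) x53577) x53569) x33889) x53571)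
    (Nat.add (Nat.add (Nat.add (Nat.add (Nat.add (Nat.add (Nat.add (Nat.add (Nat.add (Nat.add (Nat.add (Nat.add C x49203) x55035) x53091) x54063) x53415) x53739) x53523) x53631) x53559) x53595) x53571) x33895)
    (Nat.add (Nat.add (Nat.add (Nat.add (Nat.add (Nat.add (Nat.add (Nat.add (Nat.add C x49221) x55053) x53109) x54081) x53433) x53757) x53649) x53577) x33913)
    (Nat.add (Nat.add (Nat.add (Nat.add (Nat.add (Nat.add (Nat.add (Nat.add (Nat.add C x53623) x49249) x55081) x53137) x54109) x53785) x53569) x53625) x33941)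
    (Nat.sub (Nat.add (Nat.add (Nat.add (Nat.add (Nat.add (Nat.add (Nat.add (Nat.add (Nat.add C x49251) x55083) x53139) x54111) x53787) x53571) x53631) x53623) x33943) x53625)
    (Nat.sub (Nat.add (Nat.add (Nat.add (Nat.add (Nat.add (Nat.add (Nat.add (Nat.add (Nat.add C x49257) x55089) x53145) x54117) x53793) x53577) x53649) x53625) x33949) x53631)
    (Nat.add (Nat.add (Nat.add (Nat.add (Nat.add (Nat.add (Nat.add (Nat.add (Nat.add C x53649) x49275) x55107) x53163) x54135) x53811) x53595) x53631) x33967)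
    (Nat.add (Nat.add (Nat.add (Nat.add (Nat.add (Nat.add C (Nat.mul x53705 (nat_lit 2))) x49331) x55163) x54191) x53543) x53707)
    (Nat.add (Nat.add (Nat.add (Nat.add (Nat.add (Nat.add (Nat.add (Nat.add (Nat.add C x53707) x49333) x55165) x54193) x53545) x53713) x53705) x53709) x34025)
    (Nat.sub (Nat.add (Nat.add (Nat.add (Nat.add (Nat.add (Nat.add (Nat.add C x49335) x55167) x54195) x53547) x53715) x53707) x34027) (Nat.mul x53709 (nat_lit 2)))
    (Nat.add (Nat.add (Nat.add (Nat.add (Nat.add (Nat.add (Nat.add (Nat.add C x49339) x55171) x54199) x53551) x53731) x53707) x53715) x34031)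
    (Nat.sub (Nat.add (Nat.add (Nat.add (Nat.add (Nat.add (Nat.add (Nat.add (Nat.add (Nat.add C x49341) x55173) x54201) x53553) x53733) x53709) x53721) x53713) x34033) x53715)
    (Nat.sub (Nat.add (Nat.add (Nat.add (Nat.add (Nat.add (Nat.add (Nat.add C x49347) x55179) x54207) x53559) x53739) x53715) x34039) (Nat.mul x53721 (nat_lit 2)))
    (Nat.add (Nat.add (Nat.add (Nat.add (Nat.add (Nat.add (Nat.add (Nat.add C x49357) x55189) x54217) x53569) x53785) x53713) x53733) x34049)
    (Nat.sub (Nat.add (Nat.add (Nat.add (Nat.add (Nat.add (Nat.add (Nat.add (Nat.add (Nat.add C x49359) x55191) x54219) x53571) x53787) x53715) x53739) x53731) x34051) (Nat.mul x53733 (nat_lit 2)))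
    (Nat.sub (Nat.add (Nat.add (Nat.add (Nat.add (Nat.add (Nat.add (Nat.add (Nat.add (Nat.add C x49365) x55197) x54225) x53577) x53793) x53721) x53757) x53733) x34057) x53739)
    (Nat.sub (Nat.add (Nat.add (Nat.add (Nat.add (Nat.add (Nat.add (Nat.add C x49383) x55215) x54243) x53595) x53811) x53739) x34075) (Nat.mul x53757 (nat_lit 2)))
    (Nat.add (Nat.add (Nat.add (Nat.add (Nat.add (Nat.add (Nat.add (Nat.add C (Nat.mul x53785 (nat_lit 2))) x49411) x55243) x54271) x53623) x53731) x53787) x34103)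
    (Nat.add (Nat.add (Nat.add (Nat.add (Nat.add (Nat.add (Nat.add (Nat.add C x49413) x55245) x54273) x53625) x53733) x53793) x53785) x34105)
    (Nat.add (Nat.add (Nat.add (Nat.add (Nat.add (Nat.add (Nat.add (Nat.add C x49419) x55251) x54279) x53631) x53739) x53811) x53787) x34111)
    (Nat.add (Nat.add (Nat.add (Nat.add (Nat.add (Nat.add (Nat.add (Nat.add (Nat.add C x53811) x49437) x55269) x54297) x53649) x53757) x53865) x53793) x34129)
    (Nat.add (Nat.add (Nat.add (Nat.add (Nat.add (Nat.add C (Nat.mul x53865 (nat_lit 2))) x49491) x55323) x54351) x53811) x34183)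
    (Nat.add (Nat.add (Nat.add (Nat.add (Nat.add (Nat.add C (Nat.mul x53951 (nat_lit 2))) x49577) x55409) x53465) x53957) x53953)
    (Nat.add (Nat.add (Nat.add (Nat.add (Nat.add (Nat.add C x49579) x55411) x53467) x53959) x53951) x34271)
    (Nat.add (Nat.add (Nat.add (Nat.add (Nat.add (Nat.add C x49583) x55415) x53471) x53975) x53951) x53959)
    (Nat.add (Nat.add (Nat.add (Nat.add (Nat.add (Nat.add (Nat.add (Nat.add (Nat.add C x49585) x55417) x53473) x53977) x53953) x53965) x53957) x53961) x34277)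
    (Nat.sub (Nat.add (Nat.add (Nat.add (Nat.add (Nat.add (Nat.add (Nat.add C x49587) x55419) x53475) x53979) x53967) x53959) x34279) (Nat.mul x53961 (nat_lit 2)))
    (Nat.sub (Nat.add (Nat.add (Nat.add (Nat.add (Nat.add (Nat.add (Nat.add C x49591) x55423) x53479) x53983) x53959) x53967) x34283) (Nat.mul x53965 (nat_lit 2)))
    (Nat.sub (Nat.add (Nat.add (Nat.add (Nat.add (Nat.add (Nat.add (Nat.add C x49593) x55425) x53481) x53985) x53961) x53965) x34285) (Nat.mul x53967 (nat_lit 2)))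
    (Nat.add (Nat.add (Nat.add (Nat.add (Nat.add (Nat.add C x49601) x55433) x53489) x54029) x53957) x53977)
    (Nat.sub (Nat.add (Nat.add (Nat.add (Nat.add (Nat.add (Nat.add (Nat.add (Nat.add (Nat.add C x49603) x55435) x53491) x54031) x53959) x53983) x53975) x53979) x34295) x53977)
    (Nat.sub (Nat.add (Nat.add (Nat.add (Nat.add (Nat.add (Nat.add (Nat.add (Nat.add C x49605) x55437) x53493) x54033) x53961) x53985) x53977) x34297) (Nat.mul x53979 (nat_lit 4)))
    (Nat.sub (Nat.add (Nat.add (Nat.add (Nat.add (Nat.add (Nat.add (Nat.add (Nat.add (Nat.add C x49609) x55441) x53497) x54037) x53965) x54001) x53977) x53985) x34301) x53983)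
    (Nat.sub (Nat.add (Nat.add (Nat.add (Nat.add (Nat.add (Nat.add (Nat.add (Nat.add (Nat.add (Nat.add C x49611) x55443) x53499) x54039) x53967) x54003) x53979) x53991) x53983) x34303) (Nat.mul x53985 (nat_lit 2)))
    (Nat.sub (Nat.add (Nat.add (Nat.add (Nat.add (Nat.add (Nat.add (Nat.add C x49617) x55449) x53505) x54045) x54009) x53985) x34309) (Nat.mul x53991 (nat_lit 2)))
    (Nat.sub (Nat.add (Nat.add (Nat.add (Nat.add (Nat.add (Nat.add (Nat.add C x49627) x55459) x53515) x54055) x53983) x54003) x34319) (Nat.mul x54001 (nat_lit 2)))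
    (Nat.sub (Nat.add (Nat.add (Nat.add (Nat.add (Nat.add (Nat.add (Nat.add (Nat.add C x49629) x55461) x53517) x54057) x53985) x54009) x54001) x34321) (Nat.mul x54003 (nat_lit 4)))
    (Nat.sub (Nat.add (Nat.add (Nat.add (Nat.add (Nat.add (Nat.add (Nat.add C x49635) x55467) x53523) x54063) x53991) x54003) x34327) (Nat.mul x54009 (nat_lit 2)))
    (Nat.add (Nat.add (Nat.add (Nat.add (Nat.add (Nat.add C x49655) x55487) x53543) x54191) x53975) x54031)
    (Nat.sub (Nat.add (Nat.add (Nat.add (Nat.add (Nat.add (Nat.add (Nat.add (Nat.add (Nat.add C x49657) x55489) x53545) x54193) x53977) x54037) x54029) x54033) x34349) x54031)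
    (Nat.sub (Nat.add (Nat.add (Nat.add (Nat.add (Nat.add (Nat.add (Nat.add (Nat.add C x49659) x55491) x53547) x54195) x53979) x54039) x54031) x34351) (Nat.mul x54033 (nat_lit 4)))
    (Nat.sub (Nat.add (Nat.add (Nat.add (Nat.add (Nat.add (Nat.add (Nat.add (Nat.add (Nat.add C x49663) x55495) x53551) x54199) x53983) x54055) x54031) x54039) x34355) (Nat.mul x54037 (nat_lit 2)))
    (Nat.sub (Nat.add (Nat.add (Nat.add (Nat.add (Nat.add (Nat.add (Nat.add (Nat.add (Nat.add (Nat.add C x49665) x55497) x53553) x54201) x53985) x54057) x54033) x54045) x54037) x34357) (Nat.mul x54039 (nat_lit 3)))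
    (Nat.sub (Nat.add (Nat.add (Nat.add (Nat.add (Nat.add (Nat.add (Nat.add (Nat.add C x49671) x55503) x53559) x54207) x53991) x54063) x54039) x34363) (Nat.mul x54045 (nat_lit 4)))
    (Nat.sub (Nat.add (Nat.add (Nat.add (Nat.add (Nat.add (Nat.add (Nat.add (Nat.add (Nat.add C x49681) x55513) x53569) x54217) x54001) x54109) x54037) x54057) x34373) x54055)
    (Nat.sub (Nat.add (Nat.add (Nat.add (Nat.add (Nat.add (Nat.add (Nat.add (Nat.add (Nat.add (Nat.add C x49683) x55515) x53571) x54219) x54003) x54111) x54039) x54063) x54055) x34375) (Nat.mul x54057 (nat_lit 3)))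
    (Nat.sub (Nat.add (Nat.add (Nat.add (Nat.add (Nat.add (Nat.add (Nat.add (Nat.add (Nat.add (Nat.add C x49689) x55521) x53577) x54225) x54009) x54117) x54045) x54081) x54057) x34381) (Nat.mul x54063 (nat_lit 2)))
    (Nat.sub (Nat.add (Nat.add (Nat.add (Nat.add (Nat.add (Nat.add (Nat.add C x49707) x55539) x53595) x54243) x54135) x54063) x34399) (Nat.mul x54081 (nat_lit 2)))
    (Nat.sub (Nat.add (Nat.add (Nat.add (Nat.add (Nat.add (Nat.add (Nat.add C x49735) x55567) x53623) x54271) x54055) x54111) x34427) (Nat.mul x54109 (nat_lit 2)))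
    (Nat.sub (Nat.add (Nat.add (Nat.add (Nat.add (Nat.add (Nat.add (Nat.add (Nat.add C x49737) x55569) x53625) x54273) x54057) x54117) x54109) x34429) (Nat.mul x54111 (nat_lit 4)))
    (Nat.sub (Nat.add (Nat.add (Nat.add (Nat.add (Nat.add (Nat.add (Nat.add (Nat.add C x49743) x55575) x53631) x54279) x54063) x54135) x54111) x34435) (Nat.mul x54117 (nat_lit 4)))
    (Nat.sub (Nat.add (Nat.add (Nat.add (Nat.add (Nat.add (Nat.add (Nat.add C x49761) x55593) x53649) x54297) x54081) x54117) x34453) (Nat.mul x54135 (nat_lit 2)))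
    (Nat.add (Nat.add (Nat.add (Nat.add (Nat.add (Nat.add C (Nat.mul x54191 (nat_lit 2))) x49817) x55649) x53705) x54029) x54193)
    (Nat.add (Nat.add (Nat.add (Nat.add (Nat.add (Nat.add (Nat.add (Nat.add (Nat.add C x54193) x49819) x55651) x53707) x54031) x54199) x54191) x54195) x34511)
    (Nat.sub (Nat.add (Nat.add (Nat.add (Nat.add (Nat.add (Nat.add (Nat.add C x49821) x55653) x53709) x54033) x54201) x54193) x34513) (Nat.mul x54195 (nat_lit 2)))
    (Nat.add (Nat.add (Nat.add (Nat.add (Nat.add (Nat.add (Nat.add (Nat.add C x49825) x55657) x53713) x54037) x54217) x54193) x54201) x34517)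
    (Nat.sub (Nat.add (Nat.add (Nat.add (Nat.add (Nat.add (Nat.add (Nat.add (Nat.add (Nat.add C x49827) x55659) x53715) x54039) x54219) x54195) x54207) x54199) x34519) x54201)
    (Nat.sub (Nat.add (Nat.add (Nat.add (Nat.add (Nat.add (Nat.add (Nat.add C x49833) x55665) x53721) x54045) x54225) x54201) x34525) (Nat.mul x54207 (nat_lit 2)))
    (Nat.add (Nat.add (Nat.add (Nat.add (Nat.add (Nat.add (Nat.add (Nat.add C x49843) x55675) x53731) x54055) x54271) x54199) x54219) x34535)
    (Nat.sub (Nat.add (Nat.add (Nat.add (Nat.add (Nat.add (Nat.add (Nat.add (Nat.add (Nat.add C x49845) x55677) x53733) x54057) x54273) x54201) x54225) x54217) x34537) (Nat.mul x54219 (nat_lit 2)))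
    (Nat.sub (Nat.add (Nat.add (Nat.add (Nat.add (Nat.add (Nat.add (Nat.add (Nat.add (Nat.add C x49851) x55683) x53739) x54063) x54279) x54207) x54243) x54219) x34543) x54225)
    (Nat.sub (Nat.add (Nat.add (Nat.add (Nat.add (Nat.add (Nat.add (Nat.add C x49869) x55701) x53757) x54081) x54297) x54225) x34561) (Nat.mul x54243 (nat_lit 2)))
    (Nat.add (Nat.add (Nat.add (Nat.add (Nat.add (Nat.add (Nat.add (Nat.add (Nat.add C x54271) x49897) x55729) x53785) x54109) x54433) x54217) x54273) x34589)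
    (Nat.sub (Nat.add (Nat.add (Nat.add (Nat.add (Nat.add (Nat.add (Nat.add (Nat.add (Nat.add C x49899) x55731) x53787) x54111) x54435) x54219) x54279) x54271) x34591) x54273)
    (Nat.sub (Nat.add (Nat.add (Nat.add (Nat.add (Nat.add (Nat.add (Nat.add (Nat.add (Nat.add C x49905) x55737) x53793) x54117) x54441) x54225) x54297) x54273) x34597) x54279)
    (Nat.add (Nat.add (Nat.add (Nat.add (Nat.add (Nat.add (Nat.add (Nat.add (Nat.add C x49923) x55755) x53811) x54135) x54459) x54243) x54351) x54279) x34615)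
    (Nat.add (Nat.add (Nat.add (Nat.add (Nat.add (Nat.add C x49977) x55809) x53865) x54513) x54297) x34669)
    (Nat.add (Nat.add (Nat.add (Nat.add (Nat.add (Nat.add C (Nat.mul x54433 (nat_lit 2))) x50059) x55891) x54271) x54435) x34751)
    (Nat.add (Nat.add (Nat.add (Nat.add (Nat.add (Nat.add C x50061) x55893) x54273) x54441) x54433) x34753)
    (Nat.add (Nat.add (Nat.add (Nat.add (Nat.add (Nat.add C x50067) x55899) x54279) x54459) x54435) x34759)
    (Nat.add (Nat.add (Nat.add (Nat.add (Nat.add (Nat.add C x50085) x55917) x54297) x54513) x54441) x34777)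
    (Nat.add (Nat.add (Nat.add (Nat.add (Nat.add (Nat.add C (Nat.mul x54513 (nat_lit 2))) x50139) x55971) x54351) x54459) x34831)
    (Nat.add (Nat.add (Nat.add (Nat.add C (Nat.mul x54683 (nat_lit 6))) x50309) x53225) x54689)
    (Nat.add (Nat.add (Nat.add (Nat.add (Nat.add (Nat.add (Nat.add C (Nat.mul x54689 (nat_lit 5))) x50315) x53231) x54707) x54683) x54695) x54691)
    (Nat.add (Nat.add (Nat.add (Nat.add (Nat.add (Nat.add (Nat.add C (Nat.mul x54691 (nat_lit 4))) x50317) x53233) x54709) x54697) x54689) x35009)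
    (Nat.add (Nat.add (Nat.add (Nat.add (Nat.add (Nat.add C (Nat.mul x54695 (nat_lit 2))) x50321) x53237) x54713) x54689) x54697)
    (Nat.add (Nat.add (Nat.add (Nat.add (Nat.add (Nat.add (Nat.add (Nat.add C (Nat.mul x54697 (nat_lit 3))) x50323) x53239) x54715) x54691) x54695) x54699) x35015)
    (Nat.add (Nat.add (Nat.add (Nat.add (Nat.add (Nat.add C (Nat.mul x54699 (nat_lit 2))) x50325) x53241) x54717) x54697) x35017)
    (Nat.add (Nat.add (Nat.add (Nat.add (Nat.add (Nat.add (Nat.add C (Nat.mul x54707 (nat_lit 4))) x50333) x53249) x54761) x54689) x54713) x54709)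
    (Nat.add (Nat.add (Nat.add (Nat.add (Nat.add (Nat.add (Nat.add (Nat.add C (Nat.mul x54709 (nat_lit 2))) x50335) x53251) x54763) x54691) x54715) x54707) x35027)
    (Nat.add (Nat.add (Nat.add (Nat.add (Nat.add (Nat.add (Nat.add (Nat.add C (Nat.mul x54713 (nat_lit 3))) x50339) x53255) x54767) x54695) x54731) x54707) x54715)
    (Nat.add (Nat.add (Nat.add (Nat.add (Nat.add (Nat.add (Nat.add (Nat.add (Nat.add (Nat.add (Nat.add C (Nat.mul x54715 (nat_lit 3))) x50341) x53257) x54769) x54697) x54733) x54709) x54721) x54713) x54717) x35033)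
    (Nat.add (Nat.add (Nat.add (Nat.add (Nat.add (Nat.add (Nat.add (Nat.add (Nat.add C x54717) x50343) x53259) x54771) x54699) x54735) x54723) x54715) x35035)
    (Nat.add (Nat.add (Nat.add (Nat.add (Nat.add (Nat.add (Nat.add (Nat.add C (Nat.mul x54721 (nat_lit 2))) x50347) x53263) x54775) x54739) x54715) x54723) x35039)
    (Nat.add (Nat.add (Nat.add (Nat.add (Nat.add (Nat.add (Nat.add (Nat.add C (Nat.mul x54723 (nat_lit 2))) x50349) x53265) x54777) x54741) x54717) x54721) x35041)
    (Nat.add (Nat.add (Nat.add (Nat.add (Nat.add (Nat.add C (Nat.mul x54731 (nat_lit 2))) x50357) x53273) x54785) x54713) x54733)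
    (Nat.add (Nat.add (Nat.add (Nat.add (Nat.add (Nat.add (Nat.add (Nat.add (Nat.add C x54733) x50359) x53275) x54787) x54715) x54739) x54731) x54735) x35051)
    (Nat.sub (Nat.add (Nat.add (Nat.add (Nat.add (Nat.add (Nat.add (Nat.add C x50361) x53277) x54789) x54717) x54741) x54733) x35053) (Nat.mul x54735 (nat_lit 2)))
    (Nat.add (Nat.add (Nat.add (Nat.add (Nat.add (Nat.add (Nat.add (Nat.add C (Nat.mul x54739 (nat_lit 2))) x50365) x53281) x54793) x54721) x54733) x54741) x35057)
    (Nat.add (Nat.add (Nat.add (Nat.add (Nat.add (Nat.add (Nat.add (Nat.add (Nat.add C x54741) x50367) x53283) x54795) x54723) x54735) x54747) x54739) x35059)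
    (Nat.add (Nat.add (Nat.add (Nat.add (Nat.add (Nat.add C (Nat.mul x54747 (nat_lit 2))) x50373) x53289) x54801) x54741) x35065)
    (Nat.add (Nat.add (Nat.add (Nat.add (Nat.add (Nat.add (Nat.add C (Nat.mul x54761 (nat_lit 4))) x50387) x53303) x54923) x54707) x54767) x54763)
    (Nat.add (Nat.add (Nat.add (Nat.add (Nat.add (Nat.add (Nat.add (Nat.add C (Nat.mul x54763 (nat_lit 2))) x50389) x53305) x54925) x54709) x54769) x54761) x35081)
    (Nat.add (Nat.add (Nat.add (Nat.add (Nat.add (Nat.add (Nat.add (Nat.add C (Nat.mul x54767 (nat_lit 2))) x50393) x53309) x54929) x54713) x54785) x54761) x54769)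
    (Nat.add (Nat.add (Nat.add (Nat.add (Nat.add (Nat.add (Nat.add (Nat.add (Nat.add (Nat.add (Nat.add C (Nat.mul x54769 (nat_lit 2))) x50395) x53311) x54931) x54715) x54787) x54763) x54775) x54767) x54771) x35087)
    (Nat.add (Nat.add (Nat.add (Nat.add (Nat.add (Nat.add (Nat.add (Nat.add C x50397) x53313) x54933) x54717) x54789) x54777) x54769) x35089)
    (Nat.add (Nat.add (Nat.add (Nat.add (Nat.add (Nat.add (Nat.add (Nat.add C x50401) x53317) x54937) x54721) x54793) x54769) x54777) x35093)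
    (Nat.add (Nat.add (Nat.add (Nat.add (Nat.add (Nat.add (Nat.add (Nat.add C x50403) x53319) x54939) x54723) x54795) x54771) x54775) x35095)
    (Nat.add (Nat.add (Nat.add (Nat.add (Nat.add (Nat.add (Nat.add (Nat.add C (Nat.mul x54785 (nat_lit 3))) x50411) x53327) x54947) x54731) x54839) x54767) x54787)
    (Nat.add (Nat.add (Nat.add (Nat.add (Nat.add (Nat.add (Nat.add (Nat.add (Nat.add (Nat.add (Nat.add C (Nat.mul x54787 (nat_lit 2))) x50413) x53329) x54949) x54733) x54841) x54769) x54793) x54785) x54789) x35105)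
    (Nat.sub (Nat.add (Nat.add (Nat.add (Nat.add (Nat.add (Nat.add (Nat.add (Nat.add (Nat.add C x50415) x53331) x54951) x54735) x54843) x54771) x54795) x54787) x35107) x54789)
    (Nat.add (Nat.add (Nat.add (Nat.add (Nat.add (Nat.add (Nat.add (Nat.add (Nat.add (Nat.add (Nat.add C (Nat.mul x54793 (nat_lit 2))) x50419) x53335) x54955) x54739) x54847) x54775) x54811) x54787) x54795) x35111)
    (Nat.add (Nat.add (Nat.add (Nat.add (Nat.add (Nat.add (Nat.add (Nat.add (Nat.add (Nat.add (Nat.add (Nat.add C x54795) x50421) x53337) x54957) x54741) x54849) x54777) x54813) x54789) x54801) x54793) x35113)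
    (Nat.add (Nat.add (Nat.add (Nat.add (Nat.add (Nat.add (Nat.add (Nat.add (Nat.add C x54801) x50427) x53343) x54963) x54747) x54855) x54819) x54795) x35119)
    (Nat.add (Nat.add (Nat.add (Nat.add (Nat.add (Nat.add (Nat.add (Nat.add C (Nat.mul x54811 (nat_lit 2))) x50437) x53353) x54973) x54865) x54793) x54813) x35129)
    (Nat.add (Nat.add (Nat.add (Nat.add (Nat.add (Nat.add (Nat.add (Nat.add C x50439) x53355) x54975) x54867) x54795) x54819) x54811) x35131)
    (Nat.add (Nat.add (Nat.add (Nat.add (Nat.add (Nat.add (Nat.add (Nat.add C (Nat.mul x54819 (nat_lit 2))) x50445) x53361) x54981) x54873) x54801) x54813) x35137)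
    (Nat.add (Nat.add (Nat.add (Nat.add (Nat.add (Nat.add C (Nat.mul x54839 (nat_lit 2))) x50465) x53381) x55001) x54785) x54841)
    (Nat.add (Nat.add (Nat.add (Nat.add (Nat.add (Nat.add (Nat.add (Nat.add (Nat.add C x54841) x50467) x53383) x55003) x54787) x54847) x54839) x54843) x35159)
    (Nat.sub (Nat.add (Nat.add (Nat.add (Nat.add (Nat.add (Nat.add (Nat.add C x50469) x53385) x55005) x54789) x54849) x54841) x35161) (Nat.mul x54843 (nat_lit 2)))
    (Nat.add (Nat.add (Nat.add (Nat.add (Nat.add (Nat.add (Nat.add (Nat.add C x50473) x53389) x55009) x54793) x54865) x54841) x54849) x35165)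
    (Nat.sub (Nat.add (Nat.add (Nat.add (Nat.add (Nat.add (Nat.add (Nat.add (Nat.add (Nat.add C x50475) x53391) x55011) x54795) x54867) x54843) x54855) x54847) x35167) x54849)
    (Nat.sub (Nat.add (Nat.add (Nat.add (Nat.add (Nat.add (Nat.add (Nat.add C x50481) x53397) x55017) x54801) x54873) x54849) x35173) (Nat.mul x54855 (nat_lit 2)))
    (Nat.add (Nat.add (Nat.add (Nat.add (Nat.add (Nat.add (Nat.add (Nat.add C (Nat.mul x54865 (nat_lit 2))) x50491) x53407) x55027) x54811) x54847) x54867) x35183)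
    (Nat.add (Nat.add (Nat.add (Nat.add (Nat.add (Nat.add (Nat.add (Nat.add C x50493) x53409) x55029) x54813) x54849) x54873) x54865) x35185)
    (Nat.add (Nat.add (Nat.add (Nat.add (Nat.add (Nat.add (Nat.add (Nat.add (Nat.add C x54873) x50499) x53415) x55035) x54819) x54855) x54891) x54867) x35191)
    (Nat.add (Nat.add (Nat.add (Nat.add (Nat.add (Nat.add C (Nat.mul x54891 (nat_lit 2))) x50517) x53433) x55053) x54873) x35209)
    (Nat.add (Nat.add (Nat.add (Nat.add (Nat.add (Nat.add (Nat.add C (Nat.mul x54923 (nat_lit 4))) x50549) x53465) x55409) x54761) x54929) x54925)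
    (Nat.add (Nat.add (Nat.add (Nat.add (Nat.add (Nat.add (Nat.add (Nat.add C (Nat.mul x54925 (nat_lit 2))) x50551) x53467) x55411) x54763) x54931) x54923) x35243)
    (Nat.add (Nat.add (Nat.add (Nat.add (Nat.add (Nat.add (Nat.add (Nat.add C (Nat.mul x54929 (nat_lit 2))) x50555) x53471) x55415) x54767) x54947) x54923) x54931)
    (Nat.add (Nat.add (Nat.add (Nat.add (Nat.add (Nat.add (Nat.add (Nat.add (Nat.add (Nat.add (Nat.add C (Nat.mul x54931 (nat_lit 2))) x50557) x53473) x55417) x54769) x54949) x54925) x54937) x54929) x54933) x35249)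
    (Nat.add (Nat.add (Nat.add (Nat.add (Nat.add (Nat.add (Nat.add (Nat.add C x50559) x53475) x55419) x54771) x54951) x54939) x54931) x35251)
    (Nat.add (Nat.add (Nat.add (Nat.add (Nat.add (Nat.add (Nat.add (Nat.add C x50563) x53479) x55423) x54775) x54955) x54931) x54939) x35255)
    (Nat.add (Nat.add (Nat.add (Nat.add (Nat.add (Nat.add (Nat.add (Nat.add C x50565) x53481) x55425) x54777) x54957) x54933) x54937) x35257)
    (Nat.add (Nat.add (Nat.add (Nat.add (Nat.add (Nat.add (Nat.add (Nat.add C (Nat.mul x54947 (nat_lit 2))) x50573) x53489) x55433) x54785) x55001) x54929) x54949)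
    (Nat.add (Nat.add (Nat.add (Nat.add (Nat.add (Nat.add (Nat.add (Nat.add (Nat.add (Nat.add (Nat.add C x54949) x50575) x53491) x55435) x54787) x55003) x54931) x54955) x54947) x54951) x35267)
    (Nat.sub (Nat.add (Nat.add (Nat.add (Nat.add (Nat.add (Nat.add (Nat.add (Nat.add (Nat.add C x50577) x53493) x55437) x54789) x55005) x54933) x54957) x54949) x35269) (Nat.mul x54951 (nat_lit 2)))
    (Nat.add (Nat.add (Nat.add (Nat.add (Nat.add (Nat.add (Nat.add (Nat.add (Nat.add (Nat.add (Nat.add C x54955) x50581) x53497) x55441) x54793) x55009) x54937) x54973) x54949) x54957) x35273)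
    (Nat.add (Nat.add (Nat.add (Nat.add (Nat.add (Nat.add (Nat.add (Nat.add (Nat.add (Nat.add (Nat.add C x50583) x53499) x55443) x54795) x55011) x54939) x54975) x54951) x54963) x54955) x35275)
    (Nat.add (Nat.add (Nat.add (Nat.add (Nat.add (Nat.add (Nat.add (Nat.add C x50589) x53505) x55449) x54801) x55017) x54981) x54957) x35281)
    (Nat.add (Nat.add (Nat.add (Nat.add (Nat.add (Nat.add (Nat.add (Nat.add C x50599) x53515) x55459) x54811) x55027) x54955) x54975) x35291)
    (Nat.sub (Nat.add (Nat.add (Nat.add (Nat.add (Nat.add (Nat.add (Nat.add (Nat.add (Nat.add C x50601) x53517) x55461) x54813) x55029) x54957) x54981) x54973) x35293) (Nat.mul x54975 (nat_lit 2)))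
    (Nat.add (Nat.add (Nat.add (Nat.add (Nat.add (Nat.add (Nat.add (Nat.add C x50607) x53523) x55467) x54819) x55035) x54963) x54975) x35299)
    (Nat.add (Nat.add (Nat.add (Nat.add (Nat.add (Nat.add (Nat.add (Nat.add C (Nat.mul x55001 (nat_lit 3))) x50627) x53543) x55487) x54839) x55163) x54947) x55003)
    (Nat.add (Nat.add (Nat.add (Nat.add (Nat.add (Nat.add (Nat.add (Nat.add (Nat.add (Nat.add (Nat.add C (Nat.mul x55003 (nat_lit 2))) x50629) x53545) x55489) x54841) x55165) x54949) x55009) x55001) x55005) x35321)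
    (Nat.sub (Nat.add (Nat.add (Nat.add (Nat.add (Nat.add (Nat.add (Nat.add (Nat.add (Nat.add C x50631) x53547) x55491) x54843) x55167) x54951) x55011) x55003) x35323) x55005)
    (Nat.add (Nat.add (Nat.add (Nat.add (Nat.add (Nat.add (Nat.add (Nat.add (Nat.add (Nat.add (Nat.add C x55009) x50635) x53551) x55495) x54847) x55171) x54955) x55027) x55003) x55011) x35327)
    (Nat.add (Nat.add (Nat.add (Nat.add (Nat.add (Nat.add (Nat.add (Nat.add (Nat.add (Nat.add (Nat.add C x50637) x53553) x55497) x54849) x55173) x54957) x55029) x55005) x55017) x55009) x35329)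
    (Nat.sub (Nat.add (Nat.add (Nat.add (Nat.add (Nat.add (Nat.add (Nat.add (Nat.add (Nat.add C x50643) x53559) x55503) x54855) x55179) x54963) x55035) x55011) x35335) x55017)
    (Nat.add (Nat.add (Nat.add (Nat.add (Nat.add (Nat.add (Nat.add (Nat.add (Nat.add (Nat.add (Nat.add C (Nat.mul x55027 (nat_lit 2))) x50653) x53569) x55513) x54865) x55189) x54973) x55081) x55009) x55029) x35345)
    (Nat.add (Nat.add (Nat.add (Nat.add (Nat.add (Nat.add (Nat.add (Nat.add (Nat.add (Nat.add (Nat.add C x50655) x53571) x55515) x54867) x55191) x54975) x55083) x55011) x55035) x55027) x35347)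
    (Nat.add (Nat.add (Nat.add (Nat.add (Nat.add (Nat.add (Nat.add (Nat.add (Nat.add (Nat.add (Nat.add (Nat.add C x55035) x50661) x53577) x55521) x54873) x55197) x54981) x55089) x55017) x55053) x55029) x35353)
    (Nat.add (Nat.add (Nat.add (Nat.add (Nat.add (Nat.add (Nat.add (Nat.add (Nat.add C x55053) x50679) x53595) x55539) x54891) x55215) x55107) x55035) x35371)
    (Nat.add (Nat.add (Nat.add (Nat.add (Nat.add (Nat.add (Nat.add (Nat.add C (Nat.mul x55081 (nat_lit 2))) x50707) x53623) x55567) x55243) x55027) x55083) x35399)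
    (Nat.add (Nat.add (Nat.add (Nat.add (Nat.add (Nat.add (Nat.add (Nat.add C x50709) x53625) x55569) x55245) x55029) x55089) x55081) x35401)
    (Nat.add (Nat.add (Nat.add (Nat.add (Nat.add (Nat.add (Nat.add (Nat.add C x50715) x53631) x55575) x55251) x55035) x55107) x55083) x35407)
    (Nat.add (Nat.add (Nat.add (Nat.add (Nat.add (Nat.add (Nat.add (Nat.add C (Nat.mul x55107 (nat_lit 2))) x50733) x53649) x55593) x55269) x55053) x55089) x35425)
    (Nat.add (Nat.add (Nat.add (Nat.add (Nat.add (Nat.add C (Nat.mul x55163 (nat_lit 2))) x50789) x53705) x55649) x55001) x55165)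
    (Nat.add (Nat.add (Nat.add (Nat.add (Nat.add (Nat.add (Nat.add (Nat.add (Nat.add C x55165) x50791) x53707) x55651) x55003) x55171) x55163) x55167) x35483)
    (Nat.sub (Nat.add (Nat.add (Nat.add (Nat.add (Nat.add (Nat.add (Nat.add C x50793) x53709) x55653) x55005) x55173) x55165) x35485) (Nat.mul x55167 (nat_lit 2)))
    (Nat.add (Nat.add (Nat.add (Nat.add (Nat.add (Nat.add (Nat.add (Nat.add C x50797) x53713) x55657) x55009) x55189) x55165) x55173) x35489)
    (Nat.sub (Nat.add (Nat.add (Nat.add (Nat.add (Nat.add (Nat.add (Nat.add (Nat.add (Nat.add C x50799) x53715) x55659) x55011) x55191) x55167) x55179) x55171) x35491) x55173)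
    (Nat.sub (Nat.add (Nat.add (Nat.add (Nat.add (Nat.add (Nat.add (Nat.add C x50805) x53721) x55665) x55017) x55197) x55173) x35497) (Nat.mul x55179 (nat_lit 2)))
    (Nat.add (Nat.add (Nat.add (Nat.add (Nat.add (Nat.add (Nat.add (Nat.add C x50815) x53731) x55675) x55027) x55243) x55171) x55191) x35507)
    (Nat.sub (Nat.add (Nat.add (Nat.add (Nat.add (Nat.add (Nat.add (Nat.add (Nat.add (Nat.add C x50817) x53733) x55677) x55029) x55245) x55173) x55197) x55189) x35509) (Nat.mul x55191 (nat_lit 2)))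
    (Nat.sub (Nat.add (Nat.add (Nat.add (Nat.add (Nat.add (Nat.add (Nat.add (Nat.add (Nat.add C x50823) x53739) x55683) x55035) x55251) x55179) x55215) x55191) x35515) x55197)
    (Nat.sub (Nat.add (Nat.add (Nat.add (Nat.add (Nat.add (Nat.add (Nat.add C x50841) x53757) x55701) x55053) x55269) x55197) x35533) (Nat.mul x55215 (nat_lit 2)))
    (Nat.add (Nat.add (Nat.add (Nat.add (Nat.add (Nat.add (Nat.add (Nat.add C (Nat.mul x55243 (nat_lit 2))) x50869) x53785) x55729) x55081) x55189) x55245) x35561)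
    (Nat.add (Nat.add (Nat.add (Nat.add (Nat.add (Nat.add (Nat.add (Nat.add C x50871) x53787) x55731) x55083) x55191) x55251) x55243) x35563)
    (Nat.add (Nat.add (Nat.add (Nat.add (Nat.add (Nat.add (Nat.add (Nat.add C x50877) x53793) x55737) x55089) x55197) x55269) x55245) x35569)
    (Nat.add (Nat.add (Nat.add (Nat.add (Nat.add (Nat.add (Nat.add (Nat.add (Nat.add C x55269) x50895) x53811) x55755) x55107) x55215) x55323) x55251) x35587)
    (Nat.add (Nat.add (Nat.add (Nat.add (Nat.add (Nat.add C (Nat.mul x55323 (nat_lit 2))) x50949) x53865) x55809) x55269) x35641)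
    (Nat.add (Nat.add (Nat.add (Nat.add (Nat.add (Nat.add (Nat.add C (Nat.mul x55409 (nat_lit 5))) x51035) x53951) x56867) x54923) x55415) x55411)
    (Nat.add (Nat.add (Nat.add (Nat.add (Nat.add (Nat.add (Nat.add (Nat.add C (Nat.mul x55411 (nat_lit 3))) x51037) x53953) x56869) x54925) x55417) x55409) x35729)
    (Nat.add (Nat.add (Nat.add (Nat.add (Nat.add (Nat.add (Nat.add (Nat.add C (Nat.mul x55415 (nat_lit 3))) x51041) x53957) x56873) x54929) x55433) x55409) x55417)
    (Nat.add (Nat.add (Nat.add (Nat.add (Nat.add (Nat.add (Nat.add (Nat.add (Nat.add (Nat.add (Nat.add C (Nat.mul x55417 (nat_lit 3))) x51043) x53959) x56875) x54931) x55435) x55411) x55423) x55415) x55419) x35735)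
    (Nat.add (Nat.add (Nat.add (Nat.add (Nat.add (Nat.add (Nat.add (Nat.add (Nat.add C x55419) x51045) x53961) x56877) x54933) x55437) x55425) x55417) x35737)
    (Nat.add (Nat.add (Nat.add (Nat.add (Nat.add (Nat.add (Nat.add (Nat.add (Nat.add C x55423) x51049) x53965) x56881) x54937) x55441) x55417) x55425) x35741)
    (Nat.add (Nat.add (Nat.add (Nat.add (Nat.add (Nat.add (Nat.add (Nat.add (Nat.add C x55425) x51051) x53967) x56883) x54939) x55443) x55419) x55423) x35743)
    (Nat.add (Nat.add (Nat.add (Nat.add (Nat.add (Nat.add (Nat.add (Nat.add C (Nat.mul x55433 (nat_lit 3))) x51059) x53975) x56891) x54947) x55487) x55415) x55435)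
    (Nat.add (Nat.add (Nat.add (Nat.add (Nat.add (Nat.add (Nat.add (Nat.add (Nat.add (Nat.add (Nat.add C (Nat.mul x55435 (nat_lit 2))) x51061) x53977) x56893) x54949) x55489) x55417) x55441) x55433) x55437) x35753)
    (Nat.sub (Nat.add (Nat.add (Nat.add (Nat.add (Nat.add (Nat.add (Nat.add (Nat.add (Nat.add C x51063) x53979) x56895) x54951) x55491) x55419) x55443) x55435) x35755) x55437)
    (Nat.add (Nat.add (Nat.add (Nat.add (Nat.add (Nat.add (Nat.add (Nat.add (Nat.add (Nat.add (Nat.add C (Nat.mul x55441 (nat_lit 2))) x51067) x53983) x56899) x54955) x55495) x55423) x55459) x55435) x55443) x35759)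
    (Nat.add (Nat.add (Nat.add (Nat.add (Nat.add (Nat.add (Nat.add (Nat.add (Nat.add (Nat.add (Nat.add (Nat.add C x55443) x51069) x53985) x56901) x54957) x55497) x55425) x55461) x55437) x55449) x55441) x35761)
    (Nat.add (Nat.add (Nat.add (Nat.add (Nat.add (Nat.add (Nat.add (Nat.add (Nat.add C x55449) x51075) x53991) x56907) x54963) x55503) x55467) x55443) x35767)
    (Nat.add (Nat.add (Nat.add (Nat.add (Nat.add (Nat.add (Nat.add (Nat.add (Nat.add C x55459) x51085) x54001) x56917) x54973) x55513) x55441) x55461) x35777)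
    (Nat.sub (Nat.add (Nat.add (Nat.add (Nat.add (Nat.add (Nat.add (Nat.add (Nat.add (Nat.add C x51087) x54003) x56919) x54975) x55515) x55443) x55467) x55459) x35779) x55461)
    (Nat.add (Nat.add (Nat.add (Nat.add (Nat.add (Nat.add (Nat.add (Nat.add (Nat.add C x55467) x51093) x54009) x56925) x54981) x55521) x55449) x55461) x35785)
    (Nat.add (Nat.add (Nat.add (Nat.add (Nat.add (Nat.add (Nat.add (Nat.add C (Nat.mul x55487 (nat_lit 3))) x51113) x54029) x56945) x55001) x55649) x55433) x55489)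
    (Nat.add (Nat.add (Nat.add (Nat.add (Nat.add (Nat.add (Nat.add (Nat.add (Nat.add (Nat.add (Nat.add C (Nat.mul x55489 (nat_lit 2))) x51115) x54031) x56947) x55003) x55651) x55435) x55495) x55487) x55491) x35807)
    (Nat.sub (Nat.add (Nat.add (Nat.add (Nat.add (Nat.add (Nat.add (Nat.add (Nat.add (Nat.add C x51117) x54033) x56949) x55005) x55653) x55437) x55497) x55489) x35809) x55491)
    (Nat.add (Nat.add (Nat.add (Nat.add (Nat.add (Nat.add (Nat.add (Nat.add (Nat.add (Nat.add (Nat.add C x55495) x51121) x54037) x56953) x55009) x55657) x55441) x55513) x55489) x55497) x35813)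
    (Nat.add (Nat.add (Nat.add (Nat.add (Nat.add (Nat.add (Nat.add (Nat.add (Nat.add (Nat.add (Nat.add C x51123) x54039) x56955) x55011) x55659) x55443) x55515) x55491) x55503) x55495) x35815)
    (Nat.sub (Nat.add (Nat.add (Nat.add (Nat.add (Nat.add (Nat.add (Nat.add (Nat.add (Nat.add C x51129) x54045) x56961) x55017) x55665) x55449) x55521) x55497) x35821) x55503)
    (Nat.add (Nat.add (Nat.add (Nat.add (Nat.add (Nat.add (Nat.add (Nat.add (Nat.add (Nat.add (Nat.add C (Nat.mul x55513 (nat_lit 2))) x51139) x54055) x56971) x55027) x55675) x55459) x55567) x55495) x55515) x35831)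
    (Nat.add (Nat.add (Nat.add (Nat.add (Nat.add (Nat.add (Nat.add (Nat.add (Nat.add (Nat.add (Nat.add C x51141) x54057) x56973) x55029) x55677) x55461) x55569) x55497) x55521) x55513) x35833)
    (Nat.add (Nat.add (Nat.add (Nat.add (Nat.add (Nat.add (Nat.add (Nat.add (Nat.add (Nat.add (Nat.add (Nat.add C x55521) x51147) x54063) x56979) x55035) x55683) x55467) x55575) x55503) x55539) x55515) x35839)
    (Nat.add (Nat.add (Nat.add (Nat.add (Nat.add (Nat.add (Nat.add (Nat.add (Nat.add C x55539) x51165) x54081) x56997) x55053) x55701) x55593) x55521) x35857)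
    (Nat.add (Nat.add (Nat.add (Nat.add (Nat.add (Nat.add (Nat.add (Nat.add (Nat.add C x55567) x51193) x54109) x57025) x55081) x55729) x55513) x55569) x35885)
    (Nat.sub (Nat.add (Nat.add (Nat.add (Nat.add (Nat.add (Nat.add (Nat.add (Nat.add (Nat.add C x51195) x54111) x57027) x55083) x55731) x55515) x55575) x55567) x35887) x55569)
    (Nat.sub (Nat.add (Nat.add (Nat.add (Nat.add (Nat.add (Nat.add (Nat.add (Nat.add (Nat.add C x51201) x54117) x57033) x55089) x55737) x55521) x55593) x55569) x35893) x55575)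
    (Nat.add (Nat.add (Nat.add (Nat.add (Nat.add (Nat.add (Nat.add (Nat.add (Nat.add C x55593) x51219) x54135) x57051) x55107) x55755) x55539) x55575) x35911)
    (Nat.add (Nat.add (Nat.add (Nat.add (Nat.add (Nat.add (Nat.add (Nat.add C (Nat.mul x55649 (nat_lit 4))) x51275) x54191) x57107) x55163) x56135) x55487) x55651)
    (Nat.add (Nat.add (Nat.add (Nat.add (Nat.add (Nat.add (Nat.add (Nat.add (Nat.add (Nat.add (Nat.add C (Nat.mul x55651 (nat_lit 3))) x51277) x54193) x57109) x55165) x56137) x55489) x55657) x55649) x55653) x35969)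
    (Nat.add (Nat.add (Nat.add (Nat.add (Nat.add (Nat.add (Nat.add (Nat.add (Nat.add C x51279) x54195) x57111) x55167) x56139) x55491) x55659) x55651) x35971)
    (Nat.add (Nat.add (Nat.add (Nat.add (Nat.add (Nat.add (Nat.add (Nat.add (Nat.add (Nat.add (Nat.add C (Nat.mul x55657 (nat_lit 2))) x51283) x54199) x57115) x55171) x56143) x55495) x55675) x55651) x55659) x35975)
    (Nat.add (Nat.add (Nat.add (Nat.add (Nat.add (Nat.add (Nat.add (Nat.add (Nat.add (Nat.add (Nat.add (Nat.add C x55659) x51285) x54201) x57117) x55173) x56145) x55497) x55677) x55653) x55665) x55657) x35977)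
    (Nat.add (Nat.add (Nat.add (Nat.add (Nat.add (Nat.add (Nat.add (Nat.add (Nat.add C x51291) x54207) x57123) x55179) x56151) x55503) x55683) x55659) x35983)
    (Nat.add (Nat.add (Nat.add (Nat.add (Nat.add (Nat.add (Nat.add (Nat.add (Nat.add (Nat.add (Nat.add C (Nat.mul x55675 (nat_lit 2))) x51301) x54217) x57133) x55189) x56161) x55513) x55729) x55657) x55677) x35993)
    (Nat.add (Nat.add (Nat.add (Nat.add (Nat.add (Nat.add (Nat.add (Nat.add (Nat.add (Nat.add (Nat.add C x51303) x54219) x57135) x55191) x56163) x55515) x55731) x55659) x55683) x55675) x35995)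
    (Nat.add (Nat.add (Nat.add (Nat.add (Nat.add (Nat.add (Nat.add (Nat.add (Nat.add (Nat.add (Nat.add (Nat.add C x55683) x51309) x54225) x57141) x55197) x56169) x55521) x55737) x55665) x55701) x55677) x36001)
    (Nat.add (Nat.add (Nat.add (Nat.add (Nat.add (Nat.add (Nat.add (Nat.add (Nat.add C x51327) x54243) x57159) x55215) x56187) x55539) x55755) x55683) x36019)
    (Nat.add (Nat.add (Nat.add (Nat.add (Nat.add (Nat.add (Nat.add (Nat.add (Nat.add (Nat.add (Nat.add C (Nat.mul x55729 (nat_lit 3))) x51355) x54271) x57187) x55243) x56215) x55567) x55891) x55675) x55731) x36047)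
    (Nat.add (Nat.add (Nat.add (Nat.add (Nat.add (Nat.add (Nat.add (Nat.add (Nat.add (Nat.add (Nat.add (Nat.add C x55731) x51357) x54273) x57189) x55245) x56217) x55569) x55893) x55677) x55737) x55729) x36049)
    (Nat.add (Nat.add (Nat.add (Nat.add (Nat.add (Nat.add (Nat.add (Nat.add (Nat.add (Nat.add (Nat.add (Nat.add C x55737) x51363) x54279) x57195) x55251) x56223) x55575) x55899) x55683) x55755) x55731) x36055)
    (Nat.add (Nat.add (Nat.add (Nat.add (Nat.add (Nat.add (Nat.add (Nat.add (Nat.add (Nat.add (Nat.add (Nat.add C (Nat.mul x55755 (nat_lit 2))) x51381) x54297) x57213) x55269) x56241) x55593) x55917) x55701) x55809) x55737) x36073)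
    (Nat.add (Nat.add (Nat.add (Nat.add (Nat.add (Nat.add (Nat.add (Nat.add (Nat.add C (Nat.mul x55809 (nat_lit 2))) x51435) x54351) x57267) x55323) x56295) x55971) x55755) x36127)
    (Nat.add (Nat.add (Nat.add (Nat.add (Nat.add (Nat.add (Nat.add (Nat.add C (Nat.mul x55891 (nat_lit 3))) x51517) x54433) x57349) x56377) x55729) x55893) x36209)
    (Nat.add (Nat.add (Nat.add (Nat.add (Nat.add (Nat.add (Nat.add (Nat.add (Nat.add C x55893) x51519) x54435) x57351) x56379) x55731) x55899) x55891) x36211)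
    (Nat.add (Nat.add (Nat.add (Nat.add (Nat.add (Nat.add (Nat.add (Nat.add (Nat.add C x55899) x51525) x54441) x57357) x56385) x55737) x55917) x55893) x36217)
    (Nat.add (Nat.add (Nat.add (Nat.add (Nat.add (Nat.add (Nat.add (Nat.add (Nat.add C x55917) x51543) x54459) x57375) x56403) x55755) x55971) x55899) x36235)
    (Nat.add (Nat.add (Nat.add (Nat.add (Nat.add (Nat.add (Nat.add (Nat.add C (Nat.mul x55971 (nat_lit 3))) x51597) x54513) x57429) x56457) x55809) x55917) x36289)
    (Nat.add (Nat.add (Nat.add (Nat.add (Nat.add C (Nat.mul x56135 (nat_lit 4))) x51761) x57593) x55649) x56137)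
    (Nat.add (Nat.add (Nat.add (Nat.add (Nat.add (Nat.add (Nat.add (Nat.add C (Nat.mul x56137 (nat_lit 3))) x51763) x57595) x55651) x56143) x56135) x56139) x36455)
    (Nat.add (Nat.add (Nat.add (Nat.add (Nat.add (Nat.add C x51765) x57597) x55653) x56145) x56137) x36457)
    (Nat.add (Nat.add (Nat.add (Nat.add (Nat.add (Nat.add (Nat.add (Nat.add C (Nat.mul x56143 (nat_lit 2))) x51769) x57601) x55657) x56161) x56137) x56145) x36461)
    (Nat.add (Nat.add (Nat.add (Nat.add (Nat.add (Nat.add (Nat.add (Nat.add (Nat.add C x56145) x51771) x57603) x55659) x56163) x56139) x56151) x56143) x36463)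
    (Nat.add (Nat.add (Nat.add (Nat.add (Nat.add (Nat.add C x51777) x57609) x55665) x56169) x56145) x36469)
    (Nat.add (Nat.add (Nat.add (Nat.add (Nat.add (Nat.add (Nat.add (Nat.add C (Nat.mul x56161 (nat_lit 2))) x51787) x57619) x55675) x56215) x56143) x56163) x36479)
    (Nat.add (Nat.add (Nat.add (Nat.add (Nat.add (Nat.add (Nat.add (Nat.add C x51789) x57621) x55677) x56217) x56145) x56169) x56161) x36481)
    (Nat.add (Nat.add (Nat.add (Nat.add (Nat.add (Nat.add (Nat.add (Nat.add (Nat.add C x56169) x51795) x57627) x55683) x56223) x56151) x56187) x56163) x36487)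
    (Nat.add (Nat.add (Nat.add (Nat.add (Nat.add (Nat.add C x51813) x57645) x55701) x56241) x56169) x36505)
    (Nat.add (Nat.add (Nat.add (Nat.add (Nat.add (Nat.add (Nat.add (Nat.add C (Nat.mul x56215 (nat_lit 2))) x51841) x57673) x55729) x56377) x56161) x56217) x36533)
    (Nat.add (Nat.add (Nat.add (Nat.add (Nat.add (Nat.add (Nat.add (Nat.add C x51843) x57675) x55731) x56379) x56163) x56223) x56215) x36535)
    (Nat.add (Nat.add (Nat.add (Nat.add (Nat.add (Nat.add (Nat.add (Nat.add C x51849) x57681) x55737) x56385) x56169) x56241) x56217) x36541)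
    (Nat.add (Nat.add (Nat.add (Nat.add (Nat.add (Nat.add (Nat.add (Nat.add (Nat.add C x56241) x51867) x57699) x55755) x56403) x56187) x56295) x56223) x36559)
    (Nat.add (Nat.add (Nat.add (Nat.add (Nat.add (Nat.add C x51921) x57753) x55809) x56457) x56241) x36613)
    (Nat.add (Nat.add (Nat.add (Nat.add (Nat.add (Nat.add (Nat.add C (Nat.mul x56377 (nat_lit 4))) x52003) x57835) x55891) x56215) x56379) x36695)
    (Nat.add (Nat.add (Nat.add (Nat.add (Nat.add (Nat.add (Nat.add (Nat.add C (Nat.mul x56379 (nat_lit 2))) x52005) x57837) x55893) x56217) x56385) x56377) x36697)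
    (Nat.add (Nat.add (Nat.add (Nat.add (Nat.add (Nat.add (Nat.add (Nat.add C (Nat.mul x56385 (nat_lit 2))) x52011) x57843) x55899) x56223) x56403) x56379) x36703)
    (Nat.add (Nat.add (Nat.add (Nat.add (Nat.add (Nat.add (Nat.add (Nat.add C (Nat.mul x56403 (nat_lit 2))) x52029) x57861) x55917) x56241) x56457) x56385) x36721)
    (Nat.add (Nat.add (Nat.add (Nat.add (Nat.add (Nat.add (Nat.add (Nat.add C (Nat.mul x56457 (nat_lit 3))) x52083) x57915) x55971) x56295) x56619) x56403) x36775)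
    (Nat.add (Nat.add (Nat.add (Nat.add (Nat.add C (Nat.mul x56619 (nat_lit 4))) x52245) x58077) x56457) x36937)
    (Nat.add (Nat.add (Nat.add (Nat.add C (Nat.mul x56867 (nat_lit 6))) x55409) x56873) x56869)
    (Nat.add (Nat.add (Nat.add (Nat.add (Nat.add C (Nat.mul x56869 (nat_lit 4))) x55411) x56875) x56867) x37187)
    (Nat.add (Nat.add (Nat.add (Nat.add (Nat.add C (Nat.mul x56873 (nat_lit 4))) x55415) x56891) x56867) x56875)
    (Nat.add (Nat.add (Nat.add (Nat.add (Nat.add (Nat.add (Nat.add (Nat.add C (Nat.mul x56875 (nat_lit 4))) x55417) x56893) x56869) x56881) x56873) x56877) x37193)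
    (Nat.add (Nat.add (Nat.add (Nat.add (Nat.add (Nat.add C (Nat.mul x56877 (nat_lit 2))) x55419) x56895) x56883) x56875) x37195)
    (Nat.add (Nat.add (Nat.add (Nat.add (Nat.add (Nat.add C (Nat.mul x56881 (nat_lit 2))) x55423) x56899) x56875) x56883) x37199)
    (Nat.add (Nat.add (Nat.add (Nat.add (Nat.add (Nat.add C (Nat.mul x56883 (nat_lit 2))) x55425) x56901) x56877) x56881) x37201)
    (Nat.add (Nat.add (Nat.add (Nat.add (Nat.add C (Nat.mul x56891 (nat_lit 4))) x55433) x56945) x56873) x56893)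
    (Nat.add (Nat.add (Nat.add (Nat.add (Nat.add (Nat.add (Nat.add (Nat.add C (Nat.mul x56893 (nat_lit 3))) x55435) x56947) x56875) x56899) x56891) x56895) x37211)
    (Nat.add (Nat.add (Nat.add (Nat.add (Nat.add (Nat.add C x55437) x56949) x56877) x56901) x56893) x37213)
    (Nat.add (Nat.add (Nat.add (Nat.add (Nat.add (Nat.add (Nat.add (Nat.add C (Nat.mul x56899 (nat_lit 3))) x55441) x56953) x56881) x56917) x56893) x56901) x37217)
    (Nat.add (Nat.add (Nat.add (Nat.add (Nat.add (Nat.add (Nat.add (Nat.add (Nat.add C (Nat.mul x56901 (nat_lit 2))) x55443) x56955) x56883) x56919) x56895) x56907) x56899) x37219)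
    (Nat.add (Nat.add (Nat.add (Nat.add (Nat.add (Nat.add C (Nat.mul x56907 (nat_lit 2))) x55449) x56961) x56925) x56901) x37225)
    (Nat.add (Nat.add (Nat.add (Nat.add (Nat.add (Nat.add C (Nat.mul x56917 (nat_lit 2))) x55459) x56971) x56899) x56919) x37235)
    (Nat.add (Nat.add (Nat.add (Nat.add (Nat.add (Nat.add C x55461) x56973) x56901) x56925) x56917) x37237)
    (Nat.add (Nat.add (Nat.add (Nat.add (Nat.add (Nat.add C (Nat.mul x56925 (nat_lit 2))) x55467) x56979) x56907) x56919) x37243)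
    (Nat.add (Nat.add (Nat.add (Nat.add (Nat.add C (Nat.mul x56945 (nat_lit 4))) x55487) x57107) x56891) x56947)
    (Nat.add (Nat.add (Nat.add (Nat.add (Nat.add (Nat.add (Nat.add (Nat.add C (Nat.mul x56947 (nat_lit 3))) x55489) x57109) x56893) x56953) x56945) x56949) x37265)
    (Nat.add (Nat.add (Nat.add (Nat.add (Nat.add (Nat.add C x55491) x57111) x56895) x56955) x56947) x37267)
    (Nat.add (Nat.add (Nat.add (Nat.add (Nat.add (Nat.add (Nat.add (Nat.add C (Nat.mul x56953 (nat_lit 2))) x55495) x57115) x56899) x56971) x56947) x56955) x37271)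
    (Nat.add (Nat.add (Nat.add (Nat.add (Nat.add (Nat.add (Nat.add (Nat.add (Nat.add C x56955) x55497) x57117) x56901) x56973) x56949) x56961) x56953) x37273)
    (Nat.add (Nat.add (Nat.add (Nat.add (Nat.add (Nat.add C x55503) x57123) x56907) x56979) x56955) x37279)
    (Nat.add (Nat.add (Nat.add (Nat.add (Nat.add (Nat.add (Nat.add (Nat.add C (Nat.mul x56971 (nat_lit 3))) x55513) x57133) x56917) x57025) x56953) x56973) x37289)
    (Nat.add (Nat.add (Nat.add (Nat.add (Nat.add (Nat.add (Nat.add (Nat.add (Nat.add C x56973) x55515) x57135) x56919) x57027) x56955) x56979) x56971) x37291)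
    (Nat.add (Nat.add (Nat.add (Nat.add (Nat.add (Nat.add (Nat.add (Nat.add (Nat.add C (Nat.mul x56979 (nat_lit 2))) x55521) x57141) x56925) x57033) x56961) x56997) x56973) x37297)
    (Nat.add (Nat.add (Nat.add (Nat.add (Nat.add (Nat.add C (Nat.mul x56997 (nat_lit 2))) x55539) x57159) x57051) x56979) x37315)
    (Nat.add (Nat.add (Nat.add (Nat.add (Nat.add (Nat.add C (Nat.mul x57025 (nat_lit 2))) x55567) x57187) x56971) x57027) x37343)
    (Nat.add (Nat.add (Nat.add (Nat.add (Nat.add (Nat.add C x55569) x57189) x56973) x57033) x57025) x37345)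
    (Nat.add (Nat.add (Nat.add (Nat.add (Nat.add (Nat.add C x55575) x57195) x56979) x57051) x57027) x37351)
    (Nat.add (Nat.add (Nat.add (Nat.add (Nat.add (Nat.add C (Nat.mul x57051 (nat_lit 2))) x55593) x57213) x56997) x57033) x37369)
    (Nat.add (Nat.add (Nat.add (Nat.add (Nat.add C (Nat.mul x57107 (nat_lit 4))) x55649) x57593) x56945) x57109)
    (Nat.add (Nat.add (Nat.add (Nat.add (Nat.add (Nat.add (Nat.add (Nat.add C (Nat.mul x57109 (nat_lit 3))) x55651) x57595) x56947) x57115) x57107) x57111) x37427)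
    (Nat.add (Nat.add (Nat.add (Nat.add (Nat.add (Nat.add C x55653) x57597) x56949) x57117) x57109) x37429)
    (Nat.add (Nat.add (Nat.add (Nat.add (Nat.add (Nat.add (Nat.add (Nat.add C (Nat.mul x57115 (nat_lit 2))) x55657) x57601) x56953) x57133) x57109) x57117) x37433)
    (Nat.add (Nat.add (Nat.add (Nat.add (Nat.add (Nat.add (Nat.add (Nat.add (Nat.add C x57117) x55659) x57603) x56955) x57135) x57111) x57123) x57115) x37435)
    (Nat.add (Nat.add (Nat.add (Nat.add (Nat.add (Nat.add C x55665) x57609) x56961) x57141) x57117) x37441)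
    (Nat.add (Nat.add (Nat.add (Nat.add (Nat.add (Nat.add (Nat.add (Nat.add C (Nat.mul x57133 (nat_lit 2))) x55675) x57619) x56971) x57187) x57115) x57135) x37451)
    (Nat.add (Nat.add (Nat.add (Nat.add (Nat.add (Nat.add (Nat.add (Nat.add C x55677) x57621) x56973) x57189) x57117) x57141) x57133) x37453)
    (Nat.add (Nat.add (Nat.add (Nat.add (Nat.add (Nat.add (Nat.add (Nat.add (Nat.add C x57141) x55683) x57627) x56979) x57195) x57123) x57159) x57135) x37459)
    (Nat.add (Nat.add (Nat.add (Nat.add (Nat.add (Nat.add C x55701) x57645) x56997) x57213) x57141) x37477)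
    (Nat.add (Nat.add (Nat.add (Nat.add (Nat.add (Nat.add (Nat.add (Nat.add C (Nat.mul x57187 (nat_lit 3))) x55729) x57673) x57025) x57349) x57133) x57189) x37505)
    (Nat.add (Nat.add (Nat.add (Nat.add (Nat.add (Nat.add (Nat.add (Nat.add (Nat.add C x57189) x55731) x57675) x57027) x57351) x57135) x57195) x57187) x37507)
    (Nat.add (Nat.add (Nat.add (Nat.add (Nat.add (Nat.add (Nat.add (Nat.add (Nat.add C x57195) x55737) x57681) x57033) x57357) x57141) x57213) x57189) x37513)
    (Nat.add (Nat.add (Nat.add (Nat.add (Nat.add (Nat.add (Nat.add (Nat.add (Nat.add C (Nat.mul x57213 (nat_lit 2))) x55755) x57699) x57051) x57375) x57159) x57267) x57195) x37531)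
    (Nat.add (Nat.add (Nat.add (Nat.add (Nat.add (Nat.add C (Nat.mul x57267 (nat_lit 2))) x55809) x57753) x57429) x57213) x37585)
    (Nat.add (Nat.add (Nat.add (Nat.add (Nat.add (Nat.add C (Nat.mul x57349 (nat_lit 2))) x55891) x57835) x57187) x57351) x37667)
    (Nat.add (Nat.add (Nat.add (Nat.add (Nat.add (Nat.add C x55893) x57837) x57189) x57357) x57349) x37669)
    (Nat.add (Nat.add (Nat.add (Nat.add (Nat.add (Nat.add C x55899) x57843) x57195) x57375) x57351) x37675)
    (Nat.add (Nat.add (Nat.add (Nat.add (Nat.add (Nat.add C x55917) x57861) x57213) x57429) x57357) x37693)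
    (Nat.add (Nat.add (Nat.add (Nat.add (Nat.add (Nat.add C (Nat.mul x57429 (nat_lit 2))) x55971) x57915) x57267) x57375) x37747)
    (Nat.add (Nat.add (Nat.add (Nat.add C (Nat.mul x57593 (nat_lit 6))) x56135) x57107) x57595)
    (Nat.add (Nat.add (Nat.add (Nat.add (Nat.add (Nat.add (Nat.add C (Nat.mul x57595 (nat_lit 5))) x56137) x57109) x57601) x57593) x57597) x37913)
    (Nat.add (Nat.add (Nat.add (Nat.add (Nat.add (Nat.add C (Nat.mul x57597 (nat_lit 2))) x56139) x57111) x57603) x57595) x37915)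
    (Nat.add (Nat.add (Nat.add (Nat.add (Nat.add (Nat.add (Nat.add C (Nat.mul x57601 (nat_lit 4))) x56143) x57115) x57619) x57595) x57603) x37919)
    (Nat.add (Nat.add (Nat.add (Nat.add (Nat.add (Nat.add (Nat.add (Nat.add C (Nat.mul x57603 (nat_lit 3))) x56145) x57117) x57621) x57597) x57609) x57601) x37921)
    (Nat.add (Nat.add (Nat.add (Nat.add (Nat.add (Nat.add C (Nat.mul x57609 (nat_lit 2))) x56151) x57123) x57627) x57603) x37927)
    (Nat.add (Nat.add (Nat.add (Nat.add (Nat.add (Nat.add (Nat.add C (Nat.mul x57619 (nat_lit 4))) x56161) x57133) x57673) x57601) x57621) x37937)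
    (Nat.add (Nat.add (Nat.add (Nat.add (Nat.add (Nat.add (Nat.add (Nat.add C (Nat.mul x57621 (nat_lit 2))) x56163) x57135) x57675) x57603) x57627) x57619) x37939)
    (Nat.add (Nat.add (Nat.add (Nat.add (Nat.add (Nat.add (Nat.add (Nat.add C (Nat.mul x57627 (nat_lit 3))) x56169) x57141) x57681) x57609) x57645) x57621) x37945)
    (Nat.add (Nat.add (Nat.add (Nat.add (Nat.add (Nat.add C (Nat.mul x57645 (nat_lit 2))) x56187) x57159) x57699) x57627) x37963)
    (Nat.add (Nat.add (Nat.add (Nat.add (Nat.add (Nat.add (Nat.add C (Nat.mul x57673 (nat_lit 4))) x56215) x57187) x57835) x57619) x57675) x37991)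
    (Nat.add (Nat.add (Nat.add (Nat.add (Nat.add (Nat.add (Nat.add (Nat.add C (Nat.mul x57675 (nat_lit 2))) x56217) x57189) x57837) x57621) x57681) x57673) x37993)
    (Nat.add (Nat.add (Nat.add (Nat.add (Nat.add (Nat.add (Nat.add (Nat.add C (Nat.mul x57681 (nat_lit 2))) x56223) x57195) x57843) x57627) x57699) x57675) x37999)
    (Nat.add (Nat.add (Nat.add (Nat.add (Nat.add (Nat.add (Nat.add (Nat.add C (Nat.mul x57699 (nat_lit 3))) x56241) x57213) x57861) x57645) x57753) x57681) x38017)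
    (Nat.add (Nat.add (Nat.add (Nat.add (Nat.add (Nat.add C (Nat.mul x57753 (nat_lit 2))) x56295) x57267) x57915) x57699) x38071)
    (Nat.add (Nat.add (Nat.add (Nat.add (Nat.add (Nat.add (Nat.add C (Nat.mul x57835 (nat_lit 5))) x56377) x57349) x58321) x57673) x57837) x38153)
    (Nat.add (Nat.add (Nat.add (Nat.add (Nat.add (Nat.add (Nat.add (Nat.add C (Nat.mul x57837 (nat_lit 3))) x56379) x57351) x58323) x57675) x57843) x57835) x38155)
    (Nat.add (Nat.add (Nat.add (Nat.add (Nat.add (Nat.add (Nat.add (Nat.add C (Nat.mul x57843 (nat_lit 3))) x56385) x57357) x58329) x57681) x57861) x57837) x38161)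
    (Nat.add (Nat.add (Nat.add (Nat.add (Nat.add (Nat.add (Nat.add (Nat.add C (Nat.mul x57861 (nat_lit 3))) x56403) x57375) x58347) x57699) x57915) x57843) x38179)
    (Nat.add (Nat.add (Nat.add (Nat.add (Nat.add (Nat.add (Nat.add (Nat.add C (Nat.mul x57915 (nat_lit 4))) x56457) x57429) x58401) x57753) x58077) x57861) x38233)
    (Nat.add (Nat.add (Nat.add (Nat.add (Nat.add C (Nat.mul x58077 (nat_lit 4))) x56619) x58563) x57915) x38395)
    (Nat.add (Nat.add (Nat.add (Nat.add C (Nat.mul x58321 (nat_lit 6))) x57835) x58323) x38639)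
    (Nat.add (Nat.add (Nat.add (Nat.add (Nat.add C (Nat.mul x58323 (nat_lit 4))) x57837) x58329) x58321) x38641)
    (Nat.add (Nat.add (Nat.add (Nat.add (Nat.add C (Nat.mul x58329 (nat_lit 4))) x57843) x58347) x58323) x38647)
    (Nat.add (Nat.add (Nat.add (Nat.add (Nat.add C (Nat.mul x58347 (nat_lit 4))) x57861) x58401) x58329) x38665)
    (Nat.add (Nat.add (Nat.add (Nat.add (Nat.add C (Nat.mul x58401 (nat_lit 4))) x57915) x58563) x58347) x38719)
    (Nat.add (Nat.add (Nat.add (Nat.add C (Nat.mul x58563 (nat_lit 6))) x58077) x58401) x38881)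

theorem ap_eq (x : Nat → Nat) (k : FnLL specs) : apLL (fun t => x t.cd) specs k = A10_9.ap x k :=
  Eq.refl (A10_9.ap x k)

theorem step_eq0 (e : Nat → Nat) (C p r : Nat) (k : FnLL specs) (x : Nat → Nat) :
    A10_9.ap x (step e C p r k) = apLL (interp e C p r x) specs k :=
  Eq.refl (A10_9.ap x (step e C p r k))

theorem spec_ok : specOK 9 false A10_9.mask specs = true := by decide +kernel

theorem step_eq (e : Nat → Nat) (C p r : Nat) (k : A10_9.KK) (x : Nat → Nat) :
    A10_9.ap x (step e C p r k) = A10_9.ap (row 9 false A10_9.mask e C p r x) k :=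
  ((step_eq0 e C p r k x).trans (apLL_row 9 false A10_9.mask specs spec_ok e C p r x k)).trans
    (ap_eq (row 9 false A10_9.mask e C p r x) k)

end Vale.Agent.P348.G10_9_0
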