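import Vale.Agent.P348.G.A9_6

set_option maxRecDepth 1000000
set_option maxHeartbeats 0
set_option linter.all false

namespace Vale.Agent.P348.G9_6_1

noncomputable def sp0 : List Spec :=
  [Spec.mk (nat_lit 26) (nat_lit 5) [nat_lit 44] (nat_lit 0) [nat_lit 6586] true,
   Spec.mk (nat_lit 44) (nat_lit 4) [nat_lit 98, nat_lit 26, nat_lit 62, nat_lit 50] (nat_lit 0) [nat_lit 6604] true,
   Spec.mk (nat_lit 50) (nat_lit 3) [nat_lit 104, nat_lit 68, nat_lit 44, nat_lit 52] (nat_lit 0) [nat_lit 6610] true,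
   Spec.mk (nat_lit 52) (nat_lit 5) [nat_lit 106, nat_lit 70, nat_lit 50] (nat_lit 0) [nat_lit 6612] true,
   Spec.mk (nat_lit 62) (nat_lit 1) [nat_lit 116, nat_lit 44, nat_lit 68] (nat_lit 0) [nat_lit 6622] true,
   Spec.mk (nat_lit 68) (nat_lit 2) [nat_lit 122, nat_lit 50, nat_lit 62, nat_lit 74, nat_lit 70] (nat_lit 0) [nat_lit 6628] true,
   Spec.mk (nat_lit 70) (nat_lit 3) [nat_lit 124, nat_lit 52, nat_lit 76, nat_lit 68] (nat_lit 0) [nat_lit 6630] false,
   Spec.mk (nat_lit 74) (nat_lit 1) [nat_lit 128, nat_lit 68, nat_lit 76] (nat_lit 0) [nat_lit 6634] false,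
   Spec.mk (nat_lit 76) (nat_lit 4) [nat_lit 130, nat_lit 70, nat_lit 74, nat_lit 78] (nat_lit 0) [nat_lit 6636] false,
   Spec.mk (nat_lit 78) (nat_lit 5) [nat_lit 132, nat_lit 76] (nat_lit 0) [] false,
   Spec.mk (nat_lit 98) (nat_lit 3) [nat_lit 260, nat_lit 44, nat_lit 116, nat_lit 104] (nat_lit 0) [nat_lit 6658] true,
   Spec.mk (nat_lit 104) (nat_lit 1) [nat_lit 266, nat_lit 50, nat_lit 122, nat_lit 98, nat_lit 106] (nat_lit 0) [nat_lit 6664] true,
   Spec.mk (nat_lit 106) (nat_lit 3) [nat_lit 268, nat_lit 52, nat_lit 124, nat_lit 104] (nat_lit 0) [nat_lit 6666] true,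
   Spec.mk (nat_lit 116) (nat_lit 2) [nat_lit 278, nat_lit 62, nat_lit 170, nat_lit 98, nat_lit 122] (nat_lit 0) [nat_lit 6676] true,
   Spec.mk (nat_lit 122) (nat_lit 2) [nat_lit 284, nat_lit 68, nat_lit 176, nat_lit 104, nat_lit 140, nat_lit 116, nat_lit 128, nat_lit 124] (nat_lit 0) [nat_lit 6682] true,
   Spec.mk (nat_lit 124) (nat_lit 3) [nat_lit 286, nat_lit 70, nat_lit 178, nat_lit 106, nat_lit 142, nat_lit 130, nat_lit 122] (nat_lit 0) [nat_lit 6684] true,
   Spec.mk (nat_lit 128) (nat_lit 0) [nat_lit 290, nat_lit 74, nat_lit 182, nat_lit 146, nat_lit 122, nat_lit 130] (nat_lit 0) [nat_lit 6688] true,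
   Spec.mk (nat_lit 130) (nat_lit 3) [nat_lit 292, nat_lit 76, nat_lit 184, nat_lit 148, nat_lit 124, nat_lit 128, nat_lit 132] (nat_lit 0) [nat_lit 6690] true,
   Spec.mk (nat_lit 132) (nat_lit 4) [nat_lit 294, nat_lit 78, nat_lit 186, nat_lit 150, nat_lit 130] (nat_lit 0) [] false,
   Spec.mk (nat_lit 140) (nat_lit 1) [nat_lit 302, nat_lit 194, nat_lit 122, nat_lit 146, nat_lit 142] (nat_lit 0) [nat_lit 6700] true,
   Spec.mk (nat_lit 142) (nat_lit 1) [nat_lit 304, nat_lit 196, nat_lit 124, nat_lit 148, nat_lit 140] (nat_lit 0) [nat_lit 6702] true,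
   Spec.mk (nat_lit 146) (nat_lit 1) [nat_lit 308, nat_lit 200, nat_lit 128, nat_lit 140, nat_lit 148] (nat_lit 0) [nat_lit 6706] true,
   Spec.mk (nat_lit 148) (nat_lit 3) [nat_lit 310, nat_lit 202, nat_lit 130, nat_lit 142, nat_lit 154, nat_lit 146, nat_lit 150] (nat_lit 0) [nat_lit 6708] false,
   Spec.mk (nat_lit 150) (nat_lit 3) [nat_lit 312, nat_lit 204, nat_lit 132, nat_lit 156, nat_lit 148] (nat_lit 0) [] false,
   Spec.mk (nat_lit 154) (nat_lit 3) [nat_lit 316, nat_lit 208, nat_lit 148, nat_lit 156] (nat_lit 0) [nat_lit 6714] false,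
   Spec.mk (nat_lit 156) (nat_lit 5) [nat_lit 318, nat_lit 210, nat_lit 150, nat_lit 154] (nat_lit 0) [] false,
   Spec.mk (nat_lit 170) (nat_lit 1) [nat_lit 332, nat_lit 116, nat_lit 176] (nat_lit 0) [nat_lit 6730] true,
   Spec.mk (nat_lit 176) (nat_lit 0) [nat_lit 338, nat_lit 122, nat_lit 194, nat_lit 170, nat_lit 182, nat_lit 178] (nat_lit 0) [nat_lit 6736] true,
   Spec.mk (nat_lit 178) (nat_lit 1) [nat_lit 340, nat_lit 124, nat_lit 196, nat_lit 184, nat_lit 176] (nat_lit 0) [nat_lit 6738] false,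
   Spec.mk (nat_lit 182) (nat_lit 0) [nat_lit 344, nat_lit 128, nat_lit 200, nat_lit 176, nat_lit 184] (nat_lit 3) [nat_lit 6742] true,
   Spec.mk (nat_lit 184) (nat_lit 0) [nat_lit 346, nat_lit 130, nat_lit 202, nat_lit 178, nat_lit 182, nat_lit 186] (nat_lit 0) [nat_lit 6744] false,
   Spec.mk (nat_lit 186) (nat_lit 1) [nat_lit 348, nat_lit 132, nat_lit 204, nat_lit 184] (nat_lit 0) [] false,
   Spec.mk (nat_lit 194) (nat_lit 1) [nat_lit 356, nat_lit 140, nat_lit 176, nat_lit 200, nat_lit 196] (nat_lit 0) [nat_lit 6754] true,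
   Spec.mk (nat_lit 196) (nat_lit 1) [nat_lit 358, nat_lit 142, nat_lit 178, nat_lit 202, nat_lit 194] (nat_lit 0) [nat_lit 6756] false,
   Spec.mk (nat_lit 200) (nat_lit 0) [nat_lit 362, nat_lit 146, nat_lit 182, nat_lit 218, nat_lit 194, nat_lit 202] (nat_lit 0) [nat_lit 6760] false,
   Spec.mk (nat_lit 202) (nat_lit 2) [nat_lit 364, nat_lit 148, nat_lit 184, nat_lit 220, nat_lit 196, nat_lit 208, nat_lit 200, nat_lit 204] (nat_lit 0) [nat_lit 6762] false,
   Spec.mk (nat_lit 204) (nat_lit 2) [nat_lit 366, nat_lit 150, nat_lit 186, nat_lit 222, nat_lit 210, nat_lit 202] (nat_lit 0) [] false,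
   Spec.mk (nat_lit 208) (nat_lit 1) [nat_lit 370, nat_lit 154, nat_lit 226, nat_lit 202, nat_lit 210] (nat_lit 0) [nat_lit 6768] false,
   Spec.mk (nat_lit 210) (nat_lit 3) [nat_lit 372, nat_lit 156, nat_lit 228, nat_lit 204, nat_lit 208] (nat_lit 0) [] false,
   Spec.mk (nat_lit 218) (nat_lit 1) [nat_lit 380, nat_lit 200, nat_lit 220] (nat_lit 0) [nat_lit 6778] false,
   Spec.mk (nat_lit 220) (nat_lit 2) [nat_lit 382, nat_lit 202, nat_lit 226, nat_lit 218, nat_lit 222] (nat_lit 0) [nat_lit 6780] false,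
   Spec.mk (nat_lit 222) (nat_lit 1) [nat_lit 384, nat_lit 204, nat_lit 228, nat_lit 220] (nat_lit 0) [] false,
   Spec.mk (nat_lit 226) (nat_lit 3) [nat_lit 388, nat_lit 208, nat_lit 220, nat_lit 228] (nat_lit 0) [nat_lit 6786] false,
   Spec.mk (nat_lit 228) (nat_lit 4) [nat_lit 390, nat_lit 210, nat_lit 222, nat_lit 234, nat_lit 226] (nat_lit 0) [] false,
   Spec.mk (nat_lit 234) (nat_lit 5) [nat_lit 396, nat_lit 228] (nat_lit 0) [] false,
   Spec.mk (nat_lit 260) (nat_lit 3) [nat_lit 746, nat_lit 98, nat_lit 278, nat_lit 266] (nat_lit 0) [nat_lit 6820] true,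
   Spec.mk (nat_lit 266) (nat_lit 1) [nat_lit 752, nat_lit 104, nat_lit 284, nat_lit 260, nat_lit 268] (nat_lit 0) [nat_lit 6826] true,
   Spec.mk (nat_lit 268) (nat_lit 3) [nat_lit 754, nat_lit 106, nat_lit 286, nat_lit 266] (nat_lit 0) [nat_lit 6828] true,
   Spec.mk (nat_lit 278) (nat_lit 1) [nat_lit 764, nat_lit 116, nat_lit 332, nat_lit 260, nat_lit 284] (nat_lit 0) [nat_lit 6838] true,
   Spec.mk (nat_lit 284) (nat_lit 1) [nat_lit 770, nat_lit 122, nat_lit 338, nat_lit 266, nat_lit 302, nat_lit 278, nat_lit 290, nat_lit 286] (nat_lit 0) [nat_lit 6844] true,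
   Spec.mk (nat_lit 286) (nat_lit 2) [nat_lit 772, nat_lit 124, nat_lit 340, nat_lit 268, nat_lit 304, nat_lit 292, nat_lit 284] (nat_lit 0) [nat_lit 6846] true,
   Spec.mk (nat_lit 290) (nat_lit 0) [nat_lit 776, nat_lit 128, nat_lit 344, nat_lit 308, nat_lit 284, nat_lit 292] (nat_lit 1) [nat_lit 6850] true,
   Spec.mk (nat_lit 292) (nat_lit 2) [nat_lit 778, nat_lit 130, nat_lit 346, nat_lit 310, nat_lit 286, nat_lit 290, nat_lit 294] (nat_lit 0) [nat_lit 6852] true,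
   Spec.mk (nat_lit 294) (nat_lit 3) [nat_lit 780, nat_lit 132, nat_lit 348, nat_lit 312, nat_lit 292] (nat_lit 0) [] false,
   Spec.mk (nat_lit 302) (nat_lit 0) [nat_lit 788, nat_lit 140, nat_lit 356, nat_lit 284, nat_lit 308, nat_lit 304] (nat_lit 1) [nat_lit 6862] true,
   Spec.mk (nat_lit 304) (nat_lit 0) [nat_lit 790, nat_lit 142, nat_lit 358, nat_lit 286, nat_lit 310, nat_lit 302] (nat_lit 1) [nat_lit 6864] true,
   Spec.mk (nat_lit 308) (nat_lit 0) [nat_lit 794, nat_lit 146, nat_lit 362, nat_lit 290, nat_lit 302, nat_lit 310] (nat_lit 1) [nat_lit 6868] true,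
   Spec.mk (nat_lit 310) (nat_lit 1) [nat_lit 796, nat_lit 148, nat_lit 364, nat_lit 292, nat_lit 304, nat_lit 316, nat_lit 308, nat_lit 312] (nat_lit 0) [nat_lit 6870] true,
   Spec.mk (nat_lit 312) (nat_lit 1) [nat_lit 798, nat_lit 150, nat_lit 366, nat_lit 294, nat_lit 318, nat_lit 310] (nat_lit 0) [] false,
   Spec.mk (nat_lit 316) (nat_lit 1) [nat_lit 802, nat_lit 154, nat_lit 370, nat_lit 310, nat_lit 318] (nat_lit 0) [nat_lit 6876] true]

noncomputable def sp1 : List Spec :=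
  [Spec.mk (nat_lit 318) (nat_lit 3) [nat_lit 804, nat_lit 156, nat_lit 372, nat_lit 312, nat_lit 316] (nat_lit 0) [] false,
   Spec.mk (nat_lit 332) (nat_lit 2) [nat_lit 818, nat_lit 170, nat_lit 494, nat_lit 278, nat_lit 338] (nat_lit 0) [nat_lit 6892] true,
   Spec.mk (nat_lit 338) (nat_lit 1) [nat_lit 824, nat_lit 176, nat_lit 500, nat_lit 284, nat_lit 356, nat_lit 332, nat_lit 344, nat_lit 340] (nat_lit 0) [nat_lit 6898] true,
   Spec.mk (nat_lit 340) (nat_lit 2) [nat_lit 826, nat_lit 178, nat_lit 502, nat_lit 286, nat_lit 358, nat_lit 346, nat_lit 338] (nat_lit 0) [nat_lit 6900] true,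
   Spec.mk (nat_lit 344) (nat_lit 0) [nat_lit 830, nat_lit 182, nat_lit 506, nat_lit 290, nat_lit 362, nat_lit 338, nat_lit 346] (nat_lit 2) [nat_lit 6904] true,
   Spec.mk (nat_lit 346) (nat_lit 1) [nat_lit 832, nat_lit 184, nat_lit 508, nat_lit 292, nat_lit 364, nat_lit 340, nat_lit 344, nat_lit 348] (nat_lit 0) [nat_lit 6906] true,
   Spec.mk (nat_lit 348) (nat_lit 2) [nat_lit 834, nat_lit 186, nat_lit 510, nat_lit 294, nat_lit 366, nat_lit 346] (nat_lit 0) [] false,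
   Spec.mk (nat_lit 356) (nat_lit 1) [nat_lit 842, nat_lit 194, nat_lit 518, nat_lit 302, nat_lit 410, nat_lit 338, nat_lit 362, nat_lit 358] (nat_lit 0) [nat_lit 6916] true,
   Spec.mk (nat_lit 358) (nat_lit 1) [nat_lit 844, nat_lit 196, nat_lit 520, nat_lit 304, nat_lit 412, nat_lit 340, nat_lit 364, nat_lit 356] (nat_lit 0) [nat_lit 6918] true,
   Spec.mk (nat_lit 362) (nat_lit 0) [nat_lit 848, nat_lit 200, nat_lit 524, nat_lit 308, nat_lit 416, nat_lit 344, nat_lit 380, nat_lit 356, nat_lit 364] (nat_lit 0) [nat_lit 6922] true,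
   Spec.mk (nat_lit 364) (nat_lit 2) [nat_lit 850, nat_lit 202, nat_lit 526, nat_lit 310, nat_lit 418, nat_lit 346, nat_lit 382, nat_lit 358, nat_lit 370, nat_lit 362, nat_lit 366] (nat_lit 0) [nat_lit 6924] true,
   Spec.mk (nat_lit 366) (nat_lit 2) [nat_lit 852, nat_lit 204, nat_lit 528, nat_lit 312, nat_lit 420, nat_lit 348, nat_lit 384, nat_lit 372, nat_lit 364] (nat_lit 0) [] false,
   Spec.mk (nat_lit 370) (nat_lit 1) [nat_lit 856, nat_lit 208, nat_lit 532, nat_lit 316, nat_lit 424, nat_lit 388, nat_lit 364, nat_lit 372] (nat_lit 0) [nat_lit 6930] false,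
   Spec.mk (nat_lit 372) (nat_lit 3) [nat_lit 858, nat_lit 210, nat_lit 534, nat_lit 318, nat_lit 426, nat_lit 390, nat_lit 366, nat_lit 370] (nat_lit 0) [] false,
   Spec.mk (nat_lit 380) (nat_lit 0) [nat_lit 866, nat_lit 218, nat_lit 542, nat_lit 434, nat_lit 362, nat_lit 382] (nat_lit 0) [nat_lit 6940] true,
   Spec.mk (nat_lit 382) (nat_lit 1) [nat_lit 868, nat_lit 220, nat_lit 544, nat_lit 436, nat_lit 364, nat_lit 388, nat_lit 380, nat_lit 384] (nat_lit 0) [nat_lit 6942] false,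
   Spec.mk (nat_lit 384) (nat_lit 0) [nat_lit 870, nat_lit 222, nat_lit 546, nat_lit 438, nat_lit 366, nat_lit 390, nat_lit 382] (nat_lit 0) [] false,
   Spec.mk (nat_lit 388) (nat_lit 2) [nat_lit 874, nat_lit 226, nat_lit 550, nat_lit 442, nat_lit 370, nat_lit 382, nat_lit 390] (nat_lit 0) [nat_lit 6948] false,
   Spec.mk (nat_lit 390) (nat_lit 3) [nat_lit 876, nat_lit 228, nat_lit 552, nat_lit 444, nat_lit 372, nat_lit 384, nat_lit 396, nat_lit 388] (nat_lit 0) [] false,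
   Spec.mk (nat_lit 396) (nat_lit 4) [nat_lit 882, nat_lit 234, nat_lit 558, nat_lit 450, nat_lit 390] (nat_lit 0) [] false,
   Spec.mk (nat_lit 410) (nat_lit 1) [nat_lit 896, nat_lit 572, nat_lit 356, nat_lit 416, nat_lit 412] (nat_lit 0) [nat_lit 6970] true,
   Spec.mk (nat_lit 412) (nat_lit 1) [nat_lit 898, nat_lit 574, nat_lit 358, nat_lit 418, nat_lit 410] (nat_lit 0) [nat_lit 6972] true,
   Spec.mk (nat_lit 416) (nat_lit 0) [nat_lit 902, nat_lit 578, nat_lit 362, nat_lit 434, nat_lit 410, nat_lit 418] (nat_lit 1) [nat_lit 6976] true,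
   Spec.mk (nat_lit 418) (nat_lit 1) [nat_lit 904, nat_lit 580, nat_lit 364, nat_lit 436, nat_lit 412, nat_lit 424, nat_lit 416, nat_lit 420] (nat_lit 0) [nat_lit 6978] false,
   Spec.mk (nat_lit 420) (nat_lit 1) [nat_lit 906, nat_lit 582, nat_lit 366, nat_lit 438, nat_lit 426, nat_lit 418] (nat_lit 0) [] false,
   Spec.mk (nat_lit 424) (nat_lit 0) [nat_lit 910, nat_lit 586, nat_lit 370, nat_lit 442, nat_lit 418, nat_lit 426] (nat_lit 1) [nat_lit 6984] false,
   Spec.mk (nat_lit 426) (nat_lit 1) [nat_lit 912, nat_lit 588, nat_lit 372, nat_lit 444, nat_lit 420, nat_lit 424] (nat_lit 0) [] false,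
   Spec.mk (nat_lit 434) (nat_lit 1) [nat_lit 920, nat_lit 596, nat_lit 380, nat_lit 416, nat_lit 436] (nat_lit 0) [nat_lit 6994] true,
   Spec.mk (nat_lit 436) (nat_lit 2) [nat_lit 922, nat_lit 598, nat_lit 382, nat_lit 418, nat_lit 442, nat_lit 434, nat_lit 438] (nat_lit 0) [nat_lit 6996] false,
   Spec.mk (nat_lit 438) (nat_lit 1) [nat_lit 924, nat_lit 600, nat_lit 384, nat_lit 420, nat_lit 444, nat_lit 436] (nat_lit 0) [] false,
   Spec.mk (nat_lit 442) (nat_lit 2) [nat_lit 928, nat_lit 604, nat_lit 388, nat_lit 424, nat_lit 460, nat_lit 436, nat_lit 444] (nat_lit 0) [nat_lit 7002] false,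
   Spec.mk (nat_lit 444) (nat_lit 3) [nat_lit 930, nat_lit 606, nat_lit 390, nat_lit 426, nat_lit 462, nat_lit 438, nat_lit 450, nat_lit 442] (nat_lit 0) [] false,
   Spec.mk (nat_lit 450) (nat_lit 3) [nat_lit 936, nat_lit 612, nat_lit 396, nat_lit 468, nat_lit 444] (nat_lit 0) [] false,
   Spec.mk (nat_lit 460) (nat_lit 3) [nat_lit 946, nat_lit 622, nat_lit 442, nat_lit 462] (nat_lit 0) [nat_lit 7020] false,
   Spec.mk (nat_lit 462) (nat_lit 3) [nat_lit 948, nat_lit 624, nat_lit 444, nat_lit 468, nat_lit 460] (nat_lit 0) [] false,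
   Spec.mk (nat_lit 468) (nat_lit 5) [nat_lit 954, nat_lit 630, nat_lit 450, nat_lit 462] (nat_lit 0) [] false,
   Spec.mk (nat_lit 494) (nat_lit 1) [nat_lit 980, nat_lit 332, nat_lit 500] (nat_lit 0) [nat_lit 7054] true,
   Spec.mk (nat_lit 500) (nat_lit 0) [nat_lit 986, nat_lit 338, nat_lit 518, nat_lit 494, nat_lit 506, nat_lit 502] (nat_lit 0) [nat_lit 7060] true,
   Spec.mk (nat_lit 502) (nat_lit 1) [nat_lit 988, nat_lit 340, nat_lit 520, nat_lit 508, nat_lit 500] (nat_lit 0) [nat_lit 7062] false,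
   Spec.mk (nat_lit 506) (nat_lit 0) [nat_lit 992, nat_lit 344, nat_lit 524, nat_lit 500, nat_lit 508] (nat_lit 3) [nat_lit 7066] true,
   Spec.mk (nat_lit 508) (nat_lit 0) [nat_lit 994, nat_lit 346, nat_lit 526, nat_lit 502, nat_lit 506, nat_lit 510] (nat_lit 0) [nat_lit 7068] false,
   Spec.mk (nat_lit 510) (nat_lit 1) [nat_lit 996, nat_lit 348, nat_lit 528, nat_lit 508] (nat_lit 0) [] false,
   Spec.mk (nat_lit 518) (nat_lit 0) [nat_lit 1004, nat_lit 356, nat_lit 572, nat_lit 500, nat_lit 524, nat_lit 520] (nat_lit 1) [nat_lit 7078] true,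
   Spec.mk (nat_lit 520) (nat_lit 0) [nat_lit 1006, nat_lit 358, nat_lit 574, nat_lit 502, nat_lit 526, nat_lit 518] (nat_lit 1) [nat_lit 7080] false,
   Spec.mk (nat_lit 524) (nat_lit 0) [nat_lit 1010, nat_lit 362, nat_lit 578, nat_lit 506, nat_lit 542, nat_lit 518, nat_lit 526] (nat_lit 2) [nat_lit 7084] true,
   Spec.mk (nat_lit 526) (nat_lit 0) [nat_lit 1012, nat_lit 364, nat_lit 580, nat_lit 508, nat_lit 544, nat_lit 520, nat_lit 532, nat_lit 524, nat_lit 528] (nat_lit 0) [nat_lit 7086] false,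
   Spec.mk (nat_lit 528) (nat_lit 0) [nat_lit 1014, nat_lit 366, nat_lit 582, nat_lit 510, nat_lit 546, nat_lit 534, nat_lit 526] (nat_lit 0) [] false,
   Spec.mk (nat_lit 532) (nat_lit 0) [nat_lit 1018, nat_lit 370, nat_lit 586, nat_lit 550, nat_lit 526, nat_lit 534] (nat_lit 1) [nat_lit 7092] false,
   Spec.mk (nat_lit 534) (nat_lit 1) [nat_lit 1020, nat_lit 372, nat_lit 588, nat_lit 552, nat_lit 528, nat_lit 532] (nat_lit 0) [] false,
   Spec.mk (nat_lit 542) (nat_lit 0) [nat_lit 1028, nat_lit 380, nat_lit 596, nat_lit 524, nat_lit 544] (nat_lit 3) [nat_lit 7102] false,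
   Spec.mk (nat_lit 544) (nat_lit 0) [nat_lit 1030, nat_lit 382, nat_lit 598, nat_lit 526, nat_lit 550, nat_lit 542, nat_lit 546] (nat_lit 2) [nat_lit 7104] false,
   Spec.mk (nat_lit 546) (nat_lit 0) [nat_lit 1032, nat_lit 384, nat_lit 600, nat_lit 528, nat_lit 552, nat_lit 544] (nat_lit 3) [] false,
   Spec.mk (nat_lit 550) (nat_lit 0) [nat_lit 1036, nat_lit 388, nat_lit 604, nat_lit 532, nat_lit 544, nat_lit 552] (nat_lit 1) [nat_lit 7110] false,
   Spec.mk (nat_lit 552) (nat_lit 0) [nat_lit 1038, nat_lit 390, nat_lit 606, nat_lit 534, nat_lit 546, nat_lit 558, nat_lit 550] (nat_lit 0) [] false,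
   Spec.mk (nat_lit 558) (nat_lit 1) [nat_lit 1044, nat_lit 396, nat_lit 612, nat_lit 552] (nat_lit 0) [] false,
   Spec.mk (nat_lit 572) (nat_lit 1) [nat_lit 1058, nat_lit 410, nat_lit 518, nat_lit 578, nat_lit 574] (nat_lit 0) [nat_lit 7132] true,
   Spec.mk (nat_lit 574) (nat_lit 1) [nat_lit 1060, nat_lit 412, nat_lit 520, nat_lit 580, nat_lit 572] (nat_lit 0) [nat_lit 7134] false,
   Spec.mk (nat_lit 578) (nat_lit 0) [nat_lit 1064, nat_lit 416, nat_lit 524, nat_lit 596, nat_lit 572, nat_lit 580] (nat_lit 1) [nat_lit 7138] false,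
   Spec.mk (nat_lit 580) (nat_lit 1) [nat_lit 1066, nat_lit 418, nat_lit 526, nat_lit 598, nat_lit 574, nat_lit 586, nat_lit 578, nat_lit 582] (nat_lit 0) [nat_lit 7140] false,
   Spec.mk (nat_lit 582) (nat_lit 1) [nat_lit 1068, nat_lit 420, nat_lit 528, nat_lit 600, nat_lit 588, nat_lit 580] (nat_lit 0) [] false]

noncomputable def sp2 : List Spec :=
  [Spec.mk (nat_lit 586) (nat_lit 0) [nat_lit 1072, nat_lit 424, nat_lit 532, nat_lit 604, nat_lit 580, nat_lit 588] (nat_lit 1) [nat_lit 7146] false,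
   Spec.mk (nat_lit 588) (nat_lit 1) [nat_lit 1074, nat_lit 426, nat_lit 534, nat_lit 606, nat_lit 582, nat_lit 586] (nat_lit 0) [] false,
   Spec.mk (nat_lit 596) (nat_lit 0) [nat_lit 1082, nat_lit 434, nat_lit 542, nat_lit 650, nat_lit 578, nat_lit 598] (nat_lit 0) [nat_lit 7156] false,
   Spec.mk (nat_lit 598) (nat_lit 1) [nat_lit 1084, nat_lit 436, nat_lit 544, nat_lit 652, nat_lit 580, nat_lit 604, nat_lit 596, nat_lit 600] (nat_lit 0) [nat_lit 7158] false,
   Spec.mk (nat_lit 600) (nat_lit 0) [nat_lit 1086, nat_lit 438, nat_lit 546, nat_lit 654, nat_lit 582, nat_lit 606, nat_lit 598] (nat_lit 0) [] false,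
   Spec.mk (nat_lit 604) (nat_lit 1) [nat_lit 1090, nat_lit 442, nat_lit 550, nat_lit 658, nat_lit 586, nat_lit 622, nat_lit 598, nat_lit 606] (nat_lit 0) [nat_lit 7164] false,
   Spec.mk (nat_lit 606) (nat_lit 2) [nat_lit 1092, nat_lit 444, nat_lit 552, nat_lit 660, nat_lit 588, nat_lit 624, nat_lit 600, nat_lit 612, nat_lit 604] (nat_lit 0) [] false,
   Spec.mk (nat_lit 612) (nat_lit 2) [nat_lit 1098, nat_lit 450, nat_lit 558, nat_lit 666, nat_lit 630, nat_lit 606] (nat_lit 0) [] false,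
   Spec.mk (nat_lit 622) (nat_lit 1) [nat_lit 1108, nat_lit 460, nat_lit 676, nat_lit 604, nat_lit 624] (nat_lit 0) [nat_lit 7182] false,
   Spec.mk (nat_lit 624) (nat_lit 1) [nat_lit 1110, nat_lit 462, nat_lit 678, nat_lit 606, nat_lit 630, nat_lit 622] (nat_lit 0) [] false,
   Spec.mk (nat_lit 630) (nat_lit 3) [nat_lit 1116, nat_lit 468, nat_lit 684, nat_lit 612, nat_lit 624] (nat_lit 0) [] false,
   Spec.mk (nat_lit 650) (nat_lit 1) [nat_lit 1136, nat_lit 596, nat_lit 652] (nat_lit 0) [nat_lit 7210] false,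
   Spec.mk (nat_lit 652) (nat_lit 2) [nat_lit 1138, nat_lit 598, nat_lit 658, nat_lit 650, nat_lit 654] (nat_lit 0) [nat_lit 7212] false,
   Spec.mk (nat_lit 654) (nat_lit 1) [nat_lit 1140, nat_lit 600, nat_lit 660, nat_lit 652] (nat_lit 0) [] false,
   Spec.mk (nat_lit 658) (nat_lit 1) [nat_lit 1144, nat_lit 604, nat_lit 676, nat_lit 652, nat_lit 660] (nat_lit 0) [nat_lit 7218] false,
   Spec.mk (nat_lit 660) (nat_lit 2) [nat_lit 1146, nat_lit 606, nat_lit 678, nat_lit 654, nat_lit 666, nat_lit 658] (nat_lit 0) [] false,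
   Spec.mk (nat_lit 666) (nat_lit 1) [nat_lit 1152, nat_lit 612, nat_lit 684, nat_lit 660] (nat_lit 0) [] false,
   Spec.mk (nat_lit 676) (nat_lit 3) [nat_lit 1162, nat_lit 622, nat_lit 658, nat_lit 678] (nat_lit 0) [nat_lit 7236] false,
   Spec.mk (nat_lit 678) (nat_lit 3) [nat_lit 1164, nat_lit 624, nat_lit 660, nat_lit 684, nat_lit 676] (nat_lit 0) [] false,
   Spec.mk (nat_lit 684) (nat_lit 4) [nat_lit 1170, nat_lit 630, nat_lit 666, nat_lit 702, nat_lit 678] (nat_lit 0) [] false,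
   Spec.mk (nat_lit 702) (nat_lit 5) [nat_lit 1188, nat_lit 684] (nat_lit 0) [] false,
   Spec.mk (nat_lit 746) (nat_lit 3) [nat_lit 2204, nat_lit 260, nat_lit 764, nat_lit 752] (nat_lit 0) [nat_lit 7306] false,
   Spec.mk (nat_lit 752) (nat_lit 1) [nat_lit 2210, nat_lit 266, nat_lit 770, nat_lit 746, nat_lit 754] (nat_lit 0) [nat_lit 7312] false,
   Spec.mk (nat_lit 754) (nat_lit 3) [nat_lit 2212, nat_lit 268, nat_lit 772, nat_lit 752] (nat_lit 0) [nat_lit 7314] false,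
   Spec.mk (nat_lit 764) (nat_lit 1) [nat_lit 2222, nat_lit 278, nat_lit 818, nat_lit 746, nat_lit 770] (nat_lit 0) [nat_lit 7324] true,
   Spec.mk (nat_lit 770) (nat_lit 1) [nat_lit 2228, nat_lit 284, nat_lit 824, nat_lit 752, nat_lit 788, nat_lit 764, nat_lit 776, nat_lit 772] (nat_lit 0) [nat_lit 7330] true,
   Spec.mk (nat_lit 772) (nat_lit 2) [nat_lit 2230, nat_lit 286, nat_lit 826, nat_lit 754, nat_lit 790, nat_lit 778, nat_lit 770] (nat_lit 0) [nat_lit 7332] true,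
   Spec.mk (nat_lit 776) (nat_lit 0) [nat_lit 2234, nat_lit 290, nat_lit 830, nat_lit 794, nat_lit 770, nat_lit 778] (nat_lit 1) [nat_lit 7336] true,
   Spec.mk (nat_lit 778) (nat_lit 2) [nat_lit 2236, nat_lit 292, nat_lit 832, nat_lit 796, nat_lit 772, nat_lit 776, nat_lit 780] (nat_lit 0) [nat_lit 7338] false,
   Spec.mk (nat_lit 780) (nat_lit 3) [nat_lit 2238, nat_lit 294, nat_lit 834, nat_lit 798, nat_lit 778] (nat_lit 0) [] false,
   Spec.mk (nat_lit 788) (nat_lit 0) [nat_lit 2246, nat_lit 302, nat_lit 842, nat_lit 770, nat_lit 794, nat_lit 790] (nat_lit 1) [nat_lit 7348] true,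
   Spec.mk (nat_lit 790) (nat_lit 0) [nat_lit 2248, nat_lit 304, nat_lit 844, nat_lit 772, nat_lit 796, nat_lit 788] (nat_lit 1) [nat_lit 7350] false,
   Spec.mk (nat_lit 794) (nat_lit 0) [nat_lit 2252, nat_lit 308, nat_lit 848, nat_lit 776, nat_lit 788, nat_lit 796] (nat_lit 1) [nat_lit 7354] false,
   Spec.mk (nat_lit 796) (nat_lit 1) [nat_lit 2254, nat_lit 310, nat_lit 850, nat_lit 778, nat_lit 790, nat_lit 802, nat_lit 794, nat_lit 798] (nat_lit 0) [nat_lit 7356] false,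
   Spec.mk (nat_lit 798) (nat_lit 1) [nat_lit 2256, nat_lit 312, nat_lit 852, nat_lit 780, nat_lit 804, nat_lit 796] (nat_lit 0) [] false,
   Spec.mk (nat_lit 802) (nat_lit 1) [nat_lit 2260, nat_lit 316, nat_lit 856, nat_lit 796, nat_lit 804] (nat_lit 0) [nat_lit 7362] false,
   Spec.mk (nat_lit 804) (nat_lit 3) [nat_lit 2262, nat_lit 318, nat_lit 858, nat_lit 798, nat_lit 802] (nat_lit 0) [] false,
   Spec.mk (nat_lit 818) (nat_lit 1) [nat_lit 2276, nat_lit 332, nat_lit 980, nat_lit 764, nat_lit 824] (nat_lit 0) [nat_lit 7378] true,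
   Spec.mk (nat_lit 824) (nat_lit 0) [nat_lit 2282, nat_lit 338, nat_lit 986, nat_lit 770, nat_lit 842, nat_lit 818, nat_lit 830, nat_lit 826] (nat_lit 0) [nat_lit 7384] true,
   Spec.mk (nat_lit 826) (nat_lit 1) [nat_lit 2284, nat_lit 340, nat_lit 988, nat_lit 772, nat_lit 844, nat_lit 832, nat_lit 824] (nat_lit 0) [nat_lit 7386] true,
   Spec.mk (nat_lit 830) (nat_lit 0) [nat_lit 2288, nat_lit 344, nat_lit 992, nat_lit 776, nat_lit 848, nat_lit 824, nat_lit 832] (nat_lit 3) [nat_lit 7390] true,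
   Spec.mk (nat_lit 832) (nat_lit 0) [nat_lit 2290, nat_lit 346, nat_lit 994, nat_lit 778, nat_lit 850, nat_lit 826, nat_lit 830, nat_lit 834] (nat_lit 0) [nat_lit 7392] true,
   Spec.mk (nat_lit 834) (nat_lit 1) [nat_lit 2292, nat_lit 348, nat_lit 996, nat_lit 780, nat_lit 852, nat_lit 832] (nat_lit 0) [] false,
   Spec.mk (nat_lit 842) (nat_lit 0) [nat_lit 2300, nat_lit 356, nat_lit 1004, nat_lit 788, nat_lit 896, nat_lit 824, nat_lit 848, nat_lit 844] (nat_lit 0) [nat_lit 7402] true,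
   Spec.mk (nat_lit 844) (nat_lit 0) [nat_lit 2302, nat_lit 358, nat_lit 1006, nat_lit 790, nat_lit 898, nat_lit 826, nat_lit 850, nat_lit 842] (nat_lit 0) [nat_lit 7404] true,
   Spec.mk (nat_lit 848) (nat_lit 0) [nat_lit 2306, nat_lit 362, nat_lit 1010, nat_lit 794, nat_lit 902, nat_lit 830, nat_lit 866, nat_lit 842, nat_lit 850] (nat_lit 1) [nat_lit 7408] true,
   Spec.mk (nat_lit 850) (nat_lit 1) [nat_lit 2308, nat_lit 364, nat_lit 1012, nat_lit 796, nat_lit 904, nat_lit 832, nat_lit 868, nat_lit 844, nat_lit 856, nat_lit 848, nat_lit 852] (nat_lit 0) [nat_lit 7410] true,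
   Spec.mk (nat_lit 852) (nat_lit 1) [nat_lit 2310, nat_lit 366, nat_lit 1014, nat_lit 798, nat_lit 906, nat_lit 834, nat_lit 870, nat_lit 858, nat_lit 850] (nat_lit 0) [] false,
   Spec.mk (nat_lit 856) (nat_lit 0) [nat_lit 2314, nat_lit 370, nat_lit 1018, nat_lit 802, nat_lit 910, nat_lit 874, nat_lit 850, nat_lit 858] (nat_lit 0) [nat_lit 7416] true,
   Spec.mk (nat_lit 858) (nat_lit 2) [nat_lit 2316, nat_lit 372, nat_lit 1020, nat_lit 804, nat_lit 912, nat_lit 876, nat_lit 852, nat_lit 856] (nat_lit 0) [] false,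
   Spec.mk (nat_lit 866) (nat_lit 0) [nat_lit 2324, nat_lit 380, nat_lit 1028, nat_lit 920, nat_lit 848, nat_lit 868] (nat_lit 1) [nat_lit 7426] true,
   Spec.mk (nat_lit 868) (nat_lit 0) [nat_lit 2326, nat_lit 382, nat_lit 1030, nat_lit 922, nat_lit 850, nat_lit 874, nat_lit 866, nat_lit 870] (nat_lit 0) [nat_lit 7428] true,
   Spec.mk (nat_lit 870) (nat_lit 0) [nat_lit 2328, nat_lit 384, nat_lit 1032, nat_lit 924, nat_lit 852, nat_lit 876, nat_lit 868] (nat_lit 1) [] false,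
   Spec.mk (nat_lit 874) (nat_lit 1) [nat_lit 2332, nat_lit 388, nat_lit 1036, nat_lit 928, nat_lit 856, nat_lit 868, nat_lit 876] (nat_lit 0) [nat_lit 7434] true,
   Spec.mk (nat_lit 876) (nat_lit 2) [nat_lit 2334, nat_lit 390, nat_lit 1038, nat_lit 930, nat_lit 858, nat_lit 870, nat_lit 882, nat_lit 874] (nat_lit 0) [] false,
   Spec.mk (nat_lit 882) (nat_lit 3) [nat_lit 2340, nat_lit 396, nat_lit 1044, nat_lit 936, nat_lit 876] (nat_lit 0) [] false,
   Spec.mk (nat_lit 896) (nat_lit 0) [nat_lit 2354, nat_lit 410, nat_lit 1058, nat_lit 842, nat_lit 902, nat_lit 898] (nat_lit 1) [nat_lit 7456] true,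
   Spec.mk (nat_lit 898) (nat_lit 0) [nat_lit 2356, nat_lit 412, nat_lit 1060, nat_lit 844, nat_lit 904, nat_lit 896] (nat_lit 1) [nat_lit 7458] true,
   Spec.mk (nat_lit 902) (nat_lit 0) [nat_lit 2360, nat_lit 416, nat_lit 1064, nat_lit 848, nat_lit 920, nat_lit 896, nat_lit 904] (nat_lit 3) [nat_lit 7462] true,
   Spec.mk (nat_lit 904) (nat_lit 0) [nat_lit 2362, nat_lit 418, nat_lit 1066, nat_lit 850, nat_lit 922, nat_lit 898, nat_lit 910, nat_lit 902, nat_lit 906] (nat_lit 1) [nat_lit 7464] true]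

noncomputable def sp3 : List Spec :=
  [Spec.mk (nat_lit 906) (nat_lit 0) [nat_lit 2364, nat_lit 420, nat_lit 1068, nat_lit 852, nat_lit 924, nat_lit 912, nat_lit 904] (nat_lit 1) [] false,
   Spec.mk (nat_lit 910) (nat_lit 0) [nat_lit 2368, nat_lit 424, nat_lit 1072, nat_lit 856, nat_lit 928, nat_lit 904, nat_lit 912] (nat_lit 3) [nat_lit 7470] true,
   Spec.mk (nat_lit 912) (nat_lit 0) [nat_lit 2370, nat_lit 426, nat_lit 1074, nat_lit 858, nat_lit 930, nat_lit 906, nat_lit 910] (nat_lit 1) [] false,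
   Spec.mk (nat_lit 920) (nat_lit 0) [nat_lit 2378, nat_lit 434, nat_lit 1082, nat_lit 866, nat_lit 902, nat_lit 922] (nat_lit 1) [nat_lit 7480] true,
   Spec.mk (nat_lit 922) (nat_lit 0) [nat_lit 2380, nat_lit 436, nat_lit 1084, nat_lit 868, nat_lit 904, nat_lit 928, nat_lit 920, nat_lit 924] (nat_lit 0) [nat_lit 7482] true,
   Spec.mk (nat_lit 924) (nat_lit 0) [nat_lit 2382, nat_lit 438, nat_lit 1086, nat_lit 870, nat_lit 906, nat_lit 930, nat_lit 922] (nat_lit 1) [] false,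
   Spec.mk (nat_lit 928) (nat_lit 0) [nat_lit 2386, nat_lit 442, nat_lit 1090, nat_lit 874, nat_lit 910, nat_lit 946, nat_lit 922, nat_lit 930] (nat_lit 0) [nat_lit 7488] false,
   Spec.mk (nat_lit 930) (nat_lit 1) [nat_lit 2388, nat_lit 444, nat_lit 1092, nat_lit 876, nat_lit 912, nat_lit 948, nat_lit 924, nat_lit 936, nat_lit 928] (nat_lit 0) [] false,
   Spec.mk (nat_lit 936) (nat_lit 1) [nat_lit 2394, nat_lit 450, nat_lit 1098, nat_lit 882, nat_lit 954, nat_lit 930] (nat_lit 0) [] false,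
   Spec.mk (nat_lit 946) (nat_lit 1) [nat_lit 2404, nat_lit 460, nat_lit 1108, nat_lit 928, nat_lit 948] (nat_lit 0) [nat_lit 7506] false,
   Spec.mk (nat_lit 948) (nat_lit 1) [nat_lit 2406, nat_lit 462, nat_lit 1110, nat_lit 930, nat_lit 954, nat_lit 946] (nat_lit 0) [] false,
   Spec.mk (nat_lit 954) (nat_lit 3) [nat_lit 2412, nat_lit 468, nat_lit 1116, nat_lit 936, nat_lit 948] (nat_lit 0) [] false,
   Spec.mk (nat_lit 980) (nat_lit 2) [nat_lit 2438, nat_lit 494, nat_lit 1466, nat_lit 818, nat_lit 986] (nat_lit 0) [nat_lit 7540] false,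
   Spec.mk (nat_lit 986) (nat_lit 1) [nat_lit 2444, nat_lit 500, nat_lit 1472, nat_lit 824, nat_lit 1004, nat_lit 980, nat_lit 992, nat_lit 988] (nat_lit 0) [nat_lit 7546] true,
   Spec.mk (nat_lit 988) (nat_lit 2) [nat_lit 2446, nat_lit 502, nat_lit 1474, nat_lit 826, nat_lit 1006, nat_lit 994, nat_lit 986] (nat_lit 0) [nat_lit 7548] true,
   Spec.mk (nat_lit 992) (nat_lit 0) [nat_lit 2450, nat_lit 506, nat_lit 1478, nat_lit 830, nat_lit 1010, nat_lit 986, nat_lit 994] (nat_lit 2) [nat_lit 7552] true,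
   Spec.mk (nat_lit 994) (nat_lit 1) [nat_lit 2452, nat_lit 508, nat_lit 1480, nat_lit 832, nat_lit 1012, nat_lit 988, nat_lit 992, nat_lit 996] (nat_lit 0) [nat_lit 7554] false,
   Spec.mk (nat_lit 996) (nat_lit 2) [nat_lit 2454, nat_lit 510, nat_lit 1482, nat_lit 834, nat_lit 1014, nat_lit 994] (nat_lit 0) [] false,
   Spec.mk (nat_lit 1004) (nat_lit 0) [nat_lit 2462, nat_lit 518, nat_lit 1490, nat_lit 842, nat_lit 1058, nat_lit 986, nat_lit 1010, nat_lit 1006] (nat_lit 0) [nat_lit 7564] true,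
   Spec.mk (nat_lit 1006) (nat_lit 0) [nat_lit 2464, nat_lit 520, nat_lit 1492, nat_lit 844, nat_lit 1060, nat_lit 988, nat_lit 1012, nat_lit 1004] (nat_lit 0) [nat_lit 7566] true,
   Spec.mk (nat_lit 1010) (nat_lit 0) [nat_lit 2468, nat_lit 524, nat_lit 1496, nat_lit 848, nat_lit 1064, nat_lit 992, nat_lit 1028, nat_lit 1004, nat_lit 1012] (nat_lit 1) [nat_lit 7570] true,
   Spec.mk (nat_lit 1012) (nat_lit 1) [nat_lit 2470, nat_lit 526, nat_lit 1498, nat_lit 850, nat_lit 1066, nat_lit 994, nat_lit 1030, nat_lit 1006, nat_lit 1018, nat_lit 1010, nat_lit 1014] (nat_lit 0) [nat_lit 7572] true,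
   Spec.mk (nat_lit 1014) (nat_lit 1) [nat_lit 2472, nat_lit 528, nat_lit 1500, nat_lit 852, nat_lit 1068, nat_lit 996, nat_lit 1032, nat_lit 1020, nat_lit 1012] (nat_lit 0) [] false,
   Spec.mk (nat_lit 1018) (nat_lit 0) [nat_lit 2476, nat_lit 532, nat_lit 1504, nat_lit 856, nat_lit 1072, nat_lit 1036, nat_lit 1012, nat_lit 1020] (nat_lit 0) [nat_lit 7578] false,
   Spec.mk (nat_lit 1020) (nat_lit 2) [nat_lit 2478, nat_lit 534, nat_lit 1506, nat_lit 858, nat_lit 1074, nat_lit 1038, nat_lit 1014, nat_lit 1018] (nat_lit 0) [] false,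
   Spec.mk (nat_lit 1028) (nat_lit 0) [nat_lit 2486, nat_lit 542, nat_lit 1514, nat_lit 866, nat_lit 1082, nat_lit 1010, nat_lit 1030] (nat_lit 2) [nat_lit 7588] true,
   Spec.mk (nat_lit 1030) (nat_lit 0) [nat_lit 2488, nat_lit 544, nat_lit 1516, nat_lit 868, nat_lit 1084, nat_lit 1012, nat_lit 1036, nat_lit 1028, nat_lit 1032] (nat_lit 1) [nat_lit 7590] true,
   Spec.mk (nat_lit 1032) (nat_lit 0) [nat_lit 2490, nat_lit 546, nat_lit 1518, nat_lit 870, nat_lit 1086, nat_lit 1014, nat_lit 1038, nat_lit 1030] (nat_lit 2) [] false,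
   Spec.mk (nat_lit 1036) (nat_lit 0) [nat_lit 2494, nat_lit 550, nat_lit 1522, nat_lit 874, nat_lit 1090, nat_lit 1018, nat_lit 1030, nat_lit 1038] (nat_lit 0) [nat_lit 7596] false,
   Spec.mk (nat_lit 1038) (nat_lit 1) [nat_lit 2496, nat_lit 552, nat_lit 1524, nat_lit 876, nat_lit 1092, nat_lit 1020, nat_lit 1032, nat_lit 1044, nat_lit 1036] (nat_lit 0) [] false,
   Spec.mk (nat_lit 1044) (nat_lit 2) [nat_lit 2502, nat_lit 558, nat_lit 1530, nat_lit 882, nat_lit 1098, nat_lit 1038] (nat_lit 0) [] false,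
   Spec.mk (nat_lit 1058) (nat_lit 1) [nat_lit 2516, nat_lit 572, nat_lit 1544, nat_lit 896, nat_lit 1220, nat_lit 1004, nat_lit 1064, nat_lit 1060] (nat_lit 0) [nat_lit 7618] true,
   Spec.mk (nat_lit 1060) (nat_lit 1) [nat_lit 2518, nat_lit 574, nat_lit 1546, nat_lit 898, nat_lit 1222, nat_lit 1006, nat_lit 1066, nat_lit 1058] (nat_lit 0) [nat_lit 7620] false,
   Spec.mk (nat_lit 1064) (nat_lit 0) [nat_lit 2522, nat_lit 578, nat_lit 1550, nat_lit 902, nat_lit 1226, nat_lit 1010, nat_lit 1082, nat_lit 1058, nat_lit 1066] (nat_lit 1) [nat_lit 7624] true,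
   Spec.mk (nat_lit 1066) (nat_lit 1) [nat_lit 2524, nat_lit 580, nat_lit 1552, nat_lit 904, nat_lit 1228, nat_lit 1012, nat_lit 1084, nat_lit 1060, nat_lit 1072, nat_lit 1064, nat_lit 1068] (nat_lit 0) [nat_lit 7626] true,
   Spec.mk (nat_lit 1068) (nat_lit 1) [nat_lit 2526, nat_lit 582, nat_lit 1554, nat_lit 906, nat_lit 1230, nat_lit 1014, nat_lit 1086, nat_lit 1074, nat_lit 1066] (nat_lit 0) [] false,
   Spec.mk (nat_lit 1072) (nat_lit 0) [nat_lit 2530, nat_lit 586, nat_lit 1558, nat_lit 910, nat_lit 1234, nat_lit 1018, nat_lit 1090, nat_lit 1066, nat_lit 1074] (nat_lit 1) [nat_lit 7632] false,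
   Spec.mk (nat_lit 1074) (nat_lit 1) [nat_lit 2532, nat_lit 588, nat_lit 1560, nat_lit 912, nat_lit 1236, nat_lit 1020, nat_lit 1092, nat_lit 1068, nat_lit 1072] (nat_lit 0) [] false,
   Spec.mk (nat_lit 1082) (nat_lit 0) [nat_lit 2540, nat_lit 596, nat_lit 1568, nat_lit 920, nat_lit 1244, nat_lit 1028, nat_lit 1136, nat_lit 1064, nat_lit 1084] (nat_lit 0) [nat_lit 7642] true,
   Spec.mk (nat_lit 1084) (nat_lit 1) [nat_lit 2542, nat_lit 598, nat_lit 1570, nat_lit 922, nat_lit 1246, nat_lit 1030, nat_lit 1138, nat_lit 1066, nat_lit 1090, nat_lit 1082, nat_lit 1086] (nat_lit 0) [nat_lit 7644] false,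
   Spec.mk (nat_lit 1086) (nat_lit 0) [nat_lit 2544, nat_lit 600, nat_lit 1572, nat_lit 924, nat_lit 1248, nat_lit 1032, nat_lit 1140, nat_lit 1068, nat_lit 1092, nat_lit 1084] (nat_lit 0) [] false,
   Spec.mk (nat_lit 1090) (nat_lit 1) [nat_lit 2548, nat_lit 604, nat_lit 1576, nat_lit 928, nat_lit 1252, nat_lit 1036, nat_lit 1144, nat_lit 1072, nat_lit 1108, nat_lit 1084, nat_lit 1092] (nat_lit 0) [nat_lit 7650] false,
   Spec.mk (nat_lit 1092) (nat_lit 2) [nat_lit 2550, nat_lit 606, nat_lit 1578, nat_lit 930, nat_lit 1254, nat_lit 1038, nat_lit 1146, nat_lit 1074, nat_lit 1110, nat_lit 1086, nat_lit 1098, nat_lit 1090] (nat_lit 0) [] false,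
   Spec.mk (nat_lit 1098) (nat_lit 2) [nat_lit 2556, nat_lit 612, nat_lit 1584, nat_lit 936, nat_lit 1260, nat_lit 1044, nat_lit 1152, nat_lit 1116, nat_lit 1092] (nat_lit 0) [] false,
   Spec.mk (nat_lit 1108) (nat_lit 1) [nat_lit 2566, nat_lit 622, nat_lit 1594, nat_lit 946, nat_lit 1270, nat_lit 1162, nat_lit 1090, nat_lit 1110] (nat_lit 0) [nat_lit 7668] false,
   Spec.mk (nat_lit 1110) (nat_lit 1) [nat_lit 2568, nat_lit 624, nat_lit 1596, nat_lit 948, nat_lit 1272, nat_lit 1164, nat_lit 1092, nat_lit 1116, nat_lit 1108] (nat_lit 0) [] false,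
   Spec.mk (nat_lit 1116) (nat_lit 3) [nat_lit 2574, nat_lit 630, nat_lit 1602, nat_lit 954, nat_lit 1278, nat_lit 1170, nat_lit 1098, nat_lit 1110] (nat_lit 0) [] false,
   Spec.mk (nat_lit 1136) (nat_lit 0) [nat_lit 2594, nat_lit 650, nat_lit 1622, nat_lit 1298, nat_lit 1082, nat_lit 1138] (nat_lit 0) [nat_lit 7696] false,
   Spec.mk (nat_lit 1138) (nat_lit 1) [nat_lit 2596, nat_lit 652, nat_lit 1624, nat_lit 1300, nat_lit 1084, nat_lit 1144, nat_lit 1136, nat_lit 1140] (nat_lit 0) [nat_lit 7698] false,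
   Spec.mk (nat_lit 1140) (nat_lit 0) [nat_lit 2598, nat_lit 654, nat_lit 1626, nat_lit 1302, nat_lit 1086, nat_lit 1146, nat_lit 1138] (nat_lit 0) [] false,
   Spec.mk (nat_lit 1144) (nat_lit 0) [nat_lit 2602, nat_lit 658, nat_lit 1630, nat_lit 1306, nat_lit 1090, nat_lit 1162, nat_lit 1138, nat_lit 1146] (nat_lit 0) [nat_lit 7704] false,
   Spec.mk (nat_lit 1146) (nat_lit 1) [nat_lit 2604, nat_lit 660, nat_lit 1632, nat_lit 1308, nat_lit 1092, nat_lit 1164, nat_lit 1140, nat_lit 1152, nat_lit 1144] (nat_lit 0) [] false,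
   Spec.mk (nat_lit 1152) (nat_lit 0) [nat_lit 2610, nat_lit 666, nat_lit 1638, nat_lit 1314, nat_lit 1098, nat_lit 1170, nat_lit 1146] (nat_lit 0) [] false,
   Spec.mk (nat_lit 1162) (nat_lit 2) [nat_lit 2620, nat_lit 676, nat_lit 1648, nat_lit 1324, nat_lit 1108, nat_lit 1144, nat_lit 1164] (nat_lit 0) [nat_lit 7722] false,
   Spec.mk (nat_lit 1164) (nat_lit 2) [nat_lit 2622, nat_lit 678, nat_lit 1650, nat_lit 1326, nat_lit 1110, nat_lit 1146, nat_lit 1170, nat_lit 1162] (nat_lit 0) [] false,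
   Spec.mk (nat_lit 1170) (nat_lit 3) [nat_lit 2628, nat_lit 684, nat_lit 1656, nat_lit 1332, nat_lit 1116, nat_lit 1152, nat_lit 1188, nat_lit 1164] (nat_lit 0) [] false,
   Spec.mk (nat_lit 1188) (nat_lit 4) [nat_lit 2646, nat_lit 702, nat_lit 1674, nat_lit 1350, nat_lit 1170] (nat_lit 0) [] false,
   Spec.mk (nat_lit 1220) (nat_lit 1) [nat_lit 2678, nat_lit 1706, nat_lit 1058, nat_lit 1226, nat_lit 1222] (nat_lit 0) [nat_lit 7780] false,
   Spec.mk (nat_lit 1222) (nat_lit 1) [nat_lit 2680, nat_lit 1708, nat_lit 1060, nat_lit 1228, nat_lit 1220] (nat_lit 0) [nat_lit 7782] false,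
   Spec.mk (nat_lit 1226) (nat_lit 0) [nat_lit 2684, nat_lit 1712, nat_lit 1064, nat_lit 1244, nat_lit 1220, nat_lit 1228] (nat_lit 1) [nat_lit 7786] false]

noncomputable def sp4 : List Spec :=
  [Spec.mk (nat_lit 1228) (nat_lit 1) [nat_lit 2686, nat_lit 1714, nat_lit 1066, nat_lit 1246, nat_lit 1222, nat_lit 1234, nat_lit 1226, nat_lit 1230] (nat_lit 0) [nat_lit 7788] false,
   Spec.mk (nat_lit 1230) (nat_lit 1) [nat_lit 2688, nat_lit 1716, nat_lit 1068, nat_lit 1248, nat_lit 1236, nat_lit 1228] (nat_lit 0) [] false,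
   Spec.mk (nat_lit 1234) (nat_lit 0) [nat_lit 2692, nat_lit 1720, nat_lit 1072, nat_lit 1252, nat_lit 1228, nat_lit 1236] (nat_lit 1) [nat_lit 7794] false,
   Spec.mk (nat_lit 1236) (nat_lit 1) [nat_lit 2694, nat_lit 1722, nat_lit 1074, nat_lit 1254, nat_lit 1230, nat_lit 1234] (nat_lit 0) [] false,
   Spec.mk (nat_lit 1244) (nat_lit 0) [nat_lit 2702, nat_lit 1730, nat_lit 1082, nat_lit 1298, nat_lit 1226, nat_lit 1246] (nat_lit 1) [nat_lit 7804] false,
   Spec.mk (nat_lit 1246) (nat_lit 0) [nat_lit 2704, nat_lit 1732, nat_lit 1084, nat_lit 1300, nat_lit 1228, nat_lit 1252, nat_lit 1244, nat_lit 1248] (nat_lit 0) [nat_lit 7806] false,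
   Spec.mk (nat_lit 1248) (nat_lit 0) [nat_lit 2706, nat_lit 1734, nat_lit 1086, nat_lit 1302, nat_lit 1230, nat_lit 1254, nat_lit 1246] (nat_lit 1) [] false,
   Spec.mk (nat_lit 1252) (nat_lit 0) [nat_lit 2710, nat_lit 1738, nat_lit 1090, nat_lit 1306, nat_lit 1234, nat_lit 1270, nat_lit 1246, nat_lit 1254] (nat_lit 0) [nat_lit 7812] false,
   Spec.mk (nat_lit 1254) (nat_lit 1) [nat_lit 2712, nat_lit 1740, nat_lit 1092, nat_lit 1308, nat_lit 1236, nat_lit 1272, nat_lit 1248, nat_lit 1260, nat_lit 1252] (nat_lit 0) [] false,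
   Spec.mk (nat_lit 1260) (nat_lit 1) [nat_lit 2718, nat_lit 1746, nat_lit 1098, nat_lit 1314, nat_lit 1278, nat_lit 1254] (nat_lit 0) [] false,
   Spec.mk (nat_lit 1270) (nat_lit 0) [nat_lit 2728, nat_lit 1756, nat_lit 1108, nat_lit 1324, nat_lit 1252, nat_lit 1272] (nat_lit 1) [nat_lit 7830] false,
   Spec.mk (nat_lit 1272) (nat_lit 0) [nat_lit 2730, nat_lit 1758, nat_lit 1110, nat_lit 1326, nat_lit 1254, nat_lit 1278, nat_lit 1270] (nat_lit 1) [] false,
   Spec.mk (nat_lit 1278) (nat_lit 1) [nat_lit 2736, nat_lit 1764, nat_lit 1116, nat_lit 1332, nat_lit 1260, nat_lit 1272] (nat_lit 0) [] false,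
   Spec.mk (nat_lit 1298) (nat_lit 1) [nat_lit 2756, nat_lit 1784, nat_lit 1136, nat_lit 1244, nat_lit 1300] (nat_lit 0) [nat_lit 7858] false,
   Spec.mk (nat_lit 1300) (nat_lit 2) [nat_lit 2758, nat_lit 1786, nat_lit 1138, nat_lit 1246, nat_lit 1306, nat_lit 1298, nat_lit 1302] (nat_lit 0) [nat_lit 7860] false,
   Spec.mk (nat_lit 1302) (nat_lit 1) [nat_lit 2760, nat_lit 1788, nat_lit 1140, nat_lit 1248, nat_lit 1308, nat_lit 1300] (nat_lit 0) [] false,
   Spec.mk (nat_lit 1306) (nat_lit 1) [nat_lit 2764, nat_lit 1792, nat_lit 1144, nat_lit 1252, nat_lit 1324, nat_lit 1300, nat_lit 1308] (nat_lit 0) [nat_lit 7866] false,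
   Spec.mk (nat_lit 1308) (nat_lit 2) [nat_lit 2766, nat_lit 1794, nat_lit 1146, nat_lit 1254, nat_lit 1326, nat_lit 1302, nat_lit 1314, nat_lit 1306] (nat_lit 0) [] false,
   Spec.mk (nat_lit 1314) (nat_lit 1) [nat_lit 2772, nat_lit 1800, nat_lit 1152, nat_lit 1260, nat_lit 1332, nat_lit 1308] (nat_lit 0) [] false,
   Spec.mk (nat_lit 1324) (nat_lit 2) [nat_lit 2782, nat_lit 1810, nat_lit 1162, nat_lit 1270, nat_lit 1378, nat_lit 1306, nat_lit 1326] (nat_lit 0) [nat_lit 7884] false,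
   Spec.mk (nat_lit 1326) (nat_lit 2) [nat_lit 2784, nat_lit 1812, nat_lit 1164, nat_lit 1272, nat_lit 1380, nat_lit 1308, nat_lit 1332, nat_lit 1324] (nat_lit 0) [] false,
   Spec.mk (nat_lit 1332) (nat_lit 3) [nat_lit 2790, nat_lit 1818, nat_lit 1170, nat_lit 1278, nat_lit 1386, nat_lit 1314, nat_lit 1350, nat_lit 1326] (nat_lit 0) [] false,
   Spec.mk (nat_lit 1350) (nat_lit 3) [nat_lit 2808, nat_lit 1836, nat_lit 1188, nat_lit 1404, nat_lit 1332] (nat_lit 0) [] false,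
   Spec.mk (nat_lit 1378) (nat_lit 3) [nat_lit 2836, nat_lit 1864, nat_lit 1324, nat_lit 1380] (nat_lit 0) [nat_lit 7938] false,
   Spec.mk (nat_lit 1380) (nat_lit 3) [nat_lit 2838, nat_lit 1866, nat_lit 1326, nat_lit 1386, nat_lit 1378] (nat_lit 0) [] false,
   Spec.mk (nat_lit 1386) (nat_lit 3) [nat_lit 2844, nat_lit 1872, nat_lit 1332, nat_lit 1404, nat_lit 1380] (nat_lit 0) [] false,
   Spec.mk (nat_lit 1404) (nat_lit 5) [nat_lit 2862, nat_lit 1890, nat_lit 1350, nat_lit 1386] (nat_lit 0) [] false,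
   Spec.mk (nat_lit 1466) (nat_lit 1) [nat_lit 2924, nat_lit 980, nat_lit 1472] (nat_lit 0) [nat_lit 8026] false,
   Spec.mk (nat_lit 1472) (nat_lit 0) [nat_lit 2930, nat_lit 986, nat_lit 1490, nat_lit 1466, nat_lit 1478, nat_lit 1474] (nat_lit 0) [nat_lit 8032] false,
   Spec.mk (nat_lit 1474) (nat_lit 1) [nat_lit 2932, nat_lit 988, nat_lit 1492, nat_lit 1480, nat_lit 1472] (nat_lit 0) [nat_lit 8034] false,
   Spec.mk (nat_lit 1478) (nat_lit 0) [nat_lit 2936, nat_lit 992, nat_lit 1496, nat_lit 1472, nat_lit 1480] (nat_lit 3) [nat_lit 8038] false,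
   Spec.mk (nat_lit 1480) (nat_lit 0) [nat_lit 2938, nat_lit 994, nat_lit 1498, nat_lit 1474, nat_lit 1478, nat_lit 1482] (nat_lit 0) [nat_lit 8040] false,
   Spec.mk (nat_lit 1482) (nat_lit 1) [nat_lit 2940, nat_lit 996, nat_lit 1500, nat_lit 1480] (nat_lit 0) [] false,
   Spec.mk (nat_lit 1490) (nat_lit 0) [nat_lit 2948, nat_lit 1004, nat_lit 1544, nat_lit 1472, nat_lit 1496, nat_lit 1492] (nat_lit 1) [nat_lit 8050] false,
   Spec.mk (nat_lit 1492) (nat_lit 0) [nat_lit 2950, nat_lit 1006, nat_lit 1546, nat_lit 1474, nat_lit 1498, nat_lit 1490] (nat_lit 1) [nat_lit 8052] false,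
   Spec.mk (nat_lit 1496) (nat_lit 0) [nat_lit 2954, nat_lit 1010, nat_lit 1550, nat_lit 1478, nat_lit 1514, nat_lit 1490, nat_lit 1498] (nat_lit 2) [nat_lit 8056] false,
   Spec.mk (nat_lit 1498) (nat_lit 0) [nat_lit 2956, nat_lit 1012, nat_lit 1552, nat_lit 1480, nat_lit 1516, nat_lit 1492, nat_lit 1504, nat_lit 1496, nat_lit 1500] (nat_lit 0) [nat_lit 8058] false,
   Spec.mk (nat_lit 1500) (nat_lit 0) [nat_lit 2958, nat_lit 1014, nat_lit 1554, nat_lit 1482, nat_lit 1518, nat_lit 1506, nat_lit 1498] (nat_lit 0) [] false,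
   Spec.mk (nat_lit 1504) (nat_lit 0) [nat_lit 2962, nat_lit 1018, nat_lit 1558, nat_lit 1522, nat_lit 1498, nat_lit 1506] (nat_lit 1) [nat_lit 8064] false,
   Spec.mk (nat_lit 1506) (nat_lit 1) [nat_lit 2964, nat_lit 1020, nat_lit 1560, nat_lit 1524, nat_lit 1500, nat_lit 1504] (nat_lit 0) [] false,
   Spec.mk (nat_lit 1514) (nat_lit 0) [nat_lit 2972, nat_lit 1028, nat_lit 1568, nat_lit 1496, nat_lit 1516] (nat_lit 3) [nat_lit 8074] true,
   Spec.mk (nat_lit 1516) (nat_lit 0) [nat_lit 2974, nat_lit 1030, nat_lit 1570, nat_lit 1498, nat_lit 1522, nat_lit 1514, nat_lit 1518] (nat_lit 2) [nat_lit 8076] false,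
   Spec.mk (nat_lit 1518) (nat_lit 0) [nat_lit 2976, nat_lit 1032, nat_lit 1572, nat_lit 1500, nat_lit 1524, nat_lit 1516] (nat_lit 3) [] false,
   Spec.mk (nat_lit 1522) (nat_lit 0) [nat_lit 2980, nat_lit 1036, nat_lit 1576, nat_lit 1504, nat_lit 1516, nat_lit 1524] (nat_lit 1) [nat_lit 8082] false,
   Spec.mk (nat_lit 1524) (nat_lit 0) [nat_lit 2982, nat_lit 1038, nat_lit 1578, nat_lit 1506, nat_lit 1518, nat_lit 1530, nat_lit 1522] (nat_lit 0) [] false,
   Spec.mk (nat_lit 1530) (nat_lit 1) [nat_lit 2988, nat_lit 1044, nat_lit 1584, nat_lit 1524] (nat_lit 0) [] false,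
   Spec.mk (nat_lit 1544) (nat_lit 0) [nat_lit 3002, nat_lit 1058, nat_lit 1706, nat_lit 1490, nat_lit 1550, nat_lit 1546] (nat_lit 1) [nat_lit 8104] false,
   Spec.mk (nat_lit 1546) (nat_lit 0) [nat_lit 3004, nat_lit 1060, nat_lit 1708, nat_lit 1492, nat_lit 1552, nat_lit 1544] (nat_lit 1) [nat_lit 8106] false,
   Spec.mk (nat_lit 1550) (nat_lit 0) [nat_lit 3008, nat_lit 1064, nat_lit 1712, nat_lit 1496, nat_lit 1568, nat_lit 1544, nat_lit 1552] (nat_lit 3) [nat_lit 8110] true,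
   Spec.mk (nat_lit 1552) (nat_lit 0) [nat_lit 3010, nat_lit 1066, nat_lit 1714, nat_lit 1498, nat_lit 1570, nat_lit 1546, nat_lit 1558, nat_lit 1550, nat_lit 1554] (nat_lit 1) [nat_lit 8112] false,
   Spec.mk (nat_lit 1554) (nat_lit 0) [nat_lit 3012, nat_lit 1068, nat_lit 1716, nat_lit 1500, nat_lit 1572, nat_lit 1560, nat_lit 1552] (nat_lit 1) [] false,
   Spec.mk (nat_lit 1558) (nat_lit 0) [nat_lit 3016, nat_lit 1072, nat_lit 1720, nat_lit 1504, nat_lit 1576, nat_lit 1552, nat_lit 1560] (nat_lit 3) [nat_lit 8118] false,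
   Spec.mk (nat_lit 1560) (nat_lit 0) [nat_lit 3018, nat_lit 1074, nat_lit 1722, nat_lit 1506, nat_lit 1578, nat_lit 1554, nat_lit 1558] (nat_lit 1) [] false,
   Spec.mk (nat_lit 1568) (nat_lit 0) [nat_lit 3026, nat_lit 1082, nat_lit 1730, nat_lit 1514, nat_lit 1622, nat_lit 1550, nat_lit 1570] (nat_lit 2) [nat_lit 8128] false,
   Spec.mk (nat_lit 1570) (nat_lit 0) [nat_lit 3028, nat_lit 1084, nat_lit 1732, nat_lit 1516, nat_lit 1624, nat_lit 1552, nat_lit 1576, nat_lit 1568, nat_lit 1572] (nat_lit 1) [nat_lit 8130] false,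
   Spec.mk (nat_lit 1572) (nat_lit 0) [nat_lit 3030, nat_lit 1086, nat_lit 1734, nat_lit 1518, nat_lit 1626, nat_lit 1554, nat_lit 1578, nat_lit 1570] (nat_lit 2) [] false,
   Spec.mk (nat_lit 1576) (nat_lit 0) [nat_lit 3034, nat_lit 1090, nat_lit 1738, nat_lit 1522, nat_lit 1630, nat_lit 1558, nat_lit 1594, nat_lit 1570, nat_lit 1578] (nat_lit 1) [nat_lit 8136] false,
   Spec.mk (nat_lit 1578) (nat_lit 0) [nat_lit 3036, nat_lit 1092, nat_lit 1740, nat_lit 1524, nat_lit 1632, nat_lit 1560, nat_lit 1596, nat_lit 1572, nat_lit 1584, nat_lit 1576] (nat_lit 0) [] false,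
   Spec.mk (nat_lit 1584) (nat_lit 0) [nat_lit 3042, nat_lit 1098, nat_lit 1746, nat_lit 1530, nat_lit 1638, nat_lit 1602, nat_lit 1578] (nat_lit 0) [] false,
   Spec.mk (nat_lit 1594) (nat_lit 0) [nat_lit 3052, nat_lit 1108, nat_lit 1756, nat_lit 1648, nat_lit 1576, nat_lit 1596] (nat_lit 1) [nat_lit 8154] false]

noncomputable def sp5 : List Spec :=
  [Spec.mk (nat_lit 1596) (nat_lit 0) [nat_lit 3054, nat_lit 1110, nat_lit 1758, nat_lit 1650, nat_lit 1578, nat_lit 1602, nat_lit 1594] (nat_lit 1) [] false,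
   Spec.mk (nat_lit 1602) (nat_lit 1) [nat_lit 3060, nat_lit 1116, nat_lit 1764, nat_lit 1656, nat_lit 1584, nat_lit 1596] (nat_lit 0) [] false,
   Spec.mk (nat_lit 1622) (nat_lit 0) [nat_lit 3080, nat_lit 1136, nat_lit 1784, nat_lit 1568, nat_lit 1624] (nat_lit 3) [nat_lit 8182] false,
   Spec.mk (nat_lit 1624) (nat_lit 0) [nat_lit 3082, nat_lit 1138, nat_lit 1786, nat_lit 1570, nat_lit 1630, nat_lit 1622, nat_lit 1626] (nat_lit 2) [nat_lit 8184] false,
   Spec.mk (nat_lit 1626) (nat_lit 0) [nat_lit 3084, nat_lit 1140, nat_lit 1788, nat_lit 1572, nat_lit 1632, nat_lit 1624] (nat_lit 3) [] false,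
   Spec.mk (nat_lit 1630) (nat_lit 0) [nat_lit 3088, nat_lit 1144, nat_lit 1792, nat_lit 1576, nat_lit 1648, nat_lit 1624, nat_lit 1632] (nat_lit 3) [nat_lit 8190] false,
   Spec.mk (nat_lit 1632) (nat_lit 0) [nat_lit 3090, nat_lit 1146, nat_lit 1794, nat_lit 1578, nat_lit 1650, nat_lit 1626, nat_lit 1638, nat_lit 1630] (nat_lit 2) [] false,
   Spec.mk (nat_lit 1638) (nat_lit 0) [nat_lit 3096, nat_lit 1152, nat_lit 1800, nat_lit 1584, nat_lit 1656, nat_lit 1632] (nat_lit 3) [] false,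
   Spec.mk (nat_lit 1648) (nat_lit 0) [nat_lit 3106, nat_lit 1162, nat_lit 1810, nat_lit 1594, nat_lit 1630, nat_lit 1650] (nat_lit 1) [nat_lit 8208] false,
   Spec.mk (nat_lit 1650) (nat_lit 0) [nat_lit 3108, nat_lit 1164, nat_lit 1812, nat_lit 1596, nat_lit 1632, nat_lit 1656, nat_lit 1648] (nat_lit 1) [] false,
   Spec.mk (nat_lit 1656) (nat_lit 0) [nat_lit 3114, nat_lit 1170, nat_lit 1818, nat_lit 1602, nat_lit 1638, nat_lit 1674, nat_lit 1650] (nat_lit 0) [] false,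
   Spec.mk (nat_lit 1674) (nat_lit 1) [nat_lit 3132, nat_lit 1188, nat_lit 1836, nat_lit 1656] (nat_lit 0) [] false,
   Spec.mk (nat_lit 1706) (nat_lit 1) [nat_lit 3164, nat_lit 1220, nat_lit 1544, nat_lit 1712, nat_lit 1708] (nat_lit 0) [nat_lit 8266] false,
   Spec.mk (nat_lit 1708) (nat_lit 1) [nat_lit 3166, nat_lit 1222, nat_lit 1546, nat_lit 1714, nat_lit 1706] (nat_lit 0) [nat_lit 8268] false,
   Spec.mk (nat_lit 1712) (nat_lit 0) [nat_lit 3170, nat_lit 1226, nat_lit 1550, nat_lit 1730, nat_lit 1706, nat_lit 1714] (nat_lit 1) [nat_lit 8272] false,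
   Spec.mk (nat_lit 1714) (nat_lit 1) [nat_lit 3172, nat_lit 1228, nat_lit 1552, nat_lit 1732, nat_lit 1708, nat_lit 1720, nat_lit 1712, nat_lit 1716] (nat_lit 0) [nat_lit 8274] false,
   Spec.mk (nat_lit 1716) (nat_lit 1) [nat_lit 3174, nat_lit 1230, nat_lit 1554, nat_lit 1734, nat_lit 1722, nat_lit 1714] (nat_lit 0) [] false,
   Spec.mk (nat_lit 1720) (nat_lit 0) [nat_lit 3178, nat_lit 1234, nat_lit 1558, nat_lit 1738, nat_lit 1714, nat_lit 1722] (nat_lit 1) [nat_lit 8280] false,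
   Spec.mk (nat_lit 1722) (nat_lit 1) [nat_lit 3180, nat_lit 1236, nat_lit 1560, nat_lit 1740, nat_lit 1716, nat_lit 1720] (nat_lit 0) [] false,
   Spec.mk (nat_lit 1730) (nat_lit 0) [nat_lit 3188, nat_lit 1244, nat_lit 1568, nat_lit 1784, nat_lit 1712, nat_lit 1732] (nat_lit 1) [nat_lit 8290] false,
   Spec.mk (nat_lit 1732) (nat_lit 0) [nat_lit 3190, nat_lit 1246, nat_lit 1570, nat_lit 1786, nat_lit 1714, nat_lit 1738, nat_lit 1730, nat_lit 1734] (nat_lit 0) [nat_lit 8292] false,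
   Spec.mk (nat_lit 1734) (nat_lit 0) [nat_lit 3192, nat_lit 1248, nat_lit 1572, nat_lit 1788, nat_lit 1716, nat_lit 1740, nat_lit 1732] (nat_lit 1) [] false,
   Spec.mk (nat_lit 1738) (nat_lit 0) [nat_lit 3196, nat_lit 1252, nat_lit 1576, nat_lit 1792, nat_lit 1720, nat_lit 1756, nat_lit 1732, nat_lit 1740] (nat_lit 0) [nat_lit 8298] false,
   Spec.mk (nat_lit 1740) (nat_lit 1) [nat_lit 3198, nat_lit 1254, nat_lit 1578, nat_lit 1794, nat_lit 1722, nat_lit 1758, nat_lit 1734, nat_lit 1746, nat_lit 1738] (nat_lit 0) [] false,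
   Spec.mk (nat_lit 1746) (nat_lit 1) [nat_lit 3204, nat_lit 1260, nat_lit 1584, nat_lit 1800, nat_lit 1764, nat_lit 1740] (nat_lit 0) [] false,
   Spec.mk (nat_lit 1756) (nat_lit 0) [nat_lit 3214, nat_lit 1270, nat_lit 1594, nat_lit 1810, nat_lit 1738, nat_lit 1758] (nat_lit 1) [nat_lit 8316] false,
   Spec.mk (nat_lit 1758) (nat_lit 0) [nat_lit 3216, nat_lit 1272, nat_lit 1596, nat_lit 1812, nat_lit 1740, nat_lit 1764, nat_lit 1756] (nat_lit 1) [] false,
   Spec.mk (nat_lit 1764) (nat_lit 1) [nat_lit 3222, nat_lit 1278, nat_lit 1602, nat_lit 1818, nat_lit 1746, nat_lit 1758] (nat_lit 0) [] false,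
   Spec.mk (nat_lit 1784) (nat_lit 0) [nat_lit 3242, nat_lit 1298, nat_lit 1622, nat_lit 1946, nat_lit 1730, nat_lit 1786] (nat_lit 0) [nat_lit 8344] false,
   Spec.mk (nat_lit 1786) (nat_lit 1) [nat_lit 3244, nat_lit 1300, nat_lit 1624, nat_lit 1948, nat_lit 1732, nat_lit 1792, nat_lit 1784, nat_lit 1788] (nat_lit 0) [nat_lit 8346] false,
   Spec.mk (nat_lit 1788) (nat_lit 0) [nat_lit 3246, nat_lit 1302, nat_lit 1626, nat_lit 1950, nat_lit 1734, nat_lit 1794, nat_lit 1786] (nat_lit 0) [] false,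
   Spec.mk (nat_lit 1792) (nat_lit 0) [nat_lit 3250, nat_lit 1306, nat_lit 1630, nat_lit 1954, nat_lit 1738, nat_lit 1810, nat_lit 1786, nat_lit 1794] (nat_lit 0) [nat_lit 8352] false,
   Spec.mk (nat_lit 1794) (nat_lit 1) [nat_lit 3252, nat_lit 1308, nat_lit 1632, nat_lit 1956, nat_lit 1740, nat_lit 1812, nat_lit 1788, nat_lit 1800, nat_lit 1792] (nat_lit 0) [] false,
   Spec.mk (nat_lit 1800) (nat_lit 0) [nat_lit 3258, nat_lit 1314, nat_lit 1638, nat_lit 1962, nat_lit 1746, nat_lit 1818, nat_lit 1794] (nat_lit 0) [] false,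
   Spec.mk (nat_lit 1810) (nat_lit 1) [nat_lit 3268, nat_lit 1324, nat_lit 1648, nat_lit 1972, nat_lit 1756, nat_lit 1864, nat_lit 1792, nat_lit 1812] (nat_lit 0) [nat_lit 8370] false,
   Spec.mk (nat_lit 1812) (nat_lit 1) [nat_lit 3270, nat_lit 1326, nat_lit 1650, nat_lit 1974, nat_lit 1758, nat_lit 1866, nat_lit 1794, nat_lit 1818, nat_lit 1810] (nat_lit 0) [] false,
   Spec.mk (nat_lit 1818) (nat_lit 2) [nat_lit 3276, nat_lit 1332, nat_lit 1656, nat_lit 1980, nat_lit 1764, nat_lit 1872, nat_lit 1800, nat_lit 1836, nat_lit 1812] (nat_lit 0) [] false,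
   Spec.mk (nat_lit 1836) (nat_lit 2) [nat_lit 3294, nat_lit 1350, nat_lit 1674, nat_lit 1998, nat_lit 1890, nat_lit 1818] (nat_lit 0) [] false,
   Spec.mk (nat_lit 1864) (nat_lit 1) [nat_lit 3322, nat_lit 1378, nat_lit 2026, nat_lit 1810, nat_lit 1866] (nat_lit 0) [nat_lit 8424] false,
   Spec.mk (nat_lit 1866) (nat_lit 1) [nat_lit 3324, nat_lit 1380, nat_lit 2028, nat_lit 1812, nat_lit 1872, nat_lit 1864] (nat_lit 0) [] false,
   Spec.mk (nat_lit 1872) (nat_lit 1) [nat_lit 3330, nat_lit 1386, nat_lit 2034, nat_lit 1818, nat_lit 1890, nat_lit 1866] (nat_lit 0) [] false,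
   Spec.mk (nat_lit 1890) (nat_lit 3) [nat_lit 3348, nat_lit 1404, nat_lit 2052, nat_lit 1836, nat_lit 1872] (nat_lit 0) [] false,
   Spec.mk (nat_lit 1946) (nat_lit 1) [nat_lit 3404, nat_lit 1784, nat_lit 1948] (nat_lit 0) [nat_lit 8506] false,
   Spec.mk (nat_lit 1948) (nat_lit 2) [nat_lit 3406, nat_lit 1786, nat_lit 1954, nat_lit 1946, nat_lit 1950] (nat_lit 0) [nat_lit 8508] false,
   Spec.mk (nat_lit 1950) (nat_lit 1) [nat_lit 3408, nat_lit 1788, nat_lit 1956, nat_lit 1948] (nat_lit 0) [] false,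
   Spec.mk (nat_lit 1954) (nat_lit 1) [nat_lit 3412, nat_lit 1792, nat_lit 1972, nat_lit 1948, nat_lit 1956] (nat_lit 0) [nat_lit 8514] false,
   Spec.mk (nat_lit 1956) (nat_lit 2) [nat_lit 3414, nat_lit 1794, nat_lit 1974, nat_lit 1950, nat_lit 1962, nat_lit 1954] (nat_lit 0) [] false,
   Spec.mk (nat_lit 1962) (nat_lit 1) [nat_lit 3420, nat_lit 1800, nat_lit 1980, nat_lit 1956] (nat_lit 0) [] false,
   Spec.mk (nat_lit 1972) (nat_lit 1) [nat_lit 3430, nat_lit 1810, nat_lit 2026, nat_lit 1954, nat_lit 1974] (nat_lit 0) [nat_lit 8532] false,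
   Spec.mk (nat_lit 1974) (nat_lit 1) [nat_lit 3432, nat_lit 1812, nat_lit 2028, nat_lit 1956, nat_lit 1980, nat_lit 1972] (nat_lit 0) [] false,
   Spec.mk (nat_lit 1980) (nat_lit 2) [nat_lit 3438, nat_lit 1818, nat_lit 2034, nat_lit 1962, nat_lit 1998, nat_lit 1974] (nat_lit 0) [] false,
   Spec.mk (nat_lit 1998) (nat_lit 1) [nat_lit 3456, nat_lit 1836, nat_lit 2052, nat_lit 1980] (nat_lit 0) [] false,
   Spec.mk (nat_lit 2026) (nat_lit 3) [nat_lit 3484, nat_lit 1864, nat_lit 1972, nat_lit 2028] (nat_lit 0) [nat_lit 8586] false,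
   Spec.mk (nat_lit 2028) (nat_lit 3) [nat_lit 3486, nat_lit 1866, nat_lit 1974, nat_lit 2034, nat_lit 2026] (nat_lit 0) [] false,
   Spec.mk (nat_lit 2034) (nat_lit 3) [nat_lit 3492, nat_lit 1872, nat_lit 1980, nat_lit 2052, nat_lit 2028] (nat_lit 0) [] false,
   Spec.mk (nat_lit 2052) (nat_lit 4) [nat_lit 3510, nat_lit 1890, nat_lit 1998, nat_lit 2106, nat_lit 2034] (nat_lit 0) [] false,
   Spec.mk (nat_lit 2106) (nat_lit 5) [nat_lit 3564, nat_lit 2052] (nat_lit 0) [] false,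
   Spec.mk (nat_lit 2204) (nat_lit 3) [nat_lit 6578, nat_lit 746, nat_lit 2222, nat_lit 2210] (nat_lit 0) [nat_lit 8764] false,
   Spec.mk (nat_lit 2210) (nat_lit 1) [nat_lit 6584, nat_lit 752, nat_lit 2228, nat_lit 2204, nat_lit 2212] (nat_lit 0) [nat_lit 8770] false,
   Spec.mk (nat_lit 2212) (nat_lit 3) [nat_lit 6586, nat_lit 754, nat_lit 2230, nat_lit 2210] (nat_lit 0) [nat_lit 8772] false]

noncomputable def sp6 : List Spec :=
  [Spec.mk (nat_lit 2222) (nat_lit 1) [nat_lit 6596, nat_lit 764, nat_lit 2276, nat_lit 2204, nat_lit 2228] (nat_lit 0) [nat_lit 8782] false,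
   Spec.mk (nat_lit 2228) (nat_lit 1) [nat_lit 6602, nat_lit 770, nat_lit 2282, nat_lit 2210, nat_lit 2246, nat_lit 2222, nat_lit 2234, nat_lit 2230] (nat_lit 0) [nat_lit 8788] false,
   Spec.mk (nat_lit 2230) (nat_lit 2) [nat_lit 6604, nat_lit 772, nat_lit 2284, nat_lit 2212, nat_lit 2248, nat_lit 2236, nat_lit 2228] (nat_lit 0) [nat_lit 8790] false,
   Spec.mk (nat_lit 2234) (nat_lit 0) [nat_lit 6608, nat_lit 776, nat_lit 2288, nat_lit 2252, nat_lit 2228, nat_lit 2236] (nat_lit 1) [nat_lit 8794] false,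
   Spec.mk (nat_lit 2236) (nat_lit 2) [nat_lit 6610, nat_lit 778, nat_lit 2290, nat_lit 2254, nat_lit 2230, nat_lit 2234, nat_lit 2238] (nat_lit 0) [nat_lit 8796] false,
   Spec.mk (nat_lit 2238) (nat_lit 3) [nat_lit 6612, nat_lit 780, nat_lit 2292, nat_lit 2256, nat_lit 2236] (nat_lit 0) [] false,
   Spec.mk (nat_lit 2246) (nat_lit 0) [nat_lit 6620, nat_lit 788, nat_lit 2300, nat_lit 2228, nat_lit 2252, nat_lit 2248] (nat_lit 1) [nat_lit 8806] false,
   Spec.mk (nat_lit 2248) (nat_lit 0) [nat_lit 6622, nat_lit 790, nat_lit 2302, nat_lit 2230, nat_lit 2254, nat_lit 2246] (nat_lit 1) [nat_lit 8808] false,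
   Spec.mk (nat_lit 2252) (nat_lit 0) [nat_lit 6626, nat_lit 794, nat_lit 2306, nat_lit 2234, nat_lit 2246, nat_lit 2254] (nat_lit 1) [nat_lit 8812] false,
   Spec.mk (nat_lit 2254) (nat_lit 1) [nat_lit 6628, nat_lit 796, nat_lit 2308, nat_lit 2236, nat_lit 2248, nat_lit 2260, nat_lit 2252, nat_lit 2256] (nat_lit 0) [nat_lit 8814] false,
   Spec.mk (nat_lit 2256) (nat_lit 1) [nat_lit 6630, nat_lit 798, nat_lit 2310, nat_lit 2238, nat_lit 2262, nat_lit 2254] (nat_lit 0) [] false,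
   Spec.mk (nat_lit 2260) (nat_lit 1) [nat_lit 6634, nat_lit 802, nat_lit 2314, nat_lit 2254, nat_lit 2262] (nat_lit 0) [nat_lit 8820] false,
   Spec.mk (nat_lit 2262) (nat_lit 3) [nat_lit 6636, nat_lit 804, nat_lit 2316, nat_lit 2256, nat_lit 2260] (nat_lit 0) [] false,
   Spec.mk (nat_lit 2276) (nat_lit 1) [nat_lit 6650, nat_lit 818, nat_lit 2438, nat_lit 2222, nat_lit 2282] (nat_lit 0) [nat_lit 8836] false,
   Spec.mk (nat_lit 2282) (nat_lit 0) [nat_lit 6656, nat_lit 824, nat_lit 2444, nat_lit 2228, nat_lit 2300, nat_lit 2276, nat_lit 2288, nat_lit 2284] (nat_lit 0) [nat_lit 8842] false,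
   Spec.mk (nat_lit 2284) (nat_lit 1) [nat_lit 6658, nat_lit 826, nat_lit 2446, nat_lit 2230, nat_lit 2302, nat_lit 2290, nat_lit 2282] (nat_lit 0) [nat_lit 8844] false,
   Spec.mk (nat_lit 2288) (nat_lit 0) [nat_lit 6662, nat_lit 830, nat_lit 2450, nat_lit 2234, nat_lit 2306, nat_lit 2282, nat_lit 2290] (nat_lit 3) [nat_lit 8848] false,
   Spec.mk (nat_lit 2290) (nat_lit 0) [nat_lit 6664, nat_lit 832, nat_lit 2452, nat_lit 2236, nat_lit 2308, nat_lit 2284, nat_lit 2288, nat_lit 2292] (nat_lit 0) [nat_lit 8850] false,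
   Spec.mk (nat_lit 2292) (nat_lit 1) [nat_lit 6666, nat_lit 834, nat_lit 2454, nat_lit 2238, nat_lit 2310, nat_lit 2290] (nat_lit 0) [] false,
   Spec.mk (nat_lit 2300) (nat_lit 0) [nat_lit 6674, nat_lit 842, nat_lit 2462, nat_lit 2246, nat_lit 2354, nat_lit 2282, nat_lit 2306, nat_lit 2302] (nat_lit 0) [nat_lit 8860] false,
   Spec.mk (nat_lit 2302) (nat_lit 0) [nat_lit 6676, nat_lit 844, nat_lit 2464, nat_lit 2248, nat_lit 2356, nat_lit 2284, nat_lit 2308, nat_lit 2300] (nat_lit 0) [nat_lit 8862] false,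
   Spec.mk (nat_lit 2306) (nat_lit 0) [nat_lit 6680, nat_lit 848, nat_lit 2468, nat_lit 2252, nat_lit 2360, nat_lit 2288, nat_lit 2324, nat_lit 2300, nat_lit 2308] (nat_lit 1) [nat_lit 8866] false,
   Spec.mk (nat_lit 2308) (nat_lit 1) [nat_lit 6682, nat_lit 850, nat_lit 2470, nat_lit 2254, nat_lit 2362, nat_lit 2290, nat_lit 2326, nat_lit 2302, nat_lit 2314, nat_lit 2306, nat_lit 2310] (nat_lit 0) [nat_lit 8868] false,
   Spec.mk (nat_lit 2310) (nat_lit 1) [nat_lit 6684, nat_lit 852, nat_lit 2472, nat_lit 2256, nat_lit 2364, nat_lit 2292, nat_lit 2328, nat_lit 2316, nat_lit 2308] (nat_lit 0) [] false,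
   Spec.mk (nat_lit 2314) (nat_lit 0) [nat_lit 6688, nat_lit 856, nat_lit 2476, nat_lit 2260, nat_lit 2368, nat_lit 2332, nat_lit 2308, nat_lit 2316] (nat_lit 0) [nat_lit 8874] false,
   Spec.mk (nat_lit 2316) (nat_lit 2) [nat_lit 6690, nat_lit 858, nat_lit 2478, nat_lit 2262, nat_lit 2370, nat_lit 2334, nat_lit 2310, nat_lit 2314] (nat_lit 0) [] false,
   Spec.mk (nat_lit 2324) (nat_lit 0) [nat_lit 6698, nat_lit 866, nat_lit 2486, nat_lit 2378, nat_lit 2306, nat_lit 2326] (nat_lit 1) [nat_lit 8884] false,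
   Spec.mk (nat_lit 2326) (nat_lit 0) [nat_lit 6700, nat_lit 868, nat_lit 2488, nat_lit 2380, nat_lit 2308, nat_lit 2332, nat_lit 2324, nat_lit 2328] (nat_lit 0) [nat_lit 8886] false,
   Spec.mk (nat_lit 2328) (nat_lit 0) [nat_lit 6702, nat_lit 870, nat_lit 2490, nat_lit 2382, nat_lit 2310, nat_lit 2334, nat_lit 2326] (nat_lit 1) [] false,
   Spec.mk (nat_lit 2332) (nat_lit 1) [nat_lit 6706, nat_lit 874, nat_lit 2494, nat_lit 2386, nat_lit 2314, nat_lit 2326, nat_lit 2334] (nat_lit 0) [nat_lit 8892] false,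
   Spec.mk (nat_lit 2334) (nat_lit 2) [nat_lit 6708, nat_lit 876, nat_lit 2496, nat_lit 2388, nat_lit 2316, nat_lit 2328, nat_lit 2340, nat_lit 2332] (nat_lit 0) [] false,
   Spec.mk (nat_lit 2340) (nat_lit 3) [nat_lit 6714, nat_lit 882, nat_lit 2502, nat_lit 2394, nat_lit 2334] (nat_lit 0) [] false,
   Spec.mk (nat_lit 2354) (nat_lit 0) [nat_lit 6728, nat_lit 896, nat_lit 2516, nat_lit 2300, nat_lit 2360, nat_lit 2356] (nat_lit 1) [nat_lit 8914] false,
   Spec.mk (nat_lit 2356) (nat_lit 0) [nat_lit 6730, nat_lit 898, nat_lit 2518, nat_lit 2302, nat_lit 2362, nat_lit 2354] (nat_lit 1) [nat_lit 8916] false,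
   Spec.mk (nat_lit 2360) (nat_lit 0) [nat_lit 6734, nat_lit 902, nat_lit 2522, nat_lit 2306, nat_lit 2378, nat_lit 2354, nat_lit 2362] (nat_lit 3) [nat_lit 8920] false,
   Spec.mk (nat_lit 2362) (nat_lit 0) [nat_lit 6736, nat_lit 904, nat_lit 2524, nat_lit 2308, nat_lit 2380, nat_lit 2356, nat_lit 2368, nat_lit 2360, nat_lit 2364] (nat_lit 1) [nat_lit 8922] false,
   Spec.mk (nat_lit 2364) (nat_lit 0) [nat_lit 6738, nat_lit 906, nat_lit 2526, nat_lit 2310, nat_lit 2382, nat_lit 2370, nat_lit 2362] (nat_lit 1) [] false,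
   Spec.mk (nat_lit 2368) (nat_lit 0) [nat_lit 6742, nat_lit 910, nat_lit 2530, nat_lit 2314, nat_lit 2386, nat_lit 2362, nat_lit 2370] (nat_lit 3) [nat_lit 8928] false,
   Spec.mk (nat_lit 2370) (nat_lit 0) [nat_lit 6744, nat_lit 912, nat_lit 2532, nat_lit 2316, nat_lit 2388, nat_lit 2364, nat_lit 2368] (nat_lit 1) [] false,
   Spec.mk (nat_lit 2378) (nat_lit 0) [nat_lit 6752, nat_lit 920, nat_lit 2540, nat_lit 2324, nat_lit 2360, nat_lit 2380] (nat_lit 1) [nat_lit 8938] false,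
   Spec.mk (nat_lit 2380) (nat_lit 0) [nat_lit 6754, nat_lit 922, nat_lit 2542, nat_lit 2326, nat_lit 2362, nat_lit 2386, nat_lit 2378, nat_lit 2382] (nat_lit 0) [nat_lit 8940] false,
   Spec.mk (nat_lit 2382) (nat_lit 0) [nat_lit 6756, nat_lit 924, nat_lit 2544, nat_lit 2328, nat_lit 2364, nat_lit 2388, nat_lit 2380] (nat_lit 1) [] false,
   Spec.mk (nat_lit 2386) (nat_lit 0) [nat_lit 6760, nat_lit 928, nat_lit 2548, nat_lit 2332, nat_lit 2368, nat_lit 2404, nat_lit 2380, nat_lit 2388] (nat_lit 0) [nat_lit 8946] false,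
   Spec.mk (nat_lit 2388) (nat_lit 1) [nat_lit 6762, nat_lit 930, nat_lit 2550, nat_lit 2334, nat_lit 2370, nat_lit 2406, nat_lit 2382, nat_lit 2394, nat_lit 2386] (nat_lit 0) [] false,
   Spec.mk (nat_lit 2394) (nat_lit 1) [nat_lit 6768, nat_lit 936, nat_lit 2556, nat_lit 2340, nat_lit 2412, nat_lit 2388] (nat_lit 0) [] false,
   Spec.mk (nat_lit 2404) (nat_lit 1) [nat_lit 6778, nat_lit 946, nat_lit 2566, nat_lit 2386, nat_lit 2406] (nat_lit 0) [nat_lit 8964] false,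
   Spec.mk (nat_lit 2406) (nat_lit 1) [nat_lit 6780, nat_lit 948, nat_lit 2568, nat_lit 2388, nat_lit 2412, nat_lit 2404] (nat_lit 0) [] false,
   Spec.mk (nat_lit 2412) (nat_lit 3) [nat_lit 6786, nat_lit 954, nat_lit 2574, nat_lit 2394, nat_lit 2406] (nat_lit 0) [] false,
   Spec.mk (nat_lit 2438) (nat_lit 1) [nat_lit 6812, nat_lit 980, nat_lit 2924, nat_lit 2276, nat_lit 2444] (nat_lit 0) [nat_lit 8998] false,
   Spec.mk (nat_lit 2444) (nat_lit 0) [nat_lit 6818, nat_lit 986, nat_lit 2930, nat_lit 2282, nat_lit 2462, nat_lit 2438, nat_lit 2450, nat_lit 2446] (nat_lit 0) [nat_lit 9004] false,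
   Spec.mk (nat_lit 2446) (nat_lit 1) [nat_lit 6820, nat_lit 988, nat_lit 2932, nat_lit 2284, nat_lit 2464, nat_lit 2452, nat_lit 2444] (nat_lit 0) [nat_lit 9006] false,
   Spec.mk (nat_lit 2450) (nat_lit 0) [nat_lit 6824, nat_lit 992, nat_lit 2936, nat_lit 2288, nat_lit 2468, nat_lit 2444, nat_lit 2452] (nat_lit 3) [nat_lit 9010] false,
   Spec.mk (nat_lit 2452) (nat_lit 0) [nat_lit 6826, nat_lit 994, nat_lit 2938, nat_lit 2290, nat_lit 2470, nat_lit 2446, nat_lit 2450, nat_lit 2454] (nat_lit 0) [nat_lit 9012] false,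
   Spec.mk (nat_lit 2454) (nat_lit 1) [nat_lit 6828, nat_lit 996, nat_lit 2940, nat_lit 2292, nat_lit 2472, nat_lit 2452] (nat_lit 0) [] false,
   Spec.mk (nat_lit 2462) (nat_lit 0) [nat_lit 6836, nat_lit 1004, nat_lit 2948, nat_lit 2300, nat_lit 2516, nat_lit 2444, nat_lit 2468, nat_lit 2464] (nat_lit 1) [nat_lit 9022] true,
   Spec.mk (nat_lit 2464) (nat_lit 0) [nat_lit 6838, nat_lit 1006, nat_lit 2950, nat_lit 2302, nat_lit 2518, nat_lit 2446, nat_lit 2470, nat_lit 2462] (nat_lit 1) [nat_lit 9024] false,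
   Spec.mk (nat_lit 2468) (nat_lit 0) [nat_lit 6842, nat_lit 1010, nat_lit 2954, nat_lit 2306, nat_lit 2522, nat_lit 2450, nat_lit 2486, nat_lit 2462, nat_lit 2470] (nat_lit 2) [nat_lit 9028] true,
   Spec.mk (nat_lit 2470) (nat_lit 0) [nat_lit 6844, nat_lit 1012, nat_lit 2956, nat_lit 2308, nat_lit 2524, nat_lit 2452, nat_lit 2488, nat_lit 2464, nat_lit 2476, nat_lit 2468, nat_lit 2472] (nat_lit 0) [nat_lit 9030] true,
   Spec.mk (nat_lit 2472) (nat_lit 0) [nat_lit 6846, nat_lit 1014, nat_lit 2958, nat_lit 2310, nat_lit 2526, nat_lit 2454, nat_lit 2490, nat_lit 2478, nat_lit 2470] (nat_lit 0) [] false,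
   Spec.mk (nat_lit 2476) (nat_lit 0) [nat_lit 6850, nat_lit 1018, nat_lit 2962, nat_lit 2314, nat_lit 2530, nat_lit 2494, nat_lit 2470, nat_lit 2478] (nat_lit 1) [nat_lit 9036] false]

noncomputable def sp7 : List Spec :=
  [Spec.mk (nat_lit 2478) (nat_lit 1) [nat_lit 6852, nat_lit 1020, nat_lit 2964, nat_lit 2316, nat_lit 2532, nat_lit 2496, nat_lit 2472, nat_lit 2476] (nat_lit 0) [] false,
   Spec.mk (nat_lit 2486) (nat_lit 0) [nat_lit 6860, nat_lit 1028, nat_lit 2972, nat_lit 2324, nat_lit 2540, nat_lit 2468, nat_lit 2488] (nat_lit 3) [nat_lit 9046] false,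
   Spec.mk (nat_lit 2488) (nat_lit 0) [nat_lit 6862, nat_lit 1030, nat_lit 2974, nat_lit 2326, nat_lit 2542, nat_lit 2470, nat_lit 2494, nat_lit 2486, nat_lit 2490] (nat_lit 2) [nat_lit 9048] false,
   Spec.mk (nat_lit 2490) (nat_lit 0) [nat_lit 6864, nat_lit 1032, nat_lit 2976, nat_lit 2328, nat_lit 2544, nat_lit 2472, nat_lit 2496, nat_lit 2488] (nat_lit 3) [] false,
   Spec.mk (nat_lit 2494) (nat_lit 0) [nat_lit 6868, nat_lit 1036, nat_lit 2980, nat_lit 2332, nat_lit 2548, nat_lit 2476, nat_lit 2488, nat_lit 2496] (nat_lit 1) [nat_lit 9054] false,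
   Spec.mk (nat_lit 2496) (nat_lit 0) [nat_lit 6870, nat_lit 1038, nat_lit 2982, nat_lit 2334, nat_lit 2550, nat_lit 2478, nat_lit 2490, nat_lit 2502, nat_lit 2494] (nat_lit 0) [] false,
   Spec.mk (nat_lit 2502) (nat_lit 1) [nat_lit 6876, nat_lit 1044, nat_lit 2988, nat_lit 2340, nat_lit 2556, nat_lit 2496] (nat_lit 0) [] false,
   Spec.mk (nat_lit 2516) (nat_lit 0) [nat_lit 6890, nat_lit 1058, nat_lit 3002, nat_lit 2354, nat_lit 2678, nat_lit 2462, nat_lit 2522, nat_lit 2518] (nat_lit 0) [nat_lit 9076] false,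
   Spec.mk (nat_lit 2518) (nat_lit 0) [nat_lit 6892, nat_lit 1060, nat_lit 3004, nat_lit 2356, nat_lit 2680, nat_lit 2464, nat_lit 2524, nat_lit 2516] (nat_lit 0) [nat_lit 9078] false,
   Spec.mk (nat_lit 2522) (nat_lit 0) [nat_lit 6896, nat_lit 1064, nat_lit 3008, nat_lit 2360, nat_lit 2684, nat_lit 2468, nat_lit 2540, nat_lit 2516, nat_lit 2524] (nat_lit 2) [nat_lit 9082] true,
   Spec.mk (nat_lit 2524) (nat_lit 0) [nat_lit 6898, nat_lit 1066, nat_lit 3010, nat_lit 2362, nat_lit 2686, nat_lit 2470, nat_lit 2542, nat_lit 2518, nat_lit 2530, nat_lit 2522, nat_lit 2526] (nat_lit 0) [nat_lit 9084] true,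
   Spec.mk (nat_lit 2526) (nat_lit 0) [nat_lit 6900, nat_lit 1068, nat_lit 3012, nat_lit 2364, nat_lit 2688, nat_lit 2472, nat_lit 2544, nat_lit 2532, nat_lit 2524] (nat_lit 0) [] false,
   Spec.mk (nat_lit 2530) (nat_lit 0) [nat_lit 6904, nat_lit 1072, nat_lit 3016, nat_lit 2368, nat_lit 2692, nat_lit 2476, nat_lit 2548, nat_lit 2524, nat_lit 2532] (nat_lit 2) [nat_lit 9090] false,
   Spec.mk (nat_lit 2532) (nat_lit 0) [nat_lit 6906, nat_lit 1074, nat_lit 3018, nat_lit 2370, nat_lit 2694, nat_lit 2478, nat_lit 2550, nat_lit 2526, nat_lit 2530] (nat_lit 0) [] false,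
   Spec.mk (nat_lit 2540) (nat_lit 0) [nat_lit 6914, nat_lit 1082, nat_lit 3026, nat_lit 2378, nat_lit 2702, nat_lit 2486, nat_lit 2594, nat_lit 2522, nat_lit 2542] (nat_lit 1) [nat_lit 9100] false,
   Spec.mk (nat_lit 2542) (nat_lit 0) [nat_lit 6916, nat_lit 1084, nat_lit 3028, nat_lit 2380, nat_lit 2704, nat_lit 2488, nat_lit 2596, nat_lit 2524, nat_lit 2548, nat_lit 2540, nat_lit 2544] (nat_lit 0) [nat_lit 9102] false,
   Spec.mk (nat_lit 2544) (nat_lit 0) [nat_lit 6918, nat_lit 1086, nat_lit 3030, nat_lit 2382, nat_lit 2706, nat_lit 2490, nat_lit 2598, nat_lit 2526, nat_lit 2550, nat_lit 2542] (nat_lit 1) [] false,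
   Spec.mk (nat_lit 2548) (nat_lit 0) [nat_lit 6922, nat_lit 1090, nat_lit 3034, nat_lit 2386, nat_lit 2710, nat_lit 2494, nat_lit 2602, nat_lit 2530, nat_lit 2566, nat_lit 2542, nat_lit 2550] (nat_lit 0) [nat_lit 9108] false,
   Spec.mk (nat_lit 2550) (nat_lit 1) [nat_lit 6924, nat_lit 1092, nat_lit 3036, nat_lit 2388, nat_lit 2712, nat_lit 2496, nat_lit 2604, nat_lit 2532, nat_lit 2568, nat_lit 2544, nat_lit 2556, nat_lit 2548] (nat_lit 0) [] false,
   Spec.mk (nat_lit 2556) (nat_lit 1) [nat_lit 6930, nat_lit 1098, nat_lit 3042, nat_lit 2394, nat_lit 2718, nat_lit 2502, nat_lit 2610, nat_lit 2574, nat_lit 2550] (nat_lit 0) [] false,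
   Spec.mk (nat_lit 2566) (nat_lit 0) [nat_lit 6940, nat_lit 1108, nat_lit 3052, nat_lit 2404, nat_lit 2728, nat_lit 2620, nat_lit 2548, nat_lit 2568] (nat_lit 0) [nat_lit 9126] false,
   Spec.mk (nat_lit 2568) (nat_lit 0) [nat_lit 6942, nat_lit 1110, nat_lit 3054, nat_lit 2406, nat_lit 2730, nat_lit 2622, nat_lit 2550, nat_lit 2574, nat_lit 2566] (nat_lit 0) [] false,
   Spec.mk (nat_lit 2574) (nat_lit 2) [nat_lit 6948, nat_lit 1116, nat_lit 3060, nat_lit 2412, nat_lit 2736, nat_lit 2628, nat_lit 2556, nat_lit 2568] (nat_lit 0) [] false,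
   Spec.mk (nat_lit 2594) (nat_lit 0) [nat_lit 6968, nat_lit 1136, nat_lit 3080, nat_lit 2756, nat_lit 2540, nat_lit 2596] (nat_lit 1) [nat_lit 9154] false,
   Spec.mk (nat_lit 2596) (nat_lit 0) [nat_lit 6970, nat_lit 1138, nat_lit 3082, nat_lit 2758, nat_lit 2542, nat_lit 2602, nat_lit 2594, nat_lit 2598] (nat_lit 0) [nat_lit 9156] false,
   Spec.mk (nat_lit 2598) (nat_lit 0) [nat_lit 6972, nat_lit 1140, nat_lit 3084, nat_lit 2760, nat_lit 2544, nat_lit 2604, nat_lit 2596] (nat_lit 1) [] false,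
   Spec.mk (nat_lit 2602) (nat_lit 0) [nat_lit 6976, nat_lit 1144, nat_lit 3088, nat_lit 2764, nat_lit 2548, nat_lit 2620, nat_lit 2596, nat_lit 2604] (nat_lit 1) [nat_lit 9162] false,
   Spec.mk (nat_lit 2604) (nat_lit 0) [nat_lit 6978, nat_lit 1146, nat_lit 3090, nat_lit 2766, nat_lit 2550, nat_lit 2622, nat_lit 2598, nat_lit 2610, nat_lit 2602] (nat_lit 0) [] false,
   Spec.mk (nat_lit 2610) (nat_lit 0) [nat_lit 6984, nat_lit 1152, nat_lit 3096, nat_lit 2772, nat_lit 2556, nat_lit 2628, nat_lit 2604] (nat_lit 1) [] false,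
   Spec.mk (nat_lit 2620) (nat_lit 1) [nat_lit 6994, nat_lit 1162, nat_lit 3106, nat_lit 2782, nat_lit 2566, nat_lit 2602, nat_lit 2622] (nat_lit 0) [nat_lit 9180] false,
   Spec.mk (nat_lit 2622) (nat_lit 1) [nat_lit 6996, nat_lit 1164, nat_lit 3108, nat_lit 2784, nat_lit 2568, nat_lit 2604, nat_lit 2628, nat_lit 2620] (nat_lit 0) [] false,
   Spec.mk (nat_lit 2628) (nat_lit 2) [nat_lit 7002, nat_lit 1170, nat_lit 3114, nat_lit 2790, nat_lit 2574, nat_lit 2610, nat_lit 2646, nat_lit 2622] (nat_lit 0) [] false,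
   Spec.mk (nat_lit 2646) (nat_lit 3) [nat_lit 7020, nat_lit 1188, nat_lit 3132, nat_lit 2808, nat_lit 2628] (nat_lit 0) [] false,
   Spec.mk (nat_lit 2678) (nat_lit 0) [nat_lit 7052, nat_lit 1220, nat_lit 3164, nat_lit 2516, nat_lit 2684, nat_lit 2680] (nat_lit 1) [nat_lit 9238] false,
   Spec.mk (nat_lit 2680) (nat_lit 0) [nat_lit 7054, nat_lit 1222, nat_lit 3166, nat_lit 2518, nat_lit 2686, nat_lit 2678] (nat_lit 1) [nat_lit 9240] false,
   Spec.mk (nat_lit 2684) (nat_lit 0) [nat_lit 7058, nat_lit 1226, nat_lit 3170, nat_lit 2522, nat_lit 2702, nat_lit 2678, nat_lit 2686] (nat_lit 3) [nat_lit 9244] false,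
   Spec.mk (nat_lit 2686) (nat_lit 0) [nat_lit 7060, nat_lit 1228, nat_lit 3172, nat_lit 2524, nat_lit 2704, nat_lit 2680, nat_lit 2692, nat_lit 2684, nat_lit 2688] (nat_lit 1) [nat_lit 9246] false,
   Spec.mk (nat_lit 2688) (nat_lit 0) [nat_lit 7062, nat_lit 1230, nat_lit 3174, nat_lit 2526, nat_lit 2706, nat_lit 2694, nat_lit 2686] (nat_lit 1) [] false,
   Spec.mk (nat_lit 2692) (nat_lit 0) [nat_lit 7066, nat_lit 1234, nat_lit 3178, nat_lit 2530, nat_lit 2710, nat_lit 2686, nat_lit 2694] (nat_lit 3) [nat_lit 9252] false,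
   Spec.mk (nat_lit 2694) (nat_lit 0) [nat_lit 7068, nat_lit 1236, nat_lit 3180, nat_lit 2532, nat_lit 2712, nat_lit 2688, nat_lit 2692] (nat_lit 1) [] false,
   Spec.mk (nat_lit 2702) (nat_lit 0) [nat_lit 7076, nat_lit 1244, nat_lit 3188, nat_lit 2540, nat_lit 2756, nat_lit 2684, nat_lit 2704] (nat_lit 3) [nat_lit 9262] false,
   Spec.mk (nat_lit 2704) (nat_lit 0) [nat_lit 7078, nat_lit 1246, nat_lit 3190, nat_lit 2542, nat_lit 2758, nat_lit 2686, nat_lit 2710, nat_lit 2702, nat_lit 2706] (nat_lit 2) [nat_lit 9264] false,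
   Spec.mk (nat_lit 2706) (nat_lit 0) [nat_lit 7080, nat_lit 1248, nat_lit 3192, nat_lit 2544, nat_lit 2760, nat_lit 2688, nat_lit 2712, nat_lit 2704] (nat_lit 3) [] false,
   Spec.mk (nat_lit 2710) (nat_lit 0) [nat_lit 7084, nat_lit 1252, nat_lit 3196, nat_lit 2548, nat_lit 2764, nat_lit 2692, nat_lit 2728, nat_lit 2704, nat_lit 2712] (nat_lit 2) [nat_lit 9270] false,
   Spec.mk (nat_lit 2712) (nat_lit 0) [nat_lit 7086, nat_lit 1254, nat_lit 3198, nat_lit 2550, nat_lit 2766, nat_lit 2694, nat_lit 2730, nat_lit 2706, nat_lit 2718, nat_lit 2710] (nat_lit 1) [] false,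
   Spec.mk (nat_lit 2718) (nat_lit 0) [nat_lit 7092, nat_lit 1260, nat_lit 3204, nat_lit 2556, nat_lit 2772, nat_lit 2736, nat_lit 2712] (nat_lit 1) [] false,
   Spec.mk (nat_lit 2728) (nat_lit 0) [nat_lit 7102, nat_lit 1270, nat_lit 3214, nat_lit 2566, nat_lit 2782, nat_lit 2710, nat_lit 2730] (nat_lit 3) [nat_lit 9288] false,
   Spec.mk (nat_lit 2730) (nat_lit 0) [nat_lit 7104, nat_lit 1272, nat_lit 3216, nat_lit 2568, nat_lit 2784, nat_lit 2712, nat_lit 2736, nat_lit 2728] (nat_lit 3) [] false,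
   Spec.mk (nat_lit 2736) (nat_lit 0) [nat_lit 7110, nat_lit 1278, nat_lit 3222, nat_lit 2574, nat_lit 2790, nat_lit 2718, nat_lit 2730] (nat_lit 1) [] false,
   Spec.mk (nat_lit 2756) (nat_lit 0) [nat_lit 7130, nat_lit 1298, nat_lit 3242, nat_lit 2594, nat_lit 2702, nat_lit 2758] (nat_lit 1) [nat_lit 9316] false,
   Spec.mk (nat_lit 2758) (nat_lit 0) [nat_lit 7132, nat_lit 1300, nat_lit 3244, nat_lit 2596, nat_lit 2704, nat_lit 2764, nat_lit 2756, nat_lit 2760] (nat_lit 0) [nat_lit 9318] false,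
   Spec.mk (nat_lit 2760) (nat_lit 0) [nat_lit 7134, nat_lit 1302, nat_lit 3246, nat_lit 2598, nat_lit 2706, nat_lit 2766, nat_lit 2758] (nat_lit 1) [] false,
   Spec.mk (nat_lit 2764) (nat_lit 0) [nat_lit 7138, nat_lit 1306, nat_lit 3250, nat_lit 2602, nat_lit 2710, nat_lit 2782, nat_lit 2758, nat_lit 2766] (nat_lit 1) [nat_lit 9324] false,
   Spec.mk (nat_lit 2766) (nat_lit 0) [nat_lit 7140, nat_lit 1308, nat_lit 3252, nat_lit 2604, nat_lit 2712, nat_lit 2784, nat_lit 2760, nat_lit 2772, nat_lit 2764] (nat_lit 0) [] false,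
   Spec.mk (nat_lit 2772) (nat_lit 0) [nat_lit 7146, nat_lit 1314, nat_lit 3258, nat_lit 2610, nat_lit 2718, nat_lit 2790, nat_lit 2766] (nat_lit 1) [] false,
   Spec.mk (nat_lit 2782) (nat_lit 0) [nat_lit 7156, nat_lit 1324, nat_lit 3268, nat_lit 2620, nat_lit 2728, nat_lit 2836, nat_lit 2764, nat_lit 2784] (nat_lit 0) [nat_lit 9342] false,
   Spec.mk (nat_lit 2784) (nat_lit 0) [nat_lit 7158, nat_lit 1326, nat_lit 3270, nat_lit 2622, nat_lit 2730, nat_lit 2838, nat_lit 2766, nat_lit 2790, nat_lit 2782] (nat_lit 0) [] false,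
   Spec.mk (nat_lit 2790) (nat_lit 1) [nat_lit 7164, nat_lit 1332, nat_lit 3276, nat_lit 2628, nat_lit 2736, nat_lit 2844, nat_lit 2772, nat_lit 2808, nat_lit 2784] (nat_lit 0) [] false,
   Spec.mk (nat_lit 2808) (nat_lit 1) [nat_lit 7182, nat_lit 1350, nat_lit 3294, nat_lit 2646, nat_lit 2862, nat_lit 2790] (nat_lit 0) [] false,
   Spec.mk (nat_lit 2836) (nat_lit 1) [nat_lit 7210, nat_lit 1378, nat_lit 3322, nat_lit 2782, nat_lit 2838] (nat_lit 0) [nat_lit 9396] false]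

noncomputable def sp8 : List Spec :=
  [Spec.mk (nat_lit 2838) (nat_lit 1) [nat_lit 7212, nat_lit 1380, nat_lit 3324, nat_lit 2784, nat_lit 2844, nat_lit 2836] (nat_lit 0) [] false,
   Spec.mk (nat_lit 2844) (nat_lit 1) [nat_lit 7218, nat_lit 1386, nat_lit 3330, nat_lit 2790, nat_lit 2862, nat_lit 2838] (nat_lit 0) [] false,
   Spec.mk (nat_lit 2862) (nat_lit 3) [nat_lit 7236, nat_lit 1404, nat_lit 3348, nat_lit 2808, nat_lit 2844] (nat_lit 0) [] false,
   Spec.mk (nat_lit 2924) (nat_lit 2) [nat_lit 7298, nat_lit 1466, nat_lit 4382, nat_lit 2438, nat_lit 2930] (nat_lit 0) [nat_lit 9484] false,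
   Spec.mk (nat_lit 2930) (nat_lit 1) [nat_lit 7304, nat_lit 1472, nat_lit 4388, nat_lit 2444, nat_lit 2948, nat_lit 2924, nat_lit 2936, nat_lit 2932] (nat_lit 0) [nat_lit 9490] false,
   Spec.mk (nat_lit 2932) (nat_lit 2) [nat_lit 7306, nat_lit 1474, nat_lit 4390, nat_lit 2446, nat_lit 2950, nat_lit 2938, nat_lit 2930] (nat_lit 0) [nat_lit 9492] false,
   Spec.mk (nat_lit 2936) (nat_lit 0) [nat_lit 7310, nat_lit 1478, nat_lit 4394, nat_lit 2450, nat_lit 2954, nat_lit 2930, nat_lit 2938] (nat_lit 2) [nat_lit 9496] false,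
   Spec.mk (nat_lit 2938) (nat_lit 1) [nat_lit 7312, nat_lit 1480, nat_lit 4396, nat_lit 2452, nat_lit 2956, nat_lit 2932, nat_lit 2936, nat_lit 2940] (nat_lit 0) [nat_lit 9498] false,
   Spec.mk (nat_lit 2940) (nat_lit 2) [nat_lit 7314, nat_lit 1482, nat_lit 4398, nat_lit 2454, nat_lit 2958, nat_lit 2938] (nat_lit 0) [] false,
   Spec.mk (nat_lit 2948) (nat_lit 0) [nat_lit 7322, nat_lit 1490, nat_lit 4406, nat_lit 2462, nat_lit 3002, nat_lit 2930, nat_lit 2954, nat_lit 2950] (nat_lit 0) [nat_lit 9508] false,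
   Spec.mk (nat_lit 2950) (nat_lit 0) [nat_lit 7324, nat_lit 1492, nat_lit 4408, nat_lit 2464, nat_lit 3004, nat_lit 2932, nat_lit 2956, nat_lit 2948] (nat_lit 0) [nat_lit 9510] false,
   Spec.mk (nat_lit 2954) (nat_lit 0) [nat_lit 7328, nat_lit 1496, nat_lit 4412, nat_lit 2468, nat_lit 3008, nat_lit 2936, nat_lit 2972, nat_lit 2948, nat_lit 2956] (nat_lit 1) [nat_lit 9514] false,
   Spec.mk (nat_lit 2956) (nat_lit 1) [nat_lit 7330, nat_lit 1498, nat_lit 4414, nat_lit 2470, nat_lit 3010, nat_lit 2938, nat_lit 2974, nat_lit 2950, nat_lit 2962, nat_lit 2954, nat_lit 2958] (nat_lit 0) [nat_lit 9516] false,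
   Spec.mk (nat_lit 2958) (nat_lit 1) [nat_lit 7332, nat_lit 1500, nat_lit 4416, nat_lit 2472, nat_lit 3012, nat_lit 2940, nat_lit 2976, nat_lit 2964, nat_lit 2956] (nat_lit 0) [] false,
   Spec.mk (nat_lit 2962) (nat_lit 0) [nat_lit 7336, nat_lit 1504, nat_lit 4420, nat_lit 2476, nat_lit 3016, nat_lit 2980, nat_lit 2956, nat_lit 2964] (nat_lit 0) [nat_lit 9522] false,
   Spec.mk (nat_lit 2964) (nat_lit 2) [nat_lit 7338, nat_lit 1506, nat_lit 4422, nat_lit 2478, nat_lit 3018, nat_lit 2982, nat_lit 2958, nat_lit 2962] (nat_lit 0) [] false,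
   Spec.mk (nat_lit 2972) (nat_lit 0) [nat_lit 7346, nat_lit 1514, nat_lit 4430, nat_lit 2486, nat_lit 3026, nat_lit 2954, nat_lit 2974] (nat_lit 2) [nat_lit 9532] false,
   Spec.mk (nat_lit 2974) (nat_lit 0) [nat_lit 7348, nat_lit 1516, nat_lit 4432, nat_lit 2488, nat_lit 3028, nat_lit 2956, nat_lit 2980, nat_lit 2972, nat_lit 2976] (nat_lit 1) [nat_lit 9534] false,
   Spec.mk (nat_lit 2976) (nat_lit 0) [nat_lit 7350, nat_lit 1518, nat_lit 4434, nat_lit 2490, nat_lit 3030, nat_lit 2958, nat_lit 2982, nat_lit 2974] (nat_lit 2) [] false,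
   Spec.mk (nat_lit 2980) (nat_lit 0) [nat_lit 7354, nat_lit 1522, nat_lit 4438, nat_lit 2494, nat_lit 3034, nat_lit 2962, nat_lit 2974, nat_lit 2982] (nat_lit 0) [nat_lit 9540] false,
   Spec.mk (nat_lit 2982) (nat_lit 1) [nat_lit 7356, nat_lit 1524, nat_lit 4440, nat_lit 2496, nat_lit 3036, nat_lit 2964, nat_lit 2976, nat_lit 2988, nat_lit 2980] (nat_lit 0) [] false,
   Spec.mk (nat_lit 2988) (nat_lit 2) [nat_lit 7362, nat_lit 1530, nat_lit 4446, nat_lit 2502, nat_lit 3042, nat_lit 2982] (nat_lit 0) [] false,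
   Spec.mk (nat_lit 3002) (nat_lit 0) [nat_lit 7376, nat_lit 1544, nat_lit 4460, nat_lit 2516, nat_lit 3164, nat_lit 2948, nat_lit 3008, nat_lit 3004] (nat_lit 0) [nat_lit 9562] false,
   Spec.mk (nat_lit 3004) (nat_lit 0) [nat_lit 7378, nat_lit 1546, nat_lit 4462, nat_lit 2518, nat_lit 3166, nat_lit 2950, nat_lit 3010, nat_lit 3002] (nat_lit 0) [nat_lit 9564] false,
   Spec.mk (nat_lit 3008) (nat_lit 0) [nat_lit 7382, nat_lit 1550, nat_lit 4466, nat_lit 2522, nat_lit 3170, nat_lit 2954, nat_lit 3026, nat_lit 3002, nat_lit 3010] (nat_lit 2) [nat_lit 9568] false,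
   Spec.mk (nat_lit 3010) (nat_lit 0) [nat_lit 7384, nat_lit 1552, nat_lit 4468, nat_lit 2524, nat_lit 3172, nat_lit 2956, nat_lit 3028, nat_lit 3004, nat_lit 3016, nat_lit 3008, nat_lit 3012] (nat_lit 0) [nat_lit 9570] false,
   Spec.mk (nat_lit 3012) (nat_lit 0) [nat_lit 7386, nat_lit 1554, nat_lit 4470, nat_lit 2526, nat_lit 3174, nat_lit 2958, nat_lit 3030, nat_lit 3018, nat_lit 3010] (nat_lit 0) [] false,
   Spec.mk (nat_lit 3016) (nat_lit 0) [nat_lit 7390, nat_lit 1558, nat_lit 4474, nat_lit 2530, nat_lit 3178, nat_lit 2962, nat_lit 3034, nat_lit 3010, nat_lit 3018] (nat_lit 2) [nat_lit 9576] false,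
   Spec.mk (nat_lit 3018) (nat_lit 0) [nat_lit 7392, nat_lit 1560, nat_lit 4476, nat_lit 2532, nat_lit 3180, nat_lit 2964, nat_lit 3036, nat_lit 3012, nat_lit 3016] (nat_lit 0) [] false,
   Spec.mk (nat_lit 3026) (nat_lit 0) [nat_lit 7400, nat_lit 1568, nat_lit 4484, nat_lit 2540, nat_lit 3188, nat_lit 2972, nat_lit 3080, nat_lit 3008, nat_lit 3028] (nat_lit 1) [nat_lit 9586] false,
   Spec.mk (nat_lit 3028) (nat_lit 0) [nat_lit 7402, nat_lit 1570, nat_lit 4486, nat_lit 2542, nat_lit 3190, nat_lit 2974, nat_lit 3082, nat_lit 3010, nat_lit 3034, nat_lit 3026, nat_lit 3030] (nat_lit 0) [nat_lit 9588] true,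
   Spec.mk (nat_lit 3030) (nat_lit 0) [nat_lit 7404, nat_lit 1572, nat_lit 4488, nat_lit 2544, nat_lit 3192, nat_lit 2976, nat_lit 3084, nat_lit 3012, nat_lit 3036, nat_lit 3028] (nat_lit 1) [] false,
   Spec.mk (nat_lit 3034) (nat_lit 0) [nat_lit 7408, nat_lit 1576, nat_lit 4492, nat_lit 2548, nat_lit 3196, nat_lit 2980, nat_lit 3088, nat_lit 3016, nat_lit 3052, nat_lit 3028, nat_lit 3036] (nat_lit 0) [nat_lit 9594] false,
   Spec.mk (nat_lit 3036) (nat_lit 1) [nat_lit 7410, nat_lit 1578, nat_lit 4494, nat_lit 2550, nat_lit 3198, nat_lit 2982, nat_lit 3090, nat_lit 3018, nat_lit 3054, nat_lit 3030, nat_lit 3042, nat_lit 3034] (nat_lit 0) [] false,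
   Spec.mk (nat_lit 3042) (nat_lit 1) [nat_lit 7416, nat_lit 1584, nat_lit 4500, nat_lit 2556, nat_lit 3204, nat_lit 2988, nat_lit 3096, nat_lit 3060, nat_lit 3036] (nat_lit 0) [] false,
   Spec.mk (nat_lit 3052) (nat_lit 0) [nat_lit 7426, nat_lit 1594, nat_lit 4510, nat_lit 2566, nat_lit 3214, nat_lit 3106, nat_lit 3034, nat_lit 3054] (nat_lit 0) [nat_lit 9612] false,
   Spec.mk (nat_lit 3054) (nat_lit 0) [nat_lit 7428, nat_lit 1596, nat_lit 4512, nat_lit 2568, nat_lit 3216, nat_lit 3108, nat_lit 3036, nat_lit 3060, nat_lit 3052] (nat_lit 0) [] false,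
   Spec.mk (nat_lit 3060) (nat_lit 2) [nat_lit 7434, nat_lit 1602, nat_lit 4518, nat_lit 2574, nat_lit 3222, nat_lit 3114, nat_lit 3042, nat_lit 3054] (nat_lit 0) [] false,
   Spec.mk (nat_lit 3080) (nat_lit 0) [nat_lit 7454, nat_lit 1622, nat_lit 4538, nat_lit 2594, nat_lit 3242, nat_lit 3026, nat_lit 3082] (nat_lit 2) [nat_lit 9640] false,
   Spec.mk (nat_lit 3082) (nat_lit 0) [nat_lit 7456, nat_lit 1624, nat_lit 4540, nat_lit 2596, nat_lit 3244, nat_lit 3028, nat_lit 3088, nat_lit 3080, nat_lit 3084] (nat_lit 1) [nat_lit 9642] false,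
   Spec.mk (nat_lit 3084) (nat_lit 0) [nat_lit 7458, nat_lit 1626, nat_lit 4542, nat_lit 2598, nat_lit 3246, nat_lit 3030, nat_lit 3090, nat_lit 3082] (nat_lit 2) [] false,
   Spec.mk (nat_lit 3088) (nat_lit 0) [nat_lit 7462, nat_lit 1630, nat_lit 4546, nat_lit 2602, nat_lit 3250, nat_lit 3034, nat_lit 3106, nat_lit 3082, nat_lit 3090] (nat_lit 2) [nat_lit 9648] false,
   Spec.mk (nat_lit 3090) (nat_lit 0) [nat_lit 7464, nat_lit 1632, nat_lit 4548, nat_lit 2604, nat_lit 3252, nat_lit 3036, nat_lit 3108, nat_lit 3084, nat_lit 3096, nat_lit 3088] (nat_lit 1) [] false,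
   Spec.mk (nat_lit 3096) (nat_lit 0) [nat_lit 7470, nat_lit 1638, nat_lit 4554, nat_lit 2610, nat_lit 3258, nat_lit 3042, nat_lit 3114, nat_lit 3090] (nat_lit 2) [] false,
   Spec.mk (nat_lit 3106) (nat_lit 0) [nat_lit 7480, nat_lit 1648, nat_lit 4564, nat_lit 2620, nat_lit 3268, nat_lit 3052, nat_lit 3088, nat_lit 3108] (nat_lit 0) [nat_lit 9666] false,
   Spec.mk (nat_lit 3108) (nat_lit 0) [nat_lit 7482, nat_lit 1650, nat_lit 4566, nat_lit 2622, nat_lit 3270, nat_lit 3054, nat_lit 3090, nat_lit 3114, nat_lit 3106] (nat_lit 0) [] false,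
   Spec.mk (nat_lit 3114) (nat_lit 1) [nat_lit 7488, nat_lit 1656, nat_lit 4572, nat_lit 2628, nat_lit 3276, nat_lit 3060, nat_lit 3096, nat_lit 3132, nat_lit 3108] (nat_lit 0) [] false,
   Spec.mk (nat_lit 3132) (nat_lit 2) [nat_lit 7506, nat_lit 1674, nat_lit 4590, nat_lit 2646, nat_lit 3294, nat_lit 3114] (nat_lit 0) [] false,
   Spec.mk (nat_lit 3164) (nat_lit 1) [nat_lit 7538, nat_lit 1706, nat_lit 4622, nat_lit 2678, nat_lit 3650, nat_lit 3002, nat_lit 3170, nat_lit 3166] (nat_lit 0) [nat_lit 9724] false,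
   Spec.mk (nat_lit 3166) (nat_lit 1) [nat_lit 7540, nat_lit 1708, nat_lit 4624, nat_lit 2680, nat_lit 3652, nat_lit 3004, nat_lit 3172, nat_lit 3164] (nat_lit 0) [nat_lit 9726] false,
   Spec.mk (nat_lit 3170) (nat_lit 0) [nat_lit 7544, nat_lit 1712, nat_lit 4628, nat_lit 2684, nat_lit 3656, nat_lit 3008, nat_lit 3188, nat_lit 3164, nat_lit 3172] (nat_lit 1) [nat_lit 9730] false,
   Spec.mk (nat_lit 3172) (nat_lit 1) [nat_lit 7546, nat_lit 1714, nat_lit 4630, nat_lit 2686, nat_lit 3658, nat_lit 3010, nat_lit 3190, nat_lit 3166, nat_lit 3178, nat_lit 3170, nat_lit 3174] (nat_lit 0) [nat_lit 9732] false,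
   Spec.mk (nat_lit 3174) (nat_lit 1) [nat_lit 7548, nat_lit 1716, nat_lit 4632, nat_lit 2688, nat_lit 3660, nat_lit 3012, nat_lit 3192, nat_lit 3180, nat_lit 3172] (nat_lit 0) [] false,
   Spec.mk (nat_lit 3178) (nat_lit 0) [nat_lit 7552, nat_lit 1720, nat_lit 4636, nat_lit 2692, nat_lit 3664, nat_lit 3016, nat_lit 3196, nat_lit 3172, nat_lit 3180] (nat_lit 1) [nat_lit 9738] false,
   Spec.mk (nat_lit 3180) (nat_lit 1) [nat_lit 7554, nat_lit 1722, nat_lit 4638, nat_lit 2694, nat_lit 3666, nat_lit 3018, nat_lit 3198, nat_lit 3174, nat_lit 3178] (nat_lit 0) [] false,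
   Spec.mk (nat_lit 3188) (nat_lit 0) [nat_lit 7562, nat_lit 1730, nat_lit 4646, nat_lit 2702, nat_lit 3674, nat_lit 3026, nat_lit 3242, nat_lit 3170, nat_lit 3190] (nat_lit 1) [nat_lit 9748] false,
   Spec.mk (nat_lit 3190) (nat_lit 0) [nat_lit 7564, nat_lit 1732, nat_lit 4648, nat_lit 2704, nat_lit 3676, nat_lit 3028, nat_lit 3244, nat_lit 3172, nat_lit 3196, nat_lit 3188, nat_lit 3192] (nat_lit 0) [nat_lit 9750] false,
   Spec.mk (nat_lit 3192) (nat_lit 0) [nat_lit 7566, nat_lit 1734, nat_lit 4650, nat_lit 2706, nat_lit 3678, nat_lit 3030, nat_lit 3246, nat_lit 3174, nat_lit 3198, nat_lit 3190] (nat_lit 1) [] false,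
   Spec.mk (nat_lit 3196) (nat_lit 0) [nat_lit 7570, nat_lit 1738, nat_lit 4654, nat_lit 2710, nat_lit 3682, nat_lit 3034, nat_lit 3250, nat_lit 3178, nat_lit 3214, nat_lit 3190, nat_lit 3198] (nat_lit 0) [nat_lit 9756] false,
   Spec.mk (nat_lit 3198) (nat_lit 1) [nat_lit 7572, nat_lit 1740, nat_lit 4656, nat_lit 2712, nat_lit 3684, nat_lit 3036, nat_lit 3252, nat_lit 3180, nat_lit 3216, nat_lit 3192, nat_lit 3204, nat_lit 3196] (nat_lit 0) [] false]

noncomputable def sp9 : List Spec :=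
  [Spec.mk (nat_lit 3204) (nat_lit 1) [nat_lit 7578, nat_lit 1746, nat_lit 4662, nat_lit 2718, nat_lit 3690, nat_lit 3042, nat_lit 3258, nat_lit 3222, nat_lit 3198] (nat_lit 0) [] false,
   Spec.mk (nat_lit 3214) (nat_lit 0) [nat_lit 7588, nat_lit 1756, nat_lit 4672, nat_lit 2728, nat_lit 3700, nat_lit 3052, nat_lit 3268, nat_lit 3196, nat_lit 3216] (nat_lit 1) [nat_lit 9774] false,
   Spec.mk (nat_lit 3216) (nat_lit 0) [nat_lit 7590, nat_lit 1758, nat_lit 4674, nat_lit 2730, nat_lit 3702, nat_lit 3054, nat_lit 3270, nat_lit 3198, nat_lit 3222, nat_lit 3214] (nat_lit 1) [] false,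
   Spec.mk (nat_lit 3222) (nat_lit 1) [nat_lit 7596, nat_lit 1764, nat_lit 4680, nat_lit 2736, nat_lit 3708, nat_lit 3060, nat_lit 3276, nat_lit 3204, nat_lit 3216] (nat_lit 0) [] false,
   Spec.mk (nat_lit 3242) (nat_lit 0) [nat_lit 7616, nat_lit 1784, nat_lit 4700, nat_lit 2756, nat_lit 3728, nat_lit 3080, nat_lit 3404, nat_lit 3188, nat_lit 3244] (nat_lit 0) [nat_lit 9802] false,
   Spec.mk (nat_lit 3244) (nat_lit 1) [nat_lit 7618, nat_lit 1786, nat_lit 4702, nat_lit 2758, nat_lit 3730, nat_lit 3082, nat_lit 3406, nat_lit 3190, nat_lit 3250, nat_lit 3242, nat_lit 3246] (nat_lit 0) [nat_lit 9804] false,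
   Spec.mk (nat_lit 3246) (nat_lit 0) [nat_lit 7620, nat_lit 1788, nat_lit 4704, nat_lit 2760, nat_lit 3732, nat_lit 3084, nat_lit 3408, nat_lit 3192, nat_lit 3252, nat_lit 3244] (nat_lit 0) [] false,
   Spec.mk (nat_lit 3250) (nat_lit 0) [nat_lit 7624, nat_lit 1792, nat_lit 4708, nat_lit 2764, nat_lit 3736, nat_lit 3088, nat_lit 3412, nat_lit 3196, nat_lit 3268, nat_lit 3244, nat_lit 3252] (nat_lit 0) [nat_lit 9810] false,
   Spec.mk (nat_lit 3252) (nat_lit 1) [nat_lit 7626, nat_lit 1794, nat_lit 4710, nat_lit 2766, nat_lit 3738, nat_lit 3090, nat_lit 3414, nat_lit 3198, nat_lit 3270, nat_lit 3246, nat_lit 3258, nat_lit 3250] (nat_lit 0) [] false,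
   Spec.mk (nat_lit 3258) (nat_lit 0) [nat_lit 7632, nat_lit 1800, nat_lit 4716, nat_lit 2772, nat_lit 3744, nat_lit 3096, nat_lit 3420, nat_lit 3204, nat_lit 3276, nat_lit 3252] (nat_lit 0) [] false,
   Spec.mk (nat_lit 3268) (nat_lit 1) [nat_lit 7642, nat_lit 1810, nat_lit 4726, nat_lit 2782, nat_lit 3754, nat_lit 3106, nat_lit 3430, nat_lit 3214, nat_lit 3322, nat_lit 3250, nat_lit 3270] (nat_lit 0) [nat_lit 9828] false,
   Spec.mk (nat_lit 3270) (nat_lit 1) [nat_lit 7644, nat_lit 1812, nat_lit 4728, nat_lit 2784, nat_lit 3756, nat_lit 3108, nat_lit 3432, nat_lit 3216, nat_lit 3324, nat_lit 3252, nat_lit 3276, nat_lit 3268] (nat_lit 0) [] false,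
   Spec.mk (nat_lit 3276) (nat_lit 2) [nat_lit 7650, nat_lit 1818, nat_lit 4734, nat_lit 2790, nat_lit 3762, nat_lit 3114, nat_lit 3438, nat_lit 3222, nat_lit 3330, nat_lit 3258, nat_lit 3294, nat_lit 3270] (nat_lit 0) [] false,
   Spec.mk (nat_lit 3294) (nat_lit 2) [nat_lit 7668, nat_lit 1836, nat_lit 4752, nat_lit 2808, nat_lit 3780, nat_lit 3132, nat_lit 3456, nat_lit 3348, nat_lit 3276] (nat_lit 0) [] false,
   Spec.mk (nat_lit 3322) (nat_lit 1) [nat_lit 7696, nat_lit 1864, nat_lit 4780, nat_lit 2836, nat_lit 3808, nat_lit 3484, nat_lit 3268, nat_lit 3324] (nat_lit 0) [nat_lit 9882] false,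
   Spec.mk (nat_lit 3324) (nat_lit 1) [nat_lit 7698, nat_lit 1866, nat_lit 4782, nat_lit 2838, nat_lit 3810, nat_lit 3486, nat_lit 3270, nat_lit 3330, nat_lit 3322] (nat_lit 0) [] false,
   Spec.mk (nat_lit 3330) (nat_lit 1) [nat_lit 7704, nat_lit 1872, nat_lit 4788, nat_lit 2844, nat_lit 3816, nat_lit 3492, nat_lit 3276, nat_lit 3348, nat_lit 3324] (nat_lit 0) [] false,
   Spec.mk (nat_lit 3348) (nat_lit 3) [nat_lit 7722, nat_lit 1890, nat_lit 4806, nat_lit 2862, nat_lit 3834, nat_lit 3510, nat_lit 3294, nat_lit 3330] (nat_lit 0) [] false,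
   Spec.mk (nat_lit 3404) (nat_lit 0) [nat_lit 7778, nat_lit 1946, nat_lit 4862, nat_lit 3890, nat_lit 3242, nat_lit 3406] (nat_lit 0) [nat_lit 9964] false,
   Spec.mk (nat_lit 3406) (nat_lit 1) [nat_lit 7780, nat_lit 1948, nat_lit 4864, nat_lit 3892, nat_lit 3244, nat_lit 3412, nat_lit 3404, nat_lit 3408] (nat_lit 0) [nat_lit 9966] false,
   Spec.mk (nat_lit 3408) (nat_lit 0) [nat_lit 7782, nat_lit 1950, nat_lit 4866, nat_lit 3894, nat_lit 3246, nat_lit 3414, nat_lit 3406] (nat_lit 0) [] false,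
   Spec.mk (nat_lit 3412) (nat_lit 0) [nat_lit 7786, nat_lit 1954, nat_lit 4870, nat_lit 3898, nat_lit 3250, nat_lit 3430, nat_lit 3406, nat_lit 3414] (nat_lit 0) [nat_lit 9972] false,
   Spec.mk (nat_lit 3414) (nat_lit 1) [nat_lit 7788, nat_lit 1956, nat_lit 4872, nat_lit 3900, nat_lit 3252, nat_lit 3432, nat_lit 3408, nat_lit 3420, nat_lit 3412] (nat_lit 0) [] false,
   Spec.mk (nat_lit 3420) (nat_lit 0) [nat_lit 7794, nat_lit 1962, nat_lit 4878, nat_lit 3906, nat_lit 3258, nat_lit 3438, nat_lit 3414] (nat_lit 0) [] false,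
   Spec.mk (nat_lit 3430) (nat_lit 0) [nat_lit 7804, nat_lit 1972, nat_lit 4888, nat_lit 3916, nat_lit 3268, nat_lit 3484, nat_lit 3412, nat_lit 3432] (nat_lit 0) [nat_lit 9990] false,
   Spec.mk (nat_lit 3432) (nat_lit 0) [nat_lit 7806, nat_lit 1974, nat_lit 4890, nat_lit 3918, nat_lit 3270, nat_lit 3486, nat_lit 3414, nat_lit 3438, nat_lit 3430] (nat_lit 0) [] false,
   Spec.mk (nat_lit 3438) (nat_lit 1) [nat_lit 7812, nat_lit 1980, nat_lit 4896, nat_lit 3924, nat_lit 3276, nat_lit 3492, nat_lit 3420, nat_lit 3456, nat_lit 3432] (nat_lit 0) [] false,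
   Spec.mk (nat_lit 3456) (nat_lit 0) [nat_lit 7830, nat_lit 1998, nat_lit 4914, nat_lit 3942, nat_lit 3294, nat_lit 3510, nat_lit 3438] (nat_lit 0) [] false,
   Spec.mk (nat_lit 3484) (nat_lit 2) [nat_lit 7858, nat_lit 2026, nat_lit 4942, nat_lit 3970, nat_lit 3322, nat_lit 3430, nat_lit 3486] (nat_lit 0) [nat_lit 10044] false,
   Spec.mk (nat_lit 3486) (nat_lit 2) [nat_lit 7860, nat_lit 2028, nat_lit 4944, nat_lit 3972, nat_lit 3324, nat_lit 3432, nat_lit 3492, nat_lit 3484] (nat_lit 0) [] false,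
   Spec.mk (nat_lit 3492) (nat_lit 2) [nat_lit 7866, nat_lit 2034, nat_lit 4950, nat_lit 3978, nat_lit 3330, nat_lit 3438, nat_lit 3510, nat_lit 3486] (nat_lit 0) [] false,
   Spec.mk (nat_lit 3510) (nat_lit 3) [nat_lit 7884, nat_lit 2052, nat_lit 4968, nat_lit 3996, nat_lit 3348, nat_lit 3456, nat_lit 3564, nat_lit 3492] (nat_lit 0) [] false,
   Spec.mk (nat_lit 3564) (nat_lit 4) [nat_lit 7938, nat_lit 2106, nat_lit 5022, nat_lit 4050, nat_lit 3510] (nat_lit 0) [] false,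
   Spec.mk (nat_lit 3650) (nat_lit 1) [nat_lit 8024, nat_lit 5108, nat_lit 3164, nat_lit 3656, nat_lit 3652] (nat_lit 0) [nat_lit 10210] false,
   Spec.mk (nat_lit 3652) (nat_lit 1) [nat_lit 8026, nat_lit 5110, nat_lit 3166, nat_lit 3658, nat_lit 3650] (nat_lit 0) [nat_lit 10212] false,
   Spec.mk (nat_lit 3656) (nat_lit 0) [nat_lit 8030, nat_lit 5114, nat_lit 3170, nat_lit 3674, nat_lit 3650, nat_lit 3658] (nat_lit 1) [nat_lit 10216] false,
   Spec.mk (nat_lit 3658) (nat_lit 1) [nat_lit 8032, nat_lit 5116, nat_lit 3172, nat_lit 3676, nat_lit 3652, nat_lit 3664, nat_lit 3656, nat_lit 3660] (nat_lit 0) [nat_lit 10218] false,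
   Spec.mk (nat_lit 3660) (nat_lit 1) [nat_lit 8034, nat_lit 5118, nat_lit 3174, nat_lit 3678, nat_lit 3666, nat_lit 3658] (nat_lit 0) [] false,
   Spec.mk (nat_lit 3664) (nat_lit 0) [nat_lit 8038, nat_lit 5122, nat_lit 3178, nat_lit 3682, nat_lit 3658, nat_lit 3666] (nat_lit 1) [nat_lit 10224] false,
   Spec.mk (nat_lit 3666) (nat_lit 1) [nat_lit 8040, nat_lit 5124, nat_lit 3180, nat_lit 3684, nat_lit 3660, nat_lit 3664] (nat_lit 0) [] false,
   Spec.mk (nat_lit 3674) (nat_lit 0) [nat_lit 8048, nat_lit 5132, nat_lit 3188, nat_lit 3728, nat_lit 3656, nat_lit 3676] (nat_lit 1) [nat_lit 10234] false,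
   Spec.mk (nat_lit 3676) (nat_lit 0) [nat_lit 8050, nat_lit 5134, nat_lit 3190, nat_lit 3730, nat_lit 3658, nat_lit 3682, nat_lit 3674, nat_lit 3678] (nat_lit 0) [nat_lit 10236] false,
   Spec.mk (nat_lit 3678) (nat_lit 0) [nat_lit 8052, nat_lit 5136, nat_lit 3192, nat_lit 3732, nat_lit 3660, nat_lit 3684, nat_lit 3676] (nat_lit 1) [] false,
   Spec.mk (nat_lit 3682) (nat_lit 0) [nat_lit 8056, nat_lit 5140, nat_lit 3196, nat_lit 3736, nat_lit 3664, nat_lit 3700, nat_lit 3676, nat_lit 3684] (nat_lit 0) [nat_lit 10242] false,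
   Spec.mk (nat_lit 3684) (nat_lit 1) [nat_lit 8058, nat_lit 5142, nat_lit 3198, nat_lit 3738, nat_lit 3666, nat_lit 3702, nat_lit 3678, nat_lit 3690, nat_lit 3682] (nat_lit 0) [] false,
   Spec.mk (nat_lit 3690) (nat_lit 1) [nat_lit 8064, nat_lit 5148, nat_lit 3204, nat_lit 3744, nat_lit 3708, nat_lit 3684] (nat_lit 0) [] false,
   Spec.mk (nat_lit 3700) (nat_lit 0) [nat_lit 8074, nat_lit 5158, nat_lit 3214, nat_lit 3754, nat_lit 3682, nat_lit 3702] (nat_lit 1) [nat_lit 10260] false,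
   Spec.mk (nat_lit 3702) (nat_lit 0) [nat_lit 8076, nat_lit 5160, nat_lit 3216, nat_lit 3756, nat_lit 3684, nat_lit 3708, nat_lit 3700] (nat_lit 1) [] false,
   Spec.mk (nat_lit 3708) (nat_lit 1) [nat_lit 8082, nat_lit 5166, nat_lit 3222, nat_lit 3762, nat_lit 3690, nat_lit 3702] (nat_lit 0) [] false,
   Spec.mk (nat_lit 3728) (nat_lit 0) [nat_lit 8102, nat_lit 5186, nat_lit 3242, nat_lit 3890, nat_lit 3674, nat_lit 3730] (nat_lit 1) [nat_lit 10288] false,
   Spec.mk (nat_lit 3730) (nat_lit 0) [nat_lit 8104, nat_lit 5188, nat_lit 3244, nat_lit 3892, nat_lit 3676, nat_lit 3736, nat_lit 3728, nat_lit 3732] (nat_lit 0) [nat_lit 10290] false,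
   Spec.mk (nat_lit 3732) (nat_lit 0) [nat_lit 8106, nat_lit 5190, nat_lit 3246, nat_lit 3894, nat_lit 3678, nat_lit 3738, nat_lit 3730] (nat_lit 1) [] false,
   Spec.mk (nat_lit 3736) (nat_lit 0) [nat_lit 8110, nat_lit 5194, nat_lit 3250, nat_lit 3898, nat_lit 3682, nat_lit 3754, nat_lit 3730, nat_lit 3738] (nat_lit 1) [nat_lit 10296] false,
   Spec.mk (nat_lit 3738) (nat_lit 0) [nat_lit 8112, nat_lit 5196, nat_lit 3252, nat_lit 3900, nat_lit 3684, nat_lit 3756, nat_lit 3732, nat_lit 3744, nat_lit 3736] (nat_lit 0) [] false,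
   Spec.mk (nat_lit 3744) (nat_lit 0) [nat_lit 8118, nat_lit 5202, nat_lit 3258, nat_lit 3906, nat_lit 3690, nat_lit 3762, nat_lit 3738] (nat_lit 1) [] false,
   Spec.mk (nat_lit 3754) (nat_lit 0) [nat_lit 8128, nat_lit 5212, nat_lit 3268, nat_lit 3916, nat_lit 3700, nat_lit 3808, nat_lit 3736, nat_lit 3756] (nat_lit 0) [nat_lit 10314] false,
   Spec.mk (nat_lit 3756) (nat_lit 0) [nat_lit 8130, nat_lit 5214, nat_lit 3270, nat_lit 3918, nat_lit 3702, nat_lit 3810, nat_lit 3738, nat_lit 3762, nat_lit 3754] (nat_lit 0) [] false,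
   Spec.mk (nat_lit 3762) (nat_lit 1) [nat_lit 8136, nat_lit 5220, nat_lit 3276, nat_lit 3924, nat_lit 3708, nat_lit 3816, nat_lit 3744, nat_lit 3780, nat_lit 3756] (nat_lit 0) [] false,
   Spec.mk (nat_lit 3780) (nat_lit 1) [nat_lit 8154, nat_lit 5238, nat_lit 3294, nat_lit 3942, nat_lit 3834, nat_lit 3762] (nat_lit 0) [] false,
   Spec.mk (nat_lit 3808) (nat_lit 0) [nat_lit 8182, nat_lit 5266, nat_lit 3322, nat_lit 3970, nat_lit 3754, nat_lit 3810] (nat_lit 1) [nat_lit 10368] false]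

noncomputable def sp10 : List Spec :=
  [Spec.mk (nat_lit 3810) (nat_lit 0) [nat_lit 8184, nat_lit 5268, nat_lit 3324, nat_lit 3972, nat_lit 3756, nat_lit 3816, nat_lit 3808] (nat_lit 1) [] false,
   Spec.mk (nat_lit 3816) (nat_lit 0) [nat_lit 8190, nat_lit 5274, nat_lit 3330, nat_lit 3978, nat_lit 3762, nat_lit 3834, nat_lit 3810] (nat_lit 1) [] false,
   Spec.mk (nat_lit 3834) (nat_lit 1) [nat_lit 8208, nat_lit 5292, nat_lit 3348, nat_lit 3996, nat_lit 3780, nat_lit 3816] (nat_lit 0) [] false,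
   Spec.mk (nat_lit 3890) (nat_lit 1) [nat_lit 8264, nat_lit 5348, nat_lit 3404, nat_lit 3728, nat_lit 3892] (nat_lit 0) [nat_lit 10450] false,
   Spec.mk (nat_lit 3892) (nat_lit 2) [nat_lit 8266, nat_lit 5350, nat_lit 3406, nat_lit 3730, nat_lit 3898, nat_lit 3890, nat_lit 3894] (nat_lit 0) [nat_lit 10452] false,
   Spec.mk (nat_lit 3894) (nat_lit 1) [nat_lit 8268, nat_lit 5352, nat_lit 3408, nat_lit 3732, nat_lit 3900, nat_lit 3892] (nat_lit 0) [] false,
   Spec.mk (nat_lit 3898) (nat_lit 1) [nat_lit 8272, nat_lit 5356, nat_lit 3412, nat_lit 3736, nat_lit 3916, nat_lit 3892, nat_lit 3900] (nat_lit 0) [nat_lit 10458] false,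
   Spec.mk (nat_lit 3900) (nat_lit 2) [nat_lit 8274, nat_lit 5358, nat_lit 3414, nat_lit 3738, nat_lit 3918, nat_lit 3894, nat_lit 3906, nat_lit 3898] (nat_lit 0) [] false,
   Spec.mk (nat_lit 3906) (nat_lit 1) [nat_lit 8280, nat_lit 5364, nat_lit 3420, nat_lit 3744, nat_lit 3924, nat_lit 3900] (nat_lit 0) [] false,
   Spec.mk (nat_lit 3916) (nat_lit 1) [nat_lit 8290, nat_lit 5374, nat_lit 3430, nat_lit 3754, nat_lit 3970, nat_lit 3898, nat_lit 3918] (nat_lit 0) [nat_lit 10476] false,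
   Spec.mk (nat_lit 3918) (nat_lit 1) [nat_lit 8292, nat_lit 5376, nat_lit 3432, nat_lit 3756, nat_lit 3972, nat_lit 3900, nat_lit 3924, nat_lit 3916] (nat_lit 0) [] false,
   Spec.mk (nat_lit 3924) (nat_lit 2) [nat_lit 8298, nat_lit 5382, nat_lit 3438, nat_lit 3762, nat_lit 3978, nat_lit 3906, nat_lit 3942, nat_lit 3918] (nat_lit 0) [] false,
   Spec.mk (nat_lit 3942) (nat_lit 1) [nat_lit 8316, nat_lit 5400, nat_lit 3456, nat_lit 3780, nat_lit 3996, nat_lit 3924] (nat_lit 0) [] false,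
   Spec.mk (nat_lit 3970) (nat_lit 2) [nat_lit 8344, nat_lit 5428, nat_lit 3484, nat_lit 3808, nat_lit 4132, nat_lit 3916, nat_lit 3972] (nat_lit 0) [nat_lit 10530] false,
   Spec.mk (nat_lit 3972) (nat_lit 2) [nat_lit 8346, nat_lit 5430, nat_lit 3486, nat_lit 3810, nat_lit 4134, nat_lit 3918, nat_lit 3978, nat_lit 3970] (nat_lit 0) [] false,
   Spec.mk (nat_lit 3978) (nat_lit 2) [nat_lit 8352, nat_lit 5436, nat_lit 3492, nat_lit 3816, nat_lit 4140, nat_lit 3924, nat_lit 3996, nat_lit 3972] (nat_lit 0) [] false,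
   Spec.mk (nat_lit 3996) (nat_lit 3) [nat_lit 8370, nat_lit 5454, nat_lit 3510, nat_lit 3834, nat_lit 4158, nat_lit 3942, nat_lit 4050, nat_lit 3978] (nat_lit 0) [] false,
   Spec.mk (nat_lit 4050) (nat_lit 3) [nat_lit 8424, nat_lit 5508, nat_lit 3564, nat_lit 4212, nat_lit 3996] (nat_lit 0) [] false,
   Spec.mk (nat_lit 4132) (nat_lit 3) [nat_lit 8506, nat_lit 5590, nat_lit 3970, nat_lit 4134] (nat_lit 0) [nat_lit 10692] false,
   Spec.mk (nat_lit 4134) (nat_lit 3) [nat_lit 8508, nat_lit 5592, nat_lit 3972, nat_lit 4140, nat_lit 4132] (nat_lit 0) [] false,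
   Spec.mk (nat_lit 4140) (nat_lit 3) [nat_lit 8514, nat_lit 5598, nat_lit 3978, nat_lit 4158, nat_lit 4134] (nat_lit 0) [] false,
   Spec.mk (nat_lit 4158) (nat_lit 3) [nat_lit 8532, nat_lit 5616, nat_lit 3996, nat_lit 4212, nat_lit 4140] (nat_lit 0) [] false,
   Spec.mk (nat_lit 4212) (nat_lit 5) [nat_lit 8586, nat_lit 5670, nat_lit 4050, nat_lit 4158] (nat_lit 0) [] false,
   Spec.mk (nat_lit 4382) (nat_lit 1) [nat_lit 8756, nat_lit 2924, nat_lit 4388] (nat_lit 0) [nat_lit 10942] false,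
   Spec.mk (nat_lit 4388) (nat_lit 0) [nat_lit 8762, nat_lit 2930, nat_lit 4406, nat_lit 4382, nat_lit 4394, nat_lit 4390] (nat_lit 0) [nat_lit 10948] false,
   Spec.mk (nat_lit 4390) (nat_lit 1) [nat_lit 8764, nat_lit 2932, nat_lit 4408, nat_lit 4396, nat_lit 4388] (nat_lit 0) [nat_lit 10950] false,
   Spec.mk (nat_lit 4394) (nat_lit 0) [nat_lit 8768, nat_lit 2936, nat_lit 4412, nat_lit 4388, nat_lit 4396] (nat_lit 3) [nat_lit 10954] false,
   Spec.mk (nat_lit 4396) (nat_lit 0) [nat_lit 8770, nat_lit 2938, nat_lit 4414, nat_lit 4390, nat_lit 4394, nat_lit 4398] (nat_lit 0) [nat_lit 10956] false,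
   Spec.mk (nat_lit 4398) (nat_lit 1) [nat_lit 8772, nat_lit 2940, nat_lit 4416, nat_lit 4396] (nat_lit 0) [] false,
   Spec.mk (nat_lit 4406) (nat_lit 0) [nat_lit 8780, nat_lit 2948, nat_lit 4460, nat_lit 4388, nat_lit 4412, nat_lit 4408] (nat_lit 1) [nat_lit 10966] false,
   Spec.mk (nat_lit 4408) (nat_lit 0) [nat_lit 8782, nat_lit 2950, nat_lit 4462, nat_lit 4390, nat_lit 4414, nat_lit 4406] (nat_lit 1) [nat_lit 10968] false,
   Spec.mk (nat_lit 4412) (nat_lit 0) [nat_lit 8786, nat_lit 2954, nat_lit 4466, nat_lit 4394, nat_lit 4430, nat_lit 4406, nat_lit 4414] (nat_lit 2) [nat_lit 10972] false,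
   Spec.mk (nat_lit 4414) (nat_lit 0) [nat_lit 8788, nat_lit 2956, nat_lit 4468, nat_lit 4396, nat_lit 4432, nat_lit 4408, nat_lit 4420, nat_lit 4412, nat_lit 4416] (nat_lit 0) [nat_lit 10974] false,
   Spec.mk (nat_lit 4416) (nat_lit 0) [nat_lit 8790, nat_lit 2958, nat_lit 4470, nat_lit 4398, nat_lit 4434, nat_lit 4422, nat_lit 4414] (nat_lit 0) [] false,
   Spec.mk (nat_lit 4420) (nat_lit 0) [nat_lit 8794, nat_lit 2962, nat_lit 4474, nat_lit 4438, nat_lit 4414, nat_lit 4422] (nat_lit 1) [nat_lit 10980] false,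
   Spec.mk (nat_lit 4422) (nat_lit 1) [nat_lit 8796, nat_lit 2964, nat_lit 4476, nat_lit 4440, nat_lit 4416, nat_lit 4420] (nat_lit 0) [] false,
   Spec.mk (nat_lit 4430) (nat_lit 0) [nat_lit 8804, nat_lit 2972, nat_lit 4484, nat_lit 4412, nat_lit 4432] (nat_lit 3) [nat_lit 10990] false,
   Spec.mk (nat_lit 4432) (nat_lit 0) [nat_lit 8806, nat_lit 2974, nat_lit 4486, nat_lit 4414, nat_lit 4438, nat_lit 4430, nat_lit 4434] (nat_lit 2) [nat_lit 10992] false,
   Spec.mk (nat_lit 4434) (nat_lit 0) [nat_lit 8808, nat_lit 2976, nat_lit 4488, nat_lit 4416, nat_lit 4440, nat_lit 4432] (nat_lit 3) [] false,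
   Spec.mk (nat_lit 4438) (nat_lit 0) [nat_lit 8812, nat_lit 2980, nat_lit 4492, nat_lit 4420, nat_lit 4432, nat_lit 4440] (nat_lit 1) [nat_lit 10998] false,
   Spec.mk (nat_lit 4440) (nat_lit 0) [nat_lit 8814, nat_lit 2982, nat_lit 4494, nat_lit 4422, nat_lit 4434, nat_lit 4446, nat_lit 4438] (nat_lit 0) [] false,
   Spec.mk (nat_lit 4446) (nat_lit 1) [nat_lit 8820, nat_lit 2988, nat_lit 4500, nat_lit 4440] (nat_lit 0) [] false,
   Spec.mk (nat_lit 4460) (nat_lit 0) [nat_lit 8834, nat_lit 3002, nat_lit 4622, nat_lit 4406, nat_lit 4466, nat_lit 4462] (nat_lit 1) [nat_lit 11020] false,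
   Spec.mk (nat_lit 4462) (nat_lit 0) [nat_lit 8836, nat_lit 3004, nat_lit 4624, nat_lit 4408, nat_lit 4468, nat_lit 4460] (nat_lit 1) [nat_lit 11022] false,
   Spec.mk (nat_lit 4466) (nat_lit 0) [nat_lit 8840, nat_lit 3008, nat_lit 4628, nat_lit 4412, nat_lit 4484, nat_lit 4460, nat_lit 4468] (nat_lit 3) [nat_lit 11026] false,
   Spec.mk (nat_lit 4468) (nat_lit 0) [nat_lit 8842, nat_lit 3010, nat_lit 4630, nat_lit 4414, nat_lit 4486, nat_lit 4462, nat_lit 4474, nat_lit 4466, nat_lit 4470] (nat_lit 1) [nat_lit 11028] false,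
   Spec.mk (nat_lit 4470) (nat_lit 0) [nat_lit 8844, nat_lit 3012, nat_lit 4632, nat_lit 4416, nat_lit 4488, nat_lit 4476, nat_lit 4468] (nat_lit 1) [] false,
   Spec.mk (nat_lit 4474) (nat_lit 0) [nat_lit 8848, nat_lit 3016, nat_lit 4636, nat_lit 4420, nat_lit 4492, nat_lit 4468, nat_lit 4476] (nat_lit 3) [nat_lit 11034] false,
   Spec.mk (nat_lit 4476) (nat_lit 0) [nat_lit 8850, nat_lit 3018, nat_lit 4638, nat_lit 4422, nat_lit 4494, nat_lit 4470, nat_lit 4474] (nat_lit 1) [] false,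
   Spec.mk (nat_lit 4484) (nat_lit 0) [nat_lit 8858, nat_lit 3026, nat_lit 4646, nat_lit 4430, nat_lit 4538, nat_lit 4466, nat_lit 4486] (nat_lit 2) [nat_lit 11044] false,
   Spec.mk (nat_lit 4486) (nat_lit 0) [nat_lit 8860, nat_lit 3028, nat_lit 4648, nat_lit 4432, nat_lit 4540, nat_lit 4468, nat_lit 4492, nat_lit 4484, nat_lit 4488] (nat_lit 1) [nat_lit 11046] false,
   Spec.mk (nat_lit 4488) (nat_lit 0) [nat_lit 8862, nat_lit 3030, nat_lit 4650, nat_lit 4434, nat_lit 4542, nat_lit 4470, nat_lit 4494, nat_lit 4486] (nat_lit 2) [] false,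
   Spec.mk (nat_lit 4492) (nat_lit 0) [nat_lit 8866, nat_lit 3034, nat_lit 4654, nat_lit 4438, nat_lit 4546, nat_lit 4474, nat_lit 4510, nat_lit 4486, nat_lit 4494] (nat_lit 1) [nat_lit 11052] false,
   Spec.mk (nat_lit 4494) (nat_lit 0) [nat_lit 8868, nat_lit 3036, nat_lit 4656, nat_lit 4440, nat_lit 4548, nat_lit 4476, nat_lit 4512, nat_lit 4488, nat_lit 4500, nat_lit 4492] (nat_lit 0) [] false,
   Spec.mk (nat_lit 4500) (nat_lit 0) [nat_lit 8874, nat_lit 3042, nat_lit 4662, nat_lit 4446, nat_lit 4554, nat_lit 4518, nat_lit 4494] (nat_lit 0) [] false,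
   Spec.mk (nat_lit 4510) (nat_lit 0) [nat_lit 8884, nat_lit 3052, nat_lit 4672, nat_lit 4564, nat_lit 4492, nat_lit 4512] (nat_lit 1) [nat_lit 11070] false,
   Spec.mk (nat_lit 4512) (nat_lit 0) [nat_lit 8886, nat_lit 3054, nat_lit 4674, nat_lit 4566, nat_lit 4494, nat_lit 4518, nat_lit 4510] (nat_lit 1) [] false,
   Spec.mk (nat_lit 4518) (nat_lit 1) [nat_lit 8892, nat_lit 3060, nat_lit 4680, nat_lit 4572, nat_lit 4500, nat_lit 4512] (nat_lit 0) [] false,
   Spec.mk (nat_lit 4538) (nat_lit 0) [nat_lit 8912, nat_lit 3080, nat_lit 4700, nat_lit 4484, nat_lit 4540] (nat_lit 3) [nat_lit 11098] false,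
   Spec.mk (nat_lit 4540) (nat_lit 0) [nat_lit 8914, nat_lit 3082, nat_lit 4702, nat_lit 4486, nat_lit 4546, nat_lit 4538, nat_lit 4542] (nat_lit 2) [nat_lit 11100] false]

noncomputable def sp11 : List Spec :=
  [Spec.mk (nat_lit 4542) (nat_lit 0) [nat_lit 8916, nat_lit 3084, nat_lit 4704, nat_lit 4488, nat_lit 4548, nat_lit 4540] (nat_lit 3) [] false,
   Spec.mk (nat_lit 4546) (nat_lit 0) [nat_lit 8920, nat_lit 3088, nat_lit 4708, nat_lit 4492, nat_lit 4564, nat_lit 4540, nat_lit 4548] (nat_lit 3) [nat_lit 11106] false,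
   Spec.mk (nat_lit 4548) (nat_lit 0) [nat_lit 8922, nat_lit 3090, nat_lit 4710, nat_lit 4494, nat_lit 4566, nat_lit 4542, nat_lit 4554, nat_lit 4546] (nat_lit 2) [] false,
   Spec.mk (nat_lit 4554) (nat_lit 0) [nat_lit 8928, nat_lit 3096, nat_lit 4716, nat_lit 4500, nat_lit 4572, nat_lit 4548] (nat_lit 3) [] false,
   Spec.mk (nat_lit 4564) (nat_lit 0) [nat_lit 8938, nat_lit 3106, nat_lit 4726, nat_lit 4510, nat_lit 4546, nat_lit 4566] (nat_lit 1) [nat_lit 11124] false,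
   Spec.mk (nat_lit 4566) (nat_lit 0) [nat_lit 8940, nat_lit 3108, nat_lit 4728, nat_lit 4512, nat_lit 4548, nat_lit 4572, nat_lit 4564] (nat_lit 1) [] false,
   Spec.mk (nat_lit 4572) (nat_lit 0) [nat_lit 8946, nat_lit 3114, nat_lit 4734, nat_lit 4518, nat_lit 4554, nat_lit 4590, nat_lit 4566] (nat_lit 0) [] false,
   Spec.mk (nat_lit 4590) (nat_lit 1) [nat_lit 8964, nat_lit 3132, nat_lit 4752, nat_lit 4572] (nat_lit 0) [] false,
   Spec.mk (nat_lit 4622) (nat_lit 0) [nat_lit 8996, nat_lit 3164, nat_lit 5108, nat_lit 4460, nat_lit 4628, nat_lit 4624] (nat_lit 1) [nat_lit 11182] false,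
   Spec.mk (nat_lit 4624) (nat_lit 0) [nat_lit 8998, nat_lit 3166, nat_lit 5110, nat_lit 4462, nat_lit 4630, nat_lit 4622] (nat_lit 1) [nat_lit 11184] false,
   Spec.mk (nat_lit 4628) (nat_lit 0) [nat_lit 9002, nat_lit 3170, nat_lit 5114, nat_lit 4466, nat_lit 4646, nat_lit 4622, nat_lit 4630] (nat_lit 3) [nat_lit 11188] false,
   Spec.mk (nat_lit 4630) (nat_lit 0) [nat_lit 9004, nat_lit 3172, nat_lit 5116, nat_lit 4468, nat_lit 4648, nat_lit 4624, nat_lit 4636, nat_lit 4628, nat_lit 4632] (nat_lit 1) [nat_lit 11190] false,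
   Spec.mk (nat_lit 4632) (nat_lit 0) [nat_lit 9006, nat_lit 3174, nat_lit 5118, nat_lit 4470, nat_lit 4650, nat_lit 4638, nat_lit 4630] (nat_lit 1) [] false,
   Spec.mk (nat_lit 4636) (nat_lit 0) [nat_lit 9010, nat_lit 3178, nat_lit 5122, nat_lit 4474, nat_lit 4654, nat_lit 4630, nat_lit 4638] (nat_lit 3) [nat_lit 11196] false,
   Spec.mk (nat_lit 4638) (nat_lit 0) [nat_lit 9012, nat_lit 3180, nat_lit 5124, nat_lit 4476, nat_lit 4656, nat_lit 4632, nat_lit 4636] (nat_lit 1) [] false,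
   Spec.mk (nat_lit 4646) (nat_lit 0) [nat_lit 9020, nat_lit 3188, nat_lit 5132, nat_lit 4484, nat_lit 4700, nat_lit 4628, nat_lit 4648] (nat_lit 3) [nat_lit 11206] false,
   Spec.mk (nat_lit 4648) (nat_lit 0) [nat_lit 9022, nat_lit 3190, nat_lit 5134, nat_lit 4486, nat_lit 4702, nat_lit 4630, nat_lit 4654, nat_lit 4646, nat_lit 4650] (nat_lit 2) [nat_lit 11208] false,
   Spec.mk (nat_lit 4650) (nat_lit 0) [nat_lit 9024, nat_lit 3192, nat_lit 5136, nat_lit 4488, nat_lit 4704, nat_lit 4632, nat_lit 4656, nat_lit 4648] (nat_lit 3) [] false,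
   Spec.mk (nat_lit 4654) (nat_lit 0) [nat_lit 9028, nat_lit 3196, nat_lit 5140, nat_lit 4492, nat_lit 4708, nat_lit 4636, nat_lit 4672, nat_lit 4648, nat_lit 4656] (nat_lit 2) [nat_lit 11214] false,
   Spec.mk (nat_lit 4656) (nat_lit 0) [nat_lit 9030, nat_lit 3198, nat_lit 5142, nat_lit 4494, nat_lit 4710, nat_lit 4638, nat_lit 4674, nat_lit 4650, nat_lit 4662, nat_lit 4654] (nat_lit 1) [] false,
   Spec.mk (nat_lit 4662) (nat_lit 0) [nat_lit 9036, nat_lit 3204, nat_lit 5148, nat_lit 4500, nat_lit 4716, nat_lit 4680, nat_lit 4656] (nat_lit 1) [] false,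
   Spec.mk (nat_lit 4672) (nat_lit 0) [nat_lit 9046, nat_lit 3214, nat_lit 5158, nat_lit 4510, nat_lit 4726, nat_lit 4654, nat_lit 4674] (nat_lit 3) [nat_lit 11232] false,
   Spec.mk (nat_lit 4674) (nat_lit 0) [nat_lit 9048, nat_lit 3216, nat_lit 5160, nat_lit 4512, nat_lit 4728, nat_lit 4656, nat_lit 4680, nat_lit 4672] (nat_lit 3) [] false,
   Spec.mk (nat_lit 4680) (nat_lit 0) [nat_lit 9054, nat_lit 3222, nat_lit 5166, nat_lit 4518, nat_lit 4734, nat_lit 4662, nat_lit 4674] (nat_lit 1) [] false,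
   Spec.mk (nat_lit 4700) (nat_lit 0) [nat_lit 9074, nat_lit 3242, nat_lit 5186, nat_lit 4538, nat_lit 4862, nat_lit 4646, nat_lit 4702] (nat_lit 2) [nat_lit 11260] false,
   Spec.mk (nat_lit 4702) (nat_lit 0) [nat_lit 9076, nat_lit 3244, nat_lit 5188, nat_lit 4540, nat_lit 4864, nat_lit 4648, nat_lit 4708, nat_lit 4700, nat_lit 4704] (nat_lit 1) [nat_lit 11262] false,
   Spec.mk (nat_lit 4704) (nat_lit 0) [nat_lit 9078, nat_lit 3246, nat_lit 5190, nat_lit 4542, nat_lit 4866, nat_lit 4650, nat_lit 4710, nat_lit 4702] (nat_lit 2) [] false,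
   Spec.mk (nat_lit 4708) (nat_lit 0) [nat_lit 9082, nat_lit 3250, nat_lit 5194, nat_lit 4546, nat_lit 4870, nat_lit 4654, nat_lit 4726, nat_lit 4702, nat_lit 4710] (nat_lit 2) [nat_lit 11268] false,
   Spec.mk (nat_lit 4710) (nat_lit 0) [nat_lit 9084, nat_lit 3252, nat_lit 5196, nat_lit 4548, nat_lit 4872, nat_lit 4656, nat_lit 4728, nat_lit 4704, nat_lit 4716, nat_lit 4708] (nat_lit 1) [] false,
   Spec.mk (nat_lit 4716) (nat_lit 0) [nat_lit 9090, nat_lit 3258, nat_lit 5202, nat_lit 4554, nat_lit 4878, nat_lit 4662, nat_lit 4734, nat_lit 4710] (nat_lit 2) [] false,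
   Spec.mk (nat_lit 4726) (nat_lit 0) [nat_lit 9100, nat_lit 3268, nat_lit 5212, nat_lit 4564, nat_lit 4888, nat_lit 4672, nat_lit 4780, nat_lit 4708, nat_lit 4728] (nat_lit 1) [nat_lit 11286] false,
   Spec.mk (nat_lit 4728) (nat_lit 0) [nat_lit 9102, nat_lit 3270, nat_lit 5214, nat_lit 4566, nat_lit 4890, nat_lit 4674, nat_lit 4782, nat_lit 4710, nat_lit 4734, nat_lit 4726] (nat_lit 1) [] false,
   Spec.mk (nat_lit 4734) (nat_lit 0) [nat_lit 9108, nat_lit 3276, nat_lit 5220, nat_lit 4572, nat_lit 4896, nat_lit 4680, nat_lit 4788, nat_lit 4716, nat_lit 4752, nat_lit 4728] (nat_lit 0) [] false,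
   Spec.mk (nat_lit 4752) (nat_lit 0) [nat_lit 9126, nat_lit 3294, nat_lit 5238, nat_lit 4590, nat_lit 4914, nat_lit 4806, nat_lit 4734] (nat_lit 0) [] false,
   Spec.mk (nat_lit 4780) (nat_lit 0) [nat_lit 9154, nat_lit 3322, nat_lit 5266, nat_lit 4942, nat_lit 4726, nat_lit 4782] (nat_lit 1) [nat_lit 11340] false,
   Spec.mk (nat_lit 4782) (nat_lit 0) [nat_lit 9156, nat_lit 3324, nat_lit 5268, nat_lit 4944, nat_lit 4728, nat_lit 4788, nat_lit 4780] (nat_lit 1) [] false,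
   Spec.mk (nat_lit 4788) (nat_lit 0) [nat_lit 9162, nat_lit 3330, nat_lit 5274, nat_lit 4950, nat_lit 4734, nat_lit 4806, nat_lit 4782] (nat_lit 1) [] false,
   Spec.mk (nat_lit 4806) (nat_lit 1) [nat_lit 9180, nat_lit 3348, nat_lit 5292, nat_lit 4968, nat_lit 4752, nat_lit 4788] (nat_lit 0) [] false,
   Spec.mk (nat_lit 4862) (nat_lit 0) [nat_lit 9236, nat_lit 3404, nat_lit 5348, nat_lit 4700, nat_lit 4864] (nat_lit 3) [nat_lit 11422] false,
   Spec.mk (nat_lit 4864) (nat_lit 0) [nat_lit 9238, nat_lit 3406, nat_lit 5350, nat_lit 4702, nat_lit 4870, nat_lit 4862, nat_lit 4866] (nat_lit 2) [nat_lit 11424] false,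
   Spec.mk (nat_lit 4866) (nat_lit 0) [nat_lit 9240, nat_lit 3408, nat_lit 5352, nat_lit 4704, nat_lit 4872, nat_lit 4864] (nat_lit 3) [] false,
   Spec.mk (nat_lit 4870) (nat_lit 0) [nat_lit 9244, nat_lit 3412, nat_lit 5356, nat_lit 4708, nat_lit 4888, nat_lit 4864, nat_lit 4872] (nat_lit 3) [nat_lit 11430] false,
   Spec.mk (nat_lit 4872) (nat_lit 0) [nat_lit 9246, nat_lit 3414, nat_lit 5358, nat_lit 4710, nat_lit 4890, nat_lit 4866, nat_lit 4878, nat_lit 4870] (nat_lit 2) [] false,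
   Spec.mk (nat_lit 4878) (nat_lit 0) [nat_lit 9252, nat_lit 3420, nat_lit 5364, nat_lit 4716, nat_lit 4896, nat_lit 4872] (nat_lit 3) [] false,
   Spec.mk (nat_lit 4888) (nat_lit 0) [nat_lit 9262, nat_lit 3430, nat_lit 5374, nat_lit 4726, nat_lit 4942, nat_lit 4870, nat_lit 4890] (nat_lit 3) [nat_lit 11448] false,
   Spec.mk (nat_lit 4890) (nat_lit 0) [nat_lit 9264, nat_lit 3432, nat_lit 5376, nat_lit 4728, nat_lit 4944, nat_lit 4872, nat_lit 4896, nat_lit 4888] (nat_lit 3) [] false,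
   Spec.mk (nat_lit 4896) (nat_lit 0) [nat_lit 9270, nat_lit 3438, nat_lit 5382, nat_lit 4734, nat_lit 4950, nat_lit 4878, nat_lit 4914, nat_lit 4890] (nat_lit 2) [] false,
   Spec.mk (nat_lit 4914) (nat_lit 0) [nat_lit 9288, nat_lit 3456, nat_lit 5400, nat_lit 4752, nat_lit 4968, nat_lit 4896] (nat_lit 3) [] false,
   Spec.mk (nat_lit 4942) (nat_lit 0) [nat_lit 9316, nat_lit 3484, nat_lit 5428, nat_lit 4780, nat_lit 4888, nat_lit 4944] (nat_lit 1) [nat_lit 11502] false,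
   Spec.mk (nat_lit 4944) (nat_lit 0) [nat_lit 9318, nat_lit 3486, nat_lit 5430, nat_lit 4782, nat_lit 4890, nat_lit 4950, nat_lit 4942] (nat_lit 1) [] false,
   Spec.mk (nat_lit 4950) (nat_lit 0) [nat_lit 9324, nat_lit 3492, nat_lit 5436, nat_lit 4788, nat_lit 4896, nat_lit 4968, nat_lit 4944] (nat_lit 1) [] false,
   Spec.mk (nat_lit 4968) (nat_lit 0) [nat_lit 9342, nat_lit 3510, nat_lit 5454, nat_lit 4806, nat_lit 4914, nat_lit 5022, nat_lit 4950] (nat_lit 0) [] false,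
   Spec.mk (nat_lit 5022) (nat_lit 1) [nat_lit 9396, nat_lit 3564, nat_lit 5508, nat_lit 4968] (nat_lit 0) [] false,
   Spec.mk (nat_lit 5108) (nat_lit 1) [nat_lit 9482, nat_lit 3650, nat_lit 4622, nat_lit 5114, nat_lit 5110] (nat_lit 0) [nat_lit 11668] false,
   Spec.mk (nat_lit 5110) (nat_lit 1) [nat_lit 9484, nat_lit 3652, nat_lit 4624, nat_lit 5116, nat_lit 5108] (nat_lit 0) [nat_lit 11670] false,
   Spec.mk (nat_lit 5114) (nat_lit 0) [nat_lit 9488, nat_lit 3656, nat_lit 4628, nat_lit 5132, nat_lit 5108, nat_lit 5116] (nat_lit 1) [nat_lit 11674] false,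
   Spec.mk (nat_lit 5116) (nat_lit 1) [nat_lit 9490, nat_lit 3658, nat_lit 4630, nat_lit 5134, nat_lit 5110, nat_lit 5122, nat_lit 5114, nat_lit 5118] (nat_lit 0) [nat_lit 11676] false,
   Spec.mk (nat_lit 5118) (nat_lit 1) [nat_lit 9492, nat_lit 3660, nat_lit 4632, nat_lit 5136, nat_lit 5124, nat_lit 5116] (nat_lit 0) [] false,
   Spec.mk (nat_lit 5122) (nat_lit 0) [nat_lit 9496, nat_lit 3664, nat_lit 4636, nat_lit 5140, nat_lit 5116, nat_lit 5124] (nat_lit 1) [nat_lit 11682] false,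
   Spec.mk (nat_lit 5124) (nat_lit 1) [nat_lit 9498, nat_lit 3666, nat_lit 4638, nat_lit 5142, nat_lit 5118, nat_lit 5122] (nat_lit 0) [] false]

noncomputable def sp12 : List Spec :=
  [Spec.mk (nat_lit 5132) (nat_lit 0) [nat_lit 9506, nat_lit 3674, nat_lit 4646, nat_lit 5186, nat_lit 5114, nat_lit 5134] (nat_lit 1) [nat_lit 11692] false,
   Spec.mk (nat_lit 5134) (nat_lit 0) [nat_lit 9508, nat_lit 3676, nat_lit 4648, nat_lit 5188, nat_lit 5116, nat_lit 5140, nat_lit 5132, nat_lit 5136] (nat_lit 0) [nat_lit 11694] false,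
   Spec.mk (nat_lit 5136) (nat_lit 0) [nat_lit 9510, nat_lit 3678, nat_lit 4650, nat_lit 5190, nat_lit 5118, nat_lit 5142, nat_lit 5134] (nat_lit 1) [] false,
   Spec.mk (nat_lit 5140) (nat_lit 0) [nat_lit 9514, nat_lit 3682, nat_lit 4654, nat_lit 5194, nat_lit 5122, nat_lit 5158, nat_lit 5134, nat_lit 5142] (nat_lit 0) [nat_lit 11700] false,
   Spec.mk (nat_lit 5142) (nat_lit 1) [nat_lit 9516, nat_lit 3684, nat_lit 4656, nat_lit 5196, nat_lit 5124, nat_lit 5160, nat_lit 5136, nat_lit 5148, nat_lit 5140] (nat_lit 0) [] false,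
   Spec.mk (nat_lit 5148) (nat_lit 1) [nat_lit 9522, nat_lit 3690, nat_lit 4662, nat_lit 5202, nat_lit 5166, nat_lit 5142] (nat_lit 0) [] false,
   Spec.mk (nat_lit 5158) (nat_lit 0) [nat_lit 9532, nat_lit 3700, nat_lit 4672, nat_lit 5212, nat_lit 5140, nat_lit 5160] (nat_lit 1) [nat_lit 11718] false,
   Spec.mk (nat_lit 5160) (nat_lit 0) [nat_lit 9534, nat_lit 3702, nat_lit 4674, nat_lit 5214, nat_lit 5142, nat_lit 5166, nat_lit 5158] (nat_lit 1) [] false,
   Spec.mk (nat_lit 5166) (nat_lit 1) [nat_lit 9540, nat_lit 3708, nat_lit 4680, nat_lit 5220, nat_lit 5148, nat_lit 5160] (nat_lit 0) [] false,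
   Spec.mk (nat_lit 5186) (nat_lit 0) [nat_lit 9560, nat_lit 3728, nat_lit 4700, nat_lit 5348, nat_lit 5132, nat_lit 5188] (nat_lit 1) [nat_lit 11746] false,
   Spec.mk (nat_lit 5188) (nat_lit 0) [nat_lit 9562, nat_lit 3730, nat_lit 4702, nat_lit 5350, nat_lit 5134, nat_lit 5194, nat_lit 5186, nat_lit 5190] (nat_lit 0) [nat_lit 11748] false,
   Spec.mk (nat_lit 5190) (nat_lit 0) [nat_lit 9564, nat_lit 3732, nat_lit 4704, nat_lit 5352, nat_lit 5136, nat_lit 5196, nat_lit 5188] (nat_lit 1) [] false,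
   Spec.mk (nat_lit 5194) (nat_lit 0) [nat_lit 9568, nat_lit 3736, nat_lit 4708, nat_lit 5356, nat_lit 5140, nat_lit 5212, nat_lit 5188, nat_lit 5196] (nat_lit 1) [nat_lit 11754] false,
   Spec.mk (nat_lit 5196) (nat_lit 0) [nat_lit 9570, nat_lit 3738, nat_lit 4710, nat_lit 5358, nat_lit 5142, nat_lit 5214, nat_lit 5190, nat_lit 5202, nat_lit 5194] (nat_lit 0) [] false,
   Spec.mk (nat_lit 5202) (nat_lit 0) [nat_lit 9576, nat_lit 3744, nat_lit 4716, nat_lit 5364, nat_lit 5148, nat_lit 5220, nat_lit 5196] (nat_lit 1) [] false,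
   Spec.mk (nat_lit 5212) (nat_lit 0) [nat_lit 9586, nat_lit 3754, nat_lit 4726, nat_lit 5374, nat_lit 5158, nat_lit 5266, nat_lit 5194, nat_lit 5214] (nat_lit 0) [nat_lit 11772] false,
   Spec.mk (nat_lit 5214) (nat_lit 0) [nat_lit 9588, nat_lit 3756, nat_lit 4728, nat_lit 5376, nat_lit 5160, nat_lit 5268, nat_lit 5196, nat_lit 5220, nat_lit 5212] (nat_lit 0) [] false,
   Spec.mk (nat_lit 5220) (nat_lit 1) [nat_lit 9594, nat_lit 3762, nat_lit 4734, nat_lit 5382, nat_lit 5166, nat_lit 5274, nat_lit 5202, nat_lit 5238, nat_lit 5214] (nat_lit 0) [] false,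
   Spec.mk (nat_lit 5238) (nat_lit 1) [nat_lit 9612, nat_lit 3780, nat_lit 4752, nat_lit 5400, nat_lit 5292, nat_lit 5220] (nat_lit 0) [] false,
   Spec.mk (nat_lit 5266) (nat_lit 0) [nat_lit 9640, nat_lit 3808, nat_lit 4780, nat_lit 5428, nat_lit 5212, nat_lit 5268] (nat_lit 1) [nat_lit 11826] false,
   Spec.mk (nat_lit 5268) (nat_lit 0) [nat_lit 9642, nat_lit 3810, nat_lit 4782, nat_lit 5430, nat_lit 5214, nat_lit 5274, nat_lit 5266] (nat_lit 1) [] false,
   Spec.mk (nat_lit 5274) (nat_lit 0) [nat_lit 9648, nat_lit 3816, nat_lit 4788, nat_lit 5436, nat_lit 5220, nat_lit 5292, nat_lit 5268] (nat_lit 1) [] false,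
   Spec.mk (nat_lit 5292) (nat_lit 1) [nat_lit 9666, nat_lit 3834, nat_lit 4806, nat_lit 5454, nat_lit 5238, nat_lit 5274] (nat_lit 0) [] false,
   Spec.mk (nat_lit 5348) (nat_lit 0) [nat_lit 9722, nat_lit 3890, nat_lit 4862, nat_lit 5834, nat_lit 5186, nat_lit 5350] (nat_lit 0) [nat_lit 11908] false,
   Spec.mk (nat_lit 5350) (nat_lit 1) [nat_lit 9724, nat_lit 3892, nat_lit 4864, nat_lit 5836, nat_lit 5188, nat_lit 5356, nat_lit 5348, nat_lit 5352] (nat_lit 0) [nat_lit 11910] false,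
   Spec.mk (nat_lit 5352) (nat_lit 0) [nat_lit 9726, nat_lit 3894, nat_lit 4866, nat_lit 5838, nat_lit 5190, nat_lit 5358, nat_lit 5350] (nat_lit 0) [] false,
   Spec.mk (nat_lit 5356) (nat_lit 0) [nat_lit 9730, nat_lit 3898, nat_lit 4870, nat_lit 5842, nat_lit 5194, nat_lit 5374, nat_lit 5350, nat_lit 5358] (nat_lit 0) [nat_lit 11916] false,
   Spec.mk (nat_lit 5358) (nat_lit 1) [nat_lit 9732, nat_lit 3900, nat_lit 4872, nat_lit 5844, nat_lit 5196, nat_lit 5376, nat_lit 5352, nat_lit 5364, nat_lit 5356] (nat_lit 0) [] false,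
   Spec.mk (nat_lit 5364) (nat_lit 0) [nat_lit 9738, nat_lit 3906, nat_lit 4878, nat_lit 5850, nat_lit 5202, nat_lit 5382, nat_lit 5358] (nat_lit 0) [] false,
   Spec.mk (nat_lit 5374) (nat_lit 0) [nat_lit 9748, nat_lit 3916, nat_lit 4888, nat_lit 5860, nat_lit 5212, nat_lit 5428, nat_lit 5356, nat_lit 5376] (nat_lit 0) [nat_lit 11934] false,
   Spec.mk (nat_lit 5376) (nat_lit 0) [nat_lit 9750, nat_lit 3918, nat_lit 4890, nat_lit 5862, nat_lit 5214, nat_lit 5430, nat_lit 5358, nat_lit 5382, nat_lit 5374] (nat_lit 0) [] false,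
   Spec.mk (nat_lit 5382) (nat_lit 1) [nat_lit 9756, nat_lit 3924, nat_lit 4896, nat_lit 5868, nat_lit 5220, nat_lit 5436, nat_lit 5364, nat_lit 5400, nat_lit 5376] (nat_lit 0) [] false,
   Spec.mk (nat_lit 5400) (nat_lit 0) [nat_lit 9774, nat_lit 3942, nat_lit 4914, nat_lit 5886, nat_lit 5238, nat_lit 5454, nat_lit 5382] (nat_lit 0) [] false,
   Spec.mk (nat_lit 5428) (nat_lit 1) [nat_lit 9802, nat_lit 3970, nat_lit 4942, nat_lit 5914, nat_lit 5266, nat_lit 5590, nat_lit 5374, nat_lit 5430] (nat_lit 0) [nat_lit 11988] false,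
   Spec.mk (nat_lit 5430) (nat_lit 1) [nat_lit 9804, nat_lit 3972, nat_lit 4944, nat_lit 5916, nat_lit 5268, nat_lit 5592, nat_lit 5376, nat_lit 5436, nat_lit 5428] (nat_lit 0) [] false,
   Spec.mk (nat_lit 5436) (nat_lit 1) [nat_lit 9810, nat_lit 3978, nat_lit 4950, nat_lit 5922, nat_lit 5274, nat_lit 5598, nat_lit 5382, nat_lit 5454, nat_lit 5430] (nat_lit 0) [] false,
   Spec.mk (nat_lit 5454) (nat_lit 2) [nat_lit 9828, nat_lit 3996, nat_lit 4968, nat_lit 5940, nat_lit 5292, nat_lit 5616, nat_lit 5400, nat_lit 5508, nat_lit 5436] (nat_lit 0) [] false,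
   Spec.mk (nat_lit 5508) (nat_lit 2) [nat_lit 9882, nat_lit 4050, nat_lit 5022, nat_lit 5994, nat_lit 5670, nat_lit 5454] (nat_lit 0) [] false,
   Spec.mk (nat_lit 5590) (nat_lit 1) [nat_lit 9964, nat_lit 4132, nat_lit 6076, nat_lit 5428, nat_lit 5592] (nat_lit 0) [nat_lit 12150] false,
   Spec.mk (nat_lit 5592) (nat_lit 1) [nat_lit 9966, nat_lit 4134, nat_lit 6078, nat_lit 5430, nat_lit 5598, nat_lit 5590] (nat_lit 0) [] false,
   Spec.mk (nat_lit 5598) (nat_lit 1) [nat_lit 9972, nat_lit 4140, nat_lit 6084, nat_lit 5436, nat_lit 5616, nat_lit 5592] (nat_lit 0) [] false,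
   Spec.mk (nat_lit 5616) (nat_lit 1) [nat_lit 9990, nat_lit 4158, nat_lit 6102, nat_lit 5454, nat_lit 5670, nat_lit 5598] (nat_lit 0) [] false,
   Spec.mk (nat_lit 5670) (nat_lit 3) [nat_lit 10044, nat_lit 4212, nat_lit 6156, nat_lit 5508, nat_lit 5616] (nat_lit 0) [] false,
   Spec.mk (nat_lit 5834) (nat_lit 1) [nat_lit 10208, nat_lit 5348, nat_lit 5836] (nat_lit 0) [nat_lit 12394] false,
   Spec.mk (nat_lit 5836) (nat_lit 2) [nat_lit 10210, nat_lit 5350, nat_lit 5842, nat_lit 5834, nat_lit 5838] (nat_lit 0) [nat_lit 12396] false,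
   Spec.mk (nat_lit 5838) (nat_lit 1) [nat_lit 10212, nat_lit 5352, nat_lit 5844, nat_lit 5836] (nat_lit 0) [] false,
   Spec.mk (nat_lit 5842) (nat_lit 1) [nat_lit 10216, nat_lit 5356, nat_lit 5860, nat_lit 5836, nat_lit 5844] (nat_lit 0) [nat_lit 12402] false,
   Spec.mk (nat_lit 5844) (nat_lit 2) [nat_lit 10218, nat_lit 5358, nat_lit 5862, nat_lit 5838, nat_lit 5850, nat_lit 5842] (nat_lit 0) [] false,
   Spec.mk (nat_lit 5850) (nat_lit 1) [nat_lit 10224, nat_lit 5364, nat_lit 5868, nat_lit 5844] (nat_lit 0) [] false,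
   Spec.mk (nat_lit 5860) (nat_lit 1) [nat_lit 10234, nat_lit 5374, nat_lit 5914, nat_lit 5842, nat_lit 5862] (nat_lit 0) [nat_lit 12420] false,
   Spec.mk (nat_lit 5862) (nat_lit 1) [nat_lit 10236, nat_lit 5376, nat_lit 5916, nat_lit 5844, nat_lit 5868, nat_lit 5860] (nat_lit 0) [] false,
   Spec.mk (nat_lit 5868) (nat_lit 2) [nat_lit 10242, nat_lit 5382, nat_lit 5922, nat_lit 5850, nat_lit 5886, nat_lit 5862] (nat_lit 0) [] false,
   Spec.mk (nat_lit 5886) (nat_lit 1) [nat_lit 10260, nat_lit 5400, nat_lit 5940, nat_lit 5868] (nat_lit 0) [] false,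
   Spec.mk (nat_lit 5914) (nat_lit 1) [nat_lit 10288, nat_lit 5428, nat_lit 6076, nat_lit 5860, nat_lit 5916] (nat_lit 0) [nat_lit 12474] false,
   Spec.mk (nat_lit 5916) (nat_lit 1) [nat_lit 10290, nat_lit 5430, nat_lit 6078, nat_lit 5862, nat_lit 5922, nat_lit 5914] (nat_lit 0) [] false,
   Spec.mk (nat_lit 5922) (nat_lit 1) [nat_lit 10296, nat_lit 5436, nat_lit 6084, nat_lit 5868, nat_lit 5940, nat_lit 5916] (nat_lit 0) [] false,
   Spec.mk (nat_lit 5940) (nat_lit 2) [nat_lit 10314, nat_lit 5454, nat_lit 6102, nat_lit 5886, nat_lit 5994, nat_lit 5922] (nat_lit 0) [] false,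
   Spec.mk (nat_lit 5994) (nat_lit 1) [nat_lit 10368, nat_lit 5508, nat_lit 6156, nat_lit 5940] (nat_lit 0) [] false,
   Spec.mk (nat_lit 6076) (nat_lit 3) [nat_lit 10450, nat_lit 5590, nat_lit 5914, nat_lit 6078] (nat_lit 0) [nat_lit 12636] false,
   Spec.mk (nat_lit 6078) (nat_lit 3) [nat_lit 10452, nat_lit 5592, nat_lit 5916, nat_lit 6084, nat_lit 6076] (nat_lit 0) [] false]

noncomputable def sp13 : List Spec :=
  [Spec.mk (nat_lit 6084) (nat_lit 3) [nat_lit 10458, nat_lit 5598, nat_lit 5922, nat_lit 6102, nat_lit 6078] (nat_lit 0) [] false,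
   Spec.mk (nat_lit 6102) (nat_lit 3) [nat_lit 10476, nat_lit 5616, nat_lit 5940, nat_lit 6156, nat_lit 6084] (nat_lit 0) [] false,
   Spec.mk (nat_lit 6156) (nat_lit 4) [nat_lit 10530, nat_lit 5670, nat_lit 5994, nat_lit 6318, nat_lit 6102] (nat_lit 0) [] false,
   Spec.mk (nat_lit 6318) (nat_lit 5) [nat_lit 10692, nat_lit 6156] (nat_lit 0) [] false,
   Spec.mk (nat_lit 6578) (nat_lit 5) [nat_lit 2204, nat_lit 6596, nat_lit 6584] (nat_lit 0) [nat_lit 13138] false,
   Spec.mk (nat_lit 6584) (nat_lit 3) [nat_lit 2210, nat_lit 6602, nat_lit 6578, nat_lit 6586] (nat_lit 0) [nat_lit 13144] false,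
   Spec.mk (nat_lit 6586) (nat_lit 4) [nat_lit 2212, nat_lit 6604, nat_lit 6584] (nat_lit 0) [nat_lit 13146, nat_lit 26] false,
   Spec.mk (nat_lit 6596) (nat_lit 3) [nat_lit 2222, nat_lit 6650, nat_lit 6578, nat_lit 6602] (nat_lit 0) [nat_lit 13156] false,
   Spec.mk (nat_lit 6602) (nat_lit 3) [nat_lit 2228, nat_lit 6656, nat_lit 6584, nat_lit 6620, nat_lit 6596, nat_lit 6608, nat_lit 6604] (nat_lit 0) [nat_lit 13162] false,
   Spec.mk (nat_lit 6604) (nat_lit 3) [nat_lit 2230, nat_lit 6658, nat_lit 6586, nat_lit 6622, nat_lit 6610, nat_lit 6602] (nat_lit 0) [nat_lit 13164, nat_lit 44] false,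
   Spec.mk (nat_lit 6608) (nat_lit 1) [nat_lit 2234, nat_lit 6662, nat_lit 6626, nat_lit 6602, nat_lit 6610] (nat_lit 0) [nat_lit 13168] false,
   Spec.mk (nat_lit 6610) (nat_lit 3) [nat_lit 2236, nat_lit 6664, nat_lit 6628, nat_lit 6604, nat_lit 6608, nat_lit 6612] (nat_lit 0) [nat_lit 13170, nat_lit 50] false,
   Spec.mk (nat_lit 6612) (nat_lit 3) [nat_lit 2238, nat_lit 6666, nat_lit 6630, nat_lit 6610] (nat_lit 0) [nat_lit 52] false,
   Spec.mk (nat_lit 6620) (nat_lit 1) [nat_lit 2246, nat_lit 6674, nat_lit 6602, nat_lit 6626, nat_lit 6622] (nat_lit 0) [nat_lit 13180] false,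
   Spec.mk (nat_lit 6622) (nat_lit 0) [nat_lit 2248, nat_lit 6676, nat_lit 6604, nat_lit 6628, nat_lit 6620] (nat_lit 0) [nat_lit 13182, nat_lit 62] false,
   Spec.mk (nat_lit 6626) (nat_lit 1) [nat_lit 2252, nat_lit 6680, nat_lit 6608, nat_lit 6620, nat_lit 6628] (nat_lit 0) [nat_lit 13186] false,
   Spec.mk (nat_lit 6628) (nat_lit 2) [nat_lit 2254, nat_lit 6682, nat_lit 6610, nat_lit 6622, nat_lit 6634, nat_lit 6626, nat_lit 6630] (nat_lit 0) [nat_lit 13188, nat_lit 68] false,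
   Spec.mk (nat_lit 6630) (nat_lit 1) [nat_lit 2256, nat_lit 6684, nat_lit 6612, nat_lit 6636, nat_lit 6628] (nat_lit 0) [nat_lit 70] false,
   Spec.mk (nat_lit 6634) (nat_lit 2) [nat_lit 2260, nat_lit 6688, nat_lit 6628, nat_lit 6636] (nat_lit 0) [nat_lit 13194, nat_lit 74] false,
   Spec.mk (nat_lit 6636) (nat_lit 3) [nat_lit 2262, nat_lit 6690, nat_lit 6630, nat_lit 6634] (nat_lit 0) [nat_lit 76] false,
   Spec.mk (nat_lit 6650) (nat_lit 3) [nat_lit 2276, nat_lit 6812, nat_lit 6596, nat_lit 6656] (nat_lit 0) [nat_lit 13210] false,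
   Spec.mk (nat_lit 6656) (nat_lit 2) [nat_lit 2282, nat_lit 6818, nat_lit 6602, nat_lit 6674, nat_lit 6650, nat_lit 6662, nat_lit 6658] (nat_lit 0) [nat_lit 13216] false,
   Spec.mk (nat_lit 6658) (nat_lit 2) [nat_lit 2284, nat_lit 6820, nat_lit 6604, nat_lit 6676, nat_lit 6664, nat_lit 6656] (nat_lit 0) [nat_lit 13218, nat_lit 98] false,
   Spec.mk (nat_lit 6662) (nat_lit 0) [nat_lit 2288, nat_lit 6824, nat_lit 6608, nat_lit 6680, nat_lit 6656, nat_lit 6664] (nat_lit 1) [nat_lit 13222] false,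
   Spec.mk (nat_lit 6664) (nat_lit 1) [nat_lit 2290, nat_lit 6826, nat_lit 6610, nat_lit 6682, nat_lit 6658, nat_lit 6662, nat_lit 6666] (nat_lit 0) [nat_lit 13224, nat_lit 104] false,
   Spec.mk (nat_lit 6666) (nat_lit 1) [nat_lit 2292, nat_lit 6828, nat_lit 6612, nat_lit 6684, nat_lit 6664] (nat_lit 0) [nat_lit 106] false,
   Spec.mk (nat_lit 6674) (nat_lit 2) [nat_lit 2300, nat_lit 6836, nat_lit 6620, nat_lit 6728, nat_lit 6656, nat_lit 6680, nat_lit 6676] (nat_lit 0) [nat_lit 13234] false,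
   Spec.mk (nat_lit 6676) (nat_lit 1) [nat_lit 2302, nat_lit 6838, nat_lit 6622, nat_lit 6730, nat_lit 6658, nat_lit 6682, nat_lit 6674] (nat_lit 0) [nat_lit 13236, nat_lit 116] false,
   Spec.mk (nat_lit 6680) (nat_lit 1) [nat_lit 2306, nat_lit 6842, nat_lit 6626, nat_lit 6734, nat_lit 6662, nat_lit 6698, nat_lit 6674, nat_lit 6682] (nat_lit 0) [nat_lit 13240] false,
   Spec.mk (nat_lit 6682) (nat_lit 2) [nat_lit 2308, nat_lit 6844, nat_lit 6628, nat_lit 6736, nat_lit 6664, nat_lit 6700, nat_lit 6676, nat_lit 6688, nat_lit 6680, nat_lit 6684] (nat_lit 0) [nat_lit 13242, nat_lit 122] false,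
   Spec.mk (nat_lit 6684) (nat_lit 1) [nat_lit 2310, nat_lit 6846, nat_lit 6630, nat_lit 6738, nat_lit 6666, nat_lit 6702, nat_lit 6690, nat_lit 6682] (nat_lit 0) [nat_lit 124] false,
   Spec.mk (nat_lit 6688) (nat_lit 1) [nat_lit 2314, nat_lit 6850, nat_lit 6634, nat_lit 6742, nat_lit 6706, nat_lit 6682, nat_lit 6690] (nat_lit 0) [nat_lit 13248, nat_lit 128] false,
   Spec.mk (nat_lit 6690) (nat_lit 2) [nat_lit 2316, nat_lit 6852, nat_lit 6636, nat_lit 6744, nat_lit 6708, nat_lit 6684, nat_lit 6688] (nat_lit 0) [nat_lit 130] false,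
   Spec.mk (nat_lit 6698) (nat_lit 1) [nat_lit 2324, nat_lit 6860, nat_lit 6752, nat_lit 6680, nat_lit 6700] (nat_lit 0) [nat_lit 13258] false,
   Spec.mk (nat_lit 6700) (nat_lit 1) [nat_lit 2326, nat_lit 6862, nat_lit 6754, nat_lit 6682, nat_lit 6706, nat_lit 6698, nat_lit 6702] (nat_lit 0) [nat_lit 13260, nat_lit 140] false,
   Spec.mk (nat_lit 6702) (nat_lit 0) [nat_lit 2328, nat_lit 6864, nat_lit 6756, nat_lit 6684, nat_lit 6708, nat_lit 6700] (nat_lit 1) [nat_lit 142] false,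
   Spec.mk (nat_lit 6706) (nat_lit 2) [nat_lit 2332, nat_lit 6868, nat_lit 6760, nat_lit 6688, nat_lit 6700, nat_lit 6708] (nat_lit 0) [nat_lit 13266, nat_lit 146] false,
   Spec.mk (nat_lit 6708) (nat_lit 2) [nat_lit 2334, nat_lit 6870, nat_lit 6762, nat_lit 6690, nat_lit 6702, nat_lit 6714, nat_lit 6706] (nat_lit 0) [nat_lit 148] false,
   Spec.mk (nat_lit 6714) (nat_lit 3) [nat_lit 2340, nat_lit 6876, nat_lit 6768, nat_lit 6708] (nat_lit 0) [nat_lit 154] false,
   Spec.mk (nat_lit 6728) (nat_lit 1) [nat_lit 2354, nat_lit 6890, nat_lit 6674, nat_lit 6734, nat_lit 6730] (nat_lit 0) [nat_lit 13288] false,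
   Spec.mk (nat_lit 6730) (nat_lit 0) [nat_lit 2356, nat_lit 6892, nat_lit 6676, nat_lit 6736, nat_lit 6728] (nat_lit 0) [nat_lit 13290, nat_lit 170] false,
   Spec.mk (nat_lit 6734) (nat_lit 0) [nat_lit 2360, nat_lit 6896, nat_lit 6680, nat_lit 6752, nat_lit 6728, nat_lit 6736] (nat_lit 1) [nat_lit 13294] false,
   Spec.mk (nat_lit 6736) (nat_lit 0) [nat_lit 2362, nat_lit 6898, nat_lit 6682, nat_lit 6754, nat_lit 6730, nat_lit 6742, nat_lit 6734, nat_lit 6738] (nat_lit 0) [nat_lit 13296, nat_lit 176] false,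
   Spec.mk (nat_lit 6738) (nat_lit 0) [nat_lit 2364, nat_lit 6900, nat_lit 6684, nat_lit 6756, nat_lit 6744, nat_lit 6736] (nat_lit 1) [nat_lit 178] false,
   Spec.mk (nat_lit 6742) (nat_lit 0) [nat_lit 2368, nat_lit 6904, nat_lit 6688, nat_lit 6760, nat_lit 6736, nat_lit 6744] (nat_lit 2) [nat_lit 13302, nat_lit 182] false,
   Spec.mk (nat_lit 6744) (nat_lit 0) [nat_lit 2370, nat_lit 6906, nat_lit 6690, nat_lit 6762, nat_lit 6738, nat_lit 6742] (nat_lit 1) [nat_lit 184] false,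
   Spec.mk (nat_lit 6752) (nat_lit 1) [nat_lit 2378, nat_lit 6914, nat_lit 6698, nat_lit 6734, nat_lit 6754] (nat_lit 0) [nat_lit 13312] false,
   Spec.mk (nat_lit 6754) (nat_lit 1) [nat_lit 2380, nat_lit 6916, nat_lit 6700, nat_lit 6736, nat_lit 6760, nat_lit 6752, nat_lit 6756] (nat_lit 0) [nat_lit 13314, nat_lit 194] false,
   Spec.mk (nat_lit 6756) (nat_lit 0) [nat_lit 2382, nat_lit 6918, nat_lit 6702, nat_lit 6738, nat_lit 6762, nat_lit 6754] (nat_lit 1) [nat_lit 196] false,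
   Spec.mk (nat_lit 6760) (nat_lit 1) [nat_lit 2386, nat_lit 6922, nat_lit 6706, nat_lit 6742, nat_lit 6778, nat_lit 6754, nat_lit 6762] (nat_lit 0) [nat_lit 13320, nat_lit 200] false,
   Spec.mk (nat_lit 6762) (nat_lit 1) [nat_lit 2388, nat_lit 6924, nat_lit 6708, nat_lit 6744, nat_lit 6780, nat_lit 6756, nat_lit 6768, nat_lit 6760] (nat_lit 0) [nat_lit 202] false,
   Spec.mk (nat_lit 6768) (nat_lit 1) [nat_lit 2394, nat_lit 6930, nat_lit 6714, nat_lit 6786, nat_lit 6762] (nat_lit 0) [nat_lit 208] false,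
   Spec.mk (nat_lit 6778) (nat_lit 2) [nat_lit 2404, nat_lit 6940, nat_lit 6760, nat_lit 6780] (nat_lit 0) [nat_lit 13338, nat_lit 218] false,
   Spec.mk (nat_lit 6780) (nat_lit 1) [nat_lit 2406, nat_lit 6942, nat_lit 6762, nat_lit 6786, nat_lit 6778] (nat_lit 0) [nat_lit 220] false,
   Spec.mk (nat_lit 6786) (nat_lit 3) [nat_lit 2412, nat_lit 6948, nat_lit 6768, nat_lit 6780] (nat_lit 0) [nat_lit 226] false,
   Spec.mk (nat_lit 6812) (nat_lit 3) [nat_lit 2438, nat_lit 7298, nat_lit 6650, nat_lit 6818] (nat_lit 0) [nat_lit 13372] false,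
   Spec.mk (nat_lit 6818) (nat_lit 2) [nat_lit 2444, nat_lit 7304, nat_lit 6656, nat_lit 6836, nat_lit 6812, nat_lit 6824, nat_lit 6820] (nat_lit 0) [nat_lit 13378] false,
   Spec.mk (nat_lit 6820) (nat_lit 2) [nat_lit 2446, nat_lit 7306, nat_lit 6658, nat_lit 6838, nat_lit 6826, nat_lit 6818] (nat_lit 0) [nat_lit 13380, nat_lit 260] false,
   Spec.mk (nat_lit 6824) (nat_lit 0) [nat_lit 2450, nat_lit 7310, nat_lit 6662, nat_lit 6842, nat_lit 6818, nat_lit 6826] (nat_lit 1) [nat_lit 13384] false,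
   Spec.mk (nat_lit 6826) (nat_lit 1) [nat_lit 2452, nat_lit 7312, nat_lit 6664, nat_lit 6844, nat_lit 6820, nat_lit 6824, nat_lit 6828] (nat_lit 0) [nat_lit 13386, nat_lit 266] false]

noncomputable def sp14 : List Spec :=
  [Spec.mk (nat_lit 6828) (nat_lit 1) [nat_lit 2454, nat_lit 7314, nat_lit 6666, nat_lit 6846, nat_lit 6826] (nat_lit 0) [nat_lit 268] false,
   Spec.mk (nat_lit 6836) (nat_lit 1) [nat_lit 2462, nat_lit 7322, nat_lit 6674, nat_lit 6890, nat_lit 6818, nat_lit 6842, nat_lit 6838] (nat_lit 0) [nat_lit 13396] false,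
   Spec.mk (nat_lit 6838) (nat_lit 0) [nat_lit 2464, nat_lit 7324, nat_lit 6676, nat_lit 6892, nat_lit 6820, nat_lit 6844, nat_lit 6836] (nat_lit 0) [nat_lit 13398, nat_lit 278] false,
   Spec.mk (nat_lit 6842) (nat_lit 0) [nat_lit 2468, nat_lit 7328, nat_lit 6680, nat_lit 6896, nat_lit 6824, nat_lit 6860, nat_lit 6836, nat_lit 6844] (nat_lit 0) [nat_lit 13402] false,
   Spec.mk (nat_lit 6844) (nat_lit 1) [nat_lit 2470, nat_lit 7330, nat_lit 6682, nat_lit 6898, nat_lit 6826, nat_lit 6862, nat_lit 6838, nat_lit 6850, nat_lit 6842, nat_lit 6846] (nat_lit 0) [nat_lit 13404, nat_lit 284] false,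
   Spec.mk (nat_lit 6846) (nat_lit 0) [nat_lit 2472, nat_lit 7332, nat_lit 6684, nat_lit 6900, nat_lit 6828, nat_lit 6864, nat_lit 6852, nat_lit 6844] (nat_lit 0) [nat_lit 286] false,
   Spec.mk (nat_lit 6850) (nat_lit 0) [nat_lit 2476, nat_lit 7336, nat_lit 6688, nat_lit 6904, nat_lit 6868, nat_lit 6844, nat_lit 6852] (nat_lit 0) [nat_lit 13410, nat_lit 290] false,
   Spec.mk (nat_lit 6852) (nat_lit 1) [nat_lit 2478, nat_lit 7338, nat_lit 6690, nat_lit 6906, nat_lit 6870, nat_lit 6846, nat_lit 6850] (nat_lit 0) [nat_lit 292] false,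
   Spec.mk (nat_lit 6860) (nat_lit 0) [nat_lit 2486, nat_lit 7346, nat_lit 6698, nat_lit 6914, nat_lit 6842, nat_lit 6862] (nat_lit 1) [nat_lit 13420] false,
   Spec.mk (nat_lit 6862) (nat_lit 0) [nat_lit 2488, nat_lit 7348, nat_lit 6700, nat_lit 6916, nat_lit 6844, nat_lit 6868, nat_lit 6860, nat_lit 6864] (nat_lit 1) [nat_lit 13422, nat_lit 302] false,
   Spec.mk (nat_lit 6864) (nat_lit 0) [nat_lit 2490, nat_lit 7350, nat_lit 6702, nat_lit 6918, nat_lit 6846, nat_lit 6870, nat_lit 6862] (nat_lit 3) [nat_lit 304] false,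
   Spec.mk (nat_lit 6868) (nat_lit 0) [nat_lit 2494, nat_lit 7354, nat_lit 6706, nat_lit 6922, nat_lit 6850, nat_lit 6862, nat_lit 6870] (nat_lit 0) [nat_lit 13428, nat_lit 308] false,
   Spec.mk (nat_lit 6870) (nat_lit 0) [nat_lit 2496, nat_lit 7356, nat_lit 6708, nat_lit 6924, nat_lit 6852, nat_lit 6864, nat_lit 6876, nat_lit 6868] (nat_lit 0) [nat_lit 310] false,
   Spec.mk (nat_lit 6876) (nat_lit 1) [nat_lit 2502, nat_lit 7362, nat_lit 6714, nat_lit 6930, nat_lit 6870] (nat_lit 0) [nat_lit 316] false,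
   Spec.mk (nat_lit 6890) (nat_lit 2) [nat_lit 2516, nat_lit 7376, nat_lit 6728, nat_lit 7052, nat_lit 6836, nat_lit 6896, nat_lit 6892] (nat_lit 0) [nat_lit 13450] false,
   Spec.mk (nat_lit 6892) (nat_lit 1) [nat_lit 2518, nat_lit 7378, nat_lit 6730, nat_lit 7054, nat_lit 6838, nat_lit 6898, nat_lit 6890] (nat_lit 0) [nat_lit 13452, nat_lit 332] false,
   Spec.mk (nat_lit 6896) (nat_lit 0) [nat_lit 2522, nat_lit 7382, nat_lit 6734, nat_lit 7058, nat_lit 6842, nat_lit 6914, nat_lit 6890, nat_lit 6898] (nat_lit 0) [nat_lit 13456] false,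
   Spec.mk (nat_lit 6898) (nat_lit 1) [nat_lit 2524, nat_lit 7384, nat_lit 6736, nat_lit 7060, nat_lit 6844, nat_lit 6916, nat_lit 6892, nat_lit 6904, nat_lit 6896, nat_lit 6900] (nat_lit 0) [nat_lit 13458, nat_lit 338] false,
   Spec.mk (nat_lit 6900) (nat_lit 0) [nat_lit 2526, nat_lit 7386, nat_lit 6738, nat_lit 7062, nat_lit 6846, nat_lit 6918, nat_lit 6906, nat_lit 6898] (nat_lit 0) [nat_lit 340] false,
   Spec.mk (nat_lit 6904) (nat_lit 0) [nat_lit 2530, nat_lit 7390, nat_lit 6742, nat_lit 7066, nat_lit 6850, nat_lit 6922, nat_lit 6898, nat_lit 6906] (nat_lit 1) [nat_lit 13464, nat_lit 344] false,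
   Spec.mk (nat_lit 6906) (nat_lit 0) [nat_lit 2532, nat_lit 7392, nat_lit 6744, nat_lit 7068, nat_lit 6852, nat_lit 6924, nat_lit 6900, nat_lit 6904] (nat_lit 0) [nat_lit 346] false,
   Spec.mk (nat_lit 6914) (nat_lit 1) [nat_lit 2540, nat_lit 7400, nat_lit 6752, nat_lit 7076, nat_lit 6860, nat_lit 6968, nat_lit 6896, nat_lit 6916] (nat_lit 0) [nat_lit 13474] false,
   Spec.mk (nat_lit 6916) (nat_lit 1) [nat_lit 2542, nat_lit 7402, nat_lit 6754, nat_lit 7078, nat_lit 6862, nat_lit 6970, nat_lit 6898, nat_lit 6922, nat_lit 6914, nat_lit 6918] (nat_lit 0) [nat_lit 13476, nat_lit 356] false,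
   Spec.mk (nat_lit 6918) (nat_lit 0) [nat_lit 2544, nat_lit 7404, nat_lit 6756, nat_lit 7080, nat_lit 6864, nat_lit 6972, nat_lit 6900, nat_lit 6924, nat_lit 6916] (nat_lit 1) [nat_lit 358] false,
   Spec.mk (nat_lit 6922) (nat_lit 1) [nat_lit 2548, nat_lit 7408, nat_lit 6760, nat_lit 7084, nat_lit 6868, nat_lit 6976, nat_lit 6904, nat_lit 6940, nat_lit 6916, nat_lit 6924] (nat_lit 0) [nat_lit 13482, nat_lit 362] false,
   Spec.mk (nat_lit 6924) (nat_lit 1) [nat_lit 2550, nat_lit 7410, nat_lit 6762, nat_lit 7086, nat_lit 6870, nat_lit 6978, nat_lit 6906, nat_lit 6942, nat_lit 6918, nat_lit 6930, nat_lit 6922] (nat_lit 0) [nat_lit 364] false,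
   Spec.mk (nat_lit 6930) (nat_lit 1) [nat_lit 2556, nat_lit 7416, nat_lit 6768, nat_lit 7092, nat_lit 6876, nat_lit 6984, nat_lit 6948, nat_lit 6924] (nat_lit 0) [nat_lit 370] false,
   Spec.mk (nat_lit 6940) (nat_lit 1) [nat_lit 2566, nat_lit 7426, nat_lit 6778, nat_lit 7102, nat_lit 6994, nat_lit 6922, nat_lit 6942] (nat_lit 0) [nat_lit 13500, nat_lit 380] false,
   Spec.mk (nat_lit 6942) (nat_lit 0) [nat_lit 2568, nat_lit 7428, nat_lit 6780, nat_lit 7104, nat_lit 6996, nat_lit 6924, nat_lit 6948, nat_lit 6940] (nat_lit 0) [nat_lit 382] false,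
   Spec.mk (nat_lit 6948) (nat_lit 2) [nat_lit 2574, nat_lit 7434, nat_lit 6786, nat_lit 7110, nat_lit 7002, nat_lit 6930, nat_lit 6942] (nat_lit 0) [nat_lit 388] false,
   Spec.mk (nat_lit 6968) (nat_lit 1) [nat_lit 2594, nat_lit 7454, nat_lit 7130, nat_lit 6914, nat_lit 6970] (nat_lit 0) [nat_lit 13528] false,
   Spec.mk (nat_lit 6970) (nat_lit 1) [nat_lit 2596, nat_lit 7456, nat_lit 7132, nat_lit 6916, nat_lit 6976, nat_lit 6968, nat_lit 6972] (nat_lit 0) [nat_lit 13530, nat_lit 410] false,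
   Spec.mk (nat_lit 6972) (nat_lit 0) [nat_lit 2598, nat_lit 7458, nat_lit 7134, nat_lit 6918, nat_lit 6978, nat_lit 6970] (nat_lit 1) [nat_lit 412] false,
   Spec.mk (nat_lit 6976) (nat_lit 0) [nat_lit 2602, nat_lit 7462, nat_lit 7138, nat_lit 6922, nat_lit 6994, nat_lit 6970, nat_lit 6978] (nat_lit 0) [nat_lit 13536, nat_lit 416] false,
   Spec.mk (nat_lit 6978) (nat_lit 0) [nat_lit 2604, nat_lit 7464, nat_lit 7140, nat_lit 6924, nat_lit 6996, nat_lit 6972, nat_lit 6984, nat_lit 6976] (nat_lit 0) [nat_lit 418] false,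
   Spec.mk (nat_lit 6984) (nat_lit 0) [nat_lit 2610, nat_lit 7470, nat_lit 7146, nat_lit 6930, nat_lit 7002, nat_lit 6978] (nat_lit 1) [nat_lit 424] false,
   Spec.mk (nat_lit 6994) (nat_lit 2) [nat_lit 2620, nat_lit 7480, nat_lit 7156, nat_lit 6940, nat_lit 6976, nat_lit 6996] (nat_lit 0) [nat_lit 13554, nat_lit 434] false,
   Spec.mk (nat_lit 6996) (nat_lit 1) [nat_lit 2622, nat_lit 7482, nat_lit 7158, nat_lit 6942, nat_lit 6978, nat_lit 7002, nat_lit 6994] (nat_lit 0) [nat_lit 436] false,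
   Spec.mk (nat_lit 7002) (nat_lit 2) [nat_lit 2628, nat_lit 7488, nat_lit 7164, nat_lit 6948, nat_lit 6984, nat_lit 7020, nat_lit 6996] (nat_lit 0) [nat_lit 442] false,
   Spec.mk (nat_lit 7020) (nat_lit 3) [nat_lit 2646, nat_lit 7506, nat_lit 7182, nat_lit 7002] (nat_lit 0) [nat_lit 460] false,
   Spec.mk (nat_lit 7052) (nat_lit 1) [nat_lit 2678, nat_lit 7538, nat_lit 6890, nat_lit 7058, nat_lit 7054] (nat_lit 0) [nat_lit 13612] false,
   Spec.mk (nat_lit 7054) (nat_lit 0) [nat_lit 2680, nat_lit 7540, nat_lit 6892, nat_lit 7060, nat_lit 7052] (nat_lit 0) [nat_lit 13614, nat_lit 494] false,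
   Spec.mk (nat_lit 7058) (nat_lit 0) [nat_lit 2684, nat_lit 7544, nat_lit 6896, nat_lit 7076, nat_lit 7052, nat_lit 7060] (nat_lit 1) [nat_lit 13618] false,
   Spec.mk (nat_lit 7060) (nat_lit 0) [nat_lit 2686, nat_lit 7546, nat_lit 6898, nat_lit 7078, nat_lit 7054, nat_lit 7066, nat_lit 7058, nat_lit 7062] (nat_lit 0) [nat_lit 13620, nat_lit 500] false,
   Spec.mk (nat_lit 7062) (nat_lit 0) [nat_lit 2688, nat_lit 7548, nat_lit 6900, nat_lit 7080, nat_lit 7068, nat_lit 7060] (nat_lit 1) [nat_lit 502] false,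
   Spec.mk (nat_lit 7066) (nat_lit 0) [nat_lit 2692, nat_lit 7552, nat_lit 6904, nat_lit 7084, nat_lit 7060, nat_lit 7068] (nat_lit 2) [nat_lit 13626, nat_lit 506] false,
   Spec.mk (nat_lit 7068) (nat_lit 0) [nat_lit 2694, nat_lit 7554, nat_lit 6906, nat_lit 7086, nat_lit 7062, nat_lit 7066] (nat_lit 1) [nat_lit 508] false,
   Spec.mk (nat_lit 7076) (nat_lit 0) [nat_lit 2702, nat_lit 7562, nat_lit 6914, nat_lit 7130, nat_lit 7058, nat_lit 7078] (nat_lit 1) [nat_lit 13636] false,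
   Spec.mk (nat_lit 7078) (nat_lit 0) [nat_lit 2704, nat_lit 7564, nat_lit 6916, nat_lit 7132, nat_lit 7060, nat_lit 7084, nat_lit 7076, nat_lit 7080] (nat_lit 1) [nat_lit 13638, nat_lit 518] false,
   Spec.mk (nat_lit 7080) (nat_lit 0) [nat_lit 2706, nat_lit 7566, nat_lit 6918, nat_lit 7134, nat_lit 7062, nat_lit 7086, nat_lit 7078] (nat_lit 3) [nat_lit 520] false,
   Spec.mk (nat_lit 7084) (nat_lit 0) [nat_lit 2710, nat_lit 7570, nat_lit 6922, nat_lit 7138, nat_lit 7066, nat_lit 7102, nat_lit 7078, nat_lit 7086] (nat_lit 1) [nat_lit 13644, nat_lit 524] false,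
   Spec.mk (nat_lit 7086) (nat_lit 0) [nat_lit 2712, nat_lit 7572, nat_lit 6924, nat_lit 7140, nat_lit 7068, nat_lit 7104, nat_lit 7080, nat_lit 7092, nat_lit 7084] (nat_lit 1) [nat_lit 526] false,
   Spec.mk (nat_lit 7092) (nat_lit 0) [nat_lit 2718, nat_lit 7578, nat_lit 6930, nat_lit 7146, nat_lit 7110, nat_lit 7086] (nat_lit 1) [nat_lit 532] false,
   Spec.mk (nat_lit 7102) (nat_lit 0) [nat_lit 2728, nat_lit 7588, nat_lit 6940, nat_lit 7156, nat_lit 7084, nat_lit 7104] (nat_lit 2) [nat_lit 13662, nat_lit 542] false,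
   Spec.mk (nat_lit 7104) (nat_lit 0) [nat_lit 2730, nat_lit 7590, nat_lit 6942, nat_lit 7158, nat_lit 7086, nat_lit 7110, nat_lit 7102] (nat_lit 3) [nat_lit 544] false,
   Spec.mk (nat_lit 7110) (nat_lit 0) [nat_lit 2736, nat_lit 7596, nat_lit 6948, nat_lit 7164, nat_lit 7092, nat_lit 7104] (nat_lit 1) [nat_lit 550] false,
   Spec.mk (nat_lit 7130) (nat_lit 1) [nat_lit 2756, nat_lit 7616, nat_lit 6968, nat_lit 7076, nat_lit 7132] (nat_lit 0) [nat_lit 13690] false,
   Spec.mk (nat_lit 7132) (nat_lit 1) [nat_lit 2758, nat_lit 7618, nat_lit 6970, nat_lit 7078, nat_lit 7138, nat_lit 7130, nat_lit 7134] (nat_lit 0) [nat_lit 13692, nat_lit 572] false,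
   Spec.mk (nat_lit 7134) (nat_lit 0) [nat_lit 2760, nat_lit 7620, nat_lit 6972, nat_lit 7080, nat_lit 7140, nat_lit 7132] (nat_lit 1) [nat_lit 574] false,
   Spec.mk (nat_lit 7138) (nat_lit 0) [nat_lit 2764, nat_lit 7624, nat_lit 6976, nat_lit 7084, nat_lit 7156, nat_lit 7132, nat_lit 7140] (nat_lit 0) [nat_lit 13698, nat_lit 578] false]

noncomputable def sp15 : List Spec :=
  [Spec.mk (nat_lit 7140) (nat_lit 0) [nat_lit 2766, nat_lit 7626, nat_lit 6978, nat_lit 7086, nat_lit 7158, nat_lit 7134, nat_lit 7146, nat_lit 7138] (nat_lit 0) [nat_lit 580] false,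
   Spec.mk (nat_lit 7146) (nat_lit 0) [nat_lit 2772, nat_lit 7632, nat_lit 6984, nat_lit 7092, nat_lit 7164, nat_lit 7140] (nat_lit 1) [nat_lit 586] false,
   Spec.mk (nat_lit 7156) (nat_lit 1) [nat_lit 2782, nat_lit 7642, nat_lit 6994, nat_lit 7102, nat_lit 7210, nat_lit 7138, nat_lit 7158] (nat_lit 0) [nat_lit 13716, nat_lit 596] false,
   Spec.mk (nat_lit 7158) (nat_lit 0) [nat_lit 2784, nat_lit 7644, nat_lit 6996, nat_lit 7104, nat_lit 7212, nat_lit 7140, nat_lit 7164, nat_lit 7156] (nat_lit 0) [nat_lit 598] false,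
   Spec.mk (nat_lit 7164) (nat_lit 1) [nat_lit 2790, nat_lit 7650, nat_lit 7002, nat_lit 7110, nat_lit 7218, nat_lit 7146, nat_lit 7182, nat_lit 7158] (nat_lit 0) [nat_lit 604] false,
   Spec.mk (nat_lit 7182) (nat_lit 1) [nat_lit 2808, nat_lit 7668, nat_lit 7020, nat_lit 7236, nat_lit 7164] (nat_lit 0) [nat_lit 622] false,
   Spec.mk (nat_lit 7210) (nat_lit 2) [nat_lit 2836, nat_lit 7696, nat_lit 7156, nat_lit 7212] (nat_lit 0) [nat_lit 13770, nat_lit 650] false,
   Spec.mk (nat_lit 7212) (nat_lit 1) [nat_lit 2838, nat_lit 7698, nat_lit 7158, nat_lit 7218, nat_lit 7210] (nat_lit 0) [nat_lit 652] false,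
   Spec.mk (nat_lit 7218) (nat_lit 1) [nat_lit 2844, nat_lit 7704, nat_lit 7164, nat_lit 7236, nat_lit 7212] (nat_lit 0) [nat_lit 658] false,
   Spec.mk (nat_lit 7236) (nat_lit 3) [nat_lit 2862, nat_lit 7722, nat_lit 7182, nat_lit 7218] (nat_lit 0) [nat_lit 676] false,
   Spec.mk (nat_lit 7298) (nat_lit 3) [nat_lit 2924, nat_lit 8756, nat_lit 6812, nat_lit 7304] (nat_lit 0) [nat_lit 13858] false,
   Spec.mk (nat_lit 7304) (nat_lit 2) [nat_lit 2930, nat_lit 8762, nat_lit 6818, nat_lit 7322, nat_lit 7298, nat_lit 7310, nat_lit 7306] (nat_lit 0) [nat_lit 13864] false,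
   Spec.mk (nat_lit 7306) (nat_lit 2) [nat_lit 2932, nat_lit 8764, nat_lit 6820, nat_lit 7324, nat_lit 7312, nat_lit 7304] (nat_lit 0) [nat_lit 13866, nat_lit 746] false,
   Spec.mk (nat_lit 7310) (nat_lit 0) [nat_lit 2936, nat_lit 8768, nat_lit 6824, nat_lit 7328, nat_lit 7304, nat_lit 7312] (nat_lit 1) [nat_lit 13870] false,
   Spec.mk (nat_lit 7312) (nat_lit 1) [nat_lit 2938, nat_lit 8770, nat_lit 6826, nat_lit 7330, nat_lit 7306, nat_lit 7310, nat_lit 7314] (nat_lit 0) [nat_lit 13872, nat_lit 752] false,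
   Spec.mk (nat_lit 7314) (nat_lit 1) [nat_lit 2940, nat_lit 8772, nat_lit 6828, nat_lit 7332, nat_lit 7312] (nat_lit 0) [nat_lit 754] false,
   Spec.mk (nat_lit 7322) (nat_lit 1) [nat_lit 2948, nat_lit 8780, nat_lit 6836, nat_lit 7376, nat_lit 7304, nat_lit 7328, nat_lit 7324] (nat_lit 0) [nat_lit 13882] false,
   Spec.mk (nat_lit 7324) (nat_lit 0) [nat_lit 2950, nat_lit 8782, nat_lit 6838, nat_lit 7378, nat_lit 7306, nat_lit 7330, nat_lit 7322] (nat_lit 0) [nat_lit 13884, nat_lit 764] false,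
   Spec.mk (nat_lit 7328) (nat_lit 0) [nat_lit 2954, nat_lit 8786, nat_lit 6842, nat_lit 7382, nat_lit 7310, nat_lit 7346, nat_lit 7322, nat_lit 7330] (nat_lit 0) [nat_lit 13888] false,
   Spec.mk (nat_lit 7330) (nat_lit 1) [nat_lit 2956, nat_lit 8788, nat_lit 6844, nat_lit 7384, nat_lit 7312, nat_lit 7348, nat_lit 7324, nat_lit 7336, nat_lit 7328, nat_lit 7332] (nat_lit 0) [nat_lit 13890, nat_lit 770] false,
   Spec.mk (nat_lit 7332) (nat_lit 0) [nat_lit 2958, nat_lit 8790, nat_lit 6846, nat_lit 7386, nat_lit 7314, nat_lit 7350, nat_lit 7338, nat_lit 7330] (nat_lit 0) [nat_lit 772] false,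
   Spec.mk (nat_lit 7336) (nat_lit 0) [nat_lit 2962, nat_lit 8794, nat_lit 6850, nat_lit 7390, nat_lit 7354, nat_lit 7330, nat_lit 7338] (nat_lit 0) [nat_lit 13896, nat_lit 776] false,
   Spec.mk (nat_lit 7338) (nat_lit 1) [nat_lit 2964, nat_lit 8796, nat_lit 6852, nat_lit 7392, nat_lit 7356, nat_lit 7332, nat_lit 7336] (nat_lit 0) [nat_lit 778] false,
   Spec.mk (nat_lit 7346) (nat_lit 0) [nat_lit 2972, nat_lit 8804, nat_lit 6860, nat_lit 7400, nat_lit 7328, nat_lit 7348] (nat_lit 1) [nat_lit 13906] false,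
   Spec.mk (nat_lit 7348) (nat_lit 0) [nat_lit 2974, nat_lit 8806, nat_lit 6862, nat_lit 7402, nat_lit 7330, nat_lit 7354, nat_lit 7346, nat_lit 7350] (nat_lit 1) [nat_lit 13908, nat_lit 788] false,
   Spec.mk (nat_lit 7350) (nat_lit 0) [nat_lit 2976, nat_lit 8808, nat_lit 6864, nat_lit 7404, nat_lit 7332, nat_lit 7356, nat_lit 7348] (nat_lit 3) [nat_lit 790] false,
   Spec.mk (nat_lit 7354) (nat_lit 0) [nat_lit 2980, nat_lit 8812, nat_lit 6868, nat_lit 7408, nat_lit 7336, nat_lit 7348, nat_lit 7356] (nat_lit 0) [nat_lit 13914, nat_lit 794] false,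
   Spec.mk (nat_lit 7356) (nat_lit 0) [nat_lit 2982, nat_lit 8814, nat_lit 6870, nat_lit 7410, nat_lit 7338, nat_lit 7350, nat_lit 7362, nat_lit 7354] (nat_lit 0) [nat_lit 796] false,
   Spec.mk (nat_lit 7362) (nat_lit 1) [nat_lit 2988, nat_lit 8820, nat_lit 6876, nat_lit 7416, nat_lit 7356] (nat_lit 0) [nat_lit 802] false,
   Spec.mk (nat_lit 7376) (nat_lit 1) [nat_lit 3002, nat_lit 8834, nat_lit 6890, nat_lit 7538, nat_lit 7322, nat_lit 7382, nat_lit 7378] (nat_lit 0) [nat_lit 13936] false,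
   Spec.mk (nat_lit 7378) (nat_lit 0) [nat_lit 3004, nat_lit 8836, nat_lit 6892, nat_lit 7540, nat_lit 7324, nat_lit 7384, nat_lit 7376] (nat_lit 0) [nat_lit 13938, nat_lit 818] false,
   Spec.mk (nat_lit 7382) (nat_lit 0) [nat_lit 3008, nat_lit 8840, nat_lit 6896, nat_lit 7544, nat_lit 7328, nat_lit 7400, nat_lit 7376, nat_lit 7384] (nat_lit 1) [nat_lit 13942] false,
   Spec.mk (nat_lit 7384) (nat_lit 0) [nat_lit 3010, nat_lit 8842, nat_lit 6898, nat_lit 7546, nat_lit 7330, nat_lit 7402, nat_lit 7378, nat_lit 7390, nat_lit 7382, nat_lit 7386] (nat_lit 0) [nat_lit 13944, nat_lit 824] false,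
   Spec.mk (nat_lit 7386) (nat_lit 0) [nat_lit 3012, nat_lit 8844, nat_lit 6900, nat_lit 7548, nat_lit 7332, nat_lit 7404, nat_lit 7392, nat_lit 7384] (nat_lit 1) [nat_lit 826] false,
   Spec.mk (nat_lit 7390) (nat_lit 0) [nat_lit 3016, nat_lit 8848, nat_lit 6904, nat_lit 7552, nat_lit 7336, nat_lit 7408, nat_lit 7384, nat_lit 7392] (nat_lit 2) [nat_lit 13950, nat_lit 830] false,
   Spec.mk (nat_lit 7392) (nat_lit 0) [nat_lit 3018, nat_lit 8850, nat_lit 6906, nat_lit 7554, nat_lit 7338, nat_lit 7410, nat_lit 7386, nat_lit 7390] (nat_lit 1) [nat_lit 832] false,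
   Spec.mk (nat_lit 7400) (nat_lit 0) [nat_lit 3026, nat_lit 8858, nat_lit 6914, nat_lit 7562, nat_lit 7346, nat_lit 7454, nat_lit 7382, nat_lit 7402] (nat_lit 0) [nat_lit 13960] false,
   Spec.mk (nat_lit 7402) (nat_lit 0) [nat_lit 3028, nat_lit 8860, nat_lit 6916, nat_lit 7564, nat_lit 7348, nat_lit 7456, nat_lit 7384, nat_lit 7408, nat_lit 7400, nat_lit 7404] (nat_lit 0) [nat_lit 13962, nat_lit 842] false,
   Spec.mk (nat_lit 7404) (nat_lit 0) [nat_lit 3030, nat_lit 8862, nat_lit 6918, nat_lit 7566, nat_lit 7350, nat_lit 7458, nat_lit 7386, nat_lit 7410, nat_lit 7402] (nat_lit 2) [nat_lit 844] false,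
   Spec.mk (nat_lit 7408) (nat_lit 0) [nat_lit 3034, nat_lit 8866, nat_lit 6922, nat_lit 7570, nat_lit 7354, nat_lit 7462, nat_lit 7390, nat_lit 7426, nat_lit 7402, nat_lit 7410] (nat_lit 0) [nat_lit 13968, nat_lit 848] false,
   Spec.mk (nat_lit 7410) (nat_lit 0) [nat_lit 3036, nat_lit 8868, nat_lit 6924, nat_lit 7572, nat_lit 7356, nat_lit 7464, nat_lit 7392, nat_lit 7428, nat_lit 7404, nat_lit 7416, nat_lit 7408] (nat_lit 0) [nat_lit 850] false,
   Spec.mk (nat_lit 7416) (nat_lit 0) [nat_lit 3042, nat_lit 8874, nat_lit 6930, nat_lit 7578, nat_lit 7362, nat_lit 7470, nat_lit 7434, nat_lit 7410] (nat_lit 0) [nat_lit 856] false,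
   Spec.mk (nat_lit 7426) (nat_lit 0) [nat_lit 3052, nat_lit 8884, nat_lit 6940, nat_lit 7588, nat_lit 7480, nat_lit 7408, nat_lit 7428] (nat_lit 0) [nat_lit 13986, nat_lit 866] false,
   Spec.mk (nat_lit 7428) (nat_lit 0) [nat_lit 3054, nat_lit 8886, nat_lit 6942, nat_lit 7590, nat_lit 7482, nat_lit 7410, nat_lit 7434, nat_lit 7426] (nat_lit 1) [nat_lit 868] false,
   Spec.mk (nat_lit 7434) (nat_lit 1) [nat_lit 3060, nat_lit 8892, nat_lit 6948, nat_lit 7596, nat_lit 7488, nat_lit 7416, nat_lit 7428] (nat_lit 0) [nat_lit 874] false,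
   Spec.mk (nat_lit 7454) (nat_lit 0) [nat_lit 3080, nat_lit 8912, nat_lit 6968, nat_lit 7616, nat_lit 7400, nat_lit 7456] (nat_lit 1) [nat_lit 14014] false,
   Spec.mk (nat_lit 7456) (nat_lit 0) [nat_lit 3082, nat_lit 8914, nat_lit 6970, nat_lit 7618, nat_lit 7402, nat_lit 7462, nat_lit 7454, nat_lit 7458] (nat_lit 1) [nat_lit 14016, nat_lit 896] false,
   Spec.mk (nat_lit 7458) (nat_lit 0) [nat_lit 3084, nat_lit 8916, nat_lit 6972, nat_lit 7620, nat_lit 7404, nat_lit 7464, nat_lit 7456] (nat_lit 3) [nat_lit 898] false,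
   Spec.mk (nat_lit 7462) (nat_lit 0) [nat_lit 3088, nat_lit 8920, nat_lit 6976, nat_lit 7624, nat_lit 7408, nat_lit 7480, nat_lit 7456, nat_lit 7464] (nat_lit 2) [nat_lit 14022, nat_lit 902] false,
   Spec.mk (nat_lit 7464) (nat_lit 0) [nat_lit 3090, nat_lit 8922, nat_lit 6978, nat_lit 7626, nat_lit 7410, nat_lit 7482, nat_lit 7458, nat_lit 7470, nat_lit 7462] (nat_lit 2) [nat_lit 904] false,
   Spec.mk (nat_lit 7470) (nat_lit 0) [nat_lit 3096, nat_lit 8928, nat_lit 6984, nat_lit 7632, nat_lit 7416, nat_lit 7488, nat_lit 7464] (nat_lit 3) [nat_lit 910] false,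
   Spec.mk (nat_lit 7480) (nat_lit 0) [nat_lit 3106, nat_lit 8938, nat_lit 6994, nat_lit 7642, nat_lit 7426, nat_lit 7462, nat_lit 7482] (nat_lit 0) [nat_lit 14040, nat_lit 920] false,
   Spec.mk (nat_lit 7482) (nat_lit 0) [nat_lit 3108, nat_lit 8940, nat_lit 6996, nat_lit 7644, nat_lit 7428, nat_lit 7464, nat_lit 7488, nat_lit 7480] (nat_lit 1) [nat_lit 922] false,
   Spec.mk (nat_lit 7488) (nat_lit 0) [nat_lit 3114, nat_lit 8946, nat_lit 7002, nat_lit 7650, nat_lit 7434, nat_lit 7470, nat_lit 7506, nat_lit 7482] (nat_lit 0) [nat_lit 928] false,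
   Spec.mk (nat_lit 7506) (nat_lit 1) [nat_lit 3132, nat_lit 8964, nat_lit 7020, nat_lit 7668, nat_lit 7488] (nat_lit 0) [nat_lit 946] false,
   Spec.mk (nat_lit 7538) (nat_lit 2) [nat_lit 3164, nat_lit 8996, nat_lit 7052, nat_lit 8024, nat_lit 7376, nat_lit 7544, nat_lit 7540] (nat_lit 0) [nat_lit 14098] false,
   Spec.mk (nat_lit 7540) (nat_lit 1) [nat_lit 3166, nat_lit 8998, nat_lit 7054, nat_lit 8026, nat_lit 7378, nat_lit 7546, nat_lit 7538] (nat_lit 0) [nat_lit 14100, nat_lit 980] false,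
   Spec.mk (nat_lit 7544) (nat_lit 0) [nat_lit 3170, nat_lit 9002, nat_lit 7058, nat_lit 8030, nat_lit 7382, nat_lit 7562, nat_lit 7538, nat_lit 7546] (nat_lit 0) [nat_lit 14104] false,
   Spec.mk (nat_lit 7546) (nat_lit 1) [nat_lit 3172, nat_lit 9004, nat_lit 7060, nat_lit 8032, nat_lit 7384, nat_lit 7564, nat_lit 7540, nat_lit 7552, nat_lit 7544, nat_lit 7548] (nat_lit 0) [nat_lit 14106, nat_lit 986] false,
   Spec.mk (nat_lit 7548) (nat_lit 0) [nat_lit 3174, nat_lit 9006, nat_lit 7062, nat_lit 8034, nat_lit 7386, nat_lit 7566, nat_lit 7554, nat_lit 7546] (nat_lit 0) [nat_lit 988] false]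

noncomputable def sp16 : List Spec :=
  [Spec.mk (nat_lit 7552) (nat_lit 0) [nat_lit 3178, nat_lit 9010, nat_lit 7066, nat_lit 8038, nat_lit 7390, nat_lit 7570, nat_lit 7546, nat_lit 7554] (nat_lit 1) [nat_lit 14112, nat_lit 992] false,
   Spec.mk (nat_lit 7554) (nat_lit 0) [nat_lit 3180, nat_lit 9012, nat_lit 7068, nat_lit 8040, nat_lit 7392, nat_lit 7572, nat_lit 7548, nat_lit 7552] (nat_lit 0) [nat_lit 994] false,
   Spec.mk (nat_lit 7562) (nat_lit 0) [nat_lit 3188, nat_lit 9020, nat_lit 7076, nat_lit 8048, nat_lit 7400, nat_lit 7616, nat_lit 7544, nat_lit 7564] (nat_lit 0) [nat_lit 14122] false,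
   Spec.mk (nat_lit 7564) (nat_lit 0) [nat_lit 3190, nat_lit 9022, nat_lit 7078, nat_lit 8050, nat_lit 7402, nat_lit 7618, nat_lit 7546, nat_lit 7570, nat_lit 7562, nat_lit 7566] (nat_lit 0) [nat_lit 14124, nat_lit 1004] false,
   Spec.mk (nat_lit 7566) (nat_lit 0) [nat_lit 3192, nat_lit 9024, nat_lit 7080, nat_lit 8052, nat_lit 7404, nat_lit 7620, nat_lit 7548, nat_lit 7572, nat_lit 7564] (nat_lit 2) [nat_lit 1006] false,
   Spec.mk (nat_lit 7570) (nat_lit 0) [nat_lit 3196, nat_lit 9028, nat_lit 7084, nat_lit 8056, nat_lit 7408, nat_lit 7624, nat_lit 7552, nat_lit 7588, nat_lit 7564, nat_lit 7572] (nat_lit 0) [nat_lit 14130, nat_lit 1010] false,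
   Spec.mk (nat_lit 7572) (nat_lit 0) [nat_lit 3198, nat_lit 9030, nat_lit 7086, nat_lit 8058, nat_lit 7410, nat_lit 7626, nat_lit 7554, nat_lit 7590, nat_lit 7566, nat_lit 7578, nat_lit 7570] (nat_lit 0) [nat_lit 1012] false,
   Spec.mk (nat_lit 7578) (nat_lit 0) [nat_lit 3204, nat_lit 9036, nat_lit 7092, nat_lit 8064, nat_lit 7416, nat_lit 7632, nat_lit 7596, nat_lit 7572] (nat_lit 0) [nat_lit 1018] false,
   Spec.mk (nat_lit 7588) (nat_lit 0) [nat_lit 3214, nat_lit 9046, nat_lit 7102, nat_lit 8074, nat_lit 7426, nat_lit 7642, nat_lit 7570, nat_lit 7590] (nat_lit 1) [nat_lit 14148, nat_lit 1028] false,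
   Spec.mk (nat_lit 7590) (nat_lit 0) [nat_lit 3216, nat_lit 9048, nat_lit 7104, nat_lit 8076, nat_lit 7428, nat_lit 7644, nat_lit 7572, nat_lit 7596, nat_lit 7588] (nat_lit 2) [nat_lit 1030] false,
   Spec.mk (nat_lit 7596) (nat_lit 0) [nat_lit 3222, nat_lit 9054, nat_lit 7110, nat_lit 8082, nat_lit 7434, nat_lit 7650, nat_lit 7578, nat_lit 7590] (nat_lit 0) [nat_lit 1036] false,
   Spec.mk (nat_lit 7616) (nat_lit 1) [nat_lit 3242, nat_lit 9074, nat_lit 7130, nat_lit 8102, nat_lit 7454, nat_lit 7778, nat_lit 7562, nat_lit 7618] (nat_lit 0) [nat_lit 14176] false,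
   Spec.mk (nat_lit 7618) (nat_lit 1) [nat_lit 3244, nat_lit 9076, nat_lit 7132, nat_lit 8104, nat_lit 7456, nat_lit 7780, nat_lit 7564, nat_lit 7624, nat_lit 7616, nat_lit 7620] (nat_lit 0) [nat_lit 14178, nat_lit 1058] false,
   Spec.mk (nat_lit 7620) (nat_lit 0) [nat_lit 3246, nat_lit 9078, nat_lit 7134, nat_lit 8106, nat_lit 7458, nat_lit 7782, nat_lit 7566, nat_lit 7626, nat_lit 7618] (nat_lit 1) [nat_lit 1060] false,
   Spec.mk (nat_lit 7624) (nat_lit 0) [nat_lit 3250, nat_lit 9082, nat_lit 7138, nat_lit 8110, nat_lit 7462, nat_lit 7786, nat_lit 7570, nat_lit 7642, nat_lit 7618, nat_lit 7626] (nat_lit 0) [nat_lit 14184, nat_lit 1064] false,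
   Spec.mk (nat_lit 7626) (nat_lit 0) [nat_lit 3252, nat_lit 9084, nat_lit 7140, nat_lit 8112, nat_lit 7464, nat_lit 7788, nat_lit 7572, nat_lit 7644, nat_lit 7620, nat_lit 7632, nat_lit 7624] (nat_lit 0) [nat_lit 1066] false,
   Spec.mk (nat_lit 7632) (nat_lit 0) [nat_lit 3258, nat_lit 9090, nat_lit 7146, nat_lit 8118, nat_lit 7470, nat_lit 7794, nat_lit 7578, nat_lit 7650, nat_lit 7626] (nat_lit 1) [nat_lit 1072] false,
   Spec.mk (nat_lit 7642) (nat_lit 1) [nat_lit 3268, nat_lit 9100, nat_lit 7156, nat_lit 8128, nat_lit 7480, nat_lit 7804, nat_lit 7588, nat_lit 7696, nat_lit 7624, nat_lit 7644] (nat_lit 0) [nat_lit 14202, nat_lit 1082] false,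
   Spec.mk (nat_lit 7644) (nat_lit 0) [nat_lit 3270, nat_lit 9102, nat_lit 7158, nat_lit 8130, nat_lit 7482, nat_lit 7806, nat_lit 7590, nat_lit 7698, nat_lit 7626, nat_lit 7650, nat_lit 7642] (nat_lit 0) [nat_lit 1084] false,
   Spec.mk (nat_lit 7650) (nat_lit 1) [nat_lit 3276, nat_lit 9108, nat_lit 7164, nat_lit 8136, nat_lit 7488, nat_lit 7812, nat_lit 7596, nat_lit 7704, nat_lit 7632, nat_lit 7668, nat_lit 7644] (nat_lit 0) [nat_lit 1090] false,
   Spec.mk (nat_lit 7668) (nat_lit 1) [nat_lit 3294, nat_lit 9126, nat_lit 7182, nat_lit 8154, nat_lit 7506, nat_lit 7830, nat_lit 7722, nat_lit 7650] (nat_lit 0) [nat_lit 1108] false,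
   Spec.mk (nat_lit 7696) (nat_lit 1) [nat_lit 3322, nat_lit 9154, nat_lit 7210, nat_lit 8182, nat_lit 7858, nat_lit 7642, nat_lit 7698] (nat_lit 0) [nat_lit 14256, nat_lit 1136] false,
   Spec.mk (nat_lit 7698) (nat_lit 0) [nat_lit 3324, nat_lit 9156, nat_lit 7212, nat_lit 8184, nat_lit 7860, nat_lit 7644, nat_lit 7704, nat_lit 7696] (nat_lit 0) [nat_lit 1138] false,
   Spec.mk (nat_lit 7704) (nat_lit 0) [nat_lit 3330, nat_lit 9162, nat_lit 7218, nat_lit 8190, nat_lit 7866, nat_lit 7650, nat_lit 7722, nat_lit 7698] (nat_lit 0) [nat_lit 1144] false,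
   Spec.mk (nat_lit 7722) (nat_lit 2) [nat_lit 3348, nat_lit 9180, nat_lit 7236, nat_lit 8208, nat_lit 7884, nat_lit 7668, nat_lit 7704] (nat_lit 0) [nat_lit 1162] false,
   Spec.mk (nat_lit 7778) (nat_lit 1) [nat_lit 3404, nat_lit 9236, nat_lit 8264, nat_lit 7616, nat_lit 7780] (nat_lit 0) [nat_lit 14338] false,
   Spec.mk (nat_lit 7780) (nat_lit 1) [nat_lit 3406, nat_lit 9238, nat_lit 8266, nat_lit 7618, nat_lit 7786, nat_lit 7778, nat_lit 7782] (nat_lit 0) [nat_lit 14340, nat_lit 1220] false,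
   Spec.mk (nat_lit 7782) (nat_lit 0) [nat_lit 3408, nat_lit 9240, nat_lit 8268, nat_lit 7620, nat_lit 7788, nat_lit 7780] (nat_lit 1) [nat_lit 1222] false,
   Spec.mk (nat_lit 7786) (nat_lit 0) [nat_lit 3412, nat_lit 9244, nat_lit 8272, nat_lit 7624, nat_lit 7804, nat_lit 7780, nat_lit 7788] (nat_lit 0) [nat_lit 14346, nat_lit 1226] false,
   Spec.mk (nat_lit 7788) (nat_lit 0) [nat_lit 3414, nat_lit 9246, nat_lit 8274, nat_lit 7626, nat_lit 7806, nat_lit 7782, nat_lit 7794, nat_lit 7786] (nat_lit 0) [nat_lit 1228] false,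
   Spec.mk (nat_lit 7794) (nat_lit 0) [nat_lit 3420, nat_lit 9252, nat_lit 8280, nat_lit 7632, nat_lit 7812, nat_lit 7788] (nat_lit 1) [nat_lit 1234] false,
   Spec.mk (nat_lit 7804) (nat_lit 0) [nat_lit 3430, nat_lit 9262, nat_lit 8290, nat_lit 7642, nat_lit 7858, nat_lit 7786, nat_lit 7806] (nat_lit 0) [nat_lit 14364, nat_lit 1244] false,
   Spec.mk (nat_lit 7806) (nat_lit 0) [nat_lit 3432, nat_lit 9264, nat_lit 8292, nat_lit 7644, nat_lit 7860, nat_lit 7788, nat_lit 7812, nat_lit 7804] (nat_lit 1) [nat_lit 1246] false,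
   Spec.mk (nat_lit 7812) (nat_lit 0) [nat_lit 3438, nat_lit 9270, nat_lit 8298, nat_lit 7650, nat_lit 7866, nat_lit 7794, nat_lit 7830, nat_lit 7806] (nat_lit 0) [nat_lit 1252] false,
   Spec.mk (nat_lit 7830) (nat_lit 0) [nat_lit 3456, nat_lit 9288, nat_lit 8316, nat_lit 7668, nat_lit 7884, nat_lit 7812] (nat_lit 1) [nat_lit 1270] false,
   Spec.mk (nat_lit 7858) (nat_lit 2) [nat_lit 3484, nat_lit 9316, nat_lit 8344, nat_lit 7696, nat_lit 7804, nat_lit 7860] (nat_lit 0) [nat_lit 14418, nat_lit 1298] false,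
   Spec.mk (nat_lit 7860) (nat_lit 1) [nat_lit 3486, nat_lit 9318, nat_lit 8346, nat_lit 7698, nat_lit 7806, nat_lit 7866, nat_lit 7858] (nat_lit 0) [nat_lit 1300] false,
   Spec.mk (nat_lit 7866) (nat_lit 1) [nat_lit 3492, nat_lit 9324, nat_lit 8352, nat_lit 7704, nat_lit 7812, nat_lit 7884, nat_lit 7860] (nat_lit 0) [nat_lit 1306] false,
   Spec.mk (nat_lit 7884) (nat_lit 2) [nat_lit 3510, nat_lit 9342, nat_lit 8370, nat_lit 7722, nat_lit 7830, nat_lit 7938, nat_lit 7866] (nat_lit 0) [nat_lit 1324] false,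
   Spec.mk (nat_lit 7938) (nat_lit 3) [nat_lit 3564, nat_lit 9396, nat_lit 8424, nat_lit 7884] (nat_lit 0) [nat_lit 1378] false,
   Spec.mk (nat_lit 8024) (nat_lit 1) [nat_lit 3650, nat_lit 9482, nat_lit 7538, nat_lit 8030, nat_lit 8026] (nat_lit 0) [nat_lit 14584] false,
   Spec.mk (nat_lit 8026) (nat_lit 0) [nat_lit 3652, nat_lit 9484, nat_lit 7540, nat_lit 8032, nat_lit 8024] (nat_lit 0) [nat_lit 14586, nat_lit 1466] false,
   Spec.mk (nat_lit 8030) (nat_lit 0) [nat_lit 3656, nat_lit 9488, nat_lit 7544, nat_lit 8048, nat_lit 8024, nat_lit 8032] (nat_lit 1) [nat_lit 14590] false,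
   Spec.mk (nat_lit 8032) (nat_lit 0) [nat_lit 3658, nat_lit 9490, nat_lit 7546, nat_lit 8050, nat_lit 8026, nat_lit 8038, nat_lit 8030, nat_lit 8034] (nat_lit 0) [nat_lit 14592, nat_lit 1472] false,
   Spec.mk (nat_lit 8034) (nat_lit 0) [nat_lit 3660, nat_lit 9492, nat_lit 7548, nat_lit 8052, nat_lit 8040, nat_lit 8032] (nat_lit 1) [nat_lit 1474] false,
   Spec.mk (nat_lit 8038) (nat_lit 0) [nat_lit 3664, nat_lit 9496, nat_lit 7552, nat_lit 8056, nat_lit 8032, nat_lit 8040] (nat_lit 2) [nat_lit 14598, nat_lit 1478] false,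
   Spec.mk (nat_lit 8040) (nat_lit 0) [nat_lit 3666, nat_lit 9498, nat_lit 7554, nat_lit 8058, nat_lit 8034, nat_lit 8038] (nat_lit 1) [nat_lit 1480] false,
   Spec.mk (nat_lit 8048) (nat_lit 0) [nat_lit 3674, nat_lit 9506, nat_lit 7562, nat_lit 8102, nat_lit 8030, nat_lit 8050] (nat_lit 1) [nat_lit 14608] false,
   Spec.mk (nat_lit 8050) (nat_lit 0) [nat_lit 3676, nat_lit 9508, nat_lit 7564, nat_lit 8104, nat_lit 8032, nat_lit 8056, nat_lit 8048, nat_lit 8052] (nat_lit 1) [nat_lit 14610, nat_lit 1490] false,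
   Spec.mk (nat_lit 8052) (nat_lit 0) [nat_lit 3678, nat_lit 9510, nat_lit 7566, nat_lit 8106, nat_lit 8034, nat_lit 8058, nat_lit 8050] (nat_lit 3) [nat_lit 1492] false,
   Spec.mk (nat_lit 8056) (nat_lit 0) [nat_lit 3682, nat_lit 9514, nat_lit 7570, nat_lit 8110, nat_lit 8038, nat_lit 8074, nat_lit 8050, nat_lit 8058] (nat_lit 1) [nat_lit 14616, nat_lit 1496] false,
   Spec.mk (nat_lit 8058) (nat_lit 0) [nat_lit 3684, nat_lit 9516, nat_lit 7572, nat_lit 8112, nat_lit 8040, nat_lit 8076, nat_lit 8052, nat_lit 8064, nat_lit 8056] (nat_lit 1) [nat_lit 1498] false,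
   Spec.mk (nat_lit 8064) (nat_lit 0) [nat_lit 3690, nat_lit 9522, nat_lit 7578, nat_lit 8118, nat_lit 8082, nat_lit 8058] (nat_lit 1) [nat_lit 1504] false,
   Spec.mk (nat_lit 8074) (nat_lit 0) [nat_lit 3700, nat_lit 9532, nat_lit 7588, nat_lit 8128, nat_lit 8056, nat_lit 8076] (nat_lit 2) [nat_lit 14634, nat_lit 1514] false,
   Spec.mk (nat_lit 8076) (nat_lit 0) [nat_lit 3702, nat_lit 9534, nat_lit 7590, nat_lit 8130, nat_lit 8058, nat_lit 8082, nat_lit 8074] (nat_lit 3) [nat_lit 1516] false,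
   Spec.mk (nat_lit 8082) (nat_lit 0) [nat_lit 3708, nat_lit 9540, nat_lit 7596, nat_lit 8136, nat_lit 8064, nat_lit 8076] (nat_lit 1) [nat_lit 1522] false,
   Spec.mk (nat_lit 8102) (nat_lit 0) [nat_lit 3728, nat_lit 9560, nat_lit 7616, nat_lit 8264, nat_lit 8048, nat_lit 8104] (nat_lit 1) [nat_lit 14662] false,
   Spec.mk (nat_lit 8104) (nat_lit 0) [nat_lit 3730, nat_lit 9562, nat_lit 7618, nat_lit 8266, nat_lit 8050, nat_lit 8110, nat_lit 8102, nat_lit 8106] (nat_lit 1) [nat_lit 14664, nat_lit 1544] false,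
   Spec.mk (nat_lit 8106) (nat_lit 0) [nat_lit 3732, nat_lit 9564, nat_lit 7620, nat_lit 8268, nat_lit 8052, nat_lit 8112, nat_lit 8104] (nat_lit 3) [nat_lit 1546] false,
   Spec.mk (nat_lit 8110) (nat_lit 0) [nat_lit 3736, nat_lit 9568, nat_lit 7624, nat_lit 8272, nat_lit 8056, nat_lit 8128, nat_lit 8104, nat_lit 8112] (nat_lit 2) [nat_lit 14670, nat_lit 1550] false]

noncomputable def sp17 : List Spec :=
  [Spec.mk (nat_lit 8112) (nat_lit 0) [nat_lit 3738, nat_lit 9570, nat_lit 7626, nat_lit 8274, nat_lit 8058, nat_lit 8130, nat_lit 8106, nat_lit 8118, nat_lit 8110] (nat_lit 2) [nat_lit 1552] false,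
   Spec.mk (nat_lit 8118) (nat_lit 0) [nat_lit 3744, nat_lit 9576, nat_lit 7632, nat_lit 8280, nat_lit 8064, nat_lit 8136, nat_lit 8112] (nat_lit 3) [nat_lit 1558] false,
   Spec.mk (nat_lit 8128) (nat_lit 0) [nat_lit 3754, nat_lit 9586, nat_lit 7642, nat_lit 8290, nat_lit 8074, nat_lit 8182, nat_lit 8110, nat_lit 8130] (nat_lit 1) [nat_lit 14688, nat_lit 1568] false,
   Spec.mk (nat_lit 8130) (nat_lit 0) [nat_lit 3756, nat_lit 9588, nat_lit 7644, nat_lit 8292, nat_lit 8076, nat_lit 8184, nat_lit 8112, nat_lit 8136, nat_lit 8128] (nat_lit 2) [nat_lit 1570] false,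
   Spec.mk (nat_lit 8136) (nat_lit 0) [nat_lit 3762, nat_lit 9594, nat_lit 7650, nat_lit 8298, nat_lit 8082, nat_lit 8190, nat_lit 8118, nat_lit 8154, nat_lit 8130] (nat_lit 1) [nat_lit 1576] false,
   Spec.mk (nat_lit 8154) (nat_lit 0) [nat_lit 3780, nat_lit 9612, nat_lit 7668, nat_lit 8316, nat_lit 8208, nat_lit 8136] (nat_lit 1) [nat_lit 1594] false,
   Spec.mk (nat_lit 8182) (nat_lit 0) [nat_lit 3808, nat_lit 9640, nat_lit 7696, nat_lit 8344, nat_lit 8128, nat_lit 8184] (nat_lit 2) [nat_lit 14742, nat_lit 1622] false,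
   Spec.mk (nat_lit 8184) (nat_lit 0) [nat_lit 3810, nat_lit 9642, nat_lit 7698, nat_lit 8346, nat_lit 8130, nat_lit 8190, nat_lit 8182] (nat_lit 3) [nat_lit 1624] false,
   Spec.mk (nat_lit 8190) (nat_lit 0) [nat_lit 3816, nat_lit 9648, nat_lit 7704, nat_lit 8352, nat_lit 8136, nat_lit 8208, nat_lit 8184] (nat_lit 3) [nat_lit 1630] false,
   Spec.mk (nat_lit 8208) (nat_lit 0) [nat_lit 3834, nat_lit 9666, nat_lit 7722, nat_lit 8370, nat_lit 8154, nat_lit 8190] (nat_lit 1) [nat_lit 1648] false,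
   Spec.mk (nat_lit 8264) (nat_lit 1) [nat_lit 3890, nat_lit 9722, nat_lit 7778, nat_lit 8102, nat_lit 8266] (nat_lit 0) [nat_lit 14824] false,
   Spec.mk (nat_lit 8266) (nat_lit 1) [nat_lit 3892, nat_lit 9724, nat_lit 7780, nat_lit 8104, nat_lit 8272, nat_lit 8264, nat_lit 8268] (nat_lit 0) [nat_lit 14826, nat_lit 1706] false,
   Spec.mk (nat_lit 8268) (nat_lit 0) [nat_lit 3894, nat_lit 9726, nat_lit 7782, nat_lit 8106, nat_lit 8274, nat_lit 8266] (nat_lit 1) [nat_lit 1708] false,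
   Spec.mk (nat_lit 8272) (nat_lit 0) [nat_lit 3898, nat_lit 9730, nat_lit 7786, nat_lit 8110, nat_lit 8290, nat_lit 8266, nat_lit 8274] (nat_lit 0) [nat_lit 14832, nat_lit 1712] false,
   Spec.mk (nat_lit 8274) (nat_lit 0) [nat_lit 3900, nat_lit 9732, nat_lit 7788, nat_lit 8112, nat_lit 8292, nat_lit 8268, nat_lit 8280, nat_lit 8272] (nat_lit 0) [nat_lit 1714] false,
   Spec.mk (nat_lit 8280) (nat_lit 0) [nat_lit 3906, nat_lit 9738, nat_lit 7794, nat_lit 8118, nat_lit 8298, nat_lit 8274] (nat_lit 1) [nat_lit 1720] false,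
   Spec.mk (nat_lit 8290) (nat_lit 0) [nat_lit 3916, nat_lit 9748, nat_lit 7804, nat_lit 8128, nat_lit 8344, nat_lit 8272, nat_lit 8292] (nat_lit 0) [nat_lit 14850, nat_lit 1730] false,
   Spec.mk (nat_lit 8292) (nat_lit 0) [nat_lit 3918, nat_lit 9750, nat_lit 7806, nat_lit 8130, nat_lit 8346, nat_lit 8274, nat_lit 8298, nat_lit 8290] (nat_lit 1) [nat_lit 1732] false,
   Spec.mk (nat_lit 8298) (nat_lit 0) [nat_lit 3924, nat_lit 9756, nat_lit 7812, nat_lit 8136, nat_lit 8352, nat_lit 8280, nat_lit 8316, nat_lit 8292] (nat_lit 0) [nat_lit 1738] false,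
   Spec.mk (nat_lit 8316) (nat_lit 0) [nat_lit 3942, nat_lit 9774, nat_lit 7830, nat_lit 8154, nat_lit 8370, nat_lit 8298] (nat_lit 1) [nat_lit 1756] false,
   Spec.mk (nat_lit 8344) (nat_lit 1) [nat_lit 3970, nat_lit 9802, nat_lit 7858, nat_lit 8182, nat_lit 8506, nat_lit 8290, nat_lit 8346] (nat_lit 0) [nat_lit 14904, nat_lit 1784] false,
   Spec.mk (nat_lit 8346) (nat_lit 0) [nat_lit 3972, nat_lit 9804, nat_lit 7860, nat_lit 8184, nat_lit 8508, nat_lit 8292, nat_lit 8352, nat_lit 8344] (nat_lit 0) [nat_lit 1786] false,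
   Spec.mk (nat_lit 8352) (nat_lit 0) [nat_lit 3978, nat_lit 9810, nat_lit 7866, nat_lit 8190, nat_lit 8514, nat_lit 8298, nat_lit 8370, nat_lit 8346] (nat_lit 0) [nat_lit 1792] false,
   Spec.mk (nat_lit 8370) (nat_lit 1) [nat_lit 3996, nat_lit 9828, nat_lit 7884, nat_lit 8208, nat_lit 8532, nat_lit 8316, nat_lit 8424, nat_lit 8352] (nat_lit 0) [nat_lit 1810] false,
   Spec.mk (nat_lit 8424) (nat_lit 1) [nat_lit 4050, nat_lit 9882, nat_lit 7938, nat_lit 8586, nat_lit 8370] (nat_lit 0) [nat_lit 1864] false,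
   Spec.mk (nat_lit 8506) (nat_lit 2) [nat_lit 4132, nat_lit 9964, nat_lit 8344, nat_lit 8508] (nat_lit 0) [nat_lit 15066, nat_lit 1946] false,
   Spec.mk (nat_lit 8508) (nat_lit 1) [nat_lit 4134, nat_lit 9966, nat_lit 8346, nat_lit 8514, nat_lit 8506] (nat_lit 0) [nat_lit 1948] false,
   Spec.mk (nat_lit 8514) (nat_lit 1) [nat_lit 4140, nat_lit 9972, nat_lit 8352, nat_lit 8532, nat_lit 8508] (nat_lit 0) [nat_lit 1954] false,
   Spec.mk (nat_lit 8532) (nat_lit 1) [nat_lit 4158, nat_lit 9990, nat_lit 8370, nat_lit 8586, nat_lit 8514] (nat_lit 0) [nat_lit 1972] false,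
   Spec.mk (nat_lit 8586) (nat_lit 3) [nat_lit 4212, nat_lit 10044, nat_lit 8424, nat_lit 8532] (nat_lit 0) [nat_lit 2026] false,
   Spec.mk (nat_lit 8756) (nat_lit 4) [nat_lit 4382, nat_lit 13130, nat_lit 7298, nat_lit 8762] (nat_lit 0) [nat_lit 15316] false,
   Spec.mk (nat_lit 8762) (nat_lit 3) [nat_lit 4388, nat_lit 13136, nat_lit 7304, nat_lit 8780, nat_lit 8756, nat_lit 8768, nat_lit 8764] (nat_lit 0) [nat_lit 15322] false,
   Spec.mk (nat_lit 8764) (nat_lit 3) [nat_lit 4390, nat_lit 13138, nat_lit 7306, nat_lit 8782, nat_lit 8770, nat_lit 8762] (nat_lit 0) [nat_lit 15324, nat_lit 2204] false,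
   Spec.mk (nat_lit 8768) (nat_lit 0) [nat_lit 4394, nat_lit 13142, nat_lit 7310, nat_lit 8786, nat_lit 8762, nat_lit 8770] (nat_lit 0) [nat_lit 15328] false,
   Spec.mk (nat_lit 8770) (nat_lit 2) [nat_lit 4396, nat_lit 13144, nat_lit 7312, nat_lit 8788, nat_lit 8764, nat_lit 8768, nat_lit 8772] (nat_lit 0) [nat_lit 15330, nat_lit 2210] false,
   Spec.mk (nat_lit 8772) (nat_lit 2) [nat_lit 4398, nat_lit 13146, nat_lit 7314, nat_lit 8790, nat_lit 8770] (nat_lit 0) [nat_lit 2212] false,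
   Spec.mk (nat_lit 8780) (nat_lit 2) [nat_lit 4406, nat_lit 13154, nat_lit 7322, nat_lit 8834, nat_lit 8762, nat_lit 8786, nat_lit 8782] (nat_lit 0) [nat_lit 15340] false,
   Spec.mk (nat_lit 8782) (nat_lit 1) [nat_lit 4408, nat_lit 13156, nat_lit 7324, nat_lit 8836, nat_lit 8764, nat_lit 8788, nat_lit 8780] (nat_lit 0) [nat_lit 15342, nat_lit 2222] false,
   Spec.mk (nat_lit 8786) (nat_lit 1) [nat_lit 4412, nat_lit 13160, nat_lit 7328, nat_lit 8840, nat_lit 8768, nat_lit 8804, nat_lit 8780, nat_lit 8788] (nat_lit 0) [nat_lit 15346] false,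
   Spec.mk (nat_lit 8788) (nat_lit 2) [nat_lit 4414, nat_lit 13162, nat_lit 7330, nat_lit 8842, nat_lit 8770, nat_lit 8806, nat_lit 8782, nat_lit 8794, nat_lit 8786, nat_lit 8790] (nat_lit 0) [nat_lit 15348, nat_lit 2228] false,
   Spec.mk (nat_lit 8790) (nat_lit 1) [nat_lit 4416, nat_lit 13164, nat_lit 7332, nat_lit 8844, nat_lit 8772, nat_lit 8808, nat_lit 8796, nat_lit 8788] (nat_lit 0) [nat_lit 2230] false,
   Spec.mk (nat_lit 8794) (nat_lit 1) [nat_lit 4420, nat_lit 13168, nat_lit 7336, nat_lit 8848, nat_lit 8812, nat_lit 8788, nat_lit 8796] (nat_lit 0) [nat_lit 15354, nat_lit 2234] false,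
   Spec.mk (nat_lit 8796) (nat_lit 2) [nat_lit 4422, nat_lit 13170, nat_lit 7338, nat_lit 8850, nat_lit 8814, nat_lit 8790, nat_lit 8794] (nat_lit 0) [nat_lit 2236] false,
   Spec.mk (nat_lit 8804) (nat_lit 0) [nat_lit 4430, nat_lit 13178, nat_lit 7346, nat_lit 8858, nat_lit 8786, nat_lit 8806] (nat_lit 0) [nat_lit 15364] false,
   Spec.mk (nat_lit 8806) (nat_lit 0) [nat_lit 4432, nat_lit 13180, nat_lit 7348, nat_lit 8860, nat_lit 8788, nat_lit 8812, nat_lit 8804, nat_lit 8808] (nat_lit 0) [nat_lit 15366, nat_lit 2246] false,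
   Spec.mk (nat_lit 8808) (nat_lit 0) [nat_lit 4434, nat_lit 13182, nat_lit 7350, nat_lit 8862, nat_lit 8790, nat_lit 8814, nat_lit 8806] (nat_lit 2) [nat_lit 2248] false,
   Spec.mk (nat_lit 8812) (nat_lit 1) [nat_lit 4438, nat_lit 13186, nat_lit 7354, nat_lit 8866, nat_lit 8794, nat_lit 8806, nat_lit 8814] (nat_lit 0) [nat_lit 15372, nat_lit 2252] false,
   Spec.mk (nat_lit 8814) (nat_lit 1) [nat_lit 4440, nat_lit 13188, nat_lit 7356, nat_lit 8868, nat_lit 8796, nat_lit 8808, nat_lit 8820, nat_lit 8812] (nat_lit 0) [nat_lit 2254] false,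
   Spec.mk (nat_lit 8820) (nat_lit 2) [nat_lit 4446, nat_lit 13194, nat_lit 7362, nat_lit 8874, nat_lit 8814] (nat_lit 0) [nat_lit 2260] false,
   Spec.mk (nat_lit 8834) (nat_lit 2) [nat_lit 4460, nat_lit 13208, nat_lit 7376, nat_lit 8996, nat_lit 8780, nat_lit 8840, nat_lit 8836] (nat_lit 0) [nat_lit 15394] false,
   Spec.mk (nat_lit 8836) (nat_lit 1) [nat_lit 4462, nat_lit 13210, nat_lit 7378, nat_lit 8998, nat_lit 8782, nat_lit 8842, nat_lit 8834] (nat_lit 0) [nat_lit 15396, nat_lit 2276] false,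
   Spec.mk (nat_lit 8840) (nat_lit 0) [nat_lit 4466, nat_lit 13214, nat_lit 7382, nat_lit 9002, nat_lit 8786, nat_lit 8858, nat_lit 8834, nat_lit 8842] (nat_lit 0) [nat_lit 15400] false,
   Spec.mk (nat_lit 8842) (nat_lit 1) [nat_lit 4468, nat_lit 13216, nat_lit 7384, nat_lit 9004, nat_lit 8788, nat_lit 8860, nat_lit 8836, nat_lit 8848, nat_lit 8840, nat_lit 8844] (nat_lit 0) [nat_lit 15402, nat_lit 2282] false,
   Spec.mk (nat_lit 8844) (nat_lit 0) [nat_lit 4470, nat_lit 13218, nat_lit 7386, nat_lit 9006, nat_lit 8790, nat_lit 8862, nat_lit 8850, nat_lit 8842] (nat_lit 0) [nat_lit 2284] false,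
   Spec.mk (nat_lit 8848) (nat_lit 0) [nat_lit 4474, nat_lit 13222, nat_lit 7390, nat_lit 9010, nat_lit 8794, nat_lit 8866, nat_lit 8842, nat_lit 8850] (nat_lit 1) [nat_lit 15408, nat_lit 2288] false,
   Spec.mk (nat_lit 8850) (nat_lit 0) [nat_lit 4476, nat_lit 13224, nat_lit 7392, nat_lit 9012, nat_lit 8796, nat_lit 8868, nat_lit 8844, nat_lit 8848] (nat_lit 0) [nat_lit 2290] false,
   Spec.mk (nat_lit 8858) (nat_lit 1) [nat_lit 4484, nat_lit 13232, nat_lit 7400, nat_lit 9020, nat_lit 8804, nat_lit 8912, nat_lit 8840, nat_lit 8860] (nat_lit 0) [nat_lit 15418] false,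
   Spec.mk (nat_lit 8860) (nat_lit 1) [nat_lit 4486, nat_lit 13234, nat_lit 7402, nat_lit 9022, nat_lit 8806, nat_lit 8914, nat_lit 8842, nat_lit 8866, nat_lit 8858, nat_lit 8862] (nat_lit 0) [nat_lit 15420, nat_lit 2300] false,
   Spec.mk (nat_lit 8862) (nat_lit 0) [nat_lit 4488, nat_lit 13236, nat_lit 7404, nat_lit 9024, nat_lit 8808, nat_lit 8916, nat_lit 8844, nat_lit 8868, nat_lit 8860] (nat_lit 1) [nat_lit 2302] false,
   Spec.mk (nat_lit 8866) (nat_lit 1) [nat_lit 4492, nat_lit 13240, nat_lit 7408, nat_lit 9028, nat_lit 8812, nat_lit 8920, nat_lit 8848, nat_lit 8884, nat_lit 8860, nat_lit 8868] (nat_lit 0) [nat_lit 15426, nat_lit 2306] false]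

noncomputable def sp18 : List Spec :=
  [Spec.mk (nat_lit 8868) (nat_lit 1) [nat_lit 4494, nat_lit 13242, nat_lit 7410, nat_lit 9030, nat_lit 8814, nat_lit 8922, nat_lit 8850, nat_lit 8886, nat_lit 8862, nat_lit 8874, nat_lit 8866] (nat_lit 0) [nat_lit 2308] false,
   Spec.mk (nat_lit 8874) (nat_lit 1) [nat_lit 4500, nat_lit 13248, nat_lit 7416, nat_lit 9036, nat_lit 8820, nat_lit 8928, nat_lit 8892, nat_lit 8868] (nat_lit 0) [nat_lit 2314] false,
   Spec.mk (nat_lit 8884) (nat_lit 1) [nat_lit 4510, nat_lit 13258, nat_lit 7426, nat_lit 9046, nat_lit 8938, nat_lit 8866, nat_lit 8886] (nat_lit 0) [nat_lit 15444, nat_lit 2324] false,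
   Spec.mk (nat_lit 8886) (nat_lit 0) [nat_lit 4512, nat_lit 13260, nat_lit 7428, nat_lit 9048, nat_lit 8940, nat_lit 8868, nat_lit 8892, nat_lit 8884] (nat_lit 0) [nat_lit 2326] false,
   Spec.mk (nat_lit 8892) (nat_lit 2) [nat_lit 4518, nat_lit 13266, nat_lit 7434, nat_lit 9054, nat_lit 8946, nat_lit 8874, nat_lit 8886] (nat_lit 0) [nat_lit 2332] false,
   Spec.mk (nat_lit 8912) (nat_lit 0) [nat_lit 4538, nat_lit 13286, nat_lit 7454, nat_lit 9074, nat_lit 8858, nat_lit 8914] (nat_lit 0) [nat_lit 15472] false,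
   Spec.mk (nat_lit 8914) (nat_lit 0) [nat_lit 4540, nat_lit 13288, nat_lit 7456, nat_lit 9076, nat_lit 8860, nat_lit 8920, nat_lit 8912, nat_lit 8916] (nat_lit 0) [nat_lit 15474, nat_lit 2354] false,
   Spec.mk (nat_lit 8916) (nat_lit 0) [nat_lit 4542, nat_lit 13290, nat_lit 7458, nat_lit 9078, nat_lit 8862, nat_lit 8922, nat_lit 8914] (nat_lit 2) [nat_lit 2356] false,
   Spec.mk (nat_lit 8920) (nat_lit 0) [nat_lit 4546, nat_lit 13294, nat_lit 7462, nat_lit 9082, nat_lit 8866, nat_lit 8938, nat_lit 8914, nat_lit 8922] (nat_lit 1) [nat_lit 15480, nat_lit 2360] false,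
   Spec.mk (nat_lit 8922) (nat_lit 0) [nat_lit 4548, nat_lit 13296, nat_lit 7464, nat_lit 9084, nat_lit 8868, nat_lit 8940, nat_lit 8916, nat_lit 8928, nat_lit 8920] (nat_lit 1) [nat_lit 2362] false,
   Spec.mk (nat_lit 8928) (nat_lit 0) [nat_lit 4554, nat_lit 13302, nat_lit 7470, nat_lit 9090, nat_lit 8874, nat_lit 8946, nat_lit 8922] (nat_lit 2) [nat_lit 2368] false,
   Spec.mk (nat_lit 8938) (nat_lit 1) [nat_lit 4564, nat_lit 13312, nat_lit 7480, nat_lit 9100, nat_lit 8884, nat_lit 8920, nat_lit 8940] (nat_lit 0) [nat_lit 15498, nat_lit 2378] false,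
   Spec.mk (nat_lit 8940) (nat_lit 0) [nat_lit 4566, nat_lit 13314, nat_lit 7482, nat_lit 9102, nat_lit 8886, nat_lit 8922, nat_lit 8946, nat_lit 8938] (nat_lit 0) [nat_lit 2380] false,
   Spec.mk (nat_lit 8946) (nat_lit 1) [nat_lit 4572, nat_lit 13320, nat_lit 7488, nat_lit 9108, nat_lit 8892, nat_lit 8928, nat_lit 8964, nat_lit 8940] (nat_lit 0) [nat_lit 2386] false,
   Spec.mk (nat_lit 8964) (nat_lit 2) [nat_lit 4590, nat_lit 13338, nat_lit 7506, nat_lit 9126, nat_lit 8946] (nat_lit 0) [nat_lit 2404] false,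
   Spec.mk (nat_lit 8996) (nat_lit 2) [nat_lit 4622, nat_lit 13370, nat_lit 7538, nat_lit 9482, nat_lit 8834, nat_lit 9002, nat_lit 8998] (nat_lit 0) [nat_lit 15556] false,
   Spec.mk (nat_lit 8998) (nat_lit 1) [nat_lit 4624, nat_lit 13372, nat_lit 7540, nat_lit 9484, nat_lit 8836, nat_lit 9004, nat_lit 8996] (nat_lit 0) [nat_lit 15558, nat_lit 2438] false,
   Spec.mk (nat_lit 9002) (nat_lit 0) [nat_lit 4628, nat_lit 13376, nat_lit 7544, nat_lit 9488, nat_lit 8840, nat_lit 9020, nat_lit 8996, nat_lit 9004] (nat_lit 0) [nat_lit 15562] false,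
   Spec.mk (nat_lit 9004) (nat_lit 1) [nat_lit 4630, nat_lit 13378, nat_lit 7546, nat_lit 9490, nat_lit 8842, nat_lit 9022, nat_lit 8998, nat_lit 9010, nat_lit 9002, nat_lit 9006] (nat_lit 0) [nat_lit 15564, nat_lit 2444] false,
   Spec.mk (nat_lit 9006) (nat_lit 0) [nat_lit 4632, nat_lit 13380, nat_lit 7548, nat_lit 9492, nat_lit 8844, nat_lit 9024, nat_lit 9012, nat_lit 9004] (nat_lit 0) [nat_lit 2446] false,
   Spec.mk (nat_lit 9010) (nat_lit 0) [nat_lit 4636, nat_lit 13384, nat_lit 7552, nat_lit 9496, nat_lit 8848, nat_lit 9028, nat_lit 9004, nat_lit 9012] (nat_lit 1) [nat_lit 15570, nat_lit 2450] false,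
   Spec.mk (nat_lit 9012) (nat_lit 0) [nat_lit 4638, nat_lit 13386, nat_lit 7554, nat_lit 9498, nat_lit 8850, nat_lit 9030, nat_lit 9006, nat_lit 9010] (nat_lit 0) [nat_lit 2452] false,
   Spec.mk (nat_lit 9020) (nat_lit 0) [nat_lit 4646, nat_lit 13394, nat_lit 7562, nat_lit 9506, nat_lit 8858, nat_lit 9074, nat_lit 9002, nat_lit 9022] (nat_lit 0) [nat_lit 15580] false,
   Spec.mk (nat_lit 9022) (nat_lit 0) [nat_lit 4648, nat_lit 13396, nat_lit 7564, nat_lit 9508, nat_lit 8860, nat_lit 9076, nat_lit 9004, nat_lit 9028, nat_lit 9020, nat_lit 9024] (nat_lit 0) [nat_lit 15582, nat_lit 2462] false,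
   Spec.mk (nat_lit 9024) (nat_lit 0) [nat_lit 4650, nat_lit 13398, nat_lit 7566, nat_lit 9510, nat_lit 8862, nat_lit 9078, nat_lit 9006, nat_lit 9030, nat_lit 9022] (nat_lit 2) [nat_lit 2464] false,
   Spec.mk (nat_lit 9028) (nat_lit 0) [nat_lit 4654, nat_lit 13402, nat_lit 7570, nat_lit 9514, nat_lit 8866, nat_lit 9082, nat_lit 9010, nat_lit 9046, nat_lit 9022, nat_lit 9030] (nat_lit 0) [nat_lit 15588, nat_lit 2468] false,
   Spec.mk (nat_lit 9030) (nat_lit 0) [nat_lit 4656, nat_lit 13404, nat_lit 7572, nat_lit 9516, nat_lit 8868, nat_lit 9084, nat_lit 9012, nat_lit 9048, nat_lit 9024, nat_lit 9036, nat_lit 9028] (nat_lit 0) [nat_lit 2470] false,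
   Spec.mk (nat_lit 9036) (nat_lit 0) [nat_lit 4662, nat_lit 13410, nat_lit 7578, nat_lit 9522, nat_lit 8874, nat_lit 9090, nat_lit 9054, nat_lit 9030] (nat_lit 0) [nat_lit 2476] false,
   Spec.mk (nat_lit 9046) (nat_lit 0) [nat_lit 4672, nat_lit 13420, nat_lit 7588, nat_lit 9532, nat_lit 8884, nat_lit 9100, nat_lit 9028, nat_lit 9048] (nat_lit 1) [nat_lit 15606, nat_lit 2486] false,
   Spec.mk (nat_lit 9048) (nat_lit 0) [nat_lit 4674, nat_lit 13422, nat_lit 7590, nat_lit 9534, nat_lit 8886, nat_lit 9102, nat_lit 9030, nat_lit 9054, nat_lit 9046] (nat_lit 2) [nat_lit 2488] false,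
   Spec.mk (nat_lit 9054) (nat_lit 0) [nat_lit 4680, nat_lit 13428, nat_lit 7596, nat_lit 9540, nat_lit 8892, nat_lit 9108, nat_lit 9036, nat_lit 9048] (nat_lit 0) [nat_lit 2494] false,
   Spec.mk (nat_lit 9074) (nat_lit 1) [nat_lit 4700, nat_lit 13448, nat_lit 7616, nat_lit 9560, nat_lit 8912, nat_lit 9236, nat_lit 9020, nat_lit 9076] (nat_lit 0) [nat_lit 15634] false,
   Spec.mk (nat_lit 9076) (nat_lit 1) [nat_lit 4702, nat_lit 13450, nat_lit 7618, nat_lit 9562, nat_lit 8914, nat_lit 9238, nat_lit 9022, nat_lit 9082, nat_lit 9074, nat_lit 9078] (nat_lit 0) [nat_lit 15636, nat_lit 2516] false,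
   Spec.mk (nat_lit 9078) (nat_lit 0) [nat_lit 4704, nat_lit 13452, nat_lit 7620, nat_lit 9564, nat_lit 8916, nat_lit 9240, nat_lit 9024, nat_lit 9084, nat_lit 9076] (nat_lit 1) [nat_lit 2518] false,
   Spec.mk (nat_lit 9082) (nat_lit 0) [nat_lit 4708, nat_lit 13456, nat_lit 7624, nat_lit 9568, nat_lit 8920, nat_lit 9244, nat_lit 9028, nat_lit 9100, nat_lit 9076, nat_lit 9084] (nat_lit 0) [nat_lit 15642, nat_lit 2522] false,
   Spec.mk (nat_lit 9084) (nat_lit 0) [nat_lit 4710, nat_lit 13458, nat_lit 7626, nat_lit 9570, nat_lit 8922, nat_lit 9246, nat_lit 9030, nat_lit 9102, nat_lit 9078, nat_lit 9090, nat_lit 9082] (nat_lit 0) [nat_lit 2524] false,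
   Spec.mk (nat_lit 9090) (nat_lit 0) [nat_lit 4716, nat_lit 13464, nat_lit 7632, nat_lit 9576, nat_lit 8928, nat_lit 9252, nat_lit 9036, nat_lit 9108, nat_lit 9084] (nat_lit 1) [nat_lit 2530] false,
   Spec.mk (nat_lit 9100) (nat_lit 1) [nat_lit 4726, nat_lit 13474, nat_lit 7642, nat_lit 9586, nat_lit 8938, nat_lit 9262, nat_lit 9046, nat_lit 9154, nat_lit 9082, nat_lit 9102] (nat_lit 0) [nat_lit 15660, nat_lit 2540] false,
   Spec.mk (nat_lit 9102) (nat_lit 0) [nat_lit 4728, nat_lit 13476, nat_lit 7644, nat_lit 9588, nat_lit 8940, nat_lit 9264, nat_lit 9048, nat_lit 9156, nat_lit 9084, nat_lit 9108, nat_lit 9100] (nat_lit 0) [nat_lit 2542] false,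
   Spec.mk (nat_lit 9108) (nat_lit 1) [nat_lit 4734, nat_lit 13482, nat_lit 7650, nat_lit 9594, nat_lit 8946, nat_lit 9270, nat_lit 9054, nat_lit 9162, nat_lit 9090, nat_lit 9126, nat_lit 9102] (nat_lit 0) [nat_lit 2548] false,
   Spec.mk (nat_lit 9126) (nat_lit 1) [nat_lit 4752, nat_lit 13500, nat_lit 7668, nat_lit 9612, nat_lit 8964, nat_lit 9288, nat_lit 9180, nat_lit 9108] (nat_lit 0) [nat_lit 2566] false,
   Spec.mk (nat_lit 9154) (nat_lit 1) [nat_lit 4780, nat_lit 13528, nat_lit 7696, nat_lit 9640, nat_lit 9316, nat_lit 9100, nat_lit 9156] (nat_lit 0) [nat_lit 15714, nat_lit 2594] false,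
   Spec.mk (nat_lit 9156) (nat_lit 0) [nat_lit 4782, nat_lit 13530, nat_lit 7698, nat_lit 9642, nat_lit 9318, nat_lit 9102, nat_lit 9162, nat_lit 9154] (nat_lit 0) [nat_lit 2596] false,
   Spec.mk (nat_lit 9162) (nat_lit 0) [nat_lit 4788, nat_lit 13536, nat_lit 7704, nat_lit 9648, nat_lit 9324, nat_lit 9108, nat_lit 9180, nat_lit 9156] (nat_lit 0) [nat_lit 2602] false,
   Spec.mk (nat_lit 9180) (nat_lit 2) [nat_lit 4806, nat_lit 13554, nat_lit 7722, nat_lit 9666, nat_lit 9342, nat_lit 9126, nat_lit 9162] (nat_lit 0) [nat_lit 2620] false,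
   Spec.mk (nat_lit 9236) (nat_lit 0) [nat_lit 4862, nat_lit 13610, nat_lit 7778, nat_lit 9722, nat_lit 9074, nat_lit 9238] (nat_lit 0) [nat_lit 15796] false,
   Spec.mk (nat_lit 9238) (nat_lit 0) [nat_lit 4864, nat_lit 13612, nat_lit 7780, nat_lit 9724, nat_lit 9076, nat_lit 9244, nat_lit 9236, nat_lit 9240] (nat_lit 0) [nat_lit 15798, nat_lit 2678] false,
   Spec.mk (nat_lit 9240) (nat_lit 0) [nat_lit 4866, nat_lit 13614, nat_lit 7782, nat_lit 9726, nat_lit 9078, nat_lit 9246, nat_lit 9238] (nat_lit 2) [nat_lit 2680] false,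
   Spec.mk (nat_lit 9244) (nat_lit 0) [nat_lit 4870, nat_lit 13618, nat_lit 7786, nat_lit 9730, nat_lit 9082, nat_lit 9262, nat_lit 9238, nat_lit 9246] (nat_lit 1) [nat_lit 15804, nat_lit 2684] false,
   Spec.mk (nat_lit 9246) (nat_lit 0) [nat_lit 4872, nat_lit 13620, nat_lit 7788, nat_lit 9732, nat_lit 9084, nat_lit 9264, nat_lit 9240, nat_lit 9252, nat_lit 9244] (nat_lit 1) [nat_lit 2686] false,
   Spec.mk (nat_lit 9252) (nat_lit 0) [nat_lit 4878, nat_lit 13626, nat_lit 7794, nat_lit 9738, nat_lit 9090, nat_lit 9270, nat_lit 9246] (nat_lit 2) [nat_lit 2692] false,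
   Spec.mk (nat_lit 9262) (nat_lit 0) [nat_lit 4888, nat_lit 13636, nat_lit 7804, nat_lit 9748, nat_lit 9100, nat_lit 9316, nat_lit 9244, nat_lit 9264] (nat_lit 1) [nat_lit 15822, nat_lit 2702] false,
   Spec.mk (nat_lit 9264) (nat_lit 0) [nat_lit 4890, nat_lit 13638, nat_lit 7806, nat_lit 9750, nat_lit 9102, nat_lit 9318, nat_lit 9246, nat_lit 9270, nat_lit 9262] (nat_lit 2) [nat_lit 2704] false,
   Spec.mk (nat_lit 9270) (nat_lit 0) [nat_lit 4896, nat_lit 13644, nat_lit 7812, nat_lit 9756, nat_lit 9108, nat_lit 9324, nat_lit 9252, nat_lit 9288, nat_lit 9264] (nat_lit 1) [nat_lit 2710] false,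
   Spec.mk (nat_lit 9288) (nat_lit 0) [nat_lit 4914, nat_lit 13662, nat_lit 7830, nat_lit 9774, nat_lit 9126, nat_lit 9342, nat_lit 9270] (nat_lit 2) [nat_lit 2728] false,
   Spec.mk (nat_lit 9316) (nat_lit 1) [nat_lit 4942, nat_lit 13690, nat_lit 7858, nat_lit 9802, nat_lit 9154, nat_lit 9262, nat_lit 9318] (nat_lit 0) [nat_lit 15876, nat_lit 2756] false,
   Spec.mk (nat_lit 9318) (nat_lit 0) [nat_lit 4944, nat_lit 13692, nat_lit 7860, nat_lit 9804, nat_lit 9156, nat_lit 9264, nat_lit 9324, nat_lit 9316] (nat_lit 0) [nat_lit 2758] false,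
   Spec.mk (nat_lit 9324) (nat_lit 0) [nat_lit 4950, nat_lit 13698, nat_lit 7866, nat_lit 9810, nat_lit 9162, nat_lit 9270, nat_lit 9342, nat_lit 9318] (nat_lit 0) [nat_lit 2764] false,
   Spec.mk (nat_lit 9342) (nat_lit 1) [nat_lit 4968, nat_lit 13716, nat_lit 7884, nat_lit 9828, nat_lit 9180, nat_lit 9288, nat_lit 9396, nat_lit 9324] (nat_lit 0) [nat_lit 2782] false,
   Spec.mk (nat_lit 9396) (nat_lit 2) [nat_lit 5022, nat_lit 13770, nat_lit 7938, nat_lit 9882, nat_lit 9342] (nat_lit 0) [nat_lit 2836] false]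

noncomputable def sp19 : List Spec :=
  [Spec.mk (nat_lit 9482) (nat_lit 3) [nat_lit 5108, nat_lit 13856, nat_lit 8024, nat_lit 10940, nat_lit 8996, nat_lit 9488, nat_lit 9484] (nat_lit 0) [nat_lit 16042] false,
   Spec.mk (nat_lit 9484) (nat_lit 2) [nat_lit 5110, nat_lit 13858, nat_lit 8026, nat_lit 10942, nat_lit 8998, nat_lit 9490, nat_lit 9482] (nat_lit 0) [nat_lit 16044, nat_lit 2924] false,
   Spec.mk (nat_lit 9488) (nat_lit 1) [nat_lit 5114, nat_lit 13862, nat_lit 8030, nat_lit 10946, nat_lit 9002, nat_lit 9506, nat_lit 9482, nat_lit 9490] (nat_lit 0) [nat_lit 16048] false,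
   Spec.mk (nat_lit 9490) (nat_lit 2) [nat_lit 5116, nat_lit 13864, nat_lit 8032, nat_lit 10948, nat_lit 9004, nat_lit 9508, nat_lit 9484, nat_lit 9496, nat_lit 9488, nat_lit 9492] (nat_lit 0) [nat_lit 16050, nat_lit 2930] false,
   Spec.mk (nat_lit 9492) (nat_lit 1) [nat_lit 5118, nat_lit 13866, nat_lit 8034, nat_lit 10950, nat_lit 9006, nat_lit 9510, nat_lit 9498, nat_lit 9490] (nat_lit 0) [nat_lit 2932] false,
   Spec.mk (nat_lit 9496) (nat_lit 0) [nat_lit 5122, nat_lit 13870, nat_lit 8038, nat_lit 10954, nat_lit 9010, nat_lit 9514, nat_lit 9490, nat_lit 9498] (nat_lit 0) [nat_lit 16056, nat_lit 2936] false,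
   Spec.mk (nat_lit 9498) (nat_lit 1) [nat_lit 5124, nat_lit 13872, nat_lit 8040, nat_lit 10956, nat_lit 9012, nat_lit 9516, nat_lit 9492, nat_lit 9496] (nat_lit 0) [nat_lit 2938] false,
   Spec.mk (nat_lit 9506) (nat_lit 1) [nat_lit 5132, nat_lit 13880, nat_lit 8048, nat_lit 10964, nat_lit 9020, nat_lit 9560, nat_lit 9488, nat_lit 9508] (nat_lit 0) [nat_lit 16066] false,
   Spec.mk (nat_lit 9508) (nat_lit 1) [nat_lit 5134, nat_lit 13882, nat_lit 8050, nat_lit 10966, nat_lit 9022, nat_lit 9562, nat_lit 9490, nat_lit 9514, nat_lit 9506, nat_lit 9510] (nat_lit 0) [nat_lit 16068, nat_lit 2948] false,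
   Spec.mk (nat_lit 9510) (nat_lit 0) [nat_lit 5136, nat_lit 13884, nat_lit 8052, nat_lit 10968, nat_lit 9024, nat_lit 9564, nat_lit 9492, nat_lit 9516, nat_lit 9508] (nat_lit 1) [nat_lit 2950] false,
   Spec.mk (nat_lit 9514) (nat_lit 1) [nat_lit 5140, nat_lit 13888, nat_lit 8056, nat_lit 10972, nat_lit 9028, nat_lit 9568, nat_lit 9496, nat_lit 9532, nat_lit 9508, nat_lit 9516] (nat_lit 0) [nat_lit 16074, nat_lit 2954] false,
   Spec.mk (nat_lit 9516) (nat_lit 1) [nat_lit 5142, nat_lit 13890, nat_lit 8058, nat_lit 10974, nat_lit 9030, nat_lit 9570, nat_lit 9498, nat_lit 9534, nat_lit 9510, nat_lit 9522, nat_lit 9514] (nat_lit 0) [nat_lit 2956] false,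
   Spec.mk (nat_lit 9522) (nat_lit 1) [nat_lit 5148, nat_lit 13896, nat_lit 8064, nat_lit 10980, nat_lit 9036, nat_lit 9576, nat_lit 9540, nat_lit 9516] (nat_lit 0) [nat_lit 2962] false,
   Spec.mk (nat_lit 9532) (nat_lit 0) [nat_lit 5158, nat_lit 13906, nat_lit 8074, nat_lit 10990, nat_lit 9046, nat_lit 9586, nat_lit 9514, nat_lit 9534] (nat_lit 0) [nat_lit 16092, nat_lit 2972] false,
   Spec.mk (nat_lit 9534) (nat_lit 0) [nat_lit 5160, nat_lit 13908, nat_lit 8076, nat_lit 10992, nat_lit 9048, nat_lit 9588, nat_lit 9516, nat_lit 9540, nat_lit 9532] (nat_lit 1) [nat_lit 2974] false,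
   Spec.mk (nat_lit 9540) (nat_lit 1) [nat_lit 5166, nat_lit 13914, nat_lit 8082, nat_lit 10998, nat_lit 9054, nat_lit 9594, nat_lit 9522, nat_lit 9534] (nat_lit 0) [nat_lit 2980] false,
   Spec.mk (nat_lit 9560) (nat_lit 1) [nat_lit 5186, nat_lit 13934, nat_lit 8102, nat_lit 11018, nat_lit 9074, nat_lit 9722, nat_lit 9506, nat_lit 9562] (nat_lit 0) [nat_lit 16120] false,
   Spec.mk (nat_lit 9562) (nat_lit 1) [nat_lit 5188, nat_lit 13936, nat_lit 8104, nat_lit 11020, nat_lit 9076, nat_lit 9724, nat_lit 9508, nat_lit 9568, nat_lit 9560, nat_lit 9564] (nat_lit 0) [nat_lit 16122, nat_lit 3002] false,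
   Spec.mk (nat_lit 9564) (nat_lit 0) [nat_lit 5190, nat_lit 13938, nat_lit 8106, nat_lit 11022, nat_lit 9078, nat_lit 9726, nat_lit 9510, nat_lit 9570, nat_lit 9562] (nat_lit 1) [nat_lit 3004] false,
   Spec.mk (nat_lit 9568) (nat_lit 0) [nat_lit 5194, nat_lit 13942, nat_lit 8110, nat_lit 11026, nat_lit 9082, nat_lit 9730, nat_lit 9514, nat_lit 9586, nat_lit 9562, nat_lit 9570] (nat_lit 0) [nat_lit 16128, nat_lit 3008] false,
   Spec.mk (nat_lit 9570) (nat_lit 0) [nat_lit 5196, nat_lit 13944, nat_lit 8112, nat_lit 11028, nat_lit 9084, nat_lit 9732, nat_lit 9516, nat_lit 9588, nat_lit 9564, nat_lit 9576, nat_lit 9568] (nat_lit 0) [nat_lit 3010] false,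
   Spec.mk (nat_lit 9576) (nat_lit 0) [nat_lit 5202, nat_lit 13950, nat_lit 8118, nat_lit 11034, nat_lit 9090, nat_lit 9738, nat_lit 9522, nat_lit 9594, nat_lit 9570] (nat_lit 1) [nat_lit 3016] false,
   Spec.mk (nat_lit 9586) (nat_lit 1) [nat_lit 5212, nat_lit 13960, nat_lit 8128, nat_lit 11044, nat_lit 9100, nat_lit 9748, nat_lit 9532, nat_lit 9640, nat_lit 9568, nat_lit 9588] (nat_lit 0) [nat_lit 16146, nat_lit 3026] false,
   Spec.mk (nat_lit 9588) (nat_lit 0) [nat_lit 5214, nat_lit 13962, nat_lit 8130, nat_lit 11046, nat_lit 9102, nat_lit 9750, nat_lit 9534, nat_lit 9642, nat_lit 9570, nat_lit 9594, nat_lit 9586] (nat_lit 0) [nat_lit 3028] false,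
   Spec.mk (nat_lit 9594) (nat_lit 1) [nat_lit 5220, nat_lit 13968, nat_lit 8136, nat_lit 11052, nat_lit 9108, nat_lit 9756, nat_lit 9540, nat_lit 9648, nat_lit 9576, nat_lit 9612, nat_lit 9588] (nat_lit 0) [nat_lit 3034] false,
   Spec.mk (nat_lit 9612) (nat_lit 1) [nat_lit 5238, nat_lit 13986, nat_lit 8154, nat_lit 11070, nat_lit 9126, nat_lit 9774, nat_lit 9666, nat_lit 9594] (nat_lit 0) [nat_lit 3052] false,
   Spec.mk (nat_lit 9640) (nat_lit 0) [nat_lit 5266, nat_lit 14014, nat_lit 8182, nat_lit 11098, nat_lit 9154, nat_lit 9802, nat_lit 9586, nat_lit 9642] (nat_lit 0) [nat_lit 16200, nat_lit 3080] false,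
   Spec.mk (nat_lit 9642) (nat_lit 0) [nat_lit 5268, nat_lit 14016, nat_lit 8184, nat_lit 11100, nat_lit 9156, nat_lit 9804, nat_lit 9588, nat_lit 9648, nat_lit 9640] (nat_lit 1) [nat_lit 3082] false,
   Spec.mk (nat_lit 9648) (nat_lit 0) [nat_lit 5274, nat_lit 14022, nat_lit 8190, nat_lit 11106, nat_lit 9162, nat_lit 9810, nat_lit 9594, nat_lit 9666, nat_lit 9642] (nat_lit 1) [nat_lit 3088] false,
   Spec.mk (nat_lit 9666) (nat_lit 1) [nat_lit 5292, nat_lit 14040, nat_lit 8208, nat_lit 11124, nat_lit 9180, nat_lit 9828, nat_lit 9612, nat_lit 9648] (nat_lit 0) [nat_lit 3106] false,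
   Spec.mk (nat_lit 9722) (nat_lit 2) [nat_lit 5348, nat_lit 14096, nat_lit 8264, nat_lit 11180, nat_lit 9236, nat_lit 10208, nat_lit 9560, nat_lit 9724] (nat_lit 0) [nat_lit 16282] false,
   Spec.mk (nat_lit 9724) (nat_lit 2) [nat_lit 5350, nat_lit 14098, nat_lit 8266, nat_lit 11182, nat_lit 9238, nat_lit 10210, nat_lit 9562, nat_lit 9730, nat_lit 9722, nat_lit 9726] (nat_lit 0) [nat_lit 16284, nat_lit 3164] false,
   Spec.mk (nat_lit 9726) (nat_lit 0) [nat_lit 5352, nat_lit 14100, nat_lit 8268, nat_lit 11184, nat_lit 9240, nat_lit 10212, nat_lit 9564, nat_lit 9732, nat_lit 9724] (nat_lit 0) [nat_lit 3166] false,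
   Spec.mk (nat_lit 9730) (nat_lit 1) [nat_lit 5356, nat_lit 14104, nat_lit 8272, nat_lit 11188, nat_lit 9244, nat_lit 10216, nat_lit 9568, nat_lit 9748, nat_lit 9724, nat_lit 9732] (nat_lit 0) [nat_lit 16290, nat_lit 3170] false,
   Spec.mk (nat_lit 9732) (nat_lit 1) [nat_lit 5358, nat_lit 14106, nat_lit 8274, nat_lit 11190, nat_lit 9246, nat_lit 10218, nat_lit 9570, nat_lit 9750, nat_lit 9726, nat_lit 9738, nat_lit 9730] (nat_lit 0) [nat_lit 3172] false,
   Spec.mk (nat_lit 9738) (nat_lit 0) [nat_lit 5364, nat_lit 14112, nat_lit 8280, nat_lit 11196, nat_lit 9252, nat_lit 10224, nat_lit 9576, nat_lit 9756, nat_lit 9732] (nat_lit 0) [nat_lit 3178] false,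
   Spec.mk (nat_lit 9748) (nat_lit 1) [nat_lit 5374, nat_lit 14122, nat_lit 8290, nat_lit 11206, nat_lit 9262, nat_lit 10234, nat_lit 9586, nat_lit 9802, nat_lit 9730, nat_lit 9750] (nat_lit 0) [nat_lit 16308, nat_lit 3188] false,
   Spec.mk (nat_lit 9750) (nat_lit 0) [nat_lit 5376, nat_lit 14124, nat_lit 8292, nat_lit 11208, nat_lit 9264, nat_lit 10236, nat_lit 9588, nat_lit 9804, nat_lit 9732, nat_lit 9756, nat_lit 9748] (nat_lit 0) [nat_lit 3190] false,
   Spec.mk (nat_lit 9756) (nat_lit 1) [nat_lit 5382, nat_lit 14130, nat_lit 8298, nat_lit 11214, nat_lit 9270, nat_lit 10242, nat_lit 9594, nat_lit 9810, nat_lit 9738, nat_lit 9774, nat_lit 9750] (nat_lit 0) [nat_lit 3196] false,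
   Spec.mk (nat_lit 9774) (nat_lit 0) [nat_lit 5400, nat_lit 14148, nat_lit 8316, nat_lit 11232, nat_lit 9288, nat_lit 10260, nat_lit 9612, nat_lit 9828, nat_lit 9756] (nat_lit 0) [nat_lit 3214] false,
   Spec.mk (nat_lit 9802) (nat_lit 2) [nat_lit 5428, nat_lit 14176, nat_lit 8344, nat_lit 11260, nat_lit 9316, nat_lit 10288, nat_lit 9640, nat_lit 9964, nat_lit 9748, nat_lit 9804] (nat_lit 0) [nat_lit 16362, nat_lit 3242] false,
   Spec.mk (nat_lit 9804) (nat_lit 1) [nat_lit 5430, nat_lit 14178, nat_lit 8346, nat_lit 11262, nat_lit 9318, nat_lit 10290, nat_lit 9642, nat_lit 9966, nat_lit 9750, nat_lit 9810, nat_lit 9802] (nat_lit 0) [nat_lit 3244] false,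
   Spec.mk (nat_lit 9810) (nat_lit 1) [nat_lit 5436, nat_lit 14184, nat_lit 8352, nat_lit 11268, nat_lit 9324, nat_lit 10296, nat_lit 9648, nat_lit 9972, nat_lit 9756, nat_lit 9828, nat_lit 9804] (nat_lit 0) [nat_lit 3250] false,
   Spec.mk (nat_lit 9828) (nat_lit 2) [nat_lit 5454, nat_lit 14202, nat_lit 8370, nat_lit 11286, nat_lit 9342, nat_lit 10314, nat_lit 9666, nat_lit 9990, nat_lit 9774, nat_lit 9882, nat_lit 9810] (nat_lit 0) [nat_lit 3268] false,
   Spec.mk (nat_lit 9882) (nat_lit 2) [nat_lit 5508, nat_lit 14256, nat_lit 8424, nat_lit 11340, nat_lit 9396, nat_lit 10368, nat_lit 10044, nat_lit 9828] (nat_lit 0) [nat_lit 3322] false,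
   Spec.mk (nat_lit 9964) (nat_lit 2) [nat_lit 5590, nat_lit 14338, nat_lit 8506, nat_lit 11422, nat_lit 10450, nat_lit 9802, nat_lit 9966] (nat_lit 0) [nat_lit 16524, nat_lit 3404] false,
   Spec.mk (nat_lit 9966) (nat_lit 1) [nat_lit 5592, nat_lit 14340, nat_lit 8508, nat_lit 11424, nat_lit 10452, nat_lit 9804, nat_lit 9972, nat_lit 9964] (nat_lit 0) [nat_lit 3406] false,
   Spec.mk (nat_lit 9972) (nat_lit 1) [nat_lit 5598, nat_lit 14346, nat_lit 8514, nat_lit 11430, nat_lit 10458, nat_lit 9810, nat_lit 9990, nat_lit 9966] (nat_lit 0) [nat_lit 3412] false,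
   Spec.mk (nat_lit 9990) (nat_lit 1) [nat_lit 5616, nat_lit 14364, nat_lit 8532, nat_lit 11448, nat_lit 10476, nat_lit 9828, nat_lit 10044, nat_lit 9972] (nat_lit 0) [nat_lit 3430] false,
   Spec.mk (nat_lit 10044) (nat_lit 3) [nat_lit 5670, nat_lit 14418, nat_lit 8586, nat_lit 11502, nat_lit 10530, nat_lit 9882, nat_lit 9990] (nat_lit 0) [nat_lit 3484] false,
   Spec.mk (nat_lit 10208) (nat_lit 2) [nat_lit 5834, nat_lit 14582, nat_lit 11666, nat_lit 9722, nat_lit 10210] (nat_lit 0) [nat_lit 16768] false,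
   Spec.mk (nat_lit 10210) (nat_lit 2) [nat_lit 5836, nat_lit 14584, nat_lit 11668, nat_lit 9724, nat_lit 10216, nat_lit 10208, nat_lit 10212] (nat_lit 0) [nat_lit 16770, nat_lit 3650] false,
   Spec.mk (nat_lit 10212) (nat_lit 0) [nat_lit 5838, nat_lit 14586, nat_lit 11670, nat_lit 9726, nat_lit 10218, nat_lit 10210] (nat_lit 0) [nat_lit 3652] false,
   Spec.mk (nat_lit 10216) (nat_lit 1) [nat_lit 5842, nat_lit 14590, nat_lit 11674, nat_lit 9730, nat_lit 10234, nat_lit 10210, nat_lit 10218] (nat_lit 0) [nat_lit 16776, nat_lit 3656] false,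
   Spec.mk (nat_lit 10218) (nat_lit 1) [nat_lit 5844, nat_lit 14592, nat_lit 11676, nat_lit 9732, nat_lit 10236, nat_lit 10212, nat_lit 10224, nat_lit 10216] (nat_lit 0) [nat_lit 3658] false,
   Spec.mk (nat_lit 10224) (nat_lit 0) [nat_lit 5850, nat_lit 14598, nat_lit 11682, nat_lit 9738, nat_lit 10242, nat_lit 10218] (nat_lit 0) [nat_lit 3664] false,
   Spec.mk (nat_lit 10234) (nat_lit 1) [nat_lit 5860, nat_lit 14608, nat_lit 11692, nat_lit 9748, nat_lit 10288, nat_lit 10216, nat_lit 10236] (nat_lit 0) [nat_lit 16794, nat_lit 3674] false,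
   Spec.mk (nat_lit 10236) (nat_lit 0) [nat_lit 5862, nat_lit 14610, nat_lit 11694, nat_lit 9750, nat_lit 10290, nat_lit 10218, nat_lit 10242, nat_lit 10234] (nat_lit 0) [nat_lit 3676] false,
   Spec.mk (nat_lit 10242) (nat_lit 1) [nat_lit 5868, nat_lit 14616, nat_lit 11700, nat_lit 9756, nat_lit 10296, nat_lit 10224, nat_lit 10260, nat_lit 10236] (nat_lit 0) [nat_lit 3682] false,
   Spec.mk (nat_lit 10260) (nat_lit 0) [nat_lit 5886, nat_lit 14634, nat_lit 11718, nat_lit 9774, nat_lit 10314, nat_lit 10242] (nat_lit 0) [nat_lit 3700] false]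

noncomputable def sp20 : List Spec :=
  [Spec.mk (nat_lit 10288) (nat_lit 1) [nat_lit 5914, nat_lit 14662, nat_lit 11746, nat_lit 9802, nat_lit 10450, nat_lit 10234, nat_lit 10290] (nat_lit 0) [nat_lit 16848, nat_lit 3728] false,
   Spec.mk (nat_lit 10290) (nat_lit 0) [nat_lit 5916, nat_lit 14664, nat_lit 11748, nat_lit 9804, nat_lit 10452, nat_lit 10236, nat_lit 10296, nat_lit 10288] (nat_lit 0) [nat_lit 3730] false,
   Spec.mk (nat_lit 10296) (nat_lit 0) [nat_lit 5922, nat_lit 14670, nat_lit 11754, nat_lit 9810, nat_lit 10458, nat_lit 10242, nat_lit 10314, nat_lit 10290] (nat_lit 0) [nat_lit 3736] false,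
   Spec.mk (nat_lit 10314) (nat_lit 1) [nat_lit 5940, nat_lit 14688, nat_lit 11772, nat_lit 9828, nat_lit 10476, nat_lit 10260, nat_lit 10368, nat_lit 10296] (nat_lit 0) [nat_lit 3754] false,
   Spec.mk (nat_lit 10368) (nat_lit 0) [nat_lit 5994, nat_lit 14742, nat_lit 11826, nat_lit 9882, nat_lit 10530, nat_lit 10314] (nat_lit 0) [nat_lit 3808] false,
   Spec.mk (nat_lit 10450) (nat_lit 3) [nat_lit 6076, nat_lit 14824, nat_lit 11908, nat_lit 9964, nat_lit 10288, nat_lit 10452] (nat_lit 0) [nat_lit 17010, nat_lit 3890] false,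
   Spec.mk (nat_lit 10452) (nat_lit 2) [nat_lit 6078, nat_lit 14826, nat_lit 11910, nat_lit 9966, nat_lit 10290, nat_lit 10458, nat_lit 10450] (nat_lit 0) [nat_lit 3892] false,
   Spec.mk (nat_lit 10458) (nat_lit 2) [nat_lit 6084, nat_lit 14832, nat_lit 11916, nat_lit 9972, nat_lit 10296, nat_lit 10476, nat_lit 10452] (nat_lit 0) [nat_lit 3898] false,
   Spec.mk (nat_lit 10476) (nat_lit 2) [nat_lit 6102, nat_lit 14850, nat_lit 11934, nat_lit 9990, nat_lit 10314, nat_lit 10530, nat_lit 10458] (nat_lit 0) [nat_lit 3916] false,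
   Spec.mk (nat_lit 10530) (nat_lit 3) [nat_lit 6156, nat_lit 14904, nat_lit 11988, nat_lit 10044, nat_lit 10368, nat_lit 10692, nat_lit 10476] (nat_lit 0) [nat_lit 3970] false,
   Spec.mk (nat_lit 10692) (nat_lit 4) [nat_lit 6318, nat_lit 15066, nat_lit 12150, nat_lit 10530] (nat_lit 0) [nat_lit 4132] false,
   Spec.mk (nat_lit 10940) (nat_lit 3) [nat_lit 15314, nat_lit 9482, nat_lit 10946, nat_lit 10942] (nat_lit 0) [nat_lit 17500] false,
   Spec.mk (nat_lit 10942) (nat_lit 2) [nat_lit 15316, nat_lit 9484, nat_lit 10948, nat_lit 10940] (nat_lit 0) [nat_lit 17502, nat_lit 4382] false,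
   Spec.mk (nat_lit 10946) (nat_lit 1) [nat_lit 15320, nat_lit 9488, nat_lit 10964, nat_lit 10940, nat_lit 10948] (nat_lit 0) [nat_lit 17506] false,
   Spec.mk (nat_lit 10948) (nat_lit 2) [nat_lit 15322, nat_lit 9490, nat_lit 10966, nat_lit 10942, nat_lit 10954, nat_lit 10946, nat_lit 10950] (nat_lit 0) [nat_lit 17508, nat_lit 4388] false,
   Spec.mk (nat_lit 10950) (nat_lit 1) [nat_lit 15324, nat_lit 9492, nat_lit 10968, nat_lit 10956, nat_lit 10948] (nat_lit 0) [nat_lit 4390] false,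
   Spec.mk (nat_lit 10954) (nat_lit 0) [nat_lit 15328, nat_lit 9496, nat_lit 10972, nat_lit 10948, nat_lit 10956] (nat_lit 0) [nat_lit 17514, nat_lit 4394] false,
   Spec.mk (nat_lit 10956) (nat_lit 1) [nat_lit 15330, nat_lit 9498, nat_lit 10974, nat_lit 10950, nat_lit 10954] (nat_lit 0) [nat_lit 4396] false,
   Spec.mk (nat_lit 10964) (nat_lit 1) [nat_lit 15338, nat_lit 9506, nat_lit 11018, nat_lit 10946, nat_lit 10966] (nat_lit 0) [nat_lit 17524] false,
   Spec.mk (nat_lit 10966) (nat_lit 1) [nat_lit 15340, nat_lit 9508, nat_lit 11020, nat_lit 10948, nat_lit 10972, nat_lit 10964, nat_lit 10968] (nat_lit 0) [nat_lit 17526, nat_lit 4406] false,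
   Spec.mk (nat_lit 10968) (nat_lit 0) [nat_lit 15342, nat_lit 9510, nat_lit 11022, nat_lit 10950, nat_lit 10974, nat_lit 10966] (nat_lit 1) [nat_lit 4408] false,
   Spec.mk (nat_lit 10972) (nat_lit 1) [nat_lit 15346, nat_lit 9514, nat_lit 11026, nat_lit 10954, nat_lit 10990, nat_lit 10966, nat_lit 10974] (nat_lit 0) [nat_lit 17532, nat_lit 4412] false,
   Spec.mk (nat_lit 10974) (nat_lit 1) [nat_lit 15348, nat_lit 9516, nat_lit 11028, nat_lit 10956, nat_lit 10992, nat_lit 10968, nat_lit 10980, nat_lit 10972] (nat_lit 0) [nat_lit 4414] false,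
   Spec.mk (nat_lit 10980) (nat_lit 1) [nat_lit 15354, nat_lit 9522, nat_lit 11034, nat_lit 10998, nat_lit 10974] (nat_lit 0) [nat_lit 4420] false,
   Spec.mk (nat_lit 10990) (nat_lit 0) [nat_lit 15364, nat_lit 9532, nat_lit 11044, nat_lit 10972, nat_lit 10992] (nat_lit 0) [nat_lit 17550, nat_lit 4430] false,
   Spec.mk (nat_lit 10992) (nat_lit 0) [nat_lit 15366, nat_lit 9534, nat_lit 11046, nat_lit 10974, nat_lit 10998, nat_lit 10990] (nat_lit 1) [nat_lit 4432] false,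
   Spec.mk (nat_lit 10998) (nat_lit 1) [nat_lit 15372, nat_lit 9540, nat_lit 11052, nat_lit 10980, nat_lit 10992] (nat_lit 0) [nat_lit 4438] false,
   Spec.mk (nat_lit 11018) (nat_lit 1) [nat_lit 15392, nat_lit 9560, nat_lit 11180, nat_lit 10964, nat_lit 11020] (nat_lit 0) [nat_lit 17578] false,
   Spec.mk (nat_lit 11020) (nat_lit 1) [nat_lit 15394, nat_lit 9562, nat_lit 11182, nat_lit 10966, nat_lit 11026, nat_lit 11018, nat_lit 11022] (nat_lit 0) [nat_lit 17580, nat_lit 4460] false,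
   Spec.mk (nat_lit 11022) (nat_lit 0) [nat_lit 15396, nat_lit 9564, nat_lit 11184, nat_lit 10968, nat_lit 11028, nat_lit 11020] (nat_lit 1) [nat_lit 4462] false,
   Spec.mk (nat_lit 11026) (nat_lit 0) [nat_lit 15400, nat_lit 9568, nat_lit 11188, nat_lit 10972, nat_lit 11044, nat_lit 11020, nat_lit 11028] (nat_lit 0) [nat_lit 17586, nat_lit 4466] false,
   Spec.mk (nat_lit 11028) (nat_lit 0) [nat_lit 15402, nat_lit 9570, nat_lit 11190, nat_lit 10974, nat_lit 11046, nat_lit 11022, nat_lit 11034, nat_lit 11026] (nat_lit 0) [nat_lit 4468] false,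
   Spec.mk (nat_lit 11034) (nat_lit 0) [nat_lit 15408, nat_lit 9576, nat_lit 11196, nat_lit 10980, nat_lit 11052, nat_lit 11028] (nat_lit 1) [nat_lit 4474] false,
   Spec.mk (nat_lit 11044) (nat_lit 1) [nat_lit 15418, nat_lit 9586, nat_lit 11206, nat_lit 10990, nat_lit 11098, nat_lit 11026, nat_lit 11046] (nat_lit 0) [nat_lit 17604, nat_lit 4484] false,
   Spec.mk (nat_lit 11046) (nat_lit 0) [nat_lit 15420, nat_lit 9588, nat_lit 11208, nat_lit 10992, nat_lit 11100, nat_lit 11028, nat_lit 11052, nat_lit 11044] (nat_lit 0) [nat_lit 4486] false,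
   Spec.mk (nat_lit 11052) (nat_lit 1) [nat_lit 15426, nat_lit 9594, nat_lit 11214, nat_lit 10998, nat_lit 11106, nat_lit 11034, nat_lit 11070, nat_lit 11046] (nat_lit 0) [nat_lit 4492] false,
   Spec.mk (nat_lit 11070) (nat_lit 1) [nat_lit 15444, nat_lit 9612, nat_lit 11232, nat_lit 11124, nat_lit 11052] (nat_lit 0) [nat_lit 4510] false,
   Spec.mk (nat_lit 11098) (nat_lit 0) [nat_lit 15472, nat_lit 9640, nat_lit 11260, nat_lit 11044, nat_lit 11100] (nat_lit 0) [nat_lit 17658, nat_lit 4538] false,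
   Spec.mk (nat_lit 11100) (nat_lit 0) [nat_lit 15474, nat_lit 9642, nat_lit 11262, nat_lit 11046, nat_lit 11106, nat_lit 11098] (nat_lit 1) [nat_lit 4540] false,
   Spec.mk (nat_lit 11106) (nat_lit 0) [nat_lit 15480, nat_lit 9648, nat_lit 11268, nat_lit 11052, nat_lit 11124, nat_lit 11100] (nat_lit 1) [nat_lit 4546] false,
   Spec.mk (nat_lit 11124) (nat_lit 1) [nat_lit 15498, nat_lit 9666, nat_lit 11286, nat_lit 11070, nat_lit 11106] (nat_lit 0) [nat_lit 4564] false,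
   Spec.mk (nat_lit 11180) (nat_lit 1) [nat_lit 15554, nat_lit 9722, nat_lit 11666, nat_lit 11018, nat_lit 11182] (nat_lit 0) [nat_lit 17740] false,
   Spec.mk (nat_lit 11182) (nat_lit 1) [nat_lit 15556, nat_lit 9724, nat_lit 11668, nat_lit 11020, nat_lit 11188, nat_lit 11180, nat_lit 11184] (nat_lit 0) [nat_lit 17742, nat_lit 4622] false,
   Spec.mk (nat_lit 11184) (nat_lit 0) [nat_lit 15558, nat_lit 9726, nat_lit 11670, nat_lit 11022, nat_lit 11190, nat_lit 11182] (nat_lit 1) [nat_lit 4624] false,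
   Spec.mk (nat_lit 11188) (nat_lit 0) [nat_lit 15562, nat_lit 9730, nat_lit 11674, nat_lit 11026, nat_lit 11206, nat_lit 11182, nat_lit 11190] (nat_lit 0) [nat_lit 17748, nat_lit 4628] false,
   Spec.mk (nat_lit 11190) (nat_lit 0) [nat_lit 15564, nat_lit 9732, nat_lit 11676, nat_lit 11028, nat_lit 11208, nat_lit 11184, nat_lit 11196, nat_lit 11188] (nat_lit 0) [nat_lit 4630] false,
   Spec.mk (nat_lit 11196) (nat_lit 0) [nat_lit 15570, nat_lit 9738, nat_lit 11682, nat_lit 11034, nat_lit 11214, nat_lit 11190] (nat_lit 1) [nat_lit 4636] false,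
   Spec.mk (nat_lit 11206) (nat_lit 0) [nat_lit 15580, nat_lit 9748, nat_lit 11692, nat_lit 11044, nat_lit 11260, nat_lit 11188, nat_lit 11208] (nat_lit 0) [nat_lit 17766, nat_lit 4646] false,
   Spec.mk (nat_lit 11208) (nat_lit 0) [nat_lit 15582, nat_lit 9750, nat_lit 11694, nat_lit 11046, nat_lit 11262, nat_lit 11190, nat_lit 11214, nat_lit 11206] (nat_lit 1) [nat_lit 4648] false,
   Spec.mk (nat_lit 11214) (nat_lit 0) [nat_lit 15588, nat_lit 9756, nat_lit 11700, nat_lit 11052, nat_lit 11268, nat_lit 11196, nat_lit 11232, nat_lit 11208] (nat_lit 0) [nat_lit 4654] false,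
   Spec.mk (nat_lit 11232) (nat_lit 0) [nat_lit 15606, nat_lit 9774, nat_lit 11718, nat_lit 11070, nat_lit 11286, nat_lit 11214] (nat_lit 1) [nat_lit 4672] false,
   Spec.mk (nat_lit 11260) (nat_lit 1) [nat_lit 15634, nat_lit 9802, nat_lit 11746, nat_lit 11098, nat_lit 11422, nat_lit 11206, nat_lit 11262] (nat_lit 0) [nat_lit 17820, nat_lit 4700] false,
   Spec.mk (nat_lit 11262) (nat_lit 0) [nat_lit 15636, nat_lit 9804, nat_lit 11748, nat_lit 11100, nat_lit 11424, nat_lit 11208, nat_lit 11268, nat_lit 11260] (nat_lit 0) [nat_lit 4702] false,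
   Spec.mk (nat_lit 11268) (nat_lit 0) [nat_lit 15642, nat_lit 9810, nat_lit 11754, nat_lit 11106, nat_lit 11430, nat_lit 11214, nat_lit 11286, nat_lit 11262] (nat_lit 0) [nat_lit 4708] false,
   Spec.mk (nat_lit 11286) (nat_lit 1) [nat_lit 15660, nat_lit 9828, nat_lit 11772, nat_lit 11124, nat_lit 11448, nat_lit 11232, nat_lit 11340, nat_lit 11268] (nat_lit 0) [nat_lit 4726] false,
   Spec.mk (nat_lit 11340) (nat_lit 1) [nat_lit 15714, nat_lit 9882, nat_lit 11826, nat_lit 11502, nat_lit 11286] (nat_lit 0) [nat_lit 4780] false,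
   Spec.mk (nat_lit 11422) (nat_lit 0) [nat_lit 15796, nat_lit 9964, nat_lit 11908, nat_lit 11260, nat_lit 11424] (nat_lit 0) [nat_lit 17982, nat_lit 4862] false,
   Spec.mk (nat_lit 11424) (nat_lit 0) [nat_lit 15798, nat_lit 9966, nat_lit 11910, nat_lit 11262, nat_lit 11430, nat_lit 11422] (nat_lit 1) [nat_lit 4864] false,
   Spec.mk (nat_lit 11430) (nat_lit 0) [nat_lit 15804, nat_lit 9972, nat_lit 11916, nat_lit 11268, nat_lit 11448, nat_lit 11424] (nat_lit 1) [nat_lit 4870] false,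
   Spec.mk (nat_lit 11448) (nat_lit 0) [nat_lit 15822, nat_lit 9990, nat_lit 11934, nat_lit 11286, nat_lit 11502, nat_lit 11430] (nat_lit 1) [nat_lit 4888] false]

noncomputable def sp21 : List Spec :=
  [Spec.mk (nat_lit 11502) (nat_lit 1) [nat_lit 15876, nat_lit 10044, nat_lit 11988, nat_lit 11340, nat_lit 11448] (nat_lit 0) [nat_lit 4942] false,
   Spec.mk (nat_lit 11666) (nat_lit 3) [nat_lit 16040, nat_lit 10208, nat_lit 11180, nat_lit 11668] (nat_lit 0) [nat_lit 18226] false,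
   Spec.mk (nat_lit 11668) (nat_lit 3) [nat_lit 16042, nat_lit 10210, nat_lit 11182, nat_lit 11674, nat_lit 11666, nat_lit 11670] (nat_lit 0) [nat_lit 18228, nat_lit 5108] false,
   Spec.mk (nat_lit 11670) (nat_lit 1) [nat_lit 16044, nat_lit 10212, nat_lit 11184, nat_lit 11676, nat_lit 11668] (nat_lit 0) [nat_lit 5110] false,
   Spec.mk (nat_lit 11674) (nat_lit 2) [nat_lit 16048, nat_lit 10216, nat_lit 11188, nat_lit 11692, nat_lit 11668, nat_lit 11676] (nat_lit 0) [nat_lit 18234, nat_lit 5114] false,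
   Spec.mk (nat_lit 11676) (nat_lit 2) [nat_lit 16050, nat_lit 10218, nat_lit 11190, nat_lit 11694, nat_lit 11670, nat_lit 11682, nat_lit 11674] (nat_lit 0) [nat_lit 5116] false,
   Spec.mk (nat_lit 11682) (nat_lit 1) [nat_lit 16056, nat_lit 10224, nat_lit 11196, nat_lit 11700, nat_lit 11676] (nat_lit 0) [nat_lit 5122] false,
   Spec.mk (nat_lit 11692) (nat_lit 2) [nat_lit 16066, nat_lit 10234, nat_lit 11206, nat_lit 11746, nat_lit 11674, nat_lit 11694] (nat_lit 0) [nat_lit 18252, nat_lit 5132] false,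
   Spec.mk (nat_lit 11694) (nat_lit 1) [nat_lit 16068, nat_lit 10236, nat_lit 11208, nat_lit 11748, nat_lit 11676, nat_lit 11700, nat_lit 11692] (nat_lit 0) [nat_lit 5134] false,
   Spec.mk (nat_lit 11700) (nat_lit 2) [nat_lit 16074, nat_lit 10242, nat_lit 11214, nat_lit 11754, nat_lit 11682, nat_lit 11718, nat_lit 11694] (nat_lit 0) [nat_lit 5140] false,
   Spec.mk (nat_lit 11718) (nat_lit 1) [nat_lit 16092, nat_lit 10260, nat_lit 11232, nat_lit 11772, nat_lit 11700] (nat_lit 0) [nat_lit 5158] false,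
   Spec.mk (nat_lit 11746) (nat_lit 2) [nat_lit 16120, nat_lit 10288, nat_lit 11260, nat_lit 11908, nat_lit 11692, nat_lit 11748] (nat_lit 0) [nat_lit 18306, nat_lit 5186] false,
   Spec.mk (nat_lit 11748) (nat_lit 1) [nat_lit 16122, nat_lit 10290, nat_lit 11262, nat_lit 11910, nat_lit 11694, nat_lit 11754, nat_lit 11746] (nat_lit 0) [nat_lit 5188] false,
   Spec.mk (nat_lit 11754) (nat_lit 1) [nat_lit 16128, nat_lit 10296, nat_lit 11268, nat_lit 11916, nat_lit 11700, nat_lit 11772, nat_lit 11748] (nat_lit 0) [nat_lit 5194] false,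
   Spec.mk (nat_lit 11772) (nat_lit 2) [nat_lit 16146, nat_lit 10314, nat_lit 11286, nat_lit 11934, nat_lit 11718, nat_lit 11826, nat_lit 11754] (nat_lit 0) [nat_lit 5212] false,
   Spec.mk (nat_lit 11826) (nat_lit 1) [nat_lit 16200, nat_lit 10368, nat_lit 11340, nat_lit 11988, nat_lit 11772] (nat_lit 0) [nat_lit 5266] false,
   Spec.mk (nat_lit 11908) (nat_lit 3) [nat_lit 16282, nat_lit 10450, nat_lit 11422, nat_lit 12394, nat_lit 11746, nat_lit 11910] (nat_lit 0) [nat_lit 18468, nat_lit 5348] false,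
   Spec.mk (nat_lit 11910) (nat_lit 2) [nat_lit 16284, nat_lit 10452, nat_lit 11424, nat_lit 12396, nat_lit 11748, nat_lit 11916, nat_lit 11908] (nat_lit 0) [nat_lit 5350] false,
   Spec.mk (nat_lit 11916) (nat_lit 2) [nat_lit 16290, nat_lit 10458, nat_lit 11430, nat_lit 12402, nat_lit 11754, nat_lit 11934, nat_lit 11910] (nat_lit 0) [nat_lit 5356] false,
   Spec.mk (nat_lit 11934) (nat_lit 2) [nat_lit 16308, nat_lit 10476, nat_lit 11448, nat_lit 12420, nat_lit 11772, nat_lit 11988, nat_lit 11916] (nat_lit 0) [nat_lit 5374] false,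
   Spec.mk (nat_lit 11988) (nat_lit 3) [nat_lit 16362, nat_lit 10530, nat_lit 11502, nat_lit 12474, nat_lit 11826, nat_lit 12150, nat_lit 11934] (nat_lit 0) [nat_lit 5428] false,
   Spec.mk (nat_lit 12150) (nat_lit 3) [nat_lit 16524, nat_lit 10692, nat_lit 12636, nat_lit 11988] (nat_lit 0) [nat_lit 5590] false,
   Spec.mk (nat_lit 12394) (nat_lit 4) [nat_lit 16768, nat_lit 11908, nat_lit 12396] (nat_lit 0) [nat_lit 18954, nat_lit 5834] false,
   Spec.mk (nat_lit 12396) (nat_lit 3) [nat_lit 16770, nat_lit 11910, nat_lit 12402, nat_lit 12394] (nat_lit 0) [nat_lit 5836] false,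
   Spec.mk (nat_lit 12402) (nat_lit 3) [nat_lit 16776, nat_lit 11916, nat_lit 12420, nat_lit 12396] (nat_lit 0) [nat_lit 5842] false,
   Spec.mk (nat_lit 12420) (nat_lit 3) [nat_lit 16794, nat_lit 11934, nat_lit 12474, nat_lit 12402] (nat_lit 0) [nat_lit 5860] false,
   Spec.mk (nat_lit 12474) (nat_lit 3) [nat_lit 16848, nat_lit 11988, nat_lit 12636, nat_lit 12420] (nat_lit 0) [nat_lit 5914] false,
   Spec.mk (nat_lit 12636) (nat_lit 5) [nat_lit 17010, nat_lit 12150, nat_lit 12474] (nat_lit 0) [nat_lit 6076] false,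
   Spec.mk (nat_lit 13130) (nat_lit 5) [nat_lit 8756, nat_lit 13136] (nat_lit 0) [] false,
   Spec.mk (nat_lit 13136) (nat_lit 4) [nat_lit 8762, nat_lit 13154, nat_lit 13130, nat_lit 13142, nat_lit 13138] (nat_lit 0) [] false,
   Spec.mk (nat_lit 13138) (nat_lit 3) [nat_lit 8764, nat_lit 13156, nat_lit 13144, nat_lit 13136] (nat_lit 0) [nat_lit 6578] false,
   Spec.mk (nat_lit 13142) (nat_lit 1) [nat_lit 8768, nat_lit 13160, nat_lit 13136, nat_lit 13144] (nat_lit 0) [] false,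
   Spec.mk (nat_lit 13144) (nat_lit 2) [nat_lit 8770, nat_lit 13162, nat_lit 13138, nat_lit 13142, nat_lit 13146] (nat_lit 0) [nat_lit 6584] false,
   Spec.mk (nat_lit 13146) (nat_lit 1) [nat_lit 8772, nat_lit 13164, nat_lit 13144] (nat_lit 0) [nat_lit 6586] false,
   Spec.mk (nat_lit 13154) (nat_lit 3) [nat_lit 8780, nat_lit 13208, nat_lit 13136, nat_lit 13160, nat_lit 13156] (nat_lit 0) [] false,
   Spec.mk (nat_lit 13156) (nat_lit 1) [nat_lit 8782, nat_lit 13210, nat_lit 13138, nat_lit 13162, nat_lit 13154] (nat_lit 0) [nat_lit 6596] false,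
   Spec.mk (nat_lit 13160) (nat_lit 2) [nat_lit 8786, nat_lit 13214, nat_lit 13142, nat_lit 13178, nat_lit 13154, nat_lit 13162] (nat_lit 0) [] false,
   Spec.mk (nat_lit 13162) (nat_lit 2) [nat_lit 8788, nat_lit 13216, nat_lit 13144, nat_lit 13180, nat_lit 13156, nat_lit 13168, nat_lit 13160, nat_lit 13164] (nat_lit 0) [nat_lit 6602] false,
   Spec.mk (nat_lit 13164) (nat_lit 0) [nat_lit 8790, nat_lit 13218, nat_lit 13146, nat_lit 13182, nat_lit 13170, nat_lit 13162] (nat_lit 0) [nat_lit 6604] false,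
   Spec.mk (nat_lit 13168) (nat_lit 1) [nat_lit 8794, nat_lit 13222, nat_lit 13186, nat_lit 13162, nat_lit 13170] (nat_lit 0) [nat_lit 6608] false,
   Spec.mk (nat_lit 13170) (nat_lit 1) [nat_lit 8796, nat_lit 13224, nat_lit 13188, nat_lit 13164, nat_lit 13168] (nat_lit 0) [nat_lit 6610] false,
   Spec.mk (nat_lit 13178) (nat_lit 1) [nat_lit 8804, nat_lit 13232, nat_lit 13160, nat_lit 13180] (nat_lit 0) [] false,
   Spec.mk (nat_lit 13180) (nat_lit 0) [nat_lit 8806, nat_lit 13234, nat_lit 13162, nat_lit 13186, nat_lit 13178, nat_lit 13182] (nat_lit 0) [nat_lit 6620] false,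
   Spec.mk (nat_lit 13182) (nat_lit 0) [nat_lit 8808, nat_lit 13236, nat_lit 13164, nat_lit 13188, nat_lit 13180] (nat_lit 3) [nat_lit 6622] false,
   Spec.mk (nat_lit 13186) (nat_lit 1) [nat_lit 8812, nat_lit 13240, nat_lit 13168, nat_lit 13180, nat_lit 13188] (nat_lit 0) [nat_lit 6626] false,
   Spec.mk (nat_lit 13188) (nat_lit 0) [nat_lit 8814, nat_lit 13242, nat_lit 13170, nat_lit 13182, nat_lit 13194, nat_lit 13186] (nat_lit 0) [nat_lit 6628] false,
   Spec.mk (nat_lit 13194) (nat_lit 1) [nat_lit 8820, nat_lit 13248, nat_lit 13188] (nat_lit 0) [nat_lit 6634] false,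
   Spec.mk (nat_lit 13208) (nat_lit 3) [nat_lit 8834, nat_lit 13370, nat_lit 13154, nat_lit 13214, nat_lit 13210] (nat_lit 0) [] false,
   Spec.mk (nat_lit 13210) (nat_lit 1) [nat_lit 8836, nat_lit 13372, nat_lit 13156, nat_lit 13216, nat_lit 13208] (nat_lit 0) [nat_lit 6650] false,
   Spec.mk (nat_lit 13214) (nat_lit 1) [nat_lit 8840, nat_lit 13376, nat_lit 13160, nat_lit 13232, nat_lit 13208, nat_lit 13216] (nat_lit 0) [] false,
   Spec.mk (nat_lit 13216) (nat_lit 1) [nat_lit 8842, nat_lit 13378, nat_lit 13162, nat_lit 13234, nat_lit 13210, nat_lit 13222, nat_lit 13214, nat_lit 13218] (nat_lit 0) [nat_lit 6656] false,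
   Spec.mk (nat_lit 13218) (nat_lit 0) [nat_lit 8844, nat_lit 13380, nat_lit 13164, nat_lit 13236, nat_lit 13224, nat_lit 13216] (nat_lit 1) [nat_lit 6658] false,
   Spec.mk (nat_lit 13222) (nat_lit 0) [nat_lit 8848, nat_lit 13384, nat_lit 13168, nat_lit 13240, nat_lit 13216, nat_lit 13224] (nat_lit 1) [nat_lit 6662] false,
   Spec.mk (nat_lit 13224) (nat_lit 0) [nat_lit 8850, nat_lit 13386, nat_lit 13170, nat_lit 13242, nat_lit 13218, nat_lit 13222] (nat_lit 1) [nat_lit 6664] false,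
   Spec.mk (nat_lit 13232) (nat_lit 2) [nat_lit 8858, nat_lit 13394, nat_lit 13178, nat_lit 13286, nat_lit 13214, nat_lit 13234] (nat_lit 0) [] false,
   Spec.mk (nat_lit 13234) (nat_lit 1) [nat_lit 8860, nat_lit 13396, nat_lit 13180, nat_lit 13288, nat_lit 13216, nat_lit 13240, nat_lit 13232, nat_lit 13236] (nat_lit 0) [nat_lit 6674] false,
   Spec.mk (nat_lit 13236) (nat_lit 0) [nat_lit 8862, nat_lit 13398, nat_lit 13182, nat_lit 13290, nat_lit 13218, nat_lit 13242, nat_lit 13234] (nat_lit 2) [nat_lit 6676] false,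
   Spec.mk (nat_lit 13240) (nat_lit 1) [nat_lit 8866, nat_lit 13402, nat_lit 13186, nat_lit 13294, nat_lit 13222, nat_lit 13258, nat_lit 13234, nat_lit 13242] (nat_lit 0) [nat_lit 6680] false,
   Spec.mk (nat_lit 13242) (nat_lit 0) [nat_lit 8868, nat_lit 13404, nat_lit 13188, nat_lit 13296, nat_lit 13224, nat_lit 13260, nat_lit 13236, nat_lit 13248, nat_lit 13240] (nat_lit 0) [nat_lit 6682] false,
   Spec.mk (nat_lit 13248) (nat_lit 0) [nat_lit 8874, nat_lit 13410, nat_lit 13194, nat_lit 13302, nat_lit 13266, nat_lit 13242] (nat_lit 0) [nat_lit 6688] false]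

noncomputable def sp22 : List Spec :=
  [Spec.mk (nat_lit 13258) (nat_lit 1) [nat_lit 8884, nat_lit 13420, nat_lit 13312, nat_lit 13240, nat_lit 13260] (nat_lit 0) [nat_lit 6698] false,
   Spec.mk (nat_lit 13260) (nat_lit 0) [nat_lit 8886, nat_lit 13422, nat_lit 13314, nat_lit 13242, nat_lit 13266, nat_lit 13258] (nat_lit 1) [nat_lit 6700] false,
   Spec.mk (nat_lit 13266) (nat_lit 1) [nat_lit 8892, nat_lit 13428, nat_lit 13320, nat_lit 13248, nat_lit 13260] (nat_lit 0) [nat_lit 6706] false,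
   Spec.mk (nat_lit 13286) (nat_lit 1) [nat_lit 8912, nat_lit 13448, nat_lit 13232, nat_lit 13288] (nat_lit 0) [] false,
   Spec.mk (nat_lit 13288) (nat_lit 0) [nat_lit 8914, nat_lit 13450, nat_lit 13234, nat_lit 13294, nat_lit 13286, nat_lit 13290] (nat_lit 0) [nat_lit 6728] false,
   Spec.mk (nat_lit 13290) (nat_lit 0) [nat_lit 8916, nat_lit 13452, nat_lit 13236, nat_lit 13296, nat_lit 13288] (nat_lit 3) [nat_lit 6730] false,
   Spec.mk (nat_lit 13294) (nat_lit 0) [nat_lit 8920, nat_lit 13456, nat_lit 13240, nat_lit 13312, nat_lit 13288, nat_lit 13296] (nat_lit 1) [nat_lit 6734] false,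
   Spec.mk (nat_lit 13296) (nat_lit 0) [nat_lit 8922, nat_lit 13458, nat_lit 13242, nat_lit 13314, nat_lit 13290, nat_lit 13302, nat_lit 13294] (nat_lit 2) [nat_lit 6736] false,
   Spec.mk (nat_lit 13302) (nat_lit 0) [nat_lit 8928, nat_lit 13464, nat_lit 13248, nat_lit 13320, nat_lit 13296] (nat_lit 3) [nat_lit 6742] false,
   Spec.mk (nat_lit 13312) (nat_lit 1) [nat_lit 8938, nat_lit 13474, nat_lit 13258, nat_lit 13294, nat_lit 13314] (nat_lit 0) [nat_lit 6752] false,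
   Spec.mk (nat_lit 13314) (nat_lit 0) [nat_lit 8940, nat_lit 13476, nat_lit 13260, nat_lit 13296, nat_lit 13320, nat_lit 13312] (nat_lit 1) [nat_lit 6754] false,
   Spec.mk (nat_lit 13320) (nat_lit 0) [nat_lit 8946, nat_lit 13482, nat_lit 13266, nat_lit 13302, nat_lit 13338, nat_lit 13314] (nat_lit 0) [nat_lit 6760] false,
   Spec.mk (nat_lit 13338) (nat_lit 1) [nat_lit 8964, nat_lit 13500, nat_lit 13320] (nat_lit 0) [nat_lit 6778] false,
   Spec.mk (nat_lit 13370) (nat_lit 3) [nat_lit 8996, nat_lit 13856, nat_lit 13208, nat_lit 13376, nat_lit 13372] (nat_lit 0) [] false,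
   Spec.mk (nat_lit 13372) (nat_lit 1) [nat_lit 8998, nat_lit 13858, nat_lit 13210, nat_lit 13378, nat_lit 13370] (nat_lit 0) [nat_lit 6812] false,
   Spec.mk (nat_lit 13376) (nat_lit 1) [nat_lit 9002, nat_lit 13862, nat_lit 13214, nat_lit 13394, nat_lit 13370, nat_lit 13378] (nat_lit 0) [] false,
   Spec.mk (nat_lit 13378) (nat_lit 1) [nat_lit 9004, nat_lit 13864, nat_lit 13216, nat_lit 13396, nat_lit 13372, nat_lit 13384, nat_lit 13376, nat_lit 13380] (nat_lit 0) [nat_lit 6818] false,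
   Spec.mk (nat_lit 13380) (nat_lit 0) [nat_lit 9006, nat_lit 13866, nat_lit 13218, nat_lit 13398, nat_lit 13386, nat_lit 13378] (nat_lit 1) [nat_lit 6820] false,
   Spec.mk (nat_lit 13384) (nat_lit 0) [nat_lit 9010, nat_lit 13870, nat_lit 13222, nat_lit 13402, nat_lit 13378, nat_lit 13386] (nat_lit 1) [nat_lit 6824] false,
   Spec.mk (nat_lit 13386) (nat_lit 0) [nat_lit 9012, nat_lit 13872, nat_lit 13224, nat_lit 13404, nat_lit 13380, nat_lit 13384] (nat_lit 1) [nat_lit 6826] false,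
   Spec.mk (nat_lit 13394) (nat_lit 1) [nat_lit 9020, nat_lit 13880, nat_lit 13232, nat_lit 13448, nat_lit 13376, nat_lit 13396] (nat_lit 0) [] false,
   Spec.mk (nat_lit 13396) (nat_lit 0) [nat_lit 9022, nat_lit 13882, nat_lit 13234, nat_lit 13450, nat_lit 13378, nat_lit 13402, nat_lit 13394, nat_lit 13398] (nat_lit 0) [nat_lit 6836] false,
   Spec.mk (nat_lit 13398) (nat_lit 0) [nat_lit 9024, nat_lit 13884, nat_lit 13236, nat_lit 13452, nat_lit 13380, nat_lit 13404, nat_lit 13396] (nat_lit 3) [nat_lit 6838] false,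
   Spec.mk (nat_lit 13402) (nat_lit 0) [nat_lit 9028, nat_lit 13888, nat_lit 13240, nat_lit 13456, nat_lit 13384, nat_lit 13420, nat_lit 13396, nat_lit 13404] (nat_lit 0) [nat_lit 6842] false,
   Spec.mk (nat_lit 13404) (nat_lit 0) [nat_lit 9030, nat_lit 13890, nat_lit 13242, nat_lit 13458, nat_lit 13386, nat_lit 13422, nat_lit 13398, nat_lit 13410, nat_lit 13402] (nat_lit 1) [nat_lit 6844] false,
   Spec.mk (nat_lit 13410) (nat_lit 0) [nat_lit 9036, nat_lit 13896, nat_lit 13248, nat_lit 13464, nat_lit 13428, nat_lit 13404] (nat_lit 1) [nat_lit 6850] false,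
   Spec.mk (nat_lit 13420) (nat_lit 0) [nat_lit 9046, nat_lit 13906, nat_lit 13258, nat_lit 13474, nat_lit 13402, nat_lit 13422] (nat_lit 1) [nat_lit 6860] false,
   Spec.mk (nat_lit 13422) (nat_lit 0) [nat_lit 9048, nat_lit 13908, nat_lit 13260, nat_lit 13476, nat_lit 13404, nat_lit 13428, nat_lit 13420] (nat_lit 3) [nat_lit 6862] false,
   Spec.mk (nat_lit 13428) (nat_lit 0) [nat_lit 9054, nat_lit 13914, nat_lit 13266, nat_lit 13482, nat_lit 13410, nat_lit 13422] (nat_lit 1) [nat_lit 6868] false,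
   Spec.mk (nat_lit 13448) (nat_lit 2) [nat_lit 9074, nat_lit 13934, nat_lit 13286, nat_lit 13610, nat_lit 13394, nat_lit 13450] (nat_lit 0) [] false,
   Spec.mk (nat_lit 13450) (nat_lit 1) [nat_lit 9076, nat_lit 13936, nat_lit 13288, nat_lit 13612, nat_lit 13396, nat_lit 13456, nat_lit 13448, nat_lit 13452] (nat_lit 0) [nat_lit 6890] false,
   Spec.mk (nat_lit 13452) (nat_lit 0) [nat_lit 9078, nat_lit 13938, nat_lit 13290, nat_lit 13614, nat_lit 13398, nat_lit 13458, nat_lit 13450] (nat_lit 2) [nat_lit 6892] false,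
   Spec.mk (nat_lit 13456) (nat_lit 0) [nat_lit 9082, nat_lit 13942, nat_lit 13294, nat_lit 13618, nat_lit 13402, nat_lit 13474, nat_lit 13450, nat_lit 13458] (nat_lit 0) [nat_lit 6896] false,
   Spec.mk (nat_lit 13458) (nat_lit 0) [nat_lit 9084, nat_lit 13944, nat_lit 13296, nat_lit 13620, nat_lit 13404, nat_lit 13476, nat_lit 13452, nat_lit 13464, nat_lit 13456] (nat_lit 1) [nat_lit 6898] false,
   Spec.mk (nat_lit 13464) (nat_lit 0) [nat_lit 9090, nat_lit 13950, nat_lit 13302, nat_lit 13626, nat_lit 13410, nat_lit 13482, nat_lit 13458] (nat_lit 2) [nat_lit 6904] false,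
   Spec.mk (nat_lit 13474) (nat_lit 1) [nat_lit 9100, nat_lit 13960, nat_lit 13312, nat_lit 13636, nat_lit 13420, nat_lit 13528, nat_lit 13456, nat_lit 13476] (nat_lit 0) [nat_lit 6914] false,
   Spec.mk (nat_lit 13476) (nat_lit 0) [nat_lit 9102, nat_lit 13962, nat_lit 13314, nat_lit 13638, nat_lit 13422, nat_lit 13530, nat_lit 13458, nat_lit 13482, nat_lit 13474] (nat_lit 1) [nat_lit 6916] false,
   Spec.mk (nat_lit 13482) (nat_lit 0) [nat_lit 9108, nat_lit 13968, nat_lit 13320, nat_lit 13644, nat_lit 13428, nat_lit 13536, nat_lit 13464, nat_lit 13500, nat_lit 13476] (nat_lit 0) [nat_lit 6922] false,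
   Spec.mk (nat_lit 13500) (nat_lit 0) [nat_lit 9126, nat_lit 13986, nat_lit 13338, nat_lit 13662, nat_lit 13554, nat_lit 13482] (nat_lit 0) [nat_lit 6940] false,
   Spec.mk (nat_lit 13528) (nat_lit 1) [nat_lit 9154, nat_lit 14014, nat_lit 13690, nat_lit 13474, nat_lit 13530] (nat_lit 0) [nat_lit 6968] false,
   Spec.mk (nat_lit 13530) (nat_lit 0) [nat_lit 9156, nat_lit 14016, nat_lit 13692, nat_lit 13476, nat_lit 13536, nat_lit 13528] (nat_lit 1) [nat_lit 6970] false,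
   Spec.mk (nat_lit 13536) (nat_lit 0) [nat_lit 9162, nat_lit 14022, nat_lit 13698, nat_lit 13482, nat_lit 13554, nat_lit 13530] (nat_lit 1) [nat_lit 6976] false,
   Spec.mk (nat_lit 13554) (nat_lit 1) [nat_lit 9180, nat_lit 14040, nat_lit 13716, nat_lit 13500, nat_lit 13536] (nat_lit 0) [nat_lit 6994] false,
   Spec.mk (nat_lit 13610) (nat_lit 1) [nat_lit 9236, nat_lit 14096, nat_lit 13448, nat_lit 13612] (nat_lit 0) [] false,
   Spec.mk (nat_lit 13612) (nat_lit 0) [nat_lit 9238, nat_lit 14098, nat_lit 13450, nat_lit 13618, nat_lit 13610, nat_lit 13614] (nat_lit 0) [nat_lit 7052] false,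
   Spec.mk (nat_lit 13614) (nat_lit 0) [nat_lit 9240, nat_lit 14100, nat_lit 13452, nat_lit 13620, nat_lit 13612] (nat_lit 3) [nat_lit 7054] false,
   Spec.mk (nat_lit 13618) (nat_lit 0) [nat_lit 9244, nat_lit 14104, nat_lit 13456, nat_lit 13636, nat_lit 13612, nat_lit 13620] (nat_lit 1) [nat_lit 7058] false,
   Spec.mk (nat_lit 13620) (nat_lit 0) [nat_lit 9246, nat_lit 14106, nat_lit 13458, nat_lit 13638, nat_lit 13614, nat_lit 13626, nat_lit 13618] (nat_lit 2) [nat_lit 7060] false,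
   Spec.mk (nat_lit 13626) (nat_lit 0) [nat_lit 9252, nat_lit 14112, nat_lit 13464, nat_lit 13644, nat_lit 13620] (nat_lit 3) [nat_lit 7066] false,
   Spec.mk (nat_lit 13636) (nat_lit 0) [nat_lit 9262, nat_lit 14122, nat_lit 13474, nat_lit 13690, nat_lit 13618, nat_lit 13638] (nat_lit 1) [nat_lit 7076] false,
   Spec.mk (nat_lit 13638) (nat_lit 0) [nat_lit 9264, nat_lit 14124, nat_lit 13476, nat_lit 13692, nat_lit 13620, nat_lit 13644, nat_lit 13636] (nat_lit 3) [nat_lit 7078] false,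
   Spec.mk (nat_lit 13644) (nat_lit 0) [nat_lit 9270, nat_lit 14130, nat_lit 13482, nat_lit 13698, nat_lit 13626, nat_lit 13662, nat_lit 13638] (nat_lit 2) [nat_lit 7084] false,
   Spec.mk (nat_lit 13662) (nat_lit 0) [nat_lit 9288, nat_lit 14148, nat_lit 13500, nat_lit 13716, nat_lit 13644] (nat_lit 3) [nat_lit 7102] false,
   Spec.mk (nat_lit 13690) (nat_lit 1) [nat_lit 9316, nat_lit 14176, nat_lit 13528, nat_lit 13636, nat_lit 13692] (nat_lit 0) [nat_lit 7130] false,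
   Spec.mk (nat_lit 13692) (nat_lit 0) [nat_lit 9318, nat_lit 14178, nat_lit 13530, nat_lit 13638, nat_lit 13698, nat_lit 13690] (nat_lit 1) [nat_lit 7132] false,
   Spec.mk (nat_lit 13698) (nat_lit 0) [nat_lit 9324, nat_lit 14184, nat_lit 13536, nat_lit 13644, nat_lit 13716, nat_lit 13692] (nat_lit 1) [nat_lit 7138] false,
   Spec.mk (nat_lit 13716) (nat_lit 0) [nat_lit 9342, nat_lit 14202, nat_lit 13554, nat_lit 13662, nat_lit 13770, nat_lit 13698] (nat_lit 0) [nat_lit 7156] false,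
   Spec.mk (nat_lit 13770) (nat_lit 1) [nat_lit 9396, nat_lit 14256, nat_lit 13716] (nat_lit 0) [nat_lit 7210] false,
   Spec.mk (nat_lit 13856) (nat_lit 3) [nat_lit 9482, nat_lit 15314, nat_lit 13370, nat_lit 13862, nat_lit 13858] (nat_lit 0) [] false,
   Spec.mk (nat_lit 13858) (nat_lit 1) [nat_lit 9484, nat_lit 15316, nat_lit 13372, nat_lit 13864, nat_lit 13856] (nat_lit 0) [nat_lit 7298] false]

noncomputable def sp23 : List Spec :=
  [Spec.mk (nat_lit 13862) (nat_lit 1) [nat_lit 9488, nat_lit 15320, nat_lit 13376, nat_lit 13880, nat_lit 13856, nat_lit 13864] (nat_lit 0) [] false,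
   Spec.mk (nat_lit 13864) (nat_lit 1) [nat_lit 9490, nat_lit 15322, nat_lit 13378, nat_lit 13882, nat_lit 13858, nat_lit 13870, nat_lit 13862, nat_lit 13866] (nat_lit 0) [nat_lit 7304] false,
   Spec.mk (nat_lit 13866) (nat_lit 0) [nat_lit 9492, nat_lit 15324, nat_lit 13380, nat_lit 13884, nat_lit 13872, nat_lit 13864] (nat_lit 1) [nat_lit 7306] false,
   Spec.mk (nat_lit 13870) (nat_lit 0) [nat_lit 9496, nat_lit 15328, nat_lit 13384, nat_lit 13888, nat_lit 13864, nat_lit 13872] (nat_lit 1) [nat_lit 7310] false,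
   Spec.mk (nat_lit 13872) (nat_lit 0) [nat_lit 9498, nat_lit 15330, nat_lit 13386, nat_lit 13890, nat_lit 13866, nat_lit 13870] (nat_lit 1) [nat_lit 7312] false,
   Spec.mk (nat_lit 13880) (nat_lit 1) [nat_lit 9506, nat_lit 15338, nat_lit 13394, nat_lit 13934, nat_lit 13862, nat_lit 13882] (nat_lit 0) [] false,
   Spec.mk (nat_lit 13882) (nat_lit 0) [nat_lit 9508, nat_lit 15340, nat_lit 13396, nat_lit 13936, nat_lit 13864, nat_lit 13888, nat_lit 13880, nat_lit 13884] (nat_lit 0) [nat_lit 7322] false,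
   Spec.mk (nat_lit 13884) (nat_lit 0) [nat_lit 9510, nat_lit 15342, nat_lit 13398, nat_lit 13938, nat_lit 13866, nat_lit 13890, nat_lit 13882] (nat_lit 3) [nat_lit 7324] false,
   Spec.mk (nat_lit 13888) (nat_lit 0) [nat_lit 9514, nat_lit 15346, nat_lit 13402, nat_lit 13942, nat_lit 13870, nat_lit 13906, nat_lit 13882, nat_lit 13890] (nat_lit 0) [nat_lit 7328] false,
   Spec.mk (nat_lit 13890) (nat_lit 0) [nat_lit 9516, nat_lit 15348, nat_lit 13404, nat_lit 13944, nat_lit 13872, nat_lit 13908, nat_lit 13884, nat_lit 13896, nat_lit 13888] (nat_lit 1) [nat_lit 7330] false,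
   Spec.mk (nat_lit 13896) (nat_lit 0) [nat_lit 9522, nat_lit 15354, nat_lit 13410, nat_lit 13950, nat_lit 13914, nat_lit 13890] (nat_lit 1) [nat_lit 7336] false,
   Spec.mk (nat_lit 13906) (nat_lit 0) [nat_lit 9532, nat_lit 15364, nat_lit 13420, nat_lit 13960, nat_lit 13888, nat_lit 13908] (nat_lit 1) [nat_lit 7346] false,
   Spec.mk (nat_lit 13908) (nat_lit 0) [nat_lit 9534, nat_lit 15366, nat_lit 13422, nat_lit 13962, nat_lit 13890, nat_lit 13914, nat_lit 13906] (nat_lit 3) [nat_lit 7348] false,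
   Spec.mk (nat_lit 13914) (nat_lit 0) [nat_lit 9540, nat_lit 15372, nat_lit 13428, nat_lit 13968, nat_lit 13896, nat_lit 13908] (nat_lit 1) [nat_lit 7354] false,
   Spec.mk (nat_lit 13934) (nat_lit 1) [nat_lit 9560, nat_lit 15392, nat_lit 13448, nat_lit 14096, nat_lit 13880, nat_lit 13936] (nat_lit 0) [] false,
   Spec.mk (nat_lit 13936) (nat_lit 0) [nat_lit 9562, nat_lit 15394, nat_lit 13450, nat_lit 14098, nat_lit 13882, nat_lit 13942, nat_lit 13934, nat_lit 13938] (nat_lit 0) [nat_lit 7376] false,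
   Spec.mk (nat_lit 13938) (nat_lit 0) [nat_lit 9564, nat_lit 15396, nat_lit 13452, nat_lit 14100, nat_lit 13884, nat_lit 13944, nat_lit 13936] (nat_lit 3) [nat_lit 7378] false,
   Spec.mk (nat_lit 13942) (nat_lit 0) [nat_lit 9568, nat_lit 15400, nat_lit 13456, nat_lit 14104, nat_lit 13888, nat_lit 13960, nat_lit 13936, nat_lit 13944] (nat_lit 1) [nat_lit 7382] false,
   Spec.mk (nat_lit 13944) (nat_lit 0) [nat_lit 9570, nat_lit 15402, nat_lit 13458, nat_lit 14106, nat_lit 13890, nat_lit 13962, nat_lit 13938, nat_lit 13950, nat_lit 13942] (nat_lit 2) [nat_lit 7384] false,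
   Spec.mk (nat_lit 13950) (nat_lit 0) [nat_lit 9576, nat_lit 15408, nat_lit 13464, nat_lit 14112, nat_lit 13896, nat_lit 13968, nat_lit 13944] (nat_lit 3) [nat_lit 7390] false,
   Spec.mk (nat_lit 13960) (nat_lit 0) [nat_lit 9586, nat_lit 15418, nat_lit 13474, nat_lit 14122, nat_lit 13906, nat_lit 14014, nat_lit 13942, nat_lit 13962] (nat_lit 0) [nat_lit 7400] false,
   Spec.mk (nat_lit 13962) (nat_lit 0) [nat_lit 9588, nat_lit 15420, nat_lit 13476, nat_lit 14124, nat_lit 13908, nat_lit 14016, nat_lit 13944, nat_lit 13968, nat_lit 13960] (nat_lit 2) [nat_lit 7402] false,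
   Spec.mk (nat_lit 13968) (nat_lit 0) [nat_lit 9594, nat_lit 15426, nat_lit 13482, nat_lit 14130, nat_lit 13914, nat_lit 14022, nat_lit 13950, nat_lit 13986, nat_lit 13962] (nat_lit 1) [nat_lit 7408] false,
   Spec.mk (nat_lit 13986) (nat_lit 0) [nat_lit 9612, nat_lit 15444, nat_lit 13500, nat_lit 14148, nat_lit 14040, nat_lit 13968] (nat_lit 1) [nat_lit 7426] false,
   Spec.mk (nat_lit 14014) (nat_lit 0) [nat_lit 9640, nat_lit 15472, nat_lit 13528, nat_lit 14176, nat_lit 13960, nat_lit 14016] (nat_lit 1) [nat_lit 7454] false,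
   Spec.mk (nat_lit 14016) (nat_lit 0) [nat_lit 9642, nat_lit 15474, nat_lit 13530, nat_lit 14178, nat_lit 13962, nat_lit 14022, nat_lit 14014] (nat_lit 3) [nat_lit 7456] false,
   Spec.mk (nat_lit 14022) (nat_lit 0) [nat_lit 9648, nat_lit 15480, nat_lit 13536, nat_lit 14184, nat_lit 13968, nat_lit 14040, nat_lit 14016] (nat_lit 3) [nat_lit 7462] false,
   Spec.mk (nat_lit 14040) (nat_lit 0) [nat_lit 9666, nat_lit 15498, nat_lit 13554, nat_lit 14202, nat_lit 13986, nat_lit 14022] (nat_lit 1) [nat_lit 7480] false,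
   Spec.mk (nat_lit 14096) (nat_lit 2) [nat_lit 9722, nat_lit 15554, nat_lit 13610, nat_lit 14582, nat_lit 13934, nat_lit 14098] (nat_lit 0) [] false,
   Spec.mk (nat_lit 14098) (nat_lit 1) [nat_lit 9724, nat_lit 15556, nat_lit 13612, nat_lit 14584, nat_lit 13936, nat_lit 14104, nat_lit 14096, nat_lit 14100] (nat_lit 0) [nat_lit 7538] false,
   Spec.mk (nat_lit 14100) (nat_lit 0) [nat_lit 9726, nat_lit 15558, nat_lit 13614, nat_lit 14586, nat_lit 13938, nat_lit 14106, nat_lit 14098] (nat_lit 2) [nat_lit 7540] false,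
   Spec.mk (nat_lit 14104) (nat_lit 0) [nat_lit 9730, nat_lit 15562, nat_lit 13618, nat_lit 14590, nat_lit 13942, nat_lit 14122, nat_lit 14098, nat_lit 14106] (nat_lit 0) [nat_lit 7544] false,
   Spec.mk (nat_lit 14106) (nat_lit 0) [nat_lit 9732, nat_lit 15564, nat_lit 13620, nat_lit 14592, nat_lit 13944, nat_lit 14124, nat_lit 14100, nat_lit 14112, nat_lit 14104] (nat_lit 1) [nat_lit 7546] false,
   Spec.mk (nat_lit 14112) (nat_lit 0) [nat_lit 9738, nat_lit 15570, nat_lit 13626, nat_lit 14598, nat_lit 13950, nat_lit 14130, nat_lit 14106] (nat_lit 2) [nat_lit 7552] false,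
   Spec.mk (nat_lit 14122) (nat_lit 0) [nat_lit 9748, nat_lit 15580, nat_lit 13636, nat_lit 14608, nat_lit 13960, nat_lit 14176, nat_lit 14104, nat_lit 14124] (nat_lit 0) [nat_lit 7562] false,
   Spec.mk (nat_lit 14124) (nat_lit 0) [nat_lit 9750, nat_lit 15582, nat_lit 13638, nat_lit 14610, nat_lit 13962, nat_lit 14178, nat_lit 14106, nat_lit 14130, nat_lit 14122] (nat_lit 2) [nat_lit 7564] false,
   Spec.mk (nat_lit 14130) (nat_lit 0) [nat_lit 9756, nat_lit 15588, nat_lit 13644, nat_lit 14616, nat_lit 13968, nat_lit 14184, nat_lit 14112, nat_lit 14148, nat_lit 14124] (nat_lit 1) [nat_lit 7570] false,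
   Spec.mk (nat_lit 14148) (nat_lit 0) [nat_lit 9774, nat_lit 15606, nat_lit 13662, nat_lit 14634, nat_lit 13986, nat_lit 14202, nat_lit 14130] (nat_lit 2) [nat_lit 7588] false,
   Spec.mk (nat_lit 14176) (nat_lit 1) [nat_lit 9802, nat_lit 15634, nat_lit 13690, nat_lit 14662, nat_lit 14014, nat_lit 14338, nat_lit 14122, nat_lit 14178] (nat_lit 0) [nat_lit 7616] false,
   Spec.mk (nat_lit 14178) (nat_lit 0) [nat_lit 9804, nat_lit 15636, nat_lit 13692, nat_lit 14664, nat_lit 14016, nat_lit 14340, nat_lit 14124, nat_lit 14184, nat_lit 14176] (nat_lit 1) [nat_lit 7618] false,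
   Spec.mk (nat_lit 14184) (nat_lit 0) [nat_lit 9810, nat_lit 15642, nat_lit 13698, nat_lit 14670, nat_lit 14022, nat_lit 14346, nat_lit 14130, nat_lit 14202, nat_lit 14178] (nat_lit 1) [nat_lit 7624] false,
   Spec.mk (nat_lit 14202) (nat_lit 0) [nat_lit 9828, nat_lit 15660, nat_lit 13716, nat_lit 14688, nat_lit 14040, nat_lit 14364, nat_lit 14148, nat_lit 14256, nat_lit 14184] (nat_lit 0) [nat_lit 7642] false,
   Spec.mk (nat_lit 14256) (nat_lit 0) [nat_lit 9882, nat_lit 15714, nat_lit 13770, nat_lit 14742, nat_lit 14418, nat_lit 14202] (nat_lit 0) [nat_lit 7696] false,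
   Spec.mk (nat_lit 14338) (nat_lit 1) [nat_lit 9964, nat_lit 15796, nat_lit 14824, nat_lit 14176, nat_lit 14340] (nat_lit 0) [nat_lit 7778] false,
   Spec.mk (nat_lit 14340) (nat_lit 0) [nat_lit 9966, nat_lit 15798, nat_lit 14826, nat_lit 14178, nat_lit 14346, nat_lit 14338] (nat_lit 1) [nat_lit 7780] false,
   Spec.mk (nat_lit 14346) (nat_lit 0) [nat_lit 9972, nat_lit 15804, nat_lit 14832, nat_lit 14184, nat_lit 14364, nat_lit 14340] (nat_lit 1) [nat_lit 7786] false,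
   Spec.mk (nat_lit 14364) (nat_lit 0) [nat_lit 9990, nat_lit 15822, nat_lit 14850, nat_lit 14202, nat_lit 14418, nat_lit 14346] (nat_lit 1) [nat_lit 7804] false,
   Spec.mk (nat_lit 14418) (nat_lit 1) [nat_lit 10044, nat_lit 15876, nat_lit 14904, nat_lit 14256, nat_lit 14364] (nat_lit 0) [nat_lit 7858] false,
   Spec.mk (nat_lit 14582) (nat_lit 1) [nat_lit 10208, nat_lit 16040, nat_lit 14096, nat_lit 14584] (nat_lit 0) [] false,
   Spec.mk (nat_lit 14584) (nat_lit 0) [nat_lit 10210, nat_lit 16042, nat_lit 14098, nat_lit 14590, nat_lit 14582, nat_lit 14586] (nat_lit 0) [nat_lit 8024] false,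
   Spec.mk (nat_lit 14586) (nat_lit 0) [nat_lit 10212, nat_lit 16044, nat_lit 14100, nat_lit 14592, nat_lit 14584] (nat_lit 3) [nat_lit 8026] false,
   Spec.mk (nat_lit 14590) (nat_lit 0) [nat_lit 10216, nat_lit 16048, nat_lit 14104, nat_lit 14608, nat_lit 14584, nat_lit 14592] (nat_lit 1) [nat_lit 8030] false,
   Spec.mk (nat_lit 14592) (nat_lit 0) [nat_lit 10218, nat_lit 16050, nat_lit 14106, nat_lit 14610, nat_lit 14586, nat_lit 14598, nat_lit 14590] (nat_lit 2) [nat_lit 8032] false,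
   Spec.mk (nat_lit 14598) (nat_lit 0) [nat_lit 10224, nat_lit 16056, nat_lit 14112, nat_lit 14616, nat_lit 14592] (nat_lit 3) [nat_lit 8038] false,
   Spec.mk (nat_lit 14608) (nat_lit 0) [nat_lit 10234, nat_lit 16066, nat_lit 14122, nat_lit 14662, nat_lit 14590, nat_lit 14610] (nat_lit 1) [nat_lit 8048] false,
   Spec.mk (nat_lit 14610) (nat_lit 0) [nat_lit 10236, nat_lit 16068, nat_lit 14124, nat_lit 14664, nat_lit 14592, nat_lit 14616, nat_lit 14608] (nat_lit 3) [nat_lit 8050] false,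
   Spec.mk (nat_lit 14616) (nat_lit 0) [nat_lit 10242, nat_lit 16074, nat_lit 14130, nat_lit 14670, nat_lit 14598, nat_lit 14634, nat_lit 14610] (nat_lit 2) [nat_lit 8056] false,
   Spec.mk (nat_lit 14634) (nat_lit 0) [nat_lit 10260, nat_lit 16092, nat_lit 14148, nat_lit 14688, nat_lit 14616] (nat_lit 3) [nat_lit 8074] false,
   Spec.mk (nat_lit 14662) (nat_lit 0) [nat_lit 10288, nat_lit 16120, nat_lit 14176, nat_lit 14824, nat_lit 14608, nat_lit 14664] (nat_lit 1) [nat_lit 8102] false,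
   Spec.mk (nat_lit 14664) (nat_lit 0) [nat_lit 10290, nat_lit 16122, nat_lit 14178, nat_lit 14826, nat_lit 14610, nat_lit 14670, nat_lit 14662] (nat_lit 3) [nat_lit 8104] false]

noncomputable def sp24 : List Spec :=
  [Spec.mk (nat_lit 14670) (nat_lit 0) [nat_lit 10296, nat_lit 16128, nat_lit 14184, nat_lit 14832, nat_lit 14616, nat_lit 14688, nat_lit 14664] (nat_lit 3) [nat_lit 8110] false,
   Spec.mk (nat_lit 14688) (nat_lit 0) [nat_lit 10314, nat_lit 16146, nat_lit 14202, nat_lit 14850, nat_lit 14634, nat_lit 14742, nat_lit 14670] (nat_lit 2) [nat_lit 8128] false,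
   Spec.mk (nat_lit 14742) (nat_lit 0) [nat_lit 10368, nat_lit 16200, nat_lit 14256, nat_lit 14904, nat_lit 14688] (nat_lit 3) [nat_lit 8182] false,
   Spec.mk (nat_lit 14824) (nat_lit 1) [nat_lit 10450, nat_lit 16282, nat_lit 14338, nat_lit 14662, nat_lit 14826] (nat_lit 0) [nat_lit 8264] false,
   Spec.mk (nat_lit 14826) (nat_lit 0) [nat_lit 10452, nat_lit 16284, nat_lit 14340, nat_lit 14664, nat_lit 14832, nat_lit 14824] (nat_lit 1) [nat_lit 8266] false,
   Spec.mk (nat_lit 14832) (nat_lit 0) [nat_lit 10458, nat_lit 16290, nat_lit 14346, nat_lit 14670, nat_lit 14850, nat_lit 14826] (nat_lit 1) [nat_lit 8272] false,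
   Spec.mk (nat_lit 14850) (nat_lit 0) [nat_lit 10476, nat_lit 16308, nat_lit 14364, nat_lit 14688, nat_lit 14904, nat_lit 14832] (nat_lit 1) [nat_lit 8290] false,
   Spec.mk (nat_lit 14904) (nat_lit 0) [nat_lit 10530, nat_lit 16362, nat_lit 14418, nat_lit 14742, nat_lit 15066, nat_lit 14850] (nat_lit 0) [nat_lit 8344] false,
   Spec.mk (nat_lit 15066) (nat_lit 1) [nat_lit 10692, nat_lit 16524, nat_lit 14904] (nat_lit 0) [nat_lit 8506] false,
   Spec.mk (nat_lit 15314) (nat_lit 5) [nat_lit 10940, nat_lit 13856, nat_lit 15320, nat_lit 15316] (nat_lit 0) [] false,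
   Spec.mk (nat_lit 15316) (nat_lit 3) [nat_lit 10942, nat_lit 13858, nat_lit 15322, nat_lit 15314] (nat_lit 0) [nat_lit 8756] false,
   Spec.mk (nat_lit 15320) (nat_lit 3) [nat_lit 10946, nat_lit 13862, nat_lit 15338, nat_lit 15314, nat_lit 15322] (nat_lit 0) [] false,
   Spec.mk (nat_lit 15322) (nat_lit 3) [nat_lit 10948, nat_lit 13864, nat_lit 15340, nat_lit 15316, nat_lit 15328, nat_lit 15320, nat_lit 15324] (nat_lit 0) [nat_lit 8762] false,
   Spec.mk (nat_lit 15324) (nat_lit 1) [nat_lit 10950, nat_lit 13866, nat_lit 15342, nat_lit 15330, nat_lit 15322] (nat_lit 0) [nat_lit 8764] false,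
   Spec.mk (nat_lit 15328) (nat_lit 1) [nat_lit 10954, nat_lit 13870, nat_lit 15346, nat_lit 15322, nat_lit 15330] (nat_lit 0) [nat_lit 8768] false,
   Spec.mk (nat_lit 15330) (nat_lit 1) [nat_lit 10956, nat_lit 13872, nat_lit 15348, nat_lit 15324, nat_lit 15328] (nat_lit 0) [nat_lit 8770] false,
   Spec.mk (nat_lit 15338) (nat_lit 3) [nat_lit 10964, nat_lit 13880, nat_lit 15392, nat_lit 15320, nat_lit 15340] (nat_lit 0) [] false,
   Spec.mk (nat_lit 15340) (nat_lit 2) [nat_lit 10966, nat_lit 13882, nat_lit 15394, nat_lit 15322, nat_lit 15346, nat_lit 15338, nat_lit 15342] (nat_lit 0) [nat_lit 8780] false,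
   Spec.mk (nat_lit 15342) (nat_lit 0) [nat_lit 10968, nat_lit 13884, nat_lit 15396, nat_lit 15324, nat_lit 15348, nat_lit 15340] (nat_lit 1) [nat_lit 8782] false,
   Spec.mk (nat_lit 15346) (nat_lit 2) [nat_lit 10972, nat_lit 13888, nat_lit 15400, nat_lit 15328, nat_lit 15364, nat_lit 15340, nat_lit 15348] (nat_lit 0) [nat_lit 8786] false,
   Spec.mk (nat_lit 15348) (nat_lit 1) [nat_lit 10974, nat_lit 13890, nat_lit 15402, nat_lit 15330, nat_lit 15366, nat_lit 15342, nat_lit 15354, nat_lit 15346] (nat_lit 0) [nat_lit 8788] false,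
   Spec.mk (nat_lit 15354) (nat_lit 1) [nat_lit 10980, nat_lit 13896, nat_lit 15408, nat_lit 15372, nat_lit 15348] (nat_lit 0) [nat_lit 8794] false,
   Spec.mk (nat_lit 15364) (nat_lit 1) [nat_lit 10990, nat_lit 13906, nat_lit 15418, nat_lit 15346, nat_lit 15366] (nat_lit 0) [nat_lit 8804] false,
   Spec.mk (nat_lit 15366) (nat_lit 0) [nat_lit 10992, nat_lit 13908, nat_lit 15420, nat_lit 15348, nat_lit 15372, nat_lit 15364] (nat_lit 1) [nat_lit 8806] false,
   Spec.mk (nat_lit 15372) (nat_lit 1) [nat_lit 10998, nat_lit 13914, nat_lit 15426, nat_lit 15354, nat_lit 15366] (nat_lit 0) [nat_lit 8812] false,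
   Spec.mk (nat_lit 15392) (nat_lit 3) [nat_lit 11018, nat_lit 13934, nat_lit 15554, nat_lit 15338, nat_lit 15394] (nat_lit 0) [] false,
   Spec.mk (nat_lit 15394) (nat_lit 2) [nat_lit 11020, nat_lit 13936, nat_lit 15556, nat_lit 15340, nat_lit 15400, nat_lit 15392, nat_lit 15396] (nat_lit 0) [nat_lit 8834] false,
   Spec.mk (nat_lit 15396) (nat_lit 0) [nat_lit 11022, nat_lit 13938, nat_lit 15558, nat_lit 15342, nat_lit 15402, nat_lit 15394] (nat_lit 1) [nat_lit 8836] false,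
   Spec.mk (nat_lit 15400) (nat_lit 1) [nat_lit 11026, nat_lit 13942, nat_lit 15562, nat_lit 15346, nat_lit 15418, nat_lit 15394, nat_lit 15402] (nat_lit 0) [nat_lit 8840] false,
   Spec.mk (nat_lit 15402) (nat_lit 0) [nat_lit 11028, nat_lit 13944, nat_lit 15564, nat_lit 15348, nat_lit 15420, nat_lit 15396, nat_lit 15408, nat_lit 15400] (nat_lit 0) [nat_lit 8842] false,
   Spec.mk (nat_lit 15408) (nat_lit 0) [nat_lit 11034, nat_lit 13950, nat_lit 15570, nat_lit 15354, nat_lit 15426, nat_lit 15402] (nat_lit 1) [nat_lit 8848] false,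
   Spec.mk (nat_lit 15418) (nat_lit 2) [nat_lit 11044, nat_lit 13960, nat_lit 15580, nat_lit 15364, nat_lit 15472, nat_lit 15400, nat_lit 15420] (nat_lit 0) [nat_lit 8858] false,
   Spec.mk (nat_lit 15420) (nat_lit 0) [nat_lit 11046, nat_lit 13962, nat_lit 15582, nat_lit 15366, nat_lit 15474, nat_lit 15402, nat_lit 15426, nat_lit 15418] (nat_lit 0) [nat_lit 8860] false,
   Spec.mk (nat_lit 15426) (nat_lit 1) [nat_lit 11052, nat_lit 13968, nat_lit 15588, nat_lit 15372, nat_lit 15480, nat_lit 15408, nat_lit 15444, nat_lit 15420] (nat_lit 0) [nat_lit 8866] false,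
   Spec.mk (nat_lit 15444) (nat_lit 1) [nat_lit 11070, nat_lit 13986, nat_lit 15606, nat_lit 15498, nat_lit 15426] (nat_lit 0) [nat_lit 8884] false,
   Spec.mk (nat_lit 15472) (nat_lit 1) [nat_lit 11098, nat_lit 14014, nat_lit 15634, nat_lit 15418, nat_lit 15474] (nat_lit 0) [nat_lit 8912] false,
   Spec.mk (nat_lit 15474) (nat_lit 0) [nat_lit 11100, nat_lit 14016, nat_lit 15636, nat_lit 15420, nat_lit 15480, nat_lit 15472] (nat_lit 1) [nat_lit 8914] false,
   Spec.mk (nat_lit 15480) (nat_lit 0) [nat_lit 11106, nat_lit 14022, nat_lit 15642, nat_lit 15426, nat_lit 15498, nat_lit 15474] (nat_lit 1) [nat_lit 8920] false,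
   Spec.mk (nat_lit 15498) (nat_lit 1) [nat_lit 11124, nat_lit 14040, nat_lit 15660, nat_lit 15444, nat_lit 15480] (nat_lit 0) [nat_lit 8938] false,
   Spec.mk (nat_lit 15554) (nat_lit 3) [nat_lit 11180, nat_lit 14096, nat_lit 16040, nat_lit 15392, nat_lit 15556] (nat_lit 0) [] false,
   Spec.mk (nat_lit 15556) (nat_lit 2) [nat_lit 11182, nat_lit 14098, nat_lit 16042, nat_lit 15394, nat_lit 15562, nat_lit 15554, nat_lit 15558] (nat_lit 0) [nat_lit 8996] false,
   Spec.mk (nat_lit 15558) (nat_lit 0) [nat_lit 11184, nat_lit 14100, nat_lit 16044, nat_lit 15396, nat_lit 15564, nat_lit 15556] (nat_lit 1) [nat_lit 8998] false,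
   Spec.mk (nat_lit 15562) (nat_lit 1) [nat_lit 11188, nat_lit 14104, nat_lit 16048, nat_lit 15400, nat_lit 15580, nat_lit 15556, nat_lit 15564] (nat_lit 0) [nat_lit 9002] false,
   Spec.mk (nat_lit 15564) (nat_lit 0) [nat_lit 11190, nat_lit 14106, nat_lit 16050, nat_lit 15402, nat_lit 15582, nat_lit 15558, nat_lit 15570, nat_lit 15562] (nat_lit 0) [nat_lit 9004] false,
   Spec.mk (nat_lit 15570) (nat_lit 0) [nat_lit 11196, nat_lit 14112, nat_lit 16056, nat_lit 15408, nat_lit 15588, nat_lit 15564] (nat_lit 1) [nat_lit 9010] false,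
   Spec.mk (nat_lit 15580) (nat_lit 1) [nat_lit 11206, nat_lit 14122, nat_lit 16066, nat_lit 15418, nat_lit 15634, nat_lit 15562, nat_lit 15582] (nat_lit 0) [nat_lit 9020] false,
   Spec.mk (nat_lit 15582) (nat_lit 0) [nat_lit 11208, nat_lit 14124, nat_lit 16068, nat_lit 15420, nat_lit 15636, nat_lit 15564, nat_lit 15588, nat_lit 15580] (nat_lit 1) [nat_lit 9022] false,
   Spec.mk (nat_lit 15588) (nat_lit 0) [nat_lit 11214, nat_lit 14130, nat_lit 16074, nat_lit 15426, nat_lit 15642, nat_lit 15570, nat_lit 15606, nat_lit 15582] (nat_lit 0) [nat_lit 9028] false,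
   Spec.mk (nat_lit 15606) (nat_lit 0) [nat_lit 11232, nat_lit 14148, nat_lit 16092, nat_lit 15444, nat_lit 15660, nat_lit 15588] (nat_lit 1) [nat_lit 9046] false,
   Spec.mk (nat_lit 15634) (nat_lit 2) [nat_lit 11260, nat_lit 14176, nat_lit 16120, nat_lit 15472, nat_lit 15796, nat_lit 15580, nat_lit 15636] (nat_lit 0) [nat_lit 9074] false,
   Spec.mk (nat_lit 15636) (nat_lit 0) [nat_lit 11262, nat_lit 14178, nat_lit 16122, nat_lit 15474, nat_lit 15798, nat_lit 15582, nat_lit 15642, nat_lit 15634] (nat_lit 0) [nat_lit 9076] false,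
   Spec.mk (nat_lit 15642) (nat_lit 0) [nat_lit 11268, nat_lit 14184, nat_lit 16128, nat_lit 15480, nat_lit 15804, nat_lit 15588, nat_lit 15660, nat_lit 15636] (nat_lit 0) [nat_lit 9082] false,
   Spec.mk (nat_lit 15660) (nat_lit 1) [nat_lit 11286, nat_lit 14202, nat_lit 16146, nat_lit 15498, nat_lit 15822, nat_lit 15606, nat_lit 15714, nat_lit 15642] (nat_lit 0) [nat_lit 9100] false,
   Spec.mk (nat_lit 15714) (nat_lit 1) [nat_lit 11340, nat_lit 14256, nat_lit 16200, nat_lit 15876, nat_lit 15660] (nat_lit 0) [nat_lit 9154] false,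
   Spec.mk (nat_lit 15796) (nat_lit 1) [nat_lit 11422, nat_lit 14338, nat_lit 16282, nat_lit 15634, nat_lit 15798] (nat_lit 0) [nat_lit 9236] false,
   Spec.mk (nat_lit 15798) (nat_lit 0) [nat_lit 11424, nat_lit 14340, nat_lit 16284, nat_lit 15636, nat_lit 15804, nat_lit 15796] (nat_lit 1) [nat_lit 9238] false,
   Spec.mk (nat_lit 15804) (nat_lit 0) [nat_lit 11430, nat_lit 14346, nat_lit 16290, nat_lit 15642, nat_lit 15822, nat_lit 15798] (nat_lit 1) [nat_lit 9244] false,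
   Spec.mk (nat_lit 15822) (nat_lit 0) [nat_lit 11448, nat_lit 14364, nat_lit 16308, nat_lit 15660, nat_lit 15876, nat_lit 15804] (nat_lit 1) [nat_lit 9262] false,
   Spec.mk (nat_lit 15876) (nat_lit 1) [nat_lit 11502, nat_lit 14418, nat_lit 16362, nat_lit 15714, nat_lit 15822] (nat_lit 0) [nat_lit 9316] false,
   Spec.mk (nat_lit 16040) (nat_lit 4) [nat_lit 11666, nat_lit 14582, nat_lit 17498, nat_lit 15554, nat_lit 16042] (nat_lit 0) [] false]

noncomputable def sp25 : List Spec :=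
  [Spec.mk (nat_lit 16042) (nat_lit 3) [nat_lit 11668, nat_lit 14584, nat_lit 17500, nat_lit 15556, nat_lit 16048, nat_lit 16040, nat_lit 16044] (nat_lit 0) [nat_lit 9482] false,
   Spec.mk (nat_lit 16044) (nat_lit 0) [nat_lit 11670, nat_lit 14586, nat_lit 17502, nat_lit 15558, nat_lit 16050, nat_lit 16042] (nat_lit 0) [nat_lit 9484] false,
   Spec.mk (nat_lit 16048) (nat_lit 2) [nat_lit 11674, nat_lit 14590, nat_lit 17506, nat_lit 15562, nat_lit 16066, nat_lit 16042, nat_lit 16050] (nat_lit 0) [nat_lit 9488] false,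
   Spec.mk (nat_lit 16050) (nat_lit 1) [nat_lit 11676, nat_lit 14592, nat_lit 17508, nat_lit 15564, nat_lit 16068, nat_lit 16044, nat_lit 16056, nat_lit 16048] (nat_lit 0) [nat_lit 9490] false,
   Spec.mk (nat_lit 16056) (nat_lit 0) [nat_lit 11682, nat_lit 14598, nat_lit 17514, nat_lit 15570, nat_lit 16074, nat_lit 16050] (nat_lit 0) [nat_lit 9496] false,
   Spec.mk (nat_lit 16066) (nat_lit 2) [nat_lit 11692, nat_lit 14608, nat_lit 17524, nat_lit 15580, nat_lit 16120, nat_lit 16048, nat_lit 16068] (nat_lit 0) [nat_lit 9506] false,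
   Spec.mk (nat_lit 16068) (nat_lit 0) [nat_lit 11694, nat_lit 14610, nat_lit 17526, nat_lit 15582, nat_lit 16122, nat_lit 16050, nat_lit 16074, nat_lit 16066] (nat_lit 0) [nat_lit 9508] false,
   Spec.mk (nat_lit 16074) (nat_lit 1) [nat_lit 11700, nat_lit 14616, nat_lit 17532, nat_lit 15588, nat_lit 16128, nat_lit 16056, nat_lit 16092, nat_lit 16068] (nat_lit 0) [nat_lit 9514] false,
   Spec.mk (nat_lit 16092) (nat_lit 0) [nat_lit 11718, nat_lit 14634, nat_lit 17550, nat_lit 15606, nat_lit 16146, nat_lit 16074] (nat_lit 0) [nat_lit 9532] false,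
   Spec.mk (nat_lit 16120) (nat_lit 2) [nat_lit 11746, nat_lit 14662, nat_lit 17578, nat_lit 15634, nat_lit 16282, nat_lit 16066, nat_lit 16122] (nat_lit 0) [nat_lit 9560] false,
   Spec.mk (nat_lit 16122) (nat_lit 0) [nat_lit 11748, nat_lit 14664, nat_lit 17580, nat_lit 15636, nat_lit 16284, nat_lit 16068, nat_lit 16128, nat_lit 16120] (nat_lit 0) [nat_lit 9562] false,
   Spec.mk (nat_lit 16128) (nat_lit 0) [nat_lit 11754, nat_lit 14670, nat_lit 17586, nat_lit 15642, nat_lit 16290, nat_lit 16074, nat_lit 16146, nat_lit 16122] (nat_lit 0) [nat_lit 9568] false,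
   Spec.mk (nat_lit 16146) (nat_lit 1) [nat_lit 11772, nat_lit 14688, nat_lit 17604, nat_lit 15660, nat_lit 16308, nat_lit 16092, nat_lit 16200, nat_lit 16128] (nat_lit 0) [nat_lit 9586] false,
   Spec.mk (nat_lit 16200) (nat_lit 0) [nat_lit 11826, nat_lit 14742, nat_lit 17658, nat_lit 15714, nat_lit 16362, nat_lit 16146] (nat_lit 0) [nat_lit 9640] false,
   Spec.mk (nat_lit 16282) (nat_lit 3) [nat_lit 11908, nat_lit 14824, nat_lit 17740, nat_lit 15796, nat_lit 16768, nat_lit 16120, nat_lit 16284] (nat_lit 0) [nat_lit 9722] false,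
   Spec.mk (nat_lit 16284) (nat_lit 1) [nat_lit 11910, nat_lit 14826, nat_lit 17742, nat_lit 15798, nat_lit 16770, nat_lit 16122, nat_lit 16290, nat_lit 16282] (nat_lit 0) [nat_lit 9724] false,
   Spec.mk (nat_lit 16290) (nat_lit 1) [nat_lit 11916, nat_lit 14832, nat_lit 17748, nat_lit 15804, nat_lit 16776, nat_lit 16128, nat_lit 16308, nat_lit 16284] (nat_lit 0) [nat_lit 9730] false,
   Spec.mk (nat_lit 16308) (nat_lit 1) [nat_lit 11934, nat_lit 14850, nat_lit 17766, nat_lit 15822, nat_lit 16794, nat_lit 16146, nat_lit 16362, nat_lit 16290] (nat_lit 0) [nat_lit 9748] false,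
   Spec.mk (nat_lit 16362) (nat_lit 2) [nat_lit 11988, nat_lit 14904, nat_lit 17820, nat_lit 15876, nat_lit 16848, nat_lit 16200, nat_lit 16524, nat_lit 16308] (nat_lit 0) [nat_lit 9802] false,
   Spec.mk (nat_lit 16524) (nat_lit 2) [nat_lit 12150, nat_lit 15066, nat_lit 17982, nat_lit 17010, nat_lit 16362] (nat_lit 0) [nat_lit 9964] false,
   Spec.mk (nat_lit 16768) (nat_lit 3) [nat_lit 12394, nat_lit 18226, nat_lit 16282, nat_lit 16770] (nat_lit 0) [nat_lit 10208] false,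
   Spec.mk (nat_lit 16770) (nat_lit 1) [nat_lit 12396, nat_lit 18228, nat_lit 16284, nat_lit 16776, nat_lit 16768] (nat_lit 0) [nat_lit 10210] false,
   Spec.mk (nat_lit 16776) (nat_lit 1) [nat_lit 12402, nat_lit 18234, nat_lit 16290, nat_lit 16794, nat_lit 16770] (nat_lit 0) [nat_lit 10216] false,
   Spec.mk (nat_lit 16794) (nat_lit 1) [nat_lit 12420, nat_lit 18252, nat_lit 16308, nat_lit 16848, nat_lit 16776] (nat_lit 0) [nat_lit 10234] false,
   Spec.mk (nat_lit 16848) (nat_lit 1) [nat_lit 12474, nat_lit 18306, nat_lit 16362, nat_lit 17010, nat_lit 16794] (nat_lit 0) [nat_lit 10288] false,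
   Spec.mk (nat_lit 17010) (nat_lit 3) [nat_lit 12636, nat_lit 18468, nat_lit 16524, nat_lit 16848] (nat_lit 0) [nat_lit 10450] false,
   Spec.mk (nat_lit 17498) (nat_lit 5) [nat_lit 16040, nat_lit 17500] (nat_lit 0) [] false,
   Spec.mk (nat_lit 17500) (nat_lit 4) [nat_lit 16042, nat_lit 17506, nat_lit 17498, nat_lit 17502] (nat_lit 0) [nat_lit 10940] false,
   Spec.mk (nat_lit 17502) (nat_lit 1) [nat_lit 16044, nat_lit 17508, nat_lit 17500] (nat_lit 0) [nat_lit 10942] false,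
   Spec.mk (nat_lit 17506) (nat_lit 3) [nat_lit 16048, nat_lit 17524, nat_lit 17500, nat_lit 17508] (nat_lit 0) [nat_lit 10946] false,
   Spec.mk (nat_lit 17508) (nat_lit 2) [nat_lit 16050, nat_lit 17526, nat_lit 17502, nat_lit 17514, nat_lit 17506] (nat_lit 0) [nat_lit 10948] false,
   Spec.mk (nat_lit 17514) (nat_lit 1) [nat_lit 16056, nat_lit 17532, nat_lit 17508] (nat_lit 0) [nat_lit 10954] false,
   Spec.mk (nat_lit 17524) (nat_lit 3) [nat_lit 16066, nat_lit 17578, nat_lit 17506, nat_lit 17526] (nat_lit 0) [nat_lit 10964] false,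
   Spec.mk (nat_lit 17526) (nat_lit 1) [nat_lit 16068, nat_lit 17580, nat_lit 17508, nat_lit 17532, nat_lit 17524] (nat_lit 0) [nat_lit 10966] false,
   Spec.mk (nat_lit 17532) (nat_lit 2) [nat_lit 16074, nat_lit 17586, nat_lit 17514, nat_lit 17550, nat_lit 17526] (nat_lit 0) [nat_lit 10972] false,
   Spec.mk (nat_lit 17550) (nat_lit 1) [nat_lit 16092, nat_lit 17604, nat_lit 17532] (nat_lit 0) [nat_lit 10990] false,
   Spec.mk (nat_lit 17578) (nat_lit 3) [nat_lit 16120, nat_lit 17740, nat_lit 17524, nat_lit 17580] (nat_lit 0) [nat_lit 11018] false,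
   Spec.mk (nat_lit 17580) (nat_lit 1) [nat_lit 16122, nat_lit 17742, nat_lit 17526, nat_lit 17586, nat_lit 17578] (nat_lit 0) [nat_lit 11020] false,
   Spec.mk (nat_lit 17586) (nat_lit 1) [nat_lit 16128, nat_lit 17748, nat_lit 17532, nat_lit 17604, nat_lit 17580] (nat_lit 0) [nat_lit 11026] false,
   Spec.mk (nat_lit 17604) (nat_lit 2) [nat_lit 16146, nat_lit 17766, nat_lit 17550, nat_lit 17658, nat_lit 17586] (nat_lit 0) [nat_lit 11044] false,
   Spec.mk (nat_lit 17658) (nat_lit 1) [nat_lit 16200, nat_lit 17820, nat_lit 17604] (nat_lit 0) [nat_lit 11098] false,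
   Spec.mk (nat_lit 17740) (nat_lit 3) [nat_lit 16282, nat_lit 18226, nat_lit 17578, nat_lit 17742] (nat_lit 0) [nat_lit 11180] false,
   Spec.mk (nat_lit 17742) (nat_lit 1) [nat_lit 16284, nat_lit 18228, nat_lit 17580, nat_lit 17748, nat_lit 17740] (nat_lit 0) [nat_lit 11182] false,
   Spec.mk (nat_lit 17748) (nat_lit 1) [nat_lit 16290, nat_lit 18234, nat_lit 17586, nat_lit 17766, nat_lit 17742] (nat_lit 0) [nat_lit 11188] false,
   Spec.mk (nat_lit 17766) (nat_lit 1) [nat_lit 16308, nat_lit 18252, nat_lit 17604, nat_lit 17820, nat_lit 17748] (nat_lit 0) [nat_lit 11206] false,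
   Spec.mk (nat_lit 17820) (nat_lit 2) [nat_lit 16362, nat_lit 18306, nat_lit 17658, nat_lit 17982, nat_lit 17766] (nat_lit 0) [nat_lit 11260] false,
   Spec.mk (nat_lit 17982) (nat_lit 1) [nat_lit 16524, nat_lit 18468, nat_lit 17820] (nat_lit 0) [nat_lit 11422] false,
   Spec.mk (nat_lit 18226) (nat_lit 5) [nat_lit 16768, nat_lit 17740, nat_lit 18228] (nat_lit 0) [nat_lit 11666] false,
   Spec.mk (nat_lit 18228) (nat_lit 3) [nat_lit 16770, nat_lit 17742, nat_lit 18234, nat_lit 18226] (nat_lit 0) [nat_lit 11668] false,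
   Spec.mk (nat_lit 18234) (nat_lit 3) [nat_lit 16776, nat_lit 17748, nat_lit 18252, nat_lit 18228] (nat_lit 0) [nat_lit 11674] false,
   Spec.mk (nat_lit 18252) (nat_lit 3) [nat_lit 16794, nat_lit 17766, nat_lit 18306, nat_lit 18234] (nat_lit 0) [nat_lit 11692] false,
   Spec.mk (nat_lit 18306) (nat_lit 3) [nat_lit 16848, nat_lit 17820, nat_lit 18468, nat_lit 18252] (nat_lit 0) [nat_lit 11746] false,
   Spec.mk (nat_lit 18468) (nat_lit 4) [nat_lit 17010, nat_lit 17982, nat_lit 18954, nat_lit 18306] (nat_lit 0) [nat_lit 11908] false,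
   Spec.mk (nat_lit 18954) (nat_lit 5) [nat_lit 18468] (nat_lit 0) [nat_lit 12394] false]

noncomputable def specs : List (List Spec) :=
    sp0 :: sp1 :: sp2 :: sp3 :: sp4 :: sp5 :: sp6 :: sp7 :: sp8 :: sp9 :: sp10 :: sp11 :: sp12 ::
    sp13 :: sp14 :: sp15 :: sp16 :: sp17 :: sp18 :: sp19 :: sp20 :: sp21 :: sp22 :: sp23 :: sp24 ::
    sp25 :: []

noncomputable def step (e : Nat → Nat) (C ap an : Nat) (k :
    Nat → Nat → Nat → Nat → Nat → Nat → Nat → Nat → Nat → Nat → Nat → Nat → Nat → Nat → Nat → Nat →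
    Nat → Nat → Nat → Nat → Nat → Nat → Nat → Nat → Nat → Nat → Nat → Nat → Nat → Nat → Nat → Nat →
    Nat → Nat → Nat → Nat → Nat → Nat → Nat → Nat → Nat → Nat → Nat → Nat → Nat → Nat → Nat → Nat →
    Nat → Nat → Nat → Nat → Nat → Nat → Nat → Nat → Nat → Nat → Nat → Nat → Nat → Nat → Nat → Nat →
    Nat → Nat → Nat → Nat → Nat → Nat → Nat → Nat → Nat → Nat → Nat → Nat → Nat → Nat → Nat → Nat →
    Nat → Nat → Nat → Nat → Nat → Nat → Nat → Nat → Nat → Nat → Nat → Nat → Nat → Nat → Nat → Nat →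
    Nat → Nat → Nat → Nat → Nat → Nat → Nat → Nat → Nat → Nat → Nat → Nat → Nat → Nat → Nat → Nat →
    Nat → Nat → Nat → Nat → Nat → Nat → Nat → Nat → Nat → Nat → Nat → Nat → Nat → Nat → Nat → Nat →
    Nat → Nat → Nat → Nat → Nat → Nat → Nat → Nat → Nat → Nat → Nat → Nat → Nat → Nat → Nat → Nat →
    Nat → Nat → Nat → Nat → Nat → Nat → Nat → Nat → Nat → Nat → Nat → Nat → Nat → Nat → Nat → Nat →
    Nat → Nat → Nat → Nat → Nat → Nat → Nat → Nat → Nat → Nat → Nat → Nat → Nat → Nat → Nat → Nat →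
    Nat → Nat → Nat → Nat → Nat → Nat → Nat → Nat → Nat → Nat → Nat → Nat → Nat → Nat → Nat → Nat →
    Nat → Nat → Nat → Nat → Nat → Nat → Nat → Nat → Nat → Nat → Nat → Nat → Nat → Nat → Nat → Nat →
    Nat → Nat → Nat → Nat → Nat → Nat → Nat → Nat → Nat → Nat → Nat → Nat → Nat → Nat → Nat → Nat →
    Nat → Nat → Nat → Nat → Nat → Nat → Nat → Nat → Nat → Nat → Nat → Nat → Nat → Nat → Nat → Nat →
    Nat → Nat → Nat → Nat → Nat → Nat → Nat → Nat → Nat → Nat → Nat → Nat → Nat → Nat → Nat → Nat →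
    Nat → Nat → Nat → Nat → Nat → Nat → Nat → Nat → Nat → Nat → Nat → Nat → Nat → Nat → Nat → Nat →
    Nat → Nat → Nat → Nat → Nat → Nat → Nat → Nat → Nat → Nat → Nat → Nat → Nat → Nat → Nat → Nat →
    Nat → Nat → Nat → Nat → Nat → Nat → Nat → Nat → Nat → Nat → Nat → Nat → Nat → Nat → Nat → Nat →
    Nat → Nat → Nat → Nat → Nat → Nat → Nat → Nat → Nat → Nat → Nat → Nat → Nat → Nat → Nat → Nat →
    Nat → Nat → Nat → Nat → Nat → Nat → Nat → Nat → Nat → Nat → Nat → Nat → Nat → Nat → Nat → Nat →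
    Nat → Nat → Nat → Nat → Nat → Nat → Nat → Nat → Nat → Nat → Nat → Nat → Nat → Nat → Nat → Nat →
    Nat → Nat → Nat → Nat → Nat → Nat → Nat → Nat → Nat → Nat → Nat → Nat → Nat → Nat → Nat → Nat →
    Nat → Nat → Nat → Nat → Nat → Nat → Nat → Nat → Nat → Nat → Nat → Nat → Nat → Nat → Nat → Nat →
    Nat → Nat → Nat → Nat → Nat → Nat → Nat → Nat → Nat → Nat → Nat → Nat → Nat → Nat → Nat → Nat →
    Nat → Nat → Nat → Nat → Nat → Nat → Nat → Nat → Nat → Nat → Nat → Nat → Nat → Nat → Nat → Nat →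
    Nat → Nat → Nat → Nat → Nat → Nat → Nat → Nat → Nat → Nat → Nat → Nat → Nat → Nat → Nat → Nat →
    Nat → Nat → Nat → Nat → Nat → Nat → Nat → Nat → Nat → Nat → Nat → Nat → Nat → Nat → Nat → Nat →
    Nat → Nat → Nat → Nat → Nat → Nat → Nat → Nat → Nat → Nat → Nat → Nat → Nat → Nat → Nat → Nat →
    Nat → Nat → Nat → Nat → Nat → Nat → Nat → Nat → Nat → Nat → Nat → Nat → Nat → Nat → Nat → Nat →
    Nat → Nat → Nat → Nat → Nat → Nat → Nat → Nat → Nat → Nat → Nat → Nat → Nat → Nat → Nat → Nat →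
    Nat → Nat → Nat → Nat → Nat → Nat → Nat → Nat → Nat → Nat → Nat → Nat → Nat → Nat → Nat → Nat →
    Nat → Nat → Nat → Nat → Nat → Nat → Nat → Nat → Nat → Nat → Nat → Nat → Nat → Nat → Nat → Nat →
    Nat → Nat → Nat → Nat → Nat → Nat → Nat → Nat → Nat → Nat → Nat → Nat → Nat → Nat → Nat → Nat →
    Nat → Nat → Nat → Nat → Nat → Nat → Nat → Nat → Nat → Nat → Nat → Nat → Nat → Nat → Nat → Nat →
    Nat → Nat → Nat → Nat → Nat → Nat → Nat → Nat → Nat → Nat → Nat → Nat → Nat → Nat → Nat → Nat →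
    Nat → Nat → Nat → Nat → Nat → Nat → Nat → Nat → Nat → Nat → Nat → Nat → Nat → Nat → Nat → Nat →
    Nat → Nat → Nat → Nat → Nat → Nat → Nat → Nat → Nat → Nat → Nat → Nat → Nat → Nat → Nat → Nat →
    Nat → Nat → Nat → Nat → Nat → Nat → Nat → Nat → Nat → Nat → Nat → Nat → Nat → Nat → Nat → Nat →
    Nat → Nat → Nat → Nat → Nat → Nat → Nat → Nat → Nat → Nat → Nat → Nat → Nat → Nat → Nat → Nat →
    Nat → Nat → Nat → Nat → Nat → Nat → Nat → Nat → Nat → Nat → Nat → Nat → Nat → Nat → Nat → Nat →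
    Nat → Nat → Nat → Nat → Nat → Nat → Nat → Nat → Nat → Nat → Nat → Nat → Nat → Nat → Nat → Nat →
    Nat → Nat → Nat → Nat → Nat → Nat → Nat → Nat → Nat → Nat → Nat → Nat → Nat → Nat → Nat → Nat →
    Nat → Nat → Nat → Nat → Nat → Nat → Nat → Nat → Nat → Nat → Nat → Nat → Nat → Nat → Nat → Nat →
    Nat → Nat → Nat → Nat → Nat → Nat → Nat → Nat → Nat → Nat → Nat → Nat → Nat → Nat → Nat → Nat →
    Nat → Nat → Nat → Nat → Nat → Nat → Nat → Nat → Nat → Nat → Nat → Nat → Nat → Nat → Nat → Nat →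
    Nat → Nat → Nat → Nat → Nat → Nat → Nat → Nat → Nat → Nat → Nat → Nat → Nat → Nat → Nat → Nat →
    Nat → Nat → Nat → Nat → Nat → Nat → Nat → Nat → Nat → Nat → Nat → Nat → Nat → Nat → Nat → Nat →
    Nat → Nat → Nat → Nat → Nat → Nat → Nat → Nat → Nat → Nat → Nat → Nat → Nat → Nat → Nat → Nat →
    Nat → Nat → Nat → Nat → Nat → Nat → Nat → Nat → Nat → Nat → Nat → Nat → Nat → Nat → Nat → Nat →
    Nat → Nat → Nat → Nat → Nat → Nat → Nat → Nat → Nat → Nat → Nat → Nat → Nat → Nat → Nat → Nat →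
    Nat → Nat → Nat → Nat → Nat → Nat → Nat → Nat → Nat → Nat → Nat → Nat → Nat → Nat → Nat → Nat →
    Nat → Nat → Nat → Nat → Nat → Nat → Nat → Nat → Nat → Nat → Nat → Nat → Nat → Nat → Nat → Nat →
    Nat → Nat → Nat → Nat → Nat → Nat → Nat → Nat → Nat → Nat → Nat → Nat → Nat → Nat → Nat → Nat →
    Nat → Nat → Nat → Nat → Nat → Nat → Nat → Nat → Nat → Nat → Nat → Nat → Nat → Nat → Nat → Nat →
    Nat → Nat → Nat → Nat → Nat → Nat → Nat → Nat → Nat → Nat → Nat → Nat → Nat → Nat → Nat → Nat →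
    Nat → Nat → Nat → Nat → Nat → Nat → Nat → Nat → Nat → Nat → Nat → Nat → Nat → Nat → Nat → Nat →
    Nat → Nat → Nat → Nat → Nat → Nat → Nat → Nat → Nat → Nat → Nat → Nat → Nat → Nat → Nat → Nat →
    Nat → Nat → Nat → Nat → Nat → Nat → Nat → Nat → Nat → Nat → Nat → Nat → Nat → Nat → Nat → Nat →
    Nat → Nat → Nat → Nat → Nat → Nat → Nat → Nat → Nat → Nat → Nat → Nat → Nat → Nat → Nat → Nat →
    Nat → Nat → Nat → Nat → Nat → Nat → Nat → Nat → Nat → Nat → Nat → Nat → Nat → Nat → Nat → Nat →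
    Nat → Nat → Nat → Nat → Nat → Nat → Nat → Nat → Nat → Nat → Nat → Nat → Nat → Nat → Nat → Nat →
    Nat → Nat → Nat → Nat → Nat → Nat → Nat → Nat → Nat → Nat → Nat → Nat → Nat → Nat → Nat → Nat →
    Nat → Nat → Nat → Nat → Nat → Nat → Nat → Nat → Nat → Nat → Nat → Nat → Nat → Nat → Nat → Nat →
    Nat → Nat → Nat → Nat → Nat → Nat → Nat → Nat → Nat → Nat → Nat → Nat → Nat → Nat → Nat → Nat →
    Nat → Nat → Nat → Nat → Nat → Nat → Nat → Nat → Nat → Nat → Nat → Nat → Nat → Nat → Nat → Nat →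
    Nat → Nat → Nat → Nat → Nat → Nat → Nat → Nat → Nat → Nat → Nat → Nat → Nat → Nat → Nat → Nat →
    Nat → Nat → Nat → Nat → Nat → Nat → Nat → Nat → Nat → Nat → Nat → Nat → Nat → Nat → Nat → Nat →
    Nat → Nat → Nat → Nat → Nat → Nat → Nat → Nat → Nat → Nat → Nat → Nat → Nat → Nat → Nat → Nat →
    Nat → Nat → Nat → Nat → Nat → Nat → Nat → Nat → Nat → Nat → Nat → Nat → Nat → Nat → Nat → Nat →
    Nat → Nat → Nat → Nat → Nat → Nat → Nat → Nat → Nat → Nat → Nat → Nat → Nat → Nat → Nat → Nat →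
    Nat → Nat → Nat → Nat → Nat → Nat → Nat → Nat → Nat → Nat → Nat → Nat → Nat → Nat → Nat → Nat →
    Nat → Nat → Nat → Nat → Nat → Nat → Nat → Nat → Nat → Nat → Nat → Nat → Nat → Nat → Nat → Nat →
    Nat → Nat → Nat → Nat → Nat → Nat → Nat → Nat → Nat → Nat → Nat → Nat → Nat → Nat → Nat → Nat →
    Nat → Nat → Nat → Nat → Nat → Nat → Nat → Nat → Nat → Nat → Nat → Nat → Nat → Nat → Nat → Nat →
    Nat → Nat → Nat → Nat → Nat → Nat → Nat → Nat → Nat → Nat → Nat → Nat → Nat → Nat → Nat → Nat →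
    Nat → Nat → Nat → Nat → Nat → Nat → Nat → Nat → Nat → Nat → Nat → Nat → Nat → Nat → Nat → Nat →
    Nat → Nat → Nat → Nat → Nat → Nat → Nat → Nat → Nat → Nat → Nat → Nat → Nat → Nat → Nat → Nat →
    Nat → Nat → Nat → Nat → Nat → Nat → Nat → Nat → Nat → Nat → Nat → Nat → Nat → Nat → Nat → Nat →
    Nat → Nat → Nat → Nat → Nat → Nat → Nat → Nat → Nat → Nat → Nat → Nat → Nat → Nat → Nat → Nat →
    Nat → Nat → Nat → Nat → Nat → Nat → Nat → Nat → Nat → Nat → Nat → Nat → Nat → Nat → Nat → Nat →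
    Nat → Nat → Nat → Nat → Nat → Nat → Nat → Nat → Nat → Nat → Nat → Nat → Nat → Nat → Nat → Nat →
    Nat → Nat → Nat → Nat → Nat → Nat → Nat → Nat → Nat → Nat → Nat → Nat → Nat → Nat → Nat → Nat →
    Nat → Nat → Nat → Nat → Nat → Nat → Nat → Nat → Nat → Nat → Nat → Nat → Nat → Nat → Nat → Nat →
    Nat → Nat → Nat → Nat → Nat → Nat → Nat → Nat → Nat → Nat → Nat → Nat → Nat → Nat → Nat → Nat →
    Nat → Nat → Nat → Nat → Nat → Nat → Nat → Nat → Nat → Nat → Nat → Nat → Nat → Nat → Nat → Nat →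
    Nat → Nat → Nat → Nat → Nat → Nat → Nat → Nat → Nat → Nat → Nat → Nat → Nat → Nat → Nat → Nat →
    Nat → Nat → Nat → Nat → Nat → Nat → Nat → Nat → Nat → Nat → Nat → Nat → Nat → Nat → Nat → Nat →
    Nat → Nat → Nat → Nat → Nat → Nat → Nat → Nat → Nat → Nat → Nat → Nat → Nat → Nat → Nat → Nat →
    Nat → Nat → Nat → Nat → Nat → Nat → Nat → Nat → Nat → Nat → Nat → Nat → Nat → Nat → Nat → Nat →
    Nat → Nat → Nat → Nat → Nat → Nat → Nat → Nat → Nat → Nat → Nat → Nat → Nat → Nat → Nat → Nat →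
    Nat → Nat → Nat → Nat → Nat → Nat → Nat → Nat → Nat → Nat → Nat → Nat → Nat → Nat → Nat → Nat →
    Nat → Nat → Nat → Nat → Nat → Nat → Nat → Nat → Nat → Nat → Nat → Nat → Nat → Nat → Nat → Nat →
    Nat → Nat → Nat → Nat → Nat → Nat → Nat → Nat → Nat → Nat → Nat → Nat → Nat → Nat → Nat → Nat →
    Nat → Nat → Nat → Nat → Nat → Nat → Nat → Nat → Nat → Nat → Nat → Nat → Nat → Nat → Nat → Nat →
    Nat → Nat → Nat → Nat → Nat → Nat → Nat → Nat → Nat → Nat → Nat → Nat → Nat → Nat → Nat → Nat →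
    Nat → Nat → Nat → Nat → Nat → Nat → Nat → Nat → Nat → Nat → Nat → Nat → Nat → Nat → Nat → Nat →
    Nat → Nat → Bool)
  (
    x26 x44 x50 x52 x62 x68 x70 x74 x76 x78 x98 x104 x106 x116 x122 x124 x128 x130 x132 x140 x142
    x146 x148 x150 x154 x156 x170 x176 x178 x182 x184 x186 x194 x196 x200 x202 x204 x208 x210 x218
    x220 x222 x226 x228 x234 x260 x266 x268 x278 x284 x286 x290 x292 x294 x302 x304 x308 x310 x312
    x316 x318 x332 x338 x340 x344 x346 x348 x356 x358 x362 x364 x366 x370 x372 x380 x382 x384 x388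
    x390 x396 x410 x412 x416 x418 x420 x424 x426 x434 x436 x438 x442 x444 x450 x460 x462 x468 x494
    x500 x502 x506 x508 x510 x518 x520 x524 x526 x528 x532 x534 x542 x544 x546 x550 x552 x558 x572
    x574 x578 x580 x582 x586 x588 x596 x598 x600 x604 x606 x612 x622 x624 x630 x650 x652 x654 x658
    x660 x666 x676 x678 x684 x702 x746 x752 x754 x764 x770 x772 x776 x778 x780 x788 x790 x794 x796
    x798 x802 x804 x818 x824 x826 x830 x832 x834 x842 x844 x848 x850 x852 x856 x858 x866 x868 x870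
    x874 x876 x882 x896 x898 x902 x904 x906 x910 x912 x920 x922 x924 x928 x930 x936 x946 x948 x954
    x980 x986 x988 x992 x994 x996 x1004 x1006 x1010 x1012 x1014 x1018 x1020 x1028 x1030 x1032 x1036
    x1038 x1044 x1058 x1060 x1064 x1066 x1068 x1072 x1074 x1082 x1084 x1086 x1090 x1092 x1098 x1108
    x1110 x1116 x1136 x1138 x1140 x1144 x1146 x1152 x1162 x1164 x1170 x1188 x1220 x1222 x1226 x1228
    x1230 x1234 x1236 x1244 x1246 x1248 x1252 x1254 x1260 x1270 x1272 x1278 x1298 x1300 x1302 x1306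
    x1308 x1314 x1324 x1326 x1332 x1350 x1378 x1380 x1386 x1404 x1466 x1472 x1474 x1478 x1480 x1482
    x1490 x1492 x1496 x1498 x1500 x1504 x1506 x1514 x1516 x1518 x1522 x1524 x1530 x1544 x1546 x1550
    x1552 x1554 x1558 x1560 x1568 x1570 x1572 x1576 x1578 x1584 x1594 x1596 x1602 x1622 x1624 x1626
    x1630 x1632 x1638 x1648 x1650 x1656 x1674 x1706 x1708 x1712 x1714 x1716 x1720 x1722 x1730 x1732
    x1734 x1738 x1740 x1746 x1756 x1758 x1764 x1784 x1786 x1788 x1792 x1794 x1800 x1810 x1812 x1818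
    x1836 x1864 x1866 x1872 x1890 x1946 x1948 x1950 x1954 x1956 x1962 x1972 x1974 x1980 x1998 x2026
    x2028 x2034 x2052 x2106 x2204 x2210 x2212 x2222 x2228 x2230 x2234 x2236 x2238 x2246 x2248 x2252
    x2254 x2256 x2260 x2262 x2276 x2282 x2284 x2288 x2290 x2292 x2300 x2302 x2306 x2308 x2310 x2314
    x2316 x2324 x2326 x2328 x2332 x2334 x2340 x2354 x2356 x2360 x2362 x2364 x2368 x2370 x2378 x2380
    x2382 x2386 x2388 x2394 x2404 x2406 x2412 x2438 x2444 x2446 x2450 x2452 x2454 x2462 x2464 x2468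
    x2470 x2472 x2476 x2478 x2486 x2488 x2490 x2494 x2496 x2502 x2516 x2518 x2522 x2524 x2526 x2530
    x2532 x2540 x2542 x2544 x2548 x2550 x2556 x2566 x2568 x2574 x2594 x2596 x2598 x2602 x2604 x2610
    x2620 x2622 x2628 x2646 x2678 x2680 x2684 x2686 x2688 x2692 x2694 x2702 x2704 x2706 x2710 x2712
    x2718 x2728 x2730 x2736 x2756 x2758 x2760 x2764 x2766 x2772 x2782 x2784 x2790 x2808 x2836 x2838
    x2844 x2862 x2924 x2930 x2932 x2936 x2938 x2940 x2948 x2950 x2954 x2956 x2958 x2962 x2964 x2972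
    x2974 x2976 x2980 x2982 x2988 x3002 x3004 x3008 x3010 x3012 x3016 x3018 x3026 x3028 x3030 x3034
    x3036 x3042 x3052 x3054 x3060 x3080 x3082 x3084 x3088 x3090 x3096 x3106 x3108 x3114 x3132 x3164
    x3166 x3170 x3172 x3174 x3178 x3180 x3188 x3190 x3192 x3196 x3198 x3204 x3214 x3216 x3222 x3242
    x3244 x3246 x3250 x3252 x3258 x3268 x3270 x3276 x3294 x3322 x3324 x3330 x3348 x3404 x3406 x3408
    x3412 x3414 x3420 x3430 x3432 x3438 x3456 x3484 x3486 x3492 x3510 x3564 x3650 x3652 x3656 x3658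
    x3660 x3664 x3666 x3674 x3676 x3678 x3682 x3684 x3690 x3700 x3702 x3708 x3728 x3730 x3732 x3736
    x3738 x3744 x3754 x3756 x3762 x3780 x3808 x3810 x3816 x3834 x3890 x3892 x3894 x3898 x3900 x3906
    x3916 x3918 x3924 x3942 x3970 x3972 x3978 x3996 x4050 x4132 x4134 x4140 x4158 x4212 x4382 x4388
    x4390 x4394 x4396 x4398 x4406 x4408 x4412 x4414 x4416 x4420 x4422 x4430 x4432 x4434 x4438 x4440
    x4446 x4460 x4462 x4466 x4468 x4470 x4474 x4476 x4484 x4486 x4488 x4492 x4494 x4500 x4510 x4512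
    x4518 x4538 x4540 x4542 x4546 x4548 x4554 x4564 x4566 x4572 x4590 x4622 x4624 x4628 x4630 x4632
    x4636 x4638 x4646 x4648 x4650 x4654 x4656 x4662 x4672 x4674 x4680 x4700 x4702 x4704 x4708 x4710
    x4716 x4726 x4728 x4734 x4752 x4780 x4782 x4788 x4806 x4862 x4864 x4866 x4870 x4872 x4878 x4888
    x4890 x4896 x4914 x4942 x4944 x4950 x4968 x5022 x5108 x5110 x5114 x5116 x5118 x5122 x5124 x5132
    x5134 x5136 x5140 x5142 x5148 x5158 x5160 x5166 x5186 x5188 x5190 x5194 x5196 x5202 x5212 x5214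
    x5220 x5238 x5266 x5268 x5274 x5292 x5348 x5350 x5352 x5356 x5358 x5364 x5374 x5376 x5382 x5400
    x5428 x5430 x5436 x5454 x5508 x5590 x5592 x5598 x5616 x5670 x5834 x5836 x5838 x5842 x5844 x5850
    x5860 x5862 x5868 x5886 x5914 x5916 x5922 x5940 x5994 x6076 x6078 x6084 x6102 x6156 x6318 x6578
    x6584 x6586 x6596 x6602 x6604 x6608 x6610 x6612 x6620 x6622 x6626 x6628 x6630 x6634 x6636 x6650
    x6656 x6658 x6662 x6664 x6666 x6674 x6676 x6680 x6682 x6684 x6688 x6690 x6698 x6700 x6702 x6706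
    x6708 x6714 x6728 x6730 x6734 x6736 x6738 x6742 x6744 x6752 x6754 x6756 x6760 x6762 x6768 x6778
    x6780 x6786 x6812 x6818 x6820 x6824 x6826 x6828 x6836 x6838 x6842 x6844 x6846 x6850 x6852 x6860
    x6862 x6864 x6868 x6870 x6876 x6890 x6892 x6896 x6898 x6900 x6904 x6906 x6914 x6916 x6918 x6922
    x6924 x6930 x6940 x6942 x6948 x6968 x6970 x6972 x6976 x6978 x6984 x6994 x6996 x7002 x7020 x7052
    x7054 x7058 x7060 x7062 x7066 x7068 x7076 x7078 x7080 x7084 x7086 x7092 x7102 x7104 x7110 x7130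
    x7132 x7134 x7138 x7140 x7146 x7156 x7158 x7164 x7182 x7210 x7212 x7218 x7236 x7298 x7304 x7306
    x7310 x7312 x7314 x7322 x7324 x7328 x7330 x7332 x7336 x7338 x7346 x7348 x7350 x7354 x7356 x7362
    x7376 x7378 x7382 x7384 x7386 x7390 x7392 x7400 x7402 x7404 x7408 x7410 x7416 x7426 x7428 x7434
    x7454 x7456 x7458 x7462 x7464 x7470 x7480 x7482 x7488 x7506 x7538 x7540 x7544 x7546 x7548 x7552
    x7554 x7562 x7564 x7566 x7570 x7572 x7578 x7588 x7590 x7596 x7616 x7618 x7620 x7624 x7626 x7632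
    x7642 x7644 x7650 x7668 x7696 x7698 x7704 x7722 x7778 x7780 x7782 x7786 x7788 x7794 x7804 x7806
    x7812 x7830 x7858 x7860 x7866 x7884 x7938 x8024 x8026 x8030 x8032 x8034 x8038 x8040 x8048 x8050
    x8052 x8056 x8058 x8064 x8074 x8076 x8082 x8102 x8104 x8106 x8110 x8112 x8118 x8128 x8130 x8136
    x8154 x8182 x8184 x8190 x8208 x8264 x8266 x8268 x8272 x8274 x8280 x8290 x8292 x8298 x8316 x8344
    x8346 x8352 x8370 x8424 x8506 x8508 x8514 x8532 x8586 x8756 x8762 x8764 x8768 x8770 x8772 x8780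
    x8782 x8786 x8788 x8790 x8794 x8796 x8804 x8806 x8808 x8812 x8814 x8820 x8834 x8836 x8840 x8842
    x8844 x8848 x8850 x8858 x8860 x8862 x8866 x8868 x8874 x8884 x8886 x8892 x8912 x8914 x8916 x8920
    x8922 x8928 x8938 x8940 x8946 x8964 x8996 x8998 x9002 x9004 x9006 x9010 x9012 x9020 x9022 x9024
    x9028 x9030 x9036 x9046 x9048 x9054 x9074 x9076 x9078 x9082 x9084 x9090 x9100 x9102 x9108 x9126
    x9154 x9156 x9162 x9180 x9236 x9238 x9240 x9244 x9246 x9252 x9262 x9264 x9270 x9288 x9316 x9318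
    x9324 x9342 x9396 x9482 x9484 x9488 x9490 x9492 x9496 x9498 x9506 x9508 x9510 x9514 x9516 x9522
    x9532 x9534 x9540 x9560 x9562 x9564 x9568 x9570 x9576 x9586 x9588 x9594 x9612 x9640 x9642 x9648
    x9666 x9722 x9724 x9726 x9730 x9732 x9738 x9748 x9750 x9756 x9774 x9802 x9804 x9810 x9828 x9882
    x9964 x9966 x9972 x9990 x10044 x10208 x10210 x10212 x10216 x10218 x10224 x10234 x10236 x10242
    x10260 x10288 x10290 x10296 x10314 x10368 x10450 x10452 x10458 x10476 x10530 x10692 x10940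
    x10942 x10946 x10948 x10950 x10954 x10956 x10964 x10966 x10968 x10972 x10974 x10980 x10990
    x10992 x10998 x11018 x11020 x11022 x11026 x11028 x11034 x11044 x11046 x11052 x11070 x11098
    x11100 x11106 x11124 x11180 x11182 x11184 x11188 x11190 x11196 x11206 x11208 x11214 x11232
    x11260 x11262 x11268 x11286 x11340 x11422 x11424 x11430 x11448 x11502 x11666 x11668 x11670
    x11674 x11676 x11682 x11692 x11694 x11700 x11718 x11746 x11748 x11754 x11772 x11826 x11908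
    x11910 x11916 x11934 x11988 x12150 x12394 x12396 x12402 x12420 x12474 x12636 x13130 x13136
    x13138 x13142 x13144 x13146 x13154 x13156 x13160 x13162 x13164 x13168 x13170 x13178 x13180
    x13182 x13186 x13188 x13194 x13208 x13210 x13214 x13216 x13218 x13222 x13224 x13232 x13234
    x13236 x13240 x13242 x13248 x13258 x13260 x13266 x13286 x13288 x13290 x13294 x13296 x13302
    x13312 x13314 x13320 x13338 x13370 x13372 x13376 x13378 x13380 x13384 x13386 x13394 x13396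
    x13398 x13402 x13404 x13410 x13420 x13422 x13428 x13448 x13450 x13452 x13456 x13458 x13464
    x13474 x13476 x13482 x13500 x13528 x13530 x13536 x13554 x13610 x13612 x13614 x13618 x13620
    x13626 x13636 x13638 x13644 x13662 x13690 x13692 x13698 x13716 x13770 x13856 x13858 x13862
    x13864 x13866 x13870 x13872 x13880 x13882 x13884 x13888 x13890 x13896 x13906 x13908 x13914
    x13934 x13936 x13938 x13942 x13944 x13950 x13960 x13962 x13968 x13986 x14014 x14016 x14022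
    x14040 x14096 x14098 x14100 x14104 x14106 x14112 x14122 x14124 x14130 x14148 x14176 x14178
    x14184 x14202 x14256 x14338 x14340 x14346 x14364 x14418 x14582 x14584 x14586 x14590 x14592
    x14598 x14608 x14610 x14616 x14634 x14662 x14664 x14670 x14688 x14742 x14824 x14826 x14832
    x14850 x14904 x15066 x15314 x15316 x15320 x15322 x15324 x15328 x15330 x15338 x15340 x15342
    x15346 x15348 x15354 x15364 x15366 x15372 x15392 x15394 x15396 x15400 x15402 x15408 x15418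
    x15420 x15426 x15444 x15472 x15474 x15480 x15498 x15554 x15556 x15558 x15562 x15564 x15570
    x15580 x15582 x15588 x15606 x15634 x15636 x15642 x15660 x15714 x15796 x15798 x15804 x15822
    x15876 x16040 x16042 x16044 x16048 x16050 x16056 x16066 x16068 x16074 x16092 x16120 x16122
    x16128 x16146 x16200 x16282 x16284 x16290 x16308 x16362 x16524 x16768 x16770 x16776 x16794
    x16848 x17010 x17498 x17500 x17502 x17506 x17508 x17514 x17524 x17526 x17532 x17550 x17578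
    x17580 x17586 x17604 x17658 x17740 x17742 x17748 x17766 x17820 x17982 x18226 x18228 x18234
    x18252 x18306 x18468 x18954 : Nat) : Bool :=
  k
    (Nat.sub (Nat.sub (Nat.add (Nat.add (Nat.add C (Nat.mul x26 (nat_lit 5))) x44) (Nat.mul (e (nat_lit 26)) ap)) x6586) (Nat.mul (e (nat_lit 26)) an))
    (Nat.sub (Nat.sub (Nat.add (Nat.add (Nat.add (Nat.add (Nat.add (Nat.add C (Nat.mul x44 (nat_lit 4))) x98) x26) x62) x50) (Nat.mul (e (nat_lit 44)) ap)) x6604) (Nat.mul (e (nat_lit 44)) an))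
    (Nat.sub (Nat.sub (Nat.add (Nat.add (Nat.add (Nat.add (Nat.add (Nat.add C (Nat.mul x50 (nat_lit 3))) x104) x68) x44) x52) (Nat.mul (e (nat_lit 50)) ap)) x6610) (Nat.mul (e (nat_lit 50)) an))
    (Nat.sub (Nat.sub (Nat.add (Nat.add (Nat.add (Nat.add (Nat.add C (Nat.mul x52 (nat_lit 5))) x106) x70) x50) (Nat.mul (e (nat_lit 52)) ap)) x6612) (Nat.mul (e (nat_lit 52)) an))
    (Nat.sub (Nat.sub (Nat.add (Nat.add (Nat.add (Nat.add (Nat.add C x62) x116) x44) x68) (Nat.mul (e (nat_lit 62)) ap)) x6622) (Nat.mul (e (nat_lit 62)) an))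
    (Nat.sub (Nat.sub (Nat.add (Nat.add (Nat.add (Nat.add (Nat.add (Nat.add (Nat.add C (Nat.mul x68 (nat_lit 2))) x122) x50) x62) x74) x70) (Nat.mul (e (nat_lit 68)) ap)) x6628) (Nat.mul (e (nat_lit 68)) an))
    (Nat.sub (Nat.add (Nat.add (Nat.add (Nat.add (Nat.add C (Nat.mul x70 (nat_lit 3))) x124) x52) x76) x68) x6630)
    (Nat.sub (Nat.add (Nat.add (Nat.add (Nat.add C x74) x128) x68) x76) x6634)
    (Nat.sub (Nat.add (Nat.add (Nat.add (Nat.add (Nat.add C (Nat.mul x76 (nat_lit 4))) x130) x70) x74) x78) x6636)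
    (Nat.add (Nat.add (Nat.add C (Nat.mul x78 (nat_lit 5))) x132) x76)
    (Nat.sub (Nat.sub (Nat.add (Nat.add (Nat.add (Nat.add (Nat.add (Nat.add C (Nat.mul x98 (nat_lit 3))) x260) x44) x116) x104) (Nat.mul (e (nat_lit 98)) ap)) x6658) (Nat.mul (e (nat_lit 98)) an))
    (Nat.sub (Nat.sub (Nat.add (Nat.add (Nat.add (Nat.add (Nat.add (Nat.add (Nat.add C x104) x266) x50) x122) x98) x106) (Nat.mul (e (nat_lit 104)) ap)) x6664) (Nat.mul (e (nat_lit 104)) an))
    (Nat.sub (Nat.sub (Nat.add (Nat.add (Nat.add (Nat.add (Nat.add (Nat.add C (Nat.mul x106 (nat_lit 3))) x268) x52) x124) x104) (Nat.mul (e (nat_lit 106)) ap)) x6666) (Nat.mul (e (nat_lit 106)) an))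
    (Nat.sub (Nat.sub (Nat.add (Nat.add (Nat.add (Nat.add (Nat.add (Nat.add (Nat.add C (Nat.mul x116 (nat_lit 2))) x278) x62) x170) x98) x122) (Nat.mul (e (nat_lit 116)) ap)) x6676) (Nat.mul (e (nat_lit 116)) an))
    (Nat.sub (Nat.sub (Nat.add (Nat.add (Nat.add (Nat.add (Nat.add (Nat.add (Nat.add (Nat.add (Nat.add (Nat.add C (Nat.mul x122 (nat_lit 2))) x284) x68) x176) x104) x140) x116) x128) x124) (Nat.mul (e (nat_lit 122)) ap)) x6682) (Nat.mul (e (nat_lit 122)) an))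
    (Nat.sub (Nat.sub (Nat.add (Nat.add (Nat.add (Nat.add (Nat.add (Nat.add (Nat.add (Nat.add (Nat.add C (Nat.mul x124 (nat_lit 3))) x286) x70) x178) x106) x142) x130) x122) (Nat.mul (e (nat_lit 124)) ap)) x6684) (Nat.mul (e (nat_lit 124)) an))
    (Nat.sub (Nat.sub (Nat.add (Nat.add (Nat.add (Nat.add (Nat.add (Nat.add (Nat.add C x290) x74) x182) x146) x122) x130) (Nat.mul (e (nat_lit 128)) ap)) x6688) (Nat.mul (e (nat_lit 128)) an))
    (Nat.sub (Nat.sub (Nat.add (Nat.add (Nat.add (Nat.add (Nat.add (Nat.add (Nat.add (Nat.add (Nat.add C (Nat.mul x130 (nat_lit 3))) x292) x76) x184) x148) x124) x128) x132) (Nat.mul (e (nat_lit 130)) ap)) x6690) (Nat.mul (e (nat_lit 130)) an))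
    (Nat.add (Nat.add (Nat.add (Nat.add (Nat.add (Nat.add C (Nat.mul x132 (nat_lit 4))) x294) x78) x186) x150) x130)
    (Nat.sub (Nat.sub (Nat.add (Nat.add (Nat.add (Nat.add (Nat.add (Nat.add (Nat.add C x140) x302) x194) x122) x146) x142) (Nat.mul (e (nat_lit 140)) ap)) x6700) (Nat.mul (e (nat_lit 140)) an))
    (Nat.sub (Nat.sub (Nat.add (Nat.add (Nat.add (Nat.add (Nat.add (Nat.add (Nat.add C x142) x304) x196) x124) x148) x140) (Nat.mul (e (nat_lit 142)) ap)) x6702) (Nat.mul (e (nat_lit 142)) an))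
    (Nat.sub (Nat.sub (Nat.add (Nat.add (Nat.add (Nat.add (Nat.add (Nat.add (Nat.add C x146) x308) x200) x128) x140) x148) (Nat.mul (e (nat_lit 146)) ap)) x6706) (Nat.mul (e (nat_lit 146)) an))
    (Nat.sub (Nat.add (Nat.add (Nat.add (Nat.add (Nat.add (Nat.add (Nat.add (Nat.add C (Nat.mul x148 (nat_lit 3))) x310) x202) x130) x142) x154) x146) x150) x6708)
    (Nat.add (Nat.add (Nat.add (Nat.add (Nat.add (Nat.add C (Nat.mul x150 (nat_lit 3))) x312) x204) x132) x156) x148)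
    (Nat.sub (Nat.add (Nat.add (Nat.add (Nat.add (Nat.add C (Nat.mul x154 (nat_lit 3))) x316) x208) x148) x156) x6714)
    (Nat.add (Nat.add (Nat.add (Nat.add (Nat.add C (Nat.mul x156 (nat_lit 5))) x318) x210) x150) x154)
    (Nat.sub (Nat.sub (Nat.add (Nat.add (Nat.add (Nat.add (Nat.add C x170) x332) x116) x176) (Nat.mul (e (nat_lit 170)) ap)) x6730) (Nat.mul (e (nat_lit 170)) an))
    (Nat.sub (Nat.sub (Nat.add (Nat.add (Nat.add (Nat.add (Nat.add (Nat.add (Nat.add C x338) x122) x194) x170) x182) x178) (Nat.mul (e (nat_lit 176)) ap)) x6736) (Nat.mul (e (nat_lit 176)) an))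
    (Nat.sub (Nat.add (Nat.add (Nat.add (Nat.add (Nat.add (Nat.add C x178) x340) x124) x196) x184) x176) x6738)
    (Nat.sub (Nat.sub (Nat.sub (Nat.add (Nat.add (Nat.add (Nat.add (Nat.add (Nat.add C x344) x128) x200) x176) x184) (Nat.mul (e (nat_lit 182)) ap)) (Nat.mul x182 (nat_lit 3))) x6742) (Nat.mul (e (nat_lit 182)) an))
    (Nat.sub (Nat.add (Nat.add (Nat.add (Nat.add (Nat.add (Nat.add C x346) x130) x202) x178) x182) x186) x6744)
    (Nat.add (Nat.add (Nat.add (Nat.add (Nat.add C x186) x348) x132) x204) x184)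
    (Nat.sub (Nat.sub (Nat.add (Nat.add (Nat.add (Nat.add (Nat.add (Nat.add (Nat.add C x194) x356) x140) x176) x200) x196) (Nat.mul (e (nat_lit 194)) ap)) x6754) (Nat.mul (e (nat_lit 194)) an))
    (Nat.sub (Nat.add (Nat.add (Nat.add (Nat.add (Nat.add (Nat.add C x196) x358) x142) x178) x202) x194) x6756)
    (Nat.sub (Nat.add (Nat.add (Nat.add (Nat.add (Nat.add (Nat.add C x362) x146) x182) x218) x194) x202) x6760)
    (Nat.sub (Nat.add (Nat.add (Nat.add (Nat.add (Nat.add (Nat.add (Nat.add (Nat.add (Nat.add C (Nat.mul x202 (nat_lit 2))) x364) x148) x184) x220) x196) x208) x200) x204) x6762)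
    (Nat.add (Nat.add (Nat.add (Nat.add (Nat.add (Nat.add (Nat.add C (Nat.mul x204 (nat_lit 2))) x366) x150) x186) x222) x210) x202)
    (Nat.sub (Nat.add (Nat.add (Nat.add (Nat.add (Nat.add (Nat.add C x208) x370) x154) x226) x202) x210) x6768)
    (Nat.add (Nat.add (Nat.add (Nat.add (Nat.add (Nat.add C (Nat.mul x210 (nat_lit 3))) x372) x156) x228) x204) x208)
    (Nat.sub (Nat.add (Nat.add (Nat.add (Nat.add C x218) x380) x200) x220) x6778)
    (Nat.sub (Nat.add (Nat.add (Nat.add (Nat.add (Nat.add (Nat.add C (Nat.mul x220 (nat_lit 2))) x382) x202) x226) x218) x222) x6780)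
    (Nat.add (Nat.add (Nat.add (Nat.add (Nat.add C x222) x384) x204) x228) x220)
    (Nat.sub (Nat.add (Nat.add (Nat.add (Nat.add (Nat.add C (Nat.mul x226 (nat_lit 3))) x388) x208) x220) x228) x6786)
    (Nat.add (Nat.add (Nat.add (Nat.add (Nat.add (Nat.add C (Nat.mul x228 (nat_lit 4))) x390) x210) x222) x234) x226)
    (Nat.add (Nat.add (Nat.add C (Nat.mul x234 (nat_lit 5))) x396) x228)
    (Nat.sub (Nat.sub (Nat.add (Nat.add (Nat.add (Nat.add (Nat.add (Nat.add C (Nat.mul x260 (nat_lit 3))) x746) x98) x278) x266) (Nat.mul (e (nat_lit 260)) ap)) x6820) (Nat.mul (e (nat_lit 260)) an))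
    (Nat.sub (Nat.sub (Nat.add (Nat.add (Nat.add (Nat.add (Nat.add (Nat.add (Nat.add C x266) x752) x104) x284) x260) x268) (Nat.mul (e (nat_lit 266)) ap)) x6826) (Nat.mul (e (nat_lit 266)) an))
    (Nat.sub (Nat.sub (Nat.add (Nat.add (Nat.add (Nat.add (Nat.add (Nat.add C (Nat.mul x268 (nat_lit 3))) x754) x106) x286) x266) (Nat.mul (e (nat_lit 268)) ap)) x6828) (Nat.mul (e (nat_lit 268)) an))
    (Nat.sub (Nat.sub (Nat.add (Nat.add (Nat.add (Nat.add (Nat.add (Nat.add (Nat.add C x278) x764) x116) x332) x260) x284) (Nat.mul (e (nat_lit 278)) ap)) x6838) (Nat.mul (e (nat_lit 278)) an))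
    (Nat.sub (Nat.sub (Nat.add (Nat.add (Nat.add (Nat.add (Nat.add (Nat.add (Nat.add (Nat.add (Nat.add (Nat.add C x284) x770) x122) x338) x266) x302) x278) x290) x286) (Nat.mul (e (nat_lit 284)) ap)) x6844) (Nat.mul (e (nat_lit 284)) an))
    (Nat.sub (Nat.sub (Nat.add (Nat.add (Nat.add (Nat.add (Nat.add (Nat.add (Nat.add (Nat.add (Nat.add C (Nat.mul x286 (nat_lit 2))) x772) x124) x340) x268) x304) x292) x284) (Nat.mul (e (nat_lit 286)) ap)) x6846) (Nat.mul (e (nat_lit 286)) an))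
    (Nat.sub (Nat.sub (Nat.sub (Nat.add (Nat.add (Nat.add (Nat.add (Nat.add (Nat.add (Nat.add C x776) x128) x344) x308) x284) x292) (Nat.mul (e (nat_lit 290)) ap)) x290) x6850) (Nat.mul (e (nat_lit 290)) an))
    (Nat.sub (Nat.sub (Nat.add (Nat.add (Nat.add (Nat.add (Nat.add (Nat.add (Nat.add (Nat.add (Nat.add C (Nat.mul x292 (nat_lit 2))) x778) x130) x346) x310) x286) x290) x294) (Nat.mul (e (nat_lit 292)) ap)) x6852) (Nat.mul (e (nat_lit 292)) an))
    (Nat.add (Nat.add (Nat.add (Nat.add (Nat.add (Nat.add C (Nat.mul x294 (nat_lit 3))) x780) x132) x348) x312) x292)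
    (Nat.sub (Nat.sub (Nat.sub (Nat.add (Nat.add (Nat.add (Nat.add (Nat.add (Nat.add (Nat.add C x788) x140) x356) x284) x308) x304) (Nat.mul (e (nat_lit 302)) ap)) x302) x6862) (Nat.mul (e (nat_lit 302)) an))
    (Nat.sub (Nat.sub (Nat.sub (Nat.add (Nat.add (Nat.add (Nat.add (Nat.add (Nat.add (Nat.add C x790) x142) x358) x286) x310) x302) (Nat.mul (e (nat_lit 304)) ap)) x304) x6864) (Nat.mul (e (nat_lit 304)) an))
    (Nat.sub (Nat.sub (Nat.sub (Nat.add (Nat.add (Nat.add (Nat.add (Nat.add (Nat.add (Nat.add C x794) x146) x362) x290) x302) x310) (Nat.mul (e (nat_lit 308)) ap)) x308) x6868) (Nat.mul (e (nat_lit 308)) an))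
    (Nat.sub (Nat.sub (Nat.add (Nat.add (Nat.add (Nat.add (Nat.add (Nat.add (Nat.add (Nat.add (Nat.add (Nat.add C x310) x796) x148) x364) x292) x304) x316) x308) x312) (Nat.mul (e (nat_lit 310)) ap)) x6870) (Nat.mul (e (nat_lit 310)) an))
    (Nat.add (Nat.add (Nat.add (Nat.add (Nat.add (Nat.add (Nat.add C x312) x798) x150) x366) x294) x318) x310)
    (Nat.sub (Nat.sub (Nat.add (Nat.add (Nat.add (Nat.add (Nat.add (Nat.add (Nat.add C x316) x802) x154) x370) x310) x318) (Nat.mul (e (nat_lit 316)) ap)) x6876) (Nat.mul (e (nat_lit 316)) an))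
    (Nat.add (Nat.add (Nat.add (Nat.add (Nat.add (Nat.add C (Nat.mul x318 (nat_lit 3))) x804) x156) x372) x312) x316)
    (Nat.sub (Nat.sub (Nat.add (Nat.add (Nat.add (Nat.add (Nat.add (Nat.add (Nat.add C (Nat.mul x332 (nat_lit 2))) x818) x170) x494) x278) x338) (Nat.mul (e (nat_lit 332)) ap)) x6892) (Nat.mul (e (nat_lit 332)) an))
    (Nat.sub (Nat.sub (Nat.add (Nat.add (Nat.add (Nat.add (Nat.add (Nat.add (Nat.add (Nat.add (Nat.add (Nat.add C x338) x824) x176) x500) x284) x356) x332) x344) x340) (Nat.mul (e (nat_lit 338)) ap)) x6898) (Nat.mul (e (nat_lit 338)) an))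
    (Nat.sub (Nat.sub (Nat.add (Nat.add (Nat.add (Nat.add (Nat.add (Nat.add (Nat.add (Nat.add (Nat.add C (Nat.mul x340 (nat_lit 2))) x826) x178) x502) x286) x358) x346) x338) (Nat.mul (e (nat_lit 340)) ap)) x6900) (Nat.mul (e (nat_lit 340)) an))
    (Nat.sub (Nat.sub (Nat.sub (Nat.add (Nat.add (Nat.add (Nat.add (Nat.add (Nat.add (Nat.add (Nat.add C x830) x182) x506) x290) x362) x338) x346) (Nat.mul (e (nat_lit 344)) ap)) (Nat.mul x344 (nat_lit 2))) x6904) (Nat.mul (e (nat_lit 344)) an))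
    (Nat.sub (Nat.sub (Nat.add (Nat.add (Nat.add (Nat.add (Nat.add (Nat.add (Nat.add (Nat.add (Nat.add (Nat.add C x346) x832) x184) x508) x292) x364) x340) x344) x348) (Nat.mul (e (nat_lit 346)) ap)) x6906) (Nat.mul (e (nat_lit 346)) an))
    (Nat.add (Nat.add (Nat.add (Nat.add (Nat.add (Nat.add (Nat.add C (Nat.mul x348 (nat_lit 2))) x834) x186) x510) x294) x366) x346)
    (Nat.sub (Nat.sub (Nat.add (Nat.add (Nat.add (Nat.add (Nat.add (Nat.add (Nat.add (Nat.add (Nat.add (Nat.add C x356) x842) x194) x518) x302) x410) x338) x362) x358) (Nat.mul (e (nat_lit 356)) ap)) x6916) (Nat.mul (e (nat_lit 356)) an))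
    (Nat.sub (Nat.sub (Nat.add (Nat.add (Nat.add (Nat.add (Nat.add (Nat.add (Nat.add (Nat.add (Nat.add (Nat.add C x358) x844) x196) x520) x304) x412) x340) x364) x356) (Nat.mul (e (nat_lit 358)) ap)) x6918) (Nat.mul (e (nat_lit 358)) an))
    (Nat.sub (Nat.sub (Nat.add (Nat.add (Nat.add (Nat.add (Nat.add (Nat.add (Nat.add (Nat.add (Nat.add (Nat.add C x848) x200) x524) x308) x416) x344) x380) x356) x364) (Nat.mul (e (nat_lit 362)) ap)) x6922) (Nat.mul (e (nat_lit 362)) an))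
    (Nat.sub (Nat.sub (Nat.add (Nat.add (Nat.add (Nat.add (Nat.add (Nat.add (Nat.add (Nat.add (Nat.add (Nat.add (Nat.add (Nat.add (Nat.add C (Nat.mul x364 (nat_lit 2))) x850) x202) x526) x310) x418) x346) x382) x358) x370) x362) x366) (Nat.mul (e (nat_lit 364)) ap)) x6924) (Nat.mul (e (nat_lit 364)) an))
    (Nat.add (Nat.add (Nat.add (Nat.add (Nat.add (Nat.add (Nat.add (Nat.add (Nat.add (Nat.add C (Nat.mul x366 (nat_lit 2))) x852) x204) x528) x312) x420) x348) x384) x372) x364)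
    (Nat.sub (Nat.add (Nat.add (Nat.add (Nat.add (Nat.add (Nat.add (Nat.add (Nat.add (Nat.add C x370) x856) x208) x532) x316) x424) x388) x364) x372) x6930)
    (Nat.add (Nat.add (Nat.add (Nat.add (Nat.add (Nat.add (Nat.add (Nat.add (Nat.add C (Nat.mul x372 (nat_lit 3))) x858) x210) x534) x318) x426) x390) x366) x370)
    (Nat.sub (Nat.sub (Nat.add (Nat.add (Nat.add (Nat.add (Nat.add (Nat.add (Nat.add C x866) x218) x542) x434) x362) x382) (Nat.mul (e (nat_lit 380)) ap)) x6940) (Nat.mul (e (nat_lit 380)) an))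
    (Nat.sub (Nat.add (Nat.add (Nat.add (Nat.add (Nat.add (Nat.add (Nat.add (Nat.add (Nat.add C x382) x868) x220) x544) x436) x364) x388) x380) x384) x6942)
    (Nat.add (Nat.add (Nat.add (Nat.add (Nat.add (Nat.add (Nat.add C x870) x222) x546) x438) x366) x390) x382)
    (Nat.sub (Nat.add (Nat.add (Nat.add (Nat.add (Nat.add (Nat.add (Nat.add (Nat.add C (Nat.mul x388 (nat_lit 2))) x874) x226) x550) x442) x370) x382) x390) x6948)
    (Nat.add (Nat.add (Nat.add (Nat.add (Nat.add (Nat.add (Nat.add (Nat.add (Nat.add C (Nat.mul x390 (nat_lit 3))) x876) x228) x552) x444) x372) x384) x396) x388)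
    (Nat.add (Nat.add (Nat.add (Nat.add (Nat.add (Nat.add C (Nat.mul x396 (nat_lit 4))) x882) x234) x558) x450) x390)
    (Nat.sub (Nat.sub (Nat.add (Nat.add (Nat.add (Nat.add (Nat.add (Nat.add (Nat.add C x410) x896) x572) x356) x416) x412) (Nat.mul (e (nat_lit 410)) ap)) x6970) (Nat.mul (e (nat_lit 410)) an))
    (Nat.sub (Nat.sub (Nat.add (Nat.add (Nat.add (Nat.add (Nat.add (Nat.add (Nat.add C x412) x898) x574) x358) x418) x410) (Nat.mul (e (nat_lit 412)) ap)) x6972) (Nat.mul (e (nat_lit 412)) an))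
    (Nat.sub (Nat.sub (Nat.sub (Nat.add (Nat.add (Nat.add (Nat.add (Nat.add (Nat.add (Nat.add C x902) x578) x362) x434) x410) x418) (Nat.mul (e (nat_lit 416)) ap)) x416) x6976) (Nat.mul (e (nat_lit 416)) an))
    (Nat.sub (Nat.add (Nat.add (Nat.add (Nat.add (Nat.add (Nat.add (Nat.add (Nat.add (Nat.add C x418) x904) x580) x364) x436) x412) x424) x416) x420) x6978)
    (Nat.add (Nat.add (Nat.add (Nat.add (Nat.add (Nat.add (Nat.add C x420) x906) x582) x366) x438) x426) x418)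
    (Nat.sub (Nat.sub (Nat.add (Nat.add (Nat.add (Nat.add (Nat.add (Nat.add C x910) x586) x370) x442) x418) x426) x424) x6984)
    (Nat.add (Nat.add (Nat.add (Nat.add (Nat.add (Nat.add (Nat.add C x426) x912) x588) x372) x444) x420) x424)
    (Nat.sub (Nat.sub (Nat.add (Nat.add (Nat.add (Nat.add (Nat.add (Nat.add (Nat.add C x434) x920) x596) x380) x416) x436) (Nat.mul (e (nat_lit 434)) ap)) x6994) (Nat.mul (e (nat_lit 434)) an))
    (Nat.sub (Nat.add (Nat.add (Nat.add (Nat.add (Nat.add (Nat.add (Nat.add (Nat.add C (Nat.mul x436 (nat_lit 2))) x922) x598) x382) x418) x442) x434) x438) x6996)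
    (Nat.add (Nat.add (Nat.add (Nat.add (Nat.add (Nat.add (Nat.add C x438) x924) x600) x384) x420) x444) x436)
    (Nat.sub (Nat.add (Nat.add (Nat.add (Nat.add (Nat.add (Nat.add (Nat.add (Nat.add C (Nat.mul x442 (nat_lit 2))) x928) x604) x388) x424) x460) x436) x444) x7002)
    (Nat.add (Nat.add (Nat.add (Nat.add (Nat.add (Nat.add (Nat.add (Nat.add (Nat.add C (Nat.mul x444 (nat_lit 3))) x930) x606) x390) x426) x462) x438) x450) x442)
    (Nat.add (Nat.add (Nat.add (Nat.add (Nat.add (Nat.add C (Nat.mul x450 (nat_lit 3))) x936) x612) x396) x468) x444)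
    (Nat.sub (Nat.add (Nat.add (Nat.add (Nat.add (Nat.add C (Nat.mul x460 (nat_lit 3))) x946) x622) x442) x462) x7020)
    (Nat.add (Nat.add (Nat.add (Nat.add (Nat.add (Nat.add C (Nat.mul x462 (nat_lit 3))) x948) x624) x444) x468) x460)
    (Nat.add (Nat.add (Nat.add (Nat.add (Nat.add C (Nat.mul x468 (nat_lit 5))) x954) x630) x450) x462)
    (Nat.sub (Nat.sub (Nat.add (Nat.add (Nat.add (Nat.add (Nat.add C x494) x980) x332) x500) (Nat.mul (e (nat_lit 494)) ap)) x7054) (Nat.mul (e (nat_lit 494)) an))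
    (Nat.sub (Nat.sub (Nat.add (Nat.add (Nat.add (Nat.add (Nat.add (Nat.add (Nat.add C x986) x338) x518) x494) x506) x502) (Nat.mul (e (nat_lit 500)) ap)) x7060) (Nat.mul (e (nat_lit 500)) an))
    (Nat.sub (Nat.add (Nat.add (Nat.add (Nat.add (Nat.add (Nat.add C x502) x988) x340) x520) x508) x500) x7062)
    (Nat.sub (Nat.sub (Nat.sub (Nat.add (Nat.add (Nat.add (Nat.add (Nat.add (Nat.add C x992) x344) x524) x500) x508) (Nat.mul (e (nat_lit 506)) ap)) (Nat.mul x506 (nat_lit 3))) x7066) (Nat.mul (e (nat_lit 506)) an))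
    (Nat.sub (Nat.add (Nat.add (Nat.add (Nat.add (Nat.add (Nat.add C x994) x346) x526) x502) x506) x510) x7068)
    (Nat.add (Nat.add (Nat.add (Nat.add (Nat.add C x510) x996) x348) x528) x508)
    (Nat.sub (Nat.sub (Nat.sub (Nat.add (Nat.add (Nat.add (Nat.add (Nat.add (Nat.add (Nat.add C x1004) x356) x572) x500) x524) x520) (Nat.mul (e (nat_lit 518)) ap)) x518) x7078) (Nat.mul (e (nat_lit 518)) an))
    (Nat.sub (Nat.sub (Nat.add (Nat.add (Nat.add (Nat.add (Nat.add (Nat.add C x1006) x358) x574) x502) x526) x518) x520) x7080)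
    (Nat.sub (Nat.sub (Nat.sub (Nat.add (Nat.add (Nat.add (Nat.add (Nat.add (Nat.add (Nat.add (Nat.add C x1010) x362) x578) x506) x542) x518) x526) (Nat.mul (e (nat_lit 524)) ap)) (Nat.mul x524 (nat_lit 2))) x7084) (Nat.mul (e (nat_lit 524)) an))
    (Nat.sub (Nat.add (Nat.add (Nat.add (Nat.add (Nat.add (Nat.add (Nat.add (Nat.add (Nat.add C x1012) x364) x580) x508) x544) x520) x532) x524) x528) x7086)
    (Nat.add (Nat.add (Nat.add (Nat.add (Nat.add (Nat.add (Nat.add C x1014) x366) x582) x510) x546) x534) x526)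
    (Nat.sub (Nat.sub (Nat.add (Nat.add (Nat.add (Nat.add (Nat.add (Nat.add C x1018) x370) x586) x550) x526) x534) x532) x7092)
    (Nat.add (Nat.add (Nat.add (Nat.add (Nat.add (Nat.add (Nat.add C x534) x1020) x372) x588) x552) x528) x532)
    (Nat.sub (Nat.sub (Nat.add (Nat.add (Nat.add (Nat.add (Nat.add C x1028) x380) x596) x524) x544) (Nat.mul x542 (nat_lit 3))) x7102)
    (Nat.sub (Nat.sub (Nat.add (Nat.add (Nat.add (Nat.add (Nat.add (Nat.add (Nat.add C x1030) x382) x598) x526) x550) x542) x546) (Nat.mul x544 (nat_lit 2))) x7104)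
    (Nat.sub (Nat.add (Nat.add (Nat.add (Nat.add (Nat.add (Nat.add C x1032) x384) x600) x528) x552) x544) (Nat.mul x546 (nat_lit 3)))
    (Nat.sub (Nat.sub (Nat.add (Nat.add (Nat.add (Nat.add (Nat.add (Nat.add C x1036) x388) x604) x532) x544) x552) x550) x7110)
    (Nat.add (Nat.add (Nat.add (Nat.add (Nat.add (Nat.add (Nat.add C x1038) x390) x606) x534) x546) x558) x550)
    (Nat.add (Nat.add (Nat.add (Nat.add (Nat.add C x558) x1044) x396) x612) x552)
    (Nat.sub (Nat.sub (Nat.add (Nat.add (Nat.add (Nat.add (Nat.add (Nat.add (Nat.add C x572) x1058) x410) x518) x578) x574) (Nat.mul (e (nat_lit 572)) ap)) x7132) (Nat.mul (e (nat_lit 572)) an))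
    (Nat.sub (Nat.add (Nat.add (Nat.add (Nat.add (Nat.add (Nat.add C x574) x1060) x412) x520) x580) x572) x7134)
    (Nat.sub (Nat.sub (Nat.add (Nat.add (Nat.add (Nat.add (Nat.add (Nat.add C x1064) x416) x524) x596) x572) x580) x578) x7138)
    (Nat.sub (Nat.add (Nat.add (Nat.add (Nat.add (Nat.add (Nat.add (Nat.add (Nat.add (Nat.add C x580) x1066) x418) x526) x598) x574) x586) x578) x582) x7140)
    (Nat.add (Nat.add (Nat.add (Nat.add (Nat.add (Nat.add (Nat.add C x582) x1068) x420) x528) x600) x588) x580)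
    (Nat.sub (Nat.sub (Nat.add (Nat.add (Nat.add (Nat.add (Nat.add (Nat.add C x1072) x424) x532) x604) x580) x588) x586) x7146)
    (Nat.add (Nat.add (Nat.add (Nat.add (Nat.add (Nat.add (Nat.add C x588) x1074) x426) x534) x606) x582) x586)
    (Nat.sub (Nat.add (Nat.add (Nat.add (Nat.add (Nat.add (Nat.add C x1082) x434) x542) x650) x578) x598) x7156)
    (Nat.sub (Nat.add (Nat.add (Nat.add (Nat.add (Nat.add (Nat.add (Nat.add (Nat.add (Nat.add C x598) x1084) x436) x544) x652) x580) x604) x596) x600) x7158)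
    (Nat.add (Nat.add (Nat.add (Nat.add (Nat.add (Nat.add (Nat.add C x1086) x438) x546) x654) x582) x606) x598)
    (Nat.sub (Nat.add (Nat.add (Nat.add (Nat.add (Nat.add (Nat.add (Nat.add (Nat.add (Nat.add C x604) x1090) x442) x550) x658) x586) x622) x598) x606) x7164)
    (Nat.add (Nat.add (Nat.add (Nat.add (Nat.add (Nat.add (Nat.add (Nat.add (Nat.add (Nat.add C (Nat.mul x606 (nat_lit 2))) x1092) x444) x552) x660) x588) x624) x600) x612) x604)
    (Nat.add (Nat.add (Nat.add (Nat.add (Nat.add (Nat.add (Nat.add C (Nat.mul x612 (nat_lit 2))) x1098) x450) x558) x666) x630) x606)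
    (Nat.sub (Nat.add (Nat.add (Nat.add (Nat.add (Nat.add (Nat.add C x622) x1108) x460) x676) x604) x624) x7182)
    (Nat.add (Nat.add (Nat.add (Nat.add (Nat.add (Nat.add (Nat.add C x624) x1110) x462) x678) x606) x630) x622)
    (Nat.add (Nat.add (Nat.add (Nat.add (Nat.add (Nat.add C (Nat.mul x630 (nat_lit 3))) x1116) x468) x684) x612) x624)
    (Nat.sub (Nat.add (Nat.add (Nat.add (Nat.add C x650) x1136) x596) x652) x7210)
    (Nat.sub (Nat.add (Nat.add (Nat.add (Nat.add (Nat.add (Nat.add C (Nat.mul x652 (nat_lit 2))) x1138) x598) x658) x650) x654) x7212)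
    (Nat.add (Nat.add (Nat.add (Nat.add (Nat.add C x654) x1140) x600) x660) x652)
    (Nat.sub (Nat.add (Nat.add (Nat.add (Nat.add (Nat.add (Nat.add C x658) x1144) x604) x676) x652) x660) x7218)
    (Nat.add (Nat.add (Nat.add (Nat.add (Nat.add (Nat.add (Nat.add C (Nat.mul x660 (nat_lit 2))) x1146) x606) x678) x654) x666) x658)
    (Nat.add (Nat.add (Nat.add (Nat.add (Nat.add C x666) x1152) x612) x684) x660)
    (Nat.sub (Nat.add (Nat.add (Nat.add (Nat.add (Nat.add C (Nat.mul x676 (nat_lit 3))) x1162) x622) x658) x678) x7236)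
    (Nat.add (Nat.add (Nat.add (Nat.add (Nat.add (Nat.add C (Nat.mul x678 (nat_lit 3))) x1164) x624) x660) x684) x676)
    (Nat.add (Nat.add (Nat.add (Nat.add (Nat.add (Nat.add C (Nat.mul x684 (nat_lit 4))) x1170) x630) x666) x702) x678)
    (Nat.add (Nat.add (Nat.add C (Nat.mul x702 (nat_lit 5))) x1188) x684)
    (Nat.sub (Nat.add (Nat.add (Nat.add (Nat.add (Nat.add C (Nat.mul x746 (nat_lit 3))) x2204) x260) x764) x752) x7306)
    (Nat.sub (Nat.add (Nat.add (Nat.add (Nat.add (Nat.add (Nat.add C x752) x2210) x266) x770) x746) x754) x7312)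
    (Nat.sub (Nat.add (Nat.add (Nat.add (Nat.add (Nat.add C (Nat.mul x754 (nat_lit 3))) x2212) x268) x772) x752) x7314)
    (Nat.sub (Nat.sub (Nat.add (Nat.add (Nat.add (Nat.add (Nat.add (Nat.add (Nat.add C x764) x2222) x278) x818) x746) x770) (Nat.mul (e (nat_lit 764)) ap)) x7324) (Nat.mul (e (nat_lit 764)) an))
    (Nat.sub (Nat.sub (Nat.add (Nat.add (Nat.add (Nat.add (Nat.add (Nat.add (Nat.add (Nat.add (Nat.add (Nat.add C x770) x2228) x284) x824) x752) x788) x764) x776) x772) (Nat.mul (e (nat_lit 770)) ap)) x7330) (Nat.mul (e (nat_lit 770)) an))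
    (Nat.sub (Nat.sub (Nat.add (Nat.add (Nat.add (Nat.add (Nat.add (Nat.add (Nat.add (Nat.add (Nat.add C (Nat.mul x772 (nat_lit 2))) x2230) x286) x826) x754) x790) x778) x770) (Nat.mul (e (nat_lit 772)) ap)) x7332) (Nat.mul (e (nat_lit 772)) an))
    (Nat.sub (Nat.sub (Nat.sub (Nat.add (Nat.add (Nat.add (Nat.add (Nat.add (Nat.add (Nat.add C x2234) x290) x830) x794) x770) x778) (Nat.mul (e (nat_lit 776)) ap)) x776) x7336) (Nat.mul (e (nat_lit 776)) an))
    (Nat.sub (Nat.add (Nat.add (Nat.add (Nat.add (Nat.add (Nat.add (Nat.add (Nat.add C (Nat.mul x778 (nat_lit 2))) x2236) x292) x832) x796) x772) x776) x780) x7338)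
    (Nat.add (Nat.add (Nat.add (Nat.add (Nat.add (Nat.add C (Nat.mul x780 (nat_lit 3))) x2238) x294) x834) x798) x778)
    (Nat.sub (Nat.sub (Nat.sub (Nat.add (Nat.add (Nat.add (Nat.add (Nat.add (Nat.add (Nat.add C x2246) x302) x842) x770) x794) x790) (Nat.mul (e (nat_lit 788)) ap)) x788) x7348) (Nat.mul (e (nat_lit 788)) an))
    (Nat.sub (Nat.sub (Nat.add (Nat.add (Nat.add (Nat.add (Nat.add (Nat.add C x2248) x304) x844) x772) x796) x788) x790) x7350)
    (Nat.sub (Nat.sub (Nat.add (Nat.add (Nat.add (Nat.add (Nat.add (Nat.add C x2252) x308) x848) x776) x788) x796) x794) x7354)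
    (Nat.sub (Nat.add (Nat.add (Nat.add (Nat.add (Nat.add (Nat.add (Nat.add (Nat.add (Nat.add C x796) x2254) x310) x850) x778) x790) x802) x794) x798) x7356)
    (Nat.add (Nat.add (Nat.add (Nat.add (Nat.add (Nat.add (Nat.add C x798) x2256) x312) x852) x780) x804) x796)
    (Nat.sub (Nat.add (Nat.add (Nat.add (Nat.add (Nat.add (Nat.add C x802) x2260) x316) x856) x796) x804) x7362)
    (Nat.add (Nat.add (Nat.add (Nat.add (Nat.add (Nat.add C (Nat.mul x804 (nat_lit 3))) x2262) x318) x858) x798) x802)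
    (Nat.sub (Nat.sub (Nat.add (Nat.add (Nat.add (Nat.add (Nat.add (Nat.add (Nat.add C x818) x2276) x332) x980) x764) x824) (Nat.mul (e (nat_lit 818)) ap)) x7378) (Nat.mul (e (nat_lit 818)) an))
    (Nat.sub (Nat.sub (Nat.add (Nat.add (Nat.add (Nat.add (Nat.add (Nat.add (Nat.add (Nat.add (Nat.add C x2282) x338) x986) x770) x842) x818) x830) x826) (Nat.mul (e (nat_lit 824)) ap)) x7384) (Nat.mul (e (nat_lit 824)) an))
    (Nat.sub (Nat.sub (Nat.add (Nat.add (Nat.add (Nat.add (Nat.add (Nat.add (Nat.add (Nat.add (Nat.add C x826) x2284) x340) x988) x772) x844) x832) x824) (Nat.mul (e (nat_lit 826)) ap)) x7386) (Nat.mul (e (nat_lit 826)) an))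
    (Nat.sub (Nat.sub (Nat.sub (Nat.add (Nat.add (Nat.add (Nat.add (Nat.add (Nat.add (Nat.add (Nat.add C x2288) x344) x992) x776) x848) x824) x832) (Nat.mul (e (nat_lit 830)) ap)) (Nat.mul x830 (nat_lit 3))) x7390) (Nat.mul (e (nat_lit 830)) an))
    (Nat.sub (Nat.sub (Nat.add (Nat.add (Nat.add (Nat.add (Nat.add (Nat.add (Nat.add (Nat.add (Nat.add C x2290) x346) x994) x778) x850) x826) x830) x834) (Nat.mul (e (nat_lit 832)) ap)) x7392) (Nat.mul (e (nat_lit 832)) an))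
    (Nat.add (Nat.add (Nat.add (Nat.add (Nat.add (Nat.add (Nat.add C x834) x2292) x348) x996) x780) x852) x832)
    (Nat.sub (Nat.sub (Nat.add (Nat.add (Nat.add (Nat.add (Nat.add (Nat.add (Nat.add (Nat.add (Nat.add C x2300) x356) x1004) x788) x896) x824) x848) x844) (Nat.mul (e (nat_lit 842)) ap)) x7402) (Nat.mul (e (nat_lit 842)) an))
    (Nat.sub (Nat.sub (Nat.add (Nat.add (Nat.add (Nat.add (Nat.add (Nat.add (Nat.add (Nat.add (Nat.add C x2302) x358) x1006) x790) x898) x826) x850) x842) (Nat.mul (e (nat_lit 844)) ap)) x7404) (Nat.mul (e (nat_lit 844)) an))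
    (Nat.sub (Nat.sub (Nat.sub (Nat.add (Nat.add (Nat.add (Nat.add (Nat.add (Nat.add (Nat.add (Nat.add (Nat.add (Nat.add C x2306) x362) x1010) x794) x902) x830) x866) x842) x850) (Nat.mul (e (nat_lit 848)) ap)) x848) x7408) (Nat.mul (e (nat_lit 848)) an))
    (Nat.sub (Nat.sub (Nat.add (Nat.add (Nat.add (Nat.add (Nat.add (Nat.add (Nat.add (Nat.add (Nat.add (Nat.add (Nat.add (Nat.add (Nat.add C x850) x2308) x364) x1012) x796) x904) x832) x868) x844) x856) x848) x852) (Nat.mul (e (nat_lit 850)) ap)) x7410) (Nat.mul (e (nat_lit 850)) an))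
    (Nat.add (Nat.add (Nat.add (Nat.add (Nat.add (Nat.add (Nat.add (Nat.add (Nat.add (Nat.add C x852) x2310) x366) x1014) x798) x906) x834) x870) x858) x850)
    (Nat.sub (Nat.sub (Nat.add (Nat.add (Nat.add (Nat.add (Nat.add (Nat.add (Nat.add (Nat.add (Nat.add C x2314) x370) x1018) x802) x910) x874) x850) x858) (Nat.mul (e (nat_lit 856)) ap)) x7416) (Nat.mul (e (nat_lit 856)) an))
    (Nat.add (Nat.add (Nat.add (Nat.add (Nat.add (Nat.add (Nat.add (Nat.add (Nat.add C (Nat.mul x858 (nat_lit 2))) x2316) x372) x1020) x804) x912) x876) x852) x856)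
    (Nat.sub (Nat.sub (Nat.sub (Nat.add (Nat.add (Nat.add (Nat.add (Nat.add (Nat.add (Nat.add C x2324) x380) x1028) x920) x848) x868) (Nat.mul (e (nat_lit 866)) ap)) x866) x7426) (Nat.mul (e (nat_lit 866)) an))
    (Nat.sub (Nat.sub (Nat.add (Nat.add (Nat.add (Nat.add (Nat.add (Nat.add (Nat.add (Nat.add (Nat.add C x2326) x382) x1030) x922) x850) x874) x866) x870) (Nat.mul (e (nat_lit 868)) ap)) x7428) (Nat.mul (e (nat_lit 868)) an))
    (Nat.sub (Nat.add (Nat.add (Nat.add (Nat.add (Nat.add (Nat.add (Nat.add C x2328) x384) x1032) x924) x852) x876) x868) x870)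
    (Nat.sub (Nat.sub (Nat.add (Nat.add (Nat.add (Nat.add (Nat.add (Nat.add (Nat.add (Nat.add (Nat.add C x874) x2332) x388) x1036) x928) x856) x868) x876) (Nat.mul (e (nat_lit 874)) ap)) x7434) (Nat.mul (e (nat_lit 874)) an))
    (Nat.add (Nat.add (Nat.add (Nat.add (Nat.add (Nat.add (Nat.add (Nat.add (Nat.add C (Nat.mul x876 (nat_lit 2))) x2334) x390) x1038) x930) x858) x870) x882) x874)
    (Nat.add (Nat.add (Nat.add (Nat.add (Nat.add (Nat.add C (Nat.mul x882 (nat_lit 3))) x2340) x396) x1044) x936) x876)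
    (Nat.sub (Nat.sub (Nat.sub (Nat.add (Nat.add (Nat.add (Nat.add (Nat.add (Nat.add (Nat.add C x2354) x410) x1058) x842) x902) x898) (Nat.mul (e (nat_lit 896)) ap)) x896) x7456) (Nat.mul (e (nat_lit 896)) an))
    (Nat.sub (Nat.sub (Nat.sub (Nat.add (Nat.add (Nat.add (Nat.add (Nat.add (Nat.add (Nat.add C x2356) x412) x1060) x844) x904) x896) (Nat.mul (e (nat_lit 898)) ap)) x898) x7458) (Nat.mul (e (nat_lit 898)) an))
    (Nat.sub (Nat.sub (Nat.sub (Nat.add (Nat.add (Nat.add (Nat.add (Nat.add (Nat.add (Nat.add (Nat.add C x2360) x416) x1064) x848) x920) x896) x904) (Nat.mul (e (nat_lit 902)) ap)) (Nat.mul x902 (nat_lit 3))) x7462) (Nat.mul (e (nat_lit 902)) an))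
    (Nat.sub (Nat.sub (Nat.sub (Nat.add (Nat.add (Nat.add (Nat.add (Nat.add (Nat.add (Nat.add (Nat.add (Nat.add (Nat.add C x2362) x418) x1066) x850) x922) x898) x910) x902) x906) (Nat.mul (e (nat_lit 904)) ap)) x904) x7464) (Nat.mul (e (nat_lit 904)) an))
    (Nat.sub (Nat.add (Nat.add (Nat.add (Nat.add (Nat.add (Nat.add (Nat.add C x2364) x420) x1068) x852) x924) x912) x904) x906)
    (Nat.sub (Nat.sub (Nat.sub (Nat.add (Nat.add (Nat.add (Nat.add (Nat.add (Nat.add (Nat.add (Nat.add C x2368) x424) x1072) x856) x928) x904) x912) (Nat.mul (e (nat_lit 910)) ap)) (Nat.mul x910 (nat_lit 3))) x7470) (Nat.mul (e (nat_lit 910)) an))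
    (Nat.sub (Nat.add (Nat.add (Nat.add (Nat.add (Nat.add (Nat.add (Nat.add C x2370) x426) x1074) x858) x930) x906) x910) x912)
    (Nat.sub (Nat.sub (Nat.sub (Nat.add (Nat.add (Nat.add (Nat.add (Nat.add (Nat.add (Nat.add C x2378) x434) x1082) x866) x902) x922) (Nat.mul (e (nat_lit 920)) ap)) x920) x7480) (Nat.mul (e (nat_lit 920)) an))
    (Nat.sub (Nat.sub (Nat.add (Nat.add (Nat.add (Nat.add (Nat.add (Nat.add (Nat.add (Nat.add (Nat.add C x2380) x436) x1084) x868) x904) x928) x920) x924) (Nat.mul (e (nat_lit 922)) ap)) x7482) (Nat.mul (e (nat_lit 922)) an))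
    (Nat.sub (Nat.add (Nat.add (Nat.add (Nat.add (Nat.add (Nat.add (Nat.add C x2382) x438) x1086) x870) x906) x930) x922) x924)
    (Nat.sub (Nat.add (Nat.add (Nat.add (Nat.add (Nat.add (Nat.add (Nat.add (Nat.add C x2386) x442) x1090) x874) x910) x946) x922) x930) x7488)
    (Nat.add (Nat.add (Nat.add (Nat.add (Nat.add (Nat.add (Nat.add (Nat.add (Nat.add (Nat.add C x930) x2388) x444) x1092) x876) x912) x948) x924) x936) x928)
    (Nat.add (Nat.add (Nat.add (Nat.add (Nat.add (Nat.add (Nat.add C x936) x2394) x450) x1098) x882) x954) x930)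
    (Nat.sub (Nat.add (Nat.add (Nat.add (Nat.add (Nat.add (Nat.add C x946) x2404) x460) x1108) x928) x948) x7506)
    (Nat.add (Nat.add (Nat.add (Nat.add (Nat.add (Nat.add (Nat.add C x948) x2406) x462) x1110) x930) x954) x946)
    (Nat.add (Nat.add (Nat.add (Nat.add (Nat.add (Nat.add C (Nat.mul x954 (nat_lit 3))) x2412) x468) x1116) x936) x948)
    (Nat.sub (Nat.add (Nat.add (Nat.add (Nat.add (Nat.add (Nat.add C (Nat.mul x980 (nat_lit 2))) x2438) x494) x1466) x818) x986) x7540)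
    (Nat.sub (Nat.sub (Nat.add (Nat.add (Nat.add (Nat.add (Nat.add (Nat.add (Nat.add (Nat.add (Nat.add (Nat.add C x986) x2444) x500) x1472) x824) x1004) x980) x992) x988) (Nat.mul (e (nat_lit 986)) ap)) x7546) (Nat.mul (e (nat_lit 986)) an))
    (Nat.sub (Nat.sub (Nat.add (Nat.add (Nat.add (Nat.add (Nat.add (Nat.add (Nat.add (Nat.add (Nat.add C (Nat.mul x988 (nat_lit 2))) x2446) x502) x1474) x826) x1006) x994) x986) (Nat.mul (e (nat_lit 988)) ap)) x7548) (Nat.mul (e (nat_lit 988)) an))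
    (Nat.sub (Nat.sub (Nat.sub (Nat.add (Nat.add (Nat.add (Nat.add (Nat.add (Nat.add (Nat.add (Nat.add C x2450) x506) x1478) x830) x1010) x986) x994) (Nat.mul (e (nat_lit 992)) ap)) (Nat.mul x992 (nat_lit 2))) x7552) (Nat.mul (e (nat_lit 992)) an))
    (Nat.sub (Nat.add (Nat.add (Nat.add (Nat.add (Nat.add (Nat.add (Nat.add (Nat.add (Nat.add C x994) x2452) x508) x1480) x832) x1012) x988) x992) x996) x7554)
    (Nat.add (Nat.add (Nat.add (Nat.add (Nat.add (Nat.add (Nat.add C (Nat.mul x996 (nat_lit 2))) x2454) x510) x1482) x834) x1014) x994)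
    (Nat.sub (Nat.sub (Nat.add (Nat.add (Nat.add (Nat.add (Nat.add (Nat.add (Nat.add (Nat.add (Nat.add C x2462) x518) x1490) x842) x1058) x986) x1010) x1006) (Nat.mul (e (nat_lit 1004)) ap)) x7564) (Nat.mul (e (nat_lit 1004)) an))
    (Nat.sub (Nat.sub (Nat.add (Nat.add (Nat.add (Nat.add (Nat.add (Nat.add (Nat.add (Nat.add (Nat.add C x2464) x520) x1492) x844) x1060) x988) x1012) x1004) (Nat.mul (e (nat_lit 1006)) ap)) x7566) (Nat.mul (e (nat_lit 1006)) an))
    (Nat.sub (Nat.sub (Nat.sub (Nat.add (Nat.add (Nat.add (Nat.add (Nat.add (Nat.add (Nat.add (Nat.add (Nat.add (Nat.add C x2468) x524) x1496) x848) x1064) x992) x1028) x1004) x1012) (Nat.mul (e (nat_lit 1010)) ap)) x1010) x7570) (Nat.mul (e (nat_lit 1010)) an))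
    (Nat.sub (Nat.sub (Nat.add (Nat.add (Nat.add (Nat.add (Nat.add (Nat.add (Nat.add (Nat.add (Nat.add (Nat.add (Nat.add (Nat.add (Nat.add C x1012) x2470) x526) x1498) x850) x1066) x994) x1030) x1006) x1018) x1010) x1014) (Nat.mul (e (nat_lit 1012)) ap)) x7572) (Nat.mul (e (nat_lit 1012)) an))
    (Nat.add (Nat.add (Nat.add (Nat.add (Nat.add (Nat.add (Nat.add (Nat.add (Nat.add (Nat.add C x1014) x2472) x528) x1500) x852) x1068) x996) x1032) x1020) x1012)
    (Nat.sub (Nat.add (Nat.add (Nat.add (Nat.add (Nat.add (Nat.add (Nat.add (Nat.add C x2476) x532) x1504) x856) x1072) x1036) x1012) x1020) x7578)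
    (Nat.add (Nat.add (Nat.add (Nat.add (Nat.add (Nat.add (Nat.add (Nat.add (Nat.add C (Nat.mul x1020 (nat_lit 2))) x2478) x534) x1506) x858) x1074) x1038) x1014) x1018)
    (Nat.sub (Nat.sub (Nat.sub (Nat.add (Nat.add (Nat.add (Nat.add (Nat.add (Nat.add (Nat.add (Nat.add C x2486) x542) x1514) x866) x1082) x1010) x1030) (Nat.mul (e (nat_lit 1028)) ap)) (Nat.mul x1028 (nat_lit 2))) x7588) (Nat.mul (e (nat_lit 1028)) an))
    (Nat.sub (Nat.sub (Nat.sub (Nat.add (Nat.add (Nat.add (Nat.add (Nat.add (Nat.add (Nat.add (Nat.add (Nat.add (Nat.add C x2488) x544) x1516) x868) x1084) x1012) x1036) x1028) x1032) (Nat.mul (e (nat_lit 1030)) ap)) x1030) x7590) (Nat.mul (e (nat_lit 1030)) an))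
    (Nat.sub (Nat.add (Nat.add (Nat.add (Nat.add (Nat.add (Nat.add (Nat.add (Nat.add C x2490) x546) x1518) x870) x1086) x1014) x1038) x1030) (Nat.mul x1032 (nat_lit 2)))
    (Nat.sub (Nat.add (Nat.add (Nat.add (Nat.add (Nat.add (Nat.add (Nat.add (Nat.add C x2494) x550) x1522) x874) x1090) x1018) x1030) x1038) x7596)
    (Nat.add (Nat.add (Nat.add (Nat.add (Nat.add (Nat.add (Nat.add (Nat.add (Nat.add (Nat.add C x1038) x2496) x552) x1524) x876) x1092) x1020) x1032) x1044) x1036)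
    (Nat.add (Nat.add (Nat.add (Nat.add (Nat.add (Nat.add (Nat.add C (Nat.mul x1044 (nat_lit 2))) x2502) x558) x1530) x882) x1098) x1038)
    (Nat.sub (Nat.sub (Nat.add (Nat.add (Nat.add (Nat.add (Nat.add (Nat.add (Nat.add (Nat.add (Nat.add (Nat.add C x1058) x2516) x572) x1544) x896) x1220) x1004) x1064) x1060) (Nat.mul (e (nat_lit 1058)) ap)) x7618) (Nat.mul (e (nat_lit 1058)) an))
    (Nat.sub (Nat.add (Nat.add (Nat.add (Nat.add (Nat.add (Nat.add (Nat.add (Nat.add (Nat.add C x1060) x2518) x574) x1546) x898) x1222) x1006) x1066) x1058) x7620)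
    (Nat.sub (Nat.sub (Nat.sub (Nat.add (Nat.add (Nat.add (Nat.add (Nat.add (Nat.add (Nat.add (Nat.add (Nat.add (Nat.add C x2522) x578) x1550) x902) x1226) x1010) x1082) x1058) x1066) (Nat.mul (e (nat_lit 1064)) ap)) x1064) x7624) (Nat.mul (e (nat_lit 1064)) an))
    (Nat.sub (Nat.sub (Nat.add (Nat.add (Nat.add (Nat.add (Nat.add (Nat.add (Nat.add (Nat.add (Nat.add (Nat.add (Nat.add (Nat.add (Nat.add C x1066) x2524) x580) x1552) x904) x1228) x1012) x1084) x1060) x1072) x1064) x1068) (Nat.mul (e (nat_lit 1066)) ap)) x7626) (Nat.mul (e (nat_lit 1066)) an))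
    (Nat.add (Nat.add (Nat.add (Nat.add (Nat.add (Nat.add (Nat.add (Nat.add (Nat.add (Nat.add C x1068) x2526) x582) x1554) x906) x1230) x1014) x1086) x1074) x1066)
    (Nat.sub (Nat.sub (Nat.add (Nat.add (Nat.add (Nat.add (Nat.add (Nat.add (Nat.add (Nat.add (Nat.add C x2530) x586) x1558) x910) x1234) x1018) x1090) x1066) x1074) x1072) x7632)
    (Nat.add (Nat.add (Nat.add (Nat.add (Nat.add (Nat.add (Nat.add (Nat.add (Nat.add (Nat.add C x1074) x2532) x588) x1560) x912) x1236) x1020) x1092) x1068) x1072)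
    (Nat.sub (Nat.sub (Nat.add (Nat.add (Nat.add (Nat.add (Nat.add (Nat.add (Nat.add (Nat.add (Nat.add (Nat.add C x2540) x596) x1568) x920) x1244) x1028) x1136) x1064) x1084) (Nat.mul (e (nat_lit 1082)) ap)) x7642) (Nat.mul (e (nat_lit 1082)) an))
    (Nat.sub (Nat.add (Nat.add (Nat.add (Nat.add (Nat.add (Nat.add (Nat.add (Nat.add (Nat.add (Nat.add (Nat.add (Nat.add C x1084) x2542) x598) x1570) x922) x1246) x1030) x1138) x1066) x1090) x1082) x1086) x7644)
    (Nat.add (Nat.add (Nat.add (Nat.add (Nat.add (Nat.add (Nat.add (Nat.add (Nat.add (Nat.add C x2544) x600) x1572) x924) x1248) x1032) x1140) x1068) x1092) x1084)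
    (Nat.sub (Nat.add (Nat.add (Nat.add (Nat.add (Nat.add (Nat.add (Nat.add (Nat.add (Nat.add (Nat.add (Nat.add (Nat.add C x1090) x2548) x604) x1576) x928) x1252) x1036) x1144) x1072) x1108) x1084) x1092) x7650)
    (Nat.add (Nat.add (Nat.add (Nat.add (Nat.add (Nat.add (Nat.add (Nat.add (Nat.add (Nat.add (Nat.add (Nat.add (Nat.add C (Nat.mul x1092 (nat_lit 2))) x2550) x606) x1578) x930) x1254) x1038) x1146) x1074) x1110) x1086) x1098) x1090)
    (Nat.add (Nat.add (Nat.add (Nat.add (Nat.add (Nat.add (Nat.add (Nat.add (Nat.add (Nat.add C (Nat.mul x1098 (nat_lit 2))) x2556) x612) x1584) x936) x1260) x1044) x1152) x1116) x1092)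
    (Nat.sub (Nat.add (Nat.add (Nat.add (Nat.add (Nat.add (Nat.add (Nat.add (Nat.add (Nat.add C x1108) x2566) x622) x1594) x946) x1270) x1162) x1090) x1110) x7668)
    (Nat.add (Nat.add (Nat.add (Nat.add (Nat.add (Nat.add (Nat.add (Nat.add (Nat.add (Nat.add C x1110) x2568) x624) x1596) x948) x1272) x1164) x1092) x1116) x1108)
    (Nat.add (Nat.add (Nat.add (Nat.add (Nat.add (Nat.add (Nat.add (Nat.add (Nat.add C (Nat.mul x1116 (nat_lit 3))) x2574) x630) x1602) x954) x1278) x1170) x1098) x1110)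
    (Nat.sub (Nat.add (Nat.add (Nat.add (Nat.add (Nat.add (Nat.add C x2594) x650) x1622) x1298) x1082) x1138) x7696)
    (Nat.sub (Nat.add (Nat.add (Nat.add (Nat.add (Nat.add (Nat.add (Nat.add (Nat.add (Nat.add C x1138) x2596) x652) x1624) x1300) x1084) x1144) x1136) x1140) x7698)
    (Nat.add (Nat.add (Nat.add (Nat.add (Nat.add (Nat.add (Nat.add C x2598) x654) x1626) x1302) x1086) x1146) x1138)
    (Nat.sub (Nat.add (Nat.add (Nat.add (Nat.add (Nat.add (Nat.add (Nat.add (Nat.add C x2602) x658) x1630) x1306) x1090) x1162) x1138) x1146) x7704)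
    (Nat.add (Nat.add (Nat.add (Nat.add (Nat.add (Nat.add (Nat.add (Nat.add (Nat.add (Nat.add C x1146) x2604) x660) x1632) x1308) x1092) x1164) x1140) x1152) x1144)
    (Nat.add (Nat.add (Nat.add (Nat.add (Nat.add (Nat.add (Nat.add C x2610) x666) x1638) x1314) x1098) x1170) x1146)
    (Nat.sub (Nat.add (Nat.add (Nat.add (Nat.add (Nat.add (Nat.add (Nat.add (Nat.add C (Nat.mul x1162 (nat_lit 2))) x2620) x676) x1648) x1324) x1108) x1144) x1164) x7722)
    (Nat.add (Nat.add (Nat.add (Nat.add (Nat.add (Nat.add (Nat.add (Nat.add (Nat.add C (Nat.mul x1164 (nat_lit 2))) x2622) x678) x1650) x1326) x1110) x1146) x1170) x1162)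
    (Nat.add (Nat.add (Nat.add (Nat.add (Nat.add (Nat.add (Nat.add (Nat.add (Nat.add C (Nat.mul x1170 (nat_lit 3))) x2628) x684) x1656) x1332) x1116) x1152) x1188) x1164)
    (Nat.add (Nat.add (Nat.add (Nat.add (Nat.add (Nat.add C (Nat.mul x1188 (nat_lit 4))) x2646) x702) x1674) x1350) x1170)
    (Nat.sub (Nat.add (Nat.add (Nat.add (Nat.add (Nat.add (Nat.add C x1220) x2678) x1706) x1058) x1226) x1222) x7780)
    (Nat.sub (Nat.add (Nat.add (Nat.add (Nat.add (Nat.add (Nat.add C x1222) x2680) x1708) x1060) x1228) x1220) x7782)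
    (Nat.sub (Nat.sub (Nat.add (Nat.add (Nat.add (Nat.add (Nat.add (Nat.add C x2684) x1712) x1064) x1244) x1220) x1228) x1226) x7786)
    (Nat.sub (Nat.add (Nat.add (Nat.add (Nat.add (Nat.add (Nat.add (Nat.add (Nat.add (Nat.add C x1228) x2686) x1714) x1066) x1246) x1222) x1234) x1226) x1230) x7788)
    (Nat.add (Nat.add (Nat.add (Nat.add (Nat.add (Nat.add (Nat.add C x1230) x2688) x1716) x1068) x1248) x1236) x1228)
    (Nat.sub (Nat.sub (Nat.add (Nat.add (Nat.add (Nat.add (Nat.add (Nat.add C x2692) x1720) x1072) x1252) x1228) x1236) x1234) x7794)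
    (Nat.add (Nat.add (Nat.add (Nat.add (Nat.add (Nat.add (Nat.add C x1236) x2694) x1722) x1074) x1254) x1230) x1234)
    (Nat.sub (Nat.sub (Nat.add (Nat.add (Nat.add (Nat.add (Nat.add (Nat.add C x2702) x1730) x1082) x1298) x1226) x1246) x1244) x7804)
    (Nat.sub (Nat.add (Nat.add (Nat.add (Nat.add (Nat.add (Nat.add (Nat.add (Nat.add C x2704) x1732) x1084) x1300) x1228) x1252) x1244) x1248) x7806)
    (Nat.sub (Nat.add (Nat.add (Nat.add (Nat.add (Nat.add (Nat.add (Nat.add C x2706) x1734) x1086) x1302) x1230) x1254) x1246) x1248)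
    (Nat.sub (Nat.add (Nat.add (Nat.add (Nat.add (Nat.add (Nat.add (Nat.add (Nat.add C x2710) x1738) x1090) x1306) x1234) x1270) x1246) x1254) x7812)
    (Nat.add (Nat.add (Nat.add (Nat.add (Nat.add (Nat.add (Nat.add (Nat.add (Nat.add (Nat.add C x1254) x2712) x1740) x1092) x1308) x1236) x1272) x1248) x1260) x1252)
    (Nat.add (Nat.add (Nat.add (Nat.add (Nat.add (Nat.add (Nat.add C x1260) x2718) x1746) x1098) x1314) x1278) x1254)
    (Nat.sub (Nat.sub (Nat.add (Nat.add (Nat.add (Nat.add (Nat.add (Nat.add C x2728) x1756) x1108) x1324) x1252) x1272) x1270) x7830)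
    (Nat.sub (Nat.add (Nat.add (Nat.add (Nat.add (Nat.add (Nat.add (Nat.add C x2730) x1758) x1110) x1326) x1254) x1278) x1270) x1272)
    (Nat.add (Nat.add (Nat.add (Nat.add (Nat.add (Nat.add (Nat.add C x1278) x2736) x1764) x1116) x1332) x1260) x1272)
    (Nat.sub (Nat.add (Nat.add (Nat.add (Nat.add (Nat.add (Nat.add C x1298) x2756) x1784) x1136) x1244) x1300) x7858)
    (Nat.sub (Nat.add (Nat.add (Nat.add (Nat.add (Nat.add (Nat.add (Nat.add (Nat.add C (Nat.mul x1300 (nat_lit 2))) x2758) x1786) x1138) x1246) x1306) x1298) x1302) x7860)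
    (Nat.add (Nat.add (Nat.add (Nat.add (Nat.add (Nat.add (Nat.add C x1302) x2760) x1788) x1140) x1248) x1308) x1300)
    (Nat.sub (Nat.add (Nat.add (Nat.add (Nat.add (Nat.add (Nat.add (Nat.add (Nat.add C x1306) x2764) x1792) x1144) x1252) x1324) x1300) x1308) x7866)
    (Nat.add (Nat.add (Nat.add (Nat.add (Nat.add (Nat.add (Nat.add (Nat.add (Nat.add C (Nat.mul x1308 (nat_lit 2))) x2766) x1794) x1146) x1254) x1326) x1302) x1314) x1306)
    (Nat.add (Nat.add (Nat.add (Nat.add (Nat.add (Nat.add (Nat.add C x1314) x2772) x1800) x1152) x1260) x1332) x1308)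
    (Nat.sub (Nat.add (Nat.add (Nat.add (Nat.add (Nat.add (Nat.add (Nat.add (Nat.add C (Nat.mul x1324 (nat_lit 2))) x2782) x1810) x1162) x1270) x1378) x1306) x1326) x7884)
    (Nat.add (Nat.add (Nat.add (Nat.add (Nat.add (Nat.add (Nat.add (Nat.add (Nat.add C (Nat.mul x1326 (nat_lit 2))) x2784) x1812) x1164) x1272) x1380) x1308) x1332) x1324)
    (Nat.add (Nat.add (Nat.add (Nat.add (Nat.add (Nat.add (Nat.add (Nat.add (Nat.add C (Nat.mul x1332 (nat_lit 3))) x2790) x1818) x1170) x1278) x1386) x1314) x1350) x1326)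
    (Nat.add (Nat.add (Nat.add (Nat.add (Nat.add (Nat.add C (Nat.mul x1350 (nat_lit 3))) x2808) x1836) x1188) x1404) x1332)
    (Nat.sub (Nat.add (Nat.add (Nat.add (Nat.add (Nat.add C (Nat.mul x1378 (nat_lit 3))) x2836) x1864) x1324) x1380) x7938)
    (Nat.add (Nat.add (Nat.add (Nat.add (Nat.add (Nat.add C (Nat.mul x1380 (nat_lit 3))) x2838) x1866) x1326) x1386) x1378)
    (Nat.add (Nat.add (Nat.add (Nat.add (Nat.add (Nat.add C (Nat.mul x1386 (nat_lit 3))) x2844) x1872) x1332) x1404) x1380)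
    (Nat.add (Nat.add (Nat.add (Nat.add (Nat.add C (Nat.mul x1404 (nat_lit 5))) x2862) x1890) x1350) x1386)
    (Nat.sub (Nat.add (Nat.add (Nat.add (Nat.add C x1466) x2924) x980) x1472) x8026)
    (Nat.sub (Nat.add (Nat.add (Nat.add (Nat.add (Nat.add (Nat.add C x2930) x986) x1490) x1466) x1478) x1474) x8032)
    (Nat.sub (Nat.add (Nat.add (Nat.add (Nat.add (Nat.add (Nat.add C x1474) x2932) x988) x1492) x1480) x1472) x8034)
    (Nat.sub (Nat.sub (Nat.add (Nat.add (Nat.add (Nat.add (Nat.add C x2936) x992) x1496) x1472) x1480) (Nat.mul x1478 (nat_lit 3))) x8038)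
    (Nat.sub (Nat.add (Nat.add (Nat.add (Nat.add (Nat.add (Nat.add C x2938) x994) x1498) x1474) x1478) x1482) x8040)
    (Nat.add (Nat.add (Nat.add (Nat.add (Nat.add C x1482) x2940) x996) x1500) x1480)
    (Nat.sub (Nat.sub (Nat.add (Nat.add (Nat.add (Nat.add (Nat.add (Nat.add C x2948) x1004) x1544) x1472) x1496) x1492) x1490) x8050)
    (Nat.sub (Nat.sub (Nat.add (Nat.add (Nat.add (Nat.add (Nat.add (Nat.add C x2950) x1006) x1546) x1474) x1498) x1490) x1492) x8052)
    (Nat.sub (Nat.sub (Nat.add (Nat.add (Nat.add (Nat.add (Nat.add (Nat.add (Nat.add C x2954) x1010) x1550) x1478) x1514) x1490) x1498) (Nat.mul x1496 (nat_lit 2))) x8056)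
    (Nat.sub (Nat.add (Nat.add (Nat.add (Nat.add (Nat.add (Nat.add (Nat.add (Nat.add (Nat.add C x2956) x1012) x1552) x1480) x1516) x1492) x1504) x1496) x1500) x8058)
    (Nat.add (Nat.add (Nat.add (Nat.add (Nat.add (Nat.add (Nat.add C x2958) x1014) x1554) x1482) x1518) x1506) x1498)
    (Nat.sub (Nat.sub (Nat.add (Nat.add (Nat.add (Nat.add (Nat.add (Nat.add C x2962) x1018) x1558) x1522) x1498) x1506) x1504) x8064)
    (Nat.add (Nat.add (Nat.add (Nat.add (Nat.add (Nat.add (Nat.add C x1506) x2964) x1020) x1560) x1524) x1500) x1504)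
    (Nat.sub (Nat.sub (Nat.sub (Nat.add (Nat.add (Nat.add (Nat.add (Nat.add (Nat.add C x2972) x1028) x1568) x1496) x1516) (Nat.mul (e (nat_lit 1514)) ap)) (Nat.mul x1514 (nat_lit 3))) x8074) (Nat.mul (e (nat_lit 1514)) an))
    (Nat.sub (Nat.sub (Nat.add (Nat.add (Nat.add (Nat.add (Nat.add (Nat.add (Nat.add C x2974) x1030) x1570) x1498) x1522) x1514) x1518) (Nat.mul x1516 (nat_lit 2))) x8076)
    (Nat.sub (Nat.add (Nat.add (Nat.add (Nat.add (Nat.add (Nat.add C x2976) x1032) x1572) x1500) x1524) x1516) (Nat.mul x1518 (nat_lit 3)))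
    (Nat.sub (Nat.sub (Nat.add (Nat.add (Nat.add (Nat.add (Nat.add (Nat.add C x2980) x1036) x1576) x1504) x1516) x1524) x1522) x8082)
    (Nat.add (Nat.add (Nat.add (Nat.add (Nat.add (Nat.add (Nat.add C x2982) x1038) x1578) x1506) x1518) x1530) x1522)
    (Nat.add (Nat.add (Nat.add (Nat.add (Nat.add C x1530) x2988) x1044) x1584) x1524)
    (Nat.sub (Nat.sub (Nat.add (Nat.add (Nat.add (Nat.add (Nat.add (Nat.add C x3002) x1058) x1706) x1490) x1550) x1546) x1544) x8104)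
    (Nat.sub (Nat.sub (Nat.add (Nat.add (Nat.add (Nat.add (Nat.add (Nat.add C x3004) x1060) x1708) x1492) x1552) x1544) x1546) x8106)
    (Nat.sub (Nat.sub (Nat.sub (Nat.add (Nat.add (Nat.add (Nat.add (Nat.add (Nat.add (Nat.add (Nat.add C x3008) x1064) x1712) x1496) x1568) x1544) x1552) (Nat.mul (e (nat_lit 1550)) ap)) (Nat.mul x1550 (nat_lit 3))) x8110) (Nat.mul (e (nat_lit 1550)) an))
    (Nat.sub (Nat.sub (Nat.add (Nat.add (Nat.add (Nat.add (Nat.add (Nat.add (Nat.add (Nat.add (Nat.add C x3010) x1066) x1714) x1498) x1570) x1546) x1558) x1550) x1554) x1552) x8112)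
    (Nat.sub (Nat.add (Nat.add (Nat.add (Nat.add (Nat.add (Nat.add (Nat.add C x3012) x1068) x1716) x1500) x1572) x1560) x1552) x1554)
    (Nat.sub (Nat.sub (Nat.add (Nat.add (Nat.add (Nat.add (Nat.add (Nat.add (Nat.add C x3016) x1072) x1720) x1504) x1576) x1552) x1560) (Nat.mul x1558 (nat_lit 3))) x8118)
    (Nat.sub (Nat.add (Nat.add (Nat.add (Nat.add (Nat.add (Nat.add (Nat.add C x3018) x1074) x1722) x1506) x1578) x1554) x1558) x1560)
    (Nat.sub (Nat.sub (Nat.add (Nat.add (Nat.add (Nat.add (Nat.add (Nat.add (Nat.add C x3026) x1082) x1730) x1514) x1622) x1550) x1570) (Nat.mul x1568 (nat_lit 2))) x8128)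
    (Nat.sub (Nat.sub (Nat.add (Nat.add (Nat.add (Nat.add (Nat.add (Nat.add (Nat.add (Nat.add (Nat.add C x3028) x1084) x1732) x1516) x1624) x1552) x1576) x1568) x1572) x1570) x8130)
    (Nat.sub (Nat.add (Nat.add (Nat.add (Nat.add (Nat.add (Nat.add (Nat.add (Nat.add C x3030) x1086) x1734) x1518) x1626) x1554) x1578) x1570) (Nat.mul x1572 (nat_lit 2)))
    (Nat.sub (Nat.sub (Nat.add (Nat.add (Nat.add (Nat.add (Nat.add (Nat.add (Nat.add (Nat.add (Nat.add C x3034) x1090) x1738) x1522) x1630) x1558) x1594) x1570) x1578) x1576) x8136)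
    (Nat.add (Nat.add (Nat.add (Nat.add (Nat.add (Nat.add (Nat.add (Nat.add (Nat.add (Nat.add C x3036) x1092) x1740) x1524) x1632) x1560) x1596) x1572) x1584) x1576)
    (Nat.add (Nat.add (Nat.add (Nat.add (Nat.add (Nat.add (Nat.add C x3042) x1098) x1746) x1530) x1638) x1602) x1578)
    (Nat.sub (Nat.sub (Nat.add (Nat.add (Nat.add (Nat.add (Nat.add (Nat.add C x3052) x1108) x1756) x1648) x1576) x1596) x1594) x8154)
    (Nat.sub (Nat.add (Nat.add (Nat.add (Nat.add (Nat.add (Nat.add (Nat.add C x3054) x1110) x1758) x1650) x1578) x1602) x1594) x1596)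
    (Nat.add (Nat.add (Nat.add (Nat.add (Nat.add (Nat.add (Nat.add C x1602) x3060) x1116) x1764) x1656) x1584) x1596)
    (Nat.sub (Nat.sub (Nat.add (Nat.add (Nat.add (Nat.add (Nat.add C x3080) x1136) x1784) x1568) x1624) (Nat.mul x1622 (nat_lit 3))) x8182)
    (Nat.sub (Nat.sub (Nat.add (Nat.add (Nat.add (Nat.add (Nat.add (Nat.add (Nat.add C x3082) x1138) x1786) x1570) x1630) x1622) x1626) (Nat.mul x1624 (nat_lit 2))) x8184)
    (Nat.sub (Nat.add (Nat.add (Nat.add (Nat.add (Nat.add (Nat.add C x3084) x1140) x1788) x1572) x1632) x1624) (Nat.mul x1626 (nat_lit 3)))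
    (Nat.sub (Nat.sub (Nat.add (Nat.add (Nat.add (Nat.add (Nat.add (Nat.add (Nat.add C x3088) x1144) x1792) x1576) x1648) x1624) x1632) (Nat.mul x1630 (nat_lit 3))) x8190)
    (Nat.sub (Nat.add (Nat.add (Nat.add (Nat.add (Nat.add (Nat.add (Nat.add (Nat.add C x3090) x1146) x1794) x1578) x1650) x1626) x1638) x1630) (Nat.mul x1632 (nat_lit 2)))
    (Nat.sub (Nat.add (Nat.add (Nat.add (Nat.add (Nat.add (Nat.add C x3096) x1152) x1800) x1584) x1656) x1632) (Nat.mul x1638 (nat_lit 3)))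
    (Nat.sub (Nat.sub (Nat.add (Nat.add (Nat.add (Nat.add (Nat.add (Nat.add C x3106) x1162) x1810) x1594) x1630) x1650) x1648) x8208)
    (Nat.sub (Nat.add (Nat.add (Nat.add (Nat.add (Nat.add (Nat.add (Nat.add C x3108) x1164) x1812) x1596) x1632) x1656) x1648) x1650)
    (Nat.add (Nat.add (Nat.add (Nat.add (Nat.add (Nat.add (Nat.add C x3114) x1170) x1818) x1602) x1638) x1674) x1650)
    (Nat.add (Nat.add (Nat.add (Nat.add (Nat.add C x1674) x3132) x1188) x1836) x1656)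
    (Nat.sub (Nat.add (Nat.add (Nat.add (Nat.add (Nat.add (Nat.add C x1706) x3164) x1220) x1544) x1712) x1708) x8266)
    (Nat.sub (Nat.add (Nat.add (Nat.add (Nat.add (Nat.add (Nat.add C x1708) x3166) x1222) x1546) x1714) x1706) x8268)
    (Nat.sub (Nat.sub (Nat.add (Nat.add (Nat.add (Nat.add (Nat.add (Nat.add C x3170) x1226) x1550) x1730) x1706) x1714) x1712) x8272)
    (Nat.sub (Nat.add (Nat.add (Nat.add (Nat.add (Nat.add (Nat.add (Nat.add (Nat.add (Nat.add C x1714) x3172) x1228) x1552) x1732) x1708) x1720) x1712) x1716) x8274)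
    (Nat.add (Nat.add (Nat.add (Nat.add (Nat.add (Nat.add (Nat.add C x1716) x3174) x1230) x1554) x1734) x1722) x1714)
    (Nat.sub (Nat.sub (Nat.add (Nat.add (Nat.add (Nat.add (Nat.add (Nat.add C x3178) x1234) x1558) x1738) x1714) x1722) x1720) x8280)
    (Nat.add (Nat.add (Nat.add (Nat.add (Nat.add (Nat.add (Nat.add C x1722) x3180) x1236) x1560) x1740) x1716) x1720)
    (Nat.sub (Nat.sub (Nat.add (Nat.add (Nat.add (Nat.add (Nat.add (Nat.add C x3188) x1244) x1568) x1784) x1712) x1732) x1730) x8290)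
    (Nat.sub (Nat.add (Nat.add (Nat.add (Nat.add (Nat.add (Nat.add (Nat.add (Nat.add C x3190) x1246) x1570) x1786) x1714) x1738) x1730) x1734) x8292)
    (Nat.sub (Nat.add (Nat.add (Nat.add (Nat.add (Nat.add (Nat.add (Nat.add C x3192) x1248) x1572) x1788) x1716) x1740) x1732) x1734)
    (Nat.sub (Nat.add (Nat.add (Nat.add (Nat.add (Nat.add (Nat.add (Nat.add (Nat.add C x3196) x1252) x1576) x1792) x1720) x1756) x1732) x1740) x8298)
    (Nat.add (Nat.add (Nat.add (Nat.add (Nat.add (Nat.add (Nat.add (Nat.add (Nat.add (Nat.add C x1740) x3198) x1254) x1578) x1794) x1722) x1758) x1734) x1746) x1738)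
    (Nat.add (Nat.add (Nat.add (Nat.add (Nat.add (Nat.add (Nat.add C x1746) x3204) x1260) x1584) x1800) x1764) x1740)
    (Nat.sub (Nat.sub (Nat.add (Nat.add (Nat.add (Nat.add (Nat.add (Nat.add C x3214) x1270) x1594) x1810) x1738) x1758) x1756) x8316)
    (Nat.sub (Nat.add (Nat.add (Nat.add (Nat.add (Nat.add (Nat.add (Nat.add C x3216) x1272) x1596) x1812) x1740) x1764) x1756) x1758)
    (Nat.add (Nat.add (Nat.add (Nat.add (Nat.add (Nat.add (Nat.add C x1764) x3222) x1278) x1602) x1818) x1746) x1758)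
    (Nat.sub (Nat.add (Nat.add (Nat.add (Nat.add (Nat.add (Nat.add C x3242) x1298) x1622) x1946) x1730) x1786) x8344)
    (Nat.sub (Nat.add (Nat.add (Nat.add (Nat.add (Nat.add (Nat.add (Nat.add (Nat.add (Nat.add C x1786) x3244) x1300) x1624) x1948) x1732) x1792) x1784) x1788) x8346)
    (Nat.add (Nat.add (Nat.add (Nat.add (Nat.add (Nat.add (Nat.add C x3246) x1302) x1626) x1950) x1734) x1794) x1786)
    (Nat.sub (Nat.add (Nat.add (Nat.add (Nat.add (Nat.add (Nat.add (Nat.add (Nat.add C x3250) x1306) x1630) x1954) x1738) x1810) x1786) x1794) x8352)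
    (Nat.add (Nat.add (Nat.add (Nat.add (Nat.add (Nat.add (Nat.add (Nat.add (Nat.add (Nat.add C x1794) x3252) x1308) x1632) x1956) x1740) x1812) x1788) x1800) x1792)
    (Nat.add (Nat.add (Nat.add (Nat.add (Nat.add (Nat.add (Nat.add C x3258) x1314) x1638) x1962) x1746) x1818) x1794)
    (Nat.sub (Nat.add (Nat.add (Nat.add (Nat.add (Nat.add (Nat.add (Nat.add (Nat.add (Nat.add C x1810) x3268) x1324) x1648) x1972) x1756) x1864) x1792) x1812) x8370)
    (Nat.add (Nat.add (Nat.add (Nat.add (Nat.add (Nat.add (Nat.add (Nat.add (Nat.add (Nat.add C x1812) x3270) x1326) x1650) x1974) x1758) x1866) x1794) x1818) x1810)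
    (Nat.add (Nat.add (Nat.add (Nat.add (Nat.add (Nat.add (Nat.add (Nat.add (Nat.add (Nat.add C (Nat.mul x1818 (nat_lit 2))) x3276) x1332) x1656) x1980) x1764) x1872) x1800) x1836) x1812)
    (Nat.add (Nat.add (Nat.add (Nat.add (Nat.add (Nat.add (Nat.add C (Nat.mul x1836 (nat_lit 2))) x3294) x1350) x1674) x1998) x1890) x1818)
    (Nat.sub (Nat.add (Nat.add (Nat.add (Nat.add (Nat.add (Nat.add C x1864) x3322) x1378) x2026) x1810) x1866) x8424)
    (Nat.add (Nat.add (Nat.add (Nat.add (Nat.add (Nat.add (Nat.add C x1866) x3324) x1380) x2028) x1812) x1872) x1864)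
    (Nat.add (Nat.add (Nat.add (Nat.add (Nat.add (Nat.add (Nat.add C x1872) x3330) x1386) x2034) x1818) x1890) x1866)
    (Nat.add (Nat.add (Nat.add (Nat.add (Nat.add (Nat.add C (Nat.mul x1890 (nat_lit 3))) x3348) x1404) x2052) x1836) x1872)
    (Nat.sub (Nat.add (Nat.add (Nat.add (Nat.add C x1946) x3404) x1784) x1948) x8506)
    (Nat.sub (Nat.add (Nat.add (Nat.add (Nat.add (Nat.add (Nat.add C (Nat.mul x1948 (nat_lit 2))) x3406) x1786) x1954) x1946) x1950) x8508)
    (Nat.add (Nat.add (Nat.add (Nat.add (Nat.add C x1950) x3408) x1788) x1956) x1948)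
    (Nat.sub (Nat.add (Nat.add (Nat.add (Nat.add (Nat.add (Nat.add C x1954) x3412) x1792) x1972) x1948) x1956) x8514)
    (Nat.add (Nat.add (Nat.add (Nat.add (Nat.add (Nat.add (Nat.add C (Nat.mul x1956 (nat_lit 2))) x3414) x1794) x1974) x1950) x1962) x1954)
    (Nat.add (Nat.add (Nat.add (Nat.add (Nat.add C x1962) x3420) x1800) x1980) x1956)
    (Nat.sub (Nat.add (Nat.add (Nat.add (Nat.add (Nat.add (Nat.add C x1972) x3430) x1810) x2026) x1954) x1974) x8532)
    (Nat.add (Nat.add (Nat.add (Nat.add (Nat.add (Nat.add (Nat.add C x1974) x3432) x1812) x2028) x1956) x1980) x1972)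
    (Nat.add (Nat.add (Nat.add (Nat.add (Nat.add (Nat.add (Nat.add C (Nat.mul x1980 (nat_lit 2))) x3438) x1818) x2034) x1962) x1998) x1974)
    (Nat.add (Nat.add (Nat.add (Nat.add (Nat.add C x1998) x3456) x1836) x2052) x1980)
    (Nat.sub (Nat.add (Nat.add (Nat.add (Nat.add (Nat.add C (Nat.mul x2026 (nat_lit 3))) x3484) x1864) x1972) x2028) x8586)
    (Nat.add (Nat.add (Nat.add (Nat.add (Nat.add (Nat.add C (Nat.mul x2028 (nat_lit 3))) x3486) x1866) x1974) x2034) x2026)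
    (Nat.add (Nat.add (Nat.add (Nat.add (Nat.add (Nat.add C (Nat.mul x2034 (nat_lit 3))) x3492) x1872) x1980) x2052) x2028)
    (Nat.add (Nat.add (Nat.add (Nat.add (Nat.add (Nat.add C (Nat.mul x2052 (nat_lit 4))) x3510) x1890) x1998) x2106) x2034)
    (Nat.add (Nat.add (Nat.add C (Nat.mul x2106 (nat_lit 5))) x3564) x2052)
    (Nat.sub (Nat.add (Nat.add (Nat.add (Nat.add (Nat.add C (Nat.mul x2204 (nat_lit 3))) x6578) x746) x2222) x2210) x8764)
    (Nat.sub (Nat.add (Nat.add (Nat.add (Nat.add (Nat.add (Nat.add C x2210) x6584) x752) x2228) x2204) x2212) x8770)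
    (Nat.sub (Nat.add (Nat.add (Nat.add (Nat.add (Nat.add C (Nat.mul x2212 (nat_lit 3))) x6586) x754) x2230) x2210) x8772)
    (Nat.sub (Nat.add (Nat.add (Nat.add (Nat.add (Nat.add (Nat.add C x2222) x6596) x764) x2276) x2204) x2228) x8782)
    (Nat.sub (Nat.add (Nat.add (Nat.add (Nat.add (Nat.add (Nat.add (Nat.add (Nat.add (Nat.add C x2228) x6602) x770) x2282) x2210) x2246) x2222) x2234) x2230) x8788)
    (Nat.sub (Nat.add (Nat.add (Nat.add (Nat.add (Nat.add (Nat.add (Nat.add (Nat.add C (Nat.mul x2230 (nat_lit 2))) x6604) x772) x2284) x2212) x2248) x2236) x2228) x8790)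
    (Nat.sub (Nat.sub (Nat.add (Nat.add (Nat.add (Nat.add (Nat.add (Nat.add C x6608) x776) x2288) x2252) x2228) x2236) x2234) x8794)
    (Nat.sub (Nat.add (Nat.add (Nat.add (Nat.add (Nat.add (Nat.add (Nat.add (Nat.add C (Nat.mul x2236 (nat_lit 2))) x6610) x778) x2290) x2254) x2230) x2234) x2238) x8796)
    (Nat.add (Nat.add (Nat.add (Nat.add (Nat.add (Nat.add C (Nat.mul x2238 (nat_lit 3))) x6612) x780) x2292) x2256) x2236)
    (Nat.sub (Nat.sub (Nat.add (Nat.add (Nat.add (Nat.add (Nat.add (Nat.add C x6620) x788) x2300) x2228) x2252) x2248) x2246) x8806)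
    (Nat.sub (Nat.sub (Nat.add (Nat.add (Nat.add (Nat.add (Nat.add (Nat.add C x6622) x790) x2302) x2230) x2254) x2246) x2248) x8808)
    (Nat.sub (Nat.sub (Nat.add (Nat.add (Nat.add (Nat.add (Nat.add (Nat.add C x6626) x794) x2306) x2234) x2246) x2254) x2252) x8812)
    (Nat.sub (Nat.add (Nat.add (Nat.add (Nat.add (Nat.add (Nat.add (Nat.add (Nat.add (Nat.add C x2254) x6628) x796) x2308) x2236) x2248) x2260) x2252) x2256) x8814)
    (Nat.add (Nat.add (Nat.add (Nat.add (Nat.add (Nat.add (Nat.add C x2256) x6630) x798) x2310) x2238) x2262) x2254)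
    (Nat.sub (Nat.add (Nat.add (Nat.add (Nat.add (Nat.add (Nat.add C x2260) x6634) x802) x2314) x2254) x2262) x8820)
    (Nat.add (Nat.add (Nat.add (Nat.add (Nat.add (Nat.add C (Nat.mul x2262 (nat_lit 3))) x6636) x804) x2316) x2256) x2260)
    (Nat.sub (Nat.add (Nat.add (Nat.add (Nat.add (Nat.add (Nat.add C x2276) x6650) x818) x2438) x2222) x2282) x8836)
    (Nat.sub (Nat.add (Nat.add (Nat.add (Nat.add (Nat.add (Nat.add (Nat.add (Nat.add C x6656) x824) x2444) x2228) x2300) x2276) x2288) x2284) x8842)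
    (Nat.sub (Nat.add (Nat.add (Nat.add (Nat.add (Nat.add (Nat.add (Nat.add (Nat.add C x2284) x6658) x826) x2446) x2230) x2302) x2290) x2282) x8844)
    (Nat.sub (Nat.sub (Nat.add (Nat.add (Nat.add (Nat.add (Nat.add (Nat.add (Nat.add C x6662) x830) x2450) x2234) x2306) x2282) x2290) (Nat.mul x2288 (nat_lit 3))) x8848)
    (Nat.sub (Nat.add (Nat.add (Nat.add (Nat.add (Nat.add (Nat.add (Nat.add (Nat.add C x6664) x832) x2452) x2236) x2308) x2284) x2288) x2292) x8850)
    (Nat.add (Nat.add (Nat.add (Nat.add (Nat.add (Nat.add (Nat.add C x2292) x6666) x834) x2454) x2238) x2310) x2290)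
    (Nat.sub (Nat.add (Nat.add (Nat.add (Nat.add (Nat.add (Nat.add (Nat.add (Nat.add C x6674) x842) x2462) x2246) x2354) x2282) x2306) x2302) x8860)
    (Nat.sub (Nat.add (Nat.add (Nat.add (Nat.add (Nat.add (Nat.add (Nat.add (Nat.add C x6676) x844) x2464) x2248) x2356) x2284) x2308) x2300) x8862)
    (Nat.sub (Nat.sub (Nat.add (Nat.add (Nat.add (Nat.add (Nat.add (Nat.add (Nat.add (Nat.add (Nat.add C x6680) x848) x2468) x2252) x2360) x2288) x2324) x2300) x2308) x2306) x8866)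
    (Nat.sub (Nat.add (Nat.add (Nat.add (Nat.add (Nat.add (Nat.add (Nat.add (Nat.add (Nat.add (Nat.add (Nat.add (Nat.add C x2308) x6682) x850) x2470) x2254) x2362) x2290) x2326) x2302) x2314) x2306) x2310) x8868)
    (Nat.add (Nat.add (Nat.add (Nat.add (Nat.add (Nat.add (Nat.add (Nat.add (Nat.add (Nat.add C x2310) x6684) x852) x2472) x2256) x2364) x2292) x2328) x2316) x2308)
    (Nat.sub (Nat.add (Nat.add (Nat.add (Nat.add (Nat.add (Nat.add (Nat.add (Nat.add C x6688) x856) x2476) x2260) x2368) x2332) x2308) x2316) x8874)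
    (Nat.add (Nat.add (Nat.add (Nat.add (Nat.add (Nat.add (Nat.add (Nat.add (Nat.add C (Nat.mul x2316 (nat_lit 2))) x6690) x858) x2478) x2262) x2370) x2334) x2310) x2314)
    (Nat.sub (Nat.sub (Nat.add (Nat.add (Nat.add (Nat.add (Nat.add (Nat.add C x6698) x866) x2486) x2378) x2306) x2326) x2324) x8884)
    (Nat.sub (Nat.add (Nat.add (Nat.add (Nat.add (Nat.add (Nat.add (Nat.add (Nat.add C x6700) x868) x2488) x2380) x2308) x2332) x2324) x2328) x8886)
    (Nat.sub (Nat.add (Nat.add (Nat.add (Nat.add (Nat.add (Nat.add (Nat.add C x6702) x870) x2490) x2382) x2310) x2334) x2326) x2328)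
    (Nat.sub (Nat.add (Nat.add (Nat.add (Nat.add (Nat.add (Nat.add (Nat.add (Nat.add C x2332) x6706) x874) x2494) x2386) x2314) x2326) x2334) x8892)
    (Nat.add (Nat.add (Nat.add (Nat.add (Nat.add (Nat.add (Nat.add (Nat.add (Nat.add C (Nat.mul x2334 (nat_lit 2))) x6708) x876) x2496) x2388) x2316) x2328) x2340) x2332)
    (Nat.add (Nat.add (Nat.add (Nat.add (Nat.add (Nat.add C (Nat.mul x2340 (nat_lit 3))) x6714) x882) x2502) x2394) x2334)
    (Nat.sub (Nat.sub (Nat.add (Nat.add (Nat.add (Nat.add (Nat.add (Nat.add C x6728) x896) x2516) x2300) x2360) x2356) x2354) x8914)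
    (Nat.sub (Nat.sub (Nat.add (Nat.add (Nat.add (Nat.add (Nat.add (Nat.add C x6730) x898) x2518) x2302) x2362) x2354) x2356) x8916)
    (Nat.sub (Nat.sub (Nat.add (Nat.add (Nat.add (Nat.add (Nat.add (Nat.add (Nat.add C x6734) x902) x2522) x2306) x2378) x2354) x2362) (Nat.mul x2360 (nat_lit 3))) x8920)
    (Nat.sub (Nat.sub (Nat.add (Nat.add (Nat.add (Nat.add (Nat.add (Nat.add (Nat.add (Nat.add (Nat.add C x6736) x904) x2524) x2308) x2380) x2356) x2368) x2360) x2364) x2362) x8922)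
    (Nat.sub (Nat.add (Nat.add (Nat.add (Nat.add (Nat.add (Nat.add (Nat.add C x6738) x906) x2526) x2310) x2382) x2370) x2362) x2364)
    (Nat.sub (Nat.sub (Nat.add (Nat.add (Nat.add (Nat.add (Nat.add (Nat.add (Nat.add C x6742) x910) x2530) x2314) x2386) x2362) x2370) (Nat.mul x2368 (nat_lit 3))) x8928)
    (Nat.sub (Nat.add (Nat.add (Nat.add (Nat.add (Nat.add (Nat.add (Nat.add C x6744) x912) x2532) x2316) x2388) x2364) x2368) x2370)
    (Nat.sub (Nat.sub (Nat.add (Nat.add (Nat.add (Nat.add (Nat.add (Nat.add C x6752) x920) x2540) x2324) x2360) x2380) x2378) x8938)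
    (Nat.sub (Nat.add (Nat.add (Nat.add (Nat.add (Nat.add (Nat.add (Nat.add (Nat.add C x6754) x922) x2542) x2326) x2362) x2386) x2378) x2382) x8940)
    (Nat.sub (Nat.add (Nat.add (Nat.add (Nat.add (Nat.add (Nat.add (Nat.add C x6756) x924) x2544) x2328) x2364) x2388) x2380) x2382)
    (Nat.sub (Nat.add (Nat.add (Nat.add (Nat.add (Nat.add (Nat.add (Nat.add (Nat.add C x6760) x928) x2548) x2332) x2368) x2404) x2380) x2388) x8946)
    (Nat.add (Nat.add (Nat.add (Nat.add (Nat.add (Nat.add (Nat.add (Nat.add (Nat.add (Nat.add C x2388) x6762) x930) x2550) x2334) x2370) x2406) x2382) x2394) x2386)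
    (Nat.add (Nat.add (Nat.add (Nat.add (Nat.add (Nat.add (Nat.add C x2394) x6768) x936) x2556) x2340) x2412) x2388)
    (Nat.sub (Nat.add (Nat.add (Nat.add (Nat.add (Nat.add (Nat.add C x2404) x6778) x946) x2566) x2386) x2406) x8964)
    (Nat.add (Nat.add (Nat.add (Nat.add (Nat.add (Nat.add (Nat.add C x2406) x6780) x948) x2568) x2388) x2412) x2404)
    (Nat.add (Nat.add (Nat.add (Nat.add (Nat.add (Nat.add C (Nat.mul x2412 (nat_lit 3))) x6786) x954) x2574) x2394) x2406)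
    (Nat.sub (Nat.add (Nat.add (Nat.add (Nat.add (Nat.add (Nat.add C x2438) x6812) x980) x2924) x2276) x2444) x8998)
    (Nat.sub (Nat.add (Nat.add (Nat.add (Nat.add (Nat.add (Nat.add (Nat.add (Nat.add C x6818) x986) x2930) x2282) x2462) x2438) x2450) x2446) x9004)
    (Nat.sub (Nat.add (Nat.add (Nat.add (Nat.add (Nat.add (Nat.add (Nat.add (Nat.add C x2446) x6820) x988) x2932) x2284) x2464) x2452) x2444) x9006)
    (Nat.sub (Nat.sub (Nat.add (Nat.add (Nat.add (Nat.add (Nat.add (Nat.add (Nat.add C x6824) x992) x2936) x2288) x2468) x2444) x2452) (Nat.mul x2450 (nat_lit 3))) x9010)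
    (Nat.sub (Nat.add (Nat.add (Nat.add (Nat.add (Nat.add (Nat.add (Nat.add (Nat.add C x6826) x994) x2938) x2290) x2470) x2446) x2450) x2454) x9012)
    (Nat.add (Nat.add (Nat.add (Nat.add (Nat.add (Nat.add (Nat.add C x2454) x6828) x996) x2940) x2292) x2472) x2452)
    (Nat.sub (Nat.sub (Nat.sub (Nat.add (Nat.add (Nat.add (Nat.add (Nat.add (Nat.add (Nat.add (Nat.add (Nat.add C x6836) x1004) x2948) x2300) x2516) x2444) x2468) x2464) (Nat.mul (e (nat_lit 2462)) ap)) x2462) x9022) (Nat.mul (e (nat_lit 2462)) an))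
    (Nat.sub (Nat.sub (Nat.add (Nat.add (Nat.add (Nat.add (Nat.add (Nat.add (Nat.add (Nat.add C x6838) x1006) x2950) x2302) x2518) x2446) x2470) x2462) x2464) x9024)
    (Nat.sub (Nat.sub (Nat.sub (Nat.add (Nat.add (Nat.add (Nat.add (Nat.add (Nat.add (Nat.add (Nat.add (Nat.add (Nat.add C x6842) x1010) x2954) x2306) x2522) x2450) x2486) x2462) x2470) (Nat.mul (e (nat_lit 2468)) ap)) (Nat.mul x2468 (nat_lit 2))) x9028) (Nat.mul (e (nat_lit 2468)) an))
    (Nat.sub (Nat.sub (Nat.add (Nat.add (Nat.add (Nat.add (Nat.add (Nat.add (Nat.add (Nat.add (Nat.add (Nat.add (Nat.add (Nat.add C x6844) x1012) x2956) x2308) x2524) x2452) x2488) x2464) x2476) x2468) x2472) (Nat.mul (e (nat_lit 2470)) ap)) x9030) (Nat.mul (e (nat_lit 2470)) an))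
    (Nat.add (Nat.add (Nat.add (Nat.add (Nat.add (Nat.add (Nat.add (Nat.add (Nat.add C x6846) x1014) x2958) x2310) x2526) x2454) x2490) x2478) x2470)
    (Nat.sub (Nat.sub (Nat.add (Nat.add (Nat.add (Nat.add (Nat.add (Nat.add (Nat.add (Nat.add C x6850) x1018) x2962) x2314) x2530) x2494) x2470) x2478) x2476) x9036)
    (Nat.add (Nat.add (Nat.add (Nat.add (Nat.add (Nat.add (Nat.add (Nat.add (Nat.add C x2478) x6852) x1020) x2964) x2316) x2532) x2496) x2472) x2476)
    (Nat.sub (Nat.sub (Nat.add (Nat.add (Nat.add (Nat.add (Nat.add (Nat.add (Nat.add C x6860) x1028) x2972) x2324) x2540) x2468) x2488) (Nat.mul x2486 (nat_lit 3))) x9046)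
    (Nat.sub (Nat.sub (Nat.add (Nat.add (Nat.add (Nat.add (Nat.add (Nat.add (Nat.add (Nat.add (Nat.add C x6862) x1030) x2974) x2326) x2542) x2470) x2494) x2486) x2490) (Nat.mul x2488 (nat_lit 2))) x9048)
    (Nat.sub (Nat.add (Nat.add (Nat.add (Nat.add (Nat.add (Nat.add (Nat.add (Nat.add C x6864) x1032) x2976) x2328) x2544) x2472) x2496) x2488) (Nat.mul x2490 (nat_lit 3)))
    (Nat.sub (Nat.sub (Nat.add (Nat.add (Nat.add (Nat.add (Nat.add (Nat.add (Nat.add (Nat.add C x6868) x1036) x2980) x2332) x2548) x2476) x2488) x2496) x2494) x9054)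
    (Nat.add (Nat.add (Nat.add (Nat.add (Nat.add (Nat.add (Nat.add (Nat.add (Nat.add C x6870) x1038) x2982) x2334) x2550) x2478) x2490) x2502) x2494)
    (Nat.add (Nat.add (Nat.add (Nat.add (Nat.add (Nat.add (Nat.add C x2502) x6876) x1044) x2988) x2340) x2556) x2496)
    (Nat.sub (Nat.add (Nat.add (Nat.add (Nat.add (Nat.add (Nat.add (Nat.add (Nat.add C x6890) x1058) x3002) x2354) x2678) x2462) x2522) x2518) x9076)
    (Nat.sub (Nat.add (Nat.add (Nat.add (Nat.add (Nat.add (Nat.add (Nat.add (Nat.add C x6892) x1060) x3004) x2356) x2680) x2464) x2524) x2516) x9078)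
    (Nat.sub (Nat.sub (Nat.sub (Nat.add (Nat.add (Nat.add (Nat.add (Nat.add (Nat.add (Nat.add (Nat.add (Nat.add (Nat.add C x6896) x1064) x3008) x2360) x2684) x2468) x2540) x2516) x2524) (Nat.mul (e (nat_lit 2522)) ap)) (Nat.mul x2522 (nat_lit 2))) x9082) (Nat.mul (e (nat_lit 2522)) an))
    (Nat.sub (Nat.sub (Nat.add (Nat.add (Nat.add (Nat.add (Nat.add (Nat.add (Nat.add (Nat.add (Nat.add (Nat.add (Nat.add (Nat.add C x6898) x1066) x3010) x2362) x2686) x2470) x2542) x2518) x2530) x2522) x2526) (Nat.mul (e (nat_lit 2524)) ap)) x9084) (Nat.mul (e (nat_lit 2524)) an))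
    (Nat.add (Nat.add (Nat.add (Nat.add (Nat.add (Nat.add (Nat.add (Nat.add (Nat.add C x6900) x1068) x3012) x2364) x2688) x2472) x2544) x2532) x2524)
    (Nat.sub (Nat.sub (Nat.add (Nat.add (Nat.add (Nat.add (Nat.add (Nat.add (Nat.add (Nat.add (Nat.add C x6904) x1072) x3016) x2368) x2692) x2476) x2548) x2524) x2532) (Nat.mul x2530 (nat_lit 2))) x9090)
    (Nat.add (Nat.add (Nat.add (Nat.add (Nat.add (Nat.add (Nat.add (Nat.add (Nat.add C x6906) x1074) x3018) x2370) x2694) x2478) x2550) x2526) x2530)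
    (Nat.sub (Nat.sub (Nat.add (Nat.add (Nat.add (Nat.add (Nat.add (Nat.add (Nat.add (Nat.add (Nat.add C x6914) x1082) x3026) x2378) x2702) x2486) x2594) x2522) x2542) x2540) x9100)
    (Nat.sub (Nat.add (Nat.add (Nat.add (Nat.add (Nat.add (Nat.add (Nat.add (Nat.add (Nat.add (Nat.add (Nat.add C x6916) x1084) x3028) x2380) x2704) x2488) x2596) x2524) x2548) x2540) x2544) x9102)
    (Nat.sub (Nat.add (Nat.add (Nat.add (Nat.add (Nat.add (Nat.add (Nat.add (Nat.add (Nat.add (Nat.add C x6918) x1086) x3030) x2382) x2706) x2490) x2598) x2526) x2550) x2542) x2544)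
    (Nat.sub (Nat.add (Nat.add (Nat.add (Nat.add (Nat.add (Nat.add (Nat.add (Nat.add (Nat.add (Nat.add (Nat.add C x6922) x1090) x3034) x2386) x2710) x2494) x2602) x2530) x2566) x2542) x2550) x9108)
    (Nat.add (Nat.add (Nat.add (Nat.add (Nat.add (Nat.add (Nat.add (Nat.add (Nat.add (Nat.add (Nat.add (Nat.add (Nat.add C x2550) x6924) x1092) x3036) x2388) x2712) x2496) x2604) x2532) x2568) x2544) x2556) x2548)
    (Nat.add (Nat.add (Nat.add (Nat.add (Nat.add (Nat.add (Nat.add (Nat.add (Nat.add (Nat.add C x2556) x6930) x1098) x3042) x2394) x2718) x2502) x2610) x2574) x2550)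
    (Nat.sub (Nat.add (Nat.add (Nat.add (Nat.add (Nat.add (Nat.add (Nat.add (Nat.add C x6940) x1108) x3052) x2404) x2728) x2620) x2548) x2568) x9126)
    (Nat.add (Nat.add (Nat.add (Nat.add (Nat.add (Nat.add (Nat.add (Nat.add (Nat.add C x6942) x1110) x3054) x2406) x2730) x2622) x2550) x2574) x2566)
    (Nat.add (Nat.add (Nat.add (Nat.add (Nat.add (Nat.add (Nat.add (Nat.add (Nat.add C (Nat.mul x2574 (nat_lit 2))) x6948) x1116) x3060) x2412) x2736) x2628) x2556) x2568)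
    (Nat.sub (Nat.sub (Nat.add (Nat.add (Nat.add (Nat.add (Nat.add (Nat.add C x6968) x1136) x3080) x2756) x2540) x2596) x2594) x9154)
    (Nat.sub (Nat.add (Nat.add (Nat.add (Nat.add (Nat.add (Nat.add (Nat.add (Nat.add C x6970) x1138) x3082) x2758) x2542) x2602) x2594) x2598) x9156)
    (Nat.sub (Nat.add (Nat.add (Nat.add (Nat.add (Nat.add (Nat.add (Nat.add C x6972) x1140) x3084) x2760) x2544) x2604) x2596) x2598)
    (Nat.sub (Nat.sub (Nat.add (Nat.add (Nat.add (Nat.add (Nat.add (Nat.add (Nat.add (Nat.add C x6976) x1144) x3088) x2764) x2548) x2620) x2596) x2604) x2602) x9162)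
    (Nat.add (Nat.add (Nat.add (Nat.add (Nat.add (Nat.add (Nat.add (Nat.add (Nat.add C x6978) x1146) x3090) x2766) x2550) x2622) x2598) x2610) x2602)
    (Nat.sub (Nat.add (Nat.add (Nat.add (Nat.add (Nat.add (Nat.add (Nat.add C x6984) x1152) x3096) x2772) x2556) x2628) x2604) x2610)
    (Nat.sub (Nat.add (Nat.add (Nat.add (Nat.add (Nat.add (Nat.add (Nat.add (Nat.add C x2620) x6994) x1162) x3106) x2782) x2566) x2602) x2622) x9180)
    (Nat.add (Nat.add (Nat.add (Nat.add (Nat.add (Nat.add (Nat.add (Nat.add (Nat.add C x2622) x6996) x1164) x3108) x2784) x2568) x2604) x2628) x2620)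
    (Nat.add (Nat.add (Nat.add (Nat.add (Nat.add (Nat.add (Nat.add (Nat.add (Nat.add C (Nat.mul x2628 (nat_lit 2))) x7002) x1170) x3114) x2790) x2574) x2610) x2646) x2622)
    (Nat.add (Nat.add (Nat.add (Nat.add (Nat.add (Nat.add C (Nat.mul x2646 (nat_lit 3))) x7020) x1188) x3132) x2808) x2628)
    (Nat.sub (Nat.sub (Nat.add (Nat.add (Nat.add (Nat.add (Nat.add (Nat.add C x7052) x1220) x3164) x2516) x2684) x2680) x2678) x9238)
    (Nat.sub (Nat.sub (Nat.add (Nat.add (Nat.add (Nat.add (Nat.add (Nat.add C x7054) x1222) x3166) x2518) x2686) x2678) x2680) x9240)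
    (Nat.sub (Nat.sub (Nat.add (Nat.add (Nat.add (Nat.add (Nat.add (Nat.add (Nat.add C x7058) x1226) x3170) x2522) x2702) x2678) x2686) (Nat.mul x2684 (nat_lit 3))) x9244)
    (Nat.sub (Nat.sub (Nat.add (Nat.add (Nat.add (Nat.add (Nat.add (Nat.add (Nat.add (Nat.add (Nat.add C x7060) x1228) x3172) x2524) x2704) x2680) x2692) x2684) x2688) x2686) x9246)
    (Nat.sub (Nat.add (Nat.add (Nat.add (Nat.add (Nat.add (Nat.add (Nat.add C x7062) x1230) x3174) x2526) x2706) x2694) x2686) x2688)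
    (Nat.sub (Nat.sub (Nat.add (Nat.add (Nat.add (Nat.add (Nat.add (Nat.add (Nat.add C x7066) x1234) x3178) x2530) x2710) x2686) x2694) (Nat.mul x2692 (nat_lit 3))) x9252)
    (Nat.sub (Nat.add (Nat.add (Nat.add (Nat.add (Nat.add (Nat.add (Nat.add C x7068) x1236) x3180) x2532) x2712) x2688) x2692) x2694)
    (Nat.sub (Nat.sub (Nat.add (Nat.add (Nat.add (Nat.add (Nat.add (Nat.add (Nat.add C x7076) x1244) x3188) x2540) x2756) x2684) x2704) (Nat.mul x2702 (nat_lit 3))) x9262)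
    (Nat.sub (Nat.sub (Nat.add (Nat.add (Nat.add (Nat.add (Nat.add (Nat.add (Nat.add (Nat.add (Nat.add C x7078) x1246) x3190) x2542) x2758) x2686) x2710) x2702) x2706) (Nat.mul x2704 (nat_lit 2))) x9264)
    (Nat.sub (Nat.add (Nat.add (Nat.add (Nat.add (Nat.add (Nat.add (Nat.add (Nat.add C x7080) x1248) x3192) x2544) x2760) x2688) x2712) x2704) (Nat.mul x2706 (nat_lit 3)))
    (Nat.sub (Nat.sub (Nat.add (Nat.add (Nat.add (Nat.add (Nat.add (Nat.add (Nat.add (Nat.add (Nat.add C x7084) x1252) x3196) x2548) x2764) x2692) x2728) x2704) x2712) (Nat.mul x2710 (nat_lit 2))) x9270)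
    (Nat.sub (Nat.add (Nat.add (Nat.add (Nat.add (Nat.add (Nat.add (Nat.add (Nat.add (Nat.add (Nat.add C x7086) x1254) x3198) x2550) x2766) x2694) x2730) x2706) x2718) x2710) x2712)
    (Nat.sub (Nat.add (Nat.add (Nat.add (Nat.add (Nat.add (Nat.add (Nat.add C x7092) x1260) x3204) x2556) x2772) x2736) x2712) x2718)
    (Nat.sub (Nat.sub (Nat.add (Nat.add (Nat.add (Nat.add (Nat.add (Nat.add (Nat.add C x7102) x1270) x3214) x2566) x2782) x2710) x2730) (Nat.mul x2728 (nat_lit 3))) x9288)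
    (Nat.sub (Nat.add (Nat.add (Nat.add (Nat.add (Nat.add (Nat.add (Nat.add (Nat.add C x7104) x1272) x3216) x2568) x2784) x2712) x2736) x2728) (Nat.mul x2730 (nat_lit 3)))
    (Nat.sub (Nat.add (Nat.add (Nat.add (Nat.add (Nat.add (Nat.add (Nat.add C x7110) x1278) x3222) x2574) x2790) x2718) x2730) x2736)
    (Nat.sub (Nat.sub (Nat.add (Nat.add (Nat.add (Nat.add (Nat.add (Nat.add C x7130) x1298) x3242) x2594) x2702) x2758) x2756) x9316)
    (Nat.sub (Nat.add (Nat.add (Nat.add (Nat.add (Nat.add (Nat.add (Nat.add (Nat.add C x7132) x1300) x3244) x2596) x2704) x2764) x2756) x2760) x9318)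
    (Nat.sub (Nat.add (Nat.add (Nat.add (Nat.add (Nat.add (Nat.add (Nat.add C x7134) x1302) x3246) x2598) x2706) x2766) x2758) x2760)
    (Nat.sub (Nat.sub (Nat.add (Nat.add (Nat.add (Nat.add (Nat.add (Nat.add (Nat.add (Nat.add C x7138) x1306) x3250) x2602) x2710) x2782) x2758) x2766) x2764) x9324)
    (Nat.add (Nat.add (Nat.add (Nat.add (Nat.add (Nat.add (Nat.add (Nat.add (Nat.add C x7140) x1308) x3252) x2604) x2712) x2784) x2760) x2772) x2764)
    (Nat.sub (Nat.add (Nat.add (Nat.add (Nat.add (Nat.add (Nat.add (Nat.add C x7146) x1314) x3258) x2610) x2718) x2790) x2766) x2772)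
    (Nat.sub (Nat.add (Nat.add (Nat.add (Nat.add (Nat.add (Nat.add (Nat.add (Nat.add C x7156) x1324) x3268) x2620) x2728) x2836) x2764) x2784) x9342)
    (Nat.add (Nat.add (Nat.add (Nat.add (Nat.add (Nat.add (Nat.add (Nat.add (Nat.add C x7158) x1326) x3270) x2622) x2730) x2838) x2766) x2790) x2782)
    (Nat.add (Nat.add (Nat.add (Nat.add (Nat.add (Nat.add (Nat.add (Nat.add (Nat.add (Nat.add C x2790) x7164) x1332) x3276) x2628) x2736) x2844) x2772) x2808) x2784)
    (Nat.add (Nat.add (Nat.add (Nat.add (Nat.add (Nat.add (Nat.add C x2808) x7182) x1350) x3294) x2646) x2862) x2790)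
    (Nat.sub (Nat.add (Nat.add (Nat.add (Nat.add (Nat.add (Nat.add C x2836) x7210) x1378) x3322) x2782) x2838) x9396)
    (Nat.add (Nat.add (Nat.add (Nat.add (Nat.add (Nat.add (Nat.add C x2838) x7212) x1380) x3324) x2784) x2844) x2836)
    (Nat.add (Nat.add (Nat.add (Nat.add (Nat.add (Nat.add (Nat.add C x2844) x7218) x1386) x3330) x2790) x2862) x2838)
    (Nat.add (Nat.add (Nat.add (Nat.add (Nat.add (Nat.add C (Nat.mul x2862 (nat_lit 3))) x7236) x1404) x3348) x2808) x2844)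
    (Nat.sub (Nat.add (Nat.add (Nat.add (Nat.add (Nat.add (Nat.add C (Nat.mul x2924 (nat_lit 2))) x7298) x1466) x4382) x2438) x2930) x9484)
    (Nat.sub (Nat.add (Nat.add (Nat.add (Nat.add (Nat.add (Nat.add (Nat.add (Nat.add (Nat.add C x2930) x7304) x1472) x4388) x2444) x2948) x2924) x2936) x2932) x9490)
    (Nat.sub (Nat.add (Nat.add (Nat.add (Nat.add (Nat.add (Nat.add (Nat.add (Nat.add C (Nat.mul x2932 (nat_lit 2))) x7306) x1474) x4390) x2446) x2950) x2938) x2930) x9492)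
    (Nat.sub (Nat.sub (Nat.add (Nat.add (Nat.add (Nat.add (Nat.add (Nat.add (Nat.add C x7310) x1478) x4394) x2450) x2954) x2930) x2938) (Nat.mul x2936 (nat_lit 2))) x9496)
    (Nat.sub (Nat.add (Nat.add (Nat.add (Nat.add (Nat.add (Nat.add (Nat.add (Nat.add (Nat.add C x2938) x7312) x1480) x4396) x2452) x2956) x2932) x2936) x2940) x9498)
    (Nat.add (Nat.add (Nat.add (Nat.add (Nat.add (Nat.add (Nat.add C (Nat.mul x2940 (nat_lit 2))) x7314) x1482) x4398) x2454) x2958) x2938)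
    (Nat.sub (Nat.add (Nat.add (Nat.add (Nat.add (Nat.add (Nat.add (Nat.add (Nat.add C x7322) x1490) x4406) x2462) x3002) x2930) x2954) x2950) x9508)
    (Nat.sub (Nat.add (Nat.add (Nat.add (Nat.add (Nat.add (Nat.add (Nat.add (Nat.add C x7324) x1492) x4408) x2464) x3004) x2932) x2956) x2948) x9510)
    (Nat.sub (Nat.sub (Nat.add (Nat.add (Nat.add (Nat.add (Nat.add (Nat.add (Nat.add (Nat.add (Nat.add C x7328) x1496) x4412) x2468) x3008) x2936) x2972) x2948) x2956) x2954) x9514)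
    (Nat.sub (Nat.add (Nat.add (Nat.add (Nat.add (Nat.add (Nat.add (Nat.add (Nat.add (Nat.add (Nat.add (Nat.add (Nat.add C x2956) x7330) x1498) x4414) x2470) x3010) x2938) x2974) x2950) x2962) x2954) x2958) x9516)
    (Nat.add (Nat.add (Nat.add (Nat.add (Nat.add (Nat.add (Nat.add (Nat.add (Nat.add (Nat.add C x2958) x7332) x1500) x4416) x2472) x3012) x2940) x2976) x2964) x2956)
    (Nat.sub (Nat.add (Nat.add (Nat.add (Nat.add (Nat.add (Nat.add (Nat.add (Nat.add C x7336) x1504) x4420) x2476) x3016) x2980) x2956) x2964) x9522)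
    (Nat.add (Nat.add (Nat.add (Nat.add (Nat.add (Nat.add (Nat.add (Nat.add (Nat.add C (Nat.mul x2964 (nat_lit 2))) x7338) x1506) x4422) x2478) x3018) x2982) x2958) x2962)
    (Nat.sub (Nat.sub (Nat.add (Nat.add (Nat.add (Nat.add (Nat.add (Nat.add (Nat.add C x7346) x1514) x4430) x2486) x3026) x2954) x2974) (Nat.mul x2972 (nat_lit 2))) x9532)
    (Nat.sub (Nat.sub (Nat.add (Nat.add (Nat.add (Nat.add (Nat.add (Nat.add (Nat.add (Nat.add (Nat.add C x7348) x1516) x4432) x2488) x3028) x2956) x2980) x2972) x2976) x2974) x9534)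
    (Nat.sub (Nat.add (Nat.add (Nat.add (Nat.add (Nat.add (Nat.add (Nat.add (Nat.add C x7350) x1518) x4434) x2490) x3030) x2958) x2982) x2974) (Nat.mul x2976 (nat_lit 2)))
    (Nat.sub (Nat.add (Nat.add (Nat.add (Nat.add (Nat.add (Nat.add (Nat.add (Nat.add C x7354) x1522) x4438) x2494) x3034) x2962) x2974) x2982) x9540)
    (Nat.add (Nat.add (Nat.add (Nat.add (Nat.add (Nat.add (Nat.add (Nat.add (Nat.add (Nat.add C x2982) x7356) x1524) x4440) x2496) x3036) x2964) x2976) x2988) x2980)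
    (Nat.add (Nat.add (Nat.add (Nat.add (Nat.add (Nat.add (Nat.add C (Nat.mul x2988 (nat_lit 2))) x7362) x1530) x4446) x2502) x3042) x2982)
    (Nat.sub (Nat.add (Nat.add (Nat.add (Nat.add (Nat.add (Nat.add (Nat.add (Nat.add C x7376) x1544) x4460) x2516) x3164) x2948) x3008) x3004) x9562)
    (Nat.sub (Nat.add (Nat.add (Nat.add (Nat.add (Nat.add (Nat.add (Nat.add (Nat.add C x7378) x1546) x4462) x2518) x3166) x2950) x3010) x3002) x9564)
    (Nat.sub (Nat.sub (Nat.add (Nat.add (Nat.add (Nat.add (Nat.add (Nat.add (Nat.add (Nat.add (Nat.add C x7382) x1550) x4466) x2522) x3170) x2954) x3026) x3002) x3010) (Nat.mul x3008 (nat_lit 2))) x9568)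
    (Nat.sub (Nat.add (Nat.add (Nat.add (Nat.add (Nat.add (Nat.add (Nat.add (Nat.add (Nat.add (Nat.add (Nat.add C x7384) x1552) x4468) x2524) x3172) x2956) x3028) x3004) x3016) x3008) x3012) x9570)
    (Nat.add (Nat.add (Nat.add (Nat.add (Nat.add (Nat.add (Nat.add (Nat.add (Nat.add C x7386) x1554) x4470) x2526) x3174) x2958) x3030) x3018) x3010)
    (Nat.sub (Nat.sub (Nat.add (Nat.add (Nat.add (Nat.add (Nat.add (Nat.add (Nat.add (Nat.add (Nat.add C x7390) x1558) x4474) x2530) x3178) x2962) x3034) x3010) x3018) (Nat.mul x3016 (nat_lit 2))) x9576)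
    (Nat.add (Nat.add (Nat.add (Nat.add (Nat.add (Nat.add (Nat.add (Nat.add (Nat.add C x7392) x1560) x4476) x2532) x3180) x2964) x3036) x3012) x3016)
    (Nat.sub (Nat.sub (Nat.add (Nat.add (Nat.add (Nat.add (Nat.add (Nat.add (Nat.add (Nat.add (Nat.add C x7400) x1568) x4484) x2540) x3188) x2972) x3080) x3008) x3028) x3026) x9586)
    (Nat.sub (Nat.sub (Nat.add (Nat.add (Nat.add (Nat.add (Nat.add (Nat.add (Nat.add (Nat.add (Nat.add (Nat.add (Nat.add (Nat.add C x7402) x1570) x4486) x2542) x3190) x2974) x3082) x3010) x3034) x3026) x3030) (Nat.mul (e (nat_lit 3028)) ap)) x9588) (Nat.mul (e (nat_lit 3028)) an))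
    (Nat.sub (Nat.add (Nat.add (Nat.add (Nat.add (Nat.add (Nat.add (Nat.add (Nat.add (Nat.add (Nat.add C x7404) x1572) x4488) x2544) x3192) x2976) x3084) x3012) x3036) x3028) x3030)
    (Nat.sub (Nat.add (Nat.add (Nat.add (Nat.add (Nat.add (Nat.add (Nat.add (Nat.add (Nat.add (Nat.add (Nat.add C x7408) x1576) x4492) x2548) x3196) x2980) x3088) x3016) x3052) x3028) x3036) x9594)
    (Nat.add (Nat.add (Nat.add (Nat.add (Nat.add (Nat.add (Nat.add (Nat.add (Nat.add (Nat.add (Nat.add (Nat.add (Nat.add C x3036) x7410) x1578) x4494) x2550) x3198) x2982) x3090) x3018) x3054) x3030) x3042) x3034)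
    (Nat.add (Nat.add (Nat.add (Nat.add (Nat.add (Nat.add (Nat.add (Nat.add (Nat.add (Nat.add C x3042) x7416) x1584) x4500) x2556) x3204) x2988) x3096) x3060) x3036)
    (Nat.sub (Nat.add (Nat.add (Nat.add (Nat.add (Nat.add (Nat.add (Nat.add (Nat.add C x7426) x1594) x4510) x2566) x3214) x3106) x3034) x3054) x9612)
    (Nat.add (Nat.add (Nat.add (Nat.add (Nat.add (Nat.add (Nat.add (Nat.add (Nat.add C x7428) x1596) x4512) x2568) x3216) x3108) x3036) x3060) x3052)
    (Nat.add (Nat.add (Nat.add (Nat.add (Nat.add (Nat.add (Nat.add (Nat.add (Nat.add C (Nat.mul x3060 (nat_lit 2))) x7434) x1602) x4518) x2574) x3222) x3114) x3042) x3054)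
    (Nat.sub (Nat.sub (Nat.add (Nat.add (Nat.add (Nat.add (Nat.add (Nat.add (Nat.add C x7454) x1622) x4538) x2594) x3242) x3026) x3082) (Nat.mul x3080 (nat_lit 2))) x9640)
    (Nat.sub (Nat.sub (Nat.add (Nat.add (Nat.add (Nat.add (Nat.add (Nat.add (Nat.add (Nat.add (Nat.add C x7456) x1624) x4540) x2596) x3244) x3028) x3088) x3080) x3084) x3082) x9642)
    (Nat.sub (Nat.add (Nat.add (Nat.add (Nat.add (Nat.add (Nat.add (Nat.add (Nat.add C x7458) x1626) x4542) x2598) x3246) x3030) x3090) x3082) (Nat.mul x3084 (nat_lit 2)))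
    (Nat.sub (Nat.sub (Nat.add (Nat.add (Nat.add (Nat.add (Nat.add (Nat.add (Nat.add (Nat.add (Nat.add C x7462) x1630) x4546) x2602) x3250) x3034) x3106) x3082) x3090) (Nat.mul x3088 (nat_lit 2))) x9648)
    (Nat.sub (Nat.add (Nat.add (Nat.add (Nat.add (Nat.add (Nat.add (Nat.add (Nat.add (Nat.add (Nat.add C x7464) x1632) x4548) x2604) x3252) x3036) x3108) x3084) x3096) x3088) x3090)
    (Nat.sub (Nat.add (Nat.add (Nat.add (Nat.add (Nat.add (Nat.add (Nat.add (Nat.add C x7470) x1638) x4554) x2610) x3258) x3042) x3114) x3090) (Nat.mul x3096 (nat_lit 2)))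
    (Nat.sub (Nat.add (Nat.add (Nat.add (Nat.add (Nat.add (Nat.add (Nat.add (Nat.add C x7480) x1648) x4564) x2620) x3268) x3052) x3088) x3108) x9666)
    (Nat.add (Nat.add (Nat.add (Nat.add (Nat.add (Nat.add (Nat.add (Nat.add (Nat.add C x7482) x1650) x4566) x2622) x3270) x3054) x3090) x3114) x3106)
    (Nat.add (Nat.add (Nat.add (Nat.add (Nat.add (Nat.add (Nat.add (Nat.add (Nat.add (Nat.add C x3114) x7488) x1656) x4572) x2628) x3276) x3060) x3096) x3132) x3108)
    (Nat.add (Nat.add (Nat.add (Nat.add (Nat.add (Nat.add (Nat.add C (Nat.mul x3132 (nat_lit 2))) x7506) x1674) x4590) x2646) x3294) x3114)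
    (Nat.sub (Nat.add (Nat.add (Nat.add (Nat.add (Nat.add (Nat.add (Nat.add (Nat.add (Nat.add C x3164) x7538) x1706) x4622) x2678) x3650) x3002) x3170) x3166) x9724)
    (Nat.sub (Nat.add (Nat.add (Nat.add (Nat.add (Nat.add (Nat.add (Nat.add (Nat.add (Nat.add C x3166) x7540) x1708) x4624) x2680) x3652) x3004) x3172) x3164) x9726)
    (Nat.sub (Nat.sub (Nat.add (Nat.add (Nat.add (Nat.add (Nat.add (Nat.add (Nat.add (Nat.add (Nat.add C x7544) x1712) x4628) x2684) x3656) x3008) x3188) x3164) x3172) x3170) x9730)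
    (Nat.sub (Nat.add (Nat.add (Nat.add (Nat.add (Nat.add (Nat.add (Nat.add (Nat.add (Nat.add (Nat.add (Nat.add (Nat.add C x3172) x7546) x1714) x4630) x2686) x3658) x3010) x3190) x3166) x3178) x3170) x3174) x9732)
    (Nat.add (Nat.add (Nat.add (Nat.add (Nat.add (Nat.add (Nat.add (Nat.add (Nat.add (Nat.add C x3174) x7548) x1716) x4632) x2688) x3660) x3012) x3192) x3180) x3172)
    (Nat.sub (Nat.sub (Nat.add (Nat.add (Nat.add (Nat.add (Nat.add (Nat.add (Nat.add (Nat.add (Nat.add C x7552) x1720) x4636) x2692) x3664) x3016) x3196) x3172) x3180) x3178) x9738)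
    (Nat.add (Nat.add (Nat.add (Nat.add (Nat.add (Nat.add (Nat.add (Nat.add (Nat.add (Nat.add C x3180) x7554) x1722) x4638) x2694) x3666) x3018) x3198) x3174) x3178)
    (Nat.sub (Nat.sub (Nat.add (Nat.add (Nat.add (Nat.add (Nat.add (Nat.add (Nat.add (Nat.add (Nat.add C x7562) x1730) x4646) x2702) x3674) x3026) x3242) x3170) x3190) x3188) x9748)
    (Nat.sub (Nat.add (Nat.add (Nat.add (Nat.add (Nat.add (Nat.add (Nat.add (Nat.add (Nat.add (Nat.add (Nat.add C x7564) x1732) x4648) x2704) x3676) x3028) x3244) x3172) x3196) x3188) x3192) x9750)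
    (Nat.sub (Nat.add (Nat.add (Nat.add (Nat.add (Nat.add (Nat.add (Nat.add (Nat.add (Nat.add (Nat.add C x7566) x1734) x4650) x2706) x3678) x3030) x3246) x3174) x3198) x3190) x3192)
    (Nat.sub (Nat.add (Nat.add (Nat.add (Nat.add (Nat.add (Nat.add (Nat.add (Nat.add (Nat.add (Nat.add (Nat.add C x7570) x1738) x4654) x2710) x3682) x3034) x3250) x3178) x3214) x3190) x3198) x9756)
    (Nat.add (Nat.add (Nat.add (Nat.add (Nat.add (Nat.add (Nat.add (Nat.add (Nat.add (Nat.add (Nat.add (Nat.add (Nat.add C x3198) x7572) x1740) x4656) x2712) x3684) x3036) x3252) x3180) x3216) x3192) x3204) x3196)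
    (Nat.add (Nat.add (Nat.add (Nat.add (Nat.add (Nat.add (Nat.add (Nat.add (Nat.add (Nat.add C x3204) x7578) x1746) x4662) x2718) x3690) x3042) x3258) x3222) x3198)
    (Nat.sub (Nat.sub (Nat.add (Nat.add (Nat.add (Nat.add (Nat.add (Nat.add (Nat.add (Nat.add (Nat.add C x7588) x1756) x4672) x2728) x3700) x3052) x3268) x3196) x3216) x3214) x9774)
    (Nat.sub (Nat.add (Nat.add (Nat.add (Nat.add (Nat.add (Nat.add (Nat.add (Nat.add (Nat.add (Nat.add C x7590) x1758) x4674) x2730) x3702) x3054) x3270) x3198) x3222) x3214) x3216)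
    (Nat.add (Nat.add (Nat.add (Nat.add (Nat.add (Nat.add (Nat.add (Nat.add (Nat.add (Nat.add C x3222) x7596) x1764) x4680) x2736) x3708) x3060) x3276) x3204) x3216)
    (Nat.sub (Nat.add (Nat.add (Nat.add (Nat.add (Nat.add (Nat.add (Nat.add (Nat.add (Nat.add C x7616) x1784) x4700) x2756) x3728) x3080) x3404) x3188) x3244) x9802)
    (Nat.sub (Nat.add (Nat.add (Nat.add (Nat.add (Nat.add (Nat.add (Nat.add (Nat.add (Nat.add (Nat.add (Nat.add (Nat.add C x3244) x7618) x1786) x4702) x2758) x3730) x3082) x3406) x3190) x3250) x3242) x3246) x9804)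
    (Nat.add (Nat.add (Nat.add (Nat.add (Nat.add (Nat.add (Nat.add (Nat.add (Nat.add (Nat.add C x7620) x1788) x4704) x2760) x3732) x3084) x3408) x3192) x3252) x3244)
    (Nat.sub (Nat.add (Nat.add (Nat.add (Nat.add (Nat.add (Nat.add (Nat.add (Nat.add (Nat.add (Nat.add (Nat.add C x7624) x1792) x4708) x2764) x3736) x3088) x3412) x3196) x3268) x3244) x3252) x9810)
    (Nat.add (Nat.add (Nat.add (Nat.add (Nat.add (Nat.add (Nat.add (Nat.add (Nat.add (Nat.add (Nat.add (Nat.add (Nat.add C x3252) x7626) x1794) x4710) x2766) x3738) x3090) x3414) x3198) x3270) x3246) x3258) x3250)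
    (Nat.add (Nat.add (Nat.add (Nat.add (Nat.add (Nat.add (Nat.add (Nat.add (Nat.add (Nat.add C x7632) x1800) x4716) x2772) x3744) x3096) x3420) x3204) x3276) x3252)
    (Nat.sub (Nat.add (Nat.add (Nat.add (Nat.add (Nat.add (Nat.add (Nat.add (Nat.add (Nat.add (Nat.add (Nat.add (Nat.add C x3268) x7642) x1810) x4726) x2782) x3754) x3106) x3430) x3214) x3322) x3250) x3270) x9828)
    (Nat.add (Nat.add (Nat.add (Nat.add (Nat.add (Nat.add (Nat.add (Nat.add (Nat.add (Nat.add (Nat.add (Nat.add (Nat.add C x3270) x7644) x1812) x4728) x2784) x3756) x3108) x3432) x3216) x3324) x3252) x3276) x3268)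
    (Nat.add (Nat.add (Nat.add (Nat.add (Nat.add (Nat.add (Nat.add (Nat.add (Nat.add (Nat.add (Nat.add (Nat.add (Nat.add C (Nat.mul x3276 (nat_lit 2))) x7650) x1818) x4734) x2790) x3762) x3114) x3438) x3222) x3330) x3258) x3294) x3270)
    (Nat.add (Nat.add (Nat.add (Nat.add (Nat.add (Nat.add (Nat.add (Nat.add (Nat.add (Nat.add C (Nat.mul x3294 (nat_lit 2))) x7668) x1836) x4752) x2808) x3780) x3132) x3456) x3348) x3276)
    (Nat.sub (Nat.add (Nat.add (Nat.add (Nat.add (Nat.add (Nat.add (Nat.add (Nat.add (Nat.add C x3322) x7696) x1864) x4780) x2836) x3808) x3484) x3268) x3324) x9882)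
    (Nat.add (Nat.add (Nat.add (Nat.add (Nat.add (Nat.add (Nat.add (Nat.add (Nat.add (Nat.add C x3324) x7698) x1866) x4782) x2838) x3810) x3486) x3270) x3330) x3322)
    (Nat.add (Nat.add (Nat.add (Nat.add (Nat.add (Nat.add (Nat.add (Nat.add (Nat.add (Nat.add C x3330) x7704) x1872) x4788) x2844) x3816) x3492) x3276) x3348) x3324)
    (Nat.add (Nat.add (Nat.add (Nat.add (Nat.add (Nat.add (Nat.add (Nat.add (Nat.add C (Nat.mul x3348 (nat_lit 3))) x7722) x1890) x4806) x2862) x3834) x3510) x3294) x3330)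
    (Nat.sub (Nat.add (Nat.add (Nat.add (Nat.add (Nat.add (Nat.add C x7778) x1946) x4862) x3890) x3242) x3406) x9964)
    (Nat.sub (Nat.add (Nat.add (Nat.add (Nat.add (Nat.add (Nat.add (Nat.add (Nat.add (Nat.add C x3406) x7780) x1948) x4864) x3892) x3244) x3412) x3404) x3408) x9966)
    (Nat.add (Nat.add (Nat.add (Nat.add (Nat.add (Nat.add (Nat.add C x7782) x1950) x4866) x3894) x3246) x3414) x3406)
    (Nat.sub (Nat.add (Nat.add (Nat.add (Nat.add (Nat.add (Nat.add (Nat.add (Nat.add C x7786) x1954) x4870) x3898) x3250) x3430) x3406) x3414) x9972)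
    (Nat.add (Nat.add (Nat.add (Nat.add (Nat.add (Nat.add (Nat.add (Nat.add (Nat.add (Nat.add C x3414) x7788) x1956) x4872) x3900) x3252) x3432) x3408) x3420) x3412)
    (Nat.add (Nat.add (Nat.add (Nat.add (Nat.add (Nat.add (Nat.add C x7794) x1962) x4878) x3906) x3258) x3438) x3414)
    (Nat.sub (Nat.add (Nat.add (Nat.add (Nat.add (Nat.add (Nat.add (Nat.add (Nat.add C x7804) x1972) x4888) x3916) x3268) x3484) x3412) x3432) x9990)
    (Nat.add (Nat.add (Nat.add (Nat.add (Nat.add (Nat.add (Nat.add (Nat.add (Nat.add C x7806) x1974) x4890) x3918) x3270) x3486) x3414) x3438) x3430)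
    (Nat.add (Nat.add (Nat.add (Nat.add (Nat.add (Nat.add (Nat.add (Nat.add (Nat.add (Nat.add C x3438) x7812) x1980) x4896) x3924) x3276) x3492) x3420) x3456) x3432)
    (Nat.add (Nat.add (Nat.add (Nat.add (Nat.add (Nat.add (Nat.add C x7830) x1998) x4914) x3942) x3294) x3510) x3438)
    (Nat.sub (Nat.add (Nat.add (Nat.add (Nat.add (Nat.add (Nat.add (Nat.add (Nat.add C (Nat.mul x3484 (nat_lit 2))) x7858) x2026) x4942) x3970) x3322) x3430) x3486) x10044)
    (Nat.add (Nat.add (Nat.add (Nat.add (Nat.add (Nat.add (Nat.add (Nat.add (Nat.add C (Nat.mul x3486 (nat_lit 2))) x7860) x2028) x4944) x3972) x3324) x3432) x3492) x3484)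
    (Nat.add (Nat.add (Nat.add (Nat.add (Nat.add (Nat.add (Nat.add (Nat.add (Nat.add C (Nat.mul x3492 (nat_lit 2))) x7866) x2034) x4950) x3978) x3330) x3438) x3510) x3486)
    (Nat.add (Nat.add (Nat.add (Nat.add (Nat.add (Nat.add (Nat.add (Nat.add (Nat.add C (Nat.mul x3510 (nat_lit 3))) x7884) x2052) x4968) x3996) x3348) x3456) x3564) x3492)
    (Nat.add (Nat.add (Nat.add (Nat.add (Nat.add (Nat.add C (Nat.mul x3564 (nat_lit 4))) x7938) x2106) x5022) x4050) x3510)
    (Nat.sub (Nat.add (Nat.add (Nat.add (Nat.add (Nat.add (Nat.add C x3650) x8024) x5108) x3164) x3656) x3652) x10210)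
    (Nat.sub (Nat.add (Nat.add (Nat.add (Nat.add (Nat.add (Nat.add C x3652) x8026) x5110) x3166) x3658) x3650) x10212)
    (Nat.sub (Nat.sub (Nat.add (Nat.add (Nat.add (Nat.add (Nat.add (Nat.add C x8030) x5114) x3170) x3674) x3650) x3658) x3656) x10216)
    (Nat.sub (Nat.add (Nat.add (Nat.add (Nat.add (Nat.add (Nat.add (Nat.add (Nat.add (Nat.add C x3658) x8032) x5116) x3172) x3676) x3652) x3664) x3656) x3660) x10218)
    (Nat.add (Nat.add (Nat.add (Nat.add (Nat.add (Nat.add (Nat.add C x3660) x8034) x5118) x3174) x3678) x3666) x3658)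
    (Nat.sub (Nat.sub (Nat.add (Nat.add (Nat.add (Nat.add (Nat.add (Nat.add C x8038) x5122) x3178) x3682) x3658) x3666) x3664) x10224)
    (Nat.add (Nat.add (Nat.add (Nat.add (Nat.add (Nat.add (Nat.add C x3666) x8040) x5124) x3180) x3684) x3660) x3664)
    (Nat.sub (Nat.sub (Nat.add (Nat.add (Nat.add (Nat.add (Nat.add (Nat.add C x8048) x5132) x3188) x3728) x3656) x3676) x3674) x10234)
    (Nat.sub (Nat.add (Nat.add (Nat.add (Nat.add (Nat.add (Nat.add (Nat.add (Nat.add C x8050) x5134) x3190) x3730) x3658) x3682) x3674) x3678) x10236)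
    (Nat.sub (Nat.add (Nat.add (Nat.add (Nat.add (Nat.add (Nat.add (Nat.add C x8052) x5136) x3192) x3732) x3660) x3684) x3676) x3678)
    (Nat.sub (Nat.add (Nat.add (Nat.add (Nat.add (Nat.add (Nat.add (Nat.add (Nat.add C x8056) x5140) x3196) x3736) x3664) x3700) x3676) x3684) x10242)
    (Nat.add (Nat.add (Nat.add (Nat.add (Nat.add (Nat.add (Nat.add (Nat.add (Nat.add (Nat.add C x3684) x8058) x5142) x3198) x3738) x3666) x3702) x3678) x3690) x3682)
    (Nat.add (Nat.add (Nat.add (Nat.add (Nat.add (Nat.add (Nat.add C x3690) x8064) x5148) x3204) x3744) x3708) x3684)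
    (Nat.sub (Nat.sub (Nat.add (Nat.add (Nat.add (Nat.add (Nat.add (Nat.add C x8074) x5158) x3214) x3754) x3682) x3702) x3700) x10260)
    (Nat.sub (Nat.add (Nat.add (Nat.add (Nat.add (Nat.add (Nat.add (Nat.add C x8076) x5160) x3216) x3756) x3684) x3708) x3700) x3702)
    (Nat.add (Nat.add (Nat.add (Nat.add (Nat.add (Nat.add (Nat.add C x3708) x8082) x5166) x3222) x3762) x3690) x3702)
    (Nat.sub (Nat.sub (Nat.add (Nat.add (Nat.add (Nat.add (Nat.add (Nat.add C x8102) x5186) x3242) x3890) x3674) x3730) x3728) x10288)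
    (Nat.sub (Nat.add (Nat.add (Nat.add (Nat.add (Nat.add (Nat.add (Nat.add (Nat.add C x8104) x5188) x3244) x3892) x3676) x3736) x3728) x3732) x10290)
    (Nat.sub (Nat.add (Nat.add (Nat.add (Nat.add (Nat.add (Nat.add (Nat.add C x8106) x5190) x3246) x3894) x3678) x3738) x3730) x3732)
    (Nat.sub (Nat.sub (Nat.add (Nat.add (Nat.add (Nat.add (Nat.add (Nat.add (Nat.add (Nat.add C x8110) x5194) x3250) x3898) x3682) x3754) x3730) x3738) x3736) x10296)
    (Nat.add (Nat.add (Nat.add (Nat.add (Nat.add (Nat.add (Nat.add (Nat.add (Nat.add C x8112) x5196) x3252) x3900) x3684) x3756) x3732) x3744) x3736)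
    (Nat.sub (Nat.add (Nat.add (Nat.add (Nat.add (Nat.add (Nat.add (Nat.add C x8118) x5202) x3258) x3906) x3690) x3762) x3738) x3744)
    (Nat.sub (Nat.add (Nat.add (Nat.add (Nat.add (Nat.add (Nat.add (Nat.add (Nat.add C x8128) x5212) x3268) x3916) x3700) x3808) x3736) x3756) x10314)
    (Nat.add (Nat.add (Nat.add (Nat.add (Nat.add (Nat.add (Nat.add (Nat.add (Nat.add C x8130) x5214) x3270) x3918) x3702) x3810) x3738) x3762) x3754)
    (Nat.add (Nat.add (Nat.add (Nat.add (Nat.add (Nat.add (Nat.add (Nat.add (Nat.add (Nat.add C x3762) x8136) x5220) x3276) x3924) x3708) x3816) x3744) x3780) x3756)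
    (Nat.add (Nat.add (Nat.add (Nat.add (Nat.add (Nat.add (Nat.add C x3780) x8154) x5238) x3294) x3942) x3834) x3762)
    (Nat.sub (Nat.sub (Nat.add (Nat.add (Nat.add (Nat.add (Nat.add (Nat.add C x8182) x5266) x3322) x3970) x3754) x3810) x3808) x10368)
    (Nat.sub (Nat.add (Nat.add (Nat.add (Nat.add (Nat.add (Nat.add (Nat.add C x8184) x5268) x3324) x3972) x3756) x3816) x3808) x3810)
    (Nat.sub (Nat.add (Nat.add (Nat.add (Nat.add (Nat.add (Nat.add (Nat.add C x8190) x5274) x3330) x3978) x3762) x3834) x3810) x3816)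
    (Nat.add (Nat.add (Nat.add (Nat.add (Nat.add (Nat.add (Nat.add C x3834) x8208) x5292) x3348) x3996) x3780) x3816)
    (Nat.sub (Nat.add (Nat.add (Nat.add (Nat.add (Nat.add (Nat.add C x3890) x8264) x5348) x3404) x3728) x3892) x10450)
    (Nat.sub (Nat.add (Nat.add (Nat.add (Nat.add (Nat.add (Nat.add (Nat.add (Nat.add C (Nat.mul x3892 (nat_lit 2))) x8266) x5350) x3406) x3730) x3898) x3890) x3894) x10452)
    (Nat.add (Nat.add (Nat.add (Nat.add (Nat.add (Nat.add (Nat.add C x3894) x8268) x5352) x3408) x3732) x3900) x3892)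
    (Nat.sub (Nat.add (Nat.add (Nat.add (Nat.add (Nat.add (Nat.add (Nat.add (Nat.add C x3898) x8272) x5356) x3412) x3736) x3916) x3892) x3900) x10458)
    (Nat.add (Nat.add (Nat.add (Nat.add (Nat.add (Nat.add (Nat.add (Nat.add (Nat.add C (Nat.mul x3900 (nat_lit 2))) x8274) x5358) x3414) x3738) x3918) x3894) x3906) x3898)
    (Nat.add (Nat.add (Nat.add (Nat.add (Nat.add (Nat.add (Nat.add C x3906) x8280) x5364) x3420) x3744) x3924) x3900)
    (Nat.sub (Nat.add (Nat.add (Nat.add (Nat.add (Nat.add (Nat.add (Nat.add (Nat.add C x3916) x8290) x5374) x3430) x3754) x3970) x3898) x3918) x10476)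
    (Nat.add (Nat.add (Nat.add (Nat.add (Nat.add (Nat.add (Nat.add (Nat.add (Nat.add C x3918) x8292) x5376) x3432) x3756) x3972) x3900) x3924) x3916)
    (Nat.add (Nat.add (Nat.add (Nat.add (Nat.add (Nat.add (Nat.add (Nat.add (Nat.add C (Nat.mul x3924 (nat_lit 2))) x8298) x5382) x3438) x3762) x3978) x3906) x3942) x3918)
    (Nat.add (Nat.add (Nat.add (Nat.add (Nat.add (Nat.add (Nat.add C x3942) x8316) x5400) x3456) x3780) x3996) x3924)
    (Nat.sub (Nat.add (Nat.add (Nat.add (Nat.add (Nat.add (Nat.add (Nat.add (Nat.add C (Nat.mul x3970 (nat_lit 2))) x8344) x5428) x3484) x3808) x4132) x3916) x3972) x10530)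
    (Nat.add (Nat.add (Nat.add (Nat.add (Nat.add (Nat.add (Nat.add (Nat.add (Nat.add C (Nat.mul x3972 (nat_lit 2))) x8346) x5430) x3486) x3810) x4134) x3918) x3978) x3970)
    (Nat.add (Nat.add (Nat.add (Nat.add (Nat.add (Nat.add (Nat.add (Nat.add (Nat.add C (Nat.mul x3978 (nat_lit 2))) x8352) x5436) x3492) x3816) x4140) x3924) x3996) x3972)
    (Nat.add (Nat.add (Nat.add (Nat.add (Nat.add (Nat.add (Nat.add (Nat.add (Nat.add C (Nat.mul x3996 (nat_lit 3))) x8370) x5454) x3510) x3834) x4158) x3942) x4050) x3978)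
    (Nat.add (Nat.add (Nat.add (Nat.add (Nat.add (Nat.add C (Nat.mul x4050 (nat_lit 3))) x8424) x5508) x3564) x4212) x3996)
    (Nat.sub (Nat.add (Nat.add (Nat.add (Nat.add (Nat.add C (Nat.mul x4132 (nat_lit 3))) x8506) x5590) x3970) x4134) x10692)
    (Nat.add (Nat.add (Nat.add (Nat.add (Nat.add (Nat.add C (Nat.mul x4134 (nat_lit 3))) x8508) x5592) x3972) x4140) x4132)
    (Nat.add (Nat.add (Nat.add (Nat.add (Nat.add (Nat.add C (Nat.mul x4140 (nat_lit 3))) x8514) x5598) x3978) x4158) x4134)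
    (Nat.add (Nat.add (Nat.add (Nat.add (Nat.add (Nat.add C (Nat.mul x4158 (nat_lit 3))) x8532) x5616) x3996) x4212) x4140)
    (Nat.add (Nat.add (Nat.add (Nat.add (Nat.add C (Nat.mul x4212 (nat_lit 5))) x8586) x5670) x4050) x4158)
    (Nat.sub (Nat.add (Nat.add (Nat.add (Nat.add C x4382) x8756) x2924) x4388) x10942)
    (Nat.sub (Nat.add (Nat.add (Nat.add (Nat.add (Nat.add (Nat.add C x8762) x2930) x4406) x4382) x4394) x4390) x10948)
    (Nat.sub (Nat.add (Nat.add (Nat.add (Nat.add (Nat.add (Nat.add C x4390) x8764) x2932) x4408) x4396) x4388) x10950)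
    (Nat.sub (Nat.sub (Nat.add (Nat.add (Nat.add (Nat.add (Nat.add C x8768) x2936) x4412) x4388) x4396) (Nat.mul x4394 (nat_lit 3))) x10954)
    (Nat.sub (Nat.add (Nat.add (Nat.add (Nat.add (Nat.add (Nat.add C x8770) x2938) x4414) x4390) x4394) x4398) x10956)
    (Nat.add (Nat.add (Nat.add (Nat.add (Nat.add C x4398) x8772) x2940) x4416) x4396)
    (Nat.sub (Nat.sub (Nat.add (Nat.add (Nat.add (Nat.add (Nat.add (Nat.add C x8780) x2948) x4460) x4388) x4412) x4408) x4406) x10966)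
    (Nat.sub (Nat.sub (Nat.add (Nat.add (Nat.add (Nat.add (Nat.add (Nat.add C x8782) x2950) x4462) x4390) x4414) x4406) x4408) x10968)
    (Nat.sub (Nat.sub (Nat.add (Nat.add (Nat.add (Nat.add (Nat.add (Nat.add (Nat.add C x8786) x2954) x4466) x4394) x4430) x4406) x4414) (Nat.mul x4412 (nat_lit 2))) x10972)
    (Nat.sub (Nat.add (Nat.add (Nat.add (Nat.add (Nat.add (Nat.add (Nat.add (Nat.add (Nat.add C x8788) x2956) x4468) x4396) x4432) x4408) x4420) x4412) x4416) x10974)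
    (Nat.add (Nat.add (Nat.add (Nat.add (Nat.add (Nat.add (Nat.add C x8790) x2958) x4470) x4398) x4434) x4422) x4414)
    (Nat.sub (Nat.sub (Nat.add (Nat.add (Nat.add (Nat.add (Nat.add (Nat.add C x8794) x2962) x4474) x4438) x4414) x4422) x4420) x10980)
    (Nat.add (Nat.add (Nat.add (Nat.add (Nat.add (Nat.add (Nat.add C x4422) x8796) x2964) x4476) x4440) x4416) x4420)
    (Nat.sub (Nat.sub (Nat.add (Nat.add (Nat.add (Nat.add (Nat.add C x8804) x2972) x4484) x4412) x4432) (Nat.mul x4430 (nat_lit 3))) x10990)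
    (Nat.sub (Nat.sub (Nat.add (Nat.add (Nat.add (Nat.add (Nat.add (Nat.add (Nat.add C x8806) x2974) x4486) x4414) x4438) x4430) x4434) (Nat.mul x4432 (nat_lit 2))) x10992)
    (Nat.sub (Nat.add (Nat.add (Nat.add (Nat.add (Nat.add (Nat.add C x8808) x2976) x4488) x4416) x4440) x4432) (Nat.mul x4434 (nat_lit 3)))
    (Nat.sub (Nat.sub (Nat.add (Nat.add (Nat.add (Nat.add (Nat.add (Nat.add C x8812) x2980) x4492) x4420) x4432) x4440) x4438) x10998)
    (Nat.add (Nat.add (Nat.add (Nat.add (Nat.add (Nat.add (Nat.add C x8814) x2982) x4494) x4422) x4434) x4446) x4438)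
    (Nat.add (Nat.add (Nat.add (Nat.add (Nat.add C x4446) x8820) x2988) x4500) x4440)
    (Nat.sub (Nat.sub (Nat.add (Nat.add (Nat.add (Nat.add (Nat.add (Nat.add C x8834) x3002) x4622) x4406) x4466) x4462) x4460) x11020)
    (Nat.sub (Nat.sub (Nat.add (Nat.add (Nat.add (Nat.add (Nat.add (Nat.add C x8836) x3004) x4624) x4408) x4468) x4460) x4462) x11022)
    (Nat.sub (Nat.sub (Nat.add (Nat.add (Nat.add (Nat.add (Nat.add (Nat.add (Nat.add C x8840) x3008) x4628) x4412) x4484) x4460) x4468) (Nat.mul x4466 (nat_lit 3))) x11026)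
    (Nat.sub (Nat.sub (Nat.add (Nat.add (Nat.add (Nat.add (Nat.add (Nat.add (Nat.add (Nat.add (Nat.add C x8842) x3010) x4630) x4414) x4486) x4462) x4474) x4466) x4470) x4468) x11028)
    (Nat.sub (Nat.add (Nat.add (Nat.add (Nat.add (Nat.add (Nat.add (Nat.add C x8844) x3012) x4632) x4416) x4488) x4476) x4468) x4470)
    (Nat.sub (Nat.sub (Nat.add (Nat.add (Nat.add (Nat.add (Nat.add (Nat.add (Nat.add C x8848) x3016) x4636) x4420) x4492) x4468) x4476) (Nat.mul x4474 (nat_lit 3))) x11034)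
    (Nat.sub (Nat.add (Nat.add (Nat.add (Nat.add (Nat.add (Nat.add (Nat.add C x8850) x3018) x4638) x4422) x4494) x4470) x4474) x4476)
    (Nat.sub (Nat.sub (Nat.add (Nat.add (Nat.add (Nat.add (Nat.add (Nat.add (Nat.add C x8858) x3026) x4646) x4430) x4538) x4466) x4486) (Nat.mul x4484 (nat_lit 2))) x11044)
    (Nat.sub (Nat.sub (Nat.add (Nat.add (Nat.add (Nat.add (Nat.add (Nat.add (Nat.add (Nat.add (Nat.add C x8860) x3028) x4648) x4432) x4540) x4468) x4492) x4484) x4488) x4486) x11046)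
    (Nat.sub (Nat.add (Nat.add (Nat.add (Nat.add (Nat.add (Nat.add (Nat.add (Nat.add C x8862) x3030) x4650) x4434) x4542) x4470) x4494) x4486) (Nat.mul x4488 (nat_lit 2)))
    (Nat.sub (Nat.sub (Nat.add (Nat.add (Nat.add (Nat.add (Nat.add (Nat.add (Nat.add (Nat.add (Nat.add C x8866) x3034) x4654) x4438) x4546) x4474) x4510) x4486) x4494) x4492) x11052)
    (Nat.add (Nat.add (Nat.add (Nat.add (Nat.add (Nat.add (Nat.add (Nat.add (Nat.add (Nat.add C x8868) x3036) x4656) x4440) x4548) x4476) x4512) x4488) x4500) x4492)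
    (Nat.add (Nat.add (Nat.add (Nat.add (Nat.add (Nat.add (Nat.add C x8874) x3042) x4662) x4446) x4554) x4518) x4494)
    (Nat.sub (Nat.sub (Nat.add (Nat.add (Nat.add (Nat.add (Nat.add (Nat.add C x8884) x3052) x4672) x4564) x4492) x4512) x4510) x11070)
    (Nat.sub (Nat.add (Nat.add (Nat.add (Nat.add (Nat.add (Nat.add (Nat.add C x8886) x3054) x4674) x4566) x4494) x4518) x4510) x4512)
    (Nat.add (Nat.add (Nat.add (Nat.add (Nat.add (Nat.add (Nat.add C x4518) x8892) x3060) x4680) x4572) x4500) x4512)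
    (Nat.sub (Nat.sub (Nat.add (Nat.add (Nat.add (Nat.add (Nat.add C x8912) x3080) x4700) x4484) x4540) (Nat.mul x4538 (nat_lit 3))) x11098)
    (Nat.sub (Nat.sub (Nat.add (Nat.add (Nat.add (Nat.add (Nat.add (Nat.add (Nat.add C x8914) x3082) x4702) x4486) x4546) x4538) x4542) (Nat.mul x4540 (nat_lit 2))) x11100)
    (Nat.sub (Nat.add (Nat.add (Nat.add (Nat.add (Nat.add (Nat.add C x8916) x3084) x4704) x4488) x4548) x4540) (Nat.mul x4542 (nat_lit 3)))
    (Nat.sub (Nat.sub (Nat.add (Nat.add (Nat.add (Nat.add (Nat.add (Nat.add (Nat.add C x8920) x3088) x4708) x4492) x4564) x4540) x4548) (Nat.mul x4546 (nat_lit 3))) x11106)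
    (Nat.sub (Nat.add (Nat.add (Nat.add (Nat.add (Nat.add (Nat.add (Nat.add (Nat.add C x8922) x3090) x4710) x4494) x4566) x4542) x4554) x4546) (Nat.mul x4548 (nat_lit 2)))
    (Nat.sub (Nat.add (Nat.add (Nat.add (Nat.add (Nat.add (Nat.add C x8928) x3096) x4716) x4500) x4572) x4548) (Nat.mul x4554 (nat_lit 3)))
    (Nat.sub (Nat.sub (Nat.add (Nat.add (Nat.add (Nat.add (Nat.add (Nat.add C x8938) x3106) x4726) x4510) x4546) x4566) x4564) x11124)
    (Nat.sub (Nat.add (Nat.add (Nat.add (Nat.add (Nat.add (Nat.add (Nat.add C x8940) x3108) x4728) x4512) x4548) x4572) x4564) x4566)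
    (Nat.add (Nat.add (Nat.add (Nat.add (Nat.add (Nat.add (Nat.add C x8946) x3114) x4734) x4518) x4554) x4590) x4566)
    (Nat.add (Nat.add (Nat.add (Nat.add (Nat.add C x4590) x8964) x3132) x4752) x4572)
    (Nat.sub (Nat.sub (Nat.add (Nat.add (Nat.add (Nat.add (Nat.add (Nat.add C x8996) x3164) x5108) x4460) x4628) x4624) x4622) x11182)
    (Nat.sub (Nat.sub (Nat.add (Nat.add (Nat.add (Nat.add (Nat.add (Nat.add C x8998) x3166) x5110) x4462) x4630) x4622) x4624) x11184)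
    (Nat.sub (Nat.sub (Nat.add (Nat.add (Nat.add (Nat.add (Nat.add (Nat.add (Nat.add C x9002) x3170) x5114) x4466) x4646) x4622) x4630) (Nat.mul x4628 (nat_lit 3))) x11188)
    (Nat.sub (Nat.sub (Nat.add (Nat.add (Nat.add (Nat.add (Nat.add (Nat.add (Nat.add (Nat.add (Nat.add C x9004) x3172) x5116) x4468) x4648) x4624) x4636) x4628) x4632) x4630) x11190)
    (Nat.sub (Nat.add (Nat.add (Nat.add (Nat.add (Nat.add (Nat.add (Nat.add C x9006) x3174) x5118) x4470) x4650) x4638) x4630) x4632)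
    (Nat.sub (Nat.sub (Nat.add (Nat.add (Nat.add (Nat.add (Nat.add (Nat.add (Nat.add C x9010) x3178) x5122) x4474) x4654) x4630) x4638) (Nat.mul x4636 (nat_lit 3))) x11196)
    (Nat.sub (Nat.add (Nat.add (Nat.add (Nat.add (Nat.add (Nat.add (Nat.add C x9012) x3180) x5124) x4476) x4656) x4632) x4636) x4638)
    (Nat.sub (Nat.sub (Nat.add (Nat.add (Nat.add (Nat.add (Nat.add (Nat.add (Nat.add C x9020) x3188) x5132) x4484) x4700) x4628) x4648) (Nat.mul x4646 (nat_lit 3))) x11206)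
    (Nat.sub (Nat.sub (Nat.add (Nat.add (Nat.add (Nat.add (Nat.add (Nat.add (Nat.add (Nat.add (Nat.add C x9022) x3190) x5134) x4486) x4702) x4630) x4654) x4646) x4650) (Nat.mul x4648 (nat_lit 2))) x11208)
    (Nat.sub (Nat.add (Nat.add (Nat.add (Nat.add (Nat.add (Nat.add (Nat.add (Nat.add C x9024) x3192) x5136) x4488) x4704) x4632) x4656) x4648) (Nat.mul x4650 (nat_lit 3)))
    (Nat.sub (Nat.sub (Nat.add (Nat.add (Nat.add (Nat.add (Nat.add (Nat.add (Nat.add (Nat.add (Nat.add C x9028) x3196) x5140) x4492) x4708) x4636) x4672) x4648) x4656) (Nat.mul x4654 (nat_lit 2))) x11214)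
    (Nat.sub (Nat.add (Nat.add (Nat.add (Nat.add (Nat.add (Nat.add (Nat.add (Nat.add (Nat.add (Nat.add C x9030) x3198) x5142) x4494) x4710) x4638) x4674) x4650) x4662) x4654) x4656)
    (Nat.sub (Nat.add (Nat.add (Nat.add (Nat.add (Nat.add (Nat.add (Nat.add C x9036) x3204) x5148) x4500) x4716) x4680) x4656) x4662)
    (Nat.sub (Nat.sub (Nat.add (Nat.add (Nat.add (Nat.add (Nat.add (Nat.add (Nat.add C x9046) x3214) x5158) x4510) x4726) x4654) x4674) (Nat.mul x4672 (nat_lit 3))) x11232)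
    (Nat.sub (Nat.add (Nat.add (Nat.add (Nat.add (Nat.add (Nat.add (Nat.add (Nat.add C x9048) x3216) x5160) x4512) x4728) x4656) x4680) x4672) (Nat.mul x4674 (nat_lit 3)))
    (Nat.sub (Nat.add (Nat.add (Nat.add (Nat.add (Nat.add (Nat.add (Nat.add C x9054) x3222) x5166) x4518) x4734) x4662) x4674) x4680)
    (Nat.sub (Nat.sub (Nat.add (Nat.add (Nat.add (Nat.add (Nat.add (Nat.add (Nat.add C x9074) x3242) x5186) x4538) x4862) x4646) x4702) (Nat.mul x4700 (nat_lit 2))) x11260)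
    (Nat.sub (Nat.sub (Nat.add (Nat.add (Nat.add (Nat.add (Nat.add (Nat.add (Nat.add (Nat.add (Nat.add C x9076) x3244) x5188) x4540) x4864) x4648) x4708) x4700) x4704) x4702) x11262)
    (Nat.sub (Nat.add (Nat.add (Nat.add (Nat.add (Nat.add (Nat.add (Nat.add (Nat.add C x9078) x3246) x5190) x4542) x4866) x4650) x4710) x4702) (Nat.mul x4704 (nat_lit 2)))
    (Nat.sub (Nat.sub (Nat.add (Nat.add (Nat.add (Nat.add (Nat.add (Nat.add (Nat.add (Nat.add (Nat.add C x9082) x3250) x5194) x4546) x4870) x4654) x4726) x4702) x4710) (Nat.mul x4708 (nat_lit 2))) x11268)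
    (Nat.sub (Nat.add (Nat.add (Nat.add (Nat.add (Nat.add (Nat.add (Nat.add (Nat.add (Nat.add (Nat.add C x9084) x3252) x5196) x4548) x4872) x4656) x4728) x4704) x4716) x4708) x4710)
    (Nat.sub (Nat.add (Nat.add (Nat.add (Nat.add (Nat.add (Nat.add (Nat.add (Nat.add C x9090) x3258) x5202) x4554) x4878) x4662) x4734) x4710) (Nat.mul x4716 (nat_lit 2)))
    (Nat.sub (Nat.sub (Nat.add (Nat.add (Nat.add (Nat.add (Nat.add (Nat.add (Nat.add (Nat.add (Nat.add C x9100) x3268) x5212) x4564) x4888) x4672) x4780) x4708) x4728) x4726) x11286)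
    (Nat.sub (Nat.add (Nat.add (Nat.add (Nat.add (Nat.add (Nat.add (Nat.add (Nat.add (Nat.add (Nat.add C x9102) x3270) x5214) x4566) x4890) x4674) x4782) x4710) x4734) x4726) x4728)
    (Nat.add (Nat.add (Nat.add (Nat.add (Nat.add (Nat.add (Nat.add (Nat.add (Nat.add (Nat.add C x9108) x3276) x5220) x4572) x4896) x4680) x4788) x4716) x4752) x4728)
    (Nat.add (Nat.add (Nat.add (Nat.add (Nat.add (Nat.add (Nat.add C x9126) x3294) x5238) x4590) x4914) x4806) x4734)
    (Nat.sub (Nat.sub (Nat.add (Nat.add (Nat.add (Nat.add (Nat.add (Nat.add C x9154) x3322) x5266) x4942) x4726) x4782) x4780) x11340)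
    (Nat.sub (Nat.add (Nat.add (Nat.add (Nat.add (Nat.add (Nat.add (Nat.add C x9156) x3324) x5268) x4944) x4728) x4788) x4780) x4782)
    (Nat.sub (Nat.add (Nat.add (Nat.add (Nat.add (Nat.add (Nat.add (Nat.add C x9162) x3330) x5274) x4950) x4734) x4806) x4782) x4788)
    (Nat.add (Nat.add (Nat.add (Nat.add (Nat.add (Nat.add (Nat.add C x4806) x9180) x3348) x5292) x4968) x4752) x4788)
    (Nat.sub (Nat.sub (Nat.add (Nat.add (Nat.add (Nat.add (Nat.add C x9236) x3404) x5348) x4700) x4864) (Nat.mul x4862 (nat_lit 3))) x11422)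
    (Nat.sub (Nat.sub (Nat.add (Nat.add (Nat.add (Nat.add (Nat.add (Nat.add (Nat.add C x9238) x3406) x5350) x4702) x4870) x4862) x4866) (Nat.mul x4864 (nat_lit 2))) x11424)
    (Nat.sub (Nat.add (Nat.add (Nat.add (Nat.add (Nat.add (Nat.add C x9240) x3408) x5352) x4704) x4872) x4864) (Nat.mul x4866 (nat_lit 3)))
    (Nat.sub (Nat.sub (Nat.add (Nat.add (Nat.add (Nat.add (Nat.add (Nat.add (Nat.add C x9244) x3412) x5356) x4708) x4888) x4864) x4872) (Nat.mul x4870 (nat_lit 3))) x11430)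
    (Nat.sub (Nat.add (Nat.add (Nat.add (Nat.add (Nat.add (Nat.add (Nat.add (Nat.add C x9246) x3414) x5358) x4710) x4890) x4866) x4878) x4870) (Nat.mul x4872 (nat_lit 2)))
    (Nat.sub (Nat.add (Nat.add (Nat.add (Nat.add (Nat.add (Nat.add C x9252) x3420) x5364) x4716) x4896) x4872) (Nat.mul x4878 (nat_lit 3)))
    (Nat.sub (Nat.sub (Nat.add (Nat.add (Nat.add (Nat.add (Nat.add (Nat.add (Nat.add C x9262) x3430) x5374) x4726) x4942) x4870) x4890) (Nat.mul x4888 (nat_lit 3))) x11448)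
    (Nat.sub (Nat.add (Nat.add (Nat.add (Nat.add (Nat.add (Nat.add (Nat.add (Nat.add C x9264) x3432) x5376) x4728) x4944) x4872) x4896) x4888) (Nat.mul x4890 (nat_lit 3)))
    (Nat.sub (Nat.add (Nat.add (Nat.add (Nat.add (Nat.add (Nat.add (Nat.add (Nat.add C x9270) x3438) x5382) x4734) x4950) x4878) x4914) x4890) (Nat.mul x4896 (nat_lit 2)))
    (Nat.sub (Nat.add (Nat.add (Nat.add (Nat.add (Nat.add (Nat.add C x9288) x3456) x5400) x4752) x4968) x4896) (Nat.mul x4914 (nat_lit 3)))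
    (Nat.sub (Nat.sub (Nat.add (Nat.add (Nat.add (Nat.add (Nat.add (Nat.add C x9316) x3484) x5428) x4780) x4888) x4944) x4942) x11502)
    (Nat.sub (Nat.add (Nat.add (Nat.add (Nat.add (Nat.add (Nat.add (Nat.add C x9318) x3486) x5430) x4782) x4890) x4950) x4942) x4944)
    (Nat.sub (Nat.add (Nat.add (Nat.add (Nat.add (Nat.add (Nat.add (Nat.add C x9324) x3492) x5436) x4788) x4896) x4968) x4944) x4950)
    (Nat.add (Nat.add (Nat.add (Nat.add (Nat.add (Nat.add (Nat.add C x9342) x3510) x5454) x4806) x4914) x5022) x4950)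
    (Nat.add (Nat.add (Nat.add (Nat.add (Nat.add C x5022) x9396) x3564) x5508) x4968)
    (Nat.sub (Nat.add (Nat.add (Nat.add (Nat.add (Nat.add (Nat.add C x5108) x9482) x3650) x4622) x5114) x5110) x11668)
    (Nat.sub (Nat.add (Nat.add (Nat.add (Nat.add (Nat.add (Nat.add C x5110) x9484) x3652) x4624) x5116) x5108) x11670)
    (Nat.sub (Nat.sub (Nat.add (Nat.add (Nat.add (Nat.add (Nat.add (Nat.add C x9488) x3656) x4628) x5132) x5108) x5116) x5114) x11674)
    (Nat.sub (Nat.add (Nat.add (Nat.add (Nat.add (Nat.add (Nat.add (Nat.add (Nat.add (Nat.add C x5116) x9490) x3658) x4630) x5134) x5110) x5122) x5114) x5118) x11676)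
    (Nat.add (Nat.add (Nat.add (Nat.add (Nat.add (Nat.add (Nat.add C x5118) x9492) x3660) x4632) x5136) x5124) x5116)
    (Nat.sub (Nat.sub (Nat.add (Nat.add (Nat.add (Nat.add (Nat.add (Nat.add C x9496) x3664) x4636) x5140) x5116) x5124) x5122) x11682)
    (Nat.add (Nat.add (Nat.add (Nat.add (Nat.add (Nat.add (Nat.add C x5124) x9498) x3666) x4638) x5142) x5118) x5122)
    (Nat.sub (Nat.sub (Nat.add (Nat.add (Nat.add (Nat.add (Nat.add (Nat.add C x9506) x3674) x4646) x5186) x5114) x5134) x5132) x11692)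
    (Nat.sub (Nat.add (Nat.add (Nat.add (Nat.add (Nat.add (Nat.add (Nat.add (Nat.add C x9508) x3676) x4648) x5188) x5116) x5140) x5132) x5136) x11694)
    (Nat.sub (Nat.add (Nat.add (Nat.add (Nat.add (Nat.add (Nat.add (Nat.add C x9510) x3678) x4650) x5190) x5118) x5142) x5134) x5136)
    (Nat.sub (Nat.add (Nat.add (Nat.add (Nat.add (Nat.add (Nat.add (Nat.add (Nat.add C x9514) x3682) x4654) x5194) x5122) x5158) x5134) x5142) x11700)
    (Nat.add (Nat.add (Nat.add (Nat.add (Nat.add (Nat.add (Nat.add (Nat.add (Nat.add (Nat.add C x5142) x9516) x3684) x4656) x5196) x5124) x5160) x5136) x5148) x5140)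
    (Nat.add (Nat.add (Nat.add (Nat.add (Nat.add (Nat.add (Nat.add C x5148) x9522) x3690) x4662) x5202) x5166) x5142)
    (Nat.sub (Nat.sub (Nat.add (Nat.add (Nat.add (Nat.add (Nat.add (Nat.add C x9532) x3700) x4672) x5212) x5140) x5160) x5158) x11718)
    (Nat.sub (Nat.add (Nat.add (Nat.add (Nat.add (Nat.add (Nat.add (Nat.add C x9534) x3702) x4674) x5214) x5142) x5166) x5158) x5160)
    (Nat.add (Nat.add (Nat.add (Nat.add (Nat.add (Nat.add (Nat.add C x5166) x9540) x3708) x4680) x5220) x5148) x5160)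
    (Nat.sub (Nat.sub (Nat.add (Nat.add (Nat.add (Nat.add (Nat.add (Nat.add C x9560) x3728) x4700) x5348) x5132) x5188) x5186) x11746)
    (Nat.sub (Nat.add (Nat.add (Nat.add (Nat.add (Nat.add (Nat.add (Nat.add (Nat.add C x9562) x3730) x4702) x5350) x5134) x5194) x5186) x5190) x11748)
    (Nat.sub (Nat.add (Nat.add (Nat.add (Nat.add (Nat.add (Nat.add (Nat.add C x9564) x3732) x4704) x5352) x5136) x5196) x5188) x5190)
    (Nat.sub (Nat.sub (Nat.add (Nat.add (Nat.add (Nat.add (Nat.add (Nat.add (Nat.add (Nat.add C x9568) x3736) x4708) x5356) x5140) x5212) x5188) x5196) x5194) x11754)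
    (Nat.add (Nat.add (Nat.add (Nat.add (Nat.add (Nat.add (Nat.add (Nat.add (Nat.add C x9570) x3738) x4710) x5358) x5142) x5214) x5190) x5202) x5194)
    (Nat.sub (Nat.add (Nat.add (Nat.add (Nat.add (Nat.add (Nat.add (Nat.add C x9576) x3744) x4716) x5364) x5148) x5220) x5196) x5202)
    (Nat.sub (Nat.add (Nat.add (Nat.add (Nat.add (Nat.add (Nat.add (Nat.add (Nat.add C x9586) x3754) x4726) x5374) x5158) x5266) x5194) x5214) x11772)
    (Nat.add (Nat.add (Nat.add (Nat.add (Nat.add (Nat.add (Nat.add (Nat.add (Nat.add C x9588) x3756) x4728) x5376) x5160) x5268) x5196) x5220) x5212)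
    (Nat.add (Nat.add (Nat.add (Nat.add (Nat.add (Nat.add (Nat.add (Nat.add (Nat.add (Nat.add C x5220) x9594) x3762) x4734) x5382) x5166) x5274) x5202) x5238) x5214)
    (Nat.add (Nat.add (Nat.add (Nat.add (Nat.add (Nat.add (Nat.add C x5238) x9612) x3780) x4752) x5400) x5292) x5220)
    (Nat.sub (Nat.sub (Nat.add (Nat.add (Nat.add (Nat.add (Nat.add (Nat.add C x9640) x3808) x4780) x5428) x5212) x5268) x5266) x11826)
    (Nat.sub (Nat.add (Nat.add (Nat.add (Nat.add (Nat.add (Nat.add (Nat.add C x9642) x3810) x4782) x5430) x5214) x5274) x5266) x5268)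
    (Nat.sub (Nat.add (Nat.add (Nat.add (Nat.add (Nat.add (Nat.add (Nat.add C x9648) x3816) x4788) x5436) x5220) x5292) x5268) x5274)
    (Nat.add (Nat.add (Nat.add (Nat.add (Nat.add (Nat.add (Nat.add C x5292) x9666) x3834) x4806) x5454) x5238) x5274)
    (Nat.sub (Nat.add (Nat.add (Nat.add (Nat.add (Nat.add (Nat.add C x9722) x3890) x4862) x5834) x5186) x5350) x11908)
    (Nat.sub (Nat.add (Nat.add (Nat.add (Nat.add (Nat.add (Nat.add (Nat.add (Nat.add (Nat.add C x5350) x9724) x3892) x4864) x5836) x5188) x5356) x5348) x5352) x11910)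
    (Nat.add (Nat.add (Nat.add (Nat.add (Nat.add (Nat.add (Nat.add C x9726) x3894) x4866) x5838) x5190) x5358) x5350)
    (Nat.sub (Nat.add (Nat.add (Nat.add (Nat.add (Nat.add (Nat.add (Nat.add (Nat.add C x9730) x3898) x4870) x5842) x5194) x5374) x5350) x5358) x11916)
    (Nat.add (Nat.add (Nat.add (Nat.add (Nat.add (Nat.add (Nat.add (Nat.add (Nat.add (Nat.add C x5358) x9732) x3900) x4872) x5844) x5196) x5376) x5352) x5364) x5356)
    (Nat.add (Nat.add (Nat.add (Nat.add (Nat.add (Nat.add (Nat.add C x9738) x3906) x4878) x5850) x5202) x5382) x5358)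
    (Nat.sub (Nat.add (Nat.add (Nat.add (Nat.add (Nat.add (Nat.add (Nat.add (Nat.add C x9748) x3916) x4888) x5860) x5212) x5428) x5356) x5376) x11934)
    (Nat.add (Nat.add (Nat.add (Nat.add (Nat.add (Nat.add (Nat.add (Nat.add (Nat.add C x9750) x3918) x4890) x5862) x5214) x5430) x5358) x5382) x5374)
    (Nat.add (Nat.add (Nat.add (Nat.add (Nat.add (Nat.add (Nat.add (Nat.add (Nat.add (Nat.add C x5382) x9756) x3924) x4896) x5868) x5220) x5436) x5364) x5400) x5376)
    (Nat.add (Nat.add (Nat.add (Nat.add (Nat.add (Nat.add (Nat.add C x9774) x3942) x4914) x5886) x5238) x5454) x5382)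
    (Nat.sub (Nat.add (Nat.add (Nat.add (Nat.add (Nat.add (Nat.add (Nat.add (Nat.add (Nat.add C x5428) x9802) x3970) x4942) x5914) x5266) x5590) x5374) x5430) x11988)
    (Nat.add (Nat.add (Nat.add (Nat.add (Nat.add (Nat.add (Nat.add (Nat.add (Nat.add (Nat.add C x5430) x9804) x3972) x4944) x5916) x5268) x5592) x5376) x5436) x5428)
    (Nat.add (Nat.add (Nat.add (Nat.add (Nat.add (Nat.add (Nat.add (Nat.add (Nat.add (Nat.add C x5436) x9810) x3978) x4950) x5922) x5274) x5598) x5382) x5454) x5430)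
    (Nat.add (Nat.add (Nat.add (Nat.add (Nat.add (Nat.add (Nat.add (Nat.add (Nat.add (Nat.add C (Nat.mul x5454 (nat_lit 2))) x9828) x3996) x4968) x5940) x5292) x5616) x5400) x5508) x5436)
    (Nat.add (Nat.add (Nat.add (Nat.add (Nat.add (Nat.add (Nat.add C (Nat.mul x5508 (nat_lit 2))) x9882) x4050) x5022) x5994) x5670) x5454)
    (Nat.sub (Nat.add (Nat.add (Nat.add (Nat.add (Nat.add (Nat.add C x5590) x9964) x4132) x6076) x5428) x5592) x12150)
    (Nat.add (Nat.add (Nat.add (Nat.add (Nat.add (Nat.add (Nat.add C x5592) x9966) x4134) x6078) x5430) x5598) x5590)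
    (Nat.add (Nat.add (Nat.add (Nat.add (Nat.add (Nat.add (Nat.add C x5598) x9972) x4140) x6084) x5436) x5616) x5592)
    (Nat.add (Nat.add (Nat.add (Nat.add (Nat.add (Nat.add (Nat.add C x5616) x9990) x4158) x6102) x5454) x5670) x5598)
    (Nat.add (Nat.add (Nat.add (Nat.add (Nat.add (Nat.add C (Nat.mul x5670 (nat_lit 3))) x10044) x4212) x6156) x5508) x5616)
    (Nat.sub (Nat.add (Nat.add (Nat.add (Nat.add C x5834) x10208) x5348) x5836) x12394)
    (Nat.sub (Nat.add (Nat.add (Nat.add (Nat.add (Nat.add (Nat.add C (Nat.mul x5836 (nat_lit 2))) x10210) x5350) x5842) x5834) x5838) x12396)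
    (Nat.add (Nat.add (Nat.add (Nat.add (Nat.add C x5838) x10212) x5352) x5844) x5836)
    (Nat.sub (Nat.add (Nat.add (Nat.add (Nat.add (Nat.add (Nat.add C x5842) x10216) x5356) x5860) x5836) x5844) x12402)
    (Nat.add (Nat.add (Nat.add (Nat.add (Nat.add (Nat.add (Nat.add C (Nat.mul x5844 (nat_lit 2))) x10218) x5358) x5862) x5838) x5850) x5842)
    (Nat.add (Nat.add (Nat.add (Nat.add (Nat.add C x5850) x10224) x5364) x5868) x5844)
    (Nat.sub (Nat.add (Nat.add (Nat.add (Nat.add (Nat.add (Nat.add C x5860) x10234) x5374) x5914) x5842) x5862) x12420)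
    (Nat.add (Nat.add (Nat.add (Nat.add (Nat.add (Nat.add (Nat.add C x5862) x10236) x5376) x5916) x5844) x5868) x5860)
    (Nat.add (Nat.add (Nat.add (Nat.add (Nat.add (Nat.add (Nat.add C (Nat.mul x5868 (nat_lit 2))) x10242) x5382) x5922) x5850) x5886) x5862)
    (Nat.add (Nat.add (Nat.add (Nat.add (Nat.add C x5886) x10260) x5400) x5940) x5868)
    (Nat.sub (Nat.add (Nat.add (Nat.add (Nat.add (Nat.add (Nat.add C x5914) x10288) x5428) x6076) x5860) x5916) x12474)
    (Nat.add (Nat.add (Nat.add (Nat.add (Nat.add (Nat.add (Nat.add C x5916) x10290) x5430) x6078) x5862) x5922) x5914)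
    (Nat.add (Nat.add (Nat.add (Nat.add (Nat.add (Nat.add (Nat.add C x5922) x10296) x5436) x6084) x5868) x5940) x5916)
    (Nat.add (Nat.add (Nat.add (Nat.add (Nat.add (Nat.add (Nat.add C (Nat.mul x5940 (nat_lit 2))) x10314) x5454) x6102) x5886) x5994) x5922)
    (Nat.add (Nat.add (Nat.add (Nat.add (Nat.add C x5994) x10368) x5508) x6156) x5940)
    (Nat.sub (Nat.add (Nat.add (Nat.add (Nat.add (Nat.add C (Nat.mul x6076 (nat_lit 3))) x10450) x5590) x5914) x6078) x12636)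
    (Nat.add (Nat.add (Nat.add (Nat.add (Nat.add (Nat.add C (Nat.mul x6078 (nat_lit 3))) x10452) x5592) x5916) x6084) x6076)
    (Nat.add (Nat.add (Nat.add (Nat.add (Nat.add (Nat.add C (Nat.mul x6084 (nat_lit 3))) x10458) x5598) x5922) x6102) x6078)
    (Nat.add (Nat.add (Nat.add (Nat.add (Nat.add (Nat.add C (Nat.mul x6102 (nat_lit 3))) x10476) x5616) x5940) x6156) x6084)
    (Nat.add (Nat.add (Nat.add (Nat.add (Nat.add (Nat.add C (Nat.mul x6156 (nat_lit 4))) x10530) x5670) x5994) x6318) x6102)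
    (Nat.add (Nat.add (Nat.add C (Nat.mul x6318 (nat_lit 5))) x10692) x6156)
    (Nat.sub (Nat.add (Nat.add (Nat.add (Nat.add C (Nat.mul x6578 (nat_lit 5))) x2204) x6596) x6584) x13138)
    (Nat.sub (Nat.add (Nat.add (Nat.add (Nat.add (Nat.add C (Nat.mul x6584 (nat_lit 3))) x2210) x6602) x6578) x6586) x13144)
    (Nat.sub (Nat.sub (Nat.add (Nat.add (Nat.add (Nat.add C (Nat.mul x6586 (nat_lit 4))) x2212) x6604) x6584) x13146) x26)
    (Nat.sub (Nat.add (Nat.add (Nat.add (Nat.add (Nat.add C (Nat.mul x6596 (nat_lit 3))) x2222) x6650) x6578) x6602) x13156)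
    (Nat.sub (Nat.add (Nat.add (Nat.add (Nat.add (Nat.add (Nat.add (Nat.add (Nat.add C (Nat.mul x6602 (nat_lit 3))) x2228) x6656) x6584) x6620) x6596) x6608) x6604) x13162)
    (Nat.sub (Nat.sub (Nat.add (Nat.add (Nat.add (Nat.add (Nat.add (Nat.add (Nat.add C (Nat.mul x6604 (nat_lit 3))) x2230) x6658) x6586) x6622) x6610) x6602) x13164) x44)
    (Nat.sub (Nat.add (Nat.add (Nat.add (Nat.add (Nat.add (Nat.add C x6608) x2234) x6662) x6626) x6602) x6610) x13168)
    (Nat.sub (Nat.sub (Nat.add (Nat.add (Nat.add (Nat.add (Nat.add (Nat.add (Nat.add C (Nat.mul x6610 (nat_lit 3))) x2236) x6664) x6628) x6604) x6608) x6612) x13170) x50)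
    (Nat.sub (Nat.add (Nat.add (Nat.add (Nat.add (Nat.add C (Nat.mul x6612 (nat_lit 3))) x2238) x6666) x6630) x6610) x52)
    (Nat.sub (Nat.add (Nat.add (Nat.add (Nat.add (Nat.add (Nat.add C x6620) x2246) x6674) x6602) x6626) x6622) x13180)
    (Nat.sub (Nat.sub (Nat.add (Nat.add (Nat.add (Nat.add (Nat.add C x2248) x6676) x6604) x6628) x6620) x13182) x62)
    (Nat.sub (Nat.add (Nat.add (Nat.add (Nat.add (Nat.add (Nat.add C x6626) x2252) x6680) x6608) x6620) x6628) x13186)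
    (Nat.sub (Nat.sub (Nat.add (Nat.add (Nat.add (Nat.add (Nat.add (Nat.add (Nat.add (Nat.add C (Nat.mul x6628 (nat_lit 2))) x2254) x6682) x6610) x6622) x6634) x6626) x6630) x13188) x68)
    (Nat.sub (Nat.add (Nat.add (Nat.add (Nat.add (Nat.add (Nat.add C x6630) x2256) x6684) x6612) x6636) x6628) x70)
    (Nat.sub (Nat.sub (Nat.add (Nat.add (Nat.add (Nat.add (Nat.add C (Nat.mul x6634 (nat_lit 2))) x2260) x6688) x6628) x6636) x13194) x74)
    (Nat.sub (Nat.add (Nat.add (Nat.add (Nat.add (Nat.add C (Nat.mul x6636 (nat_lit 3))) x2262) x6690) x6630) x6634) x76)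
    (Nat.sub (Nat.add (Nat.add (Nat.add (Nat.add (Nat.add C (Nat.mul x6650 (nat_lit 3))) x2276) x6812) x6596) x6656) x13210)
    (Nat.sub (Nat.add (Nat.add (Nat.add (Nat.add (Nat.add (Nat.add (Nat.add (Nat.add C (Nat.mul x6656 (nat_lit 2))) x2282) x6818) x6602) x6674) x6650) x6662) x6658) x13216)
    (Nat.sub (Nat.sub (Nat.add (Nat.add (Nat.add (Nat.add (Nat.add (Nat.add (Nat.add C (Nat.mul x6658 (nat_lit 2))) x2284) x6820) x6604) x6676) x6664) x6656) x13218) x98)
    (Nat.sub (Nat.sub (Nat.add (Nat.add (Nat.add (Nat.add (Nat.add (Nat.add C x2288) x6824) x6608) x6680) x6656) x6664) x6662) x13222)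
    (Nat.sub (Nat.sub (Nat.add (Nat.add (Nat.add (Nat.add (Nat.add (Nat.add (Nat.add (Nat.add C x6664) x2290) x6826) x6610) x6682) x6658) x6662) x6666) x13224) x104)
    (Nat.sub (Nat.add (Nat.add (Nat.add (Nat.add (Nat.add (Nat.add C x6666) x2292) x6828) x6612) x6684) x6664) x106)
    (Nat.sub (Nat.add (Nat.add (Nat.add (Nat.add (Nat.add (Nat.add (Nat.add (Nat.add C (Nat.mul x6674 (nat_lit 2))) x2300) x6836) x6620) x6728) x6656) x6680) x6676) x13234)
    (Nat.sub (Nat.sub (Nat.add (Nat.add (Nat.add (Nat.add (Nat.add (Nat.add (Nat.add (Nat.add C x6676) x2302) x6838) x6622) x6730) x6658) x6682) x6674) x13236) x116)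
    (Nat.sub (Nat.add (Nat.add (Nat.add (Nat.add (Nat.add (Nat.add (Nat.add (Nat.add (Nat.add C x6680) x2306) x6842) x6626) x6734) x6662) x6698) x6674) x6682) x13240)
    (Nat.sub (Nat.sub (Nat.add (Nat.add (Nat.add (Nat.add (Nat.add (Nat.add (Nat.add (Nat.add (Nat.add (Nat.add (Nat.add C (Nat.mul x6682 (nat_lit 2))) x2308) x6844) x6628) x6736) x6664) x6700) x6676) x6688) x6680) x6684) x13242) x122)
    (Nat.sub (Nat.add (Nat.add (Nat.add (Nat.add (Nat.add (Nat.add (Nat.add (Nat.add (Nat.add C x6684) x2310) x6846) x6630) x6738) x6666) x6702) x6690) x6682) x124)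
    (Nat.sub (Nat.sub (Nat.add (Nat.add (Nat.add (Nat.add (Nat.add (Nat.add (Nat.add (Nat.add C x6688) x2314) x6850) x6634) x6742) x6706) x6682) x6690) x13248) x128)
    (Nat.sub (Nat.add (Nat.add (Nat.add (Nat.add (Nat.add (Nat.add (Nat.add (Nat.add C (Nat.mul x6690 (nat_lit 2))) x2316) x6852) x6636) x6744) x6708) x6684) x6688) x130)
    (Nat.sub (Nat.add (Nat.add (Nat.add (Nat.add (Nat.add (Nat.add C x6698) x2324) x6860) x6752) x6680) x6700) x13258)
    (Nat.sub (Nat.sub (Nat.add (Nat.add (Nat.add (Nat.add (Nat.add (Nat.add (Nat.add (Nat.add C x6700) x2326) x6862) x6754) x6682) x6706) x6698) x6702) x13260) x140)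
    (Nat.sub (Nat.sub (Nat.add (Nat.add (Nat.add (Nat.add (Nat.add (Nat.add C x2328) x6864) x6756) x6684) x6708) x6700) x6702) x142)
    (Nat.sub (Nat.sub (Nat.add (Nat.add (Nat.add (Nat.add (Nat.add (Nat.add (Nat.add C (Nat.mul x6706 (nat_lit 2))) x2332) x6868) x6760) x6688) x6700) x6708) x13266) x146)
    (Nat.sub (Nat.add (Nat.add (Nat.add (Nat.add (Nat.add (Nat.add (Nat.add (Nat.add C (Nat.mul x6708 (nat_lit 2))) x2334) x6870) x6762) x6690) x6702) x6714) x6706) x148)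
    (Nat.sub (Nat.add (Nat.add (Nat.add (Nat.add (Nat.add C (Nat.mul x6714 (nat_lit 3))) x2340) x6876) x6768) x6708) x154)
    (Nat.sub (Nat.add (Nat.add (Nat.add (Nat.add (Nat.add (Nat.add C x6728) x2354) x6890) x6674) x6734) x6730) x13288)
    (Nat.sub (Nat.sub (Nat.add (Nat.add (Nat.add (Nat.add (Nat.add C x2356) x6892) x6676) x6736) x6728) x13290) x170)
    (Nat.sub (Nat.sub (Nat.add (Nat.add (Nat.add (Nat.add (Nat.add (Nat.add C x2360) x6896) x6680) x6752) x6728) x6736) x6734) x13294)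
    (Nat.sub (Nat.sub (Nat.add (Nat.add (Nat.add (Nat.add (Nat.add (Nat.add (Nat.add (Nat.add C x2362) x6898) x6682) x6754) x6730) x6742) x6734) x6738) x13296) x176)
    (Nat.sub (Nat.sub (Nat.add (Nat.add (Nat.add (Nat.add (Nat.add (Nat.add C x2364) x6900) x6684) x6756) x6744) x6736) x6738) x178)
    (Nat.sub (Nat.sub (Nat.sub (Nat.add (Nat.add (Nat.add (Nat.add (Nat.add (Nat.add C x2368) x6904) x6688) x6760) x6736) x6744) (Nat.mul x6742 (nat_lit 2))) x13302) x182)
    (Nat.sub (Nat.sub (Nat.add (Nat.add (Nat.add (Nat.add (Nat.add (Nat.add C x2370) x6906) x6690) x6762) x6738) x6742) x6744) x184)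
    (Nat.sub (Nat.add (Nat.add (Nat.add (Nat.add (Nat.add (Nat.add C x6752) x2378) x6914) x6698) x6734) x6754) x13312)
    (Nat.sub (Nat.sub (Nat.add (Nat.add (Nat.add (Nat.add (Nat.add (Nat.add (Nat.add (Nat.add C x6754) x2380) x6916) x6700) x6736) x6760) x6752) x6756) x13314) x194)
    (Nat.sub (Nat.sub (Nat.add (Nat.add (Nat.add (Nat.add (Nat.add (Nat.add C x2382) x6918) x6702) x6738) x6762) x6754) x6756) x196)
    (Nat.sub (Nat.sub (Nat.add (Nat.add (Nat.add (Nat.add (Nat.add (Nat.add (Nat.add (Nat.add C x6760) x2386) x6922) x6706) x6742) x6778) x6754) x6762) x13320) x200)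
    (Nat.sub (Nat.add (Nat.add (Nat.add (Nat.add (Nat.add (Nat.add (Nat.add (Nat.add (Nat.add C x6762) x2388) x6924) x6708) x6744) x6780) x6756) x6768) x6760) x202)
    (Nat.sub (Nat.add (Nat.add (Nat.add (Nat.add (Nat.add (Nat.add C x6768) x2394) x6930) x6714) x6786) x6762) x208)
    (Nat.sub (Nat.sub (Nat.add (Nat.add (Nat.add (Nat.add (Nat.add C (Nat.mul x6778 (nat_lit 2))) x2404) x6940) x6760) x6780) x13338) x218)
    (Nat.sub (Nat.add (Nat.add (Nat.add (Nat.add (Nat.add (Nat.add C x6780) x2406) x6942) x6762) x6786) x6778) x220)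
    (Nat.sub (Nat.add (Nat.add (Nat.add (Nat.add (Nat.add C (Nat.mul x6786 (nat_lit 3))) x2412) x6948) x6768) x6780) x226)
    (Nat.sub (Nat.add (Nat.add (Nat.add (Nat.add (Nat.add C (Nat.mul x6812 (nat_lit 3))) x2438) x7298) x6650) x6818) x13372)
    (Nat.sub (Nat.add (Nat.add (Nat.add (Nat.add (Nat.add (Nat.add (Nat.add (Nat.add C (Nat.mul x6818 (nat_lit 2))) x2444) x7304) x6656) x6836) x6812) x6824) x6820) x13378)
    (Nat.sub (Nat.sub (Nat.add (Nat.add (Nat.add (Nat.add (Nat.add (Nat.add (Nat.add C (Nat.mul x6820 (nat_lit 2))) x2446) x7306) x6658) x6838) x6826) x6818) x13380) x260)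
    (Nat.sub (Nat.sub (Nat.add (Nat.add (Nat.add (Nat.add (Nat.add (Nat.add C x2450) x7310) x6662) x6842) x6818) x6826) x6824) x13384)
    (Nat.sub (Nat.sub (Nat.add (Nat.add (Nat.add (Nat.add (Nat.add (Nat.add (Nat.add (Nat.add C x6826) x2452) x7312) x6664) x6844) x6820) x6824) x6828) x13386) x266)
    (Nat.sub (Nat.add (Nat.add (Nat.add (Nat.add (Nat.add (Nat.add C x6828) x2454) x7314) x6666) x6846) x6826) x268)
    (Nat.sub (Nat.add (Nat.add (Nat.add (Nat.add (Nat.add (Nat.add (Nat.add (Nat.add C x6836) x2462) x7322) x6674) x6890) x6818) x6842) x6838) x13396)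
    (Nat.sub (Nat.sub (Nat.add (Nat.add (Nat.add (Nat.add (Nat.add (Nat.add (Nat.add C x2464) x7324) x6676) x6892) x6820) x6844) x6836) x13398) x278)
    (Nat.sub (Nat.add (Nat.add (Nat.add (Nat.add (Nat.add (Nat.add (Nat.add (Nat.add C x2468) x7328) x6680) x6896) x6824) x6860) x6836) x6844) x13402)
    (Nat.sub (Nat.sub (Nat.add (Nat.add (Nat.add (Nat.add (Nat.add (Nat.add (Nat.add (Nat.add (Nat.add (Nat.add (Nat.add C x6844) x2470) x7330) x6682) x6898) x6826) x6862) x6838) x6850) x6842) x6846) x13404) x284)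
    (Nat.sub (Nat.add (Nat.add (Nat.add (Nat.add (Nat.add (Nat.add (Nat.add (Nat.add C x2472) x7332) x6684) x6900) x6828) x6864) x6852) x6844) x286)
    (Nat.sub (Nat.sub (Nat.add (Nat.add (Nat.add (Nat.add (Nat.add (Nat.add (Nat.add C x2476) x7336) x6688) x6904) x6868) x6844) x6852) x13410) x290)
    (Nat.sub (Nat.add (Nat.add (Nat.add (Nat.add (Nat.add (Nat.add (Nat.add (Nat.add C x6852) x2478) x7338) x6690) x6906) x6870) x6846) x6850) x292)
    (Nat.sub (Nat.sub (Nat.add (Nat.add (Nat.add (Nat.add (Nat.add (Nat.add C x2486) x7346) x6698) x6914) x6842) x6862) x6860) x13420)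
    (Nat.sub (Nat.sub (Nat.sub (Nat.add (Nat.add (Nat.add (Nat.add (Nat.add (Nat.add (Nat.add (Nat.add C x2488) x7348) x6700) x6916) x6844) x6868) x6860) x6864) x6862) x13422) x302)
    (Nat.sub (Nat.sub (Nat.add (Nat.add (Nat.add (Nat.add (Nat.add (Nat.add (Nat.add C x2490) x7350) x6702) x6918) x6846) x6870) x6862) (Nat.mul x6864 (nat_lit 3))) x304)
    (Nat.sub (Nat.sub (Nat.add (Nat.add (Nat.add (Nat.add (Nat.add (Nat.add (Nat.add C x2494) x7354) x6706) x6922) x6850) x6862) x6870) x13428) x308)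
    (Nat.sub (Nat.add (Nat.add (Nat.add (Nat.add (Nat.add (Nat.add (Nat.add (Nat.add C x2496) x7356) x6708) x6924) x6852) x6864) x6876) x6868) x310)
    (Nat.sub (Nat.add (Nat.add (Nat.add (Nat.add (Nat.add (Nat.add C x6876) x2502) x7362) x6714) x6930) x6870) x316)
    (Nat.sub (Nat.add (Nat.add (Nat.add (Nat.add (Nat.add (Nat.add (Nat.add (Nat.add C (Nat.mul x6890 (nat_lit 2))) x2516) x7376) x6728) x7052) x6836) x6896) x6892) x13450)
    (Nat.sub (Nat.sub (Nat.add (Nat.add (Nat.add (Nat.add (Nat.add (Nat.add (Nat.add (Nat.add C x6892) x2518) x7378) x6730) x7054) x6838) x6898) x6890) x13452) x332)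
    (Nat.sub (Nat.add (Nat.add (Nat.add (Nat.add (Nat.add (Nat.add (Nat.add (Nat.add C x2522) x7382) x6734) x7058) x6842) x6914) x6890) x6898) x13456)
    (Nat.sub (Nat.sub (Nat.add (Nat.add (Nat.add (Nat.add (Nat.add (Nat.add (Nat.add (Nat.add (Nat.add (Nat.add (Nat.add C x6898) x2524) x7384) x6736) x7060) x6844) x6916) x6892) x6904) x6896) x6900) x13458) x338)
    (Nat.sub (Nat.add (Nat.add (Nat.add (Nat.add (Nat.add (Nat.add (Nat.add (Nat.add C x2526) x7386) x6738) x7062) x6846) x6918) x6906) x6898) x340)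
    (Nat.sub (Nat.sub (Nat.sub (Nat.add (Nat.add (Nat.add (Nat.add (Nat.add (Nat.add (Nat.add (Nat.add C x2530) x7390) x6742) x7066) x6850) x6922) x6898) x6906) x6904) x13464) x344)
    (Nat.sub (Nat.add (Nat.add (Nat.add (Nat.add (Nat.add (Nat.add (Nat.add (Nat.add C x2532) x7392) x6744) x7068) x6852) x6924) x6900) x6904) x346)
    (Nat.sub (Nat.add (Nat.add (Nat.add (Nat.add (Nat.add (Nat.add (Nat.add (Nat.add (Nat.add C x6914) x2540) x7400) x6752) x7076) x6860) x6968) x6896) x6916) x13474)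
    (Nat.sub (Nat.sub (Nat.add (Nat.add (Nat.add (Nat.add (Nat.add (Nat.add (Nat.add (Nat.add (Nat.add (Nat.add (Nat.add C x6916) x2542) x7402) x6754) x7078) x6862) x6970) x6898) x6922) x6914) x6918) x13476) x356)
    (Nat.sub (Nat.sub (Nat.add (Nat.add (Nat.add (Nat.add (Nat.add (Nat.add (Nat.add (Nat.add (Nat.add C x2544) x7404) x6756) x7080) x6864) x6972) x6900) x6924) x6916) x6918) x358)
    (Nat.sub (Nat.sub (Nat.add (Nat.add (Nat.add (Nat.add (Nat.add (Nat.add (Nat.add (Nat.add (Nat.add (Nat.add (Nat.add C x6922) x2548) x7408) x6760) x7084) x6868) x6976) x6904) x6940) x6916) x6924) x13482) x362)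
    (Nat.sub (Nat.add (Nat.add (Nat.add (Nat.add (Nat.add (Nat.add (Nat.add (Nat.add (Nat.add (Nat.add (Nat.add (Nat.add C x6924) x2550) x7410) x6762) x7086) x6870) x6978) x6906) x6942) x6918) x6930) x6922) x364)
    (Nat.sub (Nat.add (Nat.add (Nat.add (Nat.add (Nat.add (Nat.add (Nat.add (Nat.add (Nat.add C x6930) x2556) x7416) x6768) x7092) x6876) x6984) x6948) x6924) x370)
    (Nat.sub (Nat.sub (Nat.add (Nat.add (Nat.add (Nat.add (Nat.add (Nat.add (Nat.add (Nat.add C x6940) x2566) x7426) x6778) x7102) x6994) x6922) x6942) x13500) x380)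
    (Nat.sub (Nat.add (Nat.add (Nat.add (Nat.add (Nat.add (Nat.add (Nat.add (Nat.add C x2568) x7428) x6780) x7104) x6996) x6924) x6948) x6940) x382)
    (Nat.sub (Nat.add (Nat.add (Nat.add (Nat.add (Nat.add (Nat.add (Nat.add (Nat.add C (Nat.mul x6948 (nat_lit 2))) x2574) x7434) x6786) x7110) x7002) x6930) x6942) x388)
    (Nat.sub (Nat.add (Nat.add (Nat.add (Nat.add (Nat.add (Nat.add C x6968) x2594) x7454) x7130) x6914) x6970) x13528)
    (Nat.sub (Nat.sub (Nat.add (Nat.add (Nat.add (Nat.add (Nat.add (Nat.add (Nat.add (Nat.add C x6970) x2596) x7456) x7132) x6916) x6976) x6968) x6972) x13530) x410)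
    (Nat.sub (Nat.sub (Nat.add (Nat.add (Nat.add (Nat.add (Nat.add (Nat.add C x2598) x7458) x7134) x6918) x6978) x6970) x6972) x412)
    (Nat.sub (Nat.sub (Nat.add (Nat.add (Nat.add (Nat.add (Nat.add (Nat.add (Nat.add C x2602) x7462) x7138) x6922) x6994) x6970) x6978) x13536) x416)
    (Nat.sub (Nat.add (Nat.add (Nat.add (Nat.add (Nat.add (Nat.add (Nat.add (Nat.add C x2604) x7464) x7140) x6924) x6996) x6972) x6984) x6976) x418)
    (Nat.sub (Nat.sub (Nat.add (Nat.add (Nat.add (Nat.add (Nat.add (Nat.add C x2610) x7470) x7146) x6930) x7002) x6978) x6984) x424)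
    (Nat.sub (Nat.sub (Nat.add (Nat.add (Nat.add (Nat.add (Nat.add (Nat.add (Nat.add C (Nat.mul x6994 (nat_lit 2))) x2620) x7480) x7156) x6940) x6976) x6996) x13554) x434)
    (Nat.sub (Nat.add (Nat.add (Nat.add (Nat.add (Nat.add (Nat.add (Nat.add (Nat.add C x6996) x2622) x7482) x7158) x6942) x6978) x7002) x6994) x436)
    (Nat.sub (Nat.add (Nat.add (Nat.add (Nat.add (Nat.add (Nat.add (Nat.add (Nat.add C (Nat.mul x7002 (nat_lit 2))) x2628) x7488) x7164) x6948) x6984) x7020) x6996) x442)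
    (Nat.sub (Nat.add (Nat.add (Nat.add (Nat.add (Nat.add C (Nat.mul x7020 (nat_lit 3))) x2646) x7506) x7182) x7002) x460)
    (Nat.sub (Nat.add (Nat.add (Nat.add (Nat.add (Nat.add (Nat.add C x7052) x2678) x7538) x6890) x7058) x7054) x13612)
    (Nat.sub (Nat.sub (Nat.add (Nat.add (Nat.add (Nat.add (Nat.add C x2680) x7540) x6892) x7060) x7052) x13614) x494)
    (Nat.sub (Nat.sub (Nat.add (Nat.add (Nat.add (Nat.add (Nat.add (Nat.add C x2684) x7544) x6896) x7076) x7052) x7060) x7058) x13618)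
    (Nat.sub (Nat.sub (Nat.add (Nat.add (Nat.add (Nat.add (Nat.add (Nat.add (Nat.add (Nat.add C x2686) x7546) x6898) x7078) x7054) x7066) x7058) x7062) x13620) x500)
    (Nat.sub (Nat.sub (Nat.add (Nat.add (Nat.add (Nat.add (Nat.add (Nat.add C x2688) x7548) x6900) x7080) x7068) x7060) x7062) x502)
    (Nat.sub (Nat.sub (Nat.sub (Nat.add (Nat.add (Nat.add (Nat.add (Nat.add (Nat.add C x2692) x7552) x6904) x7084) x7060) x7068) (Nat.mul x7066 (nat_lit 2))) x13626) x506)
    (Nat.sub (Nat.sub (Nat.add (Nat.add (Nat.add (Nat.add (Nat.add (Nat.add C x2694) x7554) x6906) x7086) x7062) x7066) x7068) x508)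
    (Nat.sub (Nat.sub (Nat.add (Nat.add (Nat.add (Nat.add (Nat.add (Nat.add C x2702) x7562) x6914) x7130) x7058) x7078) x7076) x13636)
    (Nat.sub (Nat.sub (Nat.sub (Nat.add (Nat.add (Nat.add (Nat.add (Nat.add (Nat.add (Nat.add (Nat.add C x2704) x7564) x6916) x7132) x7060) x7084) x7076) x7080) x7078) x13638) x518)
    (Nat.sub (Nat.sub (Nat.add (Nat.add (Nat.add (Nat.add (Nat.add (Nat.add (Nat.add C x2706) x7566) x6918) x7134) x7062) x7086) x7078) (Nat.mul x7080 (nat_lit 3))) x520)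
    (Nat.sub (Nat.sub (Nat.sub (Nat.add (Nat.add (Nat.add (Nat.add (Nat.add (Nat.add (Nat.add (Nat.add C x2710) x7570) x6922) x7138) x7066) x7102) x7078) x7086) x7084) x13644) x524)
    (Nat.sub (Nat.sub (Nat.add (Nat.add (Nat.add (Nat.add (Nat.add (Nat.add (Nat.add (Nat.add (Nat.add C x2712) x7572) x6924) x7140) x7068) x7104) x7080) x7092) x7084) x7086) x526)
    (Nat.sub (Nat.sub (Nat.add (Nat.add (Nat.add (Nat.add (Nat.add (Nat.add C x2718) x7578) x6930) x7146) x7110) x7086) x7092) x532)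
    (Nat.sub (Nat.sub (Nat.sub (Nat.add (Nat.add (Nat.add (Nat.add (Nat.add (Nat.add C x2728) x7588) x6940) x7156) x7084) x7104) (Nat.mul x7102 (nat_lit 2))) x13662) x542)
    (Nat.sub (Nat.sub (Nat.add (Nat.add (Nat.add (Nat.add (Nat.add (Nat.add (Nat.add C x2730) x7590) x6942) x7158) x7086) x7110) x7102) (Nat.mul x7104 (nat_lit 3))) x544)
    (Nat.sub (Nat.sub (Nat.add (Nat.add (Nat.add (Nat.add (Nat.add (Nat.add C x2736) x7596) x6948) x7164) x7092) x7104) x7110) x550)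
    (Nat.sub (Nat.add (Nat.add (Nat.add (Nat.add (Nat.add (Nat.add C x7130) x2756) x7616) x6968) x7076) x7132) x13690)
    (Nat.sub (Nat.sub (Nat.add (Nat.add (Nat.add (Nat.add (Nat.add (Nat.add (Nat.add (Nat.add C x7132) x2758) x7618) x6970) x7078) x7138) x7130) x7134) x13692) x572)
    (Nat.sub (Nat.sub (Nat.add (Nat.add (Nat.add (Nat.add (Nat.add (Nat.add C x2760) x7620) x6972) x7080) x7140) x7132) x7134) x574)
    (Nat.sub (Nat.sub (Nat.add (Nat.add (Nat.add (Nat.add (Nat.add (Nat.add (Nat.add C x2764) x7624) x6976) x7084) x7156) x7132) x7140) x13698) x578)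
    (Nat.sub (Nat.add (Nat.add (Nat.add (Nat.add (Nat.add (Nat.add (Nat.add (Nat.add C x2766) x7626) x6978) x7086) x7158) x7134) x7146) x7138) x580)
    (Nat.sub (Nat.sub (Nat.add (Nat.add (Nat.add (Nat.add (Nat.add (Nat.add C x2772) x7632) x6984) x7092) x7164) x7140) x7146) x586)
    (Nat.sub (Nat.sub (Nat.add (Nat.add (Nat.add (Nat.add (Nat.add (Nat.add (Nat.add (Nat.add C x7156) x2782) x7642) x6994) x7102) x7210) x7138) x7158) x13716) x596)
    (Nat.sub (Nat.add (Nat.add (Nat.add (Nat.add (Nat.add (Nat.add (Nat.add (Nat.add C x2784) x7644) x6996) x7104) x7212) x7140) x7164) x7156) x598)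
    (Nat.sub (Nat.add (Nat.add (Nat.add (Nat.add (Nat.add (Nat.add (Nat.add (Nat.add (Nat.add C x7164) x2790) x7650) x7002) x7110) x7218) x7146) x7182) x7158) x604)
    (Nat.sub (Nat.add (Nat.add (Nat.add (Nat.add (Nat.add (Nat.add C x7182) x2808) x7668) x7020) x7236) x7164) x622)
    (Nat.sub (Nat.sub (Nat.add (Nat.add (Nat.add (Nat.add (Nat.add C (Nat.mul x7210 (nat_lit 2))) x2836) x7696) x7156) x7212) x13770) x650)
    (Nat.sub (Nat.add (Nat.add (Nat.add (Nat.add (Nat.add (Nat.add C x7212) x2838) x7698) x7158) x7218) x7210) x652)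
    (Nat.sub (Nat.add (Nat.add (Nat.add (Nat.add (Nat.add (Nat.add C x7218) x2844) x7704) x7164) x7236) x7212) x658)
    (Nat.sub (Nat.add (Nat.add (Nat.add (Nat.add (Nat.add C (Nat.mul x7236 (nat_lit 3))) x2862) x7722) x7182) x7218) x676)
    (Nat.sub (Nat.add (Nat.add (Nat.add (Nat.add (Nat.add C (Nat.mul x7298 (nat_lit 3))) x2924) x8756) x6812) x7304) x13858)
    (Nat.sub (Nat.add (Nat.add (Nat.add (Nat.add (Nat.add (Nat.add (Nat.add (Nat.add C (Nat.mul x7304 (nat_lit 2))) x2930) x8762) x6818) x7322) x7298) x7310) x7306) x13864)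
    (Nat.sub (Nat.sub (Nat.add (Nat.add (Nat.add (Nat.add (Nat.add (Nat.add (Nat.add C (Nat.mul x7306 (nat_lit 2))) x2932) x8764) x6820) x7324) x7312) x7304) x13866) x746)
    (Nat.sub (Nat.sub (Nat.add (Nat.add (Nat.add (Nat.add (Nat.add (Nat.add C x2936) x8768) x6824) x7328) x7304) x7312) x7310) x13870)
    (Nat.sub (Nat.sub (Nat.add (Nat.add (Nat.add (Nat.add (Nat.add (Nat.add (Nat.add (Nat.add C x7312) x2938) x8770) x6826) x7330) x7306) x7310) x7314) x13872) x752)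
    (Nat.sub (Nat.add (Nat.add (Nat.add (Nat.add (Nat.add (Nat.add C x7314) x2940) x8772) x6828) x7332) x7312) x754)
    (Nat.sub (Nat.add (Nat.add (Nat.add (Nat.add (Nat.add (Nat.add (Nat.add (Nat.add C x7322) x2948) x8780) x6836) x7376) x7304) x7328) x7324) x13882)
    (Nat.sub (Nat.sub (Nat.add (Nat.add (Nat.add (Nat.add (Nat.add (Nat.add (Nat.add C x2950) x8782) x6838) x7378) x7306) x7330) x7322) x13884) x764)
    (Nat.sub (Nat.add (Nat.add (Nat.add (Nat.add (Nat.add (Nat.add (Nat.add (Nat.add C x2954) x8786) x6842) x7382) x7310) x7346) x7322) x7330) x13888)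
    (Nat.sub (Nat.sub (Nat.add (Nat.add (Nat.add (Nat.add (Nat.add (Nat.add (Nat.add (Nat.add (Nat.add (Nat.add (Nat.add C x7330) x2956) x8788) x6844) x7384) x7312) x7348) x7324) x7336) x7328) x7332) x13890) x770)
    (Nat.sub (Nat.add (Nat.add (Nat.add (Nat.add (Nat.add (Nat.add (Nat.add (Nat.add C x2958) x8790) x6846) x7386) x7314) x7350) x7338) x7330) x772)
    (Nat.sub (Nat.sub (Nat.add (Nat.add (Nat.add (Nat.add (Nat.add (Nat.add (Nat.add C x2962) x8794) x6850) x7390) x7354) x7330) x7338) x13896) x776)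
    (Nat.sub (Nat.add (Nat.add (Nat.add (Nat.add (Nat.add (Nat.add (Nat.add (Nat.add C x7338) x2964) x8796) x6852) x7392) x7356) x7332) x7336) x778)
    (Nat.sub (Nat.sub (Nat.add (Nat.add (Nat.add (Nat.add (Nat.add (Nat.add C x2972) x8804) x6860) x7400) x7328) x7348) x7346) x13906)
    (Nat.sub (Nat.sub (Nat.sub (Nat.add (Nat.add (Nat.add (Nat.add (Nat.add (Nat.add (Nat.add (Nat.add C x2974) x8806) x6862) x7402) x7330) x7354) x7346) x7350) x7348) x13908) x788)
    (Nat.sub (Nat.sub (Nat.add (Nat.add (Nat.add (Nat.add (Nat.add (Nat.add (Nat.add C x2976) x8808) x6864) x7404) x7332) x7356) x7348) (Nat.mul x7350 (nat_lit 3))) x790)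
    (Nat.sub (Nat.sub (Nat.add (Nat.add (Nat.add (Nat.add (Nat.add (Nat.add (Nat.add C x2980) x8812) x6868) x7408) x7336) x7348) x7356) x13914) x794)
    (Nat.sub (Nat.add (Nat.add (Nat.add (Nat.add (Nat.add (Nat.add (Nat.add (Nat.add C x2982) x8814) x6870) x7410) x7338) x7350) x7362) x7354) x796)
    (Nat.sub (Nat.add (Nat.add (Nat.add (Nat.add (Nat.add (Nat.add C x7362) x2988) x8820) x6876) x7416) x7356) x802)
    (Nat.sub (Nat.add (Nat.add (Nat.add (Nat.add (Nat.add (Nat.add (Nat.add (Nat.add C x7376) x3002) x8834) x6890) x7538) x7322) x7382) x7378) x13936)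
    (Nat.sub (Nat.sub (Nat.add (Nat.add (Nat.add (Nat.add (Nat.add (Nat.add (Nat.add C x3004) x8836) x6892) x7540) x7324) x7384) x7376) x13938) x818)
    (Nat.sub (Nat.sub (Nat.add (Nat.add (Nat.add (Nat.add (Nat.add (Nat.add (Nat.add (Nat.add C x3008) x8840) x6896) x7544) x7328) x7400) x7376) x7384) x7382) x13942)
    (Nat.sub (Nat.sub (Nat.add (Nat.add (Nat.add (Nat.add (Nat.add (Nat.add (Nat.add (Nat.add (Nat.add (Nat.add C x3010) x8842) x6898) x7546) x7330) x7402) x7378) x7390) x7382) x7386) x13944) x824)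
    (Nat.sub (Nat.sub (Nat.add (Nat.add (Nat.add (Nat.add (Nat.add (Nat.add (Nat.add (Nat.add C x3012) x8844) x6900) x7548) x7332) x7404) x7392) x7384) x7386) x826)
    (Nat.sub (Nat.sub (Nat.sub (Nat.add (Nat.add (Nat.add (Nat.add (Nat.add (Nat.add (Nat.add (Nat.add C x3016) x8848) x6904) x7552) x7336) x7408) x7384) x7392) (Nat.mul x7390 (nat_lit 2))) x13950) x830)
    (Nat.sub (Nat.sub (Nat.add (Nat.add (Nat.add (Nat.add (Nat.add (Nat.add (Nat.add (Nat.add C x3018) x8850) x6906) x7554) x7338) x7410) x7386) x7390) x7392) x832)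
    (Nat.sub (Nat.add (Nat.add (Nat.add (Nat.add (Nat.add (Nat.add (Nat.add (Nat.add C x3026) x8858) x6914) x7562) x7346) x7454) x7382) x7402) x13960)
    (Nat.sub (Nat.sub (Nat.add (Nat.add (Nat.add (Nat.add (Nat.add (Nat.add (Nat.add (Nat.add (Nat.add (Nat.add C x3028) x8860) x6916) x7564) x7348) x7456) x7384) x7408) x7400) x7404) x13962) x842)
    (Nat.sub (Nat.sub (Nat.add (Nat.add (Nat.add (Nat.add (Nat.add (Nat.add (Nat.add (Nat.add (Nat.add C x3030) x8862) x6918) x7566) x7350) x7458) x7386) x7410) x7402) (Nat.mul x7404 (nat_lit 2))) x844)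
    (Nat.sub (Nat.sub (Nat.add (Nat.add (Nat.add (Nat.add (Nat.add (Nat.add (Nat.add (Nat.add (Nat.add (Nat.add C x3034) x8866) x6922) x7570) x7354) x7462) x7390) x7426) x7402) x7410) x13968) x848)
    (Nat.sub (Nat.add (Nat.add (Nat.add (Nat.add (Nat.add (Nat.add (Nat.add (Nat.add (Nat.add (Nat.add (Nat.add C x3036) x8868) x6924) x7572) x7356) x7464) x7392) x7428) x7404) x7416) x7408) x850)
    (Nat.sub (Nat.add (Nat.add (Nat.add (Nat.add (Nat.add (Nat.add (Nat.add (Nat.add C x3042) x8874) x6930) x7578) x7362) x7470) x7434) x7410) x856)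
    (Nat.sub (Nat.sub (Nat.add (Nat.add (Nat.add (Nat.add (Nat.add (Nat.add (Nat.add C x3052) x8884) x6940) x7588) x7480) x7408) x7428) x13986) x866)
    (Nat.sub (Nat.sub (Nat.add (Nat.add (Nat.add (Nat.add (Nat.add (Nat.add (Nat.add (Nat.add C x3054) x8886) x6942) x7590) x7482) x7410) x7434) x7426) x7428) x868)
    (Nat.sub (Nat.add (Nat.add (Nat.add (Nat.add (Nat.add (Nat.add (Nat.add (Nat.add C x7434) x3060) x8892) x6948) x7596) x7488) x7416) x7428) x874)
    (Nat.sub (Nat.sub (Nat.add (Nat.add (Nat.add (Nat.add (Nat.add (Nat.add C x3080) x8912) x6968) x7616) x7400) x7456) x7454) x14014)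
    (Nat.sub (Nat.sub (Nat.sub (Nat.add (Nat.add (Nat.add (Nat.add (Nat.add (Nat.add (Nat.add (Nat.add C x3082) x8914) x6970) x7618) x7402) x7462) x7454) x7458) x7456) x14016) x896)
    (Nat.sub (Nat.sub (Nat.add (Nat.add (Nat.add (Nat.add (Nat.add (Nat.add (Nat.add C x3084) x8916) x6972) x7620) x7404) x7464) x7456) (Nat.mul x7458 (nat_lit 3))) x898)
    (Nat.sub (Nat.sub (Nat.sub (Nat.add (Nat.add (Nat.add (Nat.add (Nat.add (Nat.add (Nat.add (Nat.add C x3088) x8920) x6976) x7624) x7408) x7480) x7456) x7464) (Nat.mul x7462 (nat_lit 2))) x14022) x902)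
    (Nat.sub (Nat.sub (Nat.add (Nat.add (Nat.add (Nat.add (Nat.add (Nat.add (Nat.add (Nat.add (Nat.add C x3090) x8922) x6978) x7626) x7410) x7482) x7458) x7470) x7462) (Nat.mul x7464 (nat_lit 2))) x904)
    (Nat.sub (Nat.sub (Nat.add (Nat.add (Nat.add (Nat.add (Nat.add (Nat.add (Nat.add C x3096) x8928) x6984) x7632) x7416) x7488) x7464) (Nat.mul x7470 (nat_lit 3))) x910)
    (Nat.sub (Nat.sub (Nat.add (Nat.add (Nat.add (Nat.add (Nat.add (Nat.add (Nat.add C x3106) x8938) x6994) x7642) x7426) x7462) x7482) x14040) x920)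
    (Nat.sub (Nat.sub (Nat.add (Nat.add (Nat.add (Nat.add (Nat.add (Nat.add (Nat.add (Nat.add C x3108) x8940) x6996) x7644) x7428) x7464) x7488) x7480) x7482) x922)
    (Nat.sub (Nat.add (Nat.add (Nat.add (Nat.add (Nat.add (Nat.add (Nat.add (Nat.add C x3114) x8946) x7002) x7650) x7434) x7470) x7506) x7482) x928)
    (Nat.sub (Nat.add (Nat.add (Nat.add (Nat.add (Nat.add (Nat.add C x7506) x3132) x8964) x7020) x7668) x7488) x946)
    (Nat.sub (Nat.add (Nat.add (Nat.add (Nat.add (Nat.add (Nat.add (Nat.add (Nat.add C (Nat.mul x7538 (nat_lit 2))) x3164) x8996) x7052) x8024) x7376) x7544) x7540) x14098)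
    (Nat.sub (Nat.sub (Nat.add (Nat.add (Nat.add (Nat.add (Nat.add (Nat.add (Nat.add (Nat.add C x7540) x3166) x8998) x7054) x8026) x7378) x7546) x7538) x14100) x980)
    (Nat.sub (Nat.add (Nat.add (Nat.add (Nat.add (Nat.add (Nat.add (Nat.add (Nat.add C x3170) x9002) x7058) x8030) x7382) x7562) x7538) x7546) x14104)
    (Nat.sub (Nat.sub (Nat.add (Nat.add (Nat.add (Nat.add (Nat.add (Nat.add (Nat.add (Nat.add (Nat.add (Nat.add (Nat.add C x7546) x3172) x9004) x7060) x8032) x7384) x7564) x7540) x7552) x7544) x7548) x14106) x986)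
    (Nat.sub (Nat.add (Nat.add (Nat.add (Nat.add (Nat.add (Nat.add (Nat.add (Nat.add C x3174) x9006) x7062) x8034) x7386) x7566) x7554) x7546) x988)
    (Nat.sub (Nat.sub (Nat.sub (Nat.add (Nat.add (Nat.add (Nat.add (Nat.add (Nat.add (Nat.add (Nat.add C x3178) x9010) x7066) x8038) x7390) x7570) x7546) x7554) x7552) x14112) x992)
    (Nat.sub (Nat.add (Nat.add (Nat.add (Nat.add (Nat.add (Nat.add (Nat.add (Nat.add C x3180) x9012) x7068) x8040) x7392) x7572) x7548) x7552) x994)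
    (Nat.sub (Nat.add (Nat.add (Nat.add (Nat.add (Nat.add (Nat.add (Nat.add (Nat.add C x3188) x9020) x7076) x8048) x7400) x7616) x7544) x7564) x14122)
    (Nat.sub (Nat.sub (Nat.add (Nat.add (Nat.add (Nat.add (Nat.add (Nat.add (Nat.add (Nat.add (Nat.add (Nat.add C x3190) x9022) x7078) x8050) x7402) x7618) x7546) x7570) x7562) x7566) x14124) x1004)
    (Nat.sub (Nat.sub (Nat.add (Nat.add (Nat.add (Nat.add (Nat.add (Nat.add (Nat.add (Nat.add (Nat.add C x3192) x9024) x7080) x8052) x7404) x7620) x7548) x7572) x7564) (Nat.mul x7566 (nat_lit 2))) x1006)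
    (Nat.sub (Nat.sub (Nat.add (Nat.add (Nat.add (Nat.add (Nat.add (Nat.add (Nat.add (Nat.add (Nat.add (Nat.add C x3196) x9028) x7084) x8056) x7408) x7624) x7552) x7588) x7564) x7572) x14130) x1010)
    (Nat.sub (Nat.add (Nat.add (Nat.add (Nat.add (Nat.add (Nat.add (Nat.add (Nat.add (Nat.add (Nat.add (Nat.add C x3198) x9030) x7086) x8058) x7410) x7626) x7554) x7590) x7566) x7578) x7570) x1012)
    (Nat.sub (Nat.add (Nat.add (Nat.add (Nat.add (Nat.add (Nat.add (Nat.add (Nat.add C x3204) x9036) x7092) x8064) x7416) x7632) x7596) x7572) x1018)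
    (Nat.sub (Nat.sub (Nat.sub (Nat.add (Nat.add (Nat.add (Nat.add (Nat.add (Nat.add (Nat.add (Nat.add C x3214) x9046) x7102) x8074) x7426) x7642) x7570) x7590) x7588) x14148) x1028)
    (Nat.sub (Nat.sub (Nat.add (Nat.add (Nat.add (Nat.add (Nat.add (Nat.add (Nat.add (Nat.add (Nat.add C x3216) x9048) x7104) x8076) x7428) x7644) x7572) x7596) x7588) (Nat.mul x7590 (nat_lit 2))) x1030)
    (Nat.sub (Nat.add (Nat.add (Nat.add (Nat.add (Nat.add (Nat.add (Nat.add (Nat.add C x3222) x9054) x7110) x8082) x7434) x7650) x7578) x7590) x1036)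
    (Nat.sub (Nat.add (Nat.add (Nat.add (Nat.add (Nat.add (Nat.add (Nat.add (Nat.add (Nat.add C x7616) x3242) x9074) x7130) x8102) x7454) x7778) x7562) x7618) x14176)
    (Nat.sub (Nat.sub (Nat.add (Nat.add (Nat.add (Nat.add (Nat.add (Nat.add (Nat.add (Nat.add (Nat.add (Nat.add (Nat.add C x7618) x3244) x9076) x7132) x8104) x7456) x7780) x7564) x7624) x7616) x7620) x14178) x1058)
    (Nat.sub (Nat.sub (Nat.add (Nat.add (Nat.add (Nat.add (Nat.add (Nat.add (Nat.add (Nat.add (Nat.add C x3246) x9078) x7134) x8106) x7458) x7782) x7566) x7626) x7618) x7620) x1060)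
    (Nat.sub (Nat.sub (Nat.add (Nat.add (Nat.add (Nat.add (Nat.add (Nat.add (Nat.add (Nat.add (Nat.add (Nat.add C x3250) x9082) x7138) x8110) x7462) x7786) x7570) x7642) x7618) x7626) x14184) x1064)
    (Nat.sub (Nat.add (Nat.add (Nat.add (Nat.add (Nat.add (Nat.add (Nat.add (Nat.add (Nat.add (Nat.add (Nat.add C x3252) x9084) x7140) x8112) x7464) x7788) x7572) x7644) x7620) x7632) x7624) x1066)
    (Nat.sub (Nat.sub (Nat.add (Nat.add (Nat.add (Nat.add (Nat.add (Nat.add (Nat.add (Nat.add (Nat.add C x3258) x9090) x7146) x8118) x7470) x7794) x7578) x7650) x7626) x7632) x1072)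
    (Nat.sub (Nat.sub (Nat.add (Nat.add (Nat.add (Nat.add (Nat.add (Nat.add (Nat.add (Nat.add (Nat.add (Nat.add (Nat.add C x7642) x3268) x9100) x7156) x8128) x7480) x7804) x7588) x7696) x7624) x7644) x14202) x1082)
    (Nat.sub (Nat.add (Nat.add (Nat.add (Nat.add (Nat.add (Nat.add (Nat.add (Nat.add (Nat.add (Nat.add (Nat.add C x3270) x9102) x7158) x8130) x7482) x7806) x7590) x7698) x7626) x7650) x7642) x1084)
    (Nat.sub (Nat.add (Nat.add (Nat.add (Nat.add (Nat.add (Nat.add (Nat.add (Nat.add (Nat.add (Nat.add (Nat.add (Nat.add C x7650) x3276) x9108) x7164) x8136) x7488) x7812) x7596) x7704) x7632) x7668) x7644) x1090)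
    (Nat.sub (Nat.add (Nat.add (Nat.add (Nat.add (Nat.add (Nat.add (Nat.add (Nat.add (Nat.add C x7668) x3294) x9126) x7182) x8154) x7506) x7830) x7722) x7650) x1108)
    (Nat.sub (Nat.sub (Nat.add (Nat.add (Nat.add (Nat.add (Nat.add (Nat.add (Nat.add (Nat.add C x7696) x3322) x9154) x7210) x8182) x7858) x7642) x7698) x14256) x1136)
    (Nat.sub (Nat.add (Nat.add (Nat.add (Nat.add (Nat.add (Nat.add (Nat.add (Nat.add C x3324) x9156) x7212) x8184) x7860) x7644) x7704) x7696) x1138)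
    (Nat.sub (Nat.add (Nat.add (Nat.add (Nat.add (Nat.add (Nat.add (Nat.add (Nat.add C x3330) x9162) x7218) x8190) x7866) x7650) x7722) x7698) x1144)
    (Nat.sub (Nat.add (Nat.add (Nat.add (Nat.add (Nat.add (Nat.add (Nat.add (Nat.add C (Nat.mul x7722 (nat_lit 2))) x3348) x9180) x7236) x8208) x7884) x7668) x7704) x1162)
    (Nat.sub (Nat.add (Nat.add (Nat.add (Nat.add (Nat.add (Nat.add C x7778) x3404) x9236) x8264) x7616) x7780) x14338)
    (Nat.sub (Nat.sub (Nat.add (Nat.add (Nat.add (Nat.add (Nat.add (Nat.add (Nat.add (Nat.add C x7780) x3406) x9238) x8266) x7618) x7786) x7778) x7782) x14340) x1220)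
    (Nat.sub (Nat.sub (Nat.add (Nat.add (Nat.add (Nat.add (Nat.add (Nat.add C x3408) x9240) x8268) x7620) x7788) x7780) x7782) x1222)
    (Nat.sub (Nat.sub (Nat.add (Nat.add (Nat.add (Nat.add (Nat.add (Nat.add (Nat.add C x3412) x9244) x8272) x7624) x7804) x7780) x7788) x14346) x1226)
    (Nat.sub (Nat.add (Nat.add (Nat.add (Nat.add (Nat.add (Nat.add (Nat.add (Nat.add C x3414) x9246) x8274) x7626) x7806) x7782) x7794) x7786) x1228)
    (Nat.sub (Nat.sub (Nat.add (Nat.add (Nat.add (Nat.add (Nat.add (Nat.add C x3420) x9252) x8280) x7632) x7812) x7788) x7794) x1234)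
    (Nat.sub (Nat.sub (Nat.add (Nat.add (Nat.add (Nat.add (Nat.add (Nat.add (Nat.add C x3430) x9262) x8290) x7642) x7858) x7786) x7806) x14364) x1244)
    (Nat.sub (Nat.sub (Nat.add (Nat.add (Nat.add (Nat.add (Nat.add (Nat.add (Nat.add (Nat.add C x3432) x9264) x8292) x7644) x7860) x7788) x7812) x7804) x7806) x1246)
    (Nat.sub (Nat.add (Nat.add (Nat.add (Nat.add (Nat.add (Nat.add (Nat.add (Nat.add C x3438) x9270) x8298) x7650) x7866) x7794) x7830) x7806) x1252)
    (Nat.sub (Nat.sub (Nat.add (Nat.add (Nat.add (Nat.add (Nat.add (Nat.add C x3456) x9288) x8316) x7668) x7884) x7812) x7830) x1270)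
    (Nat.sub (Nat.sub (Nat.add (Nat.add (Nat.add (Nat.add (Nat.add (Nat.add (Nat.add C (Nat.mul x7858 (nat_lit 2))) x3484) x9316) x8344) x7696) x7804) x7860) x14418) x1298)
    (Nat.sub (Nat.add (Nat.add (Nat.add (Nat.add (Nat.add (Nat.add (Nat.add (Nat.add C x7860) x3486) x9318) x8346) x7698) x7806) x7866) x7858) x1300)
    (Nat.sub (Nat.add (Nat.add (Nat.add (Nat.add (Nat.add (Nat.add (Nat.add (Nat.add C x7866) x3492) x9324) x8352) x7704) x7812) x7884) x7860) x1306)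
    (Nat.sub (Nat.add (Nat.add (Nat.add (Nat.add (Nat.add (Nat.add (Nat.add (Nat.add C (Nat.mul x7884 (nat_lit 2))) x3510) x9342) x8370) x7722) x7830) x7938) x7866) x1324)
    (Nat.sub (Nat.add (Nat.add (Nat.add (Nat.add (Nat.add C (Nat.mul x7938 (nat_lit 3))) x3564) x9396) x8424) x7884) x1378)
    (Nat.sub (Nat.add (Nat.add (Nat.add (Nat.add (Nat.add (Nat.add C x8024) x3650) x9482) x7538) x8030) x8026) x14584)
    (Nat.sub (Nat.sub (Nat.add (Nat.add (Nat.add (Nat.add (Nat.add C x3652) x9484) x7540) x8032) x8024) x14586) x1466)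
    (Nat.sub (Nat.sub (Nat.add (Nat.add (Nat.add (Nat.add (Nat.add (Nat.add C x3656) x9488) x7544) x8048) x8024) x8032) x8030) x14590)
    (Nat.sub (Nat.sub (Nat.add (Nat.add (Nat.add (Nat.add (Nat.add (Nat.add (Nat.add (Nat.add C x3658) x9490) x7546) x8050) x8026) x8038) x8030) x8034) x14592) x1472)
    (Nat.sub (Nat.sub (Nat.add (Nat.add (Nat.add (Nat.add (Nat.add (Nat.add C x3660) x9492) x7548) x8052) x8040) x8032) x8034) x1474)
    (Nat.sub (Nat.sub (Nat.sub (Nat.add (Nat.add (Nat.add (Nat.add (Nat.add (Nat.add C x3664) x9496) x7552) x8056) x8032) x8040) (Nat.mul x8038 (nat_lit 2))) x14598) x1478)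
    (Nat.sub (Nat.sub (Nat.add (Nat.add (Nat.add (Nat.add (Nat.add (Nat.add C x3666) x9498) x7554) x8058) x8034) x8038) x8040) x1480)
    (Nat.sub (Nat.sub (Nat.add (Nat.add (Nat.add (Nat.add (Nat.add (Nat.add C x3674) x9506) x7562) x8102) x8030) x8050) x8048) x14608)
    (Nat.sub (Nat.sub (Nat.sub (Nat.add (Nat.add (Nat.add (Nat.add (Nat.add (Nat.add (Nat.add (Nat.add C x3676) x9508) x7564) x8104) x8032) x8056) x8048) x8052) x8050) x14610) x1490)
    (Nat.sub (Nat.sub (Nat.add (Nat.add (Nat.add (Nat.add (Nat.add (Nat.add (Nat.add C x3678) x9510) x7566) x8106) x8034) x8058) x8050) (Nat.mul x8052 (nat_lit 3))) x1492)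
    (Nat.sub (Nat.sub (Nat.sub (Nat.add (Nat.add (Nat.add (Nat.add (Nat.add (Nat.add (Nat.add (Nat.add C x3682) x9514) x7570) x8110) x8038) x8074) x8050) x8058) x8056) x14616) x1496)
    (Nat.sub (Nat.sub (Nat.add (Nat.add (Nat.add (Nat.add (Nat.add (Nat.add (Nat.add (Nat.add (Nat.add C x3684) x9516) x7572) x8112) x8040) x8076) x8052) x8064) x8056) x8058) x1498)
    (Nat.sub (Nat.sub (Nat.add (Nat.add (Nat.add (Nat.add (Nat.add (Nat.add C x3690) x9522) x7578) x8118) x8082) x8058) x8064) x1504)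
    (Nat.sub (Nat.sub (Nat.sub (Nat.add (Nat.add (Nat.add (Nat.add (Nat.add (Nat.add C x3700) x9532) x7588) x8128) x8056) x8076) (Nat.mul x8074 (nat_lit 2))) x14634) x1514)
    (Nat.sub (Nat.sub (Nat.add (Nat.add (Nat.add (Nat.add (Nat.add (Nat.add (Nat.add C x3702) x9534) x7590) x8130) x8058) x8082) x8074) (Nat.mul x8076 (nat_lit 3))) x1516)
    (Nat.sub (Nat.sub (Nat.add (Nat.add (Nat.add (Nat.add (Nat.add (Nat.add C x3708) x9540) x7596) x8136) x8064) x8076) x8082) x1522)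
    (Nat.sub (Nat.sub (Nat.add (Nat.add (Nat.add (Nat.add (Nat.add (Nat.add C x3728) x9560) x7616) x8264) x8048) x8104) x8102) x14662)
    (Nat.sub (Nat.sub (Nat.sub (Nat.add (Nat.add (Nat.add (Nat.add (Nat.add (Nat.add (Nat.add (Nat.add C x3730) x9562) x7618) x8266) x8050) x8110) x8102) x8106) x8104) x14664) x1544)
    (Nat.sub (Nat.sub (Nat.add (Nat.add (Nat.add (Nat.add (Nat.add (Nat.add (Nat.add C x3732) x9564) x7620) x8268) x8052) x8112) x8104) (Nat.mul x8106 (nat_lit 3))) x1546)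
    (Nat.sub (Nat.sub (Nat.sub (Nat.add (Nat.add (Nat.add (Nat.add (Nat.add (Nat.add (Nat.add (Nat.add C x3736) x9568) x7624) x8272) x8056) x8128) x8104) x8112) (Nat.mul x8110 (nat_lit 2))) x14670) x1550)
    (Nat.sub (Nat.sub (Nat.add (Nat.add (Nat.add (Nat.add (Nat.add (Nat.add (Nat.add (Nat.add (Nat.add C x3738) x9570) x7626) x8274) x8058) x8130) x8106) x8118) x8110) (Nat.mul x8112 (nat_lit 2))) x1552)
    (Nat.sub (Nat.sub (Nat.add (Nat.add (Nat.add (Nat.add (Nat.add (Nat.add (Nat.add C x3744) x9576) x7632) x8280) x8064) x8136) x8112) (Nat.mul x8118 (nat_lit 3))) x1558)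
    (Nat.sub (Nat.sub (Nat.sub (Nat.add (Nat.add (Nat.add (Nat.add (Nat.add (Nat.add (Nat.add (Nat.add C x3754) x9586) x7642) x8290) x8074) x8182) x8110) x8130) x8128) x14688) x1568)
    (Nat.sub (Nat.sub (Nat.add (Nat.add (Nat.add (Nat.add (Nat.add (Nat.add (Nat.add (Nat.add (Nat.add C x3756) x9588) x7644) x8292) x8076) x8184) x8112) x8136) x8128) (Nat.mul x8130 (nat_lit 2))) x1570)
    (Nat.sub (Nat.sub (Nat.add (Nat.add (Nat.add (Nat.add (Nat.add (Nat.add (Nat.add (Nat.add (Nat.add C x3762) x9594) x7650) x8298) x8082) x8190) x8118) x8154) x8130) x8136) x1576)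
    (Nat.sub (Nat.sub (Nat.add (Nat.add (Nat.add (Nat.add (Nat.add (Nat.add C x3780) x9612) x7668) x8316) x8208) x8136) x8154) x1594)
    (Nat.sub (Nat.sub (Nat.sub (Nat.add (Nat.add (Nat.add (Nat.add (Nat.add (Nat.add C x3808) x9640) x7696) x8344) x8128) x8184) (Nat.mul x8182 (nat_lit 2))) x14742) x1622)
    (Nat.sub (Nat.sub (Nat.add (Nat.add (Nat.add (Nat.add (Nat.add (Nat.add (Nat.add C x3810) x9642) x7698) x8346) x8130) x8190) x8182) (Nat.mul x8184 (nat_lit 3))) x1624)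
    (Nat.sub (Nat.sub (Nat.add (Nat.add (Nat.add (Nat.add (Nat.add (Nat.add (Nat.add C x3816) x9648) x7704) x8352) x8136) x8208) x8184) (Nat.mul x8190 (nat_lit 3))) x1630)
    (Nat.sub (Nat.sub (Nat.add (Nat.add (Nat.add (Nat.add (Nat.add (Nat.add C x3834) x9666) x7722) x8370) x8154) x8190) x8208) x1648)
    (Nat.sub (Nat.add (Nat.add (Nat.add (Nat.add (Nat.add (Nat.add C x8264) x3890) x9722) x7778) x8102) x8266) x14824)
    (Nat.sub (Nat.sub (Nat.add (Nat.add (Nat.add (Nat.add (Nat.add (Nat.add (Nat.add (Nat.add C x8266) x3892) x9724) x7780) x8104) x8272) x8264) x8268) x14826) x1706)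
    (Nat.sub (Nat.sub (Nat.add (Nat.add (Nat.add (Nat.add (Nat.add (Nat.add C x3894) x9726) x7782) x8106) x8274) x8266) x8268) x1708)
    (Nat.sub (Nat.sub (Nat.add (Nat.add (Nat.add (Nat.add (Nat.add (Nat.add (Nat.add C x3898) x9730) x7786) x8110) x8290) x8266) x8274) x14832) x1712)
    (Nat.sub (Nat.add (Nat.add (Nat.add (Nat.add (Nat.add (Nat.add (Nat.add (Nat.add C x3900) x9732) x7788) x8112) x8292) x8268) x8280) x8272) x1714)
    (Nat.sub (Nat.sub (Nat.add (Nat.add (Nat.add (Nat.add (Nat.add (Nat.add C x3906) x9738) x7794) x8118) x8298) x8274) x8280) x1720)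
    (Nat.sub (Nat.sub (Nat.add (Nat.add (Nat.add (Nat.add (Nat.add (Nat.add (Nat.add C x3916) x9748) x7804) x8128) x8344) x8272) x8292) x14850) x1730)
    (Nat.sub (Nat.sub (Nat.add (Nat.add (Nat.add (Nat.add (Nat.add (Nat.add (Nat.add (Nat.add C x3918) x9750) x7806) x8130) x8346) x8274) x8298) x8290) x8292) x1732)
    (Nat.sub (Nat.add (Nat.add (Nat.add (Nat.add (Nat.add (Nat.add (Nat.add (Nat.add C x3924) x9756) x7812) x8136) x8352) x8280) x8316) x8292) x1738)
    (Nat.sub (Nat.sub (Nat.add (Nat.add (Nat.add (Nat.add (Nat.add (Nat.add C x3942) x9774) x7830) x8154) x8370) x8298) x8316) x1756)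
    (Nat.sub (Nat.sub (Nat.add (Nat.add (Nat.add (Nat.add (Nat.add (Nat.add (Nat.add (Nat.add C x8344) x3970) x9802) x7858) x8182) x8506) x8290) x8346) x14904) x1784)
    (Nat.sub (Nat.add (Nat.add (Nat.add (Nat.add (Nat.add (Nat.add (Nat.add (Nat.add C x3972) x9804) x7860) x8184) x8508) x8292) x8352) x8344) x1786)
    (Nat.sub (Nat.add (Nat.add (Nat.add (Nat.add (Nat.add (Nat.add (Nat.add (Nat.add C x3978) x9810) x7866) x8190) x8514) x8298) x8370) x8346) x1792)
    (Nat.sub (Nat.add (Nat.add (Nat.add (Nat.add (Nat.add (Nat.add (Nat.add (Nat.add (Nat.add C x8370) x3996) x9828) x7884) x8208) x8532) x8316) x8424) x8352) x1810)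
    (Nat.sub (Nat.add (Nat.add (Nat.add (Nat.add (Nat.add (Nat.add C x8424) x4050) x9882) x7938) x8586) x8370) x1864)
    (Nat.sub (Nat.sub (Nat.add (Nat.add (Nat.add (Nat.add (Nat.add C (Nat.mul x8506 (nat_lit 2))) x4132) x9964) x8344) x8508) x15066) x1946)
    (Nat.sub (Nat.add (Nat.add (Nat.add (Nat.add (Nat.add (Nat.add C x8508) x4134) x9966) x8346) x8514) x8506) x1948)
    (Nat.sub (Nat.add (Nat.add (Nat.add (Nat.add (Nat.add (Nat.add C x8514) x4140) x9972) x8352) x8532) x8508) x1954)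
    (Nat.sub (Nat.add (Nat.add (Nat.add (Nat.add (Nat.add (Nat.add C x8532) x4158) x9990) x8370) x8586) x8514) x1972)
    (Nat.sub (Nat.add (Nat.add (Nat.add (Nat.add (Nat.add C (Nat.mul x8586 (nat_lit 3))) x4212) x10044) x8424) x8532) x2026)
    (Nat.sub (Nat.add (Nat.add (Nat.add (Nat.add (Nat.add C (Nat.mul x8756 (nat_lit 4))) x4382) x13130) x7298) x8762) x15316)
    (Nat.sub (Nat.add (Nat.add (Nat.add (Nat.add (Nat.add (Nat.add (Nat.add (Nat.add C (Nat.mul x8762 (nat_lit 3))) x4388) x13136) x7304) x8780) x8756) x8768) x8764) x15322)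
    (Nat.sub (Nat.sub (Nat.add (Nat.add (Nat.add (Nat.add (Nat.add (Nat.add (Nat.add C (Nat.mul x8764 (nat_lit 3))) x4390) x13138) x7306) x8782) x8770) x8762) x15324) x2204)
    (Nat.sub (Nat.add (Nat.add (Nat.add (Nat.add (Nat.add (Nat.add C x4394) x13142) x7310) x8786) x8762) x8770) x15328)
    (Nat.sub (Nat.sub (Nat.add (Nat.add (Nat.add (Nat.add (Nat.add (Nat.add (Nat.add (Nat.add C (Nat.mul x8770 (nat_lit 2))) x4396) x13144) x7312) x8788) x8764) x8768) x8772) x15330) x2210)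
    (Nat.sub (Nat.add (Nat.add (Nat.add (Nat.add (Nat.add (Nat.add C (Nat.mul x8772 (nat_lit 2))) x4398) x13146) x7314) x8790) x8770) x2212)
    (Nat.sub (Nat.add (Nat.add (Nat.add (Nat.add (Nat.add (Nat.add (Nat.add (Nat.add C (Nat.mul x8780 (nat_lit 2))) x4406) x13154) x7322) x8834) x8762) x8786) x8782) x15340)
    (Nat.sub (Nat.sub (Nat.add (Nat.add (Nat.add (Nat.add (Nat.add (Nat.add (Nat.add (Nat.add C x8782) x4408) x13156) x7324) x8836) x8764) x8788) x8780) x15342) x2222)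
    (Nat.sub (Nat.add (Nat.add (Nat.add (Nat.add (Nat.add (Nat.add (Nat.add (Nat.add (Nat.add C x8786) x4412) x13160) x7328) x8840) x8768) x8804) x8780) x8788) x15346)
    (Nat.sub (Nat.sub (Nat.add (Nat.add (Nat.add (Nat.add (Nat.add (Nat.add (Nat.add (Nat.add (Nat.add (Nat.add (Nat.add C (Nat.mul x8788 (nat_lit 2))) x4414) x13162) x7330) x8842) x8770) x8806) x8782) x8794) x8786) x8790) x15348) x2228)
    (Nat.sub (Nat.add (Nat.add (Nat.add (Nat.add (Nat.add (Nat.add (Nat.add (Nat.add (Nat.add C x8790) x4416) x13164) x7332) x8844) x8772) x8808) x8796) x8788) x2230)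
    (Nat.sub (Nat.sub (Nat.add (Nat.add (Nat.add (Nat.add (Nat.add (Nat.add (Nat.add (Nat.add C x8794) x4420) x13168) x7336) x8848) x8812) x8788) x8796) x15354) x2234)
    (Nat.sub (Nat.add (Nat.add (Nat.add (Nat.add (Nat.add (Nat.add (Nat.add (Nat.add C (Nat.mul x8796 (nat_lit 2))) x4422) x13170) x7338) x8850) x8814) x8790) x8794) x2236)
    (Nat.sub (Nat.add (Nat.add (Nat.add (Nat.add (Nat.add (Nat.add C x4430) x13178) x7346) x8858) x8786) x8806) x15364)
    (Nat.sub (Nat.sub (Nat.add (Nat.add (Nat.add (Nat.add (Nat.add (Nat.add (Nat.add (Nat.add C x4432) x13180) x7348) x8860) x8788) x8812) x8804) x8808) x15366) x2246)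
    (Nat.sub (Nat.sub (Nat.add (Nat.add (Nat.add (Nat.add (Nat.add (Nat.add (Nat.add C x4434) x13182) x7350) x8862) x8790) x8814) x8806) (Nat.mul x8808 (nat_lit 2))) x2248)
    (Nat.sub (Nat.sub (Nat.add (Nat.add (Nat.add (Nat.add (Nat.add (Nat.add (Nat.add (Nat.add C x8812) x4438) x13186) x7354) x8866) x8794) x8806) x8814) x15372) x2252)
    (Nat.sub (Nat.add (Nat.add (Nat.add (Nat.add (Nat.add (Nat.add (Nat.add (Nat.add (Nat.add C x8814) x4440) x13188) x7356) x8868) x8796) x8808) x8820) x8812) x2254)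
    (Nat.sub (Nat.add (Nat.add (Nat.add (Nat.add (Nat.add (Nat.add C (Nat.mul x8820 (nat_lit 2))) x4446) x13194) x7362) x8874) x8814) x2260)
    (Nat.sub (Nat.add (Nat.add (Nat.add (Nat.add (Nat.add (Nat.add (Nat.add (Nat.add C (Nat.mul x8834 (nat_lit 2))) x4460) x13208) x7376) x8996) x8780) x8840) x8836) x15394)
    (Nat.sub (Nat.sub (Nat.add (Nat.add (Nat.add (Nat.add (Nat.add (Nat.add (Nat.add (Nat.add C x8836) x4462) x13210) x7378) x8998) x8782) x8842) x8834) x15396) x2276)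
    (Nat.sub (Nat.add (Nat.add (Nat.add (Nat.add (Nat.add (Nat.add (Nat.add (Nat.add C x4466) x13214) x7382) x9002) x8786) x8858) x8834) x8842) x15400)
    (Nat.sub (Nat.sub (Nat.add (Nat.add (Nat.add (Nat.add (Nat.add (Nat.add (Nat.add (Nat.add (Nat.add (Nat.add (Nat.add C x8842) x4468) x13216) x7384) x9004) x8788) x8860) x8836) x8848) x8840) x8844) x15402) x2282)
    (Nat.sub (Nat.add (Nat.add (Nat.add (Nat.add (Nat.add (Nat.add (Nat.add (Nat.add C x4470) x13218) x7386) x9006) x8790) x8862) x8850) x8842) x2284)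
    (Nat.sub (Nat.sub (Nat.sub (Nat.add (Nat.add (Nat.add (Nat.add (Nat.add (Nat.add (Nat.add (Nat.add C x4474) x13222) x7390) x9010) x8794) x8866) x8842) x8850) x8848) x15408) x2288)
    (Nat.sub (Nat.add (Nat.add (Nat.add (Nat.add (Nat.add (Nat.add (Nat.add (Nat.add C x4476) x13224) x7392) x9012) x8796) x8868) x8844) x8848) x2290)
    (Nat.sub (Nat.add (Nat.add (Nat.add (Nat.add (Nat.add (Nat.add (Nat.add (Nat.add (Nat.add C x8858) x4484) x13232) x7400) x9020) x8804) x8912) x8840) x8860) x15418)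
    (Nat.sub (Nat.sub (Nat.add (Nat.add (Nat.add (Nat.add (Nat.add (Nat.add (Nat.add (Nat.add (Nat.add (Nat.add (Nat.add C x8860) x4486) x13234) x7402) x9022) x8806) x8914) x8842) x8866) x8858) x8862) x15420) x2300)
    (Nat.sub (Nat.sub (Nat.add (Nat.add (Nat.add (Nat.add (Nat.add (Nat.add (Nat.add (Nat.add (Nat.add C x4488) x13236) x7404) x9024) x8808) x8916) x8844) x8868) x8860) x8862) x2302)
    (Nat.sub (Nat.sub (Nat.add (Nat.add (Nat.add (Nat.add (Nat.add (Nat.add (Nat.add (Nat.add (Nat.add (Nat.add (Nat.add C x8866) x4492) x13240) x7408) x9028) x8812) x8920) x8848) x8884) x8860) x8868) x15426) x2306)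
    (Nat.sub (Nat.add (Nat.add (Nat.add (Nat.add (Nat.add (Nat.add (Nat.add (Nat.add (Nat.add (Nat.add (Nat.add (Nat.add C x8868) x4494) x13242) x7410) x9030) x8814) x8922) x8850) x8886) x8862) x8874) x8866) x2308)
    (Nat.sub (Nat.add (Nat.add (Nat.add (Nat.add (Nat.add (Nat.add (Nat.add (Nat.add (Nat.add C x8874) x4500) x13248) x7416) x9036) x8820) x8928) x8892) x8868) x2314)
    (Nat.sub (Nat.sub (Nat.add (Nat.add (Nat.add (Nat.add (Nat.add (Nat.add (Nat.add (Nat.add C x8884) x4510) x13258) x7426) x9046) x8938) x8866) x8886) x15444) x2324)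
    (Nat.sub (Nat.add (Nat.add (Nat.add (Nat.add (Nat.add (Nat.add (Nat.add (Nat.add C x4512) x13260) x7428) x9048) x8940) x8868) x8892) x8884) x2326)
    (Nat.sub (Nat.add (Nat.add (Nat.add (Nat.add (Nat.add (Nat.add (Nat.add (Nat.add C (Nat.mul x8892 (nat_lit 2))) x4518) x13266) x7434) x9054) x8946) x8874) x8886) x2332)
    (Nat.sub (Nat.add (Nat.add (Nat.add (Nat.add (Nat.add (Nat.add C x4538) x13286) x7454) x9074) x8858) x8914) x15472)
    (Nat.sub (Nat.sub (Nat.add (Nat.add (Nat.add (Nat.add (Nat.add (Nat.add (Nat.add (Nat.add C x4540) x13288) x7456) x9076) x8860) x8920) x8912) x8916) x15474) x2354)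
    (Nat.sub (Nat.sub (Nat.add (Nat.add (Nat.add (Nat.add (Nat.add (Nat.add (Nat.add C x4542) x13290) x7458) x9078) x8862) x8922) x8914) (Nat.mul x8916 (nat_lit 2))) x2356)
    (Nat.sub (Nat.sub (Nat.sub (Nat.add (Nat.add (Nat.add (Nat.add (Nat.add (Nat.add (Nat.add (Nat.add C x4546) x13294) x7462) x9082) x8866) x8938) x8914) x8922) x8920) x15480) x2360)
    (Nat.sub (Nat.sub (Nat.add (Nat.add (Nat.add (Nat.add (Nat.add (Nat.add (Nat.add (Nat.add (Nat.add C x4548) x13296) x7464) x9084) x8868) x8940) x8916) x8928) x8920) x8922) x2362)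
    (Nat.sub (Nat.sub (Nat.add (Nat.add (Nat.add (Nat.add (Nat.add (Nat.add (Nat.add C x4554) x13302) x7470) x9090) x8874) x8946) x8922) (Nat.mul x8928 (nat_lit 2))) x2368)
    (Nat.sub (Nat.sub (Nat.add (Nat.add (Nat.add (Nat.add (Nat.add (Nat.add (Nat.add (Nat.add C x8938) x4564) x13312) x7480) x9100) x8884) x8920) x8940) x15498) x2378)
    (Nat.sub (Nat.add (Nat.add (Nat.add (Nat.add (Nat.add (Nat.add (Nat.add (Nat.add C x4566) x13314) x7482) x9102) x8886) x8922) x8946) x8938) x2380)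
    (Nat.sub (Nat.add (Nat.add (Nat.add (Nat.add (Nat.add (Nat.add (Nat.add (Nat.add (Nat.add C x8946) x4572) x13320) x7488) x9108) x8892) x8928) x8964) x8940) x2386)
    (Nat.sub (Nat.add (Nat.add (Nat.add (Nat.add (Nat.add (Nat.add C (Nat.mul x8964 (nat_lit 2))) x4590) x13338) x7506) x9126) x8946) x2404)
    (Nat.sub (Nat.add (Nat.add (Nat.add (Nat.add (Nat.add (Nat.add (Nat.add (Nat.add C (Nat.mul x8996 (nat_lit 2))) x4622) x13370) x7538) x9482) x8834) x9002) x8998) x15556)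
    (Nat.sub (Nat.sub (Nat.add (Nat.add (Nat.add (Nat.add (Nat.add (Nat.add (Nat.add (Nat.add C x8998) x4624) x13372) x7540) x9484) x8836) x9004) x8996) x15558) x2438)
    (Nat.sub (Nat.add (Nat.add (Nat.add (Nat.add (Nat.add (Nat.add (Nat.add (Nat.add C x4628) x13376) x7544) x9488) x8840) x9020) x8996) x9004) x15562)
    (Nat.sub (Nat.sub (Nat.add (Nat.add (Nat.add (Nat.add (Nat.add (Nat.add (Nat.add (Nat.add (Nat.add (Nat.add (Nat.add C x9004) x4630) x13378) x7546) x9490) x8842) x9022) x8998) x9010) x9002) x9006) x15564) x2444)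
    (Nat.sub (Nat.add (Nat.add (Nat.add (Nat.add (Nat.add (Nat.add (Nat.add (Nat.add C x4632) x13380) x7548) x9492) x8844) x9024) x9012) x9004) x2446)
    (Nat.sub (Nat.sub (Nat.sub (Nat.add (Nat.add (Nat.add (Nat.add (Nat.add (Nat.add (Nat.add (Nat.add C x4636) x13384) x7552) x9496) x8848) x9028) x9004) x9012) x9010) x15570) x2450)
    (Nat.sub (Nat.add (Nat.add (Nat.add (Nat.add (Nat.add (Nat.add (Nat.add (Nat.add C x4638) x13386) x7554) x9498) x8850) x9030) x9006) x9010) x2452)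
    (Nat.sub (Nat.add (Nat.add (Nat.add (Nat.add (Nat.add (Nat.add (Nat.add (Nat.add C x4646) x13394) x7562) x9506) x8858) x9074) x9002) x9022) x15580)
    (Nat.sub (Nat.sub (Nat.add (Nat.add (Nat.add (Nat.add (Nat.add (Nat.add (Nat.add (Nat.add (Nat.add (Nat.add C x4648) x13396) x7564) x9508) x8860) x9076) x9004) x9028) x9020) x9024) x15582) x2462)
    (Nat.sub (Nat.sub (Nat.add (Nat.add (Nat.add (Nat.add (Nat.add (Nat.add (Nat.add (Nat.add (Nat.add C x4650) x13398) x7566) x9510) x8862) x9078) x9006) x9030) x9022) (Nat.mul x9024 (nat_lit 2))) x2464)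
    (Nat.sub (Nat.sub (Nat.add (Nat.add (Nat.add (Nat.add (Nat.add (Nat.add (Nat.add (Nat.add (Nat.add (Nat.add C x4654) x13402) x7570) x9514) x8866) x9082) x9010) x9046) x9022) x9030) x15588) x2468)
    (Nat.sub (Nat.add (Nat.add (Nat.add (Nat.add (Nat.add (Nat.add (Nat.add (Nat.add (Nat.add (Nat.add (Nat.add C x4656) x13404) x7572) x9516) x8868) x9084) x9012) x9048) x9024) x9036) x9028) x2470)
    (Nat.sub (Nat.add (Nat.add (Nat.add (Nat.add (Nat.add (Nat.add (Nat.add (Nat.add C x4662) x13410) x7578) x9522) x8874) x9090) x9054) x9030) x2476)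
    (Nat.sub (Nat.sub (Nat.sub (Nat.add (Nat.add (Nat.add (Nat.add (Nat.add (Nat.add (Nat.add (Nat.add C x4672) x13420) x7588) x9532) x8884) x9100) x9028) x9048) x9046) x15606) x2486)
    (Nat.sub (Nat.sub (Nat.add (Nat.add (Nat.add (Nat.add (Nat.add (Nat.add (Nat.add (Nat.add (Nat.add C x4674) x13422) x7590) x9534) x8886) x9102) x9030) x9054) x9046) (Nat.mul x9048 (nat_lit 2))) x2488)
    (Nat.sub (Nat.add (Nat.add (Nat.add (Nat.add (Nat.add (Nat.add (Nat.add (Nat.add C x4680) x13428) x7596) x9540) x8892) x9108) x9036) x9048) x2494)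
    (Nat.sub (Nat.add (Nat.add (Nat.add (Nat.add (Nat.add (Nat.add (Nat.add (Nat.add (Nat.add C x9074) x4700) x13448) x7616) x9560) x8912) x9236) x9020) x9076) x15634)
    (Nat.sub (Nat.sub (Nat.add (Nat.add (Nat.add (Nat.add (Nat.add (Nat.add (Nat.add (Nat.add (Nat.add (Nat.add (Nat.add C x9076) x4702) x13450) x7618) x9562) x8914) x9238) x9022) x9082) x9074) x9078) x15636) x2516)
    (Nat.sub (Nat.sub (Nat.add (Nat.add (Nat.add (Nat.add (Nat.add (Nat.add (Nat.add (Nat.add (Nat.add C x4704) x13452) x7620) x9564) x8916) x9240) x9024) x9084) x9076) x9078) x2518)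
    (Nat.sub (Nat.sub (Nat.add (Nat.add (Nat.add (Nat.add (Nat.add (Nat.add (Nat.add (Nat.add (Nat.add (Nat.add C x4708) x13456) x7624) x9568) x8920) x9244) x9028) x9100) x9076) x9084) x15642) x2522)
    (Nat.sub (Nat.add (Nat.add (Nat.add (Nat.add (Nat.add (Nat.add (Nat.add (Nat.add (Nat.add (Nat.add (Nat.add C x4710) x13458) x7626) x9570) x8922) x9246) x9030) x9102) x9078) x9090) x9082) x2524)
    (Nat.sub (Nat.sub (Nat.add (Nat.add (Nat.add (Nat.add (Nat.add (Nat.add (Nat.add (Nat.add (Nat.add C x4716) x13464) x7632) x9576) x8928) x9252) x9036) x9108) x9084) x9090) x2530)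
    (Nat.sub (Nat.sub (Nat.add (Nat.add (Nat.add (Nat.add (Nat.add (Nat.add (Nat.add (Nat.add (Nat.add (Nat.add (Nat.add C x9100) x4726) x13474) x7642) x9586) x8938) x9262) x9046) x9154) x9082) x9102) x15660) x2540)
    (Nat.sub (Nat.add (Nat.add (Nat.add (Nat.add (Nat.add (Nat.add (Nat.add (Nat.add (Nat.add (Nat.add (Nat.add C x4728) x13476) x7644) x9588) x8940) x9264) x9048) x9156) x9084) x9108) x9100) x2542)
    (Nat.sub (Nat.add (Nat.add (Nat.add (Nat.add (Nat.add (Nat.add (Nat.add (Nat.add (Nat.add (Nat.add (Nat.add (Nat.add C x9108) x4734) x13482) x7650) x9594) x8946) x9270) x9054) x9162) x9090) x9126) x9102) x2548)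
    (Nat.sub (Nat.add (Nat.add (Nat.add (Nat.add (Nat.add (Nat.add (Nat.add (Nat.add (Nat.add C x9126) x4752) x13500) x7668) x9612) x8964) x9288) x9180) x9108) x2566)
    (Nat.sub (Nat.sub (Nat.add (Nat.add (Nat.add (Nat.add (Nat.add (Nat.add (Nat.add (Nat.add C x9154) x4780) x13528) x7696) x9640) x9316) x9100) x9156) x15714) x2594)
    (Nat.sub (Nat.add (Nat.add (Nat.add (Nat.add (Nat.add (Nat.add (Nat.add (Nat.add C x4782) x13530) x7698) x9642) x9318) x9102) x9162) x9154) x2596)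
    (Nat.sub (Nat.add (Nat.add (Nat.add (Nat.add (Nat.add (Nat.add (Nat.add (Nat.add C x4788) x13536) x7704) x9648) x9324) x9108) x9180) x9156) x2602)
    (Nat.sub (Nat.add (Nat.add (Nat.add (Nat.add (Nat.add (Nat.add (Nat.add (Nat.add C (Nat.mul x9180 (nat_lit 2))) x4806) x13554) x7722) x9666) x9342) x9126) x9162) x2620)
    (Nat.sub (Nat.add (Nat.add (Nat.add (Nat.add (Nat.add (Nat.add C x4862) x13610) x7778) x9722) x9074) x9238) x15796)
    (Nat.sub (Nat.sub (Nat.add (Nat.add (Nat.add (Nat.add (Nat.add (Nat.add (Nat.add (Nat.add C x4864) x13612) x7780) x9724) x9076) x9244) x9236) x9240) x15798) x2678)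
    (Nat.sub (Nat.sub (Nat.add (Nat.add (Nat.add (Nat.add (Nat.add (Nat.add (Nat.add C x4866) x13614) x7782) x9726) x9078) x9246) x9238) (Nat.mul x9240 (nat_lit 2))) x2680)
    (Nat.sub (Nat.sub (Nat.sub (Nat.add (Nat.add (Nat.add (Nat.add (Nat.add (Nat.add (Nat.add (Nat.add C x4870) x13618) x7786) x9730) x9082) x9262) x9238) x9246) x9244) x15804) x2684)
    (Nat.sub (Nat.sub (Nat.add (Nat.add (Nat.add (Nat.add (Nat.add (Nat.add (Nat.add (Nat.add (Nat.add C x4872) x13620) x7788) x9732) x9084) x9264) x9240) x9252) x9244) x9246) x2686)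
    (Nat.sub (Nat.sub (Nat.add (Nat.add (Nat.add (Nat.add (Nat.add (Nat.add (Nat.add C x4878) x13626) x7794) x9738) x9090) x9270) x9246) (Nat.mul x9252 (nat_lit 2))) x2692)
    (Nat.sub (Nat.sub (Nat.sub (Nat.add (Nat.add (Nat.add (Nat.add (Nat.add (Nat.add (Nat.add (Nat.add C x4888) x13636) x7804) x9748) x9100) x9316) x9244) x9264) x9262) x15822) x2702)
    (Nat.sub (Nat.sub (Nat.add (Nat.add (Nat.add (Nat.add (Nat.add (Nat.add (Nat.add (Nat.add (Nat.add C x4890) x13638) x7806) x9750) x9102) x9318) x9246) x9270) x9262) (Nat.mul x9264 (nat_lit 2))) x2704)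
    (Nat.sub (Nat.sub (Nat.add (Nat.add (Nat.add (Nat.add (Nat.add (Nat.add (Nat.add (Nat.add (Nat.add C x4896) x13644) x7812) x9756) x9108) x9324) x9252) x9288) x9264) x9270) x2710)
    (Nat.sub (Nat.sub (Nat.add (Nat.add (Nat.add (Nat.add (Nat.add (Nat.add (Nat.add C x4914) x13662) x7830) x9774) x9126) x9342) x9270) (Nat.mul x9288 (nat_lit 2))) x2728)
    (Nat.sub (Nat.sub (Nat.add (Nat.add (Nat.add (Nat.add (Nat.add (Nat.add (Nat.add (Nat.add C x9316) x4942) x13690) x7858) x9802) x9154) x9262) x9318) x15876) x2756)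
    (Nat.sub (Nat.add (Nat.add (Nat.add (Nat.add (Nat.add (Nat.add (Nat.add (Nat.add C x4944) x13692) x7860) x9804) x9156) x9264) x9324) x9316) x2758)
    (Nat.sub (Nat.add (Nat.add (Nat.add (Nat.add (Nat.add (Nat.add (Nat.add (Nat.add C x4950) x13698) x7866) x9810) x9162) x9270) x9342) x9318) x2764)
    (Nat.sub (Nat.add (Nat.add (Nat.add (Nat.add (Nat.add (Nat.add (Nat.add (Nat.add (Nat.add C x9342) x4968) x13716) x7884) x9828) x9180) x9288) x9396) x9324) x2782)
    (Nat.sub (Nat.add (Nat.add (Nat.add (Nat.add (Nat.add (Nat.add C (Nat.mul x9396 (nat_lit 2))) x5022) x13770) x7938) x9882) x9342) x2836)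
    (Nat.sub (Nat.add (Nat.add (Nat.add (Nat.add (Nat.add (Nat.add (Nat.add (Nat.add C (Nat.mul x9482 (nat_lit 3))) x5108) x13856) x8024) x10940) x8996) x9488) x9484) x16042)
    (Nat.sub (Nat.sub (Nat.add (Nat.add (Nat.add (Nat.add (Nat.add (Nat.add (Nat.add (Nat.add C (Nat.mul x9484 (nat_lit 2))) x5110) x13858) x8026) x10942) x8998) x9490) x9482) x16044) x2924)
    (Nat.sub (Nat.add (Nat.add (Nat.add (Nat.add (Nat.add (Nat.add (Nat.add (Nat.add (Nat.add C x9488) x5114) x13862) x8030) x10946) x9002) x9506) x9482) x9490) x16048)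
    (Nat.sub (Nat.sub (Nat.add (Nat.add (Nat.add (Nat.add (Nat.add (Nat.add (Nat.add (Nat.add (Nat.add (Nat.add (Nat.add C (Nat.mul x9490 (nat_lit 2))) x5116) x13864) x8032) x10948) x9004) x9508) x9484) x9496) x9488) x9492) x16050) x2930)
    (Nat.sub (Nat.add (Nat.add (Nat.add (Nat.add (Nat.add (Nat.add (Nat.add (Nat.add (Nat.add C x9492) x5118) x13866) x8034) x10950) x9006) x9510) x9498) x9490) x2932)
    (Nat.sub (Nat.sub (Nat.add (Nat.add (Nat.add (Nat.add (Nat.add (Nat.add (Nat.add (Nat.add C x5122) x13870) x8038) x10954) x9010) x9514) x9490) x9498) x16056) x2936)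
    (Nat.sub (Nat.add (Nat.add (Nat.add (Nat.add (Nat.add (Nat.add (Nat.add (Nat.add (Nat.add C x9498) x5124) x13872) x8040) x10956) x9012) x9516) x9492) x9496) x2938)
    (Nat.sub (Nat.add (Nat.add (Nat.add (Nat.add (Nat.add (Nat.add (Nat.add (Nat.add (Nat.add C x9506) x5132) x13880) x8048) x10964) x9020) x9560) x9488) x9508) x16066)
    (Nat.sub (Nat.sub (Nat.add (Nat.add (Nat.add (Nat.add (Nat.add (Nat.add (Nat.add (Nat.add (Nat.add (Nat.add (Nat.add C x9508) x5134) x13882) x8050) x10966) x9022) x9562) x9490) x9514) x9506) x9510) x16068) x2948)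
    (Nat.sub (Nat.sub (Nat.add (Nat.add (Nat.add (Nat.add (Nat.add (Nat.add (Nat.add (Nat.add (Nat.add C x5136) x13884) x8052) x10968) x9024) x9564) x9492) x9516) x9508) x9510) x2950)
    (Nat.sub (Nat.sub (Nat.add (Nat.add (Nat.add (Nat.add (Nat.add (Nat.add (Nat.add (Nat.add (Nat.add (Nat.add (Nat.add C x9514) x5140) x13888) x8056) x10972) x9028) x9568) x9496) x9532) x9508) x9516) x16074) x2954)
    (Nat.sub (Nat.add (Nat.add (Nat.add (Nat.add (Nat.add (Nat.add (Nat.add (Nat.add (Nat.add (Nat.add (Nat.add (Nat.add C x9516) x5142) x13890) x8058) x10974) x9030) x9570) x9498) x9534) x9510) x9522) x9514) x2956)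
    (Nat.sub (Nat.add (Nat.add (Nat.add (Nat.add (Nat.add (Nat.add (Nat.add (Nat.add (Nat.add C x9522) x5148) x13896) x8064) x10980) x9036) x9576) x9540) x9516) x2962)
    (Nat.sub (Nat.sub (Nat.add (Nat.add (Nat.add (Nat.add (Nat.add (Nat.add (Nat.add (Nat.add C x5158) x13906) x8074) x10990) x9046) x9586) x9514) x9534) x16092) x2972)
    (Nat.sub (Nat.sub (Nat.add (Nat.add (Nat.add (Nat.add (Nat.add (Nat.add (Nat.add (Nat.add (Nat.add C x5160) x13908) x8076) x10992) x9048) x9588) x9516) x9540) x9532) x9534) x2974)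
    (Nat.sub (Nat.add (Nat.add (Nat.add (Nat.add (Nat.add (Nat.add (Nat.add (Nat.add (Nat.add C x9540) x5166) x13914) x8082) x10998) x9054) x9594) x9522) x9534) x2980)
    (Nat.sub (Nat.add (Nat.add (Nat.add (Nat.add (Nat.add (Nat.add (Nat.add (Nat.add (Nat.add C x9560) x5186) x13934) x8102) x11018) x9074) x9722) x9506) x9562) x16120)
    (Nat.sub (Nat.sub (Nat.add (Nat.add (Nat.add (Nat.add (Nat.add (Nat.add (Nat.add (Nat.add (Nat.add (Nat.add (Nat.add C x9562) x5188) x13936) x8104) x11020) x9076) x9724) x9508) x9568) x9560) x9564) x16122) x3002)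
    (Nat.sub (Nat.sub (Nat.add (Nat.add (Nat.add (Nat.add (Nat.add (Nat.add (Nat.add (Nat.add (Nat.add C x5190) x13938) x8106) x11022) x9078) x9726) x9510) x9570) x9562) x9564) x3004)
    (Nat.sub (Nat.sub (Nat.add (Nat.add (Nat.add (Nat.add (Nat.add (Nat.add (Nat.add (Nat.add (Nat.add (Nat.add C x5194) x13942) x8110) x11026) x9082) x9730) x9514) x9586) x9562) x9570) x16128) x3008)
    (Nat.sub (Nat.add (Nat.add (Nat.add (Nat.add (Nat.add (Nat.add (Nat.add (Nat.add (Nat.add (Nat.add (Nat.add C x5196) x13944) x8112) x11028) x9084) x9732) x9516) x9588) x9564) x9576) x9568) x3010)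
    (Nat.sub (Nat.sub (Nat.add (Nat.add (Nat.add (Nat.add (Nat.add (Nat.add (Nat.add (Nat.add (Nat.add C x5202) x13950) x8118) x11034) x9090) x9738) x9522) x9594) x9570) x9576) x3016)
    (Nat.sub (Nat.sub (Nat.add (Nat.add (Nat.add (Nat.add (Nat.add (Nat.add (Nat.add (Nat.add (Nat.add (Nat.add (Nat.add C x9586) x5212) x13960) x8128) x11044) x9100) x9748) x9532) x9640) x9568) x9588) x16146) x3026)
    (Nat.sub (Nat.add (Nat.add (Nat.add (Nat.add (Nat.add (Nat.add (Nat.add (Nat.add (Nat.add (Nat.add (Nat.add C x5214) x13962) x8130) x11046) x9102) x9750) x9534) x9642) x9570) x9594) x9586) x3028)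
    (Nat.sub (Nat.add (Nat.add (Nat.add (Nat.add (Nat.add (Nat.add (Nat.add (Nat.add (Nat.add (Nat.add (Nat.add (Nat.add C x9594) x5220) x13968) x8136) x11052) x9108) x9756) x9540) x9648) x9576) x9612) x9588) x3034)
    (Nat.sub (Nat.add (Nat.add (Nat.add (Nat.add (Nat.add (Nat.add (Nat.add (Nat.add (Nat.add C x9612) x5238) x13986) x8154) x11070) x9126) x9774) x9666) x9594) x3052)
    (Nat.sub (Nat.sub (Nat.add (Nat.add (Nat.add (Nat.add (Nat.add (Nat.add (Nat.add (Nat.add C x5266) x14014) x8182) x11098) x9154) x9802) x9586) x9642) x16200) x3080)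
    (Nat.sub (Nat.sub (Nat.add (Nat.add (Nat.add (Nat.add (Nat.add (Nat.add (Nat.add (Nat.add (Nat.add C x5268) x14016) x8184) x11100) x9156) x9804) x9588) x9648) x9640) x9642) x3082)
    (Nat.sub (Nat.sub (Nat.add (Nat.add (Nat.add (Nat.add (Nat.add (Nat.add (Nat.add (Nat.add (Nat.add C x5274) x14022) x8190) x11106) x9162) x9810) x9594) x9666) x9642) x9648) x3088)
    (Nat.sub (Nat.add (Nat.add (Nat.add (Nat.add (Nat.add (Nat.add (Nat.add (Nat.add (Nat.add C x9666) x5292) x14040) x8208) x11124) x9180) x9828) x9612) x9648) x3106)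
    (Nat.sub (Nat.add (Nat.add (Nat.add (Nat.add (Nat.add (Nat.add (Nat.add (Nat.add (Nat.add C (Nat.mul x9722 (nat_lit 2))) x5348) x14096) x8264) x11180) x9236) x10208) x9560) x9724) x16282)
    (Nat.sub (Nat.sub (Nat.add (Nat.add (Nat.add (Nat.add (Nat.add (Nat.add (Nat.add (Nat.add (Nat.add (Nat.add (Nat.add C (Nat.mul x9724 (nat_lit 2))) x5350) x14098) x8266) x11182) x9238) x10210) x9562) x9730) x9722) x9726) x16284) x3164)
    (Nat.sub (Nat.add (Nat.add (Nat.add (Nat.add (Nat.add (Nat.add (Nat.add (Nat.add (Nat.add C x5352) x14100) x8268) x11184) x9240) x10212) x9564) x9732) x9724) x3166)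
    (Nat.sub (Nat.sub (Nat.add (Nat.add (Nat.add (Nat.add (Nat.add (Nat.add (Nat.add (Nat.add (Nat.add (Nat.add (Nat.add C x9730) x5356) x14104) x8272) x11188) x9244) x10216) x9568) x9748) x9724) x9732) x16290) x3170)
    (Nat.sub (Nat.add (Nat.add (Nat.add (Nat.add (Nat.add (Nat.add (Nat.add (Nat.add (Nat.add (Nat.add (Nat.add (Nat.add C x9732) x5358) x14106) x8274) x11190) x9246) x10218) x9570) x9750) x9726) x9738) x9730) x3172)
    (Nat.sub (Nat.add (Nat.add (Nat.add (Nat.add (Nat.add (Nat.add (Nat.add (Nat.add (Nat.add C x5364) x14112) x8280) x11196) x9252) x10224) x9576) x9756) x9732) x3178)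
    (Nat.sub (Nat.sub (Nat.add (Nat.add (Nat.add (Nat.add (Nat.add (Nat.add (Nat.add (Nat.add (Nat.add (Nat.add (Nat.add C x9748) x5374) x14122) x8290) x11206) x9262) x10234) x9586) x9802) x9730) x9750) x16308) x3188)
    (Nat.sub (Nat.add (Nat.add (Nat.add (Nat.add (Nat.add (Nat.add (Nat.add (Nat.add (Nat.add (Nat.add (Nat.add C x5376) x14124) x8292) x11208) x9264) x10236) x9588) x9804) x9732) x9756) x9748) x3190)
    (Nat.sub (Nat.add (Nat.add (Nat.add (Nat.add (Nat.add (Nat.add (Nat.add (Nat.add (Nat.add (Nat.add (Nat.add (Nat.add C x9756) x5382) x14130) x8298) x11214) x9270) x10242) x9594) x9810) x9738) x9774) x9750) x3196)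
    (Nat.sub (Nat.add (Nat.add (Nat.add (Nat.add (Nat.add (Nat.add (Nat.add (Nat.add (Nat.add C x5400) x14148) x8316) x11232) x9288) x10260) x9612) x9828) x9756) x3214)
    (Nat.sub (Nat.sub (Nat.add (Nat.add (Nat.add (Nat.add (Nat.add (Nat.add (Nat.add (Nat.add (Nat.add (Nat.add (Nat.add C (Nat.mul x9802 (nat_lit 2))) x5428) x14176) x8344) x11260) x9316) x10288) x9640) x9964) x9748) x9804) x16362) x3242)
    (Nat.sub (Nat.add (Nat.add (Nat.add (Nat.add (Nat.add (Nat.add (Nat.add (Nat.add (Nat.add (Nat.add (Nat.add (Nat.add C x9804) x5430) x14178) x8346) x11262) x9318) x10290) x9642) x9966) x9750) x9810) x9802) x3244)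
    (Nat.sub (Nat.add (Nat.add (Nat.add (Nat.add (Nat.add (Nat.add (Nat.add (Nat.add (Nat.add (Nat.add (Nat.add (Nat.add C x9810) x5436) x14184) x8352) x11268) x9324) x10296) x9648) x9972) x9756) x9828) x9804) x3250)
    (Nat.sub (Nat.add (Nat.add (Nat.add (Nat.add (Nat.add (Nat.add (Nat.add (Nat.add (Nat.add (Nat.add (Nat.add (Nat.add C (Nat.mul x9828 (nat_lit 2))) x5454) x14202) x8370) x11286) x9342) x10314) x9666) x9990) x9774) x9882) x9810) x3268)
    (Nat.sub (Nat.add (Nat.add (Nat.add (Nat.add (Nat.add (Nat.add (Nat.add (Nat.add (Nat.add C (Nat.mul x9882 (nat_lit 2))) x5508) x14256) x8424) x11340) x9396) x10368) x10044) x9828) x3322)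
    (Nat.sub (Nat.sub (Nat.add (Nat.add (Nat.add (Nat.add (Nat.add (Nat.add (Nat.add (Nat.add C (Nat.mul x9964 (nat_lit 2))) x5590) x14338) x8506) x11422) x10450) x9802) x9966) x16524) x3404)
    (Nat.sub (Nat.add (Nat.add (Nat.add (Nat.add (Nat.add (Nat.add (Nat.add (Nat.add (Nat.add C x9966) x5592) x14340) x8508) x11424) x10452) x9804) x9972) x9964) x3406)
    (Nat.sub (Nat.add (Nat.add (Nat.add (Nat.add (Nat.add (Nat.add (Nat.add (Nat.add (Nat.add C x9972) x5598) x14346) x8514) x11430) x10458) x9810) x9990) x9966) x3412)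
    (Nat.sub (Nat.add (Nat.add (Nat.add (Nat.add (Nat.add (Nat.add (Nat.add (Nat.add (Nat.add C x9990) x5616) x14364) x8532) x11448) x10476) x9828) x10044) x9972) x3430)
    (Nat.sub (Nat.add (Nat.add (Nat.add (Nat.add (Nat.add (Nat.add (Nat.add (Nat.add C (Nat.mul x10044 (nat_lit 3))) x5670) x14418) x8586) x11502) x10530) x9882) x9990) x3484)
    (Nat.sub (Nat.add (Nat.add (Nat.add (Nat.add (Nat.add (Nat.add C (Nat.mul x10208 (nat_lit 2))) x5834) x14582) x11666) x9722) x10210) x16768)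
    (Nat.sub (Nat.sub (Nat.add (Nat.add (Nat.add (Nat.add (Nat.add (Nat.add (Nat.add (Nat.add C (Nat.mul x10210 (nat_lit 2))) x5836) x14584) x11668) x9724) x10216) x10208) x10212) x16770) x3650)
    (Nat.sub (Nat.add (Nat.add (Nat.add (Nat.add (Nat.add (Nat.add C x5838) x14586) x11670) x9726) x10218) x10210) x3652)
    (Nat.sub (Nat.sub (Nat.add (Nat.add (Nat.add (Nat.add (Nat.add (Nat.add (Nat.add (Nat.add C x10216) x5842) x14590) x11674) x9730) x10234) x10210) x10218) x16776) x3656)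
    (Nat.sub (Nat.add (Nat.add (Nat.add (Nat.add (Nat.add (Nat.add (Nat.add (Nat.add (Nat.add C x10218) x5844) x14592) x11676) x9732) x10236) x10212) x10224) x10216) x3658)
    (Nat.sub (Nat.add (Nat.add (Nat.add (Nat.add (Nat.add (Nat.add C x5850) x14598) x11682) x9738) x10242) x10218) x3664)
    (Nat.sub (Nat.sub (Nat.add (Nat.add (Nat.add (Nat.add (Nat.add (Nat.add (Nat.add (Nat.add C x10234) x5860) x14608) x11692) x9748) x10288) x10216) x10236) x16794) x3674)
    (Nat.sub (Nat.add (Nat.add (Nat.add (Nat.add (Nat.add (Nat.add (Nat.add (Nat.add C x5862) x14610) x11694) x9750) x10290) x10218) x10242) x10234) x3676)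
    (Nat.sub (Nat.add (Nat.add (Nat.add (Nat.add (Nat.add (Nat.add (Nat.add (Nat.add (Nat.add C x10242) x5868) x14616) x11700) x9756) x10296) x10224) x10260) x10236) x3682)
    (Nat.sub (Nat.add (Nat.add (Nat.add (Nat.add (Nat.add (Nat.add C x5886) x14634) x11718) x9774) x10314) x10242) x3700)
    (Nat.sub (Nat.sub (Nat.add (Nat.add (Nat.add (Nat.add (Nat.add (Nat.add (Nat.add (Nat.add C x10288) x5914) x14662) x11746) x9802) x10450) x10234) x10290) x16848) x3728)
    (Nat.sub (Nat.add (Nat.add (Nat.add (Nat.add (Nat.add (Nat.add (Nat.add (Nat.add C x5916) x14664) x11748) x9804) x10452) x10236) x10296) x10288) x3730)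
    (Nat.sub (Nat.add (Nat.add (Nat.add (Nat.add (Nat.add (Nat.add (Nat.add (Nat.add C x5922) x14670) x11754) x9810) x10458) x10242) x10314) x10290) x3736)
    (Nat.sub (Nat.add (Nat.add (Nat.add (Nat.add (Nat.add (Nat.add (Nat.add (Nat.add (Nat.add C x10314) x5940) x14688) x11772) x9828) x10476) x10260) x10368) x10296) x3754)
    (Nat.sub (Nat.add (Nat.add (Nat.add (Nat.add (Nat.add (Nat.add C x5994) x14742) x11826) x9882) x10530) x10314) x3808)
    (Nat.sub (Nat.sub (Nat.add (Nat.add (Nat.add (Nat.add (Nat.add (Nat.add (Nat.add C (Nat.mul x10450 (nat_lit 3))) x6076) x14824) x11908) x9964) x10288) x10452) x17010) x3890)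
    (Nat.sub (Nat.add (Nat.add (Nat.add (Nat.add (Nat.add (Nat.add (Nat.add (Nat.add C (Nat.mul x10452 (nat_lit 2))) x6078) x14826) x11910) x9966) x10290) x10458) x10450) x3892)
    (Nat.sub (Nat.add (Nat.add (Nat.add (Nat.add (Nat.add (Nat.add (Nat.add (Nat.add C (Nat.mul x10458 (nat_lit 2))) x6084) x14832) x11916) x9972) x10296) x10476) x10452) x3898)
    (Nat.sub (Nat.add (Nat.add (Nat.add (Nat.add (Nat.add (Nat.add (Nat.add (Nat.add C (Nat.mul x10476 (nat_lit 2))) x6102) x14850) x11934) x9990) x10314) x10530) x10458) x3916)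
    (Nat.sub (Nat.add (Nat.add (Nat.add (Nat.add (Nat.add (Nat.add (Nat.add (Nat.add C (Nat.mul x10530 (nat_lit 3))) x6156) x14904) x11988) x10044) x10368) x10692) x10476) x3970)
    (Nat.sub (Nat.add (Nat.add (Nat.add (Nat.add (Nat.add C (Nat.mul x10692 (nat_lit 4))) x6318) x15066) x12150) x10530) x4132)
    (Nat.sub (Nat.add (Nat.add (Nat.add (Nat.add (Nat.add C (Nat.mul x10940 (nat_lit 3))) x15314) x9482) x10946) x10942) x17500)
    (Nat.sub (Nat.sub (Nat.add (Nat.add (Nat.add (Nat.add (Nat.add C (Nat.mul x10942 (nat_lit 2))) x15316) x9484) x10948) x10940) x17502) x4382)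
    (Nat.sub (Nat.add (Nat.add (Nat.add (Nat.add (Nat.add (Nat.add C x10946) x15320) x9488) x10964) x10940) x10948) x17506)
    (Nat.sub (Nat.sub (Nat.add (Nat.add (Nat.add (Nat.add (Nat.add (Nat.add (Nat.add (Nat.add C (Nat.mul x10948 (nat_lit 2))) x15322) x9490) x10966) x10942) x10954) x10946) x10950) x17508) x4388)
    (Nat.sub (Nat.add (Nat.add (Nat.add (Nat.add (Nat.add (Nat.add C x10950) x15324) x9492) x10968) x10956) x10948) x4390)
    (Nat.sub (Nat.sub (Nat.add (Nat.add (Nat.add (Nat.add (Nat.add C x15328) x9496) x10972) x10948) x10956) x17514) x4394)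
    (Nat.sub (Nat.add (Nat.add (Nat.add (Nat.add (Nat.add (Nat.add C x10956) x15330) x9498) x10974) x10950) x10954) x4396)
    (Nat.sub (Nat.add (Nat.add (Nat.add (Nat.add (Nat.add (Nat.add C x10964) x15338) x9506) x11018) x10946) x10966) x17524)
    (Nat.sub (Nat.sub (Nat.add (Nat.add (Nat.add (Nat.add (Nat.add (Nat.add (Nat.add (Nat.add C x10966) x15340) x9508) x11020) x10948) x10972) x10964) x10968) x17526) x4406)
    (Nat.sub (Nat.sub (Nat.add (Nat.add (Nat.add (Nat.add (Nat.add (Nat.add C x15342) x9510) x11022) x10950) x10974) x10966) x10968) x4408)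
    (Nat.sub (Nat.sub (Nat.add (Nat.add (Nat.add (Nat.add (Nat.add (Nat.add (Nat.add (Nat.add C x10972) x15346) x9514) x11026) x10954) x10990) x10966) x10974) x17532) x4412)
    (Nat.sub (Nat.add (Nat.add (Nat.add (Nat.add (Nat.add (Nat.add (Nat.add (Nat.add (Nat.add C x10974) x15348) x9516) x11028) x10956) x10992) x10968) x10980) x10972) x4414)
    (Nat.sub (Nat.add (Nat.add (Nat.add (Nat.add (Nat.add (Nat.add C x10980) x15354) x9522) x11034) x10998) x10974) x4420)
    (Nat.sub (Nat.sub (Nat.add (Nat.add (Nat.add (Nat.add (Nat.add C x15364) x9532) x11044) x10972) x10992) x17550) x4430)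
    (Nat.sub (Nat.sub (Nat.add (Nat.add (Nat.add (Nat.add (Nat.add (Nat.add C x15366) x9534) x11046) x10974) x10998) x10990) x10992) x4432)
    (Nat.sub (Nat.add (Nat.add (Nat.add (Nat.add (Nat.add (Nat.add C x10998) x15372) x9540) x11052) x10980) x10992) x4438)
    (Nat.sub (Nat.add (Nat.add (Nat.add (Nat.add (Nat.add (Nat.add C x11018) x15392) x9560) x11180) x10964) x11020) x17578)
    (Nat.sub (Nat.sub (Nat.add (Nat.add (Nat.add (Nat.add (Nat.add (Nat.add (Nat.add (Nat.add C x11020) x15394) x9562) x11182) x10966) x11026) x11018) x11022) x17580) x4460)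
    (Nat.sub (Nat.sub (Nat.add (Nat.add (Nat.add (Nat.add (Nat.add (Nat.add C x15396) x9564) x11184) x10968) x11028) x11020) x11022) x4462)
    (Nat.sub (Nat.sub (Nat.add (Nat.add (Nat.add (Nat.add (Nat.add (Nat.add (Nat.add C x15400) x9568) x11188) x10972) x11044) x11020) x11028) x17586) x4466)
    (Nat.sub (Nat.add (Nat.add (Nat.add (Nat.add (Nat.add (Nat.add (Nat.add (Nat.add C x15402) x9570) x11190) x10974) x11046) x11022) x11034) x11026) x4468)
    (Nat.sub (Nat.sub (Nat.add (Nat.add (Nat.add (Nat.add (Nat.add (Nat.add C x15408) x9576) x11196) x10980) x11052) x11028) x11034) x4474)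
    (Nat.sub (Nat.sub (Nat.add (Nat.add (Nat.add (Nat.add (Nat.add (Nat.add (Nat.add (Nat.add C x11044) x15418) x9586) x11206) x10990) x11098) x11026) x11046) x17604) x4484)
    (Nat.sub (Nat.add (Nat.add (Nat.add (Nat.add (Nat.add (Nat.add (Nat.add (Nat.add C x15420) x9588) x11208) x10992) x11100) x11028) x11052) x11044) x4486)
    (Nat.sub (Nat.add (Nat.add (Nat.add (Nat.add (Nat.add (Nat.add (Nat.add (Nat.add (Nat.add C x11052) x15426) x9594) x11214) x10998) x11106) x11034) x11070) x11046) x4492)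
    (Nat.sub (Nat.add (Nat.add (Nat.add (Nat.add (Nat.add (Nat.add C x11070) x15444) x9612) x11232) x11124) x11052) x4510)
    (Nat.sub (Nat.sub (Nat.add (Nat.add (Nat.add (Nat.add (Nat.add C x15472) x9640) x11260) x11044) x11100) x17658) x4538)
    (Nat.sub (Nat.sub (Nat.add (Nat.add (Nat.add (Nat.add (Nat.add (Nat.add C x15474) x9642) x11262) x11046) x11106) x11098) x11100) x4540)
    (Nat.sub (Nat.sub (Nat.add (Nat.add (Nat.add (Nat.add (Nat.add (Nat.add C x15480) x9648) x11268) x11052) x11124) x11100) x11106) x4546)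
    (Nat.sub (Nat.add (Nat.add (Nat.add (Nat.add (Nat.add (Nat.add C x11124) x15498) x9666) x11286) x11070) x11106) x4564)
    (Nat.sub (Nat.add (Nat.add (Nat.add (Nat.add (Nat.add (Nat.add C x11180) x15554) x9722) x11666) x11018) x11182) x17740)
    (Nat.sub (Nat.sub (Nat.add (Nat.add (Nat.add (Nat.add (Nat.add (Nat.add (Nat.add (Nat.add C x11182) x15556) x9724) x11668) x11020) x11188) x11180) x11184) x17742) x4622)
    (Nat.sub (Nat.sub (Nat.add (Nat.add (Nat.add (Nat.add (Nat.add (Nat.add C x15558) x9726) x11670) x11022) x11190) x11182) x11184) x4624)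
    (Nat.sub (Nat.sub (Nat.add (Nat.add (Nat.add (Nat.add (Nat.add (Nat.add (Nat.add C x15562) x9730) x11674) x11026) x11206) x11182) x11190) x17748) x4628)
    (Nat.sub (Nat.add (Nat.add (Nat.add (Nat.add (Nat.add (Nat.add (Nat.add (Nat.add C x15564) x9732) x11676) x11028) x11208) x11184) x11196) x11188) x4630)
    (Nat.sub (Nat.sub (Nat.add (Nat.add (Nat.add (Nat.add (Nat.add (Nat.add C x15570) x9738) x11682) x11034) x11214) x11190) x11196) x4636)
    (Nat.sub (Nat.sub (Nat.add (Nat.add (Nat.add (Nat.add (Nat.add (Nat.add (Nat.add C x15580) x9748) x11692) x11044) x11260) x11188) x11208) x17766) x4646)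
    (Nat.sub (Nat.sub (Nat.add (Nat.add (Nat.add (Nat.add (Nat.add (Nat.add (Nat.add (Nat.add C x15582) x9750) x11694) x11046) x11262) x11190) x11214) x11206) x11208) x4648)
    (Nat.sub (Nat.add (Nat.add (Nat.add (Nat.add (Nat.add (Nat.add (Nat.add (Nat.add C x15588) x9756) x11700) x11052) x11268) x11196) x11232) x11208) x4654)
    (Nat.sub (Nat.sub (Nat.add (Nat.add (Nat.add (Nat.add (Nat.add (Nat.add C x15606) x9774) x11718) x11070) x11286) x11214) x11232) x4672)
    (Nat.sub (Nat.sub (Nat.add (Nat.add (Nat.add (Nat.add (Nat.add (Nat.add (Nat.add (Nat.add C x11260) x15634) x9802) x11746) x11098) x11422) x11206) x11262) x17820) x4700)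
    (Nat.sub (Nat.add (Nat.add (Nat.add (Nat.add (Nat.add (Nat.add (Nat.add (Nat.add C x15636) x9804) x11748) x11100) x11424) x11208) x11268) x11260) x4702)
    (Nat.sub (Nat.add (Nat.add (Nat.add (Nat.add (Nat.add (Nat.add (Nat.add (Nat.add C x15642) x9810) x11754) x11106) x11430) x11214) x11286) x11262) x4708)
    (Nat.sub (Nat.add (Nat.add (Nat.add (Nat.add (Nat.add (Nat.add (Nat.add (Nat.add (Nat.add C x11286) x15660) x9828) x11772) x11124) x11448) x11232) x11340) x11268) x4726)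
    (Nat.sub (Nat.add (Nat.add (Nat.add (Nat.add (Nat.add (Nat.add C x11340) x15714) x9882) x11826) x11502) x11286) x4780)
    (Nat.sub (Nat.sub (Nat.add (Nat.add (Nat.add (Nat.add (Nat.add C x15796) x9964) x11908) x11260) x11424) x17982) x4862)
    (Nat.sub (Nat.sub (Nat.add (Nat.add (Nat.add (Nat.add (Nat.add (Nat.add C x15798) x9966) x11910) x11262) x11430) x11422) x11424) x4864)
    (Nat.sub (Nat.sub (Nat.add (Nat.add (Nat.add (Nat.add (Nat.add (Nat.add C x15804) x9972) x11916) x11268) x11448) x11424) x11430) x4870)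
    (Nat.sub (Nat.sub (Nat.add (Nat.add (Nat.add (Nat.add (Nat.add (Nat.add C x15822) x9990) x11934) x11286) x11502) x11430) x11448) x4888)
    (Nat.sub (Nat.add (Nat.add (Nat.add (Nat.add (Nat.add (Nat.add C x11502) x15876) x10044) x11988) x11340) x11448) x4942)
    (Nat.sub (Nat.add (Nat.add (Nat.add (Nat.add (Nat.add C (Nat.mul x11666 (nat_lit 3))) x16040) x10208) x11180) x11668) x18226)
    (Nat.sub (Nat.sub (Nat.add (Nat.add (Nat.add (Nat.add (Nat.add (Nat.add (Nat.add C (Nat.mul x11668 (nat_lit 3))) x16042) x10210) x11182) x11674) x11666) x11670) x18228) x5108)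
    (Nat.sub (Nat.add (Nat.add (Nat.add (Nat.add (Nat.add (Nat.add C x11670) x16044) x10212) x11184) x11676) x11668) x5110)
    (Nat.sub (Nat.sub (Nat.add (Nat.add (Nat.add (Nat.add (Nat.add (Nat.add (Nat.add C (Nat.mul x11674 (nat_lit 2))) x16048) x10216) x11188) x11692) x11668) x11676) x18234) x5114)
    (Nat.sub (Nat.add (Nat.add (Nat.add (Nat.add (Nat.add (Nat.add (Nat.add (Nat.add C (Nat.mul x11676 (nat_lit 2))) x16050) x10218) x11190) x11694) x11670) x11682) x11674) x5116)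
    (Nat.sub (Nat.add (Nat.add (Nat.add (Nat.add (Nat.add (Nat.add C x11682) x16056) x10224) x11196) x11700) x11676) x5122)
    (Nat.sub (Nat.sub (Nat.add (Nat.add (Nat.add (Nat.add (Nat.add (Nat.add (Nat.add C (Nat.mul x11692 (nat_lit 2))) x16066) x10234) x11206) x11746) x11674) x11694) x18252) x5132)
    (Nat.sub (Nat.add (Nat.add (Nat.add (Nat.add (Nat.add (Nat.add (Nat.add (Nat.add C x11694) x16068) x10236) x11208) x11748) x11676) x11700) x11692) x5134)
    (Nat.sub (Nat.add (Nat.add (Nat.add (Nat.add (Nat.add (Nat.add (Nat.add (Nat.add C (Nat.mul x11700 (nat_lit 2))) x16074) x10242) x11214) x11754) x11682) x11718) x11694) x5140)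
    (Nat.sub (Nat.add (Nat.add (Nat.add (Nat.add (Nat.add (Nat.add C x11718) x16092) x10260) x11232) x11772) x11700) x5158)
    (Nat.sub (Nat.sub (Nat.add (Nat.add (Nat.add (Nat.add (Nat.add (Nat.add (Nat.add C (Nat.mul x11746 (nat_lit 2))) x16120) x10288) x11260) x11908) x11692) x11748) x18306) x5186)
    (Nat.sub (Nat.add (Nat.add (Nat.add (Nat.add (Nat.add (Nat.add (Nat.add (Nat.add C x11748) x16122) x10290) x11262) x11910) x11694) x11754) x11746) x5188)
    (Nat.sub (Nat.add (Nat.add (Nat.add (Nat.add (Nat.add (Nat.add (Nat.add (Nat.add C x11754) x16128) x10296) x11268) x11916) x11700) x11772) x11748) x5194)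
    (Nat.sub (Nat.add (Nat.add (Nat.add (Nat.add (Nat.add (Nat.add (Nat.add (Nat.add C (Nat.mul x11772 (nat_lit 2))) x16146) x10314) x11286) x11934) x11718) x11826) x11754) x5212)
    (Nat.sub (Nat.add (Nat.add (Nat.add (Nat.add (Nat.add (Nat.add C x11826) x16200) x10368) x11340) x11988) x11772) x5266)
    (Nat.sub (Nat.sub (Nat.add (Nat.add (Nat.add (Nat.add (Nat.add (Nat.add (Nat.add C (Nat.mul x11908 (nat_lit 3))) x16282) x10450) x11422) x12394) x11746) x11910) x18468) x5348)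
    (Nat.sub (Nat.add (Nat.add (Nat.add (Nat.add (Nat.add (Nat.add (Nat.add (Nat.add C (Nat.mul x11910 (nat_lit 2))) x16284) x10452) x11424) x12396) x11748) x11916) x11908) x5350)
    (Nat.sub (Nat.add (Nat.add (Nat.add (Nat.add (Nat.add (Nat.add (Nat.add (Nat.add C (Nat.mul x11916 (nat_lit 2))) x16290) x10458) x11430) x12402) x11754) x11934) x11910) x5356)
    (Nat.sub (Nat.add (Nat.add (Nat.add (Nat.add (Nat.add (Nat.add (Nat.add (Nat.add C (Nat.mul x11934 (nat_lit 2))) x16308) x10476) x11448) x12420) x11772) x11988) x11916) x5374)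
    (Nat.sub (Nat.add (Nat.add (Nat.add (Nat.add (Nat.add (Nat.add (Nat.add (Nat.add C (Nat.mul x11988 (nat_lit 3))) x16362) x10530) x11502) x12474) x11826) x12150) x11934) x5428)
    (Nat.sub (Nat.add (Nat.add (Nat.add (Nat.add (Nat.add C (Nat.mul x12150 (nat_lit 3))) x16524) x10692) x12636) x11988) x5590)
    (Nat.sub (Nat.sub (Nat.add (Nat.add (Nat.add (Nat.add C (Nat.mul x12394 (nat_lit 4))) x16768) x11908) x12396) x18954) x5834)
    (Nat.sub (Nat.add (Nat.add (Nat.add (Nat.add (Nat.add C (Nat.mul x12396 (nat_lit 3))) x16770) x11910) x12402) x12394) x5836)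
    (Nat.sub (Nat.add (Nat.add (Nat.add (Nat.add (Nat.add C (Nat.mul x12402 (nat_lit 3))) x16776) x11916) x12420) x12396) x5842)
    (Nat.sub (Nat.add (Nat.add (Nat.add (Nat.add (Nat.add C (Nat.mul x12420 (nat_lit 3))) x16794) x11934) x12474) x12402) x5860)
    (Nat.sub (Nat.add (Nat.add (Nat.add (Nat.add (Nat.add C (Nat.mul x12474 (nat_lit 3))) x16848) x11988) x12636) x12420) x5914)
    (Nat.sub (Nat.add (Nat.add (Nat.add (Nat.add C (Nat.mul x12636 (nat_lit 5))) x17010) x12150) x12474) x6076)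
    (Nat.add (Nat.add (Nat.add C (Nat.mul x13130 (nat_lit 5))) x8756) x13136)
    (Nat.add (Nat.add (Nat.add (Nat.add (Nat.add (Nat.add C (Nat.mul x13136 (nat_lit 4))) x8762) x13154) x13130) x13142) x13138)
    (Nat.sub (Nat.add (Nat.add (Nat.add (Nat.add (Nat.add C (Nat.mul x13138 (nat_lit 3))) x8764) x13156) x13144) x13136) x6578)
    (Nat.add (Nat.add (Nat.add (Nat.add (Nat.add C x13142) x8768) x13160) x13136) x13144)
    (Nat.sub (Nat.add (Nat.add (Nat.add (Nat.add (Nat.add (Nat.add C (Nat.mul x13144 (nat_lit 2))) x8770) x13162) x13138) x13142) x13146) x6584)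
    (Nat.sub (Nat.add (Nat.add (Nat.add (Nat.add C x13146) x8772) x13164) x13144) x6586)
    (Nat.add (Nat.add (Nat.add (Nat.add (Nat.add (Nat.add C (Nat.mul x13154 (nat_lit 3))) x8780) x13208) x13136) x13160) x13156)
    (Nat.sub (Nat.add (Nat.add (Nat.add (Nat.add (Nat.add (Nat.add C x13156) x8782) x13210) x13138) x13162) x13154) x6596)
    (Nat.add (Nat.add (Nat.add (Nat.add (Nat.add (Nat.add (Nat.add C (Nat.mul x13160 (nat_lit 2))) x8786) x13214) x13142) x13178) x13154) x13162)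
    (Nat.sub (Nat.add (Nat.add (Nat.add (Nat.add (Nat.add (Nat.add (Nat.add (Nat.add (Nat.add C (Nat.mul x13162 (nat_lit 2))) x8788) x13216) x13144) x13180) x13156) x13168) x13160) x13164) x6602)
    (Nat.sub (Nat.add (Nat.add (Nat.add (Nat.add (Nat.add (Nat.add C x8790) x13218) x13146) x13182) x13170) x13162) x6604)
    (Nat.sub (Nat.add (Nat.add (Nat.add (Nat.add (Nat.add (Nat.add C x13168) x8794) x13222) x13186) x13162) x13170) x6608)
    (Nat.sub (Nat.add (Nat.add (Nat.add (Nat.add (Nat.add (Nat.add C x13170) x8796) x13224) x13188) x13164) x13168) x6610)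
    (Nat.add (Nat.add (Nat.add (Nat.add (Nat.add C x13178) x8804) x13232) x13160) x13180)
    (Nat.sub (Nat.add (Nat.add (Nat.add (Nat.add (Nat.add (Nat.add C x8806) x13234) x13162) x13186) x13178) x13182) x6620)
    (Nat.sub (Nat.sub (Nat.add (Nat.add (Nat.add (Nat.add (Nat.add C x8808) x13236) x13164) x13188) x13180) (Nat.mul x13182 (nat_lit 3))) x6622)
    (Nat.sub (Nat.add (Nat.add (Nat.add (Nat.add (Nat.add (Nat.add C x13186) x8812) x13240) x13168) x13180) x13188) x6626)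
    (Nat.sub (Nat.add (Nat.add (Nat.add (Nat.add (Nat.add (Nat.add C x8814) x13242) x13170) x13182) x13194) x13186) x6628)
    (Nat.sub (Nat.add (Nat.add (Nat.add (Nat.add C x13194) x8820) x13248) x13188) x6634)
    (Nat.add (Nat.add (Nat.add (Nat.add (Nat.add (Nat.add C (Nat.mul x13208 (nat_lit 3))) x8834) x13370) x13154) x13214) x13210)
    (Nat.sub (Nat.add (Nat.add (Nat.add (Nat.add (Nat.add (Nat.add C x13210) x8836) x13372) x13156) x13216) x13208) x6650)
    (Nat.add (Nat.add (Nat.add (Nat.add (Nat.add (Nat.add (Nat.add C x13214) x8840) x13376) x13160) x13232) x13208) x13216)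
    (Nat.sub (Nat.add (Nat.add (Nat.add (Nat.add (Nat.add (Nat.add (Nat.add (Nat.add (Nat.add C x13216) x8842) x13378) x13162) x13234) x13210) x13222) x13214) x13218) x6656)
    (Nat.sub (Nat.sub (Nat.add (Nat.add (Nat.add (Nat.add (Nat.add (Nat.add C x8844) x13380) x13164) x13236) x13224) x13216) x13218) x6658)
    (Nat.sub (Nat.sub (Nat.add (Nat.add (Nat.add (Nat.add (Nat.add (Nat.add C x8848) x13384) x13168) x13240) x13216) x13224) x13222) x6662)
    (Nat.sub (Nat.sub (Nat.add (Nat.add (Nat.add (Nat.add (Nat.add (Nat.add C x8850) x13386) x13170) x13242) x13218) x13222) x13224) x6664)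
    (Nat.add (Nat.add (Nat.add (Nat.add (Nat.add (Nat.add (Nat.add C (Nat.mul x13232 (nat_lit 2))) x8858) x13394) x13178) x13286) x13214) x13234)
    (Nat.sub (Nat.add (Nat.add (Nat.add (Nat.add (Nat.add (Nat.add (Nat.add (Nat.add (Nat.add C x13234) x8860) x13396) x13180) x13288) x13216) x13240) x13232) x13236) x6674)
    (Nat.sub (Nat.sub (Nat.add (Nat.add (Nat.add (Nat.add (Nat.add (Nat.add (Nat.add C x8862) x13398) x13182) x13290) x13218) x13242) x13234) (Nat.mul x13236 (nat_lit 2))) x6676)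
    (Nat.sub (Nat.add (Nat.add (Nat.add (Nat.add (Nat.add (Nat.add (Nat.add (Nat.add (Nat.add C x13240) x8866) x13402) x13186) x13294) x13222) x13258) x13234) x13242) x6680)
    (Nat.sub (Nat.add (Nat.add (Nat.add (Nat.add (Nat.add (Nat.add (Nat.add (Nat.add (Nat.add C x8868) x13404) x13188) x13296) x13224) x13260) x13236) x13248) x13240) x6682)
    (Nat.sub (Nat.add (Nat.add (Nat.add (Nat.add (Nat.add (Nat.add C x8874) x13410) x13194) x13302) x13266) x13242) x6688)
    (Nat.sub (Nat.add (Nat.add (Nat.add (Nat.add (Nat.add (Nat.add C x13258) x8884) x13420) x13312) x13240) x13260) x6698)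
    (Nat.sub (Nat.sub (Nat.add (Nat.add (Nat.add (Nat.add (Nat.add (Nat.add C x8886) x13422) x13314) x13242) x13266) x13258) x13260) x6700)
    (Nat.sub (Nat.add (Nat.add (Nat.add (Nat.add (Nat.add (Nat.add C x13266) x8892) x13428) x13320) x13248) x13260) x6706)
    (Nat.add (Nat.add (Nat.add (Nat.add (Nat.add C x13286) x8912) x13448) x13232) x13288)
    (Nat.sub (Nat.add (Nat.add (Nat.add (Nat.add (Nat.add (Nat.add C x8914) x13450) x13234) x13294) x13286) x13290) x6728)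
    (Nat.sub (Nat.sub (Nat.add (Nat.add (Nat.add (Nat.add (Nat.add C x8916) x13452) x13236) x13296) x13288) (Nat.mul x13290 (nat_lit 3))) x6730)
    (Nat.sub (Nat.sub (Nat.add (Nat.add (Nat.add (Nat.add (Nat.add (Nat.add C x8920) x13456) x13240) x13312) x13288) x13296) x13294) x6734)
    (Nat.sub (Nat.sub (Nat.add (Nat.add (Nat.add (Nat.add (Nat.add (Nat.add (Nat.add C x8922) x13458) x13242) x13314) x13290) x13302) x13294) (Nat.mul x13296 (nat_lit 2))) x6736)
    (Nat.sub (Nat.sub (Nat.add (Nat.add (Nat.add (Nat.add (Nat.add C x8928) x13464) x13248) x13320) x13296) (Nat.mul x13302 (nat_lit 3))) x6742)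
    (Nat.sub (Nat.add (Nat.add (Nat.add (Nat.add (Nat.add (Nat.add C x13312) x8938) x13474) x13258) x13294) x13314) x6752)
    (Nat.sub (Nat.sub (Nat.add (Nat.add (Nat.add (Nat.add (Nat.add (Nat.add C x8940) x13476) x13260) x13296) x13320) x13312) x13314) x6754)
    (Nat.sub (Nat.add (Nat.add (Nat.add (Nat.add (Nat.add (Nat.add C x8946) x13482) x13266) x13302) x13338) x13314) x6760)
    (Nat.sub (Nat.add (Nat.add (Nat.add (Nat.add C x13338) x8964) x13500) x13320) x6778)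
    (Nat.add (Nat.add (Nat.add (Nat.add (Nat.add (Nat.add C (Nat.mul x13370 (nat_lit 3))) x8996) x13856) x13208) x13376) x13372)
    (Nat.sub (Nat.add (Nat.add (Nat.add (Nat.add (Nat.add (Nat.add C x13372) x8998) x13858) x13210) x13378) x13370) x6812)
    (Nat.add (Nat.add (Nat.add (Nat.add (Nat.add (Nat.add (Nat.add C x13376) x9002) x13862) x13214) x13394) x13370) x13378)
    (Nat.sub (Nat.add (Nat.add (Nat.add (Nat.add (Nat.add (Nat.add (Nat.add (Nat.add (Nat.add C x13378) x9004) x13864) x13216) x13396) x13372) x13384) x13376) x13380) x6818)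
    (Nat.sub (Nat.sub (Nat.add (Nat.add (Nat.add (Nat.add (Nat.add (Nat.add C x9006) x13866) x13218) x13398) x13386) x13378) x13380) x6820)
    (Nat.sub (Nat.sub (Nat.add (Nat.add (Nat.add (Nat.add (Nat.add (Nat.add C x9010) x13870) x13222) x13402) x13378) x13386) x13384) x6824)
    (Nat.sub (Nat.sub (Nat.add (Nat.add (Nat.add (Nat.add (Nat.add (Nat.add C x9012) x13872) x13224) x13404) x13380) x13384) x13386) x6826)
    (Nat.add (Nat.add (Nat.add (Nat.add (Nat.add (Nat.add (Nat.add C x13394) x9020) x13880) x13232) x13448) x13376) x13396)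
    (Nat.sub (Nat.add (Nat.add (Nat.add (Nat.add (Nat.add (Nat.add (Nat.add (Nat.add C x9022) x13882) x13234) x13450) x13378) x13402) x13394) x13398) x6836)
    (Nat.sub (Nat.sub (Nat.add (Nat.add (Nat.add (Nat.add (Nat.add (Nat.add (Nat.add C x9024) x13884) x13236) x13452) x13380) x13404) x13396) (Nat.mul x13398 (nat_lit 3))) x6838)
    (Nat.sub (Nat.add (Nat.add (Nat.add (Nat.add (Nat.add (Nat.add (Nat.add (Nat.add C x9028) x13888) x13240) x13456) x13384) x13420) x13396) x13404) x6842)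
    (Nat.sub (Nat.sub (Nat.add (Nat.add (Nat.add (Nat.add (Nat.add (Nat.add (Nat.add (Nat.add (Nat.add C x9030) x13890) x13242) x13458) x13386) x13422) x13398) x13410) x13402) x13404) x6844)
    (Nat.sub (Nat.sub (Nat.add (Nat.add (Nat.add (Nat.add (Nat.add (Nat.add C x9036) x13896) x13248) x13464) x13428) x13404) x13410) x6850)
    (Nat.sub (Nat.sub (Nat.add (Nat.add (Nat.add (Nat.add (Nat.add (Nat.add C x9046) x13906) x13258) x13474) x13402) x13422) x13420) x6860)
    (Nat.sub (Nat.sub (Nat.add (Nat.add (Nat.add (Nat.add (Nat.add (Nat.add (Nat.add C x9048) x13908) x13260) x13476) x13404) x13428) x13420) (Nat.mul x13422 (nat_lit 3))) x6862)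
    (Nat.sub (Nat.sub (Nat.add (Nat.add (Nat.add (Nat.add (Nat.add (Nat.add C x9054) x13914) x13266) x13482) x13410) x13422) x13428) x6868)
    (Nat.add (Nat.add (Nat.add (Nat.add (Nat.add (Nat.add (Nat.add C (Nat.mul x13448 (nat_lit 2))) x9074) x13934) x13286) x13610) x13394) x13450)
    (Nat.sub (Nat.add (Nat.add (Nat.add (Nat.add (Nat.add (Nat.add (Nat.add (Nat.add (Nat.add C x13450) x9076) x13936) x13288) x13612) x13396) x13456) x13448) x13452) x6890)
    (Nat.sub (Nat.sub (Nat.add (Nat.add (Nat.add (Nat.add (Nat.add (Nat.add (Nat.add C x9078) x13938) x13290) x13614) x13398) x13458) x13450) (Nat.mul x13452 (nat_lit 2))) x6892)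
    (Nat.sub (Nat.add (Nat.add (Nat.add (Nat.add (Nat.add (Nat.add (Nat.add (Nat.add C x9082) x13942) x13294) x13618) x13402) x13474) x13450) x13458) x6896)
    (Nat.sub (Nat.sub (Nat.add (Nat.add (Nat.add (Nat.add (Nat.add (Nat.add (Nat.add (Nat.add (Nat.add C x9084) x13944) x13296) x13620) x13404) x13476) x13452) x13464) x13456) x13458) x6898)
    (Nat.sub (Nat.sub (Nat.add (Nat.add (Nat.add (Nat.add (Nat.add (Nat.add (Nat.add C x9090) x13950) x13302) x13626) x13410) x13482) x13458) (Nat.mul x13464 (nat_lit 2))) x6904)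
    (Nat.sub (Nat.add (Nat.add (Nat.add (Nat.add (Nat.add (Nat.add (Nat.add (Nat.add (Nat.add C x13474) x9100) x13960) x13312) x13636) x13420) x13528) x13456) x13476) x6914)
    (Nat.sub (Nat.sub (Nat.add (Nat.add (Nat.add (Nat.add (Nat.add (Nat.add (Nat.add (Nat.add (Nat.add C x9102) x13962) x13314) x13638) x13422) x13530) x13458) x13482) x13474) x13476) x6916)
    (Nat.sub (Nat.add (Nat.add (Nat.add (Nat.add (Nat.add (Nat.add (Nat.add (Nat.add (Nat.add C x9108) x13968) x13320) x13644) x13428) x13536) x13464) x13500) x13476) x6922)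
    (Nat.sub (Nat.add (Nat.add (Nat.add (Nat.add (Nat.add (Nat.add C x9126) x13986) x13338) x13662) x13554) x13482) x6940)
    (Nat.sub (Nat.add (Nat.add (Nat.add (Nat.add (Nat.add (Nat.add C x13528) x9154) x14014) x13690) x13474) x13530) x6968)
    (Nat.sub (Nat.sub (Nat.add (Nat.add (Nat.add (Nat.add (Nat.add (Nat.add C x9156) x14016) x13692) x13476) x13536) x13528) x13530) x6970)
    (Nat.sub (Nat.sub (Nat.add (Nat.add (Nat.add (Nat.add (Nat.add (Nat.add C x9162) x14022) x13698) x13482) x13554) x13530) x13536) x6976)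
    (Nat.sub (Nat.add (Nat.add (Nat.add (Nat.add (Nat.add (Nat.add C x13554) x9180) x14040) x13716) x13500) x13536) x6994)
    (Nat.add (Nat.add (Nat.add (Nat.add (Nat.add C x13610) x9236) x14096) x13448) x13612)
    (Nat.sub (Nat.add (Nat.add (Nat.add (Nat.add (Nat.add (Nat.add C x9238) x14098) x13450) x13618) x13610) x13614) x7052)
    (Nat.sub (Nat.sub (Nat.add (Nat.add (Nat.add (Nat.add (Nat.add C x9240) x14100) x13452) x13620) x13612) (Nat.mul x13614 (nat_lit 3))) x7054)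
    (Nat.sub (Nat.sub (Nat.add (Nat.add (Nat.add (Nat.add (Nat.add (Nat.add C x9244) x14104) x13456) x13636) x13612) x13620) x13618) x7058)
    (Nat.sub (Nat.sub (Nat.add (Nat.add (Nat.add (Nat.add (Nat.add (Nat.add (Nat.add C x9246) x14106) x13458) x13638) x13614) x13626) x13618) (Nat.mul x13620 (nat_lit 2))) x7060)
    (Nat.sub (Nat.sub (Nat.add (Nat.add (Nat.add (Nat.add (Nat.add C x9252) x14112) x13464) x13644) x13620) (Nat.mul x13626 (nat_lit 3))) x7066)
    (Nat.sub (Nat.sub (Nat.add (Nat.add (Nat.add (Nat.add (Nat.add (Nat.add C x9262) x14122) x13474) x13690) x13618) x13638) x13636) x7076)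
    (Nat.sub (Nat.sub (Nat.add (Nat.add (Nat.add (Nat.add (Nat.add (Nat.add (Nat.add C x9264) x14124) x13476) x13692) x13620) x13644) x13636) (Nat.mul x13638 (nat_lit 3))) x7078)
    (Nat.sub (Nat.sub (Nat.add (Nat.add (Nat.add (Nat.add (Nat.add (Nat.add (Nat.add C x9270) x14130) x13482) x13698) x13626) x13662) x13638) (Nat.mul x13644 (nat_lit 2))) x7084)
    (Nat.sub (Nat.sub (Nat.add (Nat.add (Nat.add (Nat.add (Nat.add C x9288) x14148) x13500) x13716) x13644) (Nat.mul x13662 (nat_lit 3))) x7102)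
    (Nat.sub (Nat.add (Nat.add (Nat.add (Nat.add (Nat.add (Nat.add C x13690) x9316) x14176) x13528) x13636) x13692) x7130)
    (Nat.sub (Nat.sub (Nat.add (Nat.add (Nat.add (Nat.add (Nat.add (Nat.add C x9318) x14178) x13530) x13638) x13698) x13690) x13692) x7132)
    (Nat.sub (Nat.sub (Nat.add (Nat.add (Nat.add (Nat.add (Nat.add (Nat.add C x9324) x14184) x13536) x13644) x13716) x13692) x13698) x7138)
    (Nat.sub (Nat.add (Nat.add (Nat.add (Nat.add (Nat.add (Nat.add C x9342) x14202) x13554) x13662) x13770) x13698) x7156)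
    (Nat.sub (Nat.add (Nat.add (Nat.add (Nat.add C x13770) x9396) x14256) x13716) x7210)
    (Nat.add (Nat.add (Nat.add (Nat.add (Nat.add (Nat.add C (Nat.mul x13856 (nat_lit 3))) x9482) x15314) x13370) x13862) x13858)
    (Nat.sub (Nat.add (Nat.add (Nat.add (Nat.add (Nat.add (Nat.add C x13858) x9484) x15316) x13372) x13864) x13856) x7298)
    (Nat.add (Nat.add (Nat.add (Nat.add (Nat.add (Nat.add (Nat.add C x13862) x9488) x15320) x13376) x13880) x13856) x13864)
    (Nat.sub (Nat.add (Nat.add (Nat.add (Nat.add (Nat.add (Nat.add (Nat.add (Nat.add (Nat.add C x13864) x9490) x15322) x13378) x13882) x13858) x13870) x13862) x13866) x7304)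
    (Nat.sub (Nat.sub (Nat.add (Nat.add (Nat.add (Nat.add (Nat.add (Nat.add C x9492) x15324) x13380) x13884) x13872) x13864) x13866) x7306)
    (Nat.sub (Nat.sub (Nat.add (Nat.add (Nat.add (Nat.add (Nat.add (Nat.add C x9496) x15328) x13384) x13888) x13864) x13872) x13870) x7310)
    (Nat.sub (Nat.sub (Nat.add (Nat.add (Nat.add (Nat.add (Nat.add (Nat.add C x9498) x15330) x13386) x13890) x13866) x13870) x13872) x7312)
    (Nat.add (Nat.add (Nat.add (Nat.add (Nat.add (Nat.add (Nat.add C x13880) x9506) x15338) x13394) x13934) x13862) x13882)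
    (Nat.sub (Nat.add (Nat.add (Nat.add (Nat.add (Nat.add (Nat.add (Nat.add (Nat.add C x9508) x15340) x13396) x13936) x13864) x13888) x13880) x13884) x7322)
    (Nat.sub (Nat.sub (Nat.add (Nat.add (Nat.add (Nat.add (Nat.add (Nat.add (Nat.add C x9510) x15342) x13398) x13938) x13866) x13890) x13882) (Nat.mul x13884 (nat_lit 3))) x7324)
    (Nat.sub (Nat.add (Nat.add (Nat.add (Nat.add (Nat.add (Nat.add (Nat.add (Nat.add C x9514) x15346) x13402) x13942) x13870) x13906) x13882) x13890) x7328)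
    (Nat.sub (Nat.sub (Nat.add (Nat.add (Nat.add (Nat.add (Nat.add (Nat.add (Nat.add (Nat.add (Nat.add C x9516) x15348) x13404) x13944) x13872) x13908) x13884) x13896) x13888) x13890) x7330)
    (Nat.sub (Nat.sub (Nat.add (Nat.add (Nat.add (Nat.add (Nat.add (Nat.add C x9522) x15354) x13410) x13950) x13914) x13890) x13896) x7336)
    (Nat.sub (Nat.sub (Nat.add (Nat.add (Nat.add (Nat.add (Nat.add (Nat.add C x9532) x15364) x13420) x13960) x13888) x13908) x13906) x7346)
    (Nat.sub (Nat.sub (Nat.add (Nat.add (Nat.add (Nat.add (Nat.add (Nat.add (Nat.add C x9534) x15366) x13422) x13962) x13890) x13914) x13906) (Nat.mul x13908 (nat_lit 3))) x7348)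
    (Nat.sub (Nat.sub (Nat.add (Nat.add (Nat.add (Nat.add (Nat.add (Nat.add C x9540) x15372) x13428) x13968) x13896) x13908) x13914) x7354)
    (Nat.add (Nat.add (Nat.add (Nat.add (Nat.add (Nat.add (Nat.add C x13934) x9560) x15392) x13448) x14096) x13880) x13936)
    (Nat.sub (Nat.add (Nat.add (Nat.add (Nat.add (Nat.add (Nat.add (Nat.add (Nat.add C x9562) x15394) x13450) x14098) x13882) x13942) x13934) x13938) x7376)
    (Nat.sub (Nat.sub (Nat.add (Nat.add (Nat.add (Nat.add (Nat.add (Nat.add (Nat.add C x9564) x15396) x13452) x14100) x13884) x13944) x13936) (Nat.mul x13938 (nat_lit 3))) x7378)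
    (Nat.sub (Nat.sub (Nat.add (Nat.add (Nat.add (Nat.add (Nat.add (Nat.add (Nat.add (Nat.add C x9568) x15400) x13456) x14104) x13888) x13960) x13936) x13944) x13942) x7382)
    (Nat.sub (Nat.sub (Nat.add (Nat.add (Nat.add (Nat.add (Nat.add (Nat.add (Nat.add (Nat.add (Nat.add C x9570) x15402) x13458) x14106) x13890) x13962) x13938) x13950) x13942) (Nat.mul x13944 (nat_lit 2))) x7384)
    (Nat.sub (Nat.sub (Nat.add (Nat.add (Nat.add (Nat.add (Nat.add (Nat.add (Nat.add C x9576) x15408) x13464) x14112) x13896) x13968) x13944) (Nat.mul x13950 (nat_lit 3))) x7390)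
    (Nat.sub (Nat.add (Nat.add (Nat.add (Nat.add (Nat.add (Nat.add (Nat.add (Nat.add C x9586) x15418) x13474) x14122) x13906) x14014) x13942) x13962) x7400)
    (Nat.sub (Nat.sub (Nat.add (Nat.add (Nat.add (Nat.add (Nat.add (Nat.add (Nat.add (Nat.add (Nat.add C x9588) x15420) x13476) x14124) x13908) x14016) x13944) x13968) x13960) (Nat.mul x13962 (nat_lit 2))) x7402)
    (Nat.sub (Nat.sub (Nat.add (Nat.add (Nat.add (Nat.add (Nat.add (Nat.add (Nat.add (Nat.add (Nat.add C x9594) x15426) x13482) x14130) x13914) x14022) x13950) x13986) x13962) x13968) x7408)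
    (Nat.sub (Nat.sub (Nat.add (Nat.add (Nat.add (Nat.add (Nat.add (Nat.add C x9612) x15444) x13500) x14148) x14040) x13968) x13986) x7426)
    (Nat.sub (Nat.sub (Nat.add (Nat.add (Nat.add (Nat.add (Nat.add (Nat.add C x9640) x15472) x13528) x14176) x13960) x14016) x14014) x7454)
    (Nat.sub (Nat.sub (Nat.add (Nat.add (Nat.add (Nat.add (Nat.add (Nat.add (Nat.add C x9642) x15474) x13530) x14178) x13962) x14022) x14014) (Nat.mul x14016 (nat_lit 3))) x7456)
    (Nat.sub (Nat.sub (Nat.add (Nat.add (Nat.add (Nat.add (Nat.add (Nat.add (Nat.add C x9648) x15480) x13536) x14184) x13968) x14040) x14016) (Nat.mul x14022 (nat_lit 3))) x7462)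
    (Nat.sub (Nat.sub (Nat.add (Nat.add (Nat.add (Nat.add (Nat.add (Nat.add C x9666) x15498) x13554) x14202) x13986) x14022) x14040) x7480)
    (Nat.add (Nat.add (Nat.add (Nat.add (Nat.add (Nat.add (Nat.add C (Nat.mul x14096 (nat_lit 2))) x9722) x15554) x13610) x14582) x13934) x14098)
    (Nat.sub (Nat.add (Nat.add (Nat.add (Nat.add (Nat.add (Nat.add (Nat.add (Nat.add (Nat.add C x14098) x9724) x15556) x13612) x14584) x13936) x14104) x14096) x14100) x7538)
    (Nat.sub (Nat.sub (Nat.add (Nat.add (Nat.add (Nat.add (Nat.add (Nat.add (Nat.add C x9726) x15558) x13614) x14586) x13938) x14106) x14098) (Nat.mul x14100 (nat_lit 2))) x7540)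
    (Nat.sub (Nat.add (Nat.add (Nat.add (Nat.add (Nat.add (Nat.add (Nat.add (Nat.add C x9730) x15562) x13618) x14590) x13942) x14122) x14098) x14106) x7544)
    (Nat.sub (Nat.sub (Nat.add (Nat.add (Nat.add (Nat.add (Nat.add (Nat.add (Nat.add (Nat.add (Nat.add C x9732) x15564) x13620) x14592) x13944) x14124) x14100) x14112) x14104) x14106) x7546)
    (Nat.sub (Nat.sub (Nat.add (Nat.add (Nat.add (Nat.add (Nat.add (Nat.add (Nat.add C x9738) x15570) x13626) x14598) x13950) x14130) x14106) (Nat.mul x14112 (nat_lit 2))) x7552)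
    (Nat.sub (Nat.add (Nat.add (Nat.add (Nat.add (Nat.add (Nat.add (Nat.add (Nat.add C x9748) x15580) x13636) x14608) x13960) x14176) x14104) x14124) x7562)
    (Nat.sub (Nat.sub (Nat.add (Nat.add (Nat.add (Nat.add (Nat.add (Nat.add (Nat.add (Nat.add (Nat.add C x9750) x15582) x13638) x14610) x13962) x14178) x14106) x14130) x14122) (Nat.mul x14124 (nat_lit 2))) x7564)
    (Nat.sub (Nat.sub (Nat.add (Nat.add (Nat.add (Nat.add (Nat.add (Nat.add (Nat.add (Nat.add (Nat.add C x9756) x15588) x13644) x14616) x13968) x14184) x14112) x14148) x14124) x14130) x7570)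
    (Nat.sub (Nat.sub (Nat.add (Nat.add (Nat.add (Nat.add (Nat.add (Nat.add (Nat.add C x9774) x15606) x13662) x14634) x13986) x14202) x14130) (Nat.mul x14148 (nat_lit 2))) x7588)
    (Nat.sub (Nat.add (Nat.add (Nat.add (Nat.add (Nat.add (Nat.add (Nat.add (Nat.add (Nat.add C x14176) x9802) x15634) x13690) x14662) x14014) x14338) x14122) x14178) x7616)
    (Nat.sub (Nat.sub (Nat.add (Nat.add (Nat.add (Nat.add (Nat.add (Nat.add (Nat.add (Nat.add (Nat.add C x9804) x15636) x13692) x14664) x14016) x14340) x14124) x14184) x14176) x14178) x7618)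
    (Nat.sub (Nat.sub (Nat.add (Nat.add (Nat.add (Nat.add (Nat.add (Nat.add (Nat.add (Nat.add (Nat.add C x9810) x15642) x13698) x14670) x14022) x14346) x14130) x14202) x14178) x14184) x7624)
    (Nat.sub (Nat.add (Nat.add (Nat.add (Nat.add (Nat.add (Nat.add (Nat.add (Nat.add (Nat.add C x9828) x15660) x13716) x14688) x14040) x14364) x14148) x14256) x14184) x7642)
    (Nat.sub (Nat.add (Nat.add (Nat.add (Nat.add (Nat.add (Nat.add C x9882) x15714) x13770) x14742) x14418) x14202) x7696)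
    (Nat.sub (Nat.add (Nat.add (Nat.add (Nat.add (Nat.add (Nat.add C x14338) x9964) x15796) x14824) x14176) x14340) x7778)
    (Nat.sub (Nat.sub (Nat.add (Nat.add (Nat.add (Nat.add (Nat.add (Nat.add C x9966) x15798) x14826) x14178) x14346) x14338) x14340) x7780)
    (Nat.sub (Nat.sub (Nat.add (Nat.add (Nat.add (Nat.add (Nat.add (Nat.add C x9972) x15804) x14832) x14184) x14364) x14340) x14346) x7786)
    (Nat.sub (Nat.sub (Nat.add (Nat.add (Nat.add (Nat.add (Nat.add (Nat.add C x9990) x15822) x14850) x14202) x14418) x14346) x14364) x7804)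
    (Nat.sub (Nat.add (Nat.add (Nat.add (Nat.add (Nat.add (Nat.add C x14418) x10044) x15876) x14904) x14256) x14364) x7858)
    (Nat.add (Nat.add (Nat.add (Nat.add (Nat.add C x14582) x10208) x16040) x14096) x14584)
    (Nat.sub (Nat.add (Nat.add (Nat.add (Nat.add (Nat.add (Nat.add C x10210) x16042) x14098) x14590) x14582) x14586) x8024)
    (Nat.sub (Nat.sub (Nat.add (Nat.add (Nat.add (Nat.add (Nat.add C x10212) x16044) x14100) x14592) x14584) (Nat.mul x14586 (nat_lit 3))) x8026)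
    (Nat.sub (Nat.sub (Nat.add (Nat.add (Nat.add (Nat.add (Nat.add (Nat.add C x10216) x16048) x14104) x14608) x14584) x14592) x14590) x8030)
    (Nat.sub (Nat.sub (Nat.add (Nat.add (Nat.add (Nat.add (Nat.add (Nat.add (Nat.add C x10218) x16050) x14106) x14610) x14586) x14598) x14590) (Nat.mul x14592 (nat_lit 2))) x8032)
    (Nat.sub (Nat.sub (Nat.add (Nat.add (Nat.add (Nat.add (Nat.add C x10224) x16056) x14112) x14616) x14592) (Nat.mul x14598 (nat_lit 3))) x8038)
    (Nat.sub (Nat.sub (Nat.add (Nat.add (Nat.add (Nat.add (Nat.add (Nat.add C x10234) x16066) x14122) x14662) x14590) x14610) x14608) x8048)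
    (Nat.sub (Nat.sub (Nat.add (Nat.add (Nat.add (Nat.add (Nat.add (Nat.add (Nat.add C x10236) x16068) x14124) x14664) x14592) x14616) x14608) (Nat.mul x14610 (nat_lit 3))) x8050)
    (Nat.sub (Nat.sub (Nat.add (Nat.add (Nat.add (Nat.add (Nat.add (Nat.add (Nat.add C x10242) x16074) x14130) x14670) x14598) x14634) x14610) (Nat.mul x14616 (nat_lit 2))) x8056)
    (Nat.sub (Nat.sub (Nat.add (Nat.add (Nat.add (Nat.add (Nat.add C x10260) x16092) x14148) x14688) x14616) (Nat.mul x14634 (nat_lit 3))) x8074)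
    (Nat.sub (Nat.sub (Nat.add (Nat.add (Nat.add (Nat.add (Nat.add (Nat.add C x10288) x16120) x14176) x14824) x14608) x14664) x14662) x8102)
    (Nat.sub (Nat.sub (Nat.add (Nat.add (Nat.add (Nat.add (Nat.add (Nat.add (Nat.add C x10290) x16122) x14178) x14826) x14610) x14670) x14662) (Nat.mul x14664 (nat_lit 3))) x8104)
    (Nat.sub (Nat.sub (Nat.add (Nat.add (Nat.add (Nat.add (Nat.add (Nat.add (Nat.add C x10296) x16128) x14184) x14832) x14616) x14688) x14664) (Nat.mul x14670 (nat_lit 3))) x8110)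
    (Nat.sub (Nat.sub (Nat.add (Nat.add (Nat.add (Nat.add (Nat.add (Nat.add (Nat.add C x10314) x16146) x14202) x14850) x14634) x14742) x14670) (Nat.mul x14688 (nat_lit 2))) x8128)
    (Nat.sub (Nat.sub (Nat.add (Nat.add (Nat.add (Nat.add (Nat.add C x10368) x16200) x14256) x14904) x14688) (Nat.mul x14742 (nat_lit 3))) x8182)
    (Nat.sub (Nat.add (Nat.add (Nat.add (Nat.add (Nat.add (Nat.add C x14824) x10450) x16282) x14338) x14662) x14826) x8264)
    (Nat.sub (Nat.sub (Nat.add (Nat.add (Nat.add (Nat.add (Nat.add (Nat.add C x10452) x16284) x14340) x14664) x14832) x14824) x14826) x8266)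
    (Nat.sub (Nat.sub (Nat.add (Nat.add (Nat.add (Nat.add (Nat.add (Nat.add C x10458) x16290) x14346) x14670) x14850) x14826) x14832) x8272)
    (Nat.sub (Nat.sub (Nat.add (Nat.add (Nat.add (Nat.add (Nat.add (Nat.add C x10476) x16308) x14364) x14688) x14904) x14832) x14850) x8290)
    (Nat.sub (Nat.add (Nat.add (Nat.add (Nat.add (Nat.add (Nat.add C x10530) x16362) x14418) x14742) x15066) x14850) x8344)
    (Nat.sub (Nat.add (Nat.add (Nat.add (Nat.add C x15066) x10692) x16524) x14904) x8506)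
    (Nat.add (Nat.add (Nat.add (Nat.add (Nat.add C (Nat.mul x15314 (nat_lit 5))) x10940) x13856) x15320) x15316)
    (Nat.sub (Nat.add (Nat.add (Nat.add (Nat.add (Nat.add C (Nat.mul x15316 (nat_lit 3))) x10942) x13858) x15322) x15314) x8756)
    (Nat.add (Nat.add (Nat.add (Nat.add (Nat.add (Nat.add C (Nat.mul x15320 (nat_lit 3))) x10946) x13862) x15338) x15314) x15322)
    (Nat.sub (Nat.add (Nat.add (Nat.add (Nat.add (Nat.add (Nat.add (Nat.add (Nat.add C (Nat.mul x15322 (nat_lit 3))) x10948) x13864) x15340) x15316) x15328) x15320) x15324) x8762)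
    (Nat.sub (Nat.add (Nat.add (Nat.add (Nat.add (Nat.add (Nat.add C x15324) x10950) x13866) x15342) x15330) x15322) x8764)
    (Nat.sub (Nat.add (Nat.add (Nat.add (Nat.add (Nat.add (Nat.add C x15328) x10954) x13870) x15346) x15322) x15330) x8768)
    (Nat.sub (Nat.add (Nat.add (Nat.add (Nat.add (Nat.add (Nat.add C x15330) x10956) x13872) x15348) x15324) x15328) x8770)
    (Nat.add (Nat.add (Nat.add (Nat.add (Nat.add (Nat.add C (Nat.mul x15338 (nat_lit 3))) x10964) x13880) x15392) x15320) x15340)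
    (Nat.sub (Nat.add (Nat.add (Nat.add (Nat.add (Nat.add (Nat.add (Nat.add (Nat.add C (Nat.mul x15340 (nat_lit 2))) x10966) x13882) x15394) x15322) x15346) x15338) x15342) x8780)
    (Nat.sub (Nat.sub (Nat.add (Nat.add (Nat.add (Nat.add (Nat.add (Nat.add C x10968) x13884) x15396) x15324) x15348) x15340) x15342) x8782)
    (Nat.sub (Nat.add (Nat.add (Nat.add (Nat.add (Nat.add (Nat.add (Nat.add (Nat.add C (Nat.mul x15346 (nat_lit 2))) x10972) x13888) x15400) x15328) x15364) x15340) x15348) x8786)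
    (Nat.sub (Nat.add (Nat.add (Nat.add (Nat.add (Nat.add (Nat.add (Nat.add (Nat.add (Nat.add C x15348) x10974) x13890) x15402) x15330) x15366) x15342) x15354) x15346) x8788)
    (Nat.sub (Nat.add (Nat.add (Nat.add (Nat.add (Nat.add (Nat.add C x15354) x10980) x13896) x15408) x15372) x15348) x8794)
    (Nat.sub (Nat.add (Nat.add (Nat.add (Nat.add (Nat.add (Nat.add C x15364) x10990) x13906) x15418) x15346) x15366) x8804)
    (Nat.sub (Nat.sub (Nat.add (Nat.add (Nat.add (Nat.add (Nat.add (Nat.add C x10992) x13908) x15420) x15348) x15372) x15364) x15366) x8806)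
    (Nat.sub (Nat.add (Nat.add (Nat.add (Nat.add (Nat.add (Nat.add C x15372) x10998) x13914) x15426) x15354) x15366) x8812)
    (Nat.add (Nat.add (Nat.add (Nat.add (Nat.add (Nat.add C (Nat.mul x15392 (nat_lit 3))) x11018) x13934) x15554) x15338) x15394)
    (Nat.sub (Nat.add (Nat.add (Nat.add (Nat.add (Nat.add (Nat.add (Nat.add (Nat.add C (Nat.mul x15394 (nat_lit 2))) x11020) x13936) x15556) x15340) x15400) x15392) x15396) x8834)
    (Nat.sub (Nat.sub (Nat.add (Nat.add (Nat.add (Nat.add (Nat.add (Nat.add C x11022) x13938) x15558) x15342) x15402) x15394) x15396) x8836)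
    (Nat.sub (Nat.add (Nat.add (Nat.add (Nat.add (Nat.add (Nat.add (Nat.add (Nat.add C x15400) x11026) x13942) x15562) x15346) x15418) x15394) x15402) x8840)
    (Nat.sub (Nat.add (Nat.add (Nat.add (Nat.add (Nat.add (Nat.add (Nat.add (Nat.add C x11028) x13944) x15564) x15348) x15420) x15396) x15408) x15400) x8842)
    (Nat.sub (Nat.sub (Nat.add (Nat.add (Nat.add (Nat.add (Nat.add (Nat.add C x11034) x13950) x15570) x15354) x15426) x15402) x15408) x8848)
    (Nat.sub (Nat.add (Nat.add (Nat.add (Nat.add (Nat.add (Nat.add (Nat.add (Nat.add C (Nat.mul x15418 (nat_lit 2))) x11044) x13960) x15580) x15364) x15472) x15400) x15420) x8858)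
    (Nat.sub (Nat.add (Nat.add (Nat.add (Nat.add (Nat.add (Nat.add (Nat.add (Nat.add C x11046) x13962) x15582) x15366) x15474) x15402) x15426) x15418) x8860)
    (Nat.sub (Nat.add (Nat.add (Nat.add (Nat.add (Nat.add (Nat.add (Nat.add (Nat.add (Nat.add C x15426) x11052) x13968) x15588) x15372) x15480) x15408) x15444) x15420) x8866)
    (Nat.sub (Nat.add (Nat.add (Nat.add (Nat.add (Nat.add (Nat.add C x15444) x11070) x13986) x15606) x15498) x15426) x8884)
    (Nat.sub (Nat.add (Nat.add (Nat.add (Nat.add (Nat.add (Nat.add C x15472) x11098) x14014) x15634) x15418) x15474) x8912)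
    (Nat.sub (Nat.sub (Nat.add (Nat.add (Nat.add (Nat.add (Nat.add (Nat.add C x11100) x14016) x15636) x15420) x15480) x15472) x15474) x8914)
    (Nat.sub (Nat.sub (Nat.add (Nat.add (Nat.add (Nat.add (Nat.add (Nat.add C x11106) x14022) x15642) x15426) x15498) x15474) x15480) x8920)
    (Nat.sub (Nat.add (Nat.add (Nat.add (Nat.add (Nat.add (Nat.add C x15498) x11124) x14040) x15660) x15444) x15480) x8938)
    (Nat.add (Nat.add (Nat.add (Nat.add (Nat.add (Nat.add C (Nat.mul x15554 (nat_lit 3))) x11180) x14096) x16040) x15392) x15556)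
    (Nat.sub (Nat.add (Nat.add (Nat.add (Nat.add (Nat.add (Nat.add (Nat.add (Nat.add C (Nat.mul x15556 (nat_lit 2))) x11182) x14098) x16042) x15394) x15562) x15554) x15558) x8996)
    (Nat.sub (Nat.sub (Nat.add (Nat.add (Nat.add (Nat.add (Nat.add (Nat.add C x11184) x14100) x16044) x15396) x15564) x15556) x15558) x8998)
    (Nat.sub (Nat.add (Nat.add (Nat.add (Nat.add (Nat.add (Nat.add (Nat.add (Nat.add C x15562) x11188) x14104) x16048) x15400) x15580) x15556) x15564) x9002)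
    (Nat.sub (Nat.add (Nat.add (Nat.add (Nat.add (Nat.add (Nat.add (Nat.add (Nat.add C x11190) x14106) x16050) x15402) x15582) x15558) x15570) x15562) x9004)
    (Nat.sub (Nat.sub (Nat.add (Nat.add (Nat.add (Nat.add (Nat.add (Nat.add C x11196) x14112) x16056) x15408) x15588) x15564) x15570) x9010)
    (Nat.sub (Nat.add (Nat.add (Nat.add (Nat.add (Nat.add (Nat.add (Nat.add (Nat.add C x15580) x11206) x14122) x16066) x15418) x15634) x15562) x15582) x9020)
    (Nat.sub (Nat.sub (Nat.add (Nat.add (Nat.add (Nat.add (Nat.add (Nat.add (Nat.add (Nat.add C x11208) x14124) x16068) x15420) x15636) x15564) x15588) x15580) x15582) x9022)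
    (Nat.sub (Nat.add (Nat.add (Nat.add (Nat.add (Nat.add (Nat.add (Nat.add (Nat.add C x11214) x14130) x16074) x15426) x15642) x15570) x15606) x15582) x9028)
    (Nat.sub (Nat.sub (Nat.add (Nat.add (Nat.add (Nat.add (Nat.add (Nat.add C x11232) x14148) x16092) x15444) x15660) x15588) x15606) x9046)
    (Nat.sub (Nat.add (Nat.add (Nat.add (Nat.add (Nat.add (Nat.add (Nat.add (Nat.add C (Nat.mul x15634 (nat_lit 2))) x11260) x14176) x16120) x15472) x15796) x15580) x15636) x9074)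
    (Nat.sub (Nat.add (Nat.add (Nat.add (Nat.add (Nat.add (Nat.add (Nat.add (Nat.add C x11262) x14178) x16122) x15474) x15798) x15582) x15642) x15634) x9076)
    (Nat.sub (Nat.add (Nat.add (Nat.add (Nat.add (Nat.add (Nat.add (Nat.add (Nat.add C x11268) x14184) x16128) x15480) x15804) x15588) x15660) x15636) x9082)
    (Nat.sub (Nat.add (Nat.add (Nat.add (Nat.add (Nat.add (Nat.add (Nat.add (Nat.add (Nat.add C x15660) x11286) x14202) x16146) x15498) x15822) x15606) x15714) x15642) x9100)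
    (Nat.sub (Nat.add (Nat.add (Nat.add (Nat.add (Nat.add (Nat.add C x15714) x11340) x14256) x16200) x15876) x15660) x9154)
    (Nat.sub (Nat.add (Nat.add (Nat.add (Nat.add (Nat.add (Nat.add C x15796) x11422) x14338) x16282) x15634) x15798) x9236)
    (Nat.sub (Nat.sub (Nat.add (Nat.add (Nat.add (Nat.add (Nat.add (Nat.add C x11424) x14340) x16284) x15636) x15804) x15796) x15798) x9238)
    (Nat.sub (Nat.sub (Nat.add (Nat.add (Nat.add (Nat.add (Nat.add (Nat.add C x11430) x14346) x16290) x15642) x15822) x15798) x15804) x9244)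
    (Nat.sub (Nat.sub (Nat.add (Nat.add (Nat.add (Nat.add (Nat.add (Nat.add C x11448) x14364) x16308) x15660) x15876) x15804) x15822) x9262)
    (Nat.sub (Nat.add (Nat.add (Nat.add (Nat.add (Nat.add (Nat.add C x15876) x11502) x14418) x16362) x15714) x15822) x9316)
    (Nat.add (Nat.add (Nat.add (Nat.add (Nat.add (Nat.add C (Nat.mul x16040 (nat_lit 4))) x11666) x14582) x17498) x15554) x16042)
    (Nat.sub (Nat.add (Nat.add (Nat.add (Nat.add (Nat.add (Nat.add (Nat.add (Nat.add C (Nat.mul x16042 (nat_lit 3))) x11668) x14584) x17500) x15556) x16048) x16040) x16044) x9482)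
    (Nat.sub (Nat.add (Nat.add (Nat.add (Nat.add (Nat.add (Nat.add C x11670) x14586) x17502) x15558) x16050) x16042) x9484)
    (Nat.sub (Nat.add (Nat.add (Nat.add (Nat.add (Nat.add (Nat.add (Nat.add (Nat.add C (Nat.mul x16048 (nat_lit 2))) x11674) x14590) x17506) x15562) x16066) x16042) x16050) x9488)
    (Nat.sub (Nat.add (Nat.add (Nat.add (Nat.add (Nat.add (Nat.add (Nat.add (Nat.add (Nat.add C x16050) x11676) x14592) x17508) x15564) x16068) x16044) x16056) x16048) x9490)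
    (Nat.sub (Nat.add (Nat.add (Nat.add (Nat.add (Nat.add (Nat.add C x11682) x14598) x17514) x15570) x16074) x16050) x9496)
    (Nat.sub (Nat.add (Nat.add (Nat.add (Nat.add (Nat.add (Nat.add (Nat.add (Nat.add C (Nat.mul x16066 (nat_lit 2))) x11692) x14608) x17524) x15580) x16120) x16048) x16068) x9506)
    (Nat.sub (Nat.add (Nat.add (Nat.add (Nat.add (Nat.add (Nat.add (Nat.add (Nat.add C x11694) x14610) x17526) x15582) x16122) x16050) x16074) x16066) x9508)
    (Nat.sub (Nat.add (Nat.add (Nat.add (Nat.add (Nat.add (Nat.add (Nat.add (Nat.add (Nat.add C x16074) x11700) x14616) x17532) x15588) x16128) x16056) x16092) x16068) x9514)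
    (Nat.sub (Nat.add (Nat.add (Nat.add (Nat.add (Nat.add (Nat.add C x11718) x14634) x17550) x15606) x16146) x16074) x9532)
    (Nat.sub (Nat.add (Nat.add (Nat.add (Nat.add (Nat.add (Nat.add (Nat.add (Nat.add C (Nat.mul x16120 (nat_lit 2))) x11746) x14662) x17578) x15634) x16282) x16066) x16122) x9560)
    (Nat.sub (Nat.add (Nat.add (Nat.add (Nat.add (Nat.add (Nat.add (Nat.add (Nat.add C x11748) x14664) x17580) x15636) x16284) x16068) x16128) x16120) x9562)
    (Nat.sub (Nat.add (Nat.add (Nat.add (Nat.add (Nat.add (Nat.add (Nat.add (Nat.add C x11754) x14670) x17586) x15642) x16290) x16074) x16146) x16122) x9568)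
    (Nat.sub (Nat.add (Nat.add (Nat.add (Nat.add (Nat.add (Nat.add (Nat.add (Nat.add (Nat.add C x16146) x11772) x14688) x17604) x15660) x16308) x16092) x16200) x16128) x9586)
    (Nat.sub (Nat.add (Nat.add (Nat.add (Nat.add (Nat.add (Nat.add C x11826) x14742) x17658) x15714) x16362) x16146) x9640)
    (Nat.sub (Nat.add (Nat.add (Nat.add (Nat.add (Nat.add (Nat.add (Nat.add (Nat.add C (Nat.mul x16282 (nat_lit 3))) x11908) x14824) x17740) x15796) x16768) x16120) x16284) x9722)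
    (Nat.sub (Nat.add (Nat.add (Nat.add (Nat.add (Nat.add (Nat.add (Nat.add (Nat.add (Nat.add C x16284) x11910) x14826) x17742) x15798) x16770) x16122) x16290) x16282) x9724)
    (Nat.sub (Nat.add (Nat.add (Nat.add (Nat.add (Nat.add (Nat.add (Nat.add (Nat.add (Nat.add C x16290) x11916) x14832) x17748) x15804) x16776) x16128) x16308) x16284) x9730)
    (Nat.sub (Nat.add (Nat.add (Nat.add (Nat.add (Nat.add (Nat.add (Nat.add (Nat.add (Nat.add C x16308) x11934) x14850) x17766) x15822) x16794) x16146) x16362) x16290) x9748)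
    (Nat.sub (Nat.add (Nat.add (Nat.add (Nat.add (Nat.add (Nat.add (Nat.add (Nat.add (Nat.add C (Nat.mul x16362 (nat_lit 2))) x11988) x14904) x17820) x15876) x16848) x16200) x16524) x16308) x9802)
    (Nat.sub (Nat.add (Nat.add (Nat.add (Nat.add (Nat.add (Nat.add C (Nat.mul x16524 (nat_lit 2))) x12150) x15066) x17982) x17010) x16362) x9964)
    (Nat.sub (Nat.add (Nat.add (Nat.add (Nat.add (Nat.add C (Nat.mul x16768 (nat_lit 3))) x12394) x18226) x16282) x16770) x10208)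
    (Nat.sub (Nat.add (Nat.add (Nat.add (Nat.add (Nat.add (Nat.add C x16770) x12396) x18228) x16284) x16776) x16768) x10210)
    (Nat.sub (Nat.add (Nat.add (Nat.add (Nat.add (Nat.add (Nat.add C x16776) x12402) x18234) x16290) x16794) x16770) x10216)
    (Nat.sub (Nat.add (Nat.add (Nat.add (Nat.add (Nat.add (Nat.add C x16794) x12420) x18252) x16308) x16848) x16776) x10234)
    (Nat.sub (Nat.add (Nat.add (Nat.add (Nat.add (Nat.add (Nat.add C x16848) x12474) x18306) x16362) x17010) x16794) x10288)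
    (Nat.sub (Nat.add (Nat.add (Nat.add (Nat.add (Nat.add C (Nat.mul x17010 (nat_lit 3))) x12636) x18468) x16524) x16848) x10450)
    (Nat.add (Nat.add (Nat.add C (Nat.mul x17498 (nat_lit 5))) x16040) x17500)
    (Nat.sub (Nat.add (Nat.add (Nat.add (Nat.add (Nat.add C (Nat.mul x17500 (nat_lit 4))) x16042) x17506) x17498) x17502) x10940)
    (Nat.sub (Nat.add (Nat.add (Nat.add (Nat.add C x17502) x16044) x17508) x17500) x10942)
    (Nat.sub (Nat.add (Nat.add (Nat.add (Nat.add (Nat.add C (Nat.mul x17506 (nat_lit 3))) x16048) x17524) x17500) x17508) x10946)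
    (Nat.sub (Nat.add (Nat.add (Nat.add (Nat.add (Nat.add (Nat.add C (Nat.mul x17508 (nat_lit 2))) x16050) x17526) x17502) x17514) x17506) x10948)
    (Nat.sub (Nat.add (Nat.add (Nat.add (Nat.add C x17514) x16056) x17532) x17508) x10954)
    (Nat.sub (Nat.add (Nat.add (Nat.add (Nat.add (Nat.add C (Nat.mul x17524 (nat_lit 3))) x16066) x17578) x17506) x17526) x10964)
    (Nat.sub (Nat.add (Nat.add (Nat.add (Nat.add (Nat.add (Nat.add C x17526) x16068) x17580) x17508) x17532) x17524) x10966)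
    (Nat.sub (Nat.add (Nat.add (Nat.add (Nat.add (Nat.add (Nat.add C (Nat.mul x17532 (nat_lit 2))) x16074) x17586) x17514) x17550) x17526) x10972)
    (Nat.sub (Nat.add (Nat.add (Nat.add (Nat.add C x17550) x16092) x17604) x17532) x10990)
    (Nat.sub (Nat.add (Nat.add (Nat.add (Nat.add (Nat.add C (Nat.mul x17578 (nat_lit 3))) x16120) x17740) x17524) x17580) x11018)
    (Nat.sub (Nat.add (Nat.add (Nat.add (Nat.add (Nat.add (Nat.add C x17580) x16122) x17742) x17526) x17586) x17578) x11020)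
    (Nat.sub (Nat.add (Nat.add (Nat.add (Nat.add (Nat.add (Nat.add C x17586) x16128) x17748) x17532) x17604) x17580) x11026)
    (Nat.sub (Nat.add (Nat.add (Nat.add (Nat.add (Nat.add (Nat.add C (Nat.mul x17604 (nat_lit 2))) x16146) x17766) x17550) x17658) x17586) x11044)
    (Nat.sub (Nat.add (Nat.add (Nat.add (Nat.add C x17658) x16200) x17820) x17604) x11098)
    (Nat.sub (Nat.add (Nat.add (Nat.add (Nat.add (Nat.add C (Nat.mul x17740 (nat_lit 3))) x16282) x18226) x17578) x17742) x11180)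
    (Nat.sub (Nat.add (Nat.add (Nat.add (Nat.add (Nat.add (Nat.add C x17742) x16284) x18228) x17580) x17748) x17740) x11182)
    (Nat.sub (Nat.add (Nat.add (Nat.add (Nat.add (Nat.add (Nat.add C x17748) x16290) x18234) x17586) x17766) x17742) x11188)
    (Nat.sub (Nat.add (Nat.add (Nat.add (Nat.add (Nat.add (Nat.add C x17766) x16308) x18252) x17604) x17820) x17748) x11206)
    (Nat.sub (Nat.add (Nat.add (Nat.add (Nat.add (Nat.add (Nat.add C (Nat.mul x17820 (nat_lit 2))) x16362) x18306) x17658) x17982) x17766) x11260)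
    (Nat.sub (Nat.add (Nat.add (Nat.add (Nat.add C x17982) x16524) x18468) x17820) x11422)
    (Nat.sub (Nat.add (Nat.add (Nat.add (Nat.add C (Nat.mul x18226 (nat_lit 5))) x16768) x17740) x18228) x11666)
    (Nat.sub (Nat.add (Nat.add (Nat.add (Nat.add (Nat.add C (Nat.mul x18228 (nat_lit 3))) x16770) x17742) x18234) x18226) x11668)
    (Nat.sub (Nat.add (Nat.add (Nat.add (Nat.add (Nat.add C (Nat.mul x18234 (nat_lit 3))) x16776) x17748) x18252) x18228) x11674)
    (Nat.sub (Nat.add (Nat.add (Nat.add (Nat.add (Nat.add C (Nat.mul x18252 (nat_lit 3))) x16794) x17766) x18306) x18234) x11692)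
    (Nat.sub (Nat.add (Nat.add (Nat.add (Nat.add (Nat.add C (Nat.mul x18306 (nat_lit 3))) x16848) x17820) x18468) x18252) x11746)
    (Nat.sub (Nat.add (Nat.add (Nat.add (Nat.add (Nat.add C (Nat.mul x18468 (nat_lit 4))) x17010) x17982) x18954) x18306) x11908)
    (Nat.sub (Nat.add (Nat.add C (Nat.mul x18954 (nat_lit 5))) x18468) x12394)

theorem ap_eq (x : Nat → Nat) (k : FnLL specs) : apLL (fun t => x t.cd) specs k = A9_6.ap x k :=
  Eq.refl (A9_6.ap x k)

theorem step_eq0 (e : Nat → Nat) (C p r : Nat) (k : FnLL specs) (x : Nat → Nat) :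
    A9_6.ap x (step e C p r k) = apLL (interp e C p r x) specs k :=
  Eq.refl (A9_6.ap x (step e C p r k))

theorem spec_ok : specOK 8 true A9_6.mask specs = true := by decide +kernel

theorem step_eq (e : Nat → Nat) (C p r : Nat) (k : A9_6.KK) (x : Nat → Nat) :
    A9_6.ap x (step e C p r k) = A9_6.ap (row 8 true A9_6.mask e C p r x) k :=
  ((step_eq0 e C p r k x).trans (apLL_row 8 true A9_6.mask specs spec_ok e C p r x k)).trans
    (ap_eq (row 8 true A9_6.mask e C p r x) k)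

end Vale.Agent.P348.G9_6_1
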